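import Vale.Agent.Lib.P154.PChain.BF.L

set_option linter.all false

namespace Vale.Agent.Lib.P154.PChain.BF.S0

open Vale.Agent.Lib.P154.Chain

noncomputable def pc0 : PT := (PT.nd (nat_lit 6481410) (PT.nd (nat_lit 6293898) (PT.nd (nat_lit 6153498) (PT.nd (nat_lit 6106620) (PT.nd (nat_lit 6059820) (PT.nd (nat_lit 6059742) PT.nil (PT.lf (nat_lit 76) (nat_lit 6) (nat_lit 1) (nat_lit 3) (nat_lit 160) (nat_lit 129) (nat_lit 161))) (PT.nd (nat_lit 46722) (PT.lf (nat_lit 76) (nat_lit 6) (nat_lit 1) (nat_lit 1) (nat_lit 161) (nat_lit 129) (nat_lit 160)) (PT.lf (nat_lit 152) (nat_lit 6) (nat_lit 2) (nat_lit 3) (nat_lit 159) (nat_lit 130) (nat_lit 161)))) (PT.nd (nat_lit 78) (PT.lf (nat_lit 228) (nat_lit 3) (nat_lit 3) (nat_lit 1) (nat_lit 160) (nat_lit 130) (nat_lit 160)) (PT.nd (nat_lit 46722) (PT.lf (nat_lit 152) (nat_lit 6) (nat_lit 2) (nat_lit 1) (nat_lit 161) (nat_lit 130) (nat_lit 159))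 (PT.lf (nat_lit 304) (nat_lit 6) (nat_lit 4) (nat_lit 3) (nat_lit 159) (nat_lit 131) (nat_lit 160))))) (PT.nd (nat_lit 46878) (PT.nd (nat_lit 46722) (PT.lf (nat_lit 304) (nat_lit 6) (nat_lit 4) (nat_lit 1) (nat_lit 160) (nat_lit 131) (nat_lit 159)) (PT.nd (nat_lit 78) (PT.lf (nat_lit 380) (nat_lit 6) (nat_lit 5) (nat_lit 3) (nat_lit 158) (nat_lit 132) (nat_lit 160)) (PT.lf (nat_lit 456) (nat_lit 3) (nat_lit 6) (nat_lit 1) (nat_lit 159) (nat_lit 132) (nat_lit 159)))) (PT.nd (nat_lit 46722) (PT.lf (nat_lit 380) (nat_lit 6) (nat_lit 5) (nat_lit 1) (nat_lit 160) (nat_lit 132) (nat_lit 158)) (PT.nd (nat_lit 78) (PT.lf (nat_lit 532) (nat_lit 6) (nat_lit 7) (nat_lit 3) (nat_lit 158) (nat_lit 133) (nat_lit 159)) (PT.lf (nat_lit 532) (nat_lit 6) (nat_lit 7) (nat_lit 1) (nat_lit 159) (nat_lit 133) (nat_lit 158)))))) (PT.nd (nat_lit 93756) (PT.nd (nat_lit 46878) (PT.nd (nat_lit 78) (PT.lf (nat_lit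 608) (nat_lit 6) (nat_lit 8) (nat_lit 3) (nat_lit 157) (nat_lit 134) (nat_lit 159)) (PT.nd (nat_lit 78) (PT.lf (nat_lit 684) (nat_lit 3) (nat_lit 9) (nat_lit 1) (nat_lit 158) (nat_lit 134) (nat_lit 158)) (PT.lf (nat_lit 608) (nat_lit 6) (nat_lit 8) (nat_lit 1) (nat_lit 159) (nat_lit 134) (nat_lit 157)))) (PT.nd (nat_lit 78) (PT.lf (nat_lit 760) (nat_lit 6) (nat_lit 10) (nat_lit 3) (nat_lit 157) (nat_lit 135) (nat_lit 158)) (PT.nd (nat_lit 46722) (PT.lf (nat_lit 760) (nat_lit 6) (nat_lit 10) (nat_lit 1) (nat_lit 158) (nat_lit 135) (nat_lit 157)) (PT.lf (nat_lit 836) (nat_lit 6) (nat_lit 11) (nat_lit 3) (nat_lit 156) (nat_lit 136) (nat_lit 158))))) (PT.nd (nat_lit 46878) (PT.nd (nat_lit 78) (PT.lf (nat_lit 912) (nat_lit 3) (nat_lit 12) (nat_lit 1) (nat_lit 157) (nat_lit 136) (nat_lit 157)) (PT.nd (nat_lit 46722) (PT.lf (nat_lit 836) (nat_lit 6) (nat_lit 11) (nat_lit 1) (nat_lit 158) (nat_lit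 136) (nat_lit 156)) (PT.lf (nat_lit 988) (nat_lit 6) (nat_lit 13) (nat_lit 3) (nat_lit 156) (nat_lit 137) (nat_lit 157)))) (PT.nd (nat_lit 46722) (PT.lf (nat_lit 988) (nat_lit 6) (nat_lit 13) (nat_lit 1) (nat_lit 157) (nat_lit 137) (nat_lit 156)) (PT.nd (nat_lit 78) (PT.lf (nat_lit 1064) (nat_lit 6) (nat_lit 14) (nat_lit 3) (nat_lit 155) (nat_lit 138) (nat_lit 157)) (PT.lf (nat_lit 1140) (nat_lit 3) (nat_lit 15) (nat_lit 1) (nat_lit 156) (nat_lit 138) (nat_lit 156))))))) (PT.nd (nat_lit 234078) (PT.nd (nat_lit 140400) (PT.nd (nat_lit 93522) (PT.nd (nat_lit 46722) (PT.lf (nat_lit 1064) (nat_lit 6) (nat_lit 14) (nat_lit 1) (nat_lit 157) (nat_lit 138) (nat_lit 155)) (PT.nd (nat_lit 78) (PT.lf (nat_lit 1216) (nat_lit 6) (nat_lit 16) (nat_lit 3) (nat_lit 155) (nat_lit 139) (nat_lit 156)) (PT.lf (nat_lit 1216) (nat_lit 6) (nat_lit 16) (nat_lit 1) (nat_lit 156) (nat_lit 139) (nat_lit 155))))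 (PT.nd (nat_lit 78) (PT.lf (nat_lit 1292) (nat_lit 6) (nat_lit 17) (nat_lit 3) (nat_lit 154) (nat_lit 140) (nat_lit 156)) (PT.nd (nat_lit 78) (PT.lf (nat_lit 1368) (nat_lit 3) (nat_lit 18) (nat_lit 1) (nat_lit 155) (nat_lit 140) (nat_lit 155)) (PT.lf (nat_lit 1292) (nat_lit 6) (nat_lit 17) (nat_lit 1) (nat_lit 156) (nat_lit 140) (nat_lit 154))))) (PT.nd (nat_lit 46878) (PT.nd (nat_lit 78) (PT.lf (nat_lit 1444) (nat_lit 6) (nat_lit 19) (nat_lit 3) (nat_lit 154) (nat_lit 141) (nat_lit 155)) (PT.nd (nat_lit 46722) (PT.lf (nat_lit 1444) (nat_lit 6) (nat_lit 19) (nat_lit 1) (nat_lit 155) (nat_lit 141) (nat_lit 154)) (PT.lf (nat_lit 1520) (nat_lit 6) (nat_lit 20) (nat_lit 3) (nat_lit 153) (nat_lit 142) (nat_lit 155)))) (PT.nd (nat_lit 78) (PT.lf (nat_lit 1596) (nat_lit 3) (nat_lit 21) (nat_lit 1) (nat_lit 154) (nat_lit 142) (nat_lit 154)) (PT.nd (nat_lit 46644) (PT.lf (nat_lit 1520) (nat_lit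 6) (nat_lit 20) (nat_lit 1) (nat_lit 155) (nat_lit 142) (nat_lit 153)) (PT.lf (nat_lit 1672) (nat_lit 6) (nat_lit 22) (nat_lit 3) (nat_lit 152) (nat_lit 143) (nat_lit 155)))))) (PT.nd (nat_lit 93600) (PT.nd (nat_lit 46800) (PT.nd (nat_lit 78) (PT.lf (nat_lit 1748) (nat_lit 6) (nat_lit 23) (nat_lit 3) (nat_lit 153) (nat_lit 143) (nat_lit 154)) (PT.nd (nat_lit 78) (PT.lf (nat_lit 1748) (nat_lit 6) (nat_lit 23) (nat_lit 1) (nat_lit 154) (nat_lit 143) (nat_lit 153)) (PT.lf (nat_lit 1672) (nat_lit 6) (nat_lit 22) (nat_lit 1) (nat_lit 155) (nat_lit 143) (nat_lit 152)))) (PT.nd (nat_lit 78) (PT.lf (nat_lit 1824) (nat_lit 6) (nat_lit 24) (nat_lit 3) (nat_lit 152) (nat_lit 144) (nat_lit 154)) (PT.nd (nat_lit 78) (PT.lf (nat_lit 1900) (nat_lit 3) (nat_lit 25) (nat_lit 1) (nat_lit 153) (nat_lit 144) (nat_lit 153)) (PT.lf (nat_lit 1824) (nat_lit 6) (nat_lit 24) (nat_lit 1) (nat_lit 154) (nat_lit 144)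 (nat_lit 152))))) (PT.nd (nat_lit 234) (PT.nd (nat_lit 78) (PT.lf (nat_lit 1976) (nat_lit 6) (nat_lit 26) (nat_lit 3) (nat_lit 151) (nat_lit 145) (nat_lit 154)) (PT.nd (nat_lit 78) (PT.lf (nat_lit 2052) (nat_lit 6) (nat_lit 27) (nat_lit 3) (nat_lit 152) (nat_lit 145) (nat_lit 153)) (PT.lf (nat_lit 2052) (nat_lit 6) (nat_lit 27) (nat_lit 1) (nat_lit 153) (nat_lit 145) (nat_lit 152)))) (PT.nd (nat_lit 46644) (PT.nd (nat_lit 46566) (PT.lf (nat_lit 1976) (nat_lit 6) (nat_lit 26) (nat_lit 1) (nat_lit 154) (nat_lit 145) (nat_lit 151)) (PT.lf (nat_lit 2280) (nat_lit 6) (nat_lit 30) (nat_lit 3) (nat_lit 150) (nat_lit 146) (nat_lit 154))) (PT.nd (nat_lit 78) (PT.lf (nat_lit 2356) (nat_lit 6) (nat_lit 31) (nat_lit 3) (nat_lit 151) (nat_lit 146) (nat_lit 153)) (PT.lf (nat_lit 2432) (nat_lit 3) (nat_lit 32) (nat_lit 1) (nat_lit 152) (nat_lit 146) (nat_lit 152))))))))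
noncomputable def pc1 : PT := (PT.nd (nat_lit 187122) (PT.nd (nat_lit 93678) (PT.nd (nat_lit 46878) (PT.nd (nat_lit 46644) (PT.nd (nat_lit 78) (PT.lf (nat_lit 2356) (nat_lit 6) (nat_lit 31) (nat_lit 1) (nat_lit 153) (nat_lit 146) (nat_lit 151)) (PT.nd (nat_lit 46488) (PT.lf (nat_lit 2280) (nat_lit 6) (nat_lit 30) (nat_lit 1) (nat_lit 154) (nat_lit 146) (nat_lit 150)) (PT.lf (nat_lit 2204) (nat_lit 6) (nat_lit 29) (nat_lit 3) (nat_lit 149) (nat_lit 147) (nat_lit 154)))) (PT.nd (nat_lit 78) (PT.lf (nat_lit 2584) (nat_lit 6) (nat_lit 34) (nat_lit 3) (nat_lit 150) (nat_lit 147) (nat_lit 153)) (PT.nd (nat_lit 78) (PT.lf (nat_lit 2660) (nat_lit 6) (nat_lit 35) (nat_lit 3) (nat_lit 151) (nat_lit 147) (nat_lit 152)) (PT.lf (nat_lit 2660) (nat_lit 6) (nat_lit 35) (nat_lit 1) (nat_lit 152) (nat_lit 147) (nat_lit 151))))) (PT.nd (nat_lit 46566) (PT.nd (nat_lit 78) (PT.lf (nat_lit 2584) (nat_lit 6)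 (nat_lit 34) (nat_lit 1) (nat_lit 153) (nat_lit 147) (nat_lit 150)) (PT.nd (nat_lit 46410) (PT.lf (nat_lit 2204) (nat_lit 6) (nat_lit 29) (nat_lit 1) (nat_lit 154) (nat_lit 147) (nat_lit 149)) (PT.lf (nat_lit 2128) (nat_lit 3) (nat_lit 28) (nat_lit 3) (nat_lit 148) (nat_lit 148) (nat_lit 154)))) (PT.nd (nat_lit 78) (PT.lf (nat_lit 2508) (nat_lit 6) (nat_lit 33) (nat_lit 3) (nat_lit 149) (nat_lit 148) (nat_lit 153)) (PT.nd (nat_lit 78) (PT.lf (nat_lit 2812) (nat_lit 6) (nat_lit 37) (nat_lit 3) (nat_lit 150) (nat_lit 148) (nat_lit 152)) (PT.lf (nat_lit 2888) (nat_lit 3) (nat_lit 38) (nat_lit 1) (nat_lit 151) (nat_lit 148) (nat_lit 151)))))) (PT.nd (nat_lit 46722) (PT.nd (nat_lit 46488) (PT.nd (nat_lit 78) (PT.lf (nat_lit 2812) (nat_lit 6) (nat_lit 37) (nat_lit 1) (nat_lit 152) (nat_lit 148) (nat_lit 150)) (PT.nd (nat_lit 78) (PT.lf (nat_lit 2508) (nat_lit 6) (nat_lit 33) (nat_lit 1) (nat_lit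 153) (nat_lit 148) (nat_lit 149)) (PT.lf (nat_lit 2128) (nat_lit 3) (nat_lit 28) (nat_lit 0) (nat_lit 154) (nat_lit 148) (nat_lit 148)))) (PT.nd (nat_lit 78) (PT.lf (nat_lit 2204) (nat_lit 6) (nat_lit 29) (nat_lit 5) (nat_lit 147) (nat_lit 149) (nat_lit 154)) (PT.nd (nat_lit 78) (PT.lf (nat_lit 2508) (nat_lit 6) (nat_lit 33) (nat_lit 5) (nat_lit 148) (nat_lit 149) (nat_lit 153)) (PT.lf (nat_lit 2736) (nat_lit 3) (nat_lit 36) (nat_lit 3) (nat_lit 149) (nat_lit 149) (nat_lit 152))))) (PT.nd (nat_lit 234) (PT.nd (nat_lit 78) (PT.lf (nat_lit 2964) (nat_lit 6) (nat_lit 39) (nat_lit 3) (nat_lit 150) (nat_lit 149) (nat_lit 151)) (PT.nd (nat_lit 78) (PT.lf (nat_lit 2964) (nat_lit 6) (nat_lit 39) (nat_lit 1) (nat_lit 151) (nat_lit 149) (nat_lit 150)) (PT.lf (nat_lit 2736) (nat_lit 3) (nat_lit 36) (nat_lit 0) (nat_lit 152) (nat_lit 149) (nat_lit 149)))) (PT.nd (nat_lit 46332) (PT.nd (nat_lit 78)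 (PT.lf (nat_lit 2508) (nat_lit 6) (nat_lit 33) (nat_lit 0) (nat_lit 153) (nat_lit 149) (nat_lit 148)) (PT.lf (nat_lit 2204) (nat_lit 6) (nat_lit 29) (nat_lit 0) (nat_lit 154) (nat_lit 149) (nat_lit 147))) (PT.nd (nat_lit 78) (PT.lf (nat_lit 2280) (nat_lit 6) (nat_lit 30) (nat_lit 5) (nat_lit 146) (nat_lit 150) (nat_lit 154)) (PT.lf (nat_lit 2584) (nat_lit 6) (nat_lit 34) (nat_lit 5) (nat_lit 147) (nat_lit 150) (nat_lit 153))))))) (PT.nd (nat_lit 47034) (PT.nd (nat_lit 468) (PT.nd (nat_lit 234) (PT.nd (nat_lit 78) (PT.lf (nat_lit 2812) (nat_lit 6) (nat_lit 37) (nat_lit 5) (nat_lit 148) (nat_lit 150) (nat_lit 152)) (PT.nd (nat_lit 78) (PT.lf (nat_lit 2964) (nat_lit 6) (nat_lit 39) (nat_lit 5) (nat_lit 149) (nat_lit 150) (nat_lit 151)) (PT.lf (nat_lit 3040) (nat_lit 1) (nat_lit 40) (nat_lit 0) (nat_lit 150) (nat_lit 150) (nat_lit 150)))) (PT.nd (nat_lit 78) (PT.lf (nat_lit 2964) (nat_lit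 6) (nat_lit 39) (nat_lit 0) (nat_lit 151) (nat_lit 150) (nat_lit 149)) (PT.nd (nat_lit 78) (PT.lf (nat_lit 2812) (nat_lit 6) (nat_lit 37) (nat_lit 0) (nat_lit 152) (nat_lit 150) (nat_lit 148)) (PT.lf (nat_lit 2584) (nat_lit 6) (nat_lit 34) (nat_lit 0) (nat_lit 153) (nat_lit 150) (nat_lit 147))))) (PT.nd (nat_lit 46332) (PT.nd (nat_lit 46176) (PT.lf (nat_lit 2280) (nat_lit 6) (nat_lit 30) (nat_lit 0) (nat_lit 154) (nat_lit 150) (nat_lit 146)) (PT.nd (nat_lit 78) (PT.lf (nat_lit 1976) (nat_lit 6) (nat_lit 26) (nat_lit 5) (nat_lit 145) (nat_lit 151) (nat_lit 154)) (PT.lf (nat_lit 2356) (nat_lit 6) (nat_lit 31) (nat_lit 5) (nat_lit 146) (nat_lit 151) (nat_lit 153)))) (PT.nd (nat_lit 78) (PT.lf (nat_lit 2660) (nat_lit 6) (nat_lit 35) (nat_lit 5) (nat_lit 147) (nat_lit 151) (nat_lit 152)) (PT.nd (nat_lit 78) (PT.lf (nat_lit 2888) (nat_lit 3) (nat_lit 38) (nat_lit 4) (nat_lit 148) (nat_lit 151)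 (nat_lit 151)) (PT.lf (nat_lit 2964) (nat_lit 6) (nat_lit 39) (nat_lit 4) (nat_lit 149) (nat_lit 151) (nat_lit 150)))))) (PT.nd (nat_lit 46410) (PT.nd (nat_lit 234) (PT.nd (nat_lit 78) (PT.lf (nat_lit 2964) (nat_lit 6) (nat_lit 39) (nat_lit 2) (nat_lit 150) (nat_lit 151) (nat_lit 149)) (PT.nd (nat_lit 78) (PT.lf (nat_lit 2888) (nat_lit 3) (nat_lit 38) (nat_lit 0) (nat_lit 151) (nat_lit 151) (nat_lit 148)) (PT.lf (nat_lit 2660) (nat_lit 6) (nat_lit 35) (nat_lit 0) (nat_lit 152) (nat_lit 151) (nat_lit 147)))) (PT.nd (nat_lit 78) (PT.lf (nat_lit 2356) (nat_lit 6) (nat_lit 31) (nat_lit 0) (nat_lit 153) (nat_lit 151) (nat_lit 146)) (PT.nd (nat_lit 46020) (PT.lf (nat_lit 1976) (nat_lit 6) (nat_lit 26) (nat_lit 0) (nat_lit 154) (nat_lit 151) (nat_lit 145)) (PT.lf (nat_lit 1672) (nat_lit 6) (nat_lit 22) (nat_lit 5) (nat_lit 143) (nat_lit 152) (nat_lit 155))))) (PT.nd (nat_lit 234) (PT.nd (nat_lit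 78) (PT.lf (nat_lit 1824) (nat_lit 6) (nat_lit 24) (nat_lit 5) (nat_lit 144) (nat_lit 152) (nat_lit 154)) (PT.nd (nat_lit 78) (PT.lf (nat_lit 2052) (nat_lit 6) (nat_lit 27) (nat_lit 5) (nat_lit 145) (nat_lit 152) (nat_lit 153)) (PT.lf (nat_lit 2432) (nat_lit 3) (nat_lit 32) (nat_lit 4) (nat_lit 146) (nat_lit 152) (nat_lit 152)))) (PT.nd (nat_lit 156) (PT.nd (nat_lit 78) (PT.lf (nat_lit 2660) (nat_lit 6) (nat_lit 35) (nat_lit 4) (nat_lit 147) (nat_lit 152) (nat_lit 151)) (PT.lf (nat_lit 2812) (nat_lit 6) (nat_lit 37) (nat_lit 4) (nat_lit 148) (nat_lit 152) (nat_lit 150))) (PT.nd (nat_lit 78) (PT.lf (nat_lit 2736) (nat_lit 3) (nat_lit 36) (nat_lit 2) (nat_lit 149) (nat_lit 152) (nat_lit 149)) (PT.lf (nat_lit 2812) (nat_lit 6) (nat_lit 37) (nat_lit 2) (nat_lit 150) (nat_lit 152) (nat_lit 148))))))))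
noncomputable def pc2 : PT := (PT.nd (nat_lit 93366) (PT.nd (nat_lit 46722) (PT.nd (nat_lit 46254) (PT.nd (nat_lit 234) (PT.nd (nat_lit 78) (PT.lf (nat_lit 2660) (nat_lit 6) (nat_lit 35) (nat_lit 2) (nat_lit 151) (nat_lit 152) (nat_lit 147)) (PT.nd (nat_lit 78) (PT.lf (nat_lit 2432) (nat_lit 3) (nat_lit 32) (nat_lit 0) (nat_lit 152) (nat_lit 152) (nat_lit 146)) (PT.lf (nat_lit 2052) (nat_lit 6) (nat_lit 27) (nat_lit 0) (nat_lit 153) (nat_lit 152) (nat_lit 145)))) (PT.nd (nat_lit 78) (PT.lf (nat_lit 1824) (nat_lit 6) (nat_lit 24) (nat_lit 0) (nat_lit 154) (nat_lit 152) (nat_lit 144)) (PT.nd (nat_lit 45864) (PT.lf (nat_lit 1672) (nat_lit 6) (nat_lit 22) (nat_lit 0) (nat_lit 155) (nat_lit 152) (nat_lit 143)) (PT.lf (nat_lit 1520) (nat_lit 6) (nat_lit 20) (nat_lit 5) (nat_lit 142) (nat_lit 153) (nat_lit 155))))) (PT.nd (nat_lit 234) (PT.nd (nat_lit 78) (PT.lf (nat_lit 1748) (nat_lit 6) (nat_lit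 23) (nat_lit 5) (nat_lit 143) (nat_lit 153) (nat_lit 154)) (PT.nd (nat_lit 78) (PT.lf (nat_lit 1900) (nat_lit 3) (nat_lit 25) (nat_lit 4) (nat_lit 144) (nat_lit 153) (nat_lit 153)) (PT.lf (nat_lit 2052) (nat_lit 6) (nat_lit 27) (nat_lit 4) (nat_lit 145) (nat_lit 153) (nat_lit 152)))) (PT.nd (nat_lit 78) (PT.lf (nat_lit 2356) (nat_lit 6) (nat_lit 31) (nat_lit 4) (nat_lit 146) (nat_lit 153) (nat_lit 151)) (PT.nd (nat_lit 78) (PT.lf (nat_lit 2584) (nat_lit 6) (nat_lit 34) (nat_lit 4) (nat_lit 147) (nat_lit 153) (nat_lit 150)) (PT.lf (nat_lit 2508) (nat_lit 6) (nat_lit 33) (nat_lit 4) (nat_lit 148) (nat_lit 153) (nat_lit 149)))))) (PT.nd (nat_lit 468) (PT.nd (nat_lit 234) (PT.nd (nat_lit 78) (PT.lf (nat_lit 2508) (nat_lit 6) (nat_lit 33) (nat_lit 2) (nat_lit 149) (nat_lit 153) (nat_lit 148)) (PT.nd (nat_lit 78) (PT.lf (nat_lit 2584) (nat_lit 6) (nat_lit 34) (nat_lit 2) (nat_lit 150) (nat_lit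 153) (nat_lit 147)) (PT.lf (nat_lit 2356) (nat_lit 6) (nat_lit 31) (nat_lit 2) (nat_lit 151) (nat_lit 153) (nat_lit 146)))) (PT.nd (nat_lit 78) (PT.lf (nat_lit 2052) (nat_lit 6) (nat_lit 27) (nat_lit 2) (nat_lit 152) (nat_lit 153) (nat_lit 145)) (PT.nd (nat_lit 78) (PT.lf (nat_lit 1900) (nat_lit 3) (nat_lit 25) (nat_lit 0) (nat_lit 153) (nat_lit 153) (nat_lit 144)) (PT.lf (nat_lit 1748) (nat_lit 6) (nat_lit 23) (nat_lit 0) (nat_lit 154) (nat_lit 153) (nat_lit 143))))) (PT.nd (nat_lit 45864) (PT.nd (nat_lit 45708) (PT.lf (nat_lit 1520) (nat_lit 6) (nat_lit 20) (nat_lit 0) (nat_lit 155) (nat_lit 153) (nat_lit 142)) (PT.nd (nat_lit 78) (PT.lf (nat_lit 1292) (nat_lit 6) (nat_lit 17) (nat_lit 5) (nat_lit 140) (nat_lit 154) (nat_lit 156)) (PT.lf (nat_lit 1444) (nat_lit 6) (nat_lit 19) (nat_lit 5) (nat_lit 141) (nat_lit 154) (nat_lit 155)))) (PT.nd (nat_lit 156) (PT.nd (nat_lit 78) (PT.lf (nat_lit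 1596) (nat_lit 3) (nat_lit 21) (nat_lit 4) (nat_lit 142) (nat_lit 154) (nat_lit 154)) (PT.lf (nat_lit 1748) (nat_lit 6) (nat_lit 23) (nat_lit 4) (nat_lit 143) (nat_lit 154) (nat_lit 153))) (PT.nd (nat_lit 78) (PT.lf (nat_lit 1824) (nat_lit 6) (nat_lit 24) (nat_lit 4) (nat_lit 144) (nat_lit 154) (nat_lit 152)) (PT.lf (nat_lit 1976) (nat_lit 6) (nat_lit 26) (nat_lit 4) (nat_lit 145) (nat_lit 154) (nat_lit 151))))))) (PT.nd (nat_lit 46332) (PT.nd (nat_lit 468) (PT.nd (nat_lit 234) (PT.nd (nat_lit 78) (PT.lf (nat_lit 2280) (nat_lit 6) (nat_lit 30) (nat_lit 4) (nat_lit 146) (nat_lit 154) (nat_lit 150)) (PT.nd (nat_lit 78) (PT.lf (nat_lit 2204) (nat_lit 6) (nat_lit 29) (nat_lit 4) (nat_lit 147) (nat_lit 154) (nat_lit 149)) (PT.lf (nat_lit 2128) (nat_lit 3) (nat_lit 28) (nat_lit 2) (nat_lit 148) (nat_lit 154) (nat_lit 148)))) (PT.nd (nat_lit 78) (PT.lf (nat_lit 2204) (nat_lit 6) (nat_lit 29)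 (nat_lit 2) (nat_lit 149) (nat_lit 154) (nat_lit 147)) (PT.nd (nat_lit 78) (PT.lf (nat_lit 2280) (nat_lit 6) (nat_lit 30) (nat_lit 2) (nat_lit 150) (nat_lit 154) (nat_lit 146)) (PT.lf (nat_lit 1976) (nat_lit 6) (nat_lit 26) (nat_lit 2) (nat_lit 151) (nat_lit 154) (nat_lit 145))))) (PT.nd (nat_lit 234) (PT.nd (nat_lit 78) (PT.lf (nat_lit 1824) (nat_lit 6) (nat_lit 24) (nat_lit 2) (nat_lit 152) (nat_lit 154) (nat_lit 144)) (PT.nd (nat_lit 78) (PT.lf (nat_lit 1748) (nat_lit 6) (nat_lit 23) (nat_lit 2) (nat_lit 153) (nat_lit 154) (nat_lit 143)) (PT.lf (nat_lit 1596) (nat_lit 3) (nat_lit 21) (nat_lit 0) (nat_lit 154) (nat_lit 154) (nat_lit 142)))) (PT.nd (nat_lit 78) (PT.lf (nat_lit 1444) (nat_lit 6) (nat_lit 19) (nat_lit 0) (nat_lit 155) (nat_lit 154) (nat_lit 141)) (PT.nd (nat_lit 45474) (PT.lf (nat_lit 1292) (nat_lit 6) (nat_lit 17) (nat_lit 0) (nat_lit 156) (nat_lit 154) (nat_lit 140))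 (PT.lf (nat_lit 1064) (nat_lit 6) (nat_lit 14) (nat_lit 5) (nat_lit 138) (nat_lit 155) (nat_lit 157)))))) (PT.nd (nat_lit 1092) (PT.nd (nat_lit 234) (PT.nd (nat_lit 78) (PT.lf (nat_lit 1216) (nat_lit 6) (nat_lit 16) (nat_lit 5) (nat_lit 139) (nat_lit 155) (nat_lit 156)) (PT.nd (nat_lit 78) (PT.lf (nat_lit 1368) (nat_lit 3) (nat_lit 18) (nat_lit 4) (nat_lit 140) (nat_lit 155) (nat_lit 155)) (PT.lf (nat_lit 1444) (nat_lit 6) (nat_lit 19) (nat_lit 4) (nat_lit 141) (nat_lit 155) (nat_lit 154)))) (PT.nd (nat_lit 78) (PT.lf (nat_lit 1520) (nat_lit 6) (nat_lit 20) (nat_lit 4) (nat_lit 142) (nat_lit 155) (nat_lit 153)) (PT.nd (nat_lit 702) (PT.lf (nat_lit 1672) (nat_lit 6) (nat_lit 22) (nat_lit 4) (nat_lit 143) (nat_lit 155) (nat_lit 152)) (PT.lf (nat_lit 1672) (nat_lit 6) (nat_lit 22) (nat_lit 2) (nat_lit 152) (nat_lit 155) (nat_lit 143))))) (PT.nd (nat_lit 234) (PT.nd (nat_lit 78) (PT.lf (nat_lit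 1520) (nat_lit 6) (nat_lit 20) (nat_lit 2) (nat_lit 153) (nat_lit 155) (nat_lit 142)) (PT.nd (nat_lit 78) (PT.lf (nat_lit 1444) (nat_lit 6) (nat_lit 19) (nat_lit 2) (nat_lit 154) (nat_lit 155) (nat_lit 141)) (PT.lf (nat_lit 1368) (nat_lit 3) (nat_lit 18) (nat_lit 0) (nat_lit 155) (nat_lit 155) (nat_lit 140)))) (PT.nd (nat_lit 45318) (PT.nd (nat_lit 78) (PT.lf (nat_lit 1216) (nat_lit 6) (nat_lit 16) (nat_lit 0) (nat_lit 156) (nat_lit 155) (nat_lit 139)) (PT.lf (nat_lit 1064) (nat_lit 6) (nat_lit 14) (nat_lit 0) (nat_lit 157) (nat_lit 155) (nat_lit 138))) (PT.nd (nat_lit 78) (PT.lf (nat_lit 836) (nat_lit 6) (nat_lit 11) (nat_lit 5) (nat_lit 136) (nat_lit 156) (nat_lit 158)) (PT.lf (nat_lit 988) (nat_lit 6) (nat_lit 13) (nat_lit 5) (nat_lit 137) (nat_lit 156) (nat_lit 157))))))))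
noncomputable def pc3 : PT := (PT.nd (nat_lit 95316) (PT.nd (nat_lit 46878) (PT.nd (nat_lit 1482) (PT.nd (nat_lit 1248) (PT.nd (nat_lit 78) (PT.lf (nat_lit 1140) (nat_lit 3) (nat_lit 15) (nat_lit 4) (nat_lit 138) (nat_lit 156) (nat_lit 156)) (PT.nd (nat_lit 78) (PT.lf (nat_lit 1216) (nat_lit 6) (nat_lit 16) (nat_lit 4) (nat_lit 139) (nat_lit 156) (nat_lit 155)) (PT.lf (nat_lit 1292) (nat_lit 6) (nat_lit 17) (nat_lit 4) (nat_lit 140) (nat_lit 156) (nat_lit 154)))) (PT.nd (nat_lit 78) (PT.lf (nat_lit 1292) (nat_lit 6) (nat_lit 17) (nat_lit 2) (nat_lit 154) (nat_lit 156) (nat_lit 140)) (PT.nd (nat_lit 78) (PT.lf (nat_lit 1216) (nat_lit 6) (nat_lit 16) (nat_lit 2) (nat_lit 155) (nat_lit 156) (nat_lit 139)) (PT.lf (nat_lit 1140) (nat_lit 3) (nat_lit 15) (nat_lit 0) (nat_lit 156) (nat_lit 156) (nat_lit 138))))) (PT.nd (nat_lit 45162) (PT.nd (nat_lit 78) (PT.lf (nat_lit 988) (nat_lit 6) (nat_lit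 13) (nat_lit 0) (nat_lit 157) (nat_lit 156) (nat_lit 137)) (PT.nd (nat_lit 45006) (PT.lf (nat_lit 836) (nat_lit 6) (nat_lit 11) (nat_lit 0) (nat_lit 158) (nat_lit 156) (nat_lit 136)) (PT.lf (nat_lit 608) (nat_lit 6) (nat_lit 8) (nat_lit 5) (nat_lit 134) (nat_lit 157) (nat_lit 159)))) (PT.nd (nat_lit 78) (PT.lf (nat_lit 760) (nat_lit 6) (nat_lit 10) (nat_lit 5) (nat_lit 135) (nat_lit 157) (nat_lit 158)) (PT.nd (nat_lit 78) (PT.lf (nat_lit 912) (nat_lit 3) (nat_lit 12) (nat_lit 4) (nat_lit 136) (nat_lit 157) (nat_lit 157)) (PT.lf (nat_lit 988) (nat_lit 6) (nat_lit 13) (nat_lit 4) (nat_lit 137) (nat_lit 157) (nat_lit 156)))))) (PT.nd (nat_lit 46410) (PT.nd (nat_lit 1482) (PT.nd (nat_lit 1326) (PT.lf (nat_lit 1064) (nat_lit 6) (nat_lit 14) (nat_lit 4) (nat_lit 138) (nat_lit 157) (nat_lit 155)) (PT.nd (nat_lit 78) (PT.lf (nat_lit 1064) (nat_lit 6) (nat_lit 14) (nat_lit 2) (nat_lit 155) (nat_lit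 157) (nat_lit 138)) (PT.lf (nat_lit 988) (nat_lit 6) (nat_lit 13) (nat_lit 2) (nat_lit 156) (nat_lit 157) (nat_lit 137)))) (PT.nd (nat_lit 78) (PT.lf (nat_lit 912) (nat_lit 3) (nat_lit 12) (nat_lit 0) (nat_lit 157) (nat_lit 157) (nat_lit 136)) (PT.nd (nat_lit 78) (PT.lf (nat_lit 760) (nat_lit 6) (nat_lit 10) (nat_lit 0) (nat_lit 158) (nat_lit 157) (nat_lit 135)) (PT.lf (nat_lit 608) (nat_lit 6) (nat_lit 8) (nat_lit 0) (nat_lit 159) (nat_lit 157) (nat_lit 134))))) (PT.nd (nat_lit 234) (PT.nd (nat_lit 78) (PT.lf (nat_lit 380) (nat_lit 6) (nat_lit 5) (nat_lit 5) (nat_lit 132) (nat_lit 158) (nat_lit 160)) (PT.nd (nat_lit 78) (PT.lf (nat_lit 532) (nat_lit 6) (nat_lit 7) (nat_lit 5) (nat_lit 133) (nat_lit 158) (nat_lit 159)) (PT.lf (nat_lit 684) (nat_lit 3) (nat_lit 9) (nat_lit 4) (nat_lit 134) (nat_lit 158) (nat_lit 158)))) (PT.nd (nat_lit 1638) (PT.nd (nat_lit 78) (PT.lf (nat_lit 760) (nat_lit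 6) (nat_lit 10) (nat_lit 4) (nat_lit 135) (nat_lit 158) (nat_lit 157)) (PT.lf (nat_lit 836) (nat_lit 6) (nat_lit 11) (nat_lit 4) (nat_lit 136) (nat_lit 158) (nat_lit 156))) (PT.nd (nat_lit 78) (PT.lf (nat_lit 836) (nat_lit 6) (nat_lit 11) (nat_lit 2) (nat_lit 156) (nat_lit 158) (nat_lit 136)) (PT.lf (nat_lit 760) (nat_lit 6) (nat_lit 10) (nat_lit 2) (nat_lit 157) (nat_lit 158) (nat_lit 135))))))) (PT.nd (nat_lit 47112) (PT.nd (nat_lit 44928) (PT.nd (nat_lit 44694) (PT.nd (nat_lit 78) (PT.lf (nat_lit 684) (nat_lit 3) (nat_lit 9) (nat_lit 0) (nat_lit 158) (nat_lit 158) (nat_lit 134)) (PT.nd (nat_lit 78) (PT.lf (nat_lit 532) (nat_lit 6) (nat_lit 7) (nat_lit 0) (nat_lit 159) (nat_lit 158) (nat_lit 133)) (PT.lf (nat_lit 380) (nat_lit 6) (nat_lit 5) (nat_lit 0) (nat_lit 160) (nat_lit 158) (nat_lit 132)))) (PT.nd (nat_lit 78) (PT.lf (nat_lit 152) (nat_lit 6) (nat_lit 2) (nat_lit 5) (nat_lit 130)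 (nat_lit 159) (nat_lit 161)) (PT.nd (nat_lit 78) (PT.lf (nat_lit 304) (nat_lit 6) (nat_lit 4) (nat_lit 5) (nat_lit 131) (nat_lit 159) (nat_lit 160)) (PT.lf (nat_lit 456) (nat_lit 3) (nat_lit 6) (nat_lit 4) (nat_lit 132) (nat_lit 159) (nat_lit 159))))) (PT.nd (nat_lit 1950) (PT.nd (nat_lit 78) (PT.lf (nat_lit 532) (nat_lit 6) (nat_lit 7) (nat_lit 4) (nat_lit 133) (nat_lit 159) (nat_lit 158)) (PT.nd (nat_lit 1794) (PT.lf (nat_lit 608) (nat_lit 6) (nat_lit 8) (nat_lit 4) (nat_lit 134) (nat_lit 159) (nat_lit 157)) (PT.lf (nat_lit 608) (nat_lit 6) (nat_lit 8) (nat_lit 2) (nat_lit 157) (nat_lit 159) (nat_lit 134)))) (PT.nd (nat_lit 78) (PT.lf (nat_lit 532) (nat_lit 6) (nat_lit 7) (nat_lit 2) (nat_lit 158) (nat_lit 159) (nat_lit 133)) (PT.nd (nat_lit 78) (PT.lf (nat_lit 456) (nat_lit 3) (nat_lit 6) (nat_lit 0) (nat_lit 159) (nat_lit 159) (nat_lit 132)) (PT.lf (nat_lit 304) (nat_lit 6) (nat_lit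 4) (nat_lit 0) (nat_lit 160) (nat_lit 159) (nat_lit 131)))))) (PT.nd (nat_lit 46722) (PT.nd (nat_lit 44538) (PT.nd (nat_lit 44382) (PT.lf (nat_lit 152) (nat_lit 6) (nat_lit 2) (nat_lit 0) (nat_lit 161) (nat_lit 159) (nat_lit 130)) (PT.nd (nat_lit 78) (PT.lf (nat_lit 76) (nat_lit 6) (nat_lit 1) (nat_lit 5) (nat_lit 129) (nat_lit 160) (nat_lit 161)) (PT.lf (nat_lit 228) (nat_lit 3) (nat_lit 3) (nat_lit 4) (nat_lit 130) (nat_lit 160) (nat_lit 160)))) (PT.nd (nat_lit 78) (PT.lf (nat_lit 304) (nat_lit 6) (nat_lit 4) (nat_lit 4) (nat_lit 131) (nat_lit 160) (nat_lit 159)) (PT.nd (nat_lit 2028) (PT.lf (nat_lit 380) (nat_lit 6) (nat_lit 5) (nat_lit 4) (nat_lit 132) (nat_lit 160) (nat_lit 158)) (PT.lf (nat_lit 380) (nat_lit 6) (nat_lit 5) (nat_lit 2) (nat_lit 158) (nat_lit 160) (nat_lit 132))))) (PT.nd (nat_lit 44538) (PT.nd (nat_lit 78) (PT.lf (nat_lit 304) (nat_lit 6) (nat_lit 4) (nat_lit 2) (nat_lit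 159) (nat_lit 160) (nat_lit 131)) (PT.nd (nat_lit 78) (PT.lf (nat_lit 228) (nat_lit 3) (nat_lit 3) (nat_lit 0) (nat_lit 160) (nat_lit 160) (nat_lit 130)) (PT.lf (nat_lit 76) (nat_lit 6) (nat_lit 1) (nat_lit 0) (nat_lit 161) (nat_lit 160) (nat_lit 129)))) (PT.nd (nat_lit 2340) (PT.nd (nat_lit 78) (PT.lf (nat_lit 76) (nat_lit 6) (nat_lit 1) (nat_lit 4) (nat_lit 129) (nat_lit 161) (nat_lit 160)) (PT.lf (nat_lit 152) (nat_lit 6) (nat_lit 2) (nat_lit 4) (nat_lit 130) (nat_lit 161) (nat_lit 159))) (PT.nd (nat_lit 78) (PT.lf (nat_lit 152) (nat_lit 6) (nat_lit 2) (nat_lit 2) (nat_lit 159) (nat_lit 161) (nat_lit 130)) (PT.lf (nat_lit 76) (nat_lit 6) (nat_lit 1) (nat_lit 2) (nat_lit 160) (nat_lit 161) (nat_lit 129))))))))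
noncomputable def xc0 : XT := (XT.nd (nat_lit 373854) (nat_lit 0) (nat_lit 0) (XT.nd (nat_lit 140478) (nat_lit 0) (nat_lit 0) (XT.nd (nat_lit 93444) (nat_lit 0) (nat_lit 0) (XT.nd (nat_lit 46722) (nat_lit 0) (nat_lit 0) (XT.nd (nat_lit 78) (nat_lit 0) (nat_lit 0) (XT.lf (nat_lit 0) (nat_lit 131419347642559) (nat_lit 152) (nat_lit 529413517750631) (nat_lit 0) (nat_lit 131419347642559) (nat_lit 1) (nat_lit 5) (nat_lit 3) (nat_lit 4) (nat_lit 1) (nat_lit 4) (nat_lit 404) (nat_lit 248) (nat_lit 248)) (XT.lf (nat_lit 0) (nat_lit 302264537789939) (nat_lit 152) (nat_lit 1217651009058575) (nat_lit 0) (nat_lit 302264537316963) (nat_lit 1) (nat_lit 5) (nat_lit 3) (nat_lit 4) (nat_lit 1) (nat_lit 4) (nat_lit 405) (nat_lit 248) (nat_lit 247))) (XT.nd (nat_lit 78) (nat_lit 0) (nat_lit 0) (XT.lf (nat_lit 0) (nat_lit 99371872731803) (nat_lit 152) (nat_lit 400312753647675) (nat_lit 0) (nat_lit 99371872731803)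 (nat_lit 1) (nat_lit 5) (nat_lit 3) (nat_lit 4) (nat_lit 1) (nat_lit 4) (nat_lit 402) (nat_lit 249) (nat_lit 249)) (XT.nd (nat_lit 78) (nat_lit 0) (nat_lit 0) (XT.lf (nat_lit 0) (nat_lit 228555351227009) (nat_lit 152) (nat_lit 920719239356598) (nat_lit 0) (nat_lit 228555350683086) (nat_lit 1) (nat_lit 5) (nat_lit 3) (nat_lit 4) (nat_lit 1) (nat_lit 4) (nat_lit 403) (nat_lit 249) (nat_lit 248)) (XT.lf (nat_lit 0) (nat_lit 262838694067407) (nat_lit 152) (nat_lit 1058827039217984) (nat_lit 0) (nat_lit 262838693050505) (nat_lit 1) (nat_lit 5) (nat_lit 3) (nat_lit 4) (nat_lit 1) (nat_lit 4) (nat_lit 404) (nat_lit 249) (nat_lit 247))))) (XT.nd (nat_lit 234) (nat_lit 0) (nat_lit 0) (XT.nd (nat_lit 78) (nat_lit 0) (nat_lit 0) (XT.lf (nat_lit 0) (nat_lit 75139372312924) (nat_lit 152) (nat_lit 302694039650933) (nat_lit 0) (nat_lit 75139372312923) (nat_lit 1) (nat_lit 5) (nat_lit 3) (nat_lit 4) (nat_lit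 1) (nat_lit 4) (nat_lit 400) (nat_lit 250) (nat_lit 250)) (XT.nd (nat_lit 78) (nat_lit 0) (nat_lit 0) (XT.lf (nat_lit 0) (nat_lit 172820606855166) (nat_lit 152) (nat_lit 696196183059132) (nat_lit 0) (nat_lit 172820606229654) (nat_lit 1) (nat_lit 5) (nat_lit 3) (nat_lit 4) (nat_lit 1) (nat_lit 4) (nat_lit 401) (nat_lit 250) (nat_lit 249)) (XT.lf (nat_lit 0) (nat_lit 198743744063238) (nat_lit 152) (nat_lit 800625511569580) (nat_lit 0) (nat_lit 198743742893803) (nat_lit 1) (nat_lit 5) (nat_lit 3) (nat_lit 4) (nat_lit 1) (nat_lit 4) (nat_lit 402) (nat_lit 250) (nat_lit 248)))) (XT.nd (nat_lit 46644) (nat_lit 0) (nat_lit 0) (XT.lf (nat_lit 0) (nat_lit 228555348065005) (nat_lit 152) (nat_lit 920719247347549) (nat_lit 0) (nat_lit 228555346422593) (nat_lit 1) (nat_lit 5) (nat_lit 3) (nat_lit 4) (nat_lit 1) (nat_lit 4) (nat_lit 403) (nat_lit 250) (nat_lit 247)) (XT.nd (nat_lit 78) (nat_lit 0) (nat_lit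 0) (XT.lf (nat_lit 0) (nat_lit 150278743015424) (nat_lit 152) (nat_lit 605388084217229) (nat_lit 0) (nat_lit 150278741670573) (nat_lit 1) (nat_lit 5) (nat_lit 3) (nat_lit 4) (nat_lit 1) (nat_lit 4) (nat_lit 400) (nat_lit 251) (nat_lit 249)) (XT.lf (nat_lit 0) (nat_lit 172820603218862) (nat_lit 152) (nat_lit 696196192248725) (nat_lit 0) (nat_lit 172820601330087) (nat_lit 1) (nat_lit 5) (nat_lit 3) (nat_lit 4) (nat_lit 1) (nat_lit 4) (nat_lit 401) (nat_lit 251) (nat_lit 248)))))) (XT.nd (nat_lit 139854) (nat_lit 0) (nat_lit 0) (XT.nd (nat_lit 46722) (nat_lit 0) (nat_lit 0) (XT.nd (nat_lit 78) (nat_lit 0) (nat_lit 0) (XT.lf (nat_lit 0) (nat_lit 198743738665298) (nat_lit 152) (nat_lit 800625524475896) (nat_lit 0) (nat_lit 198743736303547) (nat_lit 1) (nat_lit 5) (nat_lit 3) (nat_lit 4) (nat_lit 1) (nat_lit 4) (nat_lit 402) (nat_lit 251) (nat_lit 247)) (XT.lf (nat_lit 0) (nat_lit 228555341135209)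 (nat_lit 152) (nat_lit 920719263485796) (nat_lit 0) (nat_lit 228555338362173) (nat_lit 1) (nat_lit 5) (nat_lit 3) (nat_lit 4) (nat_lit 1) (nat_lit 4) (nat_lit 403) (nat_lit 251) (nat_lit 246))) (XT.nd (nat_lit 78) (nat_lit 0) (nat_lit 0) (XT.lf (nat_lit 0) (nat_lit 150278736807793) (nat_lit 152) (nat_lit 605388099059492) (nat_lit 0) (nat_lit 150278734091780) (nat_lit 1) (nat_lit 5) (nat_lit 3) (nat_lit 4) (nat_lit 1) (nat_lit 4) (nat_lit 400) (nat_lit 252) (nat_lit 248)) (XT.nd (nat_lit 78) (nat_lit 0) (nat_lit 0) (XT.lf (nat_lit 0) (nat_lit 172820595249595) (nat_lit 152) (nat_lit 696196210807710) (nat_lit 0) (nat_lit 172820592060604) (nat_lit 1) (nat_lit 5) (nat_lit 3) (nat_lit 4) (nat_lit 1) (nat_lit 4) (nat_lit 401) (nat_lit 252) (nat_lit 247)) (XT.lf (nat_lit 0) (nat_lit 198743729164176) (nat_lit 152) (nat_lit 800625546266813) (nat_lit 0) (nat_lit 198743725563899) (nat_lit 1) (nat_lit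 5) (nat_lit 3) (nat_lit 4) (nat_lit 1) (nat_lit 4) (nat_lit 402) (nat_lit 252) (nat_lit 246))))) (XT.nd (nat_lit 46800) (nat_lit 0) (nat_lit 0) (XT.nd (nat_lit 78) (nat_lit 0) (nat_lit 0) (XT.lf (nat_lit 0) (nat_lit 24563028165105) (nat_lit 152) (nat_lit 98951575769474) (nat_lit 0) (nat_lit 24563028165105) (nat_lit 1) (nat_lit 5) (nat_lit 3) (nat_lit 4) (nat_lit 1) (nat_lit 4) (nat_lit 392) (nat_lit 254) (nat_lit 254)) (XT.nd (nat_lit 46644) (nat_lit 0) (nat_lit 0) (XT.lf (nat_lit 0) (nat_lit 56495053166543) (nat_lit 152) (nat_lit 227588435135729) (nat_lit 0) (nat_lit 56495052072518) (nat_lit 1) (nat_lit 5) (nat_lit 3) (nat_lit 4) (nat_lit 1) (nat_lit 4) (nat_lit 393) (nat_lit 254) (nat_lit 253)) (XT.lf (nat_lit 0) (nat_lit 18573097821533) (nat_lit 152) (nat_lit 74821780448531) (nat_lit 0) (nat_lit 18573097821533) (nat_lit 1) (nat_lit 5) (nat_lit 3) (nat_lit 4) (nat_lit 1) (nat_lit 4)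 (nat_lit 390) (nat_lit 255) (nat_lit 255)))) (XT.nd (nat_lit 78) (nat_lit 0) (nat_lit 0) (XT.lf (nat_lit 0) (nat_lit 42718226634349) (nat_lit 152) (nat_lit 172089877527450) (nat_lit 0) (nat_lit 42718225376221) (nat_lit 1) (nat_lit 5) (nat_lit 3) (nat_lit 4) (nat_lit 1) (nat_lit 4) (nat_lit 391) (nat_lit 255) (nat_lit 254)) (XT.nd (nat_lit 46566) (nat_lit 0) (nat_lit 0) (XT.lf (nat_lit 0) (nat_lit 49126053513568) (nat_lit 152) (nat_lit 197903160135952) (nat_lit 0) (nat_lit 49126051161416) (nat_lit 1) (nat_lit 5) (nat_lit 3) (nat_lit 4) (nat_lit 1) (nat_lit 4) (nat_lit 392) (nat_lit 255) (nat_lit 253)) (XT.lf (nat_lit 0) (nat_lit 14043837868421) (nat_lit 152) (nat_lit 56576214482642) (nat_lit 0) (nat_lit 14043837868421) (nat_lit 1) (nat_lit 5) (nat_lit 3) (nat_lit 4) (nat_lit 1) (nat_lit 4) (nat_lit 388) (nat_lit 256) (nat_lit 256))))))) (XT.nd (nat_lit 93444) (nat_lit 0) (nat_lit 0) (XT.nd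 (nat_lit 46722) (nat_lit 0) (nat_lit 0) (XT.nd (nat_lit 156) (nat_lit 0) (nat_lit 0) (XT.nd (nat_lit 78) (nat_lit 0) (nat_lit 0) (XT.lf (nat_lit 0) (nat_lit 32300943988914) (nat_lit 152) (nat_lit 130125043180281) (nat_lit 0) (nat_lit 32300942542067) (nat_lit 1) (nat_lit 5) (nat_lit 3) (nat_lit 4) (nat_lit 1) (nat_lit 4) (nat_lit 389) (nat_lit 256) (nat_lit 255)) (XT.lf (nat_lit 0) (nat_lit 37146192403929) (nat_lit 152) (nat_lit 149643570783615) (nat_lit 0) (nat_lit 37146189698954) (nat_lit 1) (nat_lit 5) (nat_lit 3) (nat_lit 4) (nat_lit 1) (nat_lit 4) (nat_lit 390) (nat_lit 256) (nat_lit 254))) (XT.nd (nat_lit 78) (nat_lit 0) (nat_lit 0) (XT.lf (nat_lit 0) (nat_lit 42718219320441) (nat_lit 152) (nat_lit 172089896011006) (nat_lit 0) (nat_lit 42718215521442) (nat_lit 1) (nat_lit 5) (nat_lit 3) (nat_lit 4) (nat_lit 1) (nat_lit 4) (nat_lit 391) (nat_lit 256) (nat_lit 253)) (XT.nd (nat_lit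 46410) (nat_lit 0) (nat_lit 0) (XT.lf (nat_lit 0) (nat_lit 49126042656383) (nat_lit 152) (nat_lit 197903186095163) (nat_lit 0) (nat_lit 49126037906058) (nat_lit 1) (nat_lit 5) (nat_lit 3) (nat_lit 4) (nat_lit 1) (nat_lit 4) (nat_lit 392) (nat_lit 256) (nat_lit 252)) (XT.lf (nat_lit 0) (nat_lit 10619052772622) (nat_lit 152) (nat_lit 42779975174383) (nat_lit 0) (nat_lit 10619052772622) (nat_lit 1) (nat_lit 5) (nat_lit 3) (nat_lit 4) (nat_lit 1) (nat_lit 4) (nat_lit 386) (nat_lit 257) (nat_lit 257))))) (XT.nd (nat_lit 234) (nat_lit 0) (nat_lit 0) (XT.nd (nat_lit 78) (nat_lit 0) (nat_lit 0) (XT.lf (nat_lit 0) (nat_lit 24423955802309) (nat_lit 152) (nat_lit 98393655251814) (nat_lit 0) (nat_lit 24423954138435) (nat_lit 1) (nat_lit 5) (nat_lit 3) (nat_lit 4) (nat_lit 1) (nat_lit 4) (nat_lit 387) (nat_lit 257) (nat_lit 256)) (XT.nd (nat_lit 78) (nat_lit 0) (nat_lit 0) (XT.lf (nat_lit 0) (nat_lit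 28087672011834) (nat_lit 152) (nat_lit 113152440334822) (nat_lit 0) (nat_lit 28087668901113) (nat_lit 1) (nat_lit 5) (nat_lit 3) (nat_lit 4) (nat_lit 1) (nat_lit 4) (nat_lit 388) (nat_lit 257) (nat_lit 255)) (XT.lf (nat_lit 0) (nat_lit 32300935577921) (nat_lit 152) (nat_lit 130125064436371) (nat_lit 0) (nat_lit 32300931209072) (nat_lit 1) (nat_lit 5) (nat_lit 3) (nat_lit 4) (nat_lit 1) (nat_lit 4) (nat_lit 389) (nat_lit 257) (nat_lit 254)))) (XT.nd (nat_lit 78) (nat_lit 0) (nat_lit 0) (XT.lf (nat_lit 0) (nat_lit 37146179918166) (nat_lit 152) (nat_lit 149643600636708) (nat_lit 0) (nat_lit 37146174455293) (nat_lit 1) (nat_lit 5) (nat_lit 3) (nat_lit 4) (nat_lit 1) (nat_lit 4) (nat_lit 390) (nat_lit 257) (nat_lit 253)) (XT.nd (nat_lit 46332) (nat_lit 0) (nat_lit 0) (XT.lf (nat_lit 0) (nat_lit 42718203291400) (nat_lit 152) (nat_lit 172089933339753) (nat_lit 0) (nat_lit 42718196877202) (nat_lit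 1) (nat_lit 5) (nat_lit 3) (nat_lit 4) (nat_lit 1) (nat_lit 4) (nat_lit 391) (nat_lit 257) (nat_lit 252)) (XT.lf (nat_lit 0) (nat_lit 8029407266163) (nat_lit 152) (nat_lit 32348070519987) (nat_lit 0) (nat_lit 8029407266163) (nat_lit 1) (nat_lit 5) (nat_lit 3) (nat_lit 4) (nat_lit 1) (nat_lit 4) (nat_lit 384) (nat_lit 258) (nat_lit 258)))))) (XT.nd (nat_lit 390) (nat_lit 0) (nat_lit 0) (XT.nd (nat_lit 156) (nat_lit 0) (nat_lit 0) (XT.nd (nat_lit 78) (nat_lit 0) (nat_lit 0) (XT.lf (nat_lit 0) (nat_lit 18467791301243) (nat_lit 152) (nat_lit 74400231399314) (nat_lit 0) (nat_lit 18467789387788) (nat_lit 1) (nat_lit 5) (nat_lit 3) (nat_lit 4) (nat_lit 1) (nat_lit 4) (nat_lit 385) (nat_lit 258) (nat_lit 257)) (XT.lf (nat_lit 0) (nat_lit 21238101261485) (nat_lit 152) (nat_lit 85559963423732) (nat_lit 0) (nat_lit 21238097684156) (nat_lit 1) (nat_lit 5) (nat_lit 3) (nat_lit 4) (nat_lit 1) (nat_lit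 4) (nat_lit 386) (nat_lit 258) (nat_lit 256))) (XT.nd (nat_lit 78) (nat_lit 0) (nat_lit 0) (XT.lf (nat_lit 0) (nat_lit 24423946129666) (nat_lit 152) (nat_lit 98393679696317) (nat_lit 0) (nat_lit 24423941105490) (nat_lit 1) (nat_lit 5) (nat_lit 3) (nat_lit 4) (nat_lit 1) (nat_lit 4) (nat_lit 387) (nat_lit 258) (nat_lit 255)) (XT.nd (nat_lit 78) (nat_lit 0) (nat_lit 0) (XT.lf (nat_lit 0) (nat_lit 28087657653207) (nat_lit 152) (nat_lit 113152474665878) (nat_lit 0) (nat_lit 28087651370903) (nat_lit 1) (nat_lit 5) (nat_lit 3) (nat_lit 4) (nat_lit 1) (nat_lit 4) (nat_lit 388) (nat_lit 258) (nat_lit 254)) (XT.lf (nat_lit 0) (nat_lit 32300917144524) (nat_lit 152) (nat_lit 130125107364430) (nat_lit 0) (nat_lit 32300909768195) (nat_lit 1) (nat_lit 5) (nat_lit 3) (nat_lit 4) (nat_lit 1) (nat_lit 4) (nat_lit 389) (nat_lit 258) (nat_lit 253))))) (XT.nd (nat_lit 46254) (nat_lit 0) (nat_lit 0) (XT.nd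 (nat_lit 1716) (nat_lit 0) (nat_lit 0) (XT.lf (nat_lit 0) (nat_lit 37146157941491) (nat_lit 152) (nat_lit 149643651040422) (nat_lit 0) (nat_lit 37146149613837) (nat_lit 1) (nat_lit 5) (nat_lit 3) (nat_lit 4) (nat_lit 1) (nat_lit 4) (nat_lit 390) (nat_lit 258) (nat_lit 252)) (XT.nd (nat_lit 78) (nat_lit 0) (nat_lit 0) (XT.lf (nat_lit 0) (nat_lit 804029760943852) (nat_lit 152) (nat_lit 3238975730721253) (nat_lit 0) (nat_lit 804029746567042) (nat_lit 1) (nat_lit 5) (nat_lit 3) (nat_lit 4) (nat_lit 1) (nat_lit 4) (nat_lit 412) (nat_lit 258) (nat_lit 230)) (XT.lf (nat_lit 0) (nat_lit 924634279564070) (nat_lit 152) (nat_lit 3724821970747082) (nat_lit 0) (nat_lit 924634265149046) (nat_lit 1) (nat_lit 5) (nat_lit 3) (nat_lit 4) (nat_lit 1) (nat_lit 4) (nat_lit 413) (nat_lit 258) (nat_lit 229)))) (XT.nd (nat_lit 78) (nat_lit 0) (nat_lit 0) (XT.lf (nat_lit 0) (nat_lit 6071244879828) (nat_lit 152)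 (nat_lit 24460091358437) (nat_lit 0) (nat_lit 6071244879828) (nat_lit 1) (nat_lit 5) (nat_lit 3) (nat_lit 4) (nat_lit 1) (nat_lit 4) (nat_lit 382) (nat_lit 259) (nat_lit 259)) (XT.nd (nat_lit 78) (nat_lit 0) (nat_lit 0) (XT.lf (nat_lit 0) (nat_lit 13964041001033) (nat_lit 152) (nat_lit 56257829708249) (nat_lit 0) (nat_lit 13964038800560) (nat_lit 1) (nat_lit 5) (nat_lit 3) (nat_lit 4) (nat_lit 1) (nat_lit 4) (nat_lit 383) (nat_lit 259) (nat_lit 258)) (XT.lf (nat_lit 0) (nat_lit 16058809606002) (nat_lit 152) (nat_lit 64696156076186) (nat_lit 0) (nat_lit 16058805492074) (nat_lit 1) (nat_lit 5) (nat_lit 3) (nat_lit 4) (nat_lit 1) (nat_lit 4) (nat_lit 384) (nat_lit 259) (nat_lit 257))))))))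
noncomputable def xc1 : XT := (XT.nd (nat_lit 93600) (nat_lit 0) (nat_lit 0) (XT.nd (nat_lit 46800) (nat_lit 0) (nat_lit 0) (XT.nd (nat_lit 2106) (nat_lit 0) (nat_lit 0) (XT.nd (nat_lit 156) (nat_lit 0) (nat_lit 0) (XT.nd (nat_lit 78) (nat_lit 0) (nat_lit 0) (XT.lf (nat_lit 0) (nat_lit 18467780177704) (nat_lit 152) (nat_lit 74400259510492) (nat_lit 0) (nat_lit 18467774399902) (nat_lit 1) (nat_lit 5) (nat_lit 3) (nat_lit 4) (nat_lit 1) (nat_lit 4) (nat_lit 385) (nat_lit 259) (nat_lit 256)) (XT.lf (nat_lit 0) (nat_lit 21238084749064) (nat_lit 152) (nat_lit 85560002904447) (nat_lit 0) (nat_lit 21238077524414) (nat_lit 1) (nat_lit 5) (nat_lit 3) (nat_lit 4) (nat_lit 1) (nat_lit 4) (nat_lit 386) (nat_lit 259) (nat_lit 255))) (XT.nd (nat_lit 78) (nat_lit 0) (nat_lit 0) (XT.lf (nat_lit 0) (nat_lit 24423924931260) (nat_lit 152) (nat_lit 98393729063584) (nat_lit 0) (nat_lit 24423916448482) (nat_lit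 1) (nat_lit 5) (nat_lit 3) (nat_lit 4) (nat_lit 1) (nat_lit 4) (nat_lit 387) (nat_lit 259) (nat_lit 254)) (XT.nd (nat_lit 1794) (nat_lit 0) (nat_lit 0) (XT.lf (nat_lit 0) (nat_lit 28087632380030) (nat_lit 152) (nat_lit 113152532630149) (nat_lit 0) (nat_lit 28087622803229) (nat_lit 1) (nat_lit 5) (nat_lit 3) (nat_lit 4) (nat_lit 1) (nat_lit 4) (nat_lit 388) (nat_lit 259) (nat_lit 253)) (XT.lf (nat_lit 0) (nat_lit 699156214878391) (nat_lit 152) (nat_lit 2816500852931020) (nat_lit 0) (nat_lit 699156198301106) (nat_lit 1) (nat_lit 5) (nat_lit 3) (nat_lit 4) (nat_lit 1) (nat_lit 4) (nat_lit 411) (nat_lit 259) (nat_lit 230))))) (XT.nd (nat_lit 44460) (nat_lit 0) (nat_lit 0) (XT.nd (nat_lit 78) (nat_lit 0) (nat_lit 0) (XT.lf (nat_lit 0) (nat_lit 804029709454539) (nat_lit 152) (nat_lit 3238975843996671) (nat_lit 0) (nat_lit 804029692839043) (nat_lit 1) (nat_lit 5) (nat_lit 3) (nat_lit 4) (nat_lit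 1) (nat_lit 4) (nat_lit 412) (nat_lit 259) (nat_lit 229)) (XT.nd (nat_lit 44304) (nat_lit 0) (nat_lit 0) (XT.lf (nat_lit 0) (nat_lit 924634227950979) (nat_lit 152) (nat_lit 3724822084283659) (nat_lit 0) (nat_lit 924634211302244) (nat_lit 1) (nat_lit 5) (nat_lit 3) (nat_lit 4) (nat_lit 1) (nat_lit 4) (nat_lit 413) (nat_lit 259) (nat_lit 228)) (XT.lf (nat_lit 0) (nat_lit 4590571705368) (nat_lit 152) (nat_lit 18495691270483) (nat_lit 0) (nat_lit 4590571705368) (nat_lit 1) (nat_lit 5) (nat_lit 3) (nat_lit 4) (nat_lit 1) (nat_lit 4) (nat_lit 380) (nat_lit 260) (nat_lit 260)))) (XT.nd (nat_lit 78) (nat_lit 0) (nat_lit 0) (XT.lf (nat_lit 0) (nat_lit 10558519366389) (nat_lit 152) (nat_lit 42539652443533) (nat_lit 0) (nat_lit 10558516835845) (nat_lit 1) (nat_lit 5) (nat_lit 3) (nat_lit 4) (nat_lit 1) (nat_lit 4) (nat_lit 381) (nat_lit 260) (nat_lit 259)) (XT.nd (nat_lit 78) (nat_lit 0) (nat_lit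 0) (XT.lf (nat_lit 0) (nat_lit 12142484094384) (nat_lit 152) (nat_lit 48920200008517) (nat_lit 0) (nat_lit 12142479363366) (nat_lit 1) (nat_lit 5) (nat_lit 3) (nat_lit 4) (nat_lit 1) (nat_lit 4) (nat_lit 382) (nat_lit 260) (nat_lit 258)) (XT.lf (nat_lit 0) (nat_lit 13964028208963) (nat_lit 152) (nat_lit 56257862036104) (nat_lit 0) (nat_lit 13964021564490) (nat_lit 1) (nat_lit 5) (nat_lit 3) (nat_lit 4) (nat_lit 1) (nat_lit 4) (nat_lit 383) (nat_lit 260) (nat_lit 257)))))) (XT.nd (nat_lit 2184) (nat_lit 0) (nat_lit 0) (XT.nd (nat_lit 156) (nat_lit 0) (nat_lit 0) (XT.nd (nat_lit 78) (nat_lit 0) (nat_lit 0) (XT.lf (nat_lit 0) (nat_lit 16058790616717) (nat_lit 152) (nat_lit 64696201479008) (nat_lit 0) (nat_lit 16058782308370) (nat_lit 1) (nat_lit 5) (nat_lit 3) (nat_lit 4) (nat_lit 1) (nat_lit 4) (nat_lit 384) (nat_lit 260) (nat_lit 256)) (XT.lf (nat_lit 0) (nat_lit 18467755799536) (nat_lit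 152) (nat_lit 74400316282850) (nat_lit 0) (nat_lit 18467746044343) (nat_lit 1) (nat_lit 5) (nat_lit 3) (nat_lit 4) (nat_lit 1) (nat_lit 4) (nat_lit 385) (nat_lit 260) (nat_lit 255))) (XT.nd (nat_lit 78) (nat_lit 0) (nat_lit 0) (XT.lf (nat_lit 0) (nat_lit 21238055684911) (nat_lit 152) (nat_lit 85560069563358) (nat_lit 0) (nat_lit 21238044671589) (nat_lit 1) (nat_lit 5) (nat_lit 3) (nat_lit 4) (nat_lit 1) (nat_lit 4) (nat_lit 386) (nat_lit 260) (nat_lit 254)) (XT.nd (nat_lit 1872) (nat_lit 0) (nat_lit 0) (XT.lf (nat_lit 0) (nat_lit 24423891792337) (nat_lit 152) (nat_lit 98393804319499) (nat_lit 0) (nat_lit 24423879684992) (nat_lit 1) (nat_lit 5) (nat_lit 3) (nat_lit 4) (nat_lit 1) (nat_lit 4) (nat_lit 387) (nat_lit 260) (nat_lit 253)) (XT.lf (nat_lit 0) (nat_lit 699156155523331) (nat_lit 152) (nat_lit 2816500983498083) (nat_lit 0) (nat_lit 699156136377289) (nat_lit 1) (nat_lit 5) (nat_lit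 3) (nat_lit 4) (nat_lit 1) (nat_lit 4) (nat_lit 411) (nat_lit 260) (nat_lit 229))))) (XT.nd (nat_lit 44382) (nat_lit 0) (nat_lit 0) (XT.nd (nat_lit 44226) (nat_lit 0) (nat_lit 0) (XT.lf (nat_lit 0) (nat_lit 804029649975700) (nat_lit 152) (nat_lit 3238975974824895) (nat_lit 0) (nat_lit 804029630796423) (nat_lit 1) (nat_lit 5) (nat_lit 3) (nat_lit 4) (nat_lit 1) (nat_lit 4) (nat_lit 412) (nat_lit 260) (nat_lit 228)) (XT.nd (nat_lit 78) (nat_lit 0) (nat_lit 0) (XT.lf (nat_lit 0) (nat_lit 3470945811695) (nat_lit 152) (nat_lit 13985800127998) (nat_lit 0) (nat_lit 3470945811695) (nat_lit 1) (nat_lit 5) (nat_lit 3) (nat_lit 4) (nat_lit 1) (nat_lit 4) (nat_lit 378) (nat_lit 261) (nat_lit 261)) (XT.lf (nat_lit 0) (nat_lit 7983410477549) (nat_lit 152) (nat_lit 32166837194029) (nat_lit 0) (nat_lit 7983407567423) (nat_lit 1) (nat_lit 5) (nat_lit 3) (nat_lit 4) (nat_lit 1) (nat_lit 4) (nat_lit 379)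 (nat_lit 261) (nat_lit 260)))) (XT.nd (nat_lit 78) (nat_lit 0) (nat_lit 0) (XT.lf (nat_lit 0) (nat_lit 9181136895673) (nat_lit 152) (nat_lit 36991402426357) (nat_lit 0) (nat_lit 9181131455002) (nat_lit 1) (nat_lit 5) (nat_lit 3) (nat_lit 4) (nat_lit 1) (nat_lit 4) (nat_lit 380) (nat_lit 261) (nat_lit 259)) (XT.nd (nat_lit 78) (nat_lit 0) (nat_lit 0) (XT.lf (nat_lit 0) (nat_lit 10558504655509) (nat_lit 152) (nat_lit 42539689620566) (nat_lit 0) (nat_lit 10558497014365) (nat_lit 1) (nat_lit 5) (nat_lit 3) (nat_lit 4) (nat_lit 1) (nat_lit 4) (nat_lit 381) (nat_lit 261) (nat_lit 258)) (XT.lf (nat_lit 0) (nat_lit 12142462256706) (nat_lit 152) (nat_lit 48920252221762) (nat_lit 0) (nat_lit 12142452702107) (nat_lit 1) (nat_lit 5) (nat_lit 3) (nat_lit 4) (nat_lit 1) (nat_lit 4) (nat_lit 382) (nat_lit 261) (nat_lit 257))))))) (XT.nd (nat_lit 46644) (nat_lit 0) (nat_lit 0) (XT.nd (nat_lit 390) (nat_lit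 0) (nat_lit 0) (XT.nd (nat_lit 156) (nat_lit 0) (nat_lit 0) (XT.nd (nat_lit 78) (nat_lit 0) (nat_lit 0) (XT.lf (nat_lit 0) (nat_lit 13964000174070) (nat_lit 152) (nat_lit 56257927324316) (nat_lit 0) (nat_lit 13963988955597) (nat_lit 1) (nat_lit 5) (nat_lit 3) (nat_lit 4) (nat_lit 1) (nat_lit 4) (nat_lit 383) (nat_lit 261) (nat_lit 256)) (XT.lf (nat_lit 0) (nat_lit 16058757192942) (nat_lit 152) (nat_lit 64696278136756) (nat_lit 0) (nat_lit 16058744527622) (nat_lit 1) (nat_lit 5) (nat_lit 3) (nat_lit 4) (nat_lit 1) (nat_lit 4) (nat_lit 384) (nat_lit 261) (nat_lit 255))) (XT.nd (nat_lit 78) (nat_lit 0) (nat_lit 0) (XT.lf (nat_lit 0) (nat_lit 18467717689776) (nat_lit 152) (nat_lit 74400402827152) (nat_lit 0) (nat_lit 18467703766328) (nat_lit 1) (nat_lit 5) (nat_lit 3) (nat_lit 4) (nat_lit 1) (nat_lit 4) (nat_lit 385) (nat_lit 261) (nat_lit 254)) (XT.nd (nat_lit 78) (nat_lit 0) (nat_lit 0)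 (XT.lf (nat_lit 0) (nat_lit 21238013500381) (nat_lit 152) (nat_lit 85560164704662) (nat_lit 0) (nat_lit 21237998482909) (nat_lit 1) (nat_lit 5) (nat_lit 3) (nat_lit 4) (nat_lit 1) (nat_lit 4) (nat_lit 386) (nat_lit 261) (nat_lit 253)) (XT.lf (nat_lit 0) (nat_lit 24423846064530) (nat_lit 152) (nat_lit 98393906936457) (nat_lit 0) (nat_lit 24423830095732) (nat_lit 1) (nat_lit 5) (nat_lit 3) (nat_lit 4) (nat_lit 1) (nat_lit 4) (nat_lit 387) (nat_lit 261) (nat_lit 252))))) (XT.nd (nat_lit 46020) (nat_lit 0) (nat_lit 0) (XT.nd (nat_lit 1794) (nat_lit 0) (nat_lit 0) (XT.lf (nat_lit 0) (nat_lit 28087546888912) (nat_lit 152) (nat_lit 113152724479245) (nat_lit 0) (nat_lit 28087530092875) (nat_lit 1) (nat_lit 5) (nat_lit 3) (nat_lit 4) (nat_lit 1) (nat_lit 4) (nat_lit 388) (nat_lit 261) (nat_lit 251)) (XT.nd (nat_lit 44148) (nat_lit 0) (nat_lit 0) (XT.lf (nat_lit 0) (nat_lit 699156086998883) (nat_lit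 152) (nat_lit 2816501134211696) (nat_lit 0) (nat_lit 699156064909481) (nat_lit 1) (nat_lit 5) (nat_lit 3) (nat_lit 4) (nat_lit 1) (nat_lit 4) (nat_lit 411) (nat_lit 261) (nat_lit 228)) (XT.lf (nat_lit 0) (nat_lit 2624319895565) (nat_lit 152) (nat_lit 10575734545641) (nat_lit 0) (nat_lit 2624319895565) (nat_lit 1) (nat_lit 5) (nat_lit 3) (nat_lit 4) (nat_lit 1) (nat_lit 4) (nat_lit 376) (nat_lit 262) (nat_lit 262)))) (XT.nd (nat_lit 78) (nat_lit 0) (nat_lit 0) (XT.lf (nat_lit 0) (nat_lit 6036206137046) (nat_lit 152) (nat_lit 24323610889555) (nat_lit 0) (nat_lit 6036202790401) (nat_lit 1) (nat_lit 5) (nat_lit 3) (nat_lit 4) (nat_lit 1) (nat_lit 4) (nat_lit 377) (nat_lit 262) (nat_lit 261)) (XT.nd (nat_lit 78) (nat_lit 0) (nat_lit 0) (XT.lf (nat_lit 0) (nat_lit 6941884131068) (nat_lit 152) (nat_lit 27971623124194) (nat_lit 0) (nat_lit 6941877874297) (nat_lit 1) (nat_lit 5) (nat_lit 3) (nat_lit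 4) (nat_lit 1) (nat_lit 4) (nat_lit 378) (nat_lit 262) (nat_lit 260)) (XT.lf (nat_lit 0) (nat_lit 7983393560036) (nat_lit 152) (nat_lit 32166879947618) (nat_lit 0) (nat_lit 7983384772721) (nat_lit 1) (nat_lit 5) (nat_lit 3) (nat_lit 4) (nat_lit 1) (nat_lit 4) (nat_lit 379) (nat_lit 262) (nat_lit 259)))))) (XT.nd (nat_lit 390) (nat_lit 0) (nat_lit 0) (XT.nd (nat_lit 156) (nat_lit 0) (nat_lit 0) (XT.nd (nat_lit 78) (nat_lit 0) (nat_lit 0) (XT.lf (nat_lit 0) (nat_lit 9181111782343) (nat_lit 152) (nat_lit 36991462471588) (nat_lit 0) (nat_lit 9181100794554) (nat_lit 1) (nat_lit 5) (nat_lit 3) (nat_lit 4) (nat_lit 1) (nat_lit 4) (nat_lit 380) (nat_lit 262) (nat_lit 258)) (XT.lf (nat_lit 0) (nat_lit 10558472415382) (nat_lit 152) (nat_lit 42539764702010) (nat_lit 0) (nat_lit 10558459514138) (nat_lit 1) (nat_lit 5) (nat_lit 3) (nat_lit 4) (nat_lit 1) (nat_lit 4) (nat_lit 381) (nat_lit 262) (nat_lit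 257))) (XT.nd (nat_lit 78) (nat_lit 0) (nat_lit 0) (XT.lf (nat_lit 0) (nat_lit 12142423819364) (nat_lit 152) (nat_lit 48920340378172) (nat_lit 0) (nat_lit 12142409254246) (nat_lit 1) (nat_lit 5) (nat_lit 3) (nat_lit 4) (nat_lit 1) (nat_lit 4) (nat_lit 382) (nat_lit 262) (nat_lit 256)) (XT.nd (nat_lit 78) (nat_lit 0) (nat_lit 0) (XT.lf (nat_lit 0) (nat_lit 13963956347846) (nat_lit 152) (nat_lit 56258026850263) (nat_lit 0) (nat_lit 13963940335881) (nat_lit 1) (nat_lit 5) (nat_lit 3) (nat_lit 4) (nat_lit 1) (nat_lit 4) (nat_lit 383) (nat_lit 262) (nat_lit 255)) (XT.lf (nat_lit 0) (nat_lit 16058708680732) (nat_lit 152) (nat_lit 64696387549256) (nat_lit 0) (nat_lit 16058691410640) (nat_lit 1) (nat_lit 5) (nat_lit 3) (nat_lit 4) (nat_lit 1) (nat_lit 4) (nat_lit 384) (nat_lit 262) (nat_lit 254))))) (XT.nd (nat_lit 234) (nat_lit 0) (nat_lit 0) (XT.nd (nat_lit 78) (nat_lit 0) (nat_lit 0) (XT.lf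 (nat_lit 0) (nat_lit 18467665102797) (nat_lit 152) (nat_lit 74400520836654) (nat_lit 0) (nat_lit 18467646738680) (nat_lit 1) (nat_lit 5) (nat_lit 3) (nat_lit 4) (nat_lit 1) (nat_lit 4) (nat_lit 385) (nat_lit 262) (nat_lit 253)) (XT.nd (nat_lit 78) (nat_lit 0) (nat_lit 0) (XT.lf (nat_lit 0) (nat_lit 21237957370124) (nat_lit 152) (nat_lit 85560290189820) (nat_lit 0) (nat_lit 21237938054682) (nat_lit 1) (nat_lit 5) (nat_lit 3) (nat_lit 4) (nat_lit 1) (nat_lit 4) (nat_lit 386) (nat_lit 262) (nat_lit 252)) (XT.lf (nat_lit 0) (nat_lit 24423786853162) (nat_lit 152) (nat_lit 98394038922184) (nat_lit 0) (nat_lit 24423766710480) (nat_lit 1) (nat_lit 5) (nat_lit 3) (nat_lit 4) (nat_lit 1) (nat_lit 4) (nat_lit 387) (nat_lit 262) (nat_lit 251)))) (XT.nd (nat_lit 78) (nat_lit 0) (nat_lit 0) (XT.lf (nat_lit 0) (nat_lit 28087484998316) (nat_lit 152) (nat_lit 113152862117641) (nat_lit 0) (nat_lit 28087464136296)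 (nat_lit 1) (nat_lit 5) (nat_lit 3) (nat_lit 4) (nat_lit 1) (nat_lit 4) (nat_lit 388) (nat_lit 262) (nat_lit 250)) (XT.nd (nat_lit 45708) (nat_lit 0) (nat_lit 0) (XT.lf (nat_lit 0) (nat_lit 32300732856255) (nat_lit 152) (nat_lit 130125519360449) (nat_lit 0) (nat_lit 32300711368723) (nat_lit 1) (nat_lit 5) (nat_lit 3) (nat_lit 4) (nat_lit 1) (nat_lit 4) (nat_lit 389) (nat_lit 262) (nat_lit 249)) (XT.lf (nat_lit 0) (nat_lit 1984117000591) (nat_lit 152) (nat_lit 7997304102492) (nat_lit 0) (nat_lit 1984117000591) (nat_lit 1) (nat_lit 5) (nat_lit 3) (nat_lit 4) (nat_lit 1) (nat_lit 4) (nat_lit 374) (nat_lit 263) (nat_lit 263))))))))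
noncomputable def xc2 : XT := (XT.nd (nat_lit 47190) (nat_lit 0) (nat_lit 0) (XT.nd (nat_lit 858) (nat_lit 0) (nat_lit 0) (XT.nd (nat_lit 390) (nat_lit 0) (nat_lit 0) (XT.nd (nat_lit 156) (nat_lit 0) (nat_lit 0) (XT.nd (nat_lit 78) (nat_lit 0) (nat_lit 0) (XT.lf (nat_lit 0) (nat_lit 4563780035194) (nat_lit 152) (nat_lit 18393134085499) (nat_lit 0) (nat_lit 4563776186553) (nat_lit 1) (nat_lit 5) (nat_lit 3) (nat_lit 4) (nat_lit 1) (nat_lit 4) (nat_lit 375) (nat_lit 263) (nat_lit 262)) (XT.lf (nat_lit 0) (nat_lit 5248631174958) (nat_lit 152) (nat_lit 21151495389711) (nat_lit 0) (nat_lit 5248623979672) (nat_lit 1) (nat_lit 5) (nat_lit 3) (nat_lit 4) (nat_lit 1) (nat_lit 4) (nat_lit 376) (nat_lit 263) (nat_lit 261))) (XT.nd (nat_lit 78) (nat_lit 0) (nat_lit 0) (XT.lf (nat_lit 0) (nat_lit 6036186681906) (nat_lit 152) (nat_lit 24323660056181) (nat_lit 0) (nat_lit 6036176576494) (nat_lit 1) (nat_lit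 5) (nat_lit 3) (nat_lit 4) (nat_lit 1) (nat_lit 4) (nat_lit 377) (nat_lit 263) (nat_lit 260)) (XT.nd (nat_lit 78) (nat_lit 0) (nat_lit 0) (XT.lf (nat_lit 0) (nat_lit 6941855250739) (nat_lit 152) (nat_lit 27971692176211) (nat_lit 0) (nat_lit 6941842614782) (nat_lit 1) (nat_lit 5) (nat_lit 3) (nat_lit 4) (nat_lit 1) (nat_lit 4) (nat_lit 378) (nat_lit 263) (nat_lit 259)) (XT.lf (nat_lit 0) (nat_lit 7983356483890) (nat_lit 152) (nat_lit 32166966291278) (nat_lit 0) (nat_lit 7983341647460) (nat_lit 1) (nat_lit 5) (nat_lit 3) (nat_lit 4) (nat_lit 1) (nat_lit 4) (nat_lit 379) (nat_lit 263) (nat_lit 258))))) (XT.nd (nat_lit 234) (nat_lit 0) (nat_lit 0) (XT.nd (nat_lit 78) (nat_lit 0) (nat_lit 0) (XT.lf (nat_lit 0) (nat_lit 9181067579400) (nat_lit 152) (nat_lit 36991563851460) (nat_lit 0) (nat_lit 9181050829515) (nat_lit 1) (nat_lit 5) (nat_lit 3) (nat_lit 4) (nat_lit 1) (nat_lit 4) (nat_lit 380)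 (nat_lit 263) (nat_lit 257)) (XT.nd (nat_lit 78) (nat_lit 0) (nat_lit 0) (XT.lf (nat_lit 0) (nat_lit 10558422015224) (nat_lit 152) (nat_lit 42539879156848) (nat_lit 0) (nat_lit 10558403601464) (nat_lit 1) (nat_lit 5) (nat_lit 3) (nat_lit 4) (nat_lit 1) (nat_lit 4) (nat_lit 381) (nat_lit 263) (nat_lit 256)) (XT.lf (nat_lit 0) (nat_lit 12142368030323) (nat_lit 152) (nat_lit 48920466202547) (nat_lit 0) (nat_lit 12142348169717) (nat_lit 1) (nat_lit 5) (nat_lit 3) (nat_lit 4) (nat_lit 1) (nat_lit 4) (nat_lit 382) (nat_lit 263) (nat_lit 255)))) (XT.nd (nat_lit 78) (nat_lit 0) (nat_lit 0) (XT.lf (nat_lit 0) (nat_lit 13963895872820) (nat_lit 152) (nat_lit 56258162561191) (nat_lit 0) (nat_lit 13963874754086) (nat_lit 1) (nat_lit 5) (nat_lit 3) (nat_lit 4) (nat_lit 1) (nat_lit 4) (nat_lit 383) (nat_lit 263) (nat_lit 254)) (XT.nd (nat_lit 78) (nat_lit 0) (nat_lit 0) (XT.lf (nat_lit 0) (nat_lit 16058644130937)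 (nat_lit 152) (nat_lit 64696531857187) (nat_lit 0) (nat_lit 16058621918179) (nat_lit 1) (nat_lit 5) (nat_lit 3) (nat_lit 4) (nat_lit 1) (nat_lit 4) (nat_lit 384) (nat_lit 263) (nat_lit 253)) (XT.lf (nat_lit 0) (nat_lit 18467597009724) (nat_lit 152) (nat_lit 74400672620239) (nat_lit 0) (nat_lit 18467573845640) (nat_lit 1) (nat_lit 5) (nat_lit 3) (nat_lit 4) (nat_lit 1) (nat_lit 4) (nat_lit 385) (nat_lit 263) (nat_lit 252)))))) (XT.nd (nat_lit 45864) (nat_lit 0) (nat_lit 0) (XT.nd (nat_lit 156) (nat_lit 0) (nat_lit 0) (XT.nd (nat_lit 78) (nat_lit 0) (nat_lit 0) (XT.lf (nat_lit 0) (nat_lit 21237886195940) (nat_lit 152) (nat_lit 85560448473974) (nat_lit 0) (nat_lit 21237862204617) (nat_lit 1) (nat_lit 5) (nat_lit 3) (nat_lit 4) (nat_lit 1) (nat_lit 4) (nat_lit 386) (nat_lit 263) (nat_lit 251)) (XT.lf (nat_lit 0) (nat_lit 24423712999751) (nat_lit 152) (nat_lit 98394202859007) (nat_lit 0) (nat_lit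 24423688289089) (nat_lit 1) (nat_lit 5) (nat_lit 3) (nat_lit 4) (nat_lit 1) (nat_lit 4) (nat_lit 387) (nat_lit 263) (nat_lit 250))) (XT.nd (nat_lit 78) (nat_lit 0) (nat_lit 0) (XT.lf (nat_lit 0) (nat_lit 28087408815142) (nat_lit 152) (nat_lit 113153030969828) (nat_lit 0) (nat_lit 28087383478969) (nat_lit 1) (nat_lit 5) (nat_lit 3) (nat_lit 4) (nat_lit 1) (nat_lit 4) (nat_lit 388) (nat_lit 263) (nat_lit 249)) (XT.nd (nat_lit 45552) (nat_lit 0) (nat_lit 0) (XT.lf (nat_lit 0) (nat_lit 32300654647200) (nat_lit 152) (nat_lit 130125692486867) (nat_lit 0) (nat_lit 32300628767103) (nat_lit 1) (nat_lit 5) (nat_lit 3) (nat_lit 4) (nat_lit 1) (nat_lit 4) (nat_lit 389) (nat_lit 263) (nat_lit 248)) (XT.lf (nat_lit 0) (nat_lit 1499994755362) (nat_lit 152) (nat_lit 6047719661159) (nat_lit 0) (nat_lit 1499994755362) (nat_lit 1) (nat_lit 5) (nat_lit 3) (nat_lit 4) (nat_lit 1) (nat_lit 4) (nat_lit 372)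 (nat_lit 264) (nat_lit 264))))) (XT.nd (nat_lit 234) (nat_lit 0) (nat_lit 0) (XT.nd (nat_lit 78) (nat_lit 0) (nat_lit 0) (XT.lf (nat_lit 0) (nat_lit 3450345511242) (nat_lit 152) (nat_lit 13908990067898) (nat_lit 0) (nat_lit 3450341085304) (nat_lit 1) (nat_lit 5) (nat_lit 3) (nat_lit 4) (nat_lit 1) (nat_lit 4) (nat_lit 373) (nat_lit 264) (nat_lit 263)) (XT.nd (nat_lit 78) (nat_lit 0) (nat_lit 0) (XT.lf (nat_lit 0) (nat_lit 3968224092586) (nat_lit 152) (nat_lit 15994638448177) (nat_lit 0) (nat_lit 3968215818007) (nat_lit 1) (nat_lit 5) (nat_lit 3) (nat_lit 4) (nat_lit 1) (nat_lit 4) (nat_lit 374) (nat_lit 264) (nat_lit 262)) (XT.lf (nat_lit 0) (nat_lit 4563757661784) (nat_lit 152) (nat_lit 18393190627120) (nat_lit 0) (nat_lit 4563746040559) (nat_lit 1) (nat_lit 5) (nat_lit 3) (nat_lit 4) (nat_lit 1) (nat_lit 4) (nat_lit 375) (nat_lit 264) (nat_lit 261)))) (XT.nd (nat_lit 78) (nat_lit 0)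 (nat_lit 0) (XT.lf (nat_lit 0) (nat_lit 5248597962580) (nat_lit 152) (nat_lit 21151574799530) (nat_lit 0) (nat_lit 5248583431230) (nat_lit 1) (nat_lit 5) (nat_lit 3) (nat_lit 4) (nat_lit 1) (nat_lit 4) (nat_lit 376) (nat_lit 264) (nat_lit 260)) (XT.nd (nat_lit 78) (nat_lit 0) (nat_lit 0) (XT.lf (nat_lit 0) (nat_lit 6036144044339) (nat_lit 152) (nat_lit 24323759351391) (nat_lit 0) (nat_lit 6036126982444) (nat_lit 1) (nat_lit 5) (nat_lit 3) (nat_lit 4) (nat_lit 1) (nat_lit 4) (nat_lit 377) (nat_lit 264) (nat_lit 259)) (XT.lf (nat_lit 0) (nat_lit 6941804417355) (nat_lit 152) (nat_lit 27971808763063) (nat_lit 0) (nat_lit 6941785154986) (nat_lit 1) (nat_lit 5) (nat_lit 3) (nat_lit 4) (nat_lit 1) (nat_lit 4) (nat_lit 378) (nat_lit 264) (nat_lit 258))))))) (XT.nd (nat_lit 858) (nat_lit 0) (nat_lit 0) (XT.nd (nat_lit 390) (nat_lit 0) (nat_lit 0) (XT.nd (nat_lit 156) (nat_lit 0) (nat_lit 0) (XT.nd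 (nat_lit 78) (nat_lit 0) (nat_lit 0) (XT.lf (nat_lit 0) (nat_lit 7983298523709) (nat_lit 152) (nat_lit 32167097914342) (nat_lit 0) (nat_lit 7983277347885) (nat_lit 1) (nat_lit 5) (nat_lit 3) (nat_lit 4) (nat_lit 1) (nat_lit 4) (nat_lit 379) (nat_lit 264) (nat_lit 257)) (XT.lf (nat_lit 0) (nat_lit 9181003422003) (nat_lit 152) (nat_lit 36991708549491) (nat_lit 0) (nat_lit 9180980582306) (nat_lit 1) (nat_lit 5) (nat_lit 3) (nat_lit 4) (nat_lit 1) (nat_lit 4) (nat_lit 380) (nat_lit 264) (nat_lit 256))) (XT.nd (nat_lit 78) (nat_lit 0) (nat_lit 0) (XT.lf (nat_lit 0) (nat_lit 10558352468944) (nat_lit 152) (nat_lit 42540035224415) (nat_lit 0) (nat_lit 10558328182400) (nat_lit 1) (nat_lit 5) (nat_lit 3) (nat_lit 4) (nat_lit 1) (nat_lit 4) (nat_lit 381) (nat_lit 264) (nat_lit 255)) (XT.nd (nat_lit 78) (nat_lit 0) (nat_lit 0) (XT.lf (nat_lit 0) (nat_lit 12142293798059) (nat_lit 152) (nat_lit 48920632156668)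 (nat_lit 0) (nat_lit 12142268253386) (nat_lit 1) (nat_lit 5) (nat_lit 3) (nat_lit 4) (nat_lit 1) (nat_lit 4) (nat_lit 382) (nat_lit 264) (nat_lit 254)) (XT.lf (nat_lit 0) (nat_lit 13963817565786) (nat_lit 152) (nat_lit 56258337112314) (nat_lit 0) (nat_lit 13963790927090) (nat_lit 1) (nat_lit 5) (nat_lit 3) (nat_lit 4) (nat_lit 1) (nat_lit 4) (nat_lit 383) (nat_lit 264) (nat_lit 253))))) (XT.nd (nat_lit 234) (nat_lit 0) (nat_lit 0) (XT.nd (nat_lit 78) (nat_lit 0) (nat_lit 0) (XT.lf (nat_lit 0) (nat_lit 16058562280625) (nat_lit 152) (nat_lit 64696713883964) (nat_lit 0) (nat_lit 16058534690603) (nat_lit 1) (nat_lit 5) (nat_lit 3) (nat_lit 4) (nat_lit 1) (nat_lit 4) (nat_lit 384) (nat_lit 264) (nat_lit 252)) (XT.nd (nat_lit 78) (nat_lit 0) (nat_lit 0) (XT.lf (nat_lit 0) (nat_lit 18467512078301) (nat_lit 152) (nat_lit 74400861147586) (nat_lit 0) (nat_lit 18467483661040) (nat_lit 1) (nat_lit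 5) (nat_lit 3) (nat_lit 4) (nat_lit 1) (nat_lit 4) (nat_lit 385) (nat_lit 264) (nat_lit 251)) (XT.lf (nat_lit 0) (nat_lit 21237798585290) (nat_lit 152) (nat_lit 85560642653990) (nat_lit 0) (nat_lit 21237769448690) (nat_lit 1) (nat_lit 5) (nat_lit 3) (nat_lit 4) (nat_lit 1) (nat_lit 4) (nat_lit 386) (nat_lit 264) (nat_lit 250)))) (XT.nd (nat_lit 78) (nat_lit 0) (nat_lit 0) (XT.lf (nat_lit 0) (nat_lit 24423623059338) (nat_lit 152) (nat_lit 98394401954388) (nat_lit 0) (nat_lit 24423593297226) (nat_lit 1) (nat_lit 5) (nat_lit 3) (nat_lit 4) (nat_lit 1) (nat_lit 4) (nat_lit 387) (nat_lit 264) (nat_lit 249)) (XT.nd (nat_lit 78) (nat_lit 0) (nat_lit 0) (XT.lf (nat_lit 0) (nat_lit 28087316848849) (nat_lit 152) (nat_lit 113153234339438) (nat_lit 0) (nat_lit 28087286542814) (nat_lit 1) (nat_lit 5) (nat_lit 3) (nat_lit 4) (nat_lit 1) (nat_lit 4) (nat_lit 388) (nat_lit 264) (nat_lit 248)) (XT.lf (nat_lit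 0) (nat_lit 32300560919271) (nat_lit 152) (nat_lit 130125899573199) (nat_lit 0) (nat_lit 32300530140259) (nat_lit 1) (nat_lit 5) (nat_lit 3) (nat_lit 4) (nat_lit 1) (nat_lit 4) (nat_lit 389) (nat_lit 264) (nat_lit 247)))))) (XT.nd (nat_lit 45630) (nat_lit 0) (nat_lit 0) (XT.nd (nat_lit 45396) (nat_lit 0) (nat_lit 0) (XT.nd (nat_lit 45318) (nat_lit 0) (nat_lit 0) (XT.lf (nat_lit 0) (nat_lit 37145788306765) (nat_lit 152) (nat_lit 149644471540676) (nat_lit 0) (nat_lit 37145757116469) (nat_lit 1) (nat_lit 5) (nat_lit 3) (nat_lit 4) (nat_lit 1) (nat_lit 4) (nat_lit 390) (nat_lit 264) (nat_lit 246)) (XT.lf (nat_lit 0) (nat_lit 1133886372963) (nat_lit 152) (nat_lit 4573645053277) (nat_lit 0) (nat_lit 1133886372963) (nat_lit 1) (nat_lit 5) (nat_lit 3) (nat_lit 4) (nat_lit 1) (nat_lit 4) (nat_lit 370) (nat_lit 265) (nat_lit 265))) (XT.nd (nat_lit 78) (nat_lit 0) (nat_lit 0) (XT.lf (nat_lit 0) (nat_lit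 2608349867810) (nat_lit 152) (nat_lit 10518503696853) (nat_lit 0) (nat_lit 2608344777981) (nat_lit 1) (nat_lit 5) (nat_lit 3) (nat_lit 4) (nat_lit 1) (nat_lit 4) (nat_lit 371) (nat_lit 265) (nat_lit 264)) (XT.nd (nat_lit 78) (nat_lit 0) (nat_lit 0) (XT.lf (nat_lit 0) (nat_lit 2999978115838) (nat_lit 152) (nat_lit 12095474101990) (nat_lit 0) (nat_lit 2999968600072) (nat_lit 1) (nat_lit 5) (nat_lit 3) (nat_lit 4) (nat_lit 1) (nat_lit 4) (nat_lit 372) (nat_lit 265) (nat_lit 263)) (XT.lf (nat_lit 0) (nat_lit 3450319781820) (nat_lit 152) (nat_lit 13909055090762) (nat_lit 0) (nat_lit 3450306417412) (nat_lit 1) (nat_lit 5) (nat_lit 3) (nat_lit 4) (nat_lit 1) (nat_lit 4) (nat_lit 373) (nat_lit 265) (nat_lit 262))))) (XT.nd (nat_lit 234) (nat_lit 0) (nat_lit 0) (XT.nd (nat_lit 78) (nat_lit 0) (nat_lit 0) (XT.lf (nat_lit 0) (nat_lit 3968185898351) (nat_lit 152) (nat_lit 15994729769469) (nat_lit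 0) (nat_lit 3968169187298) (nat_lit 1) (nat_lit 5) (nat_lit 3) (nat_lit 4) (nat_lit 1) (nat_lit 4) (nat_lit 374) (nat_lit 265) (nat_lit 261)) (XT.nd (nat_lit 78) (nat_lit 0) (nat_lit 0) (XT.lf (nat_lit 0) (nat_lit 4563708628581) (nat_lit 152) (nat_lit 18393304816610) (nat_lit 0) (nat_lit 4563689007402) (nat_lit 1) (nat_lit 5) (nat_lit 3) (nat_lit 4) (nat_lit 1) (nat_lit 4) (nat_lit 375) (nat_lit 265) (nat_lit 260)) (XT.lf (nat_lit 0) (nat_lit 5248539504188) (nat_lit 152) (nat_lit 21151708874411) (nat_lit 0) (nat_lit 5248517352465) (nat_lit 1) (nat_lit 5) (nat_lit 3) (nat_lit 4) (nat_lit 1) (nat_lit 4) (nat_lit 376) (nat_lit 265) (nat_lit 259)))) (XT.nd (nat_lit 78) (nat_lit 0) (nat_lit 0) (XT.lf (nat_lit 0) (nat_lit 6036077390130) (nat_lit 152) (nat_lit 24323910717914) (nat_lit 0) (nat_lit 6036053037933) (nat_lit 1) (nat_lit 5) (nat_lit 3) (nat_lit 4) (nat_lit 1) (nat_lit 4) (nat_lit 377)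 (nat_lit 265) (nat_lit 258)) (XT.nd (nat_lit 78) (nat_lit 0) (nat_lit 0) (XT.lf (nat_lit 0) (nat_lit 6941730636348) (nat_lit 152) (nat_lit 27971975165799) (nat_lit 0) (nat_lit 6941704370696) (nat_lit 1) (nat_lit 5) (nat_lit 3) (nat_lit 4) (nat_lit 1) (nat_lit 4) (nat_lit 378) (nat_lit 265) (nat_lit 257)) (XT.lf (nat_lit 0) (nat_lit 7983218545487) (nat_lit 152) (nat_lit 32167277392044) (nat_lit 0) (nat_lit 7983190615961) (nat_lit 1) (nat_lit 5) (nat_lit 3) (nat_lit 4) (nat_lit 1) (nat_lit 4) (nat_lit 379) (nat_lit 265) (nat_lit 256))))))))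
noncomputable def xc3 : XT := (XT.nd (nat_lit 46800) (nat_lit 0) (nat_lit 0) (XT.nd (nat_lit 45942) (nat_lit 0) (nat_lit 0) (XT.nd (nat_lit 390) (nat_lit 0) (nat_lit 0) (XT.nd (nat_lit 156) (nat_lit 0) (nat_lit 0) (XT.nd (nat_lit 78) (nat_lit 0) (nat_lit 0) (XT.lf (nat_lit 0) (nat_lit 9180918054899) (nat_lit 152) (nat_lit 36991899396729) (nat_lit 0) (nat_lit 9180888678526) (nat_lit 1) (nat_lit 5) (nat_lit 3) (nat_lit 4) (nat_lit 1) (nat_lit 4) (nat_lit 380) (nat_lit 265) (nat_lit 255)) (XT.lf (nat_lit 0) (nat_lit 10558262415855) (nat_lit 152) (nat_lit 42540235958207) (nat_lit 0) (nat_lit 10558231781354) (nat_lit 1) (nat_lit 5) (nat_lit 3) (nat_lit 4) (nat_lit 1) (nat_lit 4) (nat_lit 381) (nat_lit 265) (nat_lit 254))) (XT.nd (nat_lit 78) (nat_lit 0) (nat_lit 0) (XT.lf (nat_lit 0) (nat_lit 12142199670200) (nat_lit 152) (nat_lit 48920841487462) (nat_lit 0) (nat_lit 12142167941675) (nat_lit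 1) (nat_lit 5) (nat_lit 3) (nat_lit 4) (nat_lit 1) (nat_lit 4) (nat_lit 382) (nat_lit 265) (nat_lit 253)) (XT.nd (nat_lit 78) (nat_lit 0) (nat_lit 0) (XT.lf (nat_lit 0) (nat_lit 13963719894650) (nat_lit 152) (nat_lit 56258553918763) (nat_lit 0) (nat_lit 13963687214799) (nat_lit 1) (nat_lit 5) (nat_lit 3) (nat_lit 4) (nat_lit 1) (nat_lit 4) (nat_lit 383) (nat_lit 265) (nat_lit 252)) (XT.lf (nat_lit 0) (nat_lit 16058461528377) (nat_lit 152) (nat_lit 64696937190983) (nat_lit 0) (nat_lit 16058428021288) (nat_lit 1) (nat_lit 5) (nat_lit 3) (nat_lit 4) (nat_lit 1) (nat_lit 4) (nat_lit 384) (nat_lit 265) (nat_lit 251))))) (XT.nd (nat_lit 234) (nat_lit 0) (nat_lit 0) (XT.nd (nat_lit 78) (nat_lit 0) (nat_lit 0) (XT.lf (nat_lit 0) (nat_lit 18467408646826) (nat_lit 152) (nat_lit 74401090107274) (nat_lit 0) (nat_lit 18467374420398) (nat_lit 1) (nat_lit 5) (nat_lit 3) (nat_lit 4) (nat_lit 1) (nat_lit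 4) (nat_lit 385) (nat_lit 265) (nat_lit 250)) (XT.nd (nat_lit 78) (nat_lit 0) (nat_lit 0) (XT.lf (nat_lit 0) (nat_lit 21237692824053) (nat_lit 152) (nat_lit 85560876529042) (nat_lit 0) (nat_lit 21237657972112) (nat_lit 1) (nat_lit 5) (nat_lit 3) (nat_lit 4) (nat_lit 1) (nat_lit 4) (nat_lit 386) (nat_lit 265) (nat_lit 249)) (XT.lf (nat_lit 0) (nat_lit 24423515272220) (nat_lit 152) (nat_lit 98394640103669) (nat_lit 0) (nat_lit 24423479876356) (nat_lit 1) (nat_lit 5) (nat_lit 3) (nat_lit 4) (nat_lit 1) (nat_lit 4) (nat_lit 387) (nat_lit 265) (nat_lit 248)))) (XT.nd (nat_lit 78) (nat_lit 0) (nat_lit 0) (XT.lf (nat_lit 0) (nat_lit 28087207300096) (nat_lit 152) (nat_lit 113153476205441) (nat_lit 0) (nat_lit 28087171431255) (nat_lit 1) (nat_lit 5) (nat_lit 3) (nat_lit 4) (nat_lit 1) (nat_lit 4) (nat_lit 388) (nat_lit 265) (nat_lit 247)) (XT.nd (nat_lit 78) (nat_lit 0) (nat_lit 0) (XT.lf (nat_lit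 0) (nat_lit 32300449838661) (nat_lit 152) (nat_lit 130126144671133) (nat_lit 0) (nat_lit 32300413558536) (nat_lit 1) (nat_lit 5) (nat_lit 3) (nat_lit 4) (nat_lit 1) (nat_lit 4) (nat_lit 389) (nat_lit 265) (nat_lit 246)) (XT.lf (nat_lit 0) (nat_lit 37145675894105) (nat_lit 152) (nat_lit 149644719448986) (nat_lit 0) (nat_lit 37145639256342) (nat_lit 1) (nat_lit 5) (nat_lit 3) (nat_lit 4) (nat_lit 1) (nat_lit 4) (nat_lit 390) (nat_lit 265) (nat_lit 245)))))) (XT.nd (nat_lit 390) (nat_lit 0) (nat_lit 0) (XT.nd (nat_lit 156) (nat_lit 0) (nat_lit 0) (XT.nd (nat_lit 78) (nat_lit 0) (nat_lit 0) (XT.lf (nat_lit 0) (nat_lit 857007063725) (nat_lit 152) (nat_lit 3459137892889) (nat_lit 0) (nat_lit 857007063725) (nat_lit 1) (nat_lit 5) (nat_lit 3) (nat_lit 4) (nat_lit 1) (nat_lit 4) (nat_lit 368) (nat_lit 266) (nat_lit 266)) (XT.lf (nat_lit 0) (nat_lit 1971589138062) (nat_lit 152) (nat_lit 7955005239109)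 (nat_lit 0) (nat_lit 1971583284759) (nat_lit 1) (nat_lit 5) (nat_lit 3) (nat_lit 4) (nat_lit 1) (nat_lit 4) (nat_lit 369) (nat_lit 266) (nat_lit 265))) (XT.nd (nat_lit 78) (nat_lit 0) (nat_lit 0) (XT.lf (nat_lit 0) (nat_lit 2267759641807) (nat_lit 152) (nat_lit 9147330103176) (nat_lit 0) (nat_lit 2267748698675) (nat_lit 1) (nat_lit 5) (nat_lit 3) (nat_lit 4) (nat_lit 1) (nat_lit 4) (nat_lit 370) (nat_lit 266) (nat_lit 264)) (XT.nd (nat_lit 78) (nat_lit 0) (nat_lit 0) (XT.lf (nat_lit 0) (nat_lit 2608320278975) (nat_lit 152) (nat_lit 10518578473146) (nat_lit 0) (nat_lit 2608304909906) (nat_lit 1) (nat_lit 5) (nat_lit 3) (nat_lit 4) (nat_lit 1) (nat_lit 4) (nat_lit 371) (nat_lit 266) (nat_lit 263)) (XT.lf (nat_lit 0) (nat_lit 2999934192468) (nat_lit 152) (nat_lit 12095579121476) (nat_lit 0) (nat_lit 2999914974757) (nat_lit 1) (nat_lit 5) (nat_lit 3) (nat_lit 4) (nat_lit 1) (nat_lit 4) (nat_lit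 372) (nat_lit 266) (nat_lit 262))))) (XT.nd (nat_lit 234) (nat_lit 0) (nat_lit 0) (XT.nd (nat_lit 78) (nat_lit 0) (nat_lit 0) (XT.lf (nat_lit 0) (nat_lit 3450263393637) (nat_lit 152) (nat_lit 13909186408675) (nat_lit 0) (nat_lit 3450240829281) (nat_lit 1) (nat_lit 5) (nat_lit 3) (nat_lit 4) (nat_lit 1) (nat_lit 4) (nat_lit 373) (nat_lit 266) (nat_lit 261)) (XT.nd (nat_lit 78) (nat_lit 0) (nat_lit 0) (XT.lf (nat_lit 0) (nat_lit 3968118671200) (nat_lit 152) (nat_lit 15994883955582) (nat_lit 0) (nat_lit 3968093196718) (nat_lit 1) (nat_lit 5) (nat_lit 3) (nat_lit 4) (nat_lit 1) (nat_lit 4) (nat_lit 374) (nat_lit 266) (nat_lit 260)) (XT.lf (nat_lit 0) (nat_lit 4563631976241) (nat_lit 152) (nat_lit 18393478888113) (nat_lit 0) (nat_lit 4563603971214) (nat_lit 1) (nat_lit 5) (nat_lit 3) (nat_lit 4) (nat_lit 1) (nat_lit 4) (nat_lit 375) (nat_lit 266) (nat_lit 259)))) (XT.nd (nat_lit 78) (nat_lit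 0) (nat_lit 0) (XT.lf (nat_lit 0) (nat_lit 5248454656031) (nat_lit 152) (nat_lit 21151900237556) (nat_lit 0) (nat_lit 5248424450531) (nat_lit 1) (nat_lit 5) (nat_lit 3) (nat_lit 4) (nat_lit 1) (nat_lit 4) (nat_lit 376) (nat_lit 266) (nat_lit 258)) (XT.nd (nat_lit 78) (nat_lit 0) (nat_lit 0) (XT.lf (nat_lit 0) (nat_lit 6035985415175) (nat_lit 152) (nat_lit 24324117117272) (nat_lit 0) (nat_lit 6035953296220) (nat_lit 1) (nat_lit 5) (nat_lit 3) (nat_lit 4) (nat_lit 1) (nat_lit 4) (nat_lit 377) (nat_lit 266) (nat_lit 257)) (XT.lf (nat_lit 0) (nat_lit 6941632464178) (nat_lit 152) (nat_lit 27972194640123) (nat_lit 0) (nat_lit 6941598681349) (nat_lit 1) (nat_lit 5) (nat_lit 3) (nat_lit 4) (nat_lit 1) (nat_lit 4) (nat_lit 378) (nat_lit 266) (nat_lit 256))))))) (XT.nd (nat_lit 858) (nat_lit 0) (nat_lit 0) (XT.nd (nat_lit 390) (nat_lit 0) (nat_lit 0) (XT.nd (nat_lit 156) (nat_lit 0) (nat_lit 0)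 (XT.nd (nat_lit 78) (nat_lit 0) (nat_lit 0) (XT.lf (nat_lit 0) (nat_lit 7983114984434) (nat_lit 152) (nat_lit 32167508235905) (nat_lit 0) (nat_lit 7983079754758) (nat_lit 1) (nat_lit 5) (nat_lit 3) (nat_lit 4) (nat_lit 1) (nat_lit 4) (nat_lit 379) (nat_lit 266) (nat_lit 255)) (XT.lf (nat_lit 0) (nat_lit 9180809807861) (nat_lit 152) (nat_lit 36992140127143) (nat_lit 0) (nat_lit 9180773320058) (nat_lit 1) (nat_lit 5) (nat_lit 3) (nat_lit 4) (nat_lit 1) (nat_lit 4) (nat_lit 380) (nat_lit 266) (nat_lit 254))) (XT.nd (nat_lit 78) (nat_lit 0) (nat_lit 0) (XT.lf (nat_lit 0) (nat_lit 10558150094048) (nat_lit 152) (nat_lit 42540485285623) (nat_lit 0) (nat_lit 10558112512220) (nat_lit 1) (nat_lit 5) (nat_lit 3) (nat_lit 4) (nat_lit 1) (nat_lit 4) (nat_lit 381) (nat_lit 266) (nat_lit 253)) (XT.nd (nat_lit 78) (nat_lit 0) (nat_lit 0) (XT.lf (nat_lit 0) (nat_lit 12142083805115) (nat_lit 152) (nat_lit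 48921098290533) (nat_lit 0) (nat_lit 12142045271962) (nat_lit 1) (nat_lit 5) (nat_lit 3) (nat_lit 4) (nat_lit 1) (nat_lit 4) (nat_lit 382) (nat_lit 266) (nat_lit 252)) (XT.lf (nat_lit 0) (nat_lit 13963600948453) (nat_lit 152) (nat_lit 56258817222403) (nat_lit 0) (nat_lit 13963561588061) (nat_lit 1) (nat_lit 5) (nat_lit 3) (nat_lit 4) (nat_lit 1) (nat_lit 4) (nat_lit 383) (nat_lit 266) (nat_lit 251))))) (XT.nd (nat_lit 234) (nat_lit 0) (nat_lit 0) (XT.nd (nat_lit 78) (nat_lit 0) (nat_lit 0) (XT.lf (nat_lit 0) (nat_lit 16058339902954) (nat_lit 152) (nat_lit 64697206147292) (nat_lit 0) (nat_lit 16058299823223) (nat_lit 1) (nat_lit 5) (nat_lit 3) (nat_lit 4) (nat_lit 1) (nat_lit 4) (nat_lit 384) (nat_lit 266) (nat_lit 250)) (XT.nd (nat_lit 78) (nat_lit 0) (nat_lit 0) (XT.lf (nat_lit 0) (nat_lit 18467284691640) (nat_lit 152) (nat_lit 74401363978947) (nat_lit 0) (nat_lit 18467243986397) (nat_lit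 1) (nat_lit 5) (nat_lit 3) (nat_lit 4) (nat_lit 1) (nat_lit 4) (nat_lit 385) (nat_lit 266) (nat_lit 249)) (XT.lf (nat_lit 0) (nat_lit 21237566842986) (nat_lit 152) (nat_lit 85561154674945) (nat_lit 0) (nat_lit 21237525593819) (nat_lit 1) (nat_lit 5) (nat_lit 3) (nat_lit 4) (nat_lit 1) (nat_lit 4) (nat_lit 386) (nat_lit 266) (nat_lit 248)))) (XT.nd (nat_lit 78) (nat_lit 0) (nat_lit 0) (XT.lf (nat_lit 0) (nat_lit 24423387529518) (nat_lit 152) (nat_lit 98394921966294) (nat_lit 0) (nat_lit 24423345807374) (nat_lit 1) (nat_lit 5) (nat_lit 3) (nat_lit 4) (nat_lit 1) (nat_lit 4) (nat_lit 387) (nat_lit 266) (nat_lit 247)) (XT.nd (nat_lit 78) (nat_lit 0) (nat_lit 0) (XT.lf (nat_lit 0) (nat_lit 28087078025537) (nat_lit 152) (nat_lit 113153761299998) (nat_lit 0) (nat_lit 28087035892109) (nat_lit 1) (nat_lit 5) (nat_lit 3) (nat_lit 4) (nat_lit 1) (nat_lit 4) (nat_lit 388) (nat_lit 266) (nat_lit 246))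 (XT.lf (nat_lit 0) (nat_lit 32300319232053) (nat_lit 152) (nat_lit 130126432576065) (nat_lit 0) (nat_lit 32300276740987) (nat_lit 1) (nat_lit 5) (nat_lit 3) (nat_lit 4) (nat_lit 1) (nat_lit 4) (nat_lit 389) (nat_lit 266) (nat_lit 245)))))) (XT.nd (nat_lit 45006) (nat_lit 0) (nat_lit 0) (XT.nd (nat_lit 234) (nat_lit 0) (nat_lit 0) (XT.nd (nat_lit 78) (nat_lit 0) (nat_lit 0) (XT.lf (nat_lit 0) (nat_lit 37145544129194) (nat_lit 152) (nat_lit 149645009797723) (nat_lit 0) (nat_lit 37145501327138) (nat_lit 1) (nat_lit 5) (nat_lit 3) (nat_lit 4) (nat_lit 1) (nat_lit 4) (nat_lit 390) (nat_lit 266) (nat_lit 244)) (XT.nd (nat_lit 78) (nat_lit 0) (nat_lit 0) (XT.lf (nat_lit 0) (nat_lit 42717550595380) (nat_lit 152) (nat_lit 172091378171482) (nat_lit 0) (nat_lit 42717507522898) (nat_lit 1) (nat_lit 5) (nat_lit 3) (nat_lit 4) (nat_lit 1) (nat_lit 4) (nat_lit 391) (nat_lit 266) (nat_lit 243)) (XT.lf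 (nat_lit 0) (nat_lit 49125356148430) (nat_lit 152) (nat_lit 197904705774220) (nat_lit 0) (nat_lit 49125312840795) (nat_lit 1) (nat_lit 5) (nat_lit 3) (nat_lit 4) (nat_lit 1) (nat_lit 4) (nat_lit 392) (nat_lit 266) (nat_lit 242)))) (XT.nd (nat_lit 78) (nat_lit 0) (nat_lit 0) (XT.lf (nat_lit 0) (nat_lit 56494330896990) (nat_lit 152) (nat_lit 227590035972077) (nat_lit 0) (nat_lit 56494287384874) (nat_lit 1) (nat_lit 5) (nat_lit 3) (nat_lit 4) (nat_lit 1) (nat_lit 4) (nat_lit 393) (nat_lit 266) (nat_lit 241)) (XT.nd (nat_lit 78) (nat_lit 0) (nat_lit 0) (XT.lf (nat_lit 0) (nat_lit 64968650433966) (nat_lit 152) (nat_lit 261728168703707) (nat_lit 0) (nat_lit 64968606744041) (nat_lit 1) (nat_lit 5) (nat_lit 3) (nat_lit 4) (nat_lit 1) (nat_lit 4) (nat_lit 394) (nat_lit 266) (nat_lit 240)) (XT.lf (nat_lit 0) (nat_lit 74714116663344) (nat_lit 152) (nat_lit 300987023957337) (nat_lit 0) (nat_lit 74714072818801)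 (nat_lit 1) (nat_lit 5) (nat_lit 3) (nat_lit 4) (nat_lit 1) (nat_lit 4) (nat_lit 395) (nat_lit 266) (nat_lit 239))))) (XT.nd (nat_lit 234) (nat_lit 0) (nat_lit 0) (XT.nd (nat_lit 78) (nat_lit 0) (nat_lit 0) (XT.lf (nat_lit 0) (nat_lit 647590436946) (nat_lit 152) (nat_lit 2616531133814) (nat_lit 0) (nat_lit 647590436946) (nat_lit 1) (nat_lit 5) (nat_lit 3) (nat_lit 4) (nat_lit 1) (nat_lit 4) (nat_lit 366) (nat_lit 267) (nat_lit 267)) (XT.nd (nat_lit 78) (nat_lit 0) (nat_lit 0) (XT.lf (nat_lit 0) (nat_lit 1490001830194) (nat_lit 152) (nat_lit 6016857906055) (nat_lit 0) (nat_lit 1489995098896) (nat_lit 1) (nat_lit 5) (nat_lit 3) (nat_lit 4) (nat_lit 1) (nat_lit 4) (nat_lit 367) (nat_lit 267) (nat_lit 266)) (XT.lf (nat_lit 0) (nat_lit 1713999057713) (nat_lit 152) (nat_lit 6918321781894) (nat_lit 0) (nat_lit 1713986473112) (nat_lit 1) (nat_lit 5) (nat_lit 3) (nat_lit 4) (nat_lit 1) (nat_lit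 4) (nat_lit 368) (nat_lit 267) (nat_lit 265)))) (XT.nd (nat_lit 78) (nat_lit 0) (nat_lit 0) (XT.lf (nat_lit 0) (nat_lit 1971555110902) (nat_lit 152) (nat_lit 7955091231846) (nat_lit 0) (nat_lit 1971537436472) (nat_lit 1) (nat_lit 5) (nat_lit 3) (nat_lit 4) (nat_lit 1) (nat_lit 4) (nat_lit 369) (nat_lit 267) (nat_lit 264)) (XT.nd (nat_lit 78) (nat_lit 0) (nat_lit 0) (XT.lf (nat_lit 0) (nat_lit 2267709129931) (nat_lit 152) (nat_lit 9147450875584) (nat_lit 0) (nat_lit 2267687029563) (nat_lit 1) (nat_lit 5) (nat_lit 3) (nat_lit 4) (nat_lit 1) (nat_lit 4) (nat_lit 370) (nat_lit 267) (nat_lit 263)) (XT.lf (nat_lit 0) (nat_lit 2608255432564) (nat_lit 152) (nat_lit 10518729488747) (nat_lit 0) (nat_lit 2608229483555) (nat_lit 1) (nat_lit 5) (nat_lit 3) (nat_lit 4) (nat_lit 1) (nat_lit 4) (nat_lit 371) (nat_lit 267) (nat_lit 262))))))))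
noncomputable def xc4 : XT := (XT.nd (nat_lit 1716) (nat_lit 0) (nat_lit 0) (XT.nd (nat_lit 858) (nat_lit 0) (nat_lit 0) (XT.nd (nat_lit 390) (nat_lit 0) (nat_lit 0) (XT.nd (nat_lit 156) (nat_lit 0) (nat_lit 0) (XT.nd (nat_lit 78) (nat_lit 0) (nat_lit 0) (XT.lf (nat_lit 0) (nat_lit 2999856881245) (nat_lit 152) (nat_lit 12095756435505) (nat_lit 0) (nat_lit 2999827585590) (nat_lit 1) (nat_lit 5) (nat_lit 3) (nat_lit 4) (nat_lit 1) (nat_lit 4) (nat_lit 372) (nat_lit 267) (nat_lit 261)) (XT.lf (nat_lit 0) (nat_lit 3450175243445) (nat_lit 152) (nat_lit 13909386590903) (nat_lit 0) (nat_lit 3450143037665) (nat_lit 1) (nat_lit 5) (nat_lit 3) (nat_lit 4) (nat_lit 1) (nat_lit 4) (nat_lit 373) (nat_lit 267) (nat_lit 260))) (XT.nd (nat_lit 78) (nat_lit 0) (nat_lit 0) (XT.lf (nat_lit 0) (nat_lit 3968021095819) (nat_lit 152) (nat_lit 15995104023199) (nat_lit 0) (nat_lit 3967986359494) (nat_lit 1) (nat_lit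 5) (nat_lit 3) (nat_lit 4) (nat_lit 1) (nat_lit 4) (nat_lit 374) (nat_lit 267) (nat_lit 259)) (XT.nd (nat_lit 78) (nat_lit 0) (nat_lit 0) (XT.lf (nat_lit 0) (nat_lit 4563526205043) (nat_lit 152) (nat_lit 18393716247374) (nat_lit 0) (nat_lit 4563489268244) (nat_lit 1) (nat_lit 5) (nat_lit 3) (nat_lit 4) (nat_lit 1) (nat_lit 4) (nat_lit 375) (nat_lit 267) (nat_lit 258)) (XT.lf (nat_lit 0) (nat_lit 5248341758035) (nat_lit 152) (nat_lit 21152152633029) (nat_lit 0) (nat_lit 5248302907782) (nat_lit 1) (nat_lit 5) (nat_lit 3) (nat_lit 4) (nat_lit 1) (nat_lit 4) (nat_lit 376) (nat_lit 267) (nat_lit 257))))) (XT.nd (nat_lit 234) (nat_lit 0) (nat_lit 0) (XT.nd (nat_lit 78) (nat_lit 0) (nat_lit 0) (XT.lf (nat_lit 0) (nat_lit 6035866319964) (nat_lit 152) (nat_lit 24324382587711) (nat_lit 0) (nat_lit 6035825805837) (nat_lit 1) (nat_lit 5) (nat_lit 3) (nat_lit 4) (nat_lit 1) (nat_lit 4) (nat_lit 377)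 (nat_lit 267) (nat_lit 256)) (XT.nd (nat_lit 78) (nat_lit 0) (nat_lit 0) (XT.lf (nat_lit 0) (nat_lit 6941507980085) (nat_lit 152) (nat_lit 27972471480099) (nat_lit 0) (nat_lit 6941466019111) (nat_lit 1) (nat_lit 5) (nat_lit 3) (nat_lit 4) (nat_lit 1) (nat_lit 4) (nat_lit 378) (nat_lit 267) (nat_lit 255)) (XT.lf (nat_lit 0) (nat_lit 7982985814356) (nat_lit 152) (nat_lit 32167794962433) (nat_lit 0) (nat_lit 7982942595254) (nat_lit 1) (nat_lit 5) (nat_lit 3) (nat_lit 4) (nat_lit 1) (nat_lit 4) (nat_lit 379) (nat_lit 267) (nat_lit 254)))) (XT.nd (nat_lit 78) (nat_lit 0) (nat_lit 0) (XT.lf (nat_lit 0) (nat_lit 9180676563014) (nat_lit 152) (nat_lit 36992435450675) (nat_lit 0) (nat_lit 9180632249888) (nat_lit 1) (nat_lit 5) (nat_lit 3) (nat_lit 4) (nat_lit 1) (nat_lit 4) (nat_lit 380) (nat_lit 267) (nat_lit 253)) (XT.nd (nat_lit 78) (nat_lit 0) (nat_lit 0) (XT.lf (nat_lit 0) (nat_lit 10558013305923)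 (nat_lit 152) (nat_lit 42540788084810) (nat_lit 0) (nat_lit 10557968041471) (nat_lit 1) (nat_lit 5) (nat_lit 3) (nat_lit 4) (nat_lit 1) (nat_lit 4) (nat_lit 381) (nat_lit 267) (nat_lit 252)) (XT.lf (nat_lit 0) (nat_lit 12141943935879) (nat_lit 152) (nat_lit 48921407590289) (nat_lit 0) (nat_lit 12141897844188) (nat_lit 1) (nat_lit 5) (nat_lit 3) (nat_lit 4) (nat_lit 1) (nat_lit 4) (nat_lit 382) (nat_lit 267) (nat_lit 251)))))) (XT.nd (nat_lit 390) (nat_lit 0) (nat_lit 0) (XT.nd (nat_lit 156) (nat_lit 0) (nat_lit 0) (XT.nd (nat_lit 78) (nat_lit 0) (nat_lit 0) (XT.lf (nat_lit 0) (nat_lit 13963458399990) (nat_lit 152) (nat_lit 56259132174828) (nat_lit 0) (nat_lit 13963411588960) (nat_lit 1) (nat_lit 5) (nat_lit 3) (nat_lit 4) (nat_lit 1) (nat_lit 4) (nat_lit 383) (nat_lit 267) (nat_lit 250)) (XT.lf (nat_lit 0) (nat_lit 16058195024728) (nat_lit 152) (nat_lit 64697526015081) (nat_lit 0) (nat_lit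 16058147588186) (nat_lit 1) (nat_lit 5) (nat_lit 3) (nat_lit 4) (nat_lit 1) (nat_lit 4) (nat_lit 384) (nat_lit 267) (nat_lit 249))) (XT.nd (nat_lit 78) (nat_lit 0) (nat_lit 0) (XT.lf (nat_lit 0) (nat_lit 18467137787533) (nat_lit 152) (nat_lit 74401688120966) (nat_lit 0) (nat_lit 18467089807068) (nat_lit 1) (nat_lit 5) (nat_lit 3) (nat_lit 4) (nat_lit 1) (nat_lit 4) (nat_lit 385) (nat_lit 267) (nat_lit 248)) (XT.nd (nat_lit 78) (nat_lit 0) (nat_lit 0) (XT.lf (nat_lit 0) (nat_lit 21237418177244) (nat_lit 152) (nat_lit 85561482533685) (nat_lit 0) (nat_lit 21237369723802) (nat_lit 1) (nat_lit 5) (nat_lit 3) (nat_lit 4) (nat_lit 1) (nat_lit 4) (nat_lit 386) (nat_lit 267) (nat_lit 247)) (XT.lf (nat_lit 0) (nat_lit 24423237331919) (nat_lit 152) (nat_lit 98395253056966) (nat_lit 0) (nat_lit 24423188467193) (nat_lit 1) (nat_lit 5) (nat_lit 3) (nat_lit 4) (nat_lit 1) (nat_lit 4) (nat_lit 387) (nat_lit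 267) (nat_lit 246))))) (XT.nd (nat_lit 234) (nat_lit 0) (nat_lit 0) (XT.nd (nat_lit 78) (nat_lit 0) (nat_lit 0) (XT.lf (nat_lit 0) (nat_lit 28086926495889) (nat_lit 152) (nat_lit 113154095201045) (nat_lit 0) (nat_lit 28086877273524) (nat_lit 1) (nat_lit 5) (nat_lit 3) (nat_lit 4) (nat_lit 1) (nat_lit 4) (nat_lit 388) (nat_lit 267) (nat_lit 245)) (XT.nd (nat_lit 78) (nat_lit 0) (nat_lit 0) (XT.lf (nat_lit 0) (nat_lit 32300166544101) (nat_lit 152) (nat_lit 130126768920918) (nat_lit 0) (nat_lit 32300117010747) (nat_lit 1) (nat_lit 5) (nat_lit 3) (nat_lit 4) (nat_lit 1) (nat_lit 4) (nat_lit 389) (nat_lit 267) (nat_lit 244)) (XT.lf (nat_lit 0) (nat_lit 37145390434021) (nat_lit 152) (nat_lit 149645348267623) (nat_lit 0) (nat_lit 37145340630240) (nat_lit 1) (nat_lit 5) (nat_lit 3) (nat_lit 4) (nat_lit 1) (nat_lit 4) (nat_lit 390) (nat_lit 267) (nat_lit 243)))) (XT.nd (nat_lit 78) (nat_lit 0)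 (nat_lit 0) (XT.lf (nat_lit 0) (nat_lit 42717396024363) (nat_lit 152) (nat_lit 172091718489249) (nat_lit 0) (nat_lit 42717345985430) (nat_lit 1) (nat_lit 5) (nat_lit 3) (nat_lit 4) (nat_lit 1) (nat_lit 4) (nat_lit 391) (nat_lit 267) (nat_lit 242)) (XT.nd (nat_lit 78) (nat_lit 0) (nat_lit 0) (XT.lf (nat_lit 0) (nat_lit 49125200815810) (nat_lit 152) (nat_lit 197905047698828) (nat_lit 0) (nat_lit 49125150572395) (nat_lit 1) (nat_lit 5) (nat_lit 3) (nat_lit 4) (nat_lit 1) (nat_lit 4) (nat_lit 392) (nat_lit 267) (nat_lit 241)) (XT.lf (nat_lit 0) (nat_lit 56494174902106) (nat_lit 152) (nat_lit 227590379293938) (nat_lit 0) (nat_lit 56494124480882) (nat_lit 1) (nat_lit 5) (nat_lit 3) (nat_lit 4) (nat_lit 1) (nat_lit 4) (nat_lit 393) (nat_lit 267) (nat_lit 240))))))) (XT.nd (nat_lit 45162) (nat_lit 0) (nat_lit 0) (XT.nd (nat_lit 44694) (nat_lit 0) (nat_lit 0) (XT.nd (nat_lit 156) (nat_lit 0) (nat_lit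 0) (XT.nd (nat_lit 78) (nat_lit 0) (nat_lit 0) (XT.lf (nat_lit 0) (nat_lit 64968493863200) (nat_lit 152) (nat_lit 261728513240571) (nat_lit 0) (nat_lit 64968443287359) (nat_lit 1) (nat_lit 5) (nat_lit 3) (nat_lit 4) (nat_lit 1) (nat_lit 4) (nat_lit 394) (nat_lit 267) (nat_lit 239)) (XT.lf (nat_lit 0) (nat_lit 74713959591811) (nat_lit 152) (nat_lit 300987369550727) (nat_lit 0) (nat_lit 74713908881520) (nat_lit 1) (nat_lit 5) (nat_lit 3) (nat_lit 4) (nat_lit 1) (nat_lit 4) (nat_lit 395) (nat_lit 267) (nat_lit 238))) (XT.nd (nat_lit 44382) (nat_lit 0) (nat_lit 0) (XT.lf (nat_lit 0) (nat_lit 85921244243497) (nat_lit 152) (nat_lit 346135056282646) (nat_lit 0) (nat_lit 85921193416294) (nat_lit 1) (nat_lit 5) (nat_lit 3) (nat_lit 4) (nat_lit 1) (nat_lit 4) (nat_lit 396) (nat_lit 267) (nat_lit 237)) (XT.nd (nat_lit 78) (nat_lit 0) (nat_lit 0) (XT.lf (nat_lit 0) (nat_lit 489176876712) (nat_lit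 152) (nat_lit 1979538257187) (nat_lit 0) (nat_lit 489176876712) (nat_lit 1) (nat_lit 5) (nat_lit 3) (nat_lit 4) (nat_lit 1) (nat_lit 4) (nat_lit 364) (nat_lit 268) (nat_lit 268)) (XT.lf (nat_lit 0) (nat_lit 1125732215439) (nat_lit 152) (nat_lit 4551599734556) (nat_lit 0) (nat_lit 1125724474446) (nat_lit 1) (nat_lit 5) (nat_lit 3) (nat_lit 4) (nat_lit 1) (nat_lit 4) (nat_lit 365) (nat_lit 268) (nat_lit 267))))) (XT.nd (nat_lit 234) (nat_lit 0) (nat_lit 0) (XT.nd (nat_lit 78) (nat_lit 0) (nat_lit 0) (XT.lf (nat_lit 0) (nat_lit 1295163543694) (nat_lit 152) (nat_lit 5233115163160) (nat_lit 0) (nat_lit 1295149071403) (nat_lit 1) (nat_lit 5) (nat_lit 3) (nat_lit 4) (nat_lit 1) (nat_lit 4) (nat_lit 366) (nat_lit 268) (nat_lit 266)) (XT.nd (nat_lit 78) (nat_lit 0) (nat_lit 0) (XT.lf (nat_lit 0) (nat_lit 1489962698960) (nat_lit 152) (nat_lit 6016956797703) (nat_lit 0) (nat_lit 1489942373365) (nat_lit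 1) (nat_lit 5) (nat_lit 3) (nat_lit 4) (nat_lit 1) (nat_lit 4) (nat_lit 367) (nat_lit 268) (nat_lit 265)) (XT.lf (nat_lit 0) (nat_lit 1713940969057) (nat_lit 152) (nat_lit 6918460670164) (nat_lit 0) (nat_lit 1713915553633) (nat_lit 1) (nat_lit 5) (nat_lit 3) (nat_lit 4) (nat_lit 1) (nat_lit 4) (nat_lit 368) (nat_lit 268) (nat_lit 264)))) (XT.nd (nat_lit 78) (nat_lit 0) (nat_lit 0) (XT.lf (nat_lit 0) (nat_lit 1971480537530) (nat_lit 152) (nat_lit 7955264899787) (nat_lit 0) (nat_lit 1971450696169) (nat_lit 1) (nat_lit 5) (nat_lit 3) (nat_lit 4) (nat_lit 1) (nat_lit 4) (nat_lit 369) (nat_lit 268) (nat_lit 263)) (XT.nd (nat_lit 78) (nat_lit 0) (nat_lit 0) (XT.lf (nat_lit 0) (nat_lit 2267620222024) (nat_lit 152) (nat_lit 9147654786718) (nat_lit 0) (nat_lit 2267586532021) (nat_lit 1) (nat_lit 5) (nat_lit 3) (nat_lit 4) (nat_lit 1) (nat_lit 4) (nat_lit 370) (nat_lit 268) (nat_lit 262)) (XT.lf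 (nat_lit 0) (nat_lit 2608154059844) (nat_lit 152) (nat_lit 10518959698309) (nat_lit 0) (nat_lit 2608117023197) (nat_lit 1) (nat_lit 5) (nat_lit 3) (nat_lit 4) (nat_lit 1) (nat_lit 4) (nat_lit 371) (nat_lit 268) (nat_lit 261)))))) (XT.nd (nat_lit 390) (nat_lit 0) (nat_lit 0) (XT.nd (nat_lit 156) (nat_lit 0) (nat_lit 0) (XT.nd (nat_lit 78) (nat_lit 0) (nat_lit 0) (XT.lf (nat_lit 0) (nat_lit 2999744669556) (nat_lit 152) (nat_lit 12096009513265) (nat_lit 0) (nat_lit 2999704722783) (nat_lit 1) (nat_lit 5) (nat_lit 3) (nat_lit 4) (nat_lit 1) (nat_lit 4) (nat_lit 372) (nat_lit 268) (nat_lit 260)) (XT.lf (nat_lit 0) (nat_lit 3450053606568) (nat_lit 152) (nat_lit 13909659554053) (nat_lit 0) (nat_lit 3450011129250) (nat_lit 1) (nat_lit 5) (nat_lit 3) (nat_lit 4) (nat_lit 1) (nat_lit 4) (nat_lit 373) (nat_lit 268) (nat_lit 259))) (XT.nd (nat_lit 78) (nat_lit 0) (nat_lit 0) (XT.lf (nat_lit 0) (nat_lit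 3967891263125) (nat_lit 152) (nat_lit 15995394277993) (nat_lit 0) (nat_lit 3967846585333) (nat_lit 1) (nat_lit 5) (nat_lit 3) (nat_lit 4) (nat_lit 1) (nat_lit 4) (nat_lit 374) (nat_lit 268) (nat_lit 258)) (XT.nd (nat_lit 78) (nat_lit 0) (nat_lit 0) (XT.lf (nat_lit 0) (nat_lit 4563389245551) (nat_lit 152) (nat_lit 18394021538379) (nat_lit 0) (nat_lit 4563342654304) (nat_lit 1) (nat_lit 5) (nat_lit 3) (nat_lit 4) (nat_lit 1) (nat_lit 4) (nat_lit 375) (nat_lit 268) (nat_lit 257)) (XT.lf (nat_lit 0) (nat_lit 5248198601328) (nat_lit 152) (nat_lit 21152470999001) (nat_lit 0) (nat_lit 5248150346208) (nat_lit 1) (nat_lit 5) (nat_lit 3) (nat_lit 4) (nat_lit 1) (nat_lit 4) (nat_lit 376) (nat_lit 268) (nat_lit 256))))) (XT.nd (nat_lit 234) (nat_lit 0) (nat_lit 0) (XT.nd (nat_lit 78) (nat_lit 0) (nat_lit 0) (XT.lf (nat_lit 0) (nat_lit 6035717774375) (nat_lit 152) (nat_lit 24324712323219) (nat_lit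 0) (nat_lit 6035668072407) (nat_lit 1) (nat_lit 5) (nat_lit 3) (nat_lit 4) (nat_lit 1) (nat_lit 4) (nat_lit 377) (nat_lit 268) (nat_lit 255)) (XT.nd (nat_lit 78) (nat_lit 0) (nat_lit 0) (XT.lf (nat_lit 0) (nat_lit 6941354748510) (nat_lit 152) (nat_lit 27972811102160) (nat_lit 0) (nat_lit 6941303788415) (nat_lit 1) (nat_lit 5) (nat_lit 3) (nat_lit 4) (nat_lit 1) (nat_lit 4) (nat_lit 378) (nat_lit 268) (nat_lit 254)) (XT.lf (nat_lit 0) (nat_lit 7982828508012) (nat_lit 152) (nat_lit 32168143181498) (nat_lit 0) (nat_lit 7982776453893) (nat_lit 1) (nat_lit 5) (nat_lit 3) (nat_lit 4) (nat_lit 1) (nat_lit 4) (nat_lit 379) (nat_lit 268) (nat_lit 253)))) (XT.nd (nat_lit 78) (nat_lit 0) (nat_lit 0) (XT.lf (nat_lit 0) (nat_lit 9180515713392) (nat_lit 152) (nat_lit 36992791145394) (nat_lit 0) (nat_lit 9180462707947) (nat_lit 1) (nat_lit 5) (nat_lit 3) (nat_lit 4) (nat_lit 1) (nat_lit 4) (nat_lit 380)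 (nat_lit 268) (nat_lit 252)) (XT.nd (nat_lit 78) (nat_lit 0) (nat_lit 0) (XT.lf (nat_lit 0) (nat_lit 10557849375189) (nat_lit 152) (nat_lit 42541150280098) (nat_lit 0) (nat_lit 10557795542505) (nat_lit 1) (nat_lit 5) (nat_lit 3) (nat_lit 4) (nat_lit 1) (nat_lit 4) (nat_lit 381) (nat_lit 268) (nat_lit 251)) (XT.lf (nat_lit 0) (nat_lit 12141777325918) (nat_lit 152) (nat_lit 48921775438246) (nat_lit 0) (nat_lit 12141722773895) (nat_lit 1) (nat_lit 5) (nat_lit 3) (nat_lit 4) (nat_lit 1) (nat_lit 4) (nat_lit 382) (nat_lit 268) (nat_lit 250))))))))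
noncomputable def xc5 : XT := (XT.nd (nat_lit 45942) (nat_lit 0) (nat_lit 0) (XT.nd (nat_lit 858) (nat_lit 0) (nat_lit 0) (XT.nd (nat_lit 390) (nat_lit 0) (nat_lit 0) (XT.nd (nat_lit 156) (nat_lit 0) (nat_lit 0) (XT.nd (nat_lit 78) (nat_lit 0) (nat_lit 0) (XT.lf (nat_lit 0) (nat_lit 13963289460267) (nat_lit 152) (nat_lit 56259504938149) (nat_lit 0) (nat_lit 13963234282732) (nat_lit 1) (nat_lit 5) (nat_lit 3) (nat_lit 4) (nat_lit 1) (nat_lit 4) (nat_lit 383) (nat_lit 268) (nat_lit 249)) (XT.lf (nat_lit 0) (nat_lit 16058024059124) (nat_lit 152) (nat_lit 64697903052632) (nat_lit 0) (nat_lit 16057968337666) (nat_lit 1) (nat_lit 5) (nat_lit 3) (nat_lit 4) (nat_lit 1) (nat_lit 4) (nat_lit 384) (nat_lit 268) (nat_lit 248))) (XT.nd (nat_lit 78) (nat_lit 0) (nat_lit 0) (XT.lf (nat_lit 0) (nat_lit 18466965060295) (nat_lit 152) (nat_lit 74402068875239) (nat_lit 0) (nat_lit 18466908865860) (nat_lit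 1) (nat_lit 5) (nat_lit 3) (nat_lit 4) (nat_lit 1) (nat_lit 4) (nat_lit 385) (nat_lit 268) (nat_lit 247)) (XT.nd (nat_lit 78) (nat_lit 0) (nat_lit 0) (XT.lf (nat_lit 0) (nat_lit 21237243918148) (nat_lit 152) (nat_lit 85561866519890) (nat_lit 0) (nat_lit 21237187312429) (nat_lit 1) (nat_lit 5) (nat_lit 3) (nat_lit 4) (nat_lit 1) (nat_lit 4) (nat_lit 386) (nat_lit 268) (nat_lit 246)) (XT.lf (nat_lit 0) (nat_lit 24423061740774) (nat_lit 152) (nat_lit 98395639853546) (nat_lit 0) (nat_lit 24423004777416) (nat_lit 1) (nat_lit 5) (nat_lit 3) (nat_lit 4) (nat_lit 1) (nat_lit 4) (nat_lit 387) (nat_lit 268) (nat_lit 245))))) (XT.nd (nat_lit 234) (nat_lit 0) (nat_lit 0) (XT.nd (nat_lit 78) (nat_lit 0) (nat_lit 0) (XT.lf (nat_lit 0) (nat_lit 28086749746440) (nat_lit 152) (nat_lit 113154484441430) (nat_lit 0) (nat_lit 28086692472092) (nat_lit 1) (nat_lit 5) (nat_lit 3) (nat_lit 4) (nat_lit 1) (nat_lit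 4) (nat_lit 388) (nat_lit 268) (nat_lit 244)) (XT.nd (nat_lit 78) (nat_lit 0) (nat_lit 0) (XT.lf (nat_lit 0) (nat_lit 32299988787431) (nat_lit 152) (nat_lit 130127160286350) (nat_lit 0) (nat_lit 32299931242658) (nat_lit 1) (nat_lit 5) (nat_lit 3) (nat_lit 4) (nat_lit 1) (nat_lit 4) (nat_lit 389) (nat_lit 268) (nat_lit 243)) (XT.lf (nat_lit 0) (nat_lit 37145211801507) (nat_lit 152) (nat_lit 149645741480923) (nat_lit 0) (nat_lit 37145154021580) (nat_lit 1) (nat_lit 5) (nat_lit 3) (nat_lit 4) (nat_lit 1) (nat_lit 4) (nat_lit 390) (nat_lit 268) (nat_lit 242)))) (XT.nd (nat_lit 78) (nat_lit 0) (nat_lit 0) (XT.lf (nat_lit 0) (nat_lit 42717216630246) (nat_lit 152) (nat_lit 172092113309390) (nat_lit 0) (nat_lit 42717158645838) (nat_lit 1) (nat_lit 5) (nat_lit 3) (nat_lit 4) (nat_lit 1) (nat_lit 4) (nat_lit 391) (nat_lit 268) (nat_lit 241)) (XT.nd (nat_lit 78) (nat_lit 0) (nat_lit 0) (XT.lf (nat_lit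 0) (nat_lit 49125020759429) (nat_lit 152) (nat_lit 197905443916223) (nat_lit 0) (nat_lit 49124962597211) (nat_lit 1) (nat_lit 5) (nat_lit 3) (nat_lit 4) (nat_lit 1) (nat_lit 4) (nat_lit 392) (nat_lit 268) (nat_lit 240)) (XT.lf (nat_lit 0) (nat_lit 56493994269843) (nat_lit 152) (nat_lit 227590776726336) (nat_lit 0) (nat_lit 56493935953009) (nat_lit 1) (nat_lit 5) (nat_lit 3) (nat_lit 4) (nat_lit 1) (nat_lit 4) (nat_lit 393) (nat_lit 268) (nat_lit 239)))))) (XT.nd (nat_lit 44616) (nat_lit 0) (nat_lit 0) (XT.nd (nat_lit 44382) (nat_lit 0) (nat_lit 0) (XT.nd (nat_lit 78) (nat_lit 0) (nat_lit 0) (XT.lf (nat_lit 0) (nat_lit 64968312730171) (nat_lit 152) (nat_lit 261728911729493) (nat_lit 0) (nat_lit 64968254278887) (nat_lit 1) (nat_lit 5) (nat_lit 3) (nat_lit 4) (nat_lit 1) (nat_lit 4) (nat_lit 394) (nat_lit 268) (nat_lit 238)) (XT.lf (nat_lit 0) (nat_lit 74713778023332) (nat_lit 152) (nat_lit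 300987768958365) (nat_lit 0) (nat_lit 74713719455135) (nat_lit 1) (nat_lit 5) (nat_lit 3) (nat_lit 4) (nat_lit 1) (nat_lit 4) (nat_lit 395) (nat_lit 268) (nat_lit 237))) (XT.nd (nat_lit 78) (nat_lit 0) (nat_lit 0) (XT.lf (nat_lit 0) (nat_lit 369319286650) (nat_lit 152) (nat_lit 1498039848923) (nat_lit 0) (nat_lit 369319286650) (nat_lit 1) (nat_lit 5) (nat_lit 3) (nat_lit 4) (nat_lit 1) (nat_lit 4) (nat_lit 362) (nat_lit 269) (nat_lit 269)) (XT.nd (nat_lit 78) (nat_lit 0) (nat_lit 0) (XT.lf (nat_lit 0) (nat_lit 850153568145) (nat_lit 152) (nat_lit 3443952657003) (nat_lit 0) (nat_lit 850144666003) (nat_lit 1) (nat_lit 5) (nat_lit 3) (nat_lit 4) (nat_lit 1) (nat_lit 4) (nat_lit 363) (nat_lit 269) (nat_lit 268)) (XT.lf (nat_lit 0) (nat_lit 978333823697) (nat_lit 152) (nat_lit 3959137344237) (nat_lit 0) (nat_lit 978317180562) (nat_lit 1) (nat_lit 5) (nat_lit 3) (nat_lit 4) (nat_lit 1) (nat_lit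 4) (nat_lit 364) (nat_lit 269) (nat_lit 267))))) (XT.nd (nat_lit 234) (nat_lit 0) (nat_lit 0) (XT.nd (nat_lit 78) (nat_lit 0) (nat_lit 0) (XT.lf (nat_lit 0) (nat_lit 1125687214520) (nat_lit 152) (nat_lit 4551713459951) (nat_lit 0) (nat_lit 1125663840086) (nat_lit 1) (nat_lit 5) (nat_lit 3) (nat_lit 4) (nat_lit 1) (nat_lit 4) (nat_lit 365) (nat_lit 269) (nat_lit 266)) (XT.nd (nat_lit 78) (nat_lit 0) (nat_lit 0) (XT.lf (nat_lit 0) (nat_lit 1295096741739) (nat_lit 152) (nat_lit 5233274884671) (nat_lit 0) (nat_lit 1295067514002) (nat_lit 1) (nat_lit 5) (nat_lit 3) (nat_lit 4) (nat_lit 1) (nat_lit 4) (nat_lit 366) (nat_lit 269) (nat_lit 265)) (XT.lf (nat_lit 0) (nat_lit 1489876939582) (nat_lit 152) (nat_lit 6017156515835) (nat_lit 0) (nat_lit 1489842622017) (nat_lit 1) (nat_lit 5) (nat_lit 3) (nat_lit 4) (nat_lit 1) (nat_lit 4) (nat_lit 367) (nat_lit 269) (nat_lit 264)))) (XT.nd (nat_lit 78)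 (nat_lit 0) (nat_lit 0) (XT.lf (nat_lit 0) (nat_lit 1713838724963) (nat_lit 152) (nat_lit 6918695167967) (nat_lit 0) (nat_lit 1713799981460) (nat_lit 1) (nat_lit 5) (nat_lit 3) (nat_lit 4) (nat_lit 1) (nat_lit 4) (nat_lit 368) (nat_lit 269) (nat_lit 263)) (XT.nd (nat_lit 78) (nat_lit 0) (nat_lit 0) (XT.lf (nat_lit 0) (nat_lit 1971363958902) (nat_lit 152) (nat_lit 7955529640783) (nat_lit 0) (nat_lit 1971321366757) (nat_lit 1) (nat_lit 5) (nat_lit 3) (nat_lit 4) (nat_lit 1) (nat_lit 4) (nat_lit 369) (nat_lit 269) (nat_lit 262)) (XT.lf (nat_lit 0) (nat_lit 2267491178583) (nat_lit 152) (nat_lit 9147945826142) (nat_lit 0) (nat_lit 2267445239793) (nat_lit 1) (nat_lit 5) (nat_lit 3) (nat_lit 4) (nat_lit 1) (nat_lit 4) (nat_lit 370) (nat_lit 269) (nat_lit 261))))))) (XT.nd (nat_lit 858) (nat_lit 0) (nat_lit 0) (XT.nd (nat_lit 390) (nat_lit 0) (nat_lit 0) (XT.nd (nat_lit 156) (nat_lit 0) (nat_lit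 0) (XT.nd (nat_lit 78) (nat_lit 0) (nat_lit 0) (XT.lf (nat_lit 0) (nat_lit 2608014177435) (nat_lit 152) (nat_lit 10519273605932) (nat_lit 0) (nat_lit 2607965328519) (nat_lit 1) (nat_lit 5) (nat_lit 3) (nat_lit 4) (nat_lit 1) (nat_lit 4) (nat_lit 371) (nat_lit 269) (nat_lit 260)) (XT.lf (nat_lit 0) (nat_lit 2999595361957) (nat_lit 152) (nat_lit 12096343306278) (nat_lit 0) (nat_lit 2999543982497) (nat_lit 1) (nat_lit 5) (nat_lit 3) (nat_lit 4) (nat_lit 1) (nat_lit 4) (nat_lit 372) (nat_lit 269) (nat_lit 259))) (XT.nd (nat_lit 78) (nat_lit 0) (nat_lit 0) (XT.lf (nat_lit 0) (nat_lit 3449896103152) (nat_lit 152) (nat_lit 13910010638710) (nat_lit 0) (nat_lit 3449842523218) (nat_lit 1) (nat_lit 5) (nat_lit 3) (nat_lit 4) (nat_lit 1) (nat_lit 4) (nat_lit 373) (nat_lit 269) (nat_lit 258)) (XT.nd (nat_lit 78) (nat_lit 0) (nat_lit 0) (XT.lf (nat_lit 0) (nat_lit 3967726632911) (nat_lit 152) (nat_lit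 15995760398861) (nat_lit 0) (nat_lit 3967671139523) (nat_lit 1) (nat_lit 5) (nat_lit 3) (nat_lit 4) (nat_lit 1) (nat_lit 4) (nat_lit 374) (nat_lit 269) (nat_lit 257)) (XT.lf (nat_lit 0) (nat_lit 4563218418122) (nat_lit 152) (nat_lit 18394400734214) (nat_lit 0) (nat_lit 4563161260860) (nat_lit 1) (nat_lit 5) (nat_lit 3) (nat_lit 4) (nat_lit 1) (nat_lit 4) (nat_lit 375) (nat_lit 269) (nat_lit 256))))) (XT.nd (nat_lit 234) (nat_lit 0) (nat_lit 0) (XT.nd (nat_lit 78) (nat_lit 0) (nat_lit 0) (XT.lf (nat_lit 0) (nat_lit 5248022385017) (nat_lit 152) (nat_lit 21152861564372) (nat_lit 0) (nat_lit 5247963780908) (nat_lit 1) (nat_lit 5) (nat_lit 3) (nat_lit 4) (nat_lit 1) (nat_lit 4) (nat_lit 376) (nat_lit 269) (nat_lit 255)) (XT.nd (nat_lit 78) (nat_lit 0) (nat_lit 0) (XT.lf (nat_lit 0) (nat_lit 6035536872079) (nat_lit 152) (nat_lit 24325112775144) (nat_lit 0) (nat_lit 6035477009841) (nat_lit 1)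 (nat_lit 5) (nat_lit 3) (nat_lit 4) (nat_lit 1) (nat_lit 4) (nat_lit 377) (nat_lit 269) (nat_lit 254)) (XT.lf (nat_lit 0) (nat_lit 6941169771445) (nat_lit 152) (nat_lit 27973220151087) (nat_lit 0) (nat_lit 6941108815184) (nat_lit 1) (nat_lit 5) (nat_lit 3) (nat_lit 4) (nat_lit 1) (nat_lit 4) (nat_lit 378) (nat_lit 269) (nat_lit 253)))) (XT.nd (nat_lit 78) (nat_lit 0) (nat_lit 0) (XT.lf (nat_lit 0) (nat_lit 7982639987669) (nat_lit 152) (nat_lit 32168559706079) (nat_lit 0) (nat_lit 7982578080082) (nat_lit 1) (nat_lit 5) (nat_lit 3) (nat_lit 4) (nat_lit 1) (nat_lit 4) (nat_lit 379) (nat_lit 269) (nat_lit 252)) (XT.nd (nat_lit 78) (nat_lit 0) (nat_lit 0) (XT.lf (nat_lit 0) (nat_lit 9180324111937) (nat_lit 152) (nat_lit 36993214170544) (nat_lit 0) (nat_lit 9180261377111) (nat_lit 1) (nat_lit 5) (nat_lit 3) (nat_lit 4) (nat_lit 1) (nat_lit 4) (nat_lit 380) (nat_lit 269) (nat_lit 251)) (XT.lf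 (nat_lit 0) (nat_lit 10557655094508) (nat_lit 152) (nat_lit 42541578957918) (nat_lit 0) (nat_lit 10557591640343) (nat_lit 1) (nat_lit 5) (nat_lit 3) (nat_lit 4) (nat_lit 1) (nat_lit 4) (nat_lit 381) (nat_lit 269) (nat_lit 250)))))) (XT.nd (nat_lit 468) (nat_lit 0) (nat_lit 0) (XT.nd (nat_lit 234) (nat_lit 0) (nat_lit 0) (XT.nd (nat_lit 78) (nat_lit 0) (nat_lit 0) (XT.lf (nat_lit 0) (nat_lit 12141580715474) (nat_lit 152) (nat_lit 48922209031430) (nat_lit 0) (nat_lit 12141516635797) (nat_lit 1) (nat_lit 5) (nat_lit 3) (nat_lit 4) (nat_lit 1) (nat_lit 4) (nat_lit 382) (nat_lit 269) (nat_lit 249)) (XT.nd (nat_lit 78) (nat_lit 0) (nat_lit 0) (XT.lf (nat_lit 0) (nat_lit 13963090823942) (nat_lit 152) (nat_lit 56259942805563) (nat_lit 0) (nat_lit 13963026200342) (nat_lit 1) (nat_lit 5) (nat_lit 3) (nat_lit 4) (nat_lit 1) (nat_lit 4) (nat_lit 383) (nat_lit 269) (nat_lit 248)) (XT.lf (nat_lit 0)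 (nat_lit 16057823661164) (nat_lit 152) (nat_lit 64698344636767) (nat_lit 0) (nat_lit 16057758564587) (nat_lit 1) (nat_lit 5) (nat_lit 3) (nat_lit 4) (nat_lit 1) (nat_lit 4) (nat_lit 384) (nat_lit 269) (nat_lit 247)))) (XT.nd (nat_lit 78) (nat_lit 0) (nat_lit 0) (XT.lf (nat_lit 0) (nat_lit 18466763130478) (nat_lit 152) (nat_lit 74402513691306) (nat_lit 0) (nat_lit 18466697622616) (nat_lit 1) (nat_lit 5) (nat_lit 3) (nat_lit 4) (nat_lit 1) (nat_lit 4) (nat_lit 385) (nat_lit 269) (nat_lit 246)) (XT.nd (nat_lit 78) (nat_lit 0) (nat_lit 0) (XT.lf (nat_lit 0) (nat_lit 21237040656282) (nat_lit 152) (nat_lit 85562314146332) (nat_lit 0) (nat_lit 21236974790782) (nat_lit 1) (nat_lit 5) (nat_lit 3) (nat_lit 4) (nat_lit 1) (nat_lit 4) (nat_lit 386) (nat_lit 269) (nat_lit 245)) (XT.lf (nat_lit 0) (nat_lit 24422857320604) (nat_lit 152) (nat_lit 98396089923793) (nat_lit 0) (nat_lit 24422791144114) (nat_lit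 1) (nat_lit 5) (nat_lit 3) (nat_lit 4) (nat_lit 1) (nat_lit 4) (nat_lit 387) (nat_lit 269) (nat_lit 244))))) (XT.nd (nat_lit 234) (nat_lit 0) (nat_lit 0) (XT.nd (nat_lit 78) (nat_lit 0) (nat_lit 0) (XT.lf (nat_lit 0) (nat_lit 28086544319049) (nat_lit 152) (nat_lit 113154936636725) (nat_lit 0) (nat_lit 28086477872133) (nat_lit 1) (nat_lit 5) (nat_lit 3) (nat_lit 4) (nat_lit 1) (nat_lit 4) (nat_lit 388) (nat_lit 269) (nat_lit 243)) (XT.nd (nat_lit 78) (nat_lit 0) (nat_lit 0) (XT.lf (nat_lit 0) (nat_lit 32299782484197) (nat_lit 152) (nat_lit 130127614329513) (nat_lit 0) (nat_lit 32299715802128) (nat_lit 1) (nat_lit 5) (nat_lit 3) (nat_lit 4) (nat_lit 1) (nat_lit 4) (nat_lit 389) (nat_lit 269) (nat_lit 242)) (XT.lf (nat_lit 0) (nat_lit 37145004736669) (nat_lit 152) (nat_lit 149646197130927) (nat_lit 0) (nat_lit 37144937850119) (nat_lit 1) (nat_lit 5) (nat_lit 3) (nat_lit 4) (nat_lit 1) (nat_lit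 4) (nat_lit 390) (nat_lit 269) (nat_lit 241)))) (XT.nd (nat_lit 78) (nat_lit 0) (nat_lit 0) (XT.lf (nat_lit 0) (nat_lit 42717008903144) (nat_lit 152) (nat_lit 172092570356647) (nat_lit 0) (nat_lit 42716941838784) (nat_lit 1) (nat_lit 5) (nat_lit 3) (nat_lit 4) (nat_lit 1) (nat_lit 4) (nat_lit 391) (nat_lit 269) (nat_lit 240)) (XT.nd (nat_lit 78) (nat_lit 0) (nat_lit 0) (XT.lf (nat_lit 0) (nat_lit 49124812456445) (nat_lit 152) (nat_lit 197905902178483) (nat_lit 0) (nat_lit 49124745237468) (nat_lit 1) (nat_lit 5) (nat_lit 3) (nat_lit 4) (nat_lit 1) (nat_lit 4) (nat_lit 392) (nat_lit 269) (nat_lit 239)) (XT.lf (nat_lit 0) (nat_lit 56493785466092) (nat_lit 152) (nat_lit 227591236045120) (nat_lit 0) (nat_lit 56493718112666) (nat_lit 1) (nat_lit 5) (nat_lit 3) (nat_lit 4) (nat_lit 1) (nat_lit 4) (nat_lit 393) (nat_lit 269) (nat_lit 238))))))))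
noncomputable def xc6 : XT := (XT.nd (nat_lit 45786) (nat_lit 0) (nat_lit 0) (XT.nd (nat_lit 44928) (nat_lit 0) (nat_lit 0) (XT.nd (nat_lit 44460) (nat_lit 0) (nat_lit 0) (XT.nd (nat_lit 44226) (nat_lit 0) (nat_lit 0) (XT.nd (nat_lit 78) (nat_lit 0) (nat_lit 0) (XT.lf (nat_lit 0) (nat_lit 64968103490971) (nat_lit 152) (nat_lit 261729371966994) (nat_lit 0) (nat_lit 64968036020632) (nat_lit 1) (nat_lit 5) (nat_lit 3) (nat_lit 4) (nat_lit 1) (nat_lit 4) (nat_lit 394) (nat_lit 269) (nat_lit 237)) (XT.lf (nat_lit 0) (nat_lit 74713568405480) (nat_lit 152) (nat_lit 300988229994750) (nat_lit 0) (nat_lit 74713500833479) (nat_lit 1) (nat_lit 5) (nat_lit 3) (nat_lit 4) (nat_lit 1) (nat_lit 4) (nat_lit 395) (nat_lit 269) (nat_lit 236))) (XT.nd (nat_lit 78) (nat_lit 0) (nat_lit 0) (XT.lf (nat_lit 0) (nat_lit 278604422317) (nat_lit 152) (nat_lit 1134141556438) (nat_lit 0) (nat_lit 278604422317) (nat_lit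 1) (nat_lit 5) (nat_lit 3) (nat_lit 4) (nat_lit 1) (nat_lit 4) (nat_lit 360) (nat_lit 270) (nat_lit 270)) (XT.nd (nat_lit 78) (nat_lit 0) (nat_lit 0) (XT.lf (nat_lit 0) (nat_lit 641617261507) (nat_lit 152) (nat_lit 2606755734959) (nat_lit 0) (nat_lit 641607024044) (nat_lit 1) (nat_lit 5) (nat_lit 3) (nat_lit 4) (nat_lit 1) (nat_lit 4) (nat_lit 361) (nat_lit 270) (nat_lit 269)) (XT.lf (nat_lit 0) (nat_lit 738615654113) (nat_lit 152) (nat_lit 2996149652189) (nat_lit 0) (nat_lit 738596514507) (nat_lit 1) (nat_lit 5) (nat_lit 3) (nat_lit 4) (nat_lit 1) (nat_lit 4) (nat_lit 362) (nat_lit 270) (nat_lit 268))))) (XT.nd (nat_lit 234) (nat_lit 0) (nat_lit 0) (XT.nd (nat_lit 78) (nat_lit 0) (nat_lit 0) (XT.lf (nat_lit 0) (nat_lit 850101817088) (nat_lit 152) (nat_lit 3444083441208) (nat_lit 0) (nat_lit 850074936490) (nat_lit 1) (nat_lit 5) (nat_lit 3) (nat_lit 4) (nat_lit 1) (nat_lit 4) (nat_lit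 363) (nat_lit 270) (nat_lit 267)) (XT.nd (nat_lit 78) (nat_lit 0) (nat_lit 0) (XT.lf (nat_lit 0) (nat_lit 978257001448) (nat_lit 152) (nat_lit 3959321023974) (nat_lit 0) (nat_lit 978223389551) (nat_lit 1) (nat_lit 5) (nat_lit 3) (nat_lit 4) (nat_lit 1) (nat_lit 4) (nat_lit 364) (nat_lit 270) (nat_lit 266)) (XT.lf (nat_lit 0) (nat_lit 1125588591235) (nat_lit 152) (nat_lit 4551943135804) (nat_lit 0) (nat_lit 1125549126035) (nat_lit 1) (nat_lit 5) (nat_lit 3) (nat_lit 4) (nat_lit 1) (nat_lit 4) (nat_lit 365) (nat_lit 270) (nat_lit 265)))) (XT.nd (nat_lit 78) (nat_lit 0) (nat_lit 0) (XT.lf (nat_lit 0) (nat_lit 1294979161031) (nat_lit 152) (nat_lit 5233544557145) (nat_lit 0) (nat_lit 1294934606003) (nat_lit 1) (nat_lit 5) (nat_lit 3) (nat_lit 4) (nat_lit 1) (nat_lit 4) (nat_lit 366) (nat_lit 270) (nat_lit 264)) (XT.nd (nat_lit 78) (nat_lit 0) (nat_lit 0) (XT.lf (nat_lit 0) (nat_lit 1489742874159)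 (nat_lit 152) (nat_lit 6017460967981) (nat_lit 0) (nat_lit 1489693893193) (nat_lit 1) (nat_lit 5) (nat_lit 3) (nat_lit 4) (nat_lit 1) (nat_lit 4) (nat_lit 367) (nat_lit 270) (nat_lit 263)) (XT.lf (nat_lit 0) (nat_lit 1713690325005) (nat_lit 152) (nat_lit 6919029863305) (nat_lit 0) (nat_lit 1713637495397) (nat_lit 1) (nat_lit 5) (nat_lit 3) (nat_lit 4) (nat_lit 1) (nat_lit 4) (nat_lit 368) (nat_lit 270) (nat_lit 262)))))) (XT.nd (nat_lit 390) (nat_lit 0) (nat_lit 0) (XT.nd (nat_lit 156) (nat_lit 0) (nat_lit 0) (XT.nd (nat_lit 78) (nat_lit 0) (nat_lit 0) (XT.lf (nat_lit 0) (nat_lit 1971203094131) (nat_lit 152) (nat_lit 7955890634549) (nat_lit 0) (nat_lit 1971146917878) (nat_lit 1) (nat_lit 5) (nat_lit 3) (nat_lit 4) (nat_lit 1) (nat_lit 4) (nat_lit 369) (nat_lit 270) (nat_lit 261)) (XT.lf (nat_lit 0) (nat_lit 2267319474844) (nat_lit 152) (nat_lit 9148329688107) (nat_lit 0) (nat_lit 2267260388465)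 (nat_lit 1) (nat_lit 5) (nat_lit 3) (nat_lit 4) (nat_lit 1) (nat_lit 4) (nat_lit 370) (nat_lit 270) (nat_lit 260))) (XT.nd (nat_lit 78) (nat_lit 0) (nat_lit 0) (XT.lf (nat_lit 0) (nat_lit 2607833048507) (nat_lit 152) (nat_lit 10519677353286) (nat_lit 0) (nat_lit 2607771431583) (nat_lit 1) (nat_lit 5) (nat_lit 3) (nat_lit 4) (nat_lit 1) (nat_lit 4) (nat_lit 371) (nat_lit 270) (nat_lit 259)) (XT.nd (nat_lit 78) (nat_lit 0) (nat_lit 0) (XT.lf (nat_lit 0) (nat_lit 2999406037212) (nat_lit 152) (nat_lit 12096764345276) (nat_lit 0) (nat_lit 2999342219815) (nat_lit 1) (nat_lit 5) (nat_lit 3) (nat_lit 4) (nat_lit 1) (nat_lit 4) (nat_lit 372) (nat_lit 270) (nat_lit 258)) (XT.lf (nat_lit 0) (nat_lit 3449699651609) (nat_lit 152) (nat_lit 13910446713919) (nat_lit 0) (nat_lit 3449633920757) (nat_lit 1) (nat_lit 5) (nat_lit 3) (nat_lit 4) (nat_lit 1) (nat_lit 4) (nat_lit 373) (nat_lit 270) (nat_lit 257)))))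 (XT.nd (nat_lit 234) (nat_lit 0) (nat_lit 0) (XT.nd (nat_lit 78) (nat_lit 0) (nat_lit 0) (XT.lf (nat_lit 0) (nat_lit 3967523984154) (nat_lit 152) (nat_lit 15996209549037) (nat_lit 0) (nat_lit 3967456589428) (nat_lit 1) (nat_lit 5) (nat_lit 3) (nat_lit 4) (nat_lit 1) (nat_lit 4) (nat_lit 374) (nat_lit 270) (nat_lit 256)) (XT.nd (nat_lit 78) (nat_lit 0) (nat_lit 0) (XT.lf (nat_lit 0) (nat_lit 4563010380482) (nat_lit 152) (nat_lit 18394861253926) (nat_lit 0) (nat_lit 4562941538909) (nat_lit 1) (nat_lit 5) (nat_lit 3) (nat_lit 4) (nat_lit 1) (nat_lit 4) (nat_lit 375) (nat_lit 270) (nat_lit 255)) (XT.lf (nat_lit 0) (nat_lit 5247809661392) (nat_lit 152) (nat_lit 21153331970638) (nat_lit 0) (nat_lit 5247739561691) (nat_lit 1) (nat_lit 5) (nat_lit 3) (nat_lit 4) (nat_lit 1) (nat_lit 4) (nat_lit 376) (nat_lit 270) (nat_lit 254)))) (XT.nd (nat_lit 78) (nat_lit 0) (nat_lit 0) (XT.lf (nat_lit 0) (nat_lit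 6035320073684) (nat_lit 152) (nat_lit 24325591778412) (nat_lit 0) (nat_lit 6035248879959) (nat_lit 1) (nat_lit 5) (nat_lit 3) (nat_lit 4) (nat_lit 1) (nat_lit 4) (nat_lit 377) (nat_lit 270) (nat_lit 253)) (XT.nd (nat_lit 78) (nat_lit 0) (nat_lit 0) (XT.lf (nat_lit 0) (nat_lit 6940949429773) (nat_lit 152) (nat_lit 27973706630010) (nat_lit 0) (nat_lit 6940877284722) (nat_lit 1) (nat_lit 5) (nat_lit 3) (nat_lit 4) (nat_lit 1) (nat_lit 4) (nat_lit 378) (nat_lit 270) (nat_lit 252)) (XT.lf (nat_lit 0) (nat_lit 7982416564885) (nat_lit 152) (nat_lit 32169052685572) (nat_lit 0) (nat_lit 7982343592596) (nat_lit 1) (nat_lit 5) (nat_lit 3) (nat_lit 4) (nat_lit 1) (nat_lit 4) (nat_lit 379) (nat_lit 270) (nat_lit 251))))))) (XT.nd (nat_lit 858) (nat_lit 0) (nat_lit 0) (XT.nd (nat_lit 390) (nat_lit 0) (nat_lit 0) (XT.nd (nat_lit 156) (nat_lit 0) (nat_lit 0) (XT.nd (nat_lit 78) (nat_lit 0) (nat_lit 0)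 (XT.lf (nat_lit 0) (nat_lit 9180098009927) (nat_lit 152) (nat_lit 36993712802706) (nat_lit 0) (nat_lit 9180024318298) (nat_lit 1) (nat_lit 5) (nat_lit 3) (nat_lit 4) (nat_lit 1) (nat_lit 4) (nat_lit 380) (nat_lit 270) (nat_lit 250)) (XT.lf (nat_lit 0) (nat_lit 10557426662734) (nat_lit 152) (nat_lit 42542082505443) (nat_lit 0) (nat_lit 10557352345594) (nat_lit 1) (nat_lit 5) (nat_lit 3) (nat_lit 4) (nat_lit 1) (nat_lit 4) (nat_lit 381) (nat_lit 270) (nat_lit 249))) (XT.nd (nat_lit 78) (nat_lit 0) (nat_lit 0) (XT.lf (nat_lit 0) (nat_lit 12141350257820) (nat_lit 152) (nat_lit 48922716853185) (nat_lit 0) (nat_lit 12141275396756) (nat_lit 1) (nat_lit 5) (nat_lit 3) (nat_lit 4) (nat_lit 1) (nat_lit 4) (nat_lit 382) (nat_lit 270) (nat_lit 248)) (XT.nd (nat_lit 78) (nat_lit 0) (nat_lit 0) (XT.lf (nat_lit 0) (nat_lit 13962858604653) (nat_lit 152) (nat_lit 56260454344040) (nat_lit 0) (nat_lit 13962783270612)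 (nat_lit 1) (nat_lit 5) (nat_lit 3) (nat_lit 4) (nat_lit 1) (nat_lit 4) (nat_lit 383) (nat_lit 270) (nat_lit 247)) (XT.lf (nat_lit 0) (nat_lit 16057589910018) (nat_lit 152) (nat_lit 64698859407176) (nat_lit 0) (nat_lit 16057514164693) (nat_lit 1) (nat_lit 5) (nat_lit 3) (nat_lit 4) (nat_lit 1) (nat_lit 4) (nat_lit 384) (nat_lit 270) (nat_lit 246))))) (XT.nd (nat_lit 234) (nat_lit 0) (nat_lit 0) (XT.nd (nat_lit 78) (nat_lit 0) (nat_lit 0) (XT.lf (nat_lit 0) (nat_lit 18466528047282) (nat_lit 152) (nat_lit 74403031272090) (nat_lit 0) (nat_lit 18466451944319) (nat_lit 1) (nat_lit 5) (nat_lit 3) (nat_lit 4) (nat_lit 1) (nat_lit 4) (nat_lit 385) (nat_lit 270) (nat_lit 245)) (XT.nd (nat_lit 78) (nat_lit 0) (nat_lit 0) (XT.lf (nat_lit 0) (nat_lit 21236804414783) (nat_lit 152) (nat_lit 85562834170922) (nat_lit 0) (nat_lit 21236728000830) (nat_lit 1) (nat_lit 5) (nat_lit 3) (nat_lit 4) (nat_lit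 1) (nat_lit 4) (nat_lit 386) (nat_lit 270) (nat_lit 244)) (XT.lf (nat_lit 0) (nat_lit 24422620071884) (nat_lit 152) (nat_lit 98396612073430) (nat_lit 0) (nat_lit 24422543387505) (nat_lit 1) (nat_lit 5) (nat_lit 3) (nat_lit 4) (nat_lit 1) (nat_lit 4) (nat_lit 387) (nat_lit 270) (nat_lit 243)))) (XT.nd (nat_lit 78) (nat_lit 0) (nat_lit 0) (XT.lf (nat_lit 0) (nat_lit 28086306194485) (nat_lit 152) (nat_lit 113155460634230) (nat_lit 0) (nat_lit 28086229274953) (nat_lit 1) (nat_lit 5) (nat_lit 3) (nat_lit 4) (nat_lit 1) (nat_lit 4) (nat_lit 388) (nat_lit 270) (nat_lit 242)) (XT.nd (nat_lit 78) (nat_lit 0) (nat_lit 0) (XT.lf (nat_lit 0) (nat_lit 32299543598029) (nat_lit 152) (nat_lit 130128139933858) (nat_lit 0) (nat_lit 32299466474016) (nat_lit 1) (nat_lit 5) (nat_lit 3) (nat_lit 4) (nat_lit 1) (nat_lit 4) (nat_lit 389) (nat_lit 270) (nat_lit 241)) (XT.lf (nat_lit 0) (nat_lit 37144765188237)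 (nat_lit 152) (nat_lit 149646724132526) (nat_lit 0) (nat_lit 37144687886414) (nat_lit 1) (nat_lit 5) (nat_lit 3) (nat_lit 4) (nat_lit 1) (nat_lit 4) (nat_lit 390) (nat_lit 270) (nat_lit 240)))))) (XT.nd (nat_lit 44382) (nat_lit 0) (nat_lit 0) (XT.nd (nat_lit 156) (nat_lit 0) (nat_lit 0) (XT.nd (nat_lit 78) (nat_lit 0) (nat_lit 0) (XT.lf (nat_lit 0) (nat_lit 42716768778830) (nat_lit 152) (nat_lit 172093098573249) (nat_lit 0) (nat_lit 42716691322391) (nat_lit 1) (nat_lit 5) (nat_lit 3) (nat_lit 4) (nat_lit 1) (nat_lit 4) (nat_lit 391) (nat_lit 270) (nat_lit 239)) (XT.lf (nat_lit 0) (nat_lit 49124571831364) (nat_lit 152) (nat_lit 197906431451609) (nat_lit 0) (nat_lit 49124494240475) (nat_lit 1) (nat_lit 5) (nat_lit 3) (nat_lit 4) (nat_lit 1) (nat_lit 4) (nat_lit 392) (nat_lit 270) (nat_lit 238))) (XT.nd (nat_lit 78) (nat_lit 0) (nat_lit 0) (XT.lf (nat_lit 0) (nat_lit 56493544405563) (nat_lit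 152) (nat_lit 227591766236963) (nat_lit 0) (nat_lit 56493466697761) (nat_lit 1) (nat_lit 5) (nat_lit 3) (nat_lit 4) (nat_lit 1) (nat_lit 4) (nat_lit 393) (nat_lit 270) (nat_lit 237)) (XT.nd (nat_lit 44070) (nat_lit 0) (nat_lit 0) (XT.lf (nat_lit 0) (nat_lit 64967862051790) (nat_lit 152) (nat_lit 261729902957721) (nat_lit 0) (nat_lit 64967784242325) (nat_lit 1) (nat_lit 5) (nat_lit 3) (nat_lit 4) (nat_lit 1) (nat_lit 4) (nat_lit 394) (nat_lit 270) (nat_lit 236)) (XT.lf (nat_lit 0) (nat_lit 209912849498) (nat_lit 152) (nat_lit 859193398733) (nat_lit 0) (nat_lit 209912849498) (nat_lit 1) (nat_lit 5) (nat_lit 3) (nat_lit 4) (nat_lit 1) (nat_lit 4) (nat_lit 358) (nat_lit 271) (nat_lit 271))))) (XT.nd (nat_lit 234) (nat_lit 0) (nat_lit 0) (XT.nd (nat_lit 78) (nat_lit 0) (nat_lit 0) (XT.lf (nat_lit 0) (nat_lit 483750707550) (nat_lit 152) (nat_lit 1974109495509) (nat_lit 0) (nat_lit 483738934467)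 (nat_lit 1) (nat_lit 5) (nat_lit 3) (nat_lit 4) (nat_lit 1) (nat_lit 4) (nat_lit 359) (nat_lit 271) (nat_lit 270)) (XT.nd (nat_lit 78) (nat_lit 0) (nat_lit 0) (XT.lf (nat_lit 0) (nat_lit 557182487569) (nat_lit 152) (nat_lit 2268363560370) (nat_lit 0) (nat_lit 557160477023) (nat_lit 1) (nat_lit 5) (nat_lit 3) (nat_lit 4) (nat_lit 1) (nat_lit 4) (nat_lit 360) (nat_lit 271) (nat_lit 269)) (XT.lf (nat_lit 0) (nat_lit 641557747792) (nat_lit 152) (nat_lit 2606906136794) (nat_lit 0) (nat_lit 641526835103) (nat_lit 1) (nat_lit 5) (nat_lit 3) (nat_lit 4) (nat_lit 1) (nat_lit 4) (nat_lit 361) (nat_lit 271) (nat_lit 268)))) (XT.nd (nat_lit 78) (nat_lit 0) (nat_lit 0) (XT.lf (nat_lit 0) (nat_lit 738527308527) (nat_lit 152) (nat_lit 2996360883886) (nat_lit 0) (nat_lit 738488654845) (nat_lit 1) (nat_lit 5) (nat_lit 3) (nat_lit 4) (nat_lit 1) (nat_lit 4) (nat_lit 362) (nat_lit 271) (nat_lit 267)) (XT.nd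 (nat_lit 78) (nat_lit 0) (nat_lit 0) (XT.lf (nat_lit 0) (nat_lit 849988400311) (nat_lit 152) (nat_lit 3444347568438) (nat_lit 0) (nat_lit 849943015331) (nat_lit 1) (nat_lit 5) (nat_lit 3) (nat_lit 4) (nat_lit 1) (nat_lit 4) (nat_lit 363) (nat_lit 271) (nat_lit 266)) (XT.lf (nat_lit 0) (nat_lit 978121783635) (nat_lit 152) (nat_lit 3959631147320) (nat_lit 0) (nat_lit 978070545352) (nat_lit 1) (nat_lit 5) (nat_lit 3) (nat_lit 4) (nat_lit 1) (nat_lit 4) (nat_lit 364) (nat_lit 271) (nat_lit 265))))))))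
noncomputable def xc7 : XT := (XT.nd (nat_lit 1716) (nat_lit 0) (nat_lit 0) (XT.nd (nat_lit 858) (nat_lit 0) (nat_lit 0) (XT.nd (nat_lit 390) (nat_lit 0) (nat_lit 0) (XT.nd (nat_lit 156) (nat_lit 0) (nat_lit 0) (XT.nd (nat_lit 78) (nat_lit 0) (nat_lit 0) (XT.lf (nat_lit 0) (nat_lit 1125434415999) (nat_lit 152) (nat_lit 4552293255771) (nat_lit 0) (nat_lit 1125378087888) (nat_lit 1) (nat_lit 5) (nat_lit 3) (nat_lit 4) (nat_lit 1) (nat_lit 4) (nat_lit 365) (nat_lit 271) (nat_lit 264)) (XT.lf (nat_lit 0) (nat_lit 1294808501080) (nat_lit 152) (nat_lit 5233929456784) (nat_lit 0) (nat_lit 1294747747031) (nat_lit 1) (nat_lit 5) (nat_lit 3) (nat_lit 4) (nat_lit 1) (nat_lit 4) (nat_lit 366) (nat_lit 271) (nat_lit 263))) (XT.nd (nat_lit 78) (nat_lit 0) (nat_lit 0) (XT.lf (nat_lit 0) (nat_lit 1489557879673) (nat_lit 152) (nat_lit 6017876110812) (nat_lit 0) (nat_lit 1489493276981) (nat_lit 1) (nat_lit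 5) (nat_lit 3) (nat_lit 4) (nat_lit 1) (nat_lit 4) (nat_lit 367) (nat_lit 271) (nat_lit 262)) (XT.nd (nat_lit 78) (nat_lit 0) (nat_lit 0) (XT.lf (nat_lit 0) (nat_lit 1713492865706) (nat_lit 152) (nat_lit 6919471304565) (nat_lit 0) (nat_lit 1713424916370) (nat_lit 1) (nat_lit 5) (nat_lit 3) (nat_lit 4) (nat_lit 1) (nat_lit 4) (nat_lit 368) (nat_lit 271) (nat_lit 261)) (XT.lf (nat_lit 0) (nat_lit 1970994795863) (nat_lit 152) (nat_lit 7956354944007) (nat_lit 0) (nat_lit 1970923936401) (nat_lit 1) (nat_lit 5) (nat_lit 3) (nat_lit 4) (nat_lit 1) (nat_lit 4) (nat_lit 369) (nat_lit 271) (nat_lit 260))))) (XT.nd (nat_lit 234) (nat_lit 0) (nat_lit 0) (XT.nd (nat_lit 78) (nat_lit 0) (nat_lit 0) (XT.lf (nat_lit 0) (nat_lit 2267101751387) (nat_lit 152) (nat_lit 9148813882955) (nat_lit 0) (nat_lit 2267028361381) (nat_lit 1) (nat_lit 5) (nat_lit 3) (nat_lit 4) (nat_lit 1) (nat_lit 4) (nat_lit 370) (nat_lit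 271) (nat_lit 259)) (XT.nd (nat_lit 78) (nat_lit 0) (nat_lit 0) (XT.lf (nat_lit 0) (nat_lit 2607607129233) (nat_lit 152) (nat_lit 10520178839777) (nat_lit 0) (nat_lit 2607531538753) (nat_lit 1) (nat_lit 5) (nat_lit 3) (nat_lit 4) (nat_lit 1) (nat_lit 4) (nat_lit 371) (nat_lit 271) (nat_lit 258)) (XT.lf (nat_lit 0) (nat_lit 2999172991141) (nat_lit 152) (nat_lit 12097280867979) (nat_lit 0) (nat_lit 2999095487206) (nat_lit 1) (nat_lit 5) (nat_lit 3) (nat_lit 4) (nat_lit 1) (nat_lit 4) (nat_lit 372) (nat_lit 271) (nat_lit 257)))) (XT.nd (nat_lit 78) (nat_lit 0) (nat_lit 0) (XT.lf (nat_lit 0) (nat_lit 3449460408323) (nat_lit 152) (nat_lit 13910976311589) (nat_lit 0) (nat_lit 3449381240514) (nat_lit 1) (nat_lit 5) (nat_lit 3) (nat_lit 4) (nat_lit 1) (nat_lit 4) (nat_lit 373) (nat_lit 271) (nat_lit 256)) (XT.nd (nat_lit 78) (nat_lit 0) (nat_lit 0) (XT.lf (nat_lit 0) (nat_lit 3967279351985) (nat_lit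 152) (nat_lit 15996750516243) (nat_lit 0) (nat_lit 3967198737329) (nat_lit 1) (nat_lit 5) (nat_lit 3) (nat_lit 4) (nat_lit 1) (nat_lit 4) (nat_lit 374) (nat_lit 271) (nat_lit 255)) (XT.lf (nat_lit 0) (nat_lit 4562761062328) (nat_lit 152) (nat_lit 18395412107685) (nat_lit 0) (nat_lit 4562679189545) (nat_lit 1) (nat_lit 5) (nat_lit 3) (nat_lit 4) (nat_lit 1) (nat_lit 4) (nat_lit 375) (nat_lit 271) (nat_lit 254)))))) (XT.nd (nat_lit 390) (nat_lit 0) (nat_lit 0) (XT.nd (nat_lit 156) (nat_lit 0) (nat_lit 0) (XT.nd (nat_lit 78) (nat_lit 0) (nat_lit 0) (XT.lf (nat_lit 0) (nat_lit 5247556268469) (nat_lit 152) (nat_lit 21153891421400) (nat_lit 0) (nat_lit 5247473301661) (nat_lit 1) (nat_lit 5) (nat_lit 3) (nat_lit 4) (nat_lit 1) (nat_lit 4) (nat_lit 376) (nat_lit 271) (nat_lit 253)) (XT.lf (nat_lit 0) (nat_lit 6035063137483) (nat_lit 152) (nat_lit 24326158704829) (nat_lit 0) (nat_lit 6034979219350)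 (nat_lit 1) (nat_lit 5) (nat_lit 3) (nat_lit 4) (nat_lit 1) (nat_lit 4) (nat_lit 377) (nat_lit 271) (nat_lit 252))) (XT.nd (nat_lit 78) (nat_lit 0) (nat_lit 0) (XT.lf (nat_lit 0) (nat_lit 6940689412460) (nat_lit 152) (nat_lit 27974280056996) (nat_lit 0) (nat_lit 6940604667088) (nat_lit 1) (nat_lit 5) (nat_lit 3) (nat_lit 4) (nat_lit 1) (nat_lit 4) (nat_lit 378) (nat_lit 271) (nat_lit 251)) (XT.nd (nat_lit 78) (nat_lit 0) (nat_lit 0) (XT.lf (nat_lit 0) (nat_lit 7982153868346) (nat_lit 152) (nat_lit 32169631765227) (nat_lit 0) (nat_lit 7982068403635) (nat_lit 1) (nat_lit 5) (nat_lit 3) (nat_lit 4) (nat_lit 1) (nat_lit 4) (nat_lit 379) (nat_lit 271) (nat_lit 250)) (XT.lf (nat_lit 0) (nat_lit 9179832983624) (nat_lit 152) (nat_lit 36994296797725) (nat_lit 0) (nat_lit 9179746893401) (nat_lit 1) (nat_lit 5) (nat_lit 3) (nat_lit 4) (nat_lit 1) (nat_lit 4) (nat_lit 380) (nat_lit 271) (nat_lit 249)))))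 (XT.nd (nat_lit 234) (nat_lit 0) (nat_lit 0) (XT.nd (nat_lit 78) (nat_lit 0) (nat_lit 0) (XT.lf (nat_lit 0) (nat_lit 10557159610552) (nat_lit 152) (nat_lit 42542670774692) (nat_lit 0) (nat_lit 10557072976405) (nat_lit 1) (nat_lit 5) (nat_lit 3) (nat_lit 4) (nat_lit 1) (nat_lit 4) (nat_lit 381) (nat_lit 271) (nat_lit 248)) (XT.nd (nat_lit 78) (nat_lit 0) (nat_lit 0) (XT.lf (nat_lit 0) (nat_lit 12141081444002) (nat_lit 152) (nat_lit 48923308839156) (nat_lit 0) (nat_lit 12140994336879) (nat_lit 1) (nat_lit 5) (nat_lit 3) (nat_lit 4) (nat_lit 1) (nat_lit 4) (nat_lit 382) (nat_lit 271) (nat_lit 247)) (XT.lf (nat_lit 0) (nat_lit 13962588258978) (nat_lit 152) (nat_lit 56261049561942) (nat_lit 0) (nat_lit 13962500740570) (nat_lit 1) (nat_lit 5) (nat_lit 3) (nat_lit 4) (nat_lit 1) (nat_lit 4) (nat_lit 383) (nat_lit 271) (nat_lit 246)))) (XT.nd (nat_lit 78) (nat_lit 0) (nat_lit 0) (XT.lf (nat_lit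 0) (nat_lit 16057318232294) (nat_lit 152) (nat_lit 64699457435454) (nat_lit 0) (nat_lit 16057230356248) (nat_lit 1) (nat_lit 5) (nat_lit 3) (nat_lit 4) (nat_lit 1) (nat_lit 4) (nat_lit 384) (nat_lit 271) (nat_lit 245)) (XT.nd (nat_lit 78) (nat_lit 0) (nat_lit 0) (XT.lf (nat_lit 0) (nat_lit 18466255211254) (nat_lit 152) (nat_lit 74403631744173) (nat_lit 0) (nat_lit 18466167024218) (nat_lit 1) (nat_lit 5) (nat_lit 3) (nat_lit 4) (nat_lit 1) (nat_lit 4) (nat_lit 385) (nat_lit 271) (nat_lit 244)) (XT.lf (nat_lit 0) (nat_lit 21236530571534) (nat_lit 152) (nat_lit 85563436768051) (nat_lit 0) (nat_lit 21236442114072) (nat_lit 1) (nat_lit 5) (nat_lit 3) (nat_lit 4) (nat_lit 1) (nat_lit 4) (nat_lit 386) (nat_lit 271) (nat_lit 243))))))) (XT.nd (nat_lit 44694) (nat_lit 0) (nat_lit 0) (XT.nd (nat_lit 390) (nat_lit 0) (nat_lit 0) (XT.nd (nat_lit 156) (nat_lit 0) (nat_lit 0) (XT.nd (nat_lit 78) (nat_lit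 0) (nat_lit 0) (XT.lf (nat_lit 0) (nat_lit 24422345352791) (nat_lit 152) (nat_lit 98397216518427) (nat_lit 0) (nat_lit 24422256660176) (nat_lit 1) (nat_lit 5) (nat_lit 3) (nat_lit 4) (nat_lit 1) (nat_lit 4) (nat_lit 387) (nat_lit 271) (nat_lit 242)) (XT.lf (nat_lit 0) (nat_lit 28086030713789) (nat_lit 152) (nat_lit 113156066686068) (nat_lit 0) (nat_lit 28085941816693) (nat_lit 1) (nat_lit 5) (nat_lit 3) (nat_lit 4) (nat_lit 1) (nat_lit 4) (nat_lit 388) (nat_lit 271) (nat_lit 241))) (XT.nd (nat_lit 78) (nat_lit 0) (nat_lit 0) (XT.lf (nat_lit 0) (nat_lit 32299267455068) (nat_lit 152) (nat_lit 130128747382950) (nat_lit 0) (nat_lit 32299178380163) (nat_lit 1) (nat_lit 5) (nat_lit 3) (nat_lit 4) (nat_lit 1) (nat_lit 4) (nat_lit 389) (nat_lit 271) (nat_lit 240)) (XT.nd (nat_lit 78) (nat_lit 0) (nat_lit 0) (XT.lf (nat_lit 0) (nat_lit 37144488469395) (nat_lit 152) (nat_lit 149647332796621) (nat_lit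 0) (nat_lit 37144399239872) (nat_lit 1) (nat_lit 5) (nat_lit 3) (nat_lit 4) (nat_lit 1) (nat_lit 4) (nat_lit 390) (nat_lit 271) (nat_lit 239)) (XT.lf (nat_lit 0) (nat_lit 42716491559222) (nat_lit 152) (nat_lit 172093708293868) (nat_lit 0) (nat_lit 42716402195250) (nat_lit 1) (nat_lit 5) (nat_lit 3) (nat_lit 4) (nat_lit 1) (nat_lit 4) (nat_lit 391) (nat_lit 271) (nat_lit 238))))) (XT.nd (nat_lit 44070) (nat_lit 0) (nat_lit 0) (XT.nd (nat_lit 78) (nat_lit 0) (nat_lit 0) (XT.lf (nat_lit 0) (nat_lit 49124294176307) (nat_lit 152) (nat_lit 197907042090944) (nat_lit 0) (nat_lit 49124204695422) (nat_lit 1) (nat_lit 5) (nat_lit 3) (nat_lit 4) (nat_lit 1) (nat_lit 4) (nat_lit 392) (nat_lit 271) (nat_lit 237)) (XT.nd (nat_lit 78) (nat_lit 0) (nat_lit 0) (XT.lf (nat_lit 0) (nat_lit 56493266371853) (nat_lit 152) (nat_lit 227592377675183) (nat_lit 0) (nat_lit 56493176789305) (nat_lit 1) (nat_lit 5)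 (nat_lit 3) (nat_lit 4) (nat_lit 1) (nat_lit 4) (nat_lit 393) (nat_lit 271) (nat_lit 236)) (XT.lf (nat_lit 0) (nat_lit 64967583688818) (nat_lit 152) (nat_lit 261730515090623) (nat_lit 0) (nat_lit 64967494017867) (nat_lit 1) (nat_lit 5) (nat_lit 3) (nat_lit 4) (nat_lit 1) (nat_lit 4) (nat_lit 394) (nat_lit 271) (nat_lit 235)))) (XT.nd (nat_lit 78) (nat_lit 0) (nat_lit 0) (XT.lf (nat_lit 0) (nat_lit 157859333696) (nat_lit 152) (nat_lit 651536006901) (nat_lit 0) (nat_lit 157859333696) (nat_lit 1) (nat_lit 5) (nat_lit 3) (nat_lit 4) (nat_lit 1) (nat_lit 4) (nat_lit 356) (nat_lit 272) (nat_lit 272)) (XT.nd (nat_lit 78) (nat_lit 0) (nat_lit 0) (XT.lf (nat_lit 0) (nat_lit 364170294263) (nat_lit 152) (nat_lit 1496192196060) (nat_lit 0) (nat_lit 364156755217) (nat_lit 1) (nat_lit 5) (nat_lit 3) (nat_lit 4) (nat_lit 1) (nat_lit 4) (nat_lit 357) (nat_lit 272) (nat_lit 271)) (XT.lf (nat_lit 0) (nat_lit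 419795388371) (nat_lit 152) (nat_lit 1718479312083) (nat_lit 0) (nat_lit 419770076243) (nat_lit 1) (nat_lit 5) (nat_lit 3) (nat_lit 4) (nat_lit 1) (nat_lit 4) (nat_lit 358) (nat_lit 272) (nat_lit 270)))))) (XT.nd (nat_lit 468) (nat_lit 0) (nat_lit 0) (XT.nd (nat_lit 234) (nat_lit 0) (nat_lit 0) (XT.nd (nat_lit 78) (nat_lit 0) (nat_lit 0) (XT.lf (nat_lit 0) (nat_lit 483682266777) (nat_lit 152) (nat_lit 1974282457620) (nat_lit 0) (nat_lit 483646717185) (nat_lit 1) (nat_lit 5) (nat_lit 3) (nat_lit 4) (nat_lit 1) (nat_lit 4) (nat_lit 359) (nat_lit 272) (nat_lit 269)) (XT.nd (nat_lit 78) (nat_lit 0) (nat_lit 0) (XT.lf (nat_lit 0) (nat_lit 557080890145) (nat_lit 152) (nat_lit 2268606476822) (nat_lit 0) (nat_lit 557036438411) (nat_lit 1) (nat_lit 5) (nat_lit 3) (nat_lit 4) (nat_lit 1) (nat_lit 4) (nat_lit 360) (nat_lit 272) (nat_lit 268)) (XT.lf (nat_lit 0) (nat_lit 641427318497) (nat_lit 152)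 (nat_lit 2607209883109) (nat_lit 0) (nat_lit 641375125771) (nat_lit 1) (nat_lit 5) (nat_lit 3) (nat_lit 4) (nat_lit 1) (nat_lit 4) (nat_lit 361) (nat_lit 272) (nat_lit 267)))) (XT.nd (nat_lit 78) (nat_lit 0) (nat_lit 0) (XT.lf (nat_lit 0) (nat_lit 738371808041) (nat_lit 152) (nat_lit 2996717525734) (nat_lit 0) (nat_lit 738312884016) (nat_lit 1) (nat_lit 5) (nat_lit 3) (nat_lit 4) (nat_lit 1) (nat_lit 4) (nat_lit 362) (nat_lit 272) (nat_lit 266)) (XT.nd (nat_lit 78) (nat_lit 0) (nat_lit 0) (XT.lf (nat_lit 0) (nat_lit 849811098789) (nat_lit 152) (nat_lit 3444750206400) (nat_lit 0) (nat_lit 849746321461) (nat_lit 1) (nat_lit 5) (nat_lit 3) (nat_lit 4) (nat_lit 1) (nat_lit 4) (nat_lit 363) (nat_lit 272) (nat_lit 265)) (XT.lf (nat_lit 0) (nat_lit 977925524691) (nat_lit 152) (nat_lit 3960073781904) (nat_lit 0) (nat_lit 977855657534) (nat_lit 1) (nat_lit 5) (nat_lit 3) (nat_lit 4) (nat_lit 1)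 (nat_lit 4) (nat_lit 364) (nat_lit 272) (nat_lit 264))))) (XT.nd (nat_lit 234) (nat_lit 0) (nat_lit 0) (XT.nd (nat_lit 78) (nat_lit 0) (nat_lit 0) (XT.lf (nat_lit 0) (nat_lit 1125221672340) (nat_lit 152) (nat_lit 4552770670027) (nat_lit 0) (nat_lit 1125147379245) (nat_lit 1) (nat_lit 5) (nat_lit 3) (nat_lit 4) (nat_lit 1) (nat_lit 4) (nat_lit 365) (nat_lit 272) (nat_lit 263)) (XT.nd (nat_lit 78) (nat_lit 0) (nat_lit 0) (XT.lf (nat_lit 0) (nat_lit 1294581422885) (nat_lit 152) (nat_lit 5234437114232) (nat_lit 0) (nat_lit 1294503281149) (nat_lit 1) (nat_lit 5) (nat_lit 3) (nat_lit 4) (nat_lit 1) (nat_lit 4) (nat_lit 366) (nat_lit 272) (nat_lit 262)) (XT.lf (nat_lit 0) (nat_lit 1489318336665) (nat_lit 152) (nat_lit 6018410066688) (nat_lit 0) (nat_lit 1489236848284) (nat_lit 1) (nat_lit 5) (nat_lit 3) (nat_lit 4) (nat_lit 1) (nat_lit 4) (nat_lit 367) (nat_lit 272) (nat_lit 261)))) (XT.nd (nat_lit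 78) (nat_lit 0) (nat_lit 0) (XT.lf (nat_lit 0) (nat_lit 1713242483730) (nat_lit 152) (nat_lit 6920028128640) (nat_lit 0) (nat_lit 1713158085223) (nat_lit 1) (nat_lit 5) (nat_lit 3) (nat_lit 4) (nat_lit 1) (nat_lit 4) (nat_lit 368) (nat_lit 272) (nat_lit 260)) (XT.nd (nat_lit 78) (nat_lit 0) (nat_lit 0) (XT.lf (nat_lit 0) (nat_lit 1970734988698) (nat_lit 152) (nat_lit 7956931653472) (nat_lit 0) (nat_lit 1970648059647) (nat_lit 1) (nat_lit 5) (nat_lit 3) (nat_lit 4) (nat_lit 1) (nat_lit 4) (nat_lit 369) (nat_lit 272) (nat_lit 259)) (XT.lf (nat_lit 0) (nat_lit 2266833748405) (nat_lit 152) (nat_lit 9149407884063) (nat_lit 0) (nat_lit 2266744618880) (nat_lit 1) (nat_lit 5) (nat_lit 3) (nat_lit 4) (nat_lit 1) (nat_lit 4) (nat_lit 370) (nat_lit 272) (nat_lit 258))))))))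
noncomputable def xc8 : XT := (XT.nd (nat_lit 1716) (nat_lit 0) (nat_lit 0) (XT.nd (nat_lit 858) (nat_lit 0) (nat_lit 0) (XT.nd (nat_lit 390) (nat_lit 0) (nat_lit 0) (XT.nd (nat_lit 156) (nat_lit 0) (nat_lit 0) (XT.nd (nat_lit 78) (nat_lit 0) (nat_lit 0) (XT.lf (nat_lit 0) (nat_lit 2607331999454) (nat_lit 152) (nat_lit 10520787877097) (nat_lit 0) (nat_lit 2607240956473) (nat_lit 1) (nat_lit 5) (nat_lit 3) (nat_lit 4) (nat_lit 1) (nat_lit 4) (nat_lit 371) (nat_lit 272) (nat_lit 257)) (XT.lf (nat_lit 0) (nat_lit 2998891664147) (nat_lit 152) (nat_lit 12097902980266) (nat_lit 0) (nat_lit 2998798957293) (nat_lit 1) (nat_lit 5) (nat_lit 3) (nat_lit 4) (nat_lit 1) (nat_lit 4) (nat_lit 372) (nat_lit 272) (nat_lit 256))) (XT.nd (nat_lit 78) (nat_lit 0) (nat_lit 0) (XT.lf (nat_lit 0) (nat_lit 3449173692446) (nat_lit 152) (nat_lit 13911609793412) (nat_lit 0) (nat_lit 3449079538745) (nat_lit 1) (nat_lit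 5) (nat_lit 3) (nat_lit 4) (nat_lit 1) (nat_lit 4) (nat_lit 373) (nat_lit 272) (nat_lit 255)) (XT.nd (nat_lit 78) (nat_lit 0) (nat_lit 0) (XT.lf (nat_lit 0) (nat_lit 3966987950123) (nat_lit 152) (nat_lit 15997393884619) (nat_lit 0) (nat_lit 3966892538294) (nat_lit 1) (nat_lit 5) (nat_lit 3) (nat_lit 4) (nat_lit 1) (nat_lit 4) (nat_lit 374) (nat_lit 272) (nat_lit 254)) (XT.lf (nat_lit 0) (nat_lit 4562465585697) (nat_lit 152) (nat_lit 18396064073064) (nat_lit 0) (nat_lit 4562369079844) (nat_lit 1) (nat_lit 5) (nat_lit 3) (nat_lit 4) (nat_lit 1) (nat_lit 4) (nat_lit 375) (nat_lit 272) (nat_lit 253))))) (XT.nd (nat_lit 234) (nat_lit 0) (nat_lit 0) (XT.nd (nat_lit 78) (nat_lit 0) (nat_lit 0) (XT.lf (nat_lit 0) (nat_lit 5247257248559) (nat_lit 152) (nat_lit 21154550862433) (nat_lit 0) (nat_lit 5247159791381) (nat_lit 1) (nat_lit 5) (nat_lit 3) (nat_lit 4) (nat_lit 1) (nat_lit 4) (nat_lit 376)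 (nat_lit 272) (nat_lit 252)) (XT.nd (nat_lit 78) (nat_lit 0) (nat_lit 0) (XT.lf (nat_lit 0) (nat_lit 6034761036462) (nat_lit 152) (nat_lit 24326824646432) (nat_lit 0) (nat_lit 6034662752045) (nat_lit 1) (nat_lit 5) (nat_lit 3) (nat_lit 4) (nat_lit 1) (nat_lit 4) (nat_lit 377) (nat_lit 272) (nat_lit 251)) (XT.lf (nat_lit 0) (nat_lit 6940384632213) (nat_lit 152) (nat_lit 27974951651268) (nat_lit 0) (nat_lit 6940285628456) (nat_lit 1) (nat_lit 5) (nat_lit 3) (nat_lit 4) (nat_lit 1) (nat_lit 4) (nat_lit 378) (nat_lit 272) (nat_lit 250)))) (XT.nd (nat_lit 78) (nat_lit 0) (nat_lit 0) (XT.lf (nat_lit 0) (nat_lit 7981846758336) (nat_lit 152) (nat_lit 32170308274863) (nat_lit 0) (nat_lit 7981747129067) (nat_lit 1) (nat_lit 5) (nat_lit 3) (nat_lit 4) (nat_lit 1) (nat_lit 4) (nat_lit 379) (nat_lit 272) (nat_lit 249)) (XT.nd (nat_lit 78) (nat_lit 0) (nat_lit 0) (XT.lf (nat_lit 0) (nat_lit 9179523847734)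 (nat_lit 152) (nat_lit 36994977581591) (nat_lit 0) (nat_lit 9179423674542) (nat_lit 1) (nat_lit 5) (nat_lit 3) (nat_lit 4) (nat_lit 1) (nat_lit 4) (nat_lit 380) (nat_lit 272) (nat_lit 248)) (XT.lf (nat_lit 0) (nat_lit 10556848713026) (nat_lit 152) (nat_lit 42543355275280) (nat_lit 0) (nat_lit 10556748066857) (nat_lit 1) (nat_lit 5) (nat_lit 3) (nat_lit 4) (nat_lit 1) (nat_lit 4) (nat_lit 381) (nat_lit 272) (nat_lit 247)))))) (XT.nd (nat_lit 390) (nat_lit 0) (nat_lit 0) (XT.nd (nat_lit 156) (nat_lit 0) (nat_lit 0) (XT.nd (nat_lit 78) (nat_lit 0) (nat_lit 0) (XT.lf (nat_lit 0) (nat_lit 12140769014619) (nat_lit 152) (nat_lit 48923996571675) (nat_lit 0) (nat_lit 12140667957166) (nat_lit 1) (nat_lit 5) (nat_lit 3) (nat_lit 4) (nat_lit 1) (nat_lit 4) (nat_lit 382) (nat_lit 272) (nat_lit 246)) (XT.lf (nat_lit 0) (nat_lit 13962274497546) (nat_lit 152) (nat_lit 56261740104837) (nat_lit 0) (nat_lit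 13962173082454) (nat_lit 1) (nat_lit 5) (nat_lit 3) (nat_lit 4) (nat_lit 1) (nat_lit 4) (nat_lit 383) (nat_lit 272) (nat_lit 245))) (XT.nd (nat_lit 78) (nat_lit 0) (nat_lit 0) (XT.lf (nat_lit 0) (nat_lit 16057003312558) (nat_lit 152) (nat_lit 64700150422153) (nat_lit 0) (nat_lit 16056901586477) (nat_lit 1) (nat_lit 5) (nat_lit 3) (nat_lit 4) (nat_lit 1) (nat_lit 4) (nat_lit 384) (nat_lit 272) (nat_lit 244)) (XT.nd (nat_lit 78) (nat_lit 0) (nat_lit 0) (XT.lf (nat_lit 0) (nat_lit 18465939284297) (nat_lit 152) (nat_lit 74404326855920) (nat_lit 0) (nat_lit 18465837287790) (nat_lit 1) (nat_lit 5) (nat_lit 3) (nat_lit 4) (nat_lit 1) (nat_lit 4) (nat_lit 385) (nat_lit 272) (nat_lit 243)) (XT.lf (nat_lit 0) (nat_lit 21236213768733) (nat_lit 152) (nat_lit 85564133727666) (nat_lit 0) (nat_lit 21236111537072) (nat_lit 1) (nat_lit 5) (nat_lit 3) (nat_lit 4) (nat_lit 1) (nat_lit 4) (nat_lit 386) (nat_lit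 272) (nat_lit 242))))) (XT.nd (nat_lit 234) (nat_lit 0) (nat_lit 0) (XT.nd (nat_lit 78) (nat_lit 0) (nat_lit 0) (XT.lf (nat_lit 0) (nat_lit 24422027788386) (nat_lit 152) (nat_lit 98397915084883) (nat_lit 0) (nat_lit 24421925352245) (nat_lit 1) (nat_lit 5) (nat_lit 3) (nat_lit 4) (nat_lit 1) (nat_lit 4) (nat_lit 387) (nat_lit 272) (nat_lit 241)) (XT.nd (nat_lit 78) (nat_lit 0) (nat_lit 0) (XT.lf (nat_lit 0) (nat_lit 28085712487120) (nat_lit 152) (nat_lit 113156766649777) (nat_lit 0) (nat_lit 28085609873169) (nat_lit 1) (nat_lit 5) (nat_lit 3) (nat_lit 4) (nat_lit 1) (nat_lit 4) (nat_lit 388) (nat_lit 272) (nat_lit 240)) (XT.lf (nat_lit 0) (nat_lit 32298948652518) (nat_lit 152) (nat_lit 130129448561662) (nat_lit 0) (nat_lit 32298845883951) (nat_lit 1) (nat_lit 5) (nat_lit 3) (nat_lit 4) (nat_lit 1) (nat_lit 4) (nat_lit 389) (nat_lit 272) (nat_lit 239)))) (XT.nd (nat_lit 78) (nat_lit 0) (nat_lit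 0) (XT.lf (nat_lit 0) (nat_lit 37144169166078) (nat_lit 152) (nat_lit 149648035031857) (nat_lit 0) (nat_lit 37144066263061) (nat_lit 1) (nat_lit 5) (nat_lit 3) (nat_lit 4) (nat_lit 1) (nat_lit 4) (nat_lit 390) (nat_lit 272) (nat_lit 238)) (XT.nd (nat_lit 78) (nat_lit 0) (nat_lit 0) (XT.lf (nat_lit 0) (nat_lit 42716171820455) (nat_lit 152) (nat_lit 172094411447821) (nat_lit 0) (nat_lit 42716068800525) (nat_lit 1) (nat_lit 5) (nat_lit 3) (nat_lit 4) (nat_lit 1) (nat_lit 4) (nat_lit 391) (nat_lit 272) (nat_lit 237)) (XT.lf (nat_lit 0) (nat_lit 49123974058889) (nat_lit 152) (nat_lit 197907746043782) (nat_lit 0) (nat_lit 49123870937296) (nat_lit 1) (nat_lit 5) (nat_lit 3) (nat_lit 4) (nat_lit 1) (nat_lit 4) (nat_lit 392) (nat_lit 272) (nat_lit 236))))))) (XT.nd (nat_lit 44616) (nat_lit 0) (nat_lit 0) (XT.nd (nat_lit 44148) (nat_lit 0) (nat_lit 0) (XT.nd (nat_lit 43914) (nat_lit 0) (nat_lit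 0) (XT.nd (nat_lit 43836) (nat_lit 0) (nat_lit 0) (XT.lf (nat_lit 0) (nat_lit 56492945925173) (nat_lit 152) (nat_lit 227593082322702) (nat_lit 0) (nat_lit 56492842715177) (nat_lit 1) (nat_lit 5) (nat_lit 3) (nat_lit 4) (nat_lit 1) (nat_lit 4) (nat_lit 393) (nat_lit 272) (nat_lit 235)) (XT.lf (nat_lit 0) (nat_lit 118369656642) (nat_lit 152) (nat_lit 494796539020) (nat_lit 0) (nat_lit 118369656642) (nat_lit 1) (nat_lit 5) (nat_lit 3) (nat_lit 4) (nat_lit 1) (nat_lit 4) (nat_lit 354) (nat_lit 273) (nat_lit 273))) (XT.nd (nat_lit 78) (nat_lit 0) (nat_lit 0) (XT.lf (nat_lit 0) (nat_lit 273508111052) (nat_lit 152) (nat_lit 1135340326962) (nat_lit 0) (nat_lit 273492541150) (nat_lit 1) (nat_lit 5) (nat_lit 3) (nat_lit 4) (nat_lit 1) (nat_lit 4) (nat_lit 355) (nat_lit 273) (nat_lit 272)) (XT.nd (nat_lit 78) (nat_lit 0) (nat_lit 0) (XT.lf (nat_lit 0) (nat_lit 315683810174) (nat_lit 152) (nat_lit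 1303178405612) (nat_lit 0) (nat_lit 315654701227) (nat_lit 1) (nat_lit 5) (nat_lit 3) (nat_lit 4) (nat_lit 1) (nat_lit 4) (nat_lit 356) (nat_lit 273) (nat_lit 271)) (XT.lf (nat_lit 0) (nat_lit 364091587373) (nat_lit 152) (nat_lit 1496391102487) (nat_lit 0) (nat_lit 364050705343) (nat_lit 1) (nat_lit 5) (nat_lit 3) (nat_lit 4) (nat_lit 1) (nat_lit 4) (nat_lit 357) (nat_lit 273) (nat_lit 270))))) (XT.nd (nat_lit 234) (nat_lit 0) (nat_lit 0) (XT.nd (nat_lit 78) (nat_lit 0) (nat_lit 0) (XT.lf (nat_lit 0) (nat_lit 419678551334) (nat_lit 152) (nat_lit 1718758666003) (nat_lit 0) (nat_lit 419627431840) (nat_lit 1) (nat_lit 5) (nat_lit 3) (nat_lit 4) (nat_lit 1) (nat_lit 4) (nat_lit 358) (nat_lit 273) (nat_lit 269)) (XT.nd (nat_lit 78) (nat_lit 0) (nat_lit 0) (XT.lf (nat_lit 0) (nat_lit 483532273089) (nat_lit 152) (nat_lit 1974631765882) (nat_lit 0) (nat_lit 483472251453) (nat_lit 1) (nat_lit 5)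 (nat_lit 3) (nat_lit 4) (nat_lit 1) (nat_lit 4) (nat_lit 359) (nat_lit 273) (nat_lit 268)) (XT.lf (nat_lit 0) (nat_lit 556902064587) (nat_lit 152) (nat_lit 2269016614946) (nat_lit 0) (nat_lit 556834301958) (nat_lit 1) (nat_lit 5) (nat_lit 3) (nat_lit 4) (nat_lit 1) (nat_lit 4) (nat_lit 360) (nat_lit 273) (nat_lit 267)))) (XT.nd (nat_lit 78) (nat_lit 0) (nat_lit 0) (XT.lf (nat_lit 0) (nat_lit 641223421748) (nat_lit 152) (nat_lit 2607672916766) (nat_lit 0) (nat_lit 641148927820) (nat_lit 1) (nat_lit 5) (nat_lit 3) (nat_lit 4) (nat_lit 1) (nat_lit 4) (nat_lit 361) (nat_lit 273) (nat_lit 266)) (XT.nd (nat_lit 78) (nat_lit 0) (nat_lit 0) (XT.lf (nat_lit 0) (nat_lit 738146110256) (nat_lit 152) (nat_lit 2997226555506) (nat_lit 0) (nat_lit 738065763025) (nat_lit 1) (nat_lit 5) (nat_lit 3) (nat_lit 4) (nat_lit 1) (nat_lit 4) (nat_lit 362) (nat_lit 273) (nat_lit 265)) (XT.lf (nat_lit 0) (nat_lit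 849566443581) (nat_lit 152) (nat_lit 3445299232794) (nat_lit 0) (nat_lit 849481006522) (nat_lit 1) (nat_lit 5) (nat_lit 3) (nat_lit 4) (nat_lit 1) (nat_lit 4) (nat_lit 363) (nat_lit 273) (nat_lit 264)))))) (XT.nd (nat_lit 390) (nat_lit 0) (nat_lit 0) (XT.nd (nat_lit 156) (nat_lit 0) (nat_lit 0) (XT.nd (nat_lit 78) (nat_lit 0) (nat_lit 0) (XT.lf (nat_lit 0) (nat_lit 977664384767) (nat_lit 152) (nat_lit 3960657587970) (nat_lit 0) (nat_lit 977574521770) (nat_lit 1) (nat_lit 5) (nat_lit 3) (nat_lit 4) (nat_lit 1) (nat_lit 4) (nat_lit 364) (nat_lit 273) (nat_lit 263)) (XT.lf (nat_lit 0) (nat_lit 1124946197881) (nat_lit 152) (nat_lit 4553384719285) (nat_lit 0) (nat_lit 1124852486242) (nat_lit 1) (nat_lit 5) (nat_lit 3) (nat_lit 4) (nat_lit 1) (nat_lit 4) (nat_lit 365) (nat_lit 273) (nat_lit 262))) (XT.nd (nat_lit 78) (nat_lit 0) (nat_lit 0) (XT.lf (nat_lit 0) (nat_lit 1294293483614) (nat_lit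 152) (nat_lit 5235077461918) (nat_lit 0) (nat_lit 1294196425330) (nat_lit 1) (nat_lit 5) (nat_lit 3) (nat_lit 4) (nat_lit 1) (nat_lit 4) (nat_lit 366) (nat_lit 273) (nat_lit 261)) (XT.nd (nat_lit 78) (nat_lit 0) (nat_lit 0) (XT.lf (nat_lit 0) (nat_lit 1489019558425) (nat_lit 152) (nat_lit 6019073282573) (nat_lit 0) (nat_lit 1488919590016) (nat_lit 1) (nat_lit 5) (nat_lit 3) (nat_lit 4) (nat_lit 1) (nat_lit 4) (nat_lit 367) (nat_lit 273) (nat_lit 260)) (XT.lf (nat_lit 0) (nat_lit 1712934280301) (nat_lit 152) (nat_lit 6920711229914) (nat_lit 0) (nat_lit 1712831781347) (nat_lit 1) (nat_lit 5) (nat_lit 3) (nat_lit 4) (nat_lit 1) (nat_lit 4) (nat_lit 368) (nat_lit 273) (nat_lit 259))))) (XT.nd (nat_lit 234) (nat_lit 0) (nat_lit 0) (XT.nd (nat_lit 78) (nat_lit 0) (nat_lit 0) (XT.lf (nat_lit 0) (nat_lit 1970418589452) (nat_lit 152) (nat_lit 7957632046390) (nat_lit 0) (nat_lit 1970313890025) (nat_lit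 1) (nat_lit 5) (nat_lit 3) (nat_lit 4) (nat_lit 1) (nat_lit 4) (nat_lit 369) (nat_lit 273) (nat_lit 258)) (XT.nd (nat_lit 78) (nat_lit 0) (nat_lit 0) (XT.lf (nat_lit 0) (nat_lit 2266510222362) (nat_lit 152) (nat_lit 9150123313193) (nat_lit 0) (nat_lit 2266403609479) (nat_lit 1) (nat_lit 5) (nat_lit 3) (nat_lit 4) (nat_lit 1) (nat_lit 4) (nat_lit 370) (nat_lit 273) (nat_lit 257)) (XT.lf (nat_lit 0) (nat_lit 2607002276195) (nat_lit 152) (nat_lit 10521516381194) (nat_lit 0) (nat_lit 2606893999439) (nat_lit 1) (nat_lit 5) (nat_lit 3) (nat_lit 4) (nat_lit 1) (nat_lit 4) (nat_lit 371) (nat_lit 273) (nat_lit 256)))) (XT.nd (nat_lit 78) (nat_lit 0) (nat_lit 0) (XT.lf (nat_lit 0) (nat_lit 2998556552006) (nat_lit 152) (nat_lit 12098642853898) (nat_lit 0) (nat_lit 2998446828402) (nat_lit 1) (nat_lit 5) (nat_lit 3) (nat_lit 4) (nat_lit 1) (nat_lit 4) (nat_lit 372) (nat_lit 273) (nat_lit 255)) (XT.nd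 (nat_lit 78) (nat_lit 0) (nat_lit 0) (XT.lf (nat_lit 0) (nat_lit 3448833894320) (nat_lit 152) (nat_lit 13912359553598) (nat_lit 0) (nat_lit 3448722912589) (nat_lit 1) (nat_lit 5) (nat_lit 3) (nat_lit 4) (nat_lit 1) (nat_lit 4) (nat_lit 373) (nat_lit 273) (nat_lit 254)) (XT.lf (nat_lit 0) (nat_lit 3966644077227) (nat_lit 152) (nat_lit 15998152241808) (nat_lit 0) (nat_lit 3966532001472) (nat_lit 1) (nat_lit 5) (nat_lit 3) (nat_lit 4) (nat_lit 1) (nat_lit 4) (nat_lit 374) (nat_lit 273) (nat_lit 253))))))))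
noncomputable def xc9 : XT := (XT.nd (nat_lit 45396) (nat_lit 0) (nat_lit 0) (XT.nd (nat_lit 858) (nat_lit 0) (nat_lit 0) (XT.nd (nat_lit 390) (nat_lit 0) (nat_lit 0) (XT.nd (nat_lit 156) (nat_lit 0) (nat_lit 0) (XT.nd (nat_lit 78) (nat_lit 0) (nat_lit 0) (XT.lf (nat_lit 0) (nat_lit 4562118169523) (nat_lit 152) (nat_lit 18396829905908) (nat_lit 0) (nat_lit 4562005142443) (nat_lit 1) (nat_lit 5) (nat_lit 3) (nat_lit 4) (nat_lit 1) (nat_lit 4) (nat_lit 375) (nat_lit 273) (nat_lit 252)) (XT.lf (nat_lit 0) (nat_lit 5246906751275) (nat_lit 152) (nat_lit 21155323195846) (nat_lit 0) (nat_lit 5246792896955) (nat_lit 1) (nat_lit 5) (nat_lit 3) (nat_lit 4) (nat_lit 1) (nat_lit 4) (nat_lit 376) (nat_lit 273) (nat_lit 251))) (XT.nd (nat_lit 78) (nat_lit 0) (nat_lit 0) (XT.lf (nat_lit 0) (nat_lit 6034407859951) (nat_lit 152) (nat_lit 24327602632513) (nat_lit 0) (nat_lit 6034293286292) (nat_lit 1) (nat_lit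 5) (nat_lit 3) (nat_lit 4) (nat_lit 1) (nat_lit 4) (nat_lit 377) (nat_lit 273) (nat_lit 250)) (XT.nd (nat_lit 78) (nat_lit 0) (nat_lit 0) (XT.lf (nat_lit 0) (nat_lit 6940029125938) (nat_lit 152) (nat_lit 27975734552714) (nat_lit 0) (nat_lit 6939913926768) (nat_lit 1) (nat_lit 5) (nat_lit 3) (nat_lit 4) (nat_lit 1) (nat_lit 4) (nat_lit 378) (nat_lit 273) (nat_lit 249)) (XT.lf (nat_lit 0) (nat_lit 7981489226181) (nat_lit 152) (nat_lit 32171095450538) (nat_lit 0) (nat_lit 7981373483087) (nat_lit 1) (nat_lit 5) (nat_lit 3) (nat_lit 4) (nat_lit 1) (nat_lit 4) (nat_lit 379) (nat_lit 273) (nat_lit 248))))) (XT.nd (nat_lit 234) (nat_lit 0) (nat_lit 0) (XT.nd (nat_lit 78) (nat_lit 0) (nat_lit 0) (XT.lf (nat_lit 0) (nat_lit 9179164553943) (nat_lit 152) (nat_lit 36995768473988) (nat_lit 0) (nat_lit 9179048337873) (nat_lit 1) (nat_lit 5) (nat_lit 3) (nat_lit 4) (nat_lit 1) (nat_lit 4) (nat_lit 380)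 (nat_lit 273) (nat_lit 247)) (XT.nd (nat_lit 78) (nat_lit 0) (nat_lit 0) (XT.lf (nat_lit 0) (nat_lit 10556487887378) (nat_lit 152) (nat_lit 42544149399608) (nat_lit 0) (nat_lit 10556371260023) (nat_lit 1) (nat_lit 5) (nat_lit 3) (nat_lit 4) (nat_lit 1) (nat_lit 4) (nat_lit 381) (nat_lit 273) (nat_lit 246)) (XT.lf (nat_lit 0) (nat_lit 12140406856923) (nat_lit 152) (nat_lit 48924793506379) (nat_lit 0) (nat_lit 12140289871929) (nat_lit 1) (nat_lit 5) (nat_lit 3) (nat_lit 4) (nat_lit 1) (nat_lit 4) (nat_lit 382) (nat_lit 273) (nat_lit 245)))) (XT.nd (nat_lit 78) (nat_lit 0) (nat_lit 0) (XT.lf (nat_lit 0) (nat_lit 13961911181545) (nat_lit 152) (nat_lit 56262539483346) (nat_lit 0) (nat_lit 13961793885562) (nat_lit 1) (nat_lit 5) (nat_lit 3) (nat_lit 4) (nat_lit 1) (nat_lit 4) (nat_lit 383) (nat_lit 273) (nat_lit 244)) (XT.nd (nat_lit 78) (nat_lit 0) (nat_lit 0) (XT.lf (nat_lit 0) (nat_lit 16056638989337)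 (nat_lit 152) (nat_lit 64700951925710) (nat_lit 0) (nat_lit 16056521422927) (nat_lit 1) (nat_lit 5) (nat_lit 3) (nat_lit 4) (nat_lit 1) (nat_lit 4) (nat_lit 384) (nat_lit 273) (nat_lit 243)) (XT.lf (nat_lit 0) (nat_lit 18465574085232) (nat_lit 152) (nat_lit 74405130207344) (nat_lit 0) (nat_lit 18465456283670) (nat_lit 1) (nat_lit 5) (nat_lit 3) (nat_lit 4) (nat_lit 1) (nat_lit 4) (nat_lit 385) (nat_lit 273) (nat_lit 242)))))) (XT.nd (nat_lit 390) (nat_lit 0) (nat_lit 0) (XT.nd (nat_lit 156) (nat_lit 0) (nat_lit 0) (XT.nd (nat_lit 78) (nat_lit 0) (nat_lit 0) (XT.lf (nat_lit 0) (nat_lit 21235847808064) (nat_lit 152) (nat_lit 85564938685932) (nat_lit 0) (nat_lit 21235729802021) (nat_lit 1) (nat_lit 5) (nat_lit 3) (nat_lit 4) (nat_lit 1) (nat_lit 4) (nat_lit 386) (nat_lit 273) (nat_lit 241)) (XT.lf (nat_lit 0) (nat_lit 24421661165454) (nat_lit 152) (nat_lit 98398721440402) (nat_lit 0) (nat_lit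 24421542981601) (nat_lit 1) (nat_lit 5) (nat_lit 3) (nat_lit 4) (nat_lit 1) (nat_lit 4) (nat_lit 387) (nat_lit 273) (nat_lit 240))) (XT.nd (nat_lit 78) (nat_lit 0) (nat_lit 0) (XT.lf (nat_lit 0) (nat_lit 28085345288306) (nat_lit 152) (nat_lit 113157574220299) (nat_lit 0) (nat_lit 28085226949836) (nat_lit 1) (nat_lit 5) (nat_lit 3) (nat_lit 4) (nat_lit 1) (nat_lit 4) (nat_lit 388) (nat_lit 273) (nat_lit 239)) (XT.nd (nat_lit 78) (nat_lit 0) (nat_lit 0) (XT.lf (nat_lit 0) (nat_lit 32298580952937) (nat_lit 152) (nat_lit 130130257188708) (nat_lit 0) (nat_lit 32298462480018) (nat_lit 1) (nat_lit 5) (nat_lit 3) (nat_lit 4) (nat_lit 1) (nat_lit 4) (nat_lit 389) (nat_lit 273) (nat_lit 238)) (XT.lf (nat_lit 0) (nat_lit 37143801031048) (nat_lit 152) (nat_lit 149648844577620) (nat_lit 0) (nat_lit 37143682441216) (nat_lit 1) (nat_lit 5) (nat_lit 3) (nat_lit 4) (nat_lit 1) (nat_lit 4) (nat_lit 390)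 (nat_lit 273) (nat_lit 237))))) (XT.nd (nat_lit 43914) (nat_lit 0) (nat_lit 0) (XT.nd (nat_lit 78) (nat_lit 0) (nat_lit 0) (XT.lf (nat_lit 0) (nat_lit 42715803306774) (nat_lit 152) (nat_lit 172095221792468) (nat_lit 0) (nat_lit 42715684615278) (nat_lit 1) (nat_lit 5) (nat_lit 3) (nat_lit 4) (nat_lit 1) (nat_lit 4) (nat_lit 391) (nat_lit 273) (nat_lit 236)) (XT.nd (nat_lit 43758) (nat_lit 0) (nat_lit 0) (XT.lf (nat_lit 0) (nat_lit 49123605215945) (nat_lit 152) (nat_lit 197908557083110) (nat_lit 0) (nat_lit 49123486436047) (nat_lit 1) (nat_lit 5) (nat_lit 3) (nat_lit 4) (nat_lit 1) (nat_lit 4) (nat_lit 392) (nat_lit 273) (nat_lit 235)) (XT.lf (nat_lit 0) (nat_lit 88360585586) (nat_lit 152) (nat_lit 376600239974) (nat_lit 0) (nat_lit 88360585586) (nat_lit 1) (nat_lit 5) (nat_lit 3) (nat_lit 4) (nat_lit 1) (nat_lit 4) (nat_lit 352) (nat_lit 274) (nat_lit 274)))) (XT.nd (nat_lit 78) (nat_lit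 0) (nat_lit 0) (XT.lf (nat_lit 0) (nat_lit 204675932739) (nat_lit 152) (nat_lit 863085082239) (nat_lit 0) (nat_lit 204658027351) (nat_lit 1) (nat_lit 5) (nat_lit 3) (nat_lit 4) (nat_lit 1) (nat_lit 4) (nat_lit 353) (nat_lit 274) (nat_lit 273)) (XT.nd (nat_lit 78) (nat_lit 0) (nat_lit 0) (XT.lf (nat_lit 0) (nat_lit 236699227483) (nat_lit 152) (nat_lit 989715428622) (nat_lit 0) (nat_lit 236665752194) (nat_lit 1) (nat_lit 5) (nat_lit 3) (nat_lit 4) (nat_lit 1) (nat_lit 4) (nat_lit 354) (nat_lit 274) (nat_lit 272)) (XT.lf (nat_lit 0) (nat_lit 273417598130) (nat_lit 152) (nat_lit 1135569069353) (nat_lit 0) (nat_lit 273370583795) (nat_lit 1) (nat_lit 5) (nat_lit 3) (nat_lit 4) (nat_lit 1) (nat_lit 4) (nat_lit 355) (nat_lit 274) (nat_lit 271))))))) (XT.nd (nat_lit 858) (nat_lit 0) (nat_lit 0) (XT.nd (nat_lit 390) (nat_lit 0) (nat_lit 0) (XT.nd (nat_lit 156) (nat_lit 0) (nat_lit 0) (XT.nd (nat_lit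 78) (nat_lit 0) (nat_lit 0) (XT.lf (nat_lit 0) (nat_lit 315549447581) (nat_lit 152) (nat_lit 1303499662620) (nat_lit 0) (nat_lit 315490660163) (nat_lit 1) (nat_lit 5) (nat_lit 3) (nat_lit 4) (nat_lit 1) (nat_lit 4) (nat_lit 356) (nat_lit 274) (nat_lit 270)) (XT.lf (nat_lit 0) (nat_lit 363919094632) (nat_lit 152) (nat_lit 1496792806988) (nat_lit 0) (nat_lit 363850069751) (nat_lit 1) (nat_lit 5) (nat_lit 3) (nat_lit 4) (nat_lit 1) (nat_lit 4) (nat_lit 357) (nat_lit 274) (nat_lit 269))) (XT.nd (nat_lit 78) (nat_lit 0) (nat_lit 0) (XT.lf (nat_lit 0) (nat_lit 419472901942) (nat_lit 152) (nat_lit 1719230324846) (nat_lit 0) (nat_lit 419394974918) (nat_lit 1) (nat_lit 5) (nat_lit 3) (nat_lit 4) (nat_lit 1) (nat_lit 4) (nat_lit 358) (nat_lit 274) (nat_lit 268)) (XT.nd (nat_lit 78) (nat_lit 0) (nat_lit 0) (XT.lf (nat_lit 0) (nat_lit 483297791827) (nat_lit 152) (nat_lit 1975164254587) (nat_lit 0)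 (nat_lit 483212123810) (nat_lit 1) (nat_lit 5) (nat_lit 3) (nat_lit 4) (nat_lit 1) (nat_lit 4) (nat_lit 359) (nat_lit 274) (nat_lit 267)) (XT.lf (nat_lit 0) (nat_lit 556642512133) (nat_lit 152) (nat_lit 2269601999184) (nat_lit 0) (nat_lit 556550112818) (nat_lit 1) (nat_lit 5) (nat_lit 3) (nat_lit 4) (nat_lit 1) (nat_lit 4) (nat_lit 360) (nat_lit 274) (nat_lit 266))))) (XT.nd (nat_lit 234) (nat_lit 0) (nat_lit 0) (XT.nd (nat_lit 78) (nat_lit 0) (nat_lit 0) (XT.lf (nat_lit 0) (nat_lit 640942068258) (nat_lit 152) (nat_lit 2608304297119) (nat_lit 0) (nat_lit 640843815640) (nat_lit 1) (nat_lit 5) (nat_lit 3) (nat_lit 4) (nat_lit 1) (nat_lit 4) (nat_lit 361) (nat_lit 274) (nat_lit 265)) (XT.nd (nat_lit 78) (nat_lit 0) (nat_lit 0) (XT.lf (nat_lit 0) (nat_lit 737845799343) (nat_lit 152) (nat_lit 2997897932481) (nat_lit 0) (nat_lit 737742456897) (nat_lit 1) (nat_lit 5) (nat_lit 3) (nat_lit 4) (nat_lit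 1) (nat_lit 4) (nat_lit 362) (nat_lit 274) (nat_lit 264)) (XT.lf (nat_lit 0) (nat_lit 849249647953) (nat_lit 152) (nat_lit 3446005389441) (nat_lit 0) (nat_lit 849141879569) (nat_lit 1) (nat_lit 5) (nat_lit 3) (nat_lit 4) (nat_lit 1) (nat_lit 4) (nat_lit 363) (nat_lit 274) (nat_lit 263)))) (XT.nd (nat_lit 78) (nat_lit 0) (nat_lit 0) (XT.lf (nat_lit 0) (nat_lit 977333254605) (nat_lit 152) (nat_lit 3961393987809) (nat_lit 0) (nat_lit 977221637579) (nat_lit 1) (nat_lit 5) (nat_lit 3) (nat_lit 4) (nat_lit 1) (nat_lit 4) (nat_lit 364) (nat_lit 274) (nat_lit 262)) (XT.nd (nat_lit 78) (nat_lit 0) (nat_lit 0) (XT.lf (nat_lit 0) (nat_lit 1124602602905) (nat_lit 152) (nat_lit 4554147417552) (nat_lit 0) (nat_lit 1124487639234) (nat_lit 1) (nat_lit 5) (nat_lit 3) (nat_lit 4) (nat_lit 1) (nat_lit 4) (nat_lit 365) (nat_lit 274) (nat_lit 261)) (XT.lf (nat_lit 0) (nat_lit 1293939049670) (nat_lit 152) (nat_lit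 5235863028384) (nat_lit 0) (nat_lit 1293821175873) (nat_lit 1) (nat_lit 5) (nat_lit 3) (nat_lit 4) (nat_lit 1) (nat_lit 4) (nat_lit 366) (nat_lit 274) (nat_lit 260)))))) (XT.nd (nat_lit 390) (nat_lit 0) (nat_lit 0) (XT.nd (nat_lit 156) (nat_lit 0) (nat_lit 0) (XT.nd (nat_lit 78) (nat_lit 0) (nat_lit 0) (XT.lf (nat_lit 0) (nat_lit 1488655699292) (nat_lit 152) (nat_lit 6019878734428) (nat_lit 0) (nat_lit 1488535294951) (nat_lit 1) (nat_lit 5) (nat_lit 3) (nat_lit 4) (nat_lit 1) (nat_lit 4) (nat_lit 367) (nat_lit 274) (nat_lit 259)) (XT.lf (nat_lit 0) (nat_lit 1712562225351) (nat_lit 152) (nat_lit 6921533973413) (nat_lit 0) (nat_lit 1712439620537) (nat_lit 1) (nat_lit 5) (nat_lit 3) (nat_lit 4) (nat_lit 1) (nat_lit 4) (nat_lit 368) (nat_lit 274) (nat_lit 258))) (XT.nd (nat_lit 78) (nat_lit 0) (nat_lit 0) (XT.lf (nat_lit 0) (nat_lit 1970039407705) (nat_lit 152) (nat_lit 7958469826101) (nat_lit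 0) (nat_lit 1969914889435) (nat_lit 1) (nat_lit 5) (nat_lit 3) (nat_lit 4) (nat_lit 1) (nat_lit 4) (nat_lit 369) (nat_lit 274) (nat_lit 257)) (XT.nd (nat_lit 78) (nat_lit 0) (nat_lit 0) (XT.lf (nat_lit 0) (nat_lit 2266124843399) (nat_lit 152) (nat_lit 9150974167870) (nat_lit 0) (nat_lit 2265998661255) (nat_lit 1) (nat_lit 5) (nat_lit 3) (nat_lit 4) (nat_lit 1) (nat_lit 4) (nat_lit 370) (nat_lit 274) (nat_lit 256)) (XT.lf (nat_lit 0) (nat_lit 2606611508350) (nat_lit 152) (nat_lit 10522378605407) (nat_lit 0) (nat_lit 2606483879359) (nat_lit 1) (nat_lit 5) (nat_lit 3) (nat_lit 4) (nat_lit 1) (nat_lit 4) (nat_lit 371) (nat_lit 274) (nat_lit 255))))) (XT.nd (nat_lit 234) (nat_lit 0) (nat_lit 0) (XT.nd (nat_lit 78) (nat_lit 0) (nat_lit 0) (XT.lf (nat_lit 0) (nat_lit 2998161098176) (nat_lit 152) (nat_lit 12099514964665) (nat_lit 0) (nat_lit 2998032211057) (nat_lit 1) (nat_lit 5) (nat_lit 3) (nat_lit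 4) (nat_lit 1) (nat_lit 4) (nat_lit 372) (nat_lit 274) (nat_lit 254)) (XT.nd (nat_lit 78) (nat_lit 0) (nat_lit 0) (XT.lf (nat_lit 0) (nat_lit 3448434365721) (nat_lit 152) (nat_lit 13913240261367) (nat_lit 0) (nat_lit 3448304384578) (nat_lit 1) (nat_lit 5) (nat_lit 3) (nat_lit 4) (nat_lit 1) (nat_lit 4) (nat_lit 373) (nat_lit 274) (nat_lit 253)) (XT.lf (nat_lit 0) (nat_lit 3966241005350) (nat_lit 152) (nat_lit 15999040425232) (nat_lit 0) (nat_lit 3966110072882) (nat_lit 1) (nat_lit 5) (nat_lit 3) (nat_lit 4) (nat_lit 1) (nat_lit 4) (nat_lit 374) (nat_lit 274) (nat_lit 252)))) (XT.nd (nat_lit 78) (nat_lit 0) (nat_lit 0) (XT.lf (nat_lit 0) (nat_lit 4561712016535) (nat_lit 152) (nat_lit 18397724589901) (nat_lit 0) (nat_lit 4561580256827) (nat_lit 1) (nat_lit 5) (nat_lit 3) (nat_lit 4) (nat_lit 1) (nat_lit 4) (nat_lit 375) (nat_lit 274) (nat_lit 251)) (XT.nd (nat_lit 78) (nat_lit 0) (nat_lit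 0) (XT.lf (nat_lit 0) (nat_lit 5246497919059) (nat_lit 152) (nat_lit 21156223532508) (nat_lit 0) (nat_lit 5246365440013) (nat_lit 1) (nat_lit 5) (nat_lit 3) (nat_lit 4) (nat_lit 1) (nat_lit 4) (nat_lit 376) (nat_lit 274) (nat_lit 250)) (XT.lf (nat_lit 0) (nat_lit 6033996697973) (nat_lit 152) (nat_lit 24328507884540) (nat_lit 0) (nat_lit 6033863593414) (nat_lit 1) (nat_lit 5) (nat_lit 3) (nat_lit 4) (nat_lit 1) (nat_lit 4) (nat_lit 377) (nat_lit 274) (nat_lit 249))))))))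
noncomputable def xc10 : XT := (XT.nd (nat_lit 45396) (nat_lit 0) (nat_lit 0) (XT.nd (nat_lit 858) (nat_lit 0) (nat_lit 0) (XT.nd (nat_lit 390) (nat_lit 0) (nat_lit 0) (XT.nd (nat_lit 156) (nat_lit 0) (nat_lit 0) (XT.nd (nat_lit 78) (nat_lit 0) (nat_lit 0) (XT.lf (nat_lit 0) (nat_lit 6939615938079) (nat_lit 152) (nat_lit 27976644078970) (nat_lit 0) (nat_lit 6939482289598) (nat_lit 1) (nat_lit 5) (nat_lit 3) (nat_lit 4) (nat_lit 1) (nat_lit 4) (nat_lit 378) (nat_lit 274) (nat_lit 248)) (XT.lf (nat_lit 0) (nat_lit 7981074276686) (nat_lit 152) (nat_lit 32172008693516) (nat_lit 0) (nat_lit 7980940155228) (nat_lit 1) (nat_lit 5) (nat_lit 3) (nat_lit 4) (nat_lit 1) (nat_lit 4) (nat_lit 379) (nat_lit 274) (nat_lit 247))) (XT.nd (nat_lit 78) (nat_lit 0) (nat_lit 0) (XT.lf (nat_lit 0) (nat_lit 9178748072592) (nat_lit 152) (nat_lit 36996684948898) (nat_lit 0) (nat_lit 9178613539850) (nat_lit 1)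 (nat_lit 5) (nat_lit 3) (nat_lit 4) (nat_lit 1) (nat_lit 4) (nat_lit 380) (nat_lit 274) (nat_lit 246)) (XT.nd (nat_lit 78) (nat_lit 0) (nat_lit 0) (XT.lf (nat_lit 0) (nat_lit 10556070073978) (nat_lit 152) (nat_lit 42545068684894) (nat_lit 0) (nat_lit 10555935183597) (nat_lit 1) (nat_lit 5) (nat_lit 3) (nat_lit 4) (nat_lit 1) (nat_lit 4) (nat_lit 381) (nat_lit 274) (nat_lit 245)) (XT.lf (nat_lit 0) (nat_lit 12139987885219) (nat_lit 152) (nat_lit 48925715235470) (nat_lit 0) (nat_lit 12139852683848) (nat_lit 1) (nat_lit 5) (nat_lit 3) (nat_lit 4) (nat_lit 1) (nat_lit 4) (nat_lit 382) (nat_lit 274) (nat_lit 244))))) (XT.nd (nat_lit 234) (nat_lit 0) (nat_lit 0) (XT.nd (nat_lit 78) (nat_lit 0) (nat_lit 0) (XT.lf (nat_lit 0) (nat_lit 13961491202620) (nat_lit 152) (nat_lit 56263463337484) (nat_lit 0) (nat_lit 13961355730823) (nat_lit 1) (nat_lit 5) (nat_lit 3) (nat_lit 4) (nat_lit 1) (nat_lit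 4) (nat_lit 383) (nat_lit 274) (nat_lit 243)) (XT.nd (nat_lit 78) (nat_lit 0) (nat_lit 0) (XT.lf (nat_lit 0) (nat_lit 16056218134568) (nat_lit 152) (nat_lit 64701877627715) (nat_lit 0) (nat_lit 16056082427618) (nat_lit 1) (nat_lit 5) (nat_lit 3) (nat_lit 4) (nat_lit 1) (nat_lit 4) (nat_lit 384) (nat_lit 274) (nat_lit 242)) (XT.lf (nat_lit 0) (nat_lit 18465152468860) (nat_lit 152) (nat_lit 74406057516191) (nat_lit 0) (nat_lit 18465016557429) (nat_lit 1) (nat_lit 5) (nat_lit 3) (nat_lit 4) (nat_lit 1) (nat_lit 4) (nat_lit 385) (nat_lit 274) (nat_lit 241)))) (XT.nd (nat_lit 78) (nat_lit 0) (nat_lit 0) (XT.lf (nat_lit 0) (nat_lit 21235425529428) (nat_lit 152) (nat_lit 85565867392032) (nat_lit 0) (nat_lit 21235289440187) (nat_lit 1) (nat_lit 5) (nat_lit 3) (nat_lit 4) (nat_lit 1) (nat_lit 4) (nat_lit 386) (nat_lit 274) (nat_lit 240)) (XT.nd (nat_lit 78) (nat_lit 0) (nat_lit 0) (XT.lf (nat_lit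 0) (nat_lit 24421238310935) (nat_lit 152) (nat_lit 98399651361505) (nat_lit 0) (nat_lit 24421102067078) (nat_lit 1) (nat_lit 5) (nat_lit 3) (nat_lit 4) (nat_lit 1) (nat_lit 4) (nat_lit 387) (nat_lit 274) (nat_lit 239)) (XT.lf (nat_lit 0) (nat_lit 28084921933021) (nat_lit 152) (nat_lit 113158505197926) (nat_lit 0) (nat_lit 28084785554714) (nat_lit 1) (nat_lit 5) (nat_lit 3) (nat_lit 4) (nat_lit 1) (nat_lit 4) (nat_lit 388) (nat_lit 274) (nat_lit 238)))))) (XT.nd (nat_lit 44070) (nat_lit 0) (nat_lit 0) (XT.nd (nat_lit 43836) (nat_lit 0) (nat_lit 0) (XT.nd (nat_lit 78) (nat_lit 0) (nat_lit 0) (XT.lf (nat_lit 0) (nat_lit 32298157162203) (nat_lit 152) (nat_lit 130131189085052) (nat_lit 0) (nat_lit 32298020666984) (nat_lit 1) (nat_lit 5) (nat_lit 3) (nat_lit 4) (nat_lit 1) (nat_lit 4) (nat_lit 389) (nat_lit 274) (nat_lit 237)) (XT.lf (nat_lit 0) (nat_lit 37143376861662) (nat_lit 152) (nat_lit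 149649777272847) (nat_lit 0) (nat_lit 37143240264779) (nat_lit 1) (nat_lit 5) (nat_lit 3) (nat_lit 4) (nat_lit 1) (nat_lit 4) (nat_lit 390) (nat_lit 274) (nat_lit 236))) (XT.nd (nat_lit 78) (nat_lit 0) (nat_lit 0) (XT.lf (nat_lit 0) (nat_lit 65497834442) (nat_lit 152) (nat_lit 287596302512) (nat_lit 0) (nat_lit 65497834442) (nat_lit 1) (nat_lit 5) (nat_lit 3) (nat_lit 4) (nat_lit 1) (nat_lit 4) (nat_lit 350) (nat_lit 275) (nat_lit 275)) (XT.nd (nat_lit 78) (nat_lit 0) (nat_lit 0) (XT.lf (nat_lit 0) (nat_lit 152308592992) (nat_lit 152) (nat_lit 657911705620) (nat_lit 0) (nat_lit 152288001797) (nat_lit 1) (nat_lit 5) (nat_lit 3) (nat_lit 4) (nat_lit 1) (nat_lit 4) (nat_lit 351) (nat_lit 275) (nat_lit 274)) (XT.lf (nat_lit 0) (nat_lit 176675072500) (nat_lit 152) (nat_lit 753341183117) (nat_lit 0) (nat_lit 176636575917) (nat_lit 1) (nat_lit 5) (nat_lit 3) (nat_lit 4) (nat_lit 1) (nat_lit 4)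 (nat_lit 352) (nat_lit 275) (nat_lit 273))))) (XT.nd (nat_lit 234) (nat_lit 0) (nat_lit 0) (XT.nd (nat_lit 78) (nat_lit 0) (nat_lit 0) (XT.lf (nat_lit 0) (nat_lit 204571842878) (nat_lit 152) (nat_lit 863348135988) (nat_lit 0) (nat_lit 204517776392) (nat_lit 1) (nat_lit 5) (nat_lit 3) (nat_lit 4) (nat_lit 1) (nat_lit 4) (nat_lit 353) (nat_lit 275) (nat_lit 272)) (XT.nd (nat_lit 78) (nat_lit 0) (nat_lit 0) (XT.lf (nat_lit 0) (nat_lit 236544710501) (nat_lit 152) (nat_lit 990084874181) (nat_lit 0) (nat_lit 236477104971) (nat_lit 1) (nat_lit 5) (nat_lit 3) (nat_lit 4) (nat_lit 1) (nat_lit 4) (nat_lit 354) (nat_lit 275) (nat_lit 271)) (XT.lf (nat_lit 0) (nat_lit 273219231477) (nat_lit 152) (nat_lit 1136031029529) (nat_lit 0) (nat_lit 273139852864) (nat_lit 1) (nat_lit 5) (nat_lit 3) (nat_lit 4) (nat_lit 1) (nat_lit 4) (nat_lit 355) (nat_lit 275) (nat_lit 270)))) (XT.nd (nat_lit 78) (nat_lit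 0) (nat_lit 0) (XT.lf (nat_lit 0) (nat_lit 315312950780) (nat_lit 152) (nat_lit 1304042070290) (nat_lit 0) (nat_lit 315223334704) (nat_lit 1) (nat_lit 5) (nat_lit 3) (nat_lit 4) (nat_lit 1) (nat_lit 4) (nat_lit 356) (nat_lit 275) (nat_lit 269)) (XT.nd (nat_lit 78) (nat_lit 0) (nat_lit 0) (XT.lf (nat_lit 0) (nat_lit 363649441181) (nat_lit 152) (nat_lit 1497405168999) (nat_lit 0) (nat_lit 363550922962) (nat_lit 1) (nat_lit 5) (nat_lit 3) (nat_lit 4) (nat_lit 1) (nat_lit 4) (nat_lit 357) (nat_lit 275) (nat_lit 268)) (XT.lf (nat_lit 0) (nat_lit 419174416620) (nat_lit 152) (nat_lit 1719903516720) (nat_lit 0) (nat_lit 419068157408) (nat_lit 1) (nat_lit 5) (nat_lit 3) (nat_lit 4) (nat_lit 1) (nat_lit 4) (nat_lit 358) (nat_lit 275) (nat_lit 267))))))) (XT.nd (nat_lit 858) (nat_lit 0) (nat_lit 0) (XT.nd (nat_lit 390) (nat_lit 0) (nat_lit 0) (XT.nd (nat_lit 156) (nat_lit 0) (nat_lit 0) (XT.nd (nat_lit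 78) (nat_lit 0) (nat_lit 0) (XT.lf (nat_lit 0) (nat_lit 482974235314) (nat_lit 152) (nat_lit 1975890341993) (nat_lit 0) (nat_lit 482861244803) (nat_lit 1) (nat_lit 5) (nat_lit 3) (nat_lit 4) (nat_lit 1) (nat_lit 4) (nat_lit 359) (nat_lit 275) (nat_lit 266)) (XT.lf (nat_lit 0) (nat_lit 556297154584) (nat_lit 152) (nat_lit 2270374082706) (nat_lit 0) (nat_lit 556178310771) (nat_lit 1) (nat_lit 5) (nat_lit 3) (nat_lit 4) (nat_lit 1) (nat_lit 4) (nat_lit 360) (nat_lit 275) (nat_lit 265))) (XT.nd (nat_lit 78) (nat_lit 0) (nat_lit 0) (XT.lf (nat_lit 0) (nat_lit 640577753287) (nat_lit 152) (nat_lit 2609116377263) (nat_lit 0) (nat_lit 640453819645) (nat_lit 1) (nat_lit 5) (nat_lit 3) (nat_lit 4) (nat_lit 1) (nat_lit 4) (nat_lit 361) (nat_lit 275) (nat_lit 264)) (XT.nd (nat_lit 78) (nat_lit 0) (nat_lit 0) (XT.lf (nat_lit 0) (nat_lit 737464999656) (nat_lit 152) (nat_lit 2998744792296) (nat_lit 0)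 (nat_lit 737336640077) (nat_lit 1) (nat_lit 5) (nat_lit 3) (nat_lit 4) (nat_lit 1) (nat_lit 4) (nat_lit 362) (nat_lit 275) (nat_lit 263)) (XT.lf (nat_lit 0) (nat_lit 848854513731) (nat_lit 152) (nat_lit 3446882492448) (nat_lit 0) (nat_lit 848722305510) (nat_lit 1) (nat_lit 5) (nat_lit 3) (nat_lit 4) (nat_lit 1) (nat_lit 4) (nat_lit 363) (nat_lit 275) (nat_lit 262))))) (XT.nd (nat_lit 234) (nat_lit 0) (nat_lit 0) (XT.nd (nat_lit 78) (nat_lit 0) (nat_lit 0) (XT.lf (nat_lit 0) (nat_lit 976925655570) (nat_lit 152) (nat_lit 3962297389244) (nat_lit 0) (nat_lit 976790100703) (nat_lit 1) (nat_lit 5) (nat_lit 3) (nat_lit 4) (nat_lit 1) (nat_lit 4) (nat_lit 364) (nat_lit 275) (nat_lit 261)) (XT.nd (nat_lit 78) (nat_lit 0) (nat_lit 0) (XT.lf (nat_lit 0) (nat_lit 1124184164902) (nat_lit 152) (nat_lit 4555073687186) (nat_lit 0) (nat_lit 1124045699910) (nat_lit 1) (nat_lit 5) (nat_lit 3) (nat_lit 4)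 (nat_lit 1) (nat_lit 4) (nat_lit 365) (nat_lit 275) (nat_lit 260)) (XT.lf (nat_lit 0) (nat_lit 1293511186478) (nat_lit 152) (nat_lit 5236809183408) (nat_lit 0) (nat_lit 1293370190941) (nat_lit 1) (nat_lit 5) (nat_lit 3) (nat_lit 4) (nat_lit 1) (nat_lit 4) (nat_lit 366) (nat_lit 275) (nat_lit 259)))) (XT.nd (nat_lit 78) (nat_lit 0) (nat_lit 0) (XT.lf (nat_lit 0) (nat_lit 1488219640283) (nat_lit 152) (nat_lit 6020842181096) (nat_lit 0) (nat_lit 1488076444273) (nat_lit 1) (nat_lit 5) (nat_lit 3) (nat_lit 4) (nat_lit 1) (nat_lit 4) (nat_lit 367) (nat_lit 275) (nat_lit 258)) (XT.nd (nat_lit 78) (nat_lit 0) (nat_lit 0) (XT.lf (nat_lit 0) (nat_lit 1712119039545) (nat_lit 152) (nat_lit 6922512456292) (nat_lit 0) (nat_lit 1711973930079) (nat_lit 1) (nat_lit 5) (nat_lit 3) (nat_lit 4) (nat_lit 1) (nat_lit 4) (nat_lit 368) (nat_lit 275) (nat_lit 257)) (XT.lf (nat_lit 0) (nat_lit 1969590024683) (nat_lit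 152) (nat_lit 7959461383947) (nat_lit 0) (nat_lit 1969443251344) (nat_lit 1) (nat_lit 5) (nat_lit 3) (nat_lit 4) (nat_lit 1) (nat_lit 4) (nat_lit 369) (nat_lit 275) (nat_lit 256)))))) (XT.nd (nat_lit 390) (nat_lit 0) (nat_lit 0) (XT.nd (nat_lit 156) (nat_lit 0) (nat_lit 0) (XT.nd (nat_lit 78) (nat_lit 0) (nat_lit 0) (XT.lf (nat_lit 0) (nat_lit 2265670071495) (nat_lit 152) (nat_lit 9151977095252) (nat_lit 0) (nat_lit 2265521851308) (nat_lit 1) (nat_lit 5) (nat_lit 3) (nat_lit 4) (nat_lit 1) (nat_lit 4) (nat_lit 370) (nat_lit 275) (nat_lit 255)) (XT.lf (nat_lit 0) (nat_lit 2606152050461) (nat_lit 152) (nat_lit 10523391419343) (nat_lit 0) (nat_lit 2606002572146) (nat_lit 1) (nat_lit 5) (nat_lit 3) (nat_lit 4) (nat_lit 1) (nat_lit 4) (nat_lit 371) (nat_lit 275) (nat_lit 254))) (XT.nd (nat_lit 78) (nat_lit 0) (nat_lit 0) (XT.lf (nat_lit 0) (nat_lit 2997697565517) (nat_lit 152) (nat_lit 12100536375603)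 (nat_lit 0) (nat_lit 2997546993178) (nat_lit 1) (nat_lit 5) (nat_lit 3) (nat_lit 4) (nat_lit 1) (nat_lit 4) (nat_lit 372) (nat_lit 275) (nat_lit 253)) (XT.nd (nat_lit 78) (nat_lit 0) (nat_lit 0) (XT.lf (nat_lit 0) (nat_lit 3447967289784) (nat_lit 152) (nat_lit 13914269147960) (nat_lit 0) (nat_lit 3447815766120) (nat_lit 1) (nat_lit 5) (nat_lit 3) (nat_lit 4) (nat_lit 1) (nat_lit 4) (nat_lit 373) (nat_lit 275) (nat_lit 252)) (XT.lf (nat_lit 0) (nat_lit 3965770848302) (nat_lit 152) (nat_lit 16000075812394) (nat_lit 0) (nat_lit 3965618497399) (nat_lit 1) (nat_lit 5) (nat_lit 3) (nat_lit 4) (nat_lit 1) (nat_lit 4) (nat_lit 374) (nat_lit 275) (nat_lit 251))))) (XT.nd (nat_lit 234) (nat_lit 0) (nat_lit 0) (XT.nd (nat_lit 78) (nat_lit 0) (nat_lit 0) (XT.lf (nat_lit 0) (nat_lit 4561239180260) (nat_lit 152) (nat_lit 18398765629732) (nat_lit 0) (nat_lit 4561086110018) (nat_lit 1) (nat_lit 5) (nat_lit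 3) (nat_lit 4) (nat_lit 1) (nat_lit 4) (nat_lit 375) (nat_lit 275) (nat_lit 250)) (XT.nd (nat_lit 78) (nat_lit 0) (nat_lit 0) (XT.lf (nat_lit 0) (nat_lit 5246022753022) (nat_lit 152) (nat_lit 21157269487704) (nat_lit 0) (nat_lit 5245869057268) (nat_lit 1) (nat_lit 5) (nat_lit 3) (nat_lit 4) (nat_lit 1) (nat_lit 4) (nat_lit 376) (nat_lit 275) (nat_lit 249)) (XT.lf (nat_lit 0) (nat_lit 6033519506054) (nat_lit 152) (nat_lit 24329558113965) (nat_lit 0) (nat_lit 6033365266377) (nat_lit 1) (nat_lit 5) (nat_lit 3) (nat_lit 4) (nat_lit 1) (nat_lit 4) (nat_lit 377) (nat_lit 275) (nat_lit 248)))) (XT.nd (nat_lit 78) (nat_lit 0) (nat_lit 0) (XT.lf (nat_lit 0) (nat_lit 6939136984526) (nat_lit 152) (nat_lit 27977698025117) (nat_lit 0) (nat_lit 6938982271872) (nat_lit 1) (nat_lit 5) (nat_lit 3) (nat_lit 4) (nat_lit 1) (nat_lit 4) (nat_lit 378) (nat_lit 275) (nat_lit 247)) (XT.nd (nat_lit 78) (nat_lit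 0) (nat_lit 0) (XT.lf (nat_lit 0) (nat_lit 7980593791276) (nat_lit 152) (nat_lit 32173065871595) (nat_lit 0) (nat_lit 7980438667338) (nat_lit 1) (nat_lit 5) (nat_lit 3) (nat_lit 4) (nat_lit 1) (nat_lit 4) (nat_lit 379) (nat_lit 275) (nat_lit 246)) (XT.lf (nat_lit 0) (nat_lit 9178266255133) (nat_lit 152) (nat_lit 36997744937352) (nat_lit 0) (nat_lit 9178110773556) (nat_lit 1) (nat_lit 5) (nat_lit 3) (nat_lit 4) (nat_lit 1) (nat_lit 4) (nat_lit 380) (nat_lit 275) (nat_lit 245))))))))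
noncomputable def xc11 : XT := (XT.nd (nat_lit 45240) (nat_lit 0) (nat_lit 0) (XT.nd (nat_lit 44382) (nat_lit 0) (nat_lit 0) (XT.nd (nat_lit 390) (nat_lit 0) (nat_lit 0) (XT.nd (nat_lit 156) (nat_lit 0) (nat_lit 0) (XT.nd (nat_lit 78) (nat_lit 0) (nat_lit 0) (XT.lf (nat_lit 0) (nat_lit 10555587098215) (nat_lit 152) (nat_lit 42546131117152) (nat_lit 0) (nat_lit 10555431305648) (nat_lit 1) (nat_lit 5) (nat_lit 3) (nat_lit 4) (nat_lit 1) (nat_lit 4) (nat_lit 381) (nat_lit 275) (nat_lit 244)) (XT.lf (nat_lit 0) (nat_lit 12139503902234) (nat_lit 152) (nat_lit 48926779792776) (nat_lit 0) (nat_lit 12139347839242) (nat_lit 1) (nat_lit 5) (nat_lit 3) (nat_lit 4) (nat_lit 1) (nat_lit 4) (nat_lit 382) (nat_lit 275) (nat_lit 243))) (XT.nd (nat_lit 78) (nat_lit 0) (nat_lit 0) (XT.lf (nat_lit 0) (nat_lit 13961006343792) (nat_lit 152) (nat_lit 56264529742657) (nat_lit 0) (nat_lit 13960850045646) (nat_lit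 1) (nat_lit 5) (nat_lit 3) (nat_lit 4) (nat_lit 1) (nat_lit 4) (nat_lit 383) (nat_lit 275) (nat_lit 242)) (XT.nd (nat_lit 78) (nat_lit 0) (nat_lit 0) (XT.lf (nat_lit 0) (nat_lit 16055732514136) (nat_lit 152) (nat_lit 64702945639730) (nat_lit 0) (nat_lit 16055576011509) (nat_lit 1) (nat_lit 5) (nat_lit 3) (nat_lit 4) (nat_lit 1) (nat_lit 4) (nat_lit 384) (nat_lit 275) (nat_lit 241)) (XT.lf (nat_lit 0) (nat_lit 18464666186164) (nat_lit 152) (nat_lit 74407126925459) (nat_lit 0) (nat_lit 18464509505728) (nat_lit 1) (nat_lit 5) (nat_lit 3) (nat_lit 4) (nat_lit 1) (nat_lit 4) (nat_lit 385) (nat_lit 275) (nat_lit 240))))) (XT.nd (nat_lit 234) (nat_lit 0) (nat_lit 0) (XT.nd (nat_lit 78) (nat_lit 0) (nat_lit 0) (XT.lf (nat_lit 0) (nat_lit 21234938670850) (nat_lit 152) (nat_lit 85566938016303) (nat_lit 0) (nat_lit 21234781835797) (nat_lit 1) (nat_lit 5) (nat_lit 3) (nat_lit 4) (nat_lit 1) (nat_lit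 4) (nat_lit 386) (nat_lit 275) (nat_lit 239)) (XT.nd (nat_lit 78) (nat_lit 0) (nat_lit 0) (XT.lf (nat_lit 0) (nat_lit 24420750951591) (nat_lit 152) (nat_lit 98400723042300) (nat_lit 0) (nat_lit 24420593982089) (nat_lit 1) (nat_lit 5) (nat_lit 3) (nat_lit 4) (nat_lit 1) (nat_lit 4) (nat_lit 387) (nat_lit 275) (nat_lit 238)) (XT.lf (nat_lit 0) (nat_lit 28084434138227) (nat_lit 152) (nat_lit 113159577797438) (nat_lit 0) (nat_lit 28084277051812) (nat_lit 1) (nat_lit 5) (nat_lit 3) (nat_lit 4) (nat_lit 1) (nat_lit 4) (nat_lit 388) (nat_lit 275) (nat_lit 237)))) (XT.nd (nat_lit 78) (nat_lit 0) (nat_lit 0) (XT.lf (nat_lit 0) (nat_lit 32297668988758) (nat_lit 152) (nat_lit 130132262483448) (nat_lit 0) (nat_lit 32297511800680) (nat_lit 1) (nat_lit 5) (nat_lit 3) (nat_lit 4) (nat_lit 1) (nat_lit 4) (nat_lit 389) (nat_lit 275) (nat_lit 236)) (XT.nd (nat_lit 43602) (nat_lit 0) (nat_lit 0) (XT.lf (nat_lit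 0) (nat_lit 37142888358954) (nat_lit 152) (nat_lit 149650851365926) (nat_lit 0) (nat_lit 37142731082474) (nat_lit 1) (nat_lit 5) (nat_lit 3) (nat_lit 4) (nat_lit 1) (nat_lit 4) (nat_lit 390) (nat_lit 275) (nat_lit 235)) (XT.lf (nat_lit 0) (nat_lit 48012990530) (nat_lit 152) (nat_lit 220721401228) (nat_lit 0) (nat_lit 48012990530) (nat_lit 1) (nat_lit 5) (nat_lit 3) (nat_lit 4) (nat_lit 1) (nat_lit 4) (nat_lit 348) (nat_lit 276) (nat_lit 276)))))) (XT.nd (nat_lit 390) (nat_lit 0) (nat_lit 0) (XT.nd (nat_lit 156) (nat_lit 0) (nat_lit 0) (XT.nd (nat_lit 78) (nat_lit 0) (nat_lit 0) (XT.lf (nat_lit 0) (nat_lit 112342988061) (nat_lit 152) (nat_lit 503565464144) (nat_lit 0) (nat_lit 112319308186) (nat_lit 1) (nat_lit 5) (nat_lit 3) (nat_lit 4) (nat_lit 1) (nat_lit 4) (nat_lit 349) (nat_lit 276) (nat_lit 275)) (XT.lf (nat_lit 0) (nat_lit 130942655413) (nat_lit 152) (nat_lit 575354413668) (nat_lit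 0) (nat_lit 130898384342) (nat_lit 1) (nat_lit 5) (nat_lit 3) (nat_lit 4) (nat_lit 1) (nat_lit 4) (nat_lit 350) (nat_lit 276) (nat_lit 274))) (XT.nd (nat_lit 78) (nat_lit 0) (nat_lit 0) (XT.lf (nat_lit 0) (nat_lit 152188889652) (nat_lit 152) (nat_lit 658214217432) (nat_lit 0) (nat_lit 152126713194) (nat_lit 1) (nat_lit 5) (nat_lit 3) (nat_lit 4) (nat_lit 1) (nat_lit 4) (nat_lit 351) (nat_lit 276) (nat_lit 273)) (XT.nd (nat_lit 78) (nat_lit 0) (nat_lit 0) (XT.lf (nat_lit 0) (nat_lit 176497377971) (nat_lit 152) (nat_lit 753766045510) (nat_lit 0) (nat_lit 176419631611) (nat_lit 1) (nat_lit 5) (nat_lit 3) (nat_lit 4) (nat_lit 1) (nat_lit 4) (nat_lit 352) (nat_lit 276) (nat_lit 272)) (XT.lf (nat_lit 0) (nat_lit 204343721227) (nat_lit 152) (nat_lit 863879390191) (nat_lit 0) (nat_lit 204252435822) (nat_lit 1) (nat_lit 5) (nat_lit 3) (nat_lit 4) (nat_lit 1) (nat_lit 4) (nat_lit 353) (nat_lit 276)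 (nat_lit 271))))) (XT.nd (nat_lit 234) (nat_lit 0) (nat_lit 0) (XT.nd (nat_lit 78) (nat_lit 0) (nat_lit 0) (XT.lf (nat_lit 0) (nat_lit 236272739180) (nat_lit 152) (nat_lit 990708643001) (nat_lit 0) (nat_lit 236169680692) (nat_lit 1) (nat_lit 5) (nat_lit 3) (nat_lit 4) (nat_lit 1) (nat_lit 4) (nat_lit 354) (nat_lit 276) (nat_lit 270)) (XT.nd (nat_lit 78) (nat_lit 0) (nat_lit 0) (XT.lf (nat_lit 0) (nat_lit 272909130008) (nat_lit 152) (nat_lit 1136735245842) (nat_lit 0) (nat_lit 272795834056) (nat_lit 1) (nat_lit 5) (nat_lit 3) (nat_lit 4) (nat_lit 1) (nat_lit 4) (nat_lit 355) (nat_lit 276) (nat_lit 269)) (XT.lf (nat_lit 0) (nat_lit 314969692661) (nat_lit 152) (nat_lit 1304816240944) (nat_lit 0) (nat_lit 314847494567) (nat_lit 1) (nat_lit 5) (nat_lit 3) (nat_lit 4) (nat_lit 1) (nat_lit 4) (nat_lit 356) (nat_lit 276) (nat_lit 268)))) (XT.nd (nat_lit 78) (nat_lit 0) (nat_lit 0) (XT.lf (nat_lit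 0) (nat_lit 363277351191) (nat_lit 152) (nat_lit 1498240169516) (nat_lit 0) (nat_lit 363147412104) (nat_lit 1) (nat_lit 5) (nat_lit 3) (nat_lit 4) (nat_lit 1) (nat_lit 4) (nat_lit 357) (nat_lit 276) (nat_lit 267)) (XT.nd (nat_lit 78) (nat_lit 0) (nat_lit 0) (XT.lf (nat_lit 0) (nat_lit 418777255439) (nat_lit 152) (nat_lit 1720791412769) (nat_lit 0) (nat_lit 418640585053) (nat_lit 1) (nat_lit 5) (nat_lit 3) (nat_lit 4) (nat_lit 1) (nat_lit 4) (nat_lit 358) (nat_lit 276) (nat_lit 266)) (XT.lf (nat_lit 0) (nat_lit 482555273096) (nat_lit 152) (nat_lit 1976824234158) (nat_lit 0) (nat_lit 482412749408) (nat_lit 1) (nat_lit 5) (nat_lit 3) (nat_lit 4) (nat_lit 1) (nat_lit 4) (nat_lit 359) (nat_lit 276) (nat_lit 265))))))) (XT.nd (nat_lit 858) (nat_lit 0) (nat_lit 0) (XT.nd (nat_lit 390) (nat_lit 0) (nat_lit 0) (XT.nd (nat_lit 156) (nat_lit 0) (nat_lit 0) (XT.nd (nat_lit 78) (nat_lit 0) (nat_lit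 0) (XT.lf (nat_lit 0) (nat_lit 555859234944) (nat_lit 152) (nat_lit 2271347971493) (nat_lit 0) (nat_lit 555711621427) (nat_lit 1) (nat_lit 5) (nat_lit 3) (nat_lit 4) (nat_lit 1) (nat_lit 4) (nat_lit 360) (nat_lit 276) (nat_lit 264)) (XT.lf (nat_lit 0) (nat_lit 640123348931) (nat_lit 152) (nat_lit 2610125045721) (nat_lit 0) (nat_lit 639971309477) (nat_lit 1) (nat_lit 5) (nat_lit 3) (nat_lit 4) (nat_lit 1) (nat_lit 4) (nat_lit 361) (nat_lit 276) (nat_lit 263))) (XT.nd (nat_lit 78) (nat_lit 0) (nat_lit 0) (XT.lf (nat_lit 0) (nat_lit 736996260766) (nat_lit 152) (nat_lit 2999783703947) (nat_lit 0) (nat_lit 736840372670) (nat_lit 1) (nat_lit 5) (nat_lit 3) (nat_lit 4) (nat_lit 1) (nat_lit 4) (nat_lit 362) (nat_lit 276) (nat_lit 262)) (XT.nd (nat_lit 78) (nat_lit 0) (nat_lit 0) (XT.lf (nat_lit 0) (nat_lit 848373310028) (nat_lit 152) (nat_lit 3447947702528) (nat_lit 0) (nat_lit 848214075287) (nat_lit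 1) (nat_lit 5) (nat_lit 3) (nat_lit 4) (nat_lit 1) (nat_lit 4) (nat_lit 363) (nat_lit 276) (nat_lit 261)) (XT.lf (nat_lit 0) (nat_lit 976433612898) (nat_lit 152) (nat_lit 3963385467522) (nat_lit 0) (nat_lit 976271468031) (nat_lit 1) (nat_lit 5) (nat_lit 3) (nat_lit 4) (nat_lit 1) (nat_lit 4) (nat_lit 364) (nat_lit 276) (nat_lit 260))))) (XT.nd (nat_lit 234) (nat_lit 0) (nat_lit 0) (XT.nd (nat_lit 78) (nat_lit 0) (nat_lit 0) (XT.lf (nat_lit 0) (nat_lit 1123682697042) (nat_lit 152) (nat_lit 4556181650854) (nat_lit 0) (nat_lit 1123518021630) (nat_lit 1) (nat_lit 5) (nat_lit 3) (nat_lit 4) (nat_lit 1) (nat_lit 4) (nat_lit 365) (nat_lit 276) (nat_lit 259)) (XT.nd (nat_lit 78) (nat_lit 0) (nat_lit 0) (XT.lf (nat_lit 0) (nat_lit 1293001522800) (nat_lit 152) (nat_lit 5237934438719) (nat_lit 0) (nat_lit 1292834646915) (nat_lit 1) (nat_lit 5) (nat_lit 3) (nat_lit 4) (nat_lit 1) (nat_lit 4) (nat_lit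 366) (nat_lit 276) (nat_lit 258)) (XT.lf (nat_lit 0) (nat_lit 1487702849808) (nat_lit 152) (nat_lit 6021982472618) (nat_lit 0) (nat_lit 1487534060468) (nat_lit 1) (nat_lit 5) (nat_lit 3) (nat_lit 4) (nat_lit 1) (nat_lit 4) (nat_lit 367) (nat_lit 276) (nat_lit 257)))) (XT.nd (nat_lit 78) (nat_lit 0) (nat_lit 0) (XT.lf (nat_lit 0) (nat_lit 1711596051855) (nat_lit 152) (nat_lit 6923665822782) (nat_lit 0) (nat_lit 1711425598640) (nat_lit 1) (nat_lit 5) (nat_lit 3) (nat_lit 4) (nat_lit 1) (nat_lit 4) (nat_lit 368) (nat_lit 276) (nat_lit 256)) (XT.nd (nat_lit 78) (nat_lit 0) (nat_lit 0) (XT.lf (nat_lit 0) (nat_lit 1969061648110) (nat_lit 152) (nat_lit 7960626119972) (nat_lit 0) (nat_lit 1968889748049) (nat_lit 1) (nat_lit 5) (nat_lit 3) (nat_lit 4) (nat_lit 1) (nat_lit 4) (nat_lit 369) (nat_lit 276) (nat_lit 255)) (XT.lf (nat_lit 0) (nat_lit 2265137008937) (nat_lit 152) (nat_lit 9153151717831)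 (nat_lit 0) (nat_lit 2264963850748) (nat_lit 1) (nat_lit 5) (nat_lit 3) (nat_lit 4) (nat_lit 1) (nat_lit 4) (nat_lit 370) (nat_lit 276) (nat_lit 254)))))) (XT.nd (nat_lit 468) (nat_lit 0) (nat_lit 0) (XT.nd (nat_lit 234) (nat_lit 0) (nat_lit 0) (XT.nd (nat_lit 78) (nat_lit 0) (nat_lit 0) (XT.lf (nat_lit 0) (nat_lit 2605614913133) (nat_lit 152) (nat_lit 10524574638924) (nat_lit 0) (nat_lit 2605440660920) (nat_lit 1) (nat_lit 5) (nat_lit 3) (nat_lit 4) (nat_lit 1) (nat_lit 4) (nat_lit 371) (nat_lit 276) (nat_lit 253)) (XT.nd (nat_lit 78) (nat_lit 0) (nat_lit 0) (XT.lf (nat_lit 0) (nat_lit 2997156884912) (nat_lit 152) (nat_lit 12101727070839) (nat_lit 0) (nat_lit 2996981681373) (nat_lit 1) (nat_lit 5) (nat_lit 3) (nat_lit 4) (nat_lit 1) (nat_lit 4) (nat_lit 372) (nat_lit 276) (nat_lit 252)) (XT.lf (nat_lit 0) (nat_lit 3447423528068) (nat_lit 152) (nat_lit 13915466343766) (nat_lit 0) (nat_lit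 3447247497290) (nat_lit 1) (nat_lit 5) (nat_lit 3) (nat_lit 4) (nat_lit 1) (nat_lit 4) (nat_lit 373) (nat_lit 276) (nat_lit 251)))) (XT.nd (nat_lit 78) (nat_lit 0) (nat_lit 0) (XT.lf (nat_lit 0) (nat_lit 3965224407359) (nat_lit 152) (nat_lit 16001278660869) (nat_lit 0) (nat_lit 3965047657242) (nat_lit 1) (nat_lit 5) (nat_lit 3) (nat_lit 4) (nat_lit 1) (nat_lit 4) (nat_lit 374) (nat_lit 276) (nat_lit 250)) (XT.nd (nat_lit 78) (nat_lit 0) (nat_lit 0) (XT.lf (nat_lit 0) (nat_lit 4560690409554) (nat_lit 152) (nat_lit 18399973393571) (nat_lit 0) (nat_lit 4560513033925) (nat_lit 1) (nat_lit 5) (nat_lit 3) (nat_lit 4) (nat_lit 1) (nat_lit 4) (nat_lit 375) (nat_lit 276) (nat_lit 249)) (XT.lf (nat_lit 0) (nat_lit 5245471956435) (nat_lit 152) (nat_lit 21158481525772) (nat_lit 0) (nat_lit 5245294036883) (nat_lit 1) (nat_lit 5) (nat_lit 3) (nat_lit 4) (nat_lit 1) (nat_lit 4) (nat_lit 376) (nat_lit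 276) (nat_lit 248))))) (XT.nd (nat_lit 234) (nat_lit 0) (nat_lit 0) (XT.nd (nat_lit 78) (nat_lit 0) (nat_lit 0) (XT.lf (nat_lit 0) (nat_lit 6032966947832) (nat_lit 152) (nat_lit 24330773868755) (nat_lit 0) (nat_lit 6032788555303) (nat_lit 1) (nat_lit 5) (nat_lit 3) (nat_lit 4) (nat_lit 1) (nat_lit 4) (nat_lit 377) (nat_lit 276) (nat_lit 247)) (XT.nd (nat_lit 78) (nat_lit 0) (nat_lit 0) (XT.lf (nat_lit 0) (nat_lit 6938582894447) (nat_lit 152) (nat_lit 27978917011839) (nat_lit 0) (nat_lit 6938404090634) (nat_lit 1) (nat_lit 5) (nat_lit 3) (nat_lit 4) (nat_lit 1) (nat_lit 4) (nat_lit 378) (nat_lit 276) (nat_lit 246)) (XT.lf (nat_lit 0) (nat_lit 7980038369148) (nat_lit 152) (nat_lit 32174287668692) (nat_lit 0) (nat_lit 7979859207696) (nat_lit 1) (nat_lit 5) (nat_lit 3) (nat_lit 4) (nat_lit 1) (nat_lit 4) (nat_lit 379) (nat_lit 276) (nat_lit 245)))) (XT.nd (nat_lit 78) (nat_lit 0) (nat_lit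 0) (XT.lf (nat_lit 0) (nat_lit 9177709674701) (nat_lit 152) (nat_lit 36998969178254) (nat_lit 0) (nat_lit 9177530202259) (nat_lit 1) (nat_lit 5) (nat_lit 3) (nat_lit 4) (nat_lit 1) (nat_lit 4) (nat_lit 380) (nat_lit 276) (nat_lit 244)) (XT.nd (nat_lit 78) (nat_lit 0) (nat_lit 0) (XT.lf (nat_lit 0) (nat_lit 10555029510562) (nat_lit 152) (nat_lit 42547357483102) (nat_lit 0) (nat_lit 10554849767694) (nat_lit 1) (nat_lit 5) (nat_lit 3) (nat_lit 4) (nat_lit 1) (nat_lit 4) (nat_lit 381) (nat_lit 276) (nat_lit 243)) (XT.lf (nat_lit 0) (nat_lit 12138945438737) (nat_lit 152) (nat_lit 48928008006593) (nat_lit 0) (nat_lit 12138765460717) (nat_lit 1) (nat_lit 5) (nat_lit 3) (nat_lit 4) (nat_lit 1) (nat_lit 4) (nat_lit 382) (nat_lit 276) (nat_lit 242))))))))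
noncomputable def xc12 : XT := (XT.nd (nat_lit 45162) (nat_lit 0) (nat_lit 0) (XT.nd (nat_lit 44304) (nat_lit 0) (nat_lit 0) (XT.nd (nat_lit 390) (nat_lit 0) (nat_lit 0) (XT.nd (nat_lit 156) (nat_lit 0) (nat_lit 0) (XT.nd (nat_lit 78) (nat_lit 0) (nat_lit 0) (XT.lf (nat_lit 0) (nat_lit 13960447118692) (nat_lit 152) (nat_lit 56265759563316) (nat_lit 0) (nat_lit 13960266936190) (nat_lit 1) (nat_lit 5) (nat_lit 3) (nat_lit 4) (nat_lit 1) (nat_lit 4) (nat_lit 383) (nat_lit 276) (nat_lit 241)) (XT.lf (nat_lit 0) (nat_lit 16055172626772) (nat_lit 152) (nat_lit 64704176857642) (nat_lit 0) (nat_lit 16054992266461) (nat_lit 1) (nat_lit 5) (nat_lit 3) (nat_lit 4) (nat_lit 1) (nat_lit 4) (nat_lit 384) (nat_lit 276) (nat_lit 240))) (XT.nd (nat_lit 78) (nat_lit 0) (nat_lit 0) (XT.lf (nat_lit 0) (nat_lit 18464105722918) (nat_lit 152) (nat_lit 74408359358373) (nat_lit 0) (nat_lit 18463925207990) (nat_lit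 1) (nat_lit 5) (nat_lit 3) (nat_lit 4) (nat_lit 1) (nat_lit 4) (nat_lit 385) (nat_lit 276) (nat_lit 239)) (XT.nd (nat_lit 78) (nat_lit 0) (nat_lit 0) (XT.lf (nat_lit 0) (nat_lit 21234377706838) (nat_lit 152) (nat_lit 85568171505742) (nat_lit 0) (nat_lit 21234197057460) (nat_lit 1) (nat_lit 5) (nat_lit 3) (nat_lit 4) (nat_lit 1) (nat_lit 4) (nat_lit 386) (nat_lit 276) (nat_lit 238)) (XT.lf (nat_lit 0) (nat_lit 24420189552129) (nat_lit 152) (nat_lit 98401957450456) (nat_lit 0) (nat_lit 24420008785839) (nat_lit 1) (nat_lit 5) (nat_lit 3) (nat_lit 4) (nat_lit 1) (nat_lit 4) (nat_lit 387) (nat_lit 276) (nat_lit 237))))) (XT.nd (nat_lit 43680) (nat_lit 0) (nat_lit 0) (XT.nd (nat_lit 78) (nat_lit 0) (nat_lit 0) (XT.lf (nat_lit 0) (nat_lit 28083872360114) (nat_lit 152) (nat_lit 113160813004478) (nat_lit 0) (nat_lit 28083691492160) (nat_lit 1) (nat_lit 5) (nat_lit 3) (nat_lit 4) (nat_lit 1) (nat_lit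 4) (nat_lit 388) (nat_lit 276) (nat_lit 236)) (XT.nd (nat_lit 43524) (nat_lit 0) (nat_lit 0) (XT.lf (nat_lit 0) (nat_lit 32297106881382) (nat_lit 152) (nat_lit 130133498385170) (nat_lit 0) (nat_lit 32296925925026) (nat_lit 1) (nat_lit 5) (nat_lit 3) (nat_lit 4) (nat_lit 1) (nat_lit 4) (nat_lit 389) (nat_lit 276) (nat_lit 235)) (XT.lf (nat_lit 0) (nat_lit 34565019202) (nat_lit 152) (nat_lit 170642959874) (nat_lit 0) (nat_lit 34565019202) (nat_lit 1) (nat_lit 5) (nat_lit 3) (nat_lit 4) (nat_lit 1) (nat_lit 4) (nat_lit 346) (nat_lit 277) (nat_lit 277)))) (XT.nd (nat_lit 78) (nat_lit 0) (nat_lit 0) (XT.lf (nat_lit 0) (nat_lit 81699620481) (nat_lit 152) (nat_lit 387770985226) (nat_lit 0) (nat_lit 81672388625) (nat_lit 1) (nat_lit 5) (nat_lit 3) (nat_lit 4) (nat_lit 1) (nat_lit 4) (nat_lit 347) (nat_lit 277) (nat_lit 276)) (XT.nd (nat_lit 78) (nat_lit 0) (nat_lit 0) (XT.lf (nat_lit 0) (nat_lit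 95965015567) (nat_lit 152) (nat_lit 441628882398) (nat_lit 0) (nat_lit 95914103836) (nat_lit 1) (nat_lit 5) (nat_lit 3) (nat_lit 4) (nat_lit 1) (nat_lit 4) (nat_lit 348) (nat_lit 277) (nat_lit 275)) (XT.lf (nat_lit 0) (nat_lit 112205329219) (nat_lit 152) (nat_lit 503913352728) (nat_lit 0) (nat_lit 112133826293) (nat_lit 1) (nat_lit 5) (nat_lit 3) (nat_lit 4) (nat_lit 1) (nat_lit 4) (nat_lit 349) (nat_lit 277) (nat_lit 274)))))) (XT.nd (nat_lit 390) (nat_lit 0) (nat_lit 0) (XT.nd (nat_lit 156) (nat_lit 0) (nat_lit 0) (XT.nd (nat_lit 78) (nat_lit 0) (nat_lit 0) (XT.lf (nat_lit 0) (nat_lit 130738306704) (nat_lit 152) (nat_lit 575843005420) (nat_lit 0) (nat_lit 130648898390) (nat_lit 1) (nat_lit 5) (nat_lit 3) (nat_lit 4) (nat_lit 1) (nat_lit 4) (nat_lit 350) (nat_lit 277) (nat_lit 273)) (XT.lf (nat_lit 0) (nat_lit 151926549754) (nat_lit 152) (nat_lit 658825159765) (nat_lit 0) (nat_lit 151821571538)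 (nat_lit 1) (nat_lit 5) (nat_lit 3) (nat_lit 4) (nat_lit 1) (nat_lit 4) (nat_lit 351) (nat_lit 277) (nat_lit 272))) (XT.nd (nat_lit 78) (nat_lit 0) (nat_lit 0) (XT.lf (nat_lit 0) (nat_lit 176184610952) (nat_lit 152) (nat_lit 754483379653) (nat_lit 0) (nat_lit 176066093690) (nat_lit 1) (nat_lit 5) (nat_lit 3) (nat_lit 4) (nat_lit 1) (nat_lit 4) (nat_lit 352) (nat_lit 277) (nat_lit 271)) (XT.nd (nat_lit 78) (nat_lit 0) (nat_lit 0) (XT.lf (nat_lit 0) (nat_lit 203987104537) (nat_lit 152) (nat_lit 864689238951) (nat_lit 0) (nat_lit 203856814193) (nat_lit 1) (nat_lit 5) (nat_lit 3) (nat_lit 4) (nat_lit 1) (nat_lit 4) (nat_lit 353) (nat_lit 277) (nat_lit 270)) (XT.lf (nat_lit 0) (nat_lit 235877992342) (nat_lit 152) (nat_lit 991598939254) (nat_lit 0) (nat_lit 235737464535) (nat_lit 1) (nat_lit 5) (nat_lit 3) (nat_lit 4) (nat_lit 1) (nat_lit 4) (nat_lit 354) (nat_lit 277) (nat_lit 269))))) (XT.nd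 (nat_lit 234) (nat_lit 0) (nat_lit 0) (XT.nd (nat_lit 78) (nat_lit 0) (nat_lit 0) (XT.lf (nat_lit 0) (nat_lit 272481226519) (nat_lit 152) (nat_lit 1137695496437) (nat_lit 0) (nat_lit 272331796569) (nat_lit 1) (nat_lit 5) (nat_lit 3) (nat_lit 4) (nat_lit 1) (nat_lit 4) (nat_lit 355) (nat_lit 277) (nat_lit 268)) (XT.nd (nat_lit 78) (nat_lit 0) (nat_lit 0) (XT.lf (nat_lit 0) (nat_lit 314512957302) (nat_lit 152) (nat_lit 1305837321402) (nat_lit 0) (nat_lit 314355786359) (nat_lit 1) (nat_lit 5) (nat_lit 3) (nat_lit 4) (nat_lit 1) (nat_lit 4) (nat_lit 356) (nat_lit 277) (nat_lit 267)) (XT.lf (nat_lit 0) (nat_lit 362795544641) (nat_lit 152) (nat_lit 1499314145506) (nat_lit 0) (nat_lit 362631642399) (nat_lit 1) (nat_lit 5) (nat_lit 3) (nat_lit 4) (nat_lit 1) (nat_lit 4) (nat_lit 357) (nat_lit 277) (nat_lit 266)))) (XT.nd (nat_lit 78) (nat_lit 0) (nat_lit 0) (XT.lf (nat_lit 0) (nat_lit 418273647853)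 (nat_lit 152) (nat_lit 1721911384875) (nat_lit 0) (nat_lit 418103892308) (nat_lit 1) (nat_lit 5) (nat_lit 3) (nat_lit 4) (nat_lit 1) (nat_lit 4) (nat_lit 358) (nat_lit 277) (nat_lit 265)) (XT.nd (nat_lit 78) (nat_lit 0) (nat_lit 0) (XT.lf (nat_lit 0) (nat_lit 482032708088) (nat_lit 152) (nat_lit 1977984202886) (nat_lit 0) (nat_lit 481857862715) (nat_lit 1) (nat_lit 5) (nat_lit 3) (nat_lit 4) (nat_lit 1) (nat_lit 4) (nat_lit 359) (nat_lit 277) (nat_lit 264)) (XT.lf (nat_lit 0) (nat_lit 555320185220) (nat_lit 152) (nat_lit 2272542719891) (nat_lit 0) (nat_lit 555140913909) (nat_lit 1) (nat_lit 5) (nat_lit 3) (nat_lit 4) (nat_lit 1) (nat_lit 4) (nat_lit 360) (nat_lit 277) (nat_lit 263))))))) (XT.nd (nat_lit 858) (nat_lit 0) (nat_lit 0) (XT.nd (nat_lit 390) (nat_lit 0) (nat_lit 0) (XT.nd (nat_lit 156) (nat_lit 0) (nat_lit 0) (XT.nd (nat_lit 78) (nat_lit 0) (nat_lit 0) (XT.lf (nat_lit 0) (nat_lit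 639569964672) (nat_lit 152) (nat_lit 2611350037312) (nat_lit 0) (nat_lit 639386844720) (nat_lit 1) (nat_lit 5) (nat_lit 3) (nat_lit 4) (nat_lit 1) (nat_lit 4) (nat_lit 361) (nat_lit 277) (nat_lit 262)) (XT.lf (nat_lit 0) (nat_lit 736430411694) (nat_lit 152) (nat_lit 3001034993966) (nat_lit 0) (nat_lit 736243945097) (nat_lit 1) (nat_lit 5) (nat_lit 3) (nat_lit 4) (nat_lit 1) (nat_lit 4) (nat_lit 362) (nat_lit 277) (nat_lit 261))) (XT.nd (nat_lit 78) (nat_lit 0) (nat_lit 0) (XT.lf (nat_lit 0) (nat_lit 847796621988) (nat_lit 152) (nat_lit 3449221860745) (nat_lit 0) (nat_lit 847607245265) (nat_lit 1) (nat_lit 5) (nat_lit 3) (nat_lit 4) (nat_lit 1) (nat_lit 4) (nat_lit 363) (nat_lit 277) (nat_lit 260)) (XT.nd (nat_lit 78) (nat_lit 0) (nat_lit 0) (XT.lf (nat_lit 0) (nat_lit 975847499669) (nat_lit 152) (nat_lit 3964679511129) (nat_lit 0) (nat_lit 975655592401) (nat_lit 1) (nat_lit 5) (nat_lit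 3) (nat_lit 4) (nat_lit 1) (nat_lit 4) (nat_lit 364) (nat_lit 277) (nat_lit 259)) (XT.lf (nat_lit 0) (nat_lit 1123088387995) (nat_lit 152) (nat_lit 4557492986105) (nat_lit 0) (nat_lit 1122894280254) (nat_lit 1) (nat_lit 5) (nat_lit 3) (nat_lit 4) (nat_lit 1) (nat_lit 4) (nat_lit 365) (nat_lit 277) (nat_lit 258))))) (XT.nd (nat_lit 234) (nat_lit 0) (nat_lit 0) (XT.nd (nat_lit 78) (nat_lit 0) (nat_lit 0) (XT.lf (nat_lit 0) (nat_lit 1292400086956) (nat_lit 152) (nat_lit 5239260810181) (nat_lit 0) (nat_lit 1292204065760) (nat_lit 1) (nat_lit 5) (nat_lit 3) (nat_lit 4) (nat_lit 1) (nat_lit 4) (nat_lit 366) (nat_lit 277) (nat_lit 257)) (XT.nd (nat_lit 78) (nat_lit 0) (nat_lit 0) (XT.lf (nat_lit 0) (nat_lit 1487095216749) (nat_lit 152) (nat_lit 6023321919048) (nat_lit 0) (nat_lit 1486897531679) (nat_lit 1) (nat_lit 5) (nat_lit 3) (nat_lit 4) (nat_lit 1) (nat_lit 4) (nat_lit 367) (nat_lit 277)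 (nat_lit 256)) (XT.lf (nat_lit 0) (nat_lit 1710983029913) (nat_lit 152) (nat_lit 6925016638747) (nat_lit 0) (nat_lit 1710783897996) (nat_lit 1) (nat_lit 5) (nat_lit 3) (nat_lit 4) (nat_lit 1) (nat_lit 4) (nat_lit 368) (nat_lit 277) (nat_lit 255)))) (XT.nd (nat_lit 78) (nat_lit 0) (nat_lit 0) (XT.lf (nat_lit 0) (nat_lit 1968443940184) (nat_lit 152) (nat_lit 7961986822491) (nat_lit 0) (nat_lit 1968243550139) (nat_lit 1) (nat_lit 5) (nat_lit 3) (nat_lit 4) (nat_lit 1) (nat_lit 4) (nat_lit 369) (nat_lit 277) (nat_lit 254)) (XT.nd (nat_lit 78) (nat_lit 0) (nat_lit 0) (XT.lf (nat_lit 0) (nat_lit 2264515226241) (nat_lit 152) (nat_lit 9154521017353) (nat_lit 0) (nat_lit 2264313742172) (nat_lit 1) (nat_lit 5) (nat_lit 3) (nat_lit 4) (nat_lit 1) (nat_lit 4) (nat_lit 370) (nat_lit 277) (nat_lit 253)) (XT.lf (nat_lit 0) (nat_lit 2604989587160) (nat_lit 152) (nat_lit 10525951414101) (nat_lit 0) (nat_lit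 2604787151765) (nat_lit 1) (nat_lit 5) (nat_lit 3) (nat_lit 4) (nat_lit 1) (nat_lit 4) (nat_lit 371) (nat_lit 277) (nat_lit 252)))))) (XT.nd (nat_lit 390) (nat_lit 0) (nat_lit 0) (XT.nd (nat_lit 156) (nat_lit 0) (nat_lit 0) (XT.nd (nat_lit 78) (nat_lit 0) (nat_lit 0) (XT.lf (nat_lit 0) (nat_lit 2996528477827) (nat_lit 152) (nat_lit 12103110346585) (nat_lit 0) (nat_lit 2996325215192) (nat_lit 1) (nat_lit 5) (nat_lit 3) (nat_lit 4) (nat_lit 1) (nat_lit 4) (nat_lit 372) (nat_lit 277) (nat_lit 251)) (XT.lf (nat_lit 0) (nat_lit 3446792441756) (nat_lit 152) (nat_lit 13916855272180) (nat_lit 0) (nat_lit 3446588459783) (nat_lit 1) (nat_lit 5) (nat_lit 3) (nat_lit 4) (nat_lit 1) (nat_lit 4) (nat_lit 373) (nat_lit 277) (nat_lit 250))) (XT.nd (nat_lit 78) (nat_lit 0) (nat_lit 0) (XT.lf (nat_lit 0) (nat_lit 3964590991284) (nat_lit 152) (nat_lit 16002672504648) (nat_lit 0) (nat_lit 3964386383799) (nat_lit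 1) (nat_lit 5) (nat_lit 3) (nat_lit 4) (nat_lit 1) (nat_lit 4) (nat_lit 374) (nat_lit 277) (nat_lit 249)) (XT.nd (nat_lit 78) (nat_lit 0) (nat_lit 0) (XT.lf (nat_lit 0) (nat_lit 4560054967599) (nat_lit 152) (nat_lit 18401371511579) (nat_lit 0) (nat_lit 4559849816191) (nat_lit 1) (nat_lit 5) (nat_lit 3) (nat_lit 4) (nat_lit 1) (nat_lit 4) (nat_lit 375) (nat_lit 277) (nat_lit 248)) (XT.lf (nat_lit 0) (nat_lit 5244834752844) (nat_lit 152) (nat_lit 21159883360502) (nat_lit 0) (nat_lit 5244629128459) (nat_lit 1) (nat_lit 5) (nat_lit 3) (nat_lit 4) (nat_lit 1) (nat_lit 4) (nat_lit 376) (nat_lit 277) (nat_lit 247))))) (XT.nd (nat_lit 234) (nat_lit 0) (nat_lit 0) (XT.nd (nat_lit 78) (nat_lit 0) (nat_lit 0) (XT.lf (nat_lit 0) (nat_lit 6032328212385) (nat_lit 152) (nat_lit 24332178935417) (nat_lit 0) (nat_lit 6032122176716) (nat_lit 1) (nat_lit 5) (nat_lit 3) (nat_lit 4) (nat_lit 1) (nat_lit 4)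 (nat_lit 377) (nat_lit 277) (nat_lit 246)) (XT.nd (nat_lit 78) (nat_lit 0) (nat_lit 0) (XT.lf (nat_lit 0) (nat_lit 6937942826950) (nat_lit 152) (nat_lit 27980324888876) (nat_lit 0) (nat_lit 6937736433643) (nat_lit 1) (nat_lit 5) (nat_lit 3) (nat_lit 4) (nat_lit 1) (nat_lit 4) (nat_lit 378) (nat_lit 277) (nat_lit 245)) (XT.lf (nat_lit 0) (nat_lit 7979397143347) (nat_lit 152) (nat_lit 32175697989534) (nat_lit 0) (nat_lit 7979190439050) (nat_lit 1) (nat_lit 5) (nat_lit 3) (nat_lit 4) (nat_lit 1) (nat_lit 4) (nat_lit 379) (nat_lit 277) (nat_lit 244)))) (XT.nd (nat_lit 78) (nat_lit 0) (nat_lit 0) (XT.lf (nat_lit 0) (nat_lit 9177067441679) (nat_lit 152) (nat_lit 37000381624144) (nat_lit 0) (nat_lit 9176860466956) (nat_lit 1) (nat_lit 5) (nat_lit 3) (nat_lit 4) (nat_lit 1) (nat_lit 4) (nat_lit 380) (nat_lit 277) (nat_lit 243)) (XT.nd (nat_lit 78) (nat_lit 0) (nat_lit 0) (XT.lf (nat_lit 0) (nat_lit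 10554386401697) (nat_lit 152) (nat_lit 42548771776859) (nat_lit 0) (nat_lit 10554179191820) (nat_lit 1) (nat_lit 5) (nat_lit 3) (nat_lit 4) (nat_lit 1) (nat_lit 4) (nat_lit 381) (nat_lit 277) (nat_lit 242)) (XT.lf (nat_lit 0) (nat_lit 12138301568269) (nat_lit 152) (nat_lit 48929423907192) (nat_lit 0) (nat_lit 12138094153911) (nat_lit 1) (nat_lit 5) (nat_lit 3) (nat_lit 4) (nat_lit 1) (nat_lit 4) (nat_lit 382) (nat_lit 277) (nat_lit 241))))))))
noncomputable def xc13 : XT := (XT.nd (nat_lit 44694) (nat_lit 0) (nat_lit 0) (XT.nd (nat_lit 43836) (nat_lit 0) (nat_lit 0) (XT.nd (nat_lit 390) (nat_lit 0) (nat_lit 0) (XT.nd (nat_lit 156) (nat_lit 0) (nat_lit 0) (XT.nd (nat_lit 78) (nat_lit 0) (nat_lit 0) (XT.lf (nat_lit 0) (nat_lit 13959802585959) (nat_lit 152) (nat_lit 56267176861168) (nat_lit 0) (nat_lit 13959594993792) (nat_lit 1) (nat_lit 5) (nat_lit 3) (nat_lit 4) (nat_lit 1) (nat_lit 4)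 (nat_lit 383) (nat_lit 277) (nat_lit 240)) (XT.lf (nat_lit 0) (nat_lit 16054527518157) (nat_lit 152) (nat_lit 64705595370497) (nat_lit 0) (nat_lit 16054319771373) (nat_lit 1) (nat_lit 5) (nat_lit 3) (nat_lit 4) (nat_lit 1) (nat_lit 4) (nat_lit 384) (nat_lit 277) (nat_lit 239))) (XT.nd (nat_lit 78) (nat_lit 0) (nat_lit 0) (XT.lf (nat_lit 0) (nat_lit 18463460113537) (nat_lit 152) (nat_lit 74409778927753) (nat_lit 0) (nat_lit 18463252232303) (nat_lit 1) (nat_lit 5) (nat_lit 3) (nat_lit 4) (nat_lit 1) (nat_lit 4) (nat_lit 385) (nat_lit 277) (nat_lit 238)) (XT.nd (nat_lit 78) (nat_lit 0) (nat_lit 0) (XT.lf (nat_lit 0) (nat_lit 21233731662007) (nat_lit 152) (nat_lit 85569591993837) (nat_lit 0) (nat_lit 21233523663861) (nat_lit 1) (nat_lit 5) (nat_lit 3) (nat_lit 4) (nat_lit 1) (nat_lit 4) (nat_lit 386) (nat_lit 277) (nat_lit 237)) (XT.lf (nat_lit 0) (nat_lit 24419543128647) (nat_lit 152) (nat_lit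 98403378737436) (nat_lit 0) (nat_lit 24419335028838) (nat_lit 1) (nat_lit 5) (nat_lit 3) (nat_lit 4) (nat_lit 1) (nat_lit 4) (nat_lit 387) (nat_lit 277) (nat_lit 236))))) (XT.nd (nat_lit 1092) (nat_lit 0) (nat_lit 0) (XT.nd (nat_lit 78) (nat_lit 0) (nat_lit 0) (XT.lf (nat_lit 0) (nat_lit 28083225607369) (nat_lit 152) (nat_lit 113162234986140) (nat_lit 0) (nat_lit 28083017419157) (nat_lit 1) (nat_lit 5) (nat_lit 3) (nat_lit 4) (nat_lit 1) (nat_lit 4) (nat_lit 388) (nat_lit 277) (nat_lit 235)) (XT.nd (nat_lit 936) (nat_lit 0) (nat_lit 0) (XT.lf (nat_lit 0) (nat_lit 32296459842323) (nat_lit 152) (nat_lit 130134920970903) (nat_lit 0) (nat_lit 32296251577239) (nat_lit 1) (nat_lit 5) (nat_lit 3) (nat_lit 4) (nat_lit 1) (nat_lit 4) (nat_lit 389) (nat_lit 277) (nat_lit 234)) (XT.lf (nat_lit 0) (nat_lit 172815847036264) (nat_lit 152) (nat_lit 696206655752143) (nat_lit 0) (nat_lit 172815638354486)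 (nat_lit 1) (nat_lit 5) (nat_lit 3) (nat_lit 4) (nat_lit 1) (nat_lit 4) (nat_lit 401) (nat_lit 277) (nat_lit 222)))) (XT.nd (nat_lit 78) (nat_lit 0) (nat_lit 0) (XT.lf (nat_lit 0) (nat_lit 198738971048693) (nat_lit 152) (nat_lit 800636012102935) (nat_lit 0) (nat_lit 198738762354422) (nat_lit 1) (nat_lit 5) (nat_lit 3) (nat_lit 4) (nat_lit 1) (nat_lit 4) (nat_lit 402) (nat_lit 277) (nat_lit 221)) (XT.nd (nat_lit 78) (nat_lit 0) (nat_lit 0) (XT.lf (nat_lit 0) (nat_lit 228550563575987) (nat_lit 152) (nat_lit 920729772089899) (nat_lit 0) (nat_lit 228550354870852) (nat_lit 1) (nat_lit 5) (nat_lit 3) (nat_lit 4) (nat_lit 1) (nat_lit 4) (nat_lit 403) (nat_lit 277) (nat_lit 220)) (XT.lf (nat_lit 0) (nat_lit 262833894906726) (nat_lit 152) (nat_lit 1058837596234514) (nat_lit 0) (nat_lit 262833686192145) (nat_lit 1) (nat_lit 5) (nat_lit 3) (nat_lit 4) (nat_lit 1) (nat_lit 4) (nat_lit 404) (nat_lit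 277) (nat_lit 219)))))) (XT.nd (nat_lit 390) (nat_lit 0) (nat_lit 0) (XT.nd (nat_lit 156) (nat_lit 0) (nat_lit 0) (XT.nd (nat_lit 78) (nat_lit 0) (nat_lit 0) (XT.lf (nat_lit 0) (nat_lit 24135465913) (nat_lit 152) (nat_lit 133338344090) (nat_lit 0) (nat_lit 24135465913) (nat_lit 1) (nat_lit 5) (nat_lit 3) (nat_lit 4) (nat_lit 1) (nat_lit 4) (nat_lit 344) (nat_lit 278) (nat_lit 278)) (XT.lf (nat_lit 0) (nat_lit 58041659365) (nat_lit 152) (nat_lit 301264195551) (nat_lit 0) (nat_lit 58010342731) (nat_lit 1) (nat_lit 5) (nat_lit 3) (nat_lit 4) (nat_lit 1) (nat_lit 4) (nat_lit 345) (nat_lit 278) (nat_lit 277))) (XT.nd (nat_lit 78) (nat_lit 0) (nat_lit 0) (XT.lf (nat_lit 0) (nat_lit 69059928086) (nat_lit 152) (nat_lit 341499911679) (nat_lit 0) (nat_lit 69001379596) (nat_lit 1) (nat_lit 5) (nat_lit 3) (nat_lit 4) (nat_lit 1) (nat_lit 4) (nat_lit 346) (nat_lit 278) (nat_lit 276)) (XT.nd (nat_lit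 78) (nat_lit 0) (nat_lit 0) (XT.lf (nat_lit 0) (nat_lit 81541312814) (nat_lit 152) (nat_lit 388171057097) (nat_lit 0) (nat_lit 81459084448) (nat_lit 1) (nat_lit 5) (nat_lit 3) (nat_lit 4) (nat_lit 1) (nat_lit 4) (nat_lit 347) (nat_lit 278) (nat_lit 275)) (XT.lf (nat_lit 0) (nat_lit 95730014552) (nat_lit 152) (nat_lit 442190762912) (nat_lit 0) (nat_lit 95627194991) (nat_lit 1) (nat_lit 5) (nat_lit 3) (nat_lit 4) (nat_lit 1) (nat_lit 4) (nat_lit 348) (nat_lit 278) (nat_lit 274))))) (XT.nd (nat_lit 234) (nat_lit 0) (nat_lit 0) (XT.nd (nat_lit 78) (nat_lit 0) (nat_lit 0) (XT.lf (nat_lit 0) (nat_lit 111903638337) (nat_lit 152) (nat_lit 504615936411) (nat_lit 0) (nat_lit 111782913388) (nat_lit 1) (nat_lit 5) (nat_lit 3) (nat_lit 4) (nat_lit 1) (nat_lit 4) (nat_lit 349) (nat_lit 278) (nat_lit 273)) (XT.nd (nat_lit 78) (nat_lit 0) (nat_lit 0) (XT.lf (nat_lit 0) (nat_lit 130378624632) (nat_lit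 152) (nat_lit 576667939684) (nat_lit 0) (nat_lit 130242329781) (nat_lit 1) (nat_lit 5) (nat_lit 3) (nat_lit 4) (nat_lit 1) (nat_lit 4) (nat_lit 350) (nat_lit 278) (nat_lit 272)) (XT.lf (nat_lit 0) (nat_lit 151516440561) (nat_lit 152) (nat_lit 659756485839) (nat_lit 0) (nat_lit 151366606665) (nat_lit 1) (nat_lit 5) (nat_lit 3) (nat_lit 4) (nat_lit 1) (nat_lit 4) (nat_lit 351) (nat_lit 278) (nat_lit 271)))) (XT.nd (nat_lit 78) (nat_lit 0) (nat_lit 0) (XT.lf (nat_lit 0) (nat_lit 175730652088) (nat_lit 152) (nat_lit 755507220344) (nat_lit 0) (nat_lit 175569045109) (nat_lit 1) (nat_lit 5) (nat_lit 3) (nat_lit 4) (nat_lit 1) (nat_lit 4) (nat_lit 352) (nat_lit 278) (nat_lit 270)) (XT.nd (nat_lit 78) (nat_lit 0) (nat_lit 0) (XT.lf (nat_lit 0) (nat_lit 203495015526) (nat_lit 152) (nat_lit 865793527135) (nat_lit 0) (nat_lit 203323171083) (nat_lit 1) (nat_lit 5) (nat_lit 3) (nat_lit 4) (nat_lit 1)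 (nat_lit 4) (nat_lit 353) (nat_lit 278) (nat_lit 269)) (XT.lf (nat_lit 0) (nat_lit 235352746680) (nat_lit 152) (nat_lit 992773181780) (nat_lit 0) (nat_lit 235172000096) (nat_lit 1) (nat_lit 5) (nat_lit 3) (nat_lit 4) (nat_lit 1) (nat_lit 4) (nat_lit 354) (nat_lit 278) (nat_lit 268))))))) (XT.nd (nat_lit 858) (nat_lit 0) (nat_lit 0) (XT.nd (nat_lit 390) (nat_lit 0) (nat_lit 0) (XT.nd (nat_lit 156) (nat_lit 0) (nat_lit 0) (XT.nd (nat_lit 78) (nat_lit 0) (nat_lit 0) (XT.lf (nat_lit 0) (nat_lit 271927148987) (nat_lit 152) (nat_lit 1138930568825) (nat_lit 0) (nat_lit 271738661409) (nat_lit 1) (nat_lit 5) (nat_lit 3) (nat_lit 4) (nat_lit 1) (nat_lit 4) (nat_lit 355) (nat_lit 278) (nat_lit 267)) (XT.lf (nat_lit 0) (nat_lit 313933808578) (nat_lit 152) (nat_lit 1307125289323) (nat_lit 0) (nat_lit 313738589702) (nat_lit 1) (nat_lit 5) (nat_lit 3) (nat_lit 4) (nat_lit 1) (nat_lit 4) (nat_lit 356)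 (nat_lit 278) (nat_lit 266))) (XT.nd (nat_lit 78) (nat_lit 0) (nat_lit 0) (XT.lf (nat_lit 0) (nat_lit 362194594881) (nat_lit 152) (nat_lit 1500648109543) (nat_lit 0) (nat_lit 361993522702) (nat_lit 1) (nat_lit 5) (nat_lit 3) (nat_lit 4) (nat_lit 1) (nat_lit 4) (nat_lit 357) (nat_lit 278) (nat_lit 265)) (XT.nd (nat_lit 78) (nat_lit 0) (nat_lit 0) (XT.lf (nat_lit 0) (nat_lit 417653740670) (nat_lit 152) (nat_lit 1723285345533) (nat_lit 0) (nat_lit 417447578663) (nat_lit 1) (nat_lit 5) (nat_lit 3) (nat_lit 4) (nat_lit 1) (nat_lit 4) (nat_lit 358) (nat_lit 278) (nat_lit 264)) (XT.lf (nat_lit 0) (nat_lit 481396316190) (nat_lit 152) (nat_lit 1979392943215) (nat_lit 0) (nat_lit 481185728245) (nat_lit 1) (nat_lit 5) (nat_lit 3) (nat_lit 4) (nat_lit 1) (nat_lit 4) (nat_lit 359) (nat_lit 278) (nat_lit 263))))) (XT.nd (nat_lit 234) (nat_lit 0) (nat_lit 0) (XT.nd (nat_lit 78) (nat_lit 0) (nat_lit 0)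 (XT.lf (nat_lit 0) (nat_lit 554669458788) (nat_lit 152) (nat_lit 2273981703414) (nat_lit 0) (nat_lit 554455022200) (nat_lit 1) (nat_lit 5) (nat_lit 3) (nat_lit 4) (nat_lit 1) (nat_lit 4) (nat_lit 360) (nat_lit 278) (nat_lit 262)) (XT.nd (nat_lit 78) (nat_lit 0) (nat_lit 0) (XT.lf (nat_lit 0) (nat_lit 638906773427) (nat_lit 152) (nat_lit 2612815319262) (nat_lit 0) (nat_lit 638688990194) (nat_lit 1) (nat_lit 5) (nat_lit 3) (nat_lit 4) (nat_lit 1) (nat_lit 4) (nat_lit 361) (nat_lit 278) (nat_lit 261)) (XT.lf (nat_lit 0) (nat_lit 735756381480) (nat_lit 152) (nat_lit 3002523144115) (nat_lit 0) (nat_lit 735535688122) (nat_lit 1) (nat_lit 5) (nat_lit 3) (nat_lit 4) (nat_lit 1) (nat_lit 4) (nat_lit 362) (nat_lit 278) (nat_lit 260)))) (XT.nd (nat_lit 78) (nat_lit 0) (nat_lit 0) (XT.lf (nat_lit 0) (nat_lit 847113166585) (nat_lit 152) (nat_lit 3450729896284) (nat_lit 0) (nat_lit 846889942682) (nat_lit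 1) (nat_lit 5) (nat_lit 3) (nat_lit 4) (nat_lit 1) (nat_lit 4) (nat_lit 363) (nat_lit 278) (nat_lit 259)) (XT.nd (nat_lit 78) (nat_lit 0) (nat_lit 0) (XT.lf (nat_lit 0) (nat_lit 975155848449) (nat_lit 152) (nat_lit 3966204838311) (nat_lit 0) (nat_lit 974930424073) (nat_lit 1) (nat_lit 5) (nat_lit 3) (nat_lit 4) (nat_lit 1) (nat_lit 4) (nat_lit 364) (nat_lit 278) (nat_lit 258)) (XT.lf (nat_lit 0) (nat_lit 1122389609978) (nat_lit 152) (nat_lit 4559033349498) (nat_lit 0) (nat_lit 1122162272147) (nat_lit 1) (nat_lit 5) (nat_lit 3) (nat_lit 4) (nat_lit 1) (nat_lit 4) (nat_lit 365) (nat_lit 278) (nat_lit 257)))))) (XT.nd (nat_lit 468) (nat_lit 0) (nat_lit 0) (XT.nd (nat_lit 234) (nat_lit 0) (nat_lit 0) (XT.nd (nat_lit 78) (nat_lit 0) (nat_lit 0) (XT.lf (nat_lit 0) (nat_lit 1291695111724) (nat_lit 152) (nat_lit 5240814248542) (nat_lit 0) (nat_lit 1291466110019) (nat_lit 1) (nat_lit 5) (nat_lit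 3) (nat_lit 4) (nat_lit 1) (nat_lit 4) (nat_lit 366) (nat_lit 278) (nat_lit 256)) (XT.nd (nat_lit 78) (nat_lit 0) (nat_lit 0) (XT.lf (nat_lit 0) (nat_lit 1486384852634) (nat_lit 152) (nat_lit 6024886726945) (nat_lit 0) (nat_lit 1486154404082) (nat_lit 1) (nat_lit 5) (nat_lit 3) (nat_lit 4) (nat_lit 1) (nat_lit 4) (nat_lit 367) (nat_lit 278) (nat_lit 255)) (XT.lf (nat_lit 0) (nat_lit 1710267979813) (nat_lit 152) (nat_lit 6926591333197) (nat_lit 0) (nat_lit 1710036273133) (nat_lit 1) (nat_lit 5) (nat_lit 3) (nat_lit 4) (nat_lit 1) (nat_lit 4) (nat_lit 368) (nat_lit 278) (nat_lit 254)))) (XT.nd (nat_lit 78) (nat_lit 0) (nat_lit 0) (XT.lf (nat_lit 0) (nat_lit 1967724815314) (nat_lit 152) (nat_lit 7963570113944) (nat_lit 0) (nat_lit 1967492014610) (nat_lit 1) (nat_lit 5) (nat_lit 3) (nat_lit 4) (nat_lit 1) (nat_lit 4) (nat_lit 369) (nat_lit 278) (nat_lit 253)) (XT.nd (nat_lit 78) (nat_lit 0)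 (nat_lit 0) (XT.lf (nat_lit 0) (nat_lit 2263792558094) (nat_lit 152) (nat_lit 9156111784460) (nat_lit 0) (nat_lit 2263558806064) (nat_lit 1) (nat_lit 5) (nat_lit 3) (nat_lit 4) (nat_lit 1) (nat_lit 4) (nat_lit 370) (nat_lit 278) (nat_lit 252)) (XT.lf (nat_lit 0) (nat_lit 2604263837901) (nat_lit 152) (nat_lit 10527548681777) (nat_lit 0) (nat_lit 2604029258632) (nat_lit 1) (nat_lit 5) (nat_lit 3) (nat_lit 4) (nat_lit 1) (nat_lit 4) (nat_lit 371) (nat_lit 278) (nat_lit 251))))) (XT.nd (nat_lit 234) (nat_lit 0) (nat_lit 0) (XT.nd (nat_lit 78) (nat_lit 0) (nat_lit 0) (XT.lf (nat_lit 0) (nat_lit 2995800049341) (nat_lit 152) (nat_lit 12104713266931) (nat_lit 0) (nat_lit 2995564750733) (nat_lit 1) (nat_lit 5) (nat_lit 3) (nat_lit 4) (nat_lit 1) (nat_lit 4) (nat_lit 372) (nat_lit 278) (nat_lit 250)) (XT.nd (nat_lit 78) (nat_lit 0) (nat_lit 0) (XT.lf (nat_lit 0) (nat_lit 3446061683507) (nat_lit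 152) (nat_lit 13918463107890) (nat_lit 0) (nat_lit 3445825759388) (nat_lit 1) (nat_lit 5) (nat_lit 3) (nat_lit 4) (nat_lit 1) (nat_lit 4) (nat_lit 373) (nat_lit 278) (nat_lit 249)) (XT.lf (nat_lit 0) (nat_lit 3963858207155) (nat_lit 152) (nat_lit 16004284614587) (nat_lit 0) (nat_lit 3963621739112) (nat_lit 1) (nat_lit 5) (nat_lit 3) (nat_lit 4) (nat_lit 1) (nat_lit 4) (nat_lit 374) (nat_lit 278) (nat_lit 248)))) (XT.nd (nat_lit 78) (nat_lit 0) (nat_lit 0) (XT.lf (nat_lit 0) (nat_lit 4559320421834) (nat_lit 152) (nat_lit 18402987338241) (nat_lit 0) (nat_lit 4559083480815) (nat_lit 1) (nat_lit 5) (nat_lit 3) (nat_lit 4) (nat_lit 1) (nat_lit 4) (nat_lit 375) (nat_lit 278) (nat_lit 247)) (XT.nd (nat_lit 78) (nat_lit 0) (nat_lit 0) (XT.lf (nat_lit 0) (nat_lit 5244098675223) (nat_lit 152) (nat_lit 21161502419095) (nat_lit 0) (nat_lit 5243861322919) (nat_lit 1) (nat_lit 5) (nat_lit 3) (nat_lit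 4) (nat_lit 1) (nat_lit 4) (nat_lit 376) (nat_lit 278) (nat_lit 246)) (XT.lf (nat_lit 0) (nat_lit 6031590802714) (nat_lit 152) (nat_lit 24333800804385) (nat_lit 0) (nat_lit 6031353092772) (nat_lit 1) (nat_lit 5) (nat_lit 3) (nat_lit 4) (nat_lit 1) (nat_lit 4) (nat_lit 377) (nat_lit 278) (nat_lit 245))))))))
noncomputable def xc14 : XT := (XT.nd (nat_lit 44382) (nat_lit 0) (nat_lit 0) (XT.nd (nat_lit 858) (nat_lit 0) (nat_lit 0) (XT.nd (nat_lit 390) (nat_lit 0) (nat_lit 0) (XT.nd (nat_lit 156) (nat_lit 0) (nat_lit 0) (XT.nd (nat_lit 78) (nat_lit 0) (nat_lit 0) (XT.lf (nat_lit 0) (nat_lit 6937204258976) (nat_lit 152) (nat_lit 27981949201649) (nat_lit 0) (nat_lit 6936966238044) (nat_lit 1) (nat_lit 5) (nat_lit 3) (nat_lit 4) (nat_lit 1) (nat_lit 4) (nat_lit 378) (nat_lit 278) (nat_lit 244)) (XT.lf (nat_lit 0) (nat_lit 7978657568152) (nat_lit 152) (nat_lit 32177324427355) (nat_lit 0) (nat_lit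 7978419276794) (nat_lit 1) (nat_lit 5) (nat_lit 3) (nat_lit 4) (nat_lit 1) (nat_lit 4) (nat_lit 379) (nat_lit 278) (nat_lit 243))) (XT.nd (nat_lit 78) (nat_lit 0) (nat_lit 0) (XT.lf (nat_lit 0) (nat_lit 9176326990640) (nat_lit 152) (nat_lit 37002009909832) (nat_lit 0) (nat_lit 9176088464129) (nat_lit 1) (nat_lit 5) (nat_lit 3) (nat_lit 4) (nat_lit 1) (nat_lit 4) (nat_lit 380) (nat_lit 278) (nat_lit 242)) (XT.nd (nat_lit 78) (nat_lit 0) (nat_lit 0) (XT.lf (nat_lit 0) (nat_lit 10553645189054) (nat_lit 152) (nat_lit 42550401669389) (nat_lit 0) (nat_lit 10553406458062) (nat_lit 1) (nat_lit 5) (nat_lit 3) (nat_lit 4) (nat_lit 1) (nat_lit 4) (nat_lit 381) (nat_lit 278) (nat_lit 241)) (XT.lf (nat_lit 0) (nat_lit 12137559693362) (nat_lit 152) (nat_lit 48931055196975) (nat_lit 0) (nat_lit 12137320784560) (nat_lit 1) (nat_lit 5) (nat_lit 3) (nat_lit 4) (nat_lit 1) (nat_lit 4) (nat_lit 382) (nat_lit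 278) (nat_lit 240))))) (XT.nd (nat_lit 234) (nat_lit 0) (nat_lit 0) (XT.nd (nat_lit 78) (nat_lit 0) (nat_lit 0) (XT.lf (nat_lit 0) (nat_lit 13959060135170) (nat_lit 152) (nat_lit 56268809365954) (nat_lit 0) (nat_lit 13958821071752) (nat_lit 1) (nat_lit 5) (nat_lit 3) (nat_lit 4) (nat_lit 1) (nat_lit 4) (nat_lit 383) (nat_lit 278) (nat_lit 239)) (XT.nd (nat_lit 78) (nat_lit 0) (nat_lit 0) (XT.lf (nat_lit 0) (nat_lit 16053784566602) (nat_lit 152) (nat_lit 64707228931807) (nat_lit 0) (nat_lit 16053545368734) (nat_lit 1) (nat_lit 5) (nat_lit 3) (nat_lit 4) (nat_lit 1) (nat_lit 4) (nat_lit 384) (nat_lit 278) (nat_lit 238)) (XT.lf (nat_lit 0) (nat_lit 18462716726532) (nat_lit 152) (nat_lit 74411413407779) (nat_lit 0) (nat_lit 18462477411751) (nat_lit 1) (nat_lit 5) (nat_lit 3) (nat_lit 4) (nat_lit 1) (nat_lit 4) (nat_lit 385) (nat_lit 278) (nat_lit 237)))) (XT.nd (nat_lit 78) (nat_lit 0) (nat_lit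 0) (XT.lf (nat_lit 0) (nat_lit 21232987896351) (nat_lit 152) (nat_lit 85571227272748) (nat_lit 0) (nat_lit 21232748479907) (nat_lit 1) (nat_lit 5) (nat_lit 3) (nat_lit 4) (nat_lit 1) (nat_lit 4) (nat_lit 386) (nat_lit 278) (nat_lit 236)) (XT.nd (nat_lit 78) (nat_lit 0) (nat_lit 0) (XT.lf (nat_lit 0) (nat_lit 24418799033729) (nat_lit 152) (nat_lit 98405014711029) (nat_lit 0) (nat_lit 24418559528882) (nat_lit 1) (nat_lit 5) (nat_lit 3) (nat_lit 4) (nat_lit 1) (nat_lit 4) (nat_lit 387) (nat_lit 278) (nat_lit 235)) (XT.lf (nat_lit 0) (nat_lit 28082481226136) (nat_lit 152) (nat_lit 113163871563804) (nat_lit 0) (nat_lit 28082241644418) (nat_lit 1) (nat_lit 5) (nat_lit 3) (nat_lit 4) (nat_lit 1) (nat_lit 4) (nat_lit 388) (nat_lit 278) (nat_lit 234)))))) (XT.nd (nat_lit 1170) (nat_lit 0) (nat_lit 0) (XT.nd (nat_lit 936) (nat_lit 0) (nat_lit 0) (XT.nd (nat_lit 858) (nat_lit 0) (nat_lit 0) (XT.lf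 (nat_lit 0) (nat_lit 32295715212120) (nat_lit 152) (nat_lit 130136558073846) (nat_lit 0) (nat_lit 32295475563556) (nat_lit 1) (nat_lit 5) (nat_lit 3) (nat_lit 4) (nat_lit 1) (nat_lit 4) (nat_lit 389) (nat_lit 278) (nat_lit 233)) (XT.lf (nat_lit 0) (nat_lit 150273254048697) (nat_lit 152) (nat_lit 605400159830588) (nat_lit 0) (nat_lit 150273014050284) (nat_lit 1) (nat_lit 5) (nat_lit 3) (nat_lit 4) (nat_lit 1) (nat_lit 4) (nat_lit 400) (nat_lit 278) (nat_lit 222))) (XT.nd (nat_lit 78) (nat_lit 0) (nat_lit 0) (XT.lf (nat_lit 0) (nat_lit 172815101056492) (nat_lit 152) (nat_lit 696208295702426) (nat_lit 0) (nat_lit 172814861045586) (nat_lit 1) (nat_lit 5) (nat_lit 3) (nat_lit 4) (nat_lit 1) (nat_lit 4) (nat_lit 401) (nat_lit 278) (nat_lit 221)) (XT.nd (nat_lit 78) (nat_lit 0) (nat_lit 0) (XT.lf (nat_lit 0) (nat_lit 198738225028458) (nat_lit 152) (nat_lit 800637652138589) (nat_lit 0) (nat_lit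 198737985006686) (nat_lit 1) (nat_lit 5) (nat_lit 3) (nat_lit 4) (nat_lit 1) (nat_lit 4) (nat_lit 402) (nat_lit 278) (nat_lit 220)) (XT.lf (nat_lit 0) (nat_lit 228549817520565) (nat_lit 152) (nat_lit 920731412199789) (nat_lit 0) (nat_lit 228549577489348) (nat_lit 1) (nat_lit 5) (nat_lit 3) (nat_lit 4) (nat_lit 1) (nat_lit 4) (nat_lit 403) (nat_lit 278) (nat_lit 219))))) (XT.nd (nat_lit 42120) (nat_lit 0) (nat_lit 0) (XT.nd (nat_lit 78) (nat_lit 0) (nat_lit 0) (XT.lf (nat_lit 0) (nat_lit 262833148820706) (nat_lit 152) (nat_lit 1058839236408960) (nat_lit 0) (nat_lit 262832908781274) (nat_lit 1) (nat_lit 5) (nat_lit 3) (nat_lit 4) (nat_lit 1) (nat_lit 4) (nat_lit 404) (nat_lit 278) (nat_lit 218)) (XT.nd (nat_lit 41964) (nat_lit 0) (nat_lit 0) (XT.lf (nat_lit 0) (nat_lit 302258979758666) (nat_lit 152) (nat_lit 1217663234370191) (nat_lit 0) (nat_lit 302258739712090) (nat_lit 1) (nat_lit 5)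 (nat_lit 3) (nat_lit 4) (nat_lit 1) (nat_lit 4) (nat_lit 405) (nat_lit 278) (nat_lit 217)) (XT.lf (nat_lit 0) (nat_lit 15949127072) (nat_lit 152) (nat_lit 105776857696) (nat_lit 0) (nat_lit 15949127072) (nat_lit 1) (nat_lit 5) (nat_lit 3) (nat_lit 4) (nat_lit 1) (nat_lit 4) (nat_lit 342) (nat_lit 279) (nat_lit 279)))) (XT.nd (nat_lit 78) (nat_lit 0) (nat_lit 0) (XT.lf (nat_lit 0) (nat_lit 39592593194) (nat_lit 152) (nat_lit 237060677466) (nat_lit 0) (nat_lit 39556579064) (nat_lit 1) (nat_lit 5) (nat_lit 3) (nat_lit 4) (nat_lit 1) (nat_lit 4) (nat_lit 343) (nat_lit 279) (nat_lit 278)) (XT.nd (nat_lit 78) (nat_lit 0) (nat_lit 0) (XT.lf (nat_lit 0) (nat_lit 48190304962) (nat_lit 152) (nat_lit 266922778901) (nat_lit 0) (nat_lit 48122974198) (nat_lit 1) (nat_lit 5) (nat_lit 3) (nat_lit 4) (nat_lit 1) (nat_lit 4) (nat_lit 344) (nat_lit 279) (nat_lit 277)) (XT.lf (nat_lit 0) (nat_lit 57859605548)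 (nat_lit 152) (nat_lit 301724278203) (nat_lit 0) (nat_lit 57765042927) (nat_lit 1) (nat_lit 5) (nat_lit 3) (nat_lit 4) (nat_lit 1) (nat_lit 4) (nat_lit 345) (nat_lit 279) (nat_lit 276))))))) (XT.nd (nat_lit 858) (nat_lit 0) (nat_lit 0) (XT.nd (nat_lit 390) (nat_lit 0) (nat_lit 0) (XT.nd (nat_lit 156) (nat_lit 0) (nat_lit 0) (XT.nd (nat_lit 78) (nat_lit 0) (nat_lit 0) (XT.lf (nat_lit 0) (nat_lit 68789676919) (nat_lit 152) (nat_lit 342146074271) (nat_lit 0) (nat_lit 68671434423) (nat_lit 1) (nat_lit 5) (nat_lit 3) (nat_lit 4) (nat_lit 1) (nat_lit 4) (nat_lit 346) (nat_lit 279) (nat_lit 275)) (XT.lf (nat_lit 0) (nat_lit 81194368298) (nat_lit 152) (nat_lit 388979028333) (nat_lit 0) (nat_lit 81055534607) (nat_lit 1) (nat_lit 5) (nat_lit 3) (nat_lit 4) (nat_lit 1) (nat_lit 4) (nat_lit 347) (nat_lit 279) (nat_lit 274))) (XT.nd (nat_lit 78) (nat_lit 0) (nat_lit 0) (XT.lf (nat_lit 0) (nat_lit 95316380169)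 (nat_lit 152) (nat_lit 443139437316) (nat_lit 0) (nat_lit 95159641091) (nat_lit 1) (nat_lit 5) (nat_lit 3) (nat_lit 4) (nat_lit 1) (nat_lit 4) (nat_lit 348) (nat_lit 279) (nat_lit 273)) (XT.nd (nat_lit 78) (nat_lit 0) (nat_lit 0) (XT.lf (nat_lit 0) (nat_lit 111432012765) (nat_lit 152) (nat_lit 505686961396) (nat_lit 0) (nat_lit 111259703784) (nat_lit 1) (nat_lit 5) (nat_lit 3) (nat_lit 4) (nat_lit 1) (nat_lit 4) (nat_lit 349) (nat_lit 279) (nat_lit 272)) (XT.lf (nat_lit 0) (nat_lit 129856571939) (nat_lit 152) (nat_lit 577845356479) (nat_lit 0) (nat_lit 129670723913) (nat_lit 1) (nat_lit 5) (nat_lit 3) (nat_lit 4) (nat_lit 1) (nat_lit 4) (nat_lit 350) (nat_lit 279) (nat_lit 271))))) (XT.nd (nat_lit 234) (nat_lit 0) (nat_lit 0) (XT.nd (nat_lit 78) (nat_lit 0) (nat_lit 0) (XT.lf (nat_lit 0) (nat_lit 150950538198) (nat_lit 152) (nat_lit 661026417251) (nat_lit 0) (nat_lit 150752917089) (nat_lit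 1) (nat_lit 5) (nat_lit 3) (nat_lit 4) (nat_lit 1) (nat_lit 4) (nat_lit 351) (nat_lit 279) (nat_lit 270)) (XT.nd (nat_lit 78) (nat_lit 0) (nat_lit 0) (XT.lf (nat_lit 0) (nat_lit 175126619577) (nat_lit 152) (nat_lit 756857599249) (nat_lit 0) (nat_lit 174918761004) (nat_lit 1) (nat_lit 5) (nat_lit 3) (nat_lit 4) (nat_lit 1) (nat_lit 4) (nat_lit 352) (nat_lit 279) (nat_lit 269)) (XT.lf (nat_lit 0) (nat_lit 202857826363) (nat_lit 152) (nat_lit 867213860382) (nat_lit 0) (nat_lit 202641065649) (nat_lit 1) (nat_lit 5) (nat_lit 3) (nat_lit 4) (nat_lit 1) (nat_lit 4) (nat_lit 353) (nat_lit 279) (nat_lit 268)))) (XT.nd (nat_lit 78) (nat_lit 0) (nat_lit 0) (XT.lf (nat_lit 0) (nat_lit 234686725648) (nat_lit 152) (nat_lit 994254344889) (nat_lit 0) (nat_lit 234462223940) (nat_lit 1) (nat_lit 5) (nat_lit 3) (nat_lit 4) (nat_lit 1) (nat_lit 4) (nat_lit 354) (nat_lit 279) (nat_lit 267)) (XT.nd (nat_lit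 78) (nat_lit 0) (nat_lit 0) (XT.lf (nat_lit 0) (nat_lit 271236056763) (nat_lit 152) (nat_lit 1140464627467) (nat_lit 0) (nat_lit 271004823757) (nat_lit 1) (nat_lit 5) (nat_lit 3) (nat_lit 4) (nat_lit 1) (nat_lit 4) (nat_lit 355) (nat_lit 279) (nat_lit 266)) (XT.lf (nat_lit 0) (nat_lit 313220915318) (nat_lit 152) (nat_lit 1308705344080) (nat_lit 0) (nat_lit 312983829010) (nat_lit 1) (nat_lit 5) (nat_lit 3) (nat_lit 4) (nat_lit 1) (nat_lit 4) (nat_lit 356) (nat_lit 279) (nat_lit 265)))))) (XT.nd (nat_lit 390) (nat_lit 0) (nat_lit 0) (XT.nd (nat_lit 156) (nat_lit 0) (nat_lit 0) (XT.nd (nat_lit 78) (nat_lit 0) (nat_lit 0) (XT.lf (nat_lit 0) (nat_lit 361462744198) (nat_lit 152) (nat_lit 1502268160922) (nat_lit 0) (nat_lit 361220568061) (nat_lit 1) (nat_lit 5) (nat_lit 3) (nat_lit 4) (nat_lit 1) (nat_lit 4) (nat_lit 357) (nat_lit 279) (nat_lit 264)) (XT.lf (nat_lit 0) (nat_lit 416905405273)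 (nat_lit 152) (nat_lit 1724940176583) (nat_lit 0) (nat_lit 416658803197) (nat_lit 1) (nat_lit 5) (nat_lit 3) (nat_lit 4) (nat_lit 1) (nat_lit 4) (nat_lit 358) (nat_lit 279) (nat_lit 263))) (XT.nd (nat_lit 78) (nat_lit 0) (nat_lit 0) (XT.lf (nat_lit 0) (nat_lit 480633646257) (nat_lit 152) (nat_lit 1981078017458) (nat_lit 0) (nat_lit 480383195540) (nat_lit 1) (nat_lit 5) (nat_lit 3) (nat_lit 4) (nat_lit 1) (nat_lit 4) (nat_lit 359) (nat_lit 279) (nat_lit 262)) (XT.nd (nat_lit 78) (nat_lit 0) (nat_lit 0) (XT.lf (nat_lit 0) (nat_lit 553894324042) (nat_lit 152) (nat_lit 2275693076085) (nat_lit 0) (nat_lit 553640526680) (nat_lit 1) (nat_lit 5) (nat_lit 3) (nat_lit 4) (nat_lit 1) (nat_lit 4) (nat_lit 360) (nat_lit 279) (nat_lit 261)) (XT.lf (nat_lit 0) (nat_lit 638120799713) (nat_lit 152) (nat_lit 2614549560132) (nat_lit 0) (nat_lit 637864092225) (nat_lit 1) (nat_lit 5) (nat_lit 3) (nat_lit 4)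 (nat_lit 1) (nat_lit 4) (nat_lit 361) (nat_lit 279) (nat_lit 260))))) (XT.nd (nat_lit 234) (nat_lit 0) (nat_lit 0) (XT.nd (nat_lit 78) (nat_lit 0) (nat_lit 0) (XT.lf (nat_lit 0) (nat_lit 734960982577) (nat_lit 152) (nat_lit 3004277270374) (nat_lit 0) (nat_lit 734701744545) (nat_lit 1) (nat_lit 5) (nat_lit 3) (nat_lit 4) (nat_lit 1) (nat_lit 4) (nat_lit 362) (nat_lit 279) (nat_lit 259)) (XT.nd (nat_lit 78) (nat_lit 0) (nat_lit 0) (XT.lf (nat_lit 0) (nat_lit 846309571865) (nat_lit 152) (nat_lit 3452501314187) (nat_lit 0) (nat_lit 846048133359) (nat_lit 1) (nat_lit 5) (nat_lit 3) (nat_lit 4) (nat_lit 1) (nat_lit 4) (nat_lit 363) (nat_lit 279) (nat_lit 258)) (XT.lf (nat_lit 0) (nat_lit 974345126931) (nat_lit 152) (nat_lit 3967991292426) (nat_lit 0) (nat_lit 974081774970) (nat_lit 1) (nat_lit 5) (nat_lit 3) (nat_lit 4) (nat_lit 1) (nat_lit 4) (nat_lit 364) (nat_lit 279) (nat_lit 257)))) (XT.nd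 (nat_lit 78) (nat_lit 0) (nat_lit 0) (XT.lf (nat_lit 0) (nat_lit 1121572691245) (nat_lit 152) (nat_lit 4560832878580) (nat_lit 0) (nat_lit 1121307675410) (nat_lit 1) (nat_lit 5) (nat_lit 3) (nat_lit 4) (nat_lit 1) (nat_lit 4) (nat_lit 365) (nat_lit 279) (nat_lit 256)) (XT.nd (nat_lit 78) (nat_lit 0) (nat_lit 0) (XT.lf (nat_lit 0) (nat_lit 1290872804108) (nat_lit 152) (nat_lit 5242625147159) (nat_lit 0) (nat_lit 1290606341427) (nat_lit 1) (nat_lit 5) (nat_lit 3) (nat_lit 4) (nat_lit 1) (nat_lit 4) (nat_lit 366) (nat_lit 279) (nat_lit 255)) (XT.lf (nat_lit 0) (nat_lit 1485557859034) (nat_lit 152) (nat_lit 6026707512115) (nat_lit 0) (nat_lit 1485290138224) (nat_lit 1) (nat_lit 5) (nat_lit 3) (nat_lit 4) (nat_lit 1) (nat_lit 4) (nat_lit 367) (nat_lit 279) (nat_lit 254))))))))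
noncomputable def xc15 : XT := (XT.nd (nat_lit 2574) (nat_lit 0) (nat_lit 0) (XT.nd (nat_lit 858) (nat_lit 0) (nat_lit 0) (XT.nd (nat_lit 390) (nat_lit 0) (nat_lit 0) (XT.nd (nat_lit 156) (nat_lit 0) (nat_lit 0) (XT.nd (nat_lit 78) (nat_lit 0) (nat_lit 0) (XT.lf (nat_lit 0) (nat_lit 1709436911443) (nat_lit 152) (nat_lit 6928420715371) (nat_lit 0) (nat_lit 1709168096609) (nat_lit 1) (nat_lit 5) (nat_lit 3) (nat_lit 4) (nat_lit 1) (nat_lit 4) (nat_lit 368) (nat_lit 279) (nat_lit 253)) (XT.lf (nat_lit 0) (nat_lit 1966890203667) (nat_lit 152) (nat_lit 7965406971772) (nat_lit 0) (nat_lit 1966620437508) (nat_lit 1) (nat_lit 5) (nat_lit 3) (nat_lit 4) (nat_lit 1) (nat_lit 4) (nat_lit 369) (nat_lit 279) (nat_lit 252))) (XT.nd (nat_lit 78) (nat_lit 0) (nat_lit 0) (XT.lf (nat_lit 0) (nat_lit 2262954865335) (nat_lit 152) (nat_lit 9157955142857) (nat_lit 0) (nat_lit 2262684271936) (nat_lit 1) (nat_lit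 5) (nat_lit 3) (nat_lit 4) (nat_lit 1) (nat_lit 4) (nat_lit 370) (nat_lit 279) (nat_lit 251)) (XT.nd (nat_lit 78) (nat_lit 0) (nat_lit 0) (XT.lf (nat_lit 0) (nat_lit 2603423465915) (nat_lit 152) (nat_lit 10529397692844) (nat_lit 0) (nat_lit 2603152153178) (nat_lit 1) (nat_lit 5) (nat_lit 3) (nat_lit 4) (nat_lit 1) (nat_lit 4) (nat_lit 371) (nat_lit 279) (nat_lit 250)) (XT.lf (nat_lit 0) (nat_lit 2994957347592) (nat_lit 152) (nat_lit 12106567193361) (nat_lit 0) (nat_lit 2994685409343) (nat_lit 1) (nat_lit 5) (nat_lit 3) (nat_lit 4) (nat_lit 1) (nat_lit 4) (nat_lit 372) (nat_lit 279) (nat_lit 249))))) (XT.nd (nat_lit 234) (nat_lit 0) (nat_lit 0) (XT.nd (nat_lit 78) (nat_lit 0) (nat_lit 0) (XT.lf (nat_lit 0) (nat_lit 3445216955878) (nat_lit 152) (nat_lit 13920321308550) (nat_lit 0) (nat_lit 3444944473706) (nat_lit 1) (nat_lit 5) (nat_lit 3) (nat_lit 4) (nat_lit 1) (nat_lit 4) (nat_lit 373)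 (nat_lit 279) (nat_lit 248)) (XT.nd (nat_lit 78) (nat_lit 0) (nat_lit 0) (XT.lf (nat_lit 0) (nat_lit 3963011717891) (nat_lit 152) (nat_lit 16006146531969) (nat_lit 0) (nat_lit 3962738762741) (nat_lit 1) (nat_lit 5) (nat_lit 3) (nat_lit 4) (nat_lit 1) (nat_lit 4) (nat_lit 374) (nat_lit 279) (nat_lit 247)) (XT.lf (nat_lit 0) (nat_lit 4558472400713) (nat_lit 152) (nat_lit 18404852487554) (nat_lit 0) (nat_lit 4558199034279) (nat_lit 1) (nat_lit 5) (nat_lit 3) (nat_lit 4) (nat_lit 1) (nat_lit 4) (nat_lit 375) (nat_lit 279) (nat_lit 246)))) (XT.nd (nat_lit 78) (nat_lit 0) (nat_lit 0) (XT.lf (nat_lit 0) (nat_lit 5243249322053) (nat_lit 152) (nat_lit 21163370378785) (nat_lit 0) (nat_lit 5242975597981) (nat_lit 1) (nat_lit 5) (nat_lit 3) (nat_lit 4) (nat_lit 1) (nat_lit 4) (nat_lit 376) (nat_lit 279) (nat_lit 245)) (XT.nd (nat_lit 78) (nat_lit 0) (nat_lit 0) (XT.lf (nat_lit 0) (nat_lit 6030740291240)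 (nat_lit 152) (nat_lit 24335671207879) (nat_lit 0) (nat_lit 6030466256178) (nat_lit 1) (nat_lit 5) (nat_lit 3) (nat_lit 4) (nat_lit 1) (nat_lit 4) (nat_lit 377) (nat_lit 279) (nat_lit 244)) (XT.lf (nat_lit 0) (nat_lit 6936352740281) (nat_lit 152) (nat_lit 27983821730191) (nat_lit 0) (nat_lit 6936078434793) (nat_lit 1) (nat_lit 5) (nat_lit 3) (nat_lit 4) (nat_lit 1) (nat_lit 4) (nat_lit 378) (nat_lit 279) (nat_lit 243)))))) (XT.nd (nat_lit 390) (nat_lit 0) (nat_lit 0) (XT.nd (nat_lit 156) (nat_lit 0) (nat_lit 0) (XT.nd (nat_lit 78) (nat_lit 0) (nat_lit 0) (XT.lf (nat_lit 0) (nat_lit 7977805173613) (nat_lit 152) (nat_lit 32179198803764) (nat_lit 0) (nat_lit 7977530632972) (nat_lit 1) (nat_lit 5) (nat_lit 3) (nat_lit 4) (nat_lit 1) (nat_lit 4) (nat_lit 379) (nat_lit 279) (nat_lit 242)) (XT.lf (nat_lit 0) (nat_lit 9175473834497) (nat_lit 152) (nat_lit 37003885893082) (nat_lit 0) (nat_lit 9175199089376)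 (nat_lit 1) (nat_lit 5) (nat_lit 3) (nat_lit 4) (nat_lit 1) (nat_lit 4) (nat_lit 380) (nat_lit 279) (nat_lit 241))) (XT.nd (nat_lit 78) (nat_lit 0) (nat_lit 0) (XT.lf (nat_lit 0) (nat_lit 10552791370647) (nat_lit 152) (nat_lit 42552279049893) (nat_lit 0) (nat_lit 10552516447716) (nat_lit 1) (nat_lit 5) (nat_lit 3) (nat_lit 4) (nat_lit 1) (nat_lit 4) (nat_lit 381) (nat_lit 279) (nat_lit 240)) (XT.nd (nat_lit 78) (nat_lit 0) (nat_lit 0) (XT.lf (nat_lit 0) (nat_lit 12136705299073) (nat_lit 152) (nat_lit 48932933792481) (nat_lit 0) (nat_lit 12136430221525) (nat_lit 1) (nat_lit 5) (nat_lit 3) (nat_lit 4) (nat_lit 1) (nat_lit 4) (nat_lit 382) (nat_lit 279) (nat_lit 239)) (XT.lf (nat_lit 0) (nat_lit 13958205240115) (nat_lit 152) (nat_lit 56270689017985) (nat_lit 0) (nat_lit 13957930028117) (nat_lit 1) (nat_lit 5) (nat_lit 3) (nat_lit 4) (nat_lit 1) (nat_lit 4) (nat_lit 383) (nat_lit 279) (nat_lit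 238))))) (XT.nd (nat_lit 234) (nat_lit 0) (nat_lit 0) (XT.nd (nat_lit 78) (nat_lit 0) (nat_lit 0) (XT.lf (nat_lit 0) (nat_lit 16052929236097) (nat_lit 152) (nat_lit 64709109502555) (nat_lit 0) (nat_lit 16052653907187) (nat_lit 1) (nat_lit 5) (nat_lit 3) (nat_lit 4) (nat_lit 1) (nat_lit 4) (nat_lit 384) (nat_lit 279) (nat_lit 237)) (XT.nd (nat_lit 78) (nat_lit 0) (nat_lit 0) (XT.lf (nat_lit 0) (nat_lit 18461861017376) (nat_lit 152) (nat_lit 74413294777411) (nat_lit 0) (nat_lit 18461585586802) (nat_lit 1) (nat_lit 5) (nat_lit 3) (nat_lit 4) (nat_lit 1) (nat_lit 4) (nat_lit 385) (nat_lit 279) (nat_lit 236)) (XT.lf (nat_lit 0) (nat_lit 21232131857933) (nat_lit 152) (nat_lit 85573109337062) (nat_lit 0) (nat_lit 21231856338956) (nat_lit 1) (nat_lit 5) (nat_lit 3) (nat_lit 4) (nat_lit 1) (nat_lit 4) (nat_lit 386) (nat_lit 279) (nat_lit 235)))) (XT.nd (nat_lit 78) (nat_lit 0) (nat_lit 0) (XT.lf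 (nat_lit 0) (nat_lit 24417942708996) (nat_lit 152) (nat_lit 98406897379413) (nat_lit 0) (nat_lit 24417667113147) (nat_lit 1) (nat_lit 5) (nat_lit 3) (nat_lit 4) (nat_lit 1) (nat_lit 4) (nat_lit 387) (nat_lit 279) (nat_lit 234)) (XT.nd (nat_lit 936) (nat_lit 0) (nat_lit 0) (XT.lf (nat_lit 0) (nat_lit 28081624652433) (nat_lit 152) (nat_lit 113165754757468) (nat_lit 0) (nat_lit 28081348989740) (nat_lit 1) (nat_lit 5) (nat_lit 3) (nat_lit 4) (nat_lit 1) (nat_lit 4) (nat_lit 388) (nat_lit 279) (nat_lit 233)) (XT.lf (nat_lit 0) (nat_lit 150272396125426) (nat_lit 152) (nat_lit 605402045871590) (nat_lit 0) (nat_lit 150272120100389) (nat_lit 1) (nat_lit 5) (nat_lit 3) (nat_lit 4) (nat_lit 1) (nat_lit 4) (nat_lit 400) (nat_lit 279) (nat_lit 221))))))) (XT.nd (nat_lit 42666) (nat_lit 0) (nat_lit 0) (XT.nd (nat_lit 42198) (nat_lit 0) (nat_lit 0) (XT.nd (nat_lit 156) (nat_lit 0) (nat_lit 0) (XT.nd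 (nat_lit 78) (nat_lit 0) (nat_lit 0) (XT.lf (nat_lit 0) (nat_lit 172814243092756) (nat_lit 152) (nat_lit 696210181828801) (nat_lit 0) (nat_lit 172813967056855) (nat_lit 1) (nat_lit 5) (nat_lit 3) (nat_lit 4) (nat_lit 1) (nat_lit 4) (nat_lit 401) (nat_lit 279) (nat_lit 220)) (XT.lf (nat_lit 0) (nat_lit 198737367029534) (nat_lit 152) (nat_lit 800639538339202) (nat_lit 0) (nat_lit 198737090984186) (nat_lit 1) (nat_lit 5) (nat_lit 3) (nat_lit 4) (nat_lit 1) (nat_lit 4) (nat_lit 402) (nat_lit 279) (nat_lit 219))) (XT.nd (nat_lit 78) (nat_lit 0) (nat_lit 0) (XT.lf (nat_lit 0) (nat_lit 228548959491047) (nat_lit 152) (nat_lit 920733298464956) (nat_lit 0) (nat_lit 228548683437482) (nat_lit 1) (nat_lit 5) (nat_lit 3) (nat_lit 4) (nat_lit 1) (nat_lit 4) (nat_lit 403) (nat_lit 279) (nat_lit 218)) (XT.nd (nat_lit 41886) (nat_lit 0) (nat_lit 0) (XT.lf (nat_lit 0) (nat_lit 262832290764581) (nat_lit 152)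 (nat_lit 1058841122730259) (nat_lit 0) (nat_lit 262832014703876) (nat_lit 1) (nat_lit 5) (nat_lit 3) (nat_lit 4) (nat_lit 1) (nat_lit 4) (nat_lit 404) (nat_lit 279) (nat_lit 217)) (XT.lf (nat_lit 0) (nat_lit 9413965903) (nat_lit 152) (nat_lit 85679501279) (nat_lit 0) (nat_lit 9413965903) (nat_lit 1) (nat_lit 5) (nat_lit 3) (nat_lit 4) (nat_lit 1) (nat_lit 4) (nat_lit 340) (nat_lit 280) (nat_lit 280))))) (XT.nd (nat_lit 234) (nat_lit 0) (nat_lit 0) (XT.nd (nat_lit 78) (nat_lit 0) (nat_lit 0) (XT.lf (nat_lit 0) (nat_lit 24998162645) (nat_lit 152) (nat_lit 189902843421) (nat_lit 0) (nat_lit 24956746396) (nat_lit 1) (nat_lit 5) (nat_lit 3) (nat_lit 4) (nat_lit 1) (nat_lit 4) (nat_lit 341) (nat_lit 280) (nat_lit 279)) (XT.nd (nat_lit 78) (nat_lit 0) (nat_lit 0) (XT.lf (nat_lit 0) (nat_lit 31805533249) (nat_lit 152) (nat_lit 211836719721) (nat_lit 0) (nat_lit 31728102870) (nat_lit 1) (nat_lit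 5) (nat_lit 3) (nat_lit 4) (nat_lit 1) (nat_lit 4) (nat_lit 342) (nat_lit 280) (nat_lit 278)) (XT.lf (nat_lit 0) (nat_lit 39383231304) (nat_lit 152) (nat_lit 237589772516) (nat_lit 0) (nat_lit 39274484290) (nat_lit 1) (nat_lit 5) (nat_lit 3) (nat_lit 4) (nat_lit 1) (nat_lit 4) (nat_lit 343) (nat_lit 280) (nat_lit 277)))) (XT.nd (nat_lit 78) (nat_lit 0) (nat_lit 0) (XT.lf (nat_lit 0) (nat_lit 47879516119) (nat_lit 152) (nat_lit 267665865882) (nat_lit 0) (nat_lit 47743537249) (nat_lit 1) (nat_lit 5) (nat_lit 3) (nat_lit 4) (nat_lit 1) (nat_lit 4) (nat_lit 344) (nat_lit 280) (nat_lit 276)) (XT.nd (nat_lit 78) (nat_lit 0) (nat_lit 0) (XT.lf (nat_lit 0) (nat_lit 57460619355) (nat_lit 152) (nat_lit 302653445124) (nat_lit 0) (nat_lit 57300960610) (nat_lit 1) (nat_lit 5) (nat_lit 3) (nat_lit 4) (nat_lit 1) (nat_lit 4) (nat_lit 345) (nat_lit 280) (nat_lit 275)) (XT.lf (nat_lit 0) (nat_lit 68313997379)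 (nat_lit 152) (nat_lit 343237049835) (nat_lit 0) (nat_lit 68133747438) (nat_lit 1) (nat_lit 5) (nat_lit 3) (nat_lit 4) (nat_lit 1) (nat_lit 4) (nat_lit 346) (nat_lit 280) (nat_lit 274)))))) (XT.nd (nat_lit 468) (nat_lit 0) (nat_lit 0) (XT.nd (nat_lit 234) (nat_lit 0) (nat_lit 0) (XT.nd (nat_lit 78) (nat_lit 0) (nat_lit 0) (XT.lf (nat_lit 0) (nat_lit 80651998891) (nat_lit 152) (nat_lit 390210707065) (nat_lit 0) (nat_lit 80453843563) (nat_lit 1) (nat_lit 5) (nat_lit 3) (nat_lit 4) (nat_lit 1) (nat_lit 4) (nat_lit 347) (nat_lit 280) (nat_lit 273)) (XT.nd (nat_lit 78) (nat_lit 0) (nat_lit 0) (XT.lf (nat_lit 0) (nat_lit 94716019573) (nat_lit 152) (nat_lit 444493466630) (nat_lit 0) (nat_lit 94502294343) (nat_lit 1) (nat_lit 5) (nat_lit 3) (nat_lit 4) (nat_lit 1) (nat_lit 4) (nat_lit 348) (nat_lit 280) (nat_lit 272)) (XT.lf (nat_lit 0) (nat_lit 110781225047) (nat_lit 152) (nat_lit 507147382519)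 (nat_lit 0) (nat_lit 110553960771) (nat_lit 1) (nat_lit 5) (nat_lit 3) (nat_lit 4) (nat_lit 1) (nat_lit 4) (nat_lit 349) (nat_lit 280) (nat_lit 271)))) (XT.nd (nat_lit 78) (nat_lit 0) (nat_lit 0) (XT.lf (nat_lit 0) (nat_lit 129161934550) (nat_lit 152) (nat_lit 579398292219) (nat_lit 0) (nat_lit 128922897192) (nat_lit 1) (nat_lit 5) (nat_lit 3) (nat_lit 4) (nat_lit 1) (nat_lit 4) (nat_lit 350) (nat_lit 280) (nat_lit 270)) (XT.nd (nat_lit 78) (nat_lit 0) (nat_lit 0) (XT.lf (nat_lit 0) (nat_lit 150217770661) (nat_lit 152) (nat_lit 662659800484) (nat_lit 0) (nat_lit 149968495839) (nat_lit 1) (nat_lit 5) (nat_lit 3) (nat_lit 4) (nat_lit 1) (nat_lit 4) (nat_lit 351) (nat_lit 280) (nat_lit 269)) (XT.lf (nat_lit 0) (nat_lit 174360695389) (nat_lit 152) (nat_lit 758560936824) (nat_lit 0) (nat_lit 174102518426) (nat_lit 1) (nat_lit 5) (nat_lit 3) (nat_lit 4) (nat_lit 1) (nat_lit 4) (nat_lit 352)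 (nat_lit 280) (nat_lit 268))))) (XT.nd (nat_lit 234) (nat_lit 0) (nat_lit 0) (XT.nd (nat_lit 78) (nat_lit 0) (nat_lit 0) (XT.lf (nat_lit 0) (nat_lit 202063070306) (nat_lit 152) (nat_lit 868978027820) (nat_lit 0) (nat_lit 201797152349) (nat_lit 1) (nat_lit 5) (nat_lit 3) (nat_lit 4) (nat_lit 1) (nat_lit 4) (nat_lit 353) (nat_lit 280) (nat_lit 267)) (XT.nd (nat_lit 78) (nat_lit 0) (nat_lit 0) (XT.lf (nat_lit 0) (nat_lit 233866898399) (nat_lit 152) (nat_lit 996071407859) (nat_lit 0) (nat_lit 233594249144) (nat_lit 1) (nat_lit 5) (nat_lit 3) (nat_lit 4) (nat_lit 1) (nat_lit 4) (nat_lit 354) (nat_lit 280) (nat_lit 266)) (XT.lf (nat_lit 0) (nat_lit 270394428478) (nat_lit 152) (nat_lit 1142327686553) (nat_lit 0) (nat_lit 270115925920) (nat_lit 1) (nat_lit 5) (nat_lit 3) (nat_lit 4) (nat_lit 1) (nat_lit 4) (nat_lit 355) (nat_lit 280) (nat_lit 265)))) (XT.nd (nat_lit 78) (nat_lit 0) (nat_lit 0)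 (XT.lf (nat_lit 0) (nat_lit 312360329611) (nat_lit 152) (nat_lit 1310608399788) (nat_lit 0) (nat_lit 312076737224) (nat_lit 1) (nat_lit 5) (nat_lit 3) (nat_lit 4) (nat_lit 1) (nat_lit 4) (nat_lit 356) (nat_lit 280) (nat_lit 264)) (XT.nd (nat_lit 78) (nat_lit 0) (nat_lit 0) (XT.lf (nat_lit 0) (nat_lit 360585673776) (nat_lit 152) (nat_lit 1504205996301) (nat_lit 0) (nat_lit 360297655451) (nat_lit 1) (nat_lit 5) (nat_lit 3) (nat_lit 4) (nat_lit 1) (nat_lit 4) (nat_lit 357) (nat_lit 280) (nat_lit 263)) (XT.lf (nat_lit 0) (nat_lit 416014000315) (nat_lit 152) (nat_lit 1726908255155) (nat_lit 0) (nat_lit 415722133349) (nat_lit 1) (nat_lit 5) (nat_lit 3) (nat_lit 4) (nat_lit 1) (nat_lit 4) (nat_lit 358) (nat_lit 280) (nat_lit 262))))))))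
noncomputable def xc16 : XT := (XT.nd (nat_lit 1716) (nat_lit 0) (nat_lit 0) (XT.nd (nat_lit 858) (nat_lit 0) (nat_lit 0) (XT.nd (nat_lit 390) (nat_lit 0) (nat_lit 0) (XT.nd (nat_lit 156) (nat_lit 0) (nat_lit 0) (XT.nd (nat_lit 78) (nat_lit 0) (nat_lit 0) (XT.lf (nat_lit 0) (nat_lit 479729776487) (nat_lit 152) (nat_lit 1983072394458) (nat_lit 0) (nat_lit 479434562875) (nat_lit 1) (nat_lit 5) (nat_lit 3) (nat_lit 4) (nat_lit 1) (nat_lit 4) (nat_lit 359) (nat_lit 280) (nat_lit 261)) (XT.lf (nat_lit 0) (nat_lit 552979615303) (nat_lit 152) (nat_lit 2277710321283) (nat_lit 0) (nat_lit 552681491566) (nat_lit 1) (nat_lit 5) (nat_lit 3) (nat_lit 4) (nat_lit 1) (nat_lit 4) (nat_lit 360) (nat_lit 280) (nat_lit 260))) (XT.nd (nat_lit 78) (nat_lit 0) (nat_lit 0) (XT.lf (nat_lit 0) (nat_lit 637196665785) (nat_lit 152) (nat_lit 2616586690720) (nat_lit 0) (nat_lit 636896011503) (nat_lit 1) (nat_lit 5)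 (nat_lit 3) (nat_lit 4) (nat_lit 1) (nat_lit 4) (nat_lit 361) (nat_lit 280) (nat_lit 259)) (XT.nd (nat_lit 78) (nat_lit 0) (nat_lit 0) (XT.lf (nat_lit 0) (nat_lit 734028652832) (nat_lit 152) (nat_lit 3006331692606) (nat_lit 0) (nat_lit 733725798077) (nat_lit 1) (nat_lit 5) (nat_lit 3) (nat_lit 4) (nat_lit 1) (nat_lit 4) (nat_lit 362) (nat_lit 280) (nat_lit 258)) (XT.lf (nat_lit 0) (nat_lit 845370115322) (nat_lit 152) (nat_lit 3454570772630) (nat_lit 0) (nat_lit 845065347112) (nat_lit 1) (nat_lit 5) (nat_lit 3) (nat_lit 4) (nat_lit 1) (nat_lit 4) (nat_lit 363) (nat_lit 280) (nat_lit 257))))) (XT.nd (nat_lit 234) (nat_lit 0) (nat_lit 0) (XT.nd (nat_lit 78) (nat_lit 0) (nat_lit 0) (XT.lf (nat_lit 0) (nat_lit 973399473174) (nat_lit 152) (nat_lit 3970073825836) (nat_lit 0) (nat_lit 973093041090) (nat_lit 1) (nat_lit 5) (nat_lit 3) (nat_lit 4) (nat_lit 1) (nat_lit 4) (nat_lit 364) (nat_lit 280)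 (nat_lit 256)) (XT.nd (nat_lit 78) (nat_lit 0) (nat_lit 0) (XT.lf (nat_lit 0) (nat_lit 1120621648605) (nat_lit 152) (nat_lit 4562926781526) (nat_lit 0) (nat_lit 1120313769674) (nat_lit 1) (nat_lit 5) (nat_lit 3) (nat_lit 4) (nat_lit 1) (nat_lit 4) (nat_lit 365) (nat_lit 280) (nat_lit 255)) (XT.lf (nat_lit 0) (nat_lit 1289917075483) (nat_lit 152) (nat_lit 5244728936659) (nat_lit 0) (nat_lit 1289607938424) (nat_lit 1) (nat_lit 5) (nat_lit 3) (nat_lit 4) (nat_lit 1) (nat_lit 4) (nat_lit 366) (nat_lit 280) (nat_lit 254)))) (XT.nd (nat_lit 78) (nat_lit 0) (nat_lit 0) (XT.lf (nat_lit 0) (nat_lit 1484598055639) (nat_lit 152) (nat_lit 6028819898618) (nat_lit 0) (nat_lit 1484287824556) (nat_lit 1) (nat_lit 5) (nat_lit 3) (nat_lit 4) (nat_lit 1) (nat_lit 4) (nat_lit 367) (nat_lit 280) (nat_lit 253)) (XT.nd (nat_lit 78) (nat_lit 0) (nat_lit 0) (XT.lf (nat_lit 0) (nat_lit 1708473564771) (nat_lit 152)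 (nat_lit 6930540577528) (nat_lit 0) (nat_lit 1708162382362) (nat_lit 1) (nat_lit 5) (nat_lit 3) (nat_lit 4) (nat_lit 1) (nat_lit 4) (nat_lit 368) (nat_lit 280) (nat_lit 252)) (XT.lf (nat_lit 0) (nat_lit 1965923775883) (nat_lit 152) (nat_lit 7967533334498) (nat_lit 0) (nat_lit 1965611766235) (nat_lit 1) (nat_lit 5) (nat_lit 3) (nat_lit 4) (nat_lit 1) (nat_lit 4) (nat_lit 369) (nat_lit 280) (nat_lit 251)))))) (XT.nd (nat_lit 390) (nat_lit 0) (nat_lit 0) (XT.nd (nat_lit 156) (nat_lit 0) (nat_lit 0) (XT.nd (nat_lit 78) (nat_lit 0) (nat_lit 0) (XT.lf (nat_lit 0) (nat_lit 2261985758324) (nat_lit 152) (nat_lit 9160087158253) (nat_lit 0) (nat_lit 2261673029338) (nat_lit 1) (nat_lit 5) (nat_lit 3) (nat_lit 4) (nat_lit 1) (nat_lit 4) (nat_lit 370) (nat_lit 280) (nat_lit 250)) (XT.lf (nat_lit 0) (nat_lit 2602452029142) (nat_lit 152) (nat_lit 10531534623603) (nat_lit 0) (nat_lit 2602138674643) (nat_lit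 1) (nat_lit 5) (nat_lit 3) (nat_lit 4) (nat_lit 1) (nat_lit 4) (nat_lit 371) (nat_lit 280) (nat_lit 249))) (XT.nd (nat_lit 78) (nat_lit 0) (nat_lit 0) (XT.lf (nat_lit 0) (nat_lit 2993983884938) (nat_lit 152) (nat_lit 12108708398350) (nat_lit 0) (nat_lit 2993669986517) (nat_lit 1) (nat_lit 5) (nat_lit 3) (nat_lit 4) (nat_lit 1) (nat_lit 4) (nat_lit 372) (nat_lit 280) (nat_lit 248)) (XT.nd (nat_lit 78) (nat_lit 0) (nat_lit 0) (XT.lf (nat_lit 0) (nat_lit 3444241731589) (nat_lit 152) (nat_lit 13922466230261) (nat_lit 0) (nat_lit 3443927360190) (nat_lit 1) (nat_lit 5) (nat_lit 3) (nat_lit 4) (nat_lit 1) (nat_lit 4) (nat_lit 373) (nat_lit 280) (nat_lit 247)) (XT.lf (nat_lit 0) (nat_lit 3962034961744) (nat_lit 152) (nat_lit 16008294685612) (nat_lit 0) (nat_lit 3961720179062) (nat_lit 1) (nat_lit 5) (nat_lit 3) (nat_lit 4) (nat_lit 1) (nat_lit 4) (nat_lit 374) (nat_lit 280) (nat_lit 246))))) (XT.nd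 (nat_lit 234) (nat_lit 0) (nat_lit 0) (XT.nd (nat_lit 78) (nat_lit 0) (nat_lit 0) (XT.lf (nat_lit 0) (nat_lit 4557494312517) (nat_lit 152) (nat_lit 18407003451572) (nat_lit 0) (nat_lit 4557179172196) (nat_lit 1) (nat_lit 5) (nat_lit 3) (nat_lit 4) (nat_lit 1) (nat_lit 4) (nat_lit 375) (nat_lit 280) (nat_lit 245)) (XT.nd (nat_lit 78) (nat_lit 0) (nat_lit 0) (XT.lf (nat_lit 0) (nat_lit 5242270075553) (nat_lit 152) (nat_lit 21165523786607) (nat_lit 0) (nat_lit 5241954624242) (nat_lit 1) (nat_lit 5) (nat_lit 3) (nat_lit 4) (nat_lit 1) (nat_lit 4) (nat_lit 376) (nat_lit 280) (nat_lit 244)) (XT.lf (nat_lit 0) (nat_lit 6029760037520) (nat_lit 152) (nat_lit 24337826740750) (nat_lit 0) (nat_lit 6029444315783) (nat_lit 1) (nat_lit 5) (nat_lit 3) (nat_lit 4) (nat_lit 1) (nat_lit 4) (nat_lit 377) (nat_lit 280) (nat_lit 243)))) (XT.nd (nat_lit 78) (nat_lit 0) (nat_lit 0) (XT.lf (nat_lit 0) (nat_lit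 6935371610717) (nat_lit 152) (nat_lit 27985979110929) (nat_lit 0) (nat_lit 6935055653826) (nat_lit 1) (nat_lit 5) (nat_lit 3) (nat_lit 4) (nat_lit 1) (nat_lit 4) (nat_lit 378) (nat_lit 280) (nat_lit 242)) (XT.nd (nat_lit 78) (nat_lit 0) (nat_lit 0) (XT.lf (nat_lit 0) (nat_lit 7976823282445) (nat_lit 152) (nat_lit 32181357791344) (nat_lit 0) (nat_lit 7976507121074) (nat_lit 1) (nat_lit 5) (nat_lit 3) (nat_lit 4) (nat_lit 1) (nat_lit 4) (nat_lit 379) (nat_lit 280) (nat_lit 241)) (XT.lf (nat_lit 0) (nat_lit 9174491281066) (nat_lit 152) (nat_lit 37006046277915) (nat_lit 0) (nat_lit 9174174941885) (nat_lit 1) (nat_lit 5) (nat_lit 3) (nat_lit 4) (nat_lit 1) (nat_lit 4) (nat_lit 380) (nat_lit 280) (nat_lit 240))))))) (XT.nd (nat_lit 1794) (nat_lit 0) (nat_lit 0) (XT.nd (nat_lit 390) (nat_lit 0) (nat_lit 0) (XT.nd (nat_lit 156) (nat_lit 0) (nat_lit 0) (XT.nd (nat_lit 78) (nat_lit 0) (nat_lit 0)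 (XT.lf (nat_lit 0) (nat_lit 10551808241334) (nat_lit 152) (nat_lit 42554440649728) (nat_lit 0) (nat_lit 10551491747536) (nat_lit 1) (nat_lit 5) (nat_lit 3) (nat_lit 4) (nat_lit 1) (nat_lit 4) (nat_lit 381) (nat_lit 280) (nat_lit 239)) (XT.lf (nat_lit 0) (nat_lit 12135721668993) (nat_lit 152) (nat_lit 48935096448841) (nat_lit 0) (nat_lit 12135405040746) (nat_lit 1) (nat_lit 5) (nat_lit 3) (nat_lit 4) (nat_lit 1) (nat_lit 4) (nat_lit 382) (nat_lit 280) (nat_lit 238))) (XT.nd (nat_lit 78) (nat_lit 0) (nat_lit 0) (XT.lf (nat_lit 0) (nat_lit 13957221174586) (nat_lit 152) (nat_lit 56272852593061) (nat_lit 0) (nat_lit 13956904429426) (nat_lit 1) (nat_lit 5) (nat_lit 3) (nat_lit 4) (nat_lit 1) (nat_lit 4) (nat_lit 383) (nat_lit 280) (nat_lit 237)) (XT.nd (nat_lit 78) (nat_lit 0) (nat_lit 0) (XT.lf (nat_lit 0) (nat_lit 16051944791917) (nat_lit 152) (nat_lit 64711273876515) (nat_lit 0) (nat_lit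 16051627945094) (nat_lit 1) (nat_lit 5) (nat_lit 3) (nat_lit 4) (nat_lit 1) (nat_lit 4) (nat_lit 384) (nat_lit 280) (nat_lit 236)) (XT.lf (nat_lit 0) (nat_lit 18460876243933) (nat_lit 152) (nat_lit 74415459846053) (nat_lit 0) (nat_lit 18460559308707) (nat_lit 1) (nat_lit 5) (nat_lit 3) (nat_lit 4) (nat_lit 1) (nat_lit 4) (nat_lit 385) (nat_lit 280) (nat_lit 235))))) (XT.nd (nat_lit 1170) (nat_lit 0) (nat_lit 0) (XT.nd (nat_lit 78) (nat_lit 0) (nat_lit 0) (XT.lf (nat_lit 0) (nat_lit 21231146798175) (nat_lit 152) (nat_lit 85575275009775) (nat_lit 0) (nat_lit 21230829786077) (nat_lit 1) (nat_lit 5) (nat_lit 3) (nat_lit 4) (nat_lit 1) (nat_lit 4) (nat_lit 386) (nat_lit 280) (nat_lit 234)) (XT.nd (nat_lit 1014) (nat_lit 0) (nat_lit 0) (XT.lf (nat_lit 0) (nat_lit 24416957400268) (nat_lit 152) (nat_lit 98409063577406) (nat_lit 0) (nat_lit 24416640321325) (nat_lit 1) (nat_lit 5) (nat_lit 3) (nat_lit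 4) (nat_lit 1) (nat_lit 4) (nat_lit 387) (nat_lit 280) (nat_lit 233)) (XT.lf (nat_lit 0) (nat_lit 150271409426664) (nat_lit 152) (nat_lit 605404215002295) (nat_lit 0) (nat_lit 150271091974514) (nat_lit 1) (nat_lit 5) (nat_lit 3) (nat_lit 4) (nat_lit 1) (nat_lit 4) (nat_lit 400) (nat_lit 280) (nat_lit 220)))) (XT.nd (nat_lit 78) (nat_lit 0) (nat_lit 0) (XT.lf (nat_lit 0) (nat_lit 172813256358807) (nat_lit 152) (nat_lit 696212351033742) (nat_lit 0) (nat_lit 172812938897212) (nat_lit 1) (nat_lit 5) (nat_lit 3) (nat_lit 4) (nat_lit 1) (nat_lit 4) (nat_lit 401) (nat_lit 280) (nat_lit 219)) (XT.nd (nat_lit 78) (nat_lit 0) (nat_lit 0) (XT.lf (nat_lit 0) (nat_lit 198736380264989) (nat_lit 152) (nat_lit 800641707608697) (nat_lit 0) (nat_lit 198736062795177) (nat_lit 1) (nat_lit 5) (nat_lit 3) (nat_lit 4) (nat_lit 1) (nat_lit 4) (nat_lit 402) (nat_lit 280) (nat_lit 218)) (XT.lf (nat_lit 0) (nat_lit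 228547972699894) (nat_lit 152) (nat_lit 920735467790584) (nat_lit 0) (nat_lit 228547655222940) (nat_lit 1) (nat_lit 5) (nat_lit 3) (nat_lit 4) (nat_lit 1) (nat_lit 4) (nat_lit 403) (nat_lit 280) (nat_lit 217)))))) (XT.nd (nat_lit 42042) (nat_lit 0) (nat_lit 0) (XT.nd (nat_lit 41808) (nat_lit 0) (nat_lit 0) (XT.nd (nat_lit 41730) (nat_lit 0) (nat_lit 0) (XT.lf (nat_lit 0) (nat_lit 262831303950295) (nat_lit 152) (nat_lit 1058843292104699) (nat_lit 0) (nat_lit 262830986467128) (nat_lit 1) (nat_lit 5) (nat_lit 3) (nat_lit 4) (nat_lit 1) (nat_lit 4) (nat_lit 404) (nat_lit 280) (nat_lit 216)) (XT.lf (nat_lit 0) (nat_lit 4075565341) (nat_lit 152) (nat_lit 71337562522) (nat_lit 0) (nat_lit 4075565341) (nat_lit 1) (nat_lit 5) (nat_lit 3) (nat_lit 4) (nat_lit 1) (nat_lit 4) (nat_lit 338) (nat_lit 281) (nat_lit 281))) (XT.nd (nat_lit 78) (nat_lit 0) (nat_lit 0) (XT.lf (nat_lit 0) (nat_lit 13221747512)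 (nat_lit 152) (nat_lit 155842382853) (nat_lit 0) (nat_lit 13174118825) (nat_lit 1) (nat_lit 5) (nat_lit 3) (nat_lit 4) (nat_lit 1) (nat_lit 4) (nat_lit 339) (nat_lit 281) (nat_lit 280)) (XT.nd (nat_lit 78) (nat_lit 0) (nat_lit 0) (XT.lf (nat_lit 0) (nat_lit 18721302777) (nat_lit 152) (nat_lit 171684457536) (nat_lit 0) (nat_lit 18632257841) (nat_lit 1) (nat_lit 5) (nat_lit 3) (nat_lit 4) (nat_lit 1) (nat_lit 4) (nat_lit 340) (nat_lit 281) (nat_lit 279)) (XT.lf (nat_lit 0) (nat_lit 24757396471) (nat_lit 152) (nat_lit 190511302728) (nat_lit 0) (nat_lit 24632337405) (nat_lit 1) (nat_lit 5) (nat_lit 3) (nat_lit 4) (nat_lit 1) (nat_lit 4) (nat_lit 341) (nat_lit 281) (nat_lit 278))))) (XT.nd (nat_lit 234) (nat_lit 0) (nat_lit 0) (XT.nd (nat_lit 78) (nat_lit 0) (nat_lit 0) (XT.lf (nat_lit 0) (nat_lit 31448126080) (nat_lit 152) (nat_lit 212691269749) (nat_lit 0) (nat_lit 31291750380) (nat_lit 1)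 (nat_lit 5) (nat_lit 3) (nat_lit 4) (nat_lit 1) (nat_lit 4) (nat_lit 342) (nat_lit 281) (nat_lit 277)) (XT.nd (nat_lit 78) (nat_lit 0) (nat_lit 0) (XT.lf (nat_lit 0) (nat_lit 38924397182) (nat_lit 152) (nat_lit 238658314475) (nat_lit 0) (nat_lit 38740789626) (nat_lit 1) (nat_lit 5) (nat_lit 3) (nat_lit 4) (nat_lit 1) (nat_lit 4) (nat_lit 343) (nat_lit 281) (nat_lit 276)) (XT.lf (nat_lit 0) (nat_lit 47332484648) (nat_lit 152) (nat_lit 268920487781) (nat_lit 0) (nat_lit 47125197217) (nat_lit 1) (nat_lit 5) (nat_lit 3) (nat_lit 4) (nat_lit 1) (nat_lit 4) (nat_lit 344) (nat_lit 281) (nat_lit 275)))) (XT.nd (nat_lit 78) (nat_lit 0) (nat_lit 0) (XT.lf (nat_lit 0) (nat_lit 56836894536) (nat_lit 152) (nat_lit 304069875666) (nat_lit 0) (nat_lit 56609015909) (nat_lit 1) (nat_lit 5) (nat_lit 3) (nat_lit 4) (nat_lit 1) (nat_lit 4) (nat_lit 345) (nat_lit 281) (nat_lit 274)) (XT.nd (nat_lit 78) (nat_lit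 0) (nat_lit 0) (XT.lf (nat_lit 0) (nat_lit 67623582692) (nat_lit 152) (nat_lit 344794183546) (nat_lit 0) (nat_lit 67377798678) (nat_lit 1) (nat_lit 5) (nat_lit 3) (nat_lit 4) (nat_lit 1) (nat_lit 4) (nat_lit 346) (nat_lit 281) (nat_lit 273)) (XT.lf (nat_lit 0) (nat_lit 79903593015) (nat_lit 152) (nat_lit 391890191357) (nat_lit 0) (nat_lit 79642239098) (nat_lit 1) (nat_lit 5) (nat_lit 3) (nat_lit 4) (nat_lit 1) (nat_lit 4) (nat_lit 347) (nat_lit 281) (nat_lit 272))))))))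
noncomputable def xc17 : XT := (XT.nd (nat_lit 1716) (nat_lit 0) (nat_lit 0) (XT.nd (nat_lit 858) (nat_lit 0) (nat_lit 0) (XT.nd (nat_lit 390) (nat_lit 0) (nat_lit 0) (XT.nd (nat_lit 156) (nat_lit 0) (nat_lit 0) (XT.nd (nat_lit 78) (nat_lit 0) (nat_lit 0) (XT.lf (nat_lit 0) (nat_lit 93917186576) (nat_lit 152) (nat_lit 446279342731) (nat_lit 0) (nat_lit 93642293614) (nat_lit 1) (nat_lit 5) (nat_lit 3) (nat_lit 4) (nat_lit 1) (nat_lit 4) (nat_lit 348) (nat_lit 281) (nat_lit 271)) (XT.lf (nat_lit 0) (nat_lit 109938542379) (nat_lit 152) (nat_lit 509025773238) (nat_lit 0) (nat_lit 109651876335) (nat_lit 1) (nat_lit 5) (nat_lit 3) (nat_lit 4) (nat_lit 1) (nat_lit 4) (nat_lit 349) (nat_lit 281) (nat_lit 270))) (XT.nd (nat_lit 78) (nat_lit 0) (nat_lit 0) (XT.lf (nat_lit 0) (nat_lit 128281121735) (nat_lit 152) (nat_lit 581357130431) (nat_lit 0) (nat_lit 127984218227) (nat_lit 1) (nat_lit 5) (nat_lit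 3) (nat_lit 4) (nat_lit 1) (nat_lit 4) (nat_lit 350) (nat_lit 281) (nat_lit 269)) (XT.nd (nat_lit 78) (nat_lit 0) (nat_lit 0) (XT.lf (nat_lit 0) (nat_lit 149303801195) (nat_lit 152) (nat_lit 664688593038) (nat_lit 0) (nat_lit 148997995545) (nat_lit 1) (nat_lit 5) (nat_lit 3) (nat_lit 4) (nat_lit 1) (nat_lit 4) (nat_lit 351) (nat_lit 281) (nat_lit 268)) (XT.lf (nat_lit 0) (nat_lit 173417894053) (nat_lit 152) (nat_lit 760650559241) (nat_lit 0) (nat_lit 173104347410) (nat_lit 1) (nat_lit 5) (nat_lit 3) (nat_lit 4) (nat_lit 1) (nat_lit 4) (nat_lit 352) (nat_lit 281) (nat_lit 267))))) (XT.nd (nat_lit 234) (nat_lit 0) (nat_lit 0) (XT.nd (nat_lit 78) (nat_lit 0) (nat_lit 0) (XT.lf (nat_lit 0) (nat_lit 201095197779) (nat_lit 152) (nat_lit 871120545768) (nat_lit 0) (nat_lit 200774919837) (nat_lit 1) (nat_lit 5) (nat_lit 3) (nat_lit 4) (nat_lit 1) (nat_lit 4) (nat_lit 353) (nat_lit 281) (nat_lit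 266)) (XT.nd (nat_lit 78) (nat_lit 0) (nat_lit 0) (XT.lf (nat_lit 0) (nat_lit 232877224836) (nat_lit 152) (nat_lit 998259921923) (nat_lit 0) (nat_lit 232551093591) (nat_lit 1) (nat_lit 5) (nat_lit 3) (nat_lit 4) (nat_lit 1) (nat_lit 4) (nat_lit 354) (nat_lit 281) (nat_lit 265)) (XT.lf (nat_lit 0) (nat_lit 269385797492) (nat_lit 152) (nat_lit 1144556197239) (nat_lit 0) (nat_lit 269054576419) (nat_lit 1) (nat_lit 5) (nat_lit 3) (nat_lit 4) (nat_lit 1) (nat_lit 4) (nat_lit 355) (nat_lit 281) (nat_lit 264)))) (XT.nd (nat_lit 78) (nat_lit 0) (nat_lit 0) (XT.lf (nat_lit 0) (nat_lit 311335213910) (nat_lit 152) (nat_lit 1312871690145) (nat_lit 0) (nat_lit 310999566899) (nat_lit 1) (nat_lit 5) (nat_lit 3) (nat_lit 4) (nat_lit 1) (nat_lit 4) (nat_lit 356) (nat_lit 281) (nat_lit 263)) (XT.nd (nat_lit 78) (nat_lit 0) (nat_lit 0) (XT.lf (nat_lit 0) (nat_lit 359546223539) (nat_lit 152) (nat_lit 1506499529851)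 (nat_lit 0) (nat_lit 359206727886) (nat_lit 1) (nat_lit 5) (nat_lit 3) (nat_lit 4) (nat_lit 1) (nat_lit 4) (nat_lit 357) (nat_lit 281) (nat_lit 262)) (XT.lf (nat_lit 0) (nat_lit 414962085265) (nat_lit 152) (nat_lit 1729228087133) (nat_lit 0) (nat_lit 414619242967) (nat_lit 1) (nat_lit 5) (nat_lit 3) (nat_lit 4) (nat_lit 1) (nat_lit 4) (nat_lit 358) (nat_lit 281) (nat_lit 261)))))) (XT.nd (nat_lit 390) (nat_lit 0) (nat_lit 0) (XT.nd (nat_lit 156) (nat_lit 0) (nat_lit 0) (XT.nd (nat_lit 78) (nat_lit 0) (nat_lit 0) (XT.lf (nat_lit 0) (nat_lit 478667022469) (nat_lit 152) (nat_lit 1985415094634) (nat_lit 0) (nat_lit 478321270045) (nat_lit 1) (nat_lit 5) (nat_lit 3) (nat_lit 4) (nat_lit 1) (nat_lit 4) (nat_lit 359) (nat_lit 281) (nat_lit 260)) (XT.lf (nat_lit 0) (nat_lit 551907436096) (nat_lit 152) (nat_lit 2280072906849) (nat_lit 0) (nat_lit 551559153128) (nat_lit 1) (nat_lit 5) (nat_lit 3)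 (nat_lit 4) (nat_lit 1) (nat_lit 4) (nat_lit 360) (nat_lit 281) (nat_lit 259))) (XT.nd (nat_lit 78) (nat_lit 0) (nat_lit 0) (XT.lf (nat_lit 0) (nat_lit 636116290761) (nat_lit 152) (nat_lit 2618966567930) (nat_lit 0) (nat_lit 635765807319) (nat_lit 1) (nat_lit 5) (nat_lit 3) (nat_lit 4) (nat_lit 1) (nat_lit 4) (nat_lit 361) (nat_lit 281) (nat_lit 258)) (XT.nd (nat_lit 78) (nat_lit 0) (nat_lit 0) (XT.lf (nat_lit 0) (nat_lit 732941151011) (nat_lit 152) (nat_lit 3008726606028) (nat_lit 0) (nat_lit 732588754114) (nat_lit 1) (nat_lit 5) (nat_lit 3) (nat_lit 4) (nat_lit 1) (nat_lit 4) (nat_lit 362) (nat_lit 281) (nat_lit 257)) (XT.lf (nat_lit 0) (nat_lit 844276416286) (nat_lit 152) (nat_lit 3456978761018) (nat_lit 0) (nat_lit 843922355515) (nat_lit 1) (nat_lit 5) (nat_lit 3) (nat_lit 4) (nat_lit 1) (nat_lit 4) (nat_lit 363) (nat_lit 281) (nat_lit 256))))) (XT.nd (nat_lit 234) (nat_lit 0) (nat_lit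 0) (XT.nd (nat_lit 78) (nat_lit 0) (nat_lit 0) (XT.lf (nat_lit 0) (nat_lit 972300385255) (nat_lit 152) (nat_lit 3972493183761) (nat_lit 0) (nat_lit 971944877637) (nat_lit 1) (nat_lit 5) (nat_lit 3) (nat_lit 4) (nat_lit 1) (nat_lit 4) (nat_lit 364) (nat_lit 281) (nat_lit 255)) (XT.nd (nat_lit 78) (nat_lit 0) (nat_lit 0) (XT.lf (nat_lit 0) (nat_lit 1119517874701) (nat_lit 152) (nat_lit 4565356026004) (nat_lit 0) (nat_lit 1119161108956) (nat_lit 1) (nat_lit 5) (nat_lit 3) (nat_lit 4) (nat_lit 1) (nat_lit 4) (nat_lit 365) (nat_lit 281) (nat_lit 254)) (XT.lf (nat_lit 0) (nat_lit 1288809226810) (nat_lit 152) (nat_lit 5247166778139) (nat_lit 0) (nat_lit 1288451367040) (nat_lit 1) (nat_lit 5) (nat_lit 3) (nat_lit 4) (nat_lit 1) (nat_lit 4) (nat_lit 366) (nat_lit 281) (nat_lit 253)))) (XT.nd (nat_lit 78) (nat_lit 0) (nat_lit 0) (XT.lf (nat_lit 0) (nat_lit 1483486663688) (nat_lit 152) (nat_lit 6031265215753)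 (nat_lit 0) (nat_lit 1483127852593) (nat_lit 1) (nat_lit 5) (nat_lit 3) (nat_lit 4) (nat_lit 1) (nat_lit 4) (nat_lit 367) (nat_lit 281) (nat_lit 252)) (XT.nd (nat_lit 78) (nat_lit 0) (nat_lit 0) (XT.lf (nat_lit 0) (nat_lit 1707359091708) (nat_lit 152) (nat_lit 6932992395232) (nat_lit 0) (nat_lit 1706999453374) (nat_lit 1) (nat_lit 5) (nat_lit 3) (nat_lit 4) (nat_lit 1) (nat_lit 4) (nat_lit 368) (nat_lit 281) (nat_lit 251)) (XT.lf (nat_lit 0) (nat_lit 1964806623594) (nat_lit 152) (nat_lit 7969990804872) (nat_lit 0) (nat_lit 1964446265920) (nat_lit 1) (nat_lit 5) (nat_lit 3) (nat_lit 4) (nat_lit 1) (nat_lit 4) (nat_lit 369) (nat_lit 281) (nat_lit 250))))))) (XT.nd (nat_lit 858) (nat_lit 0) (nat_lit 0) (XT.nd (nat_lit 390) (nat_lit 0) (nat_lit 0) (XT.nd (nat_lit 156) (nat_lit 0) (nat_lit 0) (XT.nd (nat_lit 78) (nat_lit 0) (nat_lit 0) (XT.lf (nat_lit 0) (nat_lit 2260866276272) (nat_lit 152)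 (nat_lit 9162549543990) (nat_lit 0) (nat_lit 2260505293087) (nat_lit 1) (nat_lit 5) (nat_lit 3) (nat_lit 4) (nat_lit 1) (nat_lit 4) (nat_lit 370) (nat_lit 281) (nat_lit 249)) (XT.lf (nat_lit 0) (nat_lit 2601330521209) (nat_lit 152) (nat_lit 10534001283571) (nat_lit 0) (nat_lit 2600968994100) (nat_lit 1) (nat_lit 5) (nat_lit 3) (nat_lit 4) (nat_lit 1) (nat_lit 4) (nat_lit 371) (nat_lit 281) (nat_lit 248))) (XT.nd (nat_lit 78) (nat_lit 0) (nat_lit 0) (XT.lf (nat_lit 0) (nat_lit 2992860615370) (nat_lit 152) (nat_lit 12111178775040) (nat_lit 0) (nat_lit 2992498615285) (nat_lit 1) (nat_lit 5) (nat_lit 3) (nat_lit 4) (nat_lit 1) (nat_lit 4) (nat_lit 372) (nat_lit 281) (nat_lit 247)) (XT.nd (nat_lit 78) (nat_lit 0) (nat_lit 0) (XT.lf (nat_lit 0) (nat_lit 3443116930164) (nat_lit 152) (nat_lit 13924939838882) (nat_lit 0) (nat_lit 3442754518794) (nat_lit 1) (nat_lit 5) (nat_lit 3) (nat_lit 4) (nat_lit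 1) (nat_lit 4) (nat_lit 373) (nat_lit 281) (nat_lit 246)) (XT.lf (nat_lit 0) (nat_lit 3960908828270) (nat_lit 152) (nat_lit 16010771104608) (nat_lit 0) (nat_lit 3960546059262) (nat_lit 1) (nat_lit 5) (nat_lit 3) (nat_lit 4) (nat_lit 1) (nat_lit 4) (nat_lit 374) (nat_lit 281) (nat_lit 245))))) (XT.nd (nat_lit 234) (nat_lit 0) (nat_lit 0) (XT.nd (nat_lit 78) (nat_lit 0) (nat_lit 0) (XT.lf (nat_lit 0) (nat_lit 4556367020739) (nat_lit 152) (nat_lit 18409482314374) (nat_lit 0) (nat_lit 4556003940742) (nat_lit 1) (nat_lit 5) (nat_lit 3) (nat_lit 4) (nat_lit 1) (nat_lit 4) (nat_lit 375) (nat_lit 281) (nat_lit 244)) (XT.nd (nat_lit 78) (nat_lit 0) (nat_lit 0) (XT.lf (nat_lit 0) (nat_lit 5241141776554) (nat_lit 152) (nat_lit 21168004774456) (nat_lit 0) (nat_lit 5240778426131) (nat_lit 1) (nat_lit 5) (nat_lit 3) (nat_lit 4) (nat_lit 1) (nat_lit 4) (nat_lit 376) (nat_lit 281) (nat_lit 243)) (XT.lf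 (nat_lit 0) (nat_lit 6028630862677) (nat_lit 152) (nat_lit 24340309576466) (nat_lit 0) (nat_lit 6028267277100) (nat_lit 1) (nat_lit 5) (nat_lit 3) (nat_lit 4) (nat_lit 1) (nat_lit 4) (nat_lit 377) (nat_lit 281) (nat_lit 242)))) (XT.nd (nat_lit 78) (nat_lit 0) (nat_lit 0) (XT.lf (nat_lit 0) (nat_lit 6934241674270) (nat_lit 152) (nat_lit 27988463553486) (nat_lit 0) (nat_lit 6933877884212) (nat_lit 1) (nat_lit 5) (nat_lit 3) (nat_lit 4) (nat_lit 1) (nat_lit 4) (nat_lit 378) (nat_lit 281) (nat_lit 241)) (XT.nd (nat_lit 78) (nat_lit 0) (nat_lit 0) (XT.lf (nat_lit 0) (nat_lit 7975692683735) (nat_lit 152) (nat_lit 32183843631154) (nat_lit 0) (nat_lit 7975328715868) (nat_lit 1) (nat_lit 5) (nat_lit 3) (nat_lit 4) (nat_lit 1) (nat_lit 4) (nat_lit 379) (nat_lit 281) (nat_lit 240)) (XT.lf (nat_lit 0) (nat_lit 9173360106474) (nat_lit 152) (nat_lit 37008533332729) (nat_lit 0) (nat_lit 9172995983989)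 (nat_lit 1) (nat_lit 5) (nat_lit 3) (nat_lit 4) (nat_lit 1) (nat_lit 4) (nat_lit 380) (nat_lit 281) (nat_lit 239)))))) (XT.nd (nat_lit 390) (nat_lit 0) (nat_lit 0) (XT.nd (nat_lit 156) (nat_lit 0) (nat_lit 0) (XT.nd (nat_lit 78) (nat_lit 0) (nat_lit 0) (XT.lf (nat_lit 0) (nat_lit 10550676565975) (nat_lit 152) (nat_lit 42556928761066) (nat_lit 0) (nat_lit 10550312309041) (nat_lit 1) (nat_lit 5) (nat_lit 3) (nat_lit 4) (nat_lit 1) (nat_lit 4) (nat_lit 381) (nat_lit 281) (nat_lit 238)) (XT.lf (nat_lit 0) (nat_lit 12134589558185) (nat_lit 152) (nat_lit 48937585478895) (nat_lit 0) (nat_lit 12134225184339) (nat_lit 1) (nat_lit 5) (nat_lit 3) (nat_lit 4) (nat_lit 1) (nat_lit 4) (nat_lit 382) (nat_lit 281) (nat_lit 237))) (XT.nd (nat_lit 78) (nat_lit 0) (nat_lit 0) (XT.lf (nat_lit 0) (nat_lit 13956088685126) (nat_lit 152) (nat_lit 56275342422000) (nat_lit 0) (nat_lit 13955724209617) (nat_lit 1)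 (nat_lit 5) (nat_lit 3) (nat_lit 4) (nat_lit 1) (nat_lit 4) (nat_lit 383) (nat_lit 281) (nat_lit 236)) (XT.nd (nat_lit 78) (nat_lit 0) (nat_lit 0) (XT.lf (nat_lit 0) (nat_lit 16050811973195) (nat_lit 152) (nat_lit 64713764400136) (nat_lit 0) (nat_lit 16050447409282) (nat_lit 1) (nat_lit 5) (nat_lit 3) (nat_lit 4) (nat_lit 1) (nat_lit 4) (nat_lit 384) (nat_lit 281) (nat_lit 235)) (XT.lf (nat_lit 0) (nat_lit 18459743138896) (nat_lit 152) (nat_lit 74417950973745) (nat_lit 0) (nat_lit 18459378498112) (nat_lit 1) (nat_lit 5) (nat_lit 3) (nat_lit 4) (nat_lit 1) (nat_lit 4) (nat_lit 385) (nat_lit 281) (nat_lit 234))))) (XT.nd (nat_lit 1170) (nat_lit 0) (nat_lit 0) (XT.nd (nat_lit 78) (nat_lit 0) (nat_lit 0) (XT.lf (nat_lit 0) (nat_lit 21230013444168) (nat_lit 152) (nat_lit 85577766662746) (nat_lit 0) (nat_lit 21229648736539) (nat_lit 1) (nat_lit 5) (nat_lit 3) (nat_lit 4) (nat_lit 1) (nat_lit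 4) (nat_lit 386) (nat_lit 281) (nat_lit 233)) (XT.nd (nat_lit 1014) (nat_lit 0) (nat_lit 0) (XT.lf (nat_lit 0) (nat_lit 24415823829766) (nat_lit 152) (nat_lit 98411555687142) (nat_lit 0) (nat_lit 24415459064010) (nat_lit 1) (nat_lit 5) (nat_lit 3) (nat_lit 4) (nat_lit 1) (nat_lit 4) (nat_lit 387) (nat_lit 281) (nat_lit 232)) (XT.lf (nat_lit 0) (nat_lit 150270274647438) (nat_lit 152) (nat_lit 605406709662213) (nat_lit 0) (nat_lit 150269909557155) (nat_lit 1) (nat_lit 5) (nat_lit 3) (nat_lit 4) (nat_lit 1) (nat_lit 4) (nat_lit 400) (nat_lit 281) (nat_lit 219)))) (XT.nd (nat_lit 78) (nat_lit 0) (nat_lit 0) (XT.lf (nat_lit 0) (nat_lit 172812121548984) (nat_lit 152) (nat_lit 696214845758216) (nat_lit 0) (nat_lit 172811756450486) (nat_lit 1) (nat_lit 5) (nat_lit 3) (nat_lit 4) (nat_lit 1) (nat_lit 4) (nat_lit 401) (nat_lit 281) (nat_lit 218)) (XT.nd (nat_lit 78) (nat_lit 0) (nat_lit 0) (XT.lf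 (nat_lit 0) (nat_lit 198735245428559) (nat_lit 152) (nat_lit 800644202389304) (nat_lit 0) (nat_lit 198734880322918) (nat_lit 1) (nat_lit 5) (nat_lit 3) (nat_lit 4) (nat_lit 1) (nat_lit 4) (nat_lit 402) (nat_lit 281) (nat_lit 217)) (XT.lf (nat_lit 0) (nat_lit 228546837840328) (nat_lit 152) (nat_lit 920737962620004) (nat_lit 0) (nat_lit 228546472728477) (nat_lit 1) (nat_lit 5) (nat_lit 3) (nat_lit 4) (nat_lit 1) (nat_lit 4) (nat_lit 403) (nat_lit 281) (nat_lit 216))))))))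
noncomputable def xc18 : XT := (XT.nd (nat_lit 1716) (nat_lit 0) (nat_lit 0) (XT.nd (nat_lit 858) (nat_lit 0) (nat_lit 0) (XT.nd (nat_lit 390) (nat_lit 0) (nat_lit 0) (XT.nd (nat_lit 156) (nat_lit 0) (nat_lit 0) (XT.nd (nat_lit 78) (nat_lit 152) (nat_lit 0) (XT.lf (nat_lit 0) (nat_lit 59833259043) (nat_lit 76) (nat_lit 398469503) (nat_lit 76) (nat_lit 398469503) (nat_lit 3) (nat_lit 4) (nat_lit 4) (nat_lit 5) (nat_lit 4) (nat_lit 4) (nat_lit 336) (nat_lit 282) (nat_lit 282)) (XT.lf (nat_lit 0) (nat_lit 3465017556) (nat_lit 152) (nat_lit 131925063849) (nat_lit 0) (nat_lit 3410244566) (nat_lit 1) (nat_lit 5) (nat_lit 3) (nat_lit 4) (nat_lit 1) (nat_lit 4) (nat_lit 337) (nat_lit 282) (nat_lit 281))) (XT.nd (nat_lit 78) (nat_lit 0) (nat_lit 0) (XT.lf (nat_lit 0) (nat_lit 8028507298) (nat_lit 152) (nat_lit 143049398269) (nat_lit 0) (nat_lit 7926105622) (nat_lit 1) (nat_lit 5) (nat_lit 3) (nat_lit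 4) (nat_lit 1) (nat_lit 4) (nat_lit 338) (nat_lit 282) (nat_lit 280)) (XT.nd (nat_lit 78) (nat_lit 0) (nat_lit 0) (XT.lf (nat_lit 0) (nat_lit 12944866412) (nat_lit 152) (nat_lit 156542111056) (nat_lit 0) (nat_lit 12801048486) (nat_lit 1) (nat_lit 5) (nat_lit 3) (nat_lit 4) (nat_lit 1) (nat_lit 4) (nat_lit 339) (nat_lit 282) (nat_lit 279)) (XT.lf (nat_lit 0) (nat_lit 18310284532) (nat_lit 152) (nat_lit 172667190068) (nat_lit 0) (nat_lit 18130452477) (nat_lit 1) (nat_lit 5) (nat_lit 3) (nat_lit 4) (nat_lit 1) (nat_lit 4) (nat_lit 340) (nat_lit 282) (nat_lit 278))))) (XT.nd (nat_lit 234) (nat_lit 0) (nat_lit 0) (XT.nd (nat_lit 78) (nat_lit 0) (nat_lit 0) (XT.lf (nat_lit 0) (nat_lit 24229737231) (nat_lit 152) (nat_lit 191740125981) (nat_lit 0) (nat_lit 24018588542) (nat_lit 1) (nat_lit 5) (nat_lit 3) (nat_lit 4) (nat_lit 1) (nat_lit 4) (nat_lit 341) (nat_lit 282) (nat_lit 277)) (XT.nd (nat_lit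 78) (nat_lit 0) (nat_lit 0) (XT.lf (nat_lit 0) (nat_lit 30819039888) (nat_lit 152) (nat_lit 214134084933) (nat_lit 0) (nat_lit 30580659342) (nat_lit 1) (nat_lit 5) (nat_lit 3) (nat_lit 4) (nat_lit 1) (nat_lit 4) (nat_lit 342) (nat_lit 282) (nat_lit 276)) (XT.lf (nat_lit 0) (nat_lit 38207113641) (nat_lit 152) (nat_lit 240287209599) (nat_lit 0) (nat_lit 37945053220) (nat_lit 1) (nat_lit 5) (nat_lit 3) (nat_lit 4) (nat_lit 1) (nat_lit 4) (nat_lit 343) (nat_lit 282) (nat_lit 275)))) (XT.nd (nat_lit 78) (nat_lit 0) (nat_lit 0) (XT.lf (nat_lit 0) (nat_lit 46538507759) (nat_lit 152) (nat_lit 270711191548) (nat_lit 0) (nat_lit 46255856142) (nat_lit 1) (nat_lit 5) (nat_lit 3) (nat_lit 4) (nat_lit 1) (nat_lit 4) (nat_lit 344) (nat_lit 282) (nat_lit 274)) (XT.nd (nat_lit 78) (nat_lit 0) (nat_lit 0) (XT.lf (nat_lit 0) (nat_lit 55976227779) (nat_lit 152) (nat_lit 306001282602) (nat_lit 0) (nat_lit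 55675670775) (nat_lit 1) (nat_lit 5) (nat_lit 3) (nat_lit 4) (nat_lit 1) (nat_lit 4) (nat_lit 345) (nat_lit 282) (nat_lit 273)) (XT.lf (nat_lit 0) (nat_lit 66704924746) (nat_lit 152) (nat_lit 346847941063) (nat_lit 0) (nat_lit 66388797840) (nat_lit 1) (nat_lit 5) (nat_lit 3) (nat_lit 4) (nat_lit 1) (nat_lit 4) (nat_lit 346) (nat_lit 282) (nat_lit 272)))))) (XT.nd (nat_lit 390) (nat_lit 0) (nat_lit 0) (XT.nd (nat_lit 156) (nat_lit 0) (nat_lit 0) (XT.nd (nat_lit 78) (nat_lit 0) (nat_lit 0) (XT.lf (nat_lit 0) (nat_lit 78934507948) (nat_lit 152) (nat_lit 394050340684) (nat_lit 0) (nat_lit 78604841996) (nat_lit 1) (nat_lit 5) (nat_lit 3) (nat_lit 4) (nat_lit 1) (nat_lit 4) (nat_lit 347) (nat_lit 282) (nat_lit 271)) (XT.lf (nat_lit 0) (nat_lit 92904251838) (nat_lit 152) (nat_lit 448532006675) (nat_lit 0) (nat_lit 92562812804) (nat_lit 1) (nat_lit 5) (nat_lit 3) (nat_lit 4) (nat_lit 1) (nat_lit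 4) (nat_lit 348) (nat_lit 282) (nat_lit 270))) (XT.nd (nat_lit 78) (nat_lit 0) (nat_lit 0) (XT.lf (nat_lit 0) (nat_lit 108887477494) (nat_lit 152) (nat_lit 511358884675) (nat_lit 0) (nat_lit 108535800996) (nat_lit 1) (nat_lit 5) (nat_lit 3) (nat_lit 4) (nat_lit 1) (nat_lit 4) (nat_lit 349) (nat_lit 282) (nat_lit 269)) (XT.nd (nat_lit 78) (nat_lit 0) (nat_lit 0) (XT.lf (nat_lit 0) (nat_lit 127196900199) (nat_lit 152) (nat_lit 583760196210) (nat_lit 0) (nat_lit 126836321559) (nat_lit 1) (nat_lit 5) (nat_lit 3) (nat_lit 4) (nat_lit 1) (nat_lit 4) (nat_lit 350) (nat_lit 282) (nat_lit 268)) (XT.lf (nat_lit 0) (nat_lit 148190747788) (nat_lit 152) (nat_lit 667152488679) (nat_lit 0) (nat_lit 147822428155) (nat_lit 1) (nat_lit 5) (nat_lit 3) (nat_lit 4) (nat_lit 1) (nat_lit 4) (nat_lit 351) (nat_lit 282) (nat_lit 267))))) (XT.nd (nat_lit 234) (nat_lit 0) (nat_lit 0) (XT.nd (nat_lit 78) (nat_lit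 0) (nat_lit 0) (XT.lf (nat_lit 0) (nat_lit 172279769455) (nat_lit 152) (nat_lit 763167350414) (nat_lit 0) (nat_lit 171904718524) (nat_lit 1) (nat_lit 5) (nat_lit 3) (nat_lit 4) (nat_lit 1) (nat_lit 4) (nat_lit 352) (nat_lit 282) (nat_lit 266)) (XT.nd (nat_lit 78) (nat_lit 0) (nat_lit 0) (XT.lf (nat_lit 0) (nat_lit 199935272145) (nat_lit 152) (nat_lit 873683333058) (nat_lit 0) (nat_lit 199554367910) (nat_lit 1) (nat_lit 5) (nat_lit 3) (nat_lit 4) (nat_lit 1) (nat_lit 4) (nat_lit 353) (nat_lit 282) (nat_lit 265)) (XT.lf (nat_lit 0) (nat_lit 231698341779) (nat_lit 152) (nat_lit 1000862705834) (nat_lit 0) (nat_lit 231312347716) (nat_lit 1) (nat_lit 5) (nat_lit 3) (nat_lit 4) (nat_lit 1) (nat_lit 4) (nat_lit 354) (nat_lit 282) (nat_lit 264)))) (XT.nd (nat_lit 78) (nat_lit 0) (nat_lit 0) (XT.lf (nat_lit 0) (nat_lit 268190429720) (nat_lit 152) (nat_lit 1147193760821) (nat_lit 0) (nat_lit 267800009720)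 (nat_lit 1) (nat_lit 5) (nat_lit 3) (nat_lit 4) (nat_lit 1) (nat_lit 4) (nat_lit 355) (nat_lit 282) (nat_lit 263)) (XT.nd (nat_lit 78) (nat_lit 0) (nat_lit 0) (XT.lf (nat_lit 0) (nat_lit 310125511603) (nat_lit 152) (nat_lit 1315539496920) (nat_lit 0) (nat_lit 309731242960) (nat_lit 1) (nat_lit 5) (nat_lit 3) (nat_lit 4) (nat_lit 1) (nat_lit 4) (nat_lit 356) (nat_lit 282) (nat_lit 262)) (XT.lf (nat_lit 0) (nat_lit 358324056419) (nat_lit 152) (nat_lit 1509193635054) (nat_lit 0) (nat_lit 357926441132) (nat_lit 1) (nat_lit 5) (nat_lit 3) (nat_lit 4) (nat_lit 1) (nat_lit 4) (nat_lit 357) (nat_lit 282) (nat_lit 261))))))) (XT.nd (nat_lit 858) (nat_lit 0) (nat_lit 0) (XT.nd (nat_lit 390) (nat_lit 0) (nat_lit 0) (XT.nd (nat_lit 156) (nat_lit 0) (nat_lit 0) (XT.nd (nat_lit 78) (nat_lit 0) (nat_lit 0) (XT.lf (nat_lit 0) (nat_lit 413729079177) (nat_lit 152) (nat_lit 1731945060535) (nat_lit 0) (nat_lit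 413328553764) (nat_lit 1) (nat_lit 5) (nat_lit 3) (nat_lit 4) (nat_lit 1) (nat_lit 4) (nat_lit 358) (nat_lit 282) (nat_lit 260)) (XT.lf (nat_lit 0) (nat_lit 477424591192) (nat_lit 152) (nat_lit 1988151953426) (nat_lit 0) (nat_lit 477021535234) (nat_lit 1) (nat_lit 5) (nat_lit 3) (nat_lit 4) (nat_lit 1) (nat_lit 4) (nat_lit 359) (nat_lit 282) (nat_lit 259))) (XT.nd (nat_lit 78) (nat_lit 0) (nat_lit 0) (XT.lf (nat_lit 0) (nat_lit 550656809002) (nat_lit 152) (nat_lit 2282827057284) (nat_lit 0) (nat_lit 550251552571) (nat_lit 1) (nat_lit 5) (nat_lit 3) (nat_lit 4) (nat_lit 1) (nat_lit 4) (nat_lit 360) (nat_lit 282) (nat_lit 258)) (XT.nd (nat_lit 78) (nat_lit 0) (nat_lit 0) (XT.lf (nat_lit 0) (nat_lit 634858536869) (nat_lit 152) (nat_lit 2621735754576) (nat_lit 0) (nat_lit 634451366983) (nat_lit 1) (nat_lit 5) (nat_lit 3) (nat_lit 4) (nat_lit 1) (nat_lit 4) (nat_lit 361) (nat_lit 282) (nat_lit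 257)) (XT.lf (nat_lit 0) (nat_lit 731677199904) (nat_lit 152) (nat_lit 3011508867641) (nat_lit 0) (nat_lit 731268366144) (nat_lit 1) (nat_lit 5) (nat_lit 3) (nat_lit 4) (nat_lit 1) (nat_lit 4) (nat_lit 362) (nat_lit 282) (nat_lit 256))))) (XT.nd (nat_lit 234) (nat_lit 0) (nat_lit 0) (XT.nd (nat_lit 78) (nat_lit 0) (nat_lit 0) (XT.lf (nat_lit 0) (nat_lit 843007076296) (nat_lit 152) (nat_lit 3459772392168) (nat_lit 0) (nat_lit 842596795689) (nat_lit 1) (nat_lit 5) (nat_lit 3) (nat_lit 4) (nat_lit 1) (nat_lit 4) (nat_lit 363) (nat_lit 282) (nat_lit 255)) (XT.nd (nat_lit 78) (nat_lit 0) (nat_lit 0) (XT.lf (nat_lit 0) (nat_lit 971026359280) (nat_lit 152) (nat_lit 3975296701463) (nat_lit 0) (nat_lit 970614820545) (nat_lit 1) (nat_lit 5) (nat_lit 3) (nat_lit 4) (nat_lit 1) (nat_lit 4) (nat_lit 364) (nat_lit 282) (nat_lit 254)) (XT.lf (nat_lit 0) (nat_lit 1118239773957) (nat_lit 152) (nat_lit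 4568168140709) (nat_lit 0) (nat_lit 1117827141198) (nat_lit 1) (nat_lit 5) (nat_lit 3) (nat_lit 4) (nat_lit 1) (nat_lit 4) (nat_lit 365) (nat_lit 282) (nat_lit 253)))) (XT.nd (nat_lit 78) (nat_lit 0) (nat_lit 0) (XT.lf (nat_lit 0) (nat_lit 1287527582788) (nat_lit 152) (nat_lit 5249986368500) (nat_lit 0) (nat_lit 1287113998703) (nat_lit 1) (nat_lit 5) (nat_lit 3) (nat_lit 4) (nat_lit 1) (nat_lit 4) (nat_lit 366) (nat_lit 282) (nat_lit 252)) (XT.nd (nat_lit 78) (nat_lit 0) (nat_lit 0) (XT.lf (nat_lit 0) (nat_lit 1482201938555) (nat_lit 152) (nat_lit 6034091306682) (nat_lit 0) (nat_lit 1481787527231) (nat_lit 1) (nat_lit 5) (nat_lit 3) (nat_lit 4) (nat_lit 1) (nat_lit 4) (nat_lit 367) (nat_lit 282) (nat_lit 251)) (XT.lf (nat_lit 0) (nat_lit 1706071687348) (nat_lit 152) (nat_lit 6935824138831) (nat_lit 0) (nat_lit 1705656556685) (nat_lit 1) (nat_lit 5) (nat_lit 3) (nat_lit 4) (nat_lit 1) (nat_lit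 4) (nat_lit 368) (nat_lit 282) (nat_lit 250)))))) (XT.nd (nat_lit 390) (nat_lit 0) (nat_lit 0) (XT.nd (nat_lit 156) (nat_lit 0) (nat_lit 0) (XT.nd (nat_lit 78) (nat_lit 0) (nat_lit 0) (XT.lf (nat_lit 0) (nat_lit 1963516889471) (nat_lit 152) (nat_lit 7972827463834) (nat_lit 0) (nat_lit 1963101133296) (nat_lit 1) (nat_lit 5) (nat_lit 3) (nat_lit 4) (nat_lit 1) (nat_lit 4) (nat_lit 369) (nat_lit 282) (nat_lit 249)) (XT.lf (nat_lit 0) (nat_lit 2259574516269) (nat_lit 152) (nat_lit 9165390477183) (nat_lit 0) (nat_lit 2259158216171) (nat_lit 1) (nat_lit 5) (nat_lit 3) (nat_lit 4) (nat_lit 1) (nat_lit 4) (nat_lit 370) (nat_lit 282) (nat_lit 248))) (XT.nd (nat_lit 78) (nat_lit 0) (nat_lit 0) (XT.lf (nat_lit 0) (nat_lit 2600036999570) (nat_lit 152) (nat_lit 10536845933485) (nat_lit 0) (nat_lit 2599620226495) (nat_lit 1) (nat_lit 5) (nat_lit 3) (nat_lit 4) (nat_lit 1) (nat_lit 4) (nat_lit 371) (nat_lit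 282) (nat_lit 247)) (XT.nd (nat_lit 78) (nat_lit 0) (nat_lit 0) (XT.lf (nat_lit 0) (nat_lit 2991565561875) (nat_lit 152) (nat_lit 12114026656885) (nat_lit 0) (nat_lit 2991148377516) (nat_lit 1) (nat_lit 5) (nat_lit 3) (nat_lit 4) (nat_lit 1) (nat_lit 4) (nat_lit 372) (nat_lit 282) (nat_lit 246)) (XT.lf (nat_lit 0) (nat_lit 3441820544619) (nat_lit 152) (nat_lit 13927790531103) (nat_lit 0) (nat_lit 3441403002622) (nat_lit 1) (nat_lit 5) (nat_lit 3) (nat_lit 4) (nat_lit 1) (nat_lit 4) (nat_lit 373) (nat_lit 282) (nat_lit 245))))) (XT.nd (nat_lit 234) (nat_lit 0) (nat_lit 0) (XT.nd (nat_lit 78) (nat_lit 0) (nat_lit 0) (XT.lf (nat_lit 0) (nat_lit 3959611284422) (nat_lit 152) (nat_lit 16013624240634) (nat_lit 0) (nat_lit 3959193431434) (nat_lit 1) (nat_lit 5) (nat_lit 3) (nat_lit 4) (nat_lit 1) (nat_lit 4) (nat_lit 374) (nat_lit 282) (nat_lit 244)) (XT.nd (nat_lit 78) (nat_lit 0) (nat_lit 0)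 (XT.lf (nat_lit 0) (nat_lit 4555068469670) (nat_lit 152) (nat_lit 18412337575447) (nat_lit 0) (nat_lit 4554650346257) (nat_lit 1) (nat_lit 5) (nat_lit 3) (nat_lit 4) (nat_lit 1) (nat_lit 4) (nat_lit 375) (nat_lit 282) (nat_lit 243)) (XT.lf (nat_lit 0) (nat_lit 5239842349641) (nat_lit 152) (nat_lit 21170861883397) (nat_lit 0) (nat_lit 5239423991075) (nat_lit 1) (nat_lit 5) (nat_lit 3) (nat_lit 4) (nat_lit 1) (nat_lit 4) (nat_lit 376) (nat_lit 282) (nat_lit 242)))) (XT.nd (nat_lit 78) (nat_lit 0) (nat_lit 0) (XT.lf (nat_lit 0) (nat_lit 6027330674160) (nat_lit 152) (nat_lit 24343168292248) (nat_lit 0) (nat_lit 6026912111113) (nat_lit 1) (nat_lit 5) (nat_lit 3) (nat_lit 4) (nat_lit 1) (nat_lit 4) (nat_lit 377) (nat_lit 282) (nat_lit 241)) (XT.nd (nat_lit 78) (nat_lit 0) (nat_lit 0) (XT.lf (nat_lit 0) (nat_lit 6932940823489) (nat_lit 152) (nat_lit 27991323666522) (nat_lit 0) (nat_lit 6932522082632)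 (nat_lit 1) (nat_lit 5) (nat_lit 3) (nat_lit 4) (nat_lit 1) (nat_lit 4) (nat_lit 378) (nat_lit 282) (nat_lit 240)) (XT.lf (nat_lit 0) (nat_lit 7974391257072) (nat_lit 152) (nat_lit 32186704959193) (nat_lit 0) (nat_lit 7973972361598) (nat_lit 1) (nat_lit 5) (nat_lit 3) (nat_lit 4) (nat_lit 1) (nat_lit 4) (nat_lit 379) (nat_lit 282) (nat_lit 239))))))))
noncomputable def xc19 : XT := (XT.nd (nat_lit 44226) (nat_lit 0) (nat_lit 0) (XT.nd (nat_lit 43368) (nat_lit 0) (nat_lit 0) (XT.nd (nat_lit 390) (nat_lit 0) (nat_lit 0) (XT.nd (nat_lit 156) (nat_lit 0) (nat_lit 0) (XT.nd (nat_lit 78) (nat_lit 0) (nat_lit 0) (XT.lf (nat_lit 0) (nat_lit 9172058179044) (nat_lit 152) (nat_lit 37011395717291) (nat_lit 0) (nat_lit 9171639149121) (nat_lit 1) (nat_lit 5) (nat_lit 3) (nat_lit 4) (nat_lit 1) (nat_lit 4) (nat_lit 380) (nat_lit 282) (nat_lit 238)) (XT.lf (nat_lit 0) (nat_lit 10549374203096) (nat_lit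 152) (nat_lit 42559792064346) (nat_lit 0) (nat_lit 10548955056260) (nat_lit 1) (nat_lit 5) (nat_lit 3) (nat_lit 4) (nat_lit 1) (nat_lit 4) (nat_lit 381) (nat_lit 282) (nat_lit 237))) (XT.nd (nat_lit 78) (nat_lit 0) (nat_lit 0) (XT.lf (nat_lit 0) (nat_lit 12133286816655) (nat_lit 152) (nat_lit 48940449581059) (nat_lit 0) (nat_lit 12132867568156) (nat_lit 1) (nat_lit 5) (nat_lit 3) (nat_lit 4) (nat_lit 1) (nat_lit 4) (nat_lit 382) (nat_lit 282) (nat_lit 236)) (XT.nd (nat_lit 78) (nat_lit 0) (nat_lit 0) (XT.lf (nat_lit 0) (nat_lit 13954785614334) (nat_lit 152) (nat_lit 56278207218845) (nat_lit 0) (nat_lit 13954366277432) (nat_lit 1) (nat_lit 5) (nat_lit 3) (nat_lit 4) (nat_lit 1) (nat_lit 4) (nat_lit 383) (nat_lit 282) (nat_lit 235)) (XT.lf (nat_lit 0) (nat_lit 16049508616087) (nat_lit 152) (nat_lit 64716629801052) (nat_lit 0) (nat_lit 16049089202313) (nat_lit 1) (nat_lit 5) (nat_lit 3) (nat_lit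 4) (nat_lit 1) (nat_lit 4) (nat_lit 384) (nat_lit 282) (nat_lit 234))))) (XT.nd (nat_lit 1248) (nat_lit 0) (nat_lit 0) (XT.nd (nat_lit 78) (nat_lit 0) (nat_lit 0) (XT.lf (nat_lit 0) (nat_lit 18458439532819) (nat_lit 152) (nat_lit 74420816899941) (nat_lit 0) (nat_lit 18458020052200) (nat_lit 1) (nat_lit 5) (nat_lit 3) (nat_lit 4) (nat_lit 1) (nat_lit 4) (nat_lit 385) (nat_lit 282) (nat_lit 233)) (XT.nd (nat_lit 1092) (nat_lit 0) (nat_lit 0) (XT.lf (nat_lit 0) (nat_lit 21228709621596) (nat_lit 152) (nat_lit 85580633045707) (nat_lit 0) (nat_lit 21228290082850) (nat_lit 1) (nat_lit 5) (nat_lit 3) (nat_lit 4) (nat_lit 1) (nat_lit 4) (nat_lit 386) (nat_lit 282) (nat_lit 232)) (XT.lf (nat_lit 0) (nat_lit 150268969585543) (nat_lit 152) (nat_lit 605409578659912) (nat_lit 0) (nat_lit 150268549714056) (nat_lit 1) (nat_lit 5) (nat_lit 3) (nat_lit 4) (nat_lit 1) (nat_lit 4) (nat_lit 400) (nat_lit 282)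 (nat_lit 218)))) (XT.nd (nat_lit 78) (nat_lit 0) (nat_lit 0) (XT.lf (nat_lit 0) (nat_lit 172810816460483) (nat_lit 152) (nat_lit 696217714812047) (nat_lit 0) (nat_lit 172810396581854) (nat_lit 1) (nat_lit 5) (nat_lit 3) (nat_lit 4) (nat_lit 1) (nat_lit 4) (nat_lit 401) (nat_lit 282) (nat_lit 217)) (XT.nd (nat_lit 41574) (nat_lit 0) (nat_lit 152) (XT.lf (nat_lit 0) (nat_lit 198733940316923) (nat_lit 152) (nat_lit 800647071491948) (nat_lit 0) (nat_lit 198733520432080) (nat_lit 1) (nat_lit 5) (nat_lit 3) (nat_lit 4) (nat_lit 1) (nat_lit 4) (nat_lit 402) (nat_lit 282) (nat_lit 216)) (XT.lf (nat_lit 0) (nat_lit 38074074168) (nat_lit 76) (nat_lit 4142420443) (nat_lit 76) (nat_lit 4142420443) (nat_lit 3) (nat_lit 4) (nat_lit 4) (nat_lit 5) (nat_lit 4) (nat_lit 4) (nat_lit 334) (nat_lit 283) (nat_lit 283)))))) (XT.nd (nat_lit 390) (nat_lit 0) (nat_lit 0) (XT.nd (nat_lit 156) (nat_lit 152) (nat_lit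 0) (XT.nd (nat_lit 78) (nat_lit 0) (nat_lit 0) (XT.lf (nat_lit 0) (nat_lit 96579723115) (nat_lit 76) (nat_lit 4736252452) (nat_lit 76) (nat_lit 4663815173) (nat_lit 3) (nat_lit 4) (nat_lit 4) (nat_lit 5) (nat_lit 4) (nat_lit 4) (nat_lit 335) (nat_lit 283) (nat_lit 282)) (XT.lf (nat_lit 0) (nat_lit 119310417197) (nat_lit 76) (nat_lit 1055463704) (nat_lit 76) (nat_lit 920037487) (nat_lit 3) (nat_lit 4) (nat_lit 4) (nat_lit 5) (nat_lit 4) (nat_lit 4) (nat_lit 336) (nat_lit 283) (nat_lit 281))) (XT.nd (nat_lit 78) (nat_lit 0) (nat_lit 0) (XT.lf (nat_lit 0) (nat_lit 3146604291) (nat_lit 152) (nat_lit 132729751283) (nat_lit 0) (nat_lit 2981213676) (nat_lit 1) (nat_lit 5) (nat_lit 3) (nat_lit 4) (nat_lit 1) (nat_lit 4) (nat_lit 337) (nat_lit 283) (nat_lit 280)) (XT.nd (nat_lit 78) (nat_lit 0) (nat_lit 0) (XT.lf (nat_lit 0) (nat_lit 7555836317) (nat_lit 152) (nat_lit 144179540681) (nat_lit 0)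 (nat_lit 7349029453) (nat_lit 1) (nat_lit 5) (nat_lit 3) (nat_lit 4) (nat_lit 1) (nat_lit 4) (nat_lit 338) (nat_lit 283) (nat_lit 279)) (XT.lf (nat_lit 0) (nat_lit 12338058286) (nat_lit 152) (nat_lit 157955257797) (nat_lit 0) (nat_lit 12095237293) (nat_lit 1) (nat_lit 5) (nat_lit 3) (nat_lit 4) (nat_lit 1) (nat_lit 4) (nat_lit 339) (nat_lit 283) (nat_lit 278))))) (XT.nd (nat_lit 234) (nat_lit 0) (nat_lit 0) (XT.nd (nat_lit 78) (nat_lit 0) (nat_lit 0) (XT.lf (nat_lit 0) (nat_lit 17586835412) (nat_lit 152) (nat_lit 174326427529) (nat_lit 0) (nat_lit 17312697784) (nat_lit 1) (nat_lit 5) (nat_lit 3) (nat_lit 4) (nat_lit 1) (nat_lit 4) (nat_lit 340) (nat_lit 283) (nat_lit 277)) (XT.nd (nat_lit 78) (nat_lit 0) (nat_lit 0) (XT.lf (nat_lit 0) (nat_lit 23404861158) (nat_lit 152) (nat_lit 193613355373) (nat_lit 0) (nat_lit 23103491674) (nat_lit 1) (nat_lit 5) (nat_lit 3) (nat_lit 4) (nat_lit 1)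 (nat_lit 4) (nat_lit 341) (nat_lit 283) (nat_lit 276)) (XT.lf (nat_lit 0) (nat_lit 29905966465) (nat_lit 152) (nat_lit 216193394265) (nat_lit 0) (nat_lit 29580917106) (nat_lit 1) (nat_lit 5) (nat_lit 3) (nat_lit 4) (nat_lit 1) (nat_lit 4) (nat_lit 342) (nat_lit 283) (nat_lit 275)))) (XT.nd (nat_lit 78) (nat_lit 0) (nat_lit 0) (XT.lf (nat_lit 0) (nat_lit 37217346870) (nat_lit 152) (nat_lit 242508327575) (nat_lit 0) (nat_lit 36871706315) (nat_lit 1) (nat_lit 5) (nat_lit 3) (nat_lit 4) (nat_lit 1) (nat_lit 4) (nat_lit 343) (nat_lit 283) (nat_lit 274)) (XT.nd (nat_lit 78) (nat_lit 0) (nat_lit 0) (XT.lf (nat_lit 0) (nat_lit 45482051120) (nat_lit 152) (nat_lit 273073012693) (nat_lit 0) (nat_lit 45118505178) (nat_lit 1) (nat_lit 5) (nat_lit 3) (nat_lit 4) (nat_lit 1) (nat_lit 4) (nat_lit 344) (nat_lit 283) (nat_lit 273)) (XT.lf (nat_lit 0) (nat_lit 54861779952) (nat_lit 152) (nat_lit 308485454327)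 (nat_lit 0) (nat_lit 54482664108) (nat_lit 1) (nat_lit 5) (nat_lit 3) (nat_lit 4) (nat_lit 1) (nat_lit 4) (nat_lit 345) (nat_lit 283) (nat_lit 272))))))) (XT.nd (nat_lit 858) (nat_lit 0) (nat_lit 0) (XT.nd (nat_lit 390) (nat_lit 0) (nat_lit 0) (XT.nd (nat_lit 156) (nat_lit 0) (nat_lit 0) (XT.nd (nat_lit 78) (nat_lit 0) (nat_lit 0) (XT.lf (nat_lit 0) (nat_lit 65540049798) (nat_lit 152) (nat_lit 349438504598) (nat_lit 0) (nat_lit 65147394908) (nat_lit 1) (nat_lit 5) (nat_lit 3) (nat_lit 4) (nat_lit 1) (nat_lit 4) (nat_lit 346) (nat_lit 283) (nat_lit 271)) (XT.lf (nat_lit 0) (nat_lit 77725783329) (nat_lit 152) (nat_lit 396733418836) (nat_lit 0) (nat_lit 77321355357) (nat_lit 1) (nat_lit 5) (nat_lit 3) (nat_lit 4) (nat_lit 1) (nat_lit 4) (nat_lit 347) (nat_lit 283) (nat_lit 270))) (XT.nd (nat_lit 78) (nat_lit 0) (nat_lit 0) (XT.lf (nat_lit 0) (nat_lit 91657397071) (nat_lit 152) (nat_lit 451295532320)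 (nat_lit 0) (nat_lit 91242731635) (nat_lit 1) (nat_lit 5) (nat_lit 3) (nat_lit 4) (nat_lit 1) (nat_lit 4) (nat_lit 348) (nat_lit 283) (nat_lit 269)) (XT.nd (nat_lit 78) (nat_lit 0) (nat_lit 0) (XT.lf (nat_lit 0) (nat_lit 107607466076) (nat_lit 152) (nat_lit 514192364662) (nat_lit 0) (nat_lit 107183898498) (nat_lit 1) (nat_lit 5) (nat_lit 3) (nat_lit 4) (nat_lit 1) (nat_lit 4) (nat_lit 349) (nat_lit 283) (nat_lit 268)) (XT.lf (nat_lit 0) (nat_lit 125888056911) (nat_lit 152) (nat_lit 586654506060) (nat_lit 0) (nat_lit 125456748340) (nat_lit 1) (nat_lit 5) (nat_lit 3) (nat_lit 4) (nat_lit 1) (nat_lit 4) (nat_lit 350) (nat_lit 283) (nat_lit 267))))) (XT.nd (nat_lit 234) (nat_lit 0) (nat_lit 0) (XT.nd (nat_lit 78) (nat_lit 0) (nat_lit 0) (XT.lf (nat_lit 0) (nat_lit 146856833309) (nat_lit 152) (nat_lit 670099694062) (nat_lit 0) (nat_lit 146418793440) (nat_lit 1) (nat_lit 5) (nat_lit 3) (nat_lit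 4) (nat_lit 1) (nat_lit 4) (nat_lit 351) (nat_lit 283) (nat_lit 266)) (XT.nd (nat_lit 78) (nat_lit 0) (nat_lit 0) (XT.lf (nat_lit 0) (nat_lit 170924053940) (nat_lit 152) (nat_lit 766160551912) (nat_lit 0) (nat_lit 170480160768) (nat_lit 1) (nat_lit 5) (nat_lit 3) (nat_lit 4) (nat_lit 1) (nat_lit 4) (nat_lit 352) (nat_lit 283) (nat_lit 265)) (XT.lf (nat_lit 0) (nat_lit 198560599207) (nat_lit 152) (nat_lit 876716531177) (nat_lit 0) (nat_lit 198111616206) (nat_lit 1) (nat_lit 5) (nat_lit 3) (nat_lit 4) (nat_lit 1) (nat_lit 4) (nat_lit 353) (nat_lit 283) (nat_lit 264)))) (XT.nd (nat_lit 78) (nat_lit 0) (nat_lit 0) (XT.lf (nat_lit 0) (nat_lit 230307184126) (nat_lit 152) (nat_lit 1003930683625) (nat_lit 0) (nat_lit 229853775187) (nat_lit 1) (nat_lit 5) (nat_lit 3) (nat_lit 4) (nat_lit 1) (nat_lit 4) (nat_lit 354) (nat_lit 283) (nat_lit 263)) (XT.nd (nat_lit 78) (nat_lit 0) (nat_lit 0) (XT.lf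 (nat_lit 0) (nat_lit 266784937532) (nat_lit 152) (nat_lit 1150291981805) (nat_lit 0) (nat_lit 266327679952) (nat_lit 1) (nat_lit 5) (nat_lit 3) (nat_lit 4) (nat_lit 1) (nat_lit 4) (nat_lit 355) (nat_lit 283) (nat_lit 262)) (XT.lf (nat_lit 0) (nat_lit 308707554602) (nat_lit 152) (nat_lit 1318664016332) (nat_lit 0) (nat_lit 308246950376) (nat_lit 1) (nat_lit 5) (nat_lit 3) (nat_lit 4) (nat_lit 1) (nat_lit 4) (nat_lit 356) (nat_lit 283) (nat_lit 261)))))) (XT.nd (nat_lit 468) (nat_lit 0) (nat_lit 0) (XT.nd (nat_lit 234) (nat_lit 0) (nat_lit 0) (XT.nd (nat_lit 78) (nat_lit 0) (nat_lit 0) (XT.lf (nat_lit 0) (nat_lit 356895260450) (nat_lit 152) (nat_lit 1512341022664) (nat_lit 0) (nat_lit 356431746099) (nat_lit 1) (nat_lit 5) (nat_lit 3) (nat_lit 4) (nat_lit 1) (nat_lit 4) (nat_lit 357) (nat_lit 283) (nat_lit 260)) (XT.nd (nat_lit 78) (nat_lit 0) (nat_lit 0) (XT.lf (nat_lit 0) (nat_lit 412290858019)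 (nat_lit 152) (nat_lit 1735112333535) (nat_lit 0) (nat_lit 411824813123) (nat_lit 1) (nat_lit 5) (nat_lit 3) (nat_lit 4) (nat_lit 1) (nat_lit 4) (nat_lit 358) (nat_lit 283) (nat_lit 259)) (XT.lf (nat_lit 0) (nat_lit 475978174216) (nat_lit 152) (nat_lit 1991336518069) (nat_lit 0) (nat_lit 475509928847) (nat_lit 1) (nat_lit 5) (nat_lit 3) (nat_lit 4) (nat_lit 1) (nat_lit 4) (nat_lit 359) (nat_lit 283) (nat_lit 258)))) (XT.nd (nat_lit 78) (nat_lit 0) (nat_lit 0) (XT.lf (nat_lit 0) (nat_lit 549203265229) (nat_lit 152) (nat_lit 2286026658139) (nat_lit 0) (nat_lit 548733106405) (nat_lit 1) (nat_lit 5) (nat_lit 3) (nat_lit 4) (nat_lit 1) (nat_lit 4) (nat_lit 360) (nat_lit 283) (nat_lit 257)) (XT.nd (nat_lit 78) (nat_lit 0) (nat_lit 0) (XT.lf (nat_lit 0) (nat_lit 633398795881) (nat_lit 152) (nat_lit 2624948430398) (nat_lit 0) (nat_lit 632926973183) (nat_lit 1) (nat_lit 5) (nat_lit 3) (nat_lit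 4) (nat_lit 1) (nat_lit 4) (nat_lit 361) (nat_lit 283) (nat_lit 256)) (XT.lf (nat_lit 0) (nat_lit 730212070033) (nat_lit 152) (nat_lit 3014732912999) (nat_lit 0) (nat_lit 729738800488) (nat_lit 1) (nat_lit 5) (nat_lit 3) (nat_lit 4) (nat_lit 1) (nat_lit 4) (nat_lit 362) (nat_lit 283) (nat_lit 255))))) (XT.nd (nat_lit 234) (nat_lit 0) (nat_lit 0) (XT.nd (nat_lit 78) (nat_lit 0) (nat_lit 0) (XT.lf (nat_lit 0) (nat_lit 841537260441) (nat_lit 152) (nat_lit 3463006324079) (nat_lit 0) (nat_lit 841062732768) (nat_lit 1) (nat_lit 5) (nat_lit 3) (nat_lit 4) (nat_lit 1) (nat_lit 4) (nat_lit 363) (nat_lit 283) (nat_lit 254)) (XT.nd (nat_lit 78) (nat_lit 0) (nat_lit 0) (XT.lf (nat_lit 0) (nat_lit 969552468655) (nat_lit 152) (nat_lit 3978539230377) (nat_lit 0) (nat_lit 969076846958) (nat_lit 1) (nat_lit 5) (nat_lit 3) (nat_lit 4) (nat_lit 1) (nat_lit 4) (nat_lit 364) (nat_lit 283) (nat_lit 253)) (XT.lf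 (nat_lit 0) (nat_lit 1116762340054) (nat_lit 152) (nat_lit 4571418145278) (nat_lit 0) (nat_lit 1116285767032) (nat_lit 1) (nat_lit 5) (nat_lit 3) (nat_lit 4) (nat_lit 1) (nat_lit 4) (nat_lit 365) (nat_lit 283) (nat_lit 252)))) (XT.nd (nat_lit 78) (nat_lit 0) (nat_lit 0) (XT.lf (nat_lit 0) (nat_lit 1286047067774) (nat_lit 152) (nat_lit 5253242873638) (nat_lit 0) (nat_lit 1285569667512) (nat_lit 1) (nat_lit 5) (nat_lit 3) (nat_lit 4) (nat_lit 1) (nat_lit 4) (nat_lit 366) (nat_lit 283) (nat_lit 251)) (XT.nd (nat_lit 78) (nat_lit 0) (nat_lit 0) (XT.lf (nat_lit 0) (nat_lit 1480718744314) (nat_lit 152) (nat_lit 6037353464489) (nat_lit 0) (nat_lit 1480240624713) (nat_lit 1) (nat_lit 5) (nat_lit 3) (nat_lit 4) (nat_lit 1) (nat_lit 4) (nat_lit 367) (nat_lit 283) (nat_lit 250)) (XT.lf (nat_lit 0) (nat_lit 1704586163344) (nat_lit 152) (nat_lit 6939091212002) (nat_lit 0) (nat_lit 1704107418232) (nat_lit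 1) (nat_lit 5) (nat_lit 3) (nat_lit 4) (nat_lit 1) (nat_lit 4) (nat_lit 368) (nat_lit 283) (nat_lit 249))))))))
noncomputable def xc20 : XT := (XT.nd (nat_lit 44148) (nat_lit 0) (nat_lit 0) (XT.nd (nat_lit 858) (nat_lit 0) (nat_lit 0) (XT.nd (nat_lit 390) (nat_lit 0) (nat_lit 0) (XT.nd (nat_lit 156) (nat_lit 0) (nat_lit 0) (XT.nd (nat_lit 78) (nat_lit 0) (nat_lit 0) (XT.lf (nat_lit 0) (nat_lit 1962029339586) (nat_lit 152) (nat_lit 7976098811235) (nat_lit 0) (nat_lit 1961550050550) (nat_lit 1) (nat_lit 5) (nat_lit 3) (nat_lit 4) (nat_lit 1) (nat_lit 4) (nat_lit 369) (nat_lit 283) (nat_lit 248)) (XT.lf (nat_lit 0) (nat_lit 2258085204749) (nat_lit 152) (nat_lit 9168665541305) (nat_lit 0) (nat_lit 2257605442736) (nat_lit 1) (nat_lit 5) (nat_lit 3) (nat_lit 4) (nat_lit 1) (nat_lit 4) (nat_lit 370) (nat_lit 283) (nat_lit 247))) (XT.nd (nat_lit 78) (nat_lit 0) (nat_lit 0) (XT.lf (nat_lit 0) (nat_lit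 2598546156194) (nat_lit 152) (nat_lit 10540124229539) (nat_lit 0) (nat_lit 2598065982897) (nat_lit 1) (nat_lit 5) (nat_lit 3) (nat_lit 4) (nat_lit 1) (nat_lit 4) (nat_lit 371) (nat_lit 283) (nat_lit 246)) (XT.nd (nat_lit 78) (nat_lit 0) (nat_lit 0) (XT.lf (nat_lit 0) (nat_lit 2990073386449) (nat_lit 152) (nat_lit 12117307763315) (nat_lit 0) (nat_lit 2989592855513) (nat_lit 1) (nat_lit 5) (nat_lit 3) (nat_lit 4) (nat_lit 1) (nat_lit 4) (nat_lit 372) (nat_lit 283) (nat_lit 245)) (XT.lf (nat_lit 0) (nat_lit 3440327210889) (nat_lit 152) (nat_lit 13931074081338) (nat_lit 0) (nat_lit 3439846368964) (nat_lit 1) (nat_lit 5) (nat_lit 3) (nat_lit 4) (nat_lit 1) (nat_lit 4) (nat_lit 373) (nat_lit 283) (nat_lit 244))))) (XT.nd (nat_lit 234) (nat_lit 0) (nat_lit 0) (XT.nd (nat_lit 78) (nat_lit 0) (nat_lit 0) (XT.lf (nat_lit 0) (nat_lit 3958116943471) (nat_lit 152) (nat_lit 16016909915916) (nat_lit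 0) (nat_lit 3957635831120) (nat_lit 1) (nat_lit 5) (nat_lit 3) (nat_lit 4) (nat_lit 1) (nat_lit 4) (nat_lit 374) (nat_lit 283) (nat_lit 243)) (XT.nd (nat_lit 78) (nat_lit 0) (nat_lit 0) (XT.lf (nat_lit 0) (nat_lit 4553573252876) (nat_lit 152) (nat_lit 18415625098597) (nat_lit 0) (nat_lit 4553091905371) (nat_lit 1) (nat_lit 5) (nat_lit 3) (nat_lit 4) (nat_lit 1) (nat_lit 4) (nat_lit 375) (nat_lit 283) (nat_lit 242)) (XT.lf (nat_lit 0) (nat_lit 5238346371243) (nat_lit 152) (nat_lit 21174151013388) (nat_lit 0) (nat_lit 5237864819258) (nat_lit 1) (nat_lit 5) (nat_lit 3) (nat_lit 4) (nat_lit 1) (nat_lit 4) (nat_lit 376) (nat_lit 283) (nat_lit 241)))) (XT.nd (nat_lit 78) (nat_lit 0) (nat_lit 0) (XT.lf (nat_lit 0) (nat_lit 6025834033498) (nat_lit 152) (nat_lit 24346458819493) (nat_lit 0) (nat_lit 6025352303703) (nat_lit 1) (nat_lit 5) (nat_lit 3) (nat_lit 4) (nat_lit 1) (nat_lit 4) (nat_lit 377)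 (nat_lit 283) (nat_lit 240)) (XT.nd (nat_lit 78) (nat_lit 0) (nat_lit 0) (XT.lf (nat_lit 0) (nat_lit 6931443606946) (nat_lit 152) (nat_lit 27994615408769) (nat_lit 0) (nat_lit 6930961722534) (nat_lit 1) (nat_lit 5) (nat_lit 3) (nat_lit 4) (nat_lit 1) (nat_lit 4) (nat_lit 378) (nat_lit 283) (nat_lit 239)) (XT.lf (nat_lit 0) (nat_lit 7972893539762) (nat_lit 152) (nat_lit 32189997757964) (nat_lit 0) (nat_lit 7972411520900) (nat_lit 1) (nat_lit 5) (nat_lit 3) (nat_lit 4) (nat_lit 1) (nat_lit 4) (nat_lit 379) (nat_lit 283) (nat_lit 238)))))) (XT.nd (nat_lit 390) (nat_lit 0) (nat_lit 0) (XT.nd (nat_lit 156) (nat_lit 0) (nat_lit 0) (XT.nd (nat_lit 78) (nat_lit 0) (nat_lit 0) (XT.lf (nat_lit 0) (nat_lit 9170560026285) (nat_lit 152) (nat_lit 37014689434780) (nat_lit 0) (nat_lit 9170077890510) (nat_lit 1) (nat_lit 5) (nat_lit 3) (nat_lit 4) (nat_lit 1) (nat_lit 4) (nat_lit 380) (nat_lit 283) (nat_lit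 237)) (XT.lf (nat_lit 0) (nat_lit 10547875671685) (nat_lit 152) (nat_lit 42563086580718) (nat_lit 0) (nat_lit 10547393434248) (nat_lit 1) (nat_lit 5) (nat_lit 3) (nat_lit 4) (nat_lit 1) (nat_lit 4) (nat_lit 381) (nat_lit 283) (nat_lit 236))) (XT.nd (nat_lit 78) (nat_lit 0) (nat_lit 0) (XT.lf (nat_lit 0) (nat_lit 12131787955982) (nat_lit 152) (nat_lit 48943744792113) (nat_lit 0) (nat_lit 12131305630141) (nat_lit 1) (nat_lit 5) (nat_lit 3) (nat_lit 4) (nat_lit 1) (nat_lit 4) (nat_lit 382) (nat_lit 283) (nat_lit 235)) (XT.nd (nat_lit 78) (nat_lit 0) (nat_lit 0) (XT.lf (nat_lit 0) (nat_lit 13953286467345) (nat_lit 152) (nat_lit 56281503033971) (nat_lit 0) (nat_lit 13952804064633) (nat_lit 1) (nat_lit 5) (nat_lit 3) (nat_lit 4) (nat_lit 1) (nat_lit 4) (nat_lit 383) (nat_lit 283) (nat_lit 234)) (XT.lf (nat_lit 0) (nat_lit 16048009220129) (nat_lit 152) (nat_lit 64719926141457) (nat_lit 0) (nat_lit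 16047526750572) (nat_lit 1) (nat_lit 5) (nat_lit 3) (nat_lit 4) (nat_lit 1) (nat_lit 4) (nat_lit 384) (nat_lit 283) (nat_lit 233))))) (XT.nd (nat_lit 1248) (nat_lit 0) (nat_lit 0) (XT.nd (nat_lit 78) (nat_lit 0) (nat_lit 0) (XT.lf (nat_lit 0) (nat_lit 18456939920366) (nat_lit 152) (nat_lit 74424113697110) (nat_lit 0) (nat_lit 18456457392682) (nat_lit 1) (nat_lit 5) (nat_lit 3) (nat_lit 4) (nat_lit 1) (nat_lit 4) (nat_lit 385) (nat_lit 283) (nat_lit 232)) (XT.nd (nat_lit 1092) (nat_lit 0) (nat_lit 0) (XT.lf (nat_lit 0) (nat_lit 21227209820886) (nat_lit 152) (nat_lit 85583930240063) (nat_lit 0) (nat_lit 21226727242658) (nat_lit 1) (nat_lit 5) (nat_lit 3) (nat_lit 4) (nat_lit 1) (nat_lit 4) (nat_lit 386) (nat_lit 283) (nat_lit 231)) (XT.lf (nat_lit 0) (nat_lit 150267468707161) (nat_lit 152) (nat_lit 605412878127953) (nat_lit 0) (nat_lit 150266985839593) (nat_lit 1) (nat_lit 5) (nat_lit 3)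 (nat_lit 4) (nat_lit 1) (nat_lit 4) (nat_lit 400) (nat_lit 283) (nat_lit 217)))) (XT.nd (nat_lit 41496) (nat_lit 0) (nat_lit 152) (XT.lf (nat_lit 0) (nat_lit 172809315558967) (nat_lit 152) (nat_lit 696221014328900) (nat_lit 0) (nat_lit 172808832685186) (nat_lit 1) (nat_lit 5) (nat_lit 3) (nat_lit 4) (nat_lit 1) (nat_lit 4) (nat_lit 401) (nat_lit 283) (nat_lit 216)) (XT.nd (nat_lit 78) (nat_lit 0) (nat_lit 0) (XT.lf (nat_lit 0) (nat_lit 20545734456) (nat_lit 76) (nat_lit 7549553274) (nat_lit 76) (nat_lit 7549553274) (nat_lit 3) (nat_lit 4) (nat_lit 4) (nat_lit 5) (nat_lit 4) (nat_lit 4) (nat_lit 332) (nat_lit 284) (nat_lit 284)) (XT.lf (nat_lit 0) (nat_lit 57615944657) (nat_lit 76) (nat_lit 11853960779) (nat_lit 76) (nat_lit 11770657909) (nat_lit 3) (nat_lit 4) (nat_lit 4) (nat_lit 5) (nat_lit 4) (nat_lit 4) (nat_lit 333) (nat_lit 284) (nat_lit 283))))))) (XT.nd (nat_lit 858) (nat_lit 0)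 (nat_lit 0) (XT.nd (nat_lit 390) (nat_lit 0) (nat_lit 0) (XT.nd (nat_lit 156) (nat_lit 152) (nat_lit 0) (XT.nd (nat_lit 78) (nat_lit 0) (nat_lit 0) (XT.lf (nat_lit 0) (nat_lit 75738632312) (nat_lit 76) (nat_lit 8582144288) (nat_lit 76) (nat_lit 8426404139) (nat_lit 3) (nat_lit 4) (nat_lit 4) (nat_lit 5) (nat_lit 4) (nat_lit 4) (nat_lit 334) (nat_lit 284) (nat_lit 282)) (XT.lf (nat_lit 0) (nat_lit 95814106201) (nat_lit 76) (nat_lit 5219643273) (nat_lit 76) (nat_lit 5000914186) (nat_lit 3) (nat_lit 4) (nat_lit 4) (nat_lit 5) (nat_lit 4) (nat_lit 4) (nat_lit 335) (nat_lit 284) (nat_lit 281))) (XT.nd (nat_lit 78) (nat_lit 152) (nat_lit 0) (XT.lf (nat_lit 0) (nat_lit 118235147334) (nat_lit 76) (nat_lit 1700669672) (nat_lit 76) (nat_lit 1427167595) (nat_lit 3) (nat_lit 4) (nat_lit 4) (nat_lit 5) (nat_lit 4) (nat_lit 4) (nat_lit 336) (nat_lit 284) (nat_lit 280)) (XT.nd (nat_lit 78) (nat_lit 0)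 (nat_lit 0) (XT.lf (nat_lit 0) (nat_lit 2448774946) (nat_lit 152) (nat_lit 134354870034) (nat_lit 0) (nat_lit 2169530804) (nat_lit 1) (nat_lit 5) (nat_lit 3) (nat_lit 4) (nat_lit 1) (nat_lit 4) (nat_lit 337) (nat_lit 284) (nat_lit 279)) (XT.lf (nat_lit 0) (nat_lit 6723869828) (nat_lit 152) (nat_lit 146087663762) (nat_lit 0) (nat_lit 6408611556) (nat_lit 1) (nat_lit 5) (nat_lit 3) (nat_lit 4) (nat_lit 1) (nat_lit 4) (nat_lit 338) (nat_lit 284) (nat_lit 278))))) (XT.nd (nat_lit 234) (nat_lit 0) (nat_lit 0) (XT.nd (nat_lit 78) (nat_lit 0) (nat_lit 0) (XT.lf (nat_lit 0) (nat_lit 11389450802) (nat_lit 152) (nat_lit 160109471598) (nat_lit 0) (nat_lit 11042875896) (nat_lit 1) (nat_lit 5) (nat_lit 3) (nat_lit 4) (nat_lit 1) (nat_lit 4) (nat_lit 339) (nat_lit 284) (nat_lit 277)) (XT.nd (nat_lit 78) (nat_lit 0) (nat_lit 0) (XT.lf (nat_lit 0) (nat_lit 16536800975) (nat_lit 152) (nat_lit 176694633262)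 (nat_lit 0) (nat_lit 16162994213) (nat_lit 1) (nat_lit 5) (nat_lit 3) (nat_lit 4) (nat_lit 1) (nat_lit 4) (nat_lit 340) (nat_lit 284) (nat_lit 276)) (XT.lf (nat_lit 0) (nat_lit 22266629372) (nat_lit 152) (nat_lit 196167641046) (nat_lit 0) (nat_lit 21869142735) (nat_lit 1) (nat_lit 5) (nat_lit 3) (nat_lit 4) (nat_lit 1) (nat_lit 4) (nat_lit 341) (nat_lit 284) (nat_lit 275)))) (XT.nd (nat_lit 78) (nat_lit 0) (nat_lit 0) (XT.lf (nat_lit 0) (nat_lit 28691041331) (nat_lit 152) (nat_lit 218909488582) (nat_lit 0) (nat_lit 28272963498) (nat_lit 1) (nat_lit 5) (nat_lit 3) (nat_lit 4) (nat_lit 1) (nat_lit 4) (nat_lit 342) (nat_lit 284) (nat_lit 274)) (XT.nd (nat_lit 78) (nat_lit 0) (nat_lit 0) (XT.lf (nat_lit 0) (nat_lit 35935731869) (nat_lit 152) (nat_lit 245365125059) (nat_lit 0) (nat_lit 35499748648) (nat_lit 1) (nat_lit 5) (nat_lit 3) (nat_lit 4) (nat_lit 1) (nat_lit 4) (nat_lit 343) (nat_lit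 284) (nat_lit 273)) (XT.lf (nat_lit 0) (nat_lit 44142444930) (nat_lit 152) (nat_lit 276052160758) (nat_lit 0) (nat_lit 43690891807) (nat_lit 1) (nat_lit 5) (nat_lit 3) (nat_lit 4) (nat_lit 1) (nat_lit 4) (nat_lit 344) (nat_lit 284) (nat_lit 272)))))) (XT.nd (nat_lit 390) (nat_lit 0) (nat_lit 0) (XT.nd (nat_lit 156) (nat_lit 0) (nat_lit 0) (XT.nd (nat_lit 78) (nat_lit 0) (nat_lit 0) (XT.lf (nat_lit 0) (nat_lit 53471746640) (nat_lit 152) (nat_lit 311570994202) (nat_lit 0) (nat_lit 53006654472) (nat_lit 1) (nat_lit 5) (nat_lit 3) (nat_lit 4) (nat_lit 1) (nat_lit 4) (nat_lit 345) (nat_lit 284) (nat_lit 271)) (XT.lf (nat_lit 0) (nat_lit 64106166816) (nat_lit 152) (nat_lit 352616559090) (nat_lit 0) (nat_lit 63629301565) (nat_lit 1) (nat_lit 5) (nat_lit 3) (nat_lit 4) (nat_lit 1) (nat_lit 4) (nat_lit 346) (nat_lit 284) (nat_lit 270))) (XT.nd (nat_lit 78) (nat_lit 0) (nat_lit 0) (XT.lf (nat_lit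 0) (nat_lit 76253770199) (nat_lit 152) (nat_lit 399991920822) (nat_lit 0) (nat_lit 75766667484) (nat_lit 1) (nat_lit 5) (nat_lit 3) (nat_lit 4) (nat_lit 1) (nat_lit 4) (nat_lit 347) (nat_lit 284) (nat_lit 269)) (XT.nd (nat_lit 78) (nat_lit 0) (nat_lit 0) (XT.lf (nat_lit 0) (nat_lit 90152227290) (nat_lit 152) (nat_lit 454623988648) (nat_lit 0) (nat_lit 89656222434) (nat_lit 1) (nat_lit 5) (nat_lit 3) (nat_lit 4) (nat_lit 1) (nat_lit 4) (nat_lit 348) (nat_lit 284) (nat_lit 268)) (XT.lf (nat_lit 0) (nat_lit 106073464425) (nat_lit 152) (nat_lit 517581650852) (nat_lit 0) (nat_lit 105569718575) (nat_lit 1) (nat_lit 5) (nat_lit 3) (nat_lit 4) (nat_lit 1) (nat_lit 4) (nat_lit 349) (nat_lit 284) (nat_lit 267))))) (XT.nd (nat_lit 234) (nat_lit 0) (nat_lit 0) (XT.nd (nat_lit 78) (nat_lit 0) (nat_lit 0) (XT.lf (nat_lit 0) (nat_lit 124328984068) (nat_lit 152) (nat_lit 590096687782) (nat_lit 0) (nat_lit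 123818506920) (nat_lit 1) (nat_lit 5) (nat_lit 3) (nat_lit 4) (nat_lit 1) (nat_lit 4) (nat_lit 350) (nat_lit 284) (nat_lit 266)) (XT.nd (nat_lit 78) (nat_lit 0) (nat_lit 0) (XT.lf (nat_lit 0) (nat_lit 145275959431) (nat_lit 152) (nat_lit 673587871899) (nat_lit 0) (nat_lit 144759628980) (nat_lit 1) (nat_lit 5) (nat_lit 3) (nat_lit 4) (nat_lit 1) (nat_lit 4) (nat_lit 351) (nat_lit 284) (nat_lit 265)) (XT.lf (nat_lit 0) (nat_lit 169324222639) (nat_lit 152) (nat_lit 769688726372) (nat_lit 0) (nat_lit 168802802359) (nat_lit 1) (nat_lit 5) (nat_lit 3) (nat_lit 4) (nat_lit 1) (nat_lit 4) (nat_lit 352) (nat_lit 284) (nat_lit 264)))) (XT.nd (nat_lit 78) (nat_lit 0) (nat_lit 0) (XT.lf (nat_lit 0) (nat_lit 196944283191) (nat_lit 152) (nat_lit 880279485308) (nat_lit 0) (nat_lit 196418436973) (nat_lit 1) (nat_lit 5) (nat_lit 3) (nat_lit 4) (nat_lit 1) (nat_lit 4) (nat_lit 353) (nat_lit 284) (nat_lit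 263)) (XT.nd (nat_lit 78) (nat_lit 0) (nat_lit 0) (XT.lf (nat_lit 0) (nat_lit 228676533575) (nat_lit 152) (nat_lit 1007523880949) (nat_lit 0) (nat_lit 228146838715) (nat_lit 1) (nat_lit 5) (nat_lit 3) (nat_lit 4) (nat_lit 1) (nat_lit 4) (nat_lit 354) (nat_lit 284) (nat_lit 262)) (XT.lf (nat_lit 0) (nat_lit 265141822168) (nat_lit 152) (nat_lit 1153911477556) (nat_lit 0) (nat_lit 264608780664) (nat_lit 1) (nat_lit 5) (nat_lit 3) (nat_lit 4) (nat_lit 1) (nat_lit 4) (nat_lit 355) (nat_lit 284) (nat_lit 261))))))))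
noncomputable def xc21 : XT := (XT.nd (nat_lit 1716) (nat_lit 0) (nat_lit 0) (XT.nd (nat_lit 858) (nat_lit 0) (nat_lit 0) (XT.nd (nat_lit 390) (nat_lit 0) (nat_lit 0) (XT.nd (nat_lit 156) (nat_lit 0) (nat_lit 0) (XT.nd (nat_lit 78) (nat_lit 0) (nat_lit 0) (XT.lf (nat_lit 0) (nat_lit 307053600269) (nat_lit 152) (nat_lit 1322306380282) (nat_lit 0) (nat_lit 306517648639) (nat_lit 1) (nat_lit 5) (nat_lit 3) (nat_lit 4) (nat_lit 1) (nat_lit 4) (nat_lit 356) (nat_lit 284) (nat_lit 260)) (XT.lf (nat_lit 0) (nat_lit 355231880928) (nat_lit 152) (nat_lit 1516003272004) (nat_lit 0) (nat_lit 354693398754) (nat_lit 1) (nat_lit 5) (nat_lit 3) (nat_lit 4) (nat_lit 1) (nat_lit 4) (nat_lit 357) (nat_lit 284) (nat_lit 259))) (XT.nd (nat_lit 78) (nat_lit 0) (nat_lit 0) (XT.lf (nat_lit 0) (nat_lit 410619282680) (nat_lit 152) (nat_lit 1738791874518) (nat_lit 0) (nat_lit 410078600032) (nat_lit 1) (nat_lit 5)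 (nat_lit 3) (nat_lit 4) (nat_lit 1) (nat_lit 4) (nat_lit 358) (nat_lit 284) (nat_lit 258)) (XT.nd (nat_lit 78) (nat_lit 0) (nat_lit 0) (XT.lf (nat_lit 0) (nat_lit 474299472080) (nat_lit 152) (nat_lit 1995031095264) (nat_lit 0) (nat_lit 473756875977) (nat_lit 1) (nat_lit 5) (nat_lit 3) (nat_lit 4) (nat_lit 1) (nat_lit 4) (nat_lit 359) (nat_lit 284) (nat_lit 257)) (XT.lf (nat_lit 0) (nat_lit 547518365878) (nat_lit 152) (nat_lit 2289734310301) (nat_lit 0) (nat_lit 546974105901) (nat_lit 1) (nat_lit 5) (nat_lit 3) (nat_lit 4) (nat_lit 1) (nat_lit 4) (nat_lit 360) (nat_lit 284) (nat_lit 256))))) (XT.nd (nat_lit 234) (nat_lit 0) (nat_lit 0) (XT.nd (nat_lit 78) (nat_lit 0) (nat_lit 0) (XT.lf (nat_lit 0) (nat_lit 631708507647) (nat_lit 152) (nat_lit 2628667452096) (nat_lit 0) (nat_lit 631162800823) (nat_lit 1) (nat_lit 5) (nat_lit 3) (nat_lit 4) (nat_lit 1) (nat_lit 4) (nat_lit 361) (nat_lit 284)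 (nat_lit 255)) (XT.nd (nat_lit 78) (nat_lit 0) (nat_lit 0) (XT.lf (nat_lit 0) (nat_lit 728517095815) (nat_lit 152) (nat_lit 3018461821250) (nat_lit 0) (nat_lit 727970130863) (nat_lit 1) (nat_lit 5) (nat_lit 3) (nat_lit 4) (nat_lit 1) (nat_lit 4) (nat_lit 362) (nat_lit 284) (nat_lit 254)) (XT.lf (nat_lit 0) (nat_lit 839838211453) (nat_lit 152) (nat_lit 3466743829333) (nat_lit 0) (nat_lit 839290152477) (nat_lit 1) (nat_lit 5) (nat_lit 3) (nat_lit 4) (nat_lit 1) (nat_lit 4) (nat_lit 363) (nat_lit 284) (nat_lit 253)))) (XT.nd (nat_lit 78) (nat_lit 0) (nat_lit 0) (XT.lf (nat_lit 0) (nat_lit 967849876389) (nat_lit 152) (nat_lit 3982284211286) (nat_lit 0) (nat_lit 967300866088) (nat_lit 1) (nat_lit 5) (nat_lit 3) (nat_lit 4) (nat_lit 1) (nat_lit 4) (nat_lit 364) (nat_lit 284) (nat_lit 252)) (XT.nd (nat_lit 78) (nat_lit 0) (nat_lit 0) (XT.lf (nat_lit 0) (nat_lit 1115056666677) (nat_lit 152) (nat_lit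 4575169626756) (nat_lit 0) (nat_lit 1114506829136) (nat_lit 1) (nat_lit 5) (nat_lit 3) (nat_lit 4) (nat_lit 1) (nat_lit 4) (nat_lit 365) (nat_lit 284) (nat_lit 251)) (XT.lf (nat_lit 0) (nat_lit 1284338715170) (nat_lit 152) (nat_lit 5257000007785) (nat_lit 0) (nat_lit 1283788158290) (nat_lit 1) (nat_lit 5) (nat_lit 3) (nat_lit 4) (nat_lit 1) (nat_lit 4) (nat_lit 366) (nat_lit 284) (nat_lit 250)))))) (XT.nd (nat_lit 390) (nat_lit 0) (nat_lit 0) (XT.nd (nat_lit 156) (nat_lit 0) (nat_lit 0) (XT.nd (nat_lit 78) (nat_lit 0) (nat_lit 0) (XT.lf (nat_lit 0) (nat_lit 1479008061947) (nat_lit 152) (nat_lit 6041115514000) (nat_lit 0) (nat_lit 1478456879555) (nat_lit 1) (nat_lit 5) (nat_lit 3) (nat_lit 4) (nat_lit 1) (nat_lit 4) (nat_lit 367) (nat_lit 284) (nat_lit 249)) (XT.lf (nat_lit 0) (nat_lit 1702873455097) (nat_lit 152) (nat_lit 6942857535743) (nat_lit 0) (nat_lit 1702321728782) (nat_lit 1) (nat_lit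 5) (nat_lit 3) (nat_lit 4) (nat_lit 1) (nat_lit 4) (nat_lit 368) (nat_lit 284) (nat_lit 248))) (XT.nd (nat_lit 78) (nat_lit 0) (nat_lit 0) (XT.lf (nat_lit 0) (nat_lit 1960314869703) (nat_lit 152) (nat_lit 7979868851698) (nat_lit 0) (nat_lit 1959762670412) (nat_lit 1) (nat_lit 5) (nat_lit 3) (nat_lit 4) (nat_lit 1) (nat_lit 4) (nat_lit 369) (nat_lit 284) (nat_lit 247)) (XT.nd (nat_lit 78) (nat_lit 0) (nat_lit 0) (XT.lf (nat_lit 0) (nat_lit 2256369203009) (nat_lit 152) (nat_lit 9172438813700) (nat_lit 0) (nat_lit 2255816592433) (nat_lit 1) (nat_lit 5) (nat_lit 3) (nat_lit 4) (nat_lit 1) (nat_lit 4) (nat_lit 370) (nat_lit 284) (nat_lit 246)) (XT.lf (nat_lit 0) (nat_lit 2596828822404) (nat_lit 152) (nat_lit 10543900312309) (nat_lit 0) (nat_lit 2596275854190) (nat_lit 1) (nat_lit 5) (nat_lit 3) (nat_lit 4) (nat_lit 1) (nat_lit 4) (nat_lit 371) (nat_lit 284) (nat_lit 245))))) (XT.nd (nat_lit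 234) (nat_lit 0) (nat_lit 0) (XT.nd (nat_lit 78) (nat_lit 0) (nat_lit 0) (XT.lf (nat_lit 0) (nat_lit 2988354894356) (nat_lit 152) (nat_lit 12121086289890) (nat_lit 0) (nat_lit 2987801615152) (nat_lit 1) (nat_lit 5) (nat_lit 3) (nat_lit 4) (nat_lit 1) (nat_lit 4) (nat_lit 372) (nat_lit 284) (nat_lit 244)) (XT.nd (nat_lit 78) (nat_lit 0) (nat_lit 0) (XT.lf (nat_lit 0) (nat_lit 3438607711576) (nat_lit 152) (nat_lit 13934854732960) (nat_lit 0) (nat_lit 3438054161945) (nat_lit 1) (nat_lit 5) (nat_lit 3) (nat_lit 4) (nat_lit 1) (nat_lit 4) (nat_lit 373) (nat_lit 284) (nat_lit 243)) (XT.lf (nat_lit 0) (nat_lit 3956396568313) (nat_lit 152) (nat_lit 16020692415406) (nat_lit 0) (nat_lit 3955842783530) (nat_lit 1) (nat_lit 5) (nat_lit 3) (nat_lit 4) (nat_lit 1) (nat_lit 4) (nat_lit 374) (nat_lit 284) (nat_lit 242)))) (XT.nd (nat_lit 78) (nat_lit 0) (nat_lit 0) (XT.lf (nat_lit 0) (nat_lit 4551852116114)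 (nat_lit 152) (nat_lit 18419409204928) (nat_lit 0) (nat_lit 4551298126850) (nat_lit 1) (nat_lit 5) (nat_lit 3) (nat_lit 4) (nat_lit 1) (nat_lit 4) (nat_lit 375) (nat_lit 284) (nat_lit 241)) (XT.nd (nat_lit 78) (nat_lit 0) (nat_lit 0) (XT.lf (nat_lit 0) (nat_lit 5236624572218) (nat_lit 152) (nat_lit 21177936516973) (nat_lit 0) (nat_lit 5236070405144) (nat_lit 1) (nat_lit 5) (nat_lit 3) (nat_lit 4) (nat_lit 1) (nat_lit 4) (nat_lit 376) (nat_lit 284) (nat_lit 240)) (XT.lf (nat_lit 0) (nat_lit 6024111658591) (nat_lit 152) (nat_lit 24350245538080) (nat_lit 0) (nat_lit 6023557336900) (nat_lit 1) (nat_lit 5) (nat_lit 3) (nat_lit 4) (nat_lit 1) (nat_lit 4) (nat_lit 377) (nat_lit 284) (nat_lit 239))))))) (XT.nd (nat_lit 43290) (nat_lit 0) (nat_lit 0) (XT.nd (nat_lit 390) (nat_lit 0) (nat_lit 0) (XT.nd (nat_lit 156) (nat_lit 0) (nat_lit 0) (XT.nd (nat_lit 78) (nat_lit 0) (nat_lit 0) (XT.lf (nat_lit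 0) (nat_lit 6929720731272) (nat_lit 152) (nat_lit 27998403183881) (nat_lit 0) (nat_lit 6929166275132) (nat_lit 1) (nat_lit 5) (nat_lit 3) (nat_lit 4) (nat_lit 1) (nat_lit 4) (nat_lit 378) (nat_lit 284) (nat_lit 238)) (XT.lf (nat_lit 0) (nat_lit 7971170228639) (nat_lit 152) (nat_lit 32193786451793) (nat_lit 0) (nat_lit 7970615655586) (nat_lit 1) (nat_lit 5) (nat_lit 3) (nat_lit 4) (nat_lit 1) (nat_lit 4) (nat_lit 379) (nat_lit 284) (nat_lit 237))) (XT.nd (nat_lit 78) (nat_lit 0) (nat_lit 0) (XT.lf (nat_lit 0) (nat_lit 9168836336510) (nat_lit 152) (nat_lit 37018478927492) (nat_lit 0) (nat_lit 9168281661794) (nat_lit 1) (nat_lit 5) (nat_lit 3) (nat_lit 4) (nat_lit 1) (nat_lit 4) (nat_lit 380) (nat_lit 284) (nat_lit 236)) (XT.nd (nat_lit 78) (nat_lit 0) (nat_lit 0) (XT.lf (nat_lit 0) (nat_lit 10546151652648) (nat_lit 152) (nat_lit 42566876768112) (nat_lit 0) (nat_lit 10545596889529) (nat_lit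 1) (nat_lit 5) (nat_lit 3) (nat_lit 4) (nat_lit 1) (nat_lit 4) (nat_lit 381) (nat_lit 284) (nat_lit 235)) (XT.lf (nat_lit 0) (nat_lit 12130063650630) (nat_lit 152) (nat_lit 48947535583579) (nat_lit 0) (nat_lit 12129508810639) (nat_lit 1) (nat_lit 5) (nat_lit 3) (nat_lit 4) (nat_lit 1) (nat_lit 4) (nat_lit 382) (nat_lit 284) (nat_lit 234))))) (XT.nd (nat_lit 234) (nat_lit 0) (nat_lit 0) (XT.nd (nat_lit 78) (nat_lit 0) (nat_lit 0) (XT.lf (nat_lit 0) (nat_lit 13951561913024) (nat_lit 152) (nat_lit 56285294350715) (nat_lit 0) (nat_lit 13951007006188) (nat_lit 1) (nat_lit 5) (nat_lit 3) (nat_lit 4) (nat_lit 1) (nat_lit 4) (nat_lit 383) (nat_lit 284) (nat_lit 233)) (XT.nd (nat_lit 78) (nat_lit 0) (nat_lit 0) (XT.lf (nat_lit 0) (nat_lit 16046284449313) (nat_lit 152) (nat_lit 64723717914966) (nat_lit 0) (nat_lit 16045729484350) (nat_lit 1) (nat_lit 5) (nat_lit 3) (nat_lit 4) (nat_lit 1) (nat_lit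 4) (nat_lit 384) (nat_lit 284) (nat_lit 232)) (XT.lf (nat_lit 0) (nat_lit 18455214961292) (nat_lit 152) (nat_lit 74427905867806) (nat_lit 0) (nat_lit 18454659945786) (nat_lit 1) (nat_lit 5) (nat_lit 3) (nat_lit 4) (nat_lit 1) (nat_lit 4) (nat_lit 385) (nat_lit 284) (nat_lit 231)))) (XT.nd (nat_lit 42510) (nat_lit 0) (nat_lit 152) (XT.lf (nat_lit 0) (nat_lit 21225484698111) (nat_lit 152) (nat_lit 85587722756138) (nat_lit 0) (nat_lit 21224929638652) (nat_lit 1) (nat_lit 5) (nat_lit 3) (nat_lit 4) (nat_lit 1) (nat_lit 4) (nat_lit 386) (nat_lit 284) (nat_lit 230)) (XT.nd (nat_lit 78) (nat_lit 0) (nat_lit 0) (XT.lf (nat_lit 0) (nat_lit 6055231042) (nat_lit 76) (nat_lit 10788428432) (nat_lit 76) (nat_lit 10788428432) (nat_lit 3) (nat_lit 4) (nat_lit 4) (nat_lit 5) (nat_lit 4) (nat_lit 4) (nat_lit 330) (nat_lit 285) (nat_lit 285)) (XT.lf (nat_lit 0) (nat_lit 25841900117) (nat_lit 76) (nat_lit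 18476871879) (nat_lit 76) (nat_lit 18381073578) (nat_lit 3) (nat_lit 4) (nat_lit 4) (nat_lit 5) (nat_lit 4) (nat_lit 4) (nat_lit 331) (nat_lit 285) (nat_lit 284)))))) (XT.nd (nat_lit 468) (nat_lit 0) (nat_lit 0) (XT.nd (nat_lit 234) (nat_lit 152) (nat_lit 0) (XT.nd (nat_lit 78) (nat_lit 0) (nat_lit 0) (XT.lf (nat_lit 0) (nat_lit 40620525484) (nat_lit 76) (nat_lit 15441005461) (nat_lit 76) (nat_lit 15261904289) (nat_lit 3) (nat_lit 4) (nat_lit 4) (nat_lit 5) (nat_lit 4) (nat_lit 4) (nat_lit 332) (nat_lit 285) (nat_lit 283)) (XT.nd (nat_lit 78) (nat_lit 0) (nat_lit 0) (XT.lf (nat_lit 0) (nat_lit 56735485205) (nat_lit 76) (nat_lit 12409860224) (nat_lit 76) (nat_lit 12158321773) (nat_lit 3) (nat_lit 4) (nat_lit 4) (nat_lit 5) (nat_lit 4) (nat_lit 4) (nat_lit 333) (nat_lit 285) (nat_lit 282)) (XT.lf (nat_lit 0) (nat_lit 74502071970) (nat_lit 76) (nat_lit 9324131151) (nat_lit 76) (nat_lit 9009603762)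 (nat_lit 3) (nat_lit 4) (nat_lit 4) (nat_lit 5) (nat_lit 4) (nat_lit 4) (nat_lit 334) (nat_lit 285) (nat_lit 281)))) (XT.nd (nat_lit 78) (nat_lit 152) (nat_lit 0) (XT.lf (nat_lit 0) (nat_lit 94267892910) (nat_lit 76) (nat_lit 6123445283) (nat_lit 76) (nat_lit 5754144905) (nat_lit 3) (nat_lit 4) (nat_lit 4) (nat_lit 5) (nat_lit 4) (nat_lit 4) (nat_lit 335) (nat_lit 285) (nat_lit 280)) (XT.nd (nat_lit 78) (nat_lit 152) (nat_lit 0) (XT.lf (nat_lit 0) (nat_lit 116419670611) (nat_lit 76) (nat_lit 2745180505) (nat_lit 76) (nat_lit 2328251440) (nat_lit 3) (nat_lit 4) (nat_lit 4) (nat_lit 5) (nat_lit 4) (nat_lit 4) (nat_lit 336) (nat_lit 285) (nat_lit 279)) (XT.lf (nat_lit 0) (nat_lit 1357876340) (nat_lit 152) (nat_lit 136832215906) (nat_lit 0) (nat_lit 959315197) (nat_lit 1) (nat_lit 5) (nat_lit 3) (nat_lit 4) (nat_lit 1) (nat_lit 4) (nat_lit 337) (nat_lit 285) (nat_lit 278))))) (XT.nd (nat_lit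 234) (nat_lit 0) (nat_lit 0) (XT.nd (nat_lit 78) (nat_lit 0) (nat_lit 0) (XT.lf (nat_lit 0) (nat_lit 5516330226) (nat_lit 152) (nat_lit 148811100354) (nat_lit 0) (nat_lit 5086452449) (nat_lit 1) (nat_lit 5) (nat_lit 3) (nat_lit 4) (nat_lit 1) (nat_lit 4) (nat_lit 338) (nat_lit 285) (nat_lit 277)) (XT.nd (nat_lit 78) (nat_lit 0) (nat_lit 0) (XT.lf (nat_lit 0) (nat_lit 10080484248) (nat_lit 152) (nat_lit 163046900121) (nat_lit 0) (nat_lit 9623374615) (nat_lit 1) (nat_lit 5) (nat_lit 3) (nat_lit 4) (nat_lit 1) (nat_lit 4) (nat_lit 339) (nat_lit 285) (nat_lit 276)) (XT.lf (nat_lit 0) (nat_lit 15139637072) (nat_lit 152) (nat_lit 179818141725) (nat_lit 0) (nat_lit 14658847563) (nat_lit 1) (nat_lit 5) (nat_lit 3) (nat_lit 4) (nat_lit 1) (nat_lit 4) (nat_lit 340) (nat_lit 285) (nat_lit 275)))) (XT.nd (nat_lit 78) (nat_lit 0) (nat_lit 0) (XT.lf (nat_lit 0) (nat_lit 20792772121) (nat_lit 152) (nat_lit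 199452958153) (nat_lit 0) (nat_lit 20291391417) (nat_lit 1) (nat_lit 5) (nat_lit 3) (nat_lit 4) (nat_lit 1) (nat_lit 4) (nat_lit 341) (nat_lit 285) (nat_lit 274)) (XT.nd (nat_lit 78) (nat_lit 0) (nat_lit 0) (XT.lf (nat_lit 0) (nat_lit 27150494212) (nat_lit 152) (nat_lit 222335508857) (nat_lit 0) (nat_lit 26631208121) (nat_lit 1) (nat_lit 5) (nat_lit 3) (nat_lit 4) (nat_lit 1) (nat_lit 4) (nat_lit 342) (nat_lit 285) (nat_lit 273)) (XT.lf (nat_lit 0) (nat_lit 34337193560) (nat_lit 152) (nat_lit 248913495916) (nat_lit 0) (nat_lit 33802337567) (nat_lit 1) (nat_lit 5) (nat_lit 3) (nat_lit 4) (nat_lit 1) (nat_lit 4) (nat_lit 343) (nat_lit 285) (nat_lit 272))))))))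
noncomputable def xc22 : XT := (XT.nd (nat_lit 1716) (nat_lit 0) (nat_lit 0) (XT.nd (nat_lit 858) (nat_lit 0) (nat_lit 0) (XT.nd (nat_lit 390) (nat_lit 0) (nat_lit 0) (XT.nd (nat_lit 156) (nat_lit 0) (nat_lit 0) (XT.nd (nat_lit 78) (nat_lit 0) (nat_lit 0) (XT.lf (nat_lit 0) (nat_lit 42493479501) (nat_lit 152) (nat_lit 279706923424) (nat_lit 0) (nat_lit 41945084462) (nat_lit 1) (nat_lit 5) (nat_lit 3) (nat_lit 4) (nat_lit 1) (nat_lit 4) (nat_lit 344) (nat_lit 285) (nat_lit 271)) (XT.lf (nat_lit 0) (nat_lit 51778931541) (nat_lit 152) (nat_lit 315318271486) (nat_lit 0) (nat_lit 51218763419) (nat_lit 1) (nat_lit 5) (nat_lit 3) (nat_lit 4) (nat_lit 1) (nat_lit 4) (nat_lit 345) (nat_lit 285) (nat_lit 270))) (XT.nd (nat_lit 78) (nat_lit 0) (nat_lit 0) (XT.lf (nat_lit 0) (nat_lit 62375221568) (nat_lit 152) (nat_lit 356444283867) (nat_lit 0) (nat_lit 61804815983) (nat_lit 1) (nat_lit 5) (nat_lit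 3) (nat_lit 4) (nat_lit 1) (nat_lit 4) (nat_lit 346) (nat_lit 285) (nat_lit 269)) (XT.nd (nat_lit 78) (nat_lit 0) (nat_lit 0) (XT.lf (nat_lit 0) (nat_lit 74489668300) (nat_lit 152) (nat_lit 403889599940) (nat_lit 0) (nat_lit 73910360573) (nat_lit 1) (nat_lit 5) (nat_lit 3) (nat_lit 4) (nat_lit 1) (nat_lit 4) (nat_lit 347) (nat_lit 285) (nat_lit 268)) (XT.lf (nat_lit 0) (nat_lit 88359293522) (nat_lit 152) (nat_lit 458582497628) (nat_lit 0) (nat_lit 87772244801) (nat_lit 1) (nat_lit 5) (nat_lit 3) (nat_lit 4) (nat_lit 1) (nat_lit 4) (nat_lit 348) (nat_lit 285) (nat_lit 267))))) (XT.nd (nat_lit 234) (nat_lit 0) (nat_lit 0) (XT.nd (nat_lit 78) (nat_lit 0) (nat_lit 0) (XT.lf (nat_lit 0) (nat_lit 104255459465) (nat_lit 152) (nat_lit 521593055365) (nat_lit 0) (nat_lit 103661679446) (nat_lit 1) (nat_lit 5) (nat_lit 3) (nat_lit 4) (nat_lit 1) (nat_lit 4) (nat_lit 349) (nat_lit 285) (nat_lit 266))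 (XT.nd (nat_lit 78) (nat_lit 0) (nat_lit 0) (XT.lf (nat_lit 0) (nat_lit 122489178072) (nat_lit 152) (nat_lit 594154088411) (nat_lit 0) (nat_lit 121889544751) (nat_lit 1) (nat_lit 5) (nat_lit 3) (nat_lit 4) (nat_lit 1) (nat_lit 4) (nat_lit 350) (nat_lit 285) (nat_lit 265)) (XT.lf (nat_lit 0) (nat_lit 143417196012) (nat_lit 152) (nat_lit 677685269150) (nat_lit 0) (nat_lit 142812472862) (nat_lit 1) (nat_lit 5) (nat_lit 3) (nat_lit 4) (nat_lit 1) (nat_lit 4) (nat_lit 351) (nat_lit 285) (nat_lit 264)))) (XT.nd (nat_lit 78) (nat_lit 0) (nat_lit 0) (XT.lf (nat_lit 0) (nat_lit 167448974505) (nat_lit 152) (nat_lit 773820903294) (nat_lit 0) (nat_lit 166839825417) (nat_lit 1) (nat_lit 5) (nat_lit 3) (nat_lit 4) (nat_lit 1) (nat_lit 4) (nat_lit 352) (nat_lit 285) (nat_lit 263)) (XT.nd (nat_lit 78) (nat_lit 0) (nat_lit 0) (XT.lf (nat_lit 0) (nat_lit 195054700522) (nat_lit 152) (nat_lit 884441905423)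 (nat_lit 0) (nat_lit 194441702792) (nat_lit 1) (nat_lit 5) (nat_lit 3) (nat_lit 4) (nat_lit 1) (nat_lit 4) (nat_lit 353) (nat_lit 285) (nat_lit 262)) (XT.lf (nat_lit 0) (nat_lit 226774486092) (nat_lit 152) (nat_lit 1011712599491) (nat_lit 0) (nat_lit 226158141718) (nat_lit 1) (nat_lit 5) (nat_lit 3) (nat_lit 4) (nat_lit 1) (nat_lit 4) (nat_lit 354) (nat_lit 285) (nat_lit 261)))))) (XT.nd (nat_lit 390) (nat_lit 0) (nat_lit 0) (XT.nd (nat_lit 156) (nat_lit 0) (nat_lit 0) (XT.nd (nat_lit 78) (nat_lit 0) (nat_lit 0) (XT.lf (nat_lit 0) (nat_lit 263228935718) (nat_lit 152) (nat_lit 1158123064297) (nat_lit 0) (nat_lit 262609681217) (nat_lit 1) (nat_lit 5) (nat_lit 3) (nat_lit 4) (nat_lit 1) (nat_lit 4) (nat_lit 355) (nat_lit 285) (nat_lit 260)) (XT.lf (nat_lit 0) (nat_lit 305131288630) (nat_lit 152) (nat_lit 1326537852413) (nat_lit 0) (nat_lit 304509503584) (nat_lit 1) (nat_lit 5) (nat_lit 3)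 (nat_lit 4) (nat_lit 1) (nat_lit 4) (nat_lit 356) (nat_lit 285) (nat_lit 259))) (XT.nd (nat_lit 78) (nat_lit 0) (nat_lit 0) (XT.lf (nat_lit 0) (nat_lit 353301373472) (nat_lit 152) (nat_lit 1520252035778) (nat_lit 0) (nat_lit 352677387953) (nat_lit 1) (nat_lit 5) (nat_lit 3) (nat_lit 4) (nat_lit 1) (nat_lit 4) (nat_lit 357) (nat_lit 285) (nat_lit 258)) (XT.nd (nat_lit 78) (nat_lit 0) (nat_lit 0) (XT.lf (nat_lit 0) (nat_lit 408681648426) (nat_lit 152) (nat_lit 1743055674504) (nat_lit 0) (nat_lit 408055749452) (nat_lit 1) (nat_lit 5) (nat_lit 3) (nat_lit 4) (nat_lit 1) (nat_lit 4) (nat_lit 358) (nat_lit 285) (nat_lit 257)) (XT.lf (nat_lit 0) (nat_lit 472355640611) (nat_lit 152) (nat_lit 1999307970217) (nat_lit 0) (nat_lit 471728077763) (nat_lit 1) (nat_lit 5) (nat_lit 3) (nat_lit 4) (nat_lit 1) (nat_lit 4) (nat_lit 359) (nat_lit 285) (nat_lit 256))))) (XT.nd (nat_lit 234) (nat_lit 0) (nat_lit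 0) (XT.nd (nat_lit 78) (nat_lit 0) (nat_lit 0) (XT.lf (nat_lit 0) (nat_lit 545569145526) (nat_lit 152) (nat_lit 2294022554790) (nat_lit 0) (nat_lit 544940135831) (nat_lit 1) (nat_lit 5) (nat_lit 3) (nat_lit 4) (nat_lit 1) (nat_lit 4) (nat_lit 360) (nat_lit 285) (nat_lit 255)) (XT.nd (nat_lit 78) (nat_lit 0) (nat_lit 0) (XT.lf (nat_lit 0) (nat_lit 629754601311) (nat_lit 152) (nat_lit 2632965583139) (nat_lit 0) (nat_lit 629124333488) (nat_lit 1) (nat_lit 5) (nat_lit 3) (nat_lit 4) (nat_lit 1) (nat_lit 4) (nat_lit 361) (nat_lit 285) (nat_lit 254)) (XT.lf (nat_lit 0) (nat_lit 726559114709) (nat_lit 152) (nat_lit 3022768549295) (nat_lit 0) (nat_lit 725927752862) (nat_lit 1) (nat_lit 5) (nat_lit 3) (nat_lit 4) (nat_lit 1) (nat_lit 4) (nat_lit 362) (nat_lit 285) (nat_lit 253)))) (XT.nd (nat_lit 78) (nat_lit 0) (nat_lit 0) (XT.lf (nat_lit 0) (nat_lit 837876687069) (nat_lit 152) (nat_lit 3471058033033)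 (nat_lit 0) (nat_lit 837244373897) (nat_lit 1) (nat_lit 5) (nat_lit 3) (nat_lit 4) (nat_lit 1) (nat_lit 4) (nat_lit 363) (nat_lit 285) (nat_lit 252)) (XT.nd (nat_lit 78) (nat_lit 0) (nat_lit 0) (XT.lf (nat_lit 0) (nat_lit 965885270894) (nat_lit 152) (nat_lit 3986604915555) (nat_lit 0) (nat_lit 965252130483) (nat_lit 1) (nat_lit 5) (nat_lit 3) (nat_lit 4) (nat_lit 1) (nat_lit 4) (nat_lit 364) (nat_lit 285) (nat_lit 251)) (XT.lf (nat_lit 0) (nat_lit 1113089381955) (nat_lit 152) (nat_lit 4579495983694) (nat_lit 0) (nat_lit 1112455522205) (nat_lit 1) (nat_lit 5) (nat_lit 3) (nat_lit 4) (nat_lit 1) (nat_lit 4) (nat_lit 365) (nat_lit 285) (nat_lit 250))))))) (XT.nd (nat_lit 858) (nat_lit 0) (nat_lit 0) (XT.nd (nat_lit 390) (nat_lit 0) (nat_lit 0) (XT.nd (nat_lit 156) (nat_lit 0) (nat_lit 0) (XT.nd (nat_lit 78) (nat_lit 0) (nat_lit 0) (XT.lf (nat_lit 0) (nat_lit 1282369100685) (nat_lit 152) (nat_lit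 5261331280087) (nat_lit 0) (nat_lit 1281734615423) (nat_lit 1) (nat_lit 5) (nat_lit 3) (nat_lit 4) (nat_lit 1) (nat_lit 4) (nat_lit 366) (nat_lit 285) (nat_lit 249)) (XT.lf (nat_lit 0) (nat_lit 1477036421581) (nat_lit 152) (nat_lit 6045451060532) (nat_lit 0) (nat_lit 1476401392396) (nat_lit 1) (nat_lit 5) (nat_lit 3) (nat_lit 4) (nat_lit 1) (nat_lit 4) (nat_lit 367) (nat_lit 285) (nat_lit 248))) (XT.nd (nat_lit 78) (nat_lit 0) (nat_lit 0) (XT.lf (nat_lit 0) (nat_lit 1700900053096) (nat_lit 152) (nat_lit 6947196798996) (nat_lit 0) (nat_lit 1700264550934) (nat_lit 1) (nat_lit 5) (nat_lit 3) (nat_lit 4) (nat_lit 1) (nat_lit 4) (nat_lit 368) (nat_lit 285) (nat_lit 247)) (XT.nd (nat_lit 78) (nat_lit 0) (nat_lit 0) (XT.lf (nat_lit 0) (nat_lit 1958339935846) (nat_lit 152) (nat_lit 7984211346883) (nat_lit 0) (nat_lit 1957704022400) (nat_lit 1) (nat_lit 5) (nat_lit 3) (nat_lit 4) (nat_lit 1) (nat_lit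 4) (nat_lit 369) (nat_lit 285) (nat_lit 246)) (XT.lf (nat_lit 0) (nat_lit 2254392937102) (nat_lit 152) (nat_lit 9176784119260) (nat_lit 0) (nat_lit 2253756666017) (nat_lit 1) (nat_lit 5) (nat_lit 3) (nat_lit 4) (nat_lit 1) (nat_lit 4) (nat_lit 370) (nat_lit 285) (nat_lit 245))))) (XT.nd (nat_lit 234) (nat_lit 0) (nat_lit 0) (XT.nd (nat_lit 78) (nat_lit 0) (nat_lit 0) (XT.lf (nat_lit 0) (nat_lit 2594851398194) (nat_lit 152) (nat_lit 10548248061674) (nat_lit 0) (nat_lit 2594214816119) (nat_lit 1) (nat_lit 5) (nat_lit 3) (nat_lit 4) (nat_lit 1) (nat_lit 4) (nat_lit 371) (nat_lit 285) (nat_lit 244)) (XT.nd (nat_lit 78) (nat_lit 0) (nat_lit 0) (XT.lf (nat_lit 0) (nat_lit 2986376462924) (nat_lit 152) (nat_lit 12125436164303) (nat_lit 0) (nat_lit 2985739610424) (nat_lit 1) (nat_lit 5) (nat_lit 3) (nat_lit 4) (nat_lit 1) (nat_lit 4) (nat_lit 372) (nat_lit 285) (nat_lit 243)) (XT.lf (nat_lit 0)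 (nat_lit 3436628404300) (nat_lit 152) (nat_lit 13939206455241) (nat_lit 0) (nat_lit 3435991316646) (nat_lit 1) (nat_lit 5) (nat_lit 3) (nat_lit 4) (nat_lit 1) (nat_lit 4) (nat_lit 373) (nat_lit 285) (nat_lit 242)))) (XT.nd (nat_lit 78) (nat_lit 0) (nat_lit 0) (XT.lf (nat_lit 0) (nat_lit 3954416499434) (nat_lit 152) (nat_lit 16025045744528) (nat_lit 0) (nat_lit 3953779207300) (nat_lit 1) (nat_lit 5) (nat_lit 3) (nat_lit 4) (nat_lit 1) (nat_lit 4) (nat_lit 374) (nat_lit 285) (nat_lit 241)) (XT.nd (nat_lit 78) (nat_lit 0) (nat_lit 0) (XT.lf (nat_lit 0) (nat_lit 4549871384971) (nat_lit 152) (nat_lit 18423763931303) (nat_lit 0) (nat_lit 4549233915027) (nat_lit 1) (nat_lit 5) (nat_lit 3) (nat_lit 4) (nat_lit 1) (nat_lit 4) (nat_lit 375) (nat_lit 285) (nat_lit 240)) (XT.lf (nat_lit 0) (nat_lit 5234643265193) (nat_lit 152) (nat_lit 21182292458351) (nat_lit 0) (nat_lit 5234005640632) (nat_lit 1)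 (nat_lit 5) (nat_lit 3) (nat_lit 4) (nat_lit 1) (nat_lit 4) (nat_lit 376) (nat_lit 285) (nat_lit 239)))))) (XT.nd (nat_lit 390) (nat_lit 0) (nat_lit 0) (XT.nd (nat_lit 156) (nat_lit 0) (nat_lit 0) (XT.nd (nat_lit 78) (nat_lit 0) (nat_lit 0) (XT.lf (nat_lit 0) (nat_lit 6022129850800) (nat_lit 152) (nat_lit 24354602535982) (nat_lit 0) (nat_lit 6021492091789) (nat_lit 1) (nat_lit 5) (nat_lit 3) (nat_lit 4) (nat_lit 1) (nat_lit 4) (nat_lit 377) (nat_lit 285) (nat_lit 238)) (XT.lf (nat_lit 0) (nat_lit 6927738488031) (nat_lit 152) (nat_lit 28002761100500) (nat_lit 0) (nat_lit 6927100612108) (nat_lit 1) (nat_lit 5) (nat_lit 3) (nat_lit 4) (nat_lit 1) (nat_lit 4) (nat_lit 378) (nat_lit 285) (nat_lit 237))) (XT.nd (nat_lit 78) (nat_lit 0) (nat_lit 0) (XT.lf (nat_lit 0) (nat_lit 7969187606747) (nat_lit 152) (nat_lit 32198145167296) (nat_lit 0) (nat_lit 7968549629160) (nat_lit 1) (nat_lit 5) (nat_lit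 3) (nat_lit 4) (nat_lit 1) (nat_lit 4) (nat_lit 379) (nat_lit 285) (nat_lit 236)) (XT.nd (nat_lit 78) (nat_lit 0) (nat_lit 0) (XT.lf (nat_lit 0) (nat_lit 9166853385356) (nat_lit 152) (nat_lit 37022838337677) (nat_lit 0) (nat_lit 9166215319366) (nat_lit 1) (nat_lit 5) (nat_lit 3) (nat_lit 4) (nat_lit 1) (nat_lit 4) (nat_lit 380) (nat_lit 285) (nat_lit 235)) (XT.lf (nat_lit 0) (nat_lit 10544168415179) (nat_lit 152) (nat_lit 42571236782368) (nat_lit 0) (nat_lit 10543530272317) (nat_lit 1) (nat_lit 5) (nat_lit 3) (nat_lit 4) (nat_lit 1) (nat_lit 4) (nat_lit 381) (nat_lit 285) (nat_lit 234))))) (XT.nd (nat_lit 234) (nat_lit 0) (nat_lit 0) (XT.nd (nat_lit 78) (nat_lit 0) (nat_lit 0) (XT.lf (nat_lit 0) (nat_lit 12128080164191) (nat_lit 152) (nat_lit 48951896123114) (nat_lit 0) (nat_lit 12127441954484) (nat_lit 1) (nat_lit 5) (nat_lit 3) (nat_lit 4) (nat_lit 1) (nat_lit 4) (nat_lit 382) (nat_lit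 285) (nat_lit 233)) (XT.nd (nat_lit 78) (nat_lit 0) (nat_lit 0) (XT.lf (nat_lit 0) (nat_lit 13949578210090) (nat_lit 152) (nat_lit 56289655347015) (nat_lit 0) (nat_lit 13948939942257) (nat_lit 1) (nat_lit 5) (nat_lit 3) (nat_lit 4) (nat_lit 1) (nat_lit 4) (nat_lit 383) (nat_lit 285) (nat_lit 232)) (XT.lf (nat_lit 0) (nat_lit 16044300558121) (nat_lit 152) (nat_lit 64728079308453) (nat_lit 0) (nat_lit 16043662239744) (nat_lit 1) (nat_lit 5) (nat_lit 3) (nat_lit 4) (nat_lit 1) (nat_lit 4) (nat_lit 384) (nat_lit 285) (nat_lit 231)))) (XT.nd (nat_lit 78) (nat_lit 0) (nat_lit 0) (XT.lf (nat_lit 0) (nat_lit 18453230906400) (nat_lit 152) (nat_lit 74432267606672) (nat_lit 0) (nat_lit 18452592544071) (nat_lit 1) (nat_lit 5) (nat_lit 3) (nat_lit 4) (nat_lit 1) (nat_lit 4) (nat_lit 385) (nat_lit 285) (nat_lit 230)) (XT.nd (nat_lit 42354) (nat_lit 0) (nat_lit 228) (XT.lf (nat_lit 0) (nat_lit 21223500500869)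 (nat_lit 152) (nat_lit 85592084795334) (nat_lit 0) (nat_lit 21222862100321) (nat_lit 1) (nat_lit 5) (nat_lit 3) (nat_lit 4) (nat_lit 1) (nat_lit 4) (nat_lit 386) (nat_lit 285) (nat_lit 229)) (XT.lf (nat_lit 0) (nat_lit 7937601442) (nat_lit 152) (nat_lit 5760734838) (nat_lit 0) (nat_lit 7937601442) (nat_lit 4) (nat_lit 5) (nat_lit 6) (nat_lit 4) (nat_lit 4) (nat_lit 4) (nat_lit 328) (nat_lit 286) (nat_lit 286))))))))
noncomputable def xc23 : XT := (XT.nd (nat_lit 1716) (nat_lit 0) (nat_lit 0) (XT.nd (nat_lit 858) (nat_lit 0) (nat_lit 0) (XT.nd (nat_lit 390) (nat_lit 152) (nat_lit 0) (XT.nd (nat_lit 156) (nat_lit 0) (nat_lit 0) (XT.nd (nat_lit 78) (nat_lit 76) (nat_lit 0) (XT.lf (nat_lit 0) (nat_lit 24104217101) (nat_lit 152) (nat_lit 767446707) (nat_lit 0) (nat_lit 23994049055) (nat_lit 4) (nat_lit 5) (nat_lit 6) (nat_lit 4) (nat_lit 4) (nat_lit 4) (nat_lit 329) (nat_lit 286) (nat_lit 285))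 (XT.lf (nat_lit 0) (nat_lit 11568877143) (nat_lit 76) (nat_lit 21970040613) (nat_lit 76) (nat_lit 21764074266) (nat_lit 3) (nat_lit 4) (nat_lit 4) (nat_lit 5) (nat_lit 4) (nat_lit 4) (nat_lit 330) (nat_lit 286) (nat_lit 284))) (XT.nd (nat_lit 78) (nat_lit 0) (nat_lit 0) (XT.lf (nat_lit 0) (nat_lit 24829371747) (nat_lit 76) (nat_lit 19116156240) (nat_lit 76) (nat_lit 18826887022) (nat_lit 3) (nat_lit 4) (nat_lit 4) (nat_lit 5) (nat_lit 4) (nat_lit 4) (nat_lit 331) (nat_lit 286) (nat_lit 283)) (XT.nd (nat_lit 78) (nat_lit 0) (nat_lit 0) (XT.lf (nat_lit 0) (nat_lit 39198481091) (nat_lit 76) (nat_lit 16294290354) (nat_lit 76) (nat_lit 15932583857) (nat_lit 3) (nat_lit 4) (nat_lit 4) (nat_lit 5) (nat_lit 4) (nat_lit 4) (nat_lit 332) (nat_lit 286) (nat_lit 282)) (XT.lf (nat_lit 0) (nat_lit 54957339921) (nat_lit 76) (nat_lit 13449232535) (nat_lit 76) (nat_lit 13024537100) (nat_lit 3) (nat_lit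 4) (nat_lit 4) (nat_lit 5) (nat_lit 4) (nat_lit 4) (nat_lit 333) (nat_lit 286) (nat_lit 281))))) (XT.nd (nat_lit 234) (nat_lit 152) (nat_lit 0) (XT.nd (nat_lit 78) (nat_lit 0) (nat_lit 0) (XT.lf (nat_lit 0) (nat_lit 72414273738) (nat_lit 76) (nat_lit 10525318609) (nat_lit 76) (nat_lit 10045850184) (nat_lit 3) (nat_lit 4) (nat_lit 4) (nat_lit 5) (nat_lit 4) (nat_lit 4) (nat_lit 334) (nat_lit 286) (nat_lit 280)) (XT.nd (nat_lit 78) (nat_lit 0) (nat_lit 0) (XT.lf (nat_lit 0) (nat_lit 91910831245) (nat_lit 76) (nat_lit 7465341564) (nat_lit 76) (nat_lit 6938244453) (nat_lit 3) (nat_lit 4) (nat_lit 4) (nat_lit 5) (nat_lit 4) (nat_lit 4) (nat_lit 335) (nat_lit 286) (nat_lit 279)) (XT.lf (nat_lit 0) (nat_lit 113828466829) (nat_lit 76) (nat_lit 4209432285) (nat_lit 76) (nat_lit 3640918924) (nat_lit 3) (nat_lit 4) (nat_lit 4) (nat_lit 5) (nat_lit 4) (nat_lit 4) (nat_lit 336) (nat_lit 286) (nat_lit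 278)))) (XT.nd (nat_lit 78) (nat_lit 152) (nat_lit 0) (XT.lf (nat_lit 0) (nat_lit 138596003796) (nat_lit 76) (nat_lit 693888197) (nat_lit 76) (nat_lit 89360707) (nat_lit 3) (nat_lit 4) (nat_lit 4) (nat_lit 5) (nat_lit 4) (nat_lit 4) (nat_lit 337) (nat_lit 286) (nat_lit 277)) (XT.nd (nat_lit 78) (nat_lit 0) (nat_lit 0) (XT.lf (nat_lit 0) (nat_lit 3909591737) (nat_lit 152) (nat_lit 152403135087) (nat_lit 0) (nat_lit 3356683802) (nat_lit 1) (nat_lit 5) (nat_lit 3) (nat_lit 4) (nat_lit 1) (nat_lit 4) (nat_lit 338) (nat_lit 286) (nat_lit 276)) (XT.lf (nat_lit 0) (nat_lit 8385548409) (nat_lit 152) (nat_lit 166825014795) (nat_lit 0) (nat_lit 7808960600) (nat_lit 1) (nat_lit 5) (nat_lit 3) (nat_lit 4) (nat_lit 1) (nat_lit 4) (nat_lit 339) (nat_lit 286) (nat_lit 275)))))) (XT.nd (nat_lit 390) (nat_lit 0) (nat_lit 0) (XT.nd (nat_lit 156) (nat_lit 0) (nat_lit 0) (XT.nd (nat_lit 78) (nat_lit 0) (nat_lit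 0) (XT.lf (nat_lit 0) (nat_lit 13368007885) (nat_lit 152) (nat_lit 183758065042) (nat_lit 0) (nat_lit 12770828880) (nat_lit 1) (nat_lit 5) (nat_lit 3) (nat_lit 4) (nat_lit 1) (nat_lit 4) (nat_lit 340) (nat_lit 286) (nat_lit 274)) (XT.lf (nat_lit 0) (nat_lit 18954453066) (nat_lit 152) (nat_lit 203533584638) (nat_lit 0) (nat_lit 18339368674) (nat_lit 1) (nat_lit 5) (nat_lit 3) (nat_lit 4) (nat_lit 1) (nat_lit 4) (nat_lit 341) (nat_lit 286) (nat_lit 273))) (XT.nd (nat_lit 78) (nat_lit 0) (nat_lit 0) (XT.lf (nat_lit 0) (nat_lit 25254183968) (nat_lit 152) (nat_lit 226538485923) (nat_lit 0) (nat_lit 24623529674) (nat_lit 1) (nat_lit 5) (nat_lit 3) (nat_lit 4) (nat_lit 1) (nat_lit 4) (nat_lit 342) (nat_lit 286) (nat_lit 272)) (XT.nd (nat_lit 78) (nat_lit 0) (nat_lit 0) (XT.lf (nat_lit 0) (nat_lit 32390456196) (nat_lit 152) (nat_lit 253222864791) (nat_lit 0) (nat_lit 31746262856) (nat_lit 1) (nat_lit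 5) (nat_lit 3) (nat_lit 4) (nat_lit 1) (nat_lit 4) (nat_lit 343) (nat_lit 286) (nat_lit 271)) (XT.lf (nat_lit 0) (nat_lit 40502892466) (nat_lit 152) (nat_lit 284108806917) (nat_lit 0) (nat_lit 39846926043) (nat_lit 1) (nat_lit 5) (nat_lit 3) (nat_lit 4) (nat_lit 1) (nat_lit 4) (nat_lit 344) (nat_lit 286) (nat_lit 270))))) (XT.nd (nat_lit 234) (nat_lit 0) (nat_lit 0) (XT.nd (nat_lit 78) (nat_lit 0) (nat_lit 0) (XT.lf (nat_lit 0) (nat_lit 49750214357) (nat_lit 152) (nat_lit 319800602472) (nat_lit 0) (nat_lit 49084010471) (nat_lit 1) (nat_lit 5) (nat_lit 3) (nat_lit 4) (nat_lit 1) (nat_lit 4) (nat_lit 345) (nat_lit 286) (nat_lit 269)) (XT.nd (nat_lit 78) (nat_lit 0) (nat_lit 0) (XT.lf (nat_lit 0) (nat_lit 60313347734) (nat_lit 152) (nat_lit 360996569195) (nat_lit 0) (nat_lit 59638241705) (nat_lit 1) (nat_lit 5) (nat_lit 3) (nat_lit 4) (nat_lit 1) (nat_lit 4) (nat_lit 346) (nat_lit 286) (nat_lit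 268)) (XT.lf (nat_lit 0) (nat_lit 72398962596) (nat_lit 152) (nat_lit 408502715130) (nat_lit 0) (nat_lit 71716115575) (nat_lit 1) (nat_lit 5) (nat_lit 3) (nat_lit 4) (nat_lit 1) (nat_lit 4) (nat_lit 347) (nat_lit 286) (nat_lit 267)))) (XT.nd (nat_lit 78) (nat_lit 0) (nat_lit 0) (XT.lf (nat_lit 0) (nat_lit 86243516626) (nat_lit 152) (nat_lit 463248508351) (nat_lit 0) (nat_lit 85553938306) (nat_lit 1) (nat_lit 5) (nat_lit 3) (nat_lit 4) (nat_lit 1) (nat_lit 4) (nat_lit 348) (nat_lit 286) (nat_lit 266)) (XT.nd (nat_lit 78) (nat_lit 0) (nat_lit 0) (XT.lf (nat_lit 0) (nat_lit 102117881533) (nat_lit 152) (nat_lit 526305062203) (nat_lit 0) (nat_lit 101422449911) (nat_lit 1) (nat_lit 5) (nat_lit 3) (nat_lit 4) (nat_lit 1) (nat_lit 4) (nat_lit 349) (nat_lit 286) (nat_lit 265)) (XT.lf (nat_lit 0) (nat_lit 120332642718) (nat_lit 152) (nat_lit 598906091871) (nat_lit 0) (nat_lit 119632121267) (nat_lit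 1) (nat_lit 5) (nat_lit 3) (nat_lit 4) (nat_lit 1) (nat_lit 4) (nat_lit 350) (nat_lit 286) (nat_lit 264))))))) (XT.nd (nat_lit 858) (nat_lit 0) (nat_lit 0) (XT.nd (nat_lit 390) (nat_lit 0) (nat_lit 0) (XT.nd (nat_lit 156) (nat_lit 0) (nat_lit 0) (XT.nd (nat_lit 78) (nat_lit 0) (nat_lit 0) (XT.lf (nat_lit 0) (nat_lit 141244175943) (nat_lit 152) (nat_lit 682472052282) (nat_lit 0) (nat_lit 140539228553) (nat_lit 1) (nat_lit 5) (nat_lit 3) (nat_lit 4) (nat_lit 1) (nat_lit 4) (nat_lit 351) (nat_lit 286) (nat_lit 263)) (XT.lf (nat_lit 0) (nat_lit 165261619901) (nat_lit 152) (nat_lit 778637929618) (nat_lit 0) (nat_lit 164552823870) (nat_lit 1) (nat_lit 5) (nat_lit 3) (nat_lit 4) (nat_lit 1) (nat_lit 4) (nat_lit 352) (nat_lit 286) (nat_lit 262))) (XT.nd (nat_lit 78) (nat_lit 0) (nat_lit 0) (XT.lf (nat_lit 0) (nat_lit 192854881104) (nat_lit 152) (nat_lit 889285230175) (nat_lit 0) (nat_lit 192142738428)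 (nat_lit 1) (nat_lit 5) (nat_lit 3) (nat_lit 4) (nat_lit 1) (nat_lit 4) (nat_lit 353) (nat_lit 286) (nat_lit 261)) (XT.nd (nat_lit 78) (nat_lit 0) (nat_lit 0) (XT.lf (nat_lit 0) (nat_lit 224563827707) (nat_lit 152) (nat_lit 1016578792442) (nat_lit 0) (nat_lit 223848774905) (nat_lit 1) (nat_lit 5) (nat_lit 3) (nat_lit 4) (nat_lit 1) (nat_lit 4) (nat_lit 354) (nat_lit 286) (nat_lit 260)) (XT.lf (nat_lit 0) (nat_lit 261008852143) (nat_lit 152) (nat_lit 1163009142638) (nat_lit 0) (nat_lit 260291268796) (nat_lit 1) (nat_lit 5) (nat_lit 3) (nat_lit 4) (nat_lit 1) (nat_lit 4) (nat_lit 355) (nat_lit 286) (nat_lit 259))))) (XT.nd (nat_lit 234) (nat_lit 0) (nat_lit 0) (XT.nd (nat_lit 78) (nat_lit 0) (nat_lit 0) (XT.lf (nat_lit 0) (nat_lit 302903009238) (nat_lit 152) (nat_lit 1331441222397) (nat_lit 0) (nat_lit 302183225418) (nat_lit 1) (nat_lit 5) (nat_lit 3) (nat_lit 4) (nat_lit 1) (nat_lit 4)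 (nat_lit 356) (nat_lit 286) (nat_lit 258)) (XT.nd (nat_lit 78) (nat_lit 0) (nat_lit 0) (XT.lf (nat_lit 0) (nat_lit 351065967283) (nat_lit 152) (nat_lit 1525170441974) (nat_lit 0) (nat_lit 350344270008) (nat_lit 1) (nat_lit 5) (nat_lit 3) (nat_lit 4) (nat_lit 1) (nat_lit 4) (nat_lit 357) (nat_lit 286) (nat_lit 257)) (XT.lf (nat_lit 0) (nat_lit 406440045022) (nat_lit 152) (nat_lit 1747987155667) (nat_lit 0) (nat_lit 405716683873) (nat_lit 1) (nat_lit 5) (nat_lit 3) (nat_lit 4) (nat_lit 1) (nat_lit 4) (nat_lit 358) (nat_lit 286) (nat_lit 256)))) (XT.nd (nat_lit 78) (nat_lit 0) (nat_lit 0) (XT.lf (nat_lit 0) (nat_lit 470108648324) (nat_lit 152) (nat_lit 2004250820916) (nat_lit 0) (nat_lit 469383840328) (nat_lit 1) (nat_lit 5) (nat_lit 3) (nat_lit 4) (nat_lit 1) (nat_lit 4) (nat_lit 359) (nat_lit 286) (nat_lit 255)) (XT.nd (nat_lit 78) (nat_lit 0) (nat_lit 0) (XT.lf (nat_lit 0) (nat_lit 543317467254)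 (nat_lit 152) (nat_lit 2298975292042) (nat_lit 0) (nat_lit 542591401131) (nat_lit 1) (nat_lit 5) (nat_lit 3) (nat_lit 4) (nat_lit 1) (nat_lit 4) (nat_lit 360) (nat_lit 286) (nat_lit 254)) (XT.lf (nat_lit 0) (nat_lit 627498848269) (nat_lit 152) (nat_lit 2637926917393) (nat_lit 0) (nat_lit 626771688121) (nat_lit 1) (nat_lit 5) (nat_lit 3) (nat_lit 4) (nat_lit 1) (nat_lit 4) (nat_lit 361) (nat_lit 286) (nat_lit 253)))))) (XT.nd (nat_lit 468) (nat_lit 0) (nat_lit 0) (XT.nd (nat_lit 234) (nat_lit 0) (nat_lit 0) (XT.nd (nat_lit 78) (nat_lit 0) (nat_lit 0) (XT.lf (nat_lit 0) (nat_lit 724299818389) (nat_lit 152) (nat_lit 3027737359205) (nat_lit 0) (nat_lit 723571706916) (nat_lit 1) (nat_lit 5) (nat_lit 3) (nat_lit 4) (nat_lit 1) (nat_lit 4) (nat_lit 362) (nat_lit 286) (nat_lit 252)) (XT.nd (nat_lit 78) (nat_lit 0) (nat_lit 0) (XT.lf (nat_lit 0) (nat_lit 835614309638) (nat_lit 152) (nat_lit 3476033343512)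 (nat_lit 0) (nat_lit 834885370926) (nat_lit 1) (nat_lit 5) (nat_lit 3) (nat_lit 4) (nat_lit 1) (nat_lit 4) (nat_lit 363) (nat_lit 286) (nat_lit 251)) (XT.lf (nat_lit 0) (nat_lit 963620214236) (nat_lit 152) (nat_lit 3991585878703) (nat_lit 0) (nat_lit 962890556185) (nat_lit 1) (nat_lit 5) (nat_lit 3) (nat_lit 4) (nat_lit 1) (nat_lit 4) (nat_lit 364) (nat_lit 286) (nat_lit 250)))) (XT.nd (nat_lit 78) (nat_lit 0) (nat_lit 0) (XT.lf (nat_lit 0) (nat_lit 1110821995535) (nat_lit 152) (nat_lit 4584481862206) (nat_lit 0) (nat_lit 1110091711971) (nat_lit 1) (nat_lit 5) (nat_lit 3) (nat_lit 4) (nat_lit 1) (nat_lit 4) (nat_lit 365) (nat_lit 286) (nat_lit 249)) (XT.nd (nat_lit 78) (nat_lit 0) (nat_lit 0) (XT.lf (nat_lit 0) (nat_lit 1280099688384) (nat_lit 152) (nat_lit 5266321432828) (nat_lit 0) (nat_lit 1279368860898) (nat_lit 1) (nat_lit 5) (nat_lit 3) (nat_lit 4) (nat_lit 1) (nat_lit 4) (nat_lit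 366) (nat_lit 286) (nat_lit 248)) (XT.lf (nat_lit 0) (nat_lit 1474765247645) (nat_lit 152) (nat_lit 6050444929996) (nat_lit 0) (nat_lit 1474033947182) (nat_lit 1) (nat_lit 5) (nat_lit 3) (nat_lit 4) (nat_lit 1) (nat_lit 4) (nat_lit 367) (nat_lit 286) (nat_lit 247))))) (XT.nd (nat_lit 234) (nat_lit 0) (nat_lit 0) (XT.nd (nat_lit 78) (nat_lit 0) (nat_lit 0) (XT.lf (nat_lit 0) (nat_lit 1698627347303) (nat_lit 152) (nat_lit 6952193900391) (nat_lit 0) (nat_lit 1697895635555) (nat_lit 1) (nat_lit 5) (nat_lit 3) (nat_lit 4) (nat_lit 1) (nat_lit 4) (nat_lit 368) (nat_lit 286) (nat_lit 246)) (XT.nd (nat_lit 78) (nat_lit 0) (nat_lit 0) (XT.lf (nat_lit 0) (nat_lit 1956065898004) (nat_lit 152) (nat_lit 7989211258654) (nat_lit 0) (nat_lit 1955333828618) (nat_lit 1) (nat_lit 5) (nat_lit 3) (nat_lit 4) (nat_lit 1) (nat_lit 4) (nat_lit 369) (nat_lit 286) (nat_lit 245)) (XT.lf (nat_lit 0) (nat_lit 2252117740956)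 (nat_lit 152) (nat_lit 9181786474836) (nat_lit 0) (nat_lit 2251385360580) (nat_lit 1) (nat_lit 5) (nat_lit 3) (nat_lit 4) (nat_lit 1) (nat_lit 4) (nat_lit 370) (nat_lit 286) (nat_lit 244)))) (XT.nd (nat_lit 78) (nat_lit 0) (nat_lit 0) (XT.lf (nat_lit 0) (nat_lit 2592575194827) (nat_lit 152) (nat_lit 10553252542297) (nat_lit 0) (nat_lit 2591842544025) (nat_lit 1) (nat_lit 5) (nat_lit 3) (nat_lit 4) (nat_lit 1) (nat_lit 4) (nat_lit 371) (nat_lit 286) (nat_lit 243)) (XT.nd (nat_lit 78) (nat_lit 0) (nat_lit 0) (XT.lf (nat_lit 0) (nat_lit 2984099383714) (nat_lit 152) (nat_lit 12130442492793) (nat_lit 0) (nat_lit 2983366497759) (nat_lit 1) (nat_lit 5) (nat_lit 3) (nat_lit 4) (nat_lit 1) (nat_lit 4) (nat_lit 372) (nat_lit 286) (nat_lit 242)) (XT.lf (nat_lit 0) (nat_lit 3434350563486) (nat_lit 152) (nat_lit 13944214390572) (nat_lit 0) (nat_lit 3433617473050) (nat_lit 1) (nat_lit 5) (nat_lit 3)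 (nat_lit 4) (nat_lit 1) (nat_lit 4) (nat_lit 373) (nat_lit 286) (nat_lit 241))))))))
noncomputable def xc24 : XT := (XT.nd (nat_lit 43836) (nat_lit 0) (nat_lit 0) (XT.nd (nat_lit 858) (nat_lit 0) (nat_lit 0) (XT.nd (nat_lit 390) (nat_lit 0) (nat_lit 0) (XT.nd (nat_lit 156) (nat_lit 0) (nat_lit 0) (XT.nd (nat_lit 78) (nat_lit 0) (nat_lit 0) (XT.lf (nat_lit 0) (nat_lit 3952137996356) (nat_lit 152) (nat_lit 16030055077113) (nat_lit 0) (nat_lit 3951404728110) (nat_lit 1) (nat_lit 5) (nat_lit 3) (nat_lit 4) (nat_lit 1) (nat_lit 4) (nat_lit 374) (nat_lit 286) (nat_lit 240)) (XT.lf (nat_lit 0) (nat_lit 4547592306011) (nat_lit 152) (nat_lit 18428774478891) (nat_lit 0) (nat_lit 4546858883149) (nat_lit 1) (nat_lit 5) (nat_lit 3) (nat_lit 4) (nat_lit 1) (nat_lit 4) (nat_lit 375) (nat_lit 286) (nat_lit 239))) (XT.nd (nat_lit 78) (nat_lit 0) (nat_lit 0) (XT.lf (nat_lit 0) (nat_lit 5232363685466) (nat_lit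 152) (nat_lit 21187304062463) (nat_lit 0) (nat_lit 5231630128154) (nat_lit 1) (nat_lit 5) (nat_lit 3) (nat_lit 4) (nat_lit 1) (nat_lit 4) (nat_lit 376) (nat_lit 286) (nat_lit 238)) (XT.nd (nat_lit 78) (nat_lit 0) (nat_lit 0) (XT.lf (nat_lit 0) (nat_lit 6019849835623) (nat_lit 152) (nat_lit 24359615058811) (nat_lit 0) (nat_lit 6019116161399) (nat_lit 1) (nat_lit 5) (nat_lit 3) (nat_lit 4) (nat_lit 1) (nat_lit 4) (nat_lit 377) (nat_lit 286) (nat_lit 237)) (XT.lf (nat_lit 0) (nat_lit 6925458094203) (nat_lit 152) (nat_lit 28007774422213) (nat_lit 0) (nat_lit 6924724318316) (nat_lit 1) (nat_lit 5) (nat_lit 3) (nat_lit 4) (nat_lit 1) (nat_lit 4) (nat_lit 378) (nat_lit 286) (nat_lit 236))))) (XT.nd (nat_lit 234) (nat_lit 0) (nat_lit 0) (XT.nd (nat_lit 78) (nat_lit 0) (nat_lit 0) (XT.lf (nat_lit 0) (nat_lit 7966906883657) (nat_lit 152) (nat_lit 32203159183690) (nat_lit 0) (nat_lit 7966173019366)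 (nat_lit 1) (nat_lit 5) (nat_lit 3) (nat_lit 4) (nat_lit 1) (nat_lit 4) (nat_lit 379) (nat_lit 286) (nat_lit 235)) (XT.nd (nat_lit 78) (nat_lit 0) (nat_lit 0) (XT.lf (nat_lit 0) (nat_lit 9164572375951) (nat_lit 152) (nat_lit 37027852958143) (nat_lit 0) (nat_lit 9163838434788) (nat_lit 1) (nat_lit 5) (nat_lit 3) (nat_lit 4) (nat_lit 1) (nat_lit 4) (nat_lit 380) (nat_lit 286) (nat_lit 234)) (XT.lf (nat_lit 0) (nat_lit 10541887156804) (nat_lit 152) (nat_lit 42576251928113) (nat_lit 0) (nat_lit 10541153148796) (nat_lit 1) (nat_lit 5) (nat_lit 3) (nat_lit 4) (nat_lit 1) (nat_lit 4) (nat_lit 381) (nat_lit 286) (nat_lit 233)))) (XT.nd (nat_lit 78) (nat_lit 0) (nat_lit 0) (XT.lf (nat_lit 0) (nat_lit 12125798689321) (nat_lit 152) (nat_lit 48956911725624) (nat_lit 0) (nat_lit 12125064623187) (nat_lit 1) (nat_lit 5) (nat_lit 3) (nat_lit 4) (nat_lit 1) (nat_lit 4) (nat_lit 382) (nat_lit 286) (nat_lit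 232)) (XT.nd (nat_lit 78) (nat_lit 0) (nat_lit 0) (XT.lf (nat_lit 0) (nat_lit 13947296546963) (nat_lit 152) (nat_lit 56294671346711) (nat_lit 0) (nat_lit 13946562430285) (nat_lit 1) (nat_lit 5) (nat_lit 3) (nat_lit 4) (nat_lit 1) (nat_lit 4) (nat_lit 383) (nat_lit 286) (nat_lit 231)) (XT.lf (nat_lit 0) (nat_lit 16042018731293) (nat_lit 152) (nat_lit 64733095653529) (nat_lit 0) (nat_lit 16041284570663) (nat_lit 1) (nat_lit 5) (nat_lit 3) (nat_lit 4) (nat_lit 1) (nat_lit 4) (nat_lit 384) (nat_lit 286) (nat_lit 230)))))) (XT.nd (nat_lit 42510) (nat_lit 0) (nat_lit 152) (XT.nd (nat_lit 42276) (nat_lit 0) (nat_lit 228) (XT.nd (nat_lit 78) (nat_lit 0) (nat_lit 0) (XT.lf (nat_lit 0) (nat_lit 18450948937223) (nat_lit 152) (nat_lit 74437284252078) (nat_lit 0) (nat_lit 18450214738373) (nat_lit 1) (nat_lit 5) (nat_lit 3) (nat_lit 4) (nat_lit 1) (nat_lit 4) (nat_lit 385) (nat_lit 286) (nat_lit 229))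 (XT.lf (nat_lit 0) (nat_lit 21221218407910) (nat_lit 152) (nat_lit 85597101701897) (nat_lit 0) (nat_lit 21220484175827) (nat_lit 1) (nat_lit 5) (nat_lit 3) (nat_lit 4) (nat_lit 1) (nat_lit 4) (nat_lit 386) (nat_lit 286) (nat_lit 228))) (XT.nd (nat_lit 78) (nat_lit 0) (nat_lit 0) (XT.lf (nat_lit 0) (nat_lit 701578052) (nat_lit 152) (nat_lit 15777442581) (nat_lit 0) (nat_lit 701578052) (nat_lit 4) (nat_lit 5) (nat_lit 6) (nat_lit 4) (nat_lit 4) (nat_lit 4) (nat_lit 326) (nat_lit 287) (nat_lit 287)) (XT.nd (nat_lit 78) (nat_lit 0) (nat_lit 0) (XT.lf (nat_lit 0) (nat_lit 8338523374) (nat_lit 152) (nat_lit 21933538003) (nat_lit 0) (nat_lit 8211830120) (nat_lit 4) (nat_lit 5) (nat_lit 6) (nat_lit 4) (nat_lit 4) (nat_lit 4) (nat_lit 327) (nat_lit 287) (nat_lit 286)) (XT.lf (nat_lit 0) (nat_lit 15730331272) (nat_lit 152) (nat_lit 12088844377) (nat_lit 0) (nat_lit 15493469972) (nat_lit 4) (nat_lit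 5) (nat_lit 6) (nat_lit 4) (nat_lit 4) (nat_lit 4) (nat_lit 328) (nat_lit 287) (nat_lit 285))))) (XT.nd (nat_lit 234) (nat_lit 0) (nat_lit 0) (XT.nd (nat_lit 78) (nat_lit 76) (nat_lit 0) (XT.lf (nat_lit 0) (nat_lit 23723202128) (nat_lit 152) (nat_lit 1828190714) (nat_lit 0) (nat_lit 23390542527) (nat_lit 4) (nat_lit 5) (nat_lit 6) (nat_lit 4) (nat_lit 4) (nat_lit 4) (nat_lit 329) (nat_lit 287) (nat_lit 284)) (XT.nd (nat_lit 78) (nat_lit 0) (nat_lit 0) (XT.lf (nat_lit 0) (nat_lit 9933526090) (nat_lit 76) (nat_lit 22951318240) (nat_lit 76) (nat_lit 22535355768) (nat_lit 3) (nat_lit 4) (nat_lit 4) (nat_lit 5) (nat_lit 4) (nat_lit 4) (nat_lit 330) (nat_lit 287) (nat_lit 283)) (XT.lf (nat_lit 0) (nat_lit 22784504671) (nat_lit 76) (nat_lit 20311434398) (nat_lit 76) (nat_lit 19823034648) (nat_lit 3) (nat_lit 4) (nat_lit 4) (nat_lit 5) (nat_lit 4) (nat_lit 4) (nat_lit 331) (nat_lit 287) (nat_lit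 282)))) (XT.nd (nat_lit 78) (nat_lit 0) (nat_lit 0) (XT.lf (nat_lit 0) (nat_lit 36797513124) (nat_lit 76) (nat_lit 17675655930) (nat_lit 76) (nat_lit 17124267242) (nat_lit 3) (nat_lit 4) (nat_lit 4) (nat_lit 5) (nat_lit 4) (nat_lit 4) (nat_lit 332) (nat_lit 287) (nat_lit 281)) (XT.nd (nat_lit 78) (nat_lit 0) (nat_lit 0) (XT.lf (nat_lit 0) (nat_lit 52246719006) (nat_lit 76) (nat_lit 14992413258) (nat_lit 76) (nat_lit 14386251581) (nat_lit 3) (nat_lit 4) (nat_lit 4) (nat_lit 5) (nat_lit 4) (nat_lit 4) (nat_lit 333) (nat_lit 287) (nat_lit 280)) (XT.lf (nat_lit 0) (nat_lit 69434389389) (nat_lit 76) (nat_lit 12209208156) (nat_lit 76) (nat_lit 11555417791) (nat_lit 3) (nat_lit 4) (nat_lit 4) (nat_lit 5) (nat_lit 4) (nat_lit 4) (nat_lit 334) (nat_lit 287) (nat_lit 279))))))) (XT.nd (nat_lit 858) (nat_lit 0) (nat_lit 0) (XT.nd (nat_lit 390) (nat_lit 0) (nat_lit 0) (XT.nd (nat_lit 156) (nat_lit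 152) (nat_lit 0) (XT.nd (nat_lit 78) (nat_lit 0) (nat_lit 0) (XT.lf (nat_lit 0) (nat_lit 88696804781) (nat_lit 76) (nat_lit 9271586610) (nat_lit 76) (nat_lit 8576379996) (nat_lit 3) (nat_lit 4) (nat_lit 4) (nat_lit 5) (nat_lit 4) (nat_lit 4) (nat_lit 335) (nat_lit 287) (nat_lit 278)) (XT.lf (nat_lit 0) (nat_lit 110410838525) (nat_lit 76) (nat_lit 6122073416) (nat_lit 76) (nat_lit 5390852672) (nat_lit 3) (nat_lit 4) (nat_lit 4) (nat_lit 5) (nat_lit 4) (nat_lit 4) (nat_lit 336) (nat_lit 287) (nat_lit 277))) (XT.nd (nat_lit 78) (nat_lit 152) (nat_lit 0) (XT.lf (nat_lit 0) (nat_lit 135001330413) (nat_lit 76) (nat_lit 2699047664) (nat_lit 76) (nat_lit 1936510286) (nat_lit 3) (nat_lit 4) (nat_lit 4) (nat_lit 5) (nat_lit 4) (nat_lit 4) (nat_lit 337) (nat_lit 287) (nat_lit 276)) (XT.nd (nat_lit 78) (nat_lit 0) (nat_lit 0) (XT.lf (nat_lit 0) (nat_lit 1872218172) (nat_lit 152) (nat_lit 156934046901)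 (nat_lit 0) (nat_lit 1185462316) (nat_lit 1) (nat_lit 5) (nat_lit 3) (nat_lit 4) (nat_lit 1) (nat_lit 4) (nat_lit 338) (nat_lit 287) (nat_lit 275)) (XT.lf (nat_lit 0) (nat_lit 6271481496) (nat_lit 152) (nat_lit 171517735252) (nat_lit 0) (nat_lit 5564134445) (nat_lit 1) (nat_lit 5) (nat_lit 3) (nat_lit 4) (nat_lit 1) (nat_lit 4) (nat_lit 339) (nat_lit 287) (nat_lit 274))))) (XT.nd (nat_lit 234) (nat_lit 0) (nat_lit 0) (XT.nd (nat_lit 78) (nat_lit 0) (nat_lit 0) (XT.lf (nat_lit 0) (nat_lit 11187251104) (nat_lit 152) (nat_lit 188591488668) (nat_lit 0) (nat_lit 10461998666) (nat_lit 1) (nat_lit 5) (nat_lit 3) (nat_lit 4) (nat_lit 1) (nat_lit 4) (nat_lit 340) (nat_lit 287) (nat_lit 273)) (XT.nd (nat_lit 78) (nat_lit 0) (nat_lit 0) (XT.lf (nat_lit 0) (nat_lit 16715705097) (nat_lit 152) (nat_lit 208489358845) (nat_lit 0) (nat_lit 15974882756) (nat_lit 1) (nat_lit 5) (nat_lit 3) (nat_lit 4) (nat_lit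 1) (nat_lit 4) (nat_lit 341) (nat_lit 287) (nat_lit 272)) (XT.lf (nat_lit 0) (nat_lit 22965008878) (nat_lit 152) (nat_lit 231600651940) (nat_lit 0) (nat_lit 22210647492) (nat_lit 1) (nat_lit 5) (nat_lit 3) (nat_lit 4) (nat_lit 1) (nat_lit 4) (nat_lit 342) (nat_lit 287) (nat_lit 271)))) (XT.nd (nat_lit 78) (nat_lit 0) (nat_lit 0) (XT.lf (nat_lit 0) (nat_lit 30057431435) (nat_lit 152) (nat_lit 258377545425) (nat_lit 0) (nat_lit 29291296966) (nat_lit 1) (nat_lit 5) (nat_lit 3) (nat_lit 4) (nat_lit 1) (nat_lit 4) (nat_lit 343) (nat_lit 287) (nat_lit 270)) (XT.nd (nat_lit 78) (nat_lit 0) (nat_lit 0) (XT.lf (nat_lit 0) (nat_lit 38131737556) (nat_lit 152) (nat_lit 289343935044) (nat_lit 0) (nat_lit 37355365624) (nat_lit 1) (nat_lit 5) (nat_lit 3) (nat_lit 4) (nat_lit 1) (nat_lit 4) (nat_lit 344) (nat_lit 287) (nat_lit 269)) (XT.lf (nat_lit 0) (nat_lit 47345902797) (nat_lit 152) (nat_lit 325105684940)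 (nat_lit 0) (nat_lit 46560628723) (nat_lit 1) (nat_lit 5) (nat_lit 3) (nat_lit 4) (nat_lit 1) (nat_lit 4) (nat_lit 345) (nat_lit 287) (nat_lit 268)))))) (XT.nd (nat_lit 390) (nat_lit 0) (nat_lit 0) (XT.nd (nat_lit 156) (nat_lit 0) (nat_lit 0) (XT.nd (nat_lit 78) (nat_lit 0) (nat_lit 0) (XT.lf (nat_lit 0) (nat_lit 57880204304) (nat_lit 152) (nat_lit 366362481526) (nat_lit 0) (nat_lit 57087189236) (nat_lit 1) (nat_lit 5) (nat_lit 3) (nat_lit 4) (nat_lit 1) (nat_lit 4) (nat_lit 346) (nat_lit 287) (nat_lit 267)) (XT.lf (nat_lit 0) (nat_lit 69940747975) (nat_lit 152) (nat_lit 413921522994) (nat_lit 0) (nat_lit 69141001609) (nat_lit 1) (nat_lit 5) (nat_lit 3) (nat_lit 4) (nat_lit 1) (nat_lit 4) (nat_lit 347) (nat_lit 287) (nat_lit 266))) (XT.nd (nat_lit 78) (nat_lit 0) (nat_lit 0) (XT.lf (nat_lit 0) (nat_lit 83763500969) (nat_lit 152) (nat_lit 468713312331) (nat_lit 0) (nat_lit 82957901300)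 (nat_lit 1) (nat_lit 5) (nat_lit 3) (nat_lit 4) (nat_lit 1) (nat_lit 4) (nat_lit 348) (nat_lit 287) (nat_lit 265)) (XT.nd (nat_lit 78) (nat_lit 0) (nat_lit 0) (XT.lf (nat_lit 0) (nat_lit 99618908454) (nat_lit 152) (nat_lit 531809862805) (nat_lit 0) (nat_lit 98808218956) (nat_lit 1) (nat_lit 5) (nat_lit 3) (nat_lit 4) (nat_lit 1) (nat_lit 4) (nat_lit 349) (nat_lit 287) (nat_lit 264)) (XT.lf (nat_lit 0) (nat_lit 117817184923) (nat_lit 152) (nat_lit 604445672143) (nat_lit 0) (nat_lit 117002069487) (nat_lit 1) (nat_lit 5) (nat_lit 3) (nat_lit 4) (nat_lit 1) (nat_lit 4) (nat_lit 350) (nat_lit 287) (nat_lit 263))))) (XT.nd (nat_lit 234) (nat_lit 0) (nat_lit 0) (XT.nd (nat_lit 78) (nat_lit 0) (nat_lit 0) (XT.lf (nat_lit 0) (nat_lit 138714383613) (nat_lit 152) (nat_lit 688041875747) (nat_lit 0) (nat_lit 137895419535) (nat_lit 1) (nat_lit 5) (nat_lit 3) (nat_lit 4) (nat_lit 1) (nat_lit 4) (nat_lit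 351) (nat_lit 287) (nat_lit 262)) (XT.nd (nat_lit 78) (nat_lit 0) (nat_lit 0) (XT.lf (nat_lit 0) (nat_lit 162719362757) (nat_lit 152) (nat_lit 784234051511) (nat_lit 0) (nat_lit 161897052035) (nat_lit 1) (nat_lit 5) (nat_lit 3) (nat_lit 4) (nat_lit 1) (nat_lit 4) (nat_lit 352) (nat_lit 287) (nat_lit 261)) (XT.lf (nat_lit 0) (nat_lit 190301784993) (nat_lit 152) (nat_lit 894904220266) (nat_lit 0) (nat_lit 189476564144) (nat_lit 1) (nat_lit 5) (nat_lit 3) (nat_lit 4) (nat_lit 1) (nat_lit 4) (nat_lit 353) (nat_lit 287) (nat_lit 260)))) (XT.nd (nat_lit 78) (nat_lit 0) (nat_lit 0) (XT.lf (nat_lit 0) (nat_lit 222001306406) (nat_lit 152) (nat_lit 1022217667924) (nat_lit 0) (nat_lit 221173555013) (nat_lit 1) (nat_lit 5) (nat_lit 3) (nat_lit 4) (nat_lit 1) (nat_lit 4) (nat_lit 354) (nat_lit 287) (nat_lit 259)) (XT.nd (nat_lit 78) (nat_lit 0) (nat_lit 0) (XT.lf (nat_lit 0) (nat_lit 258438135025)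 (nat_lit 152) (nat_lit 1168665309763) (nat_lit 0) (nat_lit 257608183159) (nat_lit 1) (nat_lit 5) (nat_lit 3) (nat_lit 4) (nat_lit 1) (nat_lit 4) (nat_lit 355) (nat_lit 287) (nat_lit 258)) (XT.lf (nat_lit 0) (nat_lit 300325165323) (nat_lit 152) (nat_lit 1337112425733) (nat_lit 0) (nat_lit 299493300002) (nat_lit 1) (nat_lit 5) (nat_lit 3) (nat_lit 4) (nat_lit 1) (nat_lit 4) (nat_lit 356) (nat_lit 287) (nat_lit 257))))))))
noncomputable def xc25 : XT := (XT.nd (nat_lit 1716) (nat_lit 0) (nat_lit 0) (XT.nd (nat_lit 858) (nat_lit 0) (nat_lit 0) (XT.nd (nat_lit 390) (nat_lit 0) (nat_lit 0) (XT.nd (nat_lit 156) (nat_lit 0) (nat_lit 0) (XT.nd (nat_lit 78) (nat_lit 0) (nat_lit 0) (XT.lf (nat_lit 0) (nat_lit 348481926153) (nat_lit 152) (nat_lit 1530854720277) (nat_lit 0) (nat_lit 347648396957) (nat_lit 1) (nat_lit 5) (nat_lit 3) (nat_lit 4) (nat_lit 1) (nat_lit 4) (nat_lit 357) (nat_lit 287) (nat_lit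 256)) (XT.lf (nat_lit 0) (nat_lit 403850615009) (nat_lit 152) (nat_lit 1753682803506) (nat_lit 0) (nat_lit 403015638967) (nat_lit 1) (nat_lit 5) (nat_lit 3) (nat_lit 4) (nat_lit 1) (nat_lit 4) (nat_lit 358) (nat_lit 287) (nat_lit 255))) (XT.nd (nat_lit 78) (nat_lit 0) (nat_lit 0) (XT.lf (nat_lit 0) (nat_lit 467514532326) (nat_lit 152) (nat_lit 2009956355309) (nat_lit 0) (nat_lit 466678298156) (nat_lit 1) (nat_lit 5) (nat_lit 3) (nat_lit 4) (nat_lit 1) (nat_lit 4) (nat_lit 359) (nat_lit 287) (nat_lit 254)) (XT.nd (nat_lit 78) (nat_lit 0) (nat_lit 0) (XT.lf (nat_lit 0) (nat_lit 540719276487) (nat_lit 152) (nat_lit 2304689423438) (nat_lit 0) (nat_lit 539881948293) (nat_lit 1) (nat_lit 5) (nat_lit 3) (nat_lit 4) (nat_lit 1) (nat_lit 4) (nat_lit 360) (nat_lit 287) (nat_lit 253)) (XT.lf (nat_lit 0) (nat_lit 624897114224) (nat_lit 152) (nat_lit 2643648524444) (nat_lit 0) (nat_lit 624058834705)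 (nat_lit 1) (nat_lit 5) (nat_lit 3) (nat_lit 4) (nat_lit 1) (nat_lit 4) (nat_lit 361) (nat_lit 287) (nat_lit 252))))) (XT.nd (nat_lit 234) (nat_lit 0) (nat_lit 0) (XT.nd (nat_lit 78) (nat_lit 0) (nat_lit 0) (XT.lf (nat_lit 0) (nat_lit 721695003233) (nat_lit 152) (nat_lit 3033465466824) (nat_lit 0) (nat_lit 720855896474) (nat_lit 1) (nat_lit 5) (nat_lit 3) (nat_lit 4) (nat_lit 1) (nat_lit 4) (nat_lit 362) (nat_lit 287) (nat_lit 251)) (XT.nd (nat_lit 78) (nat_lit 0) (nat_lit 0) (XT.lf (nat_lit 0) (nat_lit 833006815255) (nat_lit 152) (nat_lit 3481767103800) (nat_lit 0) (nat_lit 832166989157) (nat_lit 1) (nat_lit 5) (nat_lit 3) (nat_lit 4) (nat_lit 1) (nat_lit 4) (nat_lit 363) (nat_lit 287) (nat_lit 250)) (XT.lf (nat_lit 0) (nat_lit 961010390090) (nat_lit 152) (nat_lit 3997324554355) (nat_lit 0) (nat_lit 960169938481) (nat_lit 1) (nat_lit 5) (nat_lit 3) (nat_lit 4) (nat_lit 1) (nat_lit 4)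 (nat_lit 364) (nat_lit 287) (nat_lit 249)))) (XT.nd (nat_lit 78) (nat_lit 0) (nat_lit 0) (XT.lf (nat_lit 0) (nat_lit 1108210145508) (nat_lit 152) (nat_lit 4590224812088) (nat_lit 0) (nat_lit 1107369149975) (nat_lit 1) (nat_lit 5) (nat_lit 3) (nat_lit 4) (nat_lit 1) (nat_lit 4) (nat_lit 365) (nat_lit 287) (nat_lit 248)) (XT.nd (nat_lit 78) (nat_lit 0) (nat_lit 0) (XT.lf (nat_lit 0) (nat_lit 1277486076722) (nat_lit 152) (nat_lit 5272068099432) (nat_lit 0) (nat_lit 1276644608212) (nat_lit 1) (nat_lit 5) (nat_lit 3) (nat_lit 4) (nat_lit 1) (nat_lit 4) (nat_lit 366) (nat_lit 287) (nat_lit 247)) (XT.lf (nat_lit 0) (nat_lit 1472150104126) (nat_lit 152) (nat_lit 6056194828531) (nat_lit 0) (nat_lit 1471308224332) (nat_lit 1) (nat_lit 5) (nat_lit 3) (nat_lit 4) (nat_lit 1) (nat_lit 4) (nat_lit 367) (nat_lit 287) (nat_lit 246)))))) (XT.nd (nat_lit 390) (nat_lit 0) (nat_lit 0) (XT.nd (nat_lit 156)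 (nat_lit 0) (nat_lit 0) (XT.nd (nat_lit 78) (nat_lit 0) (nat_lit 0) (XT.lf (nat_lit 0) (nat_lit 1696010871735) (nat_lit 152) (nat_lit 6957946609303) (nat_lit 0) (nat_lit 1695168634303) (nat_lit 1) (nat_lit 5) (nat_lit 3) (nat_lit 4) (nat_lit 1) (nat_lit 4) (nat_lit 368) (nat_lit 287) (nat_lit 245)) (XT.lf (nat_lit 0) (nat_lit 1953448264132) (nat_lit 152) (nat_lit 7994966411370) (nat_lit 0) (nat_lit 1952605715709) (nat_lit 1) (nat_lit 5) (nat_lit 3) (nat_lit 4) (nat_lit 1) (nat_lit 4) (nat_lit 369) (nat_lit 287) (nat_lit 244))) (XT.nd (nat_lit 78) (nat_lit 0) (nat_lit 0) (XT.lf (nat_lit 0) (nat_lit 2249499099863) (nat_lit 152) (nat_lit 9187543752599) (nat_lit 0) (nat_lit 2248656281015) (nat_lit 1) (nat_lit 5) (nat_lit 3) (nat_lit 4) (nat_lit 1) (nat_lit 4) (nat_lit 370) (nat_lit 287) (nat_lit 243)) (XT.nd (nat_lit 78) (nat_lit 0) (nat_lit 0) (XT.lf (nat_lit 0) (nat_lit 2589955677890) (nat_lit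 152) (nat_lit 10559011667928) (nat_lit 0) (nat_lit 2589112623889) (nat_lit 1) (nat_lit 5) (nat_lit 3) (nat_lit 4) (nat_lit 1) (nat_lit 4) (nat_lit 371) (nat_lit 287) (nat_lit 242)) (XT.lf (nat_lit 0) (nat_lit 2981479105173) (nat_lit 152) (nat_lit 12136203225266) (nat_lit 0) (nat_lit 2980635846691) (nat_lit 1) (nat_lit 5) (nat_lit 3) (nat_lit 4) (nat_lit 1) (nat_lit 4) (nat_lit 372) (nat_lit 287) (nat_lit 241))))) (XT.nd (nat_lit 234) (nat_lit 0) (nat_lit 0) (XT.nd (nat_lit 78) (nat_lit 0) (nat_lit 0) (XT.lf (nat_lit 0) (nat_lit 3431729622681) (nat_lit 152) (nat_lit 13949976520298) (nat_lit 0) (nat_lit 3430886186390) (nat_lit 1) (nat_lit 5) (nat_lit 3) (nat_lit 4) (nat_lit 1) (nat_lit 4) (nat_lit 373) (nat_lit 287) (nat_lit 240)) (XT.nd (nat_lit 78) (nat_lit 0) (nat_lit 0) (XT.lf (nat_lit 0) (nat_lit 3949516479670) (nat_lit 152) (nat_lit 16035818421842) (nat_lit 0) (nat_lit 3948672888761)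 (nat_lit 1) (nat_lit 5) (nat_lit 3) (nat_lit 4) (nat_lit 1) (nat_lit 4) (nat_lit 374) (nat_lit 287) (nat_lit 239)) (XT.lf (nat_lit 0) (nat_lit 4544970288558) (nat_lit 152) (nat_lit 18434538880144) (nat_lit 0) (nat_lit 4544126563200) (nat_lit 1) (nat_lit 5) (nat_lit 3) (nat_lit 4) (nat_lit 1) (nat_lit 4) (nat_lit 375) (nat_lit 287) (nat_lit 238)))) (XT.nd (nat_lit 78) (nat_lit 0) (nat_lit 0) (XT.lf (nat_lit 0) (nat_lit 5229741232564) (nat_lit 152) (nat_lit 21193069382432) (nat_lit 0) (nat_lit 5228897390293) (nat_lit 1) (nat_lit 5) (nat_lit 3) (nat_lit 4) (nat_lit 1) (nat_lit 4) (nat_lit 376) (nat_lit 287) (nat_lit 237)) (XT.nd (nat_lit 78) (nat_lit 0) (nat_lit 0) (XT.lf (nat_lit 0) (nat_lit 6017227004070) (nat_lit 152) (nat_lit 24365381177665) (nat_lit 0) (nat_lit 6016383060136) (nat_lit 1) (nat_lit 5) (nat_lit 3) (nat_lit 4) (nat_lit 1) (nat_lit 4) (nat_lit 377) (nat_lit 287) (nat_lit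 236)) (XT.lf (nat_lit 0) (nat_lit 6922834933388) (nat_lit 152) (nat_lit 28013541235748) (nat_lit 0) (nat_lit 6921990901051) (nat_lit 1) (nat_lit 5) (nat_lit 3) (nat_lit 4) (nat_lit 1) (nat_lit 4) (nat_lit 378) (nat_lit 287) (nat_lit 235))))))) (XT.nd (nat_lit 42822) (nat_lit 0) (nat_lit 152) (XT.nd (nat_lit 390) (nat_lit 0) (nat_lit 0) (XT.nd (nat_lit 156) (nat_lit 0) (nat_lit 0) (XT.nd (nat_lit 78) (nat_lit 0) (nat_lit 0) (XT.lf (nat_lit 0) (nat_lit 7964283436526) (nat_lit 152) (nat_lit 32208926601297) (nat_lit 0) (nat_lit 7963439327317) (nat_lit 1) (nat_lit 5) (nat_lit 3) (nat_lit 4) (nat_lit 1) (nat_lit 4) (nat_lit 379) (nat_lit 287) (nat_lit 234)) (XT.lf (nat_lit 0) (nat_lit 9161948679850) (nat_lit 152) (nat_lit 37033620901029) (nat_lit 0) (nat_lit 9161104503796) (nat_lit 1) (nat_lit 5) (nat_lit 3) (nat_lit 4) (nat_lit 1) (nat_lit 4) (nat_lit 380) (nat_lit 287) (nat_lit 233))) (XT.nd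 (nat_lit 78) (nat_lit 0) (nat_lit 0) (XT.lf (nat_lit 0) (nat_lit 10539263244209) (nat_lit 152) (nat_lit 42582020327764) (nat_lit 0) (nat_lit 10538419010028) (nat_lit 1) (nat_lit 5) (nat_lit 3) (nat_lit 4) (nat_lit 1) (nat_lit 4) (nat_lit 381) (nat_lit 287) (nat_lit 232)) (XT.nd (nat_lit 78) (nat_lit 0) (nat_lit 0) (XT.lf (nat_lit 0) (nat_lit 12123174588469) (nat_lit 152) (nat_lit 48962680522461) (nat_lit 0) (nat_lit 12122330303744) (nat_lit 1) (nat_lit 5) (nat_lit 3) (nat_lit 4) (nat_lit 1) (nat_lit 4) (nat_lit 382) (nat_lit 287) (nat_lit 231)) (XT.lf (nat_lit 0) (nat_lit 13944672282409) (nat_lit 152) (nat_lit 56300440488928) (nat_lit 0) (nat_lit 13943827953733) (nat_lit 1) (nat_lit 5) (nat_lit 3) (nat_lit 4) (nat_lit 1) (nat_lit 4) (nat_lit 383) (nat_lit 287) (nat_lit 230))))) (XT.nd (nat_lit 42198) (nat_lit 0) (nat_lit 228) (XT.nd (nat_lit 78) (nat_lit 0) (nat_lit 0) (XT.lf (nat_lit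 0) (nat_lit 16039394324390) (nat_lit 152) (nat_lit 64738865096076) (nat_lit 0) (nat_lit 16038549957495) (nat_lit 1) (nat_lit 5) (nat_lit 3) (nat_lit 4) (nat_lit 1) (nat_lit 4) (nat_lit 384) (nat_lit 287) (nat_lit 229)) (XT.nd (nat_lit 78) (nat_lit 0) (nat_lit 0) (XT.lf (nat_lit 0) (nat_lit 18448324406538) (nat_lit 152) (nat_lit 74443053955782) (nat_lit 0) (nat_lit 18447480006408) (nat_lit 1) (nat_lit 5) (nat_lit 3) (nat_lit 4) (nat_lit 1) (nat_lit 4) (nat_lit 385) (nat_lit 287) (nat_lit 228)) (XT.lf (nat_lit 0) (nat_lit 21218593769589) (nat_lit 152) (nat_lit 85602871632694) (nat_lit 0) (nat_lit 21217749340560) (nat_lit 1) (nat_lit 5) (nat_lit 3) (nat_lit 4) (nat_lit 1) (nat_lit 4) (nat_lit 386) (nat_lit 287) (nat_lit 227)))) (XT.nd (nat_lit 78) (nat_lit 152) (nat_lit 0) (XT.lf (nat_lit 0) (nat_lit 3168954923) (nat_lit 76) (nat_lit 5312001126) (nat_lit 76) (nat_lit 5312001126) (nat_lit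 6) (nat_lit 4) (nat_lit 7) (nat_lit 5) (nat_lit 7) (nat_lit 4) (nat_lit 324) (nat_lit 288) (nat_lit 288)) (XT.nd (nat_lit 78) (nat_lit 152) (nat_lit 0) (XT.lf (nat_lit 0) (nat_lit 20922816609) (nat_lit 76) (nat_lit 4988816436) (nat_lit 76) (nat_lit 4821264608) (nat_lit 6) (nat_lit 4) (nat_lit 7) (nat_lit 5) (nat_lit 7) (nat_lit 4) (nat_lit 325) (nat_lit 288) (nat_lit 287)) (XT.lf (nat_lit 0) (nat_lit 1236553751) (nat_lit 152) (nat_lit 32207366068) (nat_lit 0) (nat_lit 964163257) (nat_lit 4) (nat_lit 5) (nat_lit 6) (nat_lit 4) (nat_lit 4) (nat_lit 4) (nat_lit 326) (nat_lit 288) (nat_lit 286)))))) (XT.nd (nat_lit 468) (nat_lit 0) (nat_lit 0) (XT.nd (nat_lit 234) (nat_lit 76) (nat_lit 0) (XT.nd (nat_lit 78) (nat_lit 0) (nat_lit 0) (XT.lf (nat_lit 0) (nat_lit 7900356154) (nat_lit 152) (nat_lit 23153393610) (nat_lit 0) (nat_lit 7517797613) (nat_lit 4) (nat_lit 5) (nat_lit 6) (nat_lit 4) (nat_lit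 4) (nat_lit 4) (nat_lit 327) (nat_lit 288) (nat_lit 285)) (XT.nd (nat_lit 78) (nat_lit 0) (nat_lit 0) (XT.lf (nat_lit 0) (nat_lit 15056020691) (nat_lit 152) (nat_lit 13802069289) (nat_lit 0) (nat_lit 14577663849) (nat_lit 4) (nat_lit 5) (nat_lit 6) (nat_lit 4) (nat_lit 4) (nat_lit 4) (nat_lit 328) (nat_lit 288) (nat_lit 284)) (XT.lf (nat_lit 0) (nat_lit 22843549494) (nat_lit 152) (nat_lit 3970432413) (nat_lit 0) (nat_lit 22281889782) (nat_lit 4) (nat_lit 5) (nat_lit 6) (nat_lit 4) (nat_lit 4) (nat_lit 4) (nat_lit 329) (nat_lit 288) (nat_lit 283)))) (XT.nd (nat_lit 78) (nat_lit 0) (nat_lit 0) (XT.lf (nat_lit 0) (nat_lit 7172412928) (nat_lit 76) (nat_lit 24539888653) (nat_lit 76) (nat_lit 23905791661) (nat_lit 3) (nat_lit 4) (nat_lit 4) (nat_lit 5) (nat_lit 4) (nat_lit 4) (nat_lit 330) (nat_lit 288) (nat_lit 282)) (XT.nd (nat_lit 78) (nat_lit 0) (nat_lit 0) (XT.lf (nat_lit 0) (nat_lit 19667290618)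 (nat_lit 76) (nat_lit 22086092230) (nat_lit 76) (nat_lit 21389006301) (nat_lit 3) (nat_lit 4) (nat_lit 4) (nat_lit 5) (nat_lit 4) (nat_lit 4) (nat_lit 331) (nat_lit 288) (nat_lit 281)) (XT.lf (nat_lit 0) (nat_lit 33370646123) (nat_lit 76) (nat_lit 19612128909) (nat_lit 76) (nat_lit 18860269990) (nat_lit 3) (nat_lit 4) (nat_lit 4) (nat_lit 5) (nat_lit 4) (nat_lit 4) (nat_lit 332) (nat_lit 288) (nat_lit 280))))) (XT.nd (nat_lit 234) (nat_lit 0) (nat_lit 0) (XT.nd (nat_lit 78) (nat_lit 0) (nat_lit 0) (XT.lf (nat_lit 0) (nat_lit 48550588572) (nat_lit 76) (nat_lit 17069595061) (nat_lit 76) (nat_lit 16270107455) (nat_lit 3) (nat_lit 4) (nat_lit 4) (nat_lit 5) (nat_lit 4) (nat_lit 4) (nat_lit 333) (nat_lit 288) (nat_lit 279)) (XT.nd (nat_lit 78) (nat_lit 0) (nat_lit 0) (XT.lf (nat_lit 0) (nat_lit 65504116839) (nat_lit 76) (nat_lit 14408745457) (nat_lit 76) (nat_lit 13567841602) (nat_lit 3) (nat_lit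 4) (nat_lit 4) (nat_lit 5) (nat_lit 4) (nat_lit 4) (nat_lit 334) (nat_lit 288) (nat_lit 278)) (XT.lf (nat_lit 0) (nat_lit 84562930391) (nat_lit 76) (nat_lit 11577519996) (nat_lit 76) (nat_lit 10700602011) (nat_lit 3) (nat_lit 4) (nat_lit 4) (nat_lit 5) (nat_lit 4) (nat_lit 4) (nat_lit 335) (nat_lit 288) (nat_lit 277)))) (XT.nd (nat_lit 78) (nat_lit 0) (nat_lit 0) (XT.lf (nat_lit 0) (nat_lit 106099919057) (nat_lit 76) (nat_lit 8520525137) (nat_lit 76) (nat_lit 7612290518) (nat_lit 3) (nat_lit 4) (nat_lit 4) (nat_lit 5) (nat_lit 4) (nat_lit 4) (nat_lit 336) (nat_lit 288) (nat_lit 276)) (XT.nd (nat_lit 78) (nat_lit 0) (nat_lit 0) (XT.lf (nat_lit 0) (nat_lit 130536458703) (nat_lit 76) (nat_lit 5177950112) (nat_lit 76) (nat_lit 4242483636) (nat_lit 3) (nat_lit 4) (nat_lit 4) (nat_lit 5) (nat_lit 4) (nat_lit 4) (nat_lit 337) (nat_lit 288) (nat_lit 275)) (XT.lf (nat_lit 0) (nat_lit 158350655540)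 (nat_lit 76) (nat_lit 1484396712) (nat_lit 76) (nat_lit 525250362) (nat_lit 3) (nat_lit 4) (nat_lit 4) (nat_lit 5) (nat_lit 4) (nat_lit 4) (nat_lit 338) (nat_lit 288) (nat_lit 274))))))))
noncomputable def xc26 : XT := (XT.nd (nat_lit 1716) (nat_lit 0) (nat_lit 0) (XT.nd (nat_lit 858) (nat_lit 0) (nat_lit 0) (XT.nd (nat_lit 390) (nat_lit 0) (nat_lit 0) (XT.nd (nat_lit 156) (nat_lit 0) (nat_lit 0) (XT.nd (nat_lit 78) (nat_lit 0) (nat_lit 0) (XT.lf (nat_lit 0) (nat_lit 3696921332) (nat_lit 152) (nat_lit 177216875590) (nat_lit 0) (nat_lit 2844975639) (nat_lit 1) (nat_lit 5) (nat_lit 3) (nat_lit 4) (nat_lit 1) (nat_lit 4) (nat_lit 339) (nat_lit 288) (nat_lit 273)) (XT.lf (nat_lit 0) (nat_lit 8554699750) (nat_lit 152) (nat_lit 194412979587) (nat_lit 0) (nat_lit 7687184156) (nat_lit 1) (nat_lit 5) (nat_lit 3) (nat_lit 4) (nat_lit 1) (nat_lit 4) (nat_lit 340) (nat_lit 288) (nat_lit 272))) (XT.nd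 (nat_lit 78) (nat_lit 0) (nat_lit 0) (XT.lf (nat_lit 0) (nat_lit 14032726622) (nat_lit 152) (nat_lit 214417241574) (nat_lit 0) (nat_lit 13151671982) (nat_lit 1) (nat_lit 5) (nat_lit 3) (nat_lit 4) (nat_lit 1) (nat_lit 4) (nat_lit 341) (nat_lit 288) (nat_lit 271)) (XT.nd (nat_lit 78) (nat_lit 0) (nat_lit 0) (XT.lf (nat_lit 0) (nat_lit 20238180732) (nat_lit 152) (nat_lit 237621049286) (nat_lit 0) (nat_lit 19345353010) (nat_lit 1) (nat_lit 5) (nat_lit 3) (nat_lit 4) (nat_lit 1) (nat_lit 4) (nat_lit 342) (nat_lit 288) (nat_lit 270)) (XT.lf (nat_lit 0) (nat_lit 27292473141) (nat_lit 152) (nat_lit 264478390264) (nat_lit 0) (nat_lit 26389407955) (nat_lit 1) (nat_lit 5) (nat_lit 3) (nat_lit 4) (nat_lit 1) (nat_lit 4) (nat_lit 343) (nat_lit 288) (nat_lit 269))))) (XT.nd (nat_lit 234) (nat_lit 0) (nat_lit 0) (XT.nd (nat_lit 78) (nat_lit 0) (nat_lit 0) (XT.lf (nat_lit 0) (nat_lit 35333622612) (nat_lit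 152) (nat_lit 295514734225) (nat_lit 0) (nat_lit 34421655284) (nat_lit 1) (nat_lit 5) (nat_lit 3) (nat_lit 4) (nat_lit 1) (nat_lit 4) (nat_lit 344) (nat_lit 288) (nat_lit 268)) (XT.nd (nat_lit 78) (nat_lit 0) (nat_lit 0) (XT.lf (nat_lit 0) (nat_lit 44518955983) (nat_lit 152) (nat_lit 331337313984) (nat_lit 0) (nat_lit 43599247662) (nat_lit 1) (nat_lit 5) (nat_lit 3) (nat_lit 4) (nat_lit 1) (nat_lit 4) (nat_lit 345) (nat_lit 288) (nat_lit 267)) (XT.lf (nat_lit 0) (nat_lit 55028186298) (nat_lit 152) (nat_lit 372647006102) (nat_lit 0) (nat_lit 54101746679) (nat_lit 1) (nat_lit 5) (nat_lit 3) (nat_lit 4) (nat_lit 1) (nat_lit 4) (nat_lit 346) (nat_lit 288) (nat_lit 266)))) (XT.nd (nat_lit 78) (nat_lit 0) (nat_lit 0) (XT.lf (nat_lit 0) (nat_lit 67066928933) (nat_lit 152) (nat_lit 420252043686) (nat_lit 0) (nat_lit 66134636011) (nat_lit 1) (nat_lit 5) (nat_lit 3) (nat_lit 4) (nat_lit 1) (nat_lit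 4) (nat_lit 347) (nat_lit 288) (nat_lit 265)) (XT.nd (nat_lit 78) (nat_lit 0) (nat_lit 0) (XT.lf (nat_lit 0) (nat_lit 80870724504) (nat_lit 152) (nat_lit 475083829644) (nat_lit 0) (nat_lit 79933341753) (nat_lit 1) (nat_lit 5) (nat_lit 3) (nat_lit 4) (nat_lit 1) (nat_lit 4) (nat_lit 348) (nat_lit 288) (nat_lit 264)) (XT.lf (nat_lit 0) (nat_lit 96709647274) (nat_lit 152) (nat_lit 538215159789) (nat_lit 0) (nat_lit 95767838585) (nat_lit 1) (nat_lit 5) (nat_lit 3) (nat_lit 4) (nat_lit 1) (nat_lit 4) (nat_lit 349) (nat_lit 288) (nat_lit 263)))))) (XT.nd (nat_lit 390) (nat_lit 0) (nat_lit 0) (XT.nd (nat_lit 156) (nat_lit 0) (nat_lit 0) (XT.nd (nat_lit 78) (nat_lit 0) (nat_lit 0) (XT.lf (nat_lit 0) (nat_lit 114893589208) (nat_lit 152) (nat_lit 610881212321) (nat_lit 0) (nat_lit 113947931878) (nat_lit 1) (nat_lit 5) (nat_lit 3) (nat_lit 4) (nat_lit 1) (nat_lit 4) (nat_lit 350) (nat_lit 288) (nat_lit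 262)) (XT.lf (nat_lit 0) (nat_lit 135778323085) (nat_lit 152) (nat_lit 694503714352) (nat_lit 0) (nat_lit 134829319109) (nat_lit 1) (nat_lit 5) (nat_lit 3) (nat_lit 4) (nat_lit 1) (nat_lit 4) (nat_lit 351) (nat_lit 288) (nat_lit 261))) (XT.nd (nat_lit 78) (nat_lit 0) (nat_lit 0) (XT.lf (nat_lit 0) (nat_lit 159772463261) (nat_lit 152) (nat_lit 790718758315) (nat_lit 0) (nat_lit 158820549160) (nat_lit 1) (nat_lit 5) (nat_lit 3) (nat_lit 4) (nat_lit 1) (nat_lit 4) (nat_lit 352) (nat_lit 288) (nat_lit 260)) (XT.nd (nat_lit 78) (nat_lit 0) (nat_lit 0) (XT.lf (nat_lit 0) (nat_lit 187345460307) (nat_lit 152) (nat_lit 901408812460) (nat_lit 0) (nat_lit 186391015661) (nat_lit 1) (nat_lit 5) (nat_lit 3) (nat_lit 4) (nat_lit 1) (nat_lit 4) (nat_lit 353) (nat_lit 288) (nat_lit 259)) (XT.lf (nat_lit 0) (nat_lit 219036785904) (nat_lit 152) (nat_lit 1028739551761) (nat_lit 0) (nat_lit 218080140785) (nat_lit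 1) (nat_lit 5) (nat_lit 3) (nat_lit 4) (nat_lit 1) (nat_lit 4) (nat_lit 354) (nat_lit 288) (nat_lit 258))))) (XT.nd (nat_lit 234) (nat_lit 0) (nat_lit 0) (XT.nd (nat_lit 78) (nat_lit 0) (nat_lit 0) (XT.lf (nat_lit 0) (nat_lit 255466487726) (nat_lit 152) (nat_lit 1175202229812) (nat_lit 0) (nat_lit 254507929151) (nat_lit 1) (nat_lit 5) (nat_lit 3) (nat_lit 4) (nat_lit 1) (nat_lit 4) (nat_lit 355) (nat_lit 288) (nat_lit 257)) (XT.nd (nat_lit 78) (nat_lit 0) (nat_lit 0) (XT.lf (nat_lit 0) (nat_lit 297347320808) (nat_lit 152) (nat_lit 1343662420749) (nat_lit 0) (nat_lit 296387098360) (nat_lit 1) (nat_lit 5) (nat_lit 3) (nat_lit 4) (nat_lit 1) (nat_lit 4) (nat_lit 356) (nat_lit 288) (nat_lit 256)) (XT.lf (nat_lit 0) (nat_lit 345498692755) (nat_lit 152) (nat_lit 1537416084829) (nat_lit 0) (nat_lit 344537023460) (nat_lit 1) (nat_lit 5) (nat_lit 3) (nat_lit 4) (nat_lit 1) (nat_lit 4) (nat_lit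 357) (nat_lit 288) (nat_lit 255)))) (XT.nd (nat_lit 78) (nat_lit 0) (nat_lit 0) (XT.lf (nat_lit 0) (nat_lit 400862695627) (nat_lit 152) (nat_lit 1760254054611) (nat_lit 0) (nat_lit 399899768204) (nat_lit 1) (nat_lit 5) (nat_lit 3) (nat_lit 4) (nat_lit 1) (nat_lit 4) (nat_lit 358) (nat_lit 288) (nat_lit 254)) (XT.nd (nat_lit 78) (nat_lit 0) (nat_lit 0) (XT.lf (nat_lit 0) (nat_lit 464522538175) (nat_lit 152) (nat_lit 2016536203417) (nat_lit 0) (nat_lit 463558516727) (nat_lit 1) (nat_lit 5) (nat_lit 3) (nat_lit 4) (nat_lit 1) (nat_lit 4) (nat_lit 359) (nat_lit 288) (nat_lit 253)) (XT.lf (nat_lit 0) (nat_lit 537723739057) (nat_lit 152) (nat_lit 2311276747200) (nat_lit 0) (nat_lit 536758766285) (nat_lit 1) (nat_lit 5) (nat_lit 3) (nat_lit 4) (nat_lit 1) (nat_lit 4) (nat_lit 360) (nat_lit 288) (nat_lit 252))))))) (XT.nd (nat_lit 858) (nat_lit 0) (nat_lit 0) (XT.nd (nat_lit 390) (nat_lit 0) (nat_lit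 0) (XT.nd (nat_lit 156) (nat_lit 0) (nat_lit 0) (XT.nd (nat_lit 78) (nat_lit 0) (nat_lit 0) (XT.lf (nat_lit 0) (nat_lit 621898495683) (nat_lit 152) (nat_lit 2650242348775) (nat_lit 0) (nat_lit 620932695671) (nat_lit 1) (nat_lit 5) (nat_lit 3) (nat_lit 4) (nat_lit 1) (nat_lit 4) (nat_lit 361) (nat_lit 288) (nat_lit 251)) (XT.lf (nat_lit 0) (nat_lit 718693705465) (nat_lit 152) (nat_lit 3040064943825) (nat_lit 0) (nat_lit 717727186114) (nat_lit 1) (nat_lit 5) (nat_lit 3) (nat_lit 4) (nat_lit 1) (nat_lit 4) (nat_lit 362) (nat_lit 288) (nat_lit 250))) (XT.nd (nat_lit 78) (nat_lit 0) (nat_lit 0) (XT.lf (nat_lit 0) (nat_lit 830003187724) (nat_lit 152) (nat_lit 3488371496165) (nat_lit 0) (nat_lit 829036042862) (nat_lit 1) (nat_lit 5) (nat_lit 3) (nat_lit 4) (nat_lit 1) (nat_lit 4) (nat_lit 363) (nat_lit 288) (nat_lit 249)) (XT.nd (nat_lit 78) (nat_lit 0) (nat_lit 0) (XT.lf (nat_lit 0) (nat_lit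 958004736679) (nat_lit 152) (nat_lit 4003933220950) (nat_lit 0) (nat_lit 957037047893) (nat_lit 1) (nat_lit 5) (nat_lit 3) (nat_lit 4) (nat_lit 1) (nat_lit 4) (nat_lit 364) (nat_lit 288) (nat_lit 248)) (XT.lf (nat_lit 0) (nat_lit 1105202730461) (nat_lit 152) (nat_lit 4596837195405) (nat_lit 0) (nat_lit 1104234568699) (nat_lit 1) (nat_lit 5) (nat_lit 3) (nat_lit 4) (nat_lit 1) (nat_lit 4) (nat_lit 365) (nat_lit 288) (nat_lit 247))))) (XT.nd (nat_lit 234) (nat_lit 0) (nat_lit 0) (XT.nd (nat_lit 78) (nat_lit 0) (nat_lit 0) (XT.lf (nat_lit 0) (nat_lit 1274477129819) (nat_lit 152) (nat_lit 5278683714681) (nat_lit 0) (nat_lit 1273508556772) (nat_lit 1) (nat_lit 5) (nat_lit 3) (nat_lit 4) (nat_lit 1) (nat_lit 4) (nat_lit 366) (nat_lit 288) (nat_lit 246)) (XT.nd (nat_lit 78) (nat_lit 0) (nat_lit 0) (XT.lf (nat_lit 0) (nat_lit 1469139825174) (nat_lit 152) (nat_lit 6062813254155) (nat_lit 0) (nat_lit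 1468170894488) (nat_lit 1) (nat_lit 5) (nat_lit 3) (nat_lit 4) (nat_lit 1) (nat_lit 4) (nat_lit 367) (nat_lit 288) (nat_lit 245)) (XT.lf (nat_lit 0) (nat_lit 1692999434479) (nat_lit 152) (nat_lit 6964567478731) (nat_lit 0) (nat_lit 1692030192803) (nat_lit 1) (nat_lit 5) (nat_lit 3) (nat_lit 4) (nat_lit 1) (nat_lit 4) (nat_lit 368) (nat_lit 288) (nat_lit 244)))) (XT.nd (nat_lit 78) (nat_lit 0) (nat_lit 0) (XT.lf (nat_lit 0) (nat_lit 1950435819655) (nat_lit 152) (nat_lit 8001589405846) (nat_lit 0) (nat_lit 1949466307553) (nat_lit 1) (nat_lit 5) (nat_lit 3) (nat_lit 4) (nat_lit 1) (nat_lit 4) (nat_lit 369) (nat_lit 288) (nat_lit 243)) (XT.nd (nat_lit 78) (nat_lit 0) (nat_lit 0) (XT.lf (nat_lit 0) (nat_lit 2246485779542) (nat_lit 152) (nat_lit 9194168594943) (nat_lit 0) (nat_lit 2245516032288) (nat_lit 1) (nat_lit 5) (nat_lit 3) (nat_lit 4) (nat_lit 1) (nat_lit 4) (nat_lit 370) (nat_lit 288)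 (nat_lit 242)) (XT.lf (nat_lit 0) (nat_lit 2586941595965) (nat_lit 152) (nat_lit 10565638117113) (nat_lit 0) (nat_lit 2585971644230) (nat_lit 1) (nat_lit 5) (nat_lit 3) (nat_lit 4) (nat_lit 1) (nat_lit 4) (nat_lit 371) (nat_lit 288) (nat_lit 241)))))) (XT.nd (nat_lit 390) (nat_lit 0) (nat_lit 0) (XT.nd (nat_lit 156) (nat_lit 0) (nat_lit 0) (XT.nd (nat_lit 78) (nat_lit 0) (nat_lit 0) (XT.lf (nat_lit 0) (nat_lit 2978464360985) (nat_lit 152) (nat_lit 12142831071704) (nat_lit 0) (nat_lit 2977494231439) (nat_lit 1) (nat_lit 5) (nat_lit 3) (nat_lit 4) (nat_lit 1) (nat_lit 4) (nat_lit 372) (nat_lit 288) (nat_lit 240)) (XT.lf (nat_lit 0) (nat_lit 3428714302611) (nat_lit 152) (nat_lit 13956605581739) (nat_lit 0) (nat_lit 3427744018449) (nat_lit 1) (nat_lit 5) (nat_lit 3) (nat_lit 4) (nat_lit 1) (nat_lit 4) (nat_lit 373) (nat_lit 288) (nat_lit 239))) (XT.nd (nat_lit 78) (nat_lit 0) (nat_lit 0) (XT.lf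 (nat_lit 0) (nat_lit 3946500658833) (nat_lit 152) (nat_lit 16042448539807) (nat_lit 0) (nat_lit 3945530240221) (nat_lit 1) (nat_lit 5) (nat_lit 3) (nat_lit 4) (nat_lit 1) (nat_lit 4) (nat_lit 374) (nat_lit 288) (nat_lit 238)) (XT.nd (nat_lit 78) (nat_lit 0) (nat_lit 0) (XT.lf (nat_lit 0) (nat_lit 4541954032272) (nat_lit 152) (nat_lit 18441169916826) (nat_lit 0) (nat_lit 4540983496748) (nat_lit 1) (nat_lit 5) (nat_lit 3) (nat_lit 4) (nat_lit 1) (nat_lit 4) (nat_lit 375) (nat_lit 288) (nat_lit 237)) (XT.lf (nat_lit 0) (nat_lit 5226724597626) (nat_lit 152) (nat_lit 21199701217998) (nat_lit 0) (nat_lit 5225753960439) (nat_lit 1) (nat_lit 5) (nat_lit 3) (nat_lit 4) (nat_lit 1) (nat_lit 4) (nat_lit 376) (nat_lit 288) (nat_lit 236))))) (XT.nd (nat_lit 234) (nat_lit 0) (nat_lit 0) (XT.nd (nat_lit 78) (nat_lit 0) (nat_lit 0) (XT.lf (nat_lit 0) (nat_lit 6014210039870) (nat_lit 152) (nat_lit 24372013707913)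 (nat_lit 0) (nat_lit 6013239314279) (nat_lit 1) (nat_lit 5) (nat_lit 3) (nat_lit 4) (nat_lit 1) (nat_lit 4) (nat_lit 377) (nat_lit 288) (nat_lit 235)) (XT.nd (nat_lit 78) (nat_lit 0) (nat_lit 0) (XT.lf (nat_lit 0) (nat_lit 6919817682872) (nat_lit 152) (nat_lit 28020174370067) (nat_lit 0) (nat_lit 6918846880410) (nat_lit 1) (nat_lit 5) (nat_lit 3) (nat_lit 4) (nat_lit 1) (nat_lit 4) (nat_lit 378) (nat_lit 288) (nat_lit 234)) (XT.lf (nat_lit 0) (nat_lit 7961265937041) (nat_lit 152) (nat_lit 32215560260896) (nat_lit 0) (nat_lit 7960295067734) (nat_lit 1) (nat_lit 5) (nat_lit 3) (nat_lit 4) (nat_lit 1) (nat_lit 4) (nat_lit 379) (nat_lit 288) (nat_lit 233)))) (XT.nd (nat_lit 78) (nat_lit 0) (nat_lit 0) (XT.lf (nat_lit 0) (nat_lit 9158930963870) (nat_lit 152) (nat_lit 37040255017392) (nat_lit 0) (nat_lit 9157960036437) (nat_lit 1) (nat_lit 5) (nat_lit 3) (nat_lit 4) (nat_lit 1) (nat_lit 4) (nat_lit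 380) (nat_lit 288) (nat_lit 232)) (XT.nd (nat_lit 78) (nat_lit 0) (nat_lit 0) (XT.lf (nat_lit 0) (nat_lit 10536245339972) (nat_lit 152) (nat_lit 42588654841314) (nat_lit 0) (nat_lit 10535274361994) (nat_lit 1) (nat_lit 5) (nat_lit 3) (nat_lit 4) (nat_lit 1) (nat_lit 4) (nat_lit 381) (nat_lit 288) (nat_lit 231)) (XT.lf (nat_lit 0) (nat_lit 12120156520530) (nat_lit 152) (nat_lit 48969315381390) (nat_lit 0) (nat_lit 12119185498600) (nat_lit 1) (nat_lit 5) (nat_lit 3) (nat_lit 4) (nat_lit 1) (nat_lit 4) (nat_lit 382) (nat_lit 288) (nat_lit 230))))))))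
noncomputable def xc27 : XT := (XT.nd (nat_lit 43524) (nat_lit 0) (nat_lit 0) (XT.nd (nat_lit 42666) (nat_lit 0) (nat_lit 0) (XT.nd (nat_lit 42198) (nat_lit 0) (nat_lit 228) (XT.nd (nat_lit 156) (nat_lit 0) (nat_lit 0) (XT.nd (nat_lit 78) (nat_lit 0) (nat_lit 0) (XT.lf (nat_lit 0) (nat_lit 13941654072122) (nat_lit 152) (nat_lit 56307075648188) (nat_lit 0) (nat_lit 13940683011973) (nat_lit 1) (nat_lit 5) (nat_lit 3) (nat_lit 4) (nat_lit 1) (nat_lit 4) (nat_lit 383) (nat_lit 288) (nat_lit 229)) (XT.lf (nat_lit 0) (nat_lit 16036375990321) (nat_lit 152) (nat_lit 64745500516492) (nat_lit 0) (nat_lit 16035404896938) (nat_lit 1) (nat_lit 5) (nat_lit 3) (nat_lit 4) (nat_lit 1) (nat_lit 4) (nat_lit 384) (nat_lit 288) (nat_lit 228))) (XT.nd (nat_lit 78) (nat_lit 0) (nat_lit 0) (XT.lf (nat_lit 0) (nat_lit 18445305964832) (nat_lit 152) (nat_lit 74449689603291) (nat_lit 0) (nat_lit 18444334842550)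 (nat_lit 1) (nat_lit 5) (nat_lit 3) (nat_lit 4) (nat_lit 1) (nat_lit 4) (nat_lit 385) (nat_lit 288) (nat_lit 227)) (XT.nd (nat_lit 41886) (nat_lit 0) (nat_lit 456) (XT.lf (nat_lit 0) (nat_lit 21215575234286) (nat_lit 152) (nat_lit 85609507477674) (nat_lit 0) (nat_lit 21214604086875) (nat_lit 1) (nat_lit 5) (nat_lit 3) (nat_lit 4) (nat_lit 1) (nat_lit 4) (nat_lit 386) (nat_lit 288) (nat_lit 226)) (XT.lf (nat_lit 0) (nat_lit 1045745292) (nat_lit 152) (nat_lit 9182058299) (nat_lit 0) (nat_lit 1045745292) (nat_lit 7) (nat_lit 5) (nat_lit 9) (nat_lit 4) (nat_lit 7) (nat_lit 4) (nat_lit 322) (nat_lit 289) (nat_lit 289))))) (XT.nd (nat_lit 234) (nat_lit 152) (nat_lit 0) (XT.nd (nat_lit 78) (nat_lit 76) (nat_lit 0) (XT.lf (nat_lit 0) (nat_lit 9122214839) (nat_lit 152) (nat_lit 6835265218) (nat_lit 0) (nat_lit 8929530238) (nat_lit 7) (nat_lit 5) (nat_lit 9) (nat_lit 4) (nat_lit 7) (nat_lit 4) (nat_lit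 323) (nat_lit 289) (nat_lit 288)) (XT.nd (nat_lit 78) (nat_lit 0) (nat_lit 0) (XT.lf (nat_lit 0) (nat_lit 5718172560) (nat_lit 76) (nat_lit 11136509652) (nat_lit 76) (nat_lit 10776273223) (nat_lit 6) (nat_lit 4) (nat_lit 7) (nat_lit 5) (nat_lit 7) (nat_lit 4) (nat_lit 324) (nat_lit 289) (nat_lit 287)) (XT.lf (nat_lit 0) (nat_lit 19764177336) (nat_lit 76) (nat_lit 5779430616) (nat_lit 76) (nat_lit 5273496945) (nat_lit 6) (nat_lit 4) (nat_lit 7) (nat_lit 5) (nat_lit 7) (nat_lit 4) (nat_lit 325) (nat_lit 289) (nat_lit 286)))) (XT.nd (nat_lit 78) (nat_lit 0) (nat_lit 0) (XT.lf (nat_lit 0) (nat_lit 367429807) (nat_lit 76) (nat_lit 97712858) (nat_lit 152) (nat_lit 34083907940) (nat_lit 4) (nat_lit 5) (nat_lit 5) (nat_lit 5) (nat_lit 6) (nat_lit 4) (nat_lit 326) (nat_lit 289) (nat_lit 285)) (XT.nd (nat_lit 78) (nat_lit 0) (nat_lit 0) (XT.lf (nat_lit 0) (nat_lit 6888755626) (nat_lit 152) (nat_lit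 25616971564) (nat_lit 0) (nat_lit 6242846956) (nat_lit 4) (nat_lit 5) (nat_lit 6) (nat_lit 4) (nat_lit 4) (nat_lit 4) (nat_lit 327) (nat_lit 289) (nat_lit 284)) (XT.lf (nat_lit 0) (nat_lit 13839078109) (nat_lit 152) (nat_lit 16694664030) (nat_lit 0) (nat_lit 13109866569) (nat_lit 4) (nat_lit 5) (nat_lit 6) (nat_lit 4) (nat_lit 4) (nat_lit 4) (nat_lit 328) (nat_lit 289) (nat_lit 283)))))) (XT.nd (nat_lit 390) (nat_lit 152) (nat_lit 0) (XT.nd (nat_lit 156) (nat_lit 0) (nat_lit 0) (XT.nd (nat_lit 78) (nat_lit 76) (nat_lit 0) (XT.lf (nat_lit 0) (nat_lit 21448048605) (nat_lit 152) (nat_lit 7236085230) (nat_lit 0) (nat_lit 20646399786) (nat_lit 4) (nat_lit 5) (nat_lit 6) (nat_lit 4) (nat_lit 4) (nat_lit 4) (nat_lit 329) (nat_lit 289) (nat_lit 282)) (XT.lf (nat_lit 0) (nat_lit 3231515878) (nat_lit 76) (nat_lit 26766832579) (nat_lit 76) (nat_lit 25902194822) (nat_lit 3) (nat_lit 4) (nat_lit 4)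 (nat_lit 5) (nat_lit 4) (nat_lit 4) (nat_lit 330) (nat_lit 289) (nat_lit 281))) (XT.nd (nat_lit 78) (nat_lit 0) (nat_lit 0) (XT.lf (nat_lit 0) (nat_lit 15416740619) (nat_lit 76) (nat_lit 24474851303) (nat_lit 76) (nat_lit 23555440556) (nat_lit 3) (nat_lit 4) (nat_lit 4) (nat_lit 5) (nat_lit 4) (nat_lit 4) (nat_lit 331) (nat_lit 289) (nat_lit 280)) (XT.nd (nat_lit 78) (nat_lit 0) (nat_lit 0) (XT.lf (nat_lit 0) (nat_lit 28850832691) (nat_lit 76) (nat_lit 22141596805) (nat_lit 76) (nat_lit 21174557372) (nat_lit 3) (nat_lit 4) (nat_lit 4) (nat_lit 5) (nat_lit 4) (nat_lit 4) (nat_lit 332) (nat_lit 289) (nat_lit 279)) (XT.lf (nat_lit 0) (nat_lit 43796633024) (nat_lit 76) (nat_lit 19721418455) (nat_lit 76) (nat_lit 18712962773) (nat_lit 3) (nat_lit 4) (nat_lit 4) (nat_lit 5) (nat_lit 4) (nat_lit 4) (nat_lit 333) (nat_lit 289) (nat_lit 278))))) (XT.nd (nat_lit 234) (nat_lit 152) (nat_lit 0) (XT.nd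 (nat_lit 78) (nat_lit 0) (nat_lit 0) (XT.lf (nat_lit 0) (nat_lit 60546559451) (nat_lit 76) (nat_lit 17166964937) (nat_lit 76) (nat_lit 16122495124) (nat_lit 3) (nat_lit 4) (nat_lit 4) (nat_lit 5) (nat_lit 4) (nat_lit 4) (nat_lit 334) (nat_lit 289) (nat_lit 277)) (XT.nd (nat_lit 78) (nat_lit 0) (nat_lit 0) (XT.lf (nat_lit 0) (nat_lit 79428327925) (nat_lit 76) (nat_lit 14428257811) (nat_lit 76) (nat_lit 13352471365) (nat_lit 3) (nat_lit 4) (nat_lit 4) (nat_lit 5) (nat_lit 4) (nat_lit 4) (nat_lit 335) (nat_lit 289) (nat_lit 276)) (XT.lf (nat_lit 0) (nat_lit 100811364349) (nat_lit 76) (nat_lit 11451713679) (nat_lit 76) (nat_lit 10348695376) (nat_lit 3) (nat_lit 4) (nat_lit 4) (nat_lit 5) (nat_lit 4) (nat_lit 4) (nat_lit 336) (nat_lit 289) (nat_lit 275)))) (XT.nd (nat_lit 78) (nat_lit 152) (nat_lit 0) (XT.lf (nat_lit 0) (nat_lit 125114032481) (nat_lit 76) (nat_lit 8179095807) (nat_lit 76) (nat_lit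 7052397629) (nat_lit 3) (nat_lit 4) (nat_lit 4) (nat_lit 5) (nat_lit 4) (nat_lit 4) (nat_lit 337) (nat_lit 289) (nat_lit 274)) (XT.nd (nat_lit 78) (nat_lit 152) (nat_lit 0) (XT.lf (nat_lit 0) (nat_lit 152811819304) (nat_lit 76) (nat_lit 4546374715) (nat_lit 76) (nat_lit 3399085341) (nat_lit 3) (nat_lit 4) (nat_lit 4) (nat_lit 5) (nat_lit 4) (nat_lit 4) (nat_lit 338) (nat_lit 289) (nat_lit 273)) (XT.lf (nat_lit 0) (nat_lit 188780505) (nat_lit 76) (nat_lit 440975432) (nat_lit 152) (nat_lit 183611225149) (nat_lit 1) (nat_lit 5) (nat_lit 2) (nat_lit 5) (nat_lit 3) (nat_lit 4) (nat_lit 339) (nat_lit 289) (nat_lit 272))))))) (XT.nd (nat_lit 858) (nat_lit 0) (nat_lit 0) (XT.nd (nat_lit 390) (nat_lit 0) (nat_lit 0) (XT.nd (nat_lit 156) (nat_lit 0) (nat_lit 0) (XT.nd (nat_lit 78) (nat_lit 0) (nat_lit 0) (XT.lf (nat_lit 0) (nat_lit 5418847383) (nat_lit 152) (nat_lit 201336436535) (nat_lit 0) (nat_lit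 4392095502) (nat_lit 1) (nat_lit 5) (nat_lit 3) (nat_lit 4) (nat_lit 1) (nat_lit 4) (nat_lit 340) (nat_lit 289) (nat_lit 271)) (XT.lf (nat_lit 0) (nat_lit 10853024584) (nat_lit 152) (nat_lit 221433213139) (nat_lit 0) (nat_lit 9814499620) (nat_lit 1) (nat_lit 5) (nat_lit 3) (nat_lit 4) (nat_lit 1) (nat_lit 4) (nat_lit 341) (nat_lit 289) (nat_lit 270))) (XT.nd (nat_lit 78) (nat_lit 0) (nat_lit 0) (XT.lf (nat_lit 0) (nat_lit 17020348546) (nat_lit 152) (nat_lit 244717468344) (nat_lit 0) (nat_lit 15971586119) (nat_lit 1) (nat_lit 5) (nat_lit 3) (nat_lit 4) (nat_lit 1) (nat_lit 4) (nat_lit 342) (nat_lit 289) (nat_lit 269)) (XT.nd (nat_lit 78) (nat_lit 0) (nat_lit 0) (XT.lf (nat_lit 0) (nat_lit 24041484304) (nat_lit 152) (nat_lit 271644763664) (nat_lit 0) (nat_lit 22983819735) (nat_lit 1) (nat_lit 5) (nat_lit 3) (nat_lit 4) (nat_lit 1) (nat_lit 4) (nat_lit 343) (nat_lit 289) (nat_lit 268)) (XT.lf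 (nat_lit 0) (nat_lit 32053801905) (nat_lit 152) (nat_lit 302741937488) (nat_lit 0) (nat_lit 30988396343) (nat_lit 1) (nat_lit 5) (nat_lit 3) (nat_lit 4) (nat_lit 1) (nat_lit 4) (nat_lit 344) (nat_lit 289) (nat_lit 267))))) (XT.nd (nat_lit 234) (nat_lit 0) (nat_lit 0) (XT.nd (nat_lit 78) (nat_lit 0) (nat_lit 0) (XT.lf (nat_lit 0) (nat_lit 41214064085) (nat_lit 152) (nat_lit 338617412779) (nat_lit 0) (nat_lit 40141927224) (nat_lit 1) (nat_lit 5) (nat_lit 3) (nat_lit 4) (nat_lit 1) (nat_lit 4) (nat_lit 345) (nat_lit 289) (nat_lit 266)) (XT.nd (nat_lit 78) (nat_lit 0) (nat_lit 0) (XT.lf (nat_lit 0) (nat_lit 51701493364) (nat_lit 152) (nat_lit 379973101012) (nat_lit 0) (nat_lit 50623503200) (nat_lit 1) (nat_lit 5) (nat_lit 3) (nat_lit 4) (nat_lit 1) (nat_lit 4) (nat_lit 346) (nat_lit 289) (nat_lit 265)) (XT.lf (nat_lit 0) (nat_lit 63721278576) (nat_lit 152) (nat_lit 427618135218) (nat_lit 0)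 (nat_lit 62638198584) (nat_lit 1) (nat_lit 5) (nat_lit 3) (nat_lit 4) (nat_lit 1) (nat_lit 4) (nat_lit 347) (nat_lit 289) (nat_lit 264)))) (XT.nd (nat_lit 78) (nat_lit 0) (nat_lit 0) (XT.lf (nat_lit 0) (nat_lit 77508589432) (nat_lit 152) (nat_lit 482484700848) (nat_lit 0) (nat_lit 76421083502) (nat_lit 1) (nat_lit 5) (nat_lit 3) (nat_lit 4) (nat_lit 1) (nat_lit 4) (nat_lit 348) (nat_lit 289) (nat_lit 263)) (XT.nd (nat_lit 78) (nat_lit 0) (nat_lit 0) (XT.lf (nat_lit 0) (nat_lit 93333177667) (nat_lit 152) (nat_lit 545646274186) (nat_lit 0) (nat_lit 92241823095) (nat_lit 1) (nat_lit 5) (nat_lit 3) (nat_lit 4) (nat_lit 1) (nat_lit 4) (nat_lit 349) (nat_lit 289) (nat_lit 262)) (XT.lf (nat_lit 0) (nat_lit 111504654788) (nat_lit 152) (nat_lit 618338625145) (nat_lit 0) (nat_lit 110409953571) (nat_lit 1) (nat_lit 5) (nat_lit 3) (nat_lit 4) (nat_lit 1) (nat_lit 4) (nat_lit 350) (nat_lit 289) (nat_lit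 261)))))) (XT.nd (nat_lit 468) (nat_lit 0) (nat_lit 0) (XT.nd (nat_lit 234) (nat_lit 0) (nat_lit 0) (XT.nd (nat_lit 78) (nat_lit 0) (nat_lit 0) (XT.lf (nat_lit 0) (nat_lit 132378549696) (nat_lit 152) (nat_lit 701983995375) (nat_lit 0) (nat_lit 131280938354) (nat_lit 1) (nat_lit 5) (nat_lit 3) (nat_lit 4) (nat_lit 1) (nat_lit 4) (nat_lit 351) (nat_lit 289) (nat_lit 260)) (XT.nd (nat_lit 78) (nat_lit 0) (nat_lit 0) (XT.lf (nat_lit 0) (nat_lit 156363264684) (nat_lit 152) (nat_lit 798218924727) (nat_lit 0) (nat_lit 155263122797) (nat_lit 1) (nat_lit 5) (nat_lit 3) (nat_lit 4) (nat_lit 1) (nat_lit 4) (nat_lit 352) (nat_lit 289) (nat_lit 259)) (XT.lf (nat_lit 0) (nat_lit 183928065913) (nat_lit 152) (nat_lit 908926270516) (nat_lit 0) (nat_lit 182825723552) (nat_lit 1) (nat_lit 5) (nat_lit 3) (nat_lit 4) (nat_lit 1) (nat_lit 4) (nat_lit 353) (nat_lit 289) (nat_lit 258)))) (XT.nd (nat_lit 78) (nat_lit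 0) (nat_lit 0) (XT.lf (nat_lit 0) (nat_lit 215612264712) (nat_lit 152) (nat_lit 1036272046029) (nat_lit 0) (nat_lit 214508008896) (nat_lit 1) (nat_lit 5) (nat_lit 3) (nat_lit 4) (nat_lit 1) (nat_lit 4) (nat_lit 354) (nat_lit 289) (nat_lit 257)) (XT.nd (nat_lit 78) (nat_lit 0) (nat_lit 0) (XT.lf (nat_lit 0) (nat_lit 252035769319) (nat_lit 152) (nat_lit 1182747799046) (nat_lit 0) (nat_lit 250929849629) (nat_lit 1) (nat_lit 5) (nat_lit 3) (nat_lit 4) (nat_lit 1) (nat_lit 4) (nat_lit 355) (nat_lit 289) (nat_lit 256)) (XT.lf (nat_lit 0) (nat_lit 293911213518) (nat_lit 152) (nat_lit 1351219359520) (nat_lit 0) (nat_lit 292803846982) (nat_lit 1) (nat_lit 5) (nat_lit 3) (nat_lit 4) (nat_lit 1) (nat_lit 4) (nat_lit 356) (nat_lit 289) (nat_lit 255))))) (XT.nd (nat_lit 234) (nat_lit 0) (nat_lit 0) (XT.nd (nat_lit 78) (nat_lit 0) (nat_lit 0) (XT.lf (nat_lit 0) (nat_lit 342057899481) (nat_lit 152) (nat_lit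 1544982910153) (nat_lit 0) (nat_lit 340949274816) (nat_lit 1) (nat_lit 5) (nat_lit 3) (nat_lit 4) (nat_lit 1) (nat_lit 4) (nat_lit 357) (nat_lit 289) (nat_lit 254)) (XT.nd (nat_lit 78) (nat_lit 0) (nat_lit 0) (XT.lf (nat_lit 0) (nat_lit 397417827583) (nat_lit 152) (nat_lit 1767829476938) (nat_lit 0) (nat_lit 396308108894) (nat_lit 1) (nat_lit 5) (nat_lit 3) (nat_lit 4) (nat_lit 1) (nat_lit 4) (nat_lit 358) (nat_lit 289) (nat_lit 253)) (XT.lf (nat_lit 0) (nat_lit 461074126853) (nat_lit 152) (nat_lit 2024119101398) (nat_lit 0) (nat_lit 459963456839) (nat_lit 1) (nat_lit 5) (nat_lit 3) (nat_lit 4) (nat_lit 1) (nat_lit 4) (nat_lit 359) (nat_lit 289) (nat_lit 252)))) (XT.nd (nat_lit 78) (nat_lit 0) (nat_lit 0) (XT.lf (nat_lit 0) (nat_lit 534272246624) (nat_lit 152) (nat_lit 2318866145751) (nat_lit 0) (nat_lit 533160749371) (nat_lit 1) (nat_lit 5) (nat_lit 3) (nat_lit 4) (nat_lit 1) (nat_lit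 4) (nat_lit 360) (nat_lit 289) (nat_lit 251)) (XT.nd (nat_lit 78) (nat_lit 0) (nat_lit 0) (XT.lf (nat_lit 0) (nat_lit 618444324023) (nat_lit 152) (nat_lit 2657837399995) (nat_lit 0) (nat_lit 617332107431) (nat_lit 1) (nat_lit 5) (nat_lit 3) (nat_lit 4) (nat_lit 1) (nat_lit 4) (nat_lit 361) (nat_lit 289) (nat_lit 250)) (XT.lf (nat_lit 0) (nat_lit 715237204042) (nat_lit 152) (nat_lit 3047664910409) (nat_lit 0) (nat_lit 714124361938) (nat_lit 1) (nat_lit 5) (nat_lit 3) (nat_lit 4) (nat_lit 1) (nat_lit 4) (nat_lit 362) (nat_lit 289) (nat_lit 249))))))))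
noncomputable def xc28 : XT := (XT.nd (nat_lit 1716) (nat_lit 0) (nat_lit 0) (XT.nd (nat_lit 858) (nat_lit 0) (nat_lit 0) (XT.nd (nat_lit 390) (nat_lit 0) (nat_lit 0) (XT.nd (nat_lit 156) (nat_lit 0) (nat_lit 0) (XT.nd (nat_lit 78) (nat_lit 0) (nat_lit 0) (XT.lf (nat_lit 0) (nat_lit 826544660421) (nat_lit 152) (nat_lit 3495975736979) (nat_lit 0) (nat_lit 825431274394) (nat_lit 1) (nat_lit 5) (nat_lit 3) (nat_lit 4) (nat_lit 1) (nat_lit 4) (nat_lit 363) (nat_lit 289) (nat_lit 248)) (XT.lf (nat_lit 0) (nat_lit 954544447741) (nat_lit 152) (nat_lit 4011541178486) (nat_lit 0) (nat_lit 953430588736) (nat_lit 1) (nat_lit 5) (nat_lit 3) (nat_lit 4) (nat_lit 1) (nat_lit 4) (nat_lit 364) (nat_lit 289) (nat_lit 247))) (XT.nd (nat_lit 78) (nat_lit 0) (nat_lit 0) (XT.lf (nat_lit 0) (nat_lit 1101740909666) (nat_lit 152) (nat_lit 4604448384872) (nat_lit 0) (nat_lit 1100626639377) (nat_lit 1) (nat_lit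 5) (nat_lit 3) (nat_lit 4) (nat_lit 1) (nat_lit 4) (nat_lit 365) (nat_lit 289) (nat_lit 246)) (XT.nd (nat_lit 78) (nat_lit 0) (nat_lit 0) (XT.lf (nat_lit 0) (nat_lit 1271013976974) (nat_lit 152) (nat_lit 5286297714523) (nat_lit 0) (nat_lit 1269899349047) (nat_lit 1) (nat_lit 5) (nat_lit 3) (nat_lit 4) (nat_lit 1) (nat_lit 4) (nat_lit 366) (nat_lit 289) (nat_lit 245)) (XT.lf (nat_lit 0) (nat_lit 1465675514025) (nat_lit 152) (nat_lit 6070429697802) (nat_lit 0) (nat_lit 1464560575108) (nat_lit 1) (nat_lit 5) (nat_lit 3) (nat_lit 4) (nat_lit 1) (nat_lit 4) (nat_lit 367) (nat_lit 289) (nat_lit 244))))) (XT.nd (nat_lit 234) (nat_lit 0) (nat_lit 0) (XT.nd (nat_lit 78) (nat_lit 0) (nat_lit 0) (XT.lf (nat_lit 0) (nat_lit 1689534116109) (nat_lit 152) (nat_lit 6972186047426) (nat_lit 0) (nat_lit 1688418906766) (nat_lit 1) (nat_lit 5) (nat_lit 3) (nat_lit 4) (nat_lit 1) (nat_lit 4) (nat_lit 368) (nat_lit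 289) (nat_lit 243)) (XT.nd (nat_lit 78) (nat_lit 0) (nat_lit 0) (XT.lf (nat_lit 0) (nat_lit 1946969625441) (nat_lit 152) (nat_lit 8009209822408) (nat_lit 0) (nat_lit 1945854180945) (nat_lit 1) (nat_lit 5) (nat_lit 3) (nat_lit 4) (nat_lit 1) (nat_lit 4) (nat_lit 369) (nat_lit 289) (nat_lit 242)) (XT.lf (nat_lit 0) (nat_lit 2243018823725) (nat_lit 152) (nat_lit 9201790618347) (nat_lit 0) (nat_lit 2241903174748) (nat_lit 1) (nat_lit 5) (nat_lit 3) (nat_lit 4) (nat_lit 1) (nat_lit 4) (nat_lit 370) (nat_lit 289) (nat_lit 241)))) (XT.nd (nat_lit 78) (nat_lit 0) (nat_lit 0) (XT.lf (nat_lit 0) (nat_lit 2583473977884) (nat_lit 152) (nat_lit 10573261537770) (nat_lit 0) (nat_lit 2582358151098) (nat_lit 1) (nat_lit 5) (nat_lit 3) (nat_lit 4) (nat_lit 1) (nat_lit 4) (nat_lit 371) (nat_lit 289) (nat_lit 240)) (XT.nd (nat_lit 78) (nat_lit 0) (nat_lit 0) (XT.lf (nat_lit 0) (nat_lit 2974996167022) (nat_lit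 152) (nat_lit 12150455707364) (nat_lit 0) (nat_lit 2973880185618) (nat_lit 1) (nat_lit 5) (nat_lit 3) (nat_lit 4) (nat_lit 1) (nat_lit 4) (nat_lit 372) (nat_lit 289) (nat_lit 239)) (XT.lf (nat_lit 0) (nat_lit 3425245607881) (nat_lit 152) (nat_lit 13964231273923) (nat_lit 0) (nat_lit 3424129492029) (nat_lit 1) (nat_lit 5) (nat_lit 3) (nat_lit 4) (nat_lit 1) (nat_lit 4) (nat_lit 373) (nat_lit 289) (nat_lit 238)))))) (XT.nd (nat_lit 390) (nat_lit 0) (nat_lit 0) (XT.nd (nat_lit 156) (nat_lit 0) (nat_lit 0) (XT.nd (nat_lit 78) (nat_lit 0) (nat_lit 0) (XT.lf (nat_lit 0) (nat_lit 3943031528654) (nat_lit 152) (nat_lit 16050075150708) (nat_lit 0) (nat_lit 3941915295889) (nat_lit 1) (nat_lit 5) (nat_lit 3) (nat_lit 4) (nat_lit 1) (nat_lit 4) (nat_lit 374) (nat_lit 289) (nat_lit 237)) (XT.lf (nat_lit 0) (nat_lit 4538484523442) (nat_lit 152) (nat_lit 18448797326611) (nat_lit 0) (nat_lit 4537368189013)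 (nat_lit 1) (nat_lit 5) (nat_lit 3) (nat_lit 4) (nat_lit 1) (nat_lit 4) (nat_lit 375) (nat_lit 289) (nat_lit 236))) (XT.nd (nat_lit 78) (nat_lit 0) (nat_lit 0) (XT.lf (nat_lit 0) (nat_lit 5223254759534) (nat_lit 152) (nat_lit 21207329322465) (nat_lit 0) (nat_lit 5222138336702) (nat_lit 1) (nat_lit 5) (nat_lit 3) (nat_lit 4) (nat_lit 1) (nat_lit 4) (nat_lit 376) (nat_lit 289) (nat_lit 235)) (XT.nd (nat_lit 78) (nat_lit 0) (nat_lit 0) (XT.lf (nat_lit 0) (nat_lit 6010739915462) (nat_lit 152) (nat_lit 24379642416451) (nat_lit 0) (nat_lit 6009623415759) (nat_lit 1) (nat_lit 5) (nat_lit 3) (nat_lit 4) (nat_lit 1) (nat_lit 4) (nat_lit 377) (nat_lit 289) (nat_lit 234)) (XT.lf (nat_lit 0) (nat_lit 6916347309495) (nat_lit 152) (nat_lit 28027803603885) (nat_lit 0) (nat_lit 6915230742947) (nat_lit 1) (nat_lit 5) (nat_lit 3) (nat_lit 4) (nat_lit 1) (nat_lit 4) (nat_lit 378) (nat_lit 289) (nat_lit 233)))))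 (XT.nd (nat_lit 234) (nat_lit 0) (nat_lit 0) (XT.nd (nat_lit 78) (nat_lit 0) (nat_lit 0) (XT.lf (nat_lit 0) (nat_lit 7957795347169) (nat_lit 152) (nat_lit 32223189951477) (nat_lit 0) (nat_lit 7956678722494) (nat_lit 1) (nat_lit 5) (nat_lit 3) (nat_lit 4) (nat_lit 1) (nat_lit 4) (nat_lit 379) (nat_lit 289) (nat_lit 232)) (XT.nd (nat_lit 78) (nat_lit 0) (nat_lit 0) (XT.lf (nat_lit 0) (nat_lit 9155460185741) (nat_lit 152) (nat_lit 37047885105160) (nat_lit 0) (nat_lit 9154343510522) (nat_lit 1) (nat_lit 5) (nat_lit 3) (nat_lit 4) (nat_lit 1) (nat_lit 4) (nat_lit 380) (nat_lit 289) (nat_lit 231)) (XT.lf (nat_lit 0) (nat_lit 10532774398141) (nat_lit 152) (nat_lit 42596285274462) (nat_lit 0) (nat_lit 10531657678970) (nat_lit 1) (nat_lit 5) (nat_lit 3) (nat_lit 4) (nat_lit 1) (nat_lit 4) (nat_lit 381) (nat_lit 289) (nat_lit 230)))) (XT.nd (nat_lit 78) (nat_lit 0) (nat_lit 0) (XT.lf (nat_lit 0)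 (nat_lit 12116685436350) (nat_lit 152) (nat_lit 48976946114868) (nat_lit 0) (nat_lit 12115568678960) (nat_lit 1) (nat_lit 5) (nat_lit 3) (nat_lit 4) (nat_lit 1) (nat_lit 4) (nat_lit 382) (nat_lit 289) (nat_lit 229)) (XT.nd (nat_lit 78) (nat_lit 0) (nat_lit 0) (XT.lf (nat_lit 0) (nat_lit 13938182864160) (nat_lit 152) (nat_lit 56314706642823) (nat_lit 0) (nat_lit 13937066073536) (nat_lit 1) (nat_lit 5) (nat_lit 3) (nat_lit 4) (nat_lit 1) (nat_lit 4) (nat_lit 383) (nat_lit 289) (nat_lit 228)) (XT.lf (nat_lit 0) (nat_lit 16032904674723) (nat_lit 152) (nat_lit 64753131738219) (nat_lit 0) (nat_lit 16031787855200) (nat_lit 1) (nat_lit 5) (nat_lit 3) (nat_lit 4) (nat_lit 1) (nat_lit 4) (nat_lit 384) (nat_lit 289) (nat_lit 227))))))) (XT.nd (nat_lit 42432) (nat_lit 0) (nat_lit 152) (XT.nd (nat_lit 41964) (nat_lit 0) (nat_lit 228) (XT.nd (nat_lit 2106) (nat_lit 0) (nat_lit 0) (XT.nd (nat_lit 78)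 (nat_lit 0) (nat_lit 0) (XT.lf (nat_lit 0) (nat_lit 18441834555637) (nat_lit 152) (nat_lit 74457321022490) (nat_lit 0) (nat_lit 18440717710984) (nat_lit 1) (nat_lit 5) (nat_lit 3) (nat_lit 4) (nat_lit 1) (nat_lit 4) (nat_lit 385) (nat_lit 289) (nat_lit 226)) (XT.lf (nat_lit 0) (nat_lit 21212103743703) (nat_lit 152) (nat_lit 85617139068588) (nat_lit 0) (nat_lit 21210986877198) (nat_lit 1) (nat_lit 5) (nat_lit 3) (nat_lit 4) (nat_lit 1) (nat_lit 4) (nat_lit 386) (nat_lit 289) (nat_lit 225))) (XT.nd (nat_lit 39702) (nat_lit 0) (nat_lit 608) (XT.lf (nat_lit 0) (nat_lit 804003498791634) (nat_lit 152) (nat_lit 3239033464695359) (nat_lit 0) (nat_lit 804002381783295) (nat_lit 1) (nat_lit 5) (nat_lit 3) (nat_lit 4) (nat_lit 1) (nat_lit 4) (nat_lit 412) (nat_lit 289) (nat_lit 199)) (XT.nd (nat_lit 78) (nat_lit 76) (nat_lit 0) (XT.lf (nat_lit 0) (nat_lit 4345334121) (nat_lit 152) (nat_lit 648636726)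 (nat_lit 0) (nat_lit 4345334121) (nat_lit 10) (nat_lit 5) (nat_lit 12) (nat_lit 4) (nat_lit 10) (nat_lit 4) (nat_lit 320) (nat_lit 290) (nat_lit 290)) (XT.lf (nat_lit 0) (nat_lit 11893324888) (nat_lit 76) (nat_lit 4423852216) (nat_lit 76) (nat_lit 4169026831) (nat_lit 9) (nat_lit 4) (nat_lit 10) (nat_lit 5) (nat_lit 10) (nat_lit 4) (nat_lit 321) (nat_lit 290) (nat_lit 289))))) (XT.nd (nat_lit 234) (nat_lit 152) (nat_lit 0) (XT.nd (nat_lit 78) (nat_lit 76) (nat_lit 0) (XT.lf (nat_lit 0) (nat_lit 1997687516) (nat_lit 152) (nat_lit 19013365184) (nat_lit 0) (nat_lit 1583415622) (nat_lit 7) (nat_lit 5) (nat_lit 9) (nat_lit 4) (nat_lit 7) (nat_lit 4) (nat_lit 322) (nat_lit 290) (nat_lit 288)) (XT.nd (nat_lit 78) (nat_lit 76) (nat_lit 0) (XT.lf (nat_lit 0) (nat_lit 8754159281) (nat_lit 152) (nat_lit 8049077790) (nat_lit 0) (nat_lit 8172335560) (nat_lit 7) (nat_lit 5) (nat_lit 9) (nat_lit 4) (nat_lit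 7) (nat_lit 4) (nat_lit 323) (nat_lit 290) (nat_lit 287)) (XT.lf (nat_lit 0) (nat_lit 3846835408) (nat_lit 76) (nat_lit 12323822740) (nat_lit 76) (nat_lit 11596301778) (nat_lit 6) (nat_lit 4) (nat_lit 7) (nat_lit 5) (nat_lit 7) (nat_lit 4) (nat_lit 324) (nat_lit 290) (nat_lit 286)))) (XT.nd (nat_lit 78) (nat_lit 152) (nat_lit 0) (XT.lf (nat_lit 0) (nat_lit 17424229760) (nat_lit 76) (nat_lit 7208575687) (nat_lit 76) (nat_lit 6354361472) (nat_lit 6) (nat_lit 4) (nat_lit 7) (nat_lit 5) (nat_lit 7) (nat_lit 4) (nat_lit 325) (nat_lit 290) (nat_lit 285)) (XT.nd (nat_lit 78) (nat_lit 152) (nat_lit 0) (XT.lf (nat_lit 0) (nat_lit 32162135514) (nat_lit 76) (nat_lit 1778162241) (nat_lit 76) (nat_lit 813779979) (nat_lit 6) (nat_lit 4) (nat_lit 7) (nat_lit 5) (nat_lit 7) (nat_lit 4) (nat_lit 326) (nat_lit 290) (nat_lit 284)) (XT.lf (nat_lit 0) (nat_lit 5283929603) (nat_lit 152) (nat_lit 29372472303)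 (nat_lit 0) (nat_lit 4362033462) (nat_lit 4) (nat_lit 5) (nat_lit 6) (nat_lit 4) (nat_lit 4) (nat_lit 4) (nat_lit 327) (nat_lit 290) (nat_lit 283)))))) (XT.nd (nat_lit 390) (nat_lit 0) (nat_lit 0) (XT.nd (nat_lit 156) (nat_lit 76) (nat_lit 0) (XT.nd (nat_lit 78) (nat_lit 0) (nat_lit 0) (XT.lf (nat_lit 0) (nat_lit 12055693780) (nat_lit 152) (nat_lit 20823222846) (nat_lit 0) (nat_lit 11061360359) (nat_lit 4) (nat_lit 5) (nat_lit 6) (nat_lit 4) (nat_lit 4) (nat_lit 4) (nat_lit 328) (nat_lit 290) (nat_lit 282)) (XT.lf (nat_lit 0) (nat_lit 19509396183) (nat_lit 152) (nat_lit 11689042372) (nat_lit 0) (nat_lit 18452073824) (nat_lit 4) (nat_lit 5) (nat_lit 6) (nat_lit 4) (nat_lit 4) (nat_lit 4) (nat_lit 329) (nat_lit 290) (nat_lit 281))) (XT.nd (nat_lit 78) (nat_lit 76) (nat_lit 0) (XT.lf (nat_lit 0) (nat_lit 27790870119) (nat_lit 152) (nat_lit 1791218655) (nat_lit 0) (nat_lit 26678774771) (nat_lit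 4) (nat_lit 5) (nat_lit 6) (nat_lit 4) (nat_lit 4) (nat_lit 4) (nat_lit 330) (nat_lit 290) (nat_lit 280)) (XT.nd (nat_lit 78) (nat_lit 0) (nat_lit 0) (XT.lf (nat_lit 0) (nat_lit 9949691739) (nat_lit 76) (nat_lit 27524448206) (nat_lit 76) (nat_lit 26364724171) (nat_lit 3) (nat_lit 4) (nat_lit 4) (nat_lit 5) (nat_lit 4) (nat_lit 4) (nat_lit 331) (nat_lit 290) (nat_lit 279)) (XT.lf (nat_lit 0) (nat_lit 23149641695) (nat_lit 76) (nat_lit 25313549207) (nat_lit 76) (nat_lit 24112408923) (nat_lit 3) (nat_lit 4) (nat_lit 4) (nat_lit 5) (nat_lit 4) (nat_lit 4) (nat_lit 332) (nat_lit 290) (nat_lit 278))))) (XT.nd (nat_lit 234) (nat_lit 0) (nat_lit 0) (XT.nd (nat_lit 78) (nat_lit 0) (nat_lit 0) (XT.lf (nat_lit 0) (nat_lit 37891840188) (nat_lit 76) (nat_lit 22999766943) (nat_lit 76) (nat_lit 21762612529) (nat_lit 3) (nat_lit 4) (nat_lit 4) (nat_lit 5) (nat_lit 4) (nat_lit 4) (nat_lit 333) (nat_lit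 290) (nat_lit 277)) (XT.nd (nat_lit 78) (nat_lit 0) (nat_lit 0) (XT.lf (nat_lit 0) (nat_lit 54464721537) (nat_lit 76) (nat_lit 20537831760) (nat_lit 76) (nat_lit 19269360711) (nat_lit 3) (nat_lit 4) (nat_lit 4) (nat_lit 5) (nat_lit 4) (nat_lit 4) (nat_lit 334) (nat_lit 290) (nat_lit 276)) (XT.lf (nat_lit 0) (nat_lit 73192537769) (nat_lit 76) (nat_lit 17879575361) (nat_lit 76) (nat_lit 16583872456) (nat_lit 3) (nat_lit 4) (nat_lit 4) (nat_lit 5) (nat_lit 4) (nat_lit 4) (nat_lit 335) (nat_lit 290) (nat_lit 275)))) (XT.nd (nat_lit 78) (nat_lit 0) (nat_lit 0) (XT.lf (nat_lit 0) (nat_lit 94441702678) (nat_lit 76) (nat_lit 14972988382) (nat_lit 76) (nat_lit 13653605603) (nat_lit 3) (nat_lit 4) (nat_lit 4) (nat_lit 5) (nat_lit 4) (nat_lit 4) (nat_lit 336) (nat_lit 290) (nat_lit 274)) (XT.nd (nat_lit 78) (nat_lit 0) (nat_lit 0) (XT.lf (nat_lit 0) (nat_lit 118627960797) (nat_lit 76) (nat_lit 11761202817)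 (nat_lit 76) (nat_lit 10421228842) (nat_lit 3) (nat_lit 4) (nat_lit 4) (nat_lit 5) (nat_lit 4) (nat_lit 4) (nat_lit 337) (nat_lit 290) (nat_lit 273)) (XT.lf (nat_lit 0) (nat_lit 146224521523) (nat_lit 76) (nat_lit 8181379383) (nat_lit 76) (nat_lit 6823500021) (nat_lit 3) (nat_lit 4) (nat_lit 4) (nat_lit 5) (nat_lit 4) (nat_lit 4) (nat_lit 338) (nat_lit 290) (nat_lit 272))))))))
noncomputable def xc29 : XT := (XT.nd (nat_lit 1716) (nat_lit 0) (nat_lit 0) (XT.nd (nat_lit 858) (nat_lit 0) (nat_lit 0) (XT.nd (nat_lit 390) (nat_lit 0) (nat_lit 0) (XT.nd (nat_lit 156) (nat_lit 0) (nat_lit 0) (XT.nd (nat_lit 78) (nat_lit 152) (nat_lit 0) (XT.lf (nat_lit 0) (nat_lit 177771317565) (nat_lit 76) (nat_lit 4163478057) (nat_lit 76) (nat_lit 2790028792) (nat_lit 3) (nat_lit 4) (nat_lit 4) (nat_lit 5) (nat_lit 4) (nat_lit 4) (nat_lit 339) (nat_lit 290) (nat_lit 271)) (XT.lf (nat_lit 0) (nat_lit 1718340369)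 (nat_lit 152) (nat_lit 209497318452) (nat_lit 0) (nat_lit 512263578) (nat_lit 1) (nat_lit 5) (nat_lit 3) (nat_lit 4) (nat_lit 1) (nat_lit 4) (nat_lit 340) (nat_lit 290) (nat_lit 270))) (XT.nd (nat_lit 78) (nat_lit 0) (nat_lit 0) (XT.lf (nat_lit 0) (nat_lit 7114387422) (nat_lit 152) (nat_lit 229674542549) (nat_lit 0) (nat_lit 5898073167) (nat_lit 1) (nat_lit 5) (nat_lit 3) (nat_lit 4) (nat_lit 1) (nat_lit 4) (nat_lit 341) (nat_lit 290) (nat_lit 269)) (XT.nd (nat_lit 78) (nat_lit 0) (nat_lit 0) (XT.lf (nat_lit 0) (nat_lit 13248554734) (nat_lit 152) (nat_lit 253028752096) (nat_lit 0) (nat_lit 12023338337) (nat_lit 1) (nat_lit 5) (nat_lit 3) (nat_lit 4) (nat_lit 1) (nat_lit 4) (nat_lit 342) (nat_lit 290) (nat_lit 268)) (XT.lf (nat_lit 0) (nat_lit 20240858622) (nat_lit 152) (nat_lit 280016877279) (nat_lit 0) (nat_lit 19007901232) (nat_lit 1) (nat_lit 5) (nat_lit 3) (nat_lit 4) (nat_lit 1) (nat_lit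 4) (nat_lit 343) (nat_lit 290) (nat_lit 267))))) (XT.nd (nat_lit 234) (nat_lit 0) (nat_lit 0) (XT.nd (nat_lit 78) (nat_lit 0) (nat_lit 0) (XT.lf (nat_lit 0) (nat_lit 28228105031) (nat_lit 152) (nat_lit 311166946635) (nat_lit 0) (nat_lit 26988416343) (nat_lit 1) (nat_lit 5) (nat_lit 3) (nat_lit 4) (nat_lit 1) (nat_lit 4) (nat_lit 344) (nat_lit 290) (nat_lit 266)) (XT.nd (nat_lit 78) (nat_lit 0) (nat_lit 0) (XT.lf (nat_lit 0) (nat_lit 37366566175) (nat_lit 152) (nat_lit 347088418041) (nat_lit 0) (nat_lit 36121024183) (nat_lit 1) (nat_lit 5) (nat_lit 3) (nat_lit 4) (nat_lit 1) (nat_lit 4) (nat_lit 345) (nat_lit 290) (nat_lit 265)) (XT.lf (nat_lit 0) (nat_lit 47835038031) (nat_lit 152) (nat_lit 388484102897) (nat_lit 0) (nat_lit 46584406211) (nat_lit 1) (nat_lit 5) (nat_lit 3) (nat_lit 4) (nat_lit 1) (nat_lit 4) (nat_lit 346) (nat_lit 290) (nat_lit 264)))) (XT.nd (nat_lit 78) (nat_lit 0) (nat_lit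 0) (XT.lf (nat_lit 0) (nat_lit 59838338528) (nat_lit 152) (nat_lit 436163916774) (nat_lit 0) (nat_lit 58583280770) (nat_lit 1) (nat_lit 5) (nat_lit 3) (nat_lit 4) (nat_lit 1) (nat_lit 4) (nat_lit 347) (nat_lit 290) (nat_lit 263)) (XT.nd (nat_lit 78) (nat_lit 0) (nat_lit 0) (XT.lf (nat_lit 0) (nat_lit 73611314849) (nat_lit 152) (nat_lit 491060725596) (nat_lit 0) (nat_lit 72352408450) (nat_lit 1) (nat_lit 5) (nat_lit 3) (nat_lit 4) (nat_lit 1) (nat_lit 4) (nat_lit 348) (nat_lit 290) (nat_lit 262)) (XT.lf (nat_lit 0) (nat_lit 89423438270) (nat_lit 152) (nat_lit 554248597362) (nat_lit 0) (nat_lit 88161185226) (nat_lit 1) (nat_lit 5) (nat_lit 3) (nat_lit 4) (nat_lit 1) (nat_lit 4) (nat_lit 349) (nat_lit 290) (nat_lit 261)))))) (XT.nd (nat_lit 390) (nat_lit 0) (nat_lit 0) (XT.nd (nat_lit 156) (nat_lit 0) (nat_lit 0) (XT.nd (nat_lit 78) (nat_lit 0) (nat_lit 0) (XT.lf (nat_lit 0) (nat_lit 107584076424)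 (nat_lit 152) (nat_lit 626963816520) (nat_lit 0) (nat_lit 106318913253) (nat_lit 1) (nat_lit 5) (nat_lit 3) (nat_lit 4) (nat_lit 1) (nat_lit 4) (nat_lit 350) (nat_lit 290) (nat_lit 260)) (XT.lf (nat_lit 0) (nat_lit 128448546143) (nat_lit 152) (nat_lit 710629072139) (nat_lit 0) (nat_lit 127180852428) (nat_lit 1) (nat_lit 5) (nat_lit 3) (nat_lit 4) (nat_lit 1) (nat_lit 4) (nat_lit 351) (nat_lit 290) (nat_lit 259))) (XT.nd (nat_lit 78) (nat_lit 0) (nat_lit 0) (XT.lf (nat_lit 0) (nat_lit 152425065313) (nat_lit 152) (nat_lit 806881293135) (nat_lit 0) (nat_lit 151155171125) (nat_lit 1) (nat_lit 5) (nat_lit 3) (nat_lit 4) (nat_lit 1) (nat_lit 4) (nat_lit 352) (nat_lit 290) (nat_lit 258)) (XT.nd (nat_lit 78) (nat_lit 0) (nat_lit 0) (XT.lf (nat_lit 0) (nat_lit 179982739745) (nat_lit 152) (nat_lit 917603675136) (nat_lit 0) (nat_lit 178710932102) (nat_lit 1) (nat_lit 5) (nat_lit 3) (nat_lit 4) (nat_lit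 1) (nat_lit 4) (nat_lit 353) (nat_lit 290) (nat_lit 257)) (XT.lf (nat_lit 0) (nat_lit 211660741329) (nat_lit 152) (nat_lit 1044962525615) (nat_lit 0) (nat_lit 210387269812) (nat_lit 1) (nat_lit 5) (nat_lit 3) (nat_lit 4) (nat_lit 1) (nat_lit 4) (nat_lit 354) (nat_lit 290) (nat_lit 256))))) (XT.nd (nat_lit 234) (nat_lit 0) (nat_lit 0) (XT.nd (nat_lit 78) (nat_lit 0) (nat_lit 0) (XT.lf (nat_lit 0) (nat_lit 248078857053) (nat_lit 152) (nat_lit 1191449648169) (nat_lit 0) (nat_lit 246803938689) (nat_lit 1) (nat_lit 5) (nat_lit 3) (nat_lit 4) (nat_lit 1) (nat_lit 4) (nat_lit 355) (nat_lit 290) (nat_lit 255)) (XT.nd (nat_lit 78) (nat_lit 0) (nat_lit 0) (XT.lf (nat_lit 0) (nat_lit 289949615268) (nat_lit 152) (nat_lit 1359931095196) (nat_lit 0) (nat_lit 288673438776) (nat_lit 1) (nat_lit 5) (nat_lit 3) (nat_lit 4) (nat_lit 1) (nat_lit 4) (nat_lit 356) (nat_lit 290) (nat_lit 254)) (XT.lf (nat_lit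 0) (nat_lit 338092226460) (nat_lit 152) (nat_lit 1553703242832) (nat_lit 0) (nat_lit 336814955944) (nat_lit 1) (nat_lit 5) (nat_lit 3) (nat_lit 4) (nat_lit 1) (nat_lit 4) (nat_lit 357) (nat_lit 290) (nat_lit 253)))) (XT.nd (nat_lit 78) (nat_lit 0) (nat_lit 0) (XT.lf (nat_lit 0) (nat_lit 393448611285) (nat_lit 152) (nat_lit 1776557285272) (nat_lit 0) (nat_lit 392170389443) (nat_lit 1) (nat_lit 5) (nat_lit 3) (nat_lit 4) (nat_lit 1) (nat_lit 4) (nat_lit 358) (nat_lit 290) (nat_lit 252)) (XT.nd (nat_lit 78) (nat_lit 0) (nat_lit 0) (XT.lf (nat_lit 0) (nat_lit 457101829444) (nat_lit 152) (nat_lit 2032853410301) (nat_lit 0) (nat_lit 455822780363) (nat_lit 1) (nat_lit 5) (nat_lit 3) (nat_lit 4) (nat_lit 1) (nat_lit 4) (nat_lit 359) (nat_lit 290) (nat_lit 251)) (XT.lf (nat_lit 0) (nat_lit 530297269988) (nat_lit 152) (nat_lit 2327606107323) (nat_lit 0) (nat_lit 529017501568) (nat_lit 1) (nat_lit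 5) (nat_lit 3) (nat_lit 4) (nat_lit 1) (nat_lit 4) (nat_lit 360) (nat_lit 290) (nat_lit 250))))))) (XT.nd (nat_lit 858) (nat_lit 0) (nat_lit 0) (XT.nd (nat_lit 390) (nat_lit 0) (nat_lit 0) (XT.nd (nat_lit 156) (nat_lit 0) (nat_lit 0) (XT.nd (nat_lit 78) (nat_lit 0) (nat_lit 0) (XT.lf (nat_lit 0) (nat_lit 614467017624) (nat_lit 152) (nat_lit 2666582276931) (nat_lit 0) (nat_lit 613186623693) (nat_lit 1) (nat_lit 5) (nat_lit 3) (nat_lit 4) (nat_lit 1) (nat_lit 4) (nat_lit 361) (nat_lit 290) (nat_lit 249)) (XT.lf (nat_lit 0) (nat_lit 711257871763) (nat_lit 152) (nat_lit 3056414061575) (nat_lit 0) (nat_lit 709976933908) (nat_lit 1) (nat_lit 5) (nat_lit 3) (nat_lit 4) (nat_lit 1) (nat_lit 4) (nat_lit 362) (nat_lit 290) (nat_lit 248))) (XT.nd (nat_lit 78) (nat_lit 0) (nat_lit 0) (XT.lf (nat_lit 0) (nat_lit 822563566506) (nat_lit 152) (nat_lit 3504728604866) (nat_lit 0) (nat_lit 821282155674)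 (nat_lit 1) (nat_lit 5) (nat_lit 3) (nat_lit 4) (nat_lit 1) (nat_lit 4) (nat_lit 363) (nat_lit 290) (nat_lit 247)) (XT.nd (nat_lit 78) (nat_lit 0) (nat_lit 0) (XT.lf (nat_lit 0) (nat_lit 950561821969) (nat_lit 152) (nat_lit 4020297278305) (nat_lit 0) (nat_lit 949279999853) (nat_lit 1) (nat_lit 5) (nat_lit 3) (nat_lit 4) (nat_lit 1) (nat_lit 4) (nat_lit 364) (nat_lit 290) (nat_lit 246)) (XT.lf (nat_lit 0) (nat_lit 1097756951845) (nat_lit 152) (nat_lit 4613207295066) (nat_lit 0) (nat_lit 1096474772091) (nat_lit 1) (nat_lit 5) (nat_lit 3) (nat_lit 4) (nat_lit 1) (nat_lit 4) (nat_lit 365) (nat_lit 290) (nat_lit 245))))) (XT.nd (nat_lit 234) (nat_lit 0) (nat_lit 0) (XT.nd (nat_lit 78) (nat_lit 0) (nat_lit 0) (XT.lf (nat_lit 0) (nat_lit 1267028860849) (nat_lit 152) (nat_lit 5295059068522) (nat_lit 0) (nat_lit 1265746370105) (nat_lit 1) (nat_lit 5) (nat_lit 3) (nat_lit 4) (nat_lit 1) (nat_lit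 4) (nat_lit 366) (nat_lit 290) (nat_lit 244)) (XT.nd (nat_lit 78) (nat_lit 0) (nat_lit 0) (XT.lf (nat_lit 0) (nat_lit 1461689390679) (nat_lit 152) (nat_lit 6079193176849) (nat_lit 0) (nat_lit 1460406629509) (nat_lit 1) (nat_lit 5) (nat_lit 3) (nat_lit 4) (nat_lit 1) (nat_lit 4) (nat_lit 367) (nat_lit 290) (nat_lit 243)) (XT.lf (nat_lit 0) (nat_lit 1685547116919) (nat_lit 152) (nat_lit 6980951374340) (nat_lit 0) (nat_lit 1684264120596) (nat_lit 1) (nat_lit 5) (nat_lit 3) (nat_lit 4) (nat_lit 1) (nat_lit 4) (nat_lit 368) (nat_lit 290) (nat_lit 242)))) (XT.nd (nat_lit 78) (nat_lit 0) (nat_lit 0) (XT.lf (nat_lit 0) (nat_lit 1942981864648) (nat_lit 152) (nat_lit 8017976756164) (nat_lit 0) (nat_lit 1941698663843) (nat_lit 1) (nat_lit 5) (nat_lit 3) (nat_lit 4) (nat_lit 1) (nat_lit 4) (nat_lit 369) (nat_lit 290) (nat_lit 241)) (XT.nd (nat_lit 78) (nat_lit 0) (nat_lit 0) (XT.lf (nat_lit 0) (nat_lit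 2239030400668) (nat_lit 152) (nat_lit 9210558949356) (nat_lit 0) (nat_lit 2237747022054) (nat_lit 1) (nat_lit 5) (nat_lit 3) (nat_lit 4) (nat_lit 1) (nat_lit 4) (nat_lit 370) (nat_lit 290) (nat_lit 240)) (XT.lf (nat_lit 0) (nat_lit 2579484978946) (nat_lit 152) (nat_lit 10582031083782) (nat_lit 0) (nat_lit 2578201445715) (nat_lit 1) (nat_lit 5) (nat_lit 3) (nat_lit 4) (nat_lit 1) (nat_lit 4) (nat_lit 371) (nat_lit 290) (nat_lit 239)))))) (XT.nd (nat_lit 468) (nat_lit 0) (nat_lit 0) (XT.nd (nat_lit 234) (nat_lit 0) (nat_lit 0) (XT.nd (nat_lit 78) (nat_lit 0) (nat_lit 0) (XT.lf (nat_lit 0) (nat_lit 2971006667316) (nat_lit 152) (nat_lit 12159226309900) (nat_lit 0) (nat_lit 2969722999636) (nat_lit 1) (nat_lit 5) (nat_lit 3) (nat_lit 4) (nat_lit 1) (nat_lit 4) (nat_lit 372) (nat_lit 290) (nat_lit 238)) (XT.nd (nat_lit 78) (nat_lit 0) (nat_lit 0) (XT.lf (nat_lit 0) (nat_lit 3421255672727) (nat_lit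 152) (nat_lit 13973002795176) (nat_lit 0) (nat_lit 3419971888134) (nat_lit 1) (nat_lit 5) (nat_lit 3) (nat_lit 4) (nat_lit 1) (nat_lit 4) (nat_lit 373) (nat_lit 290) (nat_lit 237)) (XT.lf (nat_lit 0) (nat_lit 3939041214848) (nat_lit 152) (nat_lit 16058847470845) (nat_lit 0) (nat_lit 3937757328591) (nat_lit 1) (nat_lit 5) (nat_lit 3) (nat_lit 4) (nat_lit 1) (nat_lit 4) (nat_lit 374) (nat_lit 290) (nat_lit 236)))) (XT.nd (nat_lit 78) (nat_lit 0) (nat_lit 0) (XT.lf (nat_lit 0) (nat_lit 4534493880373) (nat_lit 152) (nat_lit 18457570341430) (nat_lit 0) (nat_lit 4533209905714) (nat_lit 1) (nat_lit 5) (nat_lit 3) (nat_lit 4) (nat_lit 1) (nat_lit 4) (nat_lit 375) (nat_lit 290) (nat_lit 235)) (XT.nd (nat_lit 78) (nat_lit 0) (nat_lit 0) (XT.lf (nat_lit 0) (nat_lit 5219263830150) (nat_lit 152) (nat_lit 21216102941355) (nat_lit 0) (nat_lit 5217979778619) (nat_lit 1) (nat_lit 5) (nat_lit 3) (nat_lit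 4) (nat_lit 1) (nat_lit 4) (nat_lit 376) (nat_lit 290) (nat_lit 234)) (XT.lf (nat_lit 0) (nat_lit 6006748737109) (nat_lit 152) (nat_lit 24388416560620) (nat_lit 0) (nat_lit 6005464618733) (nat_lit 1) (nat_lit 5) (nat_lit 3) (nat_lit 4) (nat_lit 1) (nat_lit 4) (nat_lit 377) (nat_lit 290) (nat_lit 233))))) (XT.nd (nat_lit 234) (nat_lit 0) (nat_lit 0) (XT.nd (nat_lit 78) (nat_lit 0) (nat_lit 0) (XT.lf (nat_lit 0) (nat_lit 6912355914647) (nat_lit 152) (nat_lit 28036578204818) (nat_lit 0) (nat_lit 6911071738145) (nat_lit 1) (nat_lit 5) (nat_lit 3) (nat_lit 4) (nat_lit 1) (nat_lit 4) (nat_lit 378) (nat_lit 290) (nat_lit 232)) (XT.nd (nat_lit 78) (nat_lit 0) (nat_lit 0) (XT.lf (nat_lit 0) (nat_lit 7953803764064) (nat_lit 152) (nat_lit 32231964949598) (nat_lit 0) (nat_lit 7952519537017) (nat_lit 1) (nat_lit 5) (nat_lit 3) (nat_lit 4) (nat_lit 1) (nat_lit 4) (nat_lit 379) (nat_lit 290) (nat_lit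 231)) (XT.lf (nat_lit 0) (nat_lit 9151468438934) (nat_lit 152) (nat_lit 37056660448660) (nat_lit 0) (nat_lit 9150184167936) (nat_lit 1) (nat_lit 5) (nat_lit 3) (nat_lit 4) (nat_lit 1) (nat_lit 4) (nat_lit 380) (nat_lit 290) (nat_lit 230)))) (XT.nd (nat_lit 78) (nat_lit 0) (nat_lit 0) (XT.lf (nat_lit 0) (nat_lit 10528782508985) (nat_lit 152) (nat_lit 42605060918292) (nat_lit 0) (nat_lit 10527498199768) (nat_lit 1) (nat_lit 5) (nat_lit 3) (nat_lit 4) (nat_lit 1) (nat_lit 4) (nat_lit 381) (nat_lit 290) (nat_lit 229)) (XT.nd (nat_lit 78) (nat_lit 0) (nat_lit 0) (XT.lf (nat_lit 0) (nat_lit 12112693423413) (nat_lit 152) (nat_lit 48985722019855) (nat_lit 0) (nat_lit 12111409080961) (nat_lit 1) (nat_lit 5) (nat_lit 3) (nat_lit 4) (nat_lit 1) (nat_lit 4) (nat_lit 382) (nat_lit 290) (nat_lit 228)) (XT.lf (nat_lit 0) (nat_lit 13934190743586) (nat_lit 152) (nat_lit 56323482774902) (nat_lit 0) (nat_lit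 13932906372235) (nat_lit 1) (nat_lit 5) (nat_lit 3) (nat_lit 4) (nat_lit 1) (nat_lit 4) (nat_lit 383) (nat_lit 290) (nat_lit 227))))))))
noncomputable def xc30 : XT := (XT.nd (nat_lit 43056) (nat_lit 0) (nat_lit 0) (XT.nd (nat_lit 42198) (nat_lit 0) (nat_lit 152) (XT.nd (nat_lit 41730) (nat_lit 0) (nat_lit 456) (XT.nd (nat_lit 156) (nat_lit 0) (nat_lit 0) (XT.nd (nat_lit 78) (nat_lit 0) (nat_lit 0) (XT.lf (nat_lit 0) (nat_lit 16028912460552) (nat_lit 152) (nat_lit 64761908067771) (nat_lit 0) (nat_lit 16027628064072) (nat_lit 1) (nat_lit 5) (nat_lit 3) (nat_lit 4) (nat_lit 1) (nat_lit 4) (nat_lit 384) (nat_lit 290) (nat_lit 226)) (XT.lf (nat_lit 0) (nat_lit 18437842260077) (nat_lit 152) (nat_lit 74466097523756) (nat_lit 0) (nat_lit 18436557841745) (nat_lit 1) (nat_lit 5) (nat_lit 3) (nat_lit 4) (nat_lit 1) (nat_lit 4) (nat_lit 385) (nat_lit 290) (nat_lit 225))) (XT.nd (nat_lit 1950) (nat_lit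 0) (nat_lit 0) (XT.lf (nat_lit 0) (nat_lit 21208111377370) (nat_lit 152) (nat_lit 85625915719172) (nat_lit 0) (nat_lit 21206826940037) (nat_lit 1) (nat_lit 5) (nat_lit 3) (nat_lit 4) (nat_lit 1) (nat_lit 4) (nat_lit 386) (nat_lit 290) (nat_lit 224)) (XT.nd (nat_lit 78) (nat_lit 0) (nat_lit 0) (XT.lf (nat_lit 0) (nat_lit 699126012326328) (nat_lit 152) (nat_lit 2816567249273535) (nat_lit 0) (nat_lit 699124727766162) (nat_lit 1) (nat_lit 5) (nat_lit 3) (nat_lit 4) (nat_lit 1) (nat_lit 4) (nat_lit 411) (nat_lit 290) (nat_lit 199)) (XT.lf (nat_lit 0) (nat_lit 803999505965942) (nat_lit 152) (nat_lit 3239042242315096) (nat_lit 0) (nat_lit 803998221405283) (nat_lit 1) (nat_lit 5) (nat_lit 3) (nat_lit 4) (nat_lit 1) (nat_lit 4) (nat_lit 412) (nat_lit 290) (nat_lit 198))))) (XT.nd (nat_lit 234) (nat_lit 228) (nat_lit 0) (XT.nd (nat_lit 78) (nat_lit 152) (nat_lit 0) (XT.lf (nat_lit 0) (nat_lit 4165042970)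 (nat_lit 76) (nat_lit 1844828953) (nat_lit 76) (nat_lit 1844828953) (nat_lit 12) (nat_lit 4) (nat_lit 13) (nat_lit 5) (nat_lit 13) (nat_lit 4) (nat_lit 318) (nat_lit 291) (nat_lit 291)) (XT.nd (nat_lit 78) (nat_lit 0) (nat_lit 0) (XT.lf (nat_lit 0) (nat_lit 2259836828) (nat_lit 152) (nat_lit 12894137963) (nat_lit 0) (nat_lit 1966787634) (nat_lit 10) (nat_lit 5) (nat_lit 12) (nat_lit 4) (nat_lit 10) (nat_lit 4) (nat_lit 319) (nat_lit 291) (nat_lit 290)) (XT.lf (nat_lit 0) (nat_lit 8705377409) (nat_lit 152) (nat_lit 1857562694) (nat_lit 0) (nat_lit 8157502830) (nat_lit 10) (nat_lit 5) (nat_lit 12) (nat_lit 4) (nat_lit 10) (nat_lit 4) (nat_lit 320) (nat_lit 291) (nat_lit 289)))) (XT.nd (nat_lit 78) (nat_lit 152) (nat_lit 0) (XT.lf (nat_lit 0) (nat_lit 10743458557) (nat_lit 76) (nat_lit 5298779395) (nat_lit 76) (nat_lit 4529317524) (nat_lit 9) (nat_lit 4) (nat_lit 10) (nat_lit 5) (nat_lit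 10) (nat_lit 4) (nat_lit 321) (nat_lit 291) (nat_lit 288)) (XT.nd (nat_lit 78) (nat_lit 0) (nat_lit 0) (XT.lf (nat_lit 0) (nat_lit 1300171135) (nat_lit 152) (nat_lit 20973813629) (nat_lit 0) (nat_lit 463522029) (nat_lit 7) (nat_lit 5) (nat_lit 9) (nat_lit 4) (nat_lit 7) (nat_lit 4) (nat_lit 322) (nat_lit 291) (nat_lit 287)) (XT.lf (nat_lit 0) (nat_lit 7818162476) (nat_lit 152) (nat_lit 10500451441) (nat_lit 0) (nat_lit 6835816128) (nat_lit 7) (nat_lit 5) (nat_lit 9) (nat_lit 4) (nat_lit 7) (nat_lit 4) (nat_lit 323) (nat_lit 291) (nat_lit 286)))))) (XT.nd (nat_lit 390) (nat_lit 76) (nat_lit 0) (XT.nd (nat_lit 156) (nat_lit 152) (nat_lit 0) (XT.nd (nat_lit 78) (nat_lit 0) (nat_lit 0) (XT.lf (nat_lit 0) (nat_lit 687285272) (nat_lit 76) (nat_lit 14209171555) (nat_lit 76) (nat_lit 13100131954) (nat_lit 6) (nat_lit 4) (nat_lit 7) (nat_lit 5) (nat_lit 7) (nat_lit 4) (nat_lit 324) (nat_lit 291)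 (nat_lit 285)) (XT.lf (nat_lit 0) (nat_lit 13857192298) (nat_lit 76) (nat_lit 9304213183) (nat_lit 76) (nat_lit 8085005536) (nat_lit 6) (nat_lit 4) (nat_lit 7) (nat_lit 5) (nat_lit 7) (nat_lit 4) (nat_lit 325) (nat_lit 291) (nat_lit 284))) (XT.nd (nat_lit 78) (nat_lit 152) (nat_lit 0) (XT.lf (nat_lit 0) (nat_lit 28240761248) (nat_lit 76) (nat_lit 4056659460) (nat_lit 76) (nat_lit 2741653511) (nat_lit 6) (nat_lit 4) (nat_lit 7) (nat_lit 5) (nat_lit 7) (nat_lit 4) (nat_lit 326) (nat_lit 291) (nat_lit 283)) (XT.nd (nat_lit 78) (nat_lit 0) (nat_lit 0) (XT.lf (nat_lit 0) (nat_lit 3054479317) (nat_lit 152) (nat_lit 34493373017) (nat_lit 0) (nat_lit 1838558605) (nat_lit 4) (nat_lit 5) (nat_lit 6) (nat_lit 4) (nat_lit 4) (nat_lit 4) (nat_lit 327) (nat_lit 291) (nat_lit 282)) (XT.lf (nat_lit 0) (nat_lit 9670975401) (nat_lit 152) (nat_lit 26268521885) (nat_lit 0) (nat_lit 8392065750) (nat_lit 4)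 (nat_lit 5) (nat_lit 6) (nat_lit 4) (nat_lit 4) (nat_lit 4) (nat_lit 328) (nat_lit 291) (nat_lit 281))))) (XT.nd (nat_lit 234) (nat_lit 0) (nat_lit 0) (XT.nd (nat_lit 78) (nat_lit 76) (nat_lit 0) (XT.lf (nat_lit 0) (nat_lit 16989662070) (nat_lit 152) (nat_lit 17416426913) (nat_lit 0) (nat_lit 15655979430) (nat_lit 4) (nat_lit 5) (nat_lit 6) (nat_lit 4) (nat_lit 4) (nat_lit 4) (nat_lit 329) (nat_lit 291) (nat_lit 280)) (XT.nd (nat_lit 78) (nat_lit 76) (nat_lit 0) (XT.lf (nat_lit 0) (nat_lit 25153731022) (nat_lit 152) (nat_lit 7763894936) (nat_lit 0) (nat_lit 23772419695) (nat_lit 4) (nat_lit 5) (nat_lit 6) (nat_lit 4) (nat_lit 4) (nat_lit 4) (nat_lit 330) (nat_lit 291) (nat_lit 279)) (XT.lf (nat_lit 0) (nat_lit 3159179977) (nat_lit 76) (nat_lit 31294548967) (nat_lit 76) (nat_lit 29871821391) (nat_lit 3) (nat_lit 4) (nat_lit 4) (nat_lit 5) (nat_lit 4) (nat_lit 4) (nat_lit 331) (nat_lit 291)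 (nat_lit 278)))) (XT.nd (nat_lit 78) (nat_lit 0) (nat_lit 0) (XT.lf (nat_lit 0) (nat_lit 16155528093) (nat_lit 76) (nat_lit 29190046054) (nat_lit 76) (nat_lit 27731304348) (nat_lit 3) (nat_lit 4) (nat_lit 4) (nat_lit 5) (nat_lit 4) (nat_lit 4) (nat_lit 332) (nat_lit 291) (nat_lit 277)) (XT.nd (nat_lit 78) (nat_lit 0) (nat_lit 0) (XT.lf (nat_lit 0) (nat_lit 30720681508) (nat_lit 76) (nat_lit 26968782125) (nat_lit 76) (nat_lit 25478723784) (nat_lit 3) (nat_lit 4) (nat_lit 4) (nat_lit 5) (nat_lit 4) (nat_lit 4) (nat_lit 333) (nat_lit 291) (nat_lit 276)) (XT.lf (nat_lit 0) (nat_lit 47139610615) (nat_lit 76) (nat_lit 24587297668) (nat_lit 76) (nat_lit 23070007472) (nat_lit 3) (nat_lit 4) (nat_lit 4) (nat_lit 5) (nat_lit 4) (nat_lit 4) (nat_lit 334) (nat_lit 291) (nat_lit 275))))))) (XT.nd (nat_lit 858) (nat_lit 0) (nat_lit 0) (XT.nd (nat_lit 390) (nat_lit 152) (nat_lit 0) (XT.nd (nat_lit 156)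 (nat_lit 0) (nat_lit 0) (XT.nd (nat_lit 78) (nat_lit 0) (nat_lit 0) (XT.lf (nat_lit 0) (nat_lit 65733555332) (nat_lit 76) (nat_lit 21998998423) (nat_lit 76) (nat_lit 20458028351) (nat_lit 3) (nat_lit 4) (nat_lit 4) (nat_lit 5) (nat_lit 4) (nat_lit 4) (nat_lit 335) (nat_lit 291) (nat_lit 274)) (XT.lf (nat_lit 0) (nat_lit 86866310229) (nat_lit 76) (nat_lit 19153243751) (nat_lit 76) (nat_lit 17591682484) (nat_lit 3) (nat_lit 4) (nat_lit 4) (nat_lit 5) (nat_lit 4) (nat_lit 4) (nat_lit 336) (nat_lit 291) (nat_lit 273))) (XT.nd (nat_lit 78) (nat_lit 0) (nat_lit 0) (XT.lf (nat_lit 0) (nat_lit 110951342250) (nat_lit 76) (nat_lit 15994355845) (nat_lit 76) (nat_lit 14414889190) (nat_lit 3) (nat_lit 4) (nat_lit 4) (nat_lit 5) (nat_lit 4) (nat_lit 4) (nat_lit 337) (nat_lit 291) (nat_lit 272)) (XT.nd (nat_lit 78) (nat_lit 0) (nat_lit 0) (XT.lf (nat_lit 0) (nat_lit 138459880282) (nat_lit 76) (nat_lit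 12460530375) (nat_lit 76) (nat_lit 10865493818) (nat_lit 3) (nat_lit 4) (nat_lit 4) (nat_lit 5) (nat_lit 4) (nat_lit 4) (nat_lit 338) (nat_lit 291) (nat_lit 271)) (XT.lf (nat_lit 0) (nat_lit 169930134851) (nat_lit 76) (nat_lit 8482627278) (nat_lit 76) (nat_lit 6874051676) (nat_lit 3) (nat_lit 4) (nat_lit 4) (nat_lit 5) (nat_lit 4) (nat_lit 4) (nat_lit 339) (nat_lit 291) (nat_lit 270))))) (XT.nd (nat_lit 234) (nat_lit 0) (nat_lit 0) (XT.nd (nat_lit 78) (nat_lit 152) (nat_lit 0) (XT.lf (nat_lit 0) (nat_lit 205977828331) (nat_lit 76) (nat_lit 3982818015) (nat_lit 76) (nat_lit 2362469330) (nat_lit 3) (nat_lit 4) (nat_lit 4) (nat_lit 5) (nat_lit 4) (nat_lit 4) (nat_lit 340) (nat_lit 291) (nat_lit 269)) (XT.nd (nat_lit 78) (nat_lit 0) (nat_lit 0) (XT.lf (nat_lit 0) (nat_lit 2743667887) (nat_lit 152) (nat_lit 239302473206) (nat_lit 0) (nat_lit 1325766888) (nat_lit 1) (nat_lit 5) (nat_lit 3) (nat_lit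 4) (nat_lit 1) (nat_lit 4) (nat_lit 341) (nat_lit 291) (nat_lit 268)) (XT.lf (nat_lit 0) (nat_lit 8849003328) (nat_lit 152) (nat_lit 262717512615) (nat_lit 0) (nat_lit 7423361337) (nat_lit 1) (nat_lit 5) (nat_lit 3) (nat_lit 4) (nat_lit 1) (nat_lit 4) (nat_lit 342) (nat_lit 291) (nat_lit 267)))) (XT.nd (nat_lit 78) (nat_lit 0) (nat_lit 0) (XT.lf (nat_lit 0) (nat_lit 15816236025) (nat_lit 152) (nat_lit 289758533331) (nat_lit 0) (nat_lit 14383862735) (nat_lit 1) (nat_lit 5) (nat_lit 3) (nat_lit 4) (nat_lit 1) (nat_lit 4) (nat_lit 343) (nat_lit 291) (nat_lit 266)) (XT.nd (nat_lit 78) (nat_lit 0) (nat_lit 0) (XT.lf (nat_lit 0) (nat_lit 23781681398) (nat_lit 152) (nat_lit 320954598801) (nat_lit 0) (nat_lit 22343454806) (nat_lit 1) (nat_lit 5) (nat_lit 3) (nat_lit 4) (nat_lit 1) (nat_lit 4) (nat_lit 344) (nat_lit 291) (nat_lit 265)) (XT.lf (nat_lit 0) (nat_lit 32901185119) (nat_lit 152) (nat_lit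 356916066830) (nat_lit 0) (nat_lit 31457868698) (nat_lit 1) (nat_lit 5) (nat_lit 3) (nat_lit 4) (nat_lit 1) (nat_lit 4) (nat_lit 345) (nat_lit 291) (nat_lit 264)))))) (XT.nd (nat_lit 390) (nat_lit 0) (nat_lit 0) (XT.nd (nat_lit 156) (nat_lit 0) (nat_lit 0) (XT.nd (nat_lit 78) (nat_lit 0) (nat_lit 0) (XT.lf (nat_lit 0) (nat_lit 43353172260) (nat_lit 152) (nat_lit 398346531357) (nat_lit 0) (nat_lit 41905429901) (nat_lit 1) (nat_lit 5) (nat_lit 3) (nat_lit 4) (nat_lit 1) (nat_lit 4) (nat_lit 346) (nat_lit 291) (nat_lit 263)) (XT.lf (nat_lit 0) (nat_lit 55342138222) (nat_lit 152) (nat_lit 446056588426) (nat_lit 0) (nat_lit 53890547221) (nat_lit 1) (nat_lit 5) (nat_lit 3) (nat_lit 4) (nat_lit 1) (nat_lit 4) (nat_lit 347) (nat_lit 291) (nat_lit 262))) (XT.nd (nat_lit 78) (nat_lit 0) (nat_lit 0) (XT.lf (nat_lit 0) (nat_lit 69102649730) (nat_lit 152) (nat_lit 500979695677) (nat_lit 0) (nat_lit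 67647712084) (nat_lit 1) (nat_lit 5) (nat_lit 3) (nat_lit 4) (nat_lit 1) (nat_lit 4) (nat_lit 348) (nat_lit 291) (nat_lit 261)) (XT.nd (nat_lit 78) (nat_lit 0) (nat_lit 0) (XT.lf (nat_lit 0) (nat_lit 84903934184) (nat_lit 152) (nat_lit 564190435641) (nat_lit 0) (nat_lit 83446086412) (nat_lit 1) (nat_lit 5) (nat_lit 3) (nat_lit 4) (nat_lit 1) (nat_lit 4) (nat_lit 349) (nat_lit 291) (nat_lit 260)) (XT.lf (nat_lit 0) (nat_lit 103055147148) (nat_lit 152) (nat_lit 636925540189) (nat_lit 0) (nat_lit 101594768831) (nat_lit 1) (nat_lit 5) (nat_lit 3) (nat_lit 4) (nat_lit 1) (nat_lit 4) (nat_lit 350) (nat_lit 291) (nat_lit 259))))) (XT.nd (nat_lit 234) (nat_lit 0) (nat_lit 0) (XT.nd (nat_lit 78) (nat_lit 0) (nat_lit 0) (XT.lf (nat_lit 0) (nat_lit 123911421050) (nat_lit 152) (nat_lit 720608087452) (nat_lit 0) (nat_lit 122448842260) (nat_lit 1) (nat_lit 5) (nat_lit 3) (nat_lit 4) (nat_lit 1) (nat_lit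 4) (nat_lit 351) (nat_lit 291) (nat_lit 258)) (XT.nd (nat_lit 78) (nat_lit 0) (nat_lit 0) (XT.lf (nat_lit 0) (nat_lit 147880813423) (nat_lit 152) (nat_lit 816875344660) (nat_lit 0) (nat_lit 146416321178) (nat_lit 1) (nat_lit 5) (nat_lit 3) (nat_lit 4) (nat_lit 1) (nat_lit 4) (nat_lit 352) (nat_lit 291) (nat_lit 257)) (XT.lf (nat_lit 0) (nat_lit 175432290639) (nat_lit 152) (nat_lit 927610801627) (nat_lit 0) (nat_lit 173966134521) (nat_lit 1) (nat_lit 5) (nat_lit 3) (nat_lit 4) (nat_lit 1) (nat_lit 4) (nat_lit 353) (nat_lit 291) (nat_lit 256)))) (XT.nd (nat_lit 78) (nat_lit 0) (nat_lit 0) (XT.lf (nat_lit 0) (nat_lit 207104903341) (nat_lit 152) (nat_lit 1054981021643) (nat_lit 0) (nat_lit 205637300375) (nat_lit 1) (nat_lit 5) (nat_lit 3) (nat_lit 4) (nat_lit 1) (nat_lit 4) (nat_lit 354) (nat_lit 291) (nat_lit 255)) (XT.nd (nat_lit 78) (nat_lit 0) (nat_lit 0) (XT.lf (nat_lit 0) (nat_lit 243518333080)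 (nat_lit 152) (nat_lit 1201478030750) (nat_lit 0) (nat_lit 242049471986) (nat_lit 1) (nat_lit 5) (nat_lit 3) (nat_lit 4) (nat_lit 1) (nat_lit 4) (nat_lit 355) (nat_lit 291) (nat_lit 254)) (XT.lf (nat_lit 0) (nat_lit 285385016525) (nat_lit 152) (nat_lit 1369968074779) (nat_lit 0) (nat_lit 283915061407) (nat_lit 1) (nat_lit 5) (nat_lit 3) (nat_lit 4) (nat_lit 1) (nat_lit 4) (nat_lit 356) (nat_lit 291) (nat_lit 253))))))))
noncomputable def xc31 : XT := (XT.nd (nat_lit 1716) (nat_lit 0) (nat_lit 0) (XT.nd (nat_lit 858) (nat_lit 0) (nat_lit 0) (XT.nd (nat_lit 390) (nat_lit 0) (nat_lit 0) (XT.nd (nat_lit 156) (nat_lit 0) (nat_lit 0) (XT.nd (nat_lit 78) (nat_lit 0) (nat_lit 0) (XT.lf (nat_lit 0) (nat_lit 333524084440) (nat_lit 152) (nat_lit 1563747698070) (nat_lit 0) (nat_lit 332053177997) (nat_lit 1) (nat_lit 5) (nat_lit 3) (nat_lit 4) (nat_lit 1) (nat_lit 4) (nat_lit 357) (nat_lit 291) (nat_lit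 252)) (XT.lf (nat_lit 0) (nat_lit 388877388153) (nat_lit 152) (nat_lit 1786608241079) (nat_lit 0) (nat_lit 387405654470) (nat_lit 1) (nat_lit 5) (nat_lit 3) (nat_lit 4) (nat_lit 1) (nat_lit 4) (nat_lit 358) (nat_lit 291) (nat_lit 251))) (XT.nd (nat_lit 78) (nat_lit 0) (nat_lit 0) (XT.lf (nat_lit 0) (nat_lit 452527927085) (nat_lit 152) (nat_lit 2042910018777) (nat_lit 0) (nat_lit 451055474064) (nat_lit 1) (nat_lit 5) (nat_lit 3) (nat_lit 4) (nat_lit 1) (nat_lit 4) (nat_lit 359) (nat_lit 291) (nat_lit 250)) (XT.nd (nat_lit 78) (nat_lit 0) (nat_lit 0) (XT.lf (nat_lit 0) (nat_lit 525721037867) (nat_lit 152) (nat_lit 2337667631163) (nat_lit 0) (nat_lit 524247959333) (nat_lit 1) (nat_lit 5) (nat_lit 3) (nat_lit 4) (nat_lit 1) (nat_lit 4) (nat_lit 360) (nat_lit 291) (nat_lit 249)) (XT.lf (nat_lit 0) (nat_lit 609888759622) (nat_lit 152) (nat_lit 2676648075001) (nat_lit 0) (nat_lit 608415137166)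 (nat_lit 1) (nat_lit 5) (nat_lit 3) (nat_lit 4) (nat_lit 1) (nat_lit 4) (nat_lit 361) (nat_lit 291) (nat_lit 248))))) (XT.nd (nat_lit 234) (nat_lit 0) (nat_lit 0) (XT.nd (nat_lit 78) (nat_lit 0) (nat_lit 0) (XT.lf (nat_lit 0) (nat_lit 706677852125) (nat_lit 152) (nat_lit 3066483576366) (nat_lit 0) (nat_lit 705203756692) (nat_lit 1) (nat_lit 5) (nat_lit 3) (nat_lit 4) (nat_lit 1) (nat_lit 4) (nat_lit 362) (nat_lit 291) (nat_lit 247)) (XT.nd (nat_lit 78) (nat_lit 0) (nat_lit 0) (XT.lf (nat_lit 0) (nat_lit 817982015012) (nat_lit 152) (nat_lit 3514801351590) (nat_lit 0) (nat_lit 816507508294) (nat_lit 1) (nat_lit 5) (nat_lit 3) (nat_lit 4) (nat_lit 1) (nat_lit 4) (nat_lit 363) (nat_lit 291) (nat_lit 246)) (XT.lf (nat_lit 0) (nat_lit 945978938425) (nat_lit 152) (nat_lit 4030372835404) (nat_lit 0) (nat_lit 944504074069) (nat_lit 1) (nat_lit 5) (nat_lit 3) (nat_lit 4) (nat_lit 1) (nat_lit 4)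 (nat_lit 364) (nat_lit 291) (nat_lit 245)))) (XT.nd (nat_lit 78) (nat_lit 0) (nat_lit 0) (XT.lf (nat_lit 0) (nat_lit 1093172909997) (nat_lit 152) (nat_lit 4623285295970) (nat_lit 0) (nat_lit 1091697734652) (nat_lit 1) (nat_lit 5) (nat_lit 3) (nat_lit 4) (nat_lit 1) (nat_lit 4) (nat_lit 365) (nat_lit 291) (nat_lit 244)) (XT.nd (nat_lit 78) (nat_lit 0) (nat_lit 0) (XT.lf (nat_lit 0) (nat_lit 1262443811781) (nat_lit 152) (nat_lit 5305139194474) (nat_lit 0) (nat_lit 1260968366009) (nat_lit 1) (nat_lit 5) (nat_lit 3) (nat_lit 4) (nat_lit 1) (nat_lit 4) (nat_lit 366) (nat_lit 291) (nat_lit 243)) (XT.lf (nat_lit 0) (nat_lit 1457103465767) (nat_lit 152) (nat_lit 6089275150668) (nat_lit 0) (nat_lit 1455627784842) (nat_lit 1) (nat_lit 5) (nat_lit 3) (nat_lit 4) (nat_lit 1) (nat_lit 4) (nat_lit 367) (nat_lit 291) (nat_lit 242)))))) (XT.nd (nat_lit 390) (nat_lit 0) (nat_lit 0) (XT.nd (nat_lit 156)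 (nat_lit 0) (nat_lit 0) (XT.nd (nat_lit 78) (nat_lit 0) (nat_lit 0) (XT.lf (nat_lit 0) (nat_lit 1680960430404) (nat_lit 152) (nat_lit 6991034955001) (nat_lit 0) (nat_lit 1679484544998) (nat_lit 1) (nat_lit 5) (nat_lit 3) (nat_lit 4) (nat_lit 1) (nat_lit 4) (nat_lit 368) (nat_lit 291) (nat_lit 241)) (XT.lf (nat_lit 0) (nat_lit 1938394515868) (nat_lit 152) (nat_lit 8028061734078) (nat_lit 0) (nat_lit 1936918452653) (nat_lit 1) (nat_lit 5) (nat_lit 3) (nat_lit 4) (nat_lit 1) (nat_lit 4) (nat_lit 369) (nat_lit 291) (nat_lit 240))) (XT.nd (nat_lit 78) (nat_lit 0) (nat_lit 0) (XT.lf (nat_lit 0) (nat_lit 2234442476007) (nat_lit 152) (nat_lit 9220645142272) (nat_lit 0) (nat_lit 2232966258174) (nat_lit 1) (nat_lit 5) (nat_lit 3) (nat_lit 4) (nat_lit 1) (nat_lit 4) (nat_lit 370) (nat_lit 291) (nat_lit 239)) (XT.nd (nat_lit 78) (nat_lit 0) (nat_lit 0) (XT.lf (nat_lit 0) (nat_lit 2574896553517) (nat_lit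 152) (nat_lit 10592118333223) (nat_lit 0) (nat_lit 2573420201235) (nat_lit 1) (nat_lit 5) (nat_lit 3) (nat_lit 4) (nat_lit 1) (nat_lit 4) (nat_lit 371) (nat_lit 291) (nat_lit 238)) (XT.lf (nat_lit 0) (nat_lit 2966417806439) (nat_lit 152) (nat_lit 12169314478057) (nat_lit 0) (nat_lit 2964941337244) (nat_lit 1) (nat_lit 5) (nat_lit 3) (nat_lit 4) (nat_lit 1) (nat_lit 4) (nat_lit 372) (nat_lit 291) (nat_lit 237))))) (XT.nd (nat_lit 234) (nat_lit 0) (nat_lit 0) (XT.nd (nat_lit 78) (nat_lit 0) (nat_lit 0) (XT.lf (nat_lit 0) (nat_lit 3416666433198) (nat_lit 152) (nat_lit 13983091762218) (nat_lit 0) (nat_lit 3415189862340) (nat_lit 1) (nat_lit 5) (nat_lit 3) (nat_lit 4) (nat_lit 1) (nat_lit 4) (nat_lit 373) (nat_lit 291) (nat_lit 236)) (XT.nd (nat_lit 78) (nat_lit 0) (nat_lit 0) (XT.lf (nat_lit 0) (nat_lit 3934451646056) (nat_lit 152) (nat_lit 16068937132568) (nat_lit 0) (nat_lit 3932974986796)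 (nat_lit 1) (nat_lit 5) (nat_lit 3) (nat_lit 4) (nat_lit 1) (nat_lit 4) (nat_lit 374) (nat_lit 291) (nat_lit 235)) (XT.lf (nat_lit 0) (nat_lit 4529904025267) (nat_lit 152) (nat_lit 18467660607224) (nat_lit 0) (nat_lit 4528427289134) (nat_lit 1) (nat_lit 5) (nat_lit 3) (nat_lit 4) (nat_lit 1) (nat_lit 4) (nat_lit 375) (nat_lit 291) (nat_lit 234)))) (XT.nd (nat_lit 78) (nat_lit 0) (nat_lit 0) (XT.lf (nat_lit 0) (nat_lit 5214673726074) (nat_lit 152) (nat_lit 21226193732429) (nat_lit 0) (nat_lit 5213196923096) (nat_lit 1) (nat_lit 5) (nat_lit 3) (nat_lit 4) (nat_lit 1) (nat_lit 4) (nat_lit 376) (nat_lit 291) (nat_lit 233)) (XT.nd (nat_lit 78) (nat_lit 0) (nat_lit 0) (XT.lf (nat_lit 0) (nat_lit 6002158416538) (nat_lit 152) (nat_lit 24398507808458) (nat_lit 0) (nat_lit 6000681555434) (nat_lit 1) (nat_lit 5) (nat_lit 3) (nat_lit 4) (nat_lit 1) (nat_lit 4) (nat_lit 377) (nat_lit 291) (nat_lit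 232)) (XT.lf (nat_lit 0) (nat_lit 6907765405819) (nat_lit 152) (nat_lit 28046669849843) (nat_lit 0) (nat_lit 6906288494171) (nat_lit 1) (nat_lit 5) (nat_lit 3) (nat_lit 4) (nat_lit 1) (nat_lit 4) (nat_lit 378) (nat_lit 291) (nat_lit 231))))))) (XT.nd (nat_lit 42042) (nat_lit 0) (nat_lit 228) (XT.nd (nat_lit 390) (nat_lit 0) (nat_lit 0) (XT.nd (nat_lit 156) (nat_lit 0) (nat_lit 0) (XT.nd (nat_lit 78) (nat_lit 0) (nat_lit 0) (XT.lf (nat_lit 0) (nat_lit 7949213091534) (nat_lit 152) (nat_lit 32242056940002) (nat_lit 0) (nat_lit 7947736135934) (nat_lit 1) (nat_lit 5) (nat_lit 3) (nat_lit 4) (nat_lit 1) (nat_lit 4) (nat_lit 379) (nat_lit 291) (nat_lit 230)) (XT.lf (nat_lit 0) (nat_lit 9146877624056) (nat_lit 152) (nat_lit 37066752739395) (nat_lit 0) (nat_lit 9145400630237) (nat_lit 1) (nat_lit 5) (nat_lit 3) (nat_lit 4) (nat_lit 1) (nat_lit 4) (nat_lit 380) (nat_lit 291) (nat_lit 229))) (XT.nd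 (nat_lit 78) (nat_lit 0) (nat_lit 0) (XT.lf (nat_lit 0) (nat_lit 10524191570325) (nat_lit 152) (nat_lit 42615153470183) (nat_lit 0) (nat_lit 10522714543272) (nat_lit 1) (nat_lit 5) (nat_lit 3) (nat_lit 4) (nat_lit 1) (nat_lit 4) (nat_lit 381) (nat_lit 291) (nat_lit 228)) (XT.nd (nat_lit 78) (nat_lit 0) (nat_lit 0) (XT.lf (nat_lit 0) (nat_lit 12108102377116) (nat_lit 152) (nat_lit 48995814798839) (nat_lit 0) (nat_lit 12106625321164) (nat_lit 1) (nat_lit 5) (nat_lit 3) (nat_lit 4) (nat_lit 1) (nat_lit 4) (nat_lit 382) (nat_lit 291) (nat_lit 227)) (XT.lf (nat_lit 0) (nat_lit 13929599603692) (nat_lit 152) (nat_lit 56333575751358) (nat_lit 0) (nat_lit 13928122522611) (nat_lit 1) (nat_lit 5) (nat_lit 3) (nat_lit 4) (nat_lit 1) (nat_lit 4) (nat_lit 383) (nat_lit 291) (nat_lit 226))))) (XT.nd (nat_lit 234) (nat_lit 0) (nat_lit 0) (XT.nd (nat_lit 78) (nat_lit 0) (nat_lit 0) (XT.lf (nat_lit 0) (nat_lit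 16024321239270) (nat_lit 152) (nat_lit 64772001215942) (nat_lit 0) (nat_lit 16022844136336) (nat_lit 1) (nat_lit 5) (nat_lit 3) (nat_lit 4) (nat_lit 1) (nat_lit 4) (nat_lit 384) (nat_lit 291) (nat_lit 225)) (XT.nd (nat_lit 78) (nat_lit 0) (nat_lit 0) (XT.lf (nat_lit 0) (nat_lit 18433250968023) (nat_lit 152) (nat_lit 74476190821244) (nat_lit 0) (nat_lit 18431773846087) (nat_lit 1) (nat_lit 5) (nat_lit 3) (nat_lit 4) (nat_lit 1) (nat_lit 4) (nat_lit 385) (nat_lit 291) (nat_lit 224)) (XT.lf (nat_lit 0) (nat_lit 21203520023774) (nat_lit 152) (nat_lit 85636009146501) (nat_lit 0) (nat_lit 21202042885316) (nat_lit 1) (nat_lit 5) (nat_lit 3) (nat_lit 4) (nat_lit 1) (nat_lit 4) (nat_lit 386) (nat_lit 291) (nat_lit 223)))) (XT.nd (nat_lit 1872) (nat_lit 0) (nat_lit 0) (XT.lf (nat_lit 0) (nat_lit 24389329322832) (nat_lit 152) (nat_lit 98469800463292) (nat_lit 0) (nat_lit 24387852170006) (nat_lit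 1) (nat_lit 5) (nat_lit 3) (nat_lit 4) (nat_lit 1) (nat_lit 4) (nat_lit 387) (nat_lit 291) (nat_lit 222)) (XT.nd (nat_lit 39468) (nat_lit 0) (nat_lit 1064) (XT.lf (nat_lit 0) (nat_lit 699121420574919) (nat_lit 152) (nat_lit 2816577343540177) (nat_lit 0) (nat_lit 699119943329647) (nat_lit 1) (nat_lit 5) (nat_lit 3) (nat_lit 4) (nat_lit 1) (nat_lit 4) (nat_lit 411) (nat_lit 291) (nat_lit 198)) (XT.lf (nat_lit 0) (nat_lit 6595283450) (nat_lit 76) (nat_lit 55709044) (nat_lit 76) (nat_lit 55709044) (nat_lit 15) (nat_lit 4) (nat_lit 16) (nat_lit 5) (nat_lit 16) (nat_lit 4) (nat_lit 316) (nat_lit 292) (nat_lit 292)))))) (XT.nd (nat_lit 468) (nat_lit 304) (nat_lit 0) (XT.nd (nat_lit 234) (nat_lit 152) (nat_lit 0) (XT.nd (nat_lit 78) (nat_lit 228) (nat_lit 0) (XT.lf (nat_lit 0) (nat_lit 5680323117) (nat_lit 152) (nat_lit 3513966618) (nat_lit 0) (nat_lit 5292765559) (nat_lit 13) (nat_lit 5) (nat_lit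 15) (nat_lit 4) (nat_lit 13) (nat_lit 4) (nat_lit 317) (nat_lit 292) (nat_lit 291)) (XT.nd (nat_lit 78) (nat_lit 152) (nat_lit 0) (XT.lf (nat_lit 0) (nat_lit 7801470226) (nat_lit 76) (nat_lit 4336501752) (nat_lit 76) (nat_lit 3611937621) (nat_lit 12) (nat_lit 4) (nat_lit 13) (nat_lit 5) (nat_lit 13) (nat_lit 4) (nat_lit 318) (nat_lit 292) (nat_lit 290)) (XT.lf (nat_lit 0) (nat_lit 1998412342) (nat_lit 152) (nat_lit 14098759834) (nat_lit 0) (nat_lit 1113531190) (nat_lit 10) (nat_lit 5) (nat_lit 12) (nat_lit 4) (nat_lit 10) (nat_lit 4) (nat_lit 319) (nat_lit 292) (nat_lit 289)))) (XT.nd (nat_lit 78) (nat_lit 152) (nat_lit 0) (XT.lf (nat_lit 0) (nat_lit 8201918117) (nat_lit 152) (nat_lit 3549392603) (nat_lit 0) (nat_lit 7095449674) (nat_lit 10) (nat_lit 5) (nat_lit 12) (nat_lit 4) (nat_lit 10) (nat_lit 4) (nat_lit 320) (nat_lit 292) (nat_lit 288)) (XT.nd (nat_lit 78) (nat_lit 76) (nat_lit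 0) (XT.lf (nat_lit 0) (nat_lit 8421228509) (nat_lit 76) (nat_lit 6810926508) (nat_lit 76) (nat_lit 5511773463) (nat_lit 9) (nat_lit 4) (nat_lit 10) (nat_lit 5) (nat_lit 10) (nat_lit 4) (nat_lit 321) (nat_lit 292) (nat_lit 287)) (XT.lf (nat_lit 0) (nat_lit 100757039) (nat_lit 152) (nat_lit 1250077238) (nat_lit 76) (nat_lit 21610858086) (nat_lit 8) (nat_lit 5) (nat_lit 10) (nat_lit 5) (nat_lit 9) (nat_lit 4) (nat_lit 322) (nat_lit 292) (nat_lit 286))))) (XT.nd (nat_lit 234) (nat_lit 152) (nat_lit 0) (XT.nd (nat_lit 78) (nat_lit 76) (nat_lit 0) (XT.lf (nat_lit 0) (nat_lit 6295911442) (nat_lit 152) (nat_lit 14237347829) (nat_lit 0) (nat_lit 4893822648) (nat_lit 7) (nat_lit 5) (nat_lit 9) (nat_lit 4) (nat_lit 7) (nat_lit 4) (nat_lit 323) (nat_lit 292) (nat_lit 285)) (XT.nd (nat_lit 78) (nat_lit 76) (nat_lit 0) (XT.lf (nat_lit 0) (nat_lit 13165421314) (nat_lit 152) (nat_lit 3482007988) (nat_lit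 0) (nat_lit 11653164473) (nat_lit 7) (nat_lit 5) (nat_lit 9) (nat_lit 4) (nat_lit 7) (nat_lit 4) (nat_lit 324) (nat_lit 292) (nat_lit 284)) (XT.lf (nat_lit 0) (nat_lit 8993275088) (nat_lit 76) (nat_lit 12107344708) (nat_lit 76) (nat_lit 10499289566) (nat_lit 6) (nat_lit 4) (nat_lit 7) (nat_lit 5) (nat_lit 7) (nat_lit 4) (nat_lit 325) (nat_lit 292) (nat_lit 283)))) (XT.nd (nat_lit 78) (nat_lit 152) (nat_lit 0) (XT.lf (nat_lit 0) (nat_lit 23068725078) (nat_lit 76) (nat_lit 7018799439) (nat_lit 76) (nat_lit 5327441426) (nat_lit 6) (nat_lit 4) (nat_lit 7) (nat_lit 5) (nat_lit 7) (nat_lit 4) (nat_lit 326) (nat_lit 292) (nat_lit 282)) (XT.nd (nat_lit 78) (nat_lit 76) (nat_lit 0) (XT.lf (nat_lit 0) (nat_lit 272878558) (nat_lit 152) (nat_lit 1177106391) (nat_lit 76) (nat_lit 38392301410) (nat_lit 5) (nat_lit 5) (nat_lit 7) (nat_lit 5) (nat_lit 6) (nat_lit 4) (nat_lit 327) (nat_lit 292) (nat_lit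 281)) (XT.lf (nat_lit 0) (nat_lit 6638265438) (nat_lit 152) (nat_lit 33137099610) (nat_lit 0) (nat_lit 5049757412) (nat_lit 4) (nat_lit 5) (nat_lit 6) (nat_lit 4) (nat_lit 4) (nat_lit 4) (nat_lit 328) (nat_lit 292) (nat_lit 280))))))))
noncomputable def xc32 : XT := (XT.nd (nat_lit 1716) (nat_lit 0) (nat_lit 0) (XT.nd (nat_lit 858) (nat_lit 152) (nat_lit 0) (XT.nd (nat_lit 390) (nat_lit 0) (nat_lit 0) (XT.nd (nat_lit 156) (nat_lit 76) (nat_lit 0) (XT.nd (nat_lit 78) (nat_lit 0) (nat_lit 0) (XT.lf (nat_lit 0) (nat_lit 13839547122) (nat_lit 152) (nat_lit 24530296377) (nat_lit 0) (nat_lit 12203410410) (nat_lit 4) (nat_lit 5) (nat_lit 6) (nat_lit 4) (nat_lit 4) (nat_lit 4) (nat_lit 329) (nat_lit 292) (nat_lit 279)) (XT.lf (nat_lit 0) (nat_lit 21901524782) (nat_lit 152) (nat_lit 15091061567) (nat_lit 0) (nat_lit 20223971821) (nat_lit 4) (nat_lit 5) (nat_lit 6) (nat_lit 4) (nat_lit 4) (nat_lit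 4) (nat_lit 330) (nat_lit 292) (nat_lit 278))) (XT.nd (nat_lit 78) (nat_lit 76) (nat_lit 0) (XT.lf (nat_lit 0) (nat_lit 30981932763) (nat_lit 152) (nat_lit 4634714496) (nat_lit 0) (nat_lit 29268365672) (nat_lit 4) (nat_lit 5) (nat_lit 6) (nat_lit 4) (nat_lit 4) (nat_lit 4) (nat_lit 331) (nat_lit 292) (nat_lit 277)) (XT.nd (nat_lit 78) (nat_lit 0) (nat_lit 0) (XT.lf (nat_lit 0) (nat_lit 7731650533) (nat_lit 76) (nat_lit 33846931848) (nat_lit 76) (nat_lit 32102048122) (nat_lit 3) (nat_lit 4) (nat_lit 4) (nat_lit 5) (nat_lit 4) (nat_lit 4) (nat_lit 332) (nat_lit 292) (nat_lit 276)) (XT.lf (nat_lit 0) (nat_lit 22142851707) (nat_lit 76) (nat_lit 31706118646) (nat_lit 76) (nat_lit 29934003064) (nat_lit 3) (nat_lit 4) (nat_lit 4) (nat_lit 5) (nat_lit 4) (nat_lit 4) (nat_lit 333) (nat_lit 292) (nat_lit 275))))) (XT.nd (nat_lit 234) (nat_lit 0) (nat_lit 0) (XT.nd (nat_lit 78) (nat_lit 0) (nat_lit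 0) (XT.lf (nat_lit 0) (nat_lit 38427909299) (nat_lit 76) (nat_lit 29394591342) (nat_lit 76) (nat_lit 27598795885) (nat_lit 3) (nat_lit 4) (nat_lit 4) (nat_lit 5) (nat_lit 4) (nat_lit 4) (nat_lit 334) (nat_lit 292) (nat_lit 274)) (XT.nd (nat_lit 78) (nat_lit 0) (nat_lit 0) (XT.lf (nat_lit 0) (nat_lit 56905444003) (nat_lit 76) (nat_lit 26867124404) (nat_lit 76) (nat_lit 25050737752) (nat_lit 3) (nat_lit 4) (nat_lit 4) (nat_lit 5) (nat_lit 4) (nat_lit 4) (nat_lit 335) (nat_lit 292) (nat_lit 273)) (XT.lf (nat_lit 0) (nat_lit 77936972802) (nat_lit 76) (nat_lit 24074267391) (nat_lit 76) (nat_lit 22239975351) (nat_lit 3) (nat_lit 4) (nat_lit 4) (nat_lit 5) (nat_lit 4) (nat_lit 4) (nat_lit 336) (nat_lit 292) (nat_lit 272)))) (XT.nd (nat_lit 78) (nat_lit 0) (nat_lit 0) (XT.lf (nat_lit 0) (nat_lit 101933982129) (nat_lit 76) (nat_lit 20961377449) (nat_lit 76) (nat_lit 19111515507) (nat_lit 3) (nat_lit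 4) (nat_lit 4) (nat_lit 5) (nat_lit 4) (nat_lit 4) (nat_lit 337) (nat_lit 292) (nat_lit 271)) (XT.nd (nat_lit 78) (nat_lit 0) (nat_lit 0) (XT.lf (nat_lit 0) (nat_lit 129365978688) (nat_lit 76) (nat_lit 17467550208) (nat_lit 76) (nat_lit 15604149221) (nat_lit 3) (nat_lit 4) (nat_lit 4) (nat_lit 5) (nat_lit 4) (nat_lit 4) (nat_lit 338) (nat_lit 292) (nat_lit 270)) (XT.lf (nat_lit 0) (nat_lit 160769675455) (nat_lit 76) (nat_lit 13524428180) (nat_lit 76) (nat_lit 11649254110) (nat_lit 3) (nat_lit 4) (nat_lit 4) (nat_lit 5) (nat_lit 4) (nat_lit 4) (nat_lit 339) (nat_lit 292) (nat_lit 269)))))) (XT.nd (nat_lit 390) (nat_lit 0) (nat_lit 0) (XT.nd (nat_lit 156) (nat_lit 152) (nat_lit 0) (XT.nd (nat_lit 78) (nat_lit 0) (nat_lit 0) (XT.lf (nat_lit 0) (nat_lit 196759492584) (nat_lit 76) (nat_lit 9054863325) (nat_lit 76) (nat_lit 7169451792) (nat_lit 3) (nat_lit 4) (nat_lit 4) (nat_lit 5) (nat_lit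 4) (nat_lit 4) (nat_lit 340) (nat_lit 292) (nat_lit 268)) (XT.lf (nat_lit 0) (nat_lit 238039578672) (nat_lit 76) (nat_lit 3971407635) (nat_lit 76) (nat_lit 2077093960) (nat_lit 3) (nat_lit 4) (nat_lit 4) (nat_lit 5) (nat_lit 4) (nat_lit 4) (nat_lit 341) (nat_lit 292) (nat_lit 267))) (XT.nd (nat_lit 78) (nat_lit 0) (nat_lit 0) (XT.lf (nat_lit 0) (nat_lit 3735616151) (nat_lit 152) (nat_lit 273973312607) (nat_lit 0) (nat_lit 2081655569) (nat_lit 1) (nat_lit 5) (nat_lit 3) (nat_lit 4) (nat_lit 1) (nat_lit 4) (nat_lit 342) (nat_lit 292) (nat_lit 266)) (XT.nd (nat_lit 78) (nat_lit 0) (nat_lit 0) (XT.lf (nat_lit 0) (nat_lit 10681047811) (nat_lit 152) (nat_lit 301060329438) (nat_lit 0) (nat_lit 9021233927) (nat_lit 1) (nat_lit 5) (nat_lit 3) (nat_lit 4) (nat_lit 1) (nat_lit 4) (nat_lit 343) (nat_lit 292) (nat_lit 265)) (XT.lf (nat_lit 0) (nat_lit 18627535762) (nat_lit 152) (nat_lit 332296391531)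 (nat_lit 0) (nat_lit 16962632049) (nat_lit 1) (nat_lit 5) (nat_lit 3) (nat_lit 4) (nat_lit 1) (nat_lit 4) (nat_lit 344) (nat_lit 292) (nat_lit 264))))) (XT.nd (nat_lit 234) (nat_lit 0) (nat_lit 0) (XT.nd (nat_lit 78) (nat_lit 0) (nat_lit 0) (XT.lf (nat_lit 0) (nat_lit 27730554768) (nat_lit 152) (nat_lit 368292639231) (nat_lit 0) (nat_lit 26061225116) (nat_lit 1) (nat_lit 5) (nat_lit 3) (nat_lit 4) (nat_lit 1) (nat_lit 4) (nat_lit 345) (nat_lit 292) (nat_lit 263)) (XT.nd (nat_lit 78) (nat_lit 0) (nat_lit 0) (XT.lf (nat_lit 0) (nat_lit 38168207374) (nat_lit 152) (nat_lit 409753346950) (nat_lit 0) (nat_lit 36495029081) (nat_lit 1) (nat_lit 5) (nat_lit 3) (nat_lit 4) (nat_lit 1) (nat_lit 4) (nat_lit 346) (nat_lit 292) (nat_lit 262)) (XT.lf (nat_lit 0) (nat_lit 50144708523) (nat_lit 152) (nat_lit 457489702448) (nat_lit 0) (nat_lit 48468183585) (nat_lit 1) (nat_lit 5) (nat_lit 3) (nat_lit 4)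 (nat_lit 1) (nat_lit 4) (nat_lit 347) (nat_lit 292) (nat_lit 261)))) (XT.nd (nat_lit 78) (nat_lit 0) (nat_lit 0) (XT.lf (nat_lit 0) (nat_lit 63894381063) (nat_lit 152) (nat_lit 512435677896) (nat_lit 0) (nat_lit 62214945999) (nat_lit 1) (nat_lit 5) (nat_lit 3) (nat_lit 4) (nat_lit 1) (nat_lit 4) (nat_lit 348) (nat_lit 292) (nat_lit 260)) (XT.nd (nat_lit 78) (nat_lit 0) (nat_lit 0) (XT.lf (nat_lit 0) (nat_lit 79686240327) (nat_lit 152) (nat_lit 575666303251) (nat_lit 0) (nat_lit 78004274718) (nat_lit 1) (nat_lit 5) (nat_lit 3) (nat_lit 4) (nat_lit 1) (nat_lit 4) (nat_lit 349) (nat_lit 292) (nat_lit 259)) (XT.lf (nat_lit 0) (nat_lit 97829257473) (nat_lit 152) (nat_lit 648418699442) (nat_lit 0) (nat_lit 96145091392) (nat_lit 1) (nat_lit 5) (nat_lit 3) (nat_lit 4) (nat_lit 1) (nat_lit 4) (nat_lit 350) (nat_lit 292) (nat_lit 258))))))) (XT.nd (nat_lit 858) (nat_lit 0) (nat_lit 0) (XT.nd (nat_lit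 390) (nat_lit 0) (nat_lit 0) (XT.nd (nat_lit 156) (nat_lit 0) (nat_lit 0) (XT.nd (nat_lit 78) (nat_lit 0) (nat_lit 0) (XT.lf (nat_lit 0) (nat_lit 118678404578) (nat_lit 152) (nat_lit 732116282917) (nat_lit 0) (nat_lit 116992325042) (nat_lit 1) (nat_lit 5) (nat_lit 3) (nat_lit 4) (nat_lit 1) (nat_lit 4) (nat_lit 351) (nat_lit 292) (nat_lit 257)) (XT.lf (nat_lit 0) (nat_lit 142641599736) (nat_lit 152) (nat_lit 828396615091) (nat_lit 0) (nat_lit 140953856326) (nat_lit 1) (nat_lit 5) (nat_lit 3) (nat_lit 4) (nat_lit 1) (nat_lit 4) (nat_lit 352) (nat_lit 292) (nat_lit 256))) (XT.nd (nat_lit 78) (nat_lit 0) (nat_lit 0) (XT.lf (nat_lit 0) (nat_lit 170187688070) (nat_lit 152) (nat_lit 939143441595) (nat_lit 0) (nat_lit 168498497813) (nat_lit 1) (nat_lit 5) (nat_lit 3) (nat_lit 4) (nat_lit 1) (nat_lit 4) (nat_lit 353) (nat_lit 292) (nat_lit 255)) (XT.nd (nat_lit 78) (nat_lit 0) (nat_lit 0) (XT.lf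 (nat_lit 0) (nat_lit 201855614787) (nat_lit 152) (nat_lit 1066523548164) (nat_lit 0) (nat_lit 200165166401) (nat_lit 1) (nat_lit 5) (nat_lit 3) (nat_lit 4) (nat_lit 1) (nat_lit 4) (nat_lit 354) (nat_lit 292) (nat_lit 254)) (XT.lf (nat_lit 0) (nat_lit 238264969756) (nat_lit 152) (nat_lit 1213029154274) (nat_lit 0) (nat_lit 236573427346) (nat_lit 1) (nat_lit 5) (nat_lit 3) (nat_lit 4) (nat_lit 1) (nat_lit 4) (nat_lit 355) (nat_lit 292) (nat_lit 253))))) (XT.nd (nat_lit 234) (nat_lit 0) (nat_lit 0) (XT.nd (nat_lit 78) (nat_lit 0) (nat_lit 0) (XT.lf (nat_lit 0) (nat_lit 280128109924) (nat_lit 152) (nat_lit 1381526673957) (nat_lit 0) (nat_lit 278435616189) (nat_lit 1) (nat_lit 5) (nat_lit 3) (nat_lit 4) (nat_lit 1) (nat_lit 4) (nat_lit 356) (nat_lit 292) (nat_lit 252)) (XT.nd (nat_lit 78) (nat_lit 0) (nat_lit 0) (XT.lf (nat_lit 0) (nat_lit 328264096727) (nat_lit 152) (nat_lit 1575312797818)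 (nat_lit 0) (nat_lit 326570775753) (nat_lit 1) (nat_lit 5) (nat_lit 3) (nat_lit 4) (nat_lit 1) (nat_lit 4) (nat_lit 357) (nat_lit 292) (nat_lit 251)) (XT.lf (nat_lit 0) (nat_lit 383614721213) (nat_lit 152) (nat_lit 1798178993495) (nat_lit 0) (nat_lit 381920680900) (nat_lit 1) (nat_lit 5) (nat_lit 3) (nat_lit 4) (nat_lit 1) (nat_lit 4) (nat_lit 358) (nat_lit 292) (nat_lit 250)))) (XT.nd (nat_lit 78) (nat_lit 0) (nat_lit 0) (XT.lf (nat_lit 0) (nat_lit 447262930382) (nat_lit 152) (nat_lit 2054485686558) (nat_lit 0) (nat_lit 445568264557) (nat_lit 1) (nat_lit 5) (nat_lit 3) (nat_lit 4) (nat_lit 1) (nat_lit 4) (nat_lit 359) (nat_lit 292) (nat_lit 249)) (XT.nd (nat_lit 78) (nat_lit 0) (nat_lit 0) (XT.lf (nat_lit 0) (nat_lit 520454015284) (nat_lit 152) (nat_lit 2349247573174) (nat_lit 0) (nat_lit 518758805535) (nat_lit 1) (nat_lit 5) (nat_lit 3) (nat_lit 4) (nat_lit 1) (nat_lit 4) (nat_lit 360)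 (nat_lit 292) (nat_lit 248)) (XT.lf (nat_lit 0) (nat_lit 604619975404) (nat_lit 152) (nat_lit 2688231733733) (nat_lit 0) (nat_lit 602924292679) (nat_lit 1) (nat_lit 5) (nat_lit 3) (nat_lit 4) (nat_lit 1) (nat_lit 4) (nat_lit 361) (nat_lit 292) (nat_lit 247)))))) (XT.nd (nat_lit 390) (nat_lit 0) (nat_lit 0) (XT.nd (nat_lit 156) (nat_lit 0) (nat_lit 0) (XT.nd (nat_lit 78) (nat_lit 0) (nat_lit 0) (XT.lf (nat_lit 0) (nat_lit 701407536050) (nat_lit 152) (nat_lit 3078070467030) (nat_lit 0) (nat_lit 699711442041) (nat_lit 1) (nat_lit 5) (nat_lit 3) (nat_lit 4) (nat_lit 1) (nat_lit 4) (nat_lit 362) (nat_lit 292) (nat_lit 246)) (XT.lf (nat_lit 0) (nat_lit 812710366887) (nat_lit 152) (nat_lit 3526391052629) (nat_lit 0) (nat_lit 811013915240) (nat_lit 1) (nat_lit 5) (nat_lit 3) (nat_lit 4) (nat_lit 1) (nat_lit 4) (nat_lit 363) (nat_lit 292) (nat_lit 245))) (XT.nd (nat_lit 78) (nat_lit 0) (nat_lit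 0) (XT.lf (nat_lit 0) (nat_lit 940706131997) (nat_lit 152) (nat_lit 4041964980248) (nat_lit 0) (nat_lit 939009369359) (nat_lit 1) (nat_lit 5) (nat_lit 3) (nat_lit 4) (nat_lit 1) (nat_lit 4) (nat_lit 364) (nat_lit 292) (nat_lit 244)) (XT.nd (nat_lit 78) (nat_lit 0) (nat_lit 0) (XT.lf (nat_lit 0) (nat_lit 1087899096348) (nat_lit 152) (nat_lit 4634879565862) (nat_lit 0) (nat_lit 1086202063285) (nat_lit 1) (nat_lit 5) (nat_lit 3) (nat_lit 4) (nat_lit 1) (nat_lit 4) (nat_lit 365) (nat_lit 292) (nat_lit 243)) (XT.lf (nat_lit 0) (nat_lit 1257169122288) (nat_lit 152) (nat_lit 5316735312233) (nat_lit 0) (nat_lit 1255471854071) (nat_lit 1) (nat_lit 5) (nat_lit 3) (nat_lit 4) (nat_lit 1) (nat_lit 4) (nat_lit 366) (nat_lit 292) (nat_lit 242))))) (XT.nd (nat_lit 234) (nat_lit 0) (nat_lit 0) (XT.nd (nat_lit 78) (nat_lit 0) (nat_lit 0) (XT.lf (nat_lit 0) (nat_lit 1451828014671) (nat_lit 152) (nat_lit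 6100872875269) (nat_lit 0) (nat_lit 1450130541973) (nat_lit 1) (nat_lit 5) (nat_lit 3) (nat_lit 4) (nat_lit 1) (nat_lit 4) (nat_lit 367) (nat_lit 292) (nat_lit 241)) (XT.nd (nat_lit 78) (nat_lit 0) (nat_lit 0) (XT.lf (nat_lit 0) (nat_lit 1675684317043) (nat_lit 152) (nat_lit 7002634076855) (nat_lit 0) (nat_lit 1673986666536) (nat_lit 1) (nat_lit 5) (nat_lit 3) (nat_lit 4) (nat_lit 1) (nat_lit 4) (nat_lit 368) (nat_lit 292) (nat_lit 240)) (XT.lf (nat_lit 0) (nat_lit 1933117826626) (nat_lit 152) (nat_lit 8039662070934) (nat_lit 0) (nat_lit 1931420021502) (nat_lit 1) (nat_lit 5) (nat_lit 3) (nat_lit 4) (nat_lit 1) (nat_lit 4) (nat_lit 369) (nat_lit 292) (nat_lit 239)))) (XT.nd (nat_lit 78) (nat_lit 0) (nat_lit 0) (XT.lf (nat_lit 0) (nat_lit 2229165285998) (nat_lit 152) (nat_lit 9232246535653) (nat_lit 0) (nat_lit 2227467346424) (nat_lit 1) (nat_lit 5) (nat_lit 3) (nat_lit 4) (nat_lit 1) (nat_lit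 4) (nat_lit 370) (nat_lit 292) (nat_lit 238)) (XT.nd (nat_lit 78) (nat_lit 0) (nat_lit 0) (XT.lf (nat_lit 0) (nat_lit 2569618928059) (nat_lit 152) (nat_lit 10603720645321) (nat_lit 0) (nat_lit 2567920871573) (nat_lit 1) (nat_lit 5) (nat_lit 3) (nat_lit 4) (nat_lit 1) (nat_lit 4) (nat_lit 371) (nat_lit 292) (nat_lit 237)) (XT.lf (nat_lit 0) (nat_lit 2961139802329) (nat_lit 152) (nat_lit 12180917589039) (nat_lit 0) (nat_lit 2959441644179) (nat_lit 1) (nat_lit 5) (nat_lit 3) (nat_lit 4) (nat_lit 1) (nat_lit 4) (nat_lit 372) (nat_lit 292) (nat_lit 236))))))))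
noncomputable def xc33 : XT := (XT.nd (nat_lit 42744) (nat_lit 0) (nat_lit 152) (XT.nd (nat_lit 858) (nat_lit 0) (nat_lit 0) (XT.nd (nat_lit 390) (nat_lit 0) (nat_lit 0) (XT.nd (nat_lit 156) (nat_lit 0) (nat_lit 0) (XT.nd (nat_lit 78) (nat_lit 0) (nat_lit 0) (XT.lf (nat_lit 0) (nat_lit 3411388099825) (nat_lit 152) (nat_lit 13994695567882) (nat_lit 0) (nat_lit 3409689853273) (nat_lit 1) (nat_lit 5) (nat_lit 3) (nat_lit 4) (nat_lit 1) (nat_lit 4) (nat_lit 373) (nat_lit 292) (nat_lit 235)) (XT.lf (nat_lit 0) (nat_lit 3929173026369) (nat_lit 152) (nat_lit 16080541542303) (nat_lit 0) (nat_lit 3927474702945) (nat_lit 1) (nat_lit 5) (nat_lit 3) (nat_lit 4) (nat_lit 1) (nat_lit 4) (nat_lit 374) (nat_lit 292) (nat_lit 234))) (XT.nd (nat_lit 78) (nat_lit 0) (nat_lit 0) (XT.lf (nat_lit 0) (nat_lit 4524625156610) (nat_lit 152) (nat_lit 18479265542238) (nat_lit 0) (nat_lit 4522926766341) (nat_lit 1)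 (nat_lit 5) (nat_lit 3) (nat_lit 4) (nat_lit 1) (nat_lit 4) (nat_lit 375) (nat_lit 292) (nat_lit 233)) (XT.nd (nat_lit 78) (nat_lit 0) (nat_lit 0) (XT.lf (nat_lit 0) (nat_lit 5209394640922) (nat_lit 152) (nat_lit 21237799124208) (nat_lit 0) (nat_lit 5207696192526) (nat_lit 1) (nat_lit 5) (nat_lit 3) (nat_lit 4) (nat_lit 1) (nat_lit 4) (nat_lit 376) (nat_lit 292) (nat_lit 232)) (XT.lf (nat_lit 0) (nat_lit 5996879143129) (nat_lit 152) (nat_lit 24410113597424) (nat_lit 0) (nat_lit 5995180644189) (nat_lit 1) (nat_lit 5) (nat_lit 3) (nat_lit 4) (nat_lit 1) (nat_lit 4) (nat_lit 377) (nat_lit 292) (nat_lit 231))))) (XT.nd (nat_lit 234) (nat_lit 0) (nat_lit 0) (XT.nd (nat_lit 78) (nat_lit 0) (nat_lit 0) (XT.lf (nat_lit 0) (nat_lit 6902485968709) (nat_lit 152) (nat_lit 28058275984188) (nat_lit 0) (nat_lit 6900787425817) (nat_lit 1) (nat_lit 5) (nat_lit 3) (nat_lit 4) (nat_lit 1) (nat_lit 4) (nat_lit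 378) (nat_lit 292) (nat_lit 230)) (XT.nd (nat_lit 78) (nat_lit 0) (nat_lit 0) (XT.lf (nat_lit 0) (nat_lit 7943933512075) (nat_lit 152) (nat_lit 32253663374678) (nat_lit 0) (nat_lit 7942234930964) (nat_lit 1) (nat_lit 5) (nat_lit 3) (nat_lit 4) (nat_lit 1) (nat_lit 4) (nat_lit 379) (nat_lit 292) (nat_lit 229)) (XT.lf (nat_lit 0) (nat_lit 9141597920815) (nat_lit 152) (nat_lit 37078359435227) (nat_lit 0) (nat_lit 9139899306470) (nat_lit 1) (nat_lit 5) (nat_lit 3) (nat_lit 4) (nat_lit 1) (nat_lit 4) (nat_lit 380) (nat_lit 292) (nat_lit 228)))) (XT.nd (nat_lit 78) (nat_lit 0) (nat_lit 0) (XT.lf (nat_lit 0) (nat_lit 10518911759447) (nat_lit 152) (nat_lit 42626760393108) (nat_lit 0) (nat_lit 10517213116203) (nat_lit 1) (nat_lit 5) (nat_lit 3) (nat_lit 4) (nat_lit 1) (nat_lit 4) (nat_lit 381) (nat_lit 292) (nat_lit 227)) (XT.nd (nat_lit 78) (nat_lit 0) (nat_lit 0) (XT.lf (nat_lit 0) (nat_lit 12102822472641)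 (nat_lit 152) (nat_lit 49007421919236) (nat_lit 0) (nat_lit 12101123804268) (nat_lit 1) (nat_lit 5) (nat_lit 3) (nat_lit 4) (nat_lit 1) (nat_lit 4) (nat_lit 382) (nat_lit 292) (nat_lit 226)) (XT.lf (nat_lit 0) (nat_lit 13924319617829) (nat_lit 152) (nat_lit 56345183043469) (nat_lit 0) (nat_lit 13922620927604) (nat_lit 1) (nat_lit 5) (nat_lit 3) (nat_lit 4) (nat_lit 1) (nat_lit 4) (nat_lit 383) (nat_lit 292) (nat_lit 225)))))) (XT.nd (nat_lit 41418) (nat_lit 0) (nat_lit 684) (XT.nd (nat_lit 156) (nat_lit 0) (nat_lit 0) (XT.nd (nat_lit 78) (nat_lit 0) (nat_lit 0) (XT.lf (nat_lit 0) (nat_lit 16019041182634) (nat_lit 152) (nat_lit 64783608657370) (nat_lit 0) (nat_lit 16017342473407) (nat_lit 1) (nat_lit 5) (nat_lit 3) (nat_lit 4) (nat_lit 1) (nat_lit 4) (nat_lit 384) (nat_lit 292) (nat_lit 224)) (XT.lf (nat_lit 0) (nat_lit 18427970849845) (nat_lit 152) (nat_lit 74487798392514) (nat_lit 0)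 (nat_lit 18426272124095) (nat_lit 1) (nat_lit 5) (nat_lit 3) (nat_lit 4) (nat_lit 1) (nat_lit 4) (nat_lit 385) (nat_lit 292) (nat_lit 223))) (XT.nd (nat_lit 78) (nat_lit 0) (nat_lit 0) (XT.lf (nat_lit 0) (nat_lit 21198239852082) (nat_lit 152) (nat_lit 85647616830675) (nat_lit 0) (nat_lit 21196541111964) (nat_lit 1) (nat_lit 5) (nat_lit 3) (nat_lit 4) (nat_lit 1) (nat_lit 4) (nat_lit 386) (nat_lit 292) (nat_lit 222)) (XT.nd (nat_lit 78) (nat_lit 0) (nat_lit 0) (XT.lf (nat_lit 0) (nat_lit 24384049104607) (nat_lit 152) (nat_lit 98481408245645) (nat_lit 0) (nat_lit 24382350351995) (nat_lit 1) (nat_lit 5) (nat_lit 3) (nat_lit 4) (nat_lit 1) (nat_lit 4) (nat_lit 387) (nat_lit 292) (nat_lit 221)) (XT.lf (nat_lit 0) (nat_lit 28047729658011) (nat_lit 152) (nat_lit 113240268556410) (nat_lit 0) (nat_lit 28046030894535) (nat_lit 1) (nat_lit 5) (nat_lit 3) (nat_lit 4) (nat_lit 1) (nat_lit 4) (nat_lit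 388) (nat_lit 292) (nat_lit 220))))) (XT.nd (nat_lit 234) (nat_lit 304) (nat_lit 0) (XT.nd (nat_lit 78) (nat_lit 152) (nat_lit 0) (XT.lf (nat_lit 0) (nat_lit 1020207809) (nat_lit 152) (nat_lit 3735970295) (nat_lit 0) (nat_lit 1020207809) (nat_lit 16) (nat_lit 5) (nat_lit 18) (nat_lit 4) (nat_lit 16) (nat_lit 4) (nat_lit 314) (nat_lit 293) (nat_lit 293)) (XT.nd (nat_lit 78) (nat_lit 76) (nat_lit 0) (XT.lf (nat_lit 0) (nat_lit 1989427162) (nat_lit 76) (nat_lit 5474567821) (nat_lit 76) (nat_lit 4962022950) (nat_lit 15) (nat_lit 4) (nat_lit 16) (nat_lit 5) (nat_lit 16) (nat_lit 4) (nat_lit 315) (nat_lit 293) (nat_lit 292)) (XT.lf (nat_lit 0) (nat_lit 112799667) (nat_lit 152) (nat_lit 715716777) (nat_lit 76) (nat_lit 12620412267) (nat_lit 14) (nat_lit 5) (nat_lit 16) (nat_lit 5) (nat_lit 15) (nat_lit 4) (nat_lit 316) (nat_lit 293) (nat_lit 291)))) (XT.nd (nat_lit 78) (nat_lit 228) (nat_lit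 0) (XT.lf (nat_lit 0) (nat_lit 5594017071) (nat_lit 152) (nat_lit 4549309195) (nat_lit 0) (nat_lit 4423761748) (nat_lit 13) (nat_lit 5) (nat_lit 15) (nat_lit 4) (nat_lit 13) (nat_lit 4) (nat_lit 317) (nat_lit 293) (nat_lit 290)) (XT.nd (nat_lit 78) (nat_lit 152) (nat_lit 0) (XT.lf (nat_lit 0) (nat_lit 6205280604) (nat_lit 76) (nat_lit 5565124800) (nat_lit 76) (nat_lit 4101820284) (nat_lit 12) (nat_lit 4) (nat_lit 13) (nat_lit 5) (nat_lit 13) (nat_lit 4) (nat_lit 318) (nat_lit 293) (nat_lit 289)) (XT.lf (nat_lit 0) (nat_lit 844221759) (nat_lit 76) (nat_lit 347569710) (nat_lit 152) (nat_lit 16198394675) (nat_lit 10) (nat_lit 5) (nat_lit 11) (nat_lit 5) (nat_lit 12) (nat_lit 4) (nat_lit 319) (nat_lit 293) (nat_lit 288))))))) (XT.nd (nat_lit 858) (nat_lit 76) (nat_lit 0) (XT.nd (nat_lit 390) (nat_lit 228) (nat_lit 0) (XT.nd (nat_lit 156) (nat_lit 152) (nat_lit 0) (XT.nd (nat_lit 78) (nat_lit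 76) (nat_lit 0) (XT.lf (nat_lit 0) (nat_lit 7170440076) (nat_lit 152) (nat_lit 6405864196) (nat_lit 0) (nat_lit 5483729472) (nat_lit 10) (nat_lit 5) (nat_lit 12) (nat_lit 4) (nat_lit 10) (nat_lit 4) (nat_lit 320) (nat_lit 293) (nat_lit 287)) (XT.lf (nat_lit 0) (nat_lit 4881199808) (nat_lit 76) (nat_lit 8989879042) (nat_lit 76) (nat_lit 7135616611) (nat_lit 9) (nat_lit 4) (nat_lit 10) (nat_lit 5) (nat_lit 10) (nat_lit 4) (nat_lit 321) (nat_lit 293) (nat_lit 286))) (XT.nd (nat_lit 78) (nat_lit 152) (nat_lit 0) (XT.lf (nat_lit 0) (nat_lit 17825199420) (nat_lit 76) (nat_lit 3713004456) (nat_lit 76) (nat_lit 1713044784) (nat_lit 9) (nat_lit 4) (nat_lit 10) (nat_lit 5) (nat_lit 10) (nat_lit 4) (nat_lit 322) (nat_lit 293) (nat_lit 285)) (XT.nd (nat_lit 78) (nat_lit 0) (nat_lit 0) (XT.lf (nat_lit 0) (nat_lit 4157623009) (nat_lit 152) (nat_lit 19332880145) (nat_lit 0) (nat_lit 2308359596) (nat_lit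 7) (nat_lit 5) (nat_lit 9) (nat_lit 4) (nat_lit 7) (nat_lit 4) (nat_lit 323) (nat_lit 293) (nat_lit 284)) (XT.lf (nat_lit 0) (nat_lit 10870328130) (nat_lit 152) (nat_lit 8900331596) (nat_lit 0) (nat_lit 8925266416) (nat_lit 7) (nat_lit 5) (nat_lit 9) (nat_lit 4) (nat_lit 7) (nat_lit 4) (nat_lit 324) (nat_lit 293) (nat_lit 283))))) (XT.nd (nat_lit 234) (nat_lit 152) (nat_lit 0) (XT.nd (nat_lit 78) (nat_lit 0) (nat_lit 0) (XT.lf (nat_lit 0) (nat_lit 2737314531) (nat_lit 76) (nat_lit 15672814138) (nat_lit 76) (nat_lit 13644449553) (nat_lit 6) (nat_lit 4) (nat_lit 7) (nat_lit 5) (nat_lit 7) (nat_lit 4) (nat_lit 325) (nat_lit 293) (nat_lit 282)) (XT.nd (nat_lit 78) (nat_lit 0) (nat_lit 0) (XT.lf (nat_lit 0) (nat_lit 16544834990) (nat_lit 76) (nat_lit 10722537091) (nat_lit 76) (nat_lit 8621735227) (nat_lit 6) (nat_lit 4) (nat_lit 7) (nat_lit 5) (nat_lit 7) (nat_lit 4) (nat_lit 326) (nat_lit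 293) (nat_lit 281)) (XT.lf (nat_lit 0) (nat_lit 31922571786) (nat_lit 76) (nat_lit 5288219943) (nat_lit 76) (nat_lit 3124429141) (nat_lit 6) (nat_lit 4) (nat_lit 7) (nat_lit 5) (nat_lit 7) (nat_lit 4) (nat_lit 327) (nat_lit 293) (nat_lit 280)))) (XT.nd (nat_lit 78) (nat_lit 0) (nat_lit 0) (XT.lf (nat_lit 0) (nat_lit 2898228263) (nat_lit 152) (nat_lit 41563341234) (nat_lit 0) (nat_lit 969042357) (nat_lit 4) (nat_lit 5) (nat_lit 6) (nat_lit 4) (nat_lit 4) (nat_lit 4) (nat_lit 328) (nat_lit 293) (nat_lit 279)) (XT.nd (nat_lit 78) (nat_lit 0) (nat_lit 0) (XT.lf (nat_lit 0) (nat_lit 9997418655) (nat_lit 152) (nat_lit 33169835168) (nat_lit 0) (nat_lit 8026816500) (nat_lit 4) (nat_lit 5) (nat_lit 6) (nat_lit 4) (nat_lit 4) (nat_lit 4) (nat_lit 329) (nat_lit 293) (nat_lit 278)) (XT.lf (nat_lit 0) (nat_lit 17970621279) (nat_lit 152) (nat_lit 23916076153) (nat_lit 0) (nat_lit 15964004994) (nat_lit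 4) (nat_lit 5) (nat_lit 6) (nat_lit 4) (nat_lit 4) (nat_lit 4) (nat_lit 330) (nat_lit 293) (nat_lit 277)))))) (XT.nd (nat_lit 390) (nat_lit 0) (nat_lit 0) (XT.nd (nat_lit 156) (nat_lit 76) (nat_lit 0) (XT.nd (nat_lit 78) (nat_lit 0) (nat_lit 0) (XT.lf (nat_lit 0) (nat_lit 26973833576) (nat_lit 152) (nat_lit 13621012383) (nat_lit 0) (nat_lit 24935900657) (nat_lit 4) (nat_lit 5) (nat_lit 6) (nat_lit 4) (nat_lit 4) (nat_lit 4) (nat_lit 331) (nat_lit 293) (nat_lit 276)) (XT.lf (nat_lit 0) (nat_lit 37183205353) (nat_lit 152) (nat_lit 2083218698) (nat_lit 0) (nat_lit 35118040577) (nat_lit 4) (nat_lit 5) (nat_lit 6) (nat_lit 4) (nat_lit 4) (nat_lit 4) (nat_lit 332) (nat_lit 293) (nat_lit 275))) (XT.nd (nat_lit 78) (nat_lit 0) (nat_lit 0) (XT.lf (nat_lit 0) (nat_lit 11990523678) (nat_lit 76) (nat_lit 37304463524) (nat_lit 76) (nat_lit 35215618874) (nat_lit 3) (nat_lit 4) (nat_lit 4) (nat_lit 5)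 (nat_lit 4) (nat_lit 4) (nat_lit 333) (nat_lit 293) (nat_lit 274)) (XT.nd (nat_lit 78) (nat_lit 0) (nat_lit 0) (XT.lf (nat_lit 0) (nat_lit 28159171258) (nat_lit 76) (nat_lit 35053768528) (nat_lit 76) (nat_lit 32944332683) (nat_lit 3) (nat_lit 4) (nat_lit 4) (nat_lit 5) (nat_lit 4) (nat_lit 4) (nat_lit 334) (nat_lit 293) (nat_lit 273)) (XT.lf (nat_lit 0) (nat_lit 46535479864) (nat_lit 76) (nat_lit 32579199249) (nat_lit 76) (nat_lit 30451858015) (nat_lit 3) (nat_lit 4) (nat_lit 4) (nat_lit 5) (nat_lit 4) (nat_lit 4) (nat_lit 335) (nat_lit 293) (nat_lit 272))))) (XT.nd (nat_lit 234) (nat_lit 0) (nat_lit 0) (XT.nd (nat_lit 78) (nat_lit 0) (nat_lit 0) (XT.lf (nat_lit 0) (nat_lit 67478985969) (nat_lit 76) (nat_lit 29832340200) (nat_lit 76) (nat_lit 27689429064) (nat_lit 3) (nat_lit 4) (nat_lit 4) (nat_lit 5) (nat_lit 4) (nat_lit 4) (nat_lit 336) (nat_lit 293) (nat_lit 271)) (XT.nd (nat_lit 78)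 (nat_lit 0) (nat_lit 0) (XT.lf (nat_lit 0) (nat_lit 91399453823) (nat_lit 76) (nat_lit 26759448487) (nat_lit 76) (nat_lit 24602998306) (nat_lit 3) (nat_lit 4) (nat_lit 4) (nat_lit 5) (nat_lit 4) (nat_lit 4) (nat_lit 337) (nat_lit 293) (nat_lit 270)) (XT.lf (nat_lit 0) (nat_lit 118764892579) (nat_lit 76) (nat_lit 23300402316) (nat_lit 76) (nat_lit 21132179052) (nat_lit 3) (nat_lit 4) (nat_lit 4) (nat_lit 5) (nat_lit 4) (nat_lit 4) (nat_lit 338) (nat_lit 293) (nat_lit 269)))) (XT.nd (nat_lit 78) (nat_lit 0) (nat_lit 0) (XT.lf (nat_lit 0) (nat_lit 150110712996) (nat_lit 76) (nat_lit 19387524696) (nat_lit 76) (nat_lit 17209063968) (nat_lit 3) (nat_lit 4) (nat_lit 4) (nat_lit 5) (nat_lit 4) (nat_lit 4) (nat_lit 339) (nat_lit 293) (nat_lit 268)) (XT.nd (nat_lit 78) (nat_lit 0) (nat_lit 0) (XT.lf (nat_lit 0) (nat_lit 186050202864) (nat_lit 76) (nat_lit 14944259326) (nat_lit 76) (nat_lit 12756896457)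 (nat_lit 3) (nat_lit 4) (nat_lit 4) (nat_lit 5) (nat_lit 4) (nat_lit 4) (nat_lit 340) (nat_lit 293) (nat_lit 267)) (XT.lf (nat_lit 0) (nat_lit 227286526116) (nat_lit 76) (nat_lit 9883672753) (nat_lit 76) (nat_lit 7688568891) (nat_lit 3) (nat_lit 4) (nat_lit 4) (nat_lit 5) (nat_lit 4) (nat_lit 4) (nat_lit 341) (nat_lit 293) (nat_lit 266))))))))
noncomputable def xc34 : XT := (XT.nd (nat_lit 1716) (nat_lit 0) (nat_lit 0) (XT.nd (nat_lit 858) (nat_lit 0) (nat_lit 0) (XT.nd (nat_lit 390) (nat_lit 0) (nat_lit 0) (XT.nd (nat_lit 156) (nat_lit 0) (nat_lit 0) (XT.nd (nat_lit 78) (nat_lit 152) (nat_lit 0) (XT.lf (nat_lit 0) (nat_lit 274626480381) (nat_lit 76) (nat_lit 4106753502) (nat_lit 76) (nat_lit 1904918341) (nat_lit 3) (nat_lit 4) (nat_lit 4) (nat_lit 5) (nat_lit 4) (nat_lit 4) (nat_lit 342) (nat_lit 293) (nat_lit 265)) (XT.lf (nat_lit 0) (nat_lit 4734822907) (nat_lit 152) (nat_lit 314143387699)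 (nat_lit 0) (nat_lit 2815093808) (nat_lit 1) (nat_lit 5) (nat_lit 3) (nat_lit 4) (nat_lit 1) (nat_lit 4) (nat_lit 343) (nat_lit 293) (nat_lit 264))) (XT.nd (nat_lit 78) (nat_lit 0) (nat_lit 0) (XT.lf (nat_lit 0) (nat_lit 12664826142) (nat_lit 152) (nat_lit 345414229463) (nat_lit 0) (nat_lit 10740671106) (nat_lit 1) (nat_lit 5) (nat_lit 3) (nat_lit 4) (nat_lit 1) (nat_lit 4) (nat_lit 344) (nat_lit 293) (nat_lit 263)) (XT.nd (nat_lit 78) (nat_lit 0) (nat_lit 0) (XT.lf (nat_lit 0) (nat_lit 21753510613) (nat_lit 152) (nat_lit 381440720355) (nat_lit 0) (nat_lit 19825506934) (nat_lit 1) (nat_lit 5) (nat_lit 3) (nat_lit 4) (nat_lit 1) (nat_lit 4) (nat_lit 345) (nat_lit 293) (nat_lit 262)) (XT.lf (nat_lit 0) (nat_lit 32178698406) (nat_lit 152) (nat_lit 422927726503) (nat_lit 0) (nat_lit 30247348082) (nat_lit 1) (nat_lit 5) (nat_lit 3) (nat_lit 4) (nat_lit 1) (nat_lit 4) (nat_lit 346) (nat_lit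 293) (nat_lit 261))))) (XT.nd (nat_lit 234) (nat_lit 0) (nat_lit 0) (XT.nd (nat_lit 78) (nat_lit 0) (nat_lit 0) (XT.lf (nat_lit 0) (nat_lit 44144360587) (nat_lit 152) (nat_lit 470686950199) (nat_lit 0) (nat_lit 42210100137) (nat_lit 1) (nat_lit 5) (nat_lit 3) (nat_lit 4) (nat_lit 1) (nat_lit 4) (nat_lit 347) (nat_lit 293) (nat_lit 260)) (XT.nd (nat_lit 78) (nat_lit 0) (nat_lit 0) (XT.lf (nat_lit 0) (nat_lit 57884607937) (nat_lit 152) (nat_lit 525652811037) (nat_lit 0) (nat_lit 55947816944) (nat_lit 1) (nat_lit 5) (nat_lit 3) (nat_lit 4) (nat_lit 1) (nat_lit 4) (nat_lit 348) (nat_lit 293) (nat_lit 259)) (XT.lf (nat_lit 0) (nat_lit 73668271384) (nat_lit 152) (nat_lit 588900728035) (nat_lit 0) (nat_lit 71729279917) (nat_lit 1) (nat_lit 5) (nat_lit 3) (nat_lit 4) (nat_lit 1) (nat_lit 4) (nat_lit 349) (nat_lit 293) (nat_lit 258)))) (XT.nd (nat_lit 78) (nat_lit 0) (nat_lit 0) (XT.lf (nat_lit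 0) (nat_lit 91804161734) (nat_lit 152) (nat_lit 661668160438) (nat_lit 0) (nat_lit 89863256812) (nat_lit 1) (nat_lit 5) (nat_lit 3) (nat_lit 4) (nat_lit 1) (nat_lit 4) (nat_lit 350) (nat_lit 293) (nat_lit 257)) (XT.nd (nat_lit 78) (nat_lit 0) (nat_lit 0) (XT.lf (nat_lit 0) (nat_lit 112647111624) (nat_lit 152) (nat_lit 745378818880) (nat_lit 0) (nat_lit 110704542827) (nat_lit 1) (nat_lit 5) (nat_lit 3) (nat_lit 4) (nat_lit 1) (nat_lit 4) (nat_lit 351) (nat_lit 293) (nat_lit 256)) (XT.lf (nat_lit 0) (nat_lit 136604917899) (nat_lit 152) (nat_lit 841670520590) (nat_lit 0) (nat_lit 134660902256) (nat_lit 1) (nat_lit 5) (nat_lit 3) (nat_lit 4) (nat_lit 1) (nat_lit 4) (nat_lit 352) (nat_lit 293) (nat_lit 255)))))) (XT.nd (nat_lit 390) (nat_lit 0) (nat_lit 0) (XT.nd (nat_lit 156) (nat_lit 0) (nat_lit 0) (XT.nd (nat_lit 78) (nat_lit 0) (nat_lit 0) (XT.lf (nat_lit 0) (nat_lit 164146320248) (nat_lit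 152) (nat_lit 952427233647) (nat_lit 0) (nat_lit 162201046477) (nat_lit 1) (nat_lit 5) (nat_lit 3) (nat_lit 4) (nat_lit 1) (nat_lit 4) (nat_lit 353) (nat_lit 293) (nat_lit 254)) (XT.lf (nat_lit 0) (nat_lit 195810172195) (nat_lit 152) (nat_lit 1079815937219) (nat_lit 0) (nat_lit 193863804400) (nat_lit 1) (nat_lit 5) (nat_lit 3) (nat_lit 4) (nat_lit 1) (nat_lit 4) (nat_lit 354) (nat_lit 293) (nat_lit 253))) (XT.nd (nat_lit 78) (nat_lit 0) (nat_lit 0) (XT.lf (nat_lit 0) (nat_lit 232215983887) (nat_lit 152) (nat_lit 1226329018983) (nat_lit 0) (nat_lit 230268664766) (nat_lit 1) (nat_lit 5) (nat_lit 3) (nat_lit 4) (nat_lit 1) (nat_lit 4) (nat_lit 355) (nat_lit 293) (nat_lit 252)) (XT.nd (nat_lit 78) (nat_lit 0) (nat_lit 0) (XT.lf (nat_lit 0) (nat_lit 274076042943) (nat_lit 152) (nat_lit 1394833039237) (nat_lit 0) (nat_lit 272127896583) (nat_lit 1) (nat_lit 5) (nat_lit 3) (nat_lit 4) (nat_lit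 1) (nat_lit 4) (nat_lit 356) (nat_lit 293) (nat_lit 251)) (XT.lf (nat_lit 0) (nat_lit 322209350520) (nat_lit 152) (nat_lit 1588624815766) (nat_lit 0) (nat_lit 320260484821) (nat_lit 1) (nat_lit 5) (nat_lit 3) (nat_lit 4) (nat_lit 1) (nat_lit 4) (nat_lit 357) (nat_lit 293) (nat_lit 250))))) (XT.nd (nat_lit 234) (nat_lit 0) (nat_lit 0) (XT.nd (nat_lit 78) (nat_lit 0) (nat_lit 0) (XT.lf (nat_lit 0) (nat_lit 377557645243) (nat_lit 152) (nat_lit 1811495926808) (nat_lit 0) (nat_lit 375608154032) (nat_lit 1) (nat_lit 5) (nat_lit 3) (nat_lit 4) (nat_lit 1) (nat_lit 4) (nat_lit 358) (nat_lit 293) (nat_lit 249)) (XT.nd (nat_lit 78) (nat_lit 0) (nat_lit 0) (XT.lf (nat_lit 0) (nat_lit 441203828531) (nat_lit 152) (nat_lit 2067806894100) (nat_lit 0) (nat_lit 439253793397) (nat_lit 1) (nat_lit 5) (nat_lit 3) (nat_lit 4) (nat_lit 1) (nat_lit 4) (nat_lit 359) (nat_lit 293) (nat_lit 248)) (XT.lf (nat_lit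 0) (nat_lit 514393151797) (nat_lit 152) (nat_lit 2362572497437) (nat_lit 0) (nat_lit 512442643686) (nat_lit 1) (nat_lit 5) (nat_lit 3) (nat_lit 4) (nat_lit 1) (nat_lit 4) (nat_lit 360) (nat_lit 293) (nat_lit 247)))) (XT.nd (nat_lit 78) (nat_lit 0) (nat_lit 0) (XT.lf (nat_lit 0) (nat_lit 598557580061) (nat_lit 152) (nat_lit 2701559889929) (nat_lit 0) (nat_lit 596606660666) (nat_lit 1) (nat_lit 5) (nat_lit 3) (nat_lit 4) (nat_lit 1) (nat_lit 4) (nat_lit 361) (nat_lit 293) (nat_lit 246)) (XT.nd (nat_lit 78) (nat_lit 0) (nat_lit 0) (XT.lf (nat_lit 0) (nat_lit 695343808658) (nat_lit 152) (nat_lit 3091401433601) (nat_lit 0) (nat_lit 693392531624) (nat_lit 1) (nat_lit 5) (nat_lit 3) (nat_lit 4) (nat_lit 1) (nat_lit 4) (nat_lit 362) (nat_lit 293) (nat_lit 245)) (XT.lf (nat_lit 0) (nat_lit 806645481191) (nat_lit 152) (nat_lit 3539724463005) (nat_lit 0) (nat_lit 804693893168) (nat_lit 1) (nat_lit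 5) (nat_lit 3) (nat_lit 4) (nat_lit 1) (nat_lit 4) (nat_lit 363) (nat_lit 293) (nat_lit 244))))))) (XT.nd (nat_lit 858) (nat_lit 0) (nat_lit 0) (XT.nd (nat_lit 390) (nat_lit 0) (nat_lit 0) (XT.nd (nat_lit 156) (nat_lit 0) (nat_lit 0) (XT.nd (nat_lit 78) (nat_lit 0) (nat_lit 0) (XT.lf (nat_lit 0) (nat_lit 934640239080) (nat_lit 152) (nat_lit 4055300515671) (nat_lit 0) (nat_lit 932688380631) (nat_lit 1) (nat_lit 5) (nat_lit 3) (nat_lit 4) (nat_lit 1) (nat_lit 4) (nat_lit 364) (nat_lit 293) (nat_lit 243)) (XT.lf (nat_lit 0) (nat_lit 1081832327587) (nat_lit 152) (nat_lit 4648216949153) (nat_lit 0) (nat_lit 1079880233985) (nat_lit 1) (nat_lit 5) (nat_lit 3) (nat_lit 4) (nat_lit 1) (nat_lit 4) (nat_lit 365) (nat_lit 293) (nat_lit 242))) (XT.nd (nat_lit 78) (nat_lit 0) (nat_lit 0) (XT.lf (nat_lit 0) (nat_lit 1251101591923) (nat_lit 152) (nat_lit 5330074302365) (nat_lit 0) (nat_lit 1249149293840)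 (nat_lit 1) (nat_lit 5) (nat_lit 3) (nat_lit 4) (nat_lit 1) (nat_lit 4) (nat_lit 366) (nat_lit 293) (nat_lit 241)) (XT.nd (nat_lit 78) (nat_lit 0) (nat_lit 0) (XT.lf (nat_lit 0) (nat_lit 1445759822042) (nat_lit 152) (nat_lit 6114213262654) (nat_lit 0) (nat_lit 1443807346149) (nat_lit 1) (nat_lit 5) (nat_lit 3) (nat_lit 4) (nat_lit 1) (nat_lit 4) (nat_lit 367) (nat_lit 293) (nat_lit 240)) (XT.lf (nat_lit 0) (nat_lit 1669615548533) (nat_lit 152) (nat_lit 7015975679243) (nat_lit 0) (nat_lit 1667662918023) (nat_lit 1) (nat_lit 5) (nat_lit 3) (nat_lit 4) (nat_lit 1) (nat_lit 4) (nat_lit 368) (nat_lit 293) (nat_lit 239))))) (XT.nd (nat_lit 234) (nat_lit 0) (nat_lit 0) (XT.nd (nat_lit 78) (nat_lit 0) (nat_lit 0) (XT.lf (nat_lit 0) (nat_lit 1927048557349) (nat_lit 152) (nat_lit 8053004729847) (nat_lit 0) (nat_lit 1925095792389) (nat_lit 1) (nat_lit 5) (nat_lit 3) (nat_lit 4) (nat_lit 1) (nat_lit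 4) (nat_lit 369) (nat_lit 293) (nat_lit 238)) (XT.nd (nat_lit 78) (nat_lit 0) (nat_lit 0) (XT.lf (nat_lit 0) (nat_lit 2223095581271) (nat_lit 152) (nat_lit 9245590113282) (nat_lit 0) (nat_lit 2221142699399) (nat_lit 1) (nat_lit 5) (nat_lit 3) (nat_lit 4) (nat_lit 1) (nat_lit 4) (nat_lit 370) (nat_lit 293) (nat_lit 237)) (XT.lf (nat_lit 0) (nat_lit 2563548844681) (nat_lit 152) (nat_lit 10617065021834) (nat_lit 0) (nat_lit 2561595861146) (nat_lit 1) (nat_lit 5) (nat_lit 3) (nat_lit 4) (nat_lit 1) (nat_lit 4) (nat_lit 371) (nat_lit 293) (nat_lit 236)))) (XT.nd (nat_lit 78) (nat_lit 0) (nat_lit 0) (XT.lf (nat_lit 0) (nat_lit 2955069389689) (nat_lit 152) (nat_lit 12194262660234) (nat_lit 0) (nat_lit 2953116317751) (nat_lit 1) (nat_lit 5) (nat_lit 3) (nat_lit 4) (nat_lit 1) (nat_lit 4) (nat_lit 372) (nat_lit 293) (nat_lit 235)) (XT.nd (nat_lit 78) (nat_lit 0) (nat_lit 0) (XT.lf (nat_lit 0) (nat_lit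 3405317400870) (nat_lit 152) (nat_lit 14008041243148) (nat_lit 0) (nat_lit 3403364252060) (nat_lit 1) (nat_lit 5) (nat_lit 3) (nat_lit 4) (nat_lit 1) (nat_lit 4) (nat_lit 373) (nat_lit 293) (nat_lit 234)) (XT.lf (nat_lit 0) (nat_lit 3923102078445) (nat_lit 152) (nat_lit 16093887742849) (nat_lit 0) (nat_lit 3921148862789) (nat_lit 1) (nat_lit 5) (nat_lit 3) (nat_lit 4) (nat_lit 1) (nat_lit 4) (nat_lit 374) (nat_lit 293) (nat_lit 233)))))) (XT.nd (nat_lit 390) (nat_lit 0) (nat_lit 0) (XT.nd (nat_lit 156) (nat_lit 0) (nat_lit 0) (XT.nd (nat_lit 78) (nat_lit 0) (nat_lit 0) (XT.lf (nat_lit 0) (nat_lit 4518553992190) (nat_lit 152) (nat_lit 18492612199549) (nat_lit 0) (nat_lit 4516600718409) (nat_lit 1) (nat_lit 5) (nat_lit 3) (nat_lit 4) (nat_lit 1) (nat_lit 4) (nat_lit 375) (nat_lit 293) (nat_lit 232)) (XT.lf (nat_lit 0) (nat_lit 5203323288245) (nat_lit 152) (nat_lit 21251146178705) (nat_lit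 0) (nat_lit 5201369963920) (nat_lit 1) (nat_lit 5) (nat_lit 3) (nat_lit 4) (nat_lit 1) (nat_lit 4) (nat_lit 376) (nat_lit 293) (nat_lit 231))) (XT.nd (nat_lit 78) (nat_lit 0) (nat_lit 0) (XT.lf (nat_lit 0) (nat_lit 5990807626751) (nat_lit 152) (nat_lit 24423460997300) (nat_lit 0) (nat_lit 5988854258473) (nat_lit 1) (nat_lit 5) (nat_lit 3) (nat_lit 4) (nat_lit 1) (nat_lit 4) (nat_lit 377) (nat_lit 293) (nat_lit 230)) (XT.nd (nat_lit 78) (nat_lit 0) (nat_lit 0) (XT.lf (nat_lit 0) (nat_lit 6896414309981) (nat_lit 152) (nat_lit 28071623684395) (nat_lit 0) (nat_lit 6894460903485) (nat_lit 1) (nat_lit 5) (nat_lit 3) (nat_lit 4) (nat_lit 1) (nat_lit 4) (nat_lit 378) (nat_lit 293) (nat_lit 229)) (XT.lf (nat_lit 0) (nat_lit 7937861729566) (nat_lit 152) (nat_lit 32267011336041) (nat_lit 0) (nat_lit 7935908289835) (nat_lit 1) (nat_lit 5) (nat_lit 3) (nat_lit 4) (nat_lit 1) (nat_lit 4) (nat_lit 379)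 (nat_lit 293) (nat_lit 228))))) (XT.nd (nat_lit 234) (nat_lit 0) (nat_lit 0) (XT.nd (nat_lit 78) (nat_lit 0) (nat_lit 0) (XT.lf (nat_lit 0) (nat_lit 9135526030669) (nat_lit 152) (nat_lit 37091707623683) (nat_lit 0) (nat_lit 9133572562039) (nat_lit 1) (nat_lit 5) (nat_lit 3) (nat_lit 4) (nat_lit 1) (nat_lit 4) (nat_lit 380) (nat_lit 293) (nat_lit 227)) (XT.nd (nat_lit 78) (nat_lit 0) (nat_lit 0) (XT.lf (nat_lit 0) (nat_lit 10512839775705) (nat_lit 152) (nat_lit 42640108779036) (nat_lit 0) (nat_lit 10510886281946) (nat_lit 1) (nat_lit 5) (nat_lit 3) (nat_lit 4) (nat_lit 1) (nat_lit 4) (nat_lit 381) (nat_lit 293) (nat_lit 226)) (XT.lf (nat_lit 0) (nat_lit 12096750407510) (nat_lit 152) (nat_lit 49020770476878) (nat_lit 0) (nat_lit 12094796891899) (nat_lit 1) (nat_lit 5) (nat_lit 3) (nat_lit 4) (nat_lit 1) (nat_lit 4) (nat_lit 382) (nat_lit 293) (nat_lit 225)))) (XT.nd (nat_lit 78) (nat_lit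 0) (nat_lit 0) (XT.lf (nat_lit 0) (nat_lit 13918247481925) (nat_lit 152) (nat_lit 56358531750429) (nat_lit 0) (nat_lit 13916293947313) (nat_lit 1) (nat_lit 5) (nat_lit 3) (nat_lit 4) (nat_lit 1) (nat_lit 4) (nat_lit 383) (nat_lit 293) (nat_lit 224)) (XT.nd (nat_lit 78) (nat_lit 0) (nat_lit 0) (XT.lf (nat_lit 0) (nat_lit 16012968985189) (nat_lit 152) (nat_lit 64796957494171) (nat_lit 0) (nat_lit 16011015434053) (nat_lit 1) (nat_lit 5) (nat_lit 3) (nat_lit 4) (nat_lit 1) (nat_lit 4) (nat_lit 384) (nat_lit 293) (nat_lit 223)) (XT.lf (nat_lit 0) (nat_lit 18421898598886) (nat_lit 152) (nat_lit 74501147342219) (nat_lit 0) (nat_lit 18419945033382) (nat_lit 1) (nat_lit 5) (nat_lit 3) (nat_lit 4) (nat_lit 1) (nat_lit 4) (nat_lit 385) (nat_lit 293) (nat_lit 222))))))))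
noncomputable def xc35 : XT := (XT.nd (nat_lit 42588) (nat_lit 0) (nat_lit 0) (XT.nd (nat_lit 41730) (nat_lit 0) (nat_lit 228) (XT.nd (nat_lit 41262) (nat_lit 0) (nat_lit 836) (XT.nd (nat_lit 156) (nat_lit 0) (nat_lit 0) (XT.nd (nat_lit 78) (nat_lit 0) (nat_lit 0) (XT.lf (nat_lit 0) (nat_lit 21192167554589) (nat_lit 152) (nat_lit 85660965878560) (nat_lit 0) (nat_lit 21190213976591) (nat_lit 1) (nat_lit 5) (nat_lit 3) (nat_lit 4) (nat_lit 1) (nat_lit 4) (nat_lit 386) (nat_lit 293) (nat_lit 221)) (XT.lf (nat_lit 0) (nat_lit 24377976766648) (nat_lit 152) (nat_lit 98494757378902) (nat_lit 0) (nat_lit 24376023177787) (nat_lit 1) (nat_lit 5) (nat_lit 3) (nat_lit 4) (nat_lit 1) (nat_lit 4) (nat_lit 387) (nat_lit 293) (nat_lit 220))) (XT.nd (nat_lit 40950) (nat_lit 0) (nat_lit 1292) (XT.lf (nat_lit 0) (nat_lit 28041657284866) (nat_lit 152) (nat_lit 113253617763904) (nat_lit 0) (nat_lit 28039703686557)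 (nat_lit 1) (nat_lit 5) (nat_lit 3) (nat_lit 4) (nat_lit 1) (nat_lit 4) (nat_lit 388) (nat_lit 293) (nat_lit 219)) (XT.nd (nat_lit 78) (nat_lit 76) (nat_lit 0) (XT.lf (nat_lit 0) (nat_lit 1689164295) (nat_lit 152) (nat_lit 1661615306) (nat_lit 0) (nat_lit 1689164295) (nat_lit 19) (nat_lit 5) (nat_lit 21) (nat_lit 4) (nat_lit 19) (nat_lit 4) (nat_lit 312) (nat_lit 294) (nat_lit 294)) (XT.lf (nat_lit 0) (nat_lit 5462281255) (nat_lit 76) (nat_lit 2999592601) (nat_lit 76) (nat_lit 2321752010) (nat_lit 18) (nat_lit 4) (nat_lit 19) (nat_lit 5) (nat_lit 19) (nat_lit 4) (nat_lit 313) (nat_lit 294) (nat_lit 293))))) (XT.nd (nat_lit 234) (nat_lit 228) (nat_lit 0) (XT.nd (nat_lit 78) (nat_lit 76) (nat_lit 0) (XT.lf (nat_lit 0) (nat_lit 2374180144) (nat_lit 152) (nat_lit 7944897240) (nat_lit 0) (nat_lit 1272208671) (nat_lit 16) (nat_lit 5) (nat_lit 18) (nat_lit 4) (nat_lit 16) (nat_lit 4) (nat_lit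 314) (nat_lit 294) (nat_lit 292)) (XT.nd (nat_lit 78) (nat_lit 0) (nat_lit 0) (XT.lf (nat_lit 0) (nat_lit 1018791130) (nat_lit 76) (nat_lit 6516461560) (nat_lit 76) (nat_lit 4968798896) (nat_lit 15) (nat_lit 4) (nat_lit 16) (nat_lit 5) (nat_lit 16) (nat_lit 4) (nat_lit 315) (nat_lit 294) (nat_lit 291)) (XT.lf (nat_lit 0) (nat_lit 11375899536) (nat_lit 76) (nat_lit 2059306384) (nat_lit 76) (nat_lit 124086161) (nat_lit 15) (nat_lit 4) (nat_lit 16) (nat_lit 5) (nat_lit 16) (nat_lit 4) (nat_lit 316) (nat_lit 294) (nat_lit 290)))) (XT.nd (nat_lit 78) (nat_lit 76) (nat_lit 0) (XT.lf (nat_lit 0) (nat_lit 5032158822) (nat_lit 152) (nat_lit 6640251053) (nat_lit 0) (nat_lit 3056309435) (nat_lit 13) (nat_lit 5) (nat_lit 15) (nat_lit 4) (nat_lit 13) (nat_lit 4) (nat_lit 317) (nat_lit 294) (nat_lit 289)) (XT.nd (nat_lit 78) (nat_lit 0) (nat_lit 0) (XT.lf (nat_lit 0) (nat_lit 3510287277) (nat_lit 76)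 (nat_lit 7399565328) (nat_lit 76) (nat_lit 5168890555) (nat_lit 12) (nat_lit 4) (nat_lit 13) (nat_lit 5) (nat_lit 13) (nat_lit 4) (nat_lit 318) (nat_lit 294) (nat_lit 288)) (XT.lf (nat_lit 0) (nat_lit 15182397191) (nat_lit 76) (nat_lit 2453167088) (nat_lit 76) (nat_lit 905023) (nat_lit 12) (nat_lit 4) (nat_lit 13) (nat_lit 5) (nat_lit 13) (nat_lit 4) (nat_lit 319) (nat_lit 294) (nat_lit 287)))))) (XT.nd (nat_lit 390) (nat_lit 228) (nat_lit 0) (XT.nd (nat_lit 156) (nat_lit 152) (nat_lit 0) (XT.nd (nat_lit 78) (nat_lit 76) (nat_lit 0) (XT.lf (nat_lit 0) (nat_lit 5590762193) (nat_lit 152) (nat_lit 10482864964) (nat_lit 0) (nat_lit 3290808570) (nat_lit 10) (nat_lit 5) (nat_lit 12) (nat_lit 4) (nat_lit 10) (nat_lit 4) (nat_lit 320) (nat_lit 294) (nat_lit 286)) (XT.lf (nat_lit 0) (nat_lit 54111025) (nat_lit 76) (nat_lit 11878268676) (nat_lit 76) (nat_lit 9432617812) (nat_lit 9) (nat_lit 4) (nat_lit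 10) (nat_lit 5) (nat_lit 10) (nat_lit 4) (nat_lit 321) (nat_lit 294) (nat_lit 285))) (XT.nd (nat_lit 78) (nat_lit 152) (nat_lit 0) (XT.lf (nat_lit 0) (nat_lit 12692324680) (nat_lit 76) (nat_lit 6756133917) (nat_lit 76) (nat_lit 4183789800) (nat_lit 9) (nat_lit 4) (nat_lit 10) (nat_lit 5) (nat_lit 10) (nat_lit 4) (nat_lit 322) (nat_lit 294) (nat_lit 284)) (XT.nd (nat_lit 78) (nat_lit 0) (nat_lit 0) (XT.lf (nat_lit 0) (nat_lit 339537836) (nat_lit 76) (nat_lit 1066066814) (nat_lit 152) (nat_lit 24864820324) (nat_lit 7) (nat_lit 5) (nat_lit 8) (nat_lit 5) (nat_lit 9) (nat_lit 4) (nat_lit 323) (nat_lit 294) (nat_lit 283)) (XT.lf (nat_lit 0) (nat_lit 7937814262) (nat_lit 152) (nat_lit 15734883117) (nat_lit 0) (nat_lit 5521892118) (nat_lit 7) (nat_lit 5) (nat_lit 9) (nat_lit 4) (nat_lit 7) (nat_lit 4) (nat_lit 324) (nat_lit 294) (nat_lit 282))))) (XT.nd (nat_lit 234) (nat_lit 152) (nat_lit 0)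 (XT.nd (nat_lit 78) (nat_lit 76) (nat_lit 0) (XT.lf (nat_lit 0) (nat_lit 15245701525) (nat_lit 152) (nat_lit 4585008248) (nat_lit 0) (nat_lit 12757342103) (nat_lit 7) (nat_lit 5) (nat_lit 9) (nat_lit 4) (nat_lit 7) (nat_lit 4) (nat_lit 325) (nat_lit 294) (nat_lit 281)) (XT.nd (nat_lit 78) (nat_lit 0) (nat_lit 0) (XT.lf (nat_lit 0) (nat_lit 8541449657) (nat_lit 76) (nat_lit 15240336848) (nat_lit 76) (nat_lit 12688988487) (nat_lit 6) (nat_lit 4) (nat_lit 7) (nat_lit 5) (nat_lit 7) (nat_lit 4) (nat_lit 326) (nat_lit 294) (nat_lit 280)) (XT.lf (nat_lit 0) (nat_lit 23716593236) (nat_lit 76) (nat_lit 9910570340) (nat_lit 76) (nat_lit 7304448990) (nat_lit 6) (nat_lit 4) (nat_lit 7) (nat_lit 5) (nat_lit 7) (nat_lit 4) (nat_lit 327) (nat_lit 294) (nat_lit 279)))) (XT.nd (nat_lit 78) (nat_lit 152) (nat_lit 0) (XT.lf (nat_lit 0) (nat_lit 40789247117) (nat_lit 76) (nat_lit 3976803096) (nat_lit 76)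 (nat_lit 1323053059) (nat_lit 6) (nat_lit 4) (nat_lit 7) (nat_lit 5) (nat_lit 7) (nat_lit 4) (nat_lit 328) (nat_lit 294) (nat_lit 278)) (XT.nd (nat_lit 78) (nat_lit 0) (nat_lit 0) (XT.lf (nat_lit 0) (nat_lit 5388104590) (nat_lit 152) (nat_lit 43504077738) (nat_lit 0) (nat_lit 3044481733) (nat_lit 4) (nat_lit 5) (nat_lit 6) (nat_lit 4) (nat_lit 4) (nat_lit 4) (nat_lit 329) (nat_lit 294) (nat_lit 277)) (XT.lf (nat_lit 0) (nat_lit 13284111530) (nat_lit 152) (nat_lit 34411602024) (nat_lit 0) (nat_lit 10909172038) (nat_lit 4) (nat_lit 5) (nat_lit 6) (nat_lit 4) (nat_lit 4) (nat_lit 4) (nat_lit 330) (nat_lit 294) (nat_lit 276))))))) (XT.nd (nat_lit 858) (nat_lit 152) (nat_lit 0) (XT.nd (nat_lit 390) (nat_lit 0) (nat_lit 0) (XT.nd (nat_lit 156) (nat_lit 76) (nat_lit 0) (XT.nd (nat_lit 78) (nat_lit 0) (nat_lit 0) (XT.lf (nat_lit 0) (nat_lit 22220197146) (nat_lit 152) (nat_lit 24256784603) (nat_lit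 0) (nat_lit 19818025798) (nat_lit 4) (nat_lit 5) (nat_lit 6) (nat_lit 4) (nat_lit 4) (nat_lit 4) (nat_lit 331) (nat_lit 294) (nat_lit 275)) (XT.lf (nat_lit 0) (nat_lit 32371197895) (nat_lit 152) (nat_lit 12840944264) (nat_lit 0) (nat_lit 29945346673) (nat_lit 4) (nat_lit 5) (nat_lit 6) (nat_lit 4) (nat_lit 4) (nat_lit 4) (nat_lit 332) (nat_lit 294) (nat_lit 274))) (XT.nd (nat_lit 78) (nat_lit 0) (nat_lit 0) (XT.lf (nat_lit 0) (nat_lit 65064918) (nat_lit 76) (nat_lit 43873349596) (nat_lit 76) (nat_lit 41426907177) (nat_lit 3) (nat_lit 4) (nat_lit 4) (nat_lit 5) (nat_lit 4) (nat_lit 4) (nat_lit 333) (nat_lit 294) (nat_lit 273)) (XT.nd (nat_lit 78) (nat_lit 0) (nat_lit 0) (XT.lf (nat_lit 0) (nat_lit 16132486400) (nat_lit 76) (nat_lit 41675552258) (nat_lit 76) (nat_lit 39211204453) (nat_lit 3) (nat_lit 4) (nat_lit 4) (nat_lit 5) (nat_lit 4) (nat_lit 4) (nat_lit 334) (nat_lit 294) (nat_lit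 272)) (XT.lf (nat_lit 0) (nat_lit 34420772312) (nat_lit 76) (nat_lit 39246980943) (nat_lit 76) (nat_lit 36767063235) (nat_lit 3) (nat_lit 4) (nat_lit 4) (nat_lit 5) (nat_lit 4) (nat_lit 4) (nat_lit 335) (nat_lit 294) (nat_lit 271))))) (XT.nd (nat_lit 234) (nat_lit 0) (nat_lit 0) (XT.nd (nat_lit 78) (nat_lit 0) (nat_lit 0) (XT.lf (nat_lit 0) (nat_lit 55287736944) (nat_lit 76) (nat_lit 36540120123) (nat_lit 76) (nat_lit 34046663370) (nat_lit 3) (nat_lit 4) (nat_lit 4) (nat_lit 5) (nat_lit 4) (nat_lit 4) (nat_lit 336) (nat_lit 294) (nat_lit 270)) (XT.nd (nat_lit 78) (nat_lit 0) (nat_lit 0) (XT.lf (nat_lit 0) (nat_lit 79141646995) (nat_lit 76) (nat_lit 33502009479) (nat_lit 76) (nat_lit 30996779643) (nat_lit 3) (nat_lit 4) (nat_lit 4) (nat_lit 5) (nat_lit 4) (nat_lit 4) (nat_lit 337) (nat_lit 294) (nat_lit 269)) (XT.lf (nat_lit 0) (nat_lit 106449209401) (nat_lit 76) (nat_lit 30073207716) (nat_lit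 76) (nat_lit 27557740416) (nat_lit 3) (nat_lit 4) (nat_lit 4) (nat_lit 5) (nat_lit 4) (nat_lit 4) (nat_lit 338) (nat_lit 294) (nat_lit 268)))) (XT.nd (nat_lit 78) (nat_lit 0) (nat_lit 0) (XT.lf (nat_lit 0) (nat_lit 137744702557) (nat_lit 76) (nat_lit 26186629581) (nat_lit 76) (nat_lit 23662260140) (nat_lit 3) (nat_lit 4) (nat_lit 4) (nat_lit 5) (nat_lit 4) (nat_lit 4) (nat_lit 339) (nat_lit 294) (nat_lit 267)) (XT.nd (nat_lit 78) (nat_lit 0) (nat_lit 0) (XT.lf (nat_lit 0) (nat_lit 173640429590) (nat_lit 76) (nat_lit 21766233329) (nat_lit 76) (nat_lit 19234122894) (nat_lit 3) (nat_lit 4) (nat_lit 4) (nat_lit 5) (nat_lit 4) (nat_lit 4) (nat_lit 340) (nat_lit 294) (nat_lit 266)) (XT.lf (nat_lit 0) (nat_lit 214838698202) (nat_lit 76) (nat_lit 16725532946) (nat_lit 76) (nat_lit 14186691212) (nat_lit 3) (nat_lit 4) (nat_lit 4) (nat_lit 5) (nat_lit 4) (nat_lit 4) (nat_lit 341) (nat_lit 294) (nat_lit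 265)))))) (XT.nd (nat_lit 468) (nat_lit 0) (nat_lit 0) (XT.nd (nat_lit 234) (nat_lit 0) (nat_lit 0) (XT.nd (nat_lit 78) (nat_lit 152) (nat_lit 0) (XT.lf (nat_lit 0) (nat_lit 262145561476) (nat_lit 76) (nat_lit 10965906032) (nat_lit 76) (nat_lit 8421210996) (nat_lit 3) (nat_lit 4) (nat_lit 4) (nat_lit 5) (nat_lit 4) (nat_lit 4) (nat_lit 342) (nat_lit 294) (nat_lit 264)) (XT.nd (nat_lit 78) (nat_lit 152) (nat_lit 0) (XT.lf (nat_lit 0) (nat_lit 316486588474) (nat_lit 76) (nat_lit 4374664236) (nat_lit 76) (nat_lit 1824879372) (nat_lit 3) (nat_lit 4) (nat_lit 4) (nat_lit 5) (nat_lit 4) (nat_lit 4) (nat_lit 343) (nat_lit 294) (nat_lit 263)) (XT.lf (nat_lit 0) (nat_lit 5776890829) (nat_lit 152) (nat_lit 360564765948) (nat_lit 0) (nat_lit 3555837957) (nat_lit 1) (nat_lit 5) (nat_lit 3) (nat_lit 4) (nat_lit 1) (nat_lit 4) (nat_lit 344) (nat_lit 294) (nat_lit 262)))) (XT.nd (nat_lit 78) (nat_lit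 0) (nat_lit 0) (XT.lf (nat_lit 0) (nat_lit 14853110487) (nat_lit 152) (nat_lit 396617555269) (nat_lit 0) (nat_lit 12628710970) (nat_lit 1) (nat_lit 5) (nat_lit 3) (nat_lit 4) (nat_lit 1) (nat_lit 4) (nat_lit 345) (nat_lit 294) (nat_lit 261)) (XT.nd (nat_lit 78) (nat_lit 0) (nat_lit 0) (XT.lf (nat_lit 0) (nat_lit 25267459312) (nat_lit 152) (nat_lit 438127429615) (nat_lit 0) (nat_lit 23040149669) (nat_lit 1) (nat_lit 5) (nat_lit 3) (nat_lit 4) (nat_lit 1) (nat_lit 4) (nat_lit 346) (nat_lit 294) (nat_lit 260)) (XT.lf (nat_lit 0) (nat_lit 37223696303) (nat_lit 152) (nat_lit 485906538701) (nat_lit 0) (nat_lit 34993856116) (nat_lit 1) (nat_lit 5) (nat_lit 3) (nat_lit 4) (nat_lit 1) (nat_lit 4) (nat_lit 347) (nat_lit 294) (nat_lit 259))))) (XT.nd (nat_lit 234) (nat_lit 0) (nat_lit 0) (XT.nd (nat_lit 78) (nat_lit 0) (nat_lit 0) (XT.lf (nat_lit 0) (nat_lit 50955747837) (nat_lit 152) (nat_lit 540889691183)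 (nat_lit 0) (nat_lit 48723707176) (nat_lit 1) (nat_lit 5) (nat_lit 3) (nat_lit 4) (nat_lit 1) (nat_lit 4) (nat_lit 348) (nat_lit 294) (nat_lit 258)) (XT.nd (nat_lit 78) (nat_lit 0) (nat_lit 0) (XT.lf (nat_lit 0) (nat_lit 66732284487) (nat_lit 152) (nat_lit 604152644393) (nat_lit 0) (nat_lit 64498330371) (nat_lit 1) (nat_lit 5) (nat_lit 3) (nat_lit 4) (nat_lit 1) (nat_lit 4) (nat_lit 349) (nat_lit 294) (nat_lit 257)) (XT.lf (nat_lit 0) (nat_lit 84861977621) (nat_lit 152) (nat_lit 676933151762) (nat_lit 0) (nat_lit 82626359631) (nat_lit 1) (nat_lit 5) (nat_lit 3) (nat_lit 4) (nat_lit 1) (nat_lit 4) (nat_lit 350) (nat_lit 294) (nat_lit 256)))) (XT.nd (nat_lit 78) (nat_lit 0) (nat_lit 0) (XT.lf (nat_lit 0) (nat_lit 105699538628) (nat_lit 152) (nat_lit 760655179740) (nat_lit 0) (nat_lit 103462473791) (nat_lit 1) (nat_lit 5) (nat_lit 3) (nat_lit 4) (nat_lit 1) (nat_lit 4) (nat_lit 351) (nat_lit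 294) (nat_lit 255)) (XT.nd (nat_lit 78) (nat_lit 0) (nat_lit 0) (XT.lf (nat_lit 0) (nat_lit 129652658919) (nat_lit 152) (nat_lit 856956768004) (nat_lit 0) (nat_lit 127414335954) (nat_lit 1) (nat_lit 5) (nat_lit 3) (nat_lit 4) (nat_lit 1) (nat_lit 4) (nat_lit 352) (nat_lit 294) (nat_lit 254)) (XT.lf (nat_lit 0) (nat_lit 157189986498) (nat_lit 152) (nat_lit 967722078064) (nat_lit 0) (nat_lit 154950569509) (nat_lit 1) (nat_lit 5) (nat_lit 3) (nat_lit 4) (nat_lit 1) (nat_lit 4) (nat_lit 353) (nat_lit 294) (nat_lit 253))))))))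
noncomputable def xc36 : XT := (XT.nd (nat_lit 1716) (nat_lit 0) (nat_lit 0) (XT.nd (nat_lit 858) (nat_lit 0) (nat_lit 0) (XT.nd (nat_lit 390) (nat_lit 0) (nat_lit 0) (XT.nd (nat_lit 156) (nat_lit 0) (nat_lit 0) (XT.nd (nat_lit 78) (nat_lit 0) (nat_lit 0) (XT.lf (nat_lit 0) (nat_lit 188850295167) (nat_lit 152) (nat_lit 1095118257290) (nat_lit 0) (nat_lit 186609926853) (nat_lit 1) (nat_lit 5) (nat_lit 3) (nat_lit 4) (nat_lit 1) (nat_lit 4) (nat_lit 354) (nat_lit 294) (nat_lit 252)) (XT.lf (nat_lit 0) (nat_lit 225253025748) (nat_lit 152) (nat_lit 1241637839624) (nat_lit 0) (nat_lit 223011830194) (nat_lit 1) (nat_lit 5) (nat_lit 3) (nat_lit 4) (nat_lit 1) (nat_lit 4) (nat_lit 355) (nat_lit 294) (nat_lit 251))) (XT.nd (nat_lit 78) (nat_lit 0) (nat_lit 0) (XT.lf (nat_lit 0) (nat_lit 267110405577) (nat_lit 152) (nat_lit 1410147512546) (nat_lit 0) (nat_lit 264868490685) (nat_lit 1) (nat_lit 5)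 (nat_lit 3) (nat_lit 4) (nat_lit 1) (nat_lit 4) (nat_lit 356) (nat_lit 294) (nat_lit 250)) (XT.nd (nat_lit 78) (nat_lit 0) (nat_lit 0) (XT.lf (nat_lit 0) (nat_lit 315241383391) (nat_lit 152) (nat_lit 1603944204439) (nat_lit 0) (nat_lit 312998842987) (nat_lit 1) (nat_lit 5) (nat_lit 3) (nat_lit 4) (nat_lit 1) (nat_lit 4) (nat_lit 357) (nat_lit 294) (nat_lit 249)) (XT.lf (nat_lit 0) (nat_lit 370587652233) (nat_lit 152) (nat_lit 1826819589711) (nat_lit 0) (nat_lit 368344567906) (nat_lit 1) (nat_lit 5) (nat_lit 3) (nat_lit 4) (nat_lit 1) (nat_lit 4) (nat_lit 358) (nat_lit 294) (nat_lit 248))))) (XT.nd (nat_lit 234) (nat_lit 0) (nat_lit 0) (XT.nd (nat_lit 78) (nat_lit 0) (nat_lit 0) (XT.lf (nat_lit 0) (nat_lit 434232073887) (nat_lit 152) (nat_lit 2083134273725) (nat_lit 0) (nat_lit 431988516582) (nat_lit 1) (nat_lit 5) (nat_lit 3) (nat_lit 4) (nat_lit 1) (nat_lit 4) (nat_lit 359) (nat_lit 294)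 (nat_lit 247)) (XT.nd (nat_lit 78) (nat_lit 0) (nat_lit 0) (XT.lf (nat_lit 0) (nat_lit 507419865296) (nat_lit 152) (nat_lit 2377903108994) (nat_lit 0) (nat_lit 505175896707) (nat_lit 1) (nat_lit 5) (nat_lit 3) (nat_lit 4) (nat_lit 1) (nat_lit 4) (nat_lit 360) (nat_lit 294) (nat_lit 246)) (XT.lf (nat_lit 0) (nat_lit 591582961510) (nat_lit 152) (nat_lit 2716893311861) (nat_lit 0) (nat_lit 589338635283) (nat_lit 1) (nat_lit 5) (nat_lit 3) (nat_lit 4) (nat_lit 1) (nat_lit 4) (nat_lit 361) (nat_lit 294) (nat_lit 245)))) (XT.nd (nat_lit 78) (nat_lit 0) (nat_lit 0) (XT.lf (nat_lit 0) (nat_lit 688368031803) (nat_lit 152) (nat_lit 3106737299338) (nat_lit 0) (nat_lit 686123394586) (nat_lit 1) (nat_lit 5) (nat_lit 3) (nat_lit 4) (nat_lit 1) (nat_lit 4) (nat_lit 362) (nat_lit 294) (nat_lit 244)) (XT.nd (nat_lit 78) (nat_lit 0) (nat_lit 0) (XT.lf (nat_lit 0) (nat_lit 799668697116) (nat_lit 152) (nat_lit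 3555062453789) (nat_lit 0) (nat_lit 797423789473) (nat_lit 1) (nat_lit 5) (nat_lit 3) (nat_lit 4) (nat_lit 1) (nat_lit 4) (nat_lit 363) (nat_lit 294) (nat_lit 243)) (XT.lf (nat_lit 0) (nat_lit 927662579161) (nat_lit 152) (nat_lit 4070640354323) (nat_lit 0) (nat_lit 925417436365) (nat_lit 1) (nat_lit 5) (nat_lit 3) (nat_lit 4) (nat_lit 1) (nat_lit 4) (nat_lit 364) (nat_lit 294) (nat_lit 242)))))) (XT.nd (nat_lit 390) (nat_lit 0) (nat_lit 0) (XT.nd (nat_lit 156) (nat_lit 0) (nat_lit 0) (XT.nd (nat_lit 78) (nat_lit 0) (nat_lit 0) (XT.lf (nat_lit 0) (nat_lit 1074853906064) (nat_lit 152) (nat_lit 4663558394646) (nat_lit 0) (nat_lit 1072608558787) (nat_lit 1) (nat_lit 5) (nat_lit 3) (nat_lit 4) (nat_lit 1) (nat_lit 4) (nat_lit 365) (nat_lit 294) (nat_lit 241)) (XT.lf (nat_lit 0) (nat_lit 1244122508136) (nat_lit 152) (nat_lit 5345417145112) (nat_lit 0) (nat_lit 1241876983050) (nat_lit 1) (nat_lit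 5) (nat_lit 3) (nat_lit 4) (nat_lit 1) (nat_lit 4) (nat_lit 366) (nat_lit 294) (nat_lit 240))) (XT.nd (nat_lit 78) (nat_lit 0) (nat_lit 0) (XT.lf (nat_lit 0) (nat_lit 1438780162373) (nat_lit 152) (nat_lit 6129557320404) (nat_lit 0) (nat_lit 1436534482670) (nat_lit 1) (nat_lit 5) (nat_lit 3) (nat_lit 4) (nat_lit 1) (nat_lit 4) (nat_lit 367) (nat_lit 294) (nat_lit 239)) (XT.nd (nat_lit 78) (nat_lit 0) (nat_lit 0) (XT.lf (nat_lit 0) (nat_lit 1662635388097) (nat_lit 152) (nat_lit 7031320793517) (nat_lit 0) (nat_lit 1660389573944) (nat_lit 1) (nat_lit 5) (nat_lit 3) (nat_lit 4) (nat_lit 1) (nat_lit 4) (nat_lit 368) (nat_lit 294) (nat_lit 238)) (XT.lf (nat_lit 0) (nat_lit 1920067961464) (nat_lit 152) (nat_lit 8068350762837) (nat_lit 0) (nat_lit 1917822030399) (nat_lit 1) (nat_lit 5) (nat_lit 3) (nat_lit 4) (nat_lit 1) (nat_lit 4) (nat_lit 369) (nat_lit 294) (nat_lit 237))))) (XT.nd (nat_lit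 234) (nat_lit 0) (nat_lit 0) (XT.nd (nat_lit 78) (nat_lit 0) (nat_lit 0) (XT.lf (nat_lit 0) (nat_lit 2216114606735) (nat_lit 152) (nat_lit 9260936945157) (nat_lit 0) (nat_lit 2213868574006) (nat_lit 1) (nat_lit 5) (nat_lit 3) (nat_lit 4) (nat_lit 1) (nat_lit 4) (nat_lit 370) (nat_lit 294) (nat_lit 236)) (XT.nd (nat_lit 78) (nat_lit 0) (nat_lit 0) (XT.lf (nat_lit 0) (nat_lit 2556567540883) (nat_lit 152) (nat_lit 10632412548390) (nat_lit 0) (nat_lit 2554321419751) (nat_lit 1) (nat_lit 5) (nat_lit 3) (nat_lit 4) (nat_lit 1) (nat_lit 4) (nat_lit 371) (nat_lit 294) (nat_lit 235)) (XT.lf (nat_lit 0) (nat_lit 2948087799575) (nat_lit 152) (nat_lit 12209610790862) (nat_lit 0) (nat_lit 2945841601572) (nat_lit 1) (nat_lit 5) (nat_lit 3) (nat_lit 4) (nat_lit 1) (nat_lit 4) (nat_lit 372) (nat_lit 294) (nat_lit 234)))) (XT.nd (nat_lit 78) (nat_lit 0) (nat_lit 0) (XT.lf (nat_lit 0) (nat_lit 3398335561787)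 (nat_lit 152) (nat_lit 14023389899055) (nat_lit 0) (nat_lit 3396089296939) (nat_lit 1) (nat_lit 5) (nat_lit 3) (nat_lit 4) (nat_lit 1) (nat_lit 4) (nat_lit 373) (nat_lit 294) (nat_lit 233)) (XT.nd (nat_lit 78) (nat_lit 0) (nat_lit 0) (XT.lf (nat_lit 0) (nat_lit 3916120022866) (nat_lit 152) (nat_lit 16109236855520) (nat_lit 0) (nat_lit 3913873699891) (nat_lit 1) (nat_lit 5) (nat_lit 3) (nat_lit 4) (nat_lit 1) (nat_lit 4) (nat_lit 374) (nat_lit 294) (nat_lit 232)) (XT.lf (nat_lit 0) (nat_lit 4511571748355) (nat_lit 152) (nat_lit 18507961709406) (nat_lit 0) (nat_lit 4509325374836) (nat_lit 1) (nat_lit 5) (nat_lit 3) (nat_lit 4) (nat_lit 1) (nat_lit 4) (nat_lit 375) (nat_lit 294) (nat_lit 231))))))) (XT.nd (nat_lit 858) (nat_lit 0) (nat_lit 0) (XT.nd (nat_lit 390) (nat_lit 0) (nat_lit 0) (XT.nd (nat_lit 156) (nat_lit 0) (nat_lit 0) (XT.nd (nat_lit 78) (nat_lit 0) (nat_lit 0) (XT.lf (nat_lit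 0) (nat_lit 5196340880709) (nat_lit 152) (nat_lit 21266496033942) (nat_lit 0) (nat_lit 5194094463238) (nat_lit 1) (nat_lit 5) (nat_lit 3) (nat_lit 4) (nat_lit 1) (nat_lit 4) (nat_lit 376) (nat_lit 294) (nat_lit 230)) (XT.lf (nat_lit 0) (nat_lit 5983825076865) (nat_lit 152) (nat_lit 24438811152868) (nat_lit 0) (nat_lit 5981578621175) (nat_lit 1) (nat_lit 5) (nat_lit 3) (nat_lit 4) (nat_lit 1) (nat_lit 4) (nat_lit 377) (nat_lit 294) (nat_lit 229))) (XT.nd (nat_lit 78) (nat_lit 0) (nat_lit 0) (XT.lf (nat_lit 0) (nat_lit 6889431636314) (nat_lit 152) (nat_lit 28086974101119) (nat_lit 0) (nat_lit 6887185147390) (nat_lit 1) (nat_lit 5) (nat_lit 3) (nat_lit 4) (nat_lit 1) (nat_lit 4) (nat_lit 378) (nat_lit 294) (nat_lit 228)) (XT.nd (nat_lit 78) (nat_lit 0) (nat_lit 0) (XT.lf (nat_lit 0) (nat_lit 7930878948262) (nat_lit 152) (nat_lit 32282361979858) (nat_lit 0) (nat_lit 7928632430439) (nat_lit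 1) (nat_lit 5) (nat_lit 3) (nat_lit 4) (nat_lit 1) (nat_lit 4) (nat_lit 379) (nat_lit 294) (nat_lit 227)) (XT.lf (nat_lit 0) (nat_lit 9128543155768) (nat_lit 152) (nat_lit 37107058464972) (nat_lit 0) (nat_lit 9126296612816) (nat_lit 1) (nat_lit 5) (nat_lit 3) (nat_lit 4) (nat_lit 1) (nat_lit 4) (nat_lit 380) (nat_lit 294) (nat_lit 226))))) (XT.nd (nat_lit 234) (nat_lit 0) (nat_lit 0) (XT.nd (nat_lit 78) (nat_lit 0) (nat_lit 0) (XT.lf (nat_lit 0) (nat_lit 10505856819415) (nat_lit 152) (nat_lit 42655459792039) (nat_lit 0) (nat_lit 10503610254611) (nat_lit 1) (nat_lit 5) (nat_lit 3) (nat_lit 4) (nat_lit 1) (nat_lit 4) (nat_lit 381) (nat_lit 294) (nat_lit 225)) (XT.nd (nat_lit 78) (nat_lit 0) (nat_lit 0) (XT.lf (nat_lit 0) (nat_lit 12089767380448) (nat_lit 152) (nat_lit 49036121639199) (nat_lit 0) (nat_lit 12087520796642) (nat_lit 1) (nat_lit 5) (nat_lit 3) (nat_lit 4) (nat_lit 1) (nat_lit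 4) (nat_lit 382) (nat_lit 294) (nat_lit 224)) (XT.lf (nat_lit 0) (nat_lit 13911264393322) (nat_lit 152) (nat_lit 56373883042591) (nat_lit 0) (nat_lit 13909017792993) (nat_lit 1) (nat_lit 5) (nat_lit 3) (nat_lit 4) (nat_lit 1) (nat_lit 4) (nat_lit 383) (nat_lit 294) (nat_lit 223)))) (XT.nd (nat_lit 78) (nat_lit 0) (nat_lit 0) (XT.lf (nat_lit 0) (nat_lit 16005985843071) (nat_lit 152) (nat_lit 64812308899238) (nat_lit 0) (nat_lit 16003739228374) (nat_lit 1) (nat_lit 5) (nat_lit 3) (nat_lit 4) (nat_lit 1) (nat_lit 4) (nat_lit 384) (nat_lit 294) (nat_lit 222)) (XT.nd (nat_lit 78) (nat_lit 0) (nat_lit 0) (XT.lf (nat_lit 0) (nat_lit 18414915410233) (nat_lit 152) (nat_lit 74516498845465) (nat_lit 0) (nat_lit 18412668783043) (nat_lit 1) (nat_lit 5) (nat_lit 3) (nat_lit 4) (nat_lit 1) (nat_lit 4) (nat_lit 385) (nat_lit 294) (nat_lit 221)) (XT.lf (nat_lit 0) (nat_lit 21185184325472) (nat_lit 152)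 (nat_lit 85676317467178) (nat_lit 0) (nat_lit 21182937687417) (nat_lit 1) (nat_lit 5) (nat_lit 3) (nat_lit 4) (nat_lit 1) (nat_lit 4) (nat_lit 386) (nat_lit 294) (nat_lit 220)))))) (XT.nd (nat_lit 41028) (nat_lit 0) (nat_lit 912) (XT.nd (nat_lit 156) (nat_lit 0) (nat_lit 0) (XT.nd (nat_lit 78) (nat_lit 0) (nat_lit 0) (XT.lf (nat_lit 0) (nat_lit 24370993502345) (nat_lit 152) (nat_lit 98510109041757) (nat_lit 0) (nat_lit 24368746854843) (nat_lit 1) (nat_lit 5) (nat_lit 3) (nat_lit 4) (nat_lit 1) (nat_lit 4) (nat_lit 387) (nat_lit 294) (nat_lit 219)) (XT.lf (nat_lit 0) (nat_lit 28034673989966) (nat_lit 152) (nat_lit 113268969491313) (nat_lit 0) (nat_lit 28032427334249) (nat_lit 1) (nat_lit 5) (nat_lit 3) (nat_lit 4) (nat_lit 1) (nat_lit 4) (nat_lit 388) (nat_lit 294) (nat_lit 218))) (XT.nd (nat_lit 40716) (nat_lit 0) (nat_lit 1520) (XT.lf (nat_lit 0) (nat_lit 32247906493527) (nat_lit 152)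 (nat_lit 130241659128992) (nat_lit 0) (nat_lit 32245659830666) (nat_lit 1) (nat_lit 5) (nat_lit 3) (nat_lit 4) (nat_lit 1) (nat_lit 4) (nat_lit 389) (nat_lit 294) (nat_lit 217)) (XT.nd (nat_lit 78) (nat_lit 152) (nat_lit 0) (XT.lf (nat_lit 0) (nat_lit 2178283354) (nat_lit 152) (nat_lit 101160596) (nat_lit 0) (nat_lit 2178283354) (nat_lit 23) (nat_lit 5) (nat_lit 25) (nat_lit 4) (nat_lit 23) (nat_lit 4) (nat_lit 310) (nat_lit 295) (nat_lit 295)) (XT.lf (nat_lit 0) (nat_lit 7779234906) (nat_lit 152) (nat_lit 1299359239) (nat_lit 152) (nat_lit 402915057) (nat_lit 21) (nat_lit 4) (nat_lit 23) (nat_lit 5) (nat_lit 23) (nat_lit 4) (nat_lit 311) (nat_lit 295) (nat_lit 294))))) (XT.nd (nat_lit 234) (nat_lit 228) (nat_lit 0) (XT.nd (nat_lit 78) (nat_lit 228) (nat_lit 0) (XT.lf (nat_lit 0) (nat_lit 3924657487) (nat_lit 152) (nat_lit 3723126358) (nat_lit 0) (nat_lit 2467300215) (nat_lit 19) (nat_lit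 5) (nat_lit 21) (nat_lit 4) (nat_lit 19) (nat_lit 4) (nat_lit 312) (nat_lit 295) (nat_lit 293)) (XT.nd (nat_lit 78) (nat_lit 152) (nat_lit 0) (XT.lf (nat_lit 0) (nat_lit 4641586122) (nat_lit 76) (nat_lit 4129861410) (nat_lit 76) (nat_lit 2083077536) (nat_lit 18) (nat_lit 4) (nat_lit 19) (nat_lit 5) (nat_lit 19) (nat_lit 4) (nat_lit 313) (nat_lit 295) (nat_lit 292)) (XT.lf (nat_lit 0) (nat_lit 2280032421) (nat_lit 152) (nat_lit 9373020687) (nat_lit 0) (nat_lit 54529165) (nat_lit 16) (nat_lit 5) (nat_lit 18) (nat_lit 4) (nat_lit 16) (nat_lit 4) (nat_lit 314) (nat_lit 295) (nat_lit 291)))) (XT.nd (nat_lit 78) (nat_lit 228) (nat_lit 0) (XT.lf (nat_lit 0) (nat_lit 7205601740) (nat_lit 152) (nat_lit 857655322) (nat_lit 0) (nat_lit 4592540926) (nat_lit 16) (nat_lit 5) (nat_lit 18) (nat_lit 4) (nat_lit 16) (nat_lit 4) (nat_lit 315) (nat_lit 295) (nat_lit 290)) (XT.nd (nat_lit 78) (nat_lit 152)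 (nat_lit 0) (XT.lf (nat_lit 0) (nat_lit 9074269190) (nat_lit 76) (nat_lit 3810064177) (nat_lit 76) (nat_lit 859996790) (nat_lit 15) (nat_lit 4) (nat_lit 16) (nat_lit 5) (nat_lit 16) (nat_lit 4) (nat_lit 316) (nat_lit 295) (nat_lit 289)) (XT.lf (nat_lit 0) (nat_lit 3983755493) (nat_lit 152) (nat_lit 9827701923) (nat_lit 0) (nat_lit 1163654118) (nat_lit 13) (nat_lit 5) (nat_lit 15) (nat_lit 4) (nat_lit 13) (nat_lit 4) (nat_lit 317) (nat_lit 295) (nat_lit 288))))))))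
noncomputable def xc37 : XT := (XT.nd (nat_lit 1716) (nat_lit 152) (nat_lit 0) (XT.nd (nat_lit 858) (nat_lit 228) (nat_lit 0) (XT.nd (nat_lit 390) (nat_lit 228) (nat_lit 0) (XT.nd (nat_lit 156) (nat_lit 228) (nat_lit 0) (XT.nd (nat_lit 78) (nat_lit 76) (nat_lit 0) (XT.lf (nat_lit 0) (nat_lit 9553399570) (nat_lit 152) (nat_lit 306303663) (nat_lit 0) (nat_lit 6511710904) (nat_lit 13) (nat_lit 5) (nat_lit 15) (nat_lit 4) (nat_lit 13) (nat_lit 4) (nat_lit 318) (nat_lit 295) (nat_lit 287)) (XT.lf (nat_lit 0) (nat_lit 11033634278) (nat_lit 76) (nat_lit 5077564098) (nat_lit 76) (nat_lit 1843190830) (nat_lit 12) (nat_lit 4) (nat_lit 13) (nat_lit 5) (nat_lit 13) (nat_lit 4) (nat_lit 319) (nat_lit 295) (nat_lit 286))) (XT.nd (nat_lit 78) (nat_lit 76) (nat_lit 0) (XT.lf (nat_lit 0) (nat_lit 3431977729) (nat_lit 152) (nat_lit 15860162311) (nat_lit 0) (nat_lit 473781994) (nat_lit 10) (nat_lit 5) (nat_lit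 12) (nat_lit 4) (nat_lit 10) (nat_lit 4) (nat_lit 320) (nat_lit 295) (nat_lit 285)) (XT.nd (nat_lit 78) (nat_lit 76) (nat_lit 0) (XT.lf (nat_lit 0) (nat_lit 9632970429) (nat_lit 152) (nat_lit 5606566435) (nat_lit 0) (nat_lit 6548081440) (nat_lit 10) (nat_lit 5) (nat_lit 12) (nat_lit 4) (nat_lit 10) (nat_lit 4) (nat_lit 321) (nat_lit 295) (nat_lit 284)) (XT.lf (nat_lit 0) (nat_lit 6217831940) (nat_lit 76) (nat_lit 10545028994) (nat_lit 76) (nat_lit 7349971959) (nat_lit 9) (nat_lit 4) (nat_lit 10) (nat_lit 5) (nat_lit 10) (nat_lit 4) (nat_lit 322) (nat_lit 295) (nat_lit 283))))) (XT.nd (nat_lit 234) (nat_lit 76) (nat_lit 0) (XT.nd (nat_lit 78) (nat_lit 152) (nat_lit 0) (XT.lf (nat_lit 0) (nat_lit 19948872739) (nat_lit 76) (nat_lit 5060875758) (nat_lit 76) (nat_lit 1770020422) (nat_lit 9) (nat_lit 4) (nat_lit 10) (nat_lit 5) (nat_lit 10) (nat_lit 4) (nat_lit 323) (nat_lit 295) (nat_lit 282))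 (XT.nd (nat_lit 78) (nat_lit 0) (nat_lit 0) (XT.lf (nat_lit 0) (nat_lit 4310504437) (nat_lit 152) (nat_lit 24119382036) (nat_lit 0) (nat_lit 1376453823) (nat_lit 7) (nat_lit 5) (nat_lit 9) (nat_lit 4) (nat_lit 7) (nat_lit 4) (nat_lit 324) (nat_lit 295) (nat_lit 281)) (XT.lf (nat_lit 0) (nat_lit 11515290031) (nat_lit 152) (nat_lit 13181747682) (nat_lit 0) (nat_lit 8518250479) (nat_lit 7) (nat_lit 5) (nat_lit 9) (nat_lit 4) (nat_lit 7) (nat_lit 4) (nat_lit 325) (nat_lit 295) (nat_lit 280)))) (XT.nd (nat_lit 78) (nat_lit 76) (nat_lit 0) (XT.lf (nat_lit 0) (nat_lit 19608038171) (nat_lit 152) (nat_lit 1000265658) (nat_lit 0) (nat_lit 16556225629) (nat_lit 7) (nat_lit 5) (nat_lit 9) (nat_lit 4) (nat_lit 7) (nat_lit 4) (nat_lit 326) (nat_lit 295) (nat_lit 279)) (XT.nd (nat_lit 78) (nat_lit 0) (nat_lit 0) (XT.lf (nat_lit 0) (nat_lit 13900956669) (nat_lit 76) (nat_lit 15421737536) (nat_lit 76)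 (nat_lit 12322296307) (nat_lit 6) (nat_lit 4) (nat_lit 7) (nat_lit 5) (nat_lit 7) (nat_lit 4) (nat_lit 327) (nat_lit 295) (nat_lit 278)) (XT.lf (nat_lit 0) (nat_lit 30820420971) (nat_lit 76) (nat_lit 9567025596) (nat_lit 76) (nat_lit 6426168118) (nat_lit 6) (nat_lit 4) (nat_lit 7) (nat_lit 5) (nat_lit 7) (nat_lit 4) (nat_lit 328) (nat_lit 295) (nat_lit 277)))))) (XT.nd (nat_lit 390) (nat_lit 76) (nat_lit 0) (XT.nd (nat_lit 156) (nat_lit 0) (nat_lit 0) (XT.nd (nat_lit 78) (nat_lit 76) (nat_lit 0) (XT.lf (nat_lit 0) (nat_lit 177608499) (nat_lit 152) (nat_lit 2795013332) (nat_lit 76) (nat_lit 49804514430) (nat_lit 5) (nat_lit 5) (nat_lit 7) (nat_lit 5) (nat_lit 6) (nat_lit 4) (nat_lit 329) (nat_lit 295) (nat_lit 276)) (XT.lf (nat_lit 0) (nat_lit 7750302954) (nat_lit 152) (nat_lit 46782986426) (nat_lit 0) (nat_lit 4960574048) (nat_lit 4) (nat_lit 5) (nat_lit 6) (nat_lit 4) (nat_lit 4) (nat_lit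 4) (nat_lit 330) (nat_lit 295) (nat_lit 275))) (XT.nd (nat_lit 78) (nat_lit 0) (nat_lit 0) (XT.lf (nat_lit 0) (nat_lit 16628017543) (nat_lit 152) (nat_lit 36750122352) (nat_lit 0) (nat_lit 13814608761) (nat_lit 4) (nat_lit 5) (nat_lit 6) (nat_lit 4) (nat_lit 4) (nat_lit 4) (nat_lit 331) (nat_lit 295) (nat_lit 274)) (XT.nd (nat_lit 78) (nat_lit 0) (nat_lit 0) (XT.lf (nat_lit 0) (nat_lit 26728260877) (nat_lit 152) (nat_lit 25440328402) (nat_lit 0) (nat_lit 23894260900) (nat_lit 4) (nat_lit 5) (nat_lit 6) (nat_lit 4) (nat_lit 4) (nat_lit 4) (nat_lit 332) (nat_lit 295) (nat_lit 273)) (XT.lf (nat_lit 0) (nat_lit 38248646414) (nat_lit 152) (nat_lit 12632325998) (nat_lit 0) (nat_lit 35396741050) (nat_lit 4) (nat_lit 5) (nat_lit 6) (nat_lit 4) (nat_lit 4) (nat_lit 4) (nat_lit 333) (nat_lit 295) (nat_lit 272))))) (XT.nd (nat_lit 234) (nat_lit 0) (nat_lit 0) (XT.nd (nat_lit 78) (nat_lit 0) (nat_lit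 0) (XT.lf (nat_lit 0) (nat_lit 2112550021) (nat_lit 76) (nat_lit 49389499170) (nat_lit 76) (nat_lit 46522023904) (nat_lit 3) (nat_lit 4) (nat_lit 4) (nat_lit 5) (nat_lit 4) (nat_lit 4) (nat_lit 334) (nat_lit 295) (nat_lit 271)) (XT.nd (nat_lit 78) (nat_lit 0) (nat_lit 0) (XT.lf (nat_lit 0) (nat_lit 20324294460) (nat_lit 76) (nat_lit 47000926084) (nat_lit 76) (nat_lit 44119911772) (nat_lit 3) (nat_lit 4) (nat_lit 4) (nat_lit 5) (nat_lit 4) (nat_lit 4) (nat_lit 335) (nat_lit 295) (nat_lit 270)) (XT.lf (nat_lit 0) (nat_lit 41124701289) (nat_lit 76) (nat_lit 44328846334) (nat_lit 76) (nat_lit 41436058939) (nat_lit 3) (nat_lit 4) (nat_lit 4) (nat_lit 5) (nat_lit 4) (nat_lit 4) (nat_lit 336) (nat_lit 295) (nat_lit 269)))) (XT.nd (nat_lit 78) (nat_lit 0) (nat_lit 0) (XT.lf (nat_lit 0) (nat_lit 64920734990) (nat_lit 76) (nat_lit 41320980098) (nat_lit 76) (nat_lit 38417955240) (nat_lit 3) (nat_lit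 4) (nat_lit 4) (nat_lit 5) (nat_lit 4) (nat_lit 4) (nat_lit 337) (nat_lit 295) (nat_lit 268)) (XT.nd (nat_lit 78) (nat_lit 0) (nat_lit 0) (XT.lf (nat_lit 0) (nat_lit 92177970136) (nat_lit 76) (nat_lit 37918477820) (nat_lit 76) (nat_lit 35006550820) (nat_lit 3) (nat_lit 4) (nat_lit 4) (nat_lit 5) (nat_lit 4) (nat_lit 4) (nat_lit 338) (nat_lit 295) (nat_lit 267)) (XT.lf (nat_lit 0) (nat_lit 123429700456) (nat_lit 76) (nat_lit 34054768802) (nat_lit 76) (nat_lit 31135100809) (nat_lit 3) (nat_lit 4) (nat_lit 4) (nat_lit 5) (nat_lit 4) (nat_lit 4) (nat_lit 339) (nat_lit 295) (nat_lit 266))))))) (XT.nd (nat_lit 858) (nat_lit 0) (nat_lit 0) (XT.nd (nat_lit 390) (nat_lit 152) (nat_lit 0) (XT.nd (nat_lit 156) (nat_lit 0) (nat_lit 0) (XT.nd (nat_lit 78) (nat_lit 0) (nat_lit 0) (XT.lf (nat_lit 0) (nat_lit 159287372849) (nat_lit 76) (nat_lit 29654258739) (nat_lit 76) (nat_lit 26727859448) (nat_lit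 3) (nat_lit 4) (nat_lit 4) (nat_lit 5) (nat_lit 4) (nat_lit 4) (nat_lit 340) (nat_lit 295) (nat_lit 265)) (XT.lf (nat_lit 0) (nat_lit 200452550470) (nat_lit 76) (nat_lit 24630850694) (nat_lit 76) (nat_lit 21698598100) (nat_lit 3) (nat_lit 4) (nat_lit 4) (nat_lit 5) (nat_lit 4) (nat_lit 4) (nat_lit 341) (nat_lit 295) (nat_lit 264))) (XT.nd (nat_lit 78) (nat_lit 0) (nat_lit 0) (XT.lf (nat_lit 0) (nat_lit 247730638969) (nat_lit 76) (nat_lit 18886260597) (nat_lit 76) (nat_lit 15948918174) (nat_lit 3) (nat_lit 4) (nat_lit 4) (nat_lit 5) (nat_lit 4) (nat_lit 4) (nat_lit 342) (nat_lit 295) (nat_lit 263)) (XT.nd (nat_lit 78) (nat_lit 0) (nat_lit 0) (XT.lf (nat_lit 0) (nat_lit 302046644424) (nat_lit 76) (nat_lit 12308094293) (nat_lit 76) (nat_lit 9366325932) (nat_lit 3) (nat_lit 4) (nat_lit 4) (nat_lit 5) (nat_lit 4) (nat_lit 4) (nat_lit 343) (nat_lit 295) (nat_lit 262)) (XT.lf (nat_lit 0) (nat_lit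 364463271291) (nat_lit 76) (nat_lit 4767648530) (nat_lit 76) (nat_lit 1822031527) (nat_lit 3) (nat_lit 4) (nat_lit 4) (nat_lit 5) (nat_lit 4) (nat_lit 4) (nat_lit 344) (nat_lit 295) (nat_lit 261))))) (XT.nd (nat_lit 234) (nat_lit 0) (nat_lit 0) (XT.nd (nat_lit 78) (nat_lit 0) (nat_lit 0) (XT.lf (nat_lit 0) (nat_lit 6894346561) (nat_lit 152) (nat_lit 414120082047) (nat_lit 0) (nat_lit 4330030345) (nat_lit 1) (nat_lit 5) (nat_lit 3) (nat_lit 4) (nat_lit 1) (nat_lit 4) (nat_lit 345) (nat_lit 295) (nat_lit 260)) (XT.nd (nat_lit 78) (nat_lit 0) (nat_lit 0) (XT.lf (nat_lit 0) (nat_lit 17299270196) (nat_lit 152) (nat_lit 455649841782) (nat_lit 0) (nat_lit 14732423437) (nat_lit 1) (nat_lit 5) (nat_lit 3) (nat_lit 4) (nat_lit 1) (nat_lit 4) (nat_lit 346) (nat_lit 295) (nat_lit 259)) (XT.lf (nat_lit 0) (nat_lit 29247311371) (nat_lit 152) (nat_lit 503446242512) (nat_lit 0) (nat_lit 26678264138) (nat_lit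 1) (nat_lit 5) (nat_lit 3) (nat_lit 4) (nat_lit 1) (nat_lit 4) (nat_lit 347) (nat_lit 295) (nat_lit 258)))) (XT.nd (nat_lit 78) (nat_lit 0) (nat_lit 0) (XT.lf (nat_lit 0) (nat_lit 42972236107) (nat_lit 152) (nat_lit 558444431206) (nat_lit 0) (nat_lit 40401275419) (nat_lit 1) (nat_lit 5) (nat_lit 3) (nat_lit 4) (nat_lit 1) (nat_lit 4) (nat_lit 348) (nat_lit 295) (nat_lit 257)) (XT.nd (nat_lit 78) (nat_lit 0) (nat_lit 0) (XT.lf (nat_lit 0) (nat_lit 58742575542) (nat_lit 152) (nat_lit 621720459382) (nat_lit 0) (nat_lit 56169950980) (nat_lit 1) (nat_lit 5) (nat_lit 3) (nat_lit 4) (nat_lit 1) (nat_lit 4) (nat_lit 349) (nat_lit 295) (nat_lit 256)) (XT.lf (nat_lit 0) (nat_lit 76866879794) (nat_lit 152) (nat_lit 694512336288) (nat_lit 0) (nat_lit 74292808384) (nat_lit 1) (nat_lit 5) (nat_lit 3) (nat_lit 4) (nat_lit 1) (nat_lit 4) (nat_lit 350) (nat_lit 295) (nat_lit 255)))))) (XT.nd (nat_lit 468)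 (nat_lit 0) (nat_lit 0) (XT.nd (nat_lit 234) (nat_lit 0) (nat_lit 0) (XT.nd (nat_lit 78) (nat_lit 0) (nat_lit 0) (XT.lf (nat_lit 0) (nat_lit 97699754816) (nat_lit 152) (nat_lit 778244250819) (nat_lit 0) (nat_lit 95124425279) (nat_lit 1) (nat_lit 5) (nat_lit 3) (nat_lit 4) (nat_lit 1) (nat_lit 4) (nat_lit 351) (nat_lit 295) (nat_lit 254)) (XT.nd (nat_lit 78) (nat_lit 0) (nat_lit 0) (XT.lf (nat_lit 0) (nat_lit 121648800337) (nat_lit 152) (nat_lit 874554436086) (nat_lit 0) (nat_lit 119072376775) (nat_lit 1) (nat_lit 5) (nat_lit 3) (nat_lit 4) (nat_lit 1) (nat_lit 4) (nat_lit 352) (nat_lit 295) (nat_lit 253)) (XT.lf (nat_lit 0) (nat_lit 149182584638) (nat_lit 152) (nat_lit 985327221800) (nat_lit 0) (nat_lit 146605209752) (nat_lit 1) (nat_lit 5) (nat_lit 3) (nat_lit 4) (nat_lit 1) (nat_lit 4) (nat_lit 353) (nat_lit 295) (nat_lit 252)))) (XT.nd (nat_lit 78) (nat_lit 0) (nat_lit 0) (XT.lf (nat_lit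 0) (nat_lit 180839812196) (nat_lit 152) (nat_lit 1112729901595) (nat_lit 0) (nat_lit 178261610070) (nat_lit 1) (nat_lit 5) (nat_lit 3) (nat_lit 4) (nat_lit 1) (nat_lit 4) (nat_lit 354) (nat_lit 295) (nat_lit 251)) (XT.nd (nat_lit 78) (nat_lit 0) (nat_lit 0) (XT.lf (nat_lit 0) (nat_lit 217239863550) (nat_lit 152) (nat_lit 1259255136598) (nat_lit 0) (nat_lit 214660942085) (nat_lit 1) (nat_lit 5) (nat_lit 3) (nat_lit 4) (nat_lit 1) (nat_lit 4) (nat_lit 355) (nat_lit 295) (nat_lit 250)) (XT.lf (nat_lit 0) (nat_lit 259094913616) (nat_lit 152) (nat_lit 1427769724884) (nat_lit 0) (nat_lit 256515366640) (nat_lit 1) (nat_lit 5) (nat_lit 3) (nat_lit 4) (nat_lit 1) (nat_lit 4) (nat_lit 356) (nat_lit 295) (nat_lit 249))))) (XT.nd (nat_lit 234) (nat_lit 0) (nat_lit 0) (XT.nd (nat_lit 78) (nat_lit 0) (nat_lit 0) (XT.lf (nat_lit 0) (nat_lit 307223865549) (nat_lit 152) (nat_lit 1621570691008) (nat_lit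 0) (nat_lit 304643774650) (nat_lit 1) (nat_lit 5) (nat_lit 3) (nat_lit 4) (nat_lit 1) (nat_lit 4) (nat_lit 357) (nat_lit 295) (nat_lit 248)) (XT.nd (nat_lit 78) (nat_lit 0) (nat_lit 0) (XT.lf (nat_lit 0) (nat_lit 362568372757) (nat_lit 152) (nat_lit 1844449793001) (nat_lit 0) (nat_lit 359987808880) (nat_lit 1) (nat_lit 5) (nat_lit 3) (nat_lit 4) (nat_lit 1) (nat_lit 4) (nat_lit 358) (nat_lit 295) (nat_lit 247)) (XT.lf (nat_lit 0) (nat_lit 426211262553) (nat_lit 152) (nat_lit 2100767708947) (nat_lit 0) (nat_lit 423630287392) (nat_lit 1) (nat_lit 5) (nat_lit 3) (nat_lit 4) (nat_lit 1) (nat_lit 4) (nat_lit 359) (nat_lit 295) (nat_lit 246)))) (XT.nd (nat_lit 78) (nat_lit 0) (nat_lit 0) (XT.lf (nat_lit 0) (nat_lit 499397721913) (nat_lit 152) (nat_lit 2395539354591) (nat_lit 0) (nat_lit 496816389114) (nat_lit 1) (nat_lit 5) (nat_lit 3) (nat_lit 4) (nat_lit 1) (nat_lit 4) (nat_lit 360) (nat_lit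 295) (nat_lit 245)) (XT.nd (nat_lit 78) (nat_lit 0) (nat_lit 0) (XT.lf (nat_lit 0) (nat_lit 583559659823) (nat_lit 152) (nat_lit 2734532001263) (nat_lit 0) (nat_lit 580978016034) (nat_lit 1) (nat_lit 5) (nat_lit 3) (nat_lit 4) (nat_lit 1) (nat_lit 4) (nat_lit 361) (nat_lit 295) (nat_lit 244)) (XT.lf (nat_lit 0) (nat_lit 680343722896) (nat_lit 152) (nat_lit 3124378113788) (nat_lit 0) (nat_lit 677761808680) (nat_lit 1) (nat_lit 5) (nat_lit 3) (nat_lit 4) (nat_lit 1) (nat_lit 4) (nat_lit 362) (nat_lit 295) (nat_lit 243))))))))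
noncomputable def xc38 : XT := (XT.nd (nat_lit 1716) (nat_lit 0) (nat_lit 0) (XT.nd (nat_lit 858) (nat_lit 0) (nat_lit 0) (XT.nd (nat_lit 390) (nat_lit 0) (nat_lit 0) (XT.nd (nat_lit 156) (nat_lit 0) (nat_lit 0) (XT.nd (nat_lit 78) (nat_lit 0) (nat_lit 0) (XT.lf (nat_lit 0) (nat_lit 791643512364) (nat_lit 152) (nat_lit 3572705116106) (nat_lit 0) (nat_lit 789061362996) (nat_lit 1) (nat_lit 5) (nat_lit 3) (nat_lit 4) (nat_lit 1) (nat_lit 4) (nat_lit 363) (nat_lit 295) (nat_lit 242)) (XT.lf (nat_lit 0) (nat_lit 919636632806) (nat_lit 152) (nat_lit 4088284623482) (nat_lit 0) (nat_lit 917054278956) (nat_lit 1) (nat_lit 5) (nat_lit 3) (nat_lit 4) (nat_lit 1) (nat_lit 4) (nat_lit 364) (nat_lit 295) (nat_lit 241))) (XT.nd (nat_lit 78) (nat_lit 0) (nat_lit 0) (XT.lf (nat_lit 0) (nat_lit 1066827297445) (nat_lit 152) (nat_lit 4681204061058) (nat_lit 0) (nat_lit 1064244765787) (nat_lit 1) (nat_lit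 5) (nat_lit 3) (nat_lit 4) (nat_lit 1) (nat_lit 4) (nat_lit 365) (nat_lit 295) (nat_lit 240)) (XT.nd (nat_lit 78) (nat_lit 0) (nat_lit 0) (XT.lf (nat_lit 0) (nat_lit 1236095323636) (nat_lit 152) (nat_lit 5363064026526) (nat_lit 0) (nat_lit 1233512637360) (nat_lit 1) (nat_lit 5) (nat_lit 3) (nat_lit 4) (nat_lit 1) (nat_lit 4) (nat_lit 366) (nat_lit 295) (nat_lit 239)) (XT.lf (nat_lit 0) (nat_lit 1430752477106) (nat_lit 152) (nat_lit 6147205258343) (nat_lit 0) (nat_lit 1428169656381) (nat_lit 1) (nat_lit 5) (nat_lit 3) (nat_lit 4) (nat_lit 1) (nat_lit 4) (nat_lit 367) (nat_lit 295) (nat_lit 238))))) (XT.nd (nat_lit 234) (nat_lit 0) (nat_lit 0) (XT.nd (nat_lit 78) (nat_lit 0) (nat_lit 0) (XT.lf (nat_lit 0) (nat_lit 1654607267381) (nat_lit 152) (nat_lit 7048969650172) (nat_lit 0) (nat_lit 1652024329743) (nat_lit 1) (nat_lit 5) (nat_lit 3) (nat_lit 4) (nat_lit 1) (nat_lit 4) (nat_lit 368) (nat_lit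 295) (nat_lit 237)) (XT.nd (nat_lit 78) (nat_lit 0) (nat_lit 0) (XT.lf (nat_lit 0) (nat_lit 1912039462096) (nat_lit 152) (nat_lit 8086000418377) (nat_lit 0) (nat_lit 1909456422795) (nat_lit 1) (nat_lit 5) (nat_lit 3) (nat_lit 4) (nat_lit 1) (nat_lit 4) (nat_lit 369) (nat_lit 295) (nat_lit 236)) (XT.lf (nat_lit 0) (nat_lit 2208085778105) (nat_lit 152) (nat_lit 9278587295378) (nat_lit 0) (nat_lit 2205502650401) (nat_lit 1) (nat_lit 5) (nat_lit 3) (nat_lit 4) (nat_lit 1) (nat_lit 4) (nat_lit 370) (nat_lit 295) (nat_lit 235)))) (XT.nd (nat_lit 78) (nat_lit 0) (nat_lit 0) (XT.lf (nat_lit 0) (nat_lit 2548538425937) (nat_lit 152) (nat_lit 10650063502683) (nat_lit 0) (nat_lit 2545955221361) (nat_lit 1) (nat_lit 5) (nat_lit 3) (nat_lit 4) (nat_lit 1) (nat_lit 4) (nat_lit 371) (nat_lit 295) (nat_lit 234)) (XT.nd (nat_lit 78) (nat_lit 0) (nat_lit 0) (XT.lf (nat_lit 0) (nat_lit 2940058435660) (nat_lit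 152) (nat_lit 12227262270434) (nat_lit 0) (nat_lit 2937475164239) (nat_lit 1) (nat_lit 5) (nat_lit 3) (nat_lit 4) (nat_lit 1) (nat_lit 4) (nat_lit 372) (nat_lit 295) (nat_lit 233)) (XT.lf (nat_lit 0) (nat_lit 3390305981377) (nat_lit 152) (nat_lit 14041041835391) (nat_lit 0) (nat_lit 3387722651830) (nat_lit 1) (nat_lit 5) (nat_lit 3) (nat_lit 4) (nat_lit 1) (nat_lit 4) (nat_lit 373) (nat_lit 295) (nat_lit 232)))))) (XT.nd (nat_lit 390) (nat_lit 0) (nat_lit 0) (XT.nd (nat_lit 156) (nat_lit 0) (nat_lit 0) (XT.nd (nat_lit 78) (nat_lit 0) (nat_lit 0) (XT.lf (nat_lit 0) (nat_lit 3908090254199) (nat_lit 152) (nat_lit 16126889189043) (nat_lit 0) (nat_lit 3905506874107) (nat_lit 1) (nat_lit 5) (nat_lit 3) (nat_lit 4) (nat_lit 1) (nat_lit 4) (nat_lit 374) (nat_lit 295) (nat_lit 231)) (XT.lf (nat_lit 0) (nat_lit 4503541815987) (nat_lit 152) (nat_lit 18525614388309) (nat_lit 0) (nat_lit 4500958391943)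 (nat_lit 1) (nat_lit 5) (nat_lit 3) (nat_lit 4) (nat_lit 1) (nat_lit 4) (nat_lit 375) (nat_lit 295) (nat_lit 230))) (XT.nd (nat_lit 78) (nat_lit 0) (nat_lit 0) (XT.lf (nat_lit 0) (nat_lit 5188310805991) (nat_lit 152) (nat_lit 21284149013175) (nat_lit 0) (nat_lit 5185727343729) (nat_lit 1) (nat_lit 5) (nat_lit 3) (nat_lit 4) (nat_lit 1) (nat_lit 4) (nat_lit 376) (nat_lit 295) (nat_lit 229)) (XT.nd (nat_lit 78) (nat_lit 0) (nat_lit 0) (XT.lf (nat_lit 0) (nat_lit 5975794878366) (nat_lit 152) (nat_lit 24456464393257) (nat_lit 0) (nat_lit 5973211382869) (nat_lit 1) (nat_lit 5) (nat_lit 3) (nat_lit 4) (nat_lit 1) (nat_lit 4) (nat_lit 377) (nat_lit 295) (nat_lit 228)) (XT.lf (nat_lit 0) (nat_lit 6881401330178) (nat_lit 152) (nat_lit 28104627568602) (nat_lit 0) (nat_lit 6878817805782) (nat_lit 1) (nat_lit 5) (nat_lit 3) (nat_lit 4) (nat_lit 1) (nat_lit 4) (nat_lit 378) (nat_lit 295) (nat_lit 227)))))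 (XT.nd (nat_lit 234) (nat_lit 0) (nat_lit 0) (XT.nd (nat_lit 78) (nat_lit 0) (nat_lit 0) (XT.lf (nat_lit 0) (nat_lit 7922848548529) (nat_lit 152) (nat_lit 32300015644812) (nat_lit 0) (nat_lit 7920264999004) (nat_lit 1) (nat_lit 5) (nat_lit 3) (nat_lit 4) (nat_lit 1) (nat_lit 4) (nat_lit 379) (nat_lit 295) (nat_lit 226)) (XT.nd (nat_lit 78) (nat_lit 0) (nat_lit 0) (XT.lf (nat_lit 0) (nat_lit 9120512674647) (nat_lit 152) (nat_lit 37124712301641) (nat_lit 0) (nat_lit 9117929103270) (nat_lit 1) (nat_lit 5) (nat_lit 3) (nat_lit 4) (nat_lit 1) (nat_lit 4) (nat_lit 380) (nat_lit 295) (nat_lit 225)) (XT.lf (nat_lit 0) (nat_lit 10497826267521) (nat_lit 152) (nat_lit 42673113778025) (nat_lit 0) (nat_lit 10495242677143) (nat_lit 1) (nat_lit 5) (nat_lit 3) (nat_lit 4) (nat_lit 1) (nat_lit 4) (nat_lit 381) (nat_lit 295) (nat_lit 224)))) (XT.nd (nat_lit 78) (nat_lit 0) (nat_lit 0) (XT.lf (nat_lit 0)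 (nat_lit 12081736767013) (nat_lit 152) (nat_lit 49053775755026) (nat_lit 0) (nat_lit 12079153160111) (nat_lit 1) (nat_lit 5) (nat_lit 3) (nat_lit 4) (nat_lit 1) (nat_lit 4) (nat_lit 382) (nat_lit 295) (nat_lit 223)) (XT.nd (nat_lit 78) (nat_lit 0) (nat_lit 0) (XT.lf (nat_lit 0) (nat_lit 13903233726372) (nat_lit 152) (nat_lit 56391537271323) (nat_lit 0) (nat_lit 13900650105102) (nat_lit 1) (nat_lit 5) (nat_lit 3) (nat_lit 4) (nat_lit 1) (nat_lit 4) (nat_lit 383) (nat_lit 295) (nat_lit 222)) (XT.lf (nat_lit 0) (nat_lit 15997955129587) (nat_lit 152) (nat_lit 64829963226148) (nat_lit 0) (nat_lit 15995371495823) (nat_lit 1) (nat_lit 5) (nat_lit 3) (nat_lit 4) (nat_lit 1) (nat_lit 4) (nat_lit 384) (nat_lit 295) (nat_lit 221))))))) (XT.nd (nat_lit 41340) (nat_lit 0) (nat_lit 532) (XT.nd (nat_lit 40872) (nat_lit 0) (nat_lit 1292) (XT.nd (nat_lit 156) (nat_lit 0) (nat_lit 0) (XT.nd (nat_lit 78)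 (nat_lit 0) (nat_lit 0) (XT.lf (nat_lit 0) (nat_lit 18406884656285) (nat_lit 152) (nat_lit 74534153257748) (nat_lit 0) (nat_lit 18404301011657) (nat_lit 1) (nat_lit 5) (nat_lit 3) (nat_lit 4) (nat_lit 1) (nat_lit 4) (nat_lit 385) (nat_lit 295) (nat_lit 220)) (XT.lf (nat_lit 0) (nat_lit 21177153536337) (nat_lit 152) (nat_lit 85693971953698) (nat_lit 0) (nat_lit 21174569882262) (nat_lit 1) (nat_lit 5) (nat_lit 3) (nat_lit 4) (nat_lit 1) (nat_lit 4) (nat_lit 386) (nat_lit 295) (nat_lit 219))) (XT.nd (nat_lit 78) (nat_lit 0) (nat_lit 0) (XT.lf (nat_lit 0) (nat_lit 24362962682613) (nat_lit 152) (nat_lit 98527763592831) (nat_lit 0) (nat_lit 24360379020323) (nat_lit 1) (nat_lit 5) (nat_lit 3) (nat_lit 4) (nat_lit 1) (nat_lit 4) (nat_lit 387) (nat_lit 295) (nat_lit 218)) (XT.nd (nat_lit 78) (nat_lit 0) (nat_lit 0) (XT.lf (nat_lit 0) (nat_lit 28026643143628) (nat_lit 152) (nat_lit 113286624098522)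 (nat_lit 0) (nat_lit 28024059474195) (nat_lit 1) (nat_lit 5) (nat_lit 3) (nat_lit 4) (nat_lit 1) (nat_lit 4) (nat_lit 388) (nat_lit 295) (nat_lit 217)) (XT.lf (nat_lit 0) (nat_lit 32239875624053) (nat_lit 152) (nat_lit 130259313785012) (nat_lit 0) (nat_lit 32237291948408) (nat_lit 1) (nat_lit 5) (nat_lit 3) (nat_lit 4) (nat_lit 1) (nat_lit 4) (nat_lit 389) (nat_lit 295) (nat_lit 216))))) (XT.nd (nat_lit 234) (nat_lit 380) (nat_lit 0) (XT.nd (nat_lit 78) (nat_lit 152) (nat_lit 0) (XT.lf (nat_lit 0) (nat_lit 1380220063) (nat_lit 152) (nat_lit 1308511840) (nat_lit 152) (nat_lit 1308511840) (nat_lit 25) (nat_lit 4) (nat_lit 27) (nat_lit 5) (nat_lit 27) (nat_lit 4) (nat_lit 308) (nat_lit 296) (nat_lit 296)) (XT.nd (nat_lit 78) (nat_lit 0) (nat_lit 0) (XT.lf (nat_lit 0) (nat_lit 1155493600) (nat_lit 152) (nat_lit 7162577056) (nat_lit 0) (nat_lit 124582790) (nat_lit 23) (nat_lit 5) (nat_lit 25)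 (nat_lit 4) (nat_lit 23) (nat_lit 4) (nat_lit 309) (nat_lit 296) (nat_lit 295)) (XT.lf (nat_lit 0) (nat_lit 5170326078) (nat_lit 152) (nat_lit 535018602) (nat_lit 0) (nat_lit 3242971085) (nat_lit 23) (nat_lit 5) (nat_lit 25) (nat_lit 4) (nat_lit 23) (nat_lit 4) (nat_lit 310) (nat_lit 296) (nat_lit 294)))) (XT.nd (nat_lit 78) (nat_lit 152) (nat_lit 0) (XT.lf (nat_lit 0) (nat_lit 116665855) (nat_lit 228) (nat_lit 2456040083) (nat_lit 76) (nat_lit 6973684789) (nat_lit 20) (nat_lit 5) (nat_lit 23) (nat_lit 5) (nat_lit 21) (nat_lit 4) (nat_lit 311) (nat_lit 296) (nat_lit 293)) (XT.nd (nat_lit 78) (nat_lit 76) (nat_lit 0) (XT.lf (nat_lit 0) (nat_lit 4116975949) (nat_lit 152) (nat_lit 4930637643) (nat_lit 0) (nat_lit 1173747893) (nat_lit 19) (nat_lit 5) (nat_lit 21) (nat_lit 4) (nat_lit 19) (nat_lit 4) (nat_lit 312) (nat_lit 296) (nat_lit 292)) (XT.lf (nat_lit 0) (nat_lit 2984138777) (nat_lit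 76) (nat_lit 5734672391) (nat_lit 76) (nat_lit 2278899464) (nat_lit 18) (nat_lit 4) (nat_lit 19) (nat_lit 5) (nat_lit 19) (nat_lit 4) (nat_lit 313) (nat_lit 296) (nat_lit 291)))))) (XT.nd (nat_lit 390) (nat_lit 380) (nat_lit 0) (XT.nd (nat_lit 156) (nat_lit 228) (nat_lit 0) (XT.nd (nat_lit 78) (nat_lit 0) (nat_lit 0) (XT.lf (nat_lit 0) (nat_lit 34141816) (nat_lit 76) (nat_lit 1796372572) (nat_lit 152) (nat_lit 10062263863) (nat_lit 16) (nat_lit 5) (nat_lit 17) (nat_lit 5) (nat_lit 18) (nat_lit 4) (nat_lit 314) (nat_lit 296) (nat_lit 290)) (XT.lf (nat_lit 0) (nat_lit 6513597785) (nat_lit 152) (nat_lit 3579863787) (nat_lit 0) (nat_lit 2784013717) (nat_lit 16) (nat_lit 5) (nat_lit 18) (nat_lit 4) (nat_lit 16) (nat_lit 4) (nat_lit 315) (nat_lit 296) (nat_lit 289))) (XT.nd (nat_lit 78) (nat_lit 152) (nat_lit 0) (XT.lf (nat_lit 0) (nat_lit 5789185346) (nat_lit 76) (nat_lit 6120940127) (nat_lit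 76) (nat_lit 2098306866) (nat_lit 15) (nat_lit 4) (nat_lit 16) (nat_lit 5) (nat_lit 16) (nat_lit 4) (nat_lit 316) (nat_lit 296) (nat_lit 288)) (XT.nd (nat_lit 78) (nat_lit 0) (nat_lit 0) (XT.lf (nat_lit 0) (nat_lit 1069564086) (nat_lit 76) (nat_lit 1417423231) (nat_lit 152) (nat_lit 12815294217) (nat_lit 13) (nat_lit 5) (nat_lit 14) (nat_lit 5) (nat_lit 15) (nat_lit 4) (nat_lit 317) (nat_lit 296) (nat_lit 287)) (XT.lf (nat_lit 0) (nat_lit 7856463969) (nat_lit 152) (nat_lit 4927957170) (nat_lit 0) (nat_lit 3944250109) (nat_lit 13) (nat_lit 5) (nat_lit 15) (nat_lit 4) (nat_lit 13) (nat_lit 4) (nat_lit 318) (nat_lit 296) (nat_lit 286))))) (XT.nd (nat_lit 234) (nat_lit 152) (nat_lit 0) (XT.nd (nat_lit 78) (nat_lit 152) (nat_lit 0) (XT.lf (nat_lit 0) (nat_lit 5697503744) (nat_lit 76) (nat_lit 8372779547) (nat_lit 76) (nat_lit 4293013860) (nat_lit 12) (nat_lit 4) (nat_lit 13) (nat_lit 5) (nat_lit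 13) (nat_lit 4) (nat_lit 319) (nat_lit 296) (nat_lit 285)) (XT.nd (nat_lit 78) (nat_lit 76) (nat_lit 0) (XT.lf (nat_lit 0) (nat_lit 893938716) (nat_lit 152) (nat_lit 2303494687) (nat_lit 76) (nat_lit 17038601056) (nat_lit 11) (nat_lit 5) (nat_lit 13) (nat_lit 5) (nat_lit 12) (nat_lit 4) (nat_lit 320) (nat_lit 296) (nat_lit 284)) (XT.lf (nat_lit 0) (nat_lit 6732508220) (nat_lit 152) (nat_lit 12631596854) (nat_lit 0) (nat_lit 2948024583) (nat_lit 10) (nat_lit 5) (nat_lit 12) (nat_lit 4) (nat_lit 10) (nat_lit 4) (nat_lit 321) (nat_lit 296) (nat_lit 283)))) (XT.nd (nat_lit 78) (nat_lit 152) (nat_lit 0) (XT.lf (nat_lit 0) (nat_lit 13500293238) (nat_lit 152) (nat_lit 1571386354) (nat_lit 0) (nat_lit 9620011301) (nat_lit 10) (nat_lit 5) (nat_lit 12) (nat_lit 4) (nat_lit 10) (nat_lit 4) (nat_lit 322) (nat_lit 296) (nat_lit 282)) (XT.nd (nat_lit 78) (nat_lit 76) (nat_lit 0) (XT.lf (nat_lit 0) (nat_lit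 11805027911) (nat_lit 76) (nat_lit 9771410955) (nat_lit 76) (nat_lit 5807826147) (nat_lit 9) (nat_lit 4) (nat_lit 10) (nat_lit 5) (nat_lit 10) (nat_lit 4) (nat_lit 323) (nat_lit 296) (nat_lit 281)) (XT.lf (nat_lit 0) (nat_lit 240647084) (nat_lit 152) (nat_lit 3518630855) (nat_lit 76) (nat_lit 26735387008) (nat_lit 8) (nat_lit 5) (nat_lit 10) (nat_lit 5) (nat_lit 9) (nat_lit 4) (nat_lit 324) (nat_lit 296) (nat_lit 280))))))))
noncomputable def xc39 : XT := (XT.nd (nat_lit 1716) (nat_lit 0) (nat_lit 0) (XT.nd (nat_lit 858) (nat_lit 152) (nat_lit 0) (XT.nd (nat_lit 390) (nat_lit 228) (nat_lit 0) (XT.nd (nat_lit 156) (nat_lit 76) (nat_lit 0) (XT.nd (nat_lit 78) (nat_lit 0) (nat_lit 0) (XT.lf (nat_lit 0) (nat_lit 7032561520) (nat_lit 152) (nat_lit 23464795514) (nat_lit 0) (nat_lit 3468204107) (nat_lit 7) (nat_lit 5) (nat_lit 9) (nat_lit 4) (nat_lit 7) (nat_lit 4) (nat_lit 325) (nat_lit 296)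 (nat_lit 279)) (XT.lf (nat_lit 0) (nat_lit 15047349986) (nat_lit 152) (nat_lit 11443797811) (nat_lit 0) (nat_lit 11435363887) (nat_lit 7) (nat_lit 5) (nat_lit 9) (nat_lit 4) (nat_lit 7) (nat_lit 4) (nat_lit 326) (nat_lit 296) (nat_lit 278))) (XT.nd (nat_lit 78) (nat_lit 0) (nat_lit 0) (XT.lf (nat_lit 0) (nat_lit 2283617022) (nat_lit 76) (nat_lit 21929548716) (nat_lit 76) (nat_lit 18276146367) (nat_lit 6) (nat_lit 4) (nat_lit 7) (nat_lit 5) (nat_lit 7) (nat_lit 4) (nat_lit 327) (nat_lit 296) (nat_lit 277)) (XT.nd (nat_lit 78) (nat_lit 0) (nat_lit 0) (XT.lf (nat_lit 0) (nat_lit 19069872995) (nat_lit 76) (nat_lit 16143580519) (nat_lit 76) (nat_lit 12454164040) (nat_lit 6) (nat_lit 4) (nat_lit 7) (nat_lit 5) (nat_lit 7) (nat_lit 4) (nat_lit 328) (nat_lit 296) (nat_lit 276)) (XT.lf (nat_lit 0) (nat_lit 38125025705) (nat_lit 76) (nat_lit 9618238003) (nat_lit 76) (nat_lit 5897504890) (nat_lit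 6) (nat_lit 4) (nat_lit 7) (nat_lit 5) (nat_lit 7) (nat_lit 4) (nat_lit 329) (nat_lit 296) (nat_lit 275))))) (XT.nd (nat_lit 234) (nat_lit 76) (nat_lit 0) (XT.nd (nat_lit 78) (nat_lit 76) (nat_lit 0) (XT.lf (nat_lit 0) (nat_lit 1386604471) (nat_lit 152) (nat_lit 766765355) (nat_lit 76) (nat_lit 58362807287) (nat_lit 5) (nat_lit 5) (nat_lit 7) (nat_lit 5) (nat_lit 6) (nat_lit 4) (nat_lit 330) (nat_lit 296) (nat_lit 274)) (XT.nd (nat_lit 78) (nat_lit 0) (nat_lit 0) (XT.lf (nat_lit 0) (nat_lit 10087882556) (nat_lit 152) (nat_lit 51345460498) (nat_lit 0) (nat_lit 6808191387) (nat_lit 4) (nat_lit 5) (nat_lit 6) (nat_lit 4) (nat_lit 4) (nat_lit 4) (nat_lit 331) (nat_lit 296) (nat_lit 273)) (XT.lf (nat_lit 0) (nat_lit 20143989008) (nat_lit 152) (nat_lit 40127880798) (nat_lit 0) (nat_lit 16846392452) (nat_lit 4) (nat_lit 5) (nat_lit 6) (nat_lit 4) (nat_lit 4) (nat_lit 4) (nat_lit 332) (nat_lit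 296) (nat_lit 272)))) (XT.nd (nat_lit 78) (nat_lit 76) (nat_lit 0) (XT.lf (nat_lit 0) (nat_lit 31625994647) (nat_lit 152) (nat_lit 27400064700) (nat_lit 0) (nat_lit 28312828188) (nat_lit 4) (nat_lit 5) (nat_lit 6) (nat_lit 4) (nat_lit 4) (nat_lit 4) (nat_lit 333) (nat_lit 296) (nat_lit 271)) (XT.nd (nat_lit 78) (nat_lit 76) (nat_lit 0) (XT.lf (nat_lit 0) (nat_lit 44758547409) (nat_lit 152) (nat_lit 12912989713) (nat_lit 0) (nat_lit 41431841905) (nat_lit 4) (nat_lit 5) (nat_lit 6) (nat_lit 4) (nat_lit 4) (nat_lit 4) (nat_lit 334) (nat_lit 296) (nat_lit 270)) (XT.lf (nat_lit 0) (nat_lit 3970245655) (nat_lit 76) (nat_lit 55992742295) (nat_lit 76) (nat_lit 52654263709) (nat_lit 3) (nat_lit 4) (nat_lit 4) (nat_lit 5) (nat_lit 4) (nat_lit 4) (nat_lit 335) (nat_lit 296) (nat_lit 269)))))) (XT.nd (nat_lit 390) (nat_lit 152) (nat_lit 0) (XT.nd (nat_lit 156) (nat_lit 0) (nat_lit 0) (XT.nd (nat_lit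 78) (nat_lit 0) (nat_lit 0) (XT.lf (nat_lit 0) (nat_lit 24712776134) (nat_lit 76) (nat_lit 53350906953) (nat_lit 76) (nat_lit 50002190903) (nat_lit 3) (nat_lit 4) (nat_lit 4) (nat_lit 5) (nat_lit 4) (nat_lit 4) (nat_lit 336) (nat_lit 296) (nat_lit 268)) (XT.lf (nat_lit 0) (nat_lit 48458482574) (nat_lit 76) (nat_lit 50369340202) (nat_lit 76) (nat_lit 47011722010) (nat_lit 3) (nat_lit 4) (nat_lit 4) (nat_lit 5) (nat_lit 4) (nat_lit 4) (nat_lit 337) (nat_lit 296) (nat_lit 267))) (XT.nd (nat_lit 78) (nat_lit 0) (nat_lit 0) (XT.lf (nat_lit 0) (nat_lit 75671954884) (nat_lit 76) (nat_lit 46989707042) (nat_lit 76) (nat_lit 43624347856) (nat_lit 3) (nat_lit 4) (nat_lit 4) (nat_lit 5) (nat_lit 4) (nat_lit 4) (nat_lit 338) (nat_lit 296) (nat_lit 266)) (XT.nd (nat_lit 78) (nat_lit 0) (nat_lit 0) (XT.lf (nat_lit 0) (nat_lit 106885630564) (nat_lit 76) (nat_lit 43145884214) (nat_lit 76) (nat_lit 39773793730)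 (nat_lit 3) (nat_lit 4) (nat_lit 4) (nat_lit 5) (nat_lit 4) (nat_lit 4) (nat_lit 339) (nat_lit 296) (nat_lit 265)) (XT.lf (nat_lit 0) (nat_lit 142710211966) (nat_lit 76) (nat_lit 38762666489) (nat_lit 76) (nat_lit 35384722702) (nat_lit 3) (nat_lit 4) (nat_lit 4) (nat_lit 5) (nat_lit 4) (nat_lit 4) (nat_lit 340) (nat_lit 296) (nat_lit 264))))) (XT.nd (nat_lit 234) (nat_lit 152) (nat_lit 0) (XT.nd (nat_lit 78) (nat_lit 0) (nat_lit 0) (XT.lf (nat_lit 0) (nat_lit 183846614813) (nat_lit 76) (nat_lit 33754295260) (nat_lit 76) (nat_lit 30371261645) (nat_lit 3) (nat_lit 4) (nat_lit 4) (nat_lit 5) (nat_lit 4) (nat_lit 4) (nat_lit 341) (nat_lit 296) (nat_lit 263)) (XT.nd (nat_lit 78) (nat_lit 0) (nat_lit 0) (XT.lf (nat_lit 0) (nat_lit 231099681768) (nat_lit 76) (nat_lit 28022780655) (nat_lit 76) (nat_lit 24635321102) (nat_lit 3) (nat_lit 4) (nat_lit 4) (nat_lit 5) (nat_lit 4) (nat_lit 4) (nat_lit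 342) (nat_lit 296) (nat_lit 262)) (XT.lf (nat_lit 0) (nat_lit 285393929360) (nat_lit 76) (nat_lit 21455984344) (nat_lit 76) (nat_lit 18064676149) (nat_lit 3) (nat_lit 4) (nat_lit 4) (nat_lit 5) (nat_lit 4) (nat_lit 4) (nat_lit 343) (nat_lit 296) (nat_lit 261)))) (XT.nd (nat_lit 78) (nat_lit 152) (nat_lit 0) (XT.lf (nat_lit 0) (nat_lit 347791636345) (nat_lit 76) (nat_lit 13925425531) (nat_lit 76) (nat_lit 10530770691) (nat_lit 3) (nat_lit 4) (nat_lit 4) (nat_lit 5) (nat_lit 4) (nat_lit 4) (nat_lit 344) (nat_lit 296) (nat_lit 260)) (XT.nd (nat_lit 78) (nat_lit 152) (nat_lit 0) (XT.lf (nat_lit 0) (nat_lit 419513627426) (nat_lit 76) (nat_lit 5283767195) (nat_lit 76) (nat_lit 1886202229) (nat_lit 3) (nat_lit 4) (nat_lit 4) (nat_lit 5) (nat_lit 4) (nat_lit 4) (nat_lit 345) (nat_lit 296) (nat_lit 259)) (XT.lf (nat_lit 0) (nat_lit 8118231707) (nat_lit 152) (nat_lit 475837792808) (nat_lit 0) (nat_lit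 5161626916) (nat_lit 1) (nat_lit 5) (nat_lit 3) (nat_lit 4) (nat_lit 1) (nat_lit 4) (nat_lit 346) (nat_lit 296) (nat_lit 258))))))) (XT.nd (nat_lit 858) (nat_lit 0) (nat_lit 0) (XT.nd (nat_lit 390) (nat_lit 0) (nat_lit 0) (XT.nd (nat_lit 156) (nat_lit 0) (nat_lit 0) (XT.nd (nat_lit 78) (nat_lit 0) (nat_lit 0) (XT.lf (nat_lit 0) (nat_lit 20059146084) (nat_lit 152) (nat_lit 523649229749) (nat_lit 0) (nat_lit 17100627838) (nat_lit 1) (nat_lit 5) (nat_lit 3) (nat_lit 4) (nat_lit 1) (nat_lit 4) (nat_lit 347) (nat_lit 296) (nat_lit 257)) (XT.lf (nat_lit 0) (nat_lit 33777873606) (nat_lit 152) (nat_lit 578660493410) (nat_lit 0) (nat_lit 30817691485) (nat_lit 1) (nat_lit 5) (nat_lit 3) (nat_lit 4) (nat_lit 1) (nat_lit 4) (nat_lit 348) (nat_lit 296) (nat_lit 256))) (XT.nd (nat_lit 78) (nat_lit 0) (nat_lit 0) (XT.lf (nat_lit 0) (nat_lit 49542824157) (nat_lit 152) (nat_lit 641947891123) (nat_lit 0)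 (nat_lit 46581195190) (nat_lit 1) (nat_lit 5) (nat_lit 3) (nat_lit 4) (nat_lit 1) (nat_lit 4) (nat_lit 349) (nat_lit 296) (nat_lit 255)) (XT.nd (nat_lit 78) (nat_lit 0) (nat_lit 0) (XT.lf (nat_lit 0) (nat_lit 67662442424) (nat_lit 152) (nat_lit 714749654581) (nat_lit 0) (nat_lit 64699555329) (nat_lit 1) (nat_lit 5) (nat_lit 3) (nat_lit 4) (nat_lit 1) (nat_lit 4) (nat_lit 350) (nat_lit 296) (nat_lit 254)) (XT.lf (nat_lit 0) (nat_lit 88491242677) (nat_lit 152) (nat_lit 798490166115) (nat_lit 0) (nat_lit 85527261557) (nat_lit 1) (nat_lit 5) (nat_lit 3) (nat_lit 4) (nat_lit 1) (nat_lit 4) (nat_lit 351) (nat_lit 296) (nat_lit 253))))) (XT.nd (nat_lit 234) (nat_lit 0) (nat_lit 0) (XT.nd (nat_lit 78) (nat_lit 0) (nat_lit 0) (XT.lf (nat_lit 0) (nat_lit 112436744920) (nat_lit 152) (nat_lit 894807827037) (nat_lit 0) (nat_lit 109471812475) (nat_lit 1) (nat_lit 5) (nat_lit 3) (nat_lit 4) (nat_lit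 1) (nat_lit 4) (nat_lit 352) (nat_lit 296) (nat_lit 252)) (XT.nd (nat_lit 78) (nat_lit 0) (nat_lit 0) (XT.lf (nat_lit 0) (nat_lit 139967448111) (nat_lit 152) (nat_lit 1005587113320) (nat_lit 0) (nat_lit 137001688426) (nat_lit 1) (nat_lit 5) (nat_lit 3) (nat_lit 4) (nat_lit 1) (nat_lit 4) (nat_lit 353) (nat_lit 296) (nat_lit 251)) (XT.lf (nat_lit 0) (nat_lit 171621996441) (nat_lit 152) (nat_lit 1132995445785) (nat_lit 0) (nat_lit 168655517418) (nat_lit 1) (nat_lit 5) (nat_lit 3) (nat_lit 4) (nat_lit 1) (nat_lit 4) (nat_lit 354) (nat_lit 296) (nat_lit 250)))) (XT.nd (nat_lit 78) (nat_lit 0) (nat_lit 0) (XT.lf (nat_lit 0) (nat_lit 208019718032) (nat_lit 152) (nat_lit 1279525596152) (nat_lit 0) (nat_lit 205052613497) (nat_lit 1) (nat_lit 5) (nat_lit 3) (nat_lit 4) (nat_lit 1) (nat_lit 4) (nat_lit 355) (nat_lit 296) (nat_lit 249)) (XT.nd (nat_lit 78) (nat_lit 0) (nat_lit 0) (XT.lf (nat_lit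 0) (nat_lit 249872742218) (nat_lit 152) (nat_lit 1448044458668) (nat_lit 0) (nat_lit 246905093760) (nat_lit 1) (nat_lit 5) (nat_lit 3) (nat_lit 4) (nat_lit 1) (nat_lit 4) (nat_lit 356) (nat_lit 296) (nat_lit 248)) (XT.lf (nat_lit 0) (nat_lit 297999932516) (nat_lit 152) (nat_lit 1641849141513) (nat_lit 0) (nat_lit 295031811081) (nat_lit 1) (nat_lit 5) (nat_lit 3) (nat_lit 4) (nat_lit 1) (nat_lit 4) (nat_lit 357) (nat_lit 296) (nat_lit 247)))))) (XT.nd (nat_lit 468) (nat_lit 0) (nat_lit 0) (XT.nd (nat_lit 234) (nat_lit 0) (nat_lit 0) (XT.nd (nat_lit 78) (nat_lit 0) (nat_lit 0) (XT.lf (nat_lit 0) (nat_lit 353342907867) (nat_lit 152) (nat_lit 1864731475438) (nat_lit 0) (nat_lit 350374375147) (nat_lit 1) (nat_lit 5) (nat_lit 3) (nat_lit 4) (nat_lit 1) (nat_lit 4) (nat_lit 358) (nat_lit 296) (nat_lit 246)) (XT.nd (nat_lit 78) (nat_lit 0) (nat_lit 0) (XT.lf (nat_lit 0) (nat_lit 416984465614)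 (nat_lit 152) (nat_lit 2121052201759) (nat_lit 0) (nat_lit 414015575256) (nat_lit 1) (nat_lit 5) (nat_lit 3) (nat_lit 4) (nat_lit 1) (nat_lit 4) (nat_lit 359) (nat_lit 296) (nat_lit 245)) (XT.lf (nat_lit 0) (nat_lit 490169766669) (nat_lit 152) (nat_lit 2415826291208) (nat_lit 0) (nat_lit 487200565322) (nat_lit 1) (nat_lit 5) (nat_lit 3) (nat_lit 4) (nat_lit 1) (nat_lit 4) (nat_lit 360) (nat_lit 296) (nat_lit 244)))) (XT.nd (nat_lit 78) (nat_lit 0) (nat_lit 0) (XT.lf (nat_lit 0) (nat_lit 574330697359) (nat_lit 152) (nat_lit 2754821062928) (nat_lit 0) (nat_lit 571361225586) (nat_lit 1) (nat_lit 5) (nat_lit 3) (nat_lit 4) (nat_lit 1) (nat_lit 4) (nat_lit 361) (nat_lit 296) (nat_lit 243)) (XT.nd (nat_lit 78) (nat_lit 0) (nat_lit 0) (XT.lf (nat_lit 0) (nat_lit 671113884588) (nat_lit 152) (nat_lit 3144669023320) (nat_lit 0) (nat_lit 668144177661) (nat_lit 1) (nat_lit 5) (nat_lit 3) (nat_lit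 4) (nat_lit 1) (nat_lit 4) (nat_lit 362) (nat_lit 296) (nat_lit 242)) (XT.lf (nat_lit 0) (nat_lit 782412912453) (nat_lit 152) (nat_lit 3592997632480) (nat_lit 0) (nat_lit 779443001045) (nat_lit 1) (nat_lit 5) (nat_lit 3) (nat_lit 4) (nat_lit 1) (nat_lit 4) (nat_lit 363) (nat_lit 296) (nat_lit 241))))) (XT.nd (nat_lit 234) (nat_lit 0) (nat_lit 0) (XT.nd (nat_lit 78) (nat_lit 0) (nat_lit 0) (XT.lf (nat_lit 0) (nat_lit 910405370630) (nat_lit 152) (nat_lit 4108578537108) (nat_lit 0) (nat_lit 907435281413) (nat_lit 1) (nat_lit 5) (nat_lit 3) (nat_lit 4) (nat_lit 1) (nat_lit 4) (nat_lit 364) (nat_lit 296) (nat_lit 240)) (XT.nd (nat_lit 78) (nat_lit 0) (nat_lit 0) (XT.lf (nat_lit 0) (nat_lit 1057595459388) (nat_lit 152) (nat_lit 4701499189687) (nat_lit 0) (nat_lit 1054625215554) (nat_lit 1) (nat_lit 5) (nat_lit 3) (nat_lit 4) (nat_lit 1) (nat_lit 4) (nat_lit 365) (nat_lit 296) (nat_lit 239))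 (XT.lf (nat_lit 0) (nat_lit 1226862984811) (nat_lit 152) (nat_lit 5383360211680) (nat_lit 0) (nat_lit 1223892606528) (nat_lit 1) (nat_lit 5) (nat_lit 3) (nat_lit 4) (nat_lit 1) (nat_lit 4) (nat_lit 366) (nat_lit 296) (nat_lit 238)))) (XT.nd (nat_lit 78) (nat_lit 0) (nat_lit 0) (XT.lf (nat_lit 0) (nat_lit 1421519702832) (nat_lit 152) (nat_lit 6167502362213) (nat_lit 0) (nat_lit 1418549207636) (nat_lit 1) (nat_lit 5) (nat_lit 3) (nat_lit 4) (nat_lit 1) (nat_lit 4) (nat_lit 367) (nat_lit 296) (nat_lit 237)) (XT.nd (nat_lit 78) (nat_lit 0) (nat_lit 0) (XT.lf (nat_lit 0) (nat_lit 1645374114456) (nat_lit 152) (nat_lit 7069267552927) (nat_lit 0) (nat_lit 1642403517596) (nat_lit 1) (nat_lit 5) (nat_lit 3) (nat_lit 4) (nat_lit 1) (nat_lit 4) (nat_lit 368) (nat_lit 296) (nat_lit 236)) (XT.lf (nat_lit 0) (nat_lit 1902805979909) (nat_lit 152) (nat_lit 8106299015813) (nat_lit 0) (nat_lit 1899835294646)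 (nat_lit 1) (nat_lit 5) (nat_lit 3) (nat_lit 4) (nat_lit 1) (nat_lit 4) (nat_lit 369) (nat_lit 296) (nat_lit 235))))))))
noncomputable def xc40 : XT := (XT.nd (nat_lit 41964) (nat_lit 0) (nat_lit 380) (XT.nd (nat_lit 858) (nat_lit 0) (nat_lit 0) (XT.nd (nat_lit 390) (nat_lit 0) (nat_lit 0) (XT.nd (nat_lit 156) (nat_lit 0) (nat_lit 0) (XT.nd (nat_lit 78) (nat_lit 0) (nat_lit 0) (XT.lf (nat_lit 0) (nat_lit 2198852009602) (nat_lit 152) (nat_lit 9298886496886) (nat_lit 0) (nat_lit 2195881247468) (nat_lit 1) (nat_lit 5) (nat_lit 3) (nat_lit 4) (nat_lit 1) (nat_lit 4) (nat_lit 370) (nat_lit 296) (nat_lit 234)) (XT.lf (nat_lit 0) (nat_lit 2539304408465) (nat_lit 152) (nat_lit 10670363229470) (nat_lit 0) (nat_lit 2536333579486) (nat_lit 1) (nat_lit 5) (nat_lit 3) (nat_lit 4) (nat_lit 1) (nat_lit 4) (nat_lit 371) (nat_lit 296) (nat_lit 233))) (XT.nd (nat_lit 78) (nat_lit 0) (nat_lit 0) (XT.lf (nat_lit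 0) (nat_lit 2930824201693) (nat_lit 152) (nat_lit 12247562453985) (nat_lit 0) (nat_lit 2927853314588) (nat_lit 1) (nat_lit 5) (nat_lit 3) (nat_lit 4) (nat_lit 1) (nat_lit 4) (nat_lit 372) (nat_lit 296) (nat_lit 232)) (XT.nd (nat_lit 78) (nat_lit 0) (nat_lit 0) (XT.lf (nat_lit 0) (nat_lit 3381071559153) (nat_lit 152) (nat_lit 14061342416129) (nat_lit 0) (nat_lit 3378100621503) (nat_lit 1) (nat_lit 5) (nat_lit 3) (nat_lit 4) (nat_lit 1) (nat_lit 4) (nat_lit 373) (nat_lit 296) (nat_lit 231)) (XT.lf (nat_lit 0) (nat_lit 3898855668274) (nat_lit 152) (nat_lit 16147190115161) (nat_lit 0) (nat_lit 3895884686672) (nat_lit 1) (nat_lit 5) (nat_lit 3) (nat_lit 4) (nat_lit 1) (nat_lit 4) (nat_lit 374) (nat_lit 296) (nat_lit 230))))) (XT.nd (nat_lit 234) (nat_lit 0) (nat_lit 0) (XT.nd (nat_lit 78) (nat_lit 0) (nat_lit 0) (XT.lf (nat_lit 0) (nat_lit 4494307087712) (nat_lit 152) (nat_lit 18545915614757)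 (nat_lit 0) (nat_lit 4491336067891) (nat_lit 1) (nat_lit 5) (nat_lit 3) (nat_lit 4) (nat_lit 1) (nat_lit 4) (nat_lit 375) (nat_lit 296) (nat_lit 229)) (XT.nd (nat_lit 78) (nat_lit 0) (nat_lit 0) (XT.lf (nat_lit 0) (nat_lit 5179075953935) (nat_lit 152) (nat_lit 21304450500780) (nat_lit 0) (nat_lit 5176104900880) (nat_lit 1) (nat_lit 5) (nat_lit 3) (nat_lit 4) (nat_lit 1) (nat_lit 4) (nat_lit 376) (nat_lit 296) (nat_lit 228)) (XT.lf (nat_lit 0) (nat_lit 5966559918673) (nat_lit 152) (nat_lit 24476766107955) (nat_lit 0) (nat_lit 5963588836719) (nat_lit 1) (nat_lit 5) (nat_lit 3) (nat_lit 4) (nat_lit 1) (nat_lit 4) (nat_lit 377) (nat_lit 296) (nat_lit 227)))) (XT.nd (nat_lit 78) (nat_lit 0) (nat_lit 0) (XT.lf (nat_lit 0) (nat_lit 6872166276888) (nat_lit 152) (nat_lit 28124929480771) (nat_lit 0) (nat_lit 6869195169805) (nat_lit 1) (nat_lit 5) (nat_lit 3) (nat_lit 4) (nat_lit 1) (nat_lit 4) (nat_lit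 378) (nat_lit 296) (nat_lit 226)) (XT.nd (nat_lit 78) (nat_lit 0) (nat_lit 0) (XT.lf (nat_lit 0) (nat_lit 7913613413851) (nat_lit 152) (nat_lit 32320317728696) (nat_lit 0) (nat_lit 7910642284915) (nat_lit 1) (nat_lit 5) (nat_lit 3) (nat_lit 4) (nat_lit 1) (nat_lit 4) (nat_lit 379) (nat_lit 296) (nat_lit 225)) (XT.lf (nat_lit 0) (nat_lit 9111277469196) (nat_lit 152) (nat_lit 37145014534842) (nat_lit 0) (nat_lit 9108306321259) (nat_lit 1) (nat_lit 5) (nat_lit 3) (nat_lit 4) (nat_lit 1) (nat_lit 4) (nat_lit 380) (nat_lit 296) (nat_lit 224)))))) (XT.nd (nat_lit 390) (nat_lit 0) (nat_lit 0) (XT.nd (nat_lit 156) (nat_lit 0) (nat_lit 0) (XT.nd (nat_lit 78) (nat_lit 0) (nat_lit 0) (XT.lf (nat_lit 0) (nat_lit 10488591000529) (nat_lit 152) (nat_lit 42693416141068) (nat_lit 0) (nat_lit 10485619836069) (nat_lit 1) (nat_lit 5) (nat_lit 3) (nat_lit 4) (nat_lit 1) (nat_lit 4) (nat_lit 381) (nat_lit 296)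 (nat_lit 223)) (XT.lf (nat_lit 0) (nat_lit 12072501446506) (nat_lit 152) (nat_lit 49074078230974) (nat_lit 0) (nat_lit 12069530267678) (nat_lit 1) (nat_lit 5) (nat_lit 3) (nat_lit 4) (nat_lit 1) (nat_lit 4) (nat_lit 382) (nat_lit 296) (nat_lit 222))) (XT.nd (nat_lit 78) (nat_lit 0) (nat_lit 0) (XT.lf (nat_lit 0) (nat_lit 13893998359331) (nat_lit 152) (nat_lit 56411839845449) (nat_lit 0) (nat_lit 13891027168009) (nat_lit 1) (nat_lit 5) (nat_lit 3) (nat_lit 4) (nat_lit 1) (nat_lit 4) (nat_lit 383) (nat_lit 296) (nat_lit 221)) (XT.nd (nat_lit 78) (nat_lit 0) (nat_lit 0) (XT.lf (nat_lit 0) (nat_lit 15988719722081) (nat_lit 152) (nat_lit 64850265885647) (nat_lit 0) (nat_lit 15985748519895) (nat_lit 1) (nat_lit 5) (nat_lit 3) (nat_lit 4) (nat_lit 1) (nat_lit 4) (nat_lit 384) (nat_lit 296) (nat_lit 220)) (XT.lf (nat_lit 0) (nat_lit 18397649213593) (nat_lit 152) (nat_lit 74554455991484) (nat_lit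 0) (nat_lit 18394678001960) (nat_lit 1) (nat_lit 5) (nat_lit 3) (nat_lit 4) (nat_lit 1) (nat_lit 4) (nat_lit 385) (nat_lit 296) (nat_lit 219))))) (XT.nd (nat_lit 234) (nat_lit 0) (nat_lit 0) (XT.nd (nat_lit 78) (nat_lit 0) (nat_lit 0) (XT.lf (nat_lit 0) (nat_lit 21167918063048) (nat_lit 152) (nat_lit 85714274751987) (nat_lit 0) (nat_lit 21164946843200) (nat_lit 1) (nat_lit 5) (nat_lit 3) (nat_lit 4) (nat_lit 1) (nat_lit 4) (nat_lit 386) (nat_lit 296) (nat_lit 218)) (XT.nd (nat_lit 78) (nat_lit 0) (nat_lit 0) (XT.lf (nat_lit 0) (nat_lit 24353727182718) (nat_lit 152) (nat_lit 98548066447254) (nat_lit 0) (nat_lit 24350755955727) (nat_lit 1) (nat_lit 5) (nat_lit 3) (nat_lit 4) (nat_lit 1) (nat_lit 4) (nat_lit 387) (nat_lit 296) (nat_lit 217)) (XT.lf (nat_lit 0) (nat_lit 28017407620597) (nat_lit 152) (nat_lit 113306927001757) (nat_lit 0) (nat_lit 28014436387394) (nat_lit 1) (nat_lit 5) (nat_lit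 3) (nat_lit 4) (nat_lit 1) (nat_lit 4) (nat_lit 388) (nat_lit 296) (nat_lit 216)))) (XT.nd (nat_lit 78) (nat_lit 0) (nat_lit 0) (XT.lf (nat_lit 0) (nat_lit 32230640080904) (nat_lit 152) (nat_lit 130279616730692) (nat_lit 0) (nat_lit 32227668842300) (nat_lit 1) (nat_lit 5) (nat_lit 3) (nat_lit 4) (nat_lit 1) (nat_lit 4) (nat_lit 389) (nat_lit 296) (nat_lit 215)) (XT.nd (nat_lit 40326) (nat_lit 0) (nat_lit 2356) (XT.lf (nat_lit 0) (nat_lit 37075857372645) (nat_lit 152) (nat_lit 149798209998322) (nat_lit 0) (nat_lit 37072886129344) (nat_lit 1) (nat_lit 5) (nat_lit 3) (nat_lit 4) (nat_lit 1) (nat_lit 4) (nat_lit 390) (nat_lit 296) (nat_lit 214)) (XT.lf (nat_lit 0) (nat_lit 2882248707) (nat_lit 228) (nat_lit 385848389) (nat_lit 228) (nat_lit 385848389) (nat_lit 32) (nat_lit 4) (nat_lit 35) (nat_lit 5) (nat_lit 35) (nat_lit 4) (nat_lit 306) (nat_lit 297) (nat_lit 297))))))) (XT.nd (nat_lit 858)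 (nat_lit 608) (nat_lit 0) (XT.nd (nat_lit 390) (nat_lit 456) (nat_lit 0) (XT.nd (nat_lit 156) (nat_lit 380) (nat_lit 0) (XT.nd (nat_lit 78) (nat_lit 152) (nat_lit 0) (XT.lf (nat_lit 0) (nat_lit 2760860153) (nat_lit 380) (nat_lit 3471016456) (nat_lit 0) (nat_lit 1397480607) (nat_lit 27) (nat_lit 5) (nat_lit 32) (nat_lit 4) (nat_lit 27) (nat_lit 4) (nat_lit 307) (nat_lit 297) (nat_lit 296)) (XT.lf (nat_lit 0) (nat_lit 2464696691) (nat_lit 152) (nat_lit 4056056388) (nat_lit 152) (nat_lit 1507129410) (nat_lit 25) (nat_lit 4) (nat_lit 27) (nat_lit 5) (nat_lit 27) (nat_lit 4) (nat_lit 308) (nat_lit 297) (nat_lit 295))) (XT.nd (nat_lit 78) (nat_lit 228) (nat_lit 0) (XT.lf (nat_lit 0) (nat_lit 570676281) (nat_lit 76) (nat_lit 1359795378) (nat_lit 152) (nat_lit 6574387333) (nat_lit 23) (nat_lit 5) (nat_lit 24) (nat_lit 5) (nat_lit 25) (nat_lit 4) (nat_lit 309) (nat_lit 297) (nat_lit 294)) (XT.nd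 (nat_lit 78) (nat_lit 228) (nat_lit 0) (XT.lf (nat_lit 0) (nat_lit 5700170570) (nat_lit 152) (nat_lit 1539620125) (nat_lit 0) (nat_lit 1807751465) (nat_lit 23) (nat_lit 5) (nat_lit 25) (nat_lit 4) (nat_lit 23) (nat_lit 4) (nat_lit 310) (nat_lit 297) (nat_lit 293)) (XT.lf (nat_lit 0) (nat_lit 276914493) (nat_lit 228) (nat_lit 3974893536) (nat_lit 76) (nat_lit 5426129029) (nat_lit 20) (nat_lit 5) (nat_lit 23) (nat_lit 5) (nat_lit 21) (nat_lit 4) (nat_lit 311) (nat_lit 297) (nat_lit 292))))) (XT.nd (nat_lit 234) (nat_lit 228) (nat_lit 0) (XT.nd (nat_lit 78) (nat_lit 152) (nat_lit 0) (XT.lf (nat_lit 0) (nat_lit 3403828696) (nat_lit 76) (nat_lit 579201533) (nat_lit 152) (nat_lit 6414171655) (nat_lit 19) (nat_lit 5) (nat_lit 20) (nat_lit 5) (nat_lit 21) (nat_lit 4) (nat_lit 312) (nat_lit 297) (nat_lit 291)) (XT.nd (nat_lit 78) (nat_lit 76) (nat_lit 0) (XT.lf (nat_lit 0) (nat_lit 457510902) (nat_lit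 76) (nat_lit 7845424020) (nat_lit 76) (nat_lit 2913049091) (nat_lit 18) (nat_lit 4) (nat_lit 19) (nat_lit 5) (nat_lit 19) (nat_lit 4) (nat_lit 313) (nat_lit 297) (nat_lit 290)) (XT.lf (nat_lit 0) (nat_lit 1100731386) (nat_lit 152) (nat_lit 2953360005) (nat_lit 76) (nat_lit 8083820956) (nat_lit 17) (nat_lit 5) (nat_lit 19) (nat_lit 5) (nat_lit 18) (nat_lit 4) (nat_lit 314) (nat_lit 297) (nat_lit 289)))) (XT.nd (nat_lit 78) (nat_lit 152) (nat_lit 0) (XT.lf (nat_lit 0) (nat_lit 5403515648) (nat_lit 152) (nat_lit 7291794694) (nat_lit 0) (nat_lit 484438204) (nat_lit 16) (nat_lit 5) (nat_lit 18) (nat_lit 4) (nat_lit 16) (nat_lit 4) (nat_lit 315) (nat_lit 297) (nat_lit 288)) (XT.nd (nat_lit 78) (nat_lit 76) (nat_lit 0) (XT.lf (nat_lit 0) (nat_lit 1456374624) (nat_lit 76) (nat_lit 9037147024) (nat_lit 76) (nat_lit 3863244194) (nat_lit 15) (nat_lit 4) (nat_lit 16) (nat_lit 5) (nat_lit 16) (nat_lit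 4) (nat_lit 316) (nat_lit 297) (nat_lit 287)) (XT.lf (nat_lit 0) (nat_lit 709293731) (nat_lit 152) (nat_lit 3870508597) (nat_lit 76) (nat_lit 11107319527) (nat_lit 14) (nat_lit 5) (nat_lit 16) (nat_lit 5) (nat_lit 15) (nat_lit 4) (nat_lit 317) (nat_lit 297) (nat_lit 286)))))) (XT.nd (nat_lit 390) (nat_lit 304) (nat_lit 0) (XT.nd (nat_lit 156) (nat_lit 228) (nat_lit 0) (XT.nd (nat_lit 78) (nat_lit 0) (nat_lit 0) (XT.lf (nat_lit 0) (nat_lit 5640491377) (nat_lit 152) (nat_lit 10757606946) (nat_lit 0) (nat_lit 781209009) (nat_lit 13) (nat_lit 5) (nat_lit 15) (nat_lit 4) (nat_lit 13) (nat_lit 4) (nat_lit 318) (nat_lit 297) (nat_lit 285)) (XT.lf (nat_lit 0) (nat_lit 11511413830) (nat_lit 152) (nat_lit 847566593) (nat_lit 0) (nat_lit 6506434221) (nat_lit 13) (nat_lit 5) (nat_lit 15) (nat_lit 4) (nat_lit 13) (nat_lit 4) (nat_lit 319) (nat_lit 297) (nat_lit 284))) (XT.nd (nat_lit 78) (nat_lit 152)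 (nat_lit 0) (XT.lf (nat_lit 0) (nat_lit 11152641451) (nat_lit 76) (nat_lit 7372142832) (nat_lit 76) (nat_lit 2240469970) (nat_lit 12) (nat_lit 4) (nat_lit 13) (nat_lit 5) (nat_lit 13) (nat_lit 4) (nat_lit 320) (nat_lit 297) (nat_lit 283)) (XT.nd (nat_lit 78) (nat_lit 0) (nat_lit 0) (XT.lf (nat_lit 0) (nat_lit 1713429847) (nat_lit 76) (nat_lit 1521579806) (nat_lit 152) (nat_lit 19704669386) (nat_lit 10) (nat_lit 5) (nat_lit 11) (nat_lit 5) (nat_lit 12) (nat_lit 4) (nat_lit 321) (nat_lit 297) (nat_lit 282)) (XT.lf (nat_lit 0) (nat_lit 9848799448) (nat_lit 152) (nat_lit 10286192864) (nat_lit 0) (nat_lit 5207374049) (nat_lit 10) (nat_lit 5) (nat_lit 12) (nat_lit 4) (nat_lit 10) (nat_lit 4) (nat_lit 322) (nat_lit 297) (nat_lit 281))))) (XT.nd (nat_lit 234) (nat_lit 152) (nat_lit 0) (XT.nd (nat_lit 78) (nat_lit 76) (nat_lit 0) (XT.lf (nat_lit 0) (nat_lit 2063713015) (nat_lit 76) (nat_lit 15378743377)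 (nat_lit 76) (nat_lit 10664880699) (nat_lit 9) (nat_lit 4) (nat_lit 10) (nat_lit 5) (nat_lit 10) (nat_lit 4) (nat_lit 323) (nat_lit 297) (nat_lit 280)) (XT.nd (nat_lit 78) (nat_lit 76) (nat_lit 0) (XT.lf (nat_lit 0) (nat_lit 17095268812) (nat_lit 76) (nat_lit 9456122683) (nat_lit 76) (nat_lit 4679271066) (nat_lit 9) (nat_lit 4) (nat_lit 10) (nat_lit 5) (nat_lit 10) (nat_lit 4) (nat_lit 324) (nat_lit 297) (nat_lit 279)) (XT.lf (nat_lit 0) (nat_lit 1860830493) (nat_lit 152) (nat_lit 830839044) (nat_lit 76) (nat_lit 32139227430) (nat_lit 8) (nat_lit 5) (nat_lit 10) (nat_lit 5) (nat_lit 9) (nat_lit 4) (nat_lit 325) (nat_lit 297) (nat_lit 278)))) (XT.nd (nat_lit 78) (nat_lit 76) (nat_lit 0) (XT.lf (nat_lit 0) (nat_lit 9656807879) (nat_lit 152) (nat_lit 23753895690) (nat_lit 0) (nat_lit 5413978929) (nat_lit 7) (nat_lit 5) (nat_lit 9) (nat_lit 4) (nat_lit 7) (nat_lit 4) (nat_lit 326) (nat_lit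 297) (nat_lit 277)) (XT.nd (nat_lit 78) (nat_lit 76) (nat_lit 0) (XT.lf (nat_lit 0) (nat_lit 18669115207) (nat_lit 152) (nat_lit 10351133438) (nat_lit 0) (nat_lit 14390272126) (nat_lit 7) (nat_lit 5) (nat_lit 9) (nat_lit 4) (nat_lit 7) (nat_lit 4) (nat_lit 327) (nat_lit 297) (nat_lit 276)) (XT.lf (nat_lit 0) (nat_lit 5307701164) (nat_lit 76) (nat_lit 23835139591) (nat_lit 76) (nat_lit 19524979876) (nat_lit 6) (nat_lit 4) (nat_lit 7) (nat_lit 5) (nat_lit 7) (nat_lit 4) (nat_lit 328) (nat_lit 297) (nat_lit 275))))))))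
noncomputable def xc41 : XT := (XT.nd (nat_lit 1716) (nat_lit 0) (nat_lit 0) (XT.nd (nat_lit 858) (nat_lit 152) (nat_lit 0) (XT.nd (nat_lit 390) (nat_lit 76) (nat_lit 0) (XT.nd (nat_lit 156) (nat_lit 152) (nat_lit 0) (XT.nd (nat_lit 78) (nat_lit 0) (nat_lit 0) (XT.lf (nat_lit 0) (nat_lit 24262129239) (nat_lit 76) (nat_lit 17361777221) (nat_lit 76) (nat_lit 13024385650) (nat_lit 6) (nat_lit 4) (nat_lit 7) (nat_lit 5) (nat_lit 7) (nat_lit 4) (nat_lit 329) (nat_lit 297) (nat_lit 274)) (XT.lf (nat_lit 0) (nat_lit 45871410251) (nat_lit 76) (nat_lit 10014590768) (nat_lit 76) (nat_lit 5653519322) (nat_lit 6) (nat_lit 4) (nat_lit 7) (nat_lit 5) (nat_lit 7) (nat_lit 4) (nat_lit 330) (nat_lit 297) (nat_lit 273))) (XT.nd (nat_lit 78) (nat_lit 0) (nat_lit 0) (XT.lf (nat_lit 0) (nat_lit 1063567592) (nat_lit 76) (nat_lit 1469097632) (nat_lit 152) (nat_lit 66920094573) (nat_lit 4) (nat_lit 5) (nat_lit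 5) (nat_lit 5) (nat_lit 6) (nat_lit 4) (nat_lit 331) (nat_lit 297) (nat_lit 272)) (XT.nd (nat_lit 78) (nat_lit 0) (nat_lit 0) (XT.lf (nat_lit 0) (nat_lit 12489559578) (nat_lit 152) (nat_lit 57190966611) (nat_lit 0) (nat_lit 8663848249) (nat_lit 4) (nat_lit 5) (nat_lit 6) (nat_lit 4) (nat_lit 4) (nat_lit 4) (nat_lit 332) (nat_lit 297) (nat_lit 271)) (XT.lf (nat_lit 0) (nat_lit 23938191392) (nat_lit 152) (nat_lit 44532877734) (nat_lit 0) (nat_lit 20098941018) (nat_lit 4) (nat_lit 5) (nat_lit 6) (nat_lit 4) (nat_lit 4) (nat_lit 4) (nat_lit 333) (nat_lit 297) (nat_lit 270))))) (XT.nd (nat_lit 234) (nat_lit 0) (nat_lit 0) (XT.nd (nat_lit 78) (nat_lit 76) (nat_lit 0) (XT.lf (nat_lit 0) (nat_lit 37041723438) (nat_lit 152) (nat_lit 30106435114) (nat_lit 0) (nat_lit 33190699980) (nat_lit 4) (nat_lit 5) (nat_lit 6) (nat_lit 4) (nat_lit 4) (nat_lit 4) (nat_lit 334) (nat_lit 297) (nat_lit 269)) (XT.nd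 (nat_lit 78) (nat_lit 76) (nat_lit 0) (XT.lf (nat_lit 0) (nat_lit 52056529168) (nat_lit 152) (nat_lit 13629382265) (nat_lit 0) (nat_lit 48195268247) (nat_lit 4) (nat_lit 5) (nat_lit 6) (nat_lit 4) (nat_lit 4) (nat_lit 4) (nat_lit 335) (nat_lit 297) (nat_lit 268)) (XT.lf (nat_lit 0) (nat_lit 5730858594) (nat_lit 76) (nat_lit 63782820558) (nat_lit 76) (nat_lit 59912657495) (nat_lit 3) (nat_lit 4) (nat_lit 4) (nat_lit 5) (nat_lit 4) (nat_lit 4) (nat_lit 336) (nat_lit 297) (nat_lit 267)))) (XT.nd (nat_lit 78) (nat_lit 0) (nat_lit 0) (XT.lf (nat_lit 0) (nat_lit 29432802199) (nat_lit 76) (nat_lit 60824122925) (nat_lit 76) (nat_lit 56946218869) (nat_lit 3) (nat_lit 4) (nat_lit 4) (nat_lit 5) (nat_lit 4) (nat_lit 4) (nat_lit 337) (nat_lit 297) (nat_lit 266)) (XT.nd (nat_lit 78) (nat_lit 0) (nat_lit 0) (XT.lf (nat_lit 0) (nat_lit 56608219869) (nat_lit 76) (nat_lit 57464375953) (nat_lit 76) (nat_lit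 53579740599) (nat_lit 3) (nat_lit 4) (nat_lit 4) (nat_lit 5) (nat_lit 4) (nat_lit 4) (nat_lit 338) (nat_lit 297) (nat_lit 265)) (XT.lf (nat_lit 0) (nat_lit 87788804558) (nat_lit 76) (nat_lit 53637845464) (nat_lit 76) (nat_lit 49747356806) (nat_lit 3) (nat_lit 4) (nat_lit 4) (nat_lit 5) (nat_lit 4) (nat_lit 4) (nat_lit 339) (nat_lit 297) (nat_lit 264)))))) (XT.nd (nat_lit 390) (nat_lit 152) (nat_lit 0) (XT.nd (nat_lit 156) (nat_lit 0) (nat_lit 0) (XT.nd (nat_lit 78) (nat_lit 0) (nat_lit 0) (XT.lf (nat_lit 0) (nat_lit 123584611185) (nat_lit 76) (nat_lit 49269664555) (nat_lit 76) (nat_lit 45374086069) (nat_lit 3) (nat_lit 4) (nat_lit 4) (nat_lit 5) (nat_lit 4) (nat_lit 4) (nat_lit 340) (nat_lit 297) (nat_lit 263)) (XT.lf (nat_lit 0) (nat_lit 164695992489) (nat_lit 76) (nat_lit 44274368818) (nat_lit 76) (nat_lit 40374364394) (nat_lit 3) (nat_lit 4) (nat_lit 4) (nat_lit 5) (nat_lit 4) (nat_lit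 4) (nat_lit 341) (nat_lit 297) (nat_lit 262))) (XT.nd (nat_lit 78) (nat_lit 0) (nat_lit 0) (XT.lf (nat_lit 0) (nat_lit 211927301580) (nat_lit 76) (nat_lit 38554224206) (nat_lit 76) (nat_lit 34650371141) (nat_lit 3) (nat_lit 4) (nat_lit 4) (nat_lit 5) (nat_lit 4) (nat_lit 4) (nat_lit 342) (nat_lit 297) (nat_lit 261)) (XT.nd (nat_lit 78) (nat_lit 0) (nat_lit 0) (XT.lf (nat_lit 0) (nat_lit 266202629291) (nat_lit 76) (nat_lit 31997314847) (nat_lit 76) (nat_lit 28090115136) (nat_lit 3) (nat_lit 4) (nat_lit 4) (nat_lit 5) (nat_lit 4) (nat_lit 4) (nat_lit 343) (nat_lit 297) (nat_lit 260)) (XT.lf (nat_lit 0) (nat_lit 328583884205) (nat_lit 76) (nat_lit 24475353382) (nat_lit 76) (nat_lit 20565243545) (nat_lit 3) (nat_lit 4) (nat_lit 4) (nat_lit 5) (nat_lit 4) (nat_lit 4) (nat_lit 344) (nat_lit 297) (nat_lit 259))))) (XT.nd (nat_lit 234) (nat_lit 0) (nat_lit 0) (XT.nd (nat_lit 78) (nat_lit 152)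 (nat_lit 0) (XT.lf (nat_lit 0) (nat_lit 400291569137) (nat_lit 76) (nat_lit 15841171000) (nat_lit 76) (nat_lit 11928530619) (nat_lit 3) (nat_lit 4) (nat_lit 4) (nat_lit 5) (nat_lit 4) (nat_lit 4) (nat_lit 345) (nat_lit 297) (nat_lit 258)) (XT.nd (nat_lit 78) (nat_lit 152) (nat_lit 0) (XT.lf (nat_lit 0) (nat_lit 482728660531) (nat_lit 76) (nat_lit 5925838048) (nat_lit 76) (nat_lit 2010997193) (nat_lit 3) (nat_lit 4) (nat_lit 4) (nat_lit 5) (nat_lit 4) (nat_lit 4) (nat_lit 346) (nat_lit 297) (nat_lit 257)) (XT.lf (nat_lit 0) (nat_lit 9479431992) (nat_lit 152) (nat_lit 546910776251) (nat_lit 0) (nat_lit 6073558680) (nat_lit 1) (nat_lit 5) (nat_lit 3) (nat_lit 4) (nat_lit 1) (nat_lit 4) (nat_lit 347) (nat_lit 297) (nat_lit 256)))) (XT.nd (nat_lit 78) (nat_lit 0) (nat_lit 0) (XT.lf (nat_lit 0) (nat_lit 23192770631) (nat_lit 152) (nat_lit 601933409448) (nat_lit 0) (nat_lit 19785450471) (nat_lit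 1) (nat_lit 5) (nat_lit 3) (nat_lit 4) (nat_lit 1) (nat_lit 4) (nat_lit 348) (nat_lit 297) (nat_lit 255)) (XT.nd (nat_lit 78) (nat_lit 0) (nat_lit 0) (XT.lf (nat_lit 0) (nat_lit 38953035198) (nat_lit 152) (nat_lit 665230693714) (nat_lit 0) (nat_lit 35544456910) (nat_lit 1) (nat_lit 5) (nat_lit 3) (nat_lit 4) (nat_lit 1) (nat_lit 4) (nat_lit 349) (nat_lit 297) (nat_lit 254)) (XT.lf (nat_lit 0) (nat_lit 57068578695) (nat_lit 152) (nat_lit 738041054175) (nat_lit 0) (nat_lit 53658906384) (nat_lit 1) (nat_lit 5) (nat_lit 3) (nat_lit 4) (nat_lit 1) (nat_lit 4) (nat_lit 350) (nat_lit 297) (nat_lit 253))))))) (XT.nd (nat_lit 858) (nat_lit 0) (nat_lit 0) (XT.nd (nat_lit 390) (nat_lit 0) (nat_lit 0) (XT.nd (nat_lit 156) (nat_lit 0) (nat_lit 0) (XT.nd (nat_lit 78) (nat_lit 0) (nat_lit 0) (XT.lf (nat_lit 0) (nat_lit 77893835670) (nat_lit 152) (nat_lit 821789041364) (nat_lit 0) (nat_lit 74483212033)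 (nat_lit 1) (nat_lit 5) (nat_lit 3) (nat_lit 4) (nat_lit 1) (nat_lit 4) (nat_lit 351) (nat_lit 297) (nat_lit 252)) (XT.lf (nat_lit 0) (nat_lit 101836256802) (nat_lit 152) (nat_lit 918113202855) (nat_lit 0) (nat_lit 98424805926) (nat_lit 1) (nat_lit 5) (nat_lit 3) (nat_lit 4) (nat_lit 1) (nat_lit 4) (nat_lit 352) (nat_lit 297) (nat_lit 251))) (XT.nd (nat_lit 78) (nat_lit 0) (nat_lit 0) (XT.lf (nat_lit 0) (nat_lit 129364280765) (nat_lit 152) (nat_lit 1028898141807) (nat_lit 0) (nat_lit 125952110550) (nat_lit 1) (nat_lit 5) (nat_lit 3) (nat_lit 4) (nat_lit 1) (nat_lit 4) (nat_lit 353) (nat_lit 297) (nat_lit 250)) (XT.nd (nat_lit 78) (nat_lit 0) (nat_lit 0) (XT.lf (nat_lit 0) (nat_lit 161016499333) (nat_lit 152) (nat_lit 1156311389636) (nat_lit 0) (nat_lit 157603703607) (nat_lit 1) (nat_lit 5) (nat_lit 3) (nat_lit 4) (nat_lit 1) (nat_lit 4) (nat_lit 354) (nat_lit 297) (nat_lit 249)) (XT.lf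 (nat_lit 0) (nat_lit 197412195044) (nat_lit 152) (nat_lit 1302845814232) (nat_lit 0) (nat_lit 193998855393) (nat_lit 1) (nat_lit 5) (nat_lit 3) (nat_lit 4) (nat_lit 1) (nat_lit 4) (nat_lit 355) (nat_lit 297) (nat_lit 248))))) (XT.nd (nat_lit 234) (nat_lit 0) (nat_lit 0) (XT.nd (nat_lit 78) (nat_lit 0) (nat_lit 0) (XT.lf (nat_lit 0) (nat_lit 239263457594) (nat_lit 152) (nat_lit 1471368393470) (nat_lit 0) (nat_lit 235849644967) (nat_lit 1) (nat_lit 5) (nat_lit 3) (nat_lit 4) (nat_lit 1) (nat_lit 4) (nat_lit 356) (nat_lit 297) (nat_lit 247)) (XT.nd (nat_lit 78) (nat_lit 0) (nat_lit 0) (XT.lf (nat_lit 0) (nat_lit 287389116035) (nat_lit 152) (nat_lit 1665176308247) (nat_lit 0) (nat_lit 283974892124) (nat_lit 1) (nat_lit 5) (nat_lit 3) (nat_lit 4) (nat_lit 1) (nat_lit 4) (nat_lit 357) (nat_lit 297) (nat_lit 246)) (XT.lf (nat_lit 0) (nat_lit 342730759337) (nat_lit 152) (nat_lit 1888061452547)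 (nat_lit 0) (nat_lit 339316177787) (nat_lit 1) (nat_lit 5) (nat_lit 3) (nat_lit 4) (nat_lit 1) (nat_lit 4) (nat_lit 358) (nat_lit 297) (nat_lit 245)))) (XT.nd (nat_lit 78) (nat_lit 0) (nat_lit 0) (XT.lf (nat_lit 0) (nat_lit 406371158780) (nat_lit 152) (nat_lit 2144384622673) (nat_lit 0) (nat_lit 402956266240) (nat_lit 1) (nat_lit 5) (nat_lit 3) (nat_lit 4) (nat_lit 1) (nat_lit 4) (nat_lit 359) (nat_lit 297) (nat_lit 244)) (XT.nd (nat_lit 78) (nat_lit 0) (nat_lit 0) (XT.lf (nat_lit 0) (nat_lit 479555452615) (nat_lit 152) (nat_lit 2439160837170) (nat_lit 0) (nat_lit 476140289649) (nat_lit 1) (nat_lit 5) (nat_lit 3) (nat_lit 4) (nat_lit 1) (nat_lit 4) (nat_lit 360) (nat_lit 297) (nat_lit 243)) (XT.lf (nat_lit 0) (nat_lit 563715507461) (nat_lit 152) (nat_lit 2778157456757) (nat_lit 0) (nat_lit 560300109342) (nat_lit 1) (nat_lit 5) (nat_lit 3) (nat_lit 4) (nat_lit 1) (nat_lit 4) (nat_lit 361)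 (nat_lit 297) (nat_lit 242)))))) (XT.nd (nat_lit 390) (nat_lit 0) (nat_lit 0) (XT.nd (nat_lit 156) (nat_lit 0) (nat_lit 0) (XT.nd (nat_lit 78) (nat_lit 0) (nat_lit 0) (XT.lf (nat_lit 0) (nat_lit 660497933085) (nat_lit 152) (nat_lit 3168007023991) (nat_lit 0) (nat_lit 657082330486) (nat_lit 1) (nat_lit 5) (nat_lit 3) (nat_lit 4) (nat_lit 1) (nat_lit 4) (nat_lit 362) (nat_lit 297) (nat_lit 241)) (XT.lf (nat_lit 0) (nat_lit 771796298687) (nat_lit 152) (nat_lit 3616337030404) (nat_lit 0) (nat_lit 768380518277) (nat_lit 1) (nat_lit 5) (nat_lit 3) (nat_lit 4) (nat_lit 1) (nat_lit 4) (nat_lit 363) (nat_lit 297) (nat_lit 240))) (XT.nd (nat_lit 78) (nat_lit 0) (nat_lit 0) (XT.lf (nat_lit 0) (nat_lit 899788180982) (nat_lit 152) (nat_lit 4131919150035) (nat_lit 0) (nat_lit 896372245956) (nat_lit 1) (nat_lit 5) (nat_lit 3) (nat_lit 4) (nat_lit 1) (nat_lit 4) (nat_lit 364) (nat_lit 297) (nat_lit 239))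 (XT.nd (nat_lit 78) (nat_lit 0) (nat_lit 0) (XT.lf (nat_lit 0) (nat_lit 1046977768973) (nat_lit 152) (nat_lit 4724840859139) (nat_lit 0) (nat_lit 1043561699498) (nat_lit 1) (nat_lit 5) (nat_lit 3) (nat_lit 4) (nat_lit 1) (nat_lit 4) (nat_lit 365) (nat_lit 297) (nat_lit 238)) (XT.lf (nat_lit 0) (nat_lit 1216244858948) (nat_lit 152) (nat_lit 5406702799848) (nat_lit 0) (nat_lit 1212828672559) (nat_lit 1) (nat_lit 5) (nat_lit 3) (nat_lit 4) (nat_lit 1) (nat_lit 4) (nat_lit 366) (nat_lit 297) (nat_lit 237))))) (XT.nd (nat_lit 234) (nat_lit 0) (nat_lit 0) (XT.nd (nat_lit 78) (nat_lit 0) (nat_lit 0) (XT.lf (nat_lit 0) (nat_lit 1410901198317) (nat_lit 152) (nat_lit 6190845749265) (nat_lit 0) (nat_lit 1407484910265) (nat_lit 1) (nat_lit 5) (nat_lit 3) (nat_lit 4) (nat_lit 1) (nat_lit 4) (nat_lit 367) (nat_lit 297) (nat_lit 236)) (XT.nd (nat_lit 78) (nat_lit 0) (nat_lit 0) (XT.lf (nat_lit 0) (nat_lit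 1634755280678) (nat_lit 152) (nat_lit 7092611634661) (nat_lit 0) (nat_lit 1631338904224) (nat_lit 1) (nat_lit 5) (nat_lit 3) (nat_lit 4) (nat_lit 1) (nat_lit 4) (nat_lit 368) (nat_lit 297) (nat_lit 235)) (XT.lf (nat_lit 0) (nat_lit 1892186859816) (nat_lit 152) (nat_lit 8129643701619) (nat_lit 0) (nat_lit 1888770406490) (nat_lit 1) (nat_lit 5) (nat_lit 3) (nat_lit 4) (nat_lit 1) (nat_lit 4) (nat_lit 369) (nat_lit 297) (nat_lit 234)))) (XT.nd (nat_lit 78) (nat_lit 0) (nat_lit 0) (XT.lf (nat_lit 0) (nat_lit 2188232640540) (nat_lit 152) (nat_lit 9322231707970) (nat_lit 0) (nat_lit 2184816120369) (nat_lit 1) (nat_lit 5) (nat_lit 3) (nat_lit 4) (nat_lit 1) (nat_lit 4) (nat_lit 370) (nat_lit 297) (nat_lit 233)) (XT.nd (nat_lit 78) (nat_lit 0) (nat_lit 0) (XT.lf (nat_lit 0) (nat_lit 2528684822908) (nat_lit 152) (nat_lit 10693708897319) (nat_lit 0) (nat_lit 2525268244610) (nat_lit 1) (nat_lit 5)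 (nat_lit 3) (nat_lit 4) (nat_lit 1) (nat_lit 4) (nat_lit 371) (nat_lit 297) (nat_lit 232)) (XT.lf (nat_lit 0) (nat_lit 2920204427879) (nat_lit 152) (nat_lit 12270908519021) (nat_lit 0) (nat_lit 2916787799037) (nat_lit 1) (nat_lit 5) (nat_lit 3) (nat_lit 4) (nat_lit 1) (nat_lit 4) (nat_lit 372) (nat_lit 297) (nat_lit 231))))))))
noncomputable def xc42 : XT := (XT.nd (nat_lit 1716) (nat_lit 0) (nat_lit 0) (XT.nd (nat_lit 858) (nat_lit 0) (nat_lit 0) (XT.nd (nat_lit 390) (nat_lit 0) (nat_lit 0) (XT.nd (nat_lit 156) (nat_lit 0) (nat_lit 0) (XT.nd (nat_lit 78) (nat_lit 0) (nat_lit 0) (XT.lf (nat_lit 0) (nat_lit 3370451621638) (nat_lit 152) (nat_lit 14084688826545) (nat_lit 0) (nat_lit 3367034948844) (nat_lit 1) (nat_lit 5) (nat_lit 3) (nat_lit 4) (nat_lit 1) (nat_lit 4) (nat_lit 373) (nat_lit 297) (nat_lit 230)) (XT.lf (nat_lit 0) (nat_lit 3888235588409) (nat_lit 152) (nat_lit 16170536825906)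 (nat_lit 0) (nat_lit 3884818877396) (nat_lit 1) (nat_lit 5) (nat_lit 3) (nat_lit 4) (nat_lit 1) (nat_lit 4) (nat_lit 374) (nat_lit 297) (nat_lit 229))) (XT.nd (nat_lit 78) (nat_lit 0) (nat_lit 0) (XT.lf (nat_lit 0) (nat_lit 4483686884065) (nat_lit 152) (nat_lit 18569262586659) (nat_lit 0) (nat_lit 4480270139818) (nat_lit 1) (nat_lit 5) (nat_lit 3) (nat_lit 4) (nat_lit 1) (nat_lit 4) (nat_lit 375) (nat_lit 297) (nat_lit 228)) (XT.nd (nat_lit 78) (nat_lit 0) (nat_lit 0) (XT.lf (nat_lit 0) (nat_lit 5168455642652) (nat_lit 152) (nat_lit 21327797699774) (nat_lit 0) (nat_lit 5165038869506) (nat_lit 1) (nat_lit 5) (nat_lit 3) (nat_lit 4) (nat_lit 1) (nat_lit 4) (nat_lit 376) (nat_lit 297) (nat_lit 227)) (XT.lf (nat_lit 0) (nat_lit 5955939513793) (nat_lit 152) (nat_lit 24500113504421) (nat_lit 0) (nat_lit 5952522715517) (nat_lit 1) (nat_lit 5) (nat_lit 3) (nat_lit 4) (nat_lit 1) (nat_lit 4) (nat_lit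 377) (nat_lit 297) (nat_lit 226))))) (XT.nd (nat_lit 234) (nat_lit 0) (nat_lit 0) (XT.nd (nat_lit 78) (nat_lit 0) (nat_lit 0) (XT.lf (nat_lit 0) (nat_lit 6861545790620) (nat_lit 152) (nat_lit 28148277048952) (nat_lit 0) (nat_lit 6858128970492) (nat_lit 1) (nat_lit 5) (nat_lit 3) (nat_lit 4) (nat_lit 1) (nat_lit 4) (nat_lit 378) (nat_lit 297) (nat_lit 225)) (XT.nd (nat_lit 78) (nat_lit 0) (nat_lit 0) (XT.lf (nat_lit 0) (nat_lit 7902992856809) (nat_lit 152) (nat_lit 32343665446194) (nat_lit 0) (nat_lit 7899576017680) (nat_lit 1) (nat_lit 5) (nat_lit 3) (nat_lit 4) (nat_lit 1) (nat_lit 4) (nat_lit 379) (nat_lit 297) (nat_lit 224)) (XT.lf (nat_lit 0) (nat_lit 9100656850613) (nat_lit 152) (nat_lit 37168362382181) (nat_lit 0) (nat_lit 9097239994961) (nat_lit 1) (nat_lit 5) (nat_lit 3) (nat_lit 4) (nat_lit 1) (nat_lit 4) (nat_lit 380) (nat_lit 297) (nat_lit 223)))) (XT.nd (nat_lit 78) (nat_lit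 0) (nat_lit 0) (XT.lf (nat_lit 0) (nat_lit 10477970328432) (nat_lit 152) (nat_lit 42716764101312) (nat_lit 0) (nat_lit 10474553458412) (nat_lit 1) (nat_lit 5) (nat_lit 3) (nat_lit 4) (nat_lit 1) (nat_lit 4) (nat_lit 381) (nat_lit 297) (nat_lit 222)) (XT.nd (nat_lit 78) (nat_lit 0) (nat_lit 0) (XT.lf (nat_lit 0) (nat_lit 12061880727875) (nat_lit 152) (nat_lit 49097426289397) (nat_lit 0) (nat_lit 12058463845361) (nat_lit 1) (nat_lit 5) (nat_lit 3) (nat_lit 4) (nat_lit 1) (nat_lit 4) (nat_lit 382) (nat_lit 297) (nat_lit 221)) (XT.lf (nat_lit 0) (nat_lit 13883377600235) (nat_lit 152) (nat_lit 56435187989245) (nat_lit 0) (nat_lit 13879960706857) (nat_lit 1) (nat_lit 5) (nat_lit 3) (nat_lit 4) (nat_lit 1) (nat_lit 4) (nat_lit 383) (nat_lit 297) (nat_lit 220)))))) (XT.nd (nat_lit 390) (nat_lit 0) (nat_lit 0) (XT.nd (nat_lit 156) (nat_lit 0) (nat_lit 0) (XT.nd (nat_lit 78) (nat_lit 0) (nat_lit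 0) (XT.lf (nat_lit 0) (nat_lit 15978098927799) (nat_lit 152) (nat_lit 64873614103680) (nat_lit 0) (nat_lit 15974682024974) (nat_lit 1) (nat_lit 5) (nat_lit 3) (nat_lit 4) (nat_lit 1) (nat_lit 4) (nat_lit 384) (nat_lit 297) (nat_lit 219)) (XT.lf (nat_lit 0) (nat_lit 18387028388714) (nat_lit 152) (nat_lit 74577804274070) (nat_lit 0) (nat_lit 18383611477674) (nat_lit 1) (nat_lit 5) (nat_lit 3) (nat_lit 4) (nat_lit 1) (nat_lit 4) (nat_lit 385) (nat_lit 297) (nat_lit 218))) (XT.nd (nat_lit 78) (nat_lit 0) (nat_lit 0) (XT.lf (nat_lit 0) (nat_lit 21157297211563) (nat_lit 152) (nat_lit 85737623090708) (nat_lit 0) (nat_lit 21153880293379) (nat_lit 1) (nat_lit 5) (nat_lit 3) (nat_lit 4) (nat_lit 1) (nat_lit 4) (nat_lit 386) (nat_lit 297) (nat_lit 217)) (XT.nd (nat_lit 78) (nat_lit 0) (nat_lit 0) (XT.lf (nat_lit 0) (nat_lit 24343106308097) (nat_lit 152) (nat_lit 98571414834787) (nat_lit 0) (nat_lit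 24339689383702) (nat_lit 1) (nat_lit 5) (nat_lit 3) (nat_lit 4) (nat_lit 1) (nat_lit 4) (nat_lit 387) (nat_lit 297) (nat_lit 216)) (XT.lf (nat_lit 0) (nat_lit 28006786725858) (nat_lit 152) (nat_lit 113330275431735) (nat_lit 0) (nat_lit 28003369796062) (nat_lit 1) (nat_lit 5) (nat_lit 3) (nat_lit 4) (nat_lit 1) (nat_lit 4) (nat_lit 388) (nat_lit 297) (nat_lit 215))))) (XT.nd (nat_lit 234) (nat_lit 0) (nat_lit 0) (XT.nd (nat_lit 78) (nat_lit 0) (nat_lit 0) (XT.lf (nat_lit 0) (nat_lit 32220019168671) (nat_lit 152) (nat_lit 130302965197579) (nat_lit 0) (nat_lit 32216602234177) (nat_lit 1) (nat_lit 5) (nat_lit 3) (nat_lit 4) (nat_lit 1) (nat_lit 4) (nat_lit 389) (nat_lit 297) (nat_lit 214)) (XT.nd (nat_lit 78) (nat_lit 0) (nat_lit 0) (XT.lf (nat_lit 0) (nat_lit 37065236445200) (nat_lit 152) (nat_lit 149821558497304) (nat_lit 0) (nat_lit 37061819506622) (nat_lit 1) (nat_lit 5) (nat_lit 3) (nat_lit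 4) (nat_lit 1) (nat_lit 4) (nat_lit 390) (nat_lit 297) (nat_lit 213)) (XT.lf (nat_lit 0) (nat_lit 42637236284768) (nat_lit 152) (nat_lit 172267940851990) (nat_lit 0) (nat_lit 42633819342639) (nat_lit 1) (nat_lit 5) (nat_lit 3) (nat_lit 4) (nat_lit 1) (nat_lit 4) (nat_lit 391) (nat_lit 297) (nat_lit 212)))) (XT.nd (nat_lit 78) (nat_lit 0) (nat_lit 0) (XT.lf (nat_lit 0) (nat_lit 49045036075541) (nat_lit 152) (nat_lit 198081280612056) (nat_lit 0) (nat_lit 49041619130324) (nat_lit 1) (nat_lit 5) (nat_lit 3) (nat_lit 4) (nat_lit 1) (nat_lit 4) (nat_lit 392) (nat_lit 297) (nat_lit 211)) (XT.nd (nat_lit 78) (nat_lit 0) (nat_lit 0) (XT.lf (nat_lit 0) (nat_lit 56414005813426) (nat_lit 152) (nat_lit 227766621381504) (nat_lit 0) (nat_lit 56410588865523) (nat_lit 1) (nat_lit 5) (nat_lit 3) (nat_lit 4) (nat_lit 1) (nat_lit 4) (nat_lit 393) (nat_lit 297) (nat_lit 210)) (XT.lf (nat_lit 0) (nat_lit 64888320993293)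 (nat_lit 152) (nat_lit 261904763305820) (nat_lit 0) (nat_lit 64884904043055) (nat_lit 1) (nat_lit 5) (nat_lit 3) (nat_lit 4) (nat_lit 1) (nat_lit 4) (nat_lit 394) (nat_lit 297) (nat_lit 209))))))) (XT.nd (nat_lit 40560) (nat_lit 0) (nat_lit 608) (XT.nd (nat_lit 40092) (nat_lit 0) (nat_lit 1368) (XT.nd (nat_lit 39858) (nat_lit 0) (nat_lit 1976) (XT.nd (nat_lit 39780) (nat_lit 0) (nat_lit 2584) (XT.lf (nat_lit 0) (nat_lit 74633783433879) (nat_lit 152) (nat_lit 301163626553093) (nat_lit 0) (nat_lit 74630366481610) (nat_lit 1) (nat_lit 5) (nat_lit 3) (nat_lit 4) (nat_lit 1) (nat_lit 4) (nat_lit 395) (nat_lit 297) (nat_lit 208)) (XT.lf (nat_lit 0) (nat_lit 603543805) (nat_lit 228) (nat_lit 2201191724) (nat_lit 0) (nat_lit 603543805) (nat_lit 35) (nat_lit 5) (nat_lit 38) (nat_lit 4) (nat_lit 35) (nat_lit 4) (nat_lit 304) (nat_lit 298) (nat_lit 298))) (XT.nd (nat_lit 78) (nat_lit 380) (nat_lit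 0) (XT.lf (nat_lit 0) (nat_lit 218385694) (nat_lit 228) (nat_lit 4314138700) (nat_lit 228) (nat_lit 2511069250) (nat_lit 32) (nat_lit 4) (nat_lit 35) (nat_lit 5) (nat_lit 35) (nat_lit 4) (nat_lit 305) (nat_lit 298) (nat_lit 297)) (XT.nd (nat_lit 78) (nat_lit 304) (nat_lit 0) (XT.lf (nat_lit 0) (nat_lit 713501952) (nat_lit 304) (nat_lit 1836926730) (nat_lit 76) (nat_lit 4785402543) (nat_lit 31) (nat_lit 5) (nat_lit 35) (nat_lit 5) (nat_lit 32) (nat_lit 4) (nat_lit 306) (nat_lit 298) (nat_lit 296)) (XT.lf (nat_lit 0) (nat_lit 3634669349) (nat_lit 304) (nat_lit 257891033) (nat_lit 380) (nat_lit 3803044906) (nat_lit 27) (nat_lit 5) (nat_lit 31) (nat_lit 5) (nat_lit 32) (nat_lit 4) (nat_lit 307) (nat_lit 298) (nat_lit 295))))) (XT.nd (nat_lit 234) (nat_lit 304) (nat_lit 0) (XT.nd (nat_lit 78) (nat_lit 152) (nat_lit 0) (XT.lf (nat_lit 0) (nat_lit 1571680099) (nat_lit 152) (nat_lit 5852382517)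 (nat_lit 152) (nat_lit 704658251) (nat_lit 25) (nat_lit 4) (nat_lit 27) (nat_lit 5) (nat_lit 27) (nat_lit 4) (nat_lit 308) (nat_lit 298) (nat_lit 294)) (XT.nd (nat_lit 78) (nat_lit 76) (nat_lit 0) (XT.lf (nat_lit 0) (nat_lit 2463263417) (nat_lit 228) (nat_lit 748152100) (nat_lit 76) (nat_lit 5419284056) (nat_lit 24) (nat_lit 5) (nat_lit 27) (nat_lit 5) (nat_lit 25) (nat_lit 4) (nat_lit 309) (nat_lit 298) (nat_lit 293)) (XT.lf (nat_lit 0) (nat_lit 5956466708) (nat_lit 152) (nat_lit 3235781010) (nat_lit 0) (nat_lit 22827466) (nat_lit 23) (nat_lit 5) (nat_lit 25) (nat_lit 4) (nat_lit 23) (nat_lit 4) (nat_lit 310) (nat_lit 298) (nat_lit 292)))) (XT.nd (nat_lit 78) (nat_lit 76) (nat_lit 0) (XT.lf (nat_lit 0) (nat_lit 116836439) (nat_lit 228) (nat_lit 6271867500) (nat_lit 76) (nat_lit 3492520563) (nat_lit 20) (nat_lit 5) (nat_lit 23) (nat_lit 5) (nat_lit 21) (nat_lit 4) (nat_lit 311) (nat_lit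 298) (nat_lit 291)) (XT.nd (nat_lit 78) (nat_lit 0) (nat_lit 0) (XT.lf (nat_lit 0) (nat_lit 638061825) (nat_lit 76) (nat_lit 2931088193) (nat_lit 152) (nat_lit 7069553038) (nat_lit 19) (nat_lit 5) (nat_lit 20) (nat_lit 5) (nat_lit 21) (nat_lit 4) (nat_lit 312) (nat_lit 298) (nat_lit 290)) (XT.lf (nat_lit 0) (nat_lit 7639397678) (nat_lit 152) (nat_lit 2721743003) (nat_lit 0) (nat_lit 1133917759) (nat_lit 19) (nat_lit 5) (nat_lit 21) (nat_lit 4) (nat_lit 19) (nat_lit 4) (nat_lit 313) (nat_lit 298) (nat_lit 289)))))) (XT.nd (nat_lit 390) (nat_lit 380) (nat_lit 0) (XT.nd (nat_lit 156) (nat_lit 152) (nat_lit 0) (XT.nd (nat_lit 78) (nat_lit 152) (nat_lit 0) (XT.lf (nat_lit 0) (nat_lit 5578599261) (nat_lit 76) (nat_lit 6862895340) (nat_lit 76) (nat_lit 20408848) (nat_lit 18) (nat_lit 4) (nat_lit 19) (nat_lit 5) (nat_lit 19) (nat_lit 4) (nat_lit 314) (nat_lit 298) (nat_lit 288)) (XT.lf (nat_lit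 0) (nat_lit 1379556575) (nat_lit 76) (nat_lit 2580951452) (nat_lit 152) (nat_lit 9591993022) (nat_lit 16) (nat_lit 5) (nat_lit 17) (nat_lit 5) (nat_lit 18) (nat_lit 4) (nat_lit 315) (nat_lit 298) (nat_lit 287))) (XT.nd (nat_lit 78) (nat_lit 152) (nat_lit 0) (XT.lf (nat_lit 0) (nat_lit 8772807193) (nat_lit 152) (nat_lit 3652032212) (nat_lit 0) (nat_lit 2346406262) (nat_lit 16) (nat_lit 5) (nat_lit 18) (nat_lit 4) (nat_lit 16) (nat_lit 4) (nat_lit 316) (nat_lit 298) (nat_lit 286)) (XT.nd (nat_lit 78) (nat_lit 76) (nat_lit 0) (XT.lf (nat_lit 0) (nat_lit 6193201972) (nat_lit 76) (nat_lit 8286456383) (nat_lit 76) (nat_lit 1667370850) (nat_lit 15) (nat_lit 4) (nat_lit 16) (nat_lit 5) (nat_lit 16) (nat_lit 4) (nat_lit 317) (nat_lit 298) (nat_lit 285)) (XT.lf (nat_lit 0) (nat_lit 3014190606) (nat_lit 152) (nat_lit 306127556) (nat_lit 76) (nat_lit 14389011299) (nat_lit 14) (nat_lit 5) (nat_lit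 16) (nat_lit 5) (nat_lit 15) (nat_lit 4) (nat_lit 318) (nat_lit 298) (nat_lit 284))))) (XT.nd (nat_lit 234) (nat_lit 228) (nat_lit 0) (XT.nd (nat_lit 78) (nat_lit 76) (nat_lit 0) (XT.lf (nat_lit 0) (nat_lit 8640026184) (nat_lit 152) (nat_lit 8180305246) (nat_lit 0) (nat_lit 2611909139) (nat_lit 13) (nat_lit 5) (nat_lit 15) (nat_lit 4) (nat_lit 13) (nat_lit 4) (nat_lit 319) (nat_lit 298) (nat_lit 283)) (XT.nd (nat_lit 78) (nat_lit 0) (nat_lit 0) (XT.lf (nat_lit 0) (nat_lit 2930488834) (nat_lit 76) (nat_lit 12301557234) (nat_lit 76) (nat_lit 6163272143) (nat_lit 12) (nat_lit 4) (nat_lit 13) (nat_lit 5) (nat_lit 13) (nat_lit 4) (nat_lit 320) (nat_lit 298) (nat_lit 282)) (XT.lf (nat_lit 0) (nat_lit 16304185794) (nat_lit 76) (nat_lit 6771685506) (nat_lit 76) (nat_lit 537602114) (nat_lit 12) (nat_lit 4) (nat_lit 13) (nat_lit 5) (nat_lit 13) (nat_lit 4) (nat_lit 321) (nat_lit 298) (nat_lit 281))))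 (XT.nd (nat_lit 78) (nat_lit 76) (nat_lit 0) (XT.lf (nat_lit 0) (nat_lit 5464833836) (nat_lit 76) (nat_lit 15268535) (nat_lit 152) (nat_lit 20636012772) (nat_lit 10) (nat_lit 5) (nat_lit 11) (nat_lit 5) (nat_lit 12) (nat_lit 4) (nat_lit 322) (nat_lit 298) (nat_lit 280)) (XT.nd (nat_lit 78) (nat_lit 76) (nat_lit 0) (XT.lf (nat_lit 0) (nat_lit 12918871725) (nat_lit 152) (nat_lit 8622964124) (nat_lit 0) (nat_lit 7362503428) (nat_lit 10) (nat_lit 5) (nat_lit 12) (nat_lit 4) (nat_lit 10) (nat_lit 4) (nat_lit 323) (nat_lit 298) (nat_lit 279)) (XT.lf (nat_lit 0) (nat_lit 5433693198) (nat_lit 76) (nat_lit 16136859305) (nat_lit 76) (nat_lit 10525718018) (nat_lit 9) (nat_lit 4) (nat_lit 10) (nat_lit 5) (nat_lit 10) (nat_lit 4) (nat_lit 324) (nat_lit 298) (nat_lit 278))))))))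
noncomputable def xc43 : XT := (XT.nd (nat_lit 1716) (nat_lit 152) (nat_lit 0) (XT.nd (nat_lit 858) (nat_lit 76) (nat_lit 0) (XT.nd (nat_lit 390) (nat_lit 152) (nat_lit 0) (XT.nd (nat_lit 156) (nat_lit 76) (nat_lit 0) (XT.nd (nat_lit 78) (nat_lit 152) (nat_lit 0) (XT.lf (nat_lit 0) (nat_lit 22320796726) (nat_lit 76) (nat_lit 9527849277) (nat_lit 76) (nat_lit 3869079304) (nat_lit 9) (nat_lit 4) (nat_lit 10) (nat_lit 5) (nat_lit 10) (nat_lit 4) (nat_lit 325) (nat_lit 298) (nat_lit 277)) (XT.lf (nat_lit 0) (nat_lit 1620223962) (nat_lit 76) (nat_lit 1784617984) (nat_lit 152) (nat_lit 36460688278) (nat_lit 7) (nat_lit 5) (nat_lit 8) (nat_lit 5) (nat_lit 9) (nat_lit 4) (nat_lit 326) (nat_lit 298) (nat_lit 276))) (XT.nd (nat_lit 78) (nat_lit 76) (nat_lit 0) (XT.lf (nat_lit 0) (nat_lit 12291992297) (nat_lit 152) (nat_lit 24874167831) (nat_lit 0) (nat_lit 7303991991) (nat_lit 7) (nat_lit 5) (nat_lit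 9) (nat_lit 4) (nat_lit 7) (nat_lit 4) (nat_lit 327) (nat_lit 298) (nat_lit 275)) (XT.nd (nat_lit 78) (nat_lit 76) (nat_lit 0) (XT.lf (nat_lit 0) (nat_lit 22501363563) (nat_lit 152) (nat_lit 9779618920) (nat_lit 0) (nat_lit 17486131400) (nat_lit 7) (nat_lit 5) (nat_lit 9) (nat_lit 4) (nat_lit 7) (nat_lit 4) (nat_lit 328) (nat_lit 298) (nat_lit 274)) (XT.lf (nat_lit 0) (nat_lit 8131487029) (nat_lit 76) (nat_lit 26364027594) (nat_lit 76) (nat_lit 21325115556) (nat_lit 6) (nat_lit 4) (nat_lit 7) (nat_lit 5) (nat_lit 7) (nat_lit 4) (nat_lit 329) (nat_lit 298) (nat_lit 273))))) (XT.nd (nat_lit 234) (nat_lit 0) (nat_lit 0) (XT.nd (nat_lit 78) (nat_lit 152) (nat_lit 0) (XT.lf (nat_lit 0) (nat_lit 29664605747) (nat_lit 76) (nat_lit 19056145599) (nat_lit 76) (nat_lit 13996642366) (nat_lit 6) (nat_lit 4) (nat_lit 7) (nat_lit 5) (nat_lit 7) (nat_lit 4) (nat_lit 330) (nat_lit 298) (nat_lit 272)) (XT.nd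 (nat_lit 78) (nat_lit 152) (nat_lit 0) (XT.lf (nat_lit 0) (nat_lit 54285301895) (nat_lit 76) (nat_lit 10725563553) (nat_lit 76) (nat_lit 5648154932) (nat_lit 6) (nat_lit 4) (nat_lit 7) (nat_lit 5) (nat_lit 7) (nat_lit 4) (nat_lit 331) (nat_lit 298) (nat_lit 271)) (XT.lf (nat_lit 0) (nat_lit 2759225014) (nat_lit 76) (nat_lit 892962676) (nat_lit 152) (nat_lit 76107441825) (nat_lit 4) (nat_lit 5) (nat_lit 5) (nat_lit 5) (nat_lit 6) (nat_lit 4) (nat_lit 332) (nat_lit 298) (nat_lit 270)))) (XT.nd (nat_lit 78) (nat_lit 0) (nat_lit 0) (XT.lf (nat_lit 0) (nat_lit 15034823109) (nat_lit 152) (nat_lit 64365972312) (nat_lit 0) (nat_lit 10594373050) (nat_lit 4) (nat_lit 5) (nat_lit 6) (nat_lit 4) (nat_lit 4) (nat_lit 4) (nat_lit 333) (nat_lit 298) (nat_lit 269)) (XT.nd (nat_lit 78) (nat_lit 0) (nat_lit 0) (XT.lf (nat_lit 0) (nat_lit 28113119748) (nat_lit 152) (nat_lit 49992253489) (nat_lit 0) (nat_lit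 23662432226) (nat_lit 4) (nat_lit 5) (nat_lit 6) (nat_lit 4) (nat_lit 4) (nat_lit 4) (nat_lit 334) (nat_lit 298) (nat_lit 268)) (XT.lf (nat_lit 0) (nat_lit 43105981647) (nat_lit 152) (nat_lit 33561047420) (nat_lit 0) (nat_lit 38646391982) (nat_lit 4) (nat_lit 5) (nat_lit 6) (nat_lit 4) (nat_lit 4) (nat_lit 4) (nat_lit 335) (nat_lit 298) (nat_lit 267)))))) (XT.nd (nat_lit 390) (nat_lit 0) (nat_lit 0) (XT.nd (nat_lit 156) (nat_lit 0) (nat_lit 0) (XT.nd (nat_lit 78) (nat_lit 76) (nat_lit 0) (XT.lf (nat_lit 0) (nat_lit 60306747406) (nat_lit 152) (nat_lit 14750873987) (nat_lit 0) (nat_lit 55839416749) (nat_lit 4) (nat_lit 5) (nat_lit 6) (nat_lit 4) (nat_lit 4) (nat_lit 4) (nat_lit 336) (nat_lit 298) (nat_lit 266)) (XT.lf (nat_lit 0) (nat_lit 7471452292) (nat_lit 76) (nat_lit 72889878363) (nat_lit 76) (nat_lit 68415816407) (nat_lit 3) (nat_lit 4) (nat_lit 4) (nat_lit 5) (nat_lit 4) (nat_lit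 4) (nat_lit 337) (nat_lit 298) (nat_lit 265))) (XT.nd (nat_lit 78) (nat_lit 0) (nat_lit 0) (XT.lf (nat_lit 0) (nat_lit 34613778971) (nat_lit 76) (nat_lit 69547423730) (nat_lit 76) (nat_lit 65067508471) (nat_lit 3) (nat_lit 4) (nat_lit 4) (nat_lit 5) (nat_lit 4) (nat_lit 4) (nat_lit 338) (nat_lit 298) (nat_lit 264)) (XT.nd (nat_lit 78) (nat_lit 0) (nat_lit 0) (XT.lf (nat_lit 0) (nat_lit 65765588885) (nat_lit 76) (nat_lit 65735930056) (nat_lit 76) (nat_lit 61250924968) (nat_lit 3) (nat_lit 4) (nat_lit 4) (nat_lit 5) (nat_lit 4) (nat_lit 4) (nat_lit 339) (nat_lit 298) (nat_lit 263)) (XT.lf (nat_lit 0) (nat_lit 101536373969) (nat_lit 76) (nat_lit 61380824640) (nat_lit 76) (nat_lit 56891393614) (nat_lit 3) (nat_lit 4) (nat_lit 4) (nat_lit 5) (nat_lit 4) (nat_lit 4) (nat_lit 340) (nat_lit 298) (nat_lit 262))))) (XT.nd (nat_lit 234) (nat_lit 0) (nat_lit 0) (XT.nd (nat_lit 78) (nat_lit 0) (nat_lit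 0) (XT.lf (nat_lit 0) (nat_lit 142625997409) (nat_lit 76) (nat_lit 56396898896) (nat_lit 76) (nat_lit 51903619229) (nat_lit 3) (nat_lit 4) (nat_lit 4) (nat_lit 5) (nat_lit 4) (nat_lit 4) (nat_lit 341) (nat_lit 298) (nat_lit 261)) (XT.nd (nat_lit 78) (nat_lit 0) (nat_lit 0) (XT.lf (nat_lit 0) (nat_lit 189838386619) (nat_lit 76) (nat_lit 50686641235) (nat_lit 76) (nat_lit 46190014923) (nat_lit 3) (nat_lit 4) (nat_lit 4) (nat_lit 5) (nat_lit 4) (nat_lit 4) (nat_lit 342) (nat_lit 298) (nat_lit 260)) (XT.lf (nat_lit 0) (nat_lit 244097262258) (nat_lit 76) (nat_lit 44138329223) (nat_lit 76) (nat_lit 39638792785) (nat_lit 3) (nat_lit 4) (nat_lit 4) (nat_lit 5) (nat_lit 4) (nat_lit 4) (nat_lit 343) (nat_lit 298) (nat_lit 259)))) (XT.nd (nat_lit 78) (nat_lit 0) (nat_lit 0) (XT.lf (nat_lit 0) (nat_lit 306464211024) (nat_lit 76) (nat_lit 36623843713) (nat_lit 76) (nat_lit 32121776731) (nat_lit 3)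 (nat_lit 4) (nat_lit 4) (nat_lit 5) (nat_lit 4) (nat_lit 4) (nat_lit 344) (nat_lit 298) (nat_lit 258)) (XT.nd (nat_lit 78) (nat_lit 0) (nat_lit 0) (XT.lf (nat_lit 0) (nat_lit 378159455827) (nat_lit 76) (nat_lit 27996162163) (nat_lit 76) (nat_lit 23491894707) (nat_lit 3) (nat_lit 4) (nat_lit 4) (nat_lit 5) (nat_lit 4) (nat_lit 4) (nat_lit 345) (nat_lit 298) (nat_lit 257)) (XT.lf (nat_lit 0) (nat_lit 460585729717) (nat_lit 76) (nat_lit 18086482106) (nat_lit 76) (nat_lit 13580301195) (nat_lit 3) (nat_lit 4) (nat_lit 4) (nat_lit 5) (nat_lit 4) (nat_lit 4) (nat_lit 346) (nat_lit 298) (nat_lit 256))))))) (XT.nd (nat_lit 858) (nat_lit 0) (nat_lit 0) (XT.nd (nat_lit 390) (nat_lit 0) (nat_lit 0) (XT.nd (nat_lit 156) (nat_lit 0) (nat_lit 0) (XT.nd (nat_lit 78) (nat_lit 152) (nat_lit 0) (XT.lf (nat_lit 0) (nat_lit 555355720663) (nat_lit 76) (nat_lit 6700918499) (nat_lit 76) (nat_lit 2193073713) (nat_lit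 3) (nat_lit 4) (nat_lit 4) (nat_lit 5) (nat_lit 4) (nat_lit 4) (nat_lit 347) (nat_lit 298) (nat_lit 255)) (XT.lf (nat_lit 0) (nat_lit 11009827343) (nat_lit 152) (nat_lit 628718518981) (nat_lit 0) (nat_lit 7088704184) (nat_lit 1) (nat_lit 5) (nat_lit 3) (nat_lit 4) (nat_lit 1) (nat_lit 4) (nat_lit 348) (nat_lit 298) (nat_lit 254))) (XT.nd (nat_lit 78) (nat_lit 0) (nat_lit 0) (XT.lf (nat_lit 0) (nat_lit 26766017140) (nat_lit 152) (nat_lit 692024400250) (nat_lit 0) (nat_lit 22843799957) (nat_lit 1) (nat_lit 5) (nat_lit 3) (nat_lit 4) (nat_lit 1) (nat_lit 4) (nat_lit 349) (nat_lit 298) (nat_lit 253)) (XT.nd (nat_lit 78) (nat_lit 0) (nat_lit 0) (XT.lf (nat_lit 0) (nat_lit 44878017360) (nat_lit 152) (nat_lit 764842236366) (nat_lit 0) (nat_lit 40954848852) (nat_lit 1) (nat_lit 5) (nat_lit 3) (nat_lit 4) (nat_lit 1) (nat_lit 4) (nat_lit 350) (nat_lit 298) (nat_lit 252)) (XT.lf (nat_lit 0) (nat_lit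 65700193223) (nat_lit 152) (nat_lit 848596724124) (nat_lit 0) (nat_lit 61776197476) (nat_lit 1) (nat_lit 5) (nat_lit 3) (nat_lit 4) (nat_lit 1) (nat_lit 4) (nat_lit 351) (nat_lit 298) (nat_lit 251))))) (XT.nd (nat_lit 234) (nat_lit 0) (nat_lit 0) (XT.nd (nat_lit 78) (nat_lit 0) (nat_lit 0) (XT.lf (nat_lit 0) (nat_lit 89639935128) (nat_lit 152) (nat_lit 944926538283) (nat_lit 0) (nat_lit 85715220042) (nat_lit 1) (nat_lit 5) (nat_lit 3) (nat_lit 4) (nat_lit 1) (nat_lit 4) (nat_lit 352) (nat_lit 298) (nat_lit 250)) (XT.nd (nat_lit 78) (nat_lit 0) (nat_lit 0) (XT.lf (nat_lit 0) (nat_lit 117165629329) (nat_lit 152) (nat_lit 1055716392600) (nat_lit 0) (nat_lit 113240288731) (nat_lit 1) (nat_lit 5) (nat_lit 3) (nat_lit 4) (nat_lit 1) (nat_lit 4) (nat_lit 353) (nat_lit 298) (nat_lit 249)) (XT.lf (nat_lit 0) (nat_lit 148815822016) (nat_lit 152) (nat_lit 1183133914658) (nat_lit 0) (nat_lit 144889937495)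 (nat_lit 1) (nat_lit 5) (nat_lit 3) (nat_lit 4) (nat_lit 1) (nat_lit 4) (nat_lit 354) (nat_lit 298) (nat_lit 248)))) (XT.nd (nat_lit 78) (nat_lit 0) (nat_lit 0) (XT.lf (nat_lit 0) (nat_lit 185209756091) (nat_lit 152) (nat_lit 1329672055977) (nat_lit 0) (nat_lit 181283398593) (nat_lit 1) (nat_lit 5) (nat_lit 3) (nat_lit 4) (nat_lit 1) (nat_lit 4) (nat_lit 355) (nat_lit 298) (nat_lit 247)) (XT.nd (nat_lit 78) (nat_lit 0) (nat_lit 0) (XT.lf (nat_lit 0) (nat_lit 227059486785) (nat_lit 152) (nat_lit 1498197867146) (nat_lit 0) (nat_lit 223132718003) (nat_lit 1) (nat_lit 5) (nat_lit 3) (nat_lit 4) (nat_lit 1) (nat_lit 4) (nat_lit 356) (nat_lit 298) (nat_lit 246)) (XT.lf (nat_lit 0) (nat_lit 275183813177) (nat_lit 152) (nat_lit 1692008592298) (nat_lit 0) (nat_lit 271256686756) (nat_lit 1) (nat_lit 5) (nat_lit 3) (nat_lit 4) (nat_lit 1) (nat_lit 4) (nat_lit 357) (nat_lit 298) (nat_lit 245))))))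 (XT.nd (nat_lit 468) (nat_lit 0) (nat_lit 0) (XT.nd (nat_lit 234) (nat_lit 0) (nat_lit 0) (XT.nd (nat_lit 78) (nat_lit 0) (nat_lit 0) (XT.lf (nat_lit 0) (nat_lit 330524298174) (nat_lit 152) (nat_lit 1914896180404) (nat_lit 0) (nat_lit 326596860763) (nat_lit 1) (nat_lit 5) (nat_lit 3) (nat_lit 4) (nat_lit 1) (nat_lit 4) (nat_lit 358) (nat_lit 298) (nat_lit 244)) (XT.nd (nat_lit 78) (nat_lit 0) (nat_lit 0) (XT.lf (nat_lit 0) (nat_lit 394163690397) (nat_lit 152) (nat_lit 2171221475577) (nat_lit 0) (nat_lit 390235982560) (nat_lit 1) (nat_lit 5) (nat_lit 3) (nat_lit 4) (nat_lit 1) (nat_lit 4) (nat_lit 359) (nat_lit 298) (nat_lit 243)) (XT.lf (nat_lit 0) (nat_lit 467347108388) (nat_lit 152) (nat_lit 2465999537942) (nat_lit 0) (nat_lit 463419165398) (nat_lit 1) (nat_lit 5) (nat_lit 3) (nat_lit 4) (nat_lit 1) (nat_lit 4) (nat_lit 360) (nat_lit 298) (nat_lit 242)))) (XT.nd (nat_lit 78) (nat_lit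 0) (nat_lit 0) (XT.lf (nat_lit 0) (nat_lit 551506401630) (nat_lit 152) (nat_lit 2804997764370) (nat_lit 0) (nat_lit 547578254159) (nat_lit 1) (nat_lit 5) (nat_lit 3) (nat_lit 4) (nat_lit 1) (nat_lit 4) (nat_lit 361) (nat_lit 298) (nat_lit 241)) (XT.nd (nat_lit 78) (nat_lit 0) (nat_lit 0) (XT.lf (nat_lit 0) (nat_lit 648288164991) (nat_lit 152) (nat_lit 3194848728857) (nat_lit 0) (nat_lit 644359839710) (nat_lit 1) (nat_lit 5) (nat_lit 3) (nat_lit 4) (nat_lit 1) (nat_lit 4) (nat_lit 362) (nat_lit 298) (nat_lit 240)) (XT.lf (nat_lit 0) (nat_lit 759585954710) (nat_lit 152) (nat_lit 3643179950273) (nat_lit 0) (nat_lit 755657474813) (nat_lit 1) (nat_lit 5) (nat_lit 3) (nat_lit 4) (nat_lit 1) (nat_lit 4) (nat_lit 363) (nat_lit 298) (nat_lit 239))))) (XT.nd (nat_lit 234) (nat_lit 0) (nat_lit 0) (XT.nd (nat_lit 78) (nat_lit 0) (nat_lit 0) (XT.lf (nat_lit 0) (nat_lit 887577336239) (nat_lit 152) (nat_lit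 4158763126429) (nat_lit 0) (nat_lit 883648721892) (nat_lit 1) (nat_lit 5) (nat_lit 3) (nat_lit 4) (nat_lit 1) (nat_lit 4) (nat_lit 364) (nat_lit 298) (nat_lit 238)) (XT.nd (nat_lit 78) (nat_lit 0) (nat_lit 0) (XT.lf (nat_lit 0) (nat_lit 1034766488781) (nat_lit 152) (nat_lit 4751685754249) (nat_lit 0) (nat_lit 1030837757522) (nat_lit 1) (nat_lit 5) (nat_lit 3) (nat_lit 4) (nat_lit 1) (nat_lit 4) (nat_lit 365) (nat_lit 298) (nat_lit 237)) (XT.lf (nat_lit 0) (nat_lit 1204033200103) (nat_lit 152) (nat_lit 5433548493842) (nat_lit 0) (nat_lit 1200104367181) (nat_lit 1) (nat_lit 5) (nat_lit 3) (nat_lit 4) (nat_lit 1) (nat_lit 4) (nat_lit 366) (nat_lit 298) (nat_lit 236)))) (XT.nd (nat_lit 78) (nat_lit 0) (nat_lit 0) (XT.lf (nat_lit 0) (nat_lit 1398689210211) (nat_lit 152) (nat_lit 6217692137941) (nat_lit 0) (nat_lit 1394760288885) (nat_lit 1) (nat_lit 5) (nat_lit 3) (nat_lit 4) (nat_lit 1) (nat_lit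 4) (nat_lit 367) (nat_lit 298) (nat_lit 235)) (XT.nd (nat_lit 78) (nat_lit 0) (nat_lit 0) (XT.lf (nat_lit 0) (nat_lit 1622543006257) (nat_lit 152) (nat_lit 7119458627408) (nat_lit 0) (nat_lit 1618614008059) (nat_lit 1) (nat_lit 5) (nat_lit 3) (nat_lit 4) (nat_lit 1) (nat_lit 4) (nat_lit 368) (nat_lit 298) (nat_lit 234)) (XT.lf (nat_lit 0) (nat_lit 1879974336425) (nat_lit 152) (nat_lit 8156491219645) (nat_lit 0) (nat_lit 1876045271383) (nat_lit 1) (nat_lit 5) (nat_lit 3) (nat_lit 4) (nat_lit 1) (nat_lit 4) (nat_lit 369) (nat_lit 298) (nat_lit 233))))))))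
noncomputable def xc44 : XT := (XT.nd (nat_lit 1716) (nat_lit 0) (nat_lit 0) (XT.nd (nat_lit 858) (nat_lit 0) (nat_lit 0) (XT.nd (nat_lit 390) (nat_lit 0) (nat_lit 0) (XT.nd (nat_lit 156) (nat_lit 0) (nat_lit 0) (XT.nd (nat_lit 78) (nat_lit 0) (nat_lit 0) (XT.lf (nat_lit 0) (nat_lit 2176019900654) (nat_lit 152) (nat_lit 9349079682761) (nat_lit 0) (nat_lit 2172090777485) (nat_lit 1) (nat_lit 5) (nat_lit 3) (nat_lit 4) (nat_lit 1) (nat_lit 4) (nat_lit 370) (nat_lit 298) (nat_lit 232)) (XT.lf (nat_lit 0) (nat_lit 2516471894765) (nat_lit 152) (nat_lit 10720557269296) (nat_lit 0) (nat_lit 2512542721052) (nat_lit 1) (nat_lit 5) (nat_lit 3) (nat_lit 4) (nat_lit 1) (nat_lit 4) (nat_lit 371) (nat_lit 298) (nat_lit 231))) (XT.nd (nat_lit 78) (nat_lit 0) (nat_lit 0) (XT.lf (nat_lit 0) (nat_lit 2907991336035) (nat_lit 152) (nat_lit 12297757236378) (nat_lit 0) (nat_lit 2904062118370) (nat_lit 1) (nat_lit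 5) (nat_lit 3) (nat_lit 4) (nat_lit 1) (nat_lit 4) (nat_lit 372) (nat_lit 298) (nat_lit 230)) (XT.nd (nat_lit 78) (nat_lit 0) (nat_lit 0) (XT.lf (nat_lit 0) (nat_lit 3358238387444) (nat_lit 152) (nat_lit 14111537844232) (nat_lit 0) (nat_lit 3354309131560) (nat_lit 1) (nat_lit 5) (nat_lit 3) (nat_lit 4) (nat_lit 1) (nat_lit 4) (nat_lit 373) (nat_lit 298) (nat_lit 229)) (XT.lf (nat_lit 0) (nat_lit 3876022230434) (nat_lit 152) (nat_lit 16197386104750) (nat_lit 0) (nat_lit 3872092941316) (nat_lit 1) (nat_lit 5) (nat_lit 3) (nat_lit 4) (nat_lit 1) (nat_lit 4) (nat_lit 374) (nat_lit 298) (nat_lit 228))))) (XT.nd (nat_lit 234) (nat_lit 0) (nat_lit 0) (XT.nd (nat_lit 78) (nat_lit 0) (nat_lit 0) (XT.lf (nat_lit 0) (nat_lit 4471473418453) (nat_lit 152) (nat_lit 18596112092596) (nat_lit 0) (nat_lit 4467544100437) (nat_lit 1) (nat_lit 5) (nat_lit 3) (nat_lit 4) (nat_lit 1) (nat_lit 4) (nat_lit 375)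 (nat_lit 298) (nat_lit 227)) (XT.nd (nat_lit 78) (nat_lit 0) (nat_lit 0) (XT.lf (nat_lit 0) (nat_lit 5156242083443) (nat_lit 152) (nat_lit 21354647403183) (nat_lit 0) (nat_lit 5152312740297) (nat_lit 1) (nat_lit 5) (nat_lit 3) (nat_lit 4) (nat_lit 1) (nat_lit 4) (nat_lit 376) (nat_lit 298) (nat_lit 226)) (XT.lf (nat_lit 0) (nat_lit 5943725873195) (nat_lit 152) (nat_lit 24526963379545) (nat_lit 0) (nat_lit 5939796508197) (nat_lit 1) (nat_lit 5) (nat_lit 3) (nat_lit 4) (nat_lit 1) (nat_lit 4) (nat_lit 377) (nat_lit 298) (nat_lit 225)))) (XT.nd (nat_lit 78) (nat_lit 0) (nat_lit 0) (XT.lf (nat_lit 0) (nat_lit 6849332079250) (nat_lit 152) (nat_lit 28175127073393) (nat_lit 0) (nat_lit 6845402695250) (nat_lit 1) (nat_lit 5) (nat_lit 3) (nat_lit 4) (nat_lit 1) (nat_lit 4) (nat_lit 378) (nat_lit 298) (nat_lit 224)) (XT.nd (nat_lit 78) (nat_lit 0) (nat_lit 0) (XT.lf (nat_lit 0) (nat_lit 7890779083898)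 (nat_lit 152) (nat_lit 32370515600476) (nat_lit 0) (nat_lit 7886849683375) (nat_lit 1) (nat_lit 5) (nat_lit 3) (nat_lit 4) (nat_lit 1) (nat_lit 4) (nat_lit 379) (nat_lit 298) (nat_lit 223)) (XT.lf (nat_lit 0) (nat_lit 9088443024187) (nat_lit 152) (nat_lit 37195212649368) (nat_lit 0) (nat_lit 9084513609296) (nat_lit 1) (nat_lit 5) (nat_lit 3) (nat_lit 4) (nat_lit 1) (nat_lit 4) (nat_lit 380) (nat_lit 298) (nat_lit 222)))))) (XT.nd (nat_lit 390) (nat_lit 0) (nat_lit 0) (XT.nd (nat_lit 156) (nat_lit 0) (nat_lit 0) (XT.nd (nat_lit 78) (nat_lit 0) (nat_lit 0) (XT.lf (nat_lit 0) (nat_lit 10465756455472) (nat_lit 152) (nat_lit 42743614466677) (nat_lit 0) (nat_lit 10461827028087) (nat_lit 1) (nat_lit 5) (nat_lit 3) (nat_lit 4) (nat_lit 1) (nat_lit 4) (nat_lit 381) (nat_lit 298) (nat_lit 221)) (XT.lf (nat_lit 0) (nat_lit 12049666814450) (nat_lit 152) (nat_lit 49124276740134) (nat_lit 0) (nat_lit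 12045737376201) (nat_lit 1) (nat_lit 5) (nat_lit 3) (nat_lit 4) (nat_lit 1) (nat_lit 4) (nat_lit 382) (nat_lit 298) (nat_lit 220))) (XT.nd (nat_lit 78) (nat_lit 0) (nat_lit 0) (XT.lf (nat_lit 0) (nat_lit 13871163651624) (nat_lit 152) (nat_lit 56462038514219) (nat_lit 0) (nat_lit 13867234203928) (nat_lit 1) (nat_lit 5) (nat_lit 3) (nat_lit 4) (nat_lit 1) (nat_lit 4) (nat_lit 383) (nat_lit 298) (nat_lit 219)) (XT.nd (nat_lit 78) (nat_lit 0) (nat_lit 0) (XT.lf (nat_lit 0) (nat_lit 15965884948591) (nat_lit 152) (nat_lit 64900464693208) (nat_lit 0) (nat_lit 15961955492680) (nat_lit 1) (nat_lit 5) (nat_lit 3) (nat_lit 4) (nat_lit 1) (nat_lit 4) (nat_lit 384) (nat_lit 298) (nat_lit 218)) (XT.lf (nat_lit 0) (nat_lit 18374814382900) (nat_lit 152) (nat_lit 74604654919733) (nat_lit 0) (nat_lit 18370884919845) (nat_lit 1) (nat_lit 5) (nat_lit 3) (nat_lit 4) (nat_lit 1) (nat_lit 4) (nat_lit 385) (nat_lit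 298) (nat_lit 217))))) (XT.nd (nat_lit 234) (nat_lit 0) (nat_lit 0) (XT.nd (nat_lit 78) (nat_lit 0) (nat_lit 0) (XT.lf (nat_lit 0) (nat_lit 21145083182613) (nat_lit 152) (nat_lit 85764473785182) (nat_lit 0) (nat_lit 21141153713347) (nat_lit 1) (nat_lit 5) (nat_lit 3) (nat_lit 4) (nat_lit 1) (nat_lit 4) (nat_lit 386) (nat_lit 298) (nat_lit 216)) (XT.nd (nat_lit 78) (nat_lit 0) (nat_lit 0) (XT.lf (nat_lit 0) (nat_lit 24330892259029) (nat_lit 152) (nat_lit 98598265571706) (nat_lit 0) (nat_lit 24326962784362) (nat_lit 1) (nat_lit 5) (nat_lit 3) (nat_lit 4) (nat_lit 1) (nat_lit 4) (nat_lit 387) (nat_lit 298) (nat_lit 215)) (XT.lf (nat_lit 0) (nat_lit 27994572659296) (nat_lit 152) (nat_lit 113357126205563) (nat_lit 0) (nat_lit 27990643179932) (nat_lit 1) (nat_lit 5) (nat_lit 3) (nat_lit 4) (nat_lit 1) (nat_lit 4) (nat_lit 388) (nat_lit 298) (nat_lit 214)))) (XT.nd (nat_lit 78) (nat_lit 0) (nat_lit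 0) (XT.lf (nat_lit 0) (nat_lit 32207805086897) (nat_lit 152) (nat_lit 130329816003502) (nat_lit 0) (nat_lit 32203875603449) (nat_lit 1) (nat_lit 5) (nat_lit 3) (nat_lit 4) (nat_lit 1) (nat_lit 4) (nat_lit 389) (nat_lit 298) (nat_lit 213)) (XT.nd (nat_lit 78) (nat_lit 0) (nat_lit 0) (XT.lf (nat_lit 0) (nat_lit 37053022350198) (nat_lit 152) (nat_lit 149848409331136) (nat_lit 0) (nat_lit 37049092863198) (nat_lit 1) (nat_lit 5) (nat_lit 3) (nat_lit 4) (nat_lit 1) (nat_lit 4) (nat_lit 390) (nat_lit 298) (nat_lit 212)) (XT.lf (nat_lit 0) (nat_lit 42625022178264) (nat_lit 152) (nat_lit 172294791710090) (nat_lit 0) (nat_lit 42621092688175) (nat_lit 1) (nat_lit 5) (nat_lit 3) (nat_lit 4) (nat_lit 1) (nat_lit 4) (nat_lit 391) (nat_lit 298) (nat_lit 211))))))) (XT.nd (nat_lit 40404) (nat_lit 0) (nat_lit 912) (XT.nd (nat_lit 39936) (nat_lit 0) (nat_lit 1824) (XT.nd (nat_lit 156) (nat_lit 0) (nat_lit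 0) (XT.nd (nat_lit 78) (nat_lit 0) (nat_lit 0) (XT.lf (nat_lit 0) (nat_lit 49032821959035) (nat_lit 152) (nat_lit 198108131491259) (nat_lit 0) (nat_lit 49028892466261) (nat_lit 1) (nat_lit 5) (nat_lit 3) (nat_lit 4) (nat_lit 1) (nat_lit 4) (nat_lit 392) (nat_lit 298) (nat_lit 210)) (XT.lf (nat_lit 0) (nat_lit 56401791688221) (nat_lit 152) (nat_lit 227793472279057) (nat_lit 0) (nat_lit 56397862193113) (nat_lit 1) (nat_lit 5) (nat_lit 3) (nat_lit 4) (nat_lit 1) (nat_lit 4) (nat_lit 393) (nat_lit 298) (nat_lit 209))) (XT.nd (nat_lit 78) (nat_lit 0) (nat_lit 0) (XT.lf (nat_lit 0) (nat_lit 64876106860525) (nat_lit 152) (nat_lit 261931614219330) (nat_lit 0) (nat_lit 64872177363386) (nat_lit 1) (nat_lit 5) (nat_lit 3) (nat_lit 4) (nat_lit 1) (nat_lit 4) (nat_lit 394) (nat_lit 298) (nat_lit 208)) (XT.nd (nat_lit 39624) (nat_lit 0) (nat_lit 2812) (XT.lf (nat_lit 0) (nat_lit 74621569294535) (nat_lit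 152) (nat_lit 301190477480478) (nat_lit 0) (nat_lit 74617639795630) (nat_lit 1) (nat_lit 5) (nat_lit 3) (nat_lit 4) (nat_lit 1) (nat_lit 4) (nat_lit 395) (nat_lit 298) (nat_lit 207)) (XT.lf (nat_lit 0) (nat_lit 232408690) (nat_lit 76) (nat_lit 1515437974) (nat_lit 76) (nat_lit 1515437974) (nat_lit 38) (nat_lit 4) (nat_lit 39) (nat_lit 5) (nat_lit 39) (nat_lit 4) (nat_lit 302) (nat_lit 299) (nat_lit 299))))) (XT.nd (nat_lit 234) (nat_lit 760) (nat_lit 0) (XT.nd (nat_lit 78) (nat_lit 152) (nat_lit 0) (XT.lf (nat_lit 0) (nat_lit 144727347) (nat_lit 152) (nat_lit 2073395549) (nat_lit 76) (nat_lit 4438729581) (nat_lit 37) (nat_lit 5) (nat_lit 39) (nat_lit 5) (nat_lit 38) (nat_lit 4) (nat_lit 303) (nat_lit 299) (nat_lit 298)) (XT.nd (nat_lit 78) (nat_lit 0) (nat_lit 0) (XT.lf (nat_lit 0) (nat_lit 2167572835) (nat_lit 152) (nat_lit 914130443) (nat_lit 228) (nat_lit 3765272672) (nat_lit 35) (nat_lit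 5) (nat_lit 37) (nat_lit 5) (nat_lit 38) (nat_lit 4) (nat_lit 304) (nat_lit 299) (nat_lit 297)) (XT.lf (nat_lit 0) (nat_lit 6154361165) (nat_lit 228) (nat_lit 248195702) (nat_lit 0) (nat_lit 709875369) (nat_lit 35) (nat_lit 5) (nat_lit 38) (nat_lit 4) (nat_lit 35) (nat_lit 4) (nat_lit 305) (nat_lit 299) (nat_lit 296)))) (XT.nd (nat_lit 78) (nat_lit 456) (nat_lit 0) (XT.lf (nat_lit 0) (nat_lit 1919856744) (nat_lit 304) (nat_lit 2680173341) (nat_lit 76) (nat_lit 2826632952) (nat_lit 31) (nat_lit 5) (nat_lit 35) (nat_lit 5) (nat_lit 32) (nat_lit 4) (nat_lit 306) (nat_lit 299) (nat_lit 295)) (XT.nd (nat_lit 78) (nat_lit 152) (nat_lit 0) (XT.lf (nat_lit 0) (nat_lit 2500818861) (nat_lit 304) (nat_lit 2380219108) (nat_lit 380) (nat_lit 2938412415) (nat_lit 27) (nat_lit 5) (nat_lit 31) (nat_lit 5) (nat_lit 32) (nat_lit 4) (nat_lit 307) (nat_lit 299) (nat_lit 294)) (XT.lf (nat_lit 0) (nat_lit 63918289)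 (nat_lit 152) (nat_lit 8041147580) (nat_lit 152) (nat_lit 193909681) (nat_lit 25) (nat_lit 4) (nat_lit 27) (nat_lit 5) (nat_lit 27) (nat_lit 4) (nat_lit 308) (nat_lit 299) (nat_lit 293)))))) (XT.nd (nat_lit 390) (nat_lit 456) (nat_lit 0) (XT.nd (nat_lit 156) (nat_lit 304) (nat_lit 0) (XT.nd (nat_lit 78) (nat_lit 76) (nat_lit 0) (XT.lf (nat_lit 0) (nat_lit 2776709111) (nat_lit 228) (nat_lit 2656829989) (nat_lit 76) (nat_lit 3387235780) (nat_lit 24) (nat_lit 5) (nat_lit 27) (nat_lit 5) (nat_lit 25) (nat_lit 4) (nat_lit 309) (nat_lit 299) (nat_lit 292)) (XT.lf (nat_lit 0) (nat_lit 3685290559) (nat_lit 76) (nat_lit 2356516756) (nat_lit 152) (nat_lit 3397748590) (nat_lit 23) (nat_lit 5) (nat_lit 24) (nat_lit 5) (nat_lit 25) (nat_lit 4) (nat_lit 310) (nat_lit 299) (nat_lit 291))) (XT.nd (nat_lit 78) (nat_lit 152) (nat_lit 0) (XT.lf (nat_lit 0) (nat_lit 749159231) (nat_lit 152) (nat_lit 9006034078)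 (nat_lit 152) (nat_lit 402536885) (nat_lit 21) (nat_lit 4) (nat_lit 23) (nat_lit 5) (nat_lit 23) (nat_lit 4) (nat_lit 311) (nat_lit 299) (nat_lit 290)) (XT.nd (nat_lit 78) (nat_lit 76) (nat_lit 0) (XT.lf (nat_lit 0) (nat_lit 2938081533) (nat_lit 228) (nat_lit 2732313089) (nat_lit 76) (nat_lit 5269568822) (nat_lit 20) (nat_lit 5) (nat_lit 23) (nat_lit 5) (nat_lit 21) (nat_lit 4) (nat_lit 312) (nat_lit 299) (nat_lit 289)) (XT.lf (nat_lit 0) (nat_lit 5010454065) (nat_lit 76) (nat_lit 1709173845) (nat_lit 152) (nat_lit 5120104544) (nat_lit 19) (nat_lit 5) (nat_lit 20) (nat_lit 5) (nat_lit 21) (nat_lit 4) (nat_lit 313) (nat_lit 299) (nat_lit 288))))) (XT.nd (nat_lit 234) (nat_lit 228) (nat_lit 0) (XT.nd (nat_lit 78) (nat_lit 152) (nat_lit 0) (XT.lf (nat_lit 0) (nat_lit 957553723) (nat_lit 76) (nat_lit 10201236711) (nat_lit 76) (nat_lit 1702321479) (nat_lit 18) (nat_lit 4) (nat_lit 19) (nat_lit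 5) (nat_lit 19) (nat_lit 4) (nat_lit 314) (nat_lit 299) (nat_lit 287)) (XT.nd (nat_lit 78) (nat_lit 76) (nat_lit 0) (XT.lf (nat_lit 0) (nat_lit 2272134464) (nat_lit 152) (nat_lit 3868651518) (nat_lit 76) (nat_lit 7844870956) (nat_lit 17) (nat_lit 5) (nat_lit 19) (nat_lit 5) (nat_lit 18) (nat_lit 4) (nat_lit 315) (nat_lit 299) (nat_lit 286)) (XT.lf (nat_lit 0) (nat_lit 5448749399) (nat_lit 76) (nat_lit 1260123767) (nat_lit 152) (nat_lit 8551924457) (nat_lit 16) (nat_lit 5) (nat_lit 17) (nat_lit 5) (nat_lit 18) (nat_lit 4) (nat_lit 316) (nat_lit 299) (nat_lit 285)))) (XT.nd (nat_lit 78) (nat_lit 228) (nat_lit 0) (XT.lf (nat_lit 0) (nat_lit 12023521617) (nat_lit 152) (nat_lit 620607035) (nat_lit 0) (nat_lit 4051336825) (nat_lit 16) (nat_lit 5) (nat_lit 18) (nat_lit 4) (nat_lit 16) (nat_lit 4) (nat_lit 317) (nat_lit 299) (nat_lit 284)) (XT.nd (nat_lit 78) (nat_lit 76) (nat_lit 0) (XT.lf (nat_lit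 0) (nat_lit 164972115) (nat_lit 152) (nat_lit 7763191983) (nat_lit 76) (nat_lit 10365124345) (nat_lit 14) (nat_lit 5) (nat_lit 16) (nat_lit 5) (nat_lit 15) (nat_lit 4) (nat_lit 318) (nat_lit 299) (nat_lit 283)) (XT.lf (nat_lit 0) (nat_lit 3054027163) (nat_lit 76) (nat_lit 2201136766) (nat_lit 152) (nat_lit 14841417635) (nat_lit 13) (nat_lit 5) (nat_lit 14) (nat_lit 5) (nat_lit 15) (nat_lit 4) (nat_lit 319) (nat_lit 299) (nat_lit 282))))))))
noncomputable def xc45 : XT := (XT.nd (nat_lit 1716) (nat_lit 152) (nat_lit 0) (XT.nd (nat_lit 858) (nat_lit 228) (nat_lit 0) (XT.nd (nat_lit 390) (nat_lit 304) (nat_lit 0) (XT.nd (nat_lit 156) (nat_lit 152) (nat_lit 0) (XT.nd (nat_lit 78) (nat_lit 76) (nat_lit 0) (XT.lf (nat_lit 0) (nat_lit 11564356086) (nat_lit 152) (nat_lit 6238396219) (nat_lit 0) (nat_lit 4299361884) (nat_lit 13) (nat_lit 5) (nat_lit 15) (nat_lit 4) (nat_lit 13) (nat_lit 4) (nat_lit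 320) (nat_lit 299) (nat_lit 281)) (XT.lf (nat_lit 0) (nat_lit 6394973572) (nat_lit 76) (nat_lit 12663070167) (nat_lit 76) (nat_lit 5314773094) (nat_lit 12) (nat_lit 4) (nat_lit 13) (nat_lit 5) (nat_lit 13) (nat_lit 4) (nat_lit 321) (nat_lit 299) (nat_lit 280))) (XT.nd (nat_lit 78) (nat_lit 76) (nat_lit 0) (XT.lf (nat_lit 0) (nat_lit 841272612) (nat_lit 152) (nat_lit 5611998234) (nat_lit 76) (nat_lit 20494923188) (nat_lit 11) (nat_lit 5) (nat_lit 13) (nat_lit 5) (nat_lit 12) (nat_lit 4) (nat_lit 322) (nat_lit 299) (nat_lit 279)) (XT.nd (nat_lit 78) (nat_lit 0) (nat_lit 0) (XT.lf (nat_lit 0) (nat_lit 7686392706) (nat_lit 152) (nat_lit 20960283239) (nat_lit 0) (nat_lit 1178807236) (nat_lit 10) (nat_lit 5) (nat_lit 12) (nat_lit 4) (nat_lit 10) (nat_lit 4) (nat_lit 323) (nat_lit 299) (nat_lit 278)) (XT.lf (nat_lit 0) (nat_lit 16061052094) (nat_lit 152) (nat_lit 7492092925) (nat_lit 0) (nat_lit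 9505837938) (nat_lit 10) (nat_lit 5) (nat_lit 12) (nat_lit 4) (nat_lit 10) (nat_lit 4) (nat_lit 324) (nat_lit 299) (nat_lit 277))))) (XT.nd (nat_lit 234) (nat_lit 76) (nat_lit 0) (XT.nd (nat_lit 78) (nat_lit 152) (nat_lit 0) (XT.lf (nat_lit 0) (nat_lit 8562866822) (nat_lit 76) (nat_lit 17386351846) (nat_lit 76) (nat_lit 10789721441) (nat_lit 9) (nat_lit 4) (nat_lit 10) (nat_lit 5) (nat_lit 10) (nat_lit 4) (nat_lit 325) (nat_lit 299) (nat_lit 276)) (XT.nd (nat_lit 78) (nat_lit 152) (nat_lit 0) (XT.lf (nat_lit 0) (nat_lit 27681194187) (nat_lit 76) (nat_lit 9938734187) (nat_lit 76) (nat_lit 3306089652) (nat_lit 9) (nat_lit 4) (nat_lit 10) (nat_lit 5) (nat_lit 10) (nat_lit 4) (nat_lit 326) (nat_lit 299) (nat_lit 275)) (XT.lf (nat_lit 0) (nat_lit 3881453278) (nat_lit 76) (nat_lit 1023390650) (nat_lit 152) (nat_lit 40791921634) (nat_lit 7) (nat_lit 5) (nat_lit 8) (nat_lit 5) (nat_lit 9) (nat_lit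 4) (nat_lit 327) (nat_lit 299) (nat_lit 274)))) (XT.nd (nat_lit 78) (nat_lit 76) (nat_lit 0) (XT.lf (nat_lit 0) (nat_lit 15033079034) (nat_lit 152) (nat_lit 26758176020) (nat_lit 0) (nat_lit 9214650316) (nat_lit 7) (nat_lit 5) (nat_lit 9) (nat_lit 4) (nat_lit 7) (nat_lit 4) (nat_lit 328) (nat_lit 299) (nat_lit 273)) (XT.nd (nat_lit 78) (nat_lit 76) (nat_lit 0) (XT.lf (nat_lit 0) (nat_lit 26656818438) (nat_lit 152) (nat_lit 9640373076) (nat_lit 0) (nat_lit 20817798525) (nat_lit 7) (nat_lit 5) (nat_lit 9) (nat_lit 4) (nat_lit 7) (nat_lit 4) (nat_lit 329) (nat_lit 299) (nat_lit 272)) (XT.lf (nat_lit 0) (nat_lit 10884390190) (nat_lit 76) (nat_lit 29527415902) (nat_lit 76) (nat_lit 23670490601) (nat_lit 6) (nat_lit 4) (nat_lit 7) (nat_lit 5) (nat_lit 7) (nat_lit 4) (nat_lit 330) (nat_lit 299) (nat_lit 271)))))) (XT.nd (nat_lit 390) (nat_lit 76) (nat_lit 0) (XT.nd (nat_lit 156) (nat_lit 152)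 (nat_lit 0) (XT.nd (nat_lit 78) (nat_lit 0) (nat_lit 0) (XT.lf (nat_lit 0) (nat_lit 35447496701) (nat_lit 76) (nat_lit 21226553673) (nat_lit 76) (nat_lit 15354058470) (nat_lit 6) (nat_lit 4) (nat_lit 7) (nat_lit 5) (nat_lit 7) (nat_lit 4) (nat_lit 331) (nat_lit 299) (nat_lit 270)) (XT.lf (nat_lit 0) (nat_lit 63587401608) (nat_lit 76) (nat_lit 11736125246) (nat_lit 76) (nat_lit 5850090998) (nat_lit 6) (nat_lit 4) (nat_lit 7) (nat_lit 5) (nat_lit 7) (nat_lit 4) (nat_lit 332) (nat_lit 299) (nat_lit 269))) (XT.nd (nat_lit 78) (nat_lit 0) (nat_lit 0) (XT.lf (nat_lit 0) (nat_lit 4334637904) (nat_lit 76) (nat_lit 424638949) (nat_lit 152) (nat_lit 86880331684) (nat_lit 4) (nat_lit 5) (nat_lit 5) (nat_lit 5) (nat_lit 6) (nat_lit 4) (nat_lit 333) (nat_lit 299) (nat_lit 268)) (XT.nd (nat_lit 78) (nat_lit 0) (nat_lit 0) (XT.lf (nat_lit 0) (nat_lit 17798046268) (nat_lit 152) (nat_lit 72959515198) (nat_lit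 0) (nat_lit 12660616012) (nat_lit 4) (nat_lit 5) (nat_lit 6) (nat_lit 4) (nat_lit 4) (nat_lit 4) (nat_lit 334) (nat_lit 299) (nat_lit 267)) (XT.lf (nat_lit 0) (nat_lit 32771826574) (nat_lit 152) (nat_lit 56568175894) (nat_lit 0) (nat_lit 27626655325) (nat_lit 4) (nat_lit 5) (nat_lit 6) (nat_lit 4) (nat_lit 4) (nat_lit 4) (nat_lit 335) (nat_lit 299) (nat_lit 266))))) (XT.nd (nat_lit 234) (nat_lit 0) (nat_lit 0) (XT.nd (nat_lit 78) (nat_lit 76) (nat_lit 0) (XT.lf (nat_lit 0) (nat_lit 49955999645) (nat_lit 152) (nat_lit 37792669213) (nat_lit 0) (nat_lit 44804097097) (nat_lit 4) (nat_lit 5) (nat_lit 6) (nat_lit 4) (nat_lit 4) (nat_lit 4) (nat_lit 336) (nat_lit 299) (nat_lit 265)) (XT.nd (nat_lit 78) (nat_lit 76) (nat_lit 0) (XT.lf (nat_lit 0) (nat_lit 69686777562) (nat_lit 152) (nat_lit 16265648285) (nat_lit 0) (nat_lit 64529021711) (nat_lit 4) (nat_lit 5) (nat_lit 6) (nat_lit 4) (nat_lit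 4) (nat_lit 4) (nat_lit 337) (nat_lit 299) (nat_lit 264)) (XT.lf (nat_lit 0) (nat_lit 9258306172) (nat_lit 76) (nat_lit 83475257827) (nat_lit 76) (nat_lit 78312412147) (nat_lit 3) (nat_lit 4) (nat_lit 4) (nat_lit 5) (nat_lit 4) (nat_lit 4) (nat_lit 338) (nat_lit 299) (nat_lit 263)))) (XT.nd (nat_lit 78) (nat_lit 0) (nat_lit 0) (XT.lf (nat_lit 0) (nat_lit 40385094544) (nat_lit 76) (nat_lit 79676839645) (nat_lit 76) (nat_lit 74509568028) (nat_lit 3) (nat_lit 4) (nat_lit 4) (nat_lit 5) (nat_lit 4) (nat_lit 4) (nat_lit 339) (nat_lit 299) (nat_lit 262)) (XT.nd (nat_lit 78) (nat_lit 0) (nat_lit 0) (XT.lf (nat_lit 0) (nat_lit 76134121764) (nat_lit 76) (nat_lit 75333104222) (nat_lit 76) (nat_lit 70161983963) (nat_lit 3) (nat_lit 4) (nat_lit 4) (nat_lit 5) (nat_lit 4) (nat_lit 4) (nat_lit 340) (nat_lit 299) (nat_lit 261)) (XT.lf (nat_lit 0) (nat_lit 117204825322) (nat_lit 76) (nat_lit 70359065429)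 (nat_lit 76) (nat_lit 65184598525) (nat_lit 3) (nat_lit 4) (nat_lit 4) (nat_lit 5) (nat_lit 4) (nat_lit 4) (nat_lit 341) (nat_lit 299) (nat_lit 260))))))) (XT.nd (nat_lit 858) (nat_lit 0) (nat_lit 0) (XT.nd (nat_lit 390) (nat_lit 152) (nat_lit 0) (XT.nd (nat_lit 156) (nat_lit 0) (nat_lit 0) (XT.nd (nat_lit 78) (nat_lit 0) (nat_lit 0) (XT.lf (nat_lit 0) (nat_lit 164400762461) (nat_lit 76) (nat_lit 64657405116) (nat_lit 76) (nat_lit 59480028086) (nat_lit 3) (nat_lit 4) (nat_lit 4) (nat_lit 5) (nat_lit 4) (nat_lit 4) (nat_lit 342) (nat_lit 299) (nat_lit 259)) (XT.lf (nat_lit 0) (nat_lit 218645331952) (nat_lit 76) (nat_lit 58116569060) (nat_lit 76) (nat_lit 52936661485) (nat_lit 3) (nat_lit 4) (nat_lit 4) (nat_lit 5) (nat_lit 4) (nat_lit 4) (nat_lit 343) (nat_lit 299) (nat_lit 258))) (XT.nd (nat_lit 78) (nat_lit 0) (nat_lit 0) (XT.lf (nat_lit 0) (nat_lit 280999840588) (nat_lit 76) (nat_lit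 50608584380) (nat_lit 76) (nat_lit 45426476333) (nat_lit 3) (nat_lit 4) (nat_lit 4) (nat_lit 5) (nat_lit 4) (nat_lit 4) (nat_lit 344) (nat_lit 299) (nat_lit 257)) (XT.nd (nat_lit 78) (nat_lit 0) (nat_lit 0) (XT.lf (nat_lit 0) (nat_lit 352684267888) (nat_lit 76) (nat_lit 41986555726) (nat_lit 76) (nat_lit 36802534223) (nat_lit 3) (nat_lit 4) (nat_lit 4) (nat_lit 5) (nat_lit 4) (nat_lit 4) (nat_lit 345) (nat_lit 299) (nat_lit 256)) (XT.lf (nat_lit 0) (nat_lit 435101135253) (nat_lit 76) (nat_lit 32081791231) (nat_lit 76) (nat_lit 26896105854) (nat_lit 3) (nat_lit 4) (nat_lit 4) (nat_lit 5) (nat_lit 4) (nat_lit 4) (nat_lit 346) (nat_lit 299) (nat_lit 255))))) (XT.nd (nat_lit 234) (nat_lit 0) (nat_lit 0) (XT.nd (nat_lit 78) (nat_lit 152) (nat_lit 0) (XT.lf (nat_lit 0) (nat_lit 529862946611) (nat_lit 76) (nat_lit 20700502025) (nat_lit 76) (nat_lit 15513369801) (nat_lit 3) (nat_lit 4) (nat_lit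 4) (nat_lit 5) (nat_lit 4) (nat_lit 4) (nat_lit 347) (nat_lit 299) (nat_lit 254)) (XT.nd (nat_lit 78) (nat_lit 152) (nat_lit 0) (XT.lf (nat_lit 0) (nat_lit 638823737402) (nat_lit 76) (nat_lit 7620010711) (nat_lit 76) (nat_lit 2431620359) (nat_lit 3) (nat_lit 4) (nat_lit 4) (nat_lit 5) (nat_lit 4) (nat_lit 4) (nat_lit 348) (nat_lit 299) (nat_lit 253)) (XT.lf (nat_lit 0) (nat_lit 12743328326) (nat_lit 152) (nat_lit 722853235423) (nat_lit 0) (nat_lit 8230733217) (nat_lit 1) (nat_lit 5) (nat_lit 3) (nat_lit 4) (nat_lit 1) (nat_lit 4) (nat_lit 349) (nat_lit 299) (nat_lit 252)))) (XT.nd (nat_lit 78) (nat_lit 0) (nat_lit 0) (XT.lf (nat_lit 0) (nat_lit 30852247434) (nat_lit 152) (nat_lit 795677572109) (nat_lit 0) (nat_lit 26338825086) (nat_lit 1) (nat_lit 5) (nat_lit 3) (nat_lit 4) (nat_lit 1) (nat_lit 4) (nat_lit 350) (nat_lit 299) (nat_lit 251)) (XT.nd (nat_lit 78) (nat_lit 0) (nat_lit 0) (XT.lf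 (nat_lit 0) (nat_lit 51671744071) (nat_lit 152) (nat_lit 879437712536) (nat_lit 0) (nat_lit 47157602383) (nat_lit 1) (nat_lit 5) (nat_lit 3) (nat_lit 4) (nat_lit 1) (nat_lit 4) (nat_lit 351) (nat_lit 299) (nat_lit 250)) (XT.lf (nat_lit 0) (nat_lit 75609156213) (nat_lit 152) (nat_lit 975772442059) (nat_lit 0) (nat_lit 71094389014) (nat_lit 1) (nat_lit 5) (nat_lit 3) (nat_lit 4) (nat_lit 1) (nat_lit 4) (nat_lit 352) (nat_lit 299) (nat_lit 249)))))) (XT.nd (nat_lit 468) (nat_lit 0) (nat_lit 0) (XT.nd (nat_lit 234) (nat_lit 0) (nat_lit 0) (XT.nd (nat_lit 78) (nat_lit 0) (nat_lit 0) (XT.lf (nat_lit 0) (nat_lit 103132824533) (nat_lit 152) (nat_lit 1086566570606) (nat_lit 0) (nat_lit 98617513410) (nat_lit 1) (nat_lit 5) (nat_lit 3) (nat_lit 4) (nat_lit 1) (nat_lit 4) (nat_lit 353) (nat_lit 299) (nat_lit 248)) (XT.nd (nat_lit 78) (nat_lit 0) (nat_lit 0) (XT.lf (nat_lit 0) (nat_lit 134781255585)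 (nat_lit 152) (nat_lit 1213987809386) (nat_lit 0) (nat_lit 130265471486) (nat_lit 1) (nat_lit 5) (nat_lit 3) (nat_lit 4) (nat_lit 1) (nat_lit 4) (nat_lit 354) (nat_lit 299) (nat_lit 247)) (XT.lf (nat_lit 0) (nat_lit 171173657803) (nat_lit 152) (nat_lit 1360529182636) (nat_lit 0) (nat_lit 166657462420) (nat_lit 1) (nat_lit 5) (nat_lit 3) (nat_lit 4) (nat_lit 1) (nat_lit 4) (nat_lit 355) (nat_lit 299) (nat_lit 246)))) (XT.nd (nat_lit 78) (nat_lit 0) (nat_lit 0) (XT.lf (nat_lit 0) (nat_lit 213022056448) (nat_lit 152) (nat_lit 1529057804181) (nat_lit 0) (nat_lit 208505503426) (nat_lit 1) (nat_lit 5) (nat_lit 3) (nat_lit 4) (nat_lit 1) (nat_lit 4) (nat_lit 356) (nat_lit 299) (nat_lit 245)) (XT.nd (nat_lit 78) (nat_lit 0) (nat_lit 0) (XT.lf (nat_lit 0) (nat_lit 261145224536) (nat_lit 152) (nat_lit 1722870973138) (nat_lit 0) (nat_lit 256628360524) (nat_lit 1) (nat_lit 5) (nat_lit 3) (nat_lit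 4) (nat_lit 1) (nat_lit 4) (nat_lit 357) (nat_lit 299) (nat_lit 244)) (XT.lf (nat_lit 0) (nat_lit 316484702312) (nat_lit 152) (nat_lit 1945760686291) (nat_lit 0) (nat_lit 311967567874) (nat_lit 1) (nat_lit 5) (nat_lit 3) (nat_lit 4) (nat_lit 1) (nat_lit 4) (nat_lit 358) (nat_lit 299) (nat_lit 243))))) (XT.nd (nat_lit 234) (nat_lit 0) (nat_lit 0) (XT.nd (nat_lit 78) (nat_lit 0) (nat_lit 0) (XT.lf (nat_lit 0) (nat_lit 380123218691) (nat_lit 152) (nat_lit 2202087829332) (nat_lit 0) (nat_lit 375605849100) (nat_lit 1) (nat_lit 5) (nat_lit 3) (nat_lit 4) (nat_lit 1) (nat_lit 4) (nat_lit 359) (nat_lit 299) (nat_lit 242)) (XT.nd (nat_lit 78) (nat_lit 0) (nat_lit 0) (XT.lf (nat_lit 0) (nat_lit 453305875078) (nat_lit 152) (nat_lit 2496867498538) (nat_lit 0) (nat_lit 448788301006) (nat_lit 1) (nat_lit 5) (nat_lit 3) (nat_lit 4) (nat_lit 1) (nat_lit 4) (nat_lit 360) (nat_lit 299) (nat_lit 241)) (XT.lf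 (nat_lit 0) (nat_lit 537464506057) (nat_lit 152) (nat_lit 2835867122219) (nat_lit 0) (nat_lit 532946754175) (nat_lit 1) (nat_lit 5) (nat_lit 3) (nat_lit 4) (nat_lit 1) (nat_lit 4) (nat_lit 361) (nat_lit 299) (nat_lit 240)))) (XT.nd (nat_lit 78) (nat_lit 0) (nat_lit 0) (XT.lf (nat_lit 0) (nat_lit 634245693536) (nat_lit 152) (nat_lit 3225719301709) (nat_lit 0) (nat_lit 629727787037) (nat_lit 1) (nat_lit 5) (nat_lit 3) (nat_lit 4) (nat_lit 1) (nat_lit 4) (nat_lit 362) (nat_lit 299) (nat_lit 239)) (XT.nd (nat_lit 78) (nat_lit 0) (nat_lit 0) (XT.lf (nat_lit 0) (nat_lit 745542982488) (nat_lit 152) (nat_lit 3674051579649) (nat_lit 0) (nat_lit 741024941540) (nat_lit 1) (nat_lit 5) (nat_lit 3) (nat_lit 4) (nat_lit 1) (nat_lit 4) (nat_lit 363) (nat_lit 299) (nat_lit 238)) (XT.lf (nat_lit 0) (nat_lit 873533928568) (nat_lit 152) (nat_lit 4189635674522) (nat_lit 0) (nat_lit 869015770707) (nat_lit 1)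 (nat_lit 5) (nat_lit 3) (nat_lit 4) (nat_lit 1) (nat_lit 4) (nat_lit 364) (nat_lit 299) (nat_lit 237))))))))
noncomputable def xc46 : XT := (XT.nd (nat_lit 1716) (nat_lit 0) (nat_lit 0) (XT.nd (nat_lit 858) (nat_lit 0) (nat_lit 0) (XT.nd (nat_lit 390) (nat_lit 0) (nat_lit 0) (XT.nd (nat_lit 156) (nat_lit 0) (nat_lit 0) (XT.nd (nat_lit 78) (nat_lit 0) (nat_lit 0) (XT.lf (nat_lit 0) (nat_lit 1020722702458) (nat_lit 152) (nat_lit 4782559101226) (nat_lit 0) (nat_lit 1016204442934) (nat_lit 1) (nat_lit 5) (nat_lit 3) (nat_lit 4) (nat_lit 1) (nat_lit 4) (nat_lit 365) (nat_lit 299) (nat_lit 236)) (XT.lf (nat_lit 0) (nat_lit 1189989084519) (nat_lit 152) (nat_lit 5464422535501) (nat_lit 0) (nat_lit 1185470736592) (nat_lit 1) (nat_lit 5) (nat_lit 3) (nat_lit 4) (nat_lit 1) (nat_lit 4) (nat_lit 366) (nat_lit 299) (nat_lit 235))) (XT.nd (nat_lit 78) (nat_lit 0) (nat_lit 0) (XT.lf (nat_lit 0) (nat_lit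 1384644808311) (nat_lit 152) (nat_lit 6248566783671) (nat_lit 0) (nat_lit 1380126383512) (nat_lit 1) (nat_lit 5) (nat_lit 3) (nat_lit 4) (nat_lit 1) (nat_lit 4) (nat_lit 367) (nat_lit 299) (nat_lit 234)) (XT.nd (nat_lit 78) (nat_lit 0) (nat_lit 0) (XT.lf (nat_lit 0) (nat_lit 1608498355387) (nat_lit 152) (nat_lit 7150333798417) (nat_lit 0) (nat_lit 1603979863744) (nat_lit 1) (nat_lit 5) (nat_lit 3) (nat_lit 4) (nat_lit 1) (nat_lit 4) (nat_lit 368) (nat_lit 299) (nat_lit 233)) (XT.lf (nat_lit 0) (nat_lit 1865929469061) (nat_lit 152) (nat_lit 8187366847419) (nat_lit 0) (nat_lit 1861410919290) (nat_lit 1) (nat_lit 5) (nat_lit 3) (nat_lit 4) (nat_lit 1) (nat_lit 4) (nat_lit 369) (nat_lit 299) (nat_lit 232))))) (XT.nd (nat_lit 234) (nat_lit 0) (nat_lit 0) (XT.nd (nat_lit 78) (nat_lit 0) (nat_lit 0) (XT.lf (nat_lit 0) (nat_lit 2161974845033) (nat_lit 152) (nat_lit 9379955707722) (nat_lit 0) (nat_lit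 2157456244718) (nat_lit 1) (nat_lit 5) (nat_lit 3) (nat_lit 4) (nat_lit 1) (nat_lit 4) (nat_lit 370) (nat_lit 299) (nat_lit 231)) (XT.nd (nat_lit 78) (nat_lit 0) (nat_lit 0) (XT.lf (nat_lit 0) (nat_lit 2502426675442) (nat_lit 152) (nat_lit 10751433639637) (nat_lit 0) (nat_lit 2497908031176) (nat_lit 1) (nat_lit 5) (nat_lit 3) (nat_lit 4) (nat_lit 1) (nat_lit 4) (nat_lit 371) (nat_lit 299) (nat_lit 230)) (XT.lf (nat_lit 0) (nat_lit 2893945974363) (nat_lit 152) (nat_lit 12328633907049) (nat_lit 0) (nat_lit 2889427291877) (nat_lit 1) (nat_lit 5) (nat_lit 3) (nat_lit 4) (nat_lit 1) (nat_lit 4) (nat_lit 372) (nat_lit 299) (nat_lit 229)))) (XT.nd (nat_lit 78) (nat_lit 0) (nat_lit 0) (XT.lf (nat_lit 0) (nat_lit 3344192901990) (nat_lit 152) (nat_lit 14142414776059) (nat_lit 0) (nat_lit 3339674186271) (nat_lit 1) (nat_lit 5) (nat_lit 3) (nat_lit 4) (nat_lit 1) (nat_lit 4) (nat_lit 373) (nat_lit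 299) (nat_lit 228)) (XT.nd (nat_lit 78) (nat_lit 0) (nat_lit 0) (XT.lf (nat_lit 0) (nat_lit 3861976637343) (nat_lit 152) (nat_lit 16228263263670) (nat_lit 0) (nat_lit 3857457892725) (nat_lit 1) (nat_lit 5) (nat_lit 3) (nat_lit 4) (nat_lit 1) (nat_lit 4) (nat_lit 374) (nat_lit 299) (nat_lit 227)) (XT.lf (nat_lit 0) (nat_lit 4457427731766) (nat_lit 152) (nat_lit 18626989448988) (nat_lit 0) (nat_lit 4452908962018) (nat_lit 1) (nat_lit 5) (nat_lit 3) (nat_lit 4) (nat_lit 1) (nat_lit 4) (nat_lit 375) (nat_lit 299) (nat_lit 226)))))) (XT.nd (nat_lit 390) (nat_lit 0) (nat_lit 0) (XT.nd (nat_lit 156) (nat_lit 0) (nat_lit 0) (XT.nd (nat_lit 78) (nat_lit 0) (nat_lit 0) (XT.lf (nat_lit 0) (nat_lit 5142196315367) (nat_lit 152) (nat_lit 21385524931289) (nat_lit 0) (nat_lit 5137677523768) (nat_lit 1) (nat_lit 5) (nat_lit 3) (nat_lit 4) (nat_lit 1) (nat_lit 4) (nat_lit 376) (nat_lit 299) (nat_lit 225))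 (XT.lf (nat_lit 0) (nat_lit 5929680034347) (nat_lit 152) (nat_lit 24557841056968) (nat_lit 0) (nat_lit 5925161223746) (nat_lit 1) (nat_lit 5) (nat_lit 3) (nat_lit 4) (nat_lit 1) (nat_lit 4) (nat_lit 377) (nat_lit 299) (nat_lit 224))) (XT.nd (nat_lit 78) (nat_lit 0) (nat_lit 0) (XT.lf (nat_lit 0) (nat_lit 6835286178860) (nat_lit 152) (nat_lit 28206004880657) (nat_lit 0) (nat_lit 6830767351735) (nat_lit 1) (nat_lit 5) (nat_lit 3) (nat_lit 4) (nat_lit 1) (nat_lit 4) (nat_lit 378) (nat_lit 299) (nat_lit 223)) (XT.nd (nat_lit 78) (nat_lit 0) (nat_lit 0) (XT.lf (nat_lit 0) (nat_lit 7876733129994) (nat_lit 152) (nat_lit 32401393520646) (nat_lit 0) (nat_lit 7872214288501) (nat_lit 1) (nat_lit 5) (nat_lit 3) (nat_lit 4) (nat_lit 1) (nat_lit 4) (nat_lit 379) (nat_lit 299) (nat_lit 222)) (XT.lf (nat_lit 0) (nat_lit 9074397023749) (nat_lit 152) (nat_lit 37226090667716) (nat_lit 0) (nat_lit 9069878169763)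 (nat_lit 1) (nat_lit 5) (nat_lit 3) (nat_lit 4) (nat_lit 1) (nat_lit 4) (nat_lit 380) (nat_lit 299) (nat_lit 221))))) (XT.nd (nat_lit 234) (nat_lit 0) (nat_lit 0) (XT.nd (nat_lit 78) (nat_lit 0) (nat_lit 0) (XT.lf (nat_lit 0) (nat_lit 10451710414569) (nat_lit 152) (nat_lit 42774492570398) (nat_lit 0) (nat_lit 10447191549718) (nat_lit 1) (nat_lit 5) (nat_lit 3) (nat_lit 4) (nat_lit 1) (nat_lit 4) (nat_lit 381) (nat_lit 299) (nat_lit 220)) (XT.nd (nat_lit 78) (nat_lit 0) (nat_lit 0) (XT.lf (nat_lit 0) (nat_lit 12035620738361) (nat_lit 152) (nat_lit 49155154918092) (nat_lit 0) (nat_lit 12031101864063) (nat_lit 1) (nat_lit 5) (nat_lit 3) (nat_lit 4) (nat_lit 1) (nat_lit 4) (nat_lit 382) (nat_lit 299) (nat_lit 219)) (XT.lf (nat_lit 0) (nat_lit 13857117544938) (nat_lit 152) (nat_lit 56492916756731) (nat_lit 0) (nat_lit 13852598662425) (nat_lit 1) (nat_lit 5) (nat_lit 3) (nat_lit 4) (nat_lit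 1) (nat_lit 4) (nat_lit 383) (nat_lit 299) (nat_lit 218)))) (XT.nd (nat_lit 78) (nat_lit 0) (nat_lit 0) (XT.lf (nat_lit 0) (nat_lit 15951838815298) (nat_lit 152) (nat_lit 64931342991854) (nat_lit 0) (nat_lit 15947319925643) (nat_lit 1) (nat_lit 5) (nat_lit 3) (nat_lit 4) (nat_lit 1) (nat_lit 4) (nat_lit 384) (nat_lit 299) (nat_lit 217)) (XT.nd (nat_lit 78) (nat_lit 0) (nat_lit 0) (XT.lf (nat_lit 0) (nat_lit 18360768226471) (nat_lit 152) (nat_lit 74635533267190) (nat_lit 0) (nat_lit 18356249330604) (nat_lit 1) (nat_lit 5) (nat_lit 3) (nat_lit 4) (nat_lit 1) (nat_lit 4) (nat_lit 385) (nat_lit 299) (nat_lit 216)) (XT.lf (nat_lit 0) (nat_lit 21131037006066) (nat_lit 152) (nat_lit 85795352175085) (nat_lit 0) (nat_lit 21126518104798) (nat_lit 1) (nat_lit 5) (nat_lit 3) (nat_lit 4) (nat_lit 1) (nat_lit 4) (nat_lit 386) (nat_lit 299) (nat_lit 215))))))) (XT.nd (nat_lit 40248) (nat_lit 0) (nat_lit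 1444) (XT.nd (nat_lit 390) (nat_lit 0) (nat_lit 0) (XT.nd (nat_lit 156) (nat_lit 0) (nat_lit 0) (XT.nd (nat_lit 78) (nat_lit 0) (nat_lit 0) (XT.lf (nat_lit 0) (nat_lit 24316846064989) (nat_lit 152) (nat_lit 98629143998518) (nat_lit 0) (nat_lit 24312327159023) (nat_lit 1) (nat_lit 5) (nat_lit 3) (nat_lit 4) (nat_lit 1) (nat_lit 4) (nat_lit 387) (nat_lit 299) (nat_lit 214)) (XT.lf (nat_lit 0) (nat_lit 27980526450044) (nat_lit 152) (nat_lit 113388004664470) (nat_lit 0) (nat_lit 27976007539994) (nat_lit 1) (nat_lit 5) (nat_lit 3) (nat_lit 4) (nat_lit 1) (nat_lit 4) (nat_lit 388) (nat_lit 299) (nat_lit 213))) (XT.nd (nat_lit 78) (nat_lit 0) (nat_lit 0) (XT.lf (nat_lit 0) (nat_lit 32193758864417) (nat_lit 152) (nat_lit 130360694490318) (nat_lit 0) (nat_lit 32189239950815) (nat_lit 1) (nat_lit 5) (nat_lit 3) (nat_lit 4) (nat_lit 1) (nat_lit 4) (nat_lit 389) (nat_lit 299) (nat_lit 212)) (XT.nd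 (nat_lit 78) (nat_lit 0) (nat_lit 0) (XT.lf (nat_lit 0) (nat_lit 37038976116216) (nat_lit 152) (nat_lit 149879287842219) (nat_lit 0) (nat_lit 37034457199525) (nat_lit 1) (nat_lit 5) (nat_lit 3) (nat_lit 4) (nat_lit 1) (nat_lit 4) (nat_lit 390) (nat_lit 299) (nat_lit 211)) (XT.lf (nat_lit 0) (nat_lit 42610975934279) (nat_lit 152) (nat_lit 172325670242276) (nat_lit 0) (nat_lit 42606457014903) (nat_lit 1) (nat_lit 5) (nat_lit 3) (nat_lit 4) (nat_lit 1) (nat_lit 4) (nat_lit 391) (nat_lit 299) (nat_lit 210))))) (XT.nd (nat_lit 234) (nat_lit 0) (nat_lit 0) (XT.nd (nat_lit 78) (nat_lit 0) (nat_lit 0) (XT.lf (nat_lit 0) (nat_lit 49018775706352) (nat_lit 152) (nat_lit 198139010041796) (nat_lit 0) (nat_lit 49014256784642) (nat_lit 1) (nat_lit 5) (nat_lit 3) (nat_lit 4) (nat_lit 1) (nat_lit 4) (nat_lit 392) (nat_lit 299) (nat_lit 209)) (XT.nd (nat_lit 78) (nat_lit 0) (nat_lit 0) (XT.lf (nat_lit 0)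 (nat_lit 56387745427976) (nat_lit 152) (nat_lit 227824350845550) (nat_lit 0) (nat_lit 56383226504235) (nat_lit 1) (nat_lit 5) (nat_lit 3) (nat_lit 4) (nat_lit 1) (nat_lit 4) (nat_lit 393) (nat_lit 299) (nat_lit 208)) (XT.lf (nat_lit 0) (nat_lit 64862060593703) (nat_lit 152) (nat_lit 261962492799699) (nat_lit 0) (nat_lit 64857541668196) (nat_lit 1) (nat_lit 5) (nat_lit 3) (nat_lit 4) (nat_lit 1) (nat_lit 4) (nat_lit 394) (nat_lit 299) (nat_lit 207)))) (XT.nd (nat_lit 39468) (nat_lit 0) (nat_lit 2888) (XT.lf (nat_lit 0) (nat_lit 74607523021994) (nat_lit 152) (nat_lit 301221356072912) (nat_lit 0) (nat_lit 74603004094952) (nat_lit 1) (nat_lit 5) (nat_lit 3) (nat_lit 4) (nat_lit 1) (nat_lit 4) (nat_lit 395) (nat_lit 299) (nat_lit 206)) (XT.nd (nat_lit 78) (nat_lit 76) (nat_lit 0) (XT.lf (nat_lit 0) (nat_lit 1073741823) (nat_lit 0) (nat_lit 0) (nat_lit 0) (nat_lit 0) (nat_lit 40) (nat_lit 0)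 (nat_lit 1) (nat_lit 0) (nat_lit 1) (nat_lit 0) (nat_lit 300) (nat_lit 300) (nat_lit 300)) (XT.lf (nat_lit 0) (nat_lit 3022996725) (nat_lit 76) (nat_lit 3159170530) (nat_lit 0) (nat_lit 280753475) (nat_lit 39) (nat_lit 5) (nat_lit 40) (nat_lit 0) (nat_lit 39) (nat_lit 4) (nat_lit 301) (nat_lit 300) (nat_lit 299)))))) (XT.nd (nat_lit 390) (nat_lit 836) (nat_lit 0) (XT.nd (nat_lit 156) (nat_lit 456) (nat_lit 0) (XT.nd (nat_lit 78) (nat_lit 76) (nat_lit 0) (XT.lf (nat_lit 0) (nat_lit 280431825) (nat_lit 76) (nat_lit 5705736285) (nat_lit 76) (nat_lit 578933687) (nat_lit 38) (nat_lit 4) (nat_lit 39) (nat_lit 5) (nat_lit 39) (nat_lit 4) (nat_lit 302) (nat_lit 300) (nat_lit 298)) (XT.lf (nat_lit 0) (nat_lit 2148418677) (nat_lit 152) (nat_lit 2581232307) (nat_lit 76) (nat_lit 1985579019) (nat_lit 37) (nat_lit 5) (nat_lit 39) (nat_lit 5) (nat_lit 38) (nat_lit 4) (nat_lit 303) (nat_lit 300) (nat_lit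 297))) (XT.nd (nat_lit 78) (nat_lit 304) (nat_lit 0) (XT.lf (nat_lit 0) (nat_lit 1435053456) (nat_lit 152) (nat_lit 3420042064) (nat_lit 228) (nat_lit 2085307296) (nat_lit 35) (nat_lit 5) (nat_lit 37) (nat_lit 5) (nat_lit 38) (nat_lit 4) (nat_lit 304) (nat_lit 300) (nat_lit 296)) (XT.nd (nat_lit 78) (nat_lit 228) (nat_lit 0) (XT.lf (nat_lit 0) (nat_lit 434655234) (nat_lit 228) (nat_lit 1241318845) (nat_lit 76) (nat_lit 5559228323) (nat_lit 34) (nat_lit 5) (nat_lit 37) (nat_lit 5) (nat_lit 35) (nat_lit 5) (nat_lit 305) (nat_lit 300) (nat_lit 295)) (XT.lf (nat_lit 0) (nat_lit 2939671974) (nat_lit 304) (nat_lit 4057677376) (nat_lit 76) (nat_lit 589607349) (nat_lit 31) (nat_lit 5) (nat_lit 35) (nat_lit 5) (nat_lit 32) (nat_lit 4) (nat_lit 306) (nat_lit 300) (nat_lit 294))))) (XT.nd (nat_lit 234) (nat_lit 304) (nat_lit 0) (XT.nd (nat_lit 78) (nat_lit 228) (nat_lit 0) (XT.lf (nat_lit 0) (nat_lit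 807655388) (nat_lit 304) (nat_lit 4874455457) (nat_lit 380) (nat_lit 2330732990) (nat_lit 27) (nat_lit 5) (nat_lit 31) (nat_lit 5) (nat_lit 32) (nat_lit 4) (nat_lit 307) (nat_lit 300) (nat_lit 293)) (XT.nd (nat_lit 78) (nat_lit 152) (nat_lit 0) (XT.lf (nat_lit 0) (nat_lit 219551479) (nat_lit 380) (nat_lit 2004750804) (nat_lit 76) (nat_lit 6289322063) (nat_lit 26) (nat_lit 5) (nat_lit 31) (nat_lit 5) (nat_lit 27) (nat_lit 5) (nat_lit 308) (nat_lit 300) (nat_lit 292)) (XT.lf (nat_lit 0) (nat_lit 2853310887) (nat_lit 228) (nat_lit 5243506630) (nat_lit 76) (nat_lit 985530834) (nat_lit 24) (nat_lit 5) (nat_lit 27) (nat_lit 5) (nat_lit 25) (nat_lit 4) (nat_lit 309) (nat_lit 300) (nat_lit 291)))) (XT.nd (nat_lit 78) (nat_lit 228) (nat_lit 0) (XT.lf (nat_lit 0) (nat_lit 671921502) (nat_lit 76) (nat_lit 5206903214) (nat_lit 152) (nat_lit 3858407231) (nat_lit 23) (nat_lit 5) (nat_lit 24) (nat_lit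 5) (nat_lit 25) (nat_lit 4) (nat_lit 310) (nat_lit 300) (nat_lit 290)) (XT.nd (nat_lit 78) (nat_lit 228) (nat_lit 0) (XT.lf (nat_lit 0) (nat_lit 7738838449) (nat_lit 76) (nat_lit 1665317345) (nat_lit 152) (nat_lit 1079602083) (nat_lit 23) (nat_lit 5) (nat_lit 24) (nat_lit 5) (nat_lit 25) (nat_lit 4) (nat_lit 311) (nat_lit 300) (nat_lit 289)) (XT.lf (nat_lit 0) (nat_lit 2016311759) (nat_lit 228) (nat_lit 6904745110) (nat_lit 76) (nat_lit 2394995306) (nat_lit 20) (nat_lit 5) (nat_lit 23) (nat_lit 5) (nat_lit 21) (nat_lit 4) (nat_lit 312) (nat_lit 300) (nat_lit 288))))))))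
noncomputable def xc47 : XT := (XT.nd (nat_lit 1716) (nat_lit 228) (nat_lit 0) (XT.nd (nat_lit 858) (nat_lit 532) (nat_lit 0) (XT.nd (nat_lit 390) (nat_lit 380) (nat_lit 0) (XT.nd (nat_lit 156) (nat_lit 228) (nat_lit 0) (XT.nd (nat_lit 78) (nat_lit 0) (nat_lit 0) (XT.lf (nat_lit 0) (nat_lit 269619967) (nat_lit 76) (nat_lit 5240353024) (nat_lit 152) (nat_lit 6749125257) (nat_lit 19) (nat_lit 5) (nat_lit 20) (nat_lit 5) (nat_lit 21) (nat_lit 4) (nat_lit 313) (nat_lit 300) (nat_lit 287)) (XT.lf (nat_lit 0) (nat_lit 8995808916) (nat_lit 76) (nat_lit 709158560) (nat_lit 152) (nat_lit 3612217428) (nat_lit 19) (nat_lit 5) (nat_lit 20) (nat_lit 5) (nat_lit 21) (nat_lit 4) (nat_lit 314) (nat_lit 300) (nat_lit 286))) (XT.nd (nat_lit 78) (nat_lit 76) (nat_lit 0) (XT.lf (nat_lit 0) (nat_lit 210976603) (nat_lit 152) (nat_lit 10089614689) (nat_lit 76) (nat_lit 4201257451) (nat_lit 17) (nat_lit 5) (nat_lit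 19) (nat_lit 5) (nat_lit 18) (nat_lit 4) (nat_lit 315) (nat_lit 300) (nat_lit 285)) (XT.nd (nat_lit 78) (nat_lit 76) (nat_lit 0) (XT.lf (nat_lit 0) (nat_lit 4347181600) (nat_lit 152) (nat_lit 1389458547) (nat_lit 76) (nat_lit 10085483248) (nat_lit 17) (nat_lit 5) (nat_lit 19) (nat_lit 5) (nat_lit 18) (nat_lit 4) (nat_lit 316) (nat_lit 300) (nat_lit 284)) (XT.lf (nat_lit 0) (nat_lit 9186484748) (nat_lit 76) (nat_lit 157671328) (nat_lit 152) (nat_lit 7960333150) (nat_lit 16) (nat_lit 5) (nat_lit 17) (nat_lit 5) (nat_lit 18) (nat_lit 4) (nat_lit 317) (nat_lit 300) (nat_lit 283))))) (XT.nd (nat_lit 234) (nat_lit 152) (nat_lit 0) (XT.nd (nat_lit 78) (nat_lit 152) (nat_lit 0) (XT.lf (nat_lit 0) (nat_lit 2187456519) (nat_lit 76) (nat_lit 13193152985) (nat_lit 76) (nat_lit 3585198152) (nat_lit 15) (nat_lit 4) (nat_lit 16) (nat_lit 5) (nat_lit 16) (nat_lit 4) (nat_lit 318) (nat_lit 300) (nat_lit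 282)) (XT.nd (nat_lit 78) (nat_lit 76) (nat_lit 0) (XT.lf (nat_lit 0) (nat_lit 1635269221) (nat_lit 152) (nat_lit 6202294053) (nat_lit 76) (nat_lit 12982172174) (nat_lit 14) (nat_lit 5) (nat_lit 16) (nat_lit 5) (nat_lit 15) (nat_lit 4) (nat_lit 319) (nat_lit 300) (nat_lit 281)) (XT.lf (nat_lit 0) (nat_lit 6113627206) (nat_lit 76) (nat_lit 1294534833) (nat_lit 152) (nat_lit 15497577737) (nat_lit 13) (nat_lit 5) (nat_lit 14) (nat_lit 5) (nat_lit 15) (nat_lit 4) (nat_lit 320) (nat_lit 300) (nat_lit 280)))) (XT.nd (nat_lit 78) (nat_lit 152) (nat_lit 0) (XT.lf (nat_lit 0) (nat_lit 14530257873) (nat_lit 152) (nat_lit 4777970538) (nat_lit 0) (nat_lit 5923976090) (nat_lit 13) (nat_lit 5) (nat_lit 15) (nat_lit 4) (nat_lit 13) (nat_lit 4) (nat_lit 321) (nat_lit 300) (nat_lit 279)) (XT.nd (nat_lit 78) (nat_lit 76) (nat_lit 0) (XT.lf (nat_lit 0) (nat_lit 9641487217) (nat_lit 76) (nat_lit 13440624716)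 (nat_lit 76) (nat_lit 4771353995) (nat_lit 12) (nat_lit 4) (nat_lit 13) (nat_lit 5) (nat_lit 13) (nat_lit 4) (nat_lit 322) (nat_lit 300) (nat_lit 278)) (XT.lf (nat_lit 0) (nat_lit 2029448251) (nat_lit 152) (nat_lit 4360729970) (nat_lit 76) (nat_lit 24440592436) (nat_lit 11) (nat_lit 5) (nat_lit 13) (nat_lit 5) (nat_lit 12) (nat_lit 4) (nat_lit 323) (nat_lit 300) (nat_lit 277)))))) (XT.nd (nat_lit 390) (nat_lit 228) (nat_lit 0) (XT.nd (nat_lit 156) (nat_lit 228) (nat_lit 0) (XT.nd (nat_lit 78) (nat_lit 0) (nat_lit 0) (XT.lf (nat_lit 0) (nat_lit 9886612142) (nat_lit 152) (nat_lit 21996225014) (nat_lit 0) (nat_lit 2259070927) (nat_lit 10) (nat_lit 5) (nat_lit 12) (nat_lit 4) (nat_lit 10) (nat_lit 4) (nat_lit 324) (nat_lit 300) (nat_lit 276)) (XT.lf (nat_lit 0) (nat_lit 19380871240) (nat_lit 152) (nat_lit 6782775810) (nat_lit 0) (nat_lit 11717315895) (nat_lit 10) (nat_lit 5) (nat_lit 12) (nat_lit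 4) (nat_lit 10) (nat_lit 4) (nat_lit 325) (nat_lit 300) (nat_lit 275))) (XT.nd (nat_lit 78) (nat_lit 152) (nat_lit 0) (XT.lf (nat_lit 0) (nat_lit 11597103760) (nat_lit 76) (nat_lit 19108832900) (nat_lit 76) (nat_lit 11413960920) (nat_lit 9) (nat_lit 4) (nat_lit 10) (nat_lit 5) (nat_lit 10) (nat_lit 4) (nat_lit 326) (nat_lit 300) (nat_lit 274)) (XT.nd (nat_lit 78) (nat_lit 152) (nat_lit 0) (XT.lf (nat_lit 0) (nat_lit 33354944545) (nat_lit 76) (nat_lit 10659568903) (nat_lit 76) (nat_lit 2937465068) (nat_lit 9) (nat_lit 4) (nat_lit 10) (nat_lit 5) (nat_lit 10) (nat_lit 4) (nat_lit 327) (nat_lit 300) (nat_lit 273)) (XT.lf (nat_lit 0) (nat_lit 5989717185) (nat_lit 76) (nat_lit 398887882) (nat_lit 152) (nat_lit 46050316771) (nat_lit 7) (nat_lit 5) (nat_lit 8) (nat_lit 5) (nat_lit 9) (nat_lit 4) (nat_lit 328) (nat_lit 300) (nat_lit 272))))) (XT.nd (nat_lit 234) (nat_lit 152) (nat_lit 0) (XT.nd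 (nat_lit 78) (nat_lit 76) (nat_lit 0) (XT.lf (nat_lit 0) (nat_lit 17966519446) (nat_lit 152) (nat_lit 29375216613) (nat_lit 0) (nat_lit 11213149962) (nat_lit 7) (nat_lit 5) (nat_lit 9) (nat_lit 4) (nat_lit 7) (nat_lit 4) (nat_lit 329) (nat_lit 300) (nat_lit 271)) (XT.nd (nat_lit 78) (nat_lit 76) (nat_lit 0) (XT.lf (nat_lit 0) (nat_lit 31245322558) (nat_lit 152) (nat_lit 9871919637) (nat_lit 0) (nat_lit 24476383172) (nat_lit 7) (nat_lit 5) (nat_lit 9) (nat_lit 4) (nat_lit 7) (nat_lit 4) (nat_lit 330) (nat_lit 300) (nat_lit 270)) (XT.lf (nat_lit 0) (nat_lit 13676353146) (nat_lit 76) (nat_lit 33358255448) (nat_lit 76) (nat_lit 26575777017) (nat_lit 6) (nat_lit 4) (nat_lit 7) (nat_lit 5) (nat_lit 7) (nat_lit 4) (nat_lit 331) (nat_lit 300) (nat_lit 269)))) (XT.nd (nat_lit 78) (nat_lit 152) (nat_lit 0) (XT.lf (nat_lit 0) (nat_lit 41772712014) (nat_lit 76) (nat_lit 23890299472) (nat_lit 76) (nat_lit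 17096047958) (nat_lit 6) (nat_lit 4) (nat_lit 7) (nat_lit 5) (nat_lit 7) (nat_lit 4) (nat_lit 332) (nat_lit 300) (nat_lit 268)) (XT.nd (nat_lit 78) (nat_lit 152) (nat_lit 0) (XT.lf (nat_lit 0) (nat_lit 74002112551) (nat_lit 76) (nat_lit 13044163814) (nat_lit 76) (nat_lit 6239674837) (nat_lit 6) (nat_lit 4) (nat_lit 7) (nat_lit 5) (nat_lit 7) (nat_lit 4) (nat_lit 333) (nat_lit 300) (nat_lit 267)) (XT.lf (nat_lit 0) (nat_lit 5863116491) (nat_lit 76) (nat_lit 32933560) (nat_lit 152) (nat_lit 99426009856) (nat_lit 4) (nat_lit 5) (nat_lit 5) (nat_lit 5) (nat_lit 6) (nat_lit 4) (nat_lit 334) (nat_lit 300) (nat_lit 266))))))) (XT.nd (nat_lit 858) (nat_lit 152) (nat_lit 0) (XT.nd (nat_lit 390) (nat_lit 0) (nat_lit 0) (XT.nd (nat_lit 156) (nat_lit 76) (nat_lit 0) (XT.nd (nat_lit 78) (nat_lit 0) (nat_lit 0) (XT.lf (nat_lit 0) (nat_lit 20851873960) (nat_lit 152) (nat_lit 83100907157) (nat_lit 0)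 (nat_lit 14920454731) (nat_lit 4) (nat_lit 5) (nat_lit 6) (nat_lit 4) (nat_lit 4) (nat_lit 4) (nat_lit 335) (nat_lit 300) (nat_lit 265)) (XT.lf (nat_lit 0) (nat_lit 38021618605) (nat_lit 152) (nat_lit 64355545478) (nat_lit 0) (nat_lit 32084346074) (nat_lit 4) (nat_lit 5) (nat_lit 6) (nat_lit 4) (nat_lit 4) (nat_lit 4) (nat_lit 336) (nat_lit 300) (nat_lit 264))) (XT.nd (nat_lit 78) (nat_lit 76) (nat_lit 0) (XT.lf (nat_lit 0) (nat_lit 57739850065) (nat_lit 152) (nat_lit 42854737595) (nat_lit 0) (nat_lit 51797487705) (nat_lit 4) (nat_lit 5) (nat_lit 6) (nat_lit 4) (nat_lit 4) (nat_lit 4) (nat_lit 337) (nat_lit 300) (nat_lit 263)) (XT.nd (nat_lit 78) (nat_lit 76) (nat_lit 0) (XT.lf (nat_lit 0) (nat_lit 80392359825) (nat_lit 152) (nat_lit 18177815528) (nat_lit 0) (nat_lit 74445571527) (nat_lit 4) (nat_lit 5) (nat_lit 6) (nat_lit 4) (nat_lit 4) (nat_lit 4) (nat_lit 338) (nat_lit 300) (nat_lit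 262)) (XT.lf (nat_lit 0) (nat_lit 11150746643) (nat_lit 76) (nat_lit 95733331158) (nat_lit 76) (nat_lit 89782694219) (nat_lit 3) (nat_lit 4) (nat_lit 4) (nat_lit 5) (nat_lit 4) (nat_lit 4) (nat_lit 339) (nat_lit 300) (nat_lit 261))))) (XT.nd (nat_lit 234) (nat_lit 0) (nat_lit 0) (XT.nd (nat_lit 78) (nat_lit 0) (nat_lit 0) (XT.lf (nat_lit 0) (nat_lit 46880853982) (nat_lit 76) (nat_lit 91399482686) (nat_lit 76) (nat_lit 85445499101) (nat_lit 3) (nat_lit 4) (nat_lit 4) (nat_lit 5) (nat_lit 4) (nat_lit 4) (nat_lit 340) (nat_lit 300) (nat_lit 260)) (XT.nd (nat_lit 78) (nat_lit 0) (nat_lit 0) (XT.lf (nat_lit 0) (nat_lit 87935105469) (nat_lit 76) (nat_lit 86434041241) (nat_lit 76) (nat_lit 80477147531) (nat_lit 3) (nat_lit 4) (nat_lit 4) (nat_lit 5) (nat_lit 4) (nat_lit 4) (nat_lit 341) (nat_lit 300) (nat_lit 259)) (XT.lf (nat_lit 0) (nat_lit 135116736460) (nat_lit 76) (nat_lit 80739856883) (nat_lit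 76) (nat_lit 74780432628) (nat_lit 3) (nat_lit 4) (nat_lit 4) (nat_lit 5) (nat_lit 4) (nat_lit 4) (nat_lit 342) (nat_lit 300) (nat_lit 258)))) (XT.nd (nat_lit 78) (nat_lit 0) (nat_lit 0) (XT.lf (nat_lit 0) (nat_lit 189348865822) (nat_lit 76) (nat_lit 74205521657) (nat_lit 76) (nat_lit 68243896929) (nat_lit 3) (nat_lit 4) (nat_lit 4) (nat_lit 5) (nat_lit 4) (nat_lit 4) (nat_lit 343) (nat_lit 300) (nat_lit 257)) (XT.nd (nat_lit 78) (nat_lit 0) (nat_lit 0) (XT.lf (nat_lit 0) (nat_lit 251692556954) (nat_lit 76) (nat_lit 66703189874) (nat_lit 76) (nat_lit 60739651691) (nat_lit 3) (nat_lit 4) (nat_lit 4) (nat_lit 5) (nat_lit 4) (nat_lit 4) (nat_lit 344) (nat_lit 300) (nat_lit 256)) (XT.lf (nat_lit 0) (nat_lit 323367577729) (nat_lit 76) (nat_lit 58086076781) (nat_lit 76) (nat_lit 52120874724) (nat_lit 3) (nat_lit 4) (nat_lit 4) (nat_lit 5) (nat_lit 4) (nat_lit 4) (nat_lit 345) (nat_lit 300) (nat_lit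 255)))))) (XT.nd (nat_lit 468) (nat_lit 0) (nat_lit 0) (XT.nd (nat_lit 234) (nat_lit 152) (nat_lit 0) (XT.nd (nat_lit 78) (nat_lit 0) (nat_lit 0) (XT.lf (nat_lit 0) (nat_lit 405776265507) (nat_lit 76) (nat_lit 48185586688) (nat_lit 76) (nat_lit 42218937784) (nat_lit 3) (nat_lit 4) (nat_lit 4) (nat_lit 5) (nat_lit 4) (nat_lit 4) (nat_lit 346) (nat_lit 300) (nat_lit 254)) (XT.nd (nat_lit 78) (nat_lit 0) (nat_lit 0) (XT.lf (nat_lit 0) (nat_lit 500530964181) (nat_lit 76) (nat_lit 36808014353) (nat_lit 76) (nat_lit 30840107321) (nat_lit 3) (nat_lit 4) (nat_lit 4) (nat_lit 5) (nat_lit 4) (nat_lit 4) (nat_lit 347) (nat_lit 300) (nat_lit 253)) (XT.lf (nat_lit 0) (nat_lit 609485570030) (nat_lit 76) (nat_lit 23730755101) (nat_lit 76) (nat_lit 17761754044) (nat_lit 3) (nat_lit 4) (nat_lit 4) (nat_lit 5) (nat_lit 4) (nat_lit 4) (nat_lit 348) (nat_lit 300) (nat_lit 252)))) (XT.nd (nat_lit 78) (nat_lit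 152) (nat_lit 0) (XT.lf (nat_lit 0) (nat_lit 734771803601) (nat_lit 76) (nat_lit 8697949511) (nat_lit 76) (nat_lit 2727997129) (nat_lit 3) (nat_lit 4) (nat_lit 4) (nat_lit 5) (nat_lit 4) (nat_lit 4) (nat_lit 349) (nat_lit 300) (nat_lit 251)) (XT.nd (nat_lit 78) (nat_lit 0) (nat_lit 0) (XT.lf (nat_lit 0) (nat_lit 14716851682) (nat_lit 152) (nat_lit 831150361452) (nat_lit 0) (nat_lit 9524869403) (nat_lit 1) (nat_lit 5) (nat_lit 3) (nat_lit 4) (nat_lit 1) (nat_lit 4) (nat_lit 350) (nat_lit 300) (nat_lit 250)) (XT.lf (nat_lit 0) (nat_lit 35534018556) (nat_lit 152) (nat_lit 914915417242) (nat_lit 0) (nat_lit 30341410765) (nat_lit 1) (nat_lit 5) (nat_lit 3) (nat_lit 4) (nat_lit 1) (nat_lit 4) (nat_lit 351) (nat_lit 300) (nat_lit 249))))) (XT.nd (nat_lit 234) (nat_lit 0) (nat_lit 0) (XT.nd (nat_lit 78) (nat_lit 0) (nat_lit 0) (XT.lf (nat_lit 0) (nat_lit 59469404817) (nat_lit 152) (nat_lit 1011254420996)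 (nat_lit 0) (nat_lit 54276253103) (nat_lit 1) (nat_lit 5) (nat_lit 3) (nat_lit 4) (nat_lit 1) (nat_lit 4) (nat_lit 352) (nat_lit 300) (nat_lit 248)) (XT.nd (nat_lit 78) (nat_lit 0) (nat_lit 0) (XT.lf (nat_lit 0) (nat_lit 86991311502) (nat_lit 152) (nat_lit 1122052266264) (nat_lit 0) (nat_lit 81797686811) (nat_lit 1) (nat_lit 5) (nat_lit 3) (nat_lit 4) (nat_lit 1) (nat_lit 4) (nat_lit 353) (nat_lit 300) (nat_lit 247)) (XT.lf (nat_lit 0) (nat_lit 118638210698) (nat_lit 152) (nat_lit 1249476736976) (nat_lit 0) (nat_lit 113444174722) (nat_lit 1) (nat_lit 5) (nat_lit 3) (nat_lit 4) (nat_lit 1) (nat_lit 4) (nat_lit 354) (nat_lit 300) (nat_lit 246)))) (XT.nd (nat_lit 78) (nat_lit 0) (nat_lit 0) (XT.lf (nat_lit 0) (nat_lit 155029280866) (nat_lit 152) (nat_lit 1396020920602) (nat_lit 0) (nat_lit 149834887252) (nat_lit 1) (nat_lit 5) (nat_lit 3) (nat_lit 4) (nat_lit 1) (nat_lit 4) (nat_lit 355)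 (nat_lit 300) (nat_lit 245)) (XT.nd (nat_lit 78) (nat_lit 0) (nat_lit 0) (XT.lf (nat_lit 0) (nat_lit 196876521207) (nat_lit 152) (nat_lit 1564551985951) (nat_lit 0) (nat_lit 191681816603) (nat_lit 1) (nat_lit 5) (nat_lit 3) (nat_lit 4) (nat_lit 1) (nat_lit 4) (nat_lit 356) (nat_lit 300) (nat_lit 244)) (XT.lf (nat_lit 0) (nat_lit 244998682074) (nat_lit 152) (nat_lit 1758367279956) (nat_lit 0) (nat_lit 239803707044) (nat_lit 1) (nat_lit 5) (nat_lit 3) (nat_lit 4) (nat_lit 1) (nat_lit 4) (nat_lit 357) (nat_lit 300) (nat_lit 243))))))))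
noncomputable def xc48 : XT := (XT.nd (nat_lit 1716) (nat_lit 0) (nat_lit 0) (XT.nd (nat_lit 858) (nat_lit 0) (nat_lit 0) (XT.nd (nat_lit 390) (nat_lit 0) (nat_lit 0) (XT.nd (nat_lit 156) (nat_lit 0) (nat_lit 0) (XT.nd (nat_lit 78) (nat_lit 0) (nat_lit 0) (XT.lf (nat_lit 0) (nat_lit 300337284007) (nat_lit 152) (nat_lit 1981258840976) (nat_lit 0) (nat_lit 295142073824) (nat_lit 1) (nat_lit 5) (nat_lit 3) (nat_lit 4) (nat_lit 1) (nat_lit 4) (nat_lit 358) (nat_lit 300) (nat_lit 242)) (XT.lf (nat_lit 0) (nat_lit 363975038782) (nat_lit 152) (nat_lit 2237587590859) (nat_lit 0) (nat_lit 358779624118) (nat_lit 1) (nat_lit 5) (nat_lit 3) (nat_lit 4) (nat_lit 1) (nat_lit 4) (nat_lit 359) (nat_lit 300) (nat_lit 241))) (XT.nd (nat_lit 78) (nat_lit 0) (nat_lit 0) (XT.lf (nat_lit 0) (nat_lit 437157032905) (nat_lit 152) (nat_lit 2532368657318) (nat_lit 0) (nat_lit 431961440432) (nat_lit 1) (nat_lit 5)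 (nat_lit 3) (nat_lit 4) (nat_lit 1) (nat_lit 4) (nat_lit 360) (nat_lit 300) (nat_lit 240)) (XT.nd (nat_lit 78) (nat_lit 0) (nat_lit 0) (XT.lf (nat_lit 0) (nat_lit 521315088002) (nat_lit 152) (nat_lit 2871369496002) (nat_lit 0) (nat_lit 516119340911) (nat_lit 1) (nat_lit 5) (nat_lit 3) (nat_lit 4) (nat_lit 1) (nat_lit 4) (nat_lit 361) (nat_lit 300) (nat_lit 239)) (XT.lf (nat_lit 0) (nat_lit 618095774714) (nat_lit 152) (nat_lit 3261222732016) (nat_lit 0) (nat_lit 612899893174) (nat_lit 1) (nat_lit 5) (nat_lit 3) (nat_lit 4) (nat_lit 1) (nat_lit 4) (nat_lit 362) (nat_lit 300) (nat_lit 238))))) (XT.nd (nat_lit 234) (nat_lit 0) (nat_lit 0) (XT.nd (nat_lit 78) (nat_lit 0) (nat_lit 0) (XT.lf (nat_lit 0) (nat_lit 729392628218) (nat_lit 152) (nat_lit 3709555928673) (nat_lit 0) (nat_lit 724196629765) (nat_lit 1) (nat_lit 5) (nat_lit 3) (nat_lit 4) (nat_lit 1) (nat_lit 4) (nat_lit 363) (nat_lit 300)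 (nat_lit 237)) (XT.nd (nat_lit 78) (nat_lit 0) (nat_lit 0) (XT.lf (nat_lit 0) (nat_lit 857383195645) (nat_lit 152) (nat_lit 4225140822430) (nat_lit 0) (nat_lit 852187095530) (nat_lit 1) (nat_lit 5) (nat_lit 3) (nat_lit 4) (nat_lit 1) (nat_lit 4) (nat_lit 364) (nat_lit 300) (nat_lit 236)) (XT.lf (nat_lit 0) (nat_lit 1004571640274) (nat_lit 152) (nat_lit 4818064943816) (nat_lit 0) (nat_lit 999375451755) (nat_lit 1) (nat_lit 5) (nat_lit 3) (nat_lit 4) (nat_lit 1) (nat_lit 4) (nat_lit 365) (nat_lit 300) (nat_lit 235)))) (XT.nd (nat_lit 78) (nat_lit 0) (nat_lit 0) (XT.lf (nat_lit 0) (nat_lit 1173837736019) (nat_lit 152) (nat_lit 5499928982162) (nat_lit 0) (nat_lit 1168641470629) (nat_lit 1) (nat_lit 5) (nat_lit 3) (nat_lit 4) (nat_lit 1) (nat_lit 4) (nat_lit 366) (nat_lit 300) (nat_lit 234)) (XT.nd (nat_lit 78) (nat_lit 0) (nat_lit 0) (XT.lf (nat_lit 0) (nat_lit 1368493210842) (nat_lit 152)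 (nat_lit 6284073755612) (nat_lit 0) (nat_lit 1363296878606) (nat_lit 1) (nat_lit 5) (nat_lit 3) (nat_lit 4) (nat_lit 1) (nat_lit 4) (nat_lit 367) (nat_lit 300) (nat_lit 233)) (XT.lf (nat_lit 0) (nat_lit 1592346541423) (nat_lit 152) (nat_lit 7185841227122) (nat_lit 0) (nat_lit 1587150151061) (nat_lit 1) (nat_lit 5) (nat_lit 3) (nat_lit 4) (nat_lit 1) (nat_lit 4) (nat_lit 368) (nat_lit 300) (nat_lit 232)))))) (XT.nd (nat_lit 390) (nat_lit 0) (nat_lit 0) (XT.nd (nat_lit 156) (nat_lit 0) (nat_lit 0) (XT.nd (nat_lit 78) (nat_lit 0) (nat_lit 0) (XT.lf (nat_lit 0) (nat_lit 1849777466839) (nat_lit 152) (nat_lit 8222874673310) (nat_lit 0) (nat_lit 1844581025933) (nat_lit 1) (nat_lit 5) (nat_lit 3) (nat_lit 4) (nat_lit 1) (nat_lit 4) (nat_lit 369) (nat_lit 300) (nat_lit 231)) (XT.lf (nat_lit 0) (nat_lit 2145822679110) (nat_lit 152) (nat_lit 9415463878993) (nat_lit 0) (nat_lit 2140626194252) (nat_lit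 1) (nat_lit 5) (nat_lit 3) (nat_lit 4) (nat_lit 1) (nat_lit 4) (nat_lit 370) (nat_lit 300) (nat_lit 230))) (XT.nd (nat_lit 78) (nat_lit 0) (nat_lit 0) (XT.lf (nat_lit 0) (nat_lit 2486274367170) (nat_lit 152) (nat_lit 10786942111238) (nat_lit 0) (nat_lit 2481077844093) (nat_lit 1) (nat_lit 5) (nat_lit 3) (nat_lit 4) (nat_lit 1) (nat_lit 4) (nat_lit 371) (nat_lit 300) (nat_lit 229)) (XT.nd (nat_lit 78) (nat_lit 0) (nat_lit 0) (XT.lf (nat_lit 0) (nat_lit 2877793542309) (nat_lit 152) (nat_lit 12364142639806) (nat_lit 0) (nat_lit 2872596985998) (nat_lit 1) (nat_lit 5) (nat_lit 3) (nat_lit 4) (nat_lit 1) (nat_lit 4) (nat_lit 372) (nat_lit 300) (nat_lit 228)) (XT.lf (nat_lit 0) (nat_lit 3328040362300) (nat_lit 152) (nat_lit 14177923735909) (nat_lit 0) (nat_lit 3322843777090) (nat_lit 1) (nat_lit 5) (nat_lit 3) (nat_lit 4) (nat_lit 1) (nat_lit 4) (nat_lit 373) (nat_lit 300) (nat_lit 227))))) (XT.nd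 (nat_lit 234) (nat_lit 0) (nat_lit 0) (XT.nd (nat_lit 78) (nat_lit 0) (nat_lit 0) (XT.lf (nat_lit 0) (nat_lit 3845824004056) (nat_lit 152) (nat_lit 16263772420992) (nat_lit 0) (nat_lit 3840627393717) (nat_lit 1) (nat_lit 5) (nat_lit 3) (nat_lit 4) (nat_lit 1) (nat_lit 4) (nat_lit 374) (nat_lit 300) (nat_lit 226)) (XT.nd (nat_lit 78) (nat_lit 0) (nat_lit 0) (XT.lf (nat_lit 0) (nat_lit 4441275017091) (nat_lit 152) (nat_lit 18662498778025) (nat_lit 0) (nat_lit 4436078384899) (nat_lit 1) (nat_lit 5) (nat_lit 3) (nat_lit 4) (nat_lit 1) (nat_lit 4) (nat_lit 375) (nat_lit 300) (nat_lit 225)) (XT.lf (nat_lit 0) (nat_lit 5126043529919) (nat_lit 152) (nat_lit 21421034409644) (nat_lit 0) (nat_lit 5120846878726) (nat_lit 1) (nat_lit 5) (nat_lit 3) (nat_lit 4) (nat_lit 1) (nat_lit 4) (nat_lit 376) (nat_lit 300) (nat_lit 224)))) (XT.nd (nat_lit 78) (nat_lit 0) (nat_lit 0) (XT.lf (nat_lit 0) (nat_lit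 5913527187357) (nat_lit 152) (nat_lit 24593350665164) (nat_lit 0) (nat_lit 5908330519641) (nat_lit 1) (nat_lit 5) (nat_lit 3) (nat_lit 4) (nat_lit 1) (nat_lit 4) (nat_lit 377) (nat_lit 300) (nat_lit 223)) (XT.nd (nat_lit 78) (nat_lit 0) (nat_lit 0) (XT.lf (nat_lit 0) (nat_lit 6819133278356) (nat_lit 152) (nat_lit 28241514601758) (nat_lit 0) (nat_lit 6813936596272) (nat_lit 1) (nat_lit 5) (nat_lit 3) (nat_lit 4) (nat_lit 1) (nat_lit 4) (nat_lit 378) (nat_lit 300) (nat_lit 222)) (XT.lf (nat_lit 0) (nat_lit 7860580182955) (nat_lit 152) (nat_lit 32436903339925) (nat_lit 0) (nat_lit 7855383488377) (nat_lit 1) (nat_lit 5) (nat_lit 3) (nat_lit 4) (nat_lit 1) (nat_lit 4) (nat_lit 379) (nat_lit 300) (nat_lit 221))))))) (XT.nd (nat_lit 858) (nat_lit 0) (nat_lit 0) (XT.nd (nat_lit 390) (nat_lit 0) (nat_lit 0) (XT.nd (nat_lit 156) (nat_lit 0) (nat_lit 0) (XT.nd (nat_lit 78) (nat_lit 0) (nat_lit 0)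 (XT.lf (nat_lit 0) (nat_lit 9058244036246) (nat_lit 152) (nat_lit 37261600572368) (nat_lit 0) (nat_lit 9053047330804) (nat_lit 1) (nat_lit 5) (nat_lit 3) (nat_lit 4) (nat_lit 1) (nat_lit 4) (nat_lit 380) (nat_lit 300) (nat_lit 220)) (XT.lf (nat_lit 0) (nat_lit 10435557391880) (nat_lit 152) (nat_lit 42810002549287) (nat_lit 0) (nat_lit 10430360676990) (nat_lit 1) (nat_lit 5) (nat_lit 3) (nat_lit 4) (nat_lit 1) (nat_lit 4) (nat_lit 381) (nat_lit 300) (nat_lit 219))) (XT.nd (nat_lit 78) (nat_lit 0) (nat_lit 0) (XT.lf (nat_lit 0) (nat_lit 12019467685074) (nat_lit 152) (nat_lit 49190664961535) (nat_lit 0) (nat_lit 12014270961970) (nat_lit 1) (nat_lit 5) (nat_lit 3) (nat_lit 4) (nat_lit 1) (nat_lit 4) (nat_lit 382) (nat_lit 300) (nat_lit 218)) (XT.nd (nat_lit 78) (nat_lit 0) (nat_lit 0) (XT.lf (nat_lit 0) (nat_lit 13840964465046) (nat_lit 152) (nat_lit 56528426856307) (nat_lit 0) (nat_lit 13835767734798)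 (nat_lit 1) (nat_lit 5) (nat_lit 3) (nat_lit 4) (nat_lit 1) (nat_lit 4) (nat_lit 383) (nat_lit 300) (nat_lit 217)) (XT.lf (nat_lit 0) (nat_lit 15935685712270) (nat_lit 152) (nat_lit 64966853140242) (nat_lit 0) (nat_lit 15930488975811) (nat_lit 1) (nat_lit 5) (nat_lit 3) (nat_lit 4) (nat_lit 1) (nat_lit 4) (nat_lit 384) (nat_lit 300) (nat_lit 216))))) (XT.nd (nat_lit 234) (nat_lit 0) (nat_lit 0) (XT.nd (nat_lit 78) (nat_lit 0) (nat_lit 0) (XT.lf (nat_lit 0) (nat_lit 18344615103325) (nat_lit 152) (nat_lit 74671043458024) (nat_lit 0) (nat_lit 18339418361465) (nat_lit 1) (nat_lit 5) (nat_lit 3) (nat_lit 4) (nat_lit 1) (nat_lit 4) (nat_lit 385) (nat_lit 300) (nat_lit 215)) (XT.nd (nat_lit 78) (nat_lit 0) (nat_lit 0) (XT.lf (nat_lit 0) (nat_lit 21114883865427) (nat_lit 152) (nat_lit 85830862402828) (nat_lit 0) (nat_lit 21109687118869) (nat_lit 1) (nat_lit 5) (nat_lit 3) (nat_lit 4) (nat_lit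 1) (nat_lit 4) (nat_lit 386) (nat_lit 300) (nat_lit 214)) (XT.lf (nat_lit 0) (nat_lit 24300692909137) (nat_lit 152) (nat_lit 98664654258356) (nat_lit 0) (nat_lit 24295496158495) (nat_lit 1) (nat_lit 5) (nat_lit 3) (nat_lit 4) (nat_lit 1) (nat_lit 4) (nat_lit 387) (nat_lit 300) (nat_lit 213)))) (XT.nd (nat_lit 78) (nat_lit 0) (nat_lit 0) (XT.lf (nat_lit 0) (nat_lit 27964373280964) (nat_lit 152) (nat_lit 113423514952216) (nat_lit 0) (nat_lit 27959176526771) (nat_lit 1) (nat_lit 5) (nat_lit 3) (nat_lit 4) (nat_lit 1) (nat_lit 4) (nat_lit 388) (nat_lit 300) (nat_lit 212)) (XT.nd (nat_lit 78) (nat_lit 0) (nat_lit 0) (XT.lf (nat_lit 0) (nat_lit 32177605683834) (nat_lit 152) (nat_lit 130396204802332) (nat_lit 0) (nat_lit 32172408926553) (nat_lit 1) (nat_lit 5) (nat_lit 3) (nat_lit 4) (nat_lit 1) (nat_lit 4) (nat_lit 389) (nat_lit 300) (nat_lit 211)) (XT.lf (nat_lit 0) (nat_lit 37022822925631)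 (nat_lit 152) (nat_lit 149914798175336) (nat_lit 0) (nat_lit 37017626165663) (nat_lit 1) (nat_lit 5) (nat_lit 3) (nat_lit 4) (nat_lit 1) (nat_lit 4) (nat_lit 390) (nat_lit 300) (nat_lit 210)))))) (XT.nd (nat_lit 39858) (nat_lit 0) (nat_lit 2280) (XT.nd (nat_lit 156) (nat_lit 0) (nat_lit 0) (XT.nd (nat_lit 78) (nat_lit 0) (nat_lit 0) (XT.lf (nat_lit 0) (nat_lit 42594822734997) (nat_lit 152) (nat_lit 172361180593743) (nat_lit 0) (nat_lit 42589625972694) (nat_lit 1) (nat_lit 5) (nat_lit 3) (nat_lit 4) (nat_lit 1) (nat_lit 4) (nat_lit 391) (nat_lit 300) (nat_lit 209)) (XT.lf (nat_lit 0) (nat_lit 49002622499507) (nat_lit 152) (nat_lit 198174520409219) (nat_lit 0) (nat_lit 48997425735174) (nat_lit 1) (nat_lit 5) (nat_lit 3) (nat_lit 4) (nat_lit 1) (nat_lit 4) (nat_lit 392) (nat_lit 300) (nat_lit 208))) (XT.nd (nat_lit 78) (nat_lit 0) (nat_lit 0) (XT.lf (nat_lit 0) (nat_lit 56371592214554) (nat_lit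 152) (nat_lit 227859861226849) (nat_lit 0) (nat_lit 56366395448455) (nat_lit 1) (nat_lit 5) (nat_lit 3) (nat_lit 4) (nat_lit 1) (nat_lit 4) (nat_lit 393) (nat_lit 300) (nat_lit 207)) (XT.nd (nat_lit 78) (nat_lit 0) (nat_lit 0) (XT.lf (nat_lit 0) (nat_lit 64845907374562) (nat_lit 152) (nat_lit 261998003193063) (nat_lit 0) (nat_lit 64840710606928) (nat_lit 1) (nat_lit 5) (nat_lit 3) (nat_lit 4) (nat_lit 1) (nat_lit 4) (nat_lit 394) (nat_lit 300) (nat_lit 206)) (XT.lf (nat_lit 0) (nat_lit 74591369797881) (nat_lit 152) (nat_lit 301256866476768) (nat_lit 0) (nat_lit 74586173028911) (nat_lit 1) (nat_lit 5) (nat_lit 3) (nat_lit 4) (nat_lit 1) (nat_lit 4) (nat_lit 395) (nat_lit 300) (nat_lit 205))))) (XT.nd (nat_lit 234) (nat_lit 380) (nat_lit 0) (XT.nd (nat_lit 78) (nat_lit 228) (nat_lit 0) (XT.lf (nat_lit 0) (nat_lit 1442793891) (nat_lit 0) (nat_lit 1442793891) (nat_lit 76) (nat_lit 377102441)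 (nat_lit 39) (nat_lit 5) (nat_lit 39) (nat_lit 3) (nat_lit 40) (nat_lit 0) (nat_lit 301) (nat_lit 301) (nat_lit 298)) (XT.nd (nat_lit 78) (nat_lit 0) (nat_lit 0) (XT.lf (nat_lit 0) (nat_lit 1652351122) (nat_lit 228) (nat_lit 416063387) (nat_lit 228) (nat_lit 4586672589) (nat_lit 36) (nat_lit 3) (nat_lit 39) (nat_lit 3) (nat_lit 39) (nat_lit 5) (nat_lit 302) (nat_lit 301) (nat_lit 297)) (XT.lf (nat_lit 76) (nat_lit 3304138931) (nat_lit 0) (nat_lit 749636527) (nat_lit 228) (nat_lit 2789506564) (nat_lit 37) (nat_lit 5) (nat_lit 36) (nat_lit 3) (nat_lit 39) (nat_lit 5) (nat_lit 303) (nat_lit 301) (nat_lit 296)))) (XT.nd (nat_lit 78) (nat_lit 304) (nat_lit 0) (XT.lf (nat_lit 0) (nat_lit 265382946) (nat_lit 152) (nat_lit 6241710577) (nat_lit 228) (nat_lit 599803807) (nat_lit 35) (nat_lit 5) (nat_lit 37) (nat_lit 5) (nat_lit 38) (nat_lit 4) (nat_lit 304) (nat_lit 301) (nat_lit 295)) (XT.nd (nat_lit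 78) (nat_lit 228) (nat_lit 0) (XT.lf (nat_lit 0) (nat_lit 1623415491) (nat_lit 228) (nat_lit 2787767905) (nat_lit 76) (nat_lit 3006292508) (nat_lit 34) (nat_lit 5) (nat_lit 37) (nat_lit 5) (nat_lit 35) (nat_lit 5) (nat_lit 305) (nat_lit 301) (nat_lit 294)) (XT.lf (nat_lit 0) (nat_lit 1720510278) (nat_lit 228) (nat_lit 2161910368) (nat_lit 304) (nat_lit 3923999729) (nat_lit 31) (nat_lit 5) (nat_lit 34) (nat_lit 5) (nat_lit 35) (nat_lit 5) (nat_lit 306) (nat_lit 301) (nat_lit 293))))))))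
noncomputable def xc49 : XT := (XT.nd (nat_lit 1716) (nat_lit 456) (nat_lit 0) (XT.nd (nat_lit 858) (nat_lit 532) (nat_lit 0) (XT.nd (nat_lit 390) (nat_lit 532) (nat_lit 0) (XT.nd (nat_lit 156) (nat_lit 228) (nat_lit 0) (XT.nd (nat_lit 78) (nat_lit 380) (nat_lit 0) (XT.lf (nat_lit 0) (nat_lit 6372650859) (nat_lit 304) (nat_lit 1346371014) (nat_lit 76) (nat_lit 551367753) (nat_lit 31) (nat_lit 5) (nat_lit 35) (nat_lit 5) (nat_lit 32) (nat_lit 4) (nat_lit 307) (nat_lit 301) (nat_lit 292)) (XT.lf (nat_lit 0) (nat_lit 426008676) (nat_lit 380) (nat_lit 4721282867) (nat_lit 76) (nat_lit 3649577172) (nat_lit 26) (nat_lit 5) (nat_lit 31) (nat_lit 5) (nat_lit 27) (nat_lit 5) (nat_lit 308) (nat_lit 301) (nat_lit 291))) (XT.nd (nat_lit 78) (nat_lit 76) (nat_lit 0) (XT.lf (nat_lit 0) (nat_lit 765940277) (nat_lit 152) (nat_lit 2011937226) (nat_lit 228) (nat_lit 6630163719) (nat_lit 24) (nat_lit 5)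 (nat_lit 26) (nat_lit 5) (nat_lit 27) (nat_lit 5) (nat_lit 309) (nat_lit 301) (nat_lit 290)) (XT.nd (nat_lit 78) (nat_lit 76) (nat_lit 0) (XT.lf (nat_lit 0) (nat_lit 5592426131) (nat_lit 228) (nat_lit 2840939676) (nat_lit 76) (nat_lit 1661347198) (nat_lit 24) (nat_lit 5) (nat_lit 27) (nat_lit 5) (nat_lit 25) (nat_lit 4) (nat_lit 310) (nat_lit 301) (nat_lit 289)) (XT.lf (nat_lit 0) (nat_lit 3816843907) (nat_lit 76) (nat_lit 5079523980) (nat_lit 152) (nat_lit 1978204146) (nat_lit 23) (nat_lit 5) (nat_lit 24) (nat_lit 5) (nat_lit 25) (nat_lit 4) (nat_lit 311) (nat_lit 301) (nat_lit 288))))) (XT.nd (nat_lit 234) (nat_lit 228) (nat_lit 0) (XT.nd (nat_lit 78) (nat_lit 228) (nat_lit 0) (XT.lf (nat_lit 0) (nat_lit 816858011) (nat_lit 152) (nat_lit 265631699) (nat_lit 76) (nat_lit 10687180007) (nat_lit 22) (nat_lit 5) (nat_lit 24) (nat_lit 5) (nat_lit 23) (nat_lit 5) (nat_lit 312) (nat_lit 301)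 (nat_lit 287)) (XT.nd (nat_lit 78) (nat_lit 76) (nat_lit 0) (XT.lf (nat_lit 0) (nat_lit 4162249690) (nat_lit 228) (nat_lit 4994564193) (nat_lit 76) (nat_lit 3578224333) (nat_lit 20) (nat_lit 5) (nat_lit 23) (nat_lit 5) (nat_lit 21) (nat_lit 4) (nat_lit 313) (nat_lit 301) (nat_lit 286)) (XT.lf (nat_lit 0) (nat_lit 3122051434) (nat_lit 76) (nat_lit 4933891750) (nat_lit 152) (nat_lit 5782448135) (nat_lit 19) (nat_lit 5) (nat_lit 20) (nat_lit 5) (nat_lit 21) (nat_lit 4) (nat_lit 314) (nat_lit 301) (nat_lit 285)))) (XT.nd (nat_lit 78) (nat_lit 228) (nat_lit 0) (XT.lf (nat_lit 0) (nat_lit 12661476124) (nat_lit 152) (nat_lit 2304229059) (nat_lit 0) (nat_lit 122507685) (nat_lit 19) (nat_lit 5) (nat_lit 21) (nat_lit 4) (nat_lit 19) (nat_lit 4) (nat_lit 315) (nat_lit 301) (nat_lit 284)) (XT.nd (nat_lit 78) (nat_lit 76) (nat_lit 0) (XT.lf (nat_lit 0) (nat_lit 1750646543) (nat_lit 152) (nat_lit 8942630198)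 (nat_lit 76) (nat_lit 5756560546) (nat_lit 17) (nat_lit 5) (nat_lit 19) (nat_lit 5) (nat_lit 18) (nat_lit 4) (nat_lit 316) (nat_lit 301) (nat_lit 283)) (XT.lf (nat_lit 0) (nat_lit 785464685) (nat_lit 76) (nat_lit 5557643311) (nat_lit 152) (nat_lit 11649812839) (nat_lit 16) (nat_lit 5) (nat_lit 17) (nat_lit 5) (nat_lit 18) (nat_lit 4) (nat_lit 317) (nat_lit 301) (nat_lit 282)))))) (XT.nd (nat_lit 390) (nat_lit 304) (nat_lit 0) (XT.nd (nat_lit 156) (nat_lit 152) (nat_lit 0) (XT.nd (nat_lit 78) (nat_lit 76) (nat_lit 0) (XT.lf (nat_lit 0) (nat_lit 12010429360) (nat_lit 152) (nat_lit 6974795161) (nat_lit 0) (nat_lit 724420003) (nat_lit 16) (nat_lit 5) (nat_lit 18) (nat_lit 4) (nat_lit 16) (nat_lit 4) (nat_lit 318) (nat_lit 301) (nat_lit 281)) (XT.lf (nat_lit 0) (nat_lit 4762004017) (nat_lit 76) (nat_lit 14124941122) (nat_lit 76) (nat_lit 2743133464) (nat_lit 15) (nat_lit 4) (nat_lit 16) (nat_lit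 5) (nat_lit 16) (nat_lit 4) (nat_lit 319) (nat_lit 301) (nat_lit 280))) (XT.nd (nat_lit 78) (nat_lit 76) (nat_lit 0) (XT.lf (nat_lit 0) (nat_lit 2973604056) (nat_lit 152) (nat_lit 5071861807) (nat_lit 76) (nat_lit 15732733673) (nat_lit 14) (nat_lit 5) (nat_lit 16) (nat_lit 5) (nat_lit 15) (nat_lit 4) (nat_lit 320) (nat_lit 301) (nat_lit 279)) (XT.nd (nat_lit 78) (nat_lit 0) (nat_lit 0) (XT.lf (nat_lit 0) (nat_lit 8997775988) (nat_lit 76) (nat_lit 553537405) (nat_lit 152) (nat_lit 16635029109) (nat_lit 13) (nat_lit 5) (nat_lit 14) (nat_lit 5) (nat_lit 15) (nat_lit 4) (nat_lit 321) (nat_lit 301) (nat_lit 278)) (XT.lf (nat_lit 0) (nat_lit 17640797214) (nat_lit 152) (nat_lit 3682805918) (nat_lit 0) (nat_lit 7553373957) (nat_lit 13) (nat_lit 5) (nat_lit 15) (nat_lit 4) (nat_lit 13) (nat_lit 4) (nat_lit 322) (nat_lit 301) (nat_lit 277))))) (XT.nd (nat_lit 234) (nat_lit 76) (nat_lit 0) (XT.nd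 (nat_lit 78) (nat_lit 152) (nat_lit 0) (XT.lf (nat_lit 0) (nat_lit 12817213218) (nat_lit 76) (nat_lit 14608396325) (nat_lit 76) (nat_lit 4473344382) (nat_lit 12) (nat_lit 4) (nat_lit 13) (nat_lit 5) (nat_lit 13) (nat_lit 4) (nat_lit 323) (nat_lit 301) (nat_lit 276)) (XT.nd (nat_lit 78) (nat_lit 76) (nat_lit 0) (XT.lf (nat_lit 0) (nat_lit 3136878530) (nat_lit 152) (nat_lit 3432179352) (nat_lit 76) (nat_lit 28765608159) (nat_lit 11) (nat_lit 5) (nat_lit 13) (nat_lit 5) (nat_lit 12) (nat_lit 4) (nat_lit 324) (nat_lit 301) (nat_lit 275)) (XT.lf (nat_lit 0) (nat_lit 12161483382) (nat_lit 152) (nat_lit 23701631763) (nat_lit 0) (nat_lit 3281063971) (nat_lit 10) (nat_lit 5) (nat_lit 12) (nat_lit 4) (nat_lit 10) (nat_lit 4) (nat_lit 325) (nat_lit 301) (nat_lit 274)))) (XT.nd (nat_lit 78) (nat_lit 76) (nat_lit 0) (XT.lf (nat_lit 0) (nat_lit 22976592724) (nat_lit 152) (nat_lit 6414081744) (nat_lit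 0) (nat_lit 14068941457) (nat_lit 10) (nat_lit 5) (nat_lit 12) (nat_lit 4) (nat_lit 10) (nat_lit 4) (nat_lit 326) (nat_lit 301) (nat_lit 273)) (XT.nd (nat_lit 78) (nat_lit 0) (nat_lit 0) (XT.lf (nat_lit 0) (nat_lit 14659774742) (nat_lit 76) (nat_lit 21305613998) (nat_lit 76) (nat_lit 12374282856) (nat_lit 9) (nat_lit 4) (nat_lit 10) (nat_lit 5) (nat_lit 10) (nat_lit 4) (nat_lit 327) (nat_lit 301) (nat_lit 272)) (XT.lf (nat_lit 0) (nat_lit 39508712677) (nat_lit 76) (nat_lit 11676292207) (nat_lit 76) (nat_lit 2724369870) (nat_lit 9) (nat_lit 4) (nat_lit 10) (nat_lit 5) (nat_lit 10) (nat_lit 4) (nat_lit 328) (nat_lit 301) (nat_lit 271))))))) (XT.nd (nat_lit 858) (nat_lit 76) (nat_lit 0) (XT.nd (nat_lit 390) (nat_lit 152) (nat_lit 0) (XT.nd (nat_lit 156) (nat_lit 76) (nat_lit 0) (XT.nd (nat_lit 78) (nat_lit 0) (nat_lit 0) (XT.lf (nat_lit 0) (nat_lit 7917882520) (nat_lit 152) (nat_lit 52183081289)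 (nat_lit 0) (nat_lit 118032325) (nat_lit 7) (nat_lit 5) (nat_lit 9) (nat_lit 4) (nat_lit 7) (nat_lit 4) (nat_lit 329) (nat_lit 301) (nat_lit 270)) (XT.lf (nat_lit 0) (nat_lit 21174524627) (nat_lit 152) (nat_lit 32725403973) (nat_lit 0) (nat_lit 13361135386) (nat_lit 7) (nat_lit 5) (nat_lit 9) (nat_lit 4) (nat_lit 7) (nat_lit 4) (nat_lit 330) (nat_lit 301) (nat_lit 269))) (XT.nd (nat_lit 78) (nat_lit 76) (nat_lit 0) (XT.lf (nat_lit 0) (nat_lit 36378231606) (nat_lit 152) (nat_lit 10434363990) (nat_lit 0) (nat_lit 28553069282) (nat_lit 7) (nat_lit 5) (nat_lit 9) (nat_lit 4) (nat_lit 7) (nat_lit 4) (nat_lit 331) (nat_lit 301) (nat_lit 268)) (XT.nd (nat_lit 78) (nat_lit 0) (nat_lit 0) (XT.lf (nat_lit 0) (nat_lit 16604406820) (nat_lit 76) (nat_lit 37909613546) (nat_lit 76) (nat_lit 30074213759) (nat_lit 6) (nat_lit 4) (nat_lit 7) (nat_lit 5) (nat_lit 7) (nat_lit 4) (nat_lit 332) (nat_lit 301)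 (nat_lit 267)) (XT.lf (nat_lit 0) (nat_lit 48800880296) (nat_lit 76) (nat_lit 27080470290) (nat_lit 76) (nat_lit 19236168360) (nat_lit 6) (nat_lit 4) (nat_lit 7) (nat_lit 5) (nat_lit 7) (nat_lit 4) (nat_lit 333) (nat_lit 301) (nat_lit 266))))) (XT.nd (nat_lit 234) (nat_lit 0) (nat_lit 0) (XT.nd (nat_lit 78) (nat_lit 152) (nat_lit 0) (XT.lf (nat_lit 0) (nat_lit 85765265503) (nat_lit 76) (nat_lit 14658723948) (nat_lit 76) (nat_lit 6806681026) (nat_lit 6) (nat_lit 4) (nat_lit 7) (nat_lit 5) (nat_lit 7) (nat_lit 4) (nat_lit 334) (nat_lit 301) (nat_lit 265)) (XT.nd (nat_lit 78) (nat_lit 0) (nat_lit 0) (XT.lf (nat_lit 0) (nat_lit 7112907338) (nat_lit 152) (nat_lit 113678359864) (nat_lit 0) (nat_lit 279190624) (nat_lit 4) (nat_lit 5) (nat_lit 6) (nat_lit 4) (nat_lit 4) (nat_lit 4) (nat_lit 335) (nat_lit 301) (nat_lit 264)) (XT.lf (nat_lit 0) (nat_lit 24270105527) (nat_lit 152) (nat_lit 94959211231)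 (nat_lit 0) (nat_lit 17431298984) (nat_lit 4) (nat_lit 5) (nat_lit 6) (nat_lit 4) (nat_lit 4) (nat_lit 4) (nat_lit 336) (nat_lit 301) (nat_lit 263)))) (XT.nd (nat_lit 78) (nat_lit 0) (nat_lit 0) (XT.lf (nat_lit 0) (nat_lit 43977427025) (nat_lit 152) (nat_lit 73481197300) (nat_lit 0) (nat_lit 37134194544) (nat_lit 4) (nat_lit 5) (nat_lit 6) (nat_lit 4) (nat_lit 4) (nat_lit 4) (nat_lit 337) (nat_lit 301) (nat_lit 262)) (XT.nd (nat_lit 78) (nat_lit 0) (nat_lit 0) (XT.lf (nat_lit 0) (nat_lit 66620449861) (nat_lit 152) (nat_lit 48824096061) (nat_lit 0) (nat_lit 59773368739) (nat_lit 4) (nat_lit 5) (nat_lit 6) (nat_lit 4) (nat_lit 4) (nat_lit 4) (nat_lit 338) (nat_lit 301) (nat_lit 261)) (XT.lf (nat_lit 0) (nat_lit 92642189700) (nat_lit 152) (nat_lit 20505485966) (nat_lit 0) (nat_lit 85791761933) (nat_lit 4) (nat_lit 5) (nat_lit 6) (nat_lit 4) (nat_lit 4) (nat_lit 4) (nat_lit 339) (nat_lit 301)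 (nat_lit 260)))))) (XT.nd (nat_lit 390) (nat_lit 0) (nat_lit 0) (XT.nd (nat_lit 156) (nat_lit 0) (nat_lit 0) (XT.nd (nat_lit 78) (nat_lit 0) (nat_lit 0) (XT.lf (nat_lit 0) (nat_lit 13204224081) (nat_lit 76) (nat_lit 109894302218) (nat_lit 76) (nat_lit 103040964325) (nat_lit 3) (nat_lit 4) (nat_lit 4) (nat_lit 5) (nat_lit 4) (nat_lit 4) (nat_lit 340) (nat_lit 301) (nat_lit 259)) (XT.lf (nat_lit 0) (nat_lit 54244169419) (nat_lit 76) (nat_lit 104936336728) (nat_lit 76) (nat_lit 98080468291) (nat_lit 3) (nat_lit 4) (nat_lit 4) (nat_lit 5) (nat_lit 4) (nat_lit 4) (nat_lit 341) (nat_lit 301) (nat_lit 258))) (XT.nd (nat_lit 78) (nat_lit 0) (nat_lit 0) (XT.lf (nat_lit 0) (nat_lit 101413360281) (nat_lit 76) (nat_lit 99248653201) (nat_lit 76) (nat_lit 92390584290) (nat_lit 3) (nat_lit 4) (nat_lit 4) (nat_lit 5) (nat_lit 4) (nat_lit 4) (nat_lit 342) (nat_lit 301) (nat_lit 257)) (XT.nd (nat_lit 78)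 (nat_lit 0) (nat_lit 0) (XT.lf (nat_lit 0) (nat_lit 155634672139) (nat_lit 76) (nat_lit 92719970871) (nat_lit 76) (nat_lit 85859988505) (nat_lit 3) (nat_lit 4) (nat_lit 4) (nat_lit 5) (nat_lit 4) (nat_lit 4) (nat_lit 343) (nat_lit 301) (nat_lit 256)) (XT.lf (nat_lit 0) (nat_lit 217968956747) (nat_lit 76) (nat_lit 85222554650) (nat_lit 76) (nat_lit 78360908410) (nat_lit 3) (nat_lit 4) (nat_lit 4) (nat_lit 5) (nat_lit 4) (nat_lit 4) (nat_lit 344) (nat_lit 301) (nat_lit 255))))) (XT.nd (nat_lit 234) (nat_lit 0) (nat_lit 0) (XT.nd (nat_lit 78) (nat_lit 0) (nat_lit 0) (XT.lf (nat_lit 0) (nat_lit 289635797934) (nat_lit 76) (nat_lit 76609715958) (nat_lit 76) (nat_lit 69746622871) (nat_lit 3) (nat_lit 4) (nat_lit 4) (nat_lit 5) (nat_lit 4) (nat_lit 4) (nat_lit 345) (nat_lit 301) (nat_lit 254)) (XT.nd (nat_lit 78) (nat_lit 0) (nat_lit 0) (XT.lf (nat_lit 0) (nat_lit 372037373028) (nat_lit 76) (nat_lit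 66712942736) (nat_lit 76) (nat_lit 59848591521) (nat_lit 3) (nat_lit 4) (nat_lit 4) (nat_lit 5) (nat_lit 4) (nat_lit 4) (nat_lit 346) (nat_lit 301) (nat_lit 253)) (XT.lf (nat_lit 0) (nat_lit 466785886760) (nat_lit 76) (nat_lit 55338602463) (nat_lit 76) (nat_lit 48473157224) (nat_lit 3) (nat_lit 4) (nat_lit 4) (nat_lit 5) (nat_lit 4) (nat_lit 4) (nat_lit 347) (nat_lit 301) (nat_lit 252)))) (XT.nd (nat_lit 78) (nat_lit 0) (nat_lit 0) (XT.lf (nat_lit 0) (nat_lit 575735114397) (nat_lit 76) (nat_lit 42264153699) (nat_lit 76) (nat_lit 35397757135) (nat_lit 3) (nat_lit 4) (nat_lit 4) (nat_lit 5) (nat_lit 4) (nat_lit 4) (nat_lit 348) (nat_lit 301) (nat_lit 251)) (XT.nd (nat_lit 78) (nat_lit 0) (nat_lit 0) (XT.lf (nat_lit 0) (nat_lit 701016671263) (nat_lit 76) (nat_lit 27233792012) (nat_lit 76) (nat_lit 20366568208) (nat_lit 3) (nat_lit 4) (nat_lit 4) (nat_lit 5) (nat_lit 4) (nat_lit 4) (nat_lit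 349) (nat_lit 301) (nat_lit 250)) (XT.lf (nat_lit 0) (nat_lit 845081718253) (nat_lit 76) (nat_lit 9953445108) (nat_lit 76) (nat_lit 3085501965) (nat_lit 3) (nat_lit 4) (nat_lit 4) (nat_lit 5) (nat_lit 4) (nat_lit 4) (nat_lit 350) (nat_lit 301) (nat_lit 249))))))))
noncomputable def xc50 : XT := (XT.nd (nat_lit 1716) (nat_lit 0) (nat_lit 0) (XT.nd (nat_lit 858) (nat_lit 0) (nat_lit 0) (XT.nd (nat_lit 390) (nat_lit 0) (nat_lit 0) (XT.nd (nat_lit 156) (nat_lit 0) (nat_lit 0) (XT.nd (nat_lit 78) (nat_lit 0) (nat_lit 0) (XT.lf (nat_lit 0) (nat_lit 16971278571) (nat_lit 152) (nat_lit 955723967249) (nat_lit 0) (nat_lit 10998610176) (nat_lit 1) (nat_lit 5) (nat_lit 3) (nat_lit 4) (nat_lit 1) (nat_lit 4) (nat_lit 351) (nat_lit 301) (nat_lit 248)) (XT.lf (nat_lit 0) (nat_lit 40904903197) (nat_lit 152) (nat_lit 1052066687725) (nat_lit 0) (nat_lit 34931761825) (nat_lit 1) (nat_lit 5) (nat_lit 3) (nat_lit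 4) (nat_lit 1) (nat_lit 4) (nat_lit 352) (nat_lit 301) (nat_lit 247))) (XT.nd (nat_lit 78) (nat_lit 0) (nat_lit 0) (XT.lf (nat_lit 0) (nat_lit 68425278025) (nat_lit 152) (nat_lit 1162867764925) (nat_lit 0) (nat_lit 62451725369) (nat_lit 1) (nat_lit 5) (nat_lit 3) (nat_lit 4) (nat_lit 1) (nat_lit 4) (nat_lit 353) (nat_lit 301) (nat_lit 246)) (XT.nd (nat_lit 78) (nat_lit 0) (nat_lit 0) (XT.lf (nat_lit 0) (nat_lit 100070845171) (nat_lit 152) (nat_lit 1290295046012) (nat_lit 0) (nat_lit 94096934876) (nat_lit 1) (nat_lit 5) (nat_lit 3) (nat_lit 4) (nat_lit 1) (nat_lit 4) (nat_lit 354) (nat_lit 301) (nat_lit 245)) (XT.lf (nat_lit 0) (nat_lit 136460757036) (nat_lit 152) (nat_lit 1436841673442) (nat_lit 0) (nat_lit 130486535751) (nat_lit 1) (nat_lit 5) (nat_lit 3) (nat_lit 4) (nat_lit 1) (nat_lit 4) (nat_lit 355) (nat_lit 301) (nat_lit 244))))) (XT.nd (nat_lit 234) (nat_lit 0) (nat_lit 0) (XT.nd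 (nat_lit 78) (nat_lit 0) (nat_lit 0) (XT.lf (nat_lit 0) (nat_lit 178306990156) (nat_lit 152) (nat_lit 1605374863839) (nat_lit 0) (nat_lit 172332498445) (nat_lit 1) (nat_lit 5) (nat_lit 3) (nat_lit 4) (nat_lit 1) (nat_lit 4) (nat_lit 356) (nat_lit 301) (nat_lit 243)) (XT.nd (nat_lit 78) (nat_lit 0) (nat_lit 0) (XT.lf (nat_lit 0) (nat_lit 226428275179) (nat_lit 152) (nat_lit 1799192005712) (nat_lit 0) (nat_lit 220453548315) (nat_lit 1) (nat_lit 5) (nat_lit 3) (nat_lit 4) (nat_lit 1) (nat_lit 4) (nat_lit 357) (nat_lit 301) (nat_lit 242)) (XT.lf (nat_lit 0) (nat_lit 281766115508) (nat_lit 152) (nat_lit 2022085173573) (nat_lit 0) (nat_lit 275791184163) (nat_lit 1) (nat_lit 5) (nat_lit 3) (nat_lit 4) (nat_lit 1) (nat_lit 4) (nat_lit 358) (nat_lit 301) (nat_lit 241)))) (XT.nd (nat_lit 78) (nat_lit 0) (nat_lit 0) (XT.lf (nat_lit 0) (nat_lit 345403208019) (nat_lit 152) (nat_lit 2278415320709) (nat_lit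 0) (nat_lit 339428098865) (nat_lit 1) (nat_lit 5) (nat_lit 3) (nat_lit 4) (nat_lit 1) (nat_lit 4) (nat_lit 359) (nat_lit 301) (nat_lit 240)) (XT.nd (nat_lit 78) (nat_lit 0) (nat_lit 0) (XT.lf (nat_lit 0) (nat_lit 418584626261) (nat_lit 152) (nat_lit 2573197602171) (nat_lit 0) (nat_lit 412609362490) (nat_lit 1) (nat_lit 5) (nat_lit 3) (nat_lit 4) (nat_lit 1) (nat_lit 4) (nat_lit 360) (nat_lit 301) (nat_lit 239)) (XT.lf (nat_lit 0) (nat_lit 502742180590) (nat_lit 152) (nat_lit 2912199497379) (nat_lit 0) (nat_lit 496766782370) (nat_lit 1) (nat_lit 5) (nat_lit 3) (nat_lit 4) (nat_lit 1) (nat_lit 4) (nat_lit 361) (nat_lit 301) (nat_lit 238)))))) (XT.nd (nat_lit 390) (nat_lit 0) (nat_lit 0) (XT.nd (nat_lit 156) (nat_lit 0) (nat_lit 0) (XT.nd (nat_lit 78) (nat_lit 0) (nat_lit 0) (XT.lf (nat_lit 0) (nat_lit 599522431853) (nat_lit 152) (nat_lit 3302053652110) (nat_lit 0) (nat_lit 593546916720)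 (nat_lit 1) (nat_lit 5) (nat_lit 3) (nat_lit 4) (nat_lit 1) (nat_lit 4) (nat_lit 362) (nat_lit 301) (nat_lit 237)) (XT.lf (nat_lit 0) (nat_lit 710818906705) (nat_lit 152) (nat_lit 3750387647651) (nat_lit 0) (nat_lit 704843289909) (nat_lit 1) (nat_lit 5) (nat_lit 3) (nat_lit 4) (nat_lit 1) (nat_lit 4) (nat_lit 363) (nat_lit 301) (nat_lit 236))) (XT.nd (nat_lit 78) (nat_lit 0) (nat_lit 0) (XT.lf (nat_lit 0) (nat_lit 838809144871) (nat_lit 152) (nat_lit 4265973236090) (nat_lit 0) (nat_lit 832833439672) (nat_lit 1) (nat_lit 5) (nat_lit 3) (nat_lit 4) (nat_lit 1) (nat_lit 4) (nat_lit 364) (nat_lit 301) (nat_lit 235)) (XT.nd (nat_lit 78) (nat_lit 0) (nat_lit 0) (XT.lf (nat_lit 0) (nat_lit 985997303184) (nat_lit 152) (nat_lit 4858897961547) (nat_lit 0) (nat_lit 980021521113) (nat_lit 1) (nat_lit 5) (nat_lit 3) (nat_lit 4) (nat_lit 1) (nat_lit 4) (nat_lit 365) (nat_lit 301) (nat_lit 234)) (XT.lf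 (nat_lit 0) (nat_lit 1155263149960) (nat_lit 152) (nat_lit 5540762525173) (nat_lit 0) (nat_lit 1149287301044) (nat_lit 1) (nat_lit 5) (nat_lit 3) (nat_lit 4) (nat_lit 1) (nat_lit 4) (nat_lit 366) (nat_lit 301) (nat_lit 233))))) (XT.nd (nat_lit 234) (nat_lit 0) (nat_lit 0) (XT.nd (nat_lit 78) (nat_lit 0) (nat_lit 0) (XT.lf (nat_lit 0) (nat_lit 1349918408288) (nat_lit 152) (nat_lit 6324907755387) (nat_lit 0) (nat_lit 1343942501245) (nat_lit 1) (nat_lit 5) (nat_lit 3) (nat_lit 4) (nat_lit 1) (nat_lit 4) (nat_lit 367) (nat_lit 301) (nat_lit 232)) (XT.nd (nat_lit 78) (nat_lit 0) (nat_lit 0) (XT.lf (nat_lit 0) (nat_lit 1573771550612) (nat_lit 152) (nat_lit 7226675624084) (nat_lit 0) (nat_lit 1567795593025) (nat_lit 1) (nat_lit 5) (nat_lit 3) (nat_lit 4) (nat_lit 1) (nat_lit 4) (nat_lit 368) (nat_lit 301) (nat_lit 231)) (XT.lf (nat_lit 0) (nat_lit 1831202312327) (nat_lit 152) (nat_lit 8263709415652)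 (nat_lit 0) (nat_lit 1825226310788) (nat_lit 1) (nat_lit 5) (nat_lit 3) (nat_lit 4) (nat_lit 1) (nat_lit 4) (nat_lit 369) (nat_lit 301) (nat_lit 230)))) (XT.nd (nat_lit 78) (nat_lit 0) (nat_lit 0) (XT.lf (nat_lit 0) (nat_lit 2127247382248) (nat_lit 152) (nat_lit 9456298921664) (nat_lit 0) (nat_lit 2121271342490) (nat_lit 1) (nat_lit 5) (nat_lit 3) (nat_lit 4) (nat_lit 1) (nat_lit 4) (nat_lit 370) (nat_lit 301) (nat_lit 229)) (XT.nd (nat_lit 78) (nat_lit 0) (nat_lit 0) (XT.lf (nat_lit 0) (nat_lit 2467698946527) (nat_lit 152) (nat_lit 10827777415066) (nat_lit 0) (nat_lit 2461722873535) (nat_lit 1) (nat_lit 5) (nat_lit 3) (nat_lit 4) (nat_lit 1) (nat_lit 4) (nat_lit 371) (nat_lit 301) (nat_lit 228)) (XT.lf (nat_lit 0) (nat_lit 2859218014029) (nat_lit 152) (nat_lit 12404978170727) (nat_lit 0) (nat_lit 2853241912138) (nat_lit 1) (nat_lit 5) (nat_lit 3) (nat_lit 4) (nat_lit 1) (nat_lit 4) (nat_lit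 372) (nat_lit 301) (nat_lit 227))))))) (XT.nd (nat_lit 858) (nat_lit 0) (nat_lit 0) (XT.nd (nat_lit 390) (nat_lit 0) (nat_lit 0) (XT.nd (nat_lit 156) (nat_lit 0) (nat_lit 0) (XT.nd (nat_lit 78) (nat_lit 0) (nat_lit 0) (XT.lf (nat_lit 0) (nat_lit 3309464740423) (nat_lit 152) (nat_lit 14218759464302) (nat_lit 0) (nat_lit 3303488613403) (nat_lit 1) (nat_lit 5) (nat_lit 3) (nat_lit 4) (nat_lit 1) (nat_lit 4) (nat_lit 373) (nat_lit 301) (nat_lit 226)) (XT.lf (nat_lit 0) (nat_lit 3827248300791) (nat_lit 152) (nat_lit 16304608321100) (nat_lit 0) (nat_lit 3821272151919) (nat_lit 1) (nat_lit 5) (nat_lit 3) (nat_lit 4) (nat_lit 1) (nat_lit 4) (nat_lit 374) (nat_lit 301) (nat_lit 225))) (XT.nd (nat_lit 78) (nat_lit 0) (nat_lit 0) (XT.lf (nat_lit 0) (nat_lit 4422699243053) (nat_lit 152) (nat_lit 18703334827449) (nat_lit 0) (nat_lit 4416723075179) (nat_lit 1) (nat_lit 5) (nat_lit 3) (nat_lit 4) (nat_lit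 1) (nat_lit 4) (nat_lit 375) (nat_lit 301) (nat_lit 224)) (XT.nd (nat_lit 78) (nat_lit 0) (nat_lit 0) (XT.lf (nat_lit 0) (nat_lit 5107467694339) (nat_lit 152) (nat_lit 21461870588909) (nat_lit 0) (nat_lit 5101491509943) (nat_lit 1) (nat_lit 5) (nat_lit 3) (nat_lit 4) (nat_lit 1) (nat_lit 4) (nat_lit 376) (nat_lit 301) (nat_lit 223)) (XT.lf (nat_lit 0) (nat_lit 5894951298264) (nat_lit 152) (nat_lit 24634186957334) (nat_lit 0) (nat_lit 5888975099499) (nat_lit 1) (nat_lit 5) (nat_lit 3) (nat_lit 4) (nat_lit 1) (nat_lit 4) (nat_lit 377) (nat_lit 301) (nat_lit 222))))) (XT.nd (nat_lit 234) (nat_lit 0) (nat_lit 0) (XT.nd (nat_lit 78) (nat_lit 0) (nat_lit 0) (XT.lf (nat_lit 0) (nat_lit 6800557342728) (nat_lit 152) (nat_lit 28282350992107) (nat_lit 0) (nat_lit 6794581131469) (nat_lit 1) (nat_lit 5) (nat_lit 3) (nat_lit 4) (nat_lit 1) (nat_lit 4) (nat_lit 378) (nat_lit 301) (nat_lit 221)) (XT.nd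 (nat_lit 78) (nat_lit 0) (nat_lit 0) (XT.lf (nat_lit 0) (nat_lit 7842004206863) (nat_lit 152) (nat_lit 32477739815647) (nat_lit 0) (nat_lit 7836027984740) (nat_lit 1) (nat_lit 5) (nat_lit 3) (nat_lit 4) (nat_lit 1) (nat_lit 4) (nat_lit 379) (nat_lit 301) (nat_lit 220)) (XT.lf (nat_lit 0) (nat_lit 9039668024967) (nat_lit 152) (nat_lit 37302437122327) (nat_lit 0) (nat_lit 9033691793397) (nat_lit 1) (nat_lit 5) (nat_lit 3) (nat_lit 4) (nat_lit 1) (nat_lit 4) (nat_lit 380) (nat_lit 301) (nat_lit 219)))) (XT.nd (nat_lit 78) (nat_lit 0) (nat_lit 0) (XT.lf (nat_lit 0) (nat_lit 10416981350003) (nat_lit 152) (nat_lit 42850839163800) (nat_lit 0) (nat_lit 10411005110219) (nat_lit 1) (nat_lit 5) (nat_lit 3) (nat_lit 4) (nat_lit 1) (nat_lit 4) (nat_lit 381) (nat_lit 301) (nat_lit 218)) (XT.nd (nat_lit 78) (nat_lit 0) (nat_lit 0) (XT.lf (nat_lit 0) (nat_lit 12000891616592) (nat_lit 152) (nat_lit 49231501632181)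 (nat_lit 0) (nat_lit 11994915369664) (nat_lit 1) (nat_lit 5) (nat_lit 3) (nat_lit 4) (nat_lit 1) (nat_lit 4) (nat_lit 382) (nat_lit 301) (nat_lit 217)) (XT.lf (nat_lit 0) (nat_lit 13822388373428) (nat_lit 152) (nat_lit 56569263575766) (nat_lit 0) (nat_lit 13816412120288) (nat_lit 1) (nat_lit 5) (nat_lit 3) (nat_lit 4) (nat_lit 1) (nat_lit 4) (nat_lit 383) (nat_lit 301) (nat_lit 216)))))) (XT.nd (nat_lit 390) (nat_lit 0) (nat_lit 0) (XT.nd (nat_lit 156) (nat_lit 0) (nat_lit 0) (XT.nd (nat_lit 78) (nat_lit 0) (nat_lit 0) (XT.lf (nat_lit 0) (nat_lit 15917109600534) (nat_lit 152) (nat_lit 65007689902146) (nat_lit 0) (nat_lit 15911133341993) (nat_lit 1) (nat_lit 5) (nat_lit 3) (nat_lit 4) (nat_lit 1) (nat_lit 4) (nat_lit 384) (nat_lit 301) (nat_lit 215)) (XT.lf (nat_lit 0) (nat_lit 18326038974095) (nat_lit 152) (nat_lit 74711880256837) (nat_lit 0) (nat_lit 18320062710857) (nat_lit 1) (nat_lit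 5) (nat_lit 3) (nat_lit 4) (nat_lit 1) (nat_lit 4) (nat_lit 385) (nat_lit 301) (nat_lit 214))) (XT.nd (nat_lit 78) (nat_lit 0) (nat_lit 0) (XT.lf (nat_lit 0) (nat_lit 21096307720985) (nat_lit 152) (nat_lit 85871699233735) (nat_lit 0) (nat_lit 21090331453662) (nat_lit 1) (nat_lit 5) (nat_lit 3) (nat_lit 4) (nat_lit 1) (nat_lit 4) (nat_lit 386) (nat_lit 301) (nat_lit 213)) (XT.nd (nat_lit 78) (nat_lit 0) (nat_lit 0) (XT.lf (nat_lit 0) (nat_lit 24282116751467) (nat_lit 152) (nat_lit 98705491117172) (nat_lit 0) (nat_lit 24276140480593) (nat_lit 1) (nat_lit 5) (nat_lit 3) (nat_lit 4) (nat_lit 1) (nat_lit 4) (nat_lit 387) (nat_lit 301) (nat_lit 212)) (XT.lf (nat_lit 0) (nat_lit 27945797111791) (nat_lit 152) (nat_lit 113464351835300) (nat_lit 0) (nat_lit 27939820837829) (nat_lit 1) (nat_lit 5) (nat_lit 3) (nat_lit 4) (nat_lit 1) (nat_lit 4) (nat_lit 388) (nat_lit 301) (nat_lit 211))))) (XT.nd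 (nat_lit 234) (nat_lit 0) (nat_lit 0) (XT.nd (nat_lit 78) (nat_lit 0) (nat_lit 0) (XT.lf (nat_lit 0) (nat_lit 32159029504660) (nat_lit 152) (nat_lit 130437041706518) (nat_lit 0) (nat_lit 32153053228012) (nat_lit 1) (nat_lit 5) (nat_lit 3) (nat_lit 4) (nat_lit 1) (nat_lit 4) (nat_lit 389) (nat_lit 301) (nat_lit 210)) (XT.nd (nat_lit 78) (nat_lit 0) (nat_lit 0) (XT.lf (nat_lit 0) (nat_lit 37004246737758) (nat_lit 152) (nat_lit 149955635097873) (nat_lit 0) (nat_lit 36998270458776) (nat_lit 1) (nat_lit 5) (nat_lit 3) (nat_lit 4) (nat_lit 1) (nat_lit 4) (nat_lit 390) (nat_lit 301) (nat_lit 209)) (XT.lf (nat_lit 0) (nat_lit 42576246539561) (nat_lit 152) (nat_lit 172402017532237) (nat_lit 0) (nat_lit 42570270258548) (nat_lit 1) (nat_lit 5) (nat_lit 3) (nat_lit 4) (nat_lit 1) (nat_lit 4) (nat_lit 391) (nat_lit 301) (nat_lit 208)))) (XT.nd (nat_lit 78) (nat_lit 0) (nat_lit 0) (XT.lf (nat_lit 0)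 (nat_lit 48984046297495) (nat_lit 152) (nat_lit 198215357361589) (nat_lit 0) (nat_lit 48978070014716) (nat_lit 1) (nat_lit 5) (nat_lit 3) (nat_lit 4) (nat_lit 1) (nat_lit 4) (nat_lit 392) (nat_lit 301) (nat_lit 207)) (XT.nd (nat_lit 78) (nat_lit 0) (nat_lit 0) (XT.lf (nat_lit 0) (nat_lit 56353016006823) (nat_lit 152) (nat_lit 227900698191284) (nat_lit 0) (nat_lit 56347039722508) (nat_lit 1) (nat_lit 5) (nat_lit 3) (nat_lit 4) (nat_lit 1) (nat_lit 4) (nat_lit 393) (nat_lit 301) (nat_lit 206)) (XT.lf (nat_lit 0) (nat_lit 64827331161859) (nat_lit 152) (nat_lit 262038840167990) (nat_lit 0) (nat_lit 64821354876209) (nat_lit 1) (nat_lit 5) (nat_lit 3) (nat_lit 4) (nat_lit 1) (nat_lit 4) (nat_lit 394) (nat_lit 301) (nat_lit 205))))))))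
noncomputable def xc51 : XT := (XT.nd (nat_lit 1716) (nat_lit 760) (nat_lit 0) (XT.nd (nat_lit 858) (nat_lit 760) (nat_lit 0) (XT.nd (nat_lit 390) (nat_lit 760) (nat_lit 0) (XT.nd (nat_lit 156) (nat_lit 228) (nat_lit 0) (XT.nd (nat_lit 78) (nat_lit 0) (nat_lit 0) (XT.lf (nat_lit 0) (nat_lit 1896877528) (nat_lit 228) (nat_lit 754139949) (nat_lit 228) (nat_lit 754139949) (nat_lit 36) (nat_lit 3) (nat_lit 39) (nat_lit 3) (nat_lit 39) (nat_lit 5) (nat_lit 302) (nat_lit 302) (nat_lit 296)) (XT.lf (nat_lit 76) (nat_lit 1996263169) (nat_lit 0) (nat_lit 3972579412) (nat_lit 228) (nat_lit 1064056395) (nat_lit 37) (nat_lit 5) (nat_lit 36) (nat_lit 3) (nat_lit 39) (nat_lit 5) (nat_lit 303) (nat_lit 302) (nat_lit 295))) (XT.nd (nat_lit 78) (nat_lit 0) (nat_lit 76) (XT.lf (nat_lit 0) (nat_lit 811937342) (nat_lit 228) (nat_lit 1371956087) (nat_lit 304) (nat_lit 5137985394) (nat_lit 33) (nat_lit 5) (nat_lit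 36) (nat_lit 3) (nat_lit 37) (nat_lit 5) (nat_lit 304) (nat_lit 302) (nat_lit 294)) (XT.nd (nat_lit 78) (nat_lit 0) (nat_lit 0) (XT.lf (nat_lit 0) (nat_lit 2682958572) (nat_lit 228) (nat_lit 4844324228) (nat_lit 76) (nat_lit 146557454) (nat_lit 34) (nat_lit 5) (nat_lit 37) (nat_lit 5) (nat_lit 35) (nat_lit 5) (nat_lit 305) (nat_lit 302) (nat_lit 293)) (XT.lf (nat_lit 0) (nat_lit 4746340393) (nat_lit 228) (nat_lit 601711154) (nat_lit 76) (nat_lit 2744327493) (nat_lit 34) (nat_lit 5) (nat_lit 37) (nat_lit 5) (nat_lit 35) (nat_lit 5) (nat_lit 306) (nat_lit 302) (nat_lit 292))))) (XT.nd (nat_lit 234) (nat_lit 228) (nat_lit 0) (XT.nd (nat_lit 78) (nat_lit 380) (nat_lit 0) (XT.lf (nat_lit 0) (nat_lit 4464435033) (nat_lit 228) (nat_lit 2607119408) (nat_lit 304) (nat_lit 1509764373) (nat_lit 31) (nat_lit 5) (nat_lit 34) (nat_lit 5) (nat_lit 35) (nat_lit 5) (nat_lit 307) (nat_lit 302) (nat_lit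 291)) (XT.nd (nat_lit 78) (nat_lit 0) (nat_lit 0) (XT.lf (nat_lit 0) (nat_lit 431840228) (nat_lit 380) (nat_lit 8124210981) (nat_lit 76) (nat_lit 601642233) (nat_lit 26) (nat_lit 5) (nat_lit 31) (nat_lit 5) (nat_lit 27) (nat_lit 5) (nat_lit 308) (nat_lit 302) (nat_lit 290)) (XT.lf (nat_lit 0) (nat_lit 2658325065) (nat_lit 380) (nat_lit 2817984513) (nat_lit 76) (nat_lit 4311507375) (nat_lit 26) (nat_lit 5) (nat_lit 31) (nat_lit 5) (nat_lit 27) (nat_lit 5) (nat_lit 309) (nat_lit 302) (nat_lit 289)))) (XT.nd (nat_lit 78) (nat_lit 76) (nat_lit 0) (XT.lf (nat_lit 0) (nat_lit 3373617977) (nat_lit 152) (nat_lit 1809740469) (nat_lit 228) (nat_lit 5334682274) (nat_lit 24) (nat_lit 5) (nat_lit 26) (nat_lit 5) (nat_lit 27) (nat_lit 5) (nat_lit 310) (nat_lit 302) (nat_lit 288)) (XT.nd (nat_lit 78) (nat_lit 76) (nat_lit 0) (XT.lf (nat_lit 0) (nat_lit 8178827752) (nat_lit 228) (nat_lit 855668189) (nat_lit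 76) (nat_lit 2309783107) (nat_lit 24) (nat_lit 5) (nat_lit 27) (nat_lit 5) (nat_lit 25) (nat_lit 4) (nat_lit 311) (nat_lit 302) (nat_lit 287)) (XT.lf (nat_lit 0) (nat_lit 6691173274) (nat_lit 76) (nat_lit 5154560541) (nat_lit 152) (nat_lit 415604582) (nat_lit 23) (nat_lit 5) (nat_lit 24) (nat_lit 5) (nat_lit 25) (nat_lit 4) (nat_lit 312) (nat_lit 302) (nat_lit 286)))))) (XT.nd (nat_lit 390) (nat_lit 304) (nat_lit 0) (XT.nd (nat_lit 156) (nat_lit 228) (nat_lit 0) (XT.nd (nat_lit 78) (nat_lit 0) (nat_lit 0) (XT.lf (nat_lit 0) (nat_lit 2021663700) (nat_lit 152) (nat_lit 474305147) (nat_lit 228) (nat_lit 10804013477) (nat_lit 20) (nat_lit 5) (nat_lit 22) (nat_lit 5) (nat_lit 23) (nat_lit 5) (nat_lit 313) (nat_lit 302) (nat_lit 285)) (XT.lf (nat_lit 0) (nat_lit 6180531315) (nat_lit 228) (nat_lit 3516230724) (nat_lit 76) (nat_lit 4738005040) (nat_lit 20) (nat_lit 5) (nat_lit 23) (nat_lit 5)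 (nat_lit 21) (nat_lit 4) (nat_lit 314) (nat_lit 302) (nat_lit 284))) (XT.nd (nat_lit 78) (nat_lit 152) (nat_lit 0) (XT.lf (nat_lit 0) (nat_lit 5716626424) (nat_lit 76) (nat_lit 4847877797) (nat_lit 152) (nat_lit 5153372322) (nat_lit 19) (nat_lit 5) (nat_lit 20) (nat_lit 5) (nat_lit 21) (nat_lit 4) (nat_lit 315) (nat_lit 302) (nat_lit 283)) (XT.nd (nat_lit 78) (nat_lit 152) (nat_lit 0) (XT.lf (nat_lit 0) (nat_lit 15721024938) (nat_lit 152) (nat_lit 660007937) (nat_lit 0) (nat_lit 795277563) (nat_lit 19) (nat_lit 5) (nat_lit 21) (nat_lit 4) (nat_lit 19) (nat_lit 4) (nat_lit 316) (nat_lit 302) (nat_lit 282)) (XT.lf (nat_lit 0) (nat_lit 3153525905) (nat_lit 152) (nat_lit 8272359930) (nat_lit 76) (nat_lit 7319564082) (nat_lit 17) (nat_lit 5) (nat_lit 19) (nat_lit 5) (nat_lit 18) (nat_lit 4) (nat_lit 317) (nat_lit 302) (nat_lit 281))))) (XT.nd (nat_lit 234) (nat_lit 152) (nat_lit 0) (XT.nd (nat_lit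 78) (nat_lit 76) (nat_lit 0) (XT.lf (nat_lit 0) (nat_lit 2823509876) (nat_lit 76) (nat_lit 5542126658) (nat_lit 152) (nat_lit 12164849505) (nat_lit 16) (nat_lit 5) (nat_lit 17) (nat_lit 5) (nat_lit 18) (nat_lit 4) (nat_lit 318) (nat_lit 302) (nat_lit 280)) (XT.nd (nat_lit 78) (nat_lit 76) (nat_lit 0) (XT.lf (nat_lit 0) (nat_lit 14773928002) (nat_lit 152) (nat_lit 6241504544) (nat_lit 0) (nat_lit 1505748023) (nat_lit 16) (nat_lit 5) (nat_lit 18) (nat_lit 4) (nat_lit 16) (nat_lit 4) (nat_lit 319) (nat_lit 302) (nat_lit 279)) (XT.lf (nat_lit 0) (nat_lit 7174927697) (nat_lit 76) (nat_lit 15451860128) (nat_lit 76) (nat_lit 2111242870) (nat_lit 15) (nat_lit 4) (nat_lit 16) (nat_lit 5) (nat_lit 16) (nat_lit 4) (nat_lit 320) (nat_lit 302) (nat_lit 278)))) (XT.nd (nat_lit 78) (nat_lit 76) (nat_lit 0) (XT.lf (nat_lit 0) (nat_lit 4246143305) (nat_lit 152) (nat_lit 4274398089) (nat_lit 76) (nat_lit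 18700005291) (nat_lit 14) (nat_lit 5) (nat_lit 16) (nat_lit 5) (nat_lit 15) (nat_lit 4) (nat_lit 321) (nat_lit 302) (nat_lit 277)) (XT.nd (nat_lit 78) (nat_lit 0) (nat_lit 0) (XT.lf (nat_lit 0) (nat_lit 11767217270) (nat_lit 152) (nat_lit 18164961959) (nat_lit 0) (nat_lit 64278848) (nat_lit 13) (nat_lit 5) (nat_lit 15) (nat_lit 4) (nat_lit 13) (nat_lit 4) (nat_lit 322) (nat_lit 302) (nat_lit 276)) (XT.lf (nat_lit 0) (nat_lit 20990887050) (nat_lit 152) (nat_lit 2865200190) (nat_lit 0) (nat_lit 9246532379) (nat_lit 13) (nat_lit 5) (nat_lit 15) (nat_lit 4) (nat_lit 13) (nat_lit 4) (nat_lit 323) (nat_lit 302) (nat_lit 275))))))) (XT.nd (nat_lit 858) (nat_lit 228) (nat_lit 0) (XT.nd (nat_lit 390) (nat_lit 228) (nat_lit 0) (XT.nd (nat_lit 156) (nat_lit 152) (nat_lit 0) (XT.nd (nat_lit 78) (nat_lit 76) (nat_lit 0) (XT.lf (nat_lit 0) (nat_lit 16047547880) (nat_lit 76) (nat_lit 16158202392) (nat_lit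 76) (nat_lit 4377833591) (nat_lit 12) (nat_lit 4) (nat_lit 13) (nat_lit 5) (nat_lit 13) (nat_lit 4) (nat_lit 324) (nat_lit 302) (nat_lit 274)) (XT.lf (nat_lit 0) (nat_lit 4214603535) (nat_lit 152) (nat_lit 2750287833) (nat_lit 76) (nat_lit 33578692755) (nat_lit 11) (nat_lit 5) (nat_lit 13) (nat_lit 5) (nat_lit 12) (nat_lit 4) (nat_lit 325) (nat_lit 302) (nat_lit 273))) (XT.nd (nat_lit 78) (nat_lit 76) (nat_lit 0) (XT.lf (nat_lit 0) (nat_lit 14584480497) (nat_lit 152) (nat_lit 26051563103) (nat_lit 0) (nat_lit 4289769809) (nat_lit 10) (nat_lit 5) (nat_lit 12) (nat_lit 4) (nat_lit 10) (nat_lit 4) (nat_lit 326) (nat_lit 302) (nat_lit 272)) (XT.nd (nat_lit 78) (nat_lit 76) (nat_lit 0) (XT.lf (nat_lit 0) (nat_lit 26943755205) (nat_lit 152) (nat_lit 6328095376) (nat_lit 0) (nat_lit 16628453321) (nat_lit 10) (nat_lit 5) (nat_lit 12) (nat_lit 4) (nat_lit 10) (nat_lit 4) (nat_lit 327) (nat_lit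 302) (nat_lit 271)) (XT.lf (nat_lit 0) (nat_lit 17859198736) (nat_lit 76) (nat_lit 23995184766) (nat_lit 76) (nat_lit 13661977495) (nat_lit 9) (nat_lit 4) (nat_lit 10) (nat_lit 5) (nat_lit 10) (nat_lit 4) (nat_lit 328) (nat_lit 302) (nat_lit 270))))) (XT.nd (nat_lit 234) (nat_lit 76) (nat_lit 0) (XT.nd (nat_lit 78) (nat_lit 152) (nat_lit 0) (XT.lf (nat_lit 0) (nat_lit 46304982868) (nat_lit 76) (nat_lit 12987500098) (nat_lit 76) (nat_lit 2638722924) (nat_lit 9) (nat_lit 4) (nat_lit 10) (nat_lit 5) (nat_lit 10) (nat_lit 4) (nat_lit 329) (nat_lit 302) (nat_lit 269)) (XT.nd (nat_lit 78) (nat_lit 0) (nat_lit 0) (XT.lf (nat_lit 0) (nat_lit 9551675563) (nat_lit 152) (nat_lit 59092199890) (nat_lit 0) (nat_lit 540965808) (nat_lit 7) (nat_lit 5) (nat_lit 9) (nat_lit 4) (nat_lit 7) (nat_lit 4) (nat_lit 330) (nat_lit 302) (nat_lit 268)) (XT.lf (nat_lit 0) (nat_lit 24738625638) (nat_lit 152) (nat_lit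 36835654924) (nat_lit 0) (nat_lit 15717678420) (nat_lit 7) (nat_lit 5) (nat_lit 9) (nat_lit 4) (nat_lit 7) (nat_lit 4) (nat_lit 331) (nat_lit 302) (nat_lit 267)))) (XT.nd (nat_lit 78) (nat_lit 76) (nat_lit 0) (XT.lf (nat_lit 0) (nat_lit 42172290101) (nat_lit 152) (nat_lit 11305118897) (nat_lit 0) (nat_lit 33142440740) (nat_lit 7) (nat_lit 5) (nat_lit 9) (nat_lit 4) (nat_lit 7) (nat_lit 4) (nat_lit 332) (nat_lit 302) (nat_lit 266)) (XT.nd (nat_lit 78) (nat_lit 0) (nat_lit 0) (XT.lf (nat_lit 0) (nat_lit 19757903913) (nat_lit 76) (nat_lit 43253991140) (nat_lit 76) (nat_lit 34216400786) (nat_lit 6) (nat_lit 4) (nat_lit 7) (nat_lit 5) (nat_lit 7) (nat_lit 4) (nat_lit 333) (nat_lit 302) (nat_lit 265)) (XT.lf (nat_lit 0) (nat_lit 56697391531) (nat_lit 76) (nat_lit 30845093496) (nat_lit 76) (nat_lit 21800771844) (nat_lit 6) (nat_lit 4) (nat_lit 7) (nat_lit 5) (nat_lit 7) (nat_lit 4) (nat_lit 334)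 (nat_lit 302) (nat_lit 264)))))) (XT.nd (nat_lit 468) (nat_lit 76) (nat_lit 0) (XT.nd (nat_lit 234) (nat_lit 0) (nat_lit 0) (XT.nd (nat_lit 78) (nat_lit 152) (nat_lit 0) (XT.lf (nat_lit 0) (nat_lit 99131254625) (nat_lit 76) (nat_lit 16598882682) (nat_lit 76) (nat_lit 7548707727) (nat_lit 6) (nat_lit 4) (nat_lit 7) (nat_lit 5) (nat_lit 7) (nat_lit 4) (nat_lit 335) (nat_lit 302) (nat_lit 263)) (XT.nd (nat_lit 78) (nat_lit 0) (nat_lit 0) (XT.lf (nat_lit 0) (nat_lit 8432409068) (nat_lit 152) (nat_lit 130202433844) (nat_lit 0) (nat_lit 558265778) (nat_lit 4) (nat_lit 5) (nat_lit 6) (nat_lit 4) (nat_lit 4) (nat_lit 4) (nat_lit 336) (nat_lit 302) (nat_lit 262)) (XT.lf (nat_lit 0) (nat_lit 28130243642) (nat_lit 152) (nat_lit 108744240742) (nat_lit 0) (nat_lit 20252251710) (nat_lit 4) (nat_lit 5) (nat_lit 6) (nat_lit 4) (nat_lit 4) (nat_lit 4) (nat_lit 337) (nat_lit 302) (nat_lit 261)))) (XT.nd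 (nat_lit 78) (nat_lit 0) (nat_lit 0) (XT.lf (nat_lit 0) (nat_lit 50765016979) (nat_lit 152) (nat_lit 84104375005) (nat_lit 0) (nat_lit 42883678402) (nat_lit 4) (nat_lit 5) (nat_lit 6) (nat_lit 4) (nat_lit 4) (nat_lit 4) (nat_lit 338) (nat_lit 302) (nat_lit 260)) (XT.nd (nat_lit 78) (nat_lit 0) (nat_lit 0) (XT.lf (nat_lit 0) (nat_lit 76779583341) (nat_lit 152) (nat_lit 55800752304) (nat_lit 0) (nat_lit 68895334638) (nat_lit 4) (nat_lit 5) (nat_lit 6) (nat_lit 4) (nat_lit 4) (nat_lit 4) (nat_lit 339) (nat_lit 302) (nat_lit 259)) (XT.lf (nat_lit 0) (nat_lit 106682923373) (nat_lit 152) (nat_lit 23279606109) (nat_lit 0) (nat_lit 98796144125) (nat_lit 4) (nat_lit 5) (nat_lit 6) (nat_lit 4) (nat_lit 4) (nat_lit 4) (nat_lit 340) (nat_lit 302) (nat_lit 258))))) (XT.nd (nat_lit 234) (nat_lit 0) (nat_lit 0) (XT.nd (nat_lit 78) (nat_lit 0) (nat_lit 0) (XT.lf (nat_lit 0) (nat_lit 15472846684) (nat_lit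 76) (nat_lit 126227953324) (nat_lit 76) (nat_lit 118338973603) (nat_lit 3) (nat_lit 4) (nat_lit 4) (nat_lit 5) (nat_lit 4) (nat_lit 4) (nat_lit 341) (nat_lit 302) (nat_lit 257)) (XT.nd (nat_lit 78) (nat_lit 0) (nat_lit 0) (XT.lf (nat_lit 0) (nat_lit 62631220042) (nat_lit 76) (nat_lit 120545922693) (nat_lit 76) (nat_lit 112655029517) (nat_lit 3) (nat_lit 4) (nat_lit 4) (nat_lit 5) (nat_lit 4) (nat_lit 4) (nat_lit 342) (nat_lit 302) (nat_lit 256)) (XT.lf (nat_lit 0) (nat_lit 116843125375) (nat_lit 76) (nat_lit 114022155925) (nat_lit 76) (nat_lit 106129598875) (nat_lit 3) (nat_lit 4) (nat_lit 4) (nat_lit 5) (nat_lit 4) (nat_lit 4) (nat_lit 343) (nat_lit 302) (nat_lit 255)))) (XT.nd (nat_lit 78) (nat_lit 0) (nat_lit 0) (XT.lf (nat_lit 0) (nat_lit 179169230396) (nat_lit 76) (nat_lit 106529014105) (nat_lit 76) (nat_lit 98635010208) (nat_lit 3) (nat_lit 4) (nat_lit 4) (nat_lit 5) (nat_lit 4)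 (nat_lit 4) (nat_lit 344) (nat_lit 302) (nat_lit 254)) (XT.nd (nat_lit 78) (nat_lit 0) (nat_lit 0) (XT.lf (nat_lit 0) (nat_lit 250828958899) (nat_lit 76) (nat_lit 97919892285) (nat_lit 76) (nat_lit 90024630260) (nat_lit 3) (nat_lit 4) (nat_lit 4) (nat_lit 5) (nat_lit 4) (nat_lit 4) (nat_lit 345) (nat_lit 302) (nat_lit 253)) (XT.lf (nat_lit 0) (nat_lit 333224349051) (nat_lit 76) (nat_lit 88026351124) (nat_lit 76) (nat_lit 80129995075) (nat_lit 3) (nat_lit 4) (nat_lit 4) (nat_lit 5) (nat_lit 4) (nat_lit 4) (nat_lit 346) (nat_lit 302) (nat_lit 252))))))))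
noncomputable def xc52 : XT := (XT.nd (nat_lit 1716) (nat_lit 0) (nat_lit 0) (XT.nd (nat_lit 858) (nat_lit 0) (nat_lit 0) (XT.nd (nat_lit 390) (nat_lit 152) (nat_lit 0) (XT.nd (nat_lit 156) (nat_lit 0) (nat_lit 0) (XT.nd (nat_lit 78) (nat_lit 0) (nat_lit 0) (XT.lf (nat_lit 0) (nat_lit 427967484571) (nat_lit 76) (nat_lit 76654821339) (nat_lit 76) (nat_lit 68757513965) (nat_lit 3) (nat_lit 4) (nat_lit 4) (nat_lit 5) (nat_lit 4) (nat_lit 4) (nat_lit 347) (nat_lit 302) (nat_lit 251)) (XT.lf (nat_lit 0) (nat_lit 536912035503) (nat_lit 76) (nat_lit 63582816479) (nat_lit 76) (nat_lit 55684681865) (nat_lit 3) (nat_lit 4) (nat_lit 4) (nat_lit 5) (nat_lit 4) (nat_lit 4) (nat_lit 348) (nat_lit 302) (nat_lit 250))) (XT.nd (nat_lit 78) (nat_lit 0) (nat_lit 0) (XT.lf (nat_lit 0) (nat_lit 662189525669) (nat_lit 76) (nat_lit 48554579924) (nat_lit 76) (nat_lit 40655725972) (nat_lit 3) (nat_lit 4) (nat_lit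 4) (nat_lit 5) (nat_lit 4) (nat_lit 4) (nat_lit 349) (nat_lit 302) (nat_lit 249)) (XT.nd (nat_lit 78) (nat_lit 0) (nat_lit 0) (XT.lf (nat_lit 0) (nat_lit 806251036398) (nat_lit 76) (nat_lit 31276080962) (nat_lit 76) (nat_lit 23376601498) (nat_lit 3) (nat_lit 4) (nat_lit 4) (nat_lit 5) (nat_lit 4) (nat_lit 4) (nat_lit 350) (nat_lit 302) (nat_lit 248)) (XT.lf (nat_lit 0) (nat_lit 971915162466) (nat_lit 76) (nat_lit 11409262003) (nat_lit 76) (nat_lit 3509238615) (nat_lit 3) (nat_lit 4) (nat_lit 4) (nat_lit 5) (nat_lit 4) (nat_lit 4) (nat_lit 351) (nat_lit 302) (nat_lit 247))))) (XT.nd (nat_lit 234) (nat_lit 0) (nat_lit 0) (XT.nd (nat_lit 78) (nat_lit 0) (nat_lit 0) (XT.lf (nat_lit 0) (nat_lit 19552432841) (nat_lit 152) (nat_lit 1099007743116) (nat_lit 0) (nat_lit 12682436002) (nat_lit 1) (nat_lit 5) (nat_lit 3) (nat_lit 4) (nat_lit 1) (nat_lit 4) (nat_lit 352) (nat_lit 302) (nat_lit 246))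 (XT.nd (nat_lit 78) (nat_lit 0) (nat_lit 0) (XT.lf (nat_lit 0) (nat_lit 47071475619) (nat_lit 152) (nat_lit 1209811630691) (nat_lit 0) (nat_lit 40201121142) (nat_lit 1) (nat_lit 5) (nat_lit 3) (nat_lit 4) (nat_lit 1) (nat_lit 4) (nat_lit 353) (nat_lit 302) (nat_lit 245)) (XT.lf (nat_lit 0) (nat_lit 78715884462) (nat_lit 152) (nat_lit 1337241355583) (nat_lit 0) (nat_lit 71845218995) (nat_lit 1) (nat_lit 5) (nat_lit 3) (nat_lit 4) (nat_lit 1) (nat_lit 4) (nat_lit 354) (nat_lit 302) (nat_lit 244)))) (XT.nd (nat_lit 78) (nat_lit 0) (nat_lit 0) (XT.lf (nat_lit 0) (nat_lit 115104789106) (nat_lit 152) (nat_lit 1483790108061) (nat_lit 0) (nat_lit 108233853213) (nat_lit 1) (nat_lit 5) (nat_lit 3) (nat_lit 4) (nat_lit 1) (nat_lit 4) (nat_lit 355) (nat_lit 302) (nat_lit 243)) (XT.nd (nat_lit 78) (nat_lit 0) (nat_lit 0) (XT.lf (nat_lit 0) (nat_lit 156950146382) (nat_lit 152) (nat_lit 1652325146326)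 (nat_lit 0) (nat_lit 150078975336) (nat_lit 1) (nat_lit 5) (nat_lit 3) (nat_lit 4) (nat_lit 1) (nat_lit 4) (nat_lit 356) (nat_lit 302) (nat_lit 242)) (XT.lf (nat_lit 0) (nat_lit 205070669801) (nat_lit 152) (nat_lit 1846143895039) (nat_lit 0) (nat_lit 198199294274) (nat_lit 1) (nat_lit 5) (nat_lit 3) (nat_lit 4) (nat_lit 1) (nat_lit 4) (nat_lit 357) (nat_lit 302) (nat_lit 241)))))) (XT.nd (nat_lit 390) (nat_lit 0) (nat_lit 0) (XT.nd (nat_lit 156) (nat_lit 0) (nat_lit 0) (XT.nd (nat_lit 78) (nat_lit 0) (nat_lit 0) (XT.lf (nat_lit 0) (nat_lit 260407847866) (nat_lit 152) (nat_lit 2069038460154) (nat_lit 0) (nat_lit 253536294530) (nat_lit 1) (nat_lit 5) (nat_lit 3) (nat_lit 4) (nat_lit 1) (nat_lit 4) (nat_lit 358) (nat_lit 302) (nat_lit 240)) (XT.lf (nat_lit 0) (nat_lit 324044364496) (nat_lit 152) (nat_lit 2325369822293) (nat_lit 0) (nat_lit 317172656542) (nat_lit 1) (nat_lit 5) (nat_lit 3)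 (nat_lit 4) (nat_lit 1) (nat_lit 4) (nat_lit 359) (nat_lit 302) (nat_lit 239))) (XT.nd (nat_lit 78) (nat_lit 0) (nat_lit 0) (XT.lf (nat_lit 0) (nat_lit 397225281971) (nat_lit 152) (nat_lit 2620153160279) (nat_lit 0) (nat_lit 390353439568) (nat_lit 1) (nat_lit 5) (nat_lit 3) (nat_lit 4) (nat_lit 1) (nat_lit 4) (nat_lit 360) (nat_lit 302) (nat_lit 238)) (XT.nd (nat_lit 78) (nat_lit 0) (nat_lit 0) (XT.lf (nat_lit 0) (nat_lit 481382400851) (nat_lit 152) (nat_lit 2959155974204) (nat_lit 0) (nat_lit 474510441535) (nat_lit 1) (nat_lit 5) (nat_lit 3) (nat_lit 4) (nat_lit 1) (nat_lit 4) (nat_lit 361) (nat_lit 302) (nat_lit 237)) (XT.lf (nat_lit 0) (nat_lit 578162273463) (nat_lit 152) (nat_lit 3349010927819) (nat_lit 0) (nat_lit 571290212484) (nat_lit 1) (nat_lit 5) (nat_lit 3) (nat_lit 4) (nat_lit 1) (nat_lit 4) (nat_lit 362) (nat_lit 302) (nat_lit 236))))) (XT.nd (nat_lit 234) (nat_lit 0) (nat_lit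 0) (XT.nd (nat_lit 78) (nat_lit 0) (nat_lit 0) (XT.lf (nat_lit 0) (nat_lit 689458419052) (nat_lit 152) (nat_lit 3797345618042) (nat_lit 0) (nat_lit 682586269671) (nat_lit 1) (nat_lit 5) (nat_lit 3) (nat_lit 4) (nat_lit 1) (nat_lit 4) (nat_lit 363) (nat_lit 302) (nat_lit 235)) (XT.nd (nat_lit 78) (nat_lit 0) (nat_lit 0) (XT.lf (nat_lit 0) (nat_lit 817448370903) (nat_lit 152) (nat_lit 4312931810552) (nat_lit 0) (nat_lit 810576144649) (nat_lit 1) (nat_lit 5) (nat_lit 3) (nat_lit 4) (nat_lit 1) (nat_lit 4) (nat_lit 364) (nat_lit 302) (nat_lit 234)) (XT.lf (nat_lit 0) (nat_lit 964636280247) (nat_lit 152) (nat_lit 4905857061288) (nat_lit 0) (nat_lit 957763987148) (nat_lit 1) (nat_lit 5) (nat_lit 3) (nat_lit 4) (nat_lit 1) (nat_lit 4) (nat_lit 365) (nat_lit 302) (nat_lit 233)))) (XT.nd (nat_lit 78) (nat_lit 0) (nat_lit 0) (XT.lf (nat_lit 0) (nat_lit 1133901910527) (nat_lit 152) (nat_lit 5587722081679)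 (nat_lit 0) (nat_lit 1127029559302) (nat_lit 1) (nat_lit 5) (nat_lit 3) (nat_lit 4) (nat_lit 1) (nat_lit 4) (nat_lit 366) (nat_lit 302) (nat_lit 232)) (XT.nd (nat_lit 78) (nat_lit 0) (nat_lit 0) (XT.lf (nat_lit 0) (nat_lit 1328556980598) (nat_lit 152) (nat_lit 6371867709079) (nat_lit 0) (nat_lit 1321684578828) (nat_lit 1) (nat_lit 5) (nat_lit 3) (nat_lit 4) (nat_lit 1) (nat_lit 4) (nat_lit 367) (nat_lit 302) (nat_lit 231)) (XT.lf (nat_lit 0) (nat_lit 1552409959221) (nat_lit 152) (nat_lit 7273635923156) (nat_lit 0) (nat_lit 1545537513500) (nat_lit 1) (nat_lit 5) (nat_lit 3) (nat_lit 4) (nat_lit 1) (nat_lit 4) (nat_lit 368) (nat_lit 302) (nat_lit 230))))))) (XT.nd (nat_lit 858) (nat_lit 0) (nat_lit 0) (XT.nd (nat_lit 390) (nat_lit 0) (nat_lit 0) (XT.nd (nat_lit 156) (nat_lit 0) (nat_lit 0) (XT.nd (nat_lit 78) (nat_lit 0) (nat_lit 0) (XT.lf (nat_lit 0) (nat_lit 1809840578587) (nat_lit 152)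 (nat_lit 8310670015054) (nat_lit 0) (nat_lit 1802968094646) (nat_lit 1) (nat_lit 5) (nat_lit 3) (nat_lit 4) (nat_lit 1) (nat_lit 4) (nat_lit 369) (nat_lit 302) (nat_lit 229)) (XT.lf (nat_lit 0) (nat_lit 2105885524726) (nat_lit 152) (nat_lit 9503259782223) (nat_lit 0) (nat_lit 2099013007552) (nat_lit 1) (nat_lit 5) (nat_lit 3) (nat_lit 4) (nat_lit 1) (nat_lit 4) (nat_lit 370) (nat_lit 302) (nat_lit 228))) (XT.nd (nat_lit 78) (nat_lit 0) (nat_lit 0) (XT.lf (nat_lit 0) (nat_lit 2446336981368) (nat_lit 152) (nat_lit 10874738502718) (nat_lit 0) (nat_lit 2439464435295) (nat_lit 1) (nat_lit 5) (nat_lit 3) (nat_lit 4) (nat_lit 1) (nat_lit 4) (nat_lit 371) (nat_lit 302) (nat_lit 227)) (XT.nd (nat_lit 78) (nat_lit 0) (nat_lit 0) (XT.lf (nat_lit 0) (nat_lit 2837855955274) (nat_lit 152) (nat_lit 12451939455851) (nat_lit 0) (nat_lit 2830983384071) (nat_lit 1) (nat_lit 5) (nat_lit 3) (nat_lit 4) (nat_lit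 1) (nat_lit 4) (nat_lit 372) (nat_lit 302) (nat_lit 226)) (XT.lf (nat_lit 0) (nat_lit 3288102600279) (nat_lit 152) (nat_lit 14265720921140) (nat_lit 0) (nat_lit 3281230007225) (nat_lit 1) (nat_lit 5) (nat_lit 3) (nat_lit 4) (nat_lit 1) (nat_lit 4) (nat_lit 373) (nat_lit 302) (nat_lit 225))))) (XT.nd (nat_lit 234) (nat_lit 0) (nat_lit 0) (XT.nd (nat_lit 78) (nat_lit 0) (nat_lit 0) (XT.lf (nat_lit 0) (nat_lit 3805886089874) (nat_lit 152) (nat_lit 16351569927255) (nat_lit 0) (nat_lit 3799013477818) (nat_lit 1) (nat_lit 5) (nat_lit 3) (nat_lit 4) (nat_lit 1) (nat_lit 4) (nat_lit 374) (nat_lit 302) (nat_lit 224)) (XT.nd (nat_lit 78) (nat_lit 0) (nat_lit 0) (XT.lf (nat_lit 0) (nat_lit 4401336970595) (nat_lit 152) (nat_lit 18750296563446) (nat_lit 0) (nat_lit 4394464342015) (nat_lit 1) (nat_lit 5) (nat_lit 3) (nat_lit 4) (nat_lit 1) (nat_lit 4) (nat_lit 375) (nat_lit 302) (nat_lit 223)) (XT.lf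 (nat_lit 0) (nat_lit 5086105368367) (nat_lit 152) (nat_lit 21508832437811) (nat_lit 0) (nat_lit 5079232725420) (nat_lit 1) (nat_lit 5) (nat_lit 3) (nat_lit 4) (nat_lit 1) (nat_lit 4) (nat_lit 376) (nat_lit 302) (nat_lit 222)))) (XT.nd (nat_lit 78) (nat_lit 0) (nat_lit 0) (XT.lf (nat_lit 0) (nat_lit 5873588925757) (nat_lit 152) (nat_lit 24681148904415) (nat_lit 0) (nat_lit 5866716270316) (nat_lit 1) (nat_lit 5) (nat_lit 3) (nat_lit 4) (nat_lit 1) (nat_lit 4) (nat_lit 377) (nat_lit 302) (nat_lit 221)) (XT.nd (nat_lit 78) (nat_lit 0) (nat_lit 0) (XT.lf (nat_lit 0) (nat_lit 6779194929757) (nat_lit 152) (nat_lit 28329313024560) (nat_lit 0) (nat_lit 6772322263451) (nat_lit 1) (nat_lit 5) (nat_lit 3) (nat_lit 4) (nat_lit 1) (nat_lit 4) (nat_lit 378) (nat_lit 302) (nat_lit 220)) (XT.lf (nat_lit 0) (nat_lit 7820641758705) (nat_lit 152) (nat_lit 32524701922336) (nat_lit 0) (nat_lit 7813769082953)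 (nat_lit 1) (nat_lit 5) (nat_lit 3) (nat_lit 4) (nat_lit 1) (nat_lit 4) (nat_lit 379) (nat_lit 302) (nat_lit 219)))))) (XT.nd (nat_lit 390) (nat_lit 0) (nat_lit 0) (XT.nd (nat_lit 156) (nat_lit 0) (nat_lit 0) (XT.nd (nat_lit 78) (nat_lit 0) (nat_lit 0) (XT.lf (nat_lit 0) (nat_lit 9018305546212) (nat_lit 152) (nat_lit 37349399293570) (nat_lit 0) (nat_lit 9011432862245) (nat_lit 1) (nat_lit 5) (nat_lit 3) (nat_lit 4) (nat_lit 1) (nat_lit 4) (nat_lit 380) (nat_lit 302) (nat_lit 218)) (XT.lf (nat_lit 0) (nat_lit 10395618844643) (nat_lit 152) (nat_lit 42897801391177) (nat_lit 0) (nat_lit 10388746153532) (nat_lit 1) (nat_lit 5) (nat_lit 3) (nat_lit 4) (nat_lit 1) (nat_lit 4) (nat_lit 381) (nat_lit 302) (nat_lit 217))) (XT.nd (nat_lit 78) (nat_lit 0) (nat_lit 0) (XT.lf (nat_lit 0) (nat_lit 11979529088096) (nat_lit 152) (nat_lit 49278463908371) (nat_lit 0) (nat_lit 11972656390773) (nat_lit 1)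 (nat_lit 5) (nat_lit 3) (nat_lit 4) (nat_lit 1) (nat_lit 4) (nat_lit 382) (nat_lit 302) (nat_lit 216)) (XT.nd (nat_lit 78) (nat_lit 0) (nat_lit 0) (XT.lf (nat_lit 0) (nat_lit 13801025824813) (nat_lit 152) (nat_lit 56616225894401) (nat_lit 0) (nat_lit 13794153122089) (nat_lit 1) (nat_lit 5) (nat_lit 3) (nat_lit 4) (nat_lit 1) (nat_lit 4) (nat_lit 383) (nat_lit 302) (nat_lit 215)) (XT.lf (nat_lit 0) (nat_lit 15895747034426) (nat_lit 152) (nat_lit 65054652257690) (nat_lit 0) (nat_lit 15888874327005) (nat_lit 1) (nat_lit 5) (nat_lit 3) (nat_lit 4) (nat_lit 1) (nat_lit 4) (nat_lit 384) (nat_lit 302) (nat_lit 214))))) (XT.nd (nat_lit 234) (nat_lit 0) (nat_lit 0) (XT.nd (nat_lit 78) (nat_lit 0) (nat_lit 0) (XT.lf (nat_lit 0) (nat_lit 18304676392775) (nat_lit 152) (nat_lit 74758842644475) (nat_lit 0) (nat_lit 18297803681270) (nat_lit 1) (nat_lit 5) (nat_lit 3) (nat_lit 4) (nat_lit 1) (nat_lit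 4) (nat_lit 385) (nat_lit 302) (nat_lit 213)) (XT.nd (nat_lit 78) (nat_lit 0) (nat_lit 0) (XT.lf (nat_lit 0) (nat_lit 21074945126436) (nat_lit 152) (nat_lit 85918661649282) (nat_lit 0) (nat_lit 21068072411380) (nat_lit 1) (nat_lit 5) (nat_lit 3) (nat_lit 4) (nat_lit 1) (nat_lit 4) (nat_lit 386) (nat_lit 302) (nat_lit 212)) (XT.lf (nat_lit 0) (nat_lit 24260754145416) (nat_lit 152) (nat_lit 98752453556987) (nat_lit 0) (nat_lit 24253881427271) (nat_lit 1) (nat_lit 5) (nat_lit 3) (nat_lit 4) (nat_lit 1) (nat_lit 4) (nat_lit 387) (nat_lit 302) (nat_lit 211)))) (XT.nd (nat_lit 78) (nat_lit 0) (nat_lit 0) (XT.lf (nat_lit 0) (nat_lit 27924434495738) (nat_lit 152) (nat_lit 113511314296217) (nat_lit 0) (nat_lit 27917561774908) (nat_lit 1) (nat_lit 5) (nat_lit 3) (nat_lit 4) (nat_lit 1) (nat_lit 4) (nat_lit 388) (nat_lit 302) (nat_lit 210)) (XT.nd (nat_lit 78) (nat_lit 0) (nat_lit 0) (XT.lf (nat_lit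 0) (nat_lit 32137666879909) (nat_lit 152) (nat_lit 130484004185786) (nat_lit 0) (nat_lit 32130794156744) (nat_lit 1) (nat_lit 5) (nat_lit 3) (nat_lit 4) (nat_lit 1) (nat_lit 4) (nat_lit 389) (nat_lit 302) (nat_lit 209)) (XT.lf (nat_lit 0) (nat_lit 36982884105445) (nat_lit 152) (nat_lit 150002597593098) (nat_lit 0) (nat_lit 36976011380249) (nat_lit 1) (nat_lit 5) (nat_lit 3) (nat_lit 4) (nat_lit 1) (nat_lit 4) (nat_lit 390) (nat_lit 302) (nat_lit 208))))))))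
noncomputable def xc53 : XT := (XT.nd (nat_lit 41496) (nat_lit 0) (nat_lit 152) (XT.nd (nat_lit 40638) (nat_lit 0) (nat_lit 1064) (XT.nd (nat_lit 40170) (nat_lit 0) (nat_lit 1900) (XT.nd (nat_lit 156) (nat_lit 0) (nat_lit 0) (XT.nd (nat_lit 78) (nat_lit 0) (nat_lit 0) (XT.lf (nat_lit 0) (nat_lit 42554883900671) (nat_lit 152) (nat_lit 172448980041338) (nat_lit 0) (nat_lit 42548011173709) (nat_lit 1) (nat_lit 5) (nat_lit 3) (nat_lit 4) (nat_lit 1) (nat_lit 4) (nat_lit 391) (nat_lit 302) (nat_lit 207)) (XT.lf (nat_lit 0) (nat_lit 48962683652886) (nat_lit 152) (nat_lit 198262319882755) (nat_lit 0) (nat_lit 48955810924388) (nat_lit 1) (nat_lit 5) (nat_lit 3) (nat_lit 4) (nat_lit 1) (nat_lit 4) (nat_lit 392) (nat_lit 302) (nat_lit 206))) (XT.nd (nat_lit 39858) (nat_lit 0) (nat_lit 2432) (XT.lf (nat_lit 0) (nat_lit 56331653357241) (nat_lit 152) (nat_lit 227947660722942) (nat_lit 0) (nat_lit 56324780627409)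 (nat_lit 1) (nat_lit 5) (nat_lit 3) (nat_lit 4) (nat_lit 1) (nat_lit 4) (nat_lit 393) (nat_lit 302) (nat_lit 205)) (XT.nd (nat_lit 78) (nat_lit 0) (nat_lit 0) (XT.lf (nat_lit 0) (nat_lit 125466595) (nat_lit 0) (nat_lit 125466595) (nat_lit 228) (nat_lit 3397276429) (nat_lit 33) (nat_lit 5) (nat_lit 33) (nat_lit 3) (nat_lit 36) (nat_lit 3) (nat_lit 303) (nat_lit 303) (nat_lit 294)) (XT.lf (nat_lit 0) (nat_lit 2132472124) (nat_lit 228) (nat_lit 3510831546) (nat_lit 304) (nat_lit 1958373556) (nat_lit 33) (nat_lit 5) (nat_lit 36) (nat_lit 3) (nat_lit 37) (nat_lit 5) (nat_lit 304) (nat_lit 303) (nat_lit 293))))) (XT.nd (nat_lit 234) (nat_lit 380) (nat_lit 0) (XT.nd (nat_lit 78) (nat_lit 152) (nat_lit 0) (XT.lf (nat_lit 76) (nat_lit 397299337) (nat_lit 0) (nat_lit 3376530247) (nat_lit 304) (nat_lit 4214509452) (nat_lit 34) (nat_lit 5) (nat_lit 33) (nat_lit 5) (nat_lit 37) (nat_lit 5) (nat_lit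 305) (nat_lit 303) (nat_lit 292)) (XT.nd (nat_lit 78) (nat_lit 152) (nat_lit 0) (XT.lf (nat_lit 76) (nat_lit 5114264832) (nat_lit 0) (nat_lit 495491809) (nat_lit 304) (nat_lit 2831457496) (nat_lit 34) (nat_lit 5) (nat_lit 33) (nat_lit 5) (nat_lit 37) (nat_lit 5) (nat_lit 306) (nat_lit 303) (nat_lit 291)) (XT.lf (nat_lit 0) (nat_lit 1402015186) (nat_lit 228) (nat_lit 6291580312) (nat_lit 304) (nat_lit 1272954345) (nat_lit 31) (nat_lit 5) (nat_lit 34) (nat_lit 5) (nat_lit 35) (nat_lit 5) (nat_lit 307) (nat_lit 303) (nat_lit 290)))) (XT.nd (nat_lit 78) (nat_lit 304) (nat_lit 0) (XT.lf (nat_lit 0) (nat_lit 486774713) (nat_lit 304) (nat_lit 2577402336) (nat_lit 76) (nat_lit 6501538918) (nat_lit 30) (nat_lit 5) (nat_lit 34) (nat_lit 5) (nat_lit 31) (nat_lit 5) (nat_lit 308) (nat_lit 303) (nat_lit 289)) (XT.nd (nat_lit 78) (nat_lit 0) (nat_lit 0) (XT.lf (nat_lit 0) (nat_lit 2382194599) (nat_lit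 380) (nat_lit 7071981076) (nat_lit 76) (nat_lit 791448244) (nat_lit 26) (nat_lit 5) (nat_lit 31) (nat_lit 5) (nat_lit 27) (nat_lit 5) (nat_lit 309) (nat_lit 303) (nat_lit 288)) (XT.lf (nat_lit 0) (nat_lit 4696707161) (nat_lit 380) (nat_lit 1266019970) (nat_lit 76) (nat_lit 5044807113) (nat_lit 26) (nat_lit 5) (nat_lit 31) (nat_lit 5) (nat_lit 27) (nat_lit 5) (nat_lit 310) (nat_lit 303) (nat_lit 287)))))) (XT.nd (nat_lit 390) (nat_lit 380) (nat_lit 0) (XT.nd (nat_lit 156) (nat_lit 228) (nat_lit 0) (XT.nd (nat_lit 78) (nat_lit 76) (nat_lit 0) (XT.lf (nat_lit 0) (nat_lit 5764565520) (nat_lit 152) (nat_lit 1700114702) (nat_lit 228) (nat_lit 4403311078) (nat_lit 24) (nat_lit 5) (nat_lit 26) (nat_lit 5) (nat_lit 27) (nat_lit 5) (nat_lit 311) (nat_lit 303) (nat_lit 286)) (XT.lf (nat_lit 0) (nat_lit 921383781) (nat_lit 76) (nat_lit 9843810238) (nat_lit 152) (nat_lit 2074897461) (nat_lit 23) (nat_lit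 5) (nat_lit 24) (nat_lit 5) (nat_lit 25) (nat_lit 4) (nat_lit 312) (nat_lit 303) (nat_lit 285))) (XT.nd (nat_lit 78) (nat_lit 152) (nat_lit 0) (XT.lf (nat_lit 0) (nat_lit 845360681) (nat_lit 152) (nat_lit 4518805570) (nat_lit 76) (nat_lit 8545792872) (nat_lit 22) (nat_lit 5) (nat_lit 24) (nat_lit 5) (nat_lit 23) (nat_lit 5) (nat_lit 313) (nat_lit 303) (nat_lit 284)) (XT.nd (nat_lit 78) (nat_lit 0) (nat_lit 0) (XT.lf (nat_lit 0) (nat_lit 4059903582) (nat_lit 228) (nat_lit 11010508200) (nat_lit 76) (nat_lit 44888941) (nat_lit 20) (nat_lit 5) (nat_lit 23) (nat_lit 5) (nat_lit 21) (nat_lit 4) (nat_lit 314) (nat_lit 303) (nat_lit 283)) (XT.lf (nat_lit 0) (nat_lit 8161633070) (nat_lit 228) (nat_lit 2359341630) (nat_lit 76) (nat_lit 5919818881) (nat_lit 20) (nat_lit 5) (nat_lit 23) (nat_lit 5) (nat_lit 21) (nat_lit 4) (nat_lit 315) (nat_lit 303) (nat_lit 282))))) (XT.nd (nat_lit 234) (nat_lit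 152) (nat_lit 0) (XT.nd (nat_lit 78) (nat_lit 152) (nat_lit 0) (XT.lf (nat_lit 0) (nat_lit 8181883922) (nat_lit 76) (nat_lit 4950410911) (nat_lit 152) (nat_lit 4794852248) (nat_lit 19) (nat_lit 5) (nat_lit 20) (nat_lit 5) (nat_lit 21) (nat_lit 4) (nat_lit 316) (nat_lit 303) (nat_lit 281)) (XT.nd (nat_lit 78) (nat_lit 76) (nat_lit 0) (XT.lf (nat_lit 0) (nat_lit 818473679) (nat_lit 76) (nat_lit 18171970461) (nat_lit 76) (nat_lit 624802439) (nat_lit 18) (nat_lit 4) (nat_lit 19) (nat_lit 5) (nat_lit 19) (nat_lit 4) (nat_lit 317) (nat_lit 303) (nat_lit 280)) (XT.lf (nat_lit 0) (nat_lit 4488772093) (nat_lit 152) (nat_lit 7992106322) (nat_lit 76) (nat_lit 8946435899) (nat_lit 17) (nat_lit 5) (nat_lit 19) (nat_lit 5) (nat_lit 18) (nat_lit 4) (nat_lit 318) (nat_lit 303) (nat_lit 279)))) (XT.nd (nat_lit 78) (nat_lit 76) (nat_lit 0) (XT.lf (nat_lit 0) (nat_lit 4699002700) (nat_lit 76) (nat_lit 5731356319)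 (nat_lit 152) (nat_lit 13057678813) (nat_lit 16) (nat_lit 5) (nat_lit 17) (nat_lit 5) (nat_lit 18) (nat_lit 4) (nat_lit 319) (nat_lit 303) (nat_lit 278)) (XT.nd (nat_lit 78) (nat_lit 76) (nat_lit 0) (XT.lf (nat_lit 0) (nat_lit 17717377685) (nat_lit 152) (nat_lit 5832165091) (nat_lit 0) (nat_lit 2240241623) (nat_lit 16) (nat_lit 5) (nat_lit 18) (nat_lit 4) (nat_lit 16) (nat_lit 4) (nat_lit 320) (nat_lit 303) (nat_lit 277)) (XT.lf (nat_lit 0) (nat_lit 9535569935) (nat_lit 76) (nat_lit 17170907833) (nat_lit 76) (nat_lit 1638998781) (nat_lit 15) (nat_lit 4) (nat_lit 16) (nat_lit 5) (nat_lit 16) (nat_lit 4) (nat_lit 321) (nat_lit 303) (nat_lit 276))))))) (XT.nd (nat_lit 858) (nat_lit 304) (nat_lit 0) (XT.nd (nat_lit 390) (nat_lit 304) (nat_lit 0) (XT.nd (nat_lit 156) (nat_lit 152) (nat_lit 0) (XT.nd (nat_lit 78) (nat_lit 76) (nat_lit 0) (XT.lf (nat_lit 0) (nat_lit 5508016513) (nat_lit 152)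 (nat_lit 3737302234) (nat_lit 76) (nat_lit 21964258687) (nat_lit 14) (nat_lit 5) (nat_lit 16) (nat_lit 5) (nat_lit 15) (nat_lit 4) (nat_lit 322) (nat_lit 303) (nat_lit 275)) (XT.lf (nat_lit 0) (nat_lit 14144447907) (nat_lit 152) (nat_lit 19698378760) (nat_lit 0) (nat_lit 561009656) (nat_lit 13) (nat_lit 5) (nat_lit 15) (nat_lit 4) (nat_lit 13) (nat_lit 4) (nat_lit 323) (nat_lit 303) (nat_lit 274))) (XT.nd (nat_lit 78) (nat_lit 152) (nat_lit 0) (XT.lf (nat_lit 0) (nat_lit 24671822757) (nat_lit 152) (nat_lit 2259043269) (nat_lit 0) (nat_lit 11057067872) (nat_lit 13) (nat_lit 5) (nat_lit 15) (nat_lit 4) (nat_lit 13) (nat_lit 4) (nat_lit 324) (nat_lit 303) (nat_lit 273)) (XT.nd (nat_lit 78) (nat_lit 76) (nat_lit 0) (XT.lf (nat_lit 0) (nat_lit 19443528969) (nat_lit 76) (nat_lit 18096901837) (nat_lit 76) (nat_lit 4454915096) (nat_lit 12) (nat_lit 4) (nat_lit 13) (nat_lit 5) (nat_lit 13) (nat_lit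 4) (nat_lit 325) (nat_lit 303) (nat_lit 272)) (XT.lf (nat_lit 0) (nat_lit 5305919378) (nat_lit 152) (nat_lit 2257939952) (nat_lit 76) (nat_lit 38992240238) (nat_lit 11) (nat_lit 5) (nat_lit 13) (nat_lit 5) (nat_lit 12) (nat_lit 4) (nat_lit 326) (nat_lit 303) (nat_lit 271))))) (XT.nd (nat_lit 234) (nat_lit 152) (nat_lit 0) (XT.nd (nat_lit 78) (nat_lit 76) (nat_lit 0) (XT.lf (nat_lit 0) (nat_lit 17224912199) (nat_lit 152) (nat_lit 29047907456) (nat_lit 0) (nat_lit 5323818450) (nat_lit 10) (nat_lit 5) (nat_lit 12) (nat_lit 4) (nat_lit 10) (nat_lit 4) (nat_lit 327) (nat_lit 303) (nat_lit 270)) (XT.nd (nat_lit 78) (nat_lit 76) (nat_lit 0) (XT.lf (nat_lit 0) (nat_lit 31379022509) (nat_lit 152) (nat_lit 6484796542) (nat_lit 0) (nat_lit 19462358858) (nat_lit 10) (nat_lit 5) (nat_lit 12) (nat_lit 4) (nat_lit 10) (nat_lit 4) (nat_lit 328) (nat_lit 303) (nat_lit 269)) (XT.lf (nat_lit 0) (nat_lit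 21294568363) (nat_lit 76) (nat_lit 27211648620) (nat_lit 76) (nat_lit 15281445923) (nat_lit 9) (nat_lit 4) (nat_lit 10) (nat_lit 5) (nat_lit 10) (nat_lit 4) (nat_lit 329) (nat_lit 303) (nat_lit 268)))) (XT.nd (nat_lit 78) (nat_lit 152) (nat_lit 0) (XT.lf (nat_lit 0) (nat_lit 53908547530) (nat_lit 76) (nat_lit 14602743494) (nat_lit 76) (nat_lit 2660767714) (nat_lit 9) (nat_lit 4) (nat_lit 10) (nat_lit 5) (nat_lit 10) (nat_lit 4) (nat_lit 330) (nat_lit 303) (nat_lit 267)) (XT.nd (nat_lit 78) (nat_lit 0) (nat_lit 0) (XT.lf (nat_lit 0) (nat_lit 11321750652) (nat_lit 152) (nat_lit 67261630182) (nat_lit 0) (nat_lit 928521744) (nat_lit 7) (nat_lit 5) (nat_lit 9) (nat_lit 4) (nat_lit 7) (nat_lit 4) (nat_lit 331) (nat_lit 303) (nat_lit 266)) (XT.lf (nat_lit 0) (nat_lit 28742744488) (nat_lit 152) (nat_lit 41757177344) (nat_lit 0) (nat_lit 18341774587) (nat_lit 7) (nat_lit 5) (nat_lit 9) (nat_lit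 4) (nat_lit 7) (nat_lit 4) (nat_lit 332) (nat_lit 303) (nat_lit 265)))))) (XT.nd (nat_lit 468) (nat_lit 76) (nat_lit 0) (XT.nd (nat_lit 234) (nat_lit 152) (nat_lit 0) (XT.nd (nat_lit 78) (nat_lit 76) (nat_lit 0) (XT.lf (nat_lit 0) (nat_lit 48753198837) (nat_lit 152) (nat_lit 12475820802) (nat_lit 0) (nat_lit 38345497638) (nat_lit 7) (nat_lit 5) (nat_lit 9) (nat_lit 4) (nat_lit 7) (nat_lit 4) (nat_lit 333) (nat_lit 303) (nat_lit 264)) (XT.nd (nat_lit 78) (nat_lit 0) (nat_lit 0) (XT.lf (nat_lit 0) (nat_lit 23222788796) (nat_lit 76) (nat_lit 49483439953) (nat_lit 76) (nat_lit 39069885451) (nat_lit 6) (nat_lit 4) (nat_lit 7) (nat_lit 5) (nat_lit 7) (nat_lit 4) (nat_lit 334) (nat_lit 303) (nat_lit 263)) (XT.lf (nat_lit 0) (nat_lit 65637825736) (nat_lit 76) (nat_lit 35246944600) (nat_lit 76) (nat_lit 24828300270) (nat_lit 6) (nat_lit 4) (nat_lit 7) (nat_lit 5) (nat_lit 7) (nat_lit 4) (nat_lit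 335) (nat_lit 303) (nat_lit 262)))) (XT.nd (nat_lit 78) (nat_lit 152) (nat_lit 0) (XT.lf (nat_lit 0) (nat_lit 114379921493) (nat_lit 76) (nat_lit 18893138632) (nat_lit 76) (nat_lit 8470068364) (nat_lit 6) (nat_lit 4) (nat_lit 7) (nat_lit 5) (nat_lit 7) (nat_lit 4) (nat_lit 336) (nat_lit 303) (nat_lit 261)) (XT.nd (nat_lit 78) (nat_lit 0) (nat_lit 0) (XT.lf (nat_lit 0) (nat_lit 9888246329) (nat_lit 152) (nat_lit 149333797030) (nat_lit 0) (nat_lit 821360321) (nat_lit 4) (nat_lit 5) (nat_lit 6) (nat_lit 4) (nat_lit 4) (nat_lit 4) (nat_lit 337) (nat_lit 303) (nat_lit 260)) (XT.lf (nat_lit 0) (nat_lit 32515846189) (nat_lit 152) (nat_lit 124708918687) (nat_lit 0) (nat_lit 23446050055) (nat_lit 4) (nat_lit 5) (nat_lit 6) (nat_lit 4) (nat_lit 4) (nat_lit 4) (nat_lit 338) (nat_lit 303) (nat_lit 259))))) (XT.nd (nat_lit 234) (nat_lit 76) (nat_lit 0) (XT.nd (nat_lit 78) (nat_lit 0) (nat_lit 0) (XT.lf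 (nat_lit 0) (nat_lit 58524174744) (nat_lit 152) (nat_lit 96418328503) (nat_lit 0) (nat_lit 49451848065) (nat_lit 4) (nat_lit 5) (nat_lit 6) (nat_lit 4) (nat_lit 4) (nat_lit 4) (nat_lit 339) (nat_lit 303) (nat_lit 258)) (XT.nd (nat_lit 78) (nat_lit 0) (nat_lit 0) (XT.lf (nat_lit 0) (nat_lit 88422090597) (nat_lit 152) (nat_lit 63908514930) (nat_lit 0) (nat_lit 79347563444) (nat_lit 4) (nat_lit 5) (nat_lit 6) (nat_lit 4) (nat_lit 4) (nat_lit 4) (nat_lit 340) (nat_lit 303) (nat_lit 257)) (XT.lf (nat_lit 0) (nat_lit 122794552970) (nat_lit 152) (nat_lit 26543416399) (nat_lit 0) (nat_lit 113718112362) (nat_lit 4) (nat_lit 5) (nat_lit 6) (nat_lit 4) (nat_lit 4) (nat_lit 4) (nat_lit 341) (nat_lit 303) (nat_lit 256)))) (XT.nd (nat_lit 78) (nat_lit 0) (nat_lit 0) (XT.lf (nat_lit 0) (nat_lit 18011534739) (nat_lit 76) (nat_lit 145048351067) (nat_lit 76) (nat_lit 135970246585) (nat_lit 3) (nat_lit 4)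 (nat_lit 4) (nat_lit 5) (nat_lit 4) (nat_lit 4) (nat_lit 342) (nat_lit 303) (nat_lit 255)) (XT.nd (nat_lit 78) (nat_lit 0) (nat_lit 0) (XT.lf (nat_lit 0) (nat_lit 72215260485) (nat_lit 76) (nat_lit 138528858700) (nat_lit 76) (nat_lit 129449307372) (nat_lit 3) (nat_lit 4) (nat_lit 4) (nat_lit 5) (nat_lit 4) (nat_lit 4) (nat_lit 343) (nat_lit 303) (nat_lit 254)) (XT.lf (nat_lit 0) (nat_lit 134534252822) (nat_lit 76) (nat_lit 131039433751) (nat_lit 76) (nat_lit 121958624295) (nat_lit 3) (nat_lit 4) (nat_lit 4) (nat_lit 5) (nat_lit 4) (nat_lit 4) (nat_lit 344) (nat_lit 303) (nat_lit 253))))))))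
noncomputable def xc54 : XT := (XT.nd (nat_lit 1716) (nat_lit 0) (nat_lit 0) (XT.nd (nat_lit 858) (nat_lit 0) (nat_lit 0) (XT.nd (nat_lit 390) (nat_lit 152) (nat_lit 0) (XT.nd (nat_lit 156) (nat_lit 0) (nat_lit 0) (XT.nd (nat_lit 78) (nat_lit 0) (nat_lit 0) (XT.lf (nat_lit 0) (nat_lit 206187796382) (nat_lit 76) (nat_lit 122433543993) (nat_lit 76) (nat_lit 113351640512) (nat_lit 3) (nat_lit 4) (nat_lit 4) (nat_lit 5) (nat_lit 4) (nat_lit 4) (nat_lit 345) (nat_lit 303) (nat_lit 252)) (XT.lf (nat_lit 0) (nat_lit 288577808322) (nat_lit 76) (nat_lit 112542813321) (nat_lit 76) (nat_lit 103459958515) (nat_lit 3) (nat_lit 4) (nat_lit 4) (nat_lit 5) (nat_lit 4) (nat_lit 4) (nat_lit 346) (nat_lit 303) (nat_lit 251))) (XT.nd (nat_lit 78) (nat_lit 0) (nat_lit 0) (XT.lf (nat_lit 0) (nat_lit 383316267137) (nat_lit 76) (nat_lit 101173727439) (nat_lit 76) (nat_lit 92090045394) (nat_lit 3) (nat_lit 4)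 (nat_lit 4) (nat_lit 5) (nat_lit 4) (nat_lit 4) (nat_lit 347) (nat_lit 303) (nat_lit 250)) (XT.nd (nat_lit 78) (nat_lit 0) (nat_lit 0) (XT.lf (nat_lit 0) (nat_lit 492256751369) (nat_lit 76) (nat_lit 88103847711) (nat_lit 76) (nat_lit 79019446327) (nat_lit 3) (nat_lit 4) (nat_lit 4) (nat_lit 5) (nat_lit 4) (nat_lit 4) (nat_lit 348) (nat_lit 303) (nat_lit 249)) (XT.lf (nat_lit 0) (nat_lit 617530705273) (nat_lit 76) (nat_lit 73077459099) (nat_lit 76) (nat_lit 63992432203) (nat_lit 3) (nat_lit 4) (nat_lit 4) (nat_lit 5) (nat_lit 4) (nat_lit 4) (nat_lit 349) (nat_lit 303) (nat_lit 248))))) (XT.nd (nat_lit 234) (nat_lit 152) (nat_lit 0) (XT.nd (nat_lit 78) (nat_lit 0) (nat_lit 0) (XT.lf (nat_lit 0) (nat_lit 761589140993) (nat_lit 76) (nat_lit 55800567042) (nat_lit 76) (nat_lit 46714996223) (nat_lit 3) (nat_lit 4) (nat_lit 4) (nat_lit 5) (nat_lit 4) (nat_lit 4) (nat_lit 350) (nat_lit 303) (nat_lit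 247)) (XT.nd (nat_lit 78) (nat_lit 0) (nat_lit 0) (XT.lf (nat_lit 0) (nat_lit 927250593139) (nat_lit 76) (nat_lit 35935145392) (nat_lit 76) (nat_lit 26849101596) (nat_lit 3) (nat_lit 4) (nat_lit 4) (nat_lit 5) (nat_lit 4) (nat_lit 4) (nat_lit 351) (nat_lit 303) (nat_lit 246)) (XT.lf (nat_lit 0) (nat_lit 1117756264037) (nat_lit 76) (nat_lit 13092522856) (nat_lit 76) (nat_lit 4006067776) (nat_lit 3) (nat_lit 4) (nat_lit 4) (nat_lit 5) (nat_lit 4) (nat_lit 4) (nat_lit 352) (nat_lit 303) (nat_lit 245)))) (XT.nd (nat_lit 78) (nat_lit 0) (nat_lit 0) (XT.lf (nat_lit 0) (nat_lit 22512112500) (nat_lit 152) (nat_lit 1263802330503) (nat_lit 0) (nat_lit 14610536223) (nat_lit 1) (nat_lit 5) (nat_lit 3) (nat_lit 4) (nat_lit 1) (nat_lit 4) (nat_lit 353) (nat_lit 303) (nat_lit 244)) (XT.nd (nat_lit 78) (nat_lit 0) (nat_lit 0) (XT.lf (nat_lit 0) (nat_lit 54155514122) (nat_lit 152) (nat_lit 1391234180443)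 (nat_lit 0) (nat_lit 46253667419) (nat_lit 1) (nat_lit 5) (nat_lit 3) (nat_lit 4) (nat_lit 1) (nat_lit 4) (nat_lit 354) (nat_lit 303) (nat_lit 243)) (XT.lf (nat_lit 0) (nat_lit 90543542922) (nat_lit 152) (nat_lit 1537784780788) (nat_lit 0) (nat_lit 82641461066) (nat_lit 1) (nat_lit 5) (nat_lit 3) (nat_lit 4) (nat_lit 1) (nat_lit 4) (nat_lit 355) (nat_lit 303) (nat_lit 242)))))) (XT.nd (nat_lit 390) (nat_lit 0) (nat_lit 0) (XT.nd (nat_lit 156) (nat_lit 0) (nat_lit 0) (XT.nd (nat_lit 78) (nat_lit 0) (nat_lit 0) (XT.lf (nat_lit 0) (nat_lit 132388138594) (nat_lit 152) (nat_lit 1706321425894) (nat_lit 0) (nat_lit 124485852257) (nat_lit 1) (nat_lit 5) (nat_lit 3) (nat_lit 4) (nat_lit 1) (nat_lit 4) (nat_lit 356) (nat_lit 303) (nat_lit 241)) (XT.lf (nat_lit 0) (nat_lit 180507999750) (nat_lit 152) (nat_lit 1900141571861) (nat_lit 0) (nat_lit 172605535603) (nat_lit 1) (nat_lit 5) (nat_lit 3) (nat_lit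 4) (nat_lit 1) (nat_lit 4) (nat_lit 357) (nat_lit 303) (nat_lit 240))) (XT.nd (nat_lit 78) (nat_lit 0) (nat_lit 0) (XT.lf (nat_lit 0) (nat_lit 235844601933) (nat_lit 152) (nat_lit 2123037351979) (nat_lit 0) (nat_lit 227941983170) (nat_lit 1) (nat_lit 5) (nat_lit 3) (nat_lit 4) (nat_lit 1) (nat_lit 4) (nat_lit 358) (nat_lit 303) (nat_lit 239)) (XT.nd (nat_lit 78) (nat_lit 0) (nat_lit 0) (XT.lf (nat_lit 0) (nat_lit 299480617796) (nat_lit 152) (nat_lit 2379369770642) (nat_lit 0) (nat_lit 291577864583) (nat_lit 1) (nat_lit 5) (nat_lit 3) (nat_lit 4) (nat_lit 1) (nat_lit 4) (nat_lit 359) (nat_lit 303) (nat_lit 238)) (XT.lf (nat_lit 0) (nat_lit 372661099822) (nat_lit 152) (nat_lit 2674154027345) (nat_lit 0) (nat_lit 364758229696) (nat_lit 1) (nat_lit 5) (nat_lit 3) (nat_lit 4) (nat_lit 1) (nat_lit 4) (nat_lit 360) (nat_lit 303) (nat_lit 237))))) (XT.nd (nat_lit 234) (nat_lit 0) (nat_lit 0) (XT.nd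 (nat_lit 78) (nat_lit 0) (nat_lit 0) (XT.lf (nat_lit 0) (nat_lit 456817840050) (nat_lit 152) (nat_lit 3013157640154) (nat_lit 0) (nat_lit 448914868261) (nat_lit 1) (nat_lit 5) (nat_lit 3) (nat_lit 4) (nat_lit 1) (nat_lit 4) (nat_lit 361) (nat_lit 303) (nat_lit 236)) (XT.nd (nat_lit 78) (nat_lit 0) (nat_lit 0) (XT.lf (nat_lit 0) (nat_lit 553597383400) (nat_lit 152) (nat_lit 3403013288451) (nat_lit 0) (nat_lit 545694323208) (nat_lit 1) (nat_lit 5) (nat_lit 3) (nat_lit 4) (nat_lit 1) (nat_lit 4) (nat_lit 362) (nat_lit 303) (nat_lit 235)) (XT.lf (nat_lit 0) (nat_lit 664893242674) (nat_lit 152) (nat_lit 3851348582745) (nat_lit 0) (nat_lit 656990105611) (nat_lit 1) (nat_lit 5) (nat_lit 3) (nat_lit 4) (nat_lit 1) (nat_lit 4) (nat_lit 363) (nat_lit 303) (nat_lit 234)))) (XT.nd (nat_lit 78) (nat_lit 0) (nat_lit 0) (XT.lf (nat_lit 0) (nat_lit 792882945555) (nat_lit 152) (nat_lit 4366935300534) (nat_lit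 0) (nat_lit 784979741647) (nat_lit 1) (nat_lit 5) (nat_lit 3) (nat_lit 4) (nat_lit 1) (nat_lit 4) (nat_lit 364) (nat_lit 303) (nat_lit 233)) (XT.nd (nat_lit 78) (nat_lit 0) (nat_lit 0) (XT.lf (nat_lit 0) (nat_lit 940070638404) (nat_lit 152) (nat_lit 4959861008035) (nat_lit 0) (nat_lit 932167376369) (nat_lit 1) (nat_lit 5) (nat_lit 3) (nat_lit 4) (nat_lit 1) (nat_lit 4) (nat_lit 365) (nat_lit 303) (nat_lit 232)) (XT.lf (nat_lit 0) (nat_lit 1109336080428) (nat_lit 152) (nat_lit 5641726425612) (nat_lit 0) (nat_lit 1101432767848) (nat_lit 1) (nat_lit 5) (nat_lit 3) (nat_lit 4) (nat_lit 1) (nat_lit 4) (nat_lit 366) (nat_lit 303) (nat_lit 231))))))) (XT.nd (nat_lit 858) (nat_lit 0) (nat_lit 0) (XT.nd (nat_lit 390) (nat_lit 0) (nat_lit 0) (XT.nd (nat_lit 156) (nat_lit 0) (nat_lit 0) (XT.nd (nat_lit 78) (nat_lit 0) (nat_lit 0) (XT.lf (nat_lit 0) (nat_lit 1303990986797) (nat_lit 152) (nat_lit 6425872398392)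 (nat_lit 0) (nat_lit 1296087630265) (nat_lit 1) (nat_lit 5) (nat_lit 3) (nat_lit 4) (nat_lit 1) (nat_lit 4) (nat_lit 367) (nat_lit 303) (nat_lit 230)) (XT.lf (nat_lit 0) (nat_lit 1527843823071) (nat_lit 152) (nat_lit 7327640912799) (nat_lit 0) (nat_lit 1519940428320) (nat_lit 1) (nat_lit 5) (nat_lit 3) (nat_lit 4) (nat_lit 1) (nat_lit 4) (nat_lit 368) (nat_lit 303) (nat_lit 229))) (XT.nd (nat_lit 78) (nat_lit 0) (nat_lit 0) (XT.lf (nat_lit 0) (nat_lit 1785274318654) (nat_lit 152) (nat_lit 8364675265853) (nat_lit 0) (nat_lit 1777370890670) (nat_lit 1) (nat_lit 5) (nat_lit 3) (nat_lit 4) (nat_lit 1) (nat_lit 4) (nat_lit 369) (nat_lit 303) (nat_lit 228)) (XT.nd (nat_lit 78) (nat_lit 0) (nat_lit 0) (XT.lf (nat_lit 0) (nat_lit 2081319157158) (nat_lit 152) (nat_lit 9557265260116) (nat_lit 0) (nat_lit 2073415700274) (nat_lit 1) (nat_lit 5) (nat_lit 3) (nat_lit 4) (nat_lit 1) (nat_lit 4) (nat_lit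 370) (nat_lit 303) (nat_lit 227)) (XT.lf (nat_lit 0) (nat_lit 2421770520203) (nat_lit 152) (nat_lit 10928744178082) (nat_lit 0) (nat_lit 2413867038190) (nat_lit 1) (nat_lit 5) (nat_lit 3) (nat_lit 4) (nat_lit 1) (nat_lit 4) (nat_lit 371) (nat_lit 303) (nat_lit 226))))) (XT.nd (nat_lit 234) (nat_lit 0) (nat_lit 0) (XT.nd (nat_lit 78) (nat_lit 0) (nat_lit 0) (XT.lf (nat_lit 0) (nat_lit 2813289412720) (nat_lit 152) (nat_lit 12505945302929) (nat_lit 0) (nat_lit 2805385908855) (nat_lit 1) (nat_lit 5) (nat_lit 3) (nat_lit 4) (nat_lit 1) (nat_lit 4) (nat_lit 372) (nat_lit 303) (nat_lit 225)) (XT.nd (nat_lit 78) (nat_lit 0) (nat_lit 0) (XT.lf (nat_lit 0) (nat_lit 3263535986952) (nat_lit 152) (nat_lit 14319726917536) (nat_lit 0) (nat_lit 3255632464086) (nat_lit 1) (nat_lit 5) (nat_lit 3) (nat_lit 4) (nat_lit 1) (nat_lit 4) (nat_lit 373) (nat_lit 303) (nat_lit 224)) (XT.lf (nat_lit 0) (nat_lit 3781319415006)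 (nat_lit 152) (nat_lit 16405576053492) (nat_lit 0) (nat_lit 3773415875617) (nat_lit 1) (nat_lit 5) (nat_lit 3) (nat_lit 4) (nat_lit 1) (nat_lit 4) (nat_lit 374) (nat_lit 303) (nat_lit 223)))) (XT.nd (nat_lit 78) (nat_lit 0) (nat_lit 0) (XT.lf (nat_lit 0) (nat_lit 4376770242212) (nat_lit 152) (nat_lit 18804302802588) (nat_lit 0) (nat_lit 4368866688455) (nat_lit 1) (nat_lit 5) (nat_lit 3) (nat_lit 4) (nat_lit 1) (nat_lit 4) (nat_lit 375) (nat_lit 303) (nat_lit 222)) (XT.nd (nat_lit 78) (nat_lit 0) (nat_lit 0) (XT.lf (nat_lit 0) (nat_lit 5061538593450) (nat_lit 152) (nat_lit 21562838775132) (nat_lit 0) (nat_lit 5053635027199) (nat_lit 1) (nat_lit 5) (nat_lit 3) (nat_lit 4) (nat_lit 1) (nat_lit 4) (nat_lit 376) (nat_lit 303) (nat_lit 221)) (XT.lf (nat_lit 0) (nat_lit 5849022110376) (nat_lit 152) (nat_lit 24735155327108) (nat_lit 0) (nat_lit 5841118533260) (nat_lit 1) (nat_lit 5) (nat_lit 3)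 (nat_lit 4) (nat_lit 1) (nat_lit 4) (nat_lit 377) (nat_lit 303) (nat_lit 220)))))) (XT.nd (nat_lit 390) (nat_lit 0) (nat_lit 0) (XT.nd (nat_lit 156) (nat_lit 0) (nat_lit 0) (XT.nd (nat_lit 78) (nat_lit 0) (nat_lit 0) (XT.lf (nat_lit 0) (nat_lit 6754628079189) (nat_lit 152) (nat_lit 28383319521490) (nat_lit 0) (nat_lit 6746724492626) (nat_lit 1) (nat_lit 5) (nat_lit 3) (nat_lit 4) (nat_lit 1) (nat_lit 4) (nat_lit 378) (nat_lit 303) (nat_lit 219)) (XT.lf (nat_lit 0) (nat_lit 7796074877540) (nat_lit 152) (nat_lit 32578708483820) (nat_lit 0) (nat_lit 7788171282763) (nat_lit 1) (nat_lit 5) (nat_lit 3) (nat_lit 4) (nat_lit 1) (nat_lit 4) (nat_lit 379) (nat_lit 303) (nat_lit 218))) (XT.nd (nat_lit 78) (nat_lit 0) (nat_lit 0) (XT.lf (nat_lit 0) (nat_lit 8993738638442) (nat_lit 152) (nat_lit 37403405911188) (nat_lit 0) (nat_lit 8985835036521) (nat_lit 1) (nat_lit 5) (nat_lit 3) (nat_lit 4) (nat_lit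 1) (nat_lit 4) (nat_lit 380) (nat_lit 303) (nat_lit 217)) (XT.nd (nat_lit 78) (nat_lit 0) (nat_lit 0) (XT.lf (nat_lit 0) (nat_lit 10371051913736) (nat_lit 152) (nat_lit 42951808057607) (nat_lit 0) (nat_lit 10363148305604) (nat_lit 1) (nat_lit 5) (nat_lit 3) (nat_lit 4) (nat_lit 1) (nat_lit 4) (nat_lit 381) (nat_lit 303) (nat_lit 216)) (XT.lf (nat_lit 0) (nat_lit 11954962137071) (nat_lit 152) (nat_lit 49332470617246) (nat_lit 0) (nat_lit 11947058523537) (nat_lit 1) (nat_lit 5) (nat_lit 3) (nat_lit 4) (nat_lit 1) (nat_lit 4) (nat_lit 382) (nat_lit 303) (nat_lit 215))))) (XT.nd (nat_lit 234) (nat_lit 0) (nat_lit 0) (XT.nd (nat_lit 78) (nat_lit 0) (nat_lit 0) (XT.lf (nat_lit 0) (nat_lit 13776458856295) (nat_lit 152) (nat_lit 56670232640185) (nat_lit 0) (nat_lit 13768555238064) (nat_lit 1) (nat_lit 5) (nat_lit 3) (nat_lit 4) (nat_lit 1) (nat_lit 4) (nat_lit 383) (nat_lit 303) (nat_lit 214))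 (XT.nd (nat_lit 78) (nat_lit 0) (nat_lit 0) (XT.lf (nat_lit 0) (nat_lit 15871180050696) (nat_lit 152) (nat_lit 65108659035569) (nat_lit 0) (nat_lit 15863276428380) (nat_lit 1) (nat_lit 5) (nat_lit 3) (nat_lit 4) (nat_lit 1) (nat_lit 4) (nat_lit 384) (nat_lit 303) (nat_lit 213)) (XT.lf (nat_lit 0) (nat_lit 18280109395816) (nat_lit 152) (nat_lit 74812849450263) (nat_lit 0) (nat_lit 18272205769950) (nat_lit 1) (nat_lit 5) (nat_lit 3) (nat_lit 4) (nat_lit 1) (nat_lit 4) (nat_lit 385) (nat_lit 303) (nat_lit 212)))) (XT.nd (nat_lit 78) (nat_lit 0) (nat_lit 0) (XT.lf (nat_lit 0) (nat_lit 21050378117975) (nat_lit 152) (nat_lit 85972668479338) (nat_lit 0) (nat_lit 21042474489020) (nat_lit 1) (nat_lit 5) (nat_lit 3) (nat_lit 4) (nat_lit 1) (nat_lit 4) (nat_lit 386) (nat_lit 303) (nat_lit 211)) (XT.nd (nat_lit 78) (nat_lit 0) (nat_lit 0) (XT.lf (nat_lit 0) (nat_lit 24236187126953) (nat_lit 152) (nat_lit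 98806460408145) (nat_lit 0) (nat_lit 24228283495313) (nat_lit 1) (nat_lit 5) (nat_lit 3) (nat_lit 4) (nat_lit 1) (nat_lit 4) (nat_lit 387) (nat_lit 303) (nat_lit 210)) (XT.lf (nat_lit 0) (nat_lit 27899867468577) (nat_lit 152) (nat_lit 113565321165726) (nat_lit 0) (nat_lit 27891963834602) (nat_lit 1) (nat_lit 5) (nat_lit 3) (nat_lit 4) (nat_lit 1) (nat_lit 4) (nat_lit 388) (nat_lit 303) (nat_lit 209))))))))
noncomputable def xc55 : XT := (XT.nd (nat_lit 41652) (nat_lit 0) (nat_lit 152) (XT.nd (nat_lit 40794) (nat_lit 0) (nat_lit 1140) (XT.nd (nat_lit 40326) (nat_lit 0) (nat_lit 1900) (XT.nd (nat_lit 156) (nat_lit 0) (nat_lit 0) (XT.nd (nat_lit 78) (nat_lit 0) (nat_lit 0) (XT.lf (nat_lit 0) (nat_lit 32113099845185) (nat_lit 152) (nat_lit 130538011071252) (nat_lit 0) (nat_lit 32105196209179) (nat_lit 1) (nat_lit 5) (nat_lit 3) (nat_lit 4) (nat_lit 1) (nat_lit 4) (nat_lit 389) (nat_lit 303)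 (nat_lit 208)) (XT.lf (nat_lit 0) (nat_lit 36958317064144) (nat_lit 152) (nat_lit 150056604492439) (nat_lit 0) (nat_lit 36950413426372) (nat_lit 1) (nat_lit 5) (nat_lit 3) (nat_lit 4) (nat_lit 1) (nat_lit 4) (nat_lit 390) (nat_lit 303) (nat_lit 207))) (XT.nd (nat_lit 78) (nat_lit 0) (nat_lit 0) (XT.lf (nat_lit 0) (nat_lit 42530316853652) (nat_lit 152) (nat_lit 172502986952744) (nat_lit 0) (nat_lit 42522413214344) (nat_lit 1) (nat_lit 5) (nat_lit 3) (nat_lit 4) (nat_lit 1) (nat_lit 4) (nat_lit 391) (nat_lit 303) (nat_lit 206)) (XT.nd (nat_lit 40014) (nat_lit 0) (nat_lit 2432) (XT.lf (nat_lit 0) (nat_lit 48938116600893) (nat_lit 152) (nat_lit 198316326804653) (nat_lit 0) (nat_lit 48930212960251) (nat_lit 1) (nat_lit 5) (nat_lit 3) (nat_lit 4) (nat_lit 1) (nat_lit 4) (nat_lit 392) (nat_lit 303) (nat_lit 205)) (XT.lf (nat_lit 0) (nat_lit 865123321) (nat_lit 0) (nat_lit 865123321) (nat_lit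 228) (nat_lit 2246040216) (nat_lit 33) (nat_lit 5) (nat_lit 33) (nat_lit 3) (nat_lit 36) (nat_lit 3) (nat_lit 304) (nat_lit 304) (nat_lit 292))))) (XT.nd (nat_lit 234) (nat_lit 532) (nat_lit 0) (XT.nd (nat_lit 78) (nat_lit 0) (nat_lit 0) (XT.lf (nat_lit 0) (nat_lit 4907691050) (nat_lit 228) (nat_lit 2350779318) (nat_lit 304) (nat_lit 1110107214) (nat_lit 33) (nat_lit 5) (nat_lit 36) (nat_lit 3) (nat_lit 37) (nat_lit 5) (nat_lit 305) (nat_lit 304) (nat_lit 291)) (XT.nd (nat_lit 78) (nat_lit 0) (nat_lit 0) (XT.lf (nat_lit 76) (nat_lit 2066904064) (nat_lit 0) (nat_lit 4474752343) (nat_lit 304) (nat_lit 2310280182) (nat_lit 34) (nat_lit 5) (nat_lit 33) (nat_lit 5) (nat_lit 37) (nat_lit 5) (nat_lit 306) (nat_lit 304) (nat_lit 290)) (XT.lf (nat_lit 76) (nat_lit 7281413101) (nat_lit 0) (nat_lit 1084374327) (nat_lit 304) (nat_lit 1050605957) (nat_lit 34) (nat_lit 5) (nat_lit 33) (nat_lit 5) (nat_lit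 37) (nat_lit 5) (nat_lit 307) (nat_lit 304) (nat_lit 289)))) (XT.nd (nat_lit 78) (nat_lit 304) (nat_lit 0) (XT.lf (nat_lit 0) (nat_lit 465065848) (nat_lit 304) (nat_lit 6825449747) (nat_lit 76) (nat_lit 2757426907) (nat_lit 30) (nat_lit 5) (nat_lit 34) (nat_lit 5) (nat_lit 31) (nat_lit 5) (nat_lit 308) (nat_lit 304) (nat_lit 288)) (XT.nd (nat_lit 78) (nat_lit 304) (nat_lit 0) (XT.lf (nat_lit 0) (nat_lit 2123823153) (nat_lit 304) (nat_lit 1387362046) (nat_lit 76) (nat_lit 7252273076) (nat_lit 30) (nat_lit 5) (nat_lit 34) (nat_lit 5) (nat_lit 31) (nat_lit 5) (nat_lit 309) (nat_lit 304) (nat_lit 287)) (XT.lf (nat_lit 0) (nat_lit 4165291908) (nat_lit 380) (nat_lit 6415680655) (nat_lit 76) (nat_lit 985446899) (nat_lit 26) (nat_lit 5) (nat_lit 31) (nat_lit 5) (nat_lit 27) (nat_lit 5) (nat_lit 310) (nat_lit 304) (nat_lit 286)))))) (XT.nd (nat_lit 390) (nat_lit 304) (nat_lit 0) (XT.nd (nat_lit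 156) (nat_lit 304) (nat_lit 0) (XT.nd (nat_lit 78) (nat_lit 0) (nat_lit 0) (XT.lf (nat_lit 0) (nat_lit 40841344) (nat_lit 152) (nat_lit 6601861407) (nat_lit 228) (nat_lit 5827840091) (nat_lit 24) (nat_lit 5) (nat_lit 26) (nat_lit 5) (nat_lit 27) (nat_lit 5) (nat_lit 311) (nat_lit 304) (nat_lit 285)) (XT.lf (nat_lit 0) (nat_lit 8054509210) (nat_lit 152) (nat_lit 1666975509) (nat_lit 228) (nat_lit 3754489376) (nat_lit 24) (nat_lit 5) (nat_lit 26) (nat_lit 5) (nat_lit 27) (nat_lit 5) (nat_lit 312) (nat_lit 304) (nat_lit 284))) (XT.nd (nat_lit 78) (nat_lit 228) (nat_lit 0) (XT.lf (nat_lit 0) (nat_lit 2573064042) (nat_lit 76) (nat_lit 10868739110) (nat_lit 152) (nat_lit 1163592302) (nat_lit 23) (nat_lit 5) (nat_lit 24) (nat_lit 5) (nat_lit 25) (nat_lit 4) (nat_lit 313) (nat_lit 304) (nat_lit 283)) (XT.nd (nat_lit 78) (nat_lit 152) (nat_lit 0) (XT.lf (nat_lit 0) (nat_lit 1940600291) (nat_lit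 152) (nat_lit 3784835382) (nat_lit 76) (nat_lit 10124666742) (nat_lit 22) (nat_lit 5) (nat_lit 24) (nat_lit 5) (nat_lit 23) (nat_lit 5) (nat_lit 314) (nat_lit 304) (nat_lit 282)) (XT.lf (nat_lit 0) (nat_lit 5585430040) (nat_lit 228) (nat_lit 11197455122) (nat_lit 76) (nat_lit 461285836) (nat_lit 20) (nat_lit 5) (nat_lit 23) (nat_lit 5) (nat_lit 21) (nat_lit 4) (nat_lit 315) (nat_lit 304) (nat_lit 281))))) (XT.nd (nat_lit 234) (nat_lit 76) (nat_lit 0) (XT.nd (nat_lit 78) (nat_lit 228) (nat_lit 0) (XT.lf (nat_lit 0) (nat_lit 10182870134) (nat_lit 228) (nat_lit 1439652172) (nat_lit 76) (nat_lit 7164020890) (nat_lit 20) (nat_lit 5) (nat_lit 23) (nat_lit 5) (nat_lit 21) (nat_lit 4) (nat_lit 316) (nat_lit 304) (nat_lit 280)) (XT.nd (nat_lit 78) (nat_lit 152) (nat_lit 0) (XT.lf (nat_lit 0) (nat_lit 10624866726) (nat_lit 76) (nat_lit 5220648498) (nat_lit 152) (nat_lit 4658483925) (nat_lit 19)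 (nat_lit 5) (nat_lit 20) (nat_lit 5) (nat_lit 21) (nat_lit 4) (nat_lit 317) (nat_lit 304) (nat_lit 279)) (XT.lf (nat_lit 0) (nat_lit 95199238) (nat_lit 152) (nat_lit 20263834080) (nat_lit 76) (nat_lit 2089960434) (nat_lit 17) (nat_lit 5) (nat_lit 19) (nat_lit 5) (nat_lit 18) (nat_lit 4) (nat_lit 318) (nat_lit 304) (nat_lit 278)))) (XT.nd (nat_lit 78) (nat_lit 76) (nat_lit 0) (XT.lf (nat_lit 0) (nat_lit 5814048059) (nat_lit 152) (nat_lit 8040746394) (nat_lit 76) (nat_lit 10688353802) (nat_lit 17) (nat_lit 5) (nat_lit 19) (nat_lit 5) (nat_lit 18) (nat_lit 4) (nat_lit 319) (nat_lit 304) (nat_lit 277)) (XT.nd (nat_lit 78) (nat_lit 0) (nat_lit 0) (XT.lf (nat_lit 0) (nat_lit 6501748260) (nat_lit 76) (nat_lit 6105547981) (nat_lit 152) (nat_lit 14311681775) (nat_lit 16) (nat_lit 5) (nat_lit 17) (nat_lit 5) (nat_lit 18) (nat_lit 4) (nat_lit 320) (nat_lit 304) (nat_lit 276)) (XT.lf (nat_lit 0) (nat_lit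 20924973361) (nat_lit 152) (nat_lit 5689549299) (nat_lit 0) (nat_lit 2960876275) (nat_lit 16) (nat_lit 5) (nat_lit 18) (nat_lit 4) (nat_lit 16) (nat_lit 4) (nat_lit 321) (nat_lit 304) (nat_lit 275))))))) (XT.nd (nat_lit 858) (nat_lit 304) (nat_lit 0) (XT.nd (nat_lit 390) (nat_lit 380) (nat_lit 0) (XT.nd (nat_lit 156) (nat_lit 152) (nat_lit 0) (XT.nd (nat_lit 78) (nat_lit 76) (nat_lit 0) (XT.lf (nat_lit 0) (nat_lit 11937098682) (nat_lit 76) (nat_lit 19293817117) (nat_lit 76) (nat_lit 1288303781) (nat_lit 15) (nat_lit 4) (nat_lit 16) (nat_lit 5) (nat_lit 16) (nat_lit 4) (nat_lit 322) (nat_lit 304) (nat_lit 274)) (XT.lf (nat_lit 0) (nat_lit 6806772271) (nat_lit 152) (nat_lit 3406967082) (nat_lit 76) (nat_lit 25606158437) (nat_lit 14) (nat_lit 5) (nat_lit 16) (nat_lit 5) (nat_lit 15) (nat_lit 4) (nat_lit 323) (nat_lit 304) (nat_lit 273))) (XT.nd (nat_lit 78) (nat_lit 76) (nat_lit 0) (XT.lf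 (nat_lit 0) (nat_lit 16728986962) (nat_lit 152) (nat_lit 21752320835) (nat_lit 0) (nat_lit 1013470353) (nat_lit 13) (nat_lit 5) (nat_lit 15) (nat_lit 4) (nat_lit 13) (nat_lit 4) (nat_lit 324) (nat_lit 304) (nat_lit 272)) (XT.nd (nat_lit 78) (nat_lit 76) (nat_lit 0) (XT.lf (nat_lit 0) (nat_lit 28775093448) (nat_lit 152) (nat_lit 1814582594) (nat_lit 0) (nat_lit 13035896965) (nat_lit 13) (nat_lit 5) (nat_lit 15) (nat_lit 4) (nat_lit 13) (nat_lit 4) (nat_lit 325) (nat_lit 304) (nat_lit 271)) (XT.lf (nat_lit 0) (nat_lit 23107770153) (nat_lit 76) (nat_lit 20444684059) (nat_lit 76) (nat_lit 4684896380) (nat_lit 12) (nat_lit 4) (nat_lit 13) (nat_lit 5) (nat_lit 13) (nat_lit 4) (nat_lit 326) (nat_lit 304) (nat_lit 270))))) (XT.nd (nat_lit 234) (nat_lit 228) (nat_lit 0) (XT.nd (nat_lit 78) (nat_lit 76) (nat_lit 0) (XT.lf (nat_lit 0) (nat_lit 6448971982) (nat_lit 152) (nat_lit 1912403303) (nat_lit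 76) (nat_lit 45125948538) (nat_lit 11) (nat_lit 5) (nat_lit 13) (nat_lit 5) (nat_lit 12) (nat_lit 4) (nat_lit 327) (nat_lit 304) (nat_lit 269)) (XT.nd (nat_lit 78) (nat_lit 0) (nat_lit 0) (XT.lf (nat_lit 0) (nat_lit 20151000354) (nat_lit 152) (nat_lit 32715951712) (nat_lit 0) (nat_lit 6417728207) (nat_lit 10) (nat_lit 5) (nat_lit 12) (nat_lit 4) (nat_lit 10) (nat_lit 4) (nat_lit 328) (nat_lit 304) (nat_lit 268)) (XT.lf (nat_lit 0) (nat_lit 36383572690) (nat_lit 152) (nat_lit 6858262230) (nat_lit 0) (nat_lit 22638527460) (nat_lit 10) (nat_lit 5) (nat_lit 12) (nat_lit 4) (nat_lit 10) (nat_lit 4) (nat_lit 329) (nat_lit 304) (nat_lit 267)))) (XT.nd (nat_lit 78) (nat_lit 152) (nat_lit 0) (XT.lf (nat_lit 0) (nat_lit 25060768602) (nat_lit 76) (nat_lit 31003933636) (nat_lit 76) (nat_lit 17248650942) (nat_lit 9) (nat_lit 4) (nat_lit 10) (nat_lit 5) (nat_lit 10) (nat_lit 4) (nat_lit 330) (nat_lit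 304) (nat_lit 266)) (XT.nd (nat_lit 78) (nat_lit 152) (nat_lit 0) (XT.lf (nat_lit 0) (nat_lit 62492233994) (nat_lit 76) (nat_lit 16541448690) (nat_lit 76) (nat_lit 2777263855) (nat_lit 9) (nat_lit 4) (nat_lit 10) (nat_lit 5) (nat_lit 10) (nat_lit 4) (nat_lit 331) (nat_lit 304) (nat_lit 265)) (XT.lf (nat_lit 0) (nat_lit 13275078470) (nat_lit 152) (nat_lit 76825808780) (nat_lit 0) (nat_lit 1299490793) (nat_lit 7) (nat_lit 5) (nat_lit 9) (nat_lit 4) (nat_lit 7) (nat_lit 4) (nat_lit 332) (nat_lit 304) (nat_lit 264)))))) (XT.nd (nat_lit 468) (nat_lit 76) (nat_lit 0) (XT.nd (nat_lit 234) (nat_lit 152) (nat_lit 0) (XT.nd (nat_lit 78) (nat_lit 76) (nat_lit 0) (XT.lf (nat_lit 0) (nat_lit 33275952005) (nat_lit 152) (nat_lit 47564174876) (nat_lit 0) (nat_lit 21294511025) (nat_lit 7) (nat_lit 5) (nat_lit 9) (nat_lit 4) (nat_lit 7) (nat_lit 4) (nat_lit 333) (nat_lit 304) (nat_lit 263)) (XT.nd (nat_lit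 78) (nat_lit 76) (nat_lit 0) (XT.lf (nat_lit 0) (nat_lit 56259044613) (nat_lit 152) (nat_lit 13950168644) (nat_lit 0) (nat_lit 44272513805) (nat_lit 7) (nat_lit 5) (nat_lit 9) (nat_lit 4) (nat_lit 7) (nat_lit 4) (nat_lit 334) (nat_lit 304) (nat_lit 262)) (XT.lf (nat_lit 0) (nat_lit 27085185789) (nat_lit 76) (nat_lit 56710379493) (nat_lit 76) (nat_lit 44719422747) (nat_lit 6) (nat_lit 4) (nat_lit 7) (nat_lit 5) (nat_lit 7) (nat_lit 4) (nat_lit 335) (nat_lit 304) (nat_lit 261)))) (XT.nd (nat_lit 78) (nat_lit 152) (nat_lit 0) (XT.lf (nat_lit 0) (nat_lit 75813046269) (nat_lit 76) (nat_lit 40363919810) (nat_lit 76) (nat_lit 28369114422) (nat_lit 6) (nat_lit 4) (nat_lit 7) (nat_lit 5) (nat_lit 7) (nat_lit 4) (nat_lit 336) (nat_lit 304) (nat_lit 260)) (XT.nd (nat_lit 78) (nat_lit 152) (nat_lit 0) (XT.lf (nat_lit 0) (nat_lit 131823472041) (nat_lit 76) (nat_lit 21579225531) (nat_lit 76) (nat_lit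 9581073498) (nat_lit 6) (nat_lit 4) (nat_lit 7) (nat_lit 5) (nat_lit 7) (nat_lit 4) (nat_lit 337) (nat_lit 304) (nat_lit 259)) (XT.lf (nat_lit 0) (nat_lit 11515888497) (nat_lit 152) (nat_lit 171432163832) (nat_lit 0) (nat_lit 1080182272) (nat_lit 4) (nat_lit 5) (nat_lit 6) (nat_lit 4) (nat_lit 4) (nat_lit 4) (nat_lit 338) (nat_lit 304) (nat_lit 258))))) (XT.nd (nat_lit 234) (nat_lit 76) (nat_lit 0) (XT.nd (nat_lit 78) (nat_lit 0) (nat_lit 0) (XT.lf (nat_lit 0) (nat_lit 37518792872) (nat_lit 152) (nat_lit 143152906271) (nat_lit 0) (nat_lit 27080886174) (nat_lit 4) (nat_lit 5) (nat_lit 6) (nat_lit 4) (nat_lit 4) (nat_lit 4) (nat_lit 339) (nat_lit 304) (nat_lit 257)) (XT.nd (nat_lit 78) (nat_lit 0) (nat_lit 0) (XT.lf (nat_lit 0) (nat_lit 67411992047) (nat_lit 152) (nat_lit 110652947153) (nat_lit 0) (nat_lit 56972171893) (nat_lit 4) (nat_lit 5) (nat_lit 6) (nat_lit 4) (nat_lit 4) (nat_lit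 4) (nat_lit 340) (nat_lit 304) (nat_lit 256)) (XT.lf (nat_lit 0) (nat_lit 101780352961) (nat_lit 152) (nat_lit 73296417713) (nat_lit 0) (nat_lit 91338868934) (nat_lit 4) (nat_lit 5) (nat_lit 6) (nat_lit 4) (nat_lit 4) (nat_lit 4) (nat_lit 341) (nat_lit 304) (nat_lit 255)))) (XT.nd (nat_lit 78) (nat_lit 76) (nat_lit 0) (XT.lf (nat_lit 0) (nat_lit 141296300068) (nat_lit 152) (nat_lit 30352429331) (nat_lit 0) (nat_lit 130853369193) (nat_lit 4) (nat_lit 5) (nat_lit 6) (nat_lit 4) (nat_lit 4) (nat_lit 4) (nat_lit 342) (nat_lit 304) (nat_lit 254)) (XT.nd (nat_lit 78) (nat_lit 0) (nat_lit 0) (XT.lf (nat_lit 0) (nat_lit 20877923590) (nat_lit 76) (nat_lit 166719558164) (nat_lit 76) (nat_lit 156275369162) (nat_lit 3) (nat_lit 4) (nat_lit 4) (nat_lit 5) (nat_lit 4) (nat_lit 4) (nat_lit 343) (nat_lit 304) (nat_lit 253)) (XT.lf (nat_lit 0) (nat_lit 83190730984) (nat_lit 76) (nat_lit 159233365277) (nat_lit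 76) (nat_lit 148788082250) (nat_lit 3) (nat_lit 4) (nat_lit 4) (nat_lit 5) (nat_lit 4) (nat_lit 4) (nat_lit 344) (nat_lit 304) (nat_lit 252))))))))
noncomputable def xc56 : XT := (XT.nd (nat_lit 1716) (nat_lit 0) (nat_lit 0) (XT.nd (nat_lit 858) (nat_lit 0) (nat_lit 0) (XT.nd (nat_lit 390) (nat_lit 152) (nat_lit 0) (XT.nd (nat_lit 156) (nat_lit 0) (nat_lit 0) (XT.nd (nat_lit 78) (nat_lit 0) (nat_lit 0) (XT.lf (nat_lit 0) (nat_lit 154838896333) (nat_lit 76) (nat_lit 150630286007) (nat_lit 76) (nat_lit 140184051655) (nat_lit 3) (nat_lit 4) (nat_lit 4) (nat_lit 5) (nat_lit 4) (nat_lit 4) (nat_lit 345) (nat_lit 304) (nat_lit 251)) (XT.lf (nat_lit 0) (nat_lit 237224231568) (nat_lit 76) (nat_lit 140741999238) (nat_lit 76) (nat_lit 130294937646) (nat_lit 3) (nat_lit 4) (nat_lit 4) (nat_lit 5) (nat_lit 4) (nat_lit 4) (nat_lit 346) (nat_lit 304) (nat_lit 250))) (XT.nd (nat_lit 78) (nat_lit 0) (nat_lit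 0) (XT.lf (nat_lit 0) (nat_lit 331958623683) (nat_lit 76) (nat_lit 129375038489) (nat_lit 76) (nat_lit 118927257559) (nat_lit 3) (nat_lit 4) (nat_lit 4) (nat_lit 5) (nat_lit 4) (nat_lit 4) (nat_lit 347) (nat_lit 304) (nat_lit 249)) (XT.nd (nat_lit 78) (nat_lit 0) (nat_lit 0) (XT.lf (nat_lit 0) (nat_lit 440895571653) (nat_lit 76) (nat_lit 116307006703) (nat_lit 76) (nat_lit 105858600261) (nat_lit 3) (nat_lit 4) (nat_lit 4) (nat_lit 5) (nat_lit 4) (nat_lit 4) (nat_lit 348) (nat_lit 304) (nat_lit 248)) (XT.lf (nat_lit 0) (nat_lit 566166450548) (nat_lit 76) (nat_lit 101282224997) (nat_lit 76) (nat_lit 90833274631) (nat_lit 3) (nat_lit 4) (nat_lit 4) (nat_lit 5) (nat_lit 4) (nat_lit 4) (nat_lit 349) (nat_lit 304) (nat_lit 247))))) (XT.nd (nat_lit 234) (nat_lit 152) (nat_lit 0) (XT.nd (nat_lit 78) (nat_lit 0) (nat_lit 0) (XT.lf (nat_lit 0) (nat_lit 710222212346) (nat_lit 76) (nat_lit 84006730249)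 (nat_lit 76) (nat_lit 73557306907) (nat_lit 3) (nat_lit 4) (nat_lit 4) (nat_lit 5) (nat_lit 4) (nat_lit 4) (nat_lit 350) (nat_lit 304) (nat_lit 246)) (XT.nd (nat_lit 78) (nat_lit 0) (nat_lit 0) (XT.lf (nat_lit 0) (nat_lit 875881339344) (nat_lit 76) (nat_lit 64142523652) (nat_lit 76) (nat_lit 53692689025) (nat_lit 3) (nat_lit 4) (nat_lit 4) (nat_lit 5) (nat_lit 4) (nat_lit 4) (nat_lit 351) (nat_lit 304) (nat_lit 245)) (XT.lf (nat_lit 0) (nat_lit 1066384988373) (nat_lit 76) (nat_lit 41300957682) (nat_lit 76) (nat_lit 30850765417) (nat_lit 3) (nat_lit 4) (nat_lit 4) (nat_lit 5) (nat_lit 4) (nat_lit 4) (nat_lit 352) (nat_lit 304) (nat_lit 244)))) (XT.nd (nat_lit 78) (nat_lit 152) (nat_lit 0) (XT.lf (nat_lit 0) (nat_lit 1285460404741) (nat_lit 76) (nat_lit 15035132138) (nat_lit 76) (nat_lit 4584628883) (nat_lit 3) (nat_lit 4) (nat_lit 4) (nat_lit 5) (nat_lit 4) (nat_lit 4) (nat_lit 353) (nat_lit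 304) (nat_lit 243)) (XT.nd (nat_lit 78) (nat_lit 0) (nat_lit 0) (XT.lf (nat_lit 0) (nat_lit 25909205166) (nat_lit 152) (nat_lit 1453329901946) (nat_lit 0) (nat_lit 16821575878) (nat_lit 1) (nat_lit 5) (nat_lit 3) (nat_lit 4) (nat_lit 1) (nat_lit 4) (nat_lit 354) (nat_lit 304) (nat_lit 242)) (XT.lf (nat_lit 0) (nat_lit 62296472362) (nat_lit 152) (nat_lit 1599882109133) (nat_lit 0) (nat_lit 53208638594) (nat_lit 1) (nat_lit 5) (nat_lit 3) (nat_lit 4) (nat_lit 1) (nat_lit 4) (nat_lit 355) (nat_lit 304) (nat_lit 241)))))) (XT.nd (nat_lit 390) (nat_lit 0) (nat_lit 0) (XT.nd (nat_lit 156) (nat_lit 0) (nat_lit 0) (XT.nd (nat_lit 78) (nat_lit 0) (nat_lit 0) (XT.lf (nat_lit 0) (nat_lit 104140405771) (nat_lit 152) (nat_lit 1768420151492) (nat_lit 0) (nat_lit 95052394193) (nat_lit 1) (nat_lit 5) (nat_lit 3) (nat_lit 4) (nat_lit 1) (nat_lit 4) (nat_lit 356) (nat_lit 304) (nat_lit 240)) (XT.lf (nat_lit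 0) (nat_lit 152259691045) (nat_lit 152) (nat_lit 1962241512462) (nat_lit 0) (nat_lit 143171524850) (nat_lit 1) (nat_lit 5) (nat_lit 3) (nat_lit 4) (nat_lit 1) (nat_lit 4) (nat_lit 357) (nat_lit 304) (nat_lit 239))) (XT.nd (nat_lit 78) (nat_lit 0) (nat_lit 0) (XT.lf (nat_lit 0) (nat_lit 207595792462) (nat_lit 152) (nat_lit 2185138349104) (nat_lit 0) (nat_lit 198507491817) (nat_lit 1) (nat_lit 5) (nat_lit 3) (nat_lit 4) (nat_lit 1) (nat_lit 4) (nat_lit 358) (nat_lit 304) (nat_lit 238)) (XT.nd (nat_lit 78) (nat_lit 0) (nat_lit 0) (XT.lf (nat_lit 0) (nat_lit 271231372875) (nat_lit 152) (nat_lit 2441471686484) (nat_lit 0) (nat_lit 262142955317) (nat_lit 1) (nat_lit 5) (nat_lit 3) (nat_lit 4) (nat_lit 1) (nat_lit 4) (nat_lit 359) (nat_lit 304) (nat_lit 237)) (XT.lf (nat_lit 0) (nat_lit 344411476249) (nat_lit 152) (nat_lit 2736256742071) (nat_lit 0) (nat_lit 335322957028) (nat_lit 1) (nat_lit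 5) (nat_lit 3) (nat_lit 4) (nat_lit 1) (nat_lit 4) (nat_lit 360) (nat_lit 304) (nat_lit 236))))) (XT.nd (nat_lit 234) (nat_lit 0) (nat_lit 0) (XT.nd (nat_lit 78) (nat_lit 0) (nat_lit 0) (XT.lf (nat_lit 0) (nat_lit 428567887216) (nat_lit 152) (nat_lit 3075261049562) (nat_lit 0) (nat_lit 419479279592) (nat_lit 1) (nat_lit 5) (nat_lit 3) (nat_lit 4) (nat_lit 1) (nat_lit 4) (nat_lit 361) (nat_lit 304) (nat_lit 235)) (XT.nd (nat_lit 78) (nat_lit 0) (nat_lit 0) (XT.lf (nat_lit 0) (nat_lit 525347144250) (nat_lit 152) (nat_lit 3465117301930) (nat_lit 0) (nat_lit 516258459755) (nat_lit 1) (nat_lit 5) (nat_lit 3) (nat_lit 4) (nat_lit 1) (nat_lit 4) (nat_lit 362) (nat_lit 304) (nat_lit 234)) (XT.lf (nat_lit 0) (nat_lit 636642754555) (nat_lit 152) (nat_lit 3913453121503) (nat_lit 0) (nat_lit 627554003215) (nat_lit 1) (nat_lit 5) (nat_lit 3) (nat_lit 4) (nat_lit 1) (nat_lit 4) (nat_lit 363) (nat_lit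 304) (nat_lit 233)))) (XT.nd (nat_lit 78) (nat_lit 0) (nat_lit 0) (XT.lf (nat_lit 0) (nat_lit 764632240941) (nat_lit 152) (nat_lit 4429040296057) (nat_lit 0) (nat_lit 755543431474) (nat_lit 1) (nat_lit 5) (nat_lit 3) (nat_lit 4) (nat_lit 1) (nat_lit 4) (nat_lit 364) (nat_lit 304) (nat_lit 232)) (XT.nd (nat_lit 78) (nat_lit 0) (nat_lit 0) (XT.lf (nat_lit 0) (nat_lit 911819745533) (nat_lit 152) (nat_lit 5021966400744) (nat_lit 0) (nat_lit 902730885521) (nat_lit 1) (nat_lit 5) (nat_lit 3) (nat_lit 4) (nat_lit 1) (nat_lit 4) (nat_lit 365) (nat_lit 304) (nat_lit 231)) (XT.lf (nat_lit 0) (nat_lit 1081085023855) (nat_lit 152) (nat_lit 5703832163701) (nat_lit 0) (nat_lit 1071996119892) (nat_lit 1) (nat_lit 5) (nat_lit 3) (nat_lit 4) (nat_lit 1) (nat_lit 4) (nat_lit 366) (nat_lit 304) (nat_lit 230))))))) (XT.nd (nat_lit 858) (nat_lit 0) (nat_lit 0) (XT.nd (nat_lit 390) (nat_lit 0) (nat_lit 0) (XT.nd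 (nat_lit 156) (nat_lit 0) (nat_lit 0) (XT.nd (nat_lit 78) (nat_lit 0) (nat_lit 0) (XT.lf (nat_lit 0) (nat_lit 1275739787875) (nat_lit 152) (nat_lit 6487978436811) (nat_lit 0) (nat_lit 1266650845693) (nat_lit 1) (nat_lit 5) (nat_lit 3) (nat_lit 4) (nat_lit 1) (nat_lit 4) (nat_lit 367) (nat_lit 304) (nat_lit 229)) (XT.lf (nat_lit 0) (nat_lit 1499592500367) (nat_lit 152) (nat_lit 7389747212375) (nat_lit 0) (nat_lit 1490503524951) (nat_lit 1) (nat_lit 5) (nat_lit 3) (nat_lit 4) (nat_lit 1) (nat_lit 4) (nat_lit 368) (nat_lit 304) (nat_lit 228))) (XT.nd (nat_lit 78) (nat_lit 0) (nat_lit 0) (XT.lf (nat_lit 0) (nat_lit 1757022888314) (nat_lit 152) (nat_lit 8426781792522) (nat_lit 0) (nat_lit 1747933883999) (nat_lit 1) (nat_lit 5) (nat_lit 3) (nat_lit 4) (nat_lit 1) (nat_lit 4) (nat_lit 369) (nat_lit 304) (nat_lit 227)) (XT.nd (nat_lit 78) (nat_lit 0) (nat_lit 0) (XT.lf (nat_lit 0) (nat_lit 2053067633220)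 (nat_lit 152) (nat_lit 9619371984256) (nat_lit 0) (nat_lit 2043978603776) (nat_lit 1) (nat_lit 5) (nat_lit 3) (nat_lit 4) (nat_lit 1) (nat_lit 4) (nat_lit 370) (nat_lit 304) (nat_lit 226)) (XT.lf (nat_lit 0) (nat_lit 2393518914877) (nat_lit 152) (nat_lit 10990851073937) (nat_lit 0) (nat_lit 2384429863581) (nat_lit 1) (nat_lit 5) (nat_lit 3) (nat_lit 4) (nat_lit 1) (nat_lit 4) (nat_lit 371) (nat_lit 304) (nat_lit 225))))) (XT.nd (nat_lit 234) (nat_lit 0) (nat_lit 0) (XT.nd (nat_lit 78) (nat_lit 0) (nat_lit 0) (XT.lf (nat_lit 0) (nat_lit 2785037736621) (nat_lit 152) (nat_lit 12568052348102) (nat_lit 0) (nat_lit 2775948666323) (nat_lit 1) (nat_lit 5) (nat_lit 3) (nat_lit 4) (nat_lit 1) (nat_lit 4) (nat_lit 372) (nat_lit 304) (nat_lit 224)) (XT.nd (nat_lit 78) (nat_lit 0) (nat_lit 0) (XT.lf (nat_lit 0) (nat_lit 3235284249313) (nat_lit 152) (nat_lit 14381834092550) (nat_lit 0) (nat_lit 3226195162492)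 (nat_lit 1) (nat_lit 5) (nat_lit 3) (nat_lit 4) (nat_lit 1) (nat_lit 4) (nat_lit 373) (nat_lit 304) (nat_lit 223)) (XT.lf (nat_lit 0) (nat_lit 3753067623852) (nat_lit 152) (nat_lit 16467683341411) (nat_lit 0) (nat_lit 3743978522663) (nat_lit 1) (nat_lit 5) (nat_lit 3) (nat_lit 4) (nat_lit 1) (nat_lit 4) (nat_lit 374) (nat_lit 304) (nat_lit 222)))) (XT.nd (nat_lit 78) (nat_lit 0) (nat_lit 0) (XT.lf (nat_lit 0) (nat_lit 4348518404524) (nat_lit 152) (nat_lit 18866410188685) (nat_lit 0) (nat_lit 4339429290841) (nat_lit 1) (nat_lit 5) (nat_lit 3) (nat_lit 4) (nat_lit 1) (nat_lit 4) (nat_lit 375) (nat_lit 304) (nat_lit 221)) (XT.nd (nat_lit 78) (nat_lit 0) (nat_lit 0) (XT.lf (nat_lit 0) (nat_lit 5033286715297) (nat_lit 152) (nat_lit 21624946246601) (nat_lit 0) (nat_lit 5024197590751) (nat_lit 1) (nat_lit 5) (nat_lit 3) (nat_lit 4) (nat_lit 1) (nat_lit 4) (nat_lit 376) (nat_lit 304) (nat_lit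 220)) (XT.lf (nat_lit 0) (nat_lit 5820770197036) (nat_lit 152) (nat_lit 24797262872814) (nat_lit 0) (nat_lit 5811681063042) (nat_lit 1) (nat_lit 5) (nat_lit 3) (nat_lit 4) (nat_lit 1) (nat_lit 4) (nat_lit 377) (nat_lit 304) (nat_lit 219)))))) (XT.nd (nat_lit 390) (nat_lit 0) (nat_lit 0) (XT.nd (nat_lit 156) (nat_lit 0) (nat_lit 0) (XT.nd (nat_lit 78) (nat_lit 0) (nat_lit 0) (XT.lf (nat_lit 0) (nat_lit 6726376135252) (nat_lit 152) (nat_lit 28445427131751) (nat_lit 0) (nat_lit 6717286993043) (nat_lit 1) (nat_lit 5) (nat_lit 3) (nat_lit 4) (nat_lit 1) (nat_lit 4) (nat_lit 378) (nat_lit 304) (nat_lit 218)) (XT.lf (nat_lit 0) (nat_lit 7767822906998) (nat_lit 152) (nat_lit 32640816150215) (nat_lit 0) (nat_lit 7758733757646) (nat_lit 1) (nat_lit 5) (nat_lit 3) (nat_lit 4) (nat_lit 1) (nat_lit 4) (nat_lit 379) (nat_lit 304) (nat_lit 217))) (XT.nd (nat_lit 78) (nat_lit 0) (nat_lit 0) (XT.lf (nat_lit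 0) (nat_lit 8965486644763) (nat_lit 152) (nat_lit 37465513626395) (nat_lit 0) (nat_lit 8956397489199) (nat_lit 1) (nat_lit 5) (nat_lit 3) (nat_lit 4) (nat_lit 1) (nat_lit 4) (nat_lit 380) (nat_lit 304) (nat_lit 216)) (XT.nd (nat_lit 78) (nat_lit 0) (nat_lit 0) (XT.lf (nat_lit 0) (nat_lit 10342799899940) (nat_lit 152) (nat_lit 43013915815259) (nat_lit 0) (nat_lit 10333710738975) (nat_lit 1) (nat_lit 5) (nat_lit 3) (nat_lit 4) (nat_lit 1) (nat_lit 4) (nat_lit 381) (nat_lit 304) (nat_lit 215)) (XT.lf (nat_lit 0) (nat_lit 11926710105781) (nat_lit 152) (nat_lit 49394578411807) (nat_lit 0) (nat_lit 11917620940119) (nat_lit 1) (nat_lit 5) (nat_lit 3) (nat_lit 4) (nat_lit 1) (nat_lit 4) (nat_lit 382) (nat_lit 304) (nat_lit 214))))) (XT.nd (nat_lit 234) (nat_lit 0) (nat_lit 0) (XT.nd (nat_lit 78) (nat_lit 0) (nat_lit 0) (XT.lf (nat_lit 0) (nat_lit 13748206809792) (nat_lit 152) (nat_lit 56732340466841)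 (nat_lit 0) (nat_lit 13739117640046) (nat_lit 1) (nat_lit 5) (nat_lit 3) (nat_lit 4) (nat_lit 1) (nat_lit 4) (nat_lit 383) (nat_lit 304) (nat_lit 213)) (XT.nd (nat_lit 78) (nat_lit 0) (nat_lit 0) (XT.lf (nat_lit 0) (nat_lit 15842927990965) (nat_lit 152) (nat_lit 65170766890132) (nat_lit 0) (nat_lit 15833838817667) (nat_lit 1) (nat_lit 5) (nat_lit 3) (nat_lit 4) (nat_lit 1) (nat_lit 4) (nat_lit 384) (nat_lit 304) (nat_lit 212)) (XT.lf (nat_lit 0) (nat_lit 18251857324584) (nat_lit 152) (nat_lit 74874957329095) (nat_lit 0) (nat_lit 18242768148197) (nat_lit 1) (nat_lit 5) (nat_lit 3) (nat_lit 4) (nat_lit 1) (nat_lit 4) (nat_lit 385) (nat_lit 304) (nat_lit 211)))) (XT.nd (nat_lit 78) (nat_lit 0) (nat_lit 0) (XT.lf (nat_lit 0) (nat_lit 21022126036740) (nat_lit 152) (nat_lit 86034776379273) (nat_lit 0) (nat_lit 21013036857668) (nat_lit 1) (nat_lit 5) (nat_lit 3) (nat_lit 4) (nat_lit 1) (nat_lit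 4) (nat_lit 386) (nat_lit 304) (nat_lit 210)) (XT.nd (nat_lit 78) (nat_lit 0) (nat_lit 0) (XT.lf (nat_lit 0) (nat_lit 24207935037020) (nat_lit 152) (nat_lit 98868568326430) (nat_lit 0) (nat_lit 24198845855613) (nat_lit 1) (nat_lit 5) (nat_lit 3) (nat_lit 4) (nat_lit 1) (nat_lit 4) (nat_lit 387) (nat_lit 304) (nat_lit 209)) (XT.lf (nat_lit 0) (nat_lit 27871615371082) (nat_lit 152) (nat_lit 113627429099968) (nat_lit 0) (nat_lit 27862526187644) (nat_lit 1) (nat_lit 5) (nat_lit 3) (nat_lit 4) (nat_lit 1) (nat_lit 4) (nat_lit 388) (nat_lit 304) (nat_lit 208))))))))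
noncomputable def xc57 : XT := (XT.nd (nat_lit 41808) (nat_lit 0) (nat_lit 152) (XT.nd (nat_lit 40950) (nat_lit 0) (nat_lit 1064) (XT.nd (nat_lit 40482) (nat_lit 0) (nat_lit 1748) (XT.nd (nat_lit 156) (nat_lit 0) (nat_lit 0) (XT.nd (nat_lit 78) (nat_lit 0) (nat_lit 0) (XT.lf (nat_lit 0) (nat_lit 32084847741113) (nat_lit 152) (nat_lit 130600119019369) (nat_lit 0) (nat_lit 32075758555910) (nat_lit 1) (nat_lit 5) (nat_lit 3) (nat_lit 4) (nat_lit 1) (nat_lit 4) (nat_lit 389) (nat_lit 304) (nat_lit 207)) (XT.lf (nat_lit 0) (nat_lit 36930064954353) (nat_lit 152) (nat_lit 150118712452621) (nat_lit 0) (nat_lit 36920975767614) (nat_lit 1) (nat_lit 5) (nat_lit 3) (nat_lit 4) (nat_lit 1) (nat_lit 4) (nat_lit 390) (nat_lit 304) (nat_lit 206))) (XT.nd (nat_lit 40170) (nat_lit 0) (nat_lit 2432) (XT.lf (nat_lit 0) (nat_lit 42502064738888) (nat_lit 152) (nat_lit 172565094923418) (nat_lit 0) (nat_lit 42492975550814)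 (nat_lit 1) (nat_lit 5) (nat_lit 3) (nat_lit 4) (nat_lit 1) (nat_lit 4) (nat_lit 391) (nat_lit 304) (nat_lit 205)) (XT.nd (nat_lit 78) (nat_lit 0) (nat_lit 0) (XT.lf (nat_lit 0) (nat_lit 1539947953) (nat_lit 0) (nat_lit 1539947953) (nat_lit 228) (nat_lit 1327121918) (nat_lit 33) (nat_lit 5) (nat_lit 33) (nat_lit 3) (nat_lit 36) (nat_lit 3) (nat_lit 305) (nat_lit 305) (nat_lit 290)) (XT.lf (nat_lit 0) (nat_lit 7500440630) (nat_lit 228) (nat_lit 1428026113) (nat_lit 304) (nat_lit 413090309) (nat_lit 33) (nat_lit 5) (nat_lit 36) (nat_lit 3) (nat_lit 37) (nat_lit 5) (nat_lit 306) (nat_lit 305) (nat_lit 289))))) (XT.nd (nat_lit 234) (nat_lit 380) (nat_lit 0) (XT.nd (nat_lit 78) (nat_lit 304) (nat_lit 0) (XT.lf (nat_lit 76) (nat_lit 3594338407) (nat_lit 0) (nat_lit 5593407583) (nat_lit 304) (nat_lit 738935112) (nat_lit 34) (nat_lit 5) (nat_lit 33) (nat_lit 5) (nat_lit 37) (nat_lit 5) (nat_lit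 307) (nat_lit 305) (nat_lit 288)) (XT.nd (nat_lit 78) (nat_lit 0) (nat_lit 76) (XT.lf (nat_lit 0) (nat_lit 418620427) (nat_lit 304) (nat_lit 1195607955) (nat_lit 380) (nat_lit 8991729802) (nat_lit 29) (nat_lit 5) (nat_lit 33) (nat_lit 5) (nat_lit 34) (nat_lit 5) (nat_lit 308) (nat_lit 305) (nat_lit 287)) (XT.lf (nat_lit 0) (nat_lit 1894853754) (nat_lit 304) (nat_lit 6478266653) (nat_lit 76) (nat_lit 2975826439) (nat_lit 30) (nat_lit 5) (nat_lit 34) (nat_lit 5) (nat_lit 31) (nat_lit 5) (nat_lit 309) (nat_lit 305) (nat_lit 286)))) (XT.nd (nat_lit 78) (nat_lit 456) (nat_lit 0) (XT.lf (nat_lit 0) (nat_lit 3625029694) (nat_lit 304) (nat_lit 403291956) (nat_lit 76) (nat_lit 8170362295) (nat_lit 30) (nat_lit 5) (nat_lit 34) (nat_lit 5) (nat_lit 31) (nat_lit 5) (nat_lit 310) (nat_lit 305) (nat_lit 285)) (XT.nd (nat_lit 78) (nat_lit 152) (nat_lit 0) (XT.lf (nat_lit 0) (nat_lit 5868171228) (nat_lit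 380) (nat_lit 6079660291) (nat_lit 76) (nat_lit 1190187501) (nat_lit 26) (nat_lit 5) (nat_lit 31) (nat_lit 5) (nat_lit 27) (nat_lit 5) (nat_lit 311) (nat_lit 305) (nat_lit 284)) (XT.lf (nat_lit 0) (nat_lit 1286323078) (nat_lit 152) (nat_lit 7341569837) (nat_lit 228) (nat_lit 5563478396) (nat_lit 24) (nat_lit 5) (nat_lit 26) (nat_lit 5) (nat_lit 27) (nat_lit 5) (nat_lit 312) (nat_lit 305) (nat_lit 283)))))) (XT.nd (nat_lit 390) (nat_lit 380) (nat_lit 0) (XT.nd (nat_lit 156) (nat_lit 228) (nat_lit 0) (XT.nd (nat_lit 78) (nat_lit 76) (nat_lit 0) (XT.lf (nat_lit 0) (nat_lit 10340386055) (nat_lit 152) (nat_lit 1699134199) (nat_lit 228) (nat_lit 3327629992) (nat_lit 24) (nat_lit 5) (nat_lit 26) (nat_lit 5) (nat_lit 27) (nat_lit 5) (nat_lit 313) (nat_lit 305) (nat_lit 282)) (XT.lf (nat_lit 0) (nat_lit 4103426440) (nat_lit 76) (nat_lit 12157543237) (nat_lit 152) (nat_lit 413715435) (nat_lit 23)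 (nat_lit 5) (nat_lit 24) (nat_lit 5) (nat_lit 25) (nat_lit 4) (nat_lit 314) (nat_lit 305) (nat_lit 281))) (XT.nd (nat_lit 78) (nat_lit 152) (nat_lit 0) (XT.lf (nat_lit 0) (nat_lit 2963966711) (nat_lit 152) (nat_lit 3285043848) (nat_lit 76) (nat_lit 11867945157) (nat_lit 22) (nat_lit 5) (nat_lit 24) (nat_lit 5) (nat_lit 23) (nat_lit 5) (nat_lit 315) (nat_lit 305) (nat_lit 280)) (XT.nd (nat_lit 78) (nat_lit 0) (nat_lit 0) (XT.lf (nat_lit 0) (nat_lit 7116281158) (nat_lit 228) (nat_lit 11769603215) (nat_lit 76) (nat_lit 840243212) (nat_lit 20) (nat_lit 5) (nat_lit 23) (nat_lit 5) (nat_lit 21) (nat_lit 4) (nat_lit 316) (nat_lit 305) (nat_lit 279)) (XT.lf (nat_lit 0) (nat_lit 12312941187) (nat_lit 228) (nat_lit 692582454) (nat_lit 76) (nat_lit 8507984460) (nat_lit 20) (nat_lit 5) (nat_lit 23) (nat_lit 5) (nat_lit 21) (nat_lit 4) (nat_lit 317) (nat_lit 305) (nat_lit 278))))) (XT.nd (nat_lit 234)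 (nat_lit 152) (nat_lit 0) (XT.nd (nat_lit 78) (nat_lit 152) (nat_lit 0) (XT.lf (nat_lit 0) (nat_lit 13137840755) (nat_lit 76) (nat_lit 5646600934) (nat_lit 152) (nat_lit 4710302895) (nat_lit 19) (nat_lit 5) (nat_lit 20) (nat_lit 5) (nat_lit 21) (nat_lit 4) (nat_lit 318) (nat_lit 305) (nat_lit 277)) (XT.nd (nat_lit 78) (nat_lit 0) (nat_lit 0) (XT.lf (nat_lit 0) (nat_lit 676400995) (nat_lit 152) (nat_lit 22303256255) (nat_lit 76) (nat_lit 2751239298) (nat_lit 17) (nat_lit 5) (nat_lit 19) (nat_lit 5) (nat_lit 18) (nat_lit 4) (nat_lit 319) (nat_lit 305) (nat_lit 276)) (XT.lf (nat_lit 0) (nat_lit 7179130808) (nat_lit 152) (nat_lit 8377160148) (nat_lit 76) (nat_lit 12594028435) (nat_lit 17) (nat_lit 5) (nat_lit 19) (nat_lit 5) (nat_lit 18) (nat_lit 4) (nat_lit 320) (nat_lit 305) (nat_lit 275)))) (XT.nd (nat_lit 78) (nat_lit 76) (nat_lit 0) (XT.lf (nat_lit 0) (nat_lit 8307176968) (nat_lit 76)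 (nat_lit 6654263515) (nat_lit 152) (nat_lit 15925618269) (nat_lit 16) (nat_lit 5) (nat_lit 17) (nat_lit 5) (nat_lit 18) (nat_lit 4) (nat_lit 321) (nat_lit 305) (nat_lit 274)) (XT.nd (nat_lit 78) (nat_lit 76) (nat_lit 0) (XT.lf (nat_lit 0) (nat_lit 24479590082) (nat_lit 152) (nat_lit 5773650462) (nat_lit 0) (nat_lit 3695819367) (nat_lit 16) (nat_lit 5) (nat_lit 18) (nat_lit 4) (nat_lit 16) (nat_lit 4) (nat_lit 322) (nat_lit 305) (nat_lit 273)) (XT.lf (nat_lit 0) (nat_lit 14462025116) (nat_lit 76) (nat_lit 21845563112) (nat_lit 76) (nat_lit 1030475763) (nat_lit 15) (nat_lit 4) (nat_lit 16) (nat_lit 5) (nat_lit 16) (nat_lit 4) (nat_lit 323) (nat_lit 305) (nat_lit 272))))))) (XT.nd (nat_lit 858) (nat_lit 304) (nat_lit 0) (XT.nd (nat_lit 390) (nat_lit 304) (nat_lit 0) (XT.nd (nat_lit 156) (nat_lit 152) (nat_lit 0) (XT.nd (nat_lit 78) (nat_lit 76) (nat_lit 0) (XT.lf (nat_lit 0) (nat_lit 8185106282)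 (nat_lit 152) (nat_lit 3244340699) (nat_lit 76) (nat_lit 29709661369) (nat_lit 14) (nat_lit 5) (nat_lit 16) (nat_lit 5) (nat_lit 15) (nat_lit 4) (nat_lit 324) (nat_lit 305) (nat_lit 271)) (XT.lf (nat_lit 0) (nat_lit 19588332639) (nat_lit 152) (nat_lit 24334023600) (nat_lit 0) (nat_lit 1443985612) (nat_lit 13) (nat_lit 5) (nat_lit 15) (nat_lit 4) (nat_lit 13) (nat_lit 4) (nat_lit 325) (nat_lit 305) (nat_lit 270))) (XT.nd (nat_lit 78) (nat_lit 152) (nat_lit 0) (XT.lf (nat_lit 0) (nat_lit 33395703233) (nat_lit 152) (nat_lit 1494469670) (nat_lit 0) (nat_lit 15233450819) (nat_lit 13) (nat_lit 5) (nat_lit 15) (nat_lit 4) (nat_lit 13) (nat_lit 4) (nat_lit 326) (nat_lit 305) (nat_lit 269)) (XT.nd (nat_lit 78) (nat_lit 76) (nat_lit 0) (XT.lf (nat_lit 0) (nat_lit 27139313248) (nat_lit 76) (nat_lit 23234068669) (nat_lit 76) (nat_lit 5056246353) (nat_lit 12) (nat_lit 4) (nat_lit 13) (nat_lit 5) (nat_lit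 13) (nat_lit 4) (nat_lit 327) (nat_lit 305) (nat_lit 268)) (XT.lf (nat_lit 0) (nat_lit 7678824167) (nat_lit 152) (nat_lit 1681889401) (nat_lit 76) (nat_lit 52110245177) (nat_lit 11) (nat_lit 5) (nat_lit 13) (nat_lit 5) (nat_lit 12) (nat_lit 4) (nat_lit 328) (nat_lit 305) (nat_lit 267))))) (XT.nd (nat_lit 234) (nat_lit 152) (nat_lit 0) (XT.nd (nat_lit 78) (nat_lit 76) (nat_lit 0) (XT.lf (nat_lit 0) (nat_lit 23432517194) (nat_lit 152) (nat_lit 37102254215) (nat_lit 0) (nat_lit 7603704633) (nat_lit 10) (nat_lit 5) (nat_lit 12) (nat_lit 4) (nat_lit 10) (nat_lit 4) (nat_lit 329) (nat_lit 305) (nat_lit 266)) (XT.nd (nat_lit 78) (nat_lit 76) (nat_lit 0) (XT.lf (nat_lit 0) (nat_lit 42066210147) (nat_lit 152) (nat_lit 7433879604) (nat_lit 0) (nat_lit 26228495445) (nat_lit 10) (nat_lit 5) (nat_lit 12) (nat_lit 4) (nat_lit 10) (nat_lit 4) (nat_lit 330) (nat_lit 305) (nat_lit 265)) (XT.lf (nat_lit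 0) (nat_lit 29252409401) (nat_lit 76) (nat_lit 35435648613) (nat_lit 76) (nat_lit 19590192917) (nat_lit 9) (nat_lit 4) (nat_lit 10) (nat_lit 5) (nat_lit 10) (nat_lit 4) (nat_lit 331) (nat_lit 305) (nat_lit 264)))) (XT.nd (nat_lit 78) (nat_lit 152) (nat_lit 0) (XT.lf (nat_lit 0) (nat_lit 72242178231) (nat_lit 76) (nat_lit 18832339848) (nat_lit 76) (nat_lit 2980152853) (nat_lit 9) (nat_lit 4) (nat_lit 10) (nat_lit 5) (nat_lit 10) (nat_lit 4) (nat_lit 332) (nat_lit 305) (nat_lit 263)) (XT.nd (nat_lit 78) (nat_lit 0) (nat_lit 0) (XT.lf (nat_lit 0) (nat_lit 15459206191) (nat_lit 152) (nat_lit 87952654820) (nat_lit 0) (nat_lit 1669605933) (nat_lit 7) (nat_lit 5) (nat_lit 9) (nat_lit 4) (nat_lit 7) (nat_lit 4) (nat_lit 333) (nat_lit 305) (nat_lit 262)) (XT.lf (nat_lit 0) (nat_lit 38435054328) (nat_lit 152) (nat_lit 54353561736) (nat_lit 0) (nat_lit 24641028132) (nat_lit 7) (nat_lit 5) (nat_lit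 9) (nat_lit 4) (nat_lit 7) (nat_lit 4) (nat_lit 334) (nat_lit 305) (nat_lit 261)))))) (XT.nd (nat_lit 468) (nat_lit 76) (nat_lit 0) (XT.nd (nat_lit 234) (nat_lit 152) (nat_lit 0) (XT.nd (nat_lit 78) (nat_lit 76) (nat_lit 0) (XT.lf (nat_lit 0) (nat_lit 64843735673) (nat_lit 152) (nat_lit 15742485792) (nat_lit 0) (nat_lit 51045860835) (nat_lit 7) (nat_lit 5) (nat_lit 9) (nat_lit 4) (nat_lit 7) (nat_lit 4) (nat_lit 335) (nat_lit 305) (nat_lit 260)) (XT.nd (nat_lit 78) (nat_lit 0) (nat_lit 0) (XT.lf (nat_lit 0) (nat_lit 31434525982) (nat_lit 76) (nat_lit 65069052521) (nat_lit 76) (nat_lit 51267831039) (nat_lit 6) (nat_lit 4) (nat_lit 7) (nat_lit 5) (nat_lit 7) (nat_lit 4) (nat_lit 336) (nat_lit 305) (nat_lit 259)) (XT.lf (nat_lit 0) (nat_lit 87434187839) (nat_lit 76) (nat_lit 46289913089) (nat_lit 76) (nat_lit 32485781480) (nat_lit 6) (nat_lit 4) (nat_lit 7) (nat_lit 5) (nat_lit 7) (nat_lit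 4) (nat_lit 337) (nat_lit 305) (nat_lit 258)))) (XT.nd (nat_lit 78) (nat_lit 152) (nat_lit 0) (XT.lf (nat_lit 0) (nat_lit 151813675134) (nat_lit 76) (nat_lit 24704287889) (nat_lit 76) (nat_lit 10897625736) (nat_lit 6) (nat_lit 4) (nat_lit 7) (nat_lit 5) (nat_lit 7) (nat_lit 4) (nat_lit 338) (nat_lit 305) (nat_lit 257)) (XT.nd (nat_lit 78) (nat_lit 0) (nat_lit 0) (XT.lf (nat_lit 0) (nat_lit 13352462863) (nat_lit 152) (nat_lit 196918857781) (nat_lit 0) (nat_lit 1344756231) (nat_lit 4) (nat_lit 5) (nat_lit 6) (nat_lit 4) (nat_lit 4) (nat_lit 4) (nat_lit 339) (nat_lit 305) (nat_lit 256)) (XT.lf (nat_lit 0) (nat_lit 43241560578) (nat_lit 152) (nat_lit 164427467754) (nat_lit 0) (nat_lit 31232190072) (nat_lit 4) (nat_lit 5) (nat_lit 6) (nat_lit 4) (nat_lit 4) (nat_lit 4) (nat_lit 340) (nat_lit 305) (nat_lit 255))))) (XT.nd (nat_lit 234) (nat_lit 76) (nat_lit 0) (XT.nd (nat_lit 78) (nat_lit 0)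 (nat_lit 0) (XT.lf (nat_lit 0) (nat_lit 77606355007) (nat_lit 152) (nat_lit 127078389698) (nat_lit 0) (nat_lit 65595537654) (nat_lit 4) (nat_lit 5) (nat_lit 6) (nat_lit 4) (nat_lit 4) (nat_lit 4) (nat_lit 341) (nat_lit 305) (nat_lit 254)) (XT.nd (nat_lit 78) (nat_lit 0) (nat_lit 0) (XT.lf (nat_lit 0) (nat_lit 117119200821) (nat_lit 152) (nat_lit 84140880780) (nat_lit 0) (nat_lit 105107125340) (nat_lit 4) (nat_lit 5) (nat_lit 6) (nat_lit 4) (nat_lit 4) (nat_lit 4) (nat_lit 342) (nat_lit 305) (nat_lit 253)) (XT.lf (nat_lit 0) (nat_lit 162553175439) (nat_lit 152) (nat_lit 34774859305) (nat_lit 0) (nat_lit 150540005934) (nat_lit 4) (nat_lit 5) (nat_lit 6) (nat_lit 4) (nat_lit 4) (nat_lit 4) (nat_lit 343) (nat_lit 305) (nat_lit 252)))) (XT.nd (nat_lit 78) (nat_lit 0) (nat_lit 0) (XT.lf (nat_lit 0) (nat_lit 24134117717) (nat_lit 76) (nat_lit 191662429082) (nat_lit 76) (nat_lit 179648308252)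 (nat_lit 3) (nat_lit 4) (nat_lit 4) (nat_lit 5) (nat_lit 4) (nat_lit 4) (nat_lit 344) (nat_lit 305) (nat_lit 251)) (XT.nd (nat_lit 78) (nat_lit 0) (nat_lit 0) (XT.lf (nat_lit 0) (nat_lit 95777606361) (nat_lit 76) (nat_lit 183061793715) (nat_lit 76) (nat_lit 171046845645) (nat_lit 3) (nat_lit 4) (nat_lit 4) (nat_lit 5) (nat_lit 4) (nat_lit 4) (nat_lit 345) (nat_lit 305) (nat_lit 250)) (XT.lf (nat_lit 0) (nat_lit 178158874896) (nat_lit 76) (nat_lit 173175632079) (nat_lit 76) (nat_lit 161159964670) (nat_lit 3) (nat_lit 4) (nat_lit 4) (nat_lit 5) (nat_lit 4) (nat_lit 4) (nat_lit 346) (nat_lit 305) (nat_lit 249))))))))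
noncomputable def xc58 : XT := (XT.nd (nat_lit 1716) (nat_lit 0) (nat_lit 0) (XT.nd (nat_lit 858) (nat_lit 0) (nat_lit 0) (XT.nd (nat_lit 390) (nat_lit 152) (nat_lit 0) (XT.nd (nat_lit 156) (nat_lit 0) (nat_lit 0) (XT.nd (nat_lit 78) (nat_lit 0) (nat_lit 0) (XT.lf (nat_lit 0) (nat_lit 272889730749) (nat_lit 76) (nat_lit 161810519272) (nat_lit 76) (nat_lit 149794226352) (nat_lit 3) (nat_lit 4) (nat_lit 4) (nat_lit 5) (nat_lit 4) (nat_lit 4) (nat_lit 347) (nat_lit 305) (nat_lit 248)) (XT.lf (nat_lit 0) (nat_lit 381823603710) (nat_lit 76) (nat_lit 148744094391) (nat_lit 76) (nat_lit 136727257548) (nat_lit 3) (nat_lit 4) (nat_lit 4) (nat_lit 5) (nat_lit 4) (nat_lit 4) (nat_lit 348) (nat_lit 305) (nat_lit 247))) (XT.nd (nat_lit 78) (nat_lit 0) (nat_lit 0) (XT.lf (nat_lit 0) (nat_lit 507091808683) (nat_lit 76) (nat_lit 133720709994) (nat_lit 76) (nat_lit 121703400174) (nat_lit 3) (nat_lit 4)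 (nat_lit 4) (nat_lit 5) (nat_lit 4) (nat_lit 4) (nat_lit 349) (nat_lit 305) (nat_lit 246)) (XT.nd (nat_lit 78) (nat_lit 0) (nat_lit 0) (XT.lf (nat_lit 0) (nat_lit 651145245332) (nat_lit 76) (nat_lit 116446430299) (nat_lit 76) (nat_lit 104428709195) (nat_lit 3) (nat_lit 4) (nat_lit 4) (nat_lit 5) (nat_lit 4) (nat_lit 4) (nat_lit 350) (nat_lit 305) (nat_lit 245)) (XT.lf (nat_lit 0) (nat_lit 816802350461) (nat_lit 76) (nat_lit 96583280268) (nat_lit 76) (nat_lit 84565201525) (nat_lit 3) (nat_lit 4) (nat_lit 4) (nat_lit 5) (nat_lit 4) (nat_lit 4) (nat_lit 351) (nat_lit 305) (nat_lit 244))))) (XT.nd (nat_lit 234) (nat_lit 152) (nat_lit 0) (XT.nd (nat_lit 78) (nat_lit 0) (nat_lit 0) (XT.lf (nat_lit 0) (nat_lit 1007304241343) (nat_lit 76) (nat_lit 73742633052) (nat_lit 76) (nat_lit 61724243319) (nat_lit 3) (nat_lit 4) (nat_lit 4) (nat_lit 5) (nat_lit 4) (nat_lit 4) (nat_lit 352) (nat_lit 305)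 (nat_lit 243)) (XT.nd (nat_lit 78) (nat_lit 0) (nat_lit 0) (XT.lf (nat_lit 0) (nat_lit 1226378128888) (nat_lit 76) (nat_lit 47477606424) (nat_lit 76) (nat_lit 35458946265) (nat_lit 3) (nat_lit 4) (nat_lit 4) (nat_lit 5) (nat_lit 4) (nat_lit 4) (nat_lit 353) (nat_lit 305) (nat_lit 242)) (XT.lf (nat_lit 0) (nat_lit 1478310241329) (nat_lit 76) (nat_lit 17274319428) (nat_lit 76) (nat_lit 5255424116) (nat_lit 3) (nat_lit 4) (nat_lit 4) (nat_lit 5) (nat_lit 4) (nat_lit 4) (nat_lit 354) (nat_lit 305) (nat_lit 241)))) (XT.nd (nat_lit 78) (nat_lit 0) (nat_lit 0) (XT.lf (nat_lit 0) (nat_lit 29810917352) (nat_lit 152) (nat_lit 1671297040824) (nat_lit 0) (nat_lit 19359526227) (nat_lit 1) (nat_lit 5) (nat_lit 3) (nat_lit 4) (nat_lit 1) (nat_lit 4) (nat_lit 355) (nat_lit 305) (nat_lit 240)) (XT.nd (nat_lit 78) (nat_lit 0) (nat_lit 0) (XT.lf (nat_lit 0) (nat_lit 71654274878) (nat_lit 152) (nat_lit 1839836298186)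 (nat_lit 0) (nat_lit 61202729137) (nat_lit 1) (nat_lit 5) (nat_lit 3) (nat_lit 4) (nat_lit 1) (nat_lit 4) (nat_lit 356) (nat_lit 305) (nat_lit 239)) (XT.lf (nat_lit 0) (nat_lit 119773059386) (nat_lit 152) (nat_lit 2033658715680) (nat_lit 0) (nat_lit 109321379195) (nat_lit 1) (nat_lit 5) (nat_lit 3) (nat_lit 4) (nat_lit 1) (nat_lit 4) (nat_lit 357) (nat_lit 305) (nat_lit 238)))))) (XT.nd (nat_lit 390) (nat_lit 0) (nat_lit 0) (XT.nd (nat_lit 156) (nat_lit 0) (nat_lit 0) (XT.nd (nat_lit 78) (nat_lit 0) (nat_lit 0) (XT.lf (nat_lit 0) (nat_lit 175108725353) (nat_lit 152) (nat_lit 2256556471039) (nat_lit 0) (nat_lit 164656928250) (nat_lit 1) (nat_lit 5) (nat_lit 3) (nat_lit 4) (nat_lit 1) (nat_lit 4) (nat_lit 358) (nat_lit 305) (nat_lit 237)) (XT.lf (nat_lit 0) (nat_lit 238743927115) (nat_lit 152) (nat_lit 2512890607303) (nat_lit 0) (nat_lit 228292028348) (nat_lit 1) (nat_lit 5) (nat_lit 3)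 (nat_lit 4) (nat_lit 1) (nat_lit 4) (nat_lit 359) (nat_lit 305) (nat_lit 236))) (XT.nd (nat_lit 78) (nat_lit 0) (nat_lit 0) (XT.lf (nat_lit 0) (nat_lit 311923701227) (nat_lit 152) (nat_lit 2807676357572) (nat_lit 0) (nat_lit 301471714057) (nat_lit 1) (nat_lit 5) (nat_lit 3) (nat_lit 4) (nat_lit 1) (nat_lit 4) (nat_lit 360) (nat_lit 305) (nat_lit 235)) (XT.nd (nat_lit 78) (nat_lit 0) (nat_lit 0) (XT.lf (nat_lit 0) (nat_lit 396079825878) (nat_lit 152) (nat_lit 3146681269134) (nat_lit 0) (nat_lit 385627761837) (nat_lit 1) (nat_lit 5) (nat_lit 3) (nat_lit 4) (nat_lit 1) (nat_lit 4) (nat_lit 361) (nat_lit 305) (nat_lit 234)) (XT.lf (nat_lit 0) (nat_lit 492858833943) (nat_lit 152) (nat_lit 3536538046781) (nat_lit 0) (nat_lit 482406703057) (nat_lit 1) (nat_lit 5) (nat_lit 3) (nat_lit 4) (nat_lit 1) (nat_lit 4) (nat_lit 362) (nat_lit 305) (nat_lit 233))))) (XT.nd (nat_lit 234) (nat_lit 0) (nat_lit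 0) (XT.nd (nat_lit 78) (nat_lit 0) (nat_lit 0) (XT.lf (nat_lit 0) (nat_lit 604154227753) (nat_lit 152) (nat_lit 3984874323119) (nat_lit 0) (nat_lit 593702038740) (nat_lit 1) (nat_lit 5) (nat_lit 3) (nat_lit 4) (nat_lit 1) (nat_lit 4) (nat_lit 363) (nat_lit 305) (nat_lit 232)) (XT.nd (nat_lit 78) (nat_lit 0) (nat_lit 0) (XT.lf (nat_lit 0) (nat_lit 732143525882) (nat_lit 152) (nat_lit 4500461894859) (nat_lit 0) (nat_lit 721691286325) (nat_lit 1) (nat_lit 5) (nat_lit 3) (nat_lit 4) (nat_lit 1) (nat_lit 4) (nat_lit 364) (nat_lit 305) (nat_lit 231)) (XT.lf (nat_lit 0) (nat_lit 879330866772) (nat_lit 152) (nat_lit 5093388344926) (nat_lit 0) (nat_lit 868878583263) (nat_lit 1) (nat_lit 5) (nat_lit 3) (nat_lit 4) (nat_lit 1) (nat_lit 4) (nat_lit 365) (nat_lit 305) (nat_lit 230)))) (XT.nd (nat_lit 78) (nat_lit 0) (nat_lit 0) (XT.lf (nat_lit 0) (nat_lit 1048596002745) (nat_lit 152) (nat_lit 5775254408213)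 (nat_lit 0) (nat_lit 1038143681017) (nat_lit 1) (nat_lit 5) (nat_lit 3) (nat_lit 4) (nat_lit 1) (nat_lit 4) (nat_lit 366) (nat_lit 305) (nat_lit 229)) (XT.nd (nat_lit 78) (nat_lit 0) (nat_lit 0) (XT.lf (nat_lit 0) (nat_lit 1243250642983) (nat_lit 152) (nat_lit 6559400942480) (nat_lit 0) (nat_lit 1232798288021) (nat_lit 1) (nat_lit 5) (nat_lit 3) (nat_lit 4) (nat_lit 1) (nat_lit 4) (nat_lit 367) (nat_lit 305) (nat_lit 228)) (XT.lf (nat_lit 0) (nat_lit 1467103247839) (nat_lit 152) (nat_lit 7461169945136) (nat_lit 0) (nat_lit 1456650863978) (nat_lit 1) (nat_lit 5) (nat_lit 3) (nat_lit 4) (nat_lit 1) (nat_lit 4) (nat_lit 368) (nat_lit 305) (nat_lit 227))))))) (XT.nd (nat_lit 858) (nat_lit 0) (nat_lit 0) (XT.nd (nat_lit 390) (nat_lit 0) (nat_lit 0) (XT.nd (nat_lit 156) (nat_lit 0) (nat_lit 0) (XT.nd (nat_lit 78) (nat_lit 0) (nat_lit 0) (XT.lf (nat_lit 0) (nat_lit 1724533542190) (nat_lit 152)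 (nat_lit 8498204722756) (nat_lit 0) (nat_lit 1714081133199) (nat_lit 1) (nat_lit 5) (nat_lit 3) (nat_lit 4) (nat_lit 1) (nat_lit 4) (nat_lit 369) (nat_lit 305) (nat_lit 226)) (XT.lf (nat_lit 0) (nat_lit 2020578205707) (nat_lit 152) (nat_lit 9690795086204) (nat_lit 0) (nat_lit 2010125774865) (nat_lit 1) (nat_lit 5) (nat_lit 3) (nat_lit 4) (nat_lit 1) (nat_lit 4) (nat_lit 370) (nat_lit 305) (nat_lit 225))) (XT.nd (nat_lit 78) (nat_lit 0) (nat_lit 0) (XT.lf (nat_lit 0) (nat_lit 2361029416591) (nat_lit 152) (nat_lit 11062274325203) (nat_lit 0) (nat_lit 2350576966747) (nat_lit 1) (nat_lit 5) (nat_lit 3) (nat_lit 4) (nat_lit 1) (nat_lit 4) (nat_lit 371) (nat_lit 305) (nat_lit 224)) (XT.nd (nat_lit 78) (nat_lit 0) (nat_lit 0) (XT.lf (nat_lit 0) (nat_lit 2752548176794) (nat_lit 152) (nat_lit 12639475729208) (nat_lit 0) (nat_lit 2742095710427) (nat_lit 1) (nat_lit 5) (nat_lit 3) (nat_lit 4) (nat_lit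 1) (nat_lit 4) (nat_lit 372) (nat_lit 305) (nat_lit 223)) (XT.lf (nat_lit 0) (nat_lit 3202794635971) (nat_lit 152) (nat_lit 14453257586562) (nat_lit 0) (nat_lit 3192342155236) (nat_lit 1) (nat_lit 5) (nat_lit 3) (nat_lit 4) (nat_lit 1) (nat_lit 4) (nat_lit 373) (nat_lit 305) (nat_lit 222))))) (XT.nd (nat_lit 234) (nat_lit 0) (nat_lit 0) (XT.nd (nat_lit 78) (nat_lit 0) (nat_lit 0) (XT.lf (nat_lit 0) (nat_lit 3720577963976) (nat_lit 152) (nat_lit 16539106933601) (nat_lit 0) (nat_lit 3710125470747) (nat_lit 1) (nat_lit 5) (nat_lit 3) (nat_lit 4) (nat_lit 1) (nat_lit 4) (nat_lit 374) (nat_lit 305) (nat_lit 221)) (XT.nd (nat_lit 78) (nat_lit 0) (nat_lit 0) (XT.lf (nat_lit 0) (nat_lit 4316028704183) (nat_lit 152) (nat_lit 18937833866248) (nat_lit 0) (nat_lit 4305576200090) (nat_lit 1) (nat_lit 5) (nat_lit 3) (nat_lit 4) (nat_lit 1) (nat_lit 4) (nat_lit 375) (nat_lit 305) (nat_lit 220)) (XT.lf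 (nat_lit 0) (nat_lit 5000796979770) (nat_lit 152) (nat_lit 21696369998401) (nat_lit 0) (nat_lit 4990344466230) (nat_lit 1) (nat_lit 5) (nat_lit 3) (nat_lit 4) (nat_lit 1) (nat_lit 4) (nat_lit 376) (nat_lit 305) (nat_lit 219)))) (XT.nd (nat_lit 78) (nat_lit 0) (nat_lit 0) (XT.lf (nat_lit 0) (nat_lit 5788280430912) (nat_lit 152) (nat_lit 24868686689168) (nat_lit 0) (nat_lit 5777827909157) (nat_lit 1) (nat_lit 5) (nat_lit 3) (nat_lit 4) (nat_lit 1) (nat_lit 4) (nat_lit 377) (nat_lit 305) (nat_lit 218)) (XT.nd (nat_lit 78) (nat_lit 0) (nat_lit 0) (XT.lf (nat_lit 0) (nat_lit 6693886342522) (nat_lit 152) (nat_lit 28516851004238) (nat_lit 0) (nat_lit 6683433813624) (nat_lit 1) (nat_lit 5) (nat_lit 3) (nat_lit 4) (nat_lit 1) (nat_lit 4) (nat_lit 378) (nat_lit 305) (nat_lit 217)) (XT.lf (nat_lit 0) (nat_lit 7735333091132) (nat_lit 152) (nat_lit 32712240071515) (nat_lit 0) (nat_lit 7724880556022)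 (nat_lit 1) (nat_lit 5) (nat_lit 3) (nat_lit 4) (nat_lit 1) (nat_lit 4) (nat_lit 379) (nat_lit 305) (nat_lit 216)))))) (XT.nd (nat_lit 390) (nat_lit 0) (nat_lit 0) (XT.nd (nat_lit 156) (nat_lit 0) (nat_lit 0) (XT.nd (nat_lit 78) (nat_lit 0) (nat_lit 0) (XT.lf (nat_lit 0) (nat_lit 8932996808780) (nat_lit 152) (nat_lit 37536937590140) (nat_lit 0) (nat_lit 8922544268268) (nat_lit 1) (nat_lit 5) (nat_lit 3) (nat_lit 4) (nat_lit 1) (nat_lit 4) (nat_lit 380) (nat_lit 305) (nat_lit 215)) (XT.lf (nat_lit 0) (nat_lit 10310310046462) (nat_lit 152) (nat_lit 43085339815913) (nat_lit 0) (nat_lit 10299857501254) (nat_lit 1) (nat_lit 5) (nat_lit 3) (nat_lit 4) (nat_lit 1) (nat_lit 4) (nat_lit 381) (nat_lit 305) (nat_lit 214))) (XT.nd (nat_lit 78) (nat_lit 0) (nat_lit 0) (XT.lf (nat_lit 0) (nat_lit 11894220237091) (nat_lit 152) (nat_lit 49466002444555) (nat_lit 0) (nat_lit 11883767687799) (nat_lit 1)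 (nat_lit 5) (nat_lit 3) (nat_lit 4) (nat_lit 1) (nat_lit 4) (nat_lit 382) (nat_lit 305) (nat_lit 213)) (XT.nd (nat_lit 78) (nat_lit 0) (nat_lit 0) (XT.lf (nat_lit 0) (nat_lit 13715716927875) (nat_lit 152) (nat_lit 56803764527497) (nat_lit 0) (nat_lit 13705264375030) (nat_lit 1) (nat_lit 5) (nat_lit 3) (nat_lit 4) (nat_lit 1) (nat_lit 4) (nat_lit 383) (nat_lit 305) (nat_lit 212)) (XT.lf (nat_lit 0) (nat_lit 15810438097545) (nat_lit 152) (nat_lit 65242190975058) (nat_lit 0) (nat_lit 15799985541612) (nat_lit 1) (nat_lit 5) (nat_lit 3) (nat_lit 4) (nat_lit 1) (nat_lit 4) (nat_lit 384) (nat_lit 305) (nat_lit 211))))) (XT.nd (nat_lit 234) (nat_lit 0) (nat_lit 0) (XT.nd (nat_lit 78) (nat_lit 0) (nat_lit 0) (XT.lf (nat_lit 0) (nat_lit 18219367421161) (nat_lit 152) (nat_lit 74946381435123) (nat_lit 0) (nat_lit 18208914862543) (nat_lit 1) (nat_lit 5) (nat_lit 3) (nat_lit 4) (nat_lit 1) (nat_lit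 4) (nat_lit 385) (nat_lit 305) (nat_lit 210)) (XT.nd (nat_lit 78) (nat_lit 0) (nat_lit 0) (XT.lf (nat_lit 0) (nat_lit 20989636124620) (nat_lit 152) (nat_lit 86106200503651) (nat_lit 0) (nat_lit 20979183563667) (nat_lit 1) (nat_lit 5) (nat_lit 3) (nat_lit 4) (nat_lit 1) (nat_lit 4) (nat_lit 386) (nat_lit 305) (nat_lit 209)) (XT.lf (nat_lit 0) (nat_lit 24175445117337) (nat_lit 152) (nat_lit 98939992466765) (nat_lit 0) (nat_lit 24164992554353) (nat_lit 1) (nat_lit 5) (nat_lit 3) (nat_lit 4) (nat_lit 1) (nat_lit 4) (nat_lit 387) (nat_lit 305) (nat_lit 208)))) (XT.nd (nat_lit 40482) (nat_lit 0) (nat_lit 2432) (XT.lf (nat_lit 0) (nat_lit 27839125444822) (nat_lit 152) (nat_lit 113698853254178) (nat_lit 0) (nat_lit 27828672880072) (nat_lit 1) (nat_lit 5) (nat_lit 3) (nat_lit 4) (nat_lit 1) (nat_lit 4) (nat_lit 388) (nat_lit 305) (nat_lit 207)) (XT.nd (nat_lit 78) (nat_lit 0) (nat_lit 0) (XT.lf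 (nat_lit 0) (nat_lit 2183080890) (nat_lit 0) (nat_lit 2183080890) (nat_lit 228) (nat_lit 576606591) (nat_lit 33) (nat_lit 5) (nat_lit 33) (nat_lit 3) (nat_lit 36) (nat_lit 3) (nat_lit 306) (nat_lit 306) (nat_lit 288)) (XT.lf (nat_lit 0) (nat_lit 9842159452) (nat_lit 0) (nat_lit 195286937) (nat_lit 228) (nat_lit 490666482) (nat_lit 33) (nat_lit 5) (nat_lit 33) (nat_lit 3) (nat_lit 36) (nat_lit 3) (nat_lit 307) (nat_lit 306) (nat_lit 287))))))))
noncomputable def xc59 : XT := (XT.nd (nat_lit 1716) (nat_lit 608) (nat_lit 0) (XT.nd (nat_lit 858) (nat_lit 684) (nat_lit 0) (XT.nd (nat_lit 390) (nat_lit 456) (nat_lit 0) (XT.nd (nat_lit 156) (nat_lit 228) (nat_lit 0) (XT.nd (nat_lit 78) (nat_lit 0) (nat_lit 0) (XT.lf (nat_lit 0) (nat_lit 546969014) (nat_lit 304) (nat_lit 6195188872) (nat_lit 380) (nat_lit 4478456934) (nat_lit 29) (nat_lit 5) (nat_lit 33) (nat_lit 5) (nat_lit 34) (nat_lit 5) (nat_lit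 308) (nat_lit 306) (nat_lit 286)) (XT.lf (nat_lit 0) (nat_lit 1630188720) (nat_lit 304) (nat_lit 460324939) (nat_lit 380) (nat_lit 9932123858) (nat_lit 29) (nat_lit 5) (nat_lit 33) (nat_lit 5) (nat_lit 34) (nat_lit 5) (nat_lit 309) (nat_lit 306) (nat_lit 285))) (XT.nd (nat_lit 78) (nat_lit 304) (nat_lit 0) (XT.lf (nat_lit 0) (nat_lit 3207458398) (nat_lit 304) (nat_lit 6413333262) (nat_lit 76) (nat_lit 3274590194) (nat_lit 30) (nat_lit 5) (nat_lit 34) (nat_lit 5) (nat_lit 31) (nat_lit 5) (nat_lit 310) (nat_lit 306) (nat_lit 284)) (XT.nd (nat_lit 78) (nat_lit 0) (nat_lit 0) (XT.lf (nat_lit 0) (nat_lit 480441604) (nat_lit 304) (nat_lit 4602477112) (nat_lit 380) (nat_lit 8807012393) (nat_lit 26) (nat_lit 5) (nat_lit 30) (nat_lit 5) (nat_lit 31) (nat_lit 5) (nat_lit 311) (nat_lit 306) (nat_lit 283)) (XT.lf (nat_lit 0) (nat_lit 7563584461) (nat_lit 380) (nat_lit 6009853219) (nat_lit 76) (nat_lit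 1411758022) (nat_lit 26) (nat_lit 5) (nat_lit 31) (nat_lit 5) (nat_lit 27) (nat_lit 5) (nat_lit 312) (nat_lit 306) (nat_lit 282))))) (XT.nd (nat_lit 234) (nat_lit 152) (nat_lit 0) (XT.nd (nat_lit 78) (nat_lit 152) (nat_lit 0) (XT.lf (nat_lit 0) (nat_lit 2416402378) (nat_lit 152) (nat_lit 8253337803) (nat_lit 228) (nat_lit 5537102078) (nat_lit 24) (nat_lit 5) (nat_lit 26) (nat_lit 5) (nat_lit 27) (nat_lit 5) (nat_lit 313) (nat_lit 306) (nat_lit 281)) (XT.nd (nat_lit 78) (nat_lit 152) (nat_lit 0) (XT.lf (nat_lit 0) (nat_lit 12706340343) (nat_lit 152) (nat_lit 1789249973) (nat_lit 228) (nat_lit 3078167466) (nat_lit 24) (nat_lit 5) (nat_lit 26) (nat_lit 5) (nat_lit 27) (nat_lit 5) (nat_lit 314) (nat_lit 306) (nat_lit 280)) (XT.lf (nat_lit 0) (nat_lit 203345895) (nat_lit 152) (nat_lit 13508971224) (nat_lit 76) (nat_lit 5370297991) (nat_lit 22) (nat_lit 5) (nat_lit 24) (nat_lit 5) (nat_lit 23)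 (nat_lit 5) (nat_lit 315) (nat_lit 306) (nat_lit 279)))) (XT.nd (nat_lit 78) (nat_lit 152) (nat_lit 0) (XT.lf (nat_lit 0) (nat_lit 3962267862) (nat_lit 152) (nat_lit 2970604325) (nat_lit 76) (nat_lit 13817950468) (nat_lit 22) (nat_lit 5) (nat_lit 24) (nat_lit 5) (nat_lit 23) (nat_lit 5) (nat_lit 316) (nat_lit 306) (nat_lit 278)) (XT.nd (nat_lit 78) (nat_lit 0) (nat_lit 0) (XT.lf (nat_lit 0) (nat_lit 8707758577) (nat_lit 228) (nat_lit 12697637138) (nat_lit 76) (nat_lit 1200506160) (nat_lit 20) (nat_lit 5) (nat_lit 23) (nat_lit 5) (nat_lit 21) (nat_lit 4) (nat_lit 317) (nat_lit 306) (nat_lit 277)) (XT.lf (nat_lit 0) (nat_lit 14615565187) (nat_lit 228) (nat_lit 68290205) (nat_lit 76) (nat_lit 9987857317) (nat_lit 20) (nat_lit 5) (nat_lit 23) (nat_lit 5) (nat_lit 21) (nat_lit 4) (nat_lit 318) (nat_lit 306) (nat_lit 276)))))) (XT.nd (nat_lit 390) (nat_lit 380) (nat_lit 0) (XT.nd (nat_lit 156)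 (nat_lit 76) (nat_lit 0) (XT.nd (nat_lit 78) (nat_lit 152) (nat_lit 0) (XT.lf (nat_lit 0) (nat_lit 15803597412) (nat_lit 76) (nat_lit 6223538266) (nat_lit 152) (nat_lit 4927658447) (nat_lit 19) (nat_lit 5) (nat_lit 20) (nat_lit 5) (nat_lit 21) (nat_lit 4) (nat_lit 319) (nat_lit 306) (nat_lit 275)) (XT.lf (nat_lit 0) (nat_lit 1206535528) (nat_lit 152) (nat_lit 24892485384) (nat_lit 76) (nat_lit 3426900465) (nat_lit 17) (nat_lit 5) (nat_lit 19) (nat_lit 5) (nat_lit 18) (nat_lit 4) (nat_lit 320) (nat_lit 306) (nat_lit 274))) (XT.nd (nat_lit 78) (nat_lit 76) (nat_lit 0) (XT.lf (nat_lit 0) (nat_lit 8628760763) (nat_lit 152) (nat_lit 8976117379) (nat_lit 76) (nat_lit 14711806851) (nat_lit 17) (nat_lit 5) (nat_lit 19) (nat_lit 5) (nat_lit 18) (nat_lit 4) (nat_lit 321) (nat_lit 306) (nat_lit 273)) (XT.nd (nat_lit 78) (nat_lit 0) (nat_lit 0) (XT.lf (nat_lit 0) (nat_lit 10180978632) (nat_lit 76)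 (nat_lit 7374810103) (nat_lit 152) (nat_lit 17911575736) (nat_lit 16) (nat_lit 5) (nat_lit 17) (nat_lit 5) (nat_lit 18) (nat_lit 4) (nat_lit 322) (nat_lit 306) (nat_lit 272)) (XT.lf (nat_lit 0) (nat_lit 28465986604) (nat_lit 152) (nat_lit 6057973091) (nat_lit 0) (nat_lit 4470087661) (nat_lit 16) (nat_lit 5) (nat_lit 18) (nat_lit 4) (nat_lit 16) (nat_lit 4) (nat_lit 323) (nat_lit 306) (nat_lit 271))))) (XT.nd (nat_lit 234) (nat_lit 152) (nat_lit 0) (XT.nd (nat_lit 78) (nat_lit 152) (nat_lit 0) (XT.lf (nat_lit 0) (nat_lit 17186611781) (nat_lit 76) (nat_lit 24863549510) (nat_lit 76) (nat_lit 843970692) (nat_lit 15) (nat_lit 4) (nat_lit 16) (nat_lit 5) (nat_lit 16) (nat_lit 4) (nat_lit 324) (nat_lit 306) (nat_lit 270)) (XT.nd (nat_lit 78) (nat_lit 76) (nat_lit 0) (XT.lf (nat_lit 0) (nat_lit 9683056096) (nat_lit 152) (nat_lit 3221599407) (nat_lit 76) (nat_lit 34364658148) (nat_lit 14) (nat_lit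 5) (nat_lit 16) (nat_lit 5) (nat_lit 15) (nat_lit 4) (nat_lit 325) (nat_lit 306) (nat_lit 269)) (XT.lf (nat_lit 0) (nat_lit 22791231028) (nat_lit 152) (nat_lit 27469083389) (nat_lit 0) (nat_lit 1871165462) (nat_lit 13) (nat_lit 5) (nat_lit 15) (nat_lit 4) (nat_lit 13) (nat_lit 4) (nat_lit 326) (nat_lit 306) (nat_lit 268)))) (XT.nd (nat_lit 78) (nat_lit 152) (nat_lit 0) (XT.lf (nat_lit 0) (nat_lit 38635187843) (nat_lit 152) (nat_lit 1270775990) (nat_lit 0) (nat_lit 17701583232) (nat_lit 13) (nat_lit 5) (nat_lit 15) (nat_lit 4) (nat_lit 13) (nat_lit 4) (nat_lit 327) (nat_lit 306) (nat_lit 267)) (XT.nd (nat_lit 78) (nat_lit 76) (nat_lit 0) (XT.lf (nat_lit 0) (nat_lit 31637716905) (nat_lit 76) (nat_lit 26509486721) (nat_lit 76) (nat_lit 5564109027) (nat_lit 12) (nat_lit 4) (nat_lit 13) (nat_lit 5) (nat_lit 13) (nat_lit 4) (nat_lit 328) (nat_lit 306) (nat_lit 266)) (XT.lf (nat_lit 0) (nat_lit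 9029140335) (nat_lit 152) (nat_lit 1542963436) (nat_lit 76) (nat_lit 60089658596) (nat_lit 11) (nat_lit 5) (nat_lit 13) (nat_lit 5) (nat_lit 12) (nat_lit 4) (nat_lit 329) (nat_lit 306) (nat_lit 265))))))) (XT.nd (nat_lit 858) (nat_lit 76) (nat_lit 0) (XT.nd (nat_lit 390) (nat_lit 228) (nat_lit 0) (XT.nd (nat_lit 156) (nat_lit 228) (nat_lit 0) (XT.nd (nat_lit 78) (nat_lit 0) (nat_lit 0) (XT.lf (nat_lit 0) (nat_lit 27143135254) (nat_lit 152) (nat_lit 42273573251) (nat_lit 0) (nat_lit 8913120211) (nat_lit 10) (nat_lit 5) (nat_lit 12) (nat_lit 4) (nat_lit 10) (nat_lit 4) (nat_lit 330) (nat_lit 306) (nat_lit 264)) (XT.lf (nat_lit 0) (nat_lit 48546350784) (nat_lit 152) (nat_lit 8206336243) (nat_lit 0) (nat_lit 30309604442) (nat_lit 10) (nat_lit 5) (nat_lit 12) (nat_lit 4) (nat_lit 10) (nat_lit 4) (nat_lit 331) (nat_lit 306) (nat_lit 263))) (XT.nd (nat_lit 78) (nat_lit 152) (nat_lit 0) (XT.lf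 (nat_lit 0) (nat_lit 33967322235) (nat_lit 76) (nat_lit 40585494909) (nat_lit 76) (nat_lit 22342895264) (nat_lit 9) (nat_lit 4) (nat_lit 10) (nat_lit 5) (nat_lit 10) (nat_lit 4) (nat_lit 332) (nat_lit 306) (nat_lit 262)) (XT.nd (nat_lit 78) (nat_lit 152) (nat_lit 0) (XT.lf (nat_lit 0) (nat_lit 83362897508) (nat_lit 76) (nat_lit 21513276915) (nat_lit 76) (nat_lit 3265587442) (nat_lit 9) (nat_lit 4) (nat_lit 10) (nat_lit 5) (nat_lit 10) (nat_lit 4) (nat_lit 333) (nat_lit 306) (nat_lit 261)) (XT.lf (nat_lit 0) (nat_lit 17923921488) (nat_lit 152) (nat_lit 100845344893) (nat_lit 0) (nat_lit 2052516782) (nat_lit 7) (nat_lit 5) (nat_lit 9) (nat_lit 4) (nat_lit 7) (nat_lit 4) (nat_lit 334) (nat_lit 306) (nat_lit 260))))) (XT.nd (nat_lit 234) (nat_lit 152) (nat_lit 0) (XT.nd (nat_lit 78) (nat_lit 76) (nat_lit 0) (XT.lf (nat_lit 0) (nat_lit 44327124971) (nat_lit 152) (nat_lit 62245545432) (nat_lit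 0) (nat_lit 28452373621) (nat_lit 7) (nat_lit 5) (nat_lit 9) (nat_lit 4) (nat_lit 7) (nat_lit 4) (nat_lit 335) (nat_lit 306) (nat_lit 259)) (XT.nd (nat_lit 78) (nat_lit 76) (nat_lit 0) (XT.lf (nat_lit 0) (nat_lit 74680567758) (nat_lit 152) (nat_lit 17876858170) (nat_lit 0) (nat_lit 58802906281) (nat_lit 7) (nat_lit 5) (nat_lit 9) (nat_lit 4) (nat_lit 7) (nat_lit 4) (nat_lit 336) (nat_lit 306) (nat_lit 258)) (XT.lf (nat_lit 0) (nat_lit 36366387167) (nat_lit 76) (nat_lit 74717588928) (nat_lit 76) (nat_lit 58837396908) (nat_lit 6) (nat_lit 4) (nat_lit 7) (nat_lit 5) (nat_lit 7) (nat_lit 4) (nat_lit 337) (nat_lit 306) (nat_lit 257)))) (XT.nd (nat_lit 78) (nat_lit 152) (nat_lit 0) (XT.lf (nat_lit 0) (nat_lit 100737735395) (nat_lit 76) (nat_lit 53136163990) (nat_lit 76) (nat_lit 37253771496) (nat_lit 6) (nat_lit 4) (nat_lit 7) (nat_lit 5) (nat_lit 7) (nat_lit 4) (nat_lit 338) (nat_lit 306) (nat_lit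 256)) (XT.nd (nat_lit 78) (nat_lit 152) (nat_lit 0) (XT.lf (nat_lit 0) (nat_lit 174749569343) (nat_lit 76) (nat_lit 28325377975) (nat_lit 76) (nat_lit 12441072026) (nat_lit 6) (nat_lit 4) (nat_lit 7) (nat_lit 5) (nat_lit 7) (nat_lit 4) (nat_lit 339) (nat_lit 306) (nat_lit 255)) (XT.lf (nat_lit 0) (nat_lit 15437896444) (nat_lit 152) (nat_lit 226284186920) (nat_lit 0) (nat_lit 1624009641) (nat_lit 4) (nat_lit 5) (nat_lit 6) (nat_lit 4) (nat_lit 4) (nat_lit 4) (nat_lit 340) (nat_lit 306) (nat_lit 254)))))) (XT.nd (nat_lit 468) (nat_lit 0) (nat_lit 0) (XT.nd (nat_lit 234) (nat_lit 76) (nat_lit 0) (XT.nd (nat_lit 78) (nat_lit 0) (nat_lit 0) (XT.lf (nat_lit 0) (nat_lit 49799589580) (nat_lit 152) (nat_lit 188941588328) (nat_lit 0) (nat_lit 35984444649) (nat_lit 4) (nat_lit 5) (nat_lit 6) (nat_lit 4) (nat_lit 4) (nat_lit 4) (nat_lit 341) (nat_lit 306) (nat_lit 253)) (XT.nd (nat_lit 78) (nat_lit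 0) (nat_lit 0) (XT.lf (nat_lit 0) (nat_lit 89309738618) (nat_lit 152) (nat_lit 146009713727) (nat_lit 0) (nat_lit 75493499664) (nat_lit 4) (nat_lit 5) (nat_lit 6) (nat_lit 4) (nat_lit 4) (nat_lit 4) (nat_lit 342) (nat_lit 306) (nat_lit 252)) (XT.lf (nat_lit 0) (nat_lit 134741368214) (nat_lit 152) (nat_lit 96648591657) (nat_lit 0) (nat_lit 120924177934) (nat_lit 4) (nat_lit 5) (nat_lit 6) (nat_lit 4) (nat_lit 4) (nat_lit 4) (nat_lit 343) (nat_lit 306) (nat_lit 251)))) (XT.nd (nat_lit 78) (nat_lit 76) (nat_lit 0) (XT.lf (nat_lit 0) (nat_lit 186983358077) (nat_lit 152) (nat_lit 39892461036) (nat_lit 0) (nat_lit 173165340557) (nat_lit 4) (nat_lit 5) (nat_lit 6) (nat_lit 4) (nat_lit 4) (nat_lit 4) (nat_lit 344) (nat_lit 306) (nat_lit 250)) (XT.nd (nat_lit 78) (nat_lit 0) (nat_lit 0) (XT.lf (nat_lit 0) (nat_lit 27848379487) (nat_lit 76) (nat_lit 220362596615) (nat_lit 76) (nat_lit 206543859757)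 (nat_lit 3) (nat_lit 4) (nat_lit 4) (nat_lit 5) (nat_lit 4) (nat_lit 4) (nat_lit 345) (nat_lit 306) (nat_lit 249)) (XT.lf (nat_lit 0) (nat_lit 110226111761) (nat_lit 76) (nat_lit 210478282920) (nat_lit 76) (nat_lit 196658920550) (nat_lit 3) (nat_lit 4) (nat_lit 4) (nat_lit 5) (nat_lit 4) (nat_lit 4) (nat_lit 346) (nat_lit 306) (nat_lit 248))))) (XT.nd (nat_lit 234) (nat_lit 0) (nat_lit 0) (XT.nd (nat_lit 78) (nat_lit 0) (nat_lit 0) (XT.lf (nat_lit 0) (nat_lit 204953892604) (nat_lit 76) (nat_lit 199114777019) (nat_lit 76) (nat_lit 185294870726) (nat_lit 3) (nat_lit 4) (nat_lit 4) (nat_lit 5) (nat_lit 4) (nat_lit 4) (nat_lit 347) (nat_lit 306) (nat_lit 247)) (XT.nd (nat_lit 78) (nat_lit 0) (nat_lit 0) (XT.lf (nat_lit 0) (nat_lit 313885091643) (nat_lit 76) (nat_lit 186049749449) (nat_lit 76) (nat_lit 172229370178) (nat_lit 3) (nat_lit 4) (nat_lit 4) (nat_lit 5) (nat_lit 4) (nat_lit 4) (nat_lit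 348) (nat_lit 306) (nat_lit 246)) (XT.lf (nat_lit 0) (nat_lit 439150971468) (nat_lit 76) (nat_lit 171027580103) (nat_lit 76) (nat_lit 157206789549) (nat_lit 3) (nat_lit 4) (nat_lit 4) (nat_lit 5) (nat_lit 4) (nat_lit 4) (nat_lit 349) (nat_lit 306) (nat_lit 245)))) (XT.nd (nat_lit 78) (nat_lit 0) (nat_lit 0) (XT.lf (nat_lit 0) (nat_lit 583202386248) (nat_lit 76) (nat_lit 153754356975) (nat_lit 76) (nat_lit 139933208782) (nat_lit 3) (nat_lit 4) (nat_lit 4) (nat_lit 5) (nat_lit 4) (nat_lit 4) (nat_lit 350) (nat_lit 306) (nat_lit 244)) (XT.nd (nat_lit 78) (nat_lit 0) (nat_lit 0) (XT.lf (nat_lit 0) (nat_lit 748857733230) (nat_lit 76) (nat_lit 133892125697) (nat_lit 76) (nat_lit 120070666514) (nat_lit 3) (nat_lit 4) (nat_lit 4) (nat_lit 5) (nat_lit 4) (nat_lit 4) (nat_lit 351) (nat_lit 306) (nat_lit 243)) (XT.lf (nat_lit 0) (nat_lit 939358095289) (nat_lit 76) (nat_lit 111052277398) (nat_lit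 76) (nat_lit 97230547789) (nat_lit 3) (nat_lit 4) (nat_lit 4) (nat_lit 5) (nat_lit 4) (nat_lit 4) (nat_lit 352) (nat_lit 306) (nat_lit 242))))))))
noncomputable def xc60 : XT := (XT.nd (nat_lit 1716) (nat_lit 0) (nat_lit 0) (XT.nd (nat_lit 858) (nat_lit 0) (nat_lit 0) (XT.nd (nat_lit 390) (nat_lit 0) (nat_lit 0) (XT.nd (nat_lit 156) (nat_lit 152) (nat_lit 0) (XT.nd (nat_lit 78) (nat_lit 0) (nat_lit 0) (XT.lf (nat_lit 0) (nat_lit 1158430653422) (nat_lit 76) (nat_lit 84787945479) (nat_lit 76) (nat_lit 70965980717) (nat_lit 3) (nat_lit 4) (nat_lit 4) (nat_lit 5) (nat_lit 4) (nat_lit 4) (nat_lit 353) (nat_lit 306) (nat_lit 241)) (XT.lf (nat_lit 0) (nat_lit 1410361609853) (nat_lit 76) (nat_lit 54585262578) (nat_lit 76) (nat_lit 40763093336) (nat_lit 3) (nat_lit 4) (nat_lit 4) (nat_lit 5) (nat_lit 4) (nat_lit 4) (nat_lit 354) (nat_lit 306) (nat_lit 240))) (XT.nd (nat_lit 78) (nat_lit 152) (nat_lit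 0) (XT.lf (nat_lit 0) (nat_lit 1700080048513) (nat_lit 76) (nat_lit 19853306638) (nat_lit 76) (nat_lit 6030959586) (nat_lit 3) (nat_lit 4) (nat_lit 4) (nat_lit 5) (nat_lit 4) (nat_lit 4) (nat_lit 355) (nat_lit 306) (nat_lit 239)) (XT.nd (nat_lit 78) (nat_lit 0) (nat_lit 0) (XT.lf (nat_lit 0) (nat_lit 34294147704) (nat_lit 152) (nat_lit 1921967138412) (nat_lit 0) (nat_lit 22274581035) (nat_lit 1) (nat_lit 5) (nat_lit 3) (nat_lit 4) (nat_lit 1) (nat_lit 4) (nat_lit 356) (nat_lit 306) (nat_lit 238)) (XT.lf (nat_lit 0) (nat_lit 82412496762) (nat_lit 152) (nat_lit 2115790474622) (nat_lit 0) (nat_lit 70392813180) (nat_lit 1) (nat_lit 5) (nat_lit 3) (nat_lit 4) (nat_lit 1) (nat_lit 4) (nat_lit 357) (nat_lit 306) (nat_lit 237))))) (XT.nd (nat_lit 234) (nat_lit 0) (nat_lit 0) (XT.nd (nat_lit 78) (nat_lit 0) (nat_lit 0) (XT.lf (nat_lit 0) (nat_lit 137747784077) (nat_lit 152) (nat_lit 2338689028865)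 (nat_lit 0) (nat_lit 125727998833) (nat_lit 1) (nat_lit 5) (nat_lit 3) (nat_lit 4) (nat_lit 1) (nat_lit 4) (nat_lit 358) (nat_lit 306) (nat_lit 236)) (XT.nd (nat_lit 78) (nat_lit 0) (nat_lit 0) (XT.lf (nat_lit 0) (nat_lit 201382656577) (nat_lit 152) (nat_lit 2595023859811) (nat_lit 0) (nat_lit 189362782929) (nat_lit 1) (nat_lit 5) (nat_lit 3) (nat_lit 4) (nat_lit 1) (nat_lit 4) (nat_lit 359) (nat_lit 306) (nat_lit 235)) (XT.lf (nat_lit 0) (nat_lit 274562144374) (nat_lit 152) (nat_lit 2889810214151) (nat_lit 0) (nat_lit 262542193854) (nat_lit 1) (nat_lit 5) (nat_lit 3) (nat_lit 4) (nat_lit 1) (nat_lit 4) (nat_lit 360) (nat_lit 306) (nat_lit 234)))) (XT.nd (nat_lit 78) (nat_lit 0) (nat_lit 0) (XT.lf (nat_lit 0) (nat_lit 358718020056) (nat_lit 152) (nat_lit 3228815650992) (nat_lit 0) (nat_lit 346698002691) (nat_lit 1) (nat_lit 5) (nat_lit 3) (nat_lit 4) (nat_lit 1) (nat_lit 4) (nat_lit 361)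 (nat_lit 306) (nat_lit 233)) (XT.nd (nat_lit 78) (nat_lit 0) (nat_lit 0) (XT.lf (nat_lit 0) (nat_lit 455496811625) (nat_lit 152) (nat_lit 3618672885404) (nat_lit 0) (nat_lit 443476736134) (nat_lit 1) (nat_lit 5) (nat_lit 3) (nat_lit 4) (nat_lit 1) (nat_lit 4) (nat_lit 362) (nat_lit 306) (nat_lit 232)) (XT.lf (nat_lit 0) (nat_lit 566792017178) (nat_lit 152) (nat_lit 4067009558929) (nat_lit 0) (nat_lit 554771891143) (nat_lit 1) (nat_lit 5) (nat_lit 3) (nat_lit 4) (nat_lit 1) (nat_lit 4) (nat_lit 363) (nat_lit 306) (nat_lit 231)))))) (XT.nd (nat_lit 390) (nat_lit 0) (nat_lit 0) (XT.nd (nat_lit 156) (nat_lit 0) (nat_lit 0) (XT.nd (nat_lit 78) (nat_lit 0) (nat_lit 0) (XT.lf (nat_lit 0) (nat_lit 694781151606) (nat_lit 152) (nat_lit 4582597476048) (nat_lit 0) (nat_lit 682760981619) (nat_lit 1) (nat_lit 5) (nat_lit 3) (nat_lit 4) (nat_lit 1) (nat_lit 4) (nat_lit 364) (nat_lit 306) (nat_lit 230))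 (XT.lf (nat_lit 0) (nat_lit 841968350147) (nat_lit 152) (nat_lit 5175524226446) (nat_lit 0) (nat_lit 829948141941) (nat_lit 1) (nat_lit 5) (nat_lit 3) (nat_lit 4) (nat_lit 1) (nat_lit 4) (nat_lit 365) (nat_lit 306) (nat_lit 229))) (XT.nd (nat_lit 78) (nat_lit 0) (nat_lit 0) (XT.lf (nat_lit 0) (nat_lit 1011233362338) (nat_lit 152) (nat_lit 5857390550889) (nat_lit 0) (nat_lit 999213120898) (nat_lit 1) (nat_lit 5) (nat_lit 3) (nat_lit 4) (nat_lit 1) (nat_lit 4) (nat_lit 366) (nat_lit 306) (nat_lit 228)) (XT.nd (nat_lit 78) (nat_lit 0) (nat_lit 0) (XT.lf (nat_lit 0) (nat_lit 1205887894940) (nat_lit 152) (nat_lit 6641537312249) (nat_lit 0) (nat_lit 1193867624601) (nat_lit 1) (nat_lit 5) (nat_lit 3) (nat_lit 4) (nat_lit 1) (nat_lit 4) (nat_lit 367) (nat_lit 306) (nat_lit 227)) (XT.lf (nat_lit 0) (nat_lit 1429740406199) (nat_lit 152) (nat_lit 7543306512377) (nat_lit 0) (nat_lit 1417720110730)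 (nat_lit 1) (nat_lit 5) (nat_lit 3) (nat_lit 4) (nat_lit 1) (nat_lit 4) (nat_lit 368) (nat_lit 306) (nat_lit 226))))) (XT.nd (nat_lit 234) (nat_lit 0) (nat_lit 0) (XT.nd (nat_lit 78) (nat_lit 0) (nat_lit 0) (XT.lf (nat_lit 0) (nat_lit 1687170619161) (nat_lit 152) (nat_lit 8580341461711) (nat_lit 0) (nat_lit 1675150301840) (nat_lit 1) (nat_lit 5) (nat_lit 3) (nat_lit 4) (nat_lit 1) (nat_lit 4) (nat_lit 369) (nat_lit 306) (nat_lit 225)) (XT.nd (nat_lit 78) (nat_lit 0) (nat_lit 0) (XT.lf (nat_lit 0) (nat_lit 1983215211906) (nat_lit 152) (nat_lit 9772931974477) (nat_lit 0) (nat_lit 1971194875584) (nat_lit 1) (nat_lit 5) (nat_lit 3) (nat_lit 4) (nat_lit 1) (nat_lit 4) (nat_lit 370) (nat_lit 306) (nat_lit 224)) (XT.lf (nat_lit 0) (nat_lit 2323666361248) (nat_lit 152) (nat_lit 11144411343316) (nat_lit 0) (nat_lit 2311646008403) (nat_lit 1) (nat_lit 5) (nat_lit 3) (nat_lit 4) (nat_lit 1) (nat_lit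 4) (nat_lit 371) (nat_lit 306) (nat_lit 223)))) (XT.nd (nat_lit 78) (nat_lit 0) (nat_lit 0) (XT.lf (nat_lit 0) (nat_lit 2715185067936) (nat_lit 152) (nat_lit 12721612860227) (nat_lit 0) (nat_lit 2703164700723) (nat_lit 1) (nat_lit 5) (nat_lit 3) (nat_lit 4) (nat_lit 1) (nat_lit 4) (nat_lit 372) (nat_lit 306) (nat_lit 222)) (XT.nd (nat_lit 78) (nat_lit 0) (nat_lit 0) (XT.lf (nat_lit 0) (nat_lit 3165431480579) (nat_lit 152) (nat_lit 14535394815759) (nat_lit 0) (nat_lit 3153411100872) (nat_lit 1) (nat_lit 5) (nat_lit 3) (nat_lit 4) (nat_lit 1) (nat_lit 4) (nat_lit 373) (nat_lit 306) (nat_lit 221)) (XT.lf (nat_lit 0) (nat_lit 3683214768120) (nat_lit 152) (nat_lit 16621244248171) (nat_lit 0) (nat_lit 3671194377549) (nat_lit 1) (nat_lit 5) (nat_lit 3) (nat_lit 4) (nat_lit 1) (nat_lit 4) (nat_lit 374) (nat_lit 306) (nat_lit 220))))))) (XT.nd (nat_lit 858) (nat_lit 0) (nat_lit 0) (XT.nd (nat_lit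 390) (nat_lit 0) (nat_lit 0) (XT.nd (nat_lit 156) (nat_lit 0) (nat_lit 0) (XT.nd (nat_lit 78) (nat_lit 0) (nat_lit 0) (XT.lf (nat_lit 0) (nat_lit 4278665473141) (nat_lit 152) (nat_lit 19019971255055) (nat_lit 0) (nat_lit 4266645073122) (nat_lit 1) (nat_lit 5) (nat_lit 3) (nat_lit 4) (nat_lit 1) (nat_lit 4) (nat_lit 375) (nat_lit 306) (nat_lit 219)) (XT.lf (nat_lit 0) (nat_lit 4963433718131) (nat_lit 152) (nat_lit 21778507451762) (nat_lit 0) (nat_lit 4951413309898) (nat_lit 1) (nat_lit 5) (nat_lit 3) (nat_lit 4) (nat_lit 1) (nat_lit 4) (nat_lit 376) (nat_lit 306) (nat_lit 218))) (XT.nd (nat_lit 78) (nat_lit 0) (nat_lit 0) (XT.lf (nat_lit 0) (nat_lit 5750917142667) (nat_lit 152) (nat_lit 24950824198663) (nat_lit 0) (nat_lit 5738896727290) (nat_lit 1) (nat_lit 5) (nat_lit 3) (nat_lit 4) (nat_lit 1) (nat_lit 4) (nat_lit 377) (nat_lit 306) (nat_lit 217)) (XT.nd (nat_lit 78) (nat_lit 0) (nat_lit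 0) (XT.lf (nat_lit 0) (nat_lit 6656523031141) (nat_lit 152) (nat_lit 28598988562545) (nat_lit 0) (nat_lit 6644502609553) (nat_lit 1) (nat_lit 5) (nat_lit 3) (nat_lit 4) (nat_lit 1) (nat_lit 4) (nat_lit 378) (nat_lit 306) (nat_lit 216)) (XT.lf (nat_lit 0) (nat_lit 7697969759633) (nat_lit 152) (nat_lit 32794377672266) (nat_lit 0) (nat_lit 7685949332643) (nat_lit 1) (nat_lit 5) (nat_lit 3) (nat_lit 4) (nat_lit 1) (nat_lit 4) (nat_lit 379) (nat_lit 306) (nat_lit 215))))) (XT.nd (nat_lit 234) (nat_lit 0) (nat_lit 0) (XT.nd (nat_lit 78) (nat_lit 0) (nat_lit 0) (XT.lf (nat_lit 0) (nat_lit 8895633459786) (nat_lit 152) (nat_lit 37619075227800) (nat_lit 0) (nat_lit 8883613028100) (nat_lit 1) (nat_lit 5) (nat_lit 3) (nat_lit 4) (nat_lit 1) (nat_lit 4) (nat_lit 380) (nat_lit 306) (nat_lit 214)) (XT.nd (nat_lit 78) (nat_lit 0) (nat_lit 0) (XT.lf (nat_lit 0) (nat_lit 10272946682257) (nat_lit 152) (nat_lit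 43167477485668) (nat_lit 0) (nat_lit 10260926246486) (nat_lit 1) (nat_lit 5) (nat_lit 3) (nat_lit 4) (nat_lit 1) (nat_lit 4) (nat_lit 381) (nat_lit 306) (nat_lit 213)) (XT.lf (nat_lit 0) (nat_lit 11856856859658) (nat_lit 152) (nat_lit 49548140142219) (nat_lit 0) (nat_lit 11844836420336) (nat_lit 1) (nat_lit 5) (nat_lit 3) (nat_lit 4) (nat_lit 1) (nat_lit 4) (nat_lit 382) (nat_lit 306) (nat_lit 212)))) (XT.nd (nat_lit 78) (nat_lit 0) (nat_lit 0) (XT.lf (nat_lit 0) (nat_lit 13678353538939) (nat_lit 152) (nat_lit 56885902249430) (nat_lit 0) (nat_lit 13666333096528) (nat_lit 1) (nat_lit 5) (nat_lit 3) (nat_lit 4) (nat_lit 1) (nat_lit 4) (nat_lit 383) (nat_lit 306) (nat_lit 211)) (XT.nd (nat_lit 78) (nat_lit 0) (nat_lit 0) (XT.lf (nat_lit 0) (nat_lit 15773074698607) (nat_lit 152) (nat_lit 65324328718093) (nat_lit 0) (nat_lit 15761054253511) (nat_lit 1) (nat_lit 5) (nat_lit 3) (nat_lit 4) (nat_lit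 1) (nat_lit 4) (nat_lit 384) (nat_lit 306) (nat_lit 210)) (XT.lf (nat_lit 0) (nat_lit 18182004013526) (nat_lit 152) (nat_lit 75028519196508) (nat_lit 0) (nat_lit 18169983566094) (nat_lit 1) (nat_lit 5) (nat_lit 3) (nat_lit 4) (nat_lit 1) (nat_lit 4) (nat_lit 385) (nat_lit 306) (nat_lit 209)))))) (XT.nd (nat_lit 40872) (nat_lit 0) (nat_lit 1748) (XT.nd (nat_lit 156) (nat_lit 0) (nat_lit 0) (XT.nd (nat_lit 78) (nat_lit 0) (nat_lit 0) (XT.lf (nat_lit 0) (nat_lit 20952272709421) (nat_lit 152) (nat_lit 86188338280993) (nat_lit 0) (nat_lit 20940252259959) (nat_lit 1) (nat_lit 5) (nat_lit 3) (nat_lit 4) (nat_lit 1) (nat_lit 4) (nat_lit 386) (nat_lit 306) (nat_lit 208)) (XT.lf (nat_lit 0) (nat_lit 24138081695562) (nat_lit 152) (nat_lit 99022130257982) (nat_lit 0) (nat_lit 24126061244334) (nat_lit 1) (nat_lit 5) (nat_lit 3) (nat_lit 4) (nat_lit 1) (nat_lit 4) (nat_lit 387) (nat_lit 306) (nat_lit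 207))) (XT.nd (nat_lit 40560) (nat_lit 0) (nat_lit 2052) (XT.lf (nat_lit 0) (nat_lit 27801762017328) (nat_lit 152) (nat_lit 113780991057461) (nat_lit 0) (nat_lit 27789741564565) (nat_lit 1) (nat_lit 5) (nat_lit 3) (nat_lit 4) (nat_lit 1) (nat_lit 4) (nat_lit 388) (nat_lit 306) (nat_lit 206)) (XT.nd (nat_lit 78) (nat_lit 0) (nat_lit 0) (XT.lf (nat_lit 0) (nat_lit 50034336) (nat_lit 380) (nat_lit 2769530868) (nat_lit 380) (nat_lit 2769530868) (nat_lit 28) (nat_lit 3) (nat_lit 33) (nat_lit 3) (nat_lit 33) (nat_lit 5) (nat_lit 307) (nat_lit 307) (nat_lit 286)) (XT.lf (nat_lit 0) (nat_lit 623530856) (nat_lit 380) (nat_lit 110433921) (nat_lit 380) (nat_lit 11204337313) (nat_lit 28) (nat_lit 3) (nat_lit 33) (nat_lit 3) (nat_lit 33) (nat_lit 5) (nat_lit 308) (nat_lit 307) (nat_lit 285))))) (XT.nd (nat_lit 234) (nat_lit 380) (nat_lit 0) (XT.nd (nat_lit 78) (nat_lit 0) (nat_lit 0) (XT.lf (nat_lit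 0) (nat_lit 1627949348) (nat_lit 304) (nat_lit 6329141803) (nat_lit 380) (nat_lit 4795125115) (nat_lit 29) (nat_lit 5) (nat_lit 33) (nat_lit 5) (nat_lit 34) (nat_lit 5) (nat_lit 309) (nat_lit 307) (nat_lit 284)) (XT.nd (nat_lit 78) (nat_lit 0) (nat_lit 76) (XT.lf (nat_lit 76) (nat_lit 178066319) (nat_lit 0) (nat_lit 2572663170) (nat_lit 380) (nat_lit 10942466542) (nat_lit 30) (nat_lit 5) (nat_lit 29) (nat_lit 5) (nat_lit 34) (nat_lit 5) (nat_lit 310) (nat_lit 307) (nat_lit 283)) (XT.lf (nat_lit 0) (nat_lit 4466177597) (nat_lit 304) (nat_lit 6591459233) (nat_lit 76) (nat_lit 3654164197) (nat_lit 30) (nat_lit 5) (nat_lit 34) (nat_lit 5) (nat_lit 31) (nat_lit 5) (nat_lit 311) (nat_lit 307) (nat_lit 282)))) (XT.nd (nat_lit 78) (nat_lit 152) (nat_lit 0) (XT.lf (nat_lit 0) (nat_lit 1300751225) (nat_lit 304) (nat_lit 5251762756) (nat_lit 380) (nat_lit 9313747924) (nat_lit 26) (nat_lit 5) (nat_lit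 30) (nat_lit 5) (nat_lit 31) (nat_lit 5) (nat_lit 312) (nat_lit 307) (nat_lit 281)) (XT.nd (nat_lit 78) (nat_lit 152) (nat_lit 0) (XT.lf (nat_lit 0) (nat_lit 9314521033) (nat_lit 380) (nat_lit 6168982533) (nat_lit 76) (nat_lit 1656067960) (nat_lit 26) (nat_lit 5) (nat_lit 31) (nat_lit 5) (nat_lit 27) (nat_lit 5) (nat_lit 313) (nat_lit 307) (nat_lit 280)) (XT.lf (nat_lit 0) (nat_lit 3487468282) (nat_lit 152) (nat_lit 9348073816) (nat_lit 228) (nat_lit 5716704759) (nat_lit 24) (nat_lit 5) (nat_lit 26) (nat_lit 5) (nat_lit 27) (nat_lit 5) (nat_lit 314) (nat_lit 307) (nat_lit 279))))))))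
noncomputable def xc61 : XT := (XT.nd (nat_lit 1716) (nat_lit 456) (nat_lit 0) (XT.nd (nat_lit 858) (nat_lit 608) (nat_lit 0) (XT.nd (nat_lit 390) (nat_lit 304) (nat_lit 0) (XT.nd (nat_lit 156) (nat_lit 228) (nat_lit 0) (XT.nd (nat_lit 78) (nat_lit 152) (nat_lit 0) (XT.lf (nat_lit 0) (nat_lit 15228470132) (nat_lit 152) (nat_lit 1933059506) (nat_lit 228) (nat_lit 2973838126) (nat_lit 24) (nat_lit 5) (nat_lit 26) (nat_lit 5) (nat_lit 27) (nat_lit 5) (nat_lit 315) (nat_lit 307) (nat_lit 278)) (XT.lf (nat_lit 0) (nat_lit 715331383) (nat_lit 152) (nat_lit 14833407256) (nat_lit 76) (nat_lit 6323506636) (nat_lit 22) (nat_lit 5) (nat_lit 24) (nat_lit 5) (nat_lit 23) (nat_lit 5) (nat_lit 316) (nat_lit 307) (nat_lit 277))) (XT.nd (nat_lit 78) (nat_lit 228) (nat_lit 0) (XT.lf (nat_lit 0) (nat_lit 4975289436) (nat_lit 152) (nat_lit 2805838755) (nat_lit 76) (nat_lit 16019046470) (nat_lit 22) (nat_lit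 5) (nat_lit 24) (nat_lit 5) (nat_lit 23) (nat_lit 5) (nat_lit 317) (nat_lit 307) (nat_lit 276)) (XT.nd (nat_lit 78) (nat_lit 76) (nat_lit 0) (XT.lf (nat_lit 0) (nat_lit 10410168296) (nat_lit 228) (nat_lit 13969083041) (nat_lit 76) (nat_lit 1557690943) (nat_lit 20) (nat_lit 5) (nat_lit 23) (nat_lit 5) (nat_lit 21) (nat_lit 4) (nat_lit 318) (nat_lit 307) (nat_lit 275)) (XT.lf (nat_lit 0) (nat_lit 518209240) (nat_lit 76) (nat_lit 16655710345) (nat_lit 152) (nat_lit 11143292317) (nat_lit 19) (nat_lit 5) (nat_lit 20) (nat_lit 5) (nat_lit 21) (nat_lit 4) (nat_lit 319) (nat_lit 307) (nat_lit 274))))) (XT.nd (nat_lit 234) (nat_lit 152) (nat_lit 0) (XT.nd (nat_lit 78) (nat_lit 152) (nat_lit 0) (XT.lf (nat_lit 0) (nat_lit 18699717775) (nat_lit 76) (nat_lit 6952870285) (nat_lit 152) (nat_lit 5296909383) (nat_lit 19) (nat_lit 5) (nat_lit 20) (nat_lit 5) (nat_lit 21) (nat_lit 4) (nat_lit 320) (nat_lit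 307) (nat_lit 273)) (XT.nd (nat_lit 78) (nat_lit 0) (nat_lit 0) (XT.lf (nat_lit 0) (nat_lit 1711655277) (nat_lit 152) (nat_lit 28054517505) (nat_lit 76) (nat_lit 4139782622) (nat_lit 17) (nat_lit 5) (nat_lit 19) (nat_lit 5) (nat_lit 18) (nat_lit 4) (nat_lit 321) (nat_lit 307) (nat_lit 272)) (XT.lf (nat_lit 0) (nat_lit 10204935242) (nat_lit 152) (nat_lit 9825282214) (nat_lit 76) (nat_lit 17091488389) (nat_lit 17) (nat_lit 5) (nat_lit 19) (nat_lit 5) (nat_lit 18) (nat_lit 4) (nat_lit 322) (nat_lit 307) (nat_lit 271)))) (XT.nd (nat_lit 78) (nat_lit 76) (nat_lit 0) (XT.lf (nat_lit 0) (nat_lit 12182775800) (nat_lit 76) (nat_lit 8271131475) (nat_lit 152) (nat_lit 20293672949) (nat_lit 16) (nat_lit 5) (nat_lit 17) (nat_lit 5) (nat_lit 18) (nat_lit 4) (nat_lit 323) (nat_lit 307) (nat_lit 270)) (XT.nd (nat_lit 78) (nat_lit 76) (nat_lit 0) (XT.lf (nat_lit 0) (nat_lit 32973660026) (nat_lit 152) (nat_lit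 6526801425) (nat_lit 0) (nat_lit 5306873315) (nat_lit 16) (nat_lit 5) (nat_lit 18) (nat_lit 4) (nat_lit 16) (nat_lit 4) (nat_lit 324) (nat_lit 307) (nat_lit 269)) (XT.lf (nat_lit 0) (nat_lit 20184477194) (nat_lit 76) (nat_lit 28397355608) (nat_lit 76) (nat_lit 712663509) (nat_lit 15) (nat_lit 4) (nat_lit 16) (nat_lit 5) (nat_lit 16) (nat_lit 4) (nat_lit 325) (nat_lit 307) (nat_lit 268)))))) (XT.nd (nat_lit 390) (nat_lit 304) (nat_lit 0) (XT.nd (nat_lit 156) (nat_lit 152) (nat_lit 0) (XT.nd (nat_lit 78) (nat_lit 76) (nat_lit 0) (XT.lf (nat_lit 0) (nat_lit 11339812333) (nat_lit 152) (nat_lit 3319665482) (nat_lit 76) (nat_lit 39669487361) (nat_lit 14) (nat_lit 5) (nat_lit 16) (nat_lit 5) (nat_lit 15) (nat_lit 4) (nat_lit 326) (nat_lit 307) (nat_lit 267)) (XT.lf (nat_lit 0) (nat_lit 26410027965) (nat_lit 152) (nat_lit 31199998827) (nat_lit 0) (nat_lit 2311070534) (nat_lit 13) (nat_lit 5) (nat_lit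 15) (nat_lit 4) (nat_lit 13) (nat_lit 4) (nat_lit 327) (nat_lit 307) (nat_lit 266))) (XT.nd (nat_lit 78) (nat_lit 152) (nat_lit 0) (XT.lf (nat_lit 0) (nat_lit 44604476700) (nat_lit 152) (nat_lit 1122742762) (nat_lit 0) (nat_lit 20495281805) (nat_lit 13) (nat_lit 5) (nat_lit 15) (nat_lit 4) (nat_lit 13) (nat_lit 4) (nat_lit 328) (nat_lit 307) (nat_lit 265)) (XT.nd (nat_lit 78) (nat_lit 76) (nat_lit 0) (XT.lf (nat_lit 0) (nat_lit 36706630903) (nat_lit 76) (nat_lit 30327352264) (nat_lit 76) (nat_lit 6209255227) (nat_lit 12) (nat_lit 4) (nat_lit 13) (nat_lit 5) (nat_lit 13) (nat_lit 4) (nat_lit 329) (nat_lit 307) (nat_lit 264)) (XT.lf (nat_lit 0) (nat_lit 10533600264) (nat_lit 152) (nat_lit 1478597460) (nat_lit 76) (nat_lit 69226265526) (nat_lit 11) (nat_lit 5) (nat_lit 13) (nat_lit 5) (nat_lit 12) (nat_lit 4) (nat_lit 330) (nat_lit 307) (nat_lit 263))))) (XT.nd (nat_lit 234) (nat_lit 152)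 (nat_lit 0) (XT.nd (nat_lit 78) (nat_lit 76) (nat_lit 0) (XT.lf (nat_lit 0) (nat_lit 31362613468) (nat_lit 152) (nat_lit 48316674194) (nat_lit 0) (nat_lit 10377770574) (nat_lit 10) (nat_lit 5) (nat_lit 12) (nat_lit 4) (nat_lit 10) (nat_lit 4) (nat_lit 331) (nat_lit 307) (nat_lit 262)) (XT.nd (nat_lit 78) (nat_lit 76) (nat_lit 0) (XT.lf (nat_lit 0) (nat_lit 55957005945) (nat_lit 152) (nat_lit 9178212728) (nat_lit 0) (nat_lit 34967073222) (nat_lit 10) (nat_lit 5) (nat_lit 12) (nat_lit 4) (nat_lit 10) (nat_lit 4) (nat_lit 332) (nat_lit 307) (nat_lit 261)) (XT.lf (nat_lit 0) (nat_lit 39309718433) (nat_lit 76) (nat_lit 46548176615) (nat_lit 76) (nat_lit 25553817954) (nat_lit 9) (nat_lit 4) (nat_lit 10) (nat_lit 5) (nat_lit 10) (nat_lit 4) (nat_lit 333) (nat_lit 307) (nat_lit 260)))) (XT.nd (nat_lit 78) (nat_lit 152) (nat_lit 0) (XT.lf (nat_lit 0) (nat_lit 96082373754) (nat_lit 76) (nat_lit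 24631448861) (nat_lit 76) (nat_lit 3633241558) (nat_lit 9) (nat_lit 4) (nat_lit 10) (nat_lit 5) (nat_lit 10) (nat_lit 4) (nat_lit 334) (nat_lit 307) (nat_lit 259)) (XT.nd (nat_lit 78) (nat_lit 0) (nat_lit 0) (XT.lf (nat_lit 0) (nat_lit 20722781445) (nat_lit 152) (nat_lit 115745146136) (nat_lit 0) (nat_lit 2460560621) (nat_lit 7) (nat_lit 5) (nat_lit 9) (nat_lit 4) (nat_lit 7) (nat_lit 4) (nat_lit 335) (nat_lit 307) (nat_lit 258)) (XT.lf (nat_lit 0) (nat_lit 51072082181) (nat_lit 152) (nat_lit 71384985515) (nat_lit 0) (nat_lit 32807330813) (nat_lit 7) (nat_lit 5) (nat_lit 9) (nat_lit 4) (nat_lit 7) (nat_lit 4) (nat_lit 336) (nat_lit 307) (nat_lit 257))))))) (XT.nd (nat_lit 858) (nat_lit 152) (nat_lit 0) (XT.nd (nat_lit 390) (nat_lit 76) (nat_lit 0) (XT.nd (nat_lit 156) (nat_lit 152) (nat_lit 0) (XT.nd (nat_lit 78) (nat_lit 76) (nat_lit 0) (XT.lf (nat_lit 0) (nat_lit 85966034194) (nat_lit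 152) (nat_lit 20386741911) (nat_lit 0) (nat_lit 67699082353) (nat_lit 7) (nat_lit 5) (nat_lit 9) (nat_lit 4) (nat_lit 7) (nat_lit 4) (nat_lit 337) (nat_lit 307) (nat_lit 256)) (XT.lf (nat_lit 0) (nat_lit 41985188181) (nat_lit 76) (nat_lit 85840674170) (nat_lit 76) (nat_lit 67571808873) (nat_lit 6) (nat_lit 4) (nat_lit 7) (nat_lit 5) (nat_lit 7) (nat_lit 4) (nat_lit 338) (nat_lit 307) (nat_lit 255))) (XT.nd (nat_lit 78) (nat_lit 152) (nat_lit 0) (XT.lf (nat_lit 0) (nat_lit 115990867825) (nat_lit 76) (nat_lit 61033064156) (nat_lit 76) (nat_lit 42762534986) (nat_lit 6) (nat_lit 4) (nat_lit 7) (nat_lit 5) (nat_lit 7) (nat_lit 4) (nat_lit 339) (nat_lit 307) (nat_lit 254)) (XT.nd (nat_lit 78) (nat_lit 152) (nat_lit 0) (XT.lf (nat_lit 0) (nat_lit 201085893546) (nat_lit 76) (nat_lit 32510250382) (nat_lit 76) (nat_lit 14238274365) (nat_lit 6) (nat_lit 4) (nat_lit 7) (nat_lit 5) (nat_lit 7) (nat_lit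 4) (nat_lit 340) (nat_lit 307) (nat_lit 253)) (XT.lf (nat_lit 0) (nat_lit 17816011272) (nat_lit 152) (nat_lit 260096380533) (nat_lit 0) (nat_lit 1926242449) (nat_lit 4) (nat_lit 5) (nat_lit 6) (nat_lit 4) (nat_lit 4) (nat_lit 4) (nat_lit 341) (nat_lit 307) (nat_lit 252))))) (XT.nd (nat_lit 234) (nat_lit 76) (nat_lit 0) (XT.nd (nat_lit 78) (nat_lit 0) (nat_lit 0) (XT.lf (nat_lit 0) (nat_lit 57323815287) (nat_lit 152) (nat_lit 217169405337) (nat_lit 0) (nat_lit 41433095140) (nat_lit 4) (nat_lit 5) (nat_lit 6) (nat_lit 4) (nat_lit 4) (nat_lit 4) (nat_lit 342) (nat_lit 307) (nat_lit 251)) (XT.nd (nat_lit 78) (nat_lit 0) (nat_lit 0) (XT.lf (nat_lit 0) (nat_lit 102753405733) (nat_lit 152) (nat_lit 167812543621) (nat_lit 0) (nat_lit 86861858346) (nat_lit 4) (nat_lit 5) (nat_lit 6) (nat_lit 4) (nat_lit 4) (nat_lit 4) (nat_lit 343) (nat_lit 307) (nat_lit 250)) (XT.lf (nat_lit 0) (nat_lit 154993622422)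 (nat_lit 152) (nat_lit 111060117654) (nat_lit 0) (nat_lit 139101355696) (nat_lit 4) (nat_lit 5) (nat_lit 6) (nat_lit 4) (nat_lit 4) (nat_lit 4) (nat_lit 344) (nat_lit 307) (nat_lit 249)))) (XT.nd (nat_lit 78) (nat_lit 76) (nat_lit 0) (XT.lf (nat_lit 0) (nat_lit 215066556549) (nat_lit 152) (nat_lit 45801753885) (nat_lit 0) (nat_lit 199173664312) (nat_lit 4) (nat_lit 5) (nat_lit 6) (nat_lit 4) (nat_lit 4) (nat_lit 4) (nat_lit 345) (nat_lit 307) (nat_lit 248)) (XT.nd (nat_lit 78) (nat_lit 0) (nat_lit 0) (XT.lf (nat_lit 0) (nat_lit 32096822884) (nat_lit 76) (nat_lit 253379786236) (nat_lit 76) (nat_lit 237486350075) (nat_lit 3) (nat_lit 4) (nat_lit 4) (nat_lit 5) (nat_lit 4) (nat_lit 4) (nat_lit 346) (nat_lit 307) (nat_lit 247)) (XT.lf (nat_lit 0) (nat_lit 126821929807) (nat_lit 76) (nat_lit 242017677644) (nat_lit 76) (nat_lit 226123768507) (nat_lit 3) (nat_lit 4) (nat_lit 4) (nat_lit 5) (nat_lit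 4) (nat_lit 4) (nat_lit 347) (nat_lit 307) (nat_lit 246)))))) (XT.nd (nat_lit 468) (nat_lit 152) (nat_lit 0) (XT.nd (nat_lit 234) (nat_lit 0) (nat_lit 0) (XT.nd (nat_lit 78) (nat_lit 0) (nat_lit 0) (XT.lf (nat_lit 0) (nat_lit 235750803697) (nat_lit 76) (nat_lit 228953865125) (nat_lit 76) (nat_lit 213059544703) (nat_lit 3) (nat_lit 4) (nat_lit 4) (nat_lit 5) (nat_lit 4) (nat_lit 4) (nat_lit 348) (nat_lit 307) (nat_lit 245)) (XT.nd (nat_lit 78) (nat_lit 0) (nat_lit 0) (XT.lf (nat_lit 0) (nat_lit 361014661652) (nat_lit 76) (nat_lit 213932752347) (nat_lit 76) (nat_lit 198038074286) (nat_lit 3) (nat_lit 4) (nat_lit 4) (nat_lit 5) (nat_lit 4) (nat_lit 4) (nat_lit 349) (nat_lit 307) (nat_lit 244)) (XT.lf (nat_lit 0) (nat_lit 505064318286) (nat_lit 76) (nat_lit 196660447972) (nat_lit 76) (nat_lit 180765458922) (nat_lit 3) (nat_lit 4) (nat_lit 4) (nat_lit 5) (nat_lit 4) (nat_lit 4) (nat_lit 350)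 (nat_lit 307) (nat_lit 243)))) (XT.nd (nat_lit 78) (nat_lit 0) (nat_lit 0) (XT.lf (nat_lit 0) (nat_lit 670718136444) (nat_lit 76) (nat_lit 176799015610) (nat_lit 76) (nat_lit 160903756134) (nat_lit 3) (nat_lit 4) (nat_lit 4) (nat_lit 5) (nat_lit 4) (nat_lit 4) (nat_lit 351) (nat_lit 307) (nat_lit 242)) (XT.nd (nat_lit 78) (nat_lit 0) (nat_lit 0) (XT.lf (nat_lit 0) (nat_lit 861217169092) (nat_lit 76) (nat_lit 153959862021) (nat_lit 76) (nat_lit 138064367391) (nat_lit 3) (nat_lit 4) (nat_lit 4) (nat_lit 5) (nat_lit 4) (nat_lit 4) (nat_lit 352) (nat_lit 307) (nat_lit 241)) (XT.lf (nat_lit 0) (nat_lit 1080288571215) (nat_lit 76) (nat_lit 127696134198) (nat_lit 76) (nat_lit 111800435088) (nat_lit 3) (nat_lit 4) (nat_lit 4) (nat_lit 5) (nat_lit 4) (nat_lit 4) (nat_lit 353) (nat_lit 307) (nat_lit 240))))) (XT.nd (nat_lit 234) (nat_lit 152) (nat_lit 0) (XT.nd (nat_lit 78) (nat_lit 0) (nat_lit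 0) (XT.lf (nat_lit 0) (nat_lit 1332218522420) (nat_lit 76) (nat_lit 97493976597) (nat_lit 76) (nat_lit 81598099678) (nat_lit 3) (nat_lit 4) (nat_lit 4) (nat_lit 5) (nat_lit 4) (nat_lit 4) (nat_lit 354) (nat_lit 307) (nat_lit 239)) (XT.nd (nat_lit 78) (nat_lit 0) (nat_lit 0) (XT.lf (nat_lit 0) (nat_lit 1621936086970) (nat_lit 76) (nat_lit 62762477440) (nat_lit 76) (nat_lit 46866445903) (nat_lit 3) (nat_lit 4) (nat_lit 4) (nat_lit 5) (nat_lit 4) (nat_lit 4) (nat_lit 355) (nat_lit 307) (nat_lit 238)) (XT.lf (nat_lit 0) (nat_lit 1955109651998) (nat_lit 76) (nat_lit 22822107395) (nat_lit 76) (nat_lit 6925941409) (nat_lit 3) (nat_lit 4) (nat_lit 4) (nat_lit 5) (nat_lit 4) (nat_lit 4) (nat_lit 356) (nat_lit 307) (nat_lit 237)))) (XT.nd (nat_lit 78) (nat_lit 0) (nat_lit 0) (XT.lf (nat_lit 0) (nat_lit 39447035643) (nat_lit 152) (nat_lit 2210243715006) (nat_lit 0) (nat_lit 25624180948) (nat_lit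 1) (nat_lit 5) (nat_lit 3) (nat_lit 4) (nat_lit 1) (nat_lit 4) (nat_lit 357) (nat_lit 307) (nat_lit 236)) (XT.nd (nat_lit 78) (nat_lit 0) (nat_lit 0) (XT.lf (nat_lit 0) (nat_lit 94781993697) (nat_lit 152) (nat_lit 2433142963931) (nat_lit 0) (nat_lit 80959050599) (nat_lit 1) (nat_lit 5) (nat_lit 3) (nat_lit 4) (nat_lit 1) (nat_lit 4) (nat_lit 358) (nat_lit 307) (nat_lit 235)) (XT.lf (nat_lit 0) (nat_lit 158416579881) (nat_lit 152) (nat_lit 2689478398948) (nat_lit 0) (nat_lit 144593559912) (nat_lit 1) (nat_lit 5) (nat_lit 3) (nat_lit 4) (nat_lit 1) (nat_lit 4) (nat_lit 359) (nat_lit 307) (nat_lit 234))))))))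
noncomputable def xc62 : XT := (XT.nd (nat_lit 1716) (nat_lit 0) (nat_lit 0) (XT.nd (nat_lit 858) (nat_lit 0) (nat_lit 0) (XT.nd (nat_lit 390) (nat_lit 0) (nat_lit 0) (XT.nd (nat_lit 156) (nat_lit 0) (nat_lit 0) (XT.nd (nat_lit 78) (nat_lit 0) (nat_lit 0) (XT.lf (nat_lit 0) (nat_lit 231595818709) (nat_lit 152) (nat_lit 2984265278567) (nat_lit 0) (nat_lit 217772731894) (nat_lit 1) (nat_lit 5) (nat_lit 3) (nat_lit 4) (nat_lit 1) (nat_lit 4) (nat_lit 360) (nat_lit 307) (nat_lit 233)) (XT.lf (nat_lit 0) (nat_lit 315751477895) (nat_lit 152) (nat_lit 3323271172173) (nat_lit 0) (nat_lit 301928332954) (nat_lit 1) (nat_lit 5) (nat_lit 3) (nat_lit 4) (nat_lit 1) (nat_lit 4) (nat_lit 361) (nat_lit 307) (nat_lit 232))) (XT.nd (nat_lit 78) (nat_lit 0) (nat_lit 0) (XT.lf (nat_lit 0) (nat_lit 412530081208) (nat_lit 152) (nat_lit 3713128803772) (nat_lit 0) (nat_lit 398706885723) (nat_lit 1) (nat_lit 5)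 (nat_lit 3) (nat_lit 4) (nat_lit 1) (nat_lit 4) (nat_lit 362) (nat_lit 307) (nat_lit 231)) (XT.nd (nat_lit 78) (nat_lit 0) (nat_lit 0) (XT.lf (nat_lit 0) (nat_lit 523825123060) (nat_lit 152) (nat_lit 4161465822676) (nat_lit 0) (nat_lit 510001883622) (nat_lit 1) (nat_lit 5) (nat_lit 3) (nat_lit 4) (nat_lit 1) (nat_lit 4) (nat_lit 363) (nat_lit 307) (nat_lit 230)) (XT.lf (nat_lit 0) (nat_lit 651814115138) (nat_lit 152) (nat_lit 4677054040126) (nat_lit 0) (nat_lit 637990837482) (nat_lit 1) (nat_lit 5) (nat_lit 3) (nat_lit 4) (nat_lit 1) (nat_lit 4) (nat_lit 364) (nat_lit 307) (nat_lit 229))))) (XT.nd (nat_lit 234) (nat_lit 0) (nat_lit 0) (XT.nd (nat_lit 78) (nat_lit 0) (nat_lit 0) (XT.lf (nat_lit 0) (nat_lit 799001189897) (nat_lit 152) (nat_lit 5269981051680) (nat_lit 0) (nat_lit 785177879007) (nat_lit 1) (nat_lit 5) (nat_lit 3) (nat_lit 4) (nat_lit 1) (nat_lit 4) (nat_lit 365) (nat_lit 307)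 (nat_lit 228)) (XT.nd (nat_lit 78) (nat_lit 0) (nat_lit 0) (XT.lf (nat_lit 0) (nat_lit 968266094452) (nat_lit 152) (nat_lit 5951847603216) (nat_lit 0) (nat_lit 954442754663) (nat_lit 1) (nat_lit 5) (nat_lit 3) (nat_lit 4) (nat_lit 1) (nat_lit 4) (nat_lit 366) (nat_lit 307) (nat_lit 227)) (XT.lf (nat_lit 0) (nat_lit 1162920533457) (nat_lit 152) (nat_lit 6735994562047) (nat_lit 0) (nat_lit 1149097168538) (nat_lit 1) (nat_lit 5) (nat_lit 3) (nat_lit 4) (nat_lit 1) (nat_lit 4) (nat_lit 367) (nat_lit 307) (nat_lit 226)))) (XT.nd (nat_lit 78) (nat_lit 0) (nat_lit 0) (XT.lf (nat_lit 0) (nat_lit 1386772963327) (nat_lit 152) (nat_lit 7637763933890) (nat_lit 0) (nat_lit 1372949576557) (nat_lit 1) (nat_lit 5) (nat_lit 3) (nat_lit 4) (nat_lit 1) (nat_lit 4) (nat_lit 368) (nat_lit 307) (nat_lit 225)) (XT.nd (nat_lit 78) (nat_lit 0) (nat_lit 0) (XT.lf (nat_lit 0) (nat_lit 1644203105516) (nat_lit 152)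 (nat_lit 8674799032541) (nat_lit 0) (nat_lit 1630379699744) (nat_lit 1) (nat_lit 5) (nat_lit 3) (nat_lit 4) (nat_lit 1) (nat_lit 4) (nat_lit 369) (nat_lit 307) (nat_lit 224)) (XT.lf (nat_lit 0) (nat_lit 1940247636720) (nat_lit 152) (nat_lit 9867389675148) (nat_lit 0) (nat_lit 1926424214425) (nat_lit 1) (nat_lit 5) (nat_lit 3) (nat_lit 4) (nat_lit 1) (nat_lit 4) (nat_lit 370) (nat_lit 307) (nat_lit 223)))))) (XT.nd (nat_lit 390) (nat_lit 0) (nat_lit 0) (XT.nd (nat_lit 156) (nat_lit 0) (nat_lit 0) (XT.nd (nat_lit 78) (nat_lit 0) (nat_lit 0) (XT.lf (nat_lit 0) (nat_lit 2280698732548) (nat_lit 152) (nat_lit 11238869156893) (nat_lit 0) (nat_lit 2266875295885) (nat_lit 1) (nat_lit 5) (nat_lit 3) (nat_lit 4) (nat_lit 1) (nat_lit 4) (nat_lit 371) (nat_lit 307) (nat_lit 222)) (XT.lf (nat_lit 0) (nat_lit 2672217392702) (nat_lit 152) (nat_lit 12816070771982) (nat_lit 0) (nat_lit 2658393943545) (nat_lit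 1) (nat_lit 5) (nat_lit 3) (nat_lit 4) (nat_lit 1) (nat_lit 4) (nat_lit 372) (nat_lit 307) (nat_lit 221))) (XT.nd (nat_lit 78) (nat_lit 0) (nat_lit 0) (XT.lf (nat_lit 0) (nat_lit 3122463764880) (nat_lit 152) (nat_lit 14629852812886) (nat_lit 0) (nat_lit 3108640304859) (nat_lit 1) (nat_lit 5) (nat_lit 3) (nat_lit 4) (nat_lit 1) (nat_lit 4) (nat_lit 373) (nat_lit 307) (nat_lit 220)) (XT.nd (nat_lit 78) (nat_lit 0) (nat_lit 0) (XT.lf (nat_lit 0) (nat_lit 3640247017235) (nat_lit 152) (nat_lit 16715702319536) (nat_lit 0) (nat_lit 3626423547766) (nat_lit 1) (nat_lit 5) (nat_lit 3) (nat_lit 4) (nat_lit 1) (nat_lit 4) (nat_lit 374) (nat_lit 307) (nat_lit 219)) (XT.lf (nat_lit 0) (nat_lit 4235697691658) (nat_lit 152) (nat_lit 19114429390973) (nat_lit 0) (nat_lit 4221874213975) (nat_lit 1) (nat_lit 5) (nat_lit 3) (nat_lit 4) (nat_lit 1) (nat_lit 4) (nat_lit 375) (nat_lit 307) (nat_lit 218))))) (XT.nd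 (nat_lit 234) (nat_lit 0) (nat_lit 0) (XT.nd (nat_lit 78) (nat_lit 0) (nat_lit 0) (XT.lf (nat_lit 0) (nat_lit 4920465910042) (nat_lit 152) (nat_lit 21872965643814) (nat_lit 0) (nat_lit 4906642425216) (nat_lit 1) (nat_lit 5) (nat_lit 3) (nat_lit 4) (nat_lit 1) (nat_lit 4) (nat_lit 376) (nat_lit 307) (nat_lit 217)) (XT.nd (nat_lit 78) (nat_lit 0) (nat_lit 0) (XT.lf (nat_lit 0) (nat_lit 5707949311443) (nat_lit 152) (nat_lit 25045282439527) (nat_lit 0) (nat_lit 5694125820404) (nat_lit 1) (nat_lit 5) (nat_lit 3) (nat_lit 4) (nat_lit 1) (nat_lit 4) (nat_lit 377) (nat_lit 307) (nat_lit 216)) (XT.lf (nat_lit 0) (nat_lit 6613555179799) (nat_lit 152) (nat_lit 28693446845855) (nat_lit 0) (nat_lit 6599731683359) (nat_lit 1) (nat_lit 5) (nat_lit 3) (nat_lit 4) (nat_lit 1) (nat_lit 4) (nat_lit 378) (nat_lit 307) (nat_lit 215)))) (XT.nd (nat_lit 78) (nat_lit 0) (nat_lit 0) (XT.lf (nat_lit 0) (nat_lit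 7655001890797) (nat_lit 152) (nat_lit 32888835992485) (nat_lit 0) (nat_lit 7641178389660) (nat_lit 1) (nat_lit 5) (nat_lit 3) (nat_lit 4) (nat_lit 1) (nat_lit 4) (nat_lit 379) (nat_lit 307) (nat_lit 214)) (XT.nd (nat_lit 78) (nat_lit 0) (nat_lit 0) (XT.lf (nat_lit 0) (nat_lit 8852665575738) (nat_lit 152) (nat_lit 37713533580114) (nat_lit 0) (nat_lit 8838842070517) (nat_lit 1) (nat_lit 5) (nat_lit 3) (nat_lit 4) (nat_lit 1) (nat_lit 4) (nat_lit 380) (nat_lit 307) (nat_lit 213)) (XT.lf (nat_lit 0) (nat_lit 10229978784981) (nat_lit 152) (nat_lit 43261935865890) (nat_lit 0) (nat_lit 10216155276208) (nat_lit 1) (nat_lit 5) (nat_lit 3) (nat_lit 4) (nat_lit 1) (nat_lit 4) (nat_lit 381) (nat_lit 307) (nat_lit 212))))))) (XT.nd (nat_lit 41496) (nat_lit 0) (nat_lit 1216) (XT.nd (nat_lit 390) (nat_lit 0) (nat_lit 0) (XT.nd (nat_lit 156) (nat_lit 0) (nat_lit 0) (XT.nd (nat_lit 78) (nat_lit 0) (nat_lit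 0) (XT.lf (nat_lit 0) (nat_lit 11813888950879) (nat_lit 152) (nat_lit 49642598546709) (nat_lit 0) (nat_lit 11800065439019) (nat_lit 1) (nat_lit 5) (nat_lit 3) (nat_lit 4) (nat_lit 1) (nat_lit 4) (nat_lit 382) (nat_lit 307) (nat_lit 211)) (XT.lf (nat_lit 0) (nat_lit 13635385620158) (nat_lit 152) (nat_lit 56980360675022) (nat_lit 0) (nat_lit 13621562105612) (nat_lit 1) (nat_lit 5) (nat_lit 3) (nat_lit 4) (nat_lit 1) (nat_lit 4) (nat_lit 383) (nat_lit 307) (nat_lit 210))) (XT.nd (nat_lit 78) (nat_lit 0) (nat_lit 0) (XT.lf (nat_lit 0) (nat_lit 15730106771129) (nat_lit 152) (nat_lit 65418787162036) (nat_lit 0) (nat_lit 15716283254247) (nat_lit 1) (nat_lit 5) (nat_lit 3) (nat_lit 4) (nat_lit 1) (nat_lit 4) (nat_lit 384) (nat_lit 307) (nat_lit 209)) (XT.nd (nat_lit 78) (nat_lit 0) (nat_lit 0) (XT.lf (nat_lit 0) (nat_lit 18139036078484) (nat_lit 152) (nat_lit 75122977656408) (nat_lit 0) (nat_lit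 18125212559572) (nat_lit 1) (nat_lit 5) (nat_lit 3) (nat_lit 4) (nat_lit 1) (nat_lit 4) (nat_lit 385) (nat_lit 307) (nat_lit 208)) (XT.lf (nat_lit 0) (nat_lit 20909304767803) (nat_lit 152) (nat_lit 86282796754768) (nat_lit 0) (nat_lit 20895481247126) (nat_lit 1) (nat_lit 5) (nat_lit 3) (nat_lit 4) (nat_lit 1) (nat_lit 4) (nat_lit 386) (nat_lit 307) (nat_lit 207))))) (XT.nd (nat_lit 40872) (nat_lit 0) (nat_lit 2128) (XT.nd (nat_lit 40716) (nat_lit 0) (nat_lit 2052) (XT.lf (nat_lit 0) (nat_lit 24095113748225) (nat_lit 152) (nat_lit 99116588743823) (nat_lit 0) (nat_lit 24081290226012) (nat_lit 1) (nat_lit 5) (nat_lit 3) (nat_lit 4) (nat_lit 1) (nat_lit 4) (nat_lit 387) (nat_lit 307) (nat_lit 206)) (XT.nd (nat_lit 78) (nat_lit 0) (nat_lit 0) (XT.lf (nat_lit 0) (nat_lit 552131839) (nat_lit 380) (nat_lit 2900157264) (nat_lit 380) (nat_lit 2900157264) (nat_lit 28) (nat_lit 3) (nat_lit 33) (nat_lit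 3) (nat_lit 33) (nat_lit 5) (nat_lit 308) (nat_lit 308) (nat_lit 284)) (XT.lf (nat_lit 76) (nat_lit 404304990) (nat_lit 0) (nat_lit 1189657514) (nat_lit 380) (nat_lit 12002114353) (nat_lit 29) (nat_lit 5) (nat_lit 28) (nat_lit 3) (nat_lit 33) (nat_lit 5) (nat_lit 309) (nat_lit 308) (nat_lit 283)))) (XT.nd (nat_lit 78) (nat_lit 0) (nat_lit 0) (XT.lf (nat_lit 0) (nat_lit 2627480111) (nat_lit 304) (nat_lit 6677132809) (nat_lit 380) (nat_lit 5245886993) (nat_lit 29) (nat_lit 5) (nat_lit 33) (nat_lit 5) (nat_lit 34) (nat_lit 5) (nat_lit 310) (nat_lit 308) (nat_lit 282)) (XT.nd (nat_lit 78) (nat_lit 0) (nat_lit 76) (XT.lf (nat_lit 76) (nat_lit 778821064) (nat_lit 0) (nat_lit 3065103785) (nat_lit 380) (nat_lit 11800077445) (nat_lit 30) (nat_lit 5) (nat_lit 29) (nat_lit 5) (nat_lit 34) (nat_lit 5) (nat_lit 311) (nat_lit 308) (nat_lit 281)) (XT.lf (nat_lit 0) (nat_lit 5724081885) (nat_lit 304)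 (nat_lit 6987456744) (nat_lit 76) (nat_lit 4117892209) (nat_lit 30) (nat_lit 5) (nat_lit 34) (nat_lit 5) (nat_lit 31) (nat_lit 5) (nat_lit 312) (nat_lit 308) (nat_lit 280)))))) (XT.nd (nat_lit 390) (nat_lit 380) (nat_lit 0) (XT.nd (nat_lit 156) (nat_lit 304) (nat_lit 0) (XT.nd (nat_lit 78) (nat_lit 0) (nat_lit 0) (XT.lf (nat_lit 0) (nat_lit 2061643403) (nat_lit 304) (nat_lit 6008460309) (nat_lit 380) (nat_lit 10095069978) (nat_lit 26) (nat_lit 5) (nat_lit 30) (nat_lit 5) (nat_lit 31) (nat_lit 5) (nat_lit 313) (nat_lit 308) (nat_lit 279)) (XT.lf (nat_lit 0) (nat_lit 11177785315) (nat_lit 380) (nat_lit 6533007667) (nat_lit 76) (nat_lit 1929087783) (nat_lit 26) (nat_lit 5) (nat_lit 31) (nat_lit 5) (nat_lit 27) (nat_lit 5) (nat_lit 314) (nat_lit 308) (nat_lit 278))) (XT.nd (nat_lit 78) (nat_lit 152) (nat_lit 0) (XT.lf (nat_lit 0) (nat_lit 4546396123) (nat_lit 152) (nat_lit 10641956225) (nat_lit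 228) (nat_lit 6081989203) (nat_lit 24) (nat_lit 5) (nat_lit 26) (nat_lit 5) (nat_lit 27) (nat_lit 5) (nat_lit 315) (nat_lit 308) (nat_lit 277)) (XT.nd (nat_lit 78) (nat_lit 152) (nat_lit 0) (XT.lf (nat_lit 0) (nat_lit 17978660303) (nat_lit 152) (nat_lit 2128819594) (nat_lit 228) (nat_lit 2991895349) (nat_lit 24) (nat_lit 5) (nat_lit 26) (nat_lit 5) (nat_lit 27) (nat_lit 5) (nat_lit 316) (nat_lit 308) (nat_lit 276)) (XT.lf (nat_lit 0) (nat_lit 1186701868) (nat_lit 152) (nat_lit 16527673806) (nat_lit 76) (nat_lit 7383687789) (nat_lit 22) (nat_lit 5) (nat_lit 24) (nat_lit 5) (nat_lit 23) (nat_lit 5) (nat_lit 317) (nat_lit 308) (nat_lit 275))))) (XT.nd (nat_lit 234) (nat_lit 152) (nat_lit 0) (XT.nd (nat_lit 78) (nat_lit 228) (nat_lit 0) (XT.lf (nat_lit 0) (nat_lit 6038166136) (nat_lit 152) (nat_lit 2765197579) (nat_lit 76) (nat_lit 18518994882) (nat_lit 22) (nat_lit 5) (nat_lit 24) (nat_lit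 5) (nat_lit 23) (nat_lit 5) (nat_lit 318) (nat_lit 308) (nat_lit 274)) (XT.nd (nat_lit 78) (nat_lit 76) (nat_lit 0) (XT.lf (nat_lit 0) (nat_lit 12271312393) (nat_lit 228) (nat_lit 15585655579) (nat_lit 76) (nat_lit 1925264327) (nat_lit 20) (nat_lit 5) (nat_lit 23) (nat_lit 5) (nat_lit 21) (nat_lit 4) (nat_lit 319) (nat_lit 308) (nat_lit 273)) (XT.lf (nat_lit 0) (nat_lit 1052967366) (nat_lit 76) (nat_lit 18976502792) (nat_lit 152) (nat_lit 12493135876) (nat_lit 19) (nat_lit 5) (nat_lit 20) (nat_lit 5) (nat_lit 21) (nat_lit 4) (nat_lit 320) (nat_lit 308) (nat_lit 272)))) (XT.nd (nat_lit 78) (nat_lit 152) (nat_lit 0) (XT.lf (nat_lit 0) (nat_lit 21902089998) (nat_lit 76) (nat_lit 7841397258) (nat_lit 152) (nat_lit 5811749888) (nat_lit 19) (nat_lit 5) (nat_lit 20) (nat_lit 5) (nat_lit 21) (nat_lit 4) (nat_lit 321) (nat_lit 308) (nat_lit 271)) (XT.nd (nat_lit 78) (nat_lit 0) (nat_lit 0) (XT.lf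 (nat_lit 0) (nat_lit 2213499539) (nat_lit 152) (nat_lit 31830301416) (nat_lit 76) (nat_lit 4911106981) (nat_lit 17) (nat_lit 5) (nat_lit 19) (nat_lit 5) (nat_lit 18) (nat_lit 4) (nat_lit 322) (nat_lit 308) (nat_lit 270)) (XT.lf (nat_lit 0) (nat_lit 11948802459) (nat_lit 152) (nat_lit 10923080012) (nat_lit 76) (nat_lit 19785956835) (nat_lit 17) (nat_lit 5) (nat_lit 19) (nat_lit 5) (nat_lit 18) (nat_lit 4) (nat_lit 323) (nat_lit 308) (nat_lit 269))))))))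
noncomputable def xc63 : XT := (XT.nd (nat_lit 1716) (nat_lit 228) (nat_lit 0) (XT.nd (nat_lit 858) (nat_lit 380) (nat_lit 0) (XT.nd (nat_lit 390) (nat_lit 304) (nat_lit 0) (XT.nd (nat_lit 156) (nat_lit 228) (nat_lit 0) (XT.nd (nat_lit 78) (nat_lit 0) (nat_lit 0) (XT.lf (nat_lit 0) (nat_lit 14369096044) (nat_lit 76) (nat_lit 9353086532) (nat_lit 152) (nat_lit 23107372929) (nat_lit 16) (nat_lit 5) (nat_lit 17) (nat_lit 5) (nat_lit 18) (nat_lit 4) (nat_lit 324) (nat_lit 308) (nat_lit 268)) (XT.lf (nat_lit 0) (nat_lit 38099501417) (nat_lit 152) (nat_lit 7173218517) (nat_lit 0) (nat_lit 6228630214) (nat_lit 16) (nat_lit 5) (nat_lit 18) (nat_lit 4) (nat_lit 16) (nat_lit 4) (nat_lit 325) (nat_lit 308) (nat_lit 267))) (XT.nd (nat_lit 78) (nat_lit 152) (nat_lit 0) (XT.lf (nat_lit 0) (nat_lit 23529633572) (nat_lit 76) (nat_lit 32508961725) (nat_lit 76) (nat_lit 624551477) (nat_lit 15) (nat_lit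 4) (nat_lit 16) (nat_lit 5) (nat_lit 16) (nat_lit 4) (nat_lit 326) (nat_lit 308) (nat_lit 266)) (XT.nd (nat_lit 78) (nat_lit 76) (nat_lit 0) (XT.lf (nat_lit 0) (nat_lit 13195262689) (nat_lit 152) (nat_lit 3526368548) (nat_lit 76) (nat_lit 45733430685) (nat_lit 14) (nat_lit 5) (nat_lit 16) (nat_lit 5) (nat_lit 15) (nat_lit 4) (nat_lit 327) (nat_lit 308) (nat_lit 265)) (XT.lf (nat_lit 0) (nat_lit 30522845795) (nat_lit 152) (nat_lit 35585520715) (nat_lit 0) (nat_lit 2778132061) (nat_lit 13) (nat_lit 5) (nat_lit 15) (nat_lit 4) (nat_lit 13) (nat_lit 4) (nat_lit 328) (nat_lit 308) (nat_lit 264))))) (XT.nd (nat_lit 234) (nat_lit 152) (nat_lit 0) (XT.nd (nat_lit 78) (nat_lit 152) (nat_lit 0) (XT.lf (nat_lit 0) (nat_lit 51426725279) (nat_lit 152) (nat_lit 1035086406) (nat_lit 0) (nat_lit 23674270551) (nat_lit 13) (nat_lit 5) (nat_lit 15) (nat_lit 4) (nat_lit 13) (nat_lit 4) (nat_lit 329) (nat_lit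 308) (nat_lit 263)) (XT.nd (nat_lit 78) (nat_lit 76) (nat_lit 0) (XT.lf (nat_lit 0) (nat_lit 42457053865) (nat_lit 76) (nat_lit 34756562879) (nat_lit 76) (nat_lit 6997376854) (nat_lit 12) (nat_lit 4) (nat_lit 13) (nat_lit 5) (nat_lit 13) (nat_lit 4) (nat_lit 330) (nat_lit 308) (nat_lit 262)) (XT.lf (nat_lit 0) (nat_lit 12227129060) (nat_lit 152) (nat_lit 1476711849) (nat_lit 76) (nat_lit 79703330604) (nat_lit 11) (nat_lit 5) (nat_lit 13) (nat_lit 5) (nat_lit 12) (nat_lit 4) (nat_lit 331) (nat_lit 308) (nat_lit 261)))) (XT.nd (nat_lit 78) (nat_lit 76) (nat_lit 0) (XT.lf (nat_lit 0) (nat_lit 36178920744) (nat_lit 152) (nat_lit 55338893626) (nat_lit 0) (nat_lit 12030982346) (nat_lit 10) (nat_lit 5) (nat_lit 12) (nat_lit 4) (nat_lit 10) (nat_lit 4) (nat_lit 332) (nat_lit 308) (nat_lit 260)) (XT.nd (nat_lit 78) (nat_lit 76) (nat_lit 0) (XT.lf (nat_lit 0) (nat_lit 64447874450) (nat_lit 152)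 (nat_lit 10359047509) (nat_lit 0) (nat_lit 40296087411) (nat_lit 10) (nat_lit 5) (nat_lit 12) (nat_lit 4) (nat_lit 10) (nat_lit 4) (nat_lit 333) (nat_lit 308) (nat_lit 259)) (XT.lf (nat_lit 0) (nat_lit 45393168911) (nat_lit 76) (nat_lit 53435777375) (nat_lit 76) (nat_lit 29280643691) (nat_lit 9) (nat_lit 4) (nat_lit 10) (nat_lit 5) (nat_lit 10) (nat_lit 4) (nat_lit 334) (nat_lit 308) (nat_lit 258)))))) (XT.nd (nat_lit 390) (nat_lit 152) (nat_lit 0) (XT.nd (nat_lit 156) (nat_lit 76) (nat_lit 0) (XT.nd (nat_lit 78) (nat_lit 152) (nat_lit 0) (XT.lf (nat_lit 0) (nat_lit 110657332176) (nat_lit 76) (nat_lit 28243882945) (nat_lit 76) (nat_lit 4085839134) (nat_lit 9) (nat_lit 4) (nat_lit 10) (nat_lit 5) (nat_lit 10) (nat_lit 4) (nat_lit 335) (nat_lit 308) (nat_lit 257)) (XT.lf (nat_lit 0) (nat_lit 23914579934) (nat_lit 152) (nat_lit 132935273073) (nat_lit 0) (nat_lit 2905384843) (nat_lit 7) (nat_lit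 5) (nat_lit 9) (nat_lit 4) (nat_lit 7) (nat_lit 4) (nat_lit 336) (nat_lit 308) (nat_lit 256))) (XT.nd (nat_lit 78) (nat_lit 76) (nat_lit 0) (XT.lf (nat_lit 0) (nat_lit 58805399963) (nat_lit 152) (nat_lit 81943476835) (nat_lit 0) (nat_lit 37794291417) (nat_lit 7) (nat_lit 5) (nat_lit 9) (nat_lit 4) (nat_lit 7) (nat_lit 4) (nat_lit 337) (nat_lit 308) (nat_lit 255)) (XT.nd (nat_lit 78) (nat_lit 76) (nat_lit 0) (XT.lf (nat_lit 0) (nat_lit 98923987545) (nat_lit 152) (nat_lit 23314964931) (nat_lit 0) (nat_lit 77911215125) (nat_lit 7) (nat_lit 5) (nat_lit 9) (nat_lit 4) (nat_lit 7) (nat_lit 4) (nat_lit 338) (nat_lit 308) (nat_lit 254)) (XT.lf (nat_lit 0) (nat_lit 48406855209) (nat_lit 76) (nat_lit 98652841006) (nat_lit 76) (nat_lit 77638621739) (nat_lit 6) (nat_lit 4) (nat_lit 7) (nat_lit 5) (nat_lit 7) (nat_lit 4) (nat_lit 339) (nat_lit 308) (nat_lit 253))))) (XT.nd (nat_lit 234) (nat_lit 0)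 (nat_lit 0) (XT.nd (nat_lit 78) (nat_lit 152) (nat_lit 0) (XT.lf (nat_lit 0) (nat_lit 133497227391) (nat_lit 76) (nat_lit 70132428746) (nat_lit 76) (nat_lit 49116951351) (nat_lit 6) (nat_lit 4) (nat_lit 7) (nat_lit 5) (nat_lit 7) (nat_lit 4) (nat_lit 340) (nat_lit 308) (nat_lit 252)) (XT.nd (nat_lit 78) (nat_lit 152) (nat_lit 0) (XT.lf (nat_lit 0) (nat_lit 231342455310) (nat_lit 76) (nat_lit 37338444432) (nat_lit 76) (nat_lit 16321873012) (nat_lit 6) (nat_lit 4) (nat_lit 7) (nat_lit 5) (nat_lit 7) (nat_lit 4) (nat_lit 341) (nat_lit 308) (nat_lit 251)) (XT.lf (nat_lit 0) (nat_lit 20535619284) (nat_lit 152) (nat_lit 299012210448) (nat_lit 0) (nat_lit 2259512550) (nat_lit 4) (nat_lit 5) (nat_lit 6) (nat_lit 4) (nat_lit 4) (nat_lit 4) (nat_lit 342) (nat_lit 308) (nat_lit 250)))) (XT.nd (nat_lit 78) (nat_lit 0) (nat_lit 0) (XT.lf (nat_lit 0) (nat_lit 65963436556) (nat_lit 152) (nat_lit 249659053386)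 (nat_lit 0) (nat_lit 47686610483) (nat_lit 4) (nat_lit 5) (nat_lit 6) (nat_lit 4) (nat_lit 4) (nat_lit 4) (nat_lit 343) (nat_lit 308) (nat_lit 249)) (XT.nd (nat_lit 78) (nat_lit 0) (nat_lit 0) (XT.lf (nat_lit 0) (nat_lit 118202111355) (nat_lit 152) (nat_lit 192909848857) (nat_lit 0) (nat_lit 99924659770) (nat_lit 4) (nat_lit 5) (nat_lit 6) (nat_lit 4) (nat_lit 4) (nat_lit 4) (nat_lit 344) (nat_lit 308) (nat_lit 248)) (XT.lf (nat_lit 0) (nat_lit 178273704708) (nat_lit 152) (nat_lit 127654286340) (nat_lit 0) (nat_lit 159995709200) (nat_lit 4) (nat_lit 5) (nat_lit 6) (nat_lit 4) (nat_lit 4) (nat_lit 4) (nat_lit 345) (nat_lit 308) (nat_lit 247))))))) (XT.nd (nat_lit 858) (nat_lit 152) (nat_lit 0) (XT.nd (nat_lit 390) (nat_lit 0) (nat_lit 0) (XT.nd (nat_lit 156) (nat_lit 0) (nat_lit 0) (XT.nd (nat_lit 78) (nat_lit 76) (nat_lit 0) (XT.lf (nat_lit 0) (nat_lit 247353530400) (nat_lit 152) (nat_lit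 52615626566) (nat_lit 0) (nat_lit 229075061915) (nat_lit 4) (nat_lit 5) (nat_lit 6) (nat_lit 4) (nat_lit 4) (nat_lit 4) (nat_lit 346) (nat_lit 308) (nat_lit 246)) (XT.lf (nat_lit 0) (nat_lit 36965173519) (nat_lit 76) (nat_lit 291358625725) (nat_lit 76) (nat_lit 273079745955) (nat_lit 3) (nat_lit 4) (nat_lit 4) (nat_lit 5) (nat_lit 4) (nat_lit 4) (nat_lit 347) (nat_lit 308) (nat_lit 245))) (XT.nd (nat_lit 78) (nat_lit 0) (nat_lit 0) (XT.lf (nat_lit 0) (nat_lit 145892025540) (nat_lit 76) (nat_lit 278295869772) (nat_lit 76) (nat_lit 260016632364) (nat_lit 3) (nat_lit 4) (nat_lit 4) (nat_lit 5) (nat_lit 4) (nat_lit 4) (nat_lit 348) (nat_lit 308) (nat_lit 244)) (XT.nd (nat_lit 78) (nat_lit 0) (nat_lit 0) (XT.lf (nat_lit 0) (nat_lit 271154125349) (nat_lit 76) (nat_lit 263275675747) (nat_lit 76) (nat_lit 244996127349) (nat_lit 3) (nat_lit 4) (nat_lit 4) (nat_lit 5) (nat_lit 4) (nat_lit 4) (nat_lit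 349) (nat_lit 308) (nat_lit 243)) (XT.lf (nat_lit 0) (nat_lit 415202253159) (nat_lit 76) (nat_lit 246004170288) (nat_lit 76) (nat_lit 227724351465) (nat_lit 3) (nat_lit 4) (nat_lit 4) (nat_lit 5) (nat_lit 4) (nat_lit 4) (nat_lit 350) (nat_lit 308) (nat_lit 242))))) (XT.nd (nat_lit 234) (nat_lit 0) (nat_lit 0) (XT.nd (nat_lit 78) (nat_lit 0) (nat_lit 0) (XT.lf (nat_lit 0) (nat_lit 580854741906) (nat_lit 76) (nat_lit 226143432637) (nat_lit 76) (nat_lit 207863378660) (nat_lit 3) (nat_lit 4) (nat_lit 4) (nat_lit 5) (nat_lit 4) (nat_lit 4) (nat_lit 351) (nat_lit 308) (nat_lit 241)) (XT.nd (nat_lit 78) (nat_lit 0) (nat_lit 0) (XT.lf (nat_lit 0) (nat_lit 771352618543) (nat_lit 76) (nat_lit 203304883143) (nat_lit 76) (nat_lit 185024624685) (nat_lit 3) (nat_lit 4) (nat_lit 4) (nat_lit 5) (nat_lit 4) (nat_lit 4) (nat_lit 352) (nat_lit 308) (nat_lit 240)) (XT.lf (nat_lit 0) (nat_lit 990423015440)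 (nat_lit 76) (nat_lit 177041680620) (nat_lit 76) (nat_lit 158761244353) (nat_lit 3) (nat_lit 4) (nat_lit 4) (nat_lit 5) (nat_lit 4) (nat_lit 4) (nat_lit 353) (nat_lit 308) (nat_lit 239)))) (XT.nd (nat_lit 78) (nat_lit 0) (nat_lit 0) (XT.lf (nat_lit 0) (nat_lit 1242352092536) (nat_lit 76) (nat_lit 146839979803) (nat_lit 76) (nat_lit 128559388918) (nat_lit 3) (nat_lit 4) (nat_lit 4) (nat_lit 5) (nat_lit 4) (nat_lit 4) (nat_lit 354) (nat_lit 308) (nat_lit 238)) (XT.nd (nat_lit 78) (nat_lit 0) (nat_lit 0) (XT.lf (nat_lit 0) (nat_lit 1532068896991) (nat_lit 76) (nat_lit 112108877848) (nat_lit 76) (nat_lit 93828152514) (nat_lit 3) (nat_lit 4) (nat_lit 4) (nat_lit 5) (nat_lit 4) (nat_lit 4) (nat_lit 355) (nat_lit 308) (nat_lit 237)) (XT.lf (nat_lit 0) (nat_lit 1865241801066) (nat_lit 76) (nat_lit 72168853196) (nat_lit 76) (nat_lit 53888010950) (nat_lit 3) (nat_lit 4) (nat_lit 4) (nat_lit 5) (nat_lit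 4) (nat_lit 4) (nat_lit 356) (nat_lit 308) (nat_lit 236)))))) (XT.nd (nat_lit 468) (nat_lit 0) (nat_lit 0) (XT.nd (nat_lit 234) (nat_lit 0) (nat_lit 0) (XT.nd (nat_lit 78) (nat_lit 152) (nat_lit 0) (XT.lf (nat_lit 0) (nat_lit 2248389405058) (nat_lit 76) (nat_lit 26238470582) (nat_lit 76) (nat_lit 7957526673) (nat_lit 3) (nat_lit 4) (nat_lit 4) (nat_lit 5) (nat_lit 4) (nat_lit 4) (nat_lit 357) (nat_lit 308) (nat_lit 235)) (XT.nd (nat_lit 78) (nat_lit 0) (nat_lit 0) (XT.lf (nat_lit 0) (nat_lit 45370719182) (nat_lit 152) (nat_lit 2541766288010) (nat_lit 0) (nat_lit 29474169345) (nat_lit 1) (nat_lit 5) (nat_lit 3) (nat_lit 4) (nat_lit 1) (nat_lit 4) (nat_lit 358) (nat_lit 308) (nat_lit 234)) (XT.lf (nat_lit 0) (nat_lit 109005056396) (nat_lit 152) (nat_lit 2798102248306) (nat_lit 0) (nat_lit 93108439714) (nat_lit 1) (nat_lit 5) (nat_lit 3) (nat_lit 4) (nat_lit 1) (nat_lit 4) (nat_lit 359) (nat_lit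 308) (nat_lit 233)))) (XT.nd (nat_lit 78) (nat_lit 0) (nat_lit 0) (XT.lf (nat_lit 0) (nat_lit 182184078729) (nat_lit 152) (nat_lit 3092889584690) (nat_lit 0) (nat_lit 166287403920) (nat_lit 1) (nat_lit 5) (nat_lit 3) (nat_lit 4) (nat_lit 1) (nat_lit 4) (nat_lit 360) (nat_lit 308) (nat_lit 232)) (XT.nd (nat_lit 78) (nat_lit 0) (nat_lit 0) (XT.lf (nat_lit 0) (nat_lit 266339549659) (nat_lit 152) (nat_lit 3431895875483) (nat_lit 0) (nat_lit 250442824306) (nat_lit 1) (nat_lit 5) (nat_lit 3) (nat_lit 4) (nat_lit 1) (nat_lit 4) (nat_lit 361) (nat_lit 308) (nat_lit 231)) (XT.lf (nat_lit 0) (nat_lit 363117989270) (nat_lit 152) (nat_lit 3821753852461) (nat_lit 0) (nat_lit 347221219965) (nat_lit 1) (nat_lit 5) (nat_lit 3) (nat_lit 4) (nat_lit 1) (nat_lit 4) (nat_lit 362) (nat_lit 308) (nat_lit 230))))) (XT.nd (nat_lit 234) (nat_lit 0) (nat_lit 0) (XT.nd (nat_lit 78) (nat_lit 0) (nat_lit 0) (XT.lf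 (nat_lit 0) (nat_lit 474412888772) (nat_lit 152) (nat_lit 4270091171695) (nat_lit 0) (nat_lit 458516081249) (nat_lit 1) (nat_lit 5) (nat_lit 3) (nat_lit 4) (nat_lit 1) (nat_lit 4) (nat_lit 363) (nat_lit 308) (nat_lit 229)) (XT.nd (nat_lit 78) (nat_lit 0) (nat_lit 0) (XT.lf (nat_lit 0) (nat_lit 602401757069) (nat_lit 152) (nat_lit 4785679650301) (nat_lit 0) (nat_lit 586504916311) (nat_lit 1) (nat_lit 5) (nat_lit 3) (nat_lit 4) (nat_lit 1) (nat_lit 4) (nat_lit 364) (nat_lit 308) (nat_lit 228)) (XT.lf (nat_lit 0) (nat_lit 749588724192) (nat_lit 152) (nat_lit 5378606888948) (nat_lit 0) (nat_lit 733691854535) (nat_lit 1) (nat_lit 5) (nat_lit 3) (nat_lit 4) (nat_lit 1) (nat_lit 4) (nat_lit 365) (nat_lit 308) (nat_lit 227)))) (XT.nd (nat_lit 78) (nat_lit 0) (nat_lit 0) (XT.lf (nat_lit 0) (nat_lit 918853535150) (nat_lit 152) (nat_lit 6060473637956) (nat_lit 0) (nat_lit 902956640364) (nat_lit 1)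 (nat_lit 5) (nat_lit 3) (nat_lit 4) (nat_lit 1) (nat_lit 4) (nat_lit 366) (nat_lit 308) (nat_lit 226)) (XT.nd (nat_lit 78) (nat_lit 0) (nat_lit 0) (XT.lf (nat_lit 0) (nat_lit 1113507892766) (nat_lit 152) (nat_lit 6844620768502) (nat_lit 0) (nat_lit 1097610976128) (nat_lit 1) (nat_lit 5) (nat_lit 3) (nat_lit 4) (nat_lit 1) (nat_lit 4) (nat_lit 367) (nat_lit 308) (nat_lit 225)) (XT.lf (nat_lit 0) (nat_lit 1337360251863) (nat_lit 152) (nat_lit 7746390289663) (nat_lit 0) (nat_lit 1321463316224) (nat_lit 1) (nat_lit 5) (nat_lit 3) (nat_lit 4) (nat_lit 1) (nat_lit 4) (nat_lit 368) (nat_lit 308) (nat_lit 224))))))))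
noncomputable def xc64 : XT := (XT.nd (nat_lit 42198) (nat_lit 0) (nat_lit 912) (XT.nd (nat_lit 858) (nat_lit 0) (nat_lit 0) (XT.nd (nat_lit 390) (nat_lit 0) (nat_lit 0) (XT.nd (nat_lit 156) (nat_lit 0) (nat_lit 0) (XT.nd (nat_lit 78) (nat_lit 0) (nat_lit 0) (XT.lf (nat_lit 0) (nat_lit 1594790332511) (nat_lit 152) (nat_lit 8783425518155) (nat_lit 0) (nat_lit 1578893380349) (nat_lit 1) (nat_lit 5) (nat_lit 3) (nat_lit 4) (nat_lit 1) (nat_lit 4) (nat_lit 369) (nat_lit 308) (nat_lit 223)) (XT.lf (nat_lit 0) (nat_lit 1890834810200) (nat_lit 152) (nat_lit 9976016273667) (nat_lit 0) (nat_lit 1874937843670) (nat_lit 1) (nat_lit 5) (nat_lit 3) (nat_lit 4) (nat_lit 1) (nat_lit 4) (nat_lit 370) (nat_lit 308) (nat_lit 222))) (XT.nd (nat_lit 78) (nat_lit 0) (nat_lit 0) (XT.lf (nat_lit 0) (nat_lit 2231285859494) (nat_lit 152) (nat_lit 11347495853590) (nat_lit 0) (nat_lit 2215388880470) (nat_lit 1)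 (nat_lit 5) (nat_lit 3) (nat_lit 4) (nat_lit 1) (nat_lit 4) (nat_lit 371) (nat_lit 308) (nat_lit 221)) (XT.nd (nat_lit 78) (nat_lit 0) (nat_lit 0) (XT.lf (nat_lit 0) (nat_lit 2622804479184) (nat_lit 152) (nat_lit 12924697554052) (nat_lit 0) (nat_lit 2606907489295) (nat_lit 1) (nat_lit 5) (nat_lit 3) (nat_lit 4) (nat_lit 1) (nat_lit 4) (nat_lit 372) (nat_lit 308) (nat_lit 220)) (XT.lf (nat_lit 0) (nat_lit 3073050816176) (nat_lit 152) (nat_lit 14738479669193) (nat_lit 0) (nat_lit 3057153816840) (nat_lit 1) (nat_lit 5) (nat_lit 3) (nat_lit 4) (nat_lit 1) (nat_lit 4) (nat_lit 373) (nat_lit 308) (nat_lit 219))))) (XT.nd (nat_lit 234) (nat_lit 0) (nat_lit 0) (XT.nd (nat_lit 78) (nat_lit 0) (nat_lit 0) (XT.lf (nat_lit 0) (nat_lit 3590834037933) (nat_lit 152) (nat_lit 16824329240396) (nat_lit 0) (nat_lit 3574937030382) (nat_lit 1) (nat_lit 5) (nat_lit 3) (nat_lit 4) (nat_lit 1) (nat_lit 4) (nat_lit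 374) (nat_lit 308) (nat_lit 218)) (XT.nd (nat_lit 78) (nat_lit 0) (nat_lit 0) (XT.lf (nat_lit 0) (nat_lit 4186284685750) (nat_lit 152) (nat_lit 19223056367967) (nat_lit 0) (nat_lit 4170387671057) (nat_lit 1) (nat_lit 5) (nat_lit 3) (nat_lit 4) (nat_lit 1) (nat_lit 4) (nat_lit 375) (nat_lit 308) (nat_lit 217)) (XT.lf (nat_lit 0) (nat_lit 4871052880999) (nat_lit 152) (nat_lit 21981592669621) (nat_lit 0) (nat_lit 4855155860093) (nat_lit 1) (nat_lit 5) (nat_lit 3) (nat_lit 4) (nat_lit 1) (nat_lit 4) (nat_lit 376) (nat_lit 308) (nat_lit 216)))) (XT.nd (nat_lit 78) (nat_lit 0) (nat_lit 0) (XT.lf (nat_lit 0) (nat_lit 5658536262281) (nat_lit 152) (nat_lit 25153909507779) (nat_lit 0) (nat_lit 5642639235974) (nat_lit 1) (nat_lit 5) (nat_lit 3) (nat_lit 4) (nat_lit 1) (nat_lit 4) (nat_lit 377) (nat_lit 308) (nat_lit 215)) (XT.nd (nat_lit 78) (nat_lit 0) (nat_lit 0) (XT.lf (nat_lit 0) (nat_lit 6564142113143)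 (nat_lit 152) (nat_lit 28802073951015) (nat_lit 0) (nat_lit 6548245082139) (nat_lit 1) (nat_lit 5) (nat_lit 3) (nat_lit 4) (nat_lit 1) (nat_lit 4) (nat_lit 378) (nat_lit 308) (nat_lit 214)) (XT.lf (nat_lit 0) (nat_lit 7605588808929) (nat_lit 152) (nat_lit 32997463129740) (nat_lit 0) (nat_lit 7589691773841) (nat_lit 1) (nat_lit 5) (nat_lit 3) (nat_lit 4) (nat_lit 1) (nat_lit 4) (nat_lit 379) (nat_lit 308) (nat_lit 213)))))) (XT.nd (nat_lit 390) (nat_lit 0) (nat_lit 0) (XT.nd (nat_lit 156) (nat_lit 0) (nat_lit 0) (XT.nd (nat_lit 78) (nat_lit 0) (nat_lit 0) (XT.lf (nat_lit 0) (nat_lit 8803252480643) (nat_lit 152) (nat_lit 37822160745277) (nat_lit 0) (nat_lit 8787355442003) (nat_lit 1) (nat_lit 5) (nat_lit 3) (nat_lit 4) (nat_lit 1) (nat_lit 4) (nat_lit 380) (nat_lit 308) (nat_lit 212)) (XT.lf (nat_lit 0) (nat_lit 10180565678383) (nat_lit 152) (nat_lit 43370563055322) (nat_lit 0) (nat_lit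 10164668636655) (nat_lit 1) (nat_lit 5) (nat_lit 3) (nat_lit 4) (nat_lit 1) (nat_lit 4) (nat_lit 381) (nat_lit 308) (nat_lit 211))) (XT.nd (nat_lit 78) (nat_lit 0) (nat_lit 0) (XT.lf (nat_lit 0) (nat_lit 11764475834279) (nat_lit 152) (nat_lit 49751225757244) (nat_lit 0) (nat_lit 11748578789866) (nat_lit 1) (nat_lit 5) (nat_lit 3) (nat_lit 4) (nat_lit 1) (nat_lit 4) (nat_lit 382) (nat_lit 308) (nat_lit 210)) (XT.nd (nat_lit 78) (nat_lit 0) (nat_lit 0) (XT.lf (nat_lit 0) (nat_lit 13585972494860) (nat_lit 152) (nat_lit 57088987903907) (nat_lit 0) (nat_lit 13570075448111) (nat_lit 1) (nat_lit 5) (nat_lit 3) (nat_lit 4) (nat_lit 1) (nat_lit 4) (nat_lit 383) (nat_lit 308) (nat_lit 209)) (XT.lf (nat_lit 0) (nat_lit 15680693638268) (nat_lit 152) (nat_lit 65527414406877) (nat_lit 0) (nat_lit 15664796589488) (nat_lit 1) (nat_lit 5) (nat_lit 3) (nat_lit 4) (nat_lit 1) (nat_lit 4) (nat_lit 384) (nat_lit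 308) (nat_lit 208))))) (XT.nd (nat_lit 1326) (nat_lit 0) (nat_lit 0) (XT.nd (nat_lit 78) (nat_lit 0) (nat_lit 0) (XT.lf (nat_lit 0) (nat_lit 18089622939047) (nat_lit 152) (nat_lit 75231604915125) (nat_lit 0) (nat_lit 18073725888502) (nat_lit 1) (nat_lit 5) (nat_lit 3) (nat_lit 4) (nat_lit 1) (nat_lit 4) (nat_lit 385) (nat_lit 308) (nat_lit 207)) (XT.nd (nat_lit 1170) (nat_lit 0) (nat_lit 0) (XT.lf (nat_lit 0) (nat_lit 20859891622647) (nat_lit 152) (nat_lit 86391424025551) (nat_lit 0) (nat_lit 20843994570566) (nat_lit 1) (nat_lit 5) (nat_lit 3) (nat_lit 4) (nat_lit 1) (nat_lit 4) (nat_lit 386) (nat_lit 308) (nat_lit 206)) (XT.lf (nat_lit 0) (nat_lit 172441990244947) (nat_lit 152) (nat_lit 697028523127356) (nat_lit 0) (nat_lit 172426093183889) (nat_lit 1) (nat_lit 5) (nat_lit 3) (nat_lit 4) (nat_lit 1) (nat_lit 4) (nat_lit 401) (nat_lit 308) (nat_lit 191)))) (XT.nd (nat_lit 78) (nat_lit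 0) (nat_lit 0) (XT.lf (nat_lit 0) (nat_lit 198365113951223) (nat_lit 152) (nat_lit 801457880124073) (nat_lit 0) (nat_lit 198349216890002) (nat_lit 1) (nat_lit 5) (nat_lit 3) (nat_lit 4) (nat_lit 1) (nat_lit 4) (nat_lit 402) (nat_lit 308) (nat_lit 190)) (XT.nd (nat_lit 78) (nat_lit 0) (nat_lit 0) (XT.lf (nat_lit 0) (nat_lit 228176706212299) (nat_lit 152) (nat_lit 921551640672712) (nat_lit 0) (nat_lit 228160809150932) (nat_lit 1) (nat_lit 5) (nat_lit 3) (nat_lit 4) (nat_lit 1) (nat_lit 4) (nat_lit 403) (nat_lit 308) (nat_lit 189)) (XT.lf (nat_lit 0) (nat_lit 262460037311540) (nat_lit 152) (nat_lit 1059659465305742) (nat_lit 0) (nat_lit 262444140250052) (nat_lit 1) (nat_lit 5) (nat_lit 3) (nat_lit 4) (nat_lit 1) (nat_lit 4) (nat_lit 404) (nat_lit 308) (nat_lit 188))))))) (XT.nd (nat_lit 858) (nat_lit 684) (nat_lit 0) (XT.nd (nat_lit 390) (nat_lit 456) (nat_lit 0) (XT.nd (nat_lit 156) (nat_lit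 0) (nat_lit 76) (XT.nd (nat_lit 78) (nat_lit 0) (nat_lit 0) (XT.lf (nat_lit 0) (nat_lit 1008934490) (nat_lit 380) (nat_lit 3119828691) (nat_lit 380) (nat_lit 3119828691) (nat_lit 28) (nat_lit 3) (nat_lit 33) (nat_lit 3) (nat_lit 33) (nat_lit 5) (nat_lit 309) (nat_lit 309) (nat_lit 282)) (XT.lf (nat_lit 76) (nat_lit 876077594) (nat_lit 0) (nat_lit 1624408171) (nat_lit 380) (nat_lit 13033803036) (nat_lit 29) (nat_lit 5) (nat_lit 28) (nat_lit 3) (nat_lit 33) (nat_lit 5) (nat_lit 310) (nat_lit 309) (nat_lit 281))) (XT.nd (nat_lit 78) (nat_lit 0) (nat_lit 0) (XT.lf (nat_lit 0) (nat_lit 3592746446) (nat_lit 304) (nat_lit 7223972851) (nat_lit 380) (nat_lit 5829740259) (nat_lit 29) (nat_lit 5) (nat_lit 33) (nat_lit 5) (nat_lit 34) (nat_lit 5) (nat_lit 311) (nat_lit 309) (nat_lit 280)) (XT.nd (nat_lit 78) (nat_lit 0) (nat_lit 76) (XT.lf (nat_lit 76) (nat_lit 1329704563) (nat_lit 0) (nat_lit 3605429760)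 (nat_lit 380) (nat_lit 12977454599) (nat_lit 30) (nat_lit 5) (nat_lit 29) (nat_lit 5) (nat_lit 34) (nat_lit 5) (nat_lit 312) (nat_lit 309) (nat_lit 279)) (XT.lf (nat_lit 0) (nat_lit 7027289743) (nat_lit 304) (nat_lit 7587392742) (nat_lit 76) (nat_lit 4671760073) (nat_lit 30) (nat_lit 5) (nat_lit 34) (nat_lit 5) (nat_lit 31) (nat_lit 5) (nat_lit 313) (nat_lit 309) (nat_lit 278))))) (XT.nd (nat_lit 234) (nat_lit 152) (nat_lit 0) (XT.nd (nat_lit 78) (nat_lit 152) (nat_lit 0) (XT.lf (nat_lit 0) (nat_lit 2798700495) (nat_lit 304) (nat_lit 6886238346) (nat_lit 380) (nat_lit 11143742472) (nat_lit 26) (nat_lit 5) (nat_lit 30) (nat_lit 5) (nat_lit 31) (nat_lit 5) (nat_lit 314) (nat_lit 309) (nat_lit 277)) (XT.nd (nat_lit 78) (nat_lit 152) (nat_lit 0) (XT.lf (nat_lit 0) (nat_lit 13206881186) (nat_lit 380) (nat_lit 7088518556) (nat_lit 76) (nat_lit 2237059366) (nat_lit 26) (nat_lit 5) (nat_lit 31)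 (nat_lit 5) (nat_lit 27) (nat_lit 5) (nat_lit 315) (nat_lit 309) (nat_lit 276)) (XT.lf (nat_lit 0) (nat_lit 5633503063) (nat_lit 152) (nat_lit 12156337626) (nat_lit 228) (nat_lit 6622097587) (nat_lit 24) (nat_lit 5) (nat_lit 26) (nat_lit 5) (nat_lit 27) (nat_lit 5) (nat_lit 316) (nat_lit 309) (nat_lit 275)))) (XT.nd (nat_lit 78) (nat_lit 152) (nat_lit 0) (XT.lf (nat_lit 0) (nat_lit 21027761541) (nat_lit 152) (nat_lit 2376914679) (nat_lit 228) (nat_lit 3117036176) (nat_lit 24) (nat_lit 5) (nat_lit 26) (nat_lit 5) (nat_lit 27) (nat_lit 5) (nat_lit 317) (nat_lit 309) (nat_lit 274)) (XT.nd (nat_lit 78) (nat_lit 0) (nat_lit 0) (XT.lf (nat_lit 0) (nat_lit 1639996962) (nat_lit 152) (nat_lit 18605505756) (nat_lit 76) (nat_lit 8575668297) (nat_lit 22) (nat_lit 5) (nat_lit 24) (nat_lit 5) (nat_lit 23) (nat_lit 5) (nat_lit 318) (nat_lit 309) (nat_lit 273)) (XT.lf (nat_lit 0) (nat_lit 7183273503)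 (nat_lit 152) (nat_lit 2831004067) (nat_lit 76) (nat_lit 21370259193) (nat_lit 22) (nat_lit 5) (nat_lit 24) (nat_lit 5) (nat_lit 23) (nat_lit 5) (nat_lit 319) (nat_lit 309) (nat_lit 272)))))) (XT.nd (nat_lit 390) (nat_lit 304) (nat_lit 0) (XT.nd (nat_lit 156) (nat_lit 152) (nat_lit 0) (XT.nd (nat_lit 78) (nat_lit 76) (nat_lit 0) (XT.lf (nat_lit 0) (nat_lit 14338564150) (nat_lit 228) (nat_lit 17561469951) (nat_lit 76) (nat_lit 2315316541) (nat_lit 20) (nat_lit 5) (nat_lit 23) (nat_lit 5) (nat_lit 21) (nat_lit 4) (nat_lit 320) (nat_lit 309) (nat_lit 271)) (XT.lf (nat_lit 0) (nat_lit 1556490347) (nat_lit 76) (nat_lit 21688714237) (nat_lit 152) (nat_lit 14123892430) (nat_lit 19) (nat_lit 5) (nat_lit 20) (nat_lit 5) (nat_lit 21) (nat_lit 4) (nat_lit 321) (nat_lit 309) (nat_lit 270))) (XT.nd (nat_lit 78) (nat_lit 152) (nat_lit 0) (XT.lf (nat_lit 0) (nat_lit 25487905999) (nat_lit 76) (nat_lit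 8900855566) (nat_lit 152) (nat_lit 6472022085) (nat_lit 19) (nat_lit 5) (nat_lit 20) (nat_lit 5) (nat_lit 21) (nat_lit 4) (nat_lit 322) (nat_lit 309) (nat_lit 269)) (XT.nd (nat_lit 78) (nat_lit 0) (nat_lit 0) (XT.lf (nat_lit 0) (nat_lit 2730852235) (nat_lit 152) (nat_lit 36277894859) (nat_lit 76) (nat_lit 5761464496) (nat_lit 17) (nat_lit 5) (nat_lit 19) (nat_lit 5) (nat_lit 18) (nat_lit 4) (nat_lit 323) (nat_lit 309) (nat_lit 268)) (XT.lf (nat_lit 0) (nat_lit 13902277406) (nat_lit 152) (nat_lit 12277236128) (nat_lit 76) (nat_lit 22852712506) (nat_lit 17) (nat_lit 5) (nat_lit 19) (nat_lit 5) (nat_lit 18) (nat_lit 4) (nat_lit 324) (nat_lit 309) (nat_lit 267))))) (XT.nd (nat_lit 234) (nat_lit 152) (nat_lit 0) (XT.nd (nat_lit 78) (nat_lit 76) (nat_lit 0) (XT.lf (nat_lit 0) (nat_lit 16795843342) (nat_lit 76) (nat_lit 10636038424) (nat_lit 152) (nat_lit 26399300447) (nat_lit 16) (nat_lit 5)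 (nat_lit 17) (nat_lit 5) (nat_lit 18) (nat_lit 4) (nat_lit 325) (nat_lit 309) (nat_lit 266)) (XT.nd (nat_lit 78) (nat_lit 76) (nat_lit 0) (XT.lf (nat_lit 0) (nat_lit 43950375505) (nat_lit 152) (nat_lit 7997705550) (nat_lit 0) (nat_lit 7257991591) (nat_lit 16) (nat_lit 5) (nat_lit 18) (nat_lit 4) (nat_lit 16) (nat_lit 4) (nat_lit 326) (nat_lit 309) (nat_lit 265)) (XT.lf (nat_lit 0) (nat_lit 27299142728) (nat_lit 76) (nat_lit 37273398820) (nat_lit 76) (nat_lit 570777443) (nat_lit 15) (nat_lit 4) (nat_lit 16) (nat_lit 5) (nat_lit 16) (nat_lit 4) (nat_lit 327) (nat_lit 309) (nat_lit 264)))) (XT.nd (nat_lit 78) (nat_lit 76) (nat_lit 0) (XT.lf (nat_lit 0) (nat_lit 15291360036) (nat_lit 152) (nat_lit 3835099440) (nat_lit 76) (nat_lit 52679282883) (nat_lit 14) (nat_lit 5) (nat_lit 16) (nat_lit 5) (nat_lit 15) (nat_lit 4) (nat_lit 328) (nat_lit 309) (nat_lit 263)) (XT.nd (nat_lit 78) (nat_lit 0)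 (nat_lit 0) (XT.lf (nat_lit 0) (nat_lit 35215687511) (nat_lit 152) (nat_lit 40700681196) (nat_lit 0) (nat_lit 3285892283) (nat_lit 13) (nat_lit 5) (nat_lit 15) (nat_lit 4) (nat_lit 13) (nat_lit 4) (nat_lit 329) (nat_lit 309) (nat_lit 262)) (XT.lf (nat_lit 0) (nat_lit 59240225242) (nat_lit 152) (nat_lit 996725344) (nat_lit 0) (nat_lit 27304576711) (nat_lit 13) (nat_lit 5) (nat_lit 15) (nat_lit 4) (nat_lit 13) (nat_lit 4) (nat_lit 330) (nat_lit 309) (nat_lit 261))))))))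
noncomputable def xc65 : XT := (XT.nd (nat_lit 1716) (nat_lit 152) (nat_lit 0) (XT.nd (nat_lit 858) (nat_lit 228) (nat_lit 0) (XT.nd (nat_lit 390) (nat_lit 228) (nat_lit 0) (XT.nd (nat_lit 156) (nat_lit 152) (nat_lit 0) (XT.nd (nat_lit 78) (nat_lit 76) (nat_lit 0) (XT.lf (nat_lit 0) (nat_lit 49010434876) (nat_lit 76) (nat_lit 39879391566) (nat_lit 76) (nat_lit 7938653206) (nat_lit 12) (nat_lit 4) (nat_lit 13) (nat_lit 5) (nat_lit 13) (nat_lit 4) (nat_lit 331) (nat_lit 309) (nat_lit 260)) (XT.lf (nat_lit 0) (nat_lit 14147012222) (nat_lit 152) (nat_lit 1529088018) (nat_lit 76) (nat_lit 91729246262) (nat_lit 11) (nat_lit 5) (nat_lit 13) (nat_lit 5) (nat_lit 12) (nat_lit 4) (nat_lit 332) (nat_lit 309) (nat_lit 259))) (XT.nd (nat_lit 78) (nat_lit 76) (nat_lit 0) (XT.lf (nat_lit 0) (nat_lit 41690382867) (nat_lit 152) (nat_lit 63469382341) (nat_lit 0) (nat_lit 13908632485) (nat_lit 10) (nat_lit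 5) (nat_lit 12) (nat_lit 4) (nat_lit 10) (nat_lit 4) (nat_lit 333) (nat_lit 309) (nat_lit 258)) (XT.nd (nat_lit 78) (nat_lit 76) (nat_lit 0) (XT.lf (nat_lit 0) (nat_lit 74188641715) (nat_lit 152) (nat_lit 11764778263) (nat_lit 0) (nat_lit 46403981207) (nat_lit 10) (nat_lit 5) (nat_lit 12) (nat_lit 4) (nat_lit 10) (nat_lit 4) (nat_lit 334) (nat_lit 309) (nat_lit 257)) (XT.lf (nat_lit 0) (nat_lit 52343537603) (nat_lit 76) (nat_lit 61379593334) (nat_lit 76) (nat_lit 33592402281) (nat_lit 9) (nat_lit 4) (nat_lit 10) (nat_lit 5) (nat_lit 10) (nat_lit 4) (nat_lit 335) (nat_lit 309) (nat_lit 256))))) (XT.nd (nat_lit 234) (nat_lit 76) (nat_lit 0) (XT.nd (nat_lit 78) (nat_lit 152) (nat_lit 0) (XT.lf (nat_lit 0) (nat_lit 127378882747) (nat_lit 76) (nat_lit 32418247432) (nat_lit 76) (nat_lit 4628855906) (nat_lit 9) (nat_lit 4) (nat_lit 10) (nat_lit 5) (nat_lit 10) (nat_lit 4) (nat_lit 336) (nat_lit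 309) (nat_lit 255)) (XT.nd (nat_lit 78) (nat_lit 0) (nat_lit 0) (XT.lf (nat_lit 0) (nat_lit 27564815146) (nat_lit 152) (nat_lit 152745775767) (nat_lit 0) (nat_lit 3398462989) (nat_lit 7) (nat_lit 5) (nat_lit 9) (nat_lit 4) (nat_lit 7) (nat_lit 4) (nat_lit 337) (nat_lit 309) (nat_lit 254)) (XT.lf (nat_lit 0) (nat_lit 67681034498) (nat_lit 152) (nat_lit 94122138997) (nat_lit 0) (nat_lit 43513235494) (nat_lit 7) (nat_lit 5) (nat_lit 9) (nat_lit 4) (nat_lit 7) (nat_lit 4) (nat_lit 338) (nat_lit 309) (nat_lit 253)))) (XT.nd (nat_lit 78) (nat_lit 76) (nat_lit 0) (XT.lf (nat_lit 0) (nat_lit 113810259191) (nat_lit 152) (nat_lit 26714071094) (nat_lit 0) (nat_lit 89641202058) (nat_lit 7) (nat_lit 5) (nat_lit 9) (nat_lit 4) (nat_lit 7) (nat_lit 4) (nat_lit 339) (nat_lit 309) (nat_lit 252)) (XT.nd (nat_lit 78) (nat_lit 0) (nat_lit 0) (XT.lf (nat_lit 0) (nat_lit 55761561222) (nat_lit 76) (nat_lit 113402423649)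 (nat_lit 76) (nat_lit 89232272493) (nat_lit 6) (nat_lit 4) (nat_lit 7) (nat_lit 5) (nat_lit 7) (nat_lit 4) (nat_lit 340) (nat_lit 309) (nat_lit 251)) (XT.lf (nat_lit 0) (nat_lit 153603270397) (nat_lit 76) (nat_lit 80610255225) (nat_lit 76) (nat_lit 56439152743) (nat_lit 6) (nat_lit 4) (nat_lit 7) (nat_lit 5) (nat_lit 7) (nat_lit 4) (nat_lit 341) (nat_lit 309) (nat_lit 250)))))) (XT.nd (nat_lit 390) (nat_lit 76) (nat_lit 0) (XT.nd (nat_lit 156) (nat_lit 0) (nat_lit 0) (XT.nd (nat_lit 78) (nat_lit 152) (nat_lit 0) (XT.lf (nat_lit 0) (nat_lit 266114657430) (nat_lit 76) (nat_lit 42902656459) (nat_lit 76) (nat_lit 18730726738) (nat_lit 6) (nat_lit 4) (nat_lit 7) (nat_lit 5) (nat_lit 7) (nat_lit 4) (nat_lit 342) (nat_lit 309) (nat_lit 249)) (XT.lf (nat_lit 0) (nat_lit 23651656939) (nat_lit 152) (nat_lit 343789465708) (nat_lit 0) (nat_lit 2631962104) (nat_lit 4) (nat_lit 5) (nat_lit 6) (nat_lit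 4) (nat_lit 4) (nat_lit 4) (nat_lit 343) (nat_lit 309) (nat_lit 248))) (XT.nd (nat_lit 78) (nat_lit 0) (nat_lit 0) (XT.lf (nat_lit 0) (nat_lit 75888990963) (nat_lit 152) (nat_lit 287043062431) (nat_lit 0) (nat_lit 54868752205) (nat_lit 4) (nat_lit 5) (nat_lit 6) (nat_lit 4) (nat_lit 4) (nat_lit 4) (nat_lit 344) (nat_lit 309) (nat_lit 247)) (XT.nd (nat_lit 78) (nat_lit 0) (nat_lit 0) (XT.lf (nat_lit 0) (nat_lit 135959418426) (nat_lit 152) (nat_lit 221789935784) (nat_lit 0) (nat_lit 114938706691) (nat_lit 4) (nat_lit 5) (nat_lit 6) (nat_lit 4) (nat_lit 4) (nat_lit 4) (nat_lit 345) (nat_lit 309) (nat_lit 246)) (XT.lf (nat_lit 0) (nat_lit 205038230299) (nat_lit 152) (nat_lit 146753394159) (nat_lit 0) (nat_lit 184017107280) (nat_lit 4) (nat_lit 5) (nat_lit 6) (nat_lit 4) (nat_lit 4) (nat_lit 4) (nat_lit 346) (nat_lit 309) (nat_lit 245))))) (XT.nd (nat_lit 234) (nat_lit 0) (nat_lit 0) (XT.nd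 (nat_lit 78) (nat_lit 76) (nat_lit 0) (XT.lf (nat_lit 0) (nat_lit 284476968555) (nat_lit 152) (nat_lit 60465331306) (nat_lit 0) (nat_lit 263455487898) (nat_lit 4) (nat_lit 5) (nat_lit 6) (nat_lit 4) (nat_lit 4) (nat_lit 4) (nat_lit 347) (nat_lit 309) (nat_lit 244)) (XT.nd (nat_lit 78) (nat_lit 0) (nat_lit 0) (XT.lf (nat_lit 0) (nat_lit 42550650644) (nat_lit 76) (nat_lit 335041150436) (nat_lit 76) (nat_lit 314019358789) (nat_lit 3) (nat_lit 4) (nat_lit 4) (nat_lit 5) (nat_lit 4) (nat_lit 4) (nat_lit 348) (nat_lit 309) (nat_lit 243)) (XT.lf (nat_lit 0) (nat_lit 167811221630) (nat_lit 76) (nat_lit 320021755328) (nat_lit 76) (nat_lit 298999693254) (nat_lit 3) (nat_lit 4) (nat_lit 4) (nat_lit 5) (nat_lit 4) (nat_lit 4) (nat_lit 349) (nat_lit 309) (nat_lit 242)))) (XT.nd (nat_lit 78) (nat_lit 0) (nat_lit 0) (XT.lf (nat_lit 0) (nat_lit 311858020028) (nat_lit 76) (nat_lit 302750944579) (nat_lit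 76) (nat_lit 281728647352) (nat_lit 3) (nat_lit 4) (nat_lit 4) (nat_lit 5) (nat_lit 4) (nat_lit 4) (nat_lit 350) (nat_lit 309) (nat_lit 241)) (XT.nd (nat_lit 78) (nat_lit 0) (nat_lit 0) (XT.lf (nat_lit 0) (nat_lit 477509352765) (nat_lit 76) (nat_lit 282890811022) (nat_lit 76) (nat_lit 261868309315) (nat_lit 3) (nat_lit 4) (nat_lit 4) (nat_lit 5) (nat_lit 4) (nat_lit 4) (nat_lit 351) (nat_lit 309) (nat_lit 240)) (XT.lf (nat_lit 0) (nat_lit 668006224177) (nat_lit 76) (nat_lit 260052786829) (nat_lit 76) (nat_lit 239030107312) (nat_lit 3) (nat_lit 4) (nat_lit 4) (nat_lit 5) (nat_lit 4) (nat_lit 4) (nat_lit 352) (nat_lit 309) (nat_lit 239))))))) (XT.nd (nat_lit 858) (nat_lit 0) (nat_lit 0) (XT.nd (nat_lit 390) (nat_lit 152) (nat_lit 0) (XT.nd (nat_lit 156) (nat_lit 0) (nat_lit 0) (XT.nd (nat_lit 78) (nat_lit 0) (nat_lit 0) (XT.lf (nat_lit 0) (nat_lit 887075746964) (nat_lit 76) (nat_lit 233790041089)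 (nat_lit 76) (nat_lit 212767206955) (nat_lit 3) (nat_lit 4) (nat_lit 4) (nat_lit 5) (nat_lit 4) (nat_lit 4) (nat_lit 353) (nat_lit 309) (nat_lit 238)) (XT.lf (nat_lit 0) (nat_lit 1139004063964) (nat_lit 76) (nat_lit 203588737474) (nat_lit 76) (nat_lit 182565768891) (nat_lit 3) (nat_lit 4) (nat_lit 4) (nat_lit 5) (nat_lit 4) (nat_lit 4) (nat_lit 354) (nat_lit 309) (nat_lit 237))) (XT.nd (nat_lit 78) (nat_lit 0) (nat_lit 0) (XT.lf (nat_lit 0) (nat_lit 1428720207466) (nat_lit 76) (nat_lit 168857980913) (nat_lit 76) (nat_lit 147834895417) (nat_lit 3) (nat_lit 4) (nat_lit 4) (nat_lit 5) (nat_lit 4) (nat_lit 4) (nat_lit 355) (nat_lit 309) (nat_lit 236)) (XT.nd (nat_lit 78) (nat_lit 0) (nat_lit 0) (XT.lf (nat_lit 0) (nat_lit 1761892536800) (nat_lit 76) (nat_lit 128918256603) (nat_lit 76) (nat_lit 107895069444) (nat_lit 3) (nat_lit 4) (nat_lit 4) (nat_lit 5) (nat_lit 4) (nat_lit 4) (nat_lit 356)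 (nat_lit 309) (nat_lit 235)) (XT.lf (nat_lit 0) (nat_lit 2145039641018) (nat_lit 76) (nat_lit 82988135157) (nat_lit 76) (nat_lit 61964859595) (nat_lit 3) (nat_lit 4) (nat_lit 4) (nat_lit 5) (nat_lit 4) (nat_lit 4) (nat_lit 357) (nat_lit 309) (nat_lit 234))))) (XT.nd (nat_lit 234) (nat_lit 0) (nat_lit 0) (XT.nd (nat_lit 78) (nat_lit 152) (nat_lit 0) (XT.lf (nat_lit 0) (nat_lit 2585657876506) (nat_lit 76) (nat_lit 30168983762) (nat_lit 76) (nat_lit 9145631328) (nat_lit 3) (nat_lit 4) (nat_lit 4) (nat_lit 5) (nat_lit 4) (nat_lit 4) (nat_lit 358) (nat_lit 309) (nat_lit 233)) (XT.nd (nat_lit 78) (nat_lit 0) (nat_lit 0) (XT.lf (nat_lit 0) (nat_lit 52181338924) (nat_lit 152) (nat_lit 2923020657111) (nat_lit 0) (nat_lit 33900104769) (nat_lit 1) (nat_lit 5) (nat_lit 3) (nat_lit 4) (nat_lit 1) (nat_lit 4) (nat_lit 359) (nat_lit 309) (nat_lit 232)) (XT.lf (nat_lit 0) (nat_lit 125360173000) (nat_lit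 152) (nat_lit 3217808390682) (nat_lit 0) (nat_lit 107078888299) (nat_lit 1) (nat_lit 5) (nat_lit 3) (nat_lit 4) (nat_lit 1) (nat_lit 4) (nat_lit 360) (nat_lit 309) (nat_lit 231)))) (XT.nd (nat_lit 78) (nat_lit 0) (nat_lit 0) (XT.lf (nat_lit 0) (nat_lit 209515480228) (nat_lit 152) (nat_lit 3556815026855) (nat_lit 0) (nat_lit 191234151576) (nat_lit 1) (nat_lit 5) (nat_lit 3) (nat_lit 4) (nat_lit 1) (nat_lit 4) (nat_lit 361) (nat_lit 309) (nat_lit 230)) (XT.nd (nat_lit 78) (nat_lit 0) (nat_lit 0) (XT.lf (nat_lit 0) (nat_lit 306293777490) (nat_lit 152) (nat_lit 3946673304163) (nat_lit 0) (nat_lit 288012410619) (nat_lit 1) (nat_lit 5) (nat_lit 3) (nat_lit 4) (nat_lit 1) (nat_lit 4) (nat_lit 362) (nat_lit 309) (nat_lit 229)) (XT.lf (nat_lit 0) (nat_lit 417588553211) (nat_lit 152) (nat_lit 4395010884554) (nat_lit 0) (nat_lit 399307153106) (nat_lit 1) (nat_lit 5) (nat_lit 3) (nat_lit 4) (nat_lit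 1) (nat_lit 4) (nat_lit 363) (nat_lit 309) (nat_lit 228)))))) (XT.nd (nat_lit 390) (nat_lit 0) (nat_lit 0) (XT.nd (nat_lit 156) (nat_lit 0) (nat_lit 0) (XT.nd (nat_lit 78) (nat_lit 0) (nat_lit 0) (XT.lf (nat_lit 0) (nat_lit 545577313871) (nat_lit 152) (nat_lit 4910599590253) (nat_lit 0) (nat_lit 527295884867) (nat_lit 1) (nat_lit 5) (nat_lit 3) (nat_lit 4) (nat_lit 1) (nat_lit 4) (nat_lit 364) (nat_lit 309) (nat_lit 227)) (XT.lf (nat_lit 0) (nat_lit 692764187397) (nat_lit 152) (nat_lit 5503527026371) (nat_lit 0) (nat_lit 674482733263) (nat_lit 1) (nat_lit 5) (nat_lit 3) (nat_lit 4) (nat_lit 1) (nat_lit 4) (nat_lit 365) (nat_lit 309) (nat_lit 226))) (XT.nd (nat_lit 78) (nat_lit 0) (nat_lit 0) (XT.lf (nat_lit 0) (nat_lit 862028916966) (nat_lit 152) (nat_lit 6185393947094) (nat_lit 0) (nat_lit 843747440981) (nat_lit 1) (nat_lit 5) (nat_lit 3) (nat_lit 4) (nat_lit 1) (nat_lit 4) (nat_lit 366)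 (nat_lit 309) (nat_lit 225)) (XT.nd (nat_lit 78) (nat_lit 0) (nat_lit 0) (XT.lf (nat_lit 0) (nat_lit 1056683203810) (nat_lit 152) (nat_lit 6969541226958) (nat_lit 0) (nat_lit 1038401708823) (nat_lit 1) (nat_lit 5) (nat_lit 3) (nat_lit 4) (nat_lit 1) (nat_lit 4) (nat_lit 367) (nat_lit 309) (nat_lit 224)) (XT.lf (nat_lit 0) (nat_lit 1280535501366) (nat_lit 152) (nat_lit 7871310877959) (nat_lit 0) (nat_lit 1262253989856) (nat_lit 1) (nat_lit 5) (nat_lit 3) (nat_lit 4) (nat_lit 1) (nat_lit 4) (nat_lit 368) (nat_lit 309) (nat_lit 223))))) (XT.nd (nat_lit 234) (nat_lit 0) (nat_lit 0) (XT.nd (nat_lit 78) (nat_lit 0) (nat_lit 0) (XT.lf (nat_lit 0) (nat_lit 1537965528499) (nat_lit 152) (nat_lit 8908346219356) (nat_lit 0) (nat_lit 1519684002621) (nat_lit 1) (nat_lit 5) (nat_lit 3) (nat_lit 4) (nat_lit 1) (nat_lit 4) (nat_lit 369) (nat_lit 309) (nat_lit 222)) (XT.nd (nat_lit 78) (nat_lit 0) (nat_lit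 0) (XT.lf (nat_lit 0) (nat_lit 1834009959654) (nat_lit 152) (nat_lit 10100937073047) (nat_lit 0) (nat_lit 1815728421283) (nat_lit 1) (nat_lit 5) (nat_lit 3) (nat_lit 4) (nat_lit 1) (nat_lit 4) (nat_lit 370) (nat_lit 309) (nat_lit 221)) (XT.lf (nat_lit 0) (nat_lit 2174460968484) (nat_lit 152) (nat_lit 11472416738342) (nat_lit 0) (nat_lit 2156179419248) (nat_lit 1) (nat_lit 5) (nat_lit 3) (nat_lit 4) (nat_lit 1) (nat_lit 4) (nat_lit 371) (nat_lit 309) (nat_lit 220)))) (XT.nd (nat_lit 78) (nat_lit 0) (nat_lit 0) (XT.lf (nat_lit 0) (nat_lit 2565979552987) (nat_lit 152) (nat_lit 13049618513041) (nat_lit 0) (nat_lit 2547697994304) (nat_lit 1) (nat_lit 5) (nat_lit 3) (nat_lit 4) (nat_lit 1) (nat_lit 4) (nat_lit 372) (nat_lit 309) (nat_lit 219)) (XT.nd (nat_lit 78) (nat_lit 0) (nat_lit 0) (XT.lf (nat_lit 0) (nat_lit 3016225859382) (nat_lit 152) (nat_lit 14863400692736) (nat_lit 0) (nat_lit 2997944292484)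 (nat_lit 1) (nat_lit 5) (nat_lit 3) (nat_lit 4) (nat_lit 1) (nat_lit 4) (nat_lit 373) (nat_lit 309) (nat_lit 218)) (XT.lf (nat_lit 0) (nat_lit 3534009054533) (nat_lit 152) (nat_lit 16949250320073) (nat_lit 0) (nat_lit 3515727480491) (nat_lit 1) (nat_lit 5) (nat_lit 3) (nat_lit 4) (nat_lit 1) (nat_lit 4) (nat_lit 374) (nat_lit 309) (nat_lit 217))))))))
noncomputable def xc66 : XT := (XT.nd (nat_lit 42276) (nat_lit 0) (nat_lit 608) (XT.nd (nat_lit 1950) (nat_lit 0) (nat_lit 0) (XT.nd (nat_lit 390) (nat_lit 0) (nat_lit 0) (XT.nd (nat_lit 156) (nat_lit 0) (nat_lit 0) (XT.nd (nat_lit 78) (nat_lit 0) (nat_lit 0) (XT.lf (nat_lit 0) (nat_lit 4129459679215) (nat_lit 152) (nat_lit 19347977496457) (nat_lit 0) (nat_lit 4111178098962) (nat_lit 1) (nat_lit 5) (nat_lit 3) (nat_lit 4) (nat_lit 1) (nat_lit 4) (nat_lit 375) (nat_lit 309) (nat_lit 216)) (XT.lf (nat_lit 0) (nat_lit 4814227854345) (nat_lit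 152) (nat_lit 22106513840555) (nat_lit 0) (nat_lit 4795946268691) (nat_lit 1) (nat_lit 5) (nat_lit 3) (nat_lit 4) (nat_lit 1) (nat_lit 4) (nat_lit 376) (nat_lit 309) (nat_lit 215))) (XT.nd (nat_lit 78) (nat_lit 0) (nat_lit 0) (XT.lf (nat_lit 0) (nat_lit 5601711218133) (nat_lit 152) (nat_lit 25278830715622) (nat_lit 0) (nat_lit 5583429627782) (nat_lit 1) (nat_lit 5) (nat_lit 3) (nat_lit 4) (nat_lit 1) (nat_lit 4) (nat_lit 377) (nat_lit 309) (nat_lit 214)) (XT.nd (nat_lit 78) (nat_lit 0) (nat_lit 0) (XT.lf (nat_lit 0) (nat_lit 6507317053784) (nat_lit 152) (nat_lit 28926995190953) (nat_lit 0) (nat_lit 6489035459348) (nat_lit 1) (nat_lit 5) (nat_lit 3) (nat_lit 4) (nat_lit 1) (nat_lit 4) (nat_lit 378) (nat_lit 309) (nat_lit 213)) (XT.lf (nat_lit 0) (nat_lit 7548763736341) (nat_lit 152) (nat_lit 33122384397587) (nat_lit 0) (nat_lit 7530482138354) (nat_lit 1) (nat_lit 5) (nat_lit 3) (nat_lit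 4) (nat_lit 1) (nat_lit 4) (nat_lit 379) (nat_lit 309) (nat_lit 212))))) (XT.nd (nat_lit 234) (nat_lit 0) (nat_lit 0) (XT.nd (nat_lit 78) (nat_lit 0) (nat_lit 0) (XT.lf (nat_lit 0) (nat_lit 8746427396552) (nat_lit 152) (nat_lit 37947082037392) (nat_lit 0) (nat_lit 8728145795477) (nat_lit 1) (nat_lit 5) (nat_lit 3) (nat_lit 4) (nat_lit 1) (nat_lit 4) (nat_lit 380) (nat_lit 309) (nat_lit 211)) (XT.nd (nat_lit 78) (nat_lit 0) (nat_lit 0) (XT.lf (nat_lit 0) (nat_lit 10123740584290) (nat_lit 152) (nat_lit 43495484368539) (nat_lit 0) (nat_lit 10105458980529) (nat_lit 1) (nat_lit 5) (nat_lit 3) (nat_lit 4) (nat_lit 1) (nat_lit 4) (nat_lit 381) (nat_lit 309) (nat_lit 210)) (XT.lf (nat_lit 0) (nat_lit 11707650731489) (nat_lit 152) (nat_lit 49876147088812) (nat_lit 0) (nat_lit 11689369125393) (nat_lit 1) (nat_lit 5) (nat_lit 3) (nat_lit 4) (nat_lit 1) (nat_lit 4) (nat_lit 382) (nat_lit 309) (nat_lit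 209)))) (XT.nd (nat_lit 78) (nat_lit 0) (nat_lit 0) (XT.lf (nat_lit 0) (nat_lit 13529147384507) (nat_lit 152) (nat_lit 57213909251432) (nat_lit 0) (nat_lit 13510865776380) (nat_lit 1) (nat_lit 5) (nat_lit 3) (nat_lit 4) (nat_lit 1) (nat_lit 4) (nat_lit 383) (nat_lit 309) (nat_lit 208)) (XT.nd (nat_lit 78) (nat_lit 0) (nat_lit 0) (XT.lf (nat_lit 0) (nat_lit 15623868521338) (nat_lit 152) (nat_lit 65652335768277) (nat_lit 0) (nat_lit 15605586911445) (nat_lit 1) (nat_lit 5) (nat_lit 3) (nat_lit 4) (nat_lit 1) (nat_lit 4) (nat_lit 384) (nat_lit 309) (nat_lit 207)) (XT.lf (nat_lit 0) (nat_lit 18032797816398) (nat_lit 152) (nat_lit 75356526288590) (nat_lit 0) (nat_lit 18014516204970) (nat_lit 1) (nat_lit 5) (nat_lit 3) (nat_lit 4) (nat_lit 1) (nat_lit 4) (nat_lit 385) (nat_lit 309) (nat_lit 206)))))) (XT.nd (nat_lit 39858) (nat_lit 0) (nat_lit 1900) (XT.nd (nat_lit 156) (nat_lit 0) (nat_lit 0)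 (XT.nd (nat_lit 78) (nat_lit 0) (nat_lit 0) (XT.lf (nat_lit 0) (nat_lit 149843318386608) (nat_lit 152) (nat_lit 606345308054897) (nat_lit 0) (nat_lit 149825036766202) (nat_lit 1) (nat_lit 5) (nat_lit 3) (nat_lit 4) (nat_lit 1) (nat_lit 4) (nat_lit 400) (nat_lit 309) (nat_lit 191)) (XT.lf (nat_lit 0) (nat_lit 172385165088248) (nat_lit 152) (nat_lit 697153444572663) (nat_lit 0) (nat_lit 172366883467678) (nat_lit 1) (nat_lit 5) (nat_lit 3) (nat_lit 4) (nat_lit 1) (nat_lit 4) (nat_lit 401) (nat_lit 309) (nat_lit 190))) (XT.nd (nat_lit 78) (nat_lit 0) (nat_lit 0) (XT.lf (nat_lit 0) (nat_lit 198308288793992) (nat_lit 152) (nat_lit 801582801570502) (nat_lit 0) (nat_lit 198290007173280) (nat_lit 1) (nat_lit 5) (nat_lit 3) (nat_lit 4) (nat_lit 1) (nat_lit 4) (nat_lit 402) (nat_lit 309) (nat_lit 189)) (XT.nd (nat_lit 78) (nat_lit 0) (nat_lit 0) (XT.lf (nat_lit 0) (nat_lit 228119881054604) (nat_lit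 152) (nat_lit 921676562120116) (nat_lit 0) (nat_lit 228101599433768) (nat_lit 1) (nat_lit 5) (nat_lit 3) (nat_lit 4) (nat_lit 1) (nat_lit 4) (nat_lit 403) (nat_lit 309) (nat_lit 188)) (XT.lf (nat_lit 0) (nat_lit 262403212153446) (nat_lit 152) (nat_lit 1059784386753993) (nat_lit 0) (nat_lit 262384930532500) (nat_lit 1) (nat_lit 5) (nat_lit 3) (nat_lit 4) (nat_lit 1) (nat_lit 4) (nat_lit 404) (nat_lit 309) (nat_lit 187))))) (XT.nd (nat_lit 234) (nat_lit 152) (nat_lit 0) (XT.nd (nat_lit 78) (nat_lit 0) (nat_lit 0) (XT.lf (nat_lit 0) (nat_lit 1443059446) (nat_lit 380) (nat_lit 3424965820) (nat_lit 380) (nat_lit 3424965820) (nat_lit 28) (nat_lit 3) (nat_lit 33) (nat_lit 3) (nat_lit 33) (nat_lit 5) (nat_lit 310) (nat_lit 310) (nat_lit 280)) (XT.nd (nat_lit 78) (nat_lit 0) (nat_lit 76) (XT.lf (nat_lit 76) (nat_lit 1318360202) (nat_lit 0) (nat_lit 2061870554) (nat_lit 380) (nat_lit 14407679941)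 (nat_lit 29) (nat_lit 5) (nat_lit 28) (nat_lit 3) (nat_lit 33) (nat_lit 5) (nat_lit 311) (nat_lit 310) (nat_lit 279)) (XT.lf (nat_lit 0) (nat_lit 4563525572) (nat_lit 304) (nat_lit 7963727661) (nat_lit 380) (nat_lit 6550681613) (nat_lit 29) (nat_lit 5) (nat_lit 33) (nat_lit 5) (nat_lit 34) (nat_lit 5) (nat_lit 312) (nat_lit 310) (nat_lit 278)))) (XT.nd (nat_lit 78) (nat_lit 228) (nat_lit 0) (XT.lf (nat_lit 76) (nat_lit 1857372224) (nat_lit 0) (nat_lit 4207159465) (nat_lit 380) (nat_lit 14475955992) (nat_lit 30) (nat_lit 5) (nat_lit 29) (nat_lit 5) (nat_lit 34) (nat_lit 5) (nat_lit 313) (nat_lit 310) (nat_lit 277)) (XT.nd (nat_lit 78) (nat_lit 304) (nat_lit 0) (XT.lf (nat_lit 0) (nat_lit 8417561333) (nat_lit 304) (nat_lit 8386611283) (nat_lit 76) (nat_lit 5324270044) (nat_lit 30) (nat_lit 5) (nat_lit 34) (nat_lit 5) (nat_lit 31) (nat_lit 5) (nat_lit 314) (nat_lit 310) (nat_lit 276)) (XT.lf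 (nat_lit 0) (nat_lit 3541991831) (nat_lit 304) (nat_lit 7901411520) (nat_lit 380) (nat_lit 12463252422) (nat_lit 26) (nat_lit 5) (nat_lit 30) (nat_lit 5) (nat_lit 31) (nat_lit 5) (nat_lit 315) (nat_lit 310) (nat_lit 275))))))) (XT.nd (nat_lit 858) (nat_lit 532) (nat_lit 0) (XT.nd (nat_lit 390) (nat_lit 456) (nat_lit 0) (XT.nd (nat_lit 156) (nat_lit 152) (nat_lit 0) (XT.nd (nat_lit 78) (nat_lit 152) (nat_lit 0) (XT.lf (nat_lit 0) (nat_lit 15454399620) (nat_lit 380) (nat_lit 7830858524) (nat_lit 76) (nat_lit 2586688906) (nat_lit 26) (nat_lit 5) (nat_lit 31) (nat_lit 5) (nat_lit 27) (nat_lit 5) (nat_lit 316) (nat_lit 310) (nat_lit 274)) (XT.lf (nat_lit 0) (nat_lit 6784878256) (nat_lit 152) (nat_lit 13917851005) (nat_lit 228) (nat_lit 7333983116) (nat_lit 24) (nat_lit 5) (nat_lit 26) (nat_lit 5) (nat_lit 27) (nat_lit 5) (nat_lit 317) (nat_lit 310) (nat_lit 273))) (XT.nd (nat_lit 78) (nat_lit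 152) (nat_lit 0) (XT.lf (nat_lit 0) (nat_lit 24448316845) (nat_lit 152) (nat_lit 2679593389) (nat_lit 228) (nat_lit 3339870638) (nat_lit 24) (nat_lit 5) (nat_lit 26) (nat_lit 5) (nat_lit 27) (nat_lit 5) (nat_lit 318) (nat_lit 310) (nat_lit 272)) (XT.nd (nat_lit 78) (nat_lit 0) (nat_lit 0) (XT.lf (nat_lit 0) (nat_lit 2094155155) (nat_lit 152) (nat_lit 21092876707) (nat_lit 76) (nat_lit 9925857740) (nat_lit 22) (nat_lit 5) (nat_lit 24) (nat_lit 5) (nat_lit 23) (nat_lit 5) (nat_lit 319) (nat_lit 310) (nat_lit 271)) (XT.lf (nat_lit 0) (nat_lit 8441772049) (nat_lit 152) (nat_lit 2991780840) (nat_lit 76) (nat_lit 24631310418) (nat_lit 22) (nat_lit 5) (nat_lit 24) (nat_lit 5) (nat_lit 23) (nat_lit 5) (nat_lit 320) (nat_lit 310) (nat_lit 270))))) (XT.nd (nat_lit 234) (nat_lit 228) (nat_lit 0) (XT.nd (nat_lit 78) (nat_lit 76) (nat_lit 0) (XT.lf (nat_lit 0) (nat_lit 16660656824) (nat_lit 228) (nat_lit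 19921940753) (nat_lit 76) (nat_lit 2739183069) (nat_lit 20) (nat_lit 5) (nat_lit 23) (nat_lit 5) (nat_lit 21) (nat_lit 4) (nat_lit 321) (nat_lit 310) (nat_lit 269)) (XT.nd (nat_lit 78) (nat_lit 0) (nat_lit 0) (XT.lf (nat_lit 0) (nat_lit 2051270421) (nat_lit 76) (nat_lit 24840498519) (nat_lit 152) (nat_lit 16058571698) (nat_lit 19) (nat_lit 5) (nat_lit 20) (nat_lit 5) (nat_lit 21) (nat_lit 4) (nat_lit 322) (nat_lit 310) (nat_lit 268)) (XT.lf (nat_lit 0) (nat_lit 29538314961) (nat_lit 76) (nat_lit 10147703158) (nat_lit 152) (nat_lit 7282908358) (nat_lit 19) (nat_lit 5) (nat_lit 20) (nat_lit 5) (nat_lit 21) (nat_lit 4) (nat_lit 323) (nat_lit 310) (nat_lit 267)))) (XT.nd (nat_lit 78) (nat_lit 76) (nat_lit 0) (XT.lf (nat_lit 0) (nat_lit 3280614486) (nat_lit 152) (nat_lit 41472356579) (nat_lit 76) (nat_lit 6711651254) (nat_lit 17) (nat_lit 5) (nat_lit 19) (nat_lit 5) (nat_lit 18) (nat_lit 4)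 (nat_lit 324) (nat_lit 310) (nat_lit 266)) (XT.nd (nat_lit 78) (nat_lit 76) (nat_lit 0) (XT.lf (nat_lit 0) (nat_lit 16109475032) (nat_lit 152) (nat_lit 13903845452) (nat_lit 76) (nat_lit 26355373368) (nat_lit 17) (nat_lit 5) (nat_lit 19) (nat_lit 5) (nat_lit 18) (nat_lit 4) (nat_lit 325) (nat_lit 310) (nat_lit 265)) (XT.lf (nat_lit 0) (nat_lit 19520424298) (nat_lit 76) (nat_lit 12140698563) (nat_lit 152) (nat_lit 30227491604) (nat_lit 16) (nat_lit 5) (nat_lit 17) (nat_lit 5) (nat_lit 18) (nat_lit 4) (nat_lit 326) (nat_lit 310) (nat_lit 264)))))) (XT.nd (nat_lit 390) (nat_lit 304) (nat_lit 0) (XT.nd (nat_lit 156) (nat_lit 152) (nat_lit 0) (XT.nd (nat_lit 78) (nat_lit 76) (nat_lit 0) (XT.lf (nat_lit 0) (nat_lit 50645728712) (nat_lit 152) (nat_lit 9007194468) (nat_lit 0) (nat_lit 8418574523) (nat_lit 16) (nat_lit 5) (nat_lit 18) (nat_lit 4) (nat_lit 16) (nat_lit 4) (nat_lit 327) (nat_lit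 310) (nat_lit 263)) (XT.lf (nat_lit 0) (nat_lit 31575537101) (nat_lit 76) (nat_lit 42779790750) (nat_lit 76) (nat_lit 544895568) (nat_lit 15) (nat_lit 4) (nat_lit 16) (nat_lit 5) (nat_lit 16) (nat_lit 4) (nat_lit 328) (nat_lit 310) (nat_lit 262))) (XT.nd (nat_lit 78) (nat_lit 76) (nat_lit 0) (XT.lf (nat_lit 0) (nat_lit 17673387629) (nat_lit 152) (nat_lit 4243843078) (nat_lit 76) (nat_lit 60646080869) (nat_lit 14) (nat_lit 5) (nat_lit 16) (nat_lit 5) (nat_lit 15) (nat_lit 4) (nat_lit 329) (nat_lit 310) (nat_lit 261)) (XT.nd (nat_lit 78) (nat_lit 0) (nat_lit 0) (XT.lf (nat_lit 0) (nat_lit 40584554700) (nat_lit 152) (nat_lit 46637414660) (nat_lit 0) (nat_lit 3847615758) (nat_lit 13) (nat_lit 5) (nat_lit 15) (nat_lit 4) (nat_lit 13) (nat_lit 4) (nat_lit 330) (nat_lit 310) (nat_lit 260)) (XT.lf (nat_lit 0) (nat_lit 68201488647) (nat_lit 152) (nat_lit 999826567) (nat_lit 0) (nat_lit 31460123767)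 (nat_lit 13) (nat_lit 5) (nat_lit 15) (nat_lit 4) (nat_lit 13) (nat_lit 4) (nat_lit 331) (nat_lit 310) (nat_lit 259))))) (XT.nd (nat_lit 234) (nat_lit 76) (nat_lit 0) (XT.nd (nat_lit 78) (nat_lit 152) (nat_lit 0) (XT.lf (nat_lit 0) (nat_lit 56501752796) (nat_lit 76) (nat_lit 45792751533) (nat_lit 76) (nat_lit 9047538011) (nat_lit 12) (nat_lit 4) (nat_lit 13) (nat_lit 5) (nat_lit 13) (nat_lit 4) (nat_lit 332) (nat_lit 310) (nat_lit 258)) (XT.nd (nat_lit 78) (nat_lit 76) (nat_lit 0) (XT.lf (nat_lit 0) (nat_lit 16333951620) (nat_lit 152) (nat_lit 1630564182) (nat_lit 76) (nat_lit 105541877864) (nat_lit 11) (nat_lit 5) (nat_lit 13) (nat_lit 5) (nat_lit 12) (nat_lit 4) (nat_lit 333) (nat_lit 310) (nat_lit 257)) (XT.lf (nat_lit 0) (nat_lit 48007928208) (nat_lit 152) (nat_lit 72860984151) (nat_lit 0) (nat_lit 16050127953) (nat_lit 10) (nat_lit 5) (nat_lit 12) (nat_lit 4) (nat_lit 10) (nat_lit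 4) (nat_lit 334) (nat_lit 310) (nat_lit 256)))) (XT.nd (nat_lit 78) (nat_lit 76) (nat_lit 0) (XT.lf (nat_lit 0) (nat_lit 85372579634) (nat_lit 152) (nat_lit 13417490184) (nat_lit 0) (nat_lit 53412578906) (nat_lit 10) (nat_lit 5) (nat_lit 12) (nat_lit 4) (nat_lit 10) (nat_lit 4) (nat_lit 335) (nat_lit 310) (nat_lit 255)) (XT.nd (nat_lit 78) (nat_lit 0) (nat_lit 0) (XT.lf (nat_lit 0) (nat_lit 60301981935) (nat_lit 76) (nat_lit 70532429765) (nat_lit 76) (nat_lit 38570515581) (nat_lit 9) (nat_lit 4) (nat_lit 10) (nat_lit 5) (nat_lit 10) (nat_lit 4) (nat_lit 336) (nat_lit 310) (nat_lit 254)) (XT.lf (nat_lit 0) (nat_lit 146578683586) (nat_lit 76) (nat_lit 37233938834) (nat_lit 76) (nat_lit 5270360777) (nat_lit 9) (nat_lit 4) (nat_lit 10) (nat_lit 5) (nat_lit 10) (nat_lit 4) (nat_lit 337) (nat_lit 310) (nat_lit 253))))))))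
noncomputable def xc67 : XT := (XT.nd (nat_lit 1716) (nat_lit 152) (nat_lit 0) (XT.nd (nat_lit 858) (nat_lit 76) (nat_lit 0) (XT.nd (nat_lit 390) (nat_lit 152) (nat_lit 0) (XT.nd (nat_lit 156) (nat_lit 76) (nat_lit 0) (XT.nd (nat_lit 78) (nat_lit 0) (nat_lit 0) (XT.lf (nat_lit 0) (nat_lit 31747210932) (nat_lit 152) (nat_lit 175559503555) (nat_lit 0) (nat_lit 3951537102) (nat_lit 7) (nat_lit 5) (nat_lit 9) (nat_lit 4) (nat_lit 7) (nat_lit 4) (nat_lit 338) (nat_lit 310) (nat_lit 252)) (XT.lf (nat_lit 0) (nat_lit 77874644902) (nat_lit 152) (nat_lit 108155121954) (nat_lit 0) (nat_lit 50077877048) (nat_lit 7) (nat_lit 5) (nat_lit 9) (nat_lit 4) (nat_lit 7) (nat_lit 4) (nat_lit 339) (nat_lit 310) (nat_lit 251))) (XT.nd (nat_lit 78) (nat_lit 76) (nat_lit 0) (XT.lf (nat_lit 0) (nat_lit 130917846095) (nat_lit 152) (nat_lit 30646974895) (nat_lit 0) (nat_lit 103120126915) (nat_lit 7) (nat_lit 5)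 (nat_lit 9) (nat_lit 4) (nat_lit 7) (nat_lit 4) (nat_lit 340) (nat_lit 310) (nat_lit 250)) (XT.nd (nat_lit 78) (nat_lit 0) (nat_lit 0) (XT.lf (nat_lit 0) (nat_lit 64196629229) (nat_lit 76) (nat_lit 130376232560) (nat_lit 76) (nat_lit 102577686141) (nat_lit 6) (nat_lit 4) (nat_lit 7) (nat_lit 5) (nat_lit 7) (nat_lit 4) (nat_lit 341) (nat_lit 310) (nat_lit 249)) (XT.lf (nat_lit 0) (nat_lit 176705355587) (nat_lit 76) (nat_lit 92670006867) (nat_lit 76) (nat_lit 64870741110) (nat_lit 6) (nat_lit 4) (nat_lit 7) (nat_lit 5) (nat_lit 7) (nat_lit 4) (nat_lit 342) (nat_lit 310) (nat_lit 248))))) (XT.nd (nat_lit 234) (nat_lit 0) (nat_lit 0) (XT.nd (nat_lit 78) (nat_lit 152) (nat_lit 0) (XT.lf (nat_lit 0) (nat_lit 306085416592) (nat_lit 76) (nat_lit 49310414370) (nat_lit 76) (nat_lit 21510523101) (nat_lit 6) (nat_lit 4) (nat_lit 7) (nat_lit 5) (nat_lit 7) (nat_lit 4) (nat_lit 343) (nat_lit 310) (nat_lit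 247)) (XT.nd (nat_lit 78) (nat_lit 0) (nat_lit 0) (XT.lf (nat_lit 0) (nat_lit 27226395847) (nat_lit 152) (nat_lit 395301495163) (nat_lit 0) (nat_lit 3052104375) (nat_lit 4) (nat_lit 5) (nat_lit 6) (nat_lit 4) (nat_lit 4) (nat_lit 4) (nat_lit 344) (nat_lit 310) (nat_lit 246)) (XT.lf (nat_lit 0) (nat_lit 87295809492) (nat_lit 152) (nat_lit 330050486664) (nat_lit 0) (nat_lit 63121106736) (nat_lit 4) (nat_lit 5) (nat_lit 6) (nat_lit 4) (nat_lit 4) (nat_lit 4) (nat_lit 345) (nat_lit 310) (nat_lit 245)))) (XT.nd (nat_lit 78) (nat_lit 0) (nat_lit 0) (XT.lf (nat_lit 0) (nat_lit 156373739785) (nat_lit 152) (nat_lit 255015786907) (nat_lit 0) (nat_lit 132198679391) (nat_lit 4) (nat_lit 5) (nat_lit 6) (nat_lit 4) (nat_lit 4) (nat_lit 4) (nat_lit 346) (nat_lit 310) (nat_lit 244)) (XT.nd (nat_lit 78) (nat_lit 0) (nat_lit 0) (XT.lf (nat_lit 0) (nat_lit 235811711449) (nat_lit 152) (nat_lit 168729325679)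 (nat_lit 0) (nat_lit 211636340065) (nat_lit 4) (nat_lit 5) (nat_lit 6) (nat_lit 4) (nat_lit 4) (nat_lit 4) (nat_lit 347) (nat_lit 310) (nat_lit 243)) (XT.lf (nat_lit 0) (nat_lit 327163945669) (nat_lit 152) (nat_lit 69502889607) (nat_lit 0) (nat_lit 302988303859) (nat_lit 4) (nat_lit 5) (nat_lit 6) (nat_lit 4) (nat_lit 4) (nat_lit 4) (nat_lit 348) (nat_lit 310) (nat_lit 242)))))) (XT.nd (nat_lit 390) (nat_lit 0) (nat_lit 0) (XT.nd (nat_lit 156) (nat_lit 0) (nat_lit 0) (XT.nd (nat_lit 78) (nat_lit 0) (nat_lit 0) (XT.lf (nat_lit 0) (nat_lit 48964024118) (nat_lit 76) (nat_lit 385281240471) (nat_lit 76) (nat_lit 361105363507) (nat_lit 3) (nat_lit 4) (nat_lit 4) (nat_lit 5) (nat_lit 4) (nat_lit 4) (nat_lit 349) (nat_lit 310) (nat_lit 241)) (XT.lf (nat_lit 0) (nat_lit 193009666507) (nat_lit 76) (nat_lit 368011033817) (nat_lit 76) (nat_lit 343834952373) (nat_lit 3) (nat_lit 4) (nat_lit 4) (nat_lit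 5) (nat_lit 4) (nat_lit 4) (nat_lit 350) (nat_lit 310) (nat_lit 240))) (XT.nd (nat_lit 78) (nat_lit 0) (nat_lit 0) (XT.lf (nat_lit 0) (nat_lit 358659994017) (nat_lit 76) (nat_lit 348151425562) (nat_lit 76) (nat_lit 323975166307) (nat_lit 3) (nat_lit 4) (nat_lit 4) (nat_lit 5) (nat_lit 4) (nat_lit 4) (nat_lit 351) (nat_lit 310) (nat_lit 239)) (XT.nd (nat_lit 78) (nat_lit 0) (nat_lit 0) (XT.lf (nat_lit 0) (nat_lit 549155991319) (nat_lit 76) (nat_lit 325313858151) (nat_lit 76) (nat_lit 301137444280) (nat_lit 3) (nat_lit 4) (nat_lit 4) (nat_lit 5) (nat_lit 4) (nat_lit 4) (nat_lit 352) (nat_lit 310) (nat_lit 238)) (XT.lf (nat_lit 0) (nat_lit 768224754011) (nat_lit 76) (nat_lit 299051509614) (nat_lit 76) (nat_lit 274874961293) (nat_lit 3) (nat_lit 4) (nat_lit 4) (nat_lit 5) (nat_lit 4) (nat_lit 4) (nat_lit 353) (nat_lit 310) (nat_lit 237))))) (XT.nd (nat_lit 234) (nat_lit 0) (nat_lit 0) (XT.nd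 (nat_lit 78) (nat_lit 0) (nat_lit 0) (XT.lf (nat_lit 0) (nat_lit 1020152410059) (nat_lit 76) (nat_lit 268850551392) (nat_lit 76) (nat_lit 244673886159) (nat_lit 3) (nat_lit 4) (nat_lit 4) (nat_lit 5) (nat_lit 4) (nat_lit 4) (nat_lit 354) (nat_lit 310) (nat_lit 236)) (XT.nd (nat_lit 78) (nat_lit 0) (nat_lit 0) (XT.lf (nat_lit 0) (nat_lit 1309867978820) (nat_lit 76) (nat_lit 234120095173) (nat_lit 76) (nat_lit 209943328277) (nat_lit 3) (nat_lit 4) (nat_lit 4) (nat_lit 5) (nat_lit 4) (nat_lit 4) (nat_lit 355) (nat_lit 310) (nat_lit 235)) (XT.lf (nat_lit 0) (nat_lit 1643039808378) (nat_lit 76) (nat_lit 194180632031) (nat_lit 76) (nat_lit 170003776732) (nat_lit 3) (nat_lit 4) (nat_lit 4) (nat_lit 5) (nat_lit 4) (nat_lit 4) (nat_lit 356) (nat_lit 310) (nat_lit 234)))) (XT.nd (nat_lit 78) (nat_lit 0) (nat_lit 0) (XT.lf (nat_lit 0) (nat_lit 2026186478009) (nat_lit 76) (nat_lit 148250737686) (nat_lit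 76) (nat_lit 124073805515) (nat_lit 3) (nat_lit 4) (nat_lit 4) (nat_lit 5) (nat_lit 4) (nat_lit 4) (nat_lit 357) (nat_lit 310) (nat_lit 233)) (XT.nd (nat_lit 78) (nat_lit 0) (nat_lit 0) (XT.lf (nat_lit 0) (nat_lit 2466804335596) (nat_lit 76) (nat_lit 95431783771) (nat_lit 76) (nat_lit 71254784755) (nat_lit 3) (nat_lit 4) (nat_lit 4) (nat_lit 5) (nat_lit 4) (nat_lit 4) (nat_lit 358) (nat_lit 310) (nat_lit 232)) (XT.lf (nat_lit 0) (nat_lit 2973514165308) (nat_lit 76) (nat_lit 34690355971) (nat_lit 76) (nat_lit 10513298828) (nat_lit 3) (nat_lit 4) (nat_lit 4) (nat_lit 5) (nat_lit 4) (nat_lit 4) (nat_lit 359) (nat_lit 310) (nat_lit 231))))))) (XT.nd (nat_lit 858) (nat_lit 0) (nat_lit 0) (XT.nd (nat_lit 390) (nat_lit 0) (nat_lit 0) (XT.nd (nat_lit 156) (nat_lit 0) (nat_lit 0) (XT.nd (nat_lit 78) (nat_lit 0) (nat_lit 0) (XT.lf (nat_lit 0) (nat_lit 60012329453) (nat_lit 152) (nat_lit 3361465760139)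 (nat_lit 0) (nat_lit 38988757552) (nat_lit 1) (nat_lit 5) (nat_lit 3) (nat_lit 4) (nat_lit 1) (nat_lit 4) (nat_lit 360) (nat_lit 310) (nat_lit 230)) (XT.lf (nat_lit 0) (nat_lit 144167494333) (nat_lit 152) (nat_lit 3700472696642) (nat_lit 0) (nat_lit 123143884212) (nat_lit 1) (nat_lit 5) (nat_lit 3) (nat_lit 4) (nat_lit 1) (nat_lit 4) (nat_lit 361) (nat_lit 310) (nat_lit 229))) (XT.nd (nat_lit 78) (nat_lit 0) (nat_lit 0) (XT.lf (nat_lit 0) (nat_lit 240945667813) (nat_lit 152) (nat_lit 4090331235107) (nat_lit 0) (nat_lit 219922024458) (nat_lit 1) (nat_lit 5) (nat_lit 3) (nat_lit 4) (nat_lit 1) (nat_lit 4) (nat_lit 362) (nat_lit 310) (nat_lit 228)) (XT.nd (nat_lit 78) (nat_lit 0) (nat_lit 0) (XT.lf (nat_lit 0) (nat_lit 352240335897) (nat_lit 152) (nat_lit 4538669042590) (nat_lit 0) (nat_lit 331216663643) (nat_lit 1) (nat_lit 5) (nat_lit 3) (nat_lit 4) (nat_lit 1) (nat_lit 4) (nat_lit 363)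 (nat_lit 310) (nat_lit 227)) (XT.lf (nat_lit 0) (nat_lit 480229002960) (nat_lit 152) (nat_lit 5054257945761) (nat_lit 0) (nat_lit 459205305577) (nat_lit 1) (nat_lit 5) (nat_lit 3) (nat_lit 4) (nat_lit 1) (nat_lit 4) (nat_lit 364) (nat_lit 310) (nat_lit 226))))) (XT.nd (nat_lit 234) (nat_lit 0) (nat_lit 0) (XT.nd (nat_lit 78) (nat_lit 0) (nat_lit 0) (XT.lf (nat_lit 0) (nat_lit 627415795098) (nat_lit 152) (nat_lit 5647185553595) (nat_lit 0) (nat_lit 606392075863) (nat_lit 1) (nat_lit 5) (nat_lit 3) (nat_lit 4) (nat_lit 1) (nat_lit 4) (nat_lit 365) (nat_lit 310) (nat_lit 225)) (XT.nd (nat_lit 78) (nat_lit 0) (nat_lit 0) (XT.lf (nat_lit 0) (nat_lit 796680453894) (nat_lit 152) (nat_lit 6329052623635) (nat_lit 0) (nat_lit 775656715658) (nat_lit 1) (nat_lit 5) (nat_lit 3) (nat_lit 4) (nat_lit 1) (nat_lit 4) (nat_lit 366) (nat_lit 310) (nat_lit 224)) (XT.lf (nat_lit 0) (nat_lit 991334679196) (nat_lit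 152) (nat_lit 7113200033339) (nat_lit 0) (nat_lit 970310924437) (nat_lit 1) (nat_lit 5) (nat_lit 3) (nat_lit 4) (nat_lit 1) (nat_lit 4) (nat_lit 367) (nat_lit 310) (nat_lit 223)))) (XT.nd (nat_lit 78) (nat_lit 0) (nat_lit 0) (XT.lf (nat_lit 0) (nat_lit 1215186923238) (nat_lit 152) (nat_lit 8014969797246) (nat_lit 0) (nat_lit 1194163154110) (nat_lit 1) (nat_lit 5) (nat_lit 3) (nat_lit 4) (nat_lit 1) (nat_lit 4) (nat_lit 368) (nat_lit 310) (nat_lit 222)) (XT.nd (nat_lit 78) (nat_lit 0) (nat_lit 0) (XT.lf (nat_lit 0) (nat_lit 1472616903837) (nat_lit 152) (nat_lit 9052005236821) (nat_lit 0) (nat_lit 1451593122216) (nat_lit 1) (nat_lit 5) (nat_lit 3) (nat_lit 4) (nat_lit 1) (nat_lit 4) (nat_lit 369) (nat_lit 310) (nat_lit 221)) (XT.lf (nat_lit 0) (nat_lit 1768661294528) (nat_lit 152) (nat_lit 10244596175885) (nat_lit 0) (nat_lit 1747637502042) (nat_lit 1) (nat_lit 5) (nat_lit 3) (nat_lit 4)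 (nat_lit 1) (nat_lit 4) (nat_lit 370) (nat_lit 310) (nat_lit 220)))))) (XT.nd (nat_lit 468) (nat_lit 0) (nat_lit 0) (XT.nd (nat_lit 234) (nat_lit 0) (nat_lit 0) (XT.nd (nat_lit 78) (nat_lit 0) (nat_lit 0) (XT.lf (nat_lit 0) (nat_lit 2109112268171) (nat_lit 152) (nat_lit 11616075915417) (nat_lit 0) (nat_lit 2088088466238) (nat_lit 1) (nat_lit 5) (nat_lit 3) (nat_lit 4) (nat_lit 1) (nat_lit 4) (nat_lit 371) (nat_lit 310) (nat_lit 219)) (XT.nd (nat_lit 78) (nat_lit 0) (nat_lit 0) (XT.lf (nat_lit 0) (nat_lit 2500630822077) (nat_lit 152) (nat_lit 13193277754670) (nat_lit 0) (nat_lit 2479607011929) (nat_lit 1) (nat_lit 5) (nat_lit 3) (nat_lit 4) (nat_lit 1) (nat_lit 4) (nat_lit 372) (nat_lit 310) (nat_lit 218)) (XT.lf (nat_lit 0) (nat_lit 2950877101866) (nat_lit 152) (nat_lit 15007059990499) (nat_lit 0) (nat_lit 2929853284574) (nat_lit 1) (nat_lit 5) (nat_lit 3) (nat_lit 4) (nat_lit 1) (nat_lit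 4) (nat_lit 373) (nat_lit 310) (nat_lit 217)))) (XT.nd (nat_lit 78) (nat_lit 0) (nat_lit 0) (XT.lf (nat_lit 0) (nat_lit 3468660273881) (nat_lit 152) (nat_lit 17092909666648) (nat_lit 0) (nat_lit 3447636450378) (nat_lit 1) (nat_lit 5) (nat_lit 3) (nat_lit 4) (nat_lit 1) (nat_lit 4) (nat_lit 374) (nat_lit 310) (nat_lit 216)) (XT.nd (nat_lit 78) (nat_lit 0) (nat_lit 0) (XT.lf (nat_lit 0) (nat_lit 4064110878445) (nat_lit 152) (nat_lit 19491636885477) (nat_lit 0) (nat_lit 4043087049541) (nat_lit 1) (nat_lit 5) (nat_lit 3) (nat_lit 4) (nat_lit 1) (nat_lit 4) (nat_lit 375) (nat_lit 310) (nat_lit 215)) (XT.lf (nat_lit 0) (nat_lit 4748879036081) (nat_lit 152) (nat_lit 22250173266484) (nat_lit 0) (nat_lit 4727855202480) (nat_lit 1) (nat_lit 5) (nat_lit 3) (nat_lit 4) (nat_lit 1) (nat_lit 4) (nat_lit 376) (nat_lit 310) (nat_lit 214))))) (XT.nd (nat_lit 234) (nat_lit 0) (nat_lit 0) (XT.nd (nat_lit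 78) (nat_lit 0) (nat_lit 0) (XT.lf (nat_lit 0) (nat_lit 5536362384657) (nat_lit 152) (nat_lit 25422490173646) (nat_lit 0) (nat_lit 5515338546972) (nat_lit 1) (nat_lit 5) (nat_lit 3) (nat_lit 4) (nat_lit 1) (nat_lit 4) (nat_lit 377) (nat_lit 310) (nat_lit 213)) (XT.nd (nat_lit 78) (nat_lit 0) (nat_lit 0) (XT.lf (nat_lit 0) (nat_lit 6441968207080) (nat_lit 152) (nat_lit 29070654676885) (nat_lit 0) (nat_lit 6420944365843) (nat_lit 1) (nat_lit 5) (nat_lit 3) (nat_lit 4) (nat_lit 1) (nat_lit 4) (nat_lit 378) (nat_lit 310) (nat_lit 212)) (XT.lf (nat_lit 0) (nat_lit 7483414878135) (nat_lit 152) (nat_lit 33266043907787) (nat_lit 0) (nat_lit 7462391033810) (nat_lit 1) (nat_lit 5) (nat_lit 3) (nat_lit 4) (nat_lit 1) (nat_lit 4) (nat_lit 379) (nat_lit 310) (nat_lit 211)))) (XT.nd (nat_lit 78) (nat_lit 0) (nat_lit 0) (XT.lf (nat_lit 0) (nat_lit 8681078528344) (nat_lit 152) (nat_lit 38090741568695)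 (nat_lit 0) (nat_lit 8660054681333) (nat_lit 1) (nat_lit 5) (nat_lit 3) (nat_lit 4) (nat_lit 1) (nat_lit 4) (nat_lit 380) (nat_lit 310) (nat_lit 210)) (XT.nd (nat_lit 78) (nat_lit 0) (nat_lit 0) (XT.lf (nat_lit 0) (nat_lit 10058391707384) (nat_lit 152) (nat_lit 43639143918193) (nat_lit 0) (nat_lit 10037367858038) (nat_lit 1) (nat_lit 5) (nat_lit 3) (nat_lit 4) (nat_lit 1) (nat_lit 4) (nat_lit 381) (nat_lit 310) (nat_lit 209)) (XT.lf (nat_lit 0) (nat_lit 11642301847020) (nat_lit 152) (nat_lit 50019806654422) (nat_lit 0) (nat_lit 11621277995643) (nat_lit 1) (nat_lit 5) (nat_lit 3) (nat_lit 4) (nat_lit 1) (nat_lit 4) (nat_lit 382) (nat_lit 310) (nat_lit 208))))))))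
noncomputable def xc68 : XT := (XT.nd (nat_lit 42432) (nat_lit 0) (nat_lit 228) (XT.nd (nat_lit 41574) (nat_lit 0) (nat_lit 1216) (XT.nd (nat_lit 1560) (nat_lit 0) (nat_lit 0) (XT.nd (nat_lit 1326) (nat_lit 0) (nat_lit 0) (XT.nd (nat_lit 78) (nat_lit 0) (nat_lit 0) (XT.lf (nat_lit 0) (nat_lit 13463798493461) (nat_lit 152) (nat_lit 57357568830917) (nat_lit 0) (nat_lit 13442774640319) (nat_lit 1) (nat_lit 5) (nat_lit 3) (nat_lit 4) (nat_lit 1) (nat_lit 4) (nat_lit 383) (nat_lit 310) (nat_lit 207)) (XT.lf (nat_lit 0) (nat_lit 15558519624573) (nat_lit 152) (nat_lit 65795995359828) (nat_lit 0) (nat_lit 15537495769896) (nat_lit 1) (nat_lit 5) (nat_lit 3) (nat_lit 4) (nat_lit 1) (nat_lit 4) (nat_lit 384) (nat_lit 310) (nat_lit 206))) (XT.nd (nat_lit 78) (nat_lit 0) (nat_lit 0) (XT.lf (nat_lit 0) (nat_lit 149777969455792) (nat_lit 152) (nat_lit 606488967718289) (nat_lit 0) (nat_lit 149756945591972)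 (nat_lit 1) (nat_lit 5) (nat_lit 3) (nat_lit 4) (nat_lit 1) (nat_lit 4) (nat_lit 400) (nat_lit 310) (nat_lit 190)) (XT.nd (nat_lit 78) (nat_lit 0) (nat_lit 0) (XT.lf (nat_lit 0) (nat_lit 172319816156901) (nat_lit 152) (nat_lit 697297104237177) (nat_lit 0) (nat_lit 172298792292938) (nat_lit 1) (nat_lit 5) (nat_lit 3) (nat_lit 4) (nat_lit 1) (nat_lit 4) (nat_lit 401) (nat_lit 310) (nat_lit 189)) (XT.lf (nat_lit 0) (nat_lit 198242939862183) (nat_lit 152) (nat_lit 801726461235990) (nat_lit 0) (nat_lit 198221915998097) (nat_lit 1) (nat_lit 5) (nat_lit 3) (nat_lit 4) (nat_lit 1) (nat_lit 4) (nat_lit 402) (nat_lit 310) (nat_lit 188))))) (XT.nd (nat_lit 39780) (nat_lit 0) (nat_lit 2052) (XT.nd (nat_lit 78) (nat_lit 0) (nat_lit 0) (XT.lf (nat_lit 0) (nat_lit 228054532122394) (nat_lit 152) (nat_lit 921820221786451) (nat_lit 0) (nat_lit 228033508258200) (nat_lit 1) (nat_lit 5) (nat_lit 3) (nat_lit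 4) (nat_lit 1) (nat_lit 4) (nat_lit 403) (nat_lit 310) (nat_lit 187)) (XT.nd (nat_lit 39624) (nat_lit 0) (nat_lit 2052) (XT.lf (nat_lit 0) (nat_lit 262337863220885) (nat_lit 152) (nat_lit 1059928046421067) (nat_lit 0) (nat_lit 262316839356597) (nat_lit 1) (nat_lit 5) (nat_lit 3) (nat_lit 4) (nat_lit 1) (nat_lit 4) (nat_lit 404) (nat_lit 310) (nat_lit 186)) (XT.lf (nat_lit 0) (nat_lit 1873344285) (nat_lit 380) (nat_lit 3815582395) (nat_lit 380) (nat_lit 3815582395) (nat_lit 28) (nat_lit 3) (nat_lit 33) (nat_lit 3) (nat_lit 33) (nat_lit 5) (nat_lit 311) (nat_lit 311) (nat_lit 278)))) (XT.nd (nat_lit 78) (nat_lit 0) (nat_lit 76) (XT.lf (nat_lit 76) (nat_lit 1751177347) (nat_lit 0) (nat_lit 2517692655) (nat_lit 380) (nat_lit 16129366110) (nat_lit 29) (nat_lit 5) (nat_lit 28) (nat_lit 3) (nat_lit 33) (nat_lit 5) (nat_lit 312) (nat_lit 311) (nat_lit 277)) (XT.nd (nat_lit 78) (nat_lit 0) (nat_lit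 0) (XT.lf (nat_lit 0) (nat_lit 5574608026) (nat_lit 304) (nat_lit 8898293526) (nat_lit 380) (nat_lit 7417200917) (nat_lit 29) (nat_lit 5) (nat_lit 33) (nat_lit 5) (nat_lit 34) (nat_lit 5) (nat_lit 313) (nat_lit 311) (nat_lit 276)) (XT.lf (nat_lit 76) (nat_lit 2384153465) (nat_lit 0) (nat_lit 4884294060) (nat_lit 380) (nat_lit 16308508713) (nat_lit 30) (nat_lit 5) (nat_lit 29) (nat_lit 5) (nat_lit 34) (nat_lit 5) (nat_lit 314) (nat_lit 311) (nat_lit 275)))))) (XT.nd (nat_lit 390) (nat_lit 532) (nat_lit 0) (XT.nd (nat_lit 156) (nat_lit 152) (nat_lit 0) (XT.nd (nat_lit 78) (nat_lit 304) (nat_lit 0) (XT.lf (nat_lit 0) (nat_lit 9934394496) (nat_lit 304) (nat_lit 9388353169) (nat_lit 76) (nat_lit 6086423565) (nat_lit 30) (nat_lit 5) (nat_lit 34) (nat_lit 5) (nat_lit 31) (nat_lit 5) (nat_lit 315) (nat_lit 311) (nat_lit 274)) (XT.lf (nat_lit 0) (nat_lit 4317892694) (nat_lit 304) (nat_lit 9073192187)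 (nat_lit 380) (nat_lit 14066538834) (nat_lit 26) (nat_lit 5) (nat_lit 30) (nat_lit 5) (nat_lit 31) (nat_lit 5) (nat_lit 316) (nat_lit 311) (nat_lit 273))) (XT.nd (nat_lit 78) (nat_lit 152) (nat_lit 0) (XT.lf (nat_lit 0) (nat_lit 17974061458) (nat_lit 380) (nat_lit 8762812206) (nat_lit 76) (nat_lit 2985331664) (nat_lit 26) (nat_lit 5) (nat_lit 31) (nat_lit 5) (nat_lit 27) (nat_lit 5) (nat_lit 317) (nat_lit 311) (nat_lit 272)) (XT.nd (nat_lit 78) (nat_lit 0) (nat_lit 0) (XT.lf (nat_lit 0) (nat_lit 8034254405) (nat_lit 152) (nat_lit 15958695185) (nat_lit 228) (nat_lit 8221279746) (nat_lit 24) (nat_lit 5) (nat_lit 26) (nat_lit 5) (nat_lit 27) (nat_lit 5) (nat_lit 318) (nat_lit 311) (nat_lit 271)) (XT.lf (nat_lit 0) (nat_lit 28316994294) (nat_lit 152) (nat_lit 3040807641) (nat_lit 228) (nat_lit 3655807027) (nat_lit 24) (nat_lit 5) (nat_lit 26) (nat_lit 5) (nat_lit 27) (nat_lit 5) (nat_lit 319)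 (nat_lit 311) (nat_lit 270))))) (XT.nd (nat_lit 234) (nat_lit 228) (nat_lit 0) (XT.nd (nat_lit 78) (nat_lit 152) (nat_lit 0) (XT.lf (nat_lit 0) (nat_lit 2565676273) (nat_lit 152) (nat_lit 24027352703) (nat_lit 76) (nat_lit 11463008007) (nat_lit 22) (nat_lit 5) (nat_lit 24) (nat_lit 5) (nat_lit 23) (nat_lit 5) (nat_lit 320) (nat_lit 311) (nat_lit 269)) (XT.nd (nat_lit 78) (nat_lit 152) (nat_lit 0) (XT.lf (nat_lit 0) (nat_lit 9844905548) (nat_lit 152) (nat_lit 3241021435) (nat_lit 76) (nat_lit 28367982290) (nat_lit 22) (nat_lit 5) (nat_lit 24) (nat_lit 5) (nat_lit 23) (nat_lit 5) (nat_lit 321) (nat_lit 311) (nat_lit 268)) (XT.lf (nat_lit 0) (nat_lit 19289288846) (nat_lit 228) (nat_lit 22703237772) (nat_lit 76) (nat_lit 3207957730) (nat_lit 20) (nat_lit 5) (nat_lit 23) (nat_lit 5) (nat_lit 21) (nat_lit 4) (nat_lit 322) (nat_lit 311) (nat_lit 267)))) (XT.nd (nat_lit 78) (nat_lit 152) (nat_lit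 0) (XT.lf (nat_lit 0) (nat_lit 2556546256) (nat_lit 76) (nat_lit 28489807434) (nat_lit 152) (nat_lit 18328299157) (nat_lit 19) (nat_lit 5) (nat_lit 20) (nat_lit 5) (nat_lit 21) (nat_lit 4) (nat_lit 323) (nat_lit 311) (nat_lit 266)) (XT.nd (nat_lit 78) (nat_lit 152) (nat_lit 0) (XT.lf (nat_lit 0) (nat_lit 34140875485) (nat_lit 76) (nat_lit 11603105708) (nat_lit 152) (nat_lit 8254424355) (nat_lit 19) (nat_lit 5) (nat_lit 20) (nat_lit 5) (nat_lit 21) (nat_lit 4) (nat_lit 324) (nat_lit 311) (nat_lit 265)) (XT.lf (nat_lit 0) (nat_lit 3878668411) (nat_lit 152) (nat_lit 47506274330) (nat_lit 76) (nat_lit 7783402407) (nat_lit 17) (nat_lit 5) (nat_lit 19) (nat_lit 5) (nat_lit 18) (nat_lit 4) (nat_lit 325) (nat_lit 311) (nat_lit 264))))))) (XT.nd (nat_lit 858) (nat_lit 456) (nat_lit 0) (XT.nd (nat_lit 390) (nat_lit 304) (nat_lit 0) (XT.nd (nat_lit 156) (nat_lit 152) (nat_lit 0) (XT.nd (nat_lit 78)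 (nat_lit 76) (nat_lit 0) (XT.lf (nat_lit 0) (nat_lit 18618036940) (nat_lit 152) (nat_lit 15826869457) (nat_lit 76) (nat_lit 30365204125) (nat_lit 17) (nat_lit 5) (nat_lit 19) (nat_lit 5) (nat_lit 18) (nat_lit 4) (nat_lit 326) (nat_lit 311) (nat_lit 263)) (XT.lf (nat_lit 0) (nat_lit 22603651991) (nat_lit 76) (nat_lit 13893186618) (nat_lit 152) (nat_lit 34662028267) (nat_lit 16) (nat_lit 5) (nat_lit 17) (nat_lit 5) (nat_lit 18) (nat_lit 4) (nat_lit 327) (nat_lit 311) (nat_lit 262))) (XT.nd (nat_lit 78) (nat_lit 152) (nat_lit 0) (XT.lf (nat_lit 0) (nat_lit 58320317229) (nat_lit 152) (nat_lit 10214480130) (nat_lit 0) (nat_lit 9735715478) (nat_lit 16) (nat_lit 5) (nat_lit 18) (nat_lit 4) (nat_lit 16) (nat_lit 4) (nat_lit 328) (nat_lit 311) (nat_lit 261)) (XT.nd (nat_lit 78) (nat_lit 76) (nat_lit 0) (XT.lf (nat_lit 0) (nat_lit 36449125106) (nat_lit 76) (nat_lit 49132776079) (nat_lit 76) (nat_lit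 542321024) (nat_lit 15) (nat_lit 4) (nat_lit 16) (nat_lit 5) (nat_lit 16) (nat_lit 4) (nat_lit 329) (nat_lit 311) (nat_lit 260)) (XT.lf (nat_lit 0) (nat_lit 20391181094) (nat_lit 152) (nat_lit 4754505529) (nat_lit 76) (nat_lit 69792070924) (nat_lit 14) (nat_lit 5) (nat_lit 16) (nat_lit 5) (nat_lit 15) (nat_lit 4) (nat_lit 330) (nat_lit 311) (nat_lit 259))))) (XT.nd (nat_lit 234) (nat_lit 152) (nat_lit 0) (XT.nd (nat_lit 78) (nat_lit 76) (nat_lit 0) (XT.lf (nat_lit 0) (nat_lit 46737654965) (nat_lit 152) (nat_lit 53505715921) (nat_lit 0) (nat_lit 4476810773) (nat_lit 13) (nat_lit 5) (nat_lit 15) (nat_lit 4) (nat_lit 13) (nat_lit 4) (nat_lit 331) (nat_lit 311) (nat_lit 258)) (XT.nd (nat_lit 78) (nat_lit 76) (nat_lit 0) (XT.lf (nat_lit 0) (nat_lit 78488596345) (nat_lit 152) (nat_lit 1039095388) (nat_lit 0) (nat_lit 36224405508) (nat_lit 13) (nat_lit 5) (nat_lit 15) (nat_lit 4) (nat_lit 13)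 (nat_lit 4) (nat_lit 332) (nat_lit 311) (nat_lit 257)) (XT.lf (nat_lit 0) (nat_lit 65082688826) (nat_lit 76) (nat_lit 52609831546) (nat_lit 76) (nat_lit 10342730583) (nat_lit 12) (nat_lit 4) (nat_lit 13) (nat_lit 5) (nat_lit 13) (nat_lit 4) (nat_lit 333) (nat_lit 311) (nat_lit 256)))) (XT.nd (nat_lit 78) (nat_lit 76) (nat_lit 0) (XT.lf (nat_lit 0) (nat_lit 18833108684) (nat_lit 152) (nat_lit 1778447836) (nat_lit 76) (nat_lit 121413420159) (nat_lit 11) (nat_lit 5) (nat_lit 13) (nat_lit 5) (nat_lit 12) (nat_lit 4) (nat_lit 334) (nat_lit 311) (nat_lit 255)) (XT.nd (nat_lit 78) (nat_lit 0) (nat_lit 0) (XT.lf (nat_lit 0) (nat_lit 55257501492) (nat_lit 152) (nat_lit 83692736279) (nat_lit 0) (nat_lit 18499386727) (nat_lit 10) (nat_lit 5) (nat_lit 12) (nat_lit 4) (nat_lit 10) (nat_lit 4) (nat_lit 335) (nat_lit 311) (nat_lit 254)) (XT.lf (nat_lit 0) (nat_lit 98220539669) (nat_lit 152) (nat_lit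 15345421977) (nat_lit 0) (nat_lit 61460761029) (nat_lit 10) (nat_lit 5) (nat_lit 12) (nat_lit 4) (nat_lit 10) (nat_lit 4) (nat_lit 336) (nat_lit 311) (nat_lit 253)))))) (XT.nd (nat_lit 390) (nat_lit 228) (nat_lit 0) (XT.nd (nat_lit 156) (nat_lit 152) (nat_lit 0) (XT.nd (nat_lit 78) (nat_lit 0) (nat_lit 0) (XT.lf (nat_lit 0) (nat_lit 69428121335) (nat_lit 76) (nat_lit 81071384914) (nat_lit 76) (nat_lit 44310159427) (nat_lit 9) (nat_lit 4) (nat_lit 10) (nat_lit 5) (nat_lit 10) (nat_lit 4) (nat_lit 337) (nat_lit 311) (nat_lit 252)) (XT.lf (nat_lit 0) (nat_lit 168635783611) (nat_lit 76) (nat_lit 42783456342) (nat_lit 76) (nat_lit 6020972727) (nat_lit 9) (nat_lit 4) (nat_lit 10) (nat_lit 5) (nat_lit 10) (nat_lit 4) (nat_lit 338) (nat_lit 311) (nat_lit 251))) (XT.nd (nat_lit 78) (nat_lit 0) (nat_lit 0) (XT.lf (nat_lit 0) (nat_lit 36545340597) (nat_lit 152) (nat_lit 201819222226) (nat_lit 0)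 (nat_lit 4577012215) (nat_lit 7) (nat_lit 5) (nat_lit 9) (nat_lit 4) (nat_lit 7) (nat_lit 4) (nat_lit 339) (nat_lit 311) (nat_lit 250)) (XT.nd (nat_lit 78) (nat_lit 0) (nat_lit 0) (XT.lf (nat_lit 0) (nat_lit 89587187746) (nat_lit 152) (nat_lit 124313862540) (nat_lit 0) (nat_lit 57618032125) (nat_lit 7) (nat_lit 5) (nat_lit 9) (nat_lit 4) (nat_lit 7) (nat_lit 4) (nat_lit 340) (nat_lit 311) (nat_lit 249)) (XT.lf (nat_lit 0) (nat_lit 150582780495) (nat_lit 152) (nat_lit 35187910080) (nat_lit 0) (nat_lit 118612905535) (nat_lit 7) (nat_lit 5) (nat_lit 9) (nat_lit 4) (nat_lit 7) (nat_lit 4) (nat_lit 341) (nat_lit 311) (nat_lit 248))))) (XT.nd (nat_lit 234) (nat_lit 152) (nat_lit 0) (XT.nd (nat_lit 78) (nat_lit 0) (nat_lit 0) (XT.lf (nat_lit 0) (nat_lit 73879684161) (nat_lit 76) (nat_lit 149905026886) (nat_lit 76) (nat_lit 117934526414) (nat_lit 6) (nat_lit 4) (nat_lit 7) (nat_lit 5) (nat_lit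 7) (nat_lit 4) (nat_lit 342) (nat_lit 311) (nat_lit 247)) (XT.nd (nat_lit 78) (nat_lit 0) (nat_lit 0) (XT.lf (nat_lit 0) (nat_lit 203257733314) (nat_lit 76) (nat_lit 106546472630) (nat_lit 76) (nat_lit 74575428235) (nat_lit 6) (nat_lit 4) (nat_lit 7) (nat_lit 5) (nat_lit 7) (nat_lit 4) (nat_lit 343) (nat_lit 311) (nat_lit 246)) (XT.lf (nat_lit 0) (nat_lit 352038728550) (nat_lit 76) (nat_lit 56686076294) (nat_lit 76) (nat_lit 24714558922) (nat_lit 6) (nat_lit 4) (nat_lit 7) (nat_lit 5) (nat_lit 7) (nat_lit 4) (nat_lit 344) (nat_lit 311) (nat_lit 245)))) (XT.nd (nat_lit 78) (nat_lit 0) (nat_lit 0) (XT.lf (nat_lit 0) (nat_lit 31330763820) (nat_lit 152) (nat_lit 454554080192) (nat_lit 0) (nat_lit 3529086728) (nat_lit 4) (nat_lit 5) (nat_lit 6) (nat_lit 4) (nat_lit 4) (nat_lit 4) (nat_lit 345) (nat_lit 311) (nat_lit 244)) (XT.nd (nat_lit 78) (nat_lit 0) (nat_lit 0) (XT.lf (nat_lit 0) (nat_lit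 100407927521) (nat_lit 152) (nat_lit 379520982060) (nat_lit 0) (nat_lit 72605939439) (nat_lit 4) (nat_lit 5) (nat_lit 6) (nat_lit 4) (nat_lit 4) (nat_lit 4) (nat_lit 346) (nat_lit 311) (nat_lit 243)) (XT.lf (nat_lit 0) (nat_lit 179845232583) (nat_lit 152) (nat_lit 293235913548) (nat_lit 0) (nat_lit 152042974075) (nat_lit 4) (nat_lit 5) (nat_lit 6) (nat_lit 4) (nat_lit 4) (nat_lit 4) (nat_lit 347) (nat_lit 311) (nat_lit 242))))))))
noncomputable def xc69 : XT := (XT.nd (nat_lit 1716) (nat_lit 0) (nat_lit 0) (XT.nd (nat_lit 858) (nat_lit 152) (nat_lit 0) (XT.nd (nat_lit 390) (nat_lit 0) (nat_lit 0) (XT.nd (nat_lit 156) (nat_lit 76) (nat_lit 0) (XT.nd (nat_lit 78) (nat_lit 0) (nat_lit 0) (XT.lf (nat_lit 0) (nat_lit 271196887150) (nat_lit 152) (nat_lit 194010688535) (nat_lit 0) (nat_lit 243394393488) (nat_lit 4) (nat_lit 5) (nat_lit 6) (nat_lit 4) (nat_lit 4) (nat_lit 4) (nat_lit 348) (nat_lit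 311) (nat_lit 241)) (XT.lf (nat_lit 0) (nat_lit 376250206200) (nat_lit 152) (nat_lit 79903943921) (nat_lit 0) (nat_lit 348447508058) (nat_lit 4) (nat_lit 5) (nat_lit 6) (nat_lit 4) (nat_lit 4) (nat_lit 4) (nat_lit 349) (nat_lit 311) (nat_lit 240))) (XT.nd (nat_lit 78) (nat_lit 0) (nat_lit 0) (XT.lf (nat_lit 0) (nat_lit 56331898721) (nat_lit 76) (nat_lit 443061265838) (nat_lit 76) (nat_lit 415258389886) (nat_lit 3) (nat_lit 4) (nat_lit 4) (nat_lit 5) (nat_lit 4) (nat_lit 4) (nat_lit 350) (nat_lit 311) (nat_lit 239)) (XT.nd (nat_lit 78) (nat_lit 0) (nat_lit 0) (XT.lf (nat_lit 0) (nat_lit 221981352122) (nat_lit 76) (nat_lit 423202114365) (nat_lit 76) (nat_lit 395399083796) (nat_lit 3) (nat_lit 4) (nat_lit 4) (nat_lit 5) (nat_lit 4) (nat_lit 4) (nat_lit 351) (nat_lit 311) (nat_lit 238)) (XT.lf (nat_lit 0) (nat_lit 412476589328) (nat_lit 76) (nat_lit 400364944157) (nat_lit 76) (nat_lit 372561779138)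 (nat_lit 3) (nat_lit 4) (nat_lit 4) (nat_lit 5) (nat_lit 4) (nat_lit 4) (nat_lit 352) (nat_lit 311) (nat_lit 237))))) (XT.nd (nat_lit 234) (nat_lit 0) (nat_lit 0) (XT.nd (nat_lit 78) (nat_lit 0) (nat_lit 0) (XT.lf (nat_lit 0) (nat_lit 631544691067) (nat_lit 76) (nat_lit 374102941013) (nat_lit 76) (nat_lit 346299659082) (nat_lit 3) (nat_lit 4) (nat_lit 4) (nat_lit 5) (nat_lit 4) (nat_lit 4) (nat_lit 353) (nat_lit 311) (nat_lit 236)) (XT.nd (nat_lit 78) (nat_lit 0) (nat_lit 0) (XT.lf (nat_lit 0) (nat_lit 883471772374) (nat_lit 76) (nat_lit 343902283134) (nat_lit 76) (nat_lit 316098899540) (nat_lit 3) (nat_lit 4) (nat_lit 4) (nat_lit 5) (nat_lit 4) (nat_lit 4) (nat_lit 354) (nat_lit 311) (nat_lit 235)) (XT.lf (nat_lit 0) (nat_lit 1173186841360) (nat_lit 76) (nat_lit 309172088082) (nat_lit 76) (nat_lit 281368616085) (nat_lit 3) (nat_lit 4) (nat_lit 4) (nat_lit 5) (nat_lit 4) (nat_lit 4) (nat_lit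 355) (nat_lit 311) (nat_lit 234)))) (XT.nd (nat_lit 78) (nat_lit 0) (nat_lit 0) (XT.lf (nat_lit 0) (nat_lit 1506358236331) (nat_lit 76) (nat_lit 269232852042) (nat_lit 76) (nat_lit 241429303173) (nat_lit 3) (nat_lit 4) (nat_lit 4) (nat_lit 5) (nat_lit 4) (nat_lit 4) (nat_lit 356) (nat_lit 311) (nat_lit 233)) (XT.nd (nat_lit 78) (nat_lit 0) (nat_lit 0) (XT.lf (nat_lit 0) (nat_lit 1889504528060) (nat_lit 76) (nat_lit 223303155177) (nat_lit 76) (nat_lit 195499539463) (nat_lit 3) (nat_lit 4) (nat_lit 4) (nat_lit 5) (nat_lit 4) (nat_lit 4) (nat_lit 357) (nat_lit 311) (nat_lit 232)) (XT.lf (nat_lit 0) (nat_lit 2330122057037) (nat_lit 76) (nat_lit 170484372983) (nat_lit 76) (nat_lit 142680699143) (nat_lit 3) (nat_lit 4) (nat_lit 4) (nat_lit 5) (nat_lit 4) (nat_lit 4) (nat_lit 358) (nat_lit 311) (nat_lit 231)))))) (XT.nd (nat_lit 390) (nat_lit 0) (nat_lit 0) (XT.nd (nat_lit 156) (nat_lit 152)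 (nat_lit 0) (XT.nd (nat_lit 78) (nat_lit 0) (nat_lit 0) (XT.lf (nat_lit 0) (nat_lit 2836831601001) (nat_lit 76) (nat_lit 109743094506) (nat_lit 76) (nat_lit 81939370121) (nat_lit 3) (nat_lit 4) (nat_lit 4) (nat_lit 5) (nat_lit 4) (nat_lit 4) (nat_lit 359) (nat_lit 311) (nat_lit 230)) (XT.lf (nat_lit 0) (nat_lit 3419547042336) (nat_lit 76) (nat_lit 39890903426) (nat_lit 76) (nat_lit 12087135090) (nat_lit 3) (nat_lit 4) (nat_lit 4) (nat_lit 5) (nat_lit 4) (nat_lit 4) (nat_lit 360) (nat_lit 311) (nat_lit 229))) (XT.nd (nat_lit 78) (nat_lit 0) (nat_lit 0) (XT.lf (nat_lit 0) (nat_lit 69017044422) (nat_lit 152) (nat_lit 3865679578384) (nat_lit 0) (nat_lit 44839821330) (nat_lit 1) (nat_lit 5) (nat_lit 3) (nat_lit 4) (nat_lit 1) (nat_lit 4) (nat_lit 361) (nat_lit 311) (nat_lit 228)) (XT.nd (nat_lit 78) (nat_lit 0) (nat_lit 0) (XT.lf (nat_lit 0) (nat_lit 165795110266) (nat_lit 152) (nat_lit 4255538343942)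 (nat_lit 0) (nat_lit 141617858275) (nat_lit 1) (nat_lit 5) (nat_lit 3) (nat_lit 4) (nat_lit 1) (nat_lit 4) (nat_lit 362) (nat_lit 311) (nat_lit 227)) (XT.lf (nat_lit 0) (nat_lit 277089684753) (nat_lit 152) (nat_lit 4703876348897) (nat_lit 0) (nat_lit 252912407632) (nat_lit 1) (nat_lit 5) (nat_lit 3) (nat_lit 4) (nat_lit 1) (nat_lit 4) (nat_lit 363) (nat_lit 311) (nat_lit 226))))) (XT.nd (nat_lit 234) (nat_lit 0) (nat_lit 0) (XT.nd (nat_lit 78) (nat_lit 0) (nat_lit 0) (XT.lf (nat_lit 0) (nat_lit 405078270427) (nat_lit 152) (nat_lit 5219465423783) (nat_lit 0) (nat_lit 380900971455) (nat_lit 1) (nat_lit 5) (nat_lit 3) (nat_lit 4) (nat_lit 1) (nat_lit 4) (nat_lit 364) (nat_lit 311) (nat_lit 225)) (XT.nd (nat_lit 78) (nat_lit 0) (nat_lit 0) (XT.lf (nat_lit 0) (nat_lit 552264991792) (nat_lit 152) (nat_lit 5812393180934) (nat_lit 0) (nat_lit 528087673818) (nat_lit 1) (nat_lit 5) (nat_lit 3) (nat_lit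 4) (nat_lit 1) (nat_lit 4) (nat_lit 365) (nat_lit 311) (nat_lit 224)) (XT.lf (nat_lit 0) (nat_lit 721529589047) (nat_lit 152) (nat_lit 6494260380815) (nat_lit 0) (nat_lit 697352254551) (nat_lit 1) (nat_lit 5) (nat_lit 3) (nat_lit 4) (nat_lit 1) (nat_lit 4) (nat_lit 366) (nat_lit 311) (nat_lit 223)))) (XT.nd (nat_lit 78) (nat_lit 0) (nat_lit 0) (XT.lf (nat_lit 0) (nat_lit 916183760835) (nat_lit 152) (nat_lit 7278407903424) (nat_lit 0) (nat_lit 892006411970) (nat_lit 1) (nat_lit 5) (nat_lit 3) (nat_lit 4) (nat_lit 1) (nat_lit 4) (nat_lit 367) (nat_lit 311) (nat_lit 222)) (XT.nd (nat_lit 78) (nat_lit 0) (nat_lit 0) (XT.lf (nat_lit 0) (nat_lit 1140035958342) (nat_lit 152) (nat_lit 8180177765509) (nat_lit 0) (nat_lit 1115858596984) (nat_lit 1) (nat_lit 5) (nat_lit 3) (nat_lit 4) (nat_lit 1) (nat_lit 4) (nat_lit 368) (nat_lit 311) (nat_lit 221)) (XT.lf (nat_lit 0) (nat_lit 1397465898477) (nat_lit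 152) (nat_lit 9217213290458) (nat_lit 0) (nat_lit 1373288526255) (nat_lit 1) (nat_lit 5) (nat_lit 3) (nat_lit 4) (nat_lit 1) (nat_lit 4) (nat_lit 369) (nat_lit 311) (nat_lit 220))))))) (XT.nd (nat_lit 858) (nat_lit 0) (nat_lit 0) (XT.nd (nat_lit 390) (nat_lit 0) (nat_lit 0) (XT.nd (nat_lit 156) (nat_lit 0) (nat_lit 0) (XT.nd (nat_lit 78) (nat_lit 0) (nat_lit 0) (XT.lf (nat_lit 0) (nat_lit 1693510253981) (nat_lit 152) (nat_lit 10409804303758) (nat_lit 0) (nat_lit 1669332872311) (nat_lit 1) (nat_lit 5) (nat_lit 3) (nat_lit 4) (nat_lit 1) (nat_lit 4) (nat_lit 370) (nat_lit 311) (nat_lit 219)) (XT.lf (nat_lit 0) (nat_lit 2033961197027) (nat_lit 152) (nat_lit 11781284107844) (nat_lit 0) (nat_lit 2009783807142) (nat_lit 1) (nat_lit 5) (nat_lit 3) (nat_lit 4) (nat_lit 1) (nat_lit 4) (nat_lit 371) (nat_lit 311) (nat_lit 218))) (XT.nd (nat_lit 78) (nat_lit 0) (nat_lit 0) (XT.lf (nat_lit 0) (nat_lit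 2425479724327) (nat_lit 152) (nat_lit 13358486003231) (nat_lit 0) (nat_lit 2401302327299) (nat_lit 1) (nat_lit 5) (nat_lit 3) (nat_lit 4) (nat_lit 1) (nat_lit 4) (nat_lit 372) (nat_lit 311) (nat_lit 217)) (XT.nd (nat_lit 78) (nat_lit 0) (nat_lit 0) (XT.lf (nat_lit 0) (nat_lit 2875725980980) (nat_lit 152) (nat_lit 15172268287872) (nat_lit 0) (nat_lit 2851548577740) (nat_lit 1) (nat_lit 5) (nat_lit 3) (nat_lit 4) (nat_lit 1) (nat_lit 4) (nat_lit 373) (nat_lit 311) (nat_lit 216)) (XT.lf (nat_lit 0) (nat_lit 3393509132878) (nat_lit 152) (nat_lit 17258118006466) (nat_lit 0) (nat_lit 3369331724236) (nat_lit 1) (nat_lit 5) (nat_lit 3) (nat_lit 4) (nat_lit 1) (nat_lit 4) (nat_lit 374) (nat_lit 311) (nat_lit 215))))) (XT.nd (nat_lit 234) (nat_lit 0) (nat_lit 0) (XT.nd (nat_lit 78) (nat_lit 0) (nat_lit 0) (XT.lf (nat_lit 0) (nat_lit 3988959719947) (nat_lit 152) (nat_lit 19656845262204) (nat_lit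 0) (nat_lit 3964782306609) (nat_lit 1) (nat_lit 5) (nat_lit 3) (nat_lit 4) (nat_lit 1) (nat_lit 4) (nat_lit 375) (nat_lit 311) (nat_lit 214)) (XT.nd (nat_lit 78) (nat_lit 0) (nat_lit 0) (XT.lf (nat_lit 0) (nat_lit 4673727862372) (nat_lit 152) (nat_lit 22415381675306) (nat_lit 0) (nat_lit 4649550444950) (nat_lit 1) (nat_lit 5) (nat_lit 3) (nat_lit 4) (nat_lit 1) (nat_lit 4) (nat_lit 376) (nat_lit 311) (nat_lit 213)) (XT.lf (nat_lit 0) (nat_lit 5461211197720) (nat_lit 152) (nat_lit 25587698610376) (nat_lit 0) (nat_lit 5437033776746) (nat_lit 1) (nat_lit 5) (nat_lit 3) (nat_lit 4) (nat_lit 1) (nat_lit 4) (nat_lit 377) (nat_lit 311) (nat_lit 212)))) (XT.nd (nat_lit 78) (nat_lit 0) (nat_lit 0) (XT.lf (nat_lit 0) (nat_lit 6366817008640) (nat_lit 152) (nat_lit 29235863137884) (nat_lit 0) (nat_lit 6342639584578) (nat_lit 1) (nat_lit 5) (nat_lit 3) (nat_lit 4) (nat_lit 1) (nat_lit 4) (nat_lit 378)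 (nat_lit 311) (nat_lit 211)) (XT.nd (nat_lit 78) (nat_lit 0) (nat_lit 0) (XT.lf (nat_lit 0) (nat_lit 7408263669693) (nat_lit 152) (nat_lit 33431252389888) (nat_lit 0) (nat_lit 7384086242945) (nat_lit 1) (nat_lit 5) (nat_lit 3) (nat_lit 4) (nat_lit 1) (nat_lit 4) (nat_lit 379) (nat_lit 311) (nat_lit 210)) (XT.lf (nat_lit 0) (nat_lit 8605927311204) (nat_lit 152) (nat_lit 38255950069147) (nat_lit 0) (nat_lit 8581749882121) (nat_lit 1) (nat_lit 5) (nat_lit 3) (nat_lit 4) (nat_lit 1) (nat_lit 4) (nat_lit 380) (nat_lit 311) (nat_lit 209)))))) (XT.nd (nat_lit 1638) (nat_lit 0) (nat_lit 0) (XT.nd (nat_lit 234) (nat_lit 0) (nat_lit 0) (XT.nd (nat_lit 78) (nat_lit 0) (nat_lit 0) (XT.lf (nat_lit 0) (nat_lit 9983240482681) (nat_lit 152) (nat_lit 43804352434601) (nat_lit 0) (nat_lit 9959063051568) (nat_lit 1) (nat_lit 5) (nat_lit 3) (nat_lit 4) (nat_lit 1) (nat_lit 4) (nat_lit 381) (nat_lit 311) (nat_lit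 208)) (XT.nd (nat_lit 78) (nat_lit 0) (nat_lit 0) (XT.lf (nat_lit 0) (nat_lit 11567150615740) (nat_lit 152) (nat_lit 50185015184706) (nat_lit 0) (nat_lit 11542973182861) (nat_lit 1) (nat_lit 5) (nat_lit 3) (nat_lit 4) (nat_lit 1) (nat_lit 4) (nat_lit 382) (nat_lit 311) (nat_lit 207)) (XT.lf (nat_lit 0) (nat_lit 13388647256463) (nat_lit 152) (nat_lit 57522777373267) (nat_lit 0) (nat_lit 13364469822048) (nat_lit 1) (nat_lit 5) (nat_lit 3) (nat_lit 4) (nat_lit 1) (nat_lit 4) (nat_lit 383) (nat_lit 311) (nat_lit 206)))) (XT.nd (nat_lit 1248) (nat_lit 0) (nat_lit 0) (XT.lf (nat_lit 0) (nat_lit 15483368382602) (nat_lit 152) (nat_lit 65961203912669) (nat_lit 0) (nat_lit 15459190946852) (nat_lit 1) (nat_lit 5) (nat_lit 3) (nat_lit 4) (nat_lit 1) (nat_lit 4) (nat_lit 384) (nat_lit 311) (nat_lit 205)) (XT.nd (nat_lit 78) (nat_lit 0) (nat_lit 0) (XT.lf (nat_lit 0) (nat_lit 149702818184210) (nat_lit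 152) (nat_lit 606654176333602) (nat_lit 0) (nat_lit 149678640740512) (nat_lit 1) (nat_lit 5) (nat_lit 3) (nat_lit 4) (nat_lit 1) (nat_lit 4) (nat_lit 400) (nat_lit 311) (nat_lit 189)) (XT.lf (nat_lit 0) (nat_lit 172244664884859) (nat_lit 152) (nat_lit 697462312853463) (nat_lit 0) (nat_lit 172220487441035) (nat_lit 1) (nat_lit 5) (nat_lit 3) (nat_lit 4) (nat_lit 1) (nat_lit 4) (nat_lit 401) (nat_lit 311) (nat_lit 188))))) (XT.nd (nat_lit 39936) (nat_lit 0) (nat_lit 2052) (XT.nd (nat_lit 78) (nat_lit 0) (nat_lit 0) (XT.lf (nat_lit 0) (nat_lit 198167788589739) (nat_lit 152) (nat_lit 801891669853126) (nat_lit 0) (nat_lit 198143611145806) (nat_lit 1) (nat_lit 5) (nat_lit 3) (nat_lit 4) (nat_lit 1) (nat_lit 4) (nat_lit 402) (nat_lit 311) (nat_lit 187)) (XT.nd (nat_lit 39780) (nat_lit 0) (nat_lit 2052) (XT.lf (nat_lit 0) (nat_lit 227979380849600) (nat_lit 152) (nat_lit 921985430404324) (nat_lit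 0) (nat_lit 227955203405575) (nat_lit 1) (nat_lit 5) (nat_lit 3) (nat_lit 4) (nat_lit 1) (nat_lit 4) (nat_lit 403) (nat_lit 311) (nat_lit 186)) (XT.lf (nat_lit 0) (nat_lit 2316029045) (nat_lit 380) (nat_lit 4294817072) (nat_lit 380) (nat_lit 4294817072) (nat_lit 28) (nat_lit 3) (nat_lit 33) (nat_lit 3) (nat_lit 33) (nat_lit 5) (nat_lit 312) (nat_lit 312) (nat_lit 276)))) (XT.nd (nat_lit 78) (nat_lit 0) (nat_lit 76) (XT.lf (nat_lit 76) (nat_lit 2191595435) (nat_lit 0) (nat_lit 3006152994) (nat_lit 380) (nat_lit 18216471728) (nat_lit 29) (nat_lit 5) (nat_lit 28) (nat_lit 3) (nat_lit 33) (nat_lit 5) (nat_lit 313) (nat_lit 312) (nat_lit 275)) (XT.nd (nat_lit 78) (nat_lit 0) (nat_lit 0) (XT.lf (nat_lit 0) (nat_lit 6657720679) (nat_lit 304) (nat_lit 10036445280) (nat_lit 380) (nat_lit 8442005676) (nat_lit 29) (nat_lit 5) (nat_lit 33) (nat_lit 5) (nat_lit 34) (nat_lit 5) (nat_lit 314) (nat_lit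 312) (nat_lit 274)) (XT.lf (nat_lit 76) (nat_lit 2929432747) (nat_lit 0) (nat_lit 5651766656) (nat_lit 380) (nat_lit 18498572787) (nat_lit 30) (nat_lit 5) (nat_lit 29) (nat_lit 5) (nat_lit 34) (nat_lit 5) (nat_lit 315) (nat_lit 312) (nat_lit 273))))))))
noncomputable def xc70 : XT := (XT.nd (nat_lit 1716) (nat_lit 532) (nat_lit 0) (XT.nd (nat_lit 858) (nat_lit 532) (nat_lit 0) (XT.nd (nat_lit 390) (nat_lit 532) (nat_lit 0) (XT.nd (nat_lit 156) (nat_lit 152) (nat_lit 0) (XT.nd (nat_lit 78) (nat_lit 304) (nat_lit 0) (XT.lf (nat_lit 0) (nat_lit 11616764607) (nat_lit 304) (nat_lit 10602844476) (nat_lit 76) (nat_lit 6971797695) (nat_lit 30) (nat_lit 5) (nat_lit 34) (nat_lit 5) (nat_lit 31) (nat_lit 5) (nat_lit 316) (nat_lit 312) (nat_lit 272)) (XT.lf (nat_lit 0) (nat_lit 5150530918) (nat_lit 304) (nat_lit 10424015203) (nat_lit 380) (nat_lit 15975233117) (nat_lit 26) (nat_lit 5) (nat_lit 30)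 (nat_lit 5) (nat_lit 31) (nat_lit 5) (nat_lit 317) (nat_lit 312) (nat_lit 271))) (XT.nd (nat_lit 78) (nat_lit 152) (nat_lit 0) (XT.lf (nat_lit 0) (nat_lit 20822535058) (nat_lit 380) (nat_lit 9893736799) (nat_lit 76) (nat_lit 3441176345) (nat_lit 26) (nat_lit 5) (nat_lit 31) (nat_lit 5) (nat_lit 27) (nat_lit 5) (nat_lit 318) (nat_lit 312) (nat_lit 270)) (XT.nd (nat_lit 78) (nat_lit 0) (nat_lit 0) (XT.lf (nat_lit 0) (nat_lit 9414549020) (nat_lit 152) (nat_lit 18317086631) (nat_lit 228) (nat_lit 9293563701) (nat_lit 24) (nat_lit 5) (nat_lit 26) (nat_lit 5) (nat_lit 27) (nat_lit 5) (nat_lit 319) (nat_lit 312) (nat_lit 269)) (XT.lf (nat_lit 0) (nat_lit 32716853398) (nat_lit 152) (nat_lit 3466135020) (nat_lit 228) (nat_lit 4064258075) (nat_lit 24) (nat_lit 5) (nat_lit 26) (nat_lit 5) (nat_lit 27) (nat_lit 5) (nat_lit 320) (nat_lit 312) (nat_lit 268))))) (XT.nd (nat_lit 234) (nat_lit 228) (nat_lit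 0) (XT.nd (nat_lit 78) (nat_lit 152) (nat_lit 0) (XT.lf (nat_lit 0) (nat_lit 3069543097) (nat_lit 152) (nat_lit 27457954277) (nat_lit 76) (nat_lit 13218959478) (nat_lit 22) (nat_lit 5) (nat_lit 24) (nat_lit 5) (nat_lit 23) (nat_lit 5) (nat_lit 321) (nat_lit 312) (nat_lit 267)) (XT.nd (nat_lit 78) (nat_lit 152) (nat_lit 0) (XT.lf (nat_lit 0) (nat_lit 11425133017) (nat_lit 152) (nat_lit 3576303928) (nat_lit 76) (nat_lit 32654918998) (nat_lit 22) (nat_lit 5) (nat_lit 24) (nat_lit 5) (nat_lit 23) (nat_lit 5) (nat_lit 322) (nat_lit 312) (nat_lit 266)) (XT.lf (nat_lit 0) (nat_lit 22280628107) (nat_lit 228) (nat_lit 25952206164) (nat_lit 76) (nat_lit 3732929991) (nat_lit 20) (nat_lit 5) (nat_lit 23) (nat_lit 5) (nat_lit 21) (nat_lit 4) (nat_lit 323) (nat_lit 312) (nat_lit 265)))) (XT.nd (nat_lit 78) (nat_lit 152) (nat_lit 0) (XT.lf (nat_lit 0) (nat_lit 3089431047) (nat_lit 76) (nat_lit 32705232529)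 (nat_lit 152) (nat_lit 20972395981) (nat_lit 19) (nat_lit 5) (nat_lit 20) (nat_lit 5) (nat_lit 21) (nat_lit 4) (nat_lit 324) (nat_lit 312) (nat_lit 264)) (XT.nd (nat_lit 78) (nat_lit 152) (nat_lit 0) (XT.lf (nat_lit 0) (nat_lit 39391922332) (nat_lit 76) (nat_lit 13293096764) (nat_lit 152) (nat_lit 9401154921) (nat_lit 19) (nat_lit 5) (nat_lit 20) (nat_lit 5) (nat_lit 21) (nat_lit 4) (nat_lit 325) (nat_lit 312) (nat_lit 263)) (XT.lf (nat_lit 0) (nat_lit 4540590980) (nat_lit 152) (nat_lit 54490865208) (nat_lit 76) (nat_lit 9000064727) (nat_lit 17) (nat_lit 5) (nat_lit 19) (nat_lit 5) (nat_lit 18) (nat_lit 4) (nat_lit 326) (nat_lit 312) (nat_lit 262)))))) (XT.nd (nat_lit 390) (nat_lit 304) (nat_lit 0) (XT.nd (nat_lit 156) (nat_lit 152) (nat_lit 0) (XT.nd (nat_lit 78) (nat_lit 76) (nat_lit 0) (XT.lf (nat_lit 0) (nat_lit 21480414052) (nat_lit 152) (nat_lit 18077986595) (nat_lit 76) (nat_lit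 34962725578) (nat_lit 17) (nat_lit 5) (nat_lit 19) (nat_lit 5) (nat_lit 18) (nat_lit 4) (nat_lit 327) (nat_lit 312) (nat_lit 261)) (XT.lf (nat_lit 0) (nat_lit 26111526103) (nat_lit 76) (nat_lit 15925280506) (nat_lit 152) (nat_lit 39786030369) (nat_lit 16) (nat_lit 5) (nat_lit 17) (nat_lit 5) (nat_lit 18) (nat_lit 4) (nat_lit 328) (nat_lit 312) (nat_lit 260))) (XT.nd (nat_lit 78) (nat_lit 152) (nat_lit 0) (XT.lf (nat_lit 0) (nat_lit 67127139264) (nat_lit 152) (nat_lit 11637923599) (nat_lit 0) (nat_lit 11237172820) (nat_lit 16) (nat_lit 5) (nat_lit 18) (nat_lit 4) (nat_lit 16) (nat_lit 4) (nat_lit 329) (nat_lit 312) (nat_lit 259)) (XT.nd (nat_lit 78) (nat_lit 76) (nat_lit 0) (XT.lf (nat_lit 0) (nat_lit 42020280216) (nat_lit 76) (nat_lit 56454311935) (nat_lit 76) (nat_lit 559919554) (nat_lit 15) (nat_lit 4) (nat_lit 16) (nat_lit 5) (nat_lit 16) (nat_lit 4) (nat_lit 330) (nat_lit 312) (nat_lit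 258)) (XT.lf (nat_lit 0) (nat_lit 23500357556) (nat_lit 152) (nat_lit 5372472278) (nat_lit 76) (nat_lit 80297991523) (nat_lit 14) (nat_lit 5) (nat_lit 16) (nat_lit 5) (nat_lit 15) (nat_lit 4) (nat_lit 331) (nat_lit 312) (nat_lit 257))))) (XT.nd (nat_lit 234) (nat_lit 152) (nat_lit 0) (XT.nd (nat_lit 78) (nat_lit 76) (nat_lit 0) (XT.lf (nat_lit 0) (nat_lit 53797767906) (nat_lit 152) (nat_lit 61435307950) (nat_lit 0) (nat_lit 5187691672) (nat_lit 13) (nat_lit 5) (nat_lit 15) (nat_lit 4) (nat_lit 13) (nat_lit 4) (nat_lit 332) (nat_lit 312) (nat_lit 256)) (XT.nd (nat_lit 78) (nat_lit 76) (nat_lit 0) (XT.lf (nat_lit 0) (nat_lit 90304898575) (nat_lit 152) (nat_lit 1111250688) (nat_lit 0) (nat_lit 41692291797) (nat_lit 13) (nat_lit 5) (nat_lit 15) (nat_lit 4) (nat_lit 13) (nat_lit 4) (nat_lit 333) (nat_lit 312) (nat_lit 255)) (XT.lf (nat_lit 0) (nat_lit 74924996204) (nat_lit 76) (nat_lit 60462113297)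 (nat_lit 76) (nat_lit 11847306046) (nat_lit 12) (nat_lit 4) (nat_lit 13) (nat_lit 5) (nat_lit 13) (nat_lit 4) (nat_lit 334) (nat_lit 312) (nat_lit 254)))) (XT.nd (nat_lit 78) (nat_lit 76) (nat_lit 0) (XT.lf (nat_lit 0) (nat_lit 21695174662) (nat_lit 152) (nat_lit 1972095182) (nat_lit 76) (nat_lit 139655875992) (nat_lit 11) (nat_lit 5) (nat_lit 13) (nat_lit 5) (nat_lit 12) (nat_lit 4) (nat_lit 335) (nat_lit 312) (nat_lit 253)) (XT.nd (nat_lit 78) (nat_lit 0) (nat_lit 0) (XT.lf (nat_lit 0) (nat_lit 63582712012) (nat_lit 152) (nat_lit 96173001734) (nat_lit 0) (nat_lit 21305855855) (nat_lit 10) (nat_lit 5) (nat_lit 12) (nat_lit 4) (nat_lit 10) (nat_lit 4) (nat_lit 336) (nat_lit 312) (nat_lit 252)) (XT.lf (nat_lit 0) (nat_lit 112985433920) (nat_lit 152) (nat_lit 17583196155) (nat_lit 0) (nat_lit 70707319635) (nat_lit 10) (nat_lit 5) (nat_lit 12) (nat_lit 4) (nat_lit 10) (nat_lit 4) (nat_lit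 337) (nat_lit 312) (nat_lit 251))))))) (XT.nd (nat_lit 858) (nat_lit 76) (nat_lit 0) (XT.nd (nat_lit 390) (nat_lit 228) (nat_lit 0) (XT.nd (nat_lit 156) (nat_lit 152) (nat_lit 0) (XT.nd (nat_lit 78) (nat_lit 0) (nat_lit 0) (XT.lf (nat_lit 0) (nat_lit 79903467785) (nat_lit 76) (nat_lit 93201159332) (nat_lit 76) (nat_lit 50921951023) (nat_lit 9) (nat_lit 4) (nat_lit 10) (nat_lit 5) (nat_lit 10) (nat_lit 4) (nat_lit 338) (nat_lit 312) (nat_lit 250)) (XT.lf (nat_lit 0) (nat_lit 193984306152) (nat_lit 76) (nat_lit 49174076254) (nat_lit 76) (nat_lit 6893916620) (nat_lit 9) (nat_lit 4) (nat_lit 10) (nat_lit 5) (nat_lit 10) (nat_lit 4) (nat_lit 339) (nat_lit 312) (nat_lit 249))) (XT.nd (nat_lit 78) (nat_lit 0) (nat_lit 0) (XT.lf (nat_lit 0) (nat_lit 42054399172) (nat_lit 152) (nat_lit 232035994510) (nat_lit 0) (nat_lit 5288323630) (nat_lit 7) (nat_lit 5) (nat_lit 9) (nat_lit 4) (nat_lit 7) (nat_lit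 4) (nat_lit 340) (nat_lit 312) (nat_lit 248)) (XT.nd (nat_lit 78) (nat_lit 0) (nat_lit 0) (XT.lf (nat_lit 0) (nat_lit 103048968070) (nat_lit 152) (nat_lit 142912149704) (nat_lit 0) (nat_lit 66282267016) (nat_lit 7) (nat_lit 5) (nat_lit 9) (nat_lit 4) (nat_lit 7) (nat_lit 4) (nat_lit 341) (nat_lit 312) (nat_lit 247)) (XT.lf (nat_lit 0) (nat_lit 173190808145) (nat_lit 152) (nat_lit 40423668577) (nat_lit 0) (nat_lit 136423563167) (nat_lit 7) (nat_lit 5) (nat_lit 9) (nat_lit 4) (nat_lit 7) (nat_lit 4) (nat_lit 342) (nat_lit 312) (nat_lit 246))))) (XT.nd (nat_lit 234) (nat_lit 152) (nat_lit 0) (XT.nd (nat_lit 78) (nat_lit 0) (nat_lit 0) (XT.lf (nat_lit 0) (nat_lit 85002136254) (nat_lit 76) (nat_lit 172369880686) (nat_lit 76) (nat_lit 135602162732) (nat_lit 6) (nat_lit 4) (nat_lit 7) (nat_lit 5) (nat_lit 7) (nat_lit 4) (nat_lit 343) (nat_lit 312) (nat_lit 245)) (XT.nd (nat_lit 78) (nat_lit 0)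 (nat_lit 0) (XT.lf (nat_lit 0) (nat_lit 233781610240) (nat_lit 76) (nat_lit 122510269409) (nat_lit 76) (nat_lit 85742140171) (nat_lit 6) (nat_lit 4) (nat_lit 7) (nat_lit 5) (nat_lit 7) (nat_lit 4) (nat_lit 344) (nat_lit 312) (nat_lit 244)) (XT.lf (nat_lit 0) (nat_lit 404875161249) (nat_lit 76) (nat_lit 65173184159) (nat_lit 76) (nat_lit 28404697282) (nat_lit 6) (nat_lit 4) (nat_lit 7) (nat_lit 5) (nat_lit 7) (nat_lit 4) (nat_lit 345) (nat_lit 312) (nat_lit 243)))) (XT.nd (nat_lit 78) (nat_lit 0) (nat_lit 0) (XT.lf (nat_lit 0) (nat_lit 36045810223) (nat_lit 152) (nat_lit 522704950826) (nat_lit 0) (nat_lit 4072942513) (nat_lit 4) (nat_lit 5) (nat_lit 6) (nat_lit 4) (nat_lit 4) (nat_lit 4) (nat_lit 346) (nat_lit 312) (nat_lit 242)) (XT.nd (nat_lit 78) (nat_lit 0) (nat_lit 0) (XT.lf (nat_lit 0) (nat_lit 115482535632) (nat_lit 152) (nat_lit 436421093373) (nat_lit 0) (nat_lit 83509432769) (nat_lit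 4) (nat_lit 5) (nat_lit 6) (nat_lit 4) (nat_lit 4) (nat_lit 4) (nat_lit 347) (nat_lit 312) (nat_lit 241)) (XT.lf (nat_lit 0) (nat_lit 206833686152) (nat_lit 152) (nat_lit 337196921453) (nat_lit 0) (nat_lit 174860378807) (nat_lit 4) (nat_lit 5) (nat_lit 6) (nat_lit 4) (nat_lit 4) (nat_lit 4) (nat_lit 348) (nat_lit 312) (nat_lit 240)))))) (XT.nd (nat_lit 390) (nat_lit 0) (nat_lit 0) (XT.nd (nat_lit 156) (nat_lit 76) (nat_lit 0) (XT.nd (nat_lit 78) (nat_lit 0) (nat_lit 0) (XT.lf (nat_lit 0) (nat_lit 311886566901) (nat_lit 152) (nat_lit 223091092574) (nat_lit 0) (nat_lit 279913081747) (nat_lit 4) (nat_lit 5) (nat_lit 6) (nat_lit 4) (nat_lit 4) (nat_lit 4) (nat_lit 349) (nat_lit 312) (nat_lit 239)) (XT.lf (nat_lit 0) (nat_lit 432696560330) (nat_lit 152) (nat_lit 91871101387) (nat_lit 0) (nat_lit 400722920559) (nat_lit 4) (nat_lit 5) (nat_lit 6) (nat_lit 4) (nat_lit 4) (nat_lit 4) (nat_lit 350)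 (nat_lit 312) (nat_lit 238))) (XT.nd (nat_lit 78) (nat_lit 0) (nat_lit 0) (XT.lf (nat_lit 0) (nat_lit 64799279736) (nat_lit 76) (nat_lit 509511260474) (nat_lit 76) (nat_lit 477537486254) (nat_lit 3) (nat_lit 4) (nat_lit 4) (nat_lit 5) (nat_lit 4) (nat_lit 4) (nat_lit 351) (nat_lit 312) (nat_lit 237)) (XT.nd (nat_lit 78) (nat_lit 0) (nat_lit 0) (XT.lf (nat_lit 0) (nat_lit 255293855990) (nat_lit 76) (nat_lit 486674435660) (nat_lit 76) (nat_lit 454700544526) (nat_lit 3) (nat_lit 4) (nat_lit 4) (nat_lit 5) (nat_lit 4) (nat_lit 4) (nat_lit 352) (nat_lit 312) (nat_lit 236)) (XT.lf (nat_lit 0) (nat_lit 474361382988) (nat_lit 76) (nat_lit 460412732858) (nat_lit 76) (nat_lit 428438740062) (nat_lit 3) (nat_lit 4) (nat_lit 4) (nat_lit 5) (nat_lit 4) (nat_lit 4) (nat_lit 353) (nat_lit 312) (nat_lit 235))))) (XT.nd (nat_lit 234) (nat_lit 0) (nat_lit 0) (XT.nd (nat_lit 78) (nat_lit 0) (nat_lit 0) (XT.lf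 (nat_lit 0) (nat_lit 726287964519) (nat_lit 76) (nat_lit 430212336146) (nat_lit 76) (nat_lit 398238254947) (nat_lit 3) (nat_lit 4) (nat_lit 4) (nat_lit 5) (nat_lit 4) (nat_lit 4) (nat_lit 354) (nat_lit 312) (nat_lit 234)) (XT.nd (nat_lit 78) (nat_lit 0) (nat_lit 0) (XT.lf (nat_lit 0) (nat_lit 1016002598918) (nat_lit 76) (nat_lit 395482368196) (nat_lit 76) (nat_lit 363508210125) (nat_lit 3) (nat_lit 4) (nat_lit 4) (nat_lit 5) (nat_lit 4) (nat_lit 4) (nat_lit 355) (nat_lit 312) (nat_lit 233)) (XT.lf (nat_lit 0) (nat_lit 1349173615989) (nat_lit 76) (nat_lit 355543329635) (nat_lit 76) (nat_lit 323569104719) (nat_lit 3) (nat_lit 4) (nat_lit 4) (nat_lit 5) (nat_lit 4) (nat_lit 4) (nat_lit 356) (nat_lit 312) (nat_lit 232)))) (XT.nd (nat_lit 78) (nat_lit 0) (nat_lit 0) (XT.lf (nat_lit 0) (nat_lit 1732319579107) (nat_lit 76) (nat_lit 309613804492) (nat_lit 76) (nat_lit 277639521450) (nat_lit 3)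 (nat_lit 4) (nat_lit 4) (nat_lit 5) (nat_lit 4) (nat_lit 4) (nat_lit 357) (nat_lit 312) (nat_lit 231)) (XT.nd (nat_lit 78) (nat_lit 0) (nat_lit 0) (XT.lf (nat_lit 0) (nat_lit 2172936822336) (nat_lit 76) (nat_lit 256795171622) (nat_lit 76) (nat_lit 224820838035) (nat_lit 3) (nat_lit 4) (nat_lit 4) (nat_lit 5) (nat_lit 4) (nat_lit 4) (nat_lit 358) (nat_lit 312) (nat_lit 230)) (XT.lf (nat_lit 0) (nat_lit 2679646117824) (nat_lit 76) (nat_lit 196054022991) (nat_lit 76) (nat_lit 164079645452) (nat_lit 3) (nat_lit 4) (nat_lit 4) (nat_lit 5) (nat_lit 4) (nat_lit 4) (nat_lit 359) (nat_lit 312) (nat_lit 229))))))))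
noncomputable def xc71 : XT := (XT.nd (nat_lit 1716) (nat_lit 0) (nat_lit 0) (XT.nd (nat_lit 858) (nat_lit 0) (nat_lit 0) (XT.nd (nat_lit 390) (nat_lit 0) (nat_lit 0) (XT.nd (nat_lit 156) (nat_lit 152) (nat_lit 0) (XT.nd (nat_lit 78) (nat_lit 0) (nat_lit 0) (XT.lf (nat_lit 0) (nat_lit 3262361343092) (nat_lit 76) (nat_lit 126201944821) (nat_lit 76) (nat_lit 94227529063) (nat_lit 3) (nat_lit 4) (nat_lit 4) (nat_lit 5) (nat_lit 4) (nat_lit 4) (nat_lit 360) (nat_lit 312) (nat_lit 228)) (XT.lf (nat_lit 0) (nat_lit 3932483448200) (nat_lit 76) (nat_lit 45872266018) (nat_lit 76) (nat_lit 13897817026) (nat_lit 3) (nat_lit 4) (nat_lit 4) (nat_lit 5) (nat_lit 4) (nat_lit 4) (nat_lit 361) (nat_lit 312) (nat_lit 227))) (XT.nd (nat_lit 78) (nat_lit 0) (nat_lit 0) (XT.lf (nat_lit 0) (nat_lit 79371767853) (nat_lit 152) (nat_lit 4445526943667) (nat_lit 0) (nat_lit 51567874035) (nat_lit 1) (nat_lit 5) (nat_lit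 3) (nat_lit 4) (nat_lit 1) (nat_lit 4) (nat_lit 362) (nat_lit 312) (nat_lit 226)) (XT.nd (nat_lit 78) (nat_lit 0) (nat_lit 0) (XT.lf (nat_lit 0) (nat_lit 190666260951) (nat_lit 152) (nat_lit 4893865120337) (nat_lit 0) (nat_lit 162862345282) (nat_lit 1) (nat_lit 5) (nat_lit 3) (nat_lit 4) (nat_lit 1) (nat_lit 4) (nat_lit 363) (nat_lit 312) (nat_lit 225)) (XT.lf (nat_lit 0) (nat_lit 318654775853) (nat_lit 152) (nat_lit 5409454344540) (nat_lit 0) (nat_lit 290850841182) (nat_lit 1) (nat_lit 5) (nat_lit 3) (nat_lit 4) (nat_lit 1) (nat_lit 4) (nat_lit 364) (nat_lit 312) (nat_lit 224))))) (XT.nd (nat_lit 234) (nat_lit 0) (nat_lit 0) (XT.nd (nat_lit 78) (nat_lit 0) (nat_lit 0) (XT.lf (nat_lit 0) (nat_lit 465841435677) (nat_lit 152) (nat_lit 6002382231532) (nat_lit 0) (nat_lit 438037484482) (nat_lit 1) (nat_lit 5) (nat_lit 3) (nat_lit 4) (nat_lit 1) (nat_lit 4) (nat_lit 365) (nat_lit 312) (nat_lit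 223)) (XT.nd (nat_lit 78) (nat_lit 0) (nat_lit 0) (XT.lf (nat_lit 0) (nat_lit 635105979417) (nat_lit 152) (nat_lit 6684249544318) (nat_lit 0) (nat_lit 607302013855) (nat_lit 1) (nat_lit 5) (nat_lit 3) (nat_lit 4) (nat_lit 1) (nat_lit 4) (nat_lit 366) (nat_lit 312) (nat_lit 222)) (XT.lf (nat_lit 0) (nat_lit 829760104671) (nat_lit 152) (nat_lit 7468397165106) (nat_lit 0) (nat_lit 801956126615) (nat_lit 1) (nat_lit 5) (nat_lit 3) (nat_lit 4) (nat_lit 1) (nat_lit 4) (nat_lit 367) (nat_lit 312) (nat_lit 221)))) (XT.nd (nat_lit 78) (nat_lit 0) (nat_lit 0) (XT.lf (nat_lit 0) (nat_lit 1053612261714) (nat_lit 152) (nat_lit 8370167112563) (nat_lit 0) (nat_lit 1025808272794) (nat_lit 1) (nat_lit 5) (nat_lit 3) (nat_lit 4) (nat_lit 1) (nat_lit 4) (nat_lit 368) (nat_lit 312) (nat_lit 220)) (XT.nd (nat_lit 78) (nat_lit 0) (nat_lit 0) (XT.lf (nat_lit 0) (nat_lit 1311042166662) (nat_lit 152) (nat_lit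 9407202711749) (nat_lit 0) (nat_lit 1283238168295) (nat_lit 1) (nat_lit 5) (nat_lit 3) (nat_lit 4) (nat_lit 1) (nat_lit 4) (nat_lit 369) (nat_lit 312) (nat_lit 219)) (XT.lf (nat_lit 0) (nat_lit 1607086491569) (nat_lit 152) (nat_lit 10599793789603) (nat_lit 0) (nat_lit 1579282484987) (nat_lit 1) (nat_lit 5) (nat_lit 3) (nat_lit 4) (nat_lit 1) (nat_lit 4) (nat_lit 370) (nat_lit 312) (nat_lit 218)))))) (XT.nd (nat_lit 390) (nat_lit 0) (nat_lit 0) (XT.nd (nat_lit 156) (nat_lit 0) (nat_lit 0) (XT.nd (nat_lit 78) (nat_lit 0) (nat_lit 0) (XT.lf (nat_lit 0) (nat_lit 1947537408009) (nat_lit 152) (nat_lit 11971273649823) (nat_lit 0) (nat_lit 1919733394283) (nat_lit 1) (nat_lit 5) (nat_lit 3) (nat_lit 4) (nat_lit 1) (nat_lit 4) (nat_lit 371) (nat_lit 312) (nat_lit 217)) (XT.lf (nat_lit 0) (nat_lit 2339055912173) (nat_lit 152) (nat_lit 13548475594022) (nat_lit 0) (nat_lit 2311251892236) (nat_lit 1)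 (nat_lit 5) (nat_lit 3) (nat_lit 4) (nat_lit 1) (nat_lit 4) (nat_lit 372) (nat_lit 312) (nat_lit 216))) (XT.nd (nat_lit 78) (nat_lit 0) (nat_lit 0) (XT.lf (nat_lit 0) (nat_lit 2789302148708) (nat_lit 152) (nat_lit 15362257921108) (nat_lit 0) (nat_lit 2761498123369) (nat_lit 1) (nat_lit 5) (nat_lit 3) (nat_lit 4) (nat_lit 1) (nat_lit 4) (nat_lit 373) (nat_lit 312) (nat_lit 215)) (XT.nd (nat_lit 78) (nat_lit 0) (nat_lit 0) (XT.lf (nat_lit 0) (nat_lit 3307085283112) (nat_lit 152) (nat_lit 17448107676611) (nat_lit 0) (nat_lit 3279281253076) (nat_lit 1) (nat_lit 5) (nat_lit 3) (nat_lit 4) (nat_lit 1) (nat_lit 4) (nat_lit 374) (nat_lit 312) (nat_lit 214)) (XT.lf (nat_lit 0) (nat_lit 3902535854970) (nat_lit 152) (nat_lit 19846834964444) (nat_lit 0) (nat_lit 3874731820850) (nat_lit 1) (nat_lit 5) (nat_lit 3) (nat_lit 4) (nat_lit 1) (nat_lit 4) (nat_lit 375) (nat_lit 312) (nat_lit 213))))) (XT.nd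 (nat_lit 234) (nat_lit 0) (nat_lit 0) (XT.nd (nat_lit 78) (nat_lit 0) (nat_lit 0) (XT.lf (nat_lit 0) (nat_lit 4587303984166) (nat_lit 152) (nat_lit 22605371405454) (nat_lit 0) (nat_lit 4559499946495) (nat_lit 1) (nat_lit 5) (nat_lit 3) (nat_lit 4) (nat_lit 1) (nat_lit 4) (nat_lit 376) (nat_lit 312) (nat_lit 212)) (XT.nd (nat_lit 78) (nat_lit 0) (nat_lit 0) (XT.lf (nat_lit 0) (nat_lit 5374787308012) (nat_lit 152) (nat_lit 25777688364793) (nat_lit 0) (nat_lit 5346983267252) (nat_lit 1) (nat_lit 5) (nat_lit 3) (nat_lit 4) (nat_lit 1) (nat_lit 4) (nat_lit 377) (nat_lit 312) (nat_lit 211)) (XT.lf (nat_lit 0) (nat_lit 6280393108929) (nat_lit 152) (nat_lit 29425852913403) (nat_lit 0) (nat_lit 6252589065484) (nat_lit 1) (nat_lit 5) (nat_lit 3) (nat_lit 4) (nat_lit 1) (nat_lit 4) (nat_lit 378) (nat_lit 312) (nat_lit 210)))) (XT.nd (nat_lit 78) (nat_lit 0) (nat_lit 0) (XT.lf (nat_lit 0) (nat_lit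 7321839761285) (nat_lit 152) (nat_lit 33621242183758) (nat_lit 0) (nat_lit 7294035715504) (nat_lit 1) (nat_lit 5) (nat_lit 3) (nat_lit 4) (nat_lit 1) (nat_lit 4) (nat_lit 379) (nat_lit 312) (nat_lit 209)) (XT.nd (nat_lit 78) (nat_lit 0) (nat_lit 0) (XT.lf (nat_lit 0) (nat_lit 8519503395233) (nat_lit 152) (nat_lit 38445939878973) (nat_lit 0) (nat_lit 8491699347422) (nat_lit 1) (nat_lit 5) (nat_lit 3) (nat_lit 4) (nat_lit 1) (nat_lit 4) (nat_lit 380) (nat_lit 312) (nat_lit 208)) (XT.lf (nat_lit 0) (nat_lit 9896816560133) (nat_lit 152) (nat_lit 43994342258303) (nat_lit 0) (nat_lit 9869012510557) (nat_lit 1) (nat_lit 5) (nat_lit 3) (nat_lit 4) (nat_lit 1) (nat_lit 4) (nat_lit 381) (nat_lit 312) (nat_lit 207))))))) (XT.nd (nat_lit 41886) (nat_lit 0) (nat_lit 1140) (XT.nd (nat_lit 1560) (nat_lit 0) (nat_lit 0) (XT.nd (nat_lit 156) (nat_lit 0) (nat_lit 0) (XT.nd (nat_lit 78) (nat_lit 0) (nat_lit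 0) (XT.lf (nat_lit 0) (nat_lit 11480726687474) (nat_lit 152) (nat_lit 50375005020473) (nat_lit 0) (nat_lit 11452922636361) (nat_lit 1) (nat_lit 5) (nat_lit 3) (nat_lit 4) (nat_lit 1) (nat_lit 4) (nat_lit 382) (nat_lit 312) (nat_lit 206)) (XT.lf (nat_lit 0) (nat_lit 13302223323223) (nat_lit 152) (nat_lit 57712767219526) (nat_lit 0) (nat_lit 13274419270776) (nat_lit 1) (nat_lit 5) (nat_lit 3) (nat_lit 4) (nat_lit 1) (nat_lit 4) (nat_lit 383) (nat_lit 312) (nat_lit 205))) (XT.nd (nat_lit 1248) (nat_lit 0) (nat_lit 0) (XT.lf (nat_lit 0) (nat_lit 15396944445038) (nat_lit 152) (nat_lit 66151193768052) (nat_lit 0) (nat_lit 15369140391430) (nat_lit 1) (nat_lit 5) (nat_lit 3) (nat_lit 4) (nat_lit 1) (nat_lit 4) (nat_lit 384) (nat_lit 312) (nat_lit 204)) (XT.nd (nat_lit 78) (nat_lit 0) (nat_lit 0) (XT.lf (nat_lit 0) (nat_lit 149616394220900) (nat_lit 152) (nat_lit 606844166243306) (nat_lit 0) (nat_lit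 149588590160379) (nat_lit 1) (nat_lit 5) (nat_lit 3) (nat_lit 4) (nat_lit 1) (nat_lit 4) (nat_lit 400) (nat_lit 312) (nat_lit 188)) (XT.lf (nat_lit 0) (nat_lit 172158240921145) (nat_lit 152) (nat_lit 697652302764016) (nat_lit 0) (nat_lit 172130436860517) (nat_lit 1) (nat_lit 5) (nat_lit 3) (nat_lit 4) (nat_lit 1) (nat_lit 4) (nat_lit 401) (nat_lit 312) (nat_lit 187))))) (XT.nd (nat_lit 40092) (nat_lit 0) (nat_lit 2128) (XT.nd (nat_lit 39936) (nat_lit 0) (nat_lit 2052) (XT.lf (nat_lit 0) (nat_lit 198081364625676) (nat_lit 152) (nat_lit 802081659764415) (nat_lit 0) (nat_lit 198053560564954) (nat_lit 1) (nat_lit 5) (nat_lit 3) (nat_lit 4) (nat_lit 1) (nat_lit 4) (nat_lit 402) (nat_lit 312) (nat_lit 186)) (XT.nd (nat_lit 78) (nat_lit 0) (nat_lit 0) (XT.lf (nat_lit 0) (nat_lit 2785689067) (nat_lit 380) (nat_lit 4868640629) (nat_lit 380) (nat_lit 4868640629) (nat_lit 28) (nat_lit 3) (nat_lit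 33) (nat_lit 3) (nat_lit 33) (nat_lit 5) (nat_lit 313) (nat_lit 313) (nat_lit 274)) (XT.lf (nat_lit 76) (nat_lit 2654732848) (nat_lit 0) (nat_lit 3540861531) (nat_lit 380) (nat_lit 20697676477) (nat_lit 29) (nat_lit 5) (nat_lit 28) (nat_lit 3) (nat_lit 33) (nat_lit 5) (nat_lit 314) (nat_lit 313) (nat_lit 273)))) (XT.nd (nat_lit 78) (nat_lit 0) (nat_lit 0) (XT.lf (nat_lit 0) (nat_lit 7843086872) (nat_lit 304) (nat_lit 11393260068) (nat_lit 380) (nat_lit 9641935731) (nat_lit 29) (nat_lit 5) (nat_lit 33) (nat_lit 5) (nat_lit 34) (nat_lit 5) (nat_lit 315) (nat_lit 313) (nat_lit 272)) (XT.nd (nat_lit 78) (nat_lit 0) (nat_lit 76) (XT.lf (nat_lit 76) (nat_lit 3510742754) (nat_lit 0) (nat_lit 6525866994) (nat_lit 380) (nat_lit 21079625448) (nat_lit 30) (nat_lit 5) (nat_lit 29) (nat_lit 5) (nat_lit 34) (nat_lit 5) (nat_lit 316) (nat_lit 313) (nat_lit 271)) (XT.lf (nat_lit 0) (nat_lit 13504618380)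 (nat_lit 304) (nat_lit 12046759488) (nat_lit 76) (nat_lit 7996705797) (nat_lit 30) (nat_lit 5) (nat_lit 34) (nat_lit 5) (nat_lit 31) (nat_lit 5) (nat_lit 317) (nat_lit 313) (nat_lit 270)))))) (XT.nd (nat_lit 468) (nat_lit 456) (nat_lit 0) (XT.nd (nat_lit 234) (nat_lit 152) (nat_lit 0) (XT.nd (nat_lit 78) (nat_lit 152) (nat_lit 0) (XT.lf (nat_lit 0) (nat_lit 6062962594) (nat_lit 304) (nat_lit 11979938231) (nat_lit 380) (nat_lit 18219316540) (nat_lit 26) (nat_lit 5) (nat_lit 30) (nat_lit 5) (nat_lit 31) (nat_lit 5) (nat_lit 318) (nat_lit 313) (nat_lit 269)) (XT.nd (nat_lit 78) (nat_lit 152) (nat_lit 0) (XT.lf (nat_lit 0) (nat_lit 24061124679) (nat_lit 380) (nat_lit 11239047045) (nat_lit 76) (nat_lit 3963435920) (nat_lit 26) (nat_lit 5) (nat_lit 31) (nat_lit 5) (nat_lit 27) (nat_lit 5) (nat_lit 319) (nat_lit 313) (nat_lit 268)) (XT.lf (nat_lit 0) (nat_lit 10959174817) (nat_lit 152) (nat_lit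 21037872437) (nat_lit 228) (nat_lit 10565928686) (nat_lit 24) (nat_lit 5) (nat_lit 26) (nat_lit 5) (nat_lit 27) (nat_lit 5) (nat_lit 320) (nat_lit 313) (nat_lit 267)))) (XT.nd (nat_lit 78) (nat_lit 152) (nat_lit 0) (XT.lf (nat_lit 0) (nat_lit 37739549620) (nat_lit 152) (nat_lit 3962770761) (nat_lit 228) (nat_lit 4568097160) (nat_lit 24) (nat_lit 5) (nat_lit 26) (nat_lit 5) (nat_lit 27) (nat_lit 5) (nat_lit 321) (nat_lit 313) (nat_lit 266)) (XT.nd (nat_lit 78) (nat_lit 0) (nat_lit 0) (XT.lf (nat_lit 0) (nat_lit 3619967290) (nat_lit 152) (nat_lit 31445455486) (nat_lit 76) (nat_lit 15229402847) (nat_lit 22) (nat_lit 5) (nat_lit 24) (nat_lit 5) (nat_lit 23) (nat_lit 5) (nat_lit 322) (nat_lit 313) (nat_lit 265)) (XT.lf (nat_lit 0) (nat_lit 13217157516) (nat_lit 152) (nat_lit 3998669576) (nat_lit 76) (nat_lit 37577156368) (nat_lit 22) (nat_lit 5) (nat_lit 24) (nat_lit 5) (nat_lit 23) (nat_lit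 5) (nat_lit 323) (nat_lit 313) (nat_lit 264))))) (XT.nd (nat_lit 234) (nat_lit 228) (nat_lit 0) (XT.nd (nat_lit 78) (nat_lit 76) (nat_lit 0) (XT.lf (nat_lit 0) (nat_lit 25696783522) (nat_lit 228) (nat_lit 29726687544) (nat_lit 76) (nat_lit 4325972402) (nat_lit 20) (nat_lit 5) (nat_lit 23) (nat_lit 5) (nat_lit 21) (nat_lit 4) (nat_lit 324) (nat_lit 313) (nat_lit 263)) (XT.nd (nat_lit 78) (nat_lit 0) (nat_lit 0) (XT.lf (nat_lit 0) (nat_lit 3665815725) (nat_lit 76) (nat_lit 37567126277) (nat_lit 152) (nat_lit 24038748346) (nat_lit 19) (nat_lit 5) (nat_lit 20) (nat_lit 5) (nat_lit 21) (nat_lit 4) (nat_lit 325) (nat_lit 313) (nat_lit 262)) (XT.lf (nat_lit 0) (nat_lit 45398945482) (nat_lit 76) (nat_lit 15248895077) (nat_lit 152) (nat_lit 10742191610) (nat_lit 19) (nat_lit 5) (nat_lit 20) (nat_lit 5) (nat_lit 21) (nat_lit 4) (nat_lit 326) (nat_lit 313) (nat_lit 261)))) (XT.nd (nat_lit 78) (nat_lit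 76) (nat_lit 0) (XT.lf (nat_lit 0) (nat_lit 5282263602) (nat_lit 152) (nat_lit 62557613876) (nat_lit 76) (nat_lit 10387240379) (nat_lit 17) (nat_lit 5) (nat_lit 19) (nat_lit 5) (nat_lit 18) (nat_lit 4) (nat_lit 327) (nat_lit 313) (nat_lit 260)) (XT.nd (nat_lit 78) (nat_lit 76) (nat_lit 0) (XT.lf (nat_lit 0) (nat_lit 24755157878) (nat_lit 152) (nat_lit 20696744486) (nat_lit 76) (nat_lit 40239452625) (nat_lit 17) (nat_lit 5) (nat_lit 19) (nat_lit 5) (nat_lit 18) (nat_lit 4) (nat_lit 328) (nat_lit 313) (nat_lit 259)) (XT.lf (nat_lit 0) (nat_lit 30116970567) (nat_lit 76) (nat_lit 18274840744) (nat_lit 152) (nat_lit 45696995690) (nat_lit 16) (nat_lit 5) (nat_lit 17) (nat_lit 5) (nat_lit 18) (nat_lit 4) (nat_lit 329) (nat_lit 313) (nat_lit 258))))))))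
noncomputable def xc72 : XT := (XT.nd (nat_lit 1716) (nat_lit 228) (nat_lit 0) (XT.nd (nat_lit 858) (nat_lit 380) (nat_lit 0) (XT.nd (nat_lit 390) (nat_lit 304) (nat_lit 0) (XT.nd (nat_lit 156) (nat_lit 152) (nat_lit 0) (XT.nd (nat_lit 78) (nat_lit 76) (nat_lit 0) (XT.lf (nat_lit 0) (nat_lit 77240652082) (nat_lit 152) (nat_lit 13301397733) (nat_lit 0) (nat_lit 12953826263) (nat_lit 16) (nat_lit 5) (nat_lit 18) (nat_lit 4) (nat_lit 16) (nat_lit 4) (nat_lit 330) (nat_lit 313) (nat_lit 257)) (XT.lf (nat_lit 0) (nat_lit 48401799635) (nat_lit 76) (nat_lit 64885876076) (nat_lit 76) (nat_lit 595703612) (nat_lit 15) (nat_lit 4) (nat_lit 16) (nat_lit 5) (nat_lit 16) (nat_lit 4) (nat_lit 331) (nat_lit 313) (nat_lit 256))) (XT.nd (nat_lit 78) (nat_lit 76) (nat_lit 0) (XT.lf (nat_lit 0) (nat_lit 27063595913) (nat_lit 152) (nat_lit 6106351375) (nat_lit 76) (nat_lit 92370750714) (nat_lit 14) (nat_lit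 5) (nat_lit 16) (nat_lit 5) (nat_lit 15) (nat_lit 4) (nat_lit 332) (nat_lit 313) (nat_lit 255)) (XT.nd (nat_lit 78) (nat_lit 0) (nat_lit 0) (XT.lf (nat_lit 0) (nat_lit 61904835508) (nat_lit 152) (nat_lit 70577813700) (nat_lit 0) (nat_lit 5995606696) (nat_lit 13) (nat_lit 5) (nat_lit 15) (nat_lit 4) (nat_lit 13) (nat_lit 4) (nat_lit 333) (nat_lit 313) (nat_lit 254)) (XT.lf (nat_lit 0) (nat_lit 103883157202) (nat_lit 152) (nat_lit 1214642254) (nat_lit 0) (nat_lit 47972014935) (nat_lit 13) (nat_lit 5) (nat_lit 15) (nat_lit 4) (nat_lit 13) (nat_lit 4) (nat_lit 334) (nat_lit 313) (nat_lit 253))))) (XT.nd (nat_lit 234) (nat_lit 76) (nat_lit 0) (XT.nd (nat_lit 78) (nat_lit 152) (nat_lit 0) (XT.lf (nat_lit 0) (nat_lit 86224164578) (nat_lit 76) (nat_lit 69501794768) (nat_lit 76) (nat_lit 13588988626) (nat_lit 12) (nat_lit 4) (nat_lit 13) (nat_lit 5) (nat_lit 13) (nat_lit 4) (nat_lit 335) (nat_lit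 313) (nat_lit 252)) (XT.nd (nat_lit 78) (nat_lit 76) (nat_lit 0) (XT.lf (nat_lit 0) (nat_lit 24977503546) (nat_lit 152) (nat_lit 2212620363) (nat_lit 76) (nat_lit 160627276528) (nat_lit 11) (nat_lit 5) (nat_lit 13) (nat_lit 5) (nat_lit 12) (nat_lit 4) (nat_lit 336) (nat_lit 313) (nat_lit 251)) (XT.lf (nat_lit 0) (nat_lit 73147782553) (nat_lit 152) (nat_lit 110543265804) (nat_lit 0) (nat_lit 24525598974) (nat_lit 10) (nat_lit 5) (nat_lit 12) (nat_lit 4) (nat_lit 10) (nat_lit 4) (nat_lit 337) (nat_lit 313) (nat_lit 250)))) (XT.nd (nat_lit 78) (nat_lit 76) (nat_lit 0) (XT.lf (nat_lit 0) (nat_lit 129957304433) (nat_lit 152) (nat_lit 20172252804) (nat_lit 0) (nat_lit 81334169529) (nat_lit 10) (nat_lit 5) (nat_lit 12) (nat_lit 4) (nat_lit 10) (nat_lit 4) (nat_lit 338) (nat_lit 313) (nat_lit 249)) (XT.nd (nat_lit 78) (nat_lit 0) (nat_lit 0) (XT.lf (nat_lit 0) (nat_lit 91935209692) (nat_lit 76)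 (nat_lit 107157943198) (nat_lit 76) (nat_lit 58533981054) (nat_lit 9) (nat_lit 4) (nat_lit 10) (nat_lit 5) (nat_lit 10) (nat_lit 4) (nat_lit 339) (nat_lit 313) (nat_lit 248)) (XT.lf (nat_lit 0) (nat_lit 223122144892) (nat_lit 76) (nat_lit 56529848533) (nat_lit 76) (nat_lit 7905167050) (nat_lit 9) (nat_lit 4) (nat_lit 10) (nat_lit 5) (nat_lit 10) (nat_lit 4) (nat_lit 340) (nat_lit 313) (nat_lit 247)))))) (XT.nd (nat_lit 390) (nat_lit 152) (nat_lit 0) (XT.nd (nat_lit 156) (nat_lit 76) (nat_lit 0) (XT.nd (nat_lit 78) (nat_lit 0) (nat_lit 0) (XT.lf (nat_lit 0) (nat_lit 48383169624) (nat_lit 152) (nat_lit 266798965672) (nat_lit 0) (nat_lit 6100293976) (nat_lit 7) (nat_lit 5) (nat_lit 9) (nat_lit 4) (nat_lit 7) (nat_lit 4) (nat_lit 341) (nat_lit 313) (nat_lit 246)) (XT.lf (nat_lit 0) (nat_lit 118524235520) (nat_lit 152) (nat_lit 164312078234) (nat_lit 0) (nat_lit 76240886896) (nat_lit 7) (nat_lit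 5) (nat_lit 9) (nat_lit 4) (nat_lit 7) (nat_lit 4) (nat_lit 342) (nat_lit 313) (nat_lit 245))) (XT.nd (nat_lit 78) (nat_lit 76) (nat_lit 0) (XT.lf (nat_lit 0) (nat_lit 199185013922) (nat_lit 152) (nat_lit 46455137188) (nat_lit 0) (nat_lit 156901254014) (nat_lit 7) (nat_lit 5) (nat_lit 9) (nat_lit 4) (nat_lit 7) (nat_lit 4) (nat_lit 343) (nat_lit 313) (nat_lit 244)) (XT.nd (nat_lit 78) (nat_lit 0) (nat_lit 0) (XT.lf (nat_lit 0) (nat_lit 97783080109) (nat_lit 76) (nat_lit 198209559211) (nat_lit 76) (nat_lit 155925441664) (nat_lit 6) (nat_lit 4) (nat_lit 7) (nat_lit 5) (nat_lit 7) (nat_lit 4) (nat_lit 344) (nat_lit 313) (nat_lit 243)) (XT.lf (nat_lit 0) (nat_lit 268875480835) (nat_lit 76) (nat_lit 140873067578) (nat_lit 76) (nat_lit 98588639041) (nat_lit 6) (nat_lit 4) (nat_lit 7) (nat_lit 5) (nat_lit 7) (nat_lit 4) (nat_lit 345) (nat_lit 313) (nat_lit 242))))) (XT.nd (nat_lit 234) (nat_lit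 0) (nat_lit 0) (XT.nd (nat_lit 78) (nat_lit 152) (nat_lit 0) (XT.lf (nat_lit 0) (nat_lit 465629591139) (nat_lit 76) (nat_lit 74937212007) (nat_lit 76) (nat_lit 32652513044) (nat_lit 6) (nat_lit 4) (nat_lit 7) (nat_lit 5) (nat_lit 7) (nat_lit 4) (nat_lit 346) (nat_lit 313) (nat_lit 241)) (XT.nd (nat_lit 78) (nat_lit 0) (nat_lit 0) (XT.lf (nat_lit 0) (nat_lit 41464350438) (nat_lit 152) (nat_lit 601086314323) (nat_lit 0) (nat_lit 4694842511) (nat_lit 4) (nat_lit 5) (nat_lit 6) (nat_lit 4) (nat_lit 4) (nat_lit 4) (nat_lit 347) (nat_lit 313) (nat_lit 240)) (XT.lf (nat_lit 0) (nat_lit 132815062656) (nat_lit 152) (nat_lit 501863058138) (nat_lit 0) (nat_lit 96045376920) (nat_lit 4) (nat_lit 5) (nat_lit 6) (nat_lit 4) (nat_lit 4) (nat_lit 4) (nat_lit 348) (nat_lit 313) (nat_lit 239)))) (XT.nd (nat_lit 78) (nat_lit 0) (nat_lit 0) (XT.lf (nat_lit 0) (nat_lit 237867562274) (nat_lit 152) (nat_lit 387758025549)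 (nat_lit 0) (nat_lit 201097721920) (nat_lit 4) (nat_lit 5) (nat_lit 6) (nat_lit 4) (nat_lit 4) (nat_lit 4) (nat_lit 349) (nat_lit 313) (nat_lit 238)) (XT.nd (nat_lit 78) (nat_lit 0) (nat_lit 0) (XT.lf (nat_lit 0) (nat_lit 358677224283) (nat_lit 152) (nat_lit 256538726789) (nat_lit 0) (nat_lit 321907249480) (nat_lit 4) (nat_lit 5) (nat_lit 6) (nat_lit 4) (nat_lit 4) (nat_lit 4) (nat_lit 350) (nat_lit 313) (nat_lit 237)) (XT.lf (nat_lit 0) (nat_lit 497607715985) (nat_lit 152) (nat_lit 105637827751) (nat_lit 0) (nat_lit 460837624270) (nat_lit 4) (nat_lit 5) (nat_lit 6) (nat_lit 4) (nat_lit 4) (nat_lit 4) (nat_lit 351) (nat_lit 313) (nat_lit 236))))))) (XT.nd (nat_lit 858) (nat_lit 152) (nat_lit 0) (XT.nd (nat_lit 390) (nat_lit 0) (nat_lit 0) (XT.nd (nat_lit 156) (nat_lit 0) (nat_lit 0) (XT.nd (nat_lit 78) (nat_lit 0) (nat_lit 0) (XT.lf (nat_lit 0) (nat_lit 74532476958) (nat_lit 76) (nat_lit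 585930996624) (nat_lit 76) (nat_lit 549160803245) (nat_lit 3) (nat_lit 4) (nat_lit 4) (nat_lit 5) (nat_lit 4) (nat_lit 4) (nat_lit 352) (nat_lit 313) (nat_lit 235)) (XT.lf (nat_lit 0) (nat_lit 293599504181) (nat_lit 76) (nat_lit 559669554989) (nat_lit 76) (nat_lit 522899273208) (nat_lit 3) (nat_lit 4) (nat_lit 4) (nat_lit 5) (nat_lit 4) (nat_lit 4) (nat_lit 353) (nat_lit 313) (nat_lit 234))) (XT.nd (nat_lit 78) (nat_lit 0) (nat_lit 0) (XT.lf (nat_lit 0) (nat_lit 545525651125) (nat_lit 76) (nat_lit 529469385379) (nat_lit 76) (nat_lit 492699026726) (nat_lit 3) (nat_lit 4) (nat_lit 4) (nat_lit 5) (nat_lit 4) (nat_lit 4) (nat_lit 354) (nat_lit 313) (nat_lit 233)) (XT.nd (nat_lit 78) (nat_lit 0) (nat_lit 0) (XT.lf (nat_lit 0) (nat_lit 835239907623) (nat_lit 76) (nat_lit 494739614909) (nat_lit 76) (nat_lit 457969189410) (nat_lit 3) (nat_lit 4) (nat_lit 4) (nat_lit 5) (nat_lit 4) (nat_lit 4)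 (nat_lit 355) (nat_lit 313) (nat_lit 232)) (XT.lf (nat_lit 0) (nat_lit 1168410596082) (nat_lit 76) (nat_lit 454800748070) (nat_lit 76) (nat_lit 418030264445) (nat_lit 3) (nat_lit 4) (nat_lit 4) (nat_lit 5) (nat_lit 4) (nat_lit 4) (nat_lit 356) (nat_lit 313) (nat_lit 231))))) (XT.nd (nat_lit 234) (nat_lit 0) (nat_lit 0) (XT.nd (nat_lit 78) (nat_lit 0) (nat_lit 0) (XT.lf (nat_lit 0) (nat_lit 1551556273453) (nat_lit 76) (nat_lit 408871372250) (nat_lit 76) (nat_lit 372100838080) (nat_lit 3) (nat_lit 4) (nat_lit 4) (nat_lit 5) (nat_lit 4) (nat_lit 4) (nat_lit 357) (nat_lit 313) (nat_lit 230)) (XT.nd (nat_lit 78) (nat_lit 0) (nat_lit 0) (XT.lf (nat_lit 0) (nat_lit 1992173268205) (nat_lit 76) (nat_lit 356052869226) (nat_lit 76) (nat_lit 319282291105) (nat_lit 3) (nat_lit 4) (nat_lit 4) (nat_lit 5) (nat_lit 4) (nat_lit 4) (nat_lit 358) (nat_lit 313) (nat_lit 229)) (XT.lf (nat_lit 0) (nat_lit 2498882347627)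 (nat_lit 76) (nat_lit 295311833505) (nat_lit 76) (nat_lit 258541217164) (nat_lit 3) (nat_lit 4) (nat_lit 4) (nat_lit 5) (nat_lit 4) (nat_lit 4) (nat_lit 359) (nat_lit 313) (nat_lit 228)))) (XT.nd (nat_lit 78) (nat_lit 0) (nat_lit 0) (XT.lf (nat_lit 0) (nat_lit 3081597385011) (nat_lit 76) (nat_lit 225459853517) (nat_lit 76) (nat_lit 188689203943) (nat_lit 3) (nat_lit 4) (nat_lit 4) (nat_lit 5) (nat_lit 4) (nat_lit 4) (nat_lit 360) (nat_lit 313) (nat_lit 227)) (XT.nd (nat_lit 78) (nat_lit 0) (nat_lit 0) (XT.lf (nat_lit 0) (nat_lit 3751719326742) (nat_lit 76) (nat_lit 145130260090) (nat_lit 76) (nat_lit 108359581617) (nat_lit 3) (nat_lit 4) (nat_lit 4) (nat_lit 5) (nat_lit 4) (nat_lit 4) (nat_lit 361) (nat_lit 313) (nat_lit 226)) (XT.lf (nat_lit 0) (nat_lit 4522359254287) (nat_lit 76) (nat_lit 52751387265) (nat_lit 76) (nat_lit 15980683662) (nat_lit 3) (nat_lit 4) (nat_lit 4) (nat_lit 5)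 (nat_lit 4) (nat_lit 4) (nat_lit 362) (nat_lit 313) (nat_lit 225)))))) (XT.nd (nat_lit 390) (nat_lit 0) (nat_lit 0) (XT.nd (nat_lit 156) (nat_lit 0) (nat_lit 0) (XT.nd (nat_lit 78) (nat_lit 0) (nat_lit 0) (XT.lf (nat_lit 0) (nat_lit 91279171418) (nat_lit 152) (nat_lit 5112352528525) (nat_lit 0) (nat_lit 59304627545) (nat_lit 1) (nat_lit 5) (nat_lit 3) (nat_lit 4) (nat_lit 1) (nat_lit 4) (nat_lit 363) (nat_lit 313) (nat_lit 224)) (XT.lf (nat_lit 0) (nat_lit 219267624779) (nat_lit 152) (nat_lit 5627941882569) (nat_lit 0) (nat_lit 187293064382) (nat_lit 1) (nat_lit 5) (nat_lit 3) (nat_lit 4) (nat_lit 1) (nat_lit 4) (nat_lit 364) (nat_lit 313) (nat_lit 223))) (XT.nd (nat_lit 78) (nat_lit 0) (nat_lit 0) (XT.lf (nat_lit 0) (nat_lit 366454231088) (nat_lit 152) (nat_lit 6220869882465) (nat_lit 0) (nat_lit 334479656323) (nat_lit 1) (nat_lit 5) (nat_lit 3) (nat_lit 4) (nat_lit 1) (nat_lit 4) (nat_lit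 365) (nat_lit 313) (nat_lit 222)) (XT.nd (nat_lit 78) (nat_lit 0) (nat_lit 0) (XT.lf (nat_lit 0) (nat_lit 535718728295) (nat_lit 152) (nat_lit 6902737293430) (nat_lit 0) (nat_lit 503744141036) (nat_lit 1) (nat_lit 5) (nat_lit 3) (nat_lit 4) (nat_lit 1) (nat_lit 4) (nat_lit 366) (nat_lit 313) (nat_lit 221)) (XT.lf (nat_lit 0) (nat_lit 730372813084) (nat_lit 152) (nat_lit 7686884999591) (nat_lit 0) (nat_lit 698398214961) (nat_lit 1) (nat_lit 5) (nat_lit 3) (nat_lit 4) (nat_lit 1) (nat_lit 4) (nat_lit 367) (nat_lit 313) (nat_lit 220))))) (XT.nd (nat_lit 234) (nat_lit 0) (nat_lit 0) (XT.nd (nat_lit 78) (nat_lit 0) (nat_lit 0) (XT.lf (nat_lit 0) (nat_lit 954224934940) (nat_lit 152) (nat_lit 8588655021285) (nat_lit 0) (nat_lit 922250327370) (nat_lit 1) (nat_lit 5) (nat_lit 3) (nat_lit 4) (nat_lit 1) (nat_lit 4) (nat_lit 368) (nat_lit 313) (nat_lit 219)) (XT.nd (nat_lit 78) (nat_lit 0) (nat_lit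 0) (XT.lf (nat_lit 0) (nat_lit 1211654809291) (nat_lit 152) (nat_lit 9625690685024) (nat_lit 0) (nat_lit 1179680193507) (nat_lit 1) (nat_lit 5) (nat_lit 3) (nat_lit 4) (nat_lit 1) (nat_lit 4) (nat_lit 369) (nat_lit 313) (nat_lit 218)) (XT.lf (nat_lit 0) (nat_lit 1507699107592) (nat_lit 152) (nat_lit 10818281819013) (nat_lit 0) (nat_lit 1475724484664) (nat_lit 1) (nat_lit 5) (nat_lit 3) (nat_lit 4) (nat_lit 1) (nat_lit 4) (nat_lit 370) (nat_lit 313) (nat_lit 217)))) (XT.nd (nat_lit 78) (nat_lit 0) (nat_lit 0) (XT.lf (nat_lit 0) (nat_lit 1848150000896) (nat_lit 152) (nat_lit 12189761728045) (nat_lit 0) (nat_lit 1816175371757) (nat_lit 1) (nat_lit 5) (nat_lit 3) (nat_lit 4) (nat_lit 1) (nat_lit 4) (nat_lit 371) (nat_lit 313) (nat_lit 216)) (XT.nd (nat_lit 78) (nat_lit 0) (nat_lit 0) (XT.lf (nat_lit 0) (nat_lit 2239668484943) (nat_lit 152) (nat_lit 13766963714689) (nat_lit 0) (nat_lit 2207693850401)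 (nat_lit 1) (nat_lit 5) (nat_lit 3) (nat_lit 4) (nat_lit 1) (nat_lit 4) (nat_lit 372) (nat_lit 313) (nat_lit 215)) (XT.lf (nat_lit 0) (nat_lit 2689914703984) (nat_lit 152) (nat_lit 15580746078684) (nat_lit 0) (nat_lit 2657940064746) (nat_lit 1) (nat_lit 5) (nat_lit 3) (nat_lit 4) (nat_lit 1) (nat_lit 4) (nat_lit 373) (nat_lit 313) (nat_lit 214))))))))
noncomputable def xc73 : XT := (XT.nd (nat_lit 42900) (nat_lit 0) (nat_lit 456) (XT.nd (nat_lit 2028) (nat_lit 0) (nat_lit 0) (XT.nd (nat_lit 390) (nat_lit 0) (nat_lit 0) (XT.nd (nat_lit 156) (nat_lit 0) (nat_lit 0) (XT.nd (nat_lit 78) (nat_lit 0) (nat_lit 0) (XT.lf (nat_lit 0) (nat_lit 3207697823175) (nat_lit 152) (nat_lit 17666595866282) (nat_lit 0) (nat_lit 3175723179853) (nat_lit 1) (nat_lit 5) (nat_lit 3) (nat_lit 4) (nat_lit 1) (nat_lit 4) (nat_lit 374) (nat_lit 313) (nat_lit 213)) (XT.lf (nat_lit 0) (nat_lit 3803148381805) (nat_lit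 152) (nat_lit 20065323182023) (nat_lit 0) (nat_lit 3771173734931) (nat_lit 1) (nat_lit 5) (nat_lit 3) (nat_lit 4) (nat_lit 1) (nat_lit 4) (nat_lit 375) (nat_lit 313) (nat_lit 212))) (XT.nd (nat_lit 78) (nat_lit 0) (nat_lit 0) (XT.lf (nat_lit 0) (nat_lit 4487916499499) (nat_lit 152) (nat_lit 22823859647301) (nat_lit 0) (nat_lit 4455941849537) (nat_lit 1) (nat_lit 5) (nat_lit 3) (nat_lit 4) (nat_lit 1) (nat_lit 4) (nat_lit 376) (nat_lit 313) (nat_lit 211)) (XT.nd (nat_lit 78) (nat_lit 0) (nat_lit 0) (XT.lf (nat_lit 0) (nat_lit 5275399813342) (nat_lit 152) (nat_lit 25996176627743) (nat_lit 0) (nat_lit 5243425160695) (nat_lit 1) (nat_lit 5) (nat_lit 3) (nat_lit 4) (nat_lit 1) (nat_lit 4) (nat_lit 377) (nat_lit 313) (nat_lit 210)) (XT.lf (nat_lit 0) (nat_lit 6181005605562) (nat_lit 152) (nat_lit 29644341194703) (nat_lit 0) (nat_lit 6149030950579) (nat_lit 1) (nat_lit 5) (nat_lit 3) (nat_lit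 4) (nat_lit 1) (nat_lit 4) (nat_lit 378) (nat_lit 313) (nat_lit 209))))) (XT.nd (nat_lit 234) (nat_lit 0) (nat_lit 0) (XT.nd (nat_lit 78) (nat_lit 0) (nat_lit 0) (XT.lf (nat_lit 0) (nat_lit 7222452250355) (nat_lit 152) (nat_lit 33839730481015) (nat_lit 0) (nat_lit 7190477593341) (nat_lit 1) (nat_lit 5) (nat_lit 3) (nat_lit 4) (nat_lit 1) (nat_lit 4) (nat_lit 379) (nat_lit 313) (nat_lit 208)) (XT.nd (nat_lit 78) (nat_lit 0) (nat_lit 0) (XT.lf (nat_lit 0) (nat_lit 8420115877726) (nat_lit 152) (nat_lit 38664428190105) (nat_lit 0) (nat_lit 8388141218947) (nat_lit 1) (nat_lit 5) (nat_lit 3) (nat_lit 4) (nat_lit 1) (nat_lit 4) (nat_lit 380) (nat_lit 313) (nat_lit 207)) (XT.lf (nat_lit 0) (nat_lit 9797429036908) (nat_lit 152) (nat_lit 44212830581501) (nat_lit 0) (nat_lit 9765454376593) (nat_lit 1) (nat_lit 5) (nat_lit 3) (nat_lit 4) (nat_lit 1) (nat_lit 4) (nat_lit 381) (nat_lit 313) (nat_lit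 206)))) (XT.nd (nat_lit 78) (nat_lit 0) (nat_lit 0) (XT.lf (nat_lit 0) (nat_lit 11381339159275) (nat_lit 152) (nat_lit 50593493354163) (nat_lit 0) (nat_lit 11349364497626) (nat_lit 1) (nat_lit 5) (nat_lit 3) (nat_lit 4) (nat_lit 1) (nat_lit 4) (nat_lit 382) (nat_lit 313) (nat_lit 205)) (XT.nd (nat_lit 78) (nat_lit 0) (nat_lit 0) (XT.lf (nat_lit 0) (nat_lit 13202835790701) (nat_lit 152) (nat_lit 57931255562339) (nat_lit 0) (nat_lit 13170861127890) (nat_lit 1) (nat_lit 5) (nat_lit 3) (nat_lit 4) (nat_lit 1) (nat_lit 4) (nat_lit 383) (nat_lit 313) (nat_lit 204)) (XT.lf (nat_lit 0) (nat_lit 15297556908755) (nat_lit 152) (nat_lit 66369682118798) (nat_lit 0) (nat_lit 15265582244935) (nat_lit 1) (nat_lit 5) (nat_lit 3) (nat_lit 4) (nat_lit 1) (nat_lit 4) (nat_lit 384) (nat_lit 313) (nat_lit 203)))))) (XT.nd (nat_lit 40404) (nat_lit 0) (nat_lit 1748) (XT.nd (nat_lit 40170) (nat_lit 0) (nat_lit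 2052) (XT.nd (nat_lit 78) (nat_lit 0) (nat_lit 0) (XT.lf (nat_lit 0) (nat_lit 149517006662229) (nat_lit 152) (nat_lit 607062654641289) (nat_lit 0) (nat_lit 149485031992396) (nat_lit 1) (nat_lit 5) (nat_lit 3) (nat_lit 4) (nat_lit 1) (nat_lit 4) (nat_lit 400) (nat_lit 313) (nat_lit 187)) (XT.lf (nat_lit 0) (nat_lit 172058853362124) (nat_lit 152) (nat_lit 697870791162736) (nat_lit 0) (nat_lit 172026878692199) (nat_lit 1) (nat_lit 5) (nat_lit 3) (nat_lit 4) (nat_lit 1) (nat_lit 4) (nat_lit 401) (nat_lit 313) (nat_lit 186))) (XT.nd (nat_lit 78) (nat_lit 0) (nat_lit 0) (XT.lf (nat_lit 0) (nat_lit 3295985275) (nat_lit 380) (nat_lit 5545704962) (nat_lit 380) (nat_lit 5545704962) (nat_lit 28) (nat_lit 3) (nat_lit 33) (nat_lit 3) (nat_lit 33) (nat_lit 5) (nat_lit 314) (nat_lit 314) (nat_lit 272)) (XT.nd (nat_lit 78) (nat_lit 0) (nat_lit 76) (XT.lf (nat_lit 76) (nat_lit 3154567047) (nat_lit 0) (nat_lit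 4135344703) (nat_lit 380) (nat_lit 23612334746) (nat_lit 29) (nat_lit 5) (nat_lit 28) (nat_lit 3) (nat_lit 33) (nat_lit 5) (nat_lit 315) (nat_lit 314) (nat_lit 271)) (XT.lf (nat_lit 0) (nat_lit 9160728043) (nat_lit 304) (nat_lit 12989846807) (nat_lit 380) (nat_lit 11038040234) (nat_lit 29) (nat_lit 5) (nat_lit 33) (nat_lit 5) (nat_lit 34) (nat_lit 5) (nat_lit 316) (nat_lit 314) (nat_lit 270))))) (XT.nd (nat_lit 234) (nat_lit 152) (nat_lit 0) (XT.nd (nat_lit 78) (nat_lit 228) (nat_lit 0) (XT.lf (nat_lit 76) (nat_lit 4144647245) (nat_lit 0) (nat_lit 7524660344) (nat_lit 380) (nat_lit 24095079089) (nat_lit 30) (nat_lit 5) (nat_lit 29) (nat_lit 5) (nat_lit 34) (nat_lit 5) (nat_lit 317) (nat_lit 314) (nat_lit 269)) (XT.nd (nat_lit 78) (nat_lit 304) (nat_lit 0) (XT.lf (nat_lit 0) (nat_lit 15640208364) (nat_lit 304) (nat_lit 13742989549) (nat_lit 76) (nat_lit 9180437335) (nat_lit 30) (nat_lit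 5) (nat_lit 34) (nat_lit 5) (nat_lit 31) (nat_lit 5) (nat_lit 318) (nat_lit 314) (nat_lit 268)) (XT.lf (nat_lit 0) (nat_lit 7078155216) (nat_lit 304) (nat_lit 13771122348) (nat_lit 380) (nat_lit 20837127787) (nat_lit 26) (nat_lit 5) (nat_lit 30) (nat_lit 5) (nat_lit 31) (nat_lit 5) (nat_lit 319) (nat_lit 314) (nat_lit 267)))) (XT.nd (nat_lit 78) (nat_lit 152) (nat_lit 0) (XT.lf (nat_lit 0) (nat_lit 27757408211) (nat_lit 380) (nat_lit 12819988961) (nat_lit 76) (nat_lit 4562551024) (nat_lit 26) (nat_lit 5) (nat_lit 31) (nat_lit 5) (nat_lit 27) (nat_lit 5) (nat_lit 320) (nat_lit 314) (nat_lit 266)) (XT.nd (nat_lit 78) (nat_lit 0) (nat_lit 0) (XT.lf (nat_lit 0) (nat_lit 12703197311) (nat_lit 152) (nat_lit 24173305901) (nat_lit 228) (nat_lit 12058818314) (nat_lit 24) (nat_lit 5) (nat_lit 26) (nat_lit 5) (nat_lit 27) (nat_lit 5) (nat_lit 321) (nat_lit 314) (nat_lit 265)) (XT.lf (nat_lit 0) (nat_lit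 43487565777) (nat_lit 152) (nat_lit 4539579939) (nat_lit 228) (nat_lit 5173312017) (nat_lit 24) (nat_lit 5) (nat_lit 26) (nat_lit 5) (nat_lit 27) (nat_lit 5) (nat_lit 322) (nat_lit 314) (nat_lit 264))))))) (XT.nd (nat_lit 858) (nat_lit 532) (nat_lit 0) (XT.nd (nat_lit 390) (nat_lit 380) (nat_lit 0) (XT.nd (nat_lit 156) (nat_lit 228) (nat_lit 0) (XT.nd (nat_lit 78) (nat_lit 0) (nat_lit 0) (XT.lf (nat_lit 0) (nat_lit 4231009815) (nat_lit 152) (nat_lit 36063073860) (nat_lit 76) (nat_lit 17534682421) (nat_lit 22) (nat_lit 5) (nat_lit 24) (nat_lit 5) (nat_lit 23) (nat_lit 5) (nat_lit 323) (nat_lit 314) (nat_lit 263)) (XT.lf (nat_lit 0) (nat_lit 15258902823) (nat_lit 152) (nat_lit 4512209187) (nat_lit 76) (nat_lit 43231876907) (nat_lit 22) (nat_lit 5) (nat_lit 24) (nat_lit 5) (nat_lit 23) (nat_lit 5) (nat_lit 324) (nat_lit 314) (nat_lit 262))) (XT.nd (nat_lit 78) (nat_lit 76) (nat_lit 0) (XT.lf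 (nat_lit 0) (nat_lit 29607301956) (nat_lit 228) (nat_lit 34096201416) (nat_lit 76) (nat_lit 4999898819) (nat_lit 20) (nat_lit 5) (nat_lit 23) (nat_lit 5) (nat_lit 21) (nat_lit 4) (nat_lit 325) (nat_lit 314) (nat_lit 261)) (XT.nd (nat_lit 78) (nat_lit 0) (nat_lit 0) (XT.lf (nat_lit 0) (nat_lit 4301109649) (nat_lit 76) (nat_lit 43169007218) (nat_lit 152) (nat_lit 27584441859) (nat_lit 19) (nat_lit 5) (nat_lit 20) (nat_lit 5) (nat_lit 21) (nat_lit 4) (nat_lit 326) (nat_lit 314) (nat_lit 260)) (XT.lf (nat_lit 0) (nat_lit 52283066927) (nat_lit 76) (nat_lit 17507370208) (nat_lit 152) (nat_lit 12301243188) (nat_lit 19) (nat_lit 5) (nat_lit 20) (nat_lit 5) (nat_lit 21) (nat_lit 4) (nat_lit 327) (nat_lit 314) (nat_lit 259))))) (XT.nd (nat_lit 234) (nat_lit 152) (nat_lit 0) (XT.nd (nat_lit 78) (nat_lit 76) (nat_lit 0) (XT.lf (nat_lit 0) (nat_lit 6120413332) (nat_lit 152) (nat_lit 71860438480) (nat_lit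 76) (nat_lit 11973429227) (nat_lit 17) (nat_lit 5) (nat_lit 19) (nat_lit 5) (nat_lit 18) (nat_lit 4) (nat_lit 328) (nat_lit 314) (nat_lit 258)) (XT.nd (nat_lit 78) (nat_lit 76) (nat_lit 0) (XT.lf (nat_lit 0) (nat_lit 28508266507) (nat_lit 152) (nat_lit 23730980092) (nat_lit 76) (nat_lit 46299807730) (nat_lit 17) (nat_lit 5) (nat_lit 19) (nat_lit 5) (nat_lit 18) (nat_lit 4) (nat_lit 329) (nat_lit 314) (nat_lit 257)) (XT.lf (nat_lit 0) (nat_lit 34701597852) (nat_lit 76) (nat_lit 20986401950) (nat_lit 152) (nat_lit 52508490802) (nat_lit 16) (nat_lit 5) (nat_lit 17) (nat_lit 5) (nat_lit 18) (nat_lit 4) (nat_lit 330) (nat_lit 314) (nat_lit 256)))) (XT.nd (nat_lit 78) (nat_lit 152) (nat_lit 0) (XT.lf (nat_lit 0) (nat_lit 88860354377) (nat_lit 152) (nat_lit 15234441492) (nat_lit 0) (nat_lit 14920399273) (nat_lit 16) (nat_lit 5) (nat_lit 18) (nat_lit 4) (nat_lit 16) (nat_lit 4) (nat_lit 331) (nat_lit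 314) (nat_lit 255)) (XT.nd (nat_lit 78) (nat_lit 76) (nat_lit 0) (XT.lf (nat_lit 0) (nat_lit 55721409759) (nat_lit 76) (nat_lit 74591095748) (nat_lit 76) (nat_lit 648610099) (nat_lit 15) (nat_lit 4) (nat_lit 16) (nat_lit 5) (nat_lit 16) (nat_lit 4) (nat_lit 332) (nat_lit 314) (nat_lit 254)) (XT.lf (nat_lit 0) (nat_lit 31152008437) (nat_lit 152) (nat_lit 6967867980) (nat_lit 76) (nat_lit 106247581062) (nat_lit 14) (nat_lit 5) (nat_lit 16) (nat_lit 5) (nat_lit 15) (nat_lit 4) (nat_lit 333) (nat_lit 314) (nat_lit 253)))))) (XT.nd (nat_lit 390) (nat_lit 228) (nat_lit 0) (XT.nd (nat_lit 156) (nat_lit 228) (nat_lit 0) (XT.nd (nat_lit 78) (nat_lit 0) (nat_lit 0) (XT.lf (nat_lit 0) (nat_lit 71218842435) (nat_lit 152) (nat_lit 81109445723) (nat_lit 0) (nat_lit 6917451498) (nat_lit 13) (nat_lit 5) (nat_lit 15) (nat_lit 4) (nat_lit 13) (nat_lit 4) (nat_lit 334) (nat_lit 314) (nat_lit 252)) (XT.lf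 (nat_lit 0) (nat_lit 119490223478) (nat_lit 152) (nat_lit 1348977695) (nat_lit 0) (nat_lit 55187385695) (nat_lit 13) (nat_lit 5) (nat_lit 15) (nat_lit 4) (nat_lit 13) (nat_lit 4) (nat_lit 335) (nat_lit 314) (nat_lit 251))) (XT.nd (nat_lit 78) (nat_lit 152) (nat_lit 0) (XT.lf (nat_lit 0) (nat_lit 99203474667) (nat_lit 76) (nat_lit 79904655269) (nat_lit 76) (nat_lit 15600559358) (nat_lit 12) (nat_lit 4) (nat_lit 13) (nat_lit 5) (nat_lit 13) (nat_lit 4) (nat_lit 336) (nat_lit 314) (nat_lit 250)) (XT.nd (nat_lit 78) (nat_lit 76) (nat_lit 0) (XT.lf (nat_lit 0) (nat_lit 28745340938) (nat_lit 152) (nat_lit 2502706918) (nat_lit 76) (nat_lit 184738773782) (nat_lit 11) (nat_lit 5) (nat_lit 13) (nat_lit 5) (nat_lit 12) (nat_lit 4) (nat_lit 337) (nat_lit 314) (nat_lit 249)) (XT.lf (nat_lit 0) (nat_lit 84140867698) (nat_lit 152) (nat_lit 127082648915) (nat_lit 0) (nat_lit 28222483993) (nat_lit 10)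 (nat_lit 5) (nat_lit 12) (nat_lit 4) (nat_lit 10) (nat_lit 4) (nat_lit 338) (nat_lit 314) (nat_lit 248))))) (XT.nd (nat_lit 234) (nat_lit 152) (nat_lit 0) (XT.nd (nat_lit 78) (nat_lit 76) (nat_lit 0) (XT.lf (nat_lit 0) (nat_lit 149469089456) (nat_lit 152) (nat_lit 23161476151) (nat_lit 0) (nat_lit 93549986412) (nat_lit 10) (nat_lit 5) (nat_lit 12) (nat_lit 4) (nat_lit 10) (nat_lit 4) (nat_lit 339) (nat_lit 314) (nat_lit 247)) (XT.nd (nat_lit 78) (nat_lit 0) (nat_lit 0) (XT.lf (nat_lit 0) (nat_lit 105760441420) (nat_lit 76) (nat_lit 123213948452) (nat_lit 76) (nat_lit 67294219896) (nat_lit 9) (nat_lit 4) (nat_lit 10) (nat_lit 5) (nat_lit 10) (nat_lit 4) (nat_lit 340) (nat_lit 314) (nat_lit 246)) (XT.lf (nat_lit 0) (nat_lit 256620858169) (nat_lit 76) (nat_lit 64993946486) (nat_lit 76) (nat_lit 9073674007) (nat_lit 9) (nat_lit 4) (nat_lit 10) (nat_lit 5) (nat_lit 10) (nat_lit 4) (nat_lit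 341) (nat_lit 314) (nat_lit 245)))) (XT.nd (nat_lit 78) (nat_lit 0) (nat_lit 0) (XT.lf (nat_lit 0) (nat_lit 55656229624) (nat_lit 152) (nat_lit 306786728848) (nat_lit 0) (nat_lit 7029494445) (nat_lit 7) (nat_lit 5) (nat_lit 9) (nat_lit 4) (nat_lit 7) (nat_lit 4) (nat_lit 342) (nat_lit 314) (nat_lit 244)) (XT.nd (nat_lit 78) (nat_lit 0) (nat_lit 0) (XT.lf (nat_lit 0) (nat_lit 136316422636) (nat_lit 152) (nat_lit 188930992861) (nat_lit 0) (nat_lit 87689329818) (nat_lit 7) (nat_lit 5) (nat_lit 9) (nat_lit 4) (nat_lit 7) (nat_lit 4) (nat_lit 343) (nat_lit 314) (nat_lit 243)) (XT.lf (nat_lit 0) (nat_lit 229074550174) (nat_lit 152) (nat_lit 53399149412) (nat_lit 0) (nat_lit 180447146367) (nat_lit 7) (nat_lit 5) (nat_lit 9) (nat_lit 4) (nat_lit 7) (nat_lit 4) (nat_lit 344) (nat_lit 314) (nat_lit 242))))))))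
noncomputable def xc74 : XT := (XT.nd (nat_lit 1716) (nat_lit 0) (nat_lit 0) (XT.nd (nat_lit 858) (nat_lit 152) (nat_lit 0) (XT.nd (nat_lit 390) (nat_lit 76) (nat_lit 0) (XT.nd (nat_lit 156) (nat_lit 152) (nat_lit 0) (XT.nd (nat_lit 78) (nat_lit 0) (nat_lit 0) (XT.lf (nat_lit 0) (nat_lit 112473697828) (nat_lit 76) (nat_lit 227929043317) (nat_lit 76) (nat_lit 179301369083) (nat_lit 6) (nat_lit 4) (nat_lit 7) (nat_lit 5) (nat_lit 7) (nat_lit 4) (nat_lit 345) (nat_lit 314) (nat_lit 241)) (XT.lf (nat_lit 0) (nat_lit 309226938353) (nat_lit 76) (nat_lit 161993636606) (nat_lit 76) (nat_lit 113365727219) (nat_lit 6) (nat_lit 4) (nat_lit 7) (nat_lit 5) (nat_lit 7) (nat_lit 4) (nat_lit 346) (nat_lit 314) (nat_lit 240))) (XT.nd (nat_lit 78) (nat_lit 152) (nat_lit 0) (XT.lf (nat_lit 0) (nat_lit 535491538848) (nat_lit 76) (nat_lit 86168758061) (nat_lit 76) (nat_lit 37540644194) (nat_lit 6) (nat_lit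 4) (nat_lit 7) (nat_lit 5) (nat_lit 7) (nat_lit 4) (nat_lit 347) (nat_lit 314) (nat_lit 239)) (XT.nd (nat_lit 78) (nat_lit 0) (nat_lit 0) (XT.lf (nat_lit 0) (nat_lit 47692826203) (nat_lit 152) (nat_lit 691230827350) (nat_lit 0) (nat_lit 5407355179) (nat_lit 4) (nat_lit 5) (nat_lit 6) (nat_lit 4) (nat_lit 4) (nat_lit 4) (nat_lit 348) (nat_lit 314) (nat_lit 238)) (XT.lf (nat_lit 0) (nat_lit 152744994402) (nat_lit 152) (nat_lit 577126487187) (nat_lit 0) (nat_lit 110459388929) (nat_lit 4) (nat_lit 5) (nat_lit 6) (nat_lit 4) (nat_lit 4) (nat_lit 4) (nat_lit 349) (nat_lit 314) (nat_lit 237))))) (XT.nd (nat_lit 234) (nat_lit 76) (nat_lit 0) (XT.nd (nat_lit 78) (nat_lit 0) (nat_lit 0) (XT.lf (nat_lit 0) (nat_lit 273554368221) (nat_lit 152) (nat_lit 445907790537) (nat_lit 0) (nat_lit 231268645835) (nat_lit 4) (nat_lit 5) (nat_lit 6) (nat_lit 4) (nat_lit 4) (nat_lit 4) (nat_lit 350) (nat_lit 314)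 (nat_lit 236)) (XT.nd (nat_lit 78) (nat_lit 0) (nat_lit 0) (XT.lf (nat_lit 0) (nat_lit 412484609323) (nat_lit 152) (nat_lit 295007415072) (nat_lit 0) (nat_lit 370198785274) (nat_lit 4) (nat_lit 5) (nat_lit 6) (nat_lit 4) (nat_lit 4) (nat_lit 4) (nat_lit 351) (nat_lit 314) (nat_lit 235)) (XT.lf (nat_lit 0) (nat_lit 572253918076) (nat_lit 152) (nat_lit 121472962144) (nat_lit 0) (nat_lit 529968005624) (nat_lit 4) (nat_lit 5) (nat_lit 6) (nat_lit 4) (nat_lit 4) (nat_lit 4) (nat_lit 352) (nat_lit 314) (nat_lit 234)))) (XT.nd (nat_lit 78) (nat_lit 0) (nat_lit 0) (XT.lf (nat_lit 0) (nat_lit 85722409191) (nat_lit 76) (nat_lit 673815388709) (nat_lit 76) (nat_lit 631529399386) (nat_lit 3) (nat_lit 4) (nat_lit 4) (nat_lit 5) (nat_lit 4) (nat_lit 4) (nat_lit 353) (nat_lit 314) (nat_lit 233)) (XT.nd (nat_lit 78) (nat_lit 0) (nat_lit 0) (XT.lf (nat_lit 0) (nat_lit 337648178233) (nat_lit 76) (nat_lit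 643615416579) (nat_lit 76) (nat_lit 601329360410) (nat_lit 3) (nat_lit 4) (nat_lit 4) (nat_lit 5) (nat_lit 4) (nat_lit 4) (nat_lit 354) (nat_lit 314) (nat_lit 232)) (XT.lf (nat_lit 0) (nat_lit 627362106120) (nat_lit 76) (nat_lit 608885817831) (nat_lit 76) (nat_lit 566599703536) (nat_lit 3) (nat_lit 4) (nat_lit 4) (nat_lit 5) (nat_lit 4) (nat_lit 4) (nat_lit 355) (nat_lit 314) (nat_lit 231)))))) (XT.nd (nat_lit 390) (nat_lit 152) (nat_lit 0) (XT.nd (nat_lit 156) (nat_lit 0) (nat_lit 0) (XT.nd (nat_lit 78) (nat_lit 0) (nat_lit 0) (XT.lf (nat_lit 0) (nat_lit 960532508832) (nat_lit 76) (nat_lit 568947100315) (nat_lit 76) (nat_lit 526660935475) (nat_lit 3) (nat_lit 4) (nat_lit 4) (nat_lit 5) (nat_lit 4) (nat_lit 4) (nat_lit 356) (nat_lit 314) (nat_lit 230)) (XT.lf (nat_lit 0) (nat_lit 1343677937726) (nat_lit 76) (nat_lit 523017854341) (nat_lit 76) (nat_lit 480731645549) (nat_lit 3) (nat_lit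 4) (nat_lit 4) (nat_lit 5) (nat_lit 4) (nat_lit 4) (nat_lit 357) (nat_lit 314) (nat_lit 229))) (XT.nd (nat_lit 78) (nat_lit 0) (nat_lit 0) (XT.lf (nat_lit 0) (nat_lit 1784294716412) (nat_lit 76) (nat_lit 470199464227) (nat_lit 76) (nat_lit 427913217216) (nat_lit 3) (nat_lit 4) (nat_lit 4) (nat_lit 5) (nat_lit 4) (nat_lit 4) (nat_lit 358) (nat_lit 314) (nat_lit 228)) (XT.nd (nat_lit 78) (nat_lit 0) (nat_lit 0) (XT.lf (nat_lit 0) (nat_lit 2291003607949) (nat_lit 76) (nat_lit 409458526688) (nat_lit 76) (nat_lit 367172246443) (nat_lit 3) (nat_lit 4) (nat_lit 4) (nat_lit 5) (nat_lit 4) (nat_lit 4) (nat_lit 359) (nat_lit 314) (nat_lit 227)) (XT.lf (nat_lit 0) (nat_lit 2873718481956) (nat_lit 76) (nat_lit 339606632076) (nat_lit 76) (nat_lit 297320322933) (nat_lit 3) (nat_lit 4) (nat_lit 4) (nat_lit 5) (nat_lit 4) (nat_lit 4) (nat_lit 360) (nat_lit 314) (nat_lit 226))))) (XT.nd (nat_lit 234) (nat_lit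 152) (nat_lit 0) (XT.nd (nat_lit 78) (nat_lit 0) (nat_lit 0) (XT.lf (nat_lit 0) (nat_lit 3543840281620) (nat_lit 76) (nat_lit 259277112889) (nat_lit 76) (nat_lit 216990778616) (nat_lit 3) (nat_lit 4) (nat_lit 4) (nat_lit 5) (nat_lit 4) (nat_lit 4) (nat_lit 361) (nat_lit 314) (nat_lit 225)) (XT.nd (nat_lit 78) (nat_lit 0) (nat_lit 0) (XT.lf (nat_lit 0) (nat_lit 4314480085629) (nat_lit 76) (nat_lit 166898304620) (nat_lit 76) (nat_lit 124611948496) (nat_lit 3) (nat_lit 4) (nat_lit 4) (nat_lit 5) (nat_lit 4) (nat_lit 4) (nat_lit 362) (nat_lit 314) (nat_lit 224)) (XT.lf (nat_lit 0) (nat_lit 5200715629279) (nat_lit 76) (nat_lit 60662795804) (nat_lit 76) (nat_lit 18376420677) (nat_lit 3) (nat_lit 4) (nat_lit 4) (nat_lit 5) (nat_lit 4) (nat_lit 4) (nat_lit 363) (nat_lit 314) (nat_lit 223)))) (XT.nd (nat_lit 78) (nat_lit 0) (nat_lit 0) (XT.lf (nat_lit 0) (nat_lit 104972285988) (nat_lit 152) (nat_lit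 5879202794048) (nat_lit 0) (nat_lit 68201510641) (nat_lit 1) (nat_lit 5) (nat_lit 3) (nat_lit 4) (nat_lit 1) (nat_lit 4) (nat_lit 364) (nat_lit 314) (nat_lit 222)) (XT.nd (nat_lit 78) (nat_lit 0) (nat_lit 0) (XT.lf (nat_lit 0) (nat_lit 252158845762) (nat_lit 152) (nat_lit 6472130892123) (nat_lit 0) (nat_lit 215388057921) (nat_lit 1) (nat_lit 5) (nat_lit 3) (nat_lit 4) (nat_lit 1) (nat_lit 4) (nat_lit 365) (nat_lit 314) (nat_lit 221)) (XT.lf (nat_lit 0) (nat_lit 421423302505) (nat_lit 152) (nat_lit 7153998388460) (nat_lit 0) (nat_lit 384652503799) (nat_lit 1) (nat_lit 5) (nat_lit 3) (nat_lit 4) (nat_lit 1) (nat_lit 4) (nat_lit 366) (nat_lit 314) (nat_lit 220))))))) (XT.nd (nat_lit 858) (nat_lit 0) (nat_lit 0) (XT.nd (nat_lit 390) (nat_lit 0) (nat_lit 0) (XT.nd (nat_lit 156) (nat_lit 0) (nat_lit 0) (XT.nd (nat_lit 78) (nat_lit 0) (nat_lit 0) (XT.lf (nat_lit 0) (nat_lit 616077352107) (nat_lit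 152) (nat_lit 7938146168858) (nat_lit 0) (nat_lit 579306543955) (nat_lit 1) (nat_lit 5) (nat_lit 3) (nat_lit 4) (nat_lit 1) (nat_lit 4) (nat_lit 367) (nat_lit 314) (nat_lit 219)) (XT.lf (nat_lit 0) (nat_lit 839929443366) (nat_lit 152) (nat_lit 8839916255106) (nat_lit 0) (nat_lit 803158626999) (nat_lit 1) (nat_lit 5) (nat_lit 3) (nat_lit 4) (nat_lit 1) (nat_lit 4) (nat_lit 368) (nat_lit 314) (nat_lit 218))) (XT.nd (nat_lit 78) (nat_lit 0) (nat_lit 0) (XT.lf (nat_lit 0) (nat_lit 1097359291112) (nat_lit 152) (nat_lit 9876951974979) (nat_lit 0) (nat_lit 1060588467601) (nat_lit 1) (nat_lit 5) (nat_lit 3) (nat_lit 4) (nat_lit 1) (nat_lit 4) (nat_lit 369) (nat_lit 314) (nat_lit 217)) (XT.nd (nat_lit 78) (nat_lit 0) (nat_lit 0) (XT.lf (nat_lit 0) (nat_lit 1393403566277) (nat_lit 152) (nat_lit 11069543157779) (nat_lit 0) (nat_lit 1356632736555) (nat_lit 1) (nat_lit 5) (nat_lit 3) (nat_lit 4) (nat_lit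 1) (nat_lit 4) (nat_lit 370) (nat_lit 314) (nat_lit 216)) (XT.lf (nat_lit 0) (nat_lit 1733854439463) (nat_lit 152) (nat_lit 12441023109257) (nat_lit 0) (nat_lit 1697083604339) (nat_lit 1) (nat_lit 5) (nat_lit 3) (nat_lit 4) (nat_lit 1) (nat_lit 4) (nat_lit 371) (nat_lit 314) (nat_lit 215))))) (XT.nd (nat_lit 234) (nat_lit 0) (nat_lit 0) (XT.nd (nat_lit 78) (nat_lit 0) (nat_lit 0) (XT.lf (nat_lit 0) (nat_lit 2125372906015) (nat_lit 152) (nat_lit 14018225132810) (nat_lit 0) (nat_lit 2088602066195) (nat_lit 1) (nat_lit 5) (nat_lit 3) (nat_lit 4) (nat_lit 1) (nat_lit 4) (nat_lit 372) (nat_lit 314) (nat_lit 214)) (XT.nd (nat_lit 78) (nat_lit 0) (nat_lit 0) (XT.lf (nat_lit 0) (nat_lit 2575619109844) (nat_lit 152) (nat_lit 15832007528900) (nat_lit 0) (nat_lit 2538848265939) (nat_lit 1) (nat_lit 5) (nat_lit 3) (nat_lit 4) (nat_lit 1) (nat_lit 4) (nat_lit 373) (nat_lit 314) (nat_lit 213)) (XT.lf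 (nat_lit 0) (nat_lit 3093402215808) (nat_lit 152) (nat_lit 17917857344406) (nat_lit 0) (nat_lit 3056631368351) (nat_lit 1) (nat_lit 5) (nat_lit 3) (nat_lit 4) (nat_lit 1) (nat_lit 4) (nat_lit 374) (nat_lit 314) (nat_lit 212)))) (XT.nd (nat_lit 78) (nat_lit 0) (nat_lit 0) (XT.lf (nat_lit 0) (nat_lit 3688852762935) (nat_lit 152) (nat_lit 20316584684415) (nat_lit 0) (nat_lit 3652081912390) (nat_lit 1) (nat_lit 5) (nat_lit 3) (nat_lit 4) (nat_lit 1) (nat_lit 4) (nat_lit 375) (nat_lit 314) (nat_lit 211)) (XT.nd (nat_lit 78) (nat_lit 0) (nat_lit 0) (XT.lf (nat_lit 0) (nat_lit 4373620870627) (nat_lit 152) (nat_lit 23075121170797) (nat_lit 0) (nat_lit 4336850017397) (nat_lit 1) (nat_lit 5) (nat_lit 3) (nat_lit 4) (nat_lit 1) (nat_lit 4) (nat_lit 376) (nat_lit 314) (nat_lit 210)) (XT.lf (nat_lit 0) (nat_lit 5161104175773) (nat_lit 152) (nat_lit 26247438169588) (nat_lit 0) (nat_lit 5124333320207)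 (nat_lit 1) (nat_lit 5) (nat_lit 3) (nat_lit 4) (nat_lit 1) (nat_lit 4) (nat_lit 377) (nat_lit 314) (nat_lit 209)))))) (XT.nd (nat_lit 390) (nat_lit 0) (nat_lit 0) (XT.nd (nat_lit 156) (nat_lit 0) (nat_lit 0) (XT.nd (nat_lit 78) (nat_lit 0) (nat_lit 0) (XT.lf (nat_lit 0) (nat_lit 6066709960430) (nat_lit 152) (nat_lit 29895602752505) (nat_lit 0) (nat_lit 6029939102834) (nat_lit 1) (nat_lit 5) (nat_lit 3) (nat_lit 4) (nat_lit 1) (nat_lit 4) (nat_lit 378) (nat_lit 314) (nat_lit 208)) (XT.lf (nat_lit 0) (nat_lit 7108156598645) (nat_lit 152) (nat_lit 34090992052693) (nat_lit 0) (nat_lit 7071385739284) (nat_lit 1) (nat_lit 5) (nat_lit 3) (nat_lit 4) (nat_lit 1) (nat_lit 4) (nat_lit 379) (nat_lit 314) (nat_lit 207))) (XT.nd (nat_lit 78) (nat_lit 0) (nat_lit 0) (XT.lf (nat_lit 0) (nat_lit 8305820220298) (nat_lit 152) (nat_lit 38915689773849) (nat_lit 0) (nat_lit 8269049359401) (nat_lit 1) (nat_lit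 5) (nat_lit 3) (nat_lit 4) (nat_lit 1) (nat_lit 4) (nat_lit 380) (nat_lit 314) (nat_lit 206)) (XT.nd (nat_lit 78) (nat_lit 0) (nat_lit 0) (XT.lf (nat_lit 0) (nat_lit 9683133374507) (nat_lit 152) (nat_lit 44464092175736) (nat_lit 0) (nat_lit 9646362512275) (nat_lit 1) (nat_lit 5) (nat_lit 3) (nat_lit 4) (nat_lit 1) (nat_lit 4) (nat_lit 381) (nat_lit 314) (nat_lit 205)) (XT.lf (nat_lit 0) (nat_lit 11267043492550) (nat_lit 152) (nat_lit 50844754957521) (nat_lit 0) (nat_lit 11230272629157) (nat_lit 1) (nat_lit 5) (nat_lit 3) (nat_lit 4) (nat_lit 1) (nat_lit 4) (nat_lit 382) (nat_lit 314) (nat_lit 204))))) (XT.nd (nat_lit 41652) (nat_lit 0) (nat_lit 2052) (XT.nd (nat_lit 78) (nat_lit 0) (nat_lit 0) (XT.lf (nat_lit 0) (nat_lit 13088540120215) (nat_lit 152) (nat_lit 58182517173631) (nat_lit 0) (nat_lit 13051769255813) (nat_lit 1) (nat_lit 5) (nat_lit 3) (nat_lit 4) (nat_lit 1) (nat_lit 4) (nat_lit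 383) (nat_lit 314) (nat_lit 203)) (XT.nd (nat_lit 41496) (nat_lit 0) (nat_lit 2052) (XT.lf (nat_lit 0) (nat_lit 15183261235000) (nat_lit 152) (nat_lit 66620943736989) (nat_lit 0) (nat_lit 15146490369720) (nat_lit 1) (nat_lit 5) (nat_lit 3) (nat_lit 4) (nat_lit 1) (nat_lit 4) (nat_lit 384) (nat_lit 314) (nat_lit 202)) (XT.lf (nat_lit 0) (nat_lit 3860283139) (nat_lit 380) (nat_lit 6337309847) (nat_lit 380) (nat_lit 6337309847) (nat_lit 28) (nat_lit 3) (nat_lit 33) (nat_lit 3) (nat_lit 33) (nat_lit 5) (nat_lit 315) (nat_lit 315) (nat_lit 270)))) (XT.nd (nat_lit 78) (nat_lit 0) (nat_lit 76) (XT.lf (nat_lit 76) (nat_lit 3704594653) (nat_lit 0) (nat_lit 4803551091) (nat_lit 380) (nat_lit 27010522801) (nat_lit 29) (nat_lit 5) (nat_lit 28) (nat_lit 3) (nat_lit 33) (nat_lit 5) (nat_lit 316) (nat_lit 315) (nat_lit 269)) (XT.nd (nat_lit 78) (nat_lit 0) (nat_lit 0) (XT.lf (nat_lit 0) (nat_lit 10641588207)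 (nat_lit 304) (nat_lit 14853331563) (nat_lit 380) (nat_lit 12655798551) (nat_lit 29) (nat_lit 5) (nat_lit 33) (nat_lit 5) (nat_lit 34) (nat_lit 5) (nat_lit 317) (nat_lit 315) (nat_lit 268)) (XT.lf (nat_lit 76) (nat_lit 4847473312) (nat_lit 0) (nat_lit 8668416712) (nat_lit 380) (nat_lit 27598573334) (nat_lit 30) (nat_lit 5) (nat_lit 29) (nat_lit 5) (nat_lit 34) (nat_lit 5) (nat_lit 318) (nat_lit 315) (nat_lit 267))))))))
noncomputable def xc75 : XT := (XT.nd (nat_lit 1716) (nat_lit 532) (nat_lit 0) (XT.nd (nat_lit 858) (nat_lit 532) (nat_lit 0) (XT.nd (nat_lit 390) (nat_lit 532) (nat_lit 0) (XT.nd (nat_lit 156) (nat_lit 152) (nat_lit 0) (XT.nd (nat_lit 78) (nat_lit 304) (nat_lit 0) (XT.lf (nat_lit 0) (nat_lit 18069337710) (nat_lit 304) (nat_lit 15720669465) (nat_lit 76) (nat_lit 10545575275) (nat_lit 30) (nat_lit 5) (nat_lit 34) (nat_lit 5) (nat_lit 31) (nat_lit 5) (nat_lit 319) (nat_lit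 315) (nat_lit 266)) (XT.lf (nat_lit 0) (nat_lit 8219839355) (nat_lit 304) (nat_lit 15832400062) (nat_lit 380) (nat_lit 23875675229) (nat_lit 26) (nat_lit 5) (nat_lit 30) (nat_lit 5) (nat_lit 31) (nat_lit 5) (nat_lit 320) (nat_lit 315) (nat_lit 265))) (XT.nd (nat_lit 78) (nat_lit 152) (nat_lit 0) (XT.lf (nat_lit 0) (nat_lit 31986890770) (nat_lit 380) (nat_lit 14663656385) (nat_lit 76) (nat_lit 5250411724) (nat_lit 26) (nat_lit 5) (nat_lit 31) (nat_lit 5) (nat_lit 27) (nat_lit 5) (nat_lit 321) (nat_lit 315) (nat_lit 264)) (XT.nd (nat_lit 78) (nat_lit 0) (nat_lit 0) (XT.lf (nat_lit 0) (nat_lit 14684401876) (nat_lit 152) (nat_lit 27783991841) (nat_lit 228) (nat_lit 13798076090) (nat_lit 24) (nat_lit 5) (nat_lit 26) (nat_lit 5) (nat_lit 27) (nat_lit 5) (nat_lit 322) (nat_lit 315) (nat_lit 263)) (XT.lf (nat_lit 0) (nat_lit 50076548442) (nat_lit 152) (nat_lit 5207203934) (nat_lit 228) (nat_lit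 5888817540) (nat_lit 24) (nat_lit 5) (nat_lit 26) (nat_lit 5) (nat_lit 27) (nat_lit 5) (nat_lit 323) (nat_lit 315) (nat_lit 262))))) (XT.nd (nat_lit 234) (nat_lit 228) (nat_lit 0) (XT.nd (nat_lit 78) (nat_lit 152) (nat_lit 0) (XT.lf (nat_lit 0) (nat_lit 4917114922) (nat_lit 152) (nat_lit 41397525526) (nat_lit 76) (nat_lit 20180664858) (nat_lit 22) (nat_lit 5) (nat_lit 24) (nat_lit 5) (nat_lit 23) (nat_lit 5) (nat_lit 324) (nat_lit 315) (nat_lit 261)) (XT.nd (nat_lit 78) (nat_lit 152) (nat_lit 0) (XT.lf (nat_lit 0) (nat_lit 17592480538) (nat_lit 152) (nat_lit 5123814988) (nat_lit 76) (nat_lit 49730380247) (nat_lit 22) (nat_lit 5) (nat_lit 24) (nat_lit 5) (nat_lit 23) (nat_lit 5) (nat_lit 325) (nat_lit 315) (nat_lit 260)) (XT.lf (nat_lit 0) (nat_lit 34090741980) (nat_lit 228) (nat_lit 39142964892) (nat_lit 76) (nat_lit 5768810340) (nat_lit 20) (nat_lit 5) (nat_lit 23) (nat_lit 5) (nat_lit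 21) (nat_lit 4) (nat_lit 326) (nat_lit 315) (nat_lit 259)))) (XT.nd (nat_lit 78) (nat_lit 152) (nat_lit 0) (XT.lf (nat_lit 0) (nat_lit 5010867072) (nat_lit 76) (nat_lit 49619263404) (nat_lit 152) (nat_lit 31676649735) (nat_lit 19) (nat_lit 5) (nat_lit 20) (nat_lit 5) (nat_lit 21) (nat_lit 4) (nat_lit 327) (nat_lit 315) (nat_lit 258)) (XT.nd (nat_lit 78) (nat_lit 152) (nat_lit 0) (XT.lf (nat_lit 0) (nat_lit 60181693032) (nat_lit 76) (nat_lit 20111654090) (nat_lit 152) (nat_lit 14106900619) (nat_lit 19) (nat_lit 5) (nat_lit 20) (nat_lit 5) (nat_lit 21) (nat_lit 4) (nat_lit 328) (nat_lit 315) (nat_lit 257)) (XT.lf (nat_lit 0) (nat_lit 7073114416) (nat_lit 152) (nat_lit 82578394629) (nat_lit 76) (nat_lit 13790693360) (nat_lit 17) (nat_lit 5) (nat_lit 19) (nat_lit 5) (nat_lit 18) (nat_lit 4) (nat_lit 329) (nat_lit 315) (nat_lit 256)))))) (XT.nd (nat_lit 390) (nat_lit 304) (nat_lit 0) (XT.nd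 (nat_lit 156) (nat_lit 152) (nat_lit 0) (XT.nd (nat_lit 78) (nat_lit 76) (nat_lit 0) (XT.lf (nat_lit 0) (nat_lit 32814627426) (nat_lit 152) (nat_lit 27237488303) (nat_lit 76) (nat_lit 53263256931) (nat_lit 17) (nat_lit 5) (nat_lit 19) (nat_lit 5) (nat_lit 18) (nat_lit 4) (nat_lit 330) (nat_lit 315) (nat_lit 255)) (XT.lf (nat_lit 0) (nat_lit 39957560933) (nat_lit 76) (nat_lit 24111931312) (nat_lit 152) (nat_lit 60352209230) (nat_lit 16) (nat_lit 5) (nat_lit 17) (nat_lit 5) (nat_lit 18) (nat_lit 4) (nat_lit 331) (nat_lit 315) (nat_lit 254))) (XT.nd (nat_lit 78) (nat_lit 152) (nat_lit 0) (XT.lf (nat_lit 0) (nat_lit 102214817351) (nat_lit 152) (nat_lit 17472601363) (nat_lit 0) (nat_lit 17176227837) (nat_lit 16) (nat_lit 5) (nat_lit 18) (nat_lit 4) (nat_lit 16) (nat_lit 4) (nat_lit 332) (nat_lit 315) (nat_lit 253)) (XT.nd (nat_lit 78) (nat_lit 76) (nat_lit 0) (XT.lf (nat_lit 0) (nat_lit 64124490923)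 (nat_lit 76) (nat_lit 85758843861) (nat_lit 76) (nat_lit 718340892) (nat_lit 15) (nat_lit 4) (nat_lit 16) (nat_lit 5) (nat_lit 16) (nat_lit 4) (nat_lit 333) (nat_lit 315) (nat_lit 252)) (XT.lf (nat_lit 0) (nat_lit 35846641943) (nat_lit 152) (nat_lit 7971886664) (nat_lit 76) (nat_lit 122200761882) (nat_lit 14) (nat_lit 5) (nat_lit 16) (nat_lit 5) (nat_lit 15) (nat_lit 4) (nat_lit 334) (nat_lit 315) (nat_lit 251))))) (XT.nd (nat_lit 234) (nat_lit 152) (nat_lit 0) (XT.nd (nat_lit 78) (nat_lit 76) (nat_lit 0) (XT.lf (nat_lit 0) (nat_lit 81923053753) (nat_lit 152) (nat_lit 93234244410) (nat_lit 0) (nat_lit 7972085327) (nat_lit 13) (nat_lit 5) (nat_lit 15) (nat_lit 4) (nat_lit 13) (nat_lit 4) (nat_lit 335) (nat_lit 315) (nat_lit 250)) (XT.nd (nat_lit 78) (nat_lit 76) (nat_lit 0) (XT.lf (nat_lit 0) (nat_lit 137432352611) (nat_lit 152) (nat_lit 1515134635) (nat_lit 0) (nat_lit 63480290161) (nat_lit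 13) (nat_lit 5) (nat_lit 15) (nat_lit 4) (nat_lit 13) (nat_lit 4) (nat_lit 336) (nat_lit 315) (nat_lit 249)) (XT.lf (nat_lit 0) (nat_lit 114118540595) (nat_lit 76) (nat_lit 91873409352) (nat_lit 76) (nat_lit 17920395577) (nat_lit 12) (nat_lit 4) (nat_lit 13) (nat_lit 5) (nat_lit 13) (nat_lit 4) (nat_lit 337) (nat_lit 315) (nat_lit 248)))) (XT.nd (nat_lit 78) (nat_lit 76) (nat_lit 0) (XT.lf (nat_lit 0) (nat_lit 33073181292) (nat_lit 152) (nat_lit 2846501235) (nat_lit 76) (nat_lit 212462751115) (nat_lit 11) (nat_lit 5) (nat_lit 13) (nat_lit 5) (nat_lit 12) (nat_lit 4) (nat_lit 338) (nat_lit 315) (nat_lit 247)) (XT.nd (nat_lit 78) (nat_lit 0) (nat_lit 0) (XT.lf (nat_lit 0) (nat_lit 96777814685) (nat_lit 152) (nat_lit 146113207493) (nat_lit 0) (nat_lit 32469501335) (nat_lit 10) (nat_lit 5) (nat_lit 12) (nat_lit 4) (nat_lit 10) (nat_lit 4) (nat_lit 339) (nat_lit 315) (nat_lit 246)) (XT.lf (nat_lit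 0) (nat_lit 171903206642) (nat_lit 152) (nat_lit 26608011695) (nat_lit 0) (nat_lit 107594349368) (nat_lit 10) (nat_lit 5) (nat_lit 12) (nat_lit 4) (nat_lit 10) (nat_lit 4) (nat_lit 340) (nat_lit 315) (nat_lit 245))))))) (XT.nd (nat_lit 858) (nat_lit 76) (nat_lit 0) (XT.nd (nat_lit 390) (nat_lit 228) (nat_lit 0) (XT.nd (nat_lit 156) (nat_lit 152) (nat_lit 0) (XT.nd (nat_lit 78) (nat_lit 0) (nat_lit 0) (XT.lf (nat_lit 0) (nat_lit 121650935063) (nat_lit 76) (nat_lit 141682667392) (nat_lit 76) (nat_lit 77373337141) (nat_lit 9) (nat_lit 4) (nat_lit 10) (nat_lit 5) (nat_lit 10) (nat_lit 4) (nat_lit 341) (nat_lit 315) (nat_lit 244)) (XT.lf (nat_lit 0) (nat_lit 295136967267) (nat_lit 76) (nat_lit 74731409478) (nat_lit 76) (nat_lit 10421667943) (nat_lit 9) (nat_lit 4) (nat_lit 10) (nat_lit 5) (nat_lit 10) (nat_lit 4) (nat_lit 342) (nat_lit 315) (nat_lit 243))) (XT.nd (nat_lit 78) (nat_lit 0) (nat_lit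 0) (XT.lf (nat_lit 0) (nat_lit 64016448231) (nat_lit 152) (nat_lit 352780479820) (nat_lit 0) (nat_lit 8094622862) (nat_lit 7) (nat_lit 5) (nat_lit 9) (nat_lit 4) (nat_lit 7) (nat_lit 4) (nat_lit 343) (nat_lit 315) (nat_lit 242)) (XT.nd (nat_lit 78) (nat_lit 0) (nat_lit 0) (XT.lf (nat_lit 0) (nat_lit 156774133130) (nat_lit 152) (nat_lit 217249547568) (nat_lit 0) (nat_lit 100852037335) (nat_lit 7) (nat_lit 5) (nat_lit 9) (nat_lit 4) (nat_lit 7) (nat_lit 4) (nat_lit 344) (nat_lit 315) (nat_lit 241)) (XT.lf (nat_lit 0) (nat_lit 263444643221) (nat_lit 152) (nat_lit 61390679022) (nat_lit 0) (nat_lit 207522312274) (nat_lit 7) (nat_lit 5) (nat_lit 9) (nat_lit 4) (nat_lit 7) (nat_lit 4) (nat_lit 345) (nat_lit 315) (nat_lit 240))))) (XT.nd (nat_lit 234) (nat_lit 152) (nat_lit 0) (XT.nd (nat_lit 78) (nat_lit 0) (nat_lit 0) (XT.lf (nat_lit 0) (nat_lit 129362261541) (nat_lit 76) (nat_lit 262109364067)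 (nat_lit 76) (nat_lit 206186828639) (nat_lit 6) (nat_lit 4) (nat_lit 7) (nat_lit 5) (nat_lit 7) (nat_lit 4) (nat_lit 346) (nat_lit 315) (nat_lit 239)) (XT.nd (nat_lit 78) (nat_lit 0) (nat_lit 0) (XT.lf (nat_lit 0) (nat_lit 355626204357) (nat_lit 76) (nat_lit 186284824925) (nat_lit 76) (nat_lit 130362111687) (nat_lit 6) (nat_lit 4) (nat_lit 7) (nat_lit 5) (nat_lit 7) (nat_lit 4) (nat_lit 347) (nat_lit 315) (nat_lit 238)) (XT.lf (nat_lit 0) (nat_lit 615828509023) (nat_lit 76) (nat_lit 99087239447) (nat_lit 76) (nat_lit 43164371592) (nat_lit 6) (nat_lit 4) (nat_lit 7) (nat_lit 5) (nat_lit 7) (nat_lit 4) (nat_lit 348) (nat_lit 315) (nat_lit 237)))) (XT.nd (nat_lit 78) (nat_lit 0) (nat_lit 0) (XT.lf (nat_lit 0) (nat_lit 54853421739) (nat_lit 152) (nat_lit 794901512607) (nat_lit 0) (nat_lit 6224724083) (nat_lit 4) (nat_lit 5) (nat_lit 6) (nat_lit 4) (nat_lit 4) (nat_lit 4) (nat_lit 349) (nat_lit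 315) (nat_lit 236)) (XT.nd (nat_lit 78) (nat_lit 0) (nat_lit 0) (XT.lf (nat_lit 0) (nat_lit 175662544958) (nat_lit 152) (nat_lit 663683339531) (nat_lit 0) (nat_lit 127033745639) (nat_lit 4) (nat_lit 5) (nat_lit 6) (nat_lit 4) (nat_lit 4) (nat_lit 4) (nat_lit 350) (nat_lit 315) (nat_lit 235)) (XT.lf (nat_lit 0) (nat_lit 314592568147) (nat_lit 152) (nat_lit 512783419348) (nat_lit 0) (nat_lit 265963680425) (nat_lit 4) (nat_lit 5) (nat_lit 6) (nat_lit 4) (nat_lit 4) (nat_lit 4) (nat_lit 351) (nat_lit 315) (nat_lit 234)))))) (XT.nd (nat_lit 468) (nat_lit 0) (nat_lit 0) (XT.nd (nat_lit 234) (nat_lit 0) (nat_lit 0) (XT.nd (nat_lit 78) (nat_lit 76) (nat_lit 0) (XT.lf (nat_lit 0) (nat_lit 474361687410) (nat_lit 152) (nat_lit 339249362317) (nat_lit 0) (nat_lit 425732722816) (nat_lit 4) (nat_lit 5) (nat_lit 6) (nat_lit 4) (nat_lit 4) (nat_lit 4) (nat_lit 352) (nat_lit 315) (nat_lit 233)) (XT.nd (nat_lit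 78) (nat_lit 76) (nat_lit 0) (XT.lf (nat_lit 0) (nat_lit 658095820300) (nat_lit 152) (nat_lit 139685936886) (nat_lit 0) (nat_lit 609466788861) (nat_lit 4) (nat_lit 5) (nat_lit 6) (nat_lit 4) (nat_lit 4) (nat_lit 4) (nat_lit 353) (nat_lit 315) (nat_lit 232)) (XT.lf (nat_lit 0) (nat_lit 98588377895) (nat_lit 76) (nat_lit 774883721660) (nat_lit 76) (nat_lit 726254632095) (nat_lit 3) (nat_lit 4) (nat_lit 4) (nat_lit 5) (nat_lit 4) (nat_lit 4) (nat_lit 354) (nat_lit 315) (nat_lit 231)))) (XT.nd (nat_lit 78) (nat_lit 0) (nat_lit 0) (XT.lf (nat_lit 0) (nat_lit 388302020034) (nat_lit 76) (nat_lit 740154272235) (nat_lit 76) (nat_lit 691525132125) (nat_lit 3) (nat_lit 4) (nat_lit 4) (nat_lit 5) (nat_lit 4) (nat_lit 4) (nat_lit 355) (nat_lit 315) (nat_lit 230)) (XT.nd (nat_lit 78) (nat_lit 0) (nat_lit 0) (XT.lf (nat_lit 0) (nat_lit 721472174270) (nat_lit 76) (nat_lit 700215684565) (nat_lit 76) (nat_lit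 651586500503) (nat_lit 3) (nat_lit 4) (nat_lit 4) (nat_lit 5) (nat_lit 4) (nat_lit 4) (nat_lit 356) (nat_lit 315) (nat_lit 229)) (XT.lf (nat_lit 0) (nat_lit 1104617387098) (nat_lit 76) (nat_lit 654286551501) (nat_lit 76) (nat_lit 605657329220) (nat_lit 3) (nat_lit 4) (nat_lit 4) (nat_lit 5) (nat_lit 4) (nat_lit 4) (nat_lit 357) (nat_lit 315) (nat_lit 228))))) (XT.nd (nat_lit 234) (nat_lit 0) (nat_lit 0) (XT.nd (nat_lit 78) (nat_lit 0) (nat_lit 0) (XT.lf (nat_lit 0) (nat_lit 1545233977899) (nat_lit 76) (nat_lit 601468259569) (nat_lit 76) (nat_lit 552839004055) (nat_lit 3) (nat_lit 4) (nat_lit 4) (nat_lit 5) (nat_lit 4) (nat_lit 4) (nat_lit 358) (nat_lit 315) (nat_lit 227)) (XT.nd (nat_lit 78) (nat_lit 0) (nat_lit 0) (XT.lf (nat_lit 0) (nat_lit 2051942706059) (nat_lit 76) (nat_lit 540727407406) (nat_lit 76) (nat_lit 492098122993) (nat_lit 3) (nat_lit 4) (nat_lit 4) (nat_lit 5) (nat_lit 4)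 (nat_lit 4) (nat_lit 359) (nat_lit 315) (nat_lit 226)) (XT.lf (nat_lit 0) (nat_lit 2634657437999) (nat_lit 76) (nat_lit 470875587035) (nat_lit 76) (nat_lit 422246277492) (nat_lit 3) (nat_lit 4) (nat_lit 4) (nat_lit 5) (nat_lit 4) (nat_lit 4) (nat_lit 360) (nat_lit 315) (nat_lit 225)))) (XT.nd (nat_lit 78) (nat_lit 0) (nat_lit 0) (XT.lf (nat_lit 0) (nat_lit 3304779114125) (nat_lit 76) (nat_lit 390546132404) (nat_lit 76) (nat_lit 341916801009) (nat_lit 3) (nat_lit 4) (nat_lit 4) (nat_lit 5) (nat_lit 4) (nat_lit 4) (nat_lit 361) (nat_lit 315) (nat_lit 224)) (XT.nd (nat_lit 78) (nat_lit 0) (nat_lit 0) (XT.lf (nat_lit 0) (nat_lit 4075418810711) (nat_lit 76) (nat_lit 298167380271) (nat_lit 76) (nat_lit 249538029875) (nat_lit 3) (nat_lit 4) (nat_lit 4) (nat_lit 5) (nat_lit 4) (nat_lit 4) (nat_lit 362) (nat_lit 315) (nat_lit 223)) (XT.lf (nat_lit 0) (nat_lit 4961654260950) (nat_lit 76) (nat_lit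 191931920269) (nat_lit 76) (nat_lit 143302553349) (nat_lit 3) (nat_lit 4) (nat_lit 4) (nat_lit 5) (nat_lit 4) (nat_lit 4) (nat_lit 363) (nat_lit 315) (nat_lit 222))))))))
noncomputable def xc76 : XT := (XT.nd (nat_lit 43212) (nat_lit 0) (nat_lit 836) (XT.nd (nat_lit 858) (nat_lit 0) (nat_lit 0) (XT.nd (nat_lit 390) (nat_lit 0) (nat_lit 0) (XT.nd (nat_lit 156) (nat_lit 0) (nat_lit 0) (XT.nd (nat_lit 78) (nat_lit 152) (nat_lit 0) (XT.lf (nat_lit 0) (nat_lit 5980824854085) (nat_lit 76) (nat_lit 69761232527) (nat_lit 76) (nat_lit 21131851239) (nat_lit 3) (nat_lit 4) (nat_lit 4) (nat_lit 5) (nat_lit 4) (nat_lit 4) (nat_lit 364) (nat_lit 315) (nat_lit 221)) (XT.lf (nat_lit 0) (nat_lit 120719065639) (nat_lit 152) (nat_lit 6761081236780) (nat_lit 0) (nat_lit 78432636264) (nat_lit 1) (nat_lit 5) (nat_lit 3) (nat_lit 4) (nat_lit 1) (nat_lit 4) (nat_lit 365) (nat_lit 315) (nat_lit 220))) (XT.nd (nat_lit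 78) (nat_lit 0) (nat_lit 0) (XT.lf (nat_lit 0) (nat_lit 289983487195) (nat_lit 152) (nat_lit 7442948807355) (nat_lit 0) (nat_lit 247697048373) (nat_lit 1) (nat_lit 5) (nat_lit 3) (nat_lit 4) (nat_lit 1) (nat_lit 4) (nat_lit 366) (nat_lit 315) (nat_lit 219)) (XT.nd (nat_lit 78) (nat_lit 0) (nat_lit 0) (XT.lf (nat_lit 0) (nat_lit 484637506201) (nat_lit 152) (nat_lit 8227096652306) (nat_lit 0) (nat_lit 442351059163) (nat_lit 1) (nat_lit 5) (nat_lit 3) (nat_lit 4) (nat_lit 1) (nat_lit 4) (nat_lit 367) (nat_lit 315) (nat_lit 218)) (XT.lf (nat_lit 0) (nat_lit 708489570854) (nat_lit 152) (nat_lit 9128866794688) (nat_lit 0) (nat_lit 666203116673) (nat_lit 1) (nat_lit 5) (nat_lit 3) (nat_lit 4) (nat_lit 1) (nat_lit 4) (nat_lit 368) (nat_lit 315) (nat_lit 217))))) (XT.nd (nat_lit 234) (nat_lit 0) (nat_lit 0) (XT.nd (nat_lit 78) (nat_lit 0) (nat_lit 0) (XT.lf (nat_lit 0) (nat_lit 965919395463) (nat_lit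 152) (nat_lit 10165902563373) (nat_lit 0) (nat_lit 923632935071) (nat_lit 1) (nat_lit 5) (nat_lit 3) (nat_lit 4) (nat_lit 1) (nat_lit 4) (nat_lit 369) (nat_lit 315) (nat_lit 216)) (XT.nd (nat_lit 78) (nat_lit 0) (nat_lit 0) (XT.lf (nat_lit 0) (nat_lit 1261963650510) (nat_lit 152) (nat_lit 11358493788619) (nat_lit 0) (nat_lit 1219677184717) (nat_lit 1) (nat_lit 5) (nat_lit 3) (nat_lit 4) (nat_lit 1) (nat_lit 4) (nat_lit 370) (nat_lit 315) (nat_lit 215)) (XT.lf (nat_lit 0) (nat_lit 1602414506203) (nat_lit 152) (nat_lit 12729973777005) (nat_lit 0) (nat_lit 1560128035712) (nat_lit 1) (nat_lit 5) (nat_lit 3) (nat_lit 4) (nat_lit 1) (nat_lit 4) (nat_lit 371) (nat_lit 315) (nat_lit 214)))) (XT.nd (nat_lit 78) (nat_lit 0) (nat_lit 0) (XT.lf (nat_lit 0) (nat_lit 1993932957543) (nat_lit 152) (nat_lit 14307175832653) (nat_lit 0) (nat_lit 1951646482968) (nat_lit 1) (nat_lit 5) (nat_lit 3) (nat_lit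 4) (nat_lit 1) (nat_lit 4) (nat_lit 372) (nat_lit 315) (nat_lit 213)) (XT.nd (nat_lit 78) (nat_lit 0) (nat_lit 0) (XT.lf (nat_lit 0) (nat_lit 2444179148144) (nat_lit 152) (nat_lit 16120958256651) (nat_lit 0) (nat_lit 2401892670018) (nat_lit 1) (nat_lit 5) (nat_lit 3) (nat_lit 4) (nat_lit 1) (nat_lit 4) (nat_lit 373) (nat_lit 315) (nat_lit 212)) (XT.lf (nat_lit 0) (nat_lit 2961962242605) (nat_lit 152) (nat_lit 18206808096426) (nat_lit 0) (nat_lit 2919675761390) (nat_lit 1) (nat_lit 5) (nat_lit 3) (nat_lit 4) (nat_lit 1) (nat_lit 4) (nat_lit 374) (nat_lit 315) (nat_lit 211)))))) (XT.nd (nat_lit 390) (nat_lit 0) (nat_lit 0) (XT.nd (nat_lit 156) (nat_lit 0) (nat_lit 0) (XT.nd (nat_lit 78) (nat_lit 0) (nat_lit 0) (XT.lf (nat_lit 0) (nat_lit 3557412779730) (nat_lit 152) (nat_lit 20605535457538) (nat_lit 0) (nat_lit 3515126295830) (nat_lit 1) (nat_lit 5) (nat_lit 3) (nat_lit 4) (nat_lit 1) (nat_lit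 4) (nat_lit 375) (nat_lit 315) (nat_lit 210)) (XT.lf (nat_lit 0) (nat_lit 4242180878724) (nat_lit 152) (nat_lit 23364071962269) (nat_lit 0) (nat_lit 4199894392489) (nat_lit 1) (nat_lit 5) (nat_lit 3) (nat_lit 4) (nat_lit 1) (nat_lit 4) (nat_lit 376) (nat_lit 315) (nat_lit 209))) (XT.nd (nat_lit 78) (nat_lit 0) (nat_lit 0) (XT.lf (nat_lit 0) (nat_lit 5029664176307) (nat_lit 152) (nat_lit 26536388977017) (nat_lit 0) (nat_lit 4987377688041) (nat_lit 1) (nat_lit 5) (nat_lit 3) (nat_lit 4) (nat_lit 1) (nat_lit 4) (nat_lit 377) (nat_lit 315) (nat_lit 208)) (XT.nd (nat_lit 78) (nat_lit 0) (nat_lit 0) (XT.lf (nat_lit 0) (nat_lit 5935269954387) (nat_lit 152) (nat_lit 30184553573810) (nat_lit 0) (nat_lit 5892983464356) (nat_lit 1) (nat_lit 5) (nat_lit 3) (nat_lit 4) (nat_lit 1) (nat_lit 4) (nat_lit 378) (nat_lit 315) (nat_lit 207)) (XT.lf (nat_lit 0) (nat_lit 6976716586884) (nat_lit 152) (nat_lit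 34379942886063) (nat_lit 0) (nat_lit 6934430095317) (nat_lit 1) (nat_lit 5) (nat_lit 3) (nat_lit 4) (nat_lit 1) (nat_lit 4) (nat_lit 379) (nat_lit 315) (nat_lit 206))))) (XT.nd (nat_lit 234) (nat_lit 0) (nat_lit 0) (XT.nd (nat_lit 78) (nat_lit 0) (nat_lit 0) (XT.lf (nat_lit 0) (nat_lit 8174380203564) (nat_lit 152) (nat_lit 39204640617711) (nat_lit 0) (nat_lit 8132093710662) (nat_lit 1) (nat_lit 5) (nat_lit 3) (nat_lit 4) (nat_lit 1) (nat_lit 4) (nat_lit 380) (nat_lit 315) (nat_lit 205)) (XT.nd (nat_lit 78) (nat_lit 0) (nat_lit 0) (XT.lf (nat_lit 0) (nat_lit 9551693353449) (nat_lit 152) (nat_lit 44753043028721) (nat_lit 0) (nat_lit 9509406859385) (nat_lit 1) (nat_lit 5) (nat_lit 3) (nat_lit 4) (nat_lit 1) (nat_lit 4) (nat_lit 381) (nat_lit 315) (nat_lit 204)) (XT.lf (nat_lit 0) (nat_lit 11135603467732) (nat_lit 152) (nat_lit 51133705818440) (nat_lit 0) (nat_lit 11093316972659) (nat_lit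 1) (nat_lit 5) (nat_lit 3) (nat_lit 4) (nat_lit 1) (nat_lit 4) (nat_lit 382) (nat_lit 315) (nat_lit 203)))) (XT.nd (nat_lit 78) (nat_lit 0) (nat_lit 0) (XT.lf (nat_lit 0) (nat_lit 12957100092127) (nat_lit 152) (nat_lit 58471468041448) (nat_lit 0) (nat_lit 12914813596176) (nat_lit 1) (nat_lit 5) (nat_lit 3) (nat_lit 4) (nat_lit 1) (nat_lit 4) (nat_lit 383) (nat_lit 315) (nat_lit 202)) (XT.nd (nat_lit 41574) (nat_lit 0) (nat_lit 2052) (XT.lf (nat_lit 0) (nat_lit 15051821204069) (nat_lit 152) (nat_lit 66909894610805) (nat_lit 0) (nat_lit 15009534707355) (nat_lit 1) (nat_lit 5) (nat_lit 3) (nat_lit 4) (nat_lit 1) (nat_lit 4) (nat_lit 384) (nat_lit 315) (nat_lit 201)) (XT.lf (nat_lit 0) (nat_lit 4492180108) (nat_lit 380) (nat_lit 7257470892) (nat_lit 380) (nat_lit 7257470892) (nat_lit 28) (nat_lit 3) (nat_lit 33) (nat_lit 3) (nat_lit 33) (nat_lit 5) (nat_lit 316) (nat_lit 316) (nat_lit 268)))))))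 (XT.nd (nat_lit 858) (nat_lit 608) (nat_lit 0) (XT.nd (nat_lit 390) (nat_lit 456) (nat_lit 0) (XT.nd (nat_lit 156) (nat_lit 152) (nat_lit 0) (XT.nd (nat_lit 78) (nat_lit 0) (nat_lit 76) (XT.lf (nat_lit 76) (nat_lit 4318387858) (nat_lit 0) (nat_lit 5560306576) (nat_lit 380) (nat_lit 30953471991) (nat_lit 29) (nat_lit 5) (nat_lit 28) (nat_lit 3) (nat_lit 33) (nat_lit 5) (nat_lit 317) (nat_lit 316) (nat_lit 267)) (XT.lf (nat_lit 0) (nat_lit 12318545498) (nat_lit 304) (nat_lit 17017064934) (nat_lit 380) (nat_lit 14525474407) (nat_lit 29) (nat_lit 5) (nat_lit 33) (nat_lit 5) (nat_lit 34) (nat_lit 5) (nat_lit 318) (nat_lit 316) (nat_lit 266))) (XT.nd (nat_lit 78) (nat_lit 228) (nat_lit 0) (XT.lf (nat_lit 76) (nat_lit 5635939474) (nat_lit 0) (nat_lit 9980064713) (nat_lit 380) (nat_lit 31654603101) (nat_lit 30) (nat_lit 5) (nat_lit 29) (nat_lit 5) (nat_lit 34) (nat_lit 5) (nat_lit 319) (nat_lit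 316) (nat_lit 265)) (XT.nd (nat_lit 78) (nat_lit 304) (nat_lit 0) (XT.lf (nat_lit 0) (nat_lit 20842572463) (nat_lit 304) (nat_lit 18015428851) (nat_lit 76) (nat_lit 12118392541) (nat_lit 30) (nat_lit 5) (nat_lit 34) (nat_lit 5) (nat_lit 31) (nat_lit 5) (nat_lit 320) (nat_lit 316) (nat_lit 264)) (XT.lf (nat_lit 0) (nat_lit 9513277154) (nat_lit 304) (nat_lit 18203940119) (nat_lit 380) (nat_lit 27391225586) (nat_lit 26) (nat_lit 5) (nat_lit 30) (nat_lit 5) (nat_lit 31) (nat_lit 5) (nat_lit 321) (nat_lit 316) (nat_lit 263))))) (XT.nd (nat_lit 234) (nat_lit 304) (nat_lit 0) (XT.nd (nat_lit 78) (nat_lit 152) (nat_lit 0) (XT.lf (nat_lit 0) (nat_lit 36834732572) (nat_lit 380) (nat_lit 16803219271) (nat_lit 76) (nat_lit 6040603385) (nat_lit 26) (nat_lit 5) (nat_lit 31) (nat_lit 5) (nat_lit 27) (nat_lit 5) (nat_lit 322) (nat_lit 316) (nat_lit 262)) (XT.nd (nat_lit 78) (nat_lit 0) (nat_lit 0) (XT.lf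 (nat_lit 0) (nat_lit 16944321113) (nat_lit 152) (nat_lit 31940014100) (nat_lit 228) (nat_lit 15815186391) (nat_lit 24) (nat_lit 5) (nat_lit 26) (nat_lit 5) (nat_lit 27) (nat_lit 5) (nat_lit 323) (nat_lit 316) (nat_lit 261)) (XT.lf (nat_lit 0) (nat_lit 57637821105) (nat_lit 152) (nat_lit 5978217987) (nat_lit 228) (nat_lit 6726400073) (nat_lit 24) (nat_lit 5) (nat_lit 26) (nat_lit 5) (nat_lit 27) (nat_lit 5) (nat_lit 324) (nat_lit 316) (nat_lit 260)))) (XT.nd (nat_lit 78) (nat_lit 152) (nat_lit 0) (XT.lf (nat_lit 0) (nat_lit 5693588500) (nat_lit 152) (nat_lit 47550436462) (nat_lit 76) (nat_lit 23219696589) (nat_lit 22) (nat_lit 5) (nat_lit 24) (nat_lit 5) (nat_lit 23) (nat_lit 5) (nat_lit 325) (nat_lit 316) (nat_lit 259)) (XT.nd (nat_lit 78) (nat_lit 152) (nat_lit 0) (XT.lf (nat_lit 0) (nat_lit 20265184218) (nat_lit 152) (nat_lit 5843067330) (nat_lit 76) (nat_lit 57200312938) (nat_lit 22)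 (nat_lit 5) (nat_lit 24) (nat_lit 5) (nat_lit 23) (nat_lit 5) (nat_lit 326) (nat_lit 316) (nat_lit 258)) (XT.lf (nat_lit 0) (nat_lit 39236371976) (nat_lit 228) (nat_lit 44963243852) (nat_lit 76) (nat_lit 6648443193) (nat_lit 20) (nat_lit 5) (nat_lit 23) (nat_lit 5) (nat_lit 21) (nat_lit 4) (nat_lit 327) (nat_lit 316) (nat_lit 257)))))) (XT.nd (nat_lit 390) (nat_lit 304) (nat_lit 0) (XT.nd (nat_lit 156) (nat_lit 228) (nat_lit 0) (XT.nd (nat_lit 78) (nat_lit 0) (nat_lit 0) (XT.lf (nat_lit 0) (nat_lit 5811337191) (nat_lit 76) (nat_lit 57043177567) (nat_lit 152) (nat_lit 36393774111) (nat_lit 19) (nat_lit 5) (nat_lit 20) (nat_lit 5) (nat_lit 21) (nat_lit 4) (nat_lit 328) (nat_lit 316) (nat_lit 256)) (XT.lf (nat_lit 0) (nat_lit 69251416602) (nat_lit 76) (nat_lit 23111901901) (nat_lit 152) (nat_lit 16193046074) (nat_lit 19) (nat_lit 5) (nat_lit 20) (nat_lit 5) (nat_lit 21) (nat_lit 4) (nat_lit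 329) (nat_lit 316) (nat_lit 255))) (XT.nd (nat_lit 78) (nat_lit 76) (nat_lit 0) (XT.lf (nat_lit 0) (nat_lit 8160273703) (nat_lit 152) (nat_lit 94918946169) (nat_lit 76) (nat_lit 15875365226) (nat_lit 17) (nat_lit 5) (nat_lit 19) (nat_lit 5) (nat_lit 18) (nat_lit 4) (nat_lit 330) (nat_lit 316) (nat_lit 254)) (XT.nd (nat_lit 78) (nat_lit 76) (nat_lit 0) (XT.lf (nat_lit 0) (nat_lit 37759597300) (nat_lit 152) (nat_lit 31282930979) (nat_lit 76) (nat_lit 61266717525) (nat_lit 17) (nat_lit 5) (nat_lit 19) (nat_lit 5) (nat_lit 18) (nat_lit 4) (nat_lit 331) (nat_lit 316) (nat_lit 253)) (XT.lf (nat_lit 0) (nat_lit 45989549253) (nat_lit 76) (nat_lit 27711760003) (nat_lit 152) (nat_lit 69380424212) (nat_lit 16) (nat_lit 5) (nat_lit 17) (nat_lit 5) (nat_lit 18) (nat_lit 4) (nat_lit 332) (nat_lit 316) (nat_lit 252))))) (XT.nd (nat_lit 234) (nat_lit 152) (nat_lit 0) (XT.nd (nat_lit 78) (nat_lit 152)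 (nat_lit 0) (XT.lf (nat_lit 0) (nat_lit 117566253426) (nat_lit 152) (nat_lit 20057948011) (nat_lit 0) (nat_lit 19766097682) (nat_lit 16) (nat_lit 5) (nat_lit 18) (nat_lit 4) (nat_lit 16) (nat_lit 4) (nat_lit 333) (nat_lit 316) (nat_lit 251)) (XT.nd (nat_lit 78) (nat_lit 76) (nat_lit 0) (XT.lf (nat_lit 0) (nat_lit 73777092502) (nat_lit 76) (nat_lit 98606854751) (nat_lit 76) (nat_lit 805252161) (nat_lit 15) (nat_lit 4) (nat_lit 16) (nat_lit 5) (nat_lit 16) (nat_lit 4) (nat_lit 334) (nat_lit 316) (nat_lit 250)) (XT.lf (nat_lit 0) (nat_lit 41240146544) (nat_lit 152) (nat_lit 9136545646) (nat_lit 76) (nat_lit 140543007476) (nat_lit 14) (nat_lit 5) (nat_lit 16) (nat_lit 5) (nat_lit 15) (nat_lit 4) (nat_lit 335) (nat_lit 316) (nat_lit 249)))) (XT.nd (nat_lit 78) (nat_lit 76) (nat_lit 0) (XT.lf (nat_lit 0) (nat_lit 94227681913) (nat_lit 152) (nat_lit 107187911755) (nat_lit 0) (nat_lit 9180764746)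 (nat_lit 13) (nat_lit 5) (nat_lit 15) (nat_lit 4) (nat_lit 13) (nat_lit 4) (nat_lit 336) (nat_lit 316) (nat_lit 248)) (XT.nd (nat_lit 78) (nat_lit 76) (nat_lit 0) (XT.lf (nat_lit 0) (nat_lit 158061266457) (nat_lit 152) (nat_lit 1715040208) (nat_lit 0) (nat_lit 73013522050) (nat_lit 13) (nat_lit 5) (nat_lit 15) (nat_lit 4) (nat_lit 13) (nat_lit 4) (nat_lit 337) (nat_lit 316) (nat_lit 247)) (XT.lf (nat_lit 0) (nat_lit 131262442461) (nat_lit 76) (nat_lit 105641608500) (nat_lit 76) (nat_lit 20593144755) (nat_lit 12) (nat_lit 4) (nat_lit 13) (nat_lit 5) (nat_lit 13) (nat_lit 4) (nat_lit 338) (nat_lit 316) (nat_lit 246))))))))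
noncomputable def xc77 : XT := (XT.nd (nat_lit 1716) (nat_lit 152) (nat_lit 0) (XT.nd (nat_lit 858) (nat_lit 228) (nat_lit 0) (XT.nd (nat_lit 390) (nat_lit 228) (nat_lit 0) (XT.nd (nat_lit 156) (nat_lit 76) (nat_lit 0) (XT.nd (nat_lit 78) (nat_lit 76) (nat_lit 0) (XT.lf (nat_lit 0) (nat_lit 38046286436) (nat_lit 152) (nat_lit 3249573419) (nat_lit 76) (nat_lit 244342115591) (nat_lit 11) (nat_lit 5) (nat_lit 13) (nat_lit 5) (nat_lit 12) (nat_lit 4) (nat_lit 339) (nat_lit 316) (nat_lit 245)) (XT.lf (nat_lit 0) (nat_lit 111306446686) (nat_lit 152) (nat_lit 168006113940) (nat_lit 0) (nat_lit 37350243921) (nat_lit 10) (nat_lit 5) (nat_lit 12) (nat_lit 4) (nat_lit 10) (nat_lit 4) (nat_lit 340) (nat_lit 316) (nat_lit 244))) (XT.nd (nat_lit 78) (nat_lit 76) (nat_lit 0) (XT.lf (nat_lit 0) (nat_lit 197699087463) (nat_lit 152) (nat_lit 30578278948) (nat_lit 0) (nat_lit 123742473413) (nat_lit 10) (nat_lit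 5) (nat_lit 12) (nat_lit 4) (nat_lit 10) (nat_lit 4) (nat_lit 341) (nat_lit 316) (nat_lit 243)) (XT.nd (nat_lit 78) (nat_lit 0) (nat_lit 0) (XT.lf (nat_lit 0) (nat_lit 139918558255) (nat_lit 76) (nat_lit 162924955344) (nat_lit 76) (nat_lit 88967983656) (nat_lit 9) (nat_lit 4) (nat_lit 10) (nat_lit 5) (nat_lit 10) (nat_lit 4) (nat_lit 342) (nat_lit 316) (nat_lit 242)) (XT.lf (nat_lit 0) (nat_lit 339424888821) (nat_lit 76) (nat_lit 85932327720) (nat_lit 76) (nat_lit 11975045042) (nat_lit 9) (nat_lit 4) (nat_lit 10) (nat_lit 5) (nat_lit 10) (nat_lit 4) (nat_lit 343) (nat_lit 316) (nat_lit 241))))) (XT.nd (nat_lit 234) (nat_lit 76) (nat_lit 0) (XT.nd (nat_lit 78) (nat_lit 0) (nat_lit 0) (XT.lf (nat_lit 0) (nat_lit 73627825986) (nat_lit 152) (nat_lit 405679208991) (nat_lit 0) (nat_lit 9316910243) (nat_lit 7) (nat_lit 5) (nat_lit 9) (nat_lit 4) (nat_lit 7) (nat_lit 4) (nat_lit 344) (nat_lit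 316) (nat_lit 240)) (XT.nd (nat_lit 78) (nat_lit 0) (nat_lit 0) (XT.lf (nat_lit 0) (nat_lit 180298001378) (nat_lit 152) (nat_lit 249821029441) (nat_lit 0) (nat_lit 115986881154) (nat_lit 7) (nat_lit 5) (nat_lit 9) (nat_lit 4) (nat_lit 7) (nat_lit 4) (nat_lit 345) (nat_lit 316) (nat_lit 239)) (XT.lf (nat_lit 0) (nat_lit 302968077338) (nat_lit 152) (nat_lit 70585411082) (nat_lit 0) (nat_lit 238656779305) (nat_lit 7) (nat_lit 5) (nat_lit 9) (nat_lit 4) (nat_lit 7) (nat_lit 4) (nat_lit 346) (nat_lit 316) (nat_lit 238)))) (XT.nd (nat_lit 78) (nat_lit 0) (nat_lit 0) (XT.lf (nat_lit 0) (nat_lit 148779840120) (nat_lit 76) (nat_lit 301418936354) (nat_lit 76) (nat_lit 237107483704) (nat_lit 6) (nat_lit 4) (nat_lit 7) (nat_lit 5) (nat_lit 7) (nat_lit 4) (nat_lit 347) (nat_lit 316) (nat_lit 237)) (XT.nd (nat_lit 78) (nat_lit 0) (nat_lit 0) (XT.lf (nat_lit 0) (nat_lit 408981647487) (nat_lit 76) (nat_lit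 214221607513) (nat_lit 76) (nat_lit 149910020414) (nat_lit 6) (nat_lit 4) (nat_lit 7) (nat_lit 5) (nat_lit 7) (nat_lit 4) (nat_lit 348) (nat_lit 316) (nat_lit 236)) (XT.lf (nat_lit 0) (nat_lit 708212796226) (nat_lit 76) (nat_lit 113945159147) (nat_lit 76) (nat_lit 49633455134) (nat_lit 6) (nat_lit 4) (nat_lit 7) (nat_lit 5) (nat_lit 7) (nat_lit 4) (nat_lit 349) (nat_lit 316) (nat_lit 235)))))) (XT.nd (nat_lit 390) (nat_lit 76) (nat_lit 0) (XT.nd (nat_lit 156) (nat_lit 0) (nat_lit 0) (XT.nd (nat_lit 78) (nat_lit 0) (nat_lit 0) (XT.lf (nat_lit 0) (nat_lit 63086479693) (nat_lit 152) (nat_lit 914126199729) (nat_lit 0) (nat_lit 7163170410) (nat_lit 4) (nat_lit 5) (nat_lit 6) (nat_lit 4) (nat_lit 4) (nat_lit 4) (nat_lit 350) (nat_lit 316) (nat_lit 234)) (XT.lf (nat_lit 0) (nat_lit 202016313392) (nat_lit 152) (nat_lit 763226675444) (nat_lit 0) (nat_lit 146092927237) (nat_lit 4) (nat_lit 5) (nat_lit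 6) (nat_lit 4) (nat_lit 4) (nat_lit 4) (nat_lit 351) (nat_lit 316) (nat_lit 233))) (XT.nd (nat_lit 78) (nat_lit 0) (nat_lit 0) (XT.lf (nat_lit 0) (nat_lit 361785267881) (nat_lit 152) (nat_lit 589692962670) (nat_lit 0) (nat_lit 305861814881) (nat_lit 4) (nat_lit 5) (nat_lit 6) (nat_lit 4) (nat_lit 4) (nat_lit 4) (nat_lit 352) (nat_lit 316) (nat_lit 232)) (XT.nd (nat_lit 78) (nat_lit 0) (nat_lit 0) (XT.lf (nat_lit 0) (nat_lit 545519257489) (nat_lit 152) (nat_lit 390129836595) (nat_lit 0) (nat_lit 489595746363) (nat_lit 4) (nat_lit 5) (nat_lit 6) (nat_lit 4) (nat_lit 4) (nat_lit 4) (nat_lit 353) (nat_lit 316) (nat_lit 231)) (XT.lf (nat_lit 0) (nat_lit 756813077664) (nat_lit 152) (nat_lit 160632801271) (nat_lit 0) (nat_lit 700889515993) (nat_lit 4) (nat_lit 5) (nat_lit 6) (nat_lit 4) (nat_lit 4) (nat_lit 4) (nat_lit 354) (nat_lit 316) (nat_lit 230))))) (XT.nd (nat_lit 234) (nat_lit 0) (nat_lit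 0) (XT.nd (nat_lit 78) (nat_lit 0) (nat_lit 0) (XT.lf (nat_lit 0) (nat_lit 113382386811) (nat_lit 76) (nat_lit 891113273969) (nat_lit 76) (nat_lit 835189668346) (nat_lit 3) (nat_lit 4) (nat_lit 4) (nat_lit 5) (nat_lit 4) (nat_lit 4) (nat_lit 355) (nat_lit 316) (nat_lit 229)) (XT.nd (nat_lit 78) (nat_lit 0) (nat_lit 0) (XT.lf (nat_lit 0) (nat_lit 446552324980) (nat_lit 76) (nat_lit 851174799209) (nat_lit 76) (nat_lit 795251155368) (nat_lit 3) (nat_lit 4) (nat_lit 4) (nat_lit 5) (nat_lit 4) (nat_lit 4) (nat_lit 356) (nat_lit 316) (nat_lit 228)) (XT.lf (nat_lit 0) (nat_lit 829697349924) (nat_lit 76) (nat_lit 805245764328) (nat_lit 76) (nat_lit 749322087252) (nat_lit 3) (nat_lit 4) (nat_lit 4) (nat_lit 5) (nat_lit 4) (nat_lit 4) (nat_lit 357) (nat_lit 316) (nat_lit 227)))) (XT.nd (nat_lit 78) (nat_lit 0) (nat_lit 0) (XT.lf (nat_lit 0) (nat_lit 1270313777348) (nat_lit 76) (nat_lit 752427557772)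 (nat_lit 76) (nat_lit 696503851797) (nat_lit 3) (nat_lit 4) (nat_lit 4) (nat_lit 5) (nat_lit 4) (nat_lit 4) (nat_lit 358) (nat_lit 316) (nat_lit 226)) (XT.nd (nat_lit 78) (nat_lit 0) (nat_lit 0) (XT.lf (nat_lit 0) (nat_lit 1777022363441) (nat_lit 76) (nat_lit 691686779849) (nat_lit 76) (nat_lit 635763048745) (nat_lit 3) (nat_lit 4) (nat_lit 4) (nat_lit 5) (nat_lit 4) (nat_lit 4) (nat_lit 359) (nat_lit 316) (nat_lit 225)) (XT.lf (nat_lit 0) (nat_lit 2359736971844) (nat_lit 76) (nat_lit 621835024034) (nat_lit 76) (nat_lit 565911271078) (nat_lit 3) (nat_lit 4) (nat_lit 4) (nat_lit 5) (nat_lit 4) (nat_lit 4) (nat_lit 360) (nat_lit 316) (nat_lit 224))))))) (XT.nd (nat_lit 858) (nat_lit 0) (nat_lit 0) (XT.nd (nat_lit 390) (nat_lit 152) (nat_lit 0) (XT.nd (nat_lit 156) (nat_lit 0) (nat_lit 0) (XT.nd (nat_lit 78) (nat_lit 0) (nat_lit 0) (XT.lf (nat_lit 0) (nat_lit 3029858540547) (nat_lit 76) (nat_lit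 541505625539) (nat_lit 76) (nat_lit 485581853582) (nat_lit 3) (nat_lit 4) (nat_lit 4) (nat_lit 5) (nat_lit 4) (nat_lit 4) (nat_lit 361) (nat_lit 316) (nat_lit 223)) (XT.lf (nat_lit 0) (nat_lit 3800498143721) (nat_lit 76) (nat_lit 449126922221) (nat_lit 76) (nat_lit 393203133740) (nat_lit 3) (nat_lit 4) (nat_lit 4) (nat_lit 5) (nat_lit 4) (nat_lit 4) (nat_lit 362) (nat_lit 316) (nat_lit 222))) (XT.nd (nat_lit 78) (nat_lit 0) (nat_lit 0) (XT.lf (nat_lit 0) (nat_lit 4686733512733) (nat_lit 76) (nat_lit 342891504665) (nat_lit 76) (nat_lit 286967701816) (nat_lit 3) (nat_lit 4) (nat_lit 4) (nat_lit 5) (nat_lit 4) (nat_lit 4) (nat_lit 363) (nat_lit 316) (nat_lit 221)) (XT.nd (nat_lit 78) (nat_lit 0) (nat_lit 0) (XT.lf (nat_lit 0) (nat_lit 5705904035236) (nat_lit 76) (nat_lit 220720853834) (nat_lit 76) (nat_lit 164797038491) (nat_lit 3) (nat_lit 4) (nat_lit 4) (nat_lit 5) (nat_lit 4) (nat_lit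 4) (nat_lit 364) (nat_lit 316) (nat_lit 220)) (XT.lf (nat_lit 0) (nat_lit 6877950004062) (nat_lit 76) (nat_lit 80224674384) (nat_lit 76) (nat_lit 24300848177) (nat_lit 3) (nat_lit 4) (nat_lit 4) (nat_lit 5) (nat_lit 4) (nat_lit 4) (nat_lit 365) (nat_lit 316) (nat_lit 219))))) (XT.nd (nat_lit 234) (nat_lit 0) (nat_lit 0) (XT.nd (nat_lit 78) (nat_lit 0) (nat_lit 0) (XT.lf (nat_lit 0) (nat_lit 138827633806) (nat_lit 152) (nat_lit 7775241927874) (nat_lit 0) (nat_lit 90198211498) (nat_lit 1) (nat_lit 5) (nat_lit 3) (nat_lit 4) (nat_lit 1) (nat_lit 4) (nat_lit 366) (nat_lit 316) (nat_lit 218)) (XT.nd (nat_lit 78) (nat_lit 0) (nat_lit 0) (XT.lf (nat_lit 0) (nat_lit 333481626205) (nat_lit 152) (nat_lit 8559389828959) (nat_lit 0) (nat_lit 284852196754) (nat_lit 1) (nat_lit 5) (nat_lit 3) (nat_lit 4) (nat_lit 1) (nat_lit 4) (nat_lit 367) (nat_lit 316) (nat_lit 217)) (XT.lf (nat_lit 0) (nat_lit 557333667723)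 (nat_lit 152) (nat_lit 9461160020153) (nat_lit 0) (nat_lit 508704232060) (nat_lit 1) (nat_lit 5) (nat_lit 3) (nat_lit 4) (nat_lit 1) (nat_lit 4) (nat_lit 368) (nat_lit 316) (nat_lit 216)))) (XT.nd (nat_lit 78) (nat_lit 0) (nat_lit 0) (XT.lf (nat_lit 0) (nat_lit 814763472214) (nat_lit 152) (nat_lit 10498195831284) (nat_lit 0) (nat_lit 766134031150) (nat_lit 1) (nat_lit 5) (nat_lit 3) (nat_lit 4) (nat_lit 1) (nat_lit 4) (nat_lit 369) (nat_lit 316) (nat_lit 215)) (XT.nd (nat_lit 78) (nat_lit 0) (nat_lit 0) (XT.lf (nat_lit 0) (nat_lit 1110807709767) (nat_lit 152) (nat_lit 11690787093438) (nat_lit 0) (nat_lit 1062178264006) (nat_lit 1) (nat_lit 5) (nat_lit 3) (nat_lit 4) (nat_lit 1) (nat_lit 4) (nat_lit 370) (nat_lit 316) (nat_lit 214)) (XT.lf (nat_lit 0) (nat_lit 1451258550247) (nat_lit 152) (nat_lit 13062267113919) (nat_lit 0) (nat_lit 1402629100402) (nat_lit 1) (nat_lit 5) (nat_lit 3) (nat_lit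 4) (nat_lit 1) (nat_lit 4) (nat_lit 371) (nat_lit 316) (nat_lit 213)))))) (XT.nd (nat_lit 468) (nat_lit 0) (nat_lit 0) (XT.nd (nat_lit 234) (nat_lit 0) (nat_lit 0) (XT.nd (nat_lit 78) (nat_lit 0) (nat_lit 0) (XT.lf (nat_lit 0) (nat_lit 1842776988360) (nat_lit 152) (nat_lit 14639469197475) (nat_lit 0) (nat_lit 1794147534963) (nat_lit 1) (nat_lit 5) (nat_lit 3) (nat_lit 4) (nat_lit 1) (nat_lit 4) (nat_lit 372) (nat_lit 316) (nat_lit 212)) (XT.nd (nat_lit 78) (nat_lit 0) (nat_lit 0) (XT.lf (nat_lit 0) (nat_lit 2293023167458) (nat_lit 152) (nat_lit 16453251645742) (nat_lit 0) (nat_lit 2244393710973) (nat_lit 1) (nat_lit 5) (nat_lit 3) (nat_lit 4) (nat_lit 1) (nat_lit 4) (nat_lit 373) (nat_lit 316) (nat_lit 211)) (XT.lf (nat_lit 0) (nat_lit 2810806251917) (nat_lit 152) (nat_lit 18539101506619) (nat_lit 0) (nat_lit 2762176792746) (nat_lit 1) (nat_lit 5) (nat_lit 3) (nat_lit 4) (nat_lit 1) (nat_lit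 4) (nat_lit 374) (nat_lit 316) (nat_lit 210)))) (XT.nd (nat_lit 78) (nat_lit 0) (nat_lit 0) (XT.lf (nat_lit 0) (nat_lit 3406256780344) (nat_lit 152) (nat_lit 20937828886081) (nat_lit 0) (nat_lit 3357627318839) (nat_lit 1) (nat_lit 5) (nat_lit 3) (nat_lit 4) (nat_lit 1) (nat_lit 4) (nat_lit 375) (nat_lit 316) (nat_lit 209)) (XT.nd (nat_lit 78) (nat_lit 0) (nat_lit 0) (XT.lf (nat_lit 0) (nat_lit 4091024871776) (nat_lit 152) (nat_lit 23696365406770) (nat_lit 0) (nat_lit 4042395408239) (nat_lit 1) (nat_lit 5) (nat_lit 3) (nat_lit 4) (nat_lit 1) (nat_lit 4) (nat_lit 376) (nat_lit 316) (nat_lit 208)) (XT.lf (nat_lit 0) (nat_lit 4878508162782) (nat_lit 152) (nat_lit 26868682435393) (nat_lit 0) (nat_lit 4829878697479) (nat_lit 1) (nat_lit 5) (nat_lit 3) (nat_lit 4) (nat_lit 1) (nat_lit 4) (nat_lit 377) (nat_lit 316) (nat_lit 207))))) (XT.nd (nat_lit 234) (nat_lit 0) (nat_lit 0) (XT.nd (nat_lit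 78) (nat_lit 0) (nat_lit 0) (XT.lf (nat_lit 0) (nat_lit 5784113935143) (nat_lit 152) (nat_lit 30516847044252) (nat_lit 0) (nat_lit 5735484468306) (nat_lit 1) (nat_lit 5) (nat_lit 3) (nat_lit 4) (nat_lit 1) (nat_lit 4) (nat_lit 378) (nat_lit 316) (nat_lit 206)) (XT.nd (nat_lit 78) (nat_lit 0) (nat_lit 0) (XT.lf (nat_lit 0) (nat_lit 6825560562667) (nat_lit 152) (nat_lit 34712236366996) (nat_lit 0) (nat_lit 6776931094494) (nat_lit 1) (nat_lit 5) (nat_lit 3) (nat_lit 4) (nat_lit 1) (nat_lit 4) (nat_lit 379) (nat_lit 316) (nat_lit 205)) (XT.lf (nat_lit 0) (nat_lit 8023224175023) (nat_lit 152) (nat_lit 39536934107768) (nat_lit 0) (nat_lit 7974594705689) (nat_lit 1) (nat_lit 5) (nat_lit 3) (nat_lit 4) (nat_lit 1) (nat_lit 4) (nat_lit 380) (nat_lit 316) (nat_lit 204)))) (XT.nd (nat_lit 78) (nat_lit 0) (nat_lit 0) (XT.lf (nat_lit 0) (nat_lit 9400537321147) (nat_lit 152) (nat_lit 45085336526711)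 (nat_lit 0) (nat_lit 9351907850804) (nat_lit 1) (nat_lit 5) (nat_lit 3) (nat_lit 4) (nat_lit 1) (nat_lit 4) (nat_lit 381) (nat_lit 316) (nat_lit 203)) (XT.nd (nat_lit 78) (nat_lit 0) (nat_lit 0) (XT.lf (nat_lit 0) (nat_lit 10984447432160) (nat_lit 152) (nat_lit 51465999323328) (nat_lit 0) (nat_lit 10935817960939) (nat_lit 1) (nat_lit 5) (nat_lit 3) (nat_lit 4) (nat_lit 1) (nat_lit 4) (nat_lit 382) (nat_lit 316) (nat_lit 202)) (XT.lf (nat_lit 0) (nat_lit 12805944053713) (nat_lit 152) (nat_lit 58803761552335) (nat_lit 0) (nat_lit 12757314581728) (nat_lit 1) (nat_lit 5) (nat_lit 3) (nat_lit 4) (nat_lit 1) (nat_lit 4) (nat_lit 383) (nat_lit 316) (nat_lit 201))))))))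
noncomputable def xc78 : XT := (XT.nd (nat_lit 43290) (nat_lit 0) (nat_lit 152) (XT.nd (nat_lit 42432) (nat_lit 0) (nat_lit 912) (XT.nd (nat_lit 41964) (nat_lit 0) (nat_lit 1596) (XT.nd (nat_lit 41730) (nat_lit 0) (nat_lit 2052) (XT.nd (nat_lit 41652) (nat_lit 0) (nat_lit 2052) (XT.lf (nat_lit 0) (nat_lit 14900665163182) (nat_lit 152) (nat_lit 67242188126908) (nat_lit 0) (nat_lit 14852035690534) (nat_lit 1) (nat_lit 5) (nat_lit 3) (nat_lit 4) (nat_lit 1) (nat_lit 4) (nat_lit 384) (nat_lit 316) (nat_lit 200)) (XT.lf (nat_lit 0) (nat_lit 5205972718) (nat_lit 380) (nat_lit 8323077967) (nat_lit 380) (nat_lit 8323077967) (nat_lit 28) (nat_lit 3) (nat_lit 33) (nat_lit 3) (nat_lit 33) (nat_lit 5) (nat_lit 317) (nat_lit 317) (nat_lit 266))) (XT.nd (nat_lit 78) (nat_lit 0) (nat_lit 76) (XT.lf (nat_lit 76) (nat_lit 5010081013) (nat_lit 0) (nat_lit 6421742220) (nat_lit 380) (nat_lit 35514353485)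 (nat_lit 29) (nat_lit 5) (nat_lit 28) (nat_lit 3) (nat_lit 33) (nat_lit 5) (nat_lit 318) (nat_lit 317) (nat_lit 265)) (XT.nd (nat_lit 78) (nat_lit 0) (nat_lit 0) (XT.lf (nat_lit 0) (nat_lit 14227362528) (nat_lit 304) (nat_lit 19521030070) (nat_lit 380) (nat_lit 16682598837) (nat_lit 29) (nat_lit 5) (nat_lit 33) (nat_lit 5) (nat_lit 34) (nat_lit 5) (nat_lit 319) (nat_lit 317) (nat_lit 264)) (XT.lf (nat_lit 76) (nat_lit 6527716154) (nat_lit 0) (nat_lit 11485683489) (nat_lit 380) (nat_lit 36339461821) (nat_lit 30) (nat_lit 5) (nat_lit 29) (nat_lit 5) (nat_lit 34) (nat_lit 5) (nat_lit 320) (nat_lit 317) (nat_lit 263))))) (XT.nd (nat_lit 234) (nat_lit 304) (nat_lit 0) (XT.nd (nat_lit 78) (nat_lit 304) (nat_lit 0) (XT.lf (nat_lit 0) (nat_lit 24016469936) (nat_lit 304) (nat_lit 20669848258) (nat_lit 76) (nat_lit 13929331744) (nat_lit 30) (nat_lit 5) (nat_lit 34) (nat_lit 5) (nat_lit 31) (nat_lit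 5) (nat_lit 321) (nat_lit 317) (nat_lit 262)) (XT.nd (nat_lit 78) (nat_lit 0) (nat_lit 0) (XT.lf (nat_lit 0) (nat_lit 10985986606) (nat_lit 304) (nat_lit 20932020775) (nat_lit 380) (nat_lit 31450154469) (nat_lit 26) (nat_lit 5) (nat_lit 30) (nat_lit 5) (nat_lit 31) (nat_lit 5) (nat_lit 322) (nat_lit 317) (nat_lit 261)) (XT.lf (nat_lit 0) (nat_lit 42397604603) (nat_lit 380) (nat_lit 19278344451) (nat_lit 76) (nat_lit 6948682477) (nat_lit 26) (nat_lit 5) (nat_lit 31) (nat_lit 5) (nat_lit 27) (nat_lit 5) (nat_lit 323) (nat_lit 317) (nat_lit 260)))) (XT.nd (nat_lit 78) (nat_lit 152) (nat_lit 0) (XT.lf (nat_lit 0) (nat_lit 19529265277) (nat_lit 152) (nat_lit 36722262704) (nat_lit 228) (nat_lit 18147690351) (nat_lit 24) (nat_lit 5) (nat_lit 26) (nat_lit 5) (nat_lit 27) (nat_lit 5) (nat_lit 324) (nat_lit 317) (nat_lit 259)) (XT.nd (nat_lit 78) (nat_lit 152) (nat_lit 0) (XT.lf (nat_lit 0) (nat_lit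 66321142963) (nat_lit 152) (nat_lit 6867338937) (nat_lit 228) (nat_lit 7700773999) (nat_lit 24) (nat_lit 5) (nat_lit 26) (nat_lit 5) (nat_lit 27) (nat_lit 5) (nat_lit 325) (nat_lit 317) (nat_lit 258)) (XT.lf (nat_lit 0) (nat_lit 6577045558) (nat_lit 152) (nat_lit 54640115056) (nat_lit 76) (nat_lit 26711673386) (nat_lit 22) (nat_lit 5) (nat_lit 24) (nat_lit 5) (nat_lit 23) (nat_lit 5) (nat_lit 326) (nat_lit 317) (nat_lit 257)))))) (XT.nd (nat_lit 390) (nat_lit 304) (nat_lit 0) (XT.nd (nat_lit 156) (nat_lit 228) (nat_lit 0) (XT.nd (nat_lit 78) (nat_lit 152) (nat_lit 0) (XT.lf (nat_lit 0) (nat_lit 23330543401) (nat_lit 152) (nat_lit 6682234494) (nat_lit 76) (nat_lit 65788205365) (nat_lit 22) (nat_lit 5) (nat_lit 24) (nat_lit 5) (nat_lit 23) (nat_lit 5) (nat_lit 327) (nat_lit 317) (nat_lit 256)) (XT.lf (nat_lit 0) (nat_lit 45146038510) (nat_lit 228) (nat_lit 51669041753) (nat_lit 76) (nat_lit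 7656531073) (nat_lit 20) (nat_lit 5) (nat_lit 23) (nat_lit 5) (nat_lit 21) (nat_lit 4) (nat_lit 328) (nat_lit 317) (nat_lit 255))) (XT.nd (nat_lit 78) (nat_lit 152) (nat_lit 0) (XT.lf (nat_lit 0) (nat_lit 6719967869) (nat_lit 76) (nat_lit 65585306113) (nat_lit 152) (nat_lit 41826849238) (nat_lit 19) (nat_lit 5) (nat_lit 20) (nat_lit 5) (nat_lit 21) (nat_lit 4) (nat_lit 329) (nat_lit 317) (nat_lit 254)) (XT.nd (nat_lit 78) (nat_lit 152) (nat_lit 0) (XT.lf (nat_lit 0) (nat_lit 79671242223) (nat_lit 76) (nat_lit 26566210588) (nat_lit 152) (nat_lit 18599402125) (nat_lit 19) (nat_lit 5) (nat_lit 20) (nat_lit 5) (nat_lit 21) (nat_lit 4) (nat_lit 330) (nat_lit 317) (nat_lit 253)) (XT.lf (nat_lit 0) (nat_lit 9404119768) (nat_lit 152) (nat_lit 109121848469) (nat_lit 76) (nat_lit 18268819623) (nat_lit 17) (nat_lit 5) (nat_lit 19) (nat_lit 5) (nat_lit 18) (nat_lit 4) (nat_lit 331) (nat_lit 317) (nat_lit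 252))))) (XT.nd (nat_lit 234) (nat_lit 228) (nat_lit 0) (XT.nd (nat_lit 78) (nat_lit 76) (nat_lit 0) (XT.lf (nat_lit 0) (nat_lit 43440758642) (nat_lit 152) (nat_lit 35944988343) (nat_lit 76) (nat_lit 70467290035) (nat_lit 17) (nat_lit 5) (nat_lit 19) (nat_lit 5) (nat_lit 18) (nat_lit 4) (nat_lit 332) (nat_lit 317) (nat_lit 251)) (XT.nd (nat_lit 78) (nat_lit 0) (nat_lit 0) (XT.lf (nat_lit 0) (nat_lit 52916982911) (nat_lit 76) (nat_lit 31855699046) (nat_lit 152) (nat_lit 79768874306) (nat_lit 16) (nat_lit 5) (nat_lit 17) (nat_lit 5) (nat_lit 18) (nat_lit 4) (nat_lit 333) (nat_lit 317) (nat_lit 250)) (XT.lf (nat_lit 0) (nat_lit 135215719585) (nat_lit 152) (nat_lit 23039764178) (nat_lit 0) (nat_lit 22741171631) (nat_lit 16) (nat_lit 5) (nat_lit 18) (nat_lit 4) (nat_lit 16) (nat_lit 4) (nat_lit 334) (nat_lit 317) (nat_lit 249)))) (XT.nd (nat_lit 78) (nat_lit 152) (nat_lit 0) (XT.lf (nat_lit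 0) (nat_lit 84869310774) (nat_lit 76) (nat_lit 113385924030) (nat_lit 76) (nat_lit 910282053) (nat_lit 15) (nat_lit 4) (nat_lit 16) (nat_lit 5) (nat_lit 16) (nat_lit 4) (nat_lit 335) (nat_lit 317) (nat_lit 248)) (XT.nd (nat_lit 78) (nat_lit 76) (nat_lit 0) (XT.lf (nat_lit 0) (nat_lit 47438651180) (nat_lit 152) (nat_lit 10483493265) (nat_lit 76) (nat_lit 161633631612) (nat_lit 14) (nat_lit 5) (nat_lit 16) (nat_lit 5) (nat_lit 15) (nat_lit 4) (nat_lit 336) (nat_lit 317) (nat_lit 247)) (XT.lf (nat_lit 0) (nat_lit 108374061116) (nat_lit 152) (nat_lit 123242303194) (nat_lit 0) (nat_lit 10567608470) (nat_lit 13) (nat_lit 5) (nat_lit 15) (nat_lit 4) (nat_lit 13) (nat_lit 4) (nat_lit 337) (nat_lit 317) (nat_lit 246))))))) (XT.nd (nat_lit 858) (nat_lit 228) (nat_lit 0) (XT.nd (nat_lit 390) (nat_lit 304) (nat_lit 0) (XT.nd (nat_lit 156) (nat_lit 152) (nat_lit 0) (XT.nd (nat_lit 78) (nat_lit 76)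 (nat_lit 0) (XT.lf (nat_lit 0) (nat_lit 181781088526) (nat_lit 152) (nat_lit 1951604652) (nat_lit 0) (nat_lit 83974010369) (nat_lit 13) (nat_lit 5) (nat_lit 15) (nat_lit 4) (nat_lit 13) (nat_lit 4) (nat_lit 338) (nat_lit 317) (nat_lit 245)) (XT.lf (nat_lit 0) (nat_lit 150971559890) (nat_lit 76) (nat_lit 121478161870) (nat_lit 76) (nat_lit 23670539789) (nat_lit 12) (nat_lit 4) (nat_lit 13) (nat_lit 5) (nat_lit 13) (nat_lit 4) (nat_lit 339) (nat_lit 317) (nat_lit 244))) (XT.nd (nat_lit 78) (nat_lit 76) (nat_lit 0) (XT.lf (nat_lit 0) (nat_lit 43762399873) (nat_lit 152) (nat_lit 3718935328) (nat_lit 76) (nat_lit 281000957926) (nat_lit 11) (nat_lit 5) (nat_lit 13) (nat_lit 5) (nat_lit 12) (nat_lit 4) (nat_lit 340) (nat_lit 317) (nat_lit 243)) (XT.nd (nat_lit 78) (nat_lit 0) (nat_lit 0) (XT.lf (nat_lit 0) (nat_lit 128011457015) (nat_lit 152) (nat_lit 193188827117) (nat_lit 0) (nat_lit 42960581935)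 (nat_lit 10) (nat_lit 5) (nat_lit 12) (nat_lit 4) (nat_lit 10) (nat_lit 4) (nat_lit 341) (nat_lit 317) (nat_lit 242)) (XT.lf (nat_lit 0) (nat_lit 227361814344) (nat_lit 152) (nat_lit 35149191300) (nat_lit 0) (nat_lit 142310628274) (nat_lit 10) (nat_lit 5) (nat_lit 12) (nat_lit 4) (nat_lit 10) (nat_lit 4) (nat_lit 342) (nat_lit 317) (nat_lit 241))))) (XT.nd (nat_lit 234) (nat_lit 76) (nat_lit 0) (XT.nd (nat_lit 78) (nat_lit 152) (nat_lit 0) (XT.lf (nat_lit 0) (nat_lit 160921451962) (nat_lit 76) (nat_lit 187356052402) (nat_lit 76) (nat_lit 102304595906) (nat_lit 9) (nat_lit 4) (nat_lit 10) (nat_lit 5) (nat_lit 10) (nat_lit 4) (nat_lit 343) (nat_lit 317) (nat_lit 240)) (XT.nd (nat_lit 78) (nat_lit 152) (nat_lit 0) (XT.lf (nat_lit 0) (nat_lit 390351761248) (nat_lit 76) (nat_lit 98815527970) (nat_lit 76) (nat_lit 13763836322) (nat_lit 9) (nat_lit 4) (nat_lit 10) (nat_lit 5) (nat_lit 10) (nat_lit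 4) (nat_lit 344) (nat_lit 317) (nat_lit 239)) (XT.lf (nat_lit 0) (nat_lit 84678737517) (nat_lit 152) (nat_lit 466517220546) (nat_lit 0) (nat_lit 10720566970) (nat_lit 7) (nat_lit 5) (nat_lit 9) (nat_lit 4) (nat_lit 7) (nat_lit 4) (nat_lit 345) (nat_lit 317) (nat_lit 238)))) (XT.nd (nat_lit 78) (nat_lit 76) (nat_lit 0) (XT.lf (nat_lit 0) (nat_lit 207348560397) (nat_lit 152) (nat_lit 287282123167) (nat_lit 0) (nat_lit 133390235232) (nat_lit 7) (nat_lit 5) (nat_lit 9) (nat_lit 4) (nat_lit 7) (nat_lit 4) (nat_lit 346) (nat_lit 317) (nat_lit 237)) (XT.nd (nat_lit 78) (nat_lit 76) (nat_lit 0) (XT.lf (nat_lit 0) (nat_lit 348418383558) (nat_lit 152) (nat_lit 81162735188) (nat_lit 0) (nat_lit 274459923944) (nat_lit 7) (nat_lit 5) (nat_lit 9) (nat_lit 4) (nat_lit 7) (nat_lit 4) (nat_lit 347) (nat_lit 317) (nat_lit 236)) (XT.lf (nat_lit 0) (nat_lit 171106826987) (nat_lit 76) (nat_lit 346626610589)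 (nat_lit 76) (nat_lit 272668034063) (nat_lit 6) (nat_lit 4) (nat_lit 7) (nat_lit 5) (nat_lit 7) (nat_lit 4) (nat_lit 348) (nat_lit 317) (nat_lit 235)))))) (XT.nd (nat_lit 390) (nat_lit 76) (nat_lit 0) (XT.nd (nat_lit 156) (nat_lit 152) (nat_lit 0) (XT.nd (nat_lit 78) (nat_lit 0) (nat_lit 0) (XT.lf (nat_lit 0) (nat_lit 470337599697) (nat_lit 76) (nat_lit 246350356277) (nat_lit 76) (nat_lit 172391678087) (nat_lit 6) (nat_lit 4) (nat_lit 7) (nat_lit 5) (nat_lit 7) (nat_lit 4) (nat_lit 349) (nat_lit 317) (nat_lit 234)) (XT.lf (nat_lit 0) (nat_lit 814452285300) (nat_lit 76) (nat_lit 131033026616) (nat_lit 76) (nat_lit 57074260023) (nat_lit 6) (nat_lit 4) (nat_lit 7) (nat_lit 5) (nat_lit 7) (nat_lit 4) (nat_lit 350) (nat_lit 317) (nat_lit 233))) (XT.nd (nat_lit 78) (nat_lit 0) (nat_lit 0) (XT.lf (nat_lit 0) (nat_lit 72553266160) (nat_lit 152) (nat_lit 1051237160109) (nat_lit 0) (nat_lit 8241228364)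 (nat_lit 4) (nat_lit 5) (nat_lit 6) (nat_lit 4) (nat_lit 4) (nat_lit 4) (nat_lit 351) (nat_lit 317) (nat_lit 232)) (XT.nd (nat_lit 78) (nat_lit 0) (nat_lit 0) (XT.lf (nat_lit 0) (nat_lit 232322077368) (nat_lit 152) (nat_lit 877703746691) (nat_lit 0) (nat_lit 168009981446) (nat_lit 4) (nat_lit 5) (nat_lit 6) (nat_lit 4) (nat_lit 4) (nat_lit 4) (nat_lit 352) (nat_lit 317) (nat_lit 231)) (XT.lf (nat_lit 0) (nat_lit 416055942383) (nat_lit 152) (nat_lit 678140880924) (nat_lit 0) (nat_lit 351743795917) (nat_lit 4) (nat_lit 5) (nat_lit 6) (nat_lit 4) (nat_lit 4) (nat_lit 4) (nat_lit 353) (nat_lit 317) (nat_lit 230))))) (XT.nd (nat_lit 234) (nat_lit 0) (nat_lit 0) (XT.nd (nat_lit 78) (nat_lit 76) (nat_lit 0) (XT.lf (nat_lit 0) (nat_lit 627349654217) (nat_lit 152) (nat_lit 448644071956) (nat_lit 0) (nat_lit 563037463799) (nat_lit 4) (nat_lit 5) (nat_lit 6) (nat_lit 4) (nat_lit 4) (nat_lit 4) (nat_lit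 354) (nat_lit 317) (nat_lit 229)) (XT.nd (nat_lit 78) (nat_lit 76) (nat_lit 0) (XT.lf (nat_lit 0) (nat_lit 870337220274) (nat_lit 152) (nat_lit 184723164829) (nat_lit 0) (nat_lit 806024991637) (nat_lit 4) (nat_lit 5) (nat_lit 6) (nat_lit 4) (nat_lit 4) (nat_lit 4) (nat_lit 355) (nat_lit 317) (nat_lit 228)) (XT.lf (nat_lit 0) (nat_lit 130394094346) (nat_lit 76) (nat_lit 1024777992142) (nat_lit 76) (nat_lit 960465730271) (nat_lit 3) (nat_lit 4) (nat_lit 4) (nat_lit 5) (nat_lit 4) (nat_lit 4) (nat_lit 356) (nat_lit 317) (nat_lit 227)))) (XT.nd (nat_lit 78) (nat_lit 0) (nat_lit 0) (XT.lf (nat_lit 0) (nat_lit 513538955913) (nat_lit 76) (nat_lit 978849042636) (nat_lit 76) (nat_lit 914536751867) (nat_lit 3) (nat_lit 4) (nat_lit 4) (nat_lit 5) (nat_lit 4) (nat_lit 4) (nat_lit 357) (nat_lit 317) (nat_lit 226)) (XT.nd (nat_lit 78) (nat_lit 0) (nat_lit 0) (XT.lf (nat_lit 0) (nat_lit 954155241270)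 (nat_lit 76) (nat_lit 926030910321) (nat_lit 76) (nat_lit 861718594421) (nat_lit 3) (nat_lit 4) (nat_lit 4) (nat_lit 5) (nat_lit 4) (nat_lit 4) (nat_lit 358) (nat_lit 317) (nat_lit 225)) (XT.lf (nat_lit 0) (nat_lit 1460863703826) (nat_lit 76) (nat_lit 865290196954) (nat_lit 76) (nat_lit 800977859203) (nat_lit 3) (nat_lit 4) (nat_lit 4) (nat_lit 5) (nat_lit 4) (nat_lit 4) (nat_lit 359) (nat_lit 317) (nat_lit 224))))))))
noncomputable def xc79 : XT := (XT.nd (nat_lit 1716) (nat_lit 0) (nat_lit 0) (XT.nd (nat_lit 858) (nat_lit 0) (nat_lit 0) (XT.nd (nat_lit 390) (nat_lit 152) (nat_lit 0) (XT.nd (nat_lit 156) (nat_lit 0) (nat_lit 0) (XT.nd (nat_lit 78) (nat_lit 0) (nat_lit 0) (XT.lf (nat_lit 0) (nat_lit 2043578204805) (nat_lit 76) (nat_lit 795438497275) (nat_lit 76) (nat_lit 731126140523) (nat_lit 3) (nat_lit 4) (nat_lit 4) (nat_lit 5) (nat_lit 4) (nat_lit 4) (nat_lit 360) (nat_lit 317) (nat_lit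 223)) (XT.lf (nat_lit 0) (nat_lit 2713699680097) (nat_lit 76) (nat_lit 715109147595) (nat_lit 76) (nat_lit 650796774319) (nat_lit 3) (nat_lit 4) (nat_lit 4) (nat_lit 5) (nat_lit 4) (nat_lit 4) (nat_lit 361) (nat_lit 317) (nat_lit 222))) (XT.nd (nat_lit 78) (nat_lit 0) (nat_lit 0) (XT.lf (nat_lit 0) (nat_lit 3484339202044) (nat_lit 76) (nat_lit 622730486723) (nat_lit 76) (nat_lit 558418099079) (nat_lit 3) (nat_lit 4) (nat_lit 4) (nat_lit 5) (nat_lit 4) (nat_lit 4) (nat_lit 362) (nat_lit 317) (nat_lit 221)) (XT.nd (nat_lit 78) (nat_lit 0) (nat_lit 0) (XT.lf (nat_lit 0) (nat_lit 4370574500423) (nat_lit 76) (nat_lit 516495106078) (nat_lit 76) (nat_lit 452182705940) (nat_lit 3) (nat_lit 4) (nat_lit 4) (nat_lit 5) (nat_lit 4) (nat_lit 4) (nat_lit 363) (nat_lit 317) (nat_lit 220)) (XT.lf (nat_lit 0) (nat_lit 5389744961506) (nat_lit 76) (nat_lit 394324487342) (nat_lit 76) (nat_lit 330012076341)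 (nat_lit 3) (nat_lit 4) (nat_lit 4) (nat_lit 5) (nat_lit 4) (nat_lit 4) (nat_lit 364) (nat_lit 317) (nat_lit 219))))) (XT.nd (nat_lit 234) (nat_lit 0) (nat_lit 0) (XT.nd (nat_lit 78) (nat_lit 152) (nat_lit 0) (XT.lf (nat_lit 0) (nat_lit 6561790876924) (nat_lit 76) (nat_lit 253828335802) (nat_lit 76) (nat_lit 189515915353) (nat_lit 3) (nat_lit 4) (nat_lit 4) (nat_lit 5) (nat_lit 4) (nat_lit 4) (nat_lit 365) (nat_lit 317) (nat_lit 218)) (XT.nd (nat_lit 78) (nat_lit 152) (nat_lit 0) (XT.lf (nat_lit 0) (nat_lit 7909643579804) (nat_lit 76) (nat_lit 92257813710) (nat_lit 76) (nat_lit 27945385046) (nat_lit 3) (nat_lit 4) (nat_lit 4) (nat_lit 5) (nat_lit 4) (nat_lit 4) (nat_lit 366) (nat_lit 317) (nat_lit 217)) (XT.lf (nat_lit 0) (nat_lit 159652314468) (nat_lit 152) (nat_lit 8941527087056) (nat_lit 0) (nat_lit 103728457244) (nat_lit 1) (nat_lit 5) (nat_lit 3) (nat_lit 4) (nat_lit 1) (nat_lit 4)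 (nat_lit 367) (nat_lit 317) (nat_lit 216)))) (XT.nd (nat_lit 78) (nat_lit 0) (nat_lit 0) (XT.lf (nat_lit 0) (nat_lit 383504335868) (nat_lit 152) (nat_lit 9843297320696) (nat_lit 0) (nat_lit 327580473243) (nat_lit 1) (nat_lit 5) (nat_lit 3) (nat_lit 4) (nat_lit 1) (nat_lit 4) (nat_lit 368) (nat_lit 317) (nat_lit 215)) (XT.nd (nat_lit 78) (nat_lit 0) (nat_lit 0) (XT.lf (nat_lit 0) (nat_lit 640934122865) (nat_lit 152) (nat_lit 10880333168735) (nat_lit 0) (nat_lit 585010255543) (nat_lit 1) (nat_lit 5) (nat_lit 3) (nat_lit 4) (nat_lit 1) (nat_lit 4) (nat_lit 369) (nat_lit 317) (nat_lit 214)) (XT.lf (nat_lit 0) (nat_lit 936978345206) (nat_lit 152) (nat_lit 12072924462984) (nat_lit 0) (nat_lit 881054473800) (nat_lit 1) (nat_lit 5) (nat_lit 3) (nat_lit 4) (nat_lit 1) (nat_lit 4) (nat_lit 370) (nat_lit 317) (nat_lit 213)))))) (XT.nd (nat_lit 390) (nat_lit 0) (nat_lit 0) (XT.nd (nat_lit 156) (nat_lit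 0) (nat_lit 0) (XT.nd (nat_lit 78) (nat_lit 0) (nat_lit 0) (XT.lf (nat_lit 0) (nat_lit 1277429172459) (nat_lit 152) (nat_lit 13444404511373) (nat_lit 0) (nat_lit 1221505297501) (nat_lit 1) (nat_lit 5) (nat_lit 3) (nat_lit 4) (nat_lit 1) (nat_lit 4) (nat_lit 371) (nat_lit 317) (nat_lit 212)) (XT.lf (nat_lit 0) (nat_lit 1668947599068) (nat_lit 152) (nat_lit 15021606619198) (nat_lit 0) (nat_lit 1613023721022) (nat_lit 1) (nat_lit 5) (nat_lit 3) (nat_lit 4) (nat_lit 1) (nat_lit 4) (nat_lit 372) (nat_lit 317) (nat_lit 211))) (XT.nd (nat_lit 78) (nat_lit 0) (nat_lit 0) (XT.lf (nat_lit 0) (nat_lit 2119193768165) (nat_lit 152) (nat_lit 16835389088567) (nat_lit 0) (nat_lit 2063269887433) (nat_lit 1) (nat_lit 5) (nat_lit 3) (nat_lit 4) (nat_lit 1) (nat_lit 4) (nat_lit 373) (nat_lit 317) (nat_lit 210)) (XT.nd (nat_lit 78) (nat_lit 0) (nat_lit 0) (XT.lf (nat_lit 0) (nat_lit 2636976843926) (nat_lit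 152) (nat_lit 18921238967795) (nat_lit 0) (nat_lit 2581052960859) (nat_lit 1) (nat_lit 5) (nat_lit 3) (nat_lit 4) (nat_lit 1) (nat_lit 4) (nat_lit 374) (nat_lit 317) (nat_lit 209)) (XT.lf (nat_lit 0) (nat_lit 3232427364790) (nat_lit 152) (nat_lit 21319966363214) (nat_lit 0) (nat_lit 3176503479693) (nat_lit 1) (nat_lit 5) (nat_lit 3) (nat_lit 4) (nat_lit 1) (nat_lit 4) (nat_lit 375) (nat_lit 317) (nat_lit 208))))) (XT.nd (nat_lit 234) (nat_lit 0) (nat_lit 0) (XT.nd (nat_lit 78) (nat_lit 0) (nat_lit 0) (XT.lf (nat_lit 0) (nat_lit 3917195449645) (nat_lit 152) (nat_lit 24078502897777) (nat_lit 0) (nat_lit 3861271562782) (nat_lit 1) (nat_lit 5) (nat_lit 3) (nat_lit 4) (nat_lit 1) (nat_lit 4) (nat_lit 376) (nat_lit 317) (nat_lit 207)) (XT.nd (nat_lit 78) (nat_lit 0) (nat_lit 0) (XT.lf (nat_lit 0) (nat_lit 4704678734932) (nat_lit 152) (nat_lit 27250819938467) (nat_lit 0) (nat_lit 4648754846533)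 (nat_lit 1) (nat_lit 5) (nat_lit 3) (nat_lit 4) (nat_lit 1) (nat_lit 4) (nat_lit 377) (nat_lit 317) (nat_lit 206)) (XT.lf (nat_lit 0) (nat_lit 5610284502321) (nat_lit 152) (nat_lit 30898984557817) (nat_lit 0) (nat_lit 5554360612587) (nat_lit 1) (nat_lit 5) (nat_lit 3) (nat_lit 4) (nat_lit 1) (nat_lit 4) (nat_lit 378) (nat_lit 317) (nat_lit 205)))) (XT.nd (nat_lit 78) (nat_lit 0) (nat_lit 0) (XT.lf (nat_lit 0) (nat_lit 6651731125521) (nat_lit 152) (nat_lit 35094373889685) (nat_lit 0) (nat_lit 6595807234626) (nat_lit 1) (nat_lit 5) (nat_lit 3) (nat_lit 4) (nat_lit 1) (nat_lit 4) (nat_lit 379) (nat_lit 317) (nat_lit 204)) (XT.nd (nat_lit 78) (nat_lit 0) (nat_lit 0) (XT.lf (nat_lit 0) (nat_lit 7849394734116) (nat_lit 152) (nat_lit 39919071638389) (nat_lit 0) (nat_lit 7793470842212) (nat_lit 1) (nat_lit 5) (nat_lit 3) (nat_lit 4) (nat_lit 1) (nat_lit 4) (nat_lit 380) (nat_lit 317) (nat_lit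 203)) (XT.lf (nat_lit 0) (nat_lit 9226707876971) (nat_lit 152) (nat_lit 45467474064232) (nat_lit 0) (nat_lit 9170783984189) (nat_lit 1) (nat_lit 5) (nat_lit 3) (nat_lit 4) (nat_lit 1) (nat_lit 4) (nat_lit 381) (nat_lit 317) (nat_lit 202))))))) (XT.nd (nat_lit 42510) (nat_lit 0) (nat_lit 988) (XT.nd (nat_lit 42042) (nat_lit 0) (nat_lit 1748) (XT.nd (nat_lit 156) (nat_lit 0) (nat_lit 0) (XT.nd (nat_lit 78) (nat_lit 0) (nat_lit 0) (XT.lf (nat_lit 0) (nat_lit 10810617985141) (nat_lit 152) (nat_lit 51848136866847) (nat_lit 0) (nat_lit 10754694091595) (nat_lit 1) (nat_lit 5) (nat_lit 3) (nat_lit 4) (nat_lit 1) (nat_lit 4) (nat_lit 382) (nat_lit 317) (nat_lit 201)) (XT.lf (nat_lit 0) (nat_lit 12632114604221) (nat_lit 152) (nat_lit 59185899101071) (nat_lit 0) (nat_lit 12576190710011) (nat_lit 1) (nat_lit 5) (nat_lit 3) (nat_lit 4) (nat_lit 1) (nat_lit 4) (nat_lit 383) (nat_lit 317) (nat_lit 200)))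 (XT.nd (nat_lit 41730) (nat_lit 0) (nat_lit 2052) (XT.lf (nat_lit 0) (nat_lit 14726835711540) (nat_lit 152) (nat_lit 67624325680180) (nat_lit 0) (nat_lit 14670911816753) (nat_lit 1) (nat_lit 5) (nat_lit 3) (nat_lit 4) (nat_lit 1) (nat_lit 4) (nat_lit 384) (nat_lit 317) (nat_lit 199)) (XT.nd (nat_lit 78) (nat_lit 0) (nat_lit 0) (XT.lf (nat_lit 0) (nat_lit 6017088357) (nat_lit 380) (nat_lit 9554138105) (nat_lit 380) (nat_lit 9554138105) (nat_lit 28) (nat_lit 3) (nat_lit 33) (nat_lit 3) (nat_lit 33) (nat_lit 5) (nat_lit 318) (nat_lit 318) (nat_lit 264)) (XT.lf (nat_lit 76) (nat_lit 5794814320) (nat_lit 0) (nat_lit 7405714069) (nat_lit 380) (nat_lit 40779397393) (nat_lit 29) (nat_lit 5) (nat_lit 28) (nat_lit 3) (nat_lit 33) (nat_lit 5) (nat_lit 319) (nat_lit 318) (nat_lit 263))))) (XT.nd (nat_lit 234) (nat_lit 380) (nat_lit 0) (XT.nd (nat_lit 78) (nat_lit 0) (nat_lit 0) (XT.lf (nat_lit 0)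 (nat_lit 16407618292) (nat_lit 304) (nat_lit 22412440079) (nat_lit 380) (nat_lit 19168582816) (nat_lit 29) (nat_lit 5) (nat_lit 33) (nat_lit 5) (nat_lit 34) (nat_lit 5) (nat_lit 320) (nat_lit 318) (nat_lit 262)) (XT.nd (nat_lit 78) (nat_lit 0) (nat_lit 76) (XT.lf (nat_lit 76) (nat_lit 7541947874) (nat_lit 0) (nat_lit 13215045706) (nat_lit 380) (nat_lit 41742493195) (nat_lit 30) (nat_lit 5) (nat_lit 29) (nat_lit 5) (nat_lit 34) (nat_lit 5) (nat_lit 321) (nat_lit 318) (nat_lit 261)) (XT.lf (nat_lit 0) (nat_lit 27654866025) (nat_lit 304) (nat_lit 23734110055) (nat_lit 76) (nat_lit 16013574849) (nat_lit 30) (nat_lit 5) (nat_lit 34) (nat_lit 5) (nat_lit 31) (nat_lit 5) (nat_lit 322) (nat_lit 318) (nat_lit 260)))) (XT.nd (nat_lit 78) (nat_lit 152) (nat_lit 0) (XT.lf (nat_lit 0) (nat_lit 12668453882) (nat_lit 304) (nat_lit 24069925698) (nat_lit 380) (nat_lit 36130055745) (nat_lit 26) (nat_lit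 5) (nat_lit 30) (nat_lit 5) (nat_lit 31) (nat_lit 5) (nat_lit 323) (nat_lit 318) (nat_lit 259)) (XT.nd (nat_lit 78) (nat_lit 152) (nat_lit 0) (XT.lf (nat_lit 0) (nat_lit 48785723285) (nat_lit 380) (nat_lit 22135799173) (nat_lit 76) (nat_lit 7992488503) (nat_lit 26) (nat_lit 5) (nat_lit 31) (nat_lit 5) (nat_lit 27) (nat_lit 5) (nat_lit 324) (nat_lit 318) (nat_lit 258)) (XT.lf (nat_lit 0) (nat_lit 22491393062) (nat_lit 152) (nat_lit 42223983198) (nat_lit 228) (nat_lit 20839769047) (nat_lit 24) (nat_lit 5) (nat_lit 26) (nat_lit 5) (nat_lit 27) (nat_lit 5) (nat_lit 325) (nat_lit 318) (nat_lit 257)))))) (XT.nd (nat_lit 468) (nat_lit 380) (nat_lit 0) (XT.nd (nat_lit 234) (nat_lit 228) (nat_lit 0) (XT.nd (nat_lit 78) (nat_lit 152) (nat_lit 0) (XT.lf (nat_lit 0) (nat_lit 76297782229) (nat_lit 152) (nat_lit 7891684202) (nat_lit 228) (nat_lit 8829738049) (nat_lit 24) (nat_lit 5) (nat_lit 26) (nat_lit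 5) (nat_lit 27) (nat_lit 5) (nat_lit 326) (nat_lit 318) (nat_lit 256)) (XT.nd (nat_lit 78) (nat_lit 0) (nat_lit 0) (XT.lf (nat_lit 0) (nat_lit 7585847217) (nat_lit 152) (nat_lit 62803703675) (nat_lit 76) (nat_lit 30725246555) (nat_lit 22) (nat_lit 5) (nat_lit 24) (nat_lit 5) (nat_lit 23) (nat_lit 5) (nat_lit 327) (nat_lit 318) (nat_lit 255)) (XT.lf (nat_lit 0) (nat_lit 26849468238) (nat_lit 152) (nat_lit 7656370851) (nat_lit 76) (nat_lit 75662368483) (nat_lit 22) (nat_lit 5) (nat_lit 24) (nat_lit 5) (nat_lit 23) (nat_lit 5) (nat_lit 328) (nat_lit 318) (nat_lit 254)))) (XT.nd (nat_lit 78) (nat_lit 76) (nat_lit 0) (XT.lf (nat_lit 0) (nat_lit 51936251082) (nat_lit 228) (nat_lit 59390143819) (nat_lit 76) (nat_lit 8813193267) (nat_lit 20) (nat_lit 5) (nat_lit 23) (nat_lit 5) (nat_lit 21) (nat_lit 4) (nat_lit 329) (nat_lit 318) (nat_lit 253)) (XT.nd (nat_lit 78) (nat_lit 0) (nat_lit 0) (XT.lf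 (nat_lit 0) (nat_lit 7755887511) (nat_lit 76) (nat_lit 75412252814) (nat_lit 152) (nat_lit 48081223702) (nat_lit 19) (nat_lit 5) (nat_lit 20) (nat_lit 5) (nat_lit 21) (nat_lit 4) (nat_lit 330) (nat_lit 318) (nat_lit 252)) (XT.lf (nat_lit 0) (nat_lit 91646210696) (nat_lit 76) (nat_lit 30541708075) (nat_lit 152) (nat_lit 21372222946) (nat_lit 19) (nat_lit 5) (nat_lit 20) (nat_lit 5) (nat_lit 21) (nat_lit 4) (nat_lit 331) (nat_lit 318) (nat_lit 251))))) (XT.nd (nat_lit 234) (nat_lit 152) (nat_lit 0) (XT.nd (nat_lit 78) (nat_lit 76) (nat_lit 0) (XT.lf (nat_lit 0) (nat_lit 10829713165) (nat_lit 152) (nat_lit 125463706362) (nat_lit 76) (nat_lit 21018329419) (nat_lit 17) (nat_lit 5) (nat_lit 19) (nat_lit 5) (nat_lit 18) (nat_lit 4) (nat_lit 332) (nat_lit 318) (nat_lit 250)) (XT.nd (nat_lit 78) (nat_lit 76) (nat_lit 0) (XT.lf (nat_lit 0) (nat_lit 49969894554) (nat_lit 152) (nat_lit 41313763223)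 (nat_lit 76) (nat_lit 81045372107) (nat_lit 17) (nat_lit 5) (nat_lit 19) (nat_lit 5) (nat_lit 18) (nat_lit 4) (nat_lit 333) (nat_lit 318) (nat_lit 249)) (XT.lf (nat_lit 0) (nat_lit 60876459475) (nat_lit 76) (nat_lit 36624356393) (nat_lit 152) (nat_lit 91720130944) (nat_lit 16) (nat_lit 5) (nat_lit 17) (nat_lit 5) (nat_lit 18) (nat_lit 4) (nat_lit 334) (nat_lit 318) (nat_lit 248)))) (XT.nd (nat_lit 78) (nat_lit 152) (nat_lit 0) (XT.lf (nat_lit 0) (nat_lit 155509062887) (nat_lit 152) (nat_lit 26475406661) (nat_lit 0) (nat_lit 26160029264) (nat_lit 16) (nat_lit 5) (nat_lit 18) (nat_lit 4) (nat_lit 16) (nat_lit 4) (nat_lit 335) (nat_lit 318) (nat_lit 247)) (XT.nd (nat_lit 78) (nat_lit 76) (nat_lit 0) (XT.lf (nat_lit 0) (nat_lit 97619105800) (nat_lit 76) (nat_lit 130384769963) (nat_lit 76) (nat_lit 1034909100) (nat_lit 15) (nat_lit 4) (nat_lit 16) (nat_lit 5) (nat_lit 16) (nat_lit 4) (nat_lit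 336) (nat_lit 318) (nat_lit 246)) (XT.lf (nat_lit 0) (nat_lit 54563887537) (nat_lit 152) (nat_lit 12038221996) (nat_lit 76) (nat_lit 185885612471) (nat_lit 14) (nat_lit 5) (nat_lit 16) (nat_lit 5) (nat_lit 15) (nat_lit 4) (nat_lit 337) (nat_lit 318) (nat_lit 245))))))))
noncomputable def xc80 : XT := (XT.nd (nat_lit 1716) (nat_lit 152) (nat_lit 0) (XT.nd (nat_lit 858) (nat_lit 304) (nat_lit 0) (XT.nd (nat_lit 390) (nat_lit 228) (nat_lit 0) (XT.nd (nat_lit 156) (nat_lit 228) (nat_lit 0) (XT.nd (nat_lit 78) (nat_lit 0) (nat_lit 0) (XT.lf (nat_lit 0) (nat_lit 124639415589) (nat_lit 152) (nat_lit 141710655989) (nat_lit 0) (nat_lit 12160106273) (nat_lit 13) (nat_lit 5) (nat_lit 15) (nat_lit 4) (nat_lit 13) (nat_lit 4) (nat_lit 338) (nat_lit 318) (nat_lit 244)) (XT.lf (nat_lit 0) (nat_lit 209056291201) (nat_lit 152) (nat_lit 2228699538) (nat_lit 0) (nat_lit 96576508908) (nat_lit 13) (nat_lit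 5) (nat_lit 15) (nat_lit 4) (nat_lit 13) (nat_lit 4) (nat_lit 339) (nat_lit 318) (nat_lit 243))) (XT.nd (nat_lit 78) (nat_lit 152) (nat_lit 0) (XT.lf (nat_lit 0) (nat_lit 173632228513) (nat_lit 76) (nat_lit 139692560702) (nat_lit 76) (nat_lit 27212367125) (nat_lit 12) (nat_lit 4) (nat_lit 13) (nat_lit 5) (nat_lit 13) (nat_lit 4) (nat_lit 340) (nat_lit 318) (nat_lit 242)) (XT.nd (nat_lit 78) (nat_lit 76) (nat_lit 0) (XT.lf (nat_lit 0) (nat_lit 50333694049) (nat_lit 152) (nat_lit 4263109009) (nat_lit 76) (nat_lit 323156791594) (nat_lit 11) (nat_lit 5) (nat_lit 13) (nat_lit 5) (nat_lit 12) (nat_lit 4) (nat_lit 341) (nat_lit 318) (nat_lit 241)) (XT.lf (nat_lit 0) (nat_lit 147220013620) (nat_lit 152) (nat_lit 222153386410) (nat_lit 0) (nat_lit 49410568224) (nat_lit 10) (nat_lit 5) (nat_lit 12) (nat_lit 4) (nat_lit 10) (nat_lit 4) (nat_lit 342) (nat_lit 318) (nat_lit 240))))) (XT.nd (nat_lit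 234) (nat_lit 152) (nat_lit 0) (XT.nd (nat_lit 78) (nat_lit 76) (nat_lit 0) (XT.lf (nat_lit 0) (nat_lit 261472032629) (nat_lit 152) (nat_lit 40409600626) (nat_lit 0) (nat_lit 163662352080) (nat_lit 10) (nat_lit 5) (nat_lit 12) (nat_lit 4) (nat_lit 10) (nat_lit 4) (nat_lit 343) (nat_lit 318) (nat_lit 239)) (XT.nd (nat_lit 78) (nat_lit 0) (nat_lit 0) (XT.lf (nat_lit 0) (nat_lit 185071095064) (nat_lit 76) (nat_lit 215453678604) (nat_lit 76) (nat_lit 117643793574) (nat_lit 9) (nat_lit 4) (nat_lit 10) (nat_lit 5) (nat_lit 10) (nat_lit 4) (nat_lit 344) (nat_lit 318) (nat_lit 238)) (XT.lf (nat_lit 0) (nat_lit 448914460484) (nat_lit 76) (nat_lit 113632829637) (nat_lit 76) (nat_lit 15822766797) (nat_lit 9) (nat_lit 4) (nat_lit 10) (nat_lit 5) (nat_lit 10) (nat_lit 4) (nat_lit 345) (nat_lit 318) (nat_lit 237)))) (XT.nd (nat_lit 78) (nat_lit 0) (nat_lit 0) (XT.lf (nat_lit 0) (nat_lit 97385642764)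 (nat_lit 152) (nat_lit 536484316072) (nat_lit 0) (nat_lit 12333279758) (nat_lit 7) (nat_lit 5) (nat_lit 9) (nat_lit 4) (nat_lit 7) (nat_lit 4) (nat_lit 346) (nat_lit 318) (nat_lit 236)) (XT.nd (nat_lit 78) (nat_lit 0) (nat_lit 0) (XT.lf (nat_lit 0) (nat_lit 238455274560) (nat_lit 152) (nat_lit 330365322028) (nat_lit 0) (nat_lit 153402794641) (nat_lit 7) (nat_lit 5) (nat_lit 9) (nat_lit 4) (nat_lit 7) (nat_lit 4) (nat_lit 347) (nat_lit 318) (nat_lit 235)) (XT.lf (nat_lit 0) (nat_lit 400684993355) (nat_lit 152) (nat_lit 93329215367) (nat_lit 0) (nat_lit 315632411774) (nat_lit 7) (nat_lit 5) (nat_lit 9) (nat_lit 4) (nat_lit 7) (nat_lit 4) (nat_lit 348) (nat_lit 318) (nat_lit 234)))))) (XT.nd (nat_lit 390) (nat_lit 76) (nat_lit 0) (XT.nd (nat_lit 156) (nat_lit 152) (nat_lit 0) (XT.nd (nat_lit 78) (nat_lit 0) (nat_lit 0) (XT.lf (nat_lit 0) (nat_lit 196780420676) (nat_lit 76) (nat_lit 398616695775)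 (nat_lit 76) (nat_lit 313564025791) (nat_lit 6) (nat_lit 4) (nat_lit 7) (nat_lit 5) (nat_lit 7) (nat_lit 4) (nat_lit 349) (nat_lit 318) (nat_lit 233)) (XT.lf (nat_lit 0) (nat_lit 540894821947) (nat_lit 76) (nat_lit 283299512847) (nat_lit 76) (nat_lit 198246765990) (nat_lit 6) (nat_lit 4) (nat_lit 7) (nat_lit 5) (nat_lit 7) (nat_lit 4) (nat_lit 350) (nat_lit 318) (nat_lit 232))) (XT.nd (nat_lit 78) (nat_lit 152) (nat_lit 0) (XT.lf (nat_lit 0) (nat_lit 936625851831) (nat_lit 76) (nat_lit 150685026806) (nat_lit 76) (nat_lit 65632213105) (nat_lit 6) (nat_lit 4) (nat_lit 7) (nat_lit 5) (nat_lit 7) (nat_lit 4) (nat_lit 351) (nat_lit 318) (nat_lit 231)) (XT.nd (nat_lit 78) (nat_lit 0) (nat_lit 0) (XT.lf (nat_lit 0) (nat_lit 83439140403) (nat_lit 152) (nat_lit 1208916707978) (nat_lit 0) (nat_lit 9480121422) (nat_lit 4) (nat_lit 5) (nat_lit 6) (nat_lit 4) (nat_lit 4) (nat_lit 4) (nat_lit 352) (nat_lit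 318) (nat_lit 230)) (XT.lf (nat_lit 0) (nat_lit 267172897077) (nat_lit 152) (nat_lit 1009354068566) (nat_lit 0) (nat_lit 193213834144) (nat_lit 4) (nat_lit 5) (nat_lit 6) (nat_lit 4) (nat_lit 4) (nat_lit 4) (nat_lit 353) (nat_lit 318) (nat_lit 229))))) (XT.nd (nat_lit 234) (nat_lit 76) (nat_lit 0) (XT.nd (nat_lit 78) (nat_lit 0) (nat_lit 0) (XT.lf (nat_lit 0) (nat_lit 478466514701) (nat_lit 152) (nat_lit 779857456429) (nat_lit 0) (nat_lit 404507413549) (nat_lit 4) (nat_lit 5) (nat_lit 6) (nat_lit 4) (nat_lit 4) (nat_lit 4) (nat_lit 354) (nat_lit 318) (nat_lit 228)) (XT.nd (nat_lit 78) (nat_lit 0) (nat_lit 0) (XT.lf (nat_lit 0) (nat_lit 721453998836) (nat_lit 152) (nat_lit 515936720460) (nat_lit 0) (nat_lit 647494864451) (nat_lit 4) (nat_lit 5) (nat_lit 6) (nat_lit 4) (nat_lit 4) (nat_lit 4) (nat_lit 355) (nat_lit 318) (nat_lit 227)) (XT.lf (nat_lit 0) (nat_lit 1000889452434) (nat_lit 152)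 (nat_lit 212428194084) (nat_lit 0) (nat_lit 926930289150) (nat_lit 4) (nat_lit 5) (nat_lit 6) (nat_lit 4) (nat_lit 4) (nat_lit 4) (nat_lit 356) (nat_lit 318) (nat_lit 226)))) (XT.nd (nat_lit 78) (nat_lit 0) (nat_lit 0) (XT.lf (nat_lit 0) (nat_lit 149956497356) (nat_lit 76) (nat_lit 1178492972308) (nat_lit 76) (nat_lit 1104533783894) (nat_lit 3) (nat_lit 4) (nat_lit 4) (nat_lit 5) (nat_lit 4) (nat_lit 4) (nat_lit 357) (nat_lit 318) (nat_lit 225)) (XT.nd (nat_lit 78) (nat_lit 0) (nat_lit 0) (XT.lf (nat_lit 0) (nat_lit 590572659176) (nat_lit 76) (nat_lit 1125674904549) (nat_lit 76) (nat_lit 1051715694283) (nat_lit 3) (nat_lit 4) (nat_lit 4) (nat_lit 5) (nat_lit 4) (nat_lit 4) (nat_lit 358) (nat_lit 318) (nat_lit 224)) (XT.lf (nat_lit 0) (nat_lit 1097281014309) (nat_lit 76) (nat_lit 1064934247318) (nat_lit 76) (nat_lit 990975018051) (nat_lit 3) (nat_lit 4) (nat_lit 4) (nat_lit 5) (nat_lit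 4) (nat_lit 4) (nat_lit 359) (nat_lit 318) (nat_lit 223))))))) (XT.nd (nat_lit 858) (nat_lit 0) (nat_lit 0) (XT.nd (nat_lit 390) (nat_lit 152) (nat_lit 0) (XT.nd (nat_lit 156) (nat_lit 0) (nat_lit 0) (XT.nd (nat_lit 78) (nat_lit 0) (nat_lit 0) (XT.lf (nat_lit 0) (nat_lit 1679995421877) (nat_lit 76) (nat_lit 995082596453) (nat_lit 76) (nat_lit 921123350663) (nat_lit 3) (nat_lit 4) (nat_lit 4) (nat_lit 5) (nat_lit 4) (nat_lit 4) (nat_lit 360) (nat_lit 318) (nat_lit 222)) (XT.lf (nat_lit 0) (nat_lit 2350116815941) (nat_lit 76) (nat_lit 914753289220) (nat_lit 76) (nat_lit 840794029061) (nat_lit 3) (nat_lit 4) (nat_lit 4) (nat_lit 5) (nat_lit 4) (nat_lit 4) (nat_lit 361) (nat_lit 318) (nat_lit 221))) (XT.nd (nat_lit 78) (nat_lit 0) (nat_lit 0) (XT.lf (nat_lit 0) (nat_lit 3120756267255) (nat_lit 76) (nat_lit 822374665258) (nat_lit 76) (nat_lit 748415392606) (nat_lit 3) (nat_lit 4) (nat_lit 4)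 (nat_lit 5) (nat_lit 4) (nat_lit 4) (nat_lit 362) (nat_lit 318) (nat_lit 220)) (XT.nd (nat_lit 78) (nat_lit 0) (nat_lit 0) (XT.lf (nat_lit 0) (nat_lit 4006991504214) (nat_lit 76) (nat_lit 716139316709) (nat_lit 76) (nat_lit 642180033193) (nat_lit 3) (nat_lit 4) (nat_lit 4) (nat_lit 5) (nat_lit 4) (nat_lit 4) (nat_lit 363) (nat_lit 318) (nat_lit 219)) (XT.lf (nat_lit 0) (nat_lit 5026161911889) (nat_lit 76) (nat_lit 593968725883) (nat_lit 76) (nat_lit 520009432920) (nat_lit 3) (nat_lit 4) (nat_lit 4) (nat_lit 5) (nat_lit 4) (nat_lit 4) (nat_lit 364) (nat_lit 318) (nat_lit 218))))) (XT.nd (nat_lit 234) (nat_lit 152) (nat_lit 0) (XT.nd (nat_lit 78) (nat_lit 0) (nat_lit 0) (XT.lf (nat_lit 0) (nat_lit 6198207780865) (nat_lit 76) (nat_lit 453472598612) (nat_lit 76) (nat_lit 379513297434) (nat_lit 3) (nat_lit 4) (nat_lit 4) (nat_lit 5) (nat_lit 4) (nat_lit 4) (nat_lit 365) (nat_lit 318) (nat_lit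 217)) (XT.nd (nat_lit 78) (nat_lit 0) (nat_lit 0) (XT.lf (nat_lit 0) (nat_lit 7546060443361) (nat_lit 76) (nat_lit 291902097623) (nat_lit 76) (nat_lit 217942789302) (nat_lit 3) (nat_lit 4) (nat_lit 4) (nat_lit 5) (nat_lit 4) (nat_lit 4) (nat_lit 366) (nat_lit 318) (nat_lit 216)) (XT.lf (nat_lit 0) (nat_lit 9096090929730) (nat_lit 76) (nat_lit 106096060941) (nat_lit 76) (nat_lit 32136746407) (nat_lit 3) (nat_lit 4) (nat_lit 4) (nat_lit 5) (nat_lit 4) (nat_lit 4) (nat_lit 367) (nat_lit 318) (nat_lit 215)))) (XT.nd (nat_lit 78) (nat_lit 0) (nat_lit 0) (XT.lf (nat_lit 0) (nat_lit 183600566623) (nat_lit 152) (nat_lit 10282755295673) (nat_lit 0) (nat_lit 119288114506) (nat_lit 1) (nat_lit 5) (nat_lit 3) (nat_lit 4) (nat_lit 1) (nat_lit 4) (nat_lit 368) (nat_lit 318) (nat_lit 214)) (XT.nd (nat_lit 78) (nat_lit 0) (nat_lit 0) (XT.lf (nat_lit 0) (nat_lit 441030338408) (nat_lit 152) (nat_lit 11319791175807)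 (nat_lit 0) (nat_lit 376717882207) (nat_lit 1) (nat_lit 5) (nat_lit 3) (nat_lit 4) (nat_lit 1) (nat_lit 4) (nat_lit 369) (nat_lit 318) (nat_lit 213)) (XT.lf (nat_lit 0) (nat_lit 737074547522) (nat_lit 152) (nat_lit 12512382497965) (nat_lit 0) (nat_lit 672762087769) (nat_lit 1) (nat_lit 5) (nat_lit 3) (nat_lit 4) (nat_lit 1) (nat_lit 4) (nat_lit 370) (nat_lit 318) (nat_lit 212)))))) (XT.nd (nat_lit 390) (nat_lit 0) (nat_lit 0) (XT.nd (nat_lit 156) (nat_lit 0) (nat_lit 0) (XT.nd (nat_lit 78) (nat_lit 0) (nat_lit 0) (XT.lf (nat_lit 0) (nat_lit 1077525363271) (nat_lit 152) (nat_lit 13883862570622) (nat_lit 0) (nat_lit 1013212900430) (nat_lit 1) (nat_lit 5) (nat_lit 3) (nat_lit 4) (nat_lit 1) (nat_lit 4) (nat_lit 371) (nat_lit 318) (nat_lit 211)) (XT.lf (nat_lit 0) (nat_lit 1469043779879) (nat_lit 152) (nat_lit 15461064699550) (nat_lit 0) (nat_lit 1404731314352) (nat_lit 1) (nat_lit 5) (nat_lit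 3) (nat_lit 4) (nat_lit 1) (nat_lit 4) (nat_lit 372) (nat_lit 318) (nat_lit 210))) (XT.nd (nat_lit 78) (nat_lit 0) (nat_lit 0) (XT.lf (nat_lit 0) (nat_lit 1919289940278) (nat_lit 152) (nat_lit 17274847187269) (nat_lit 0) (nat_lit 1854977472416) (nat_lit 1) (nat_lit 5) (nat_lit 3) (nat_lit 4) (nat_lit 1) (nat_lit 4) (nat_lit 373) (nat_lit 318) (nat_lit 209)) (XT.nd (nat_lit 78) (nat_lit 0) (nat_lit 0) (XT.lf (nat_lit 0) (nat_lit 2437073008476) (nat_lit 152) (nat_lit 19360697082454) (nat_lit 0) (nat_lit 2372760538583) (nat_lit 1) (nat_lit 5) (nat_lit 3) (nat_lit 4) (nat_lit 1) (nat_lit 4) (nat_lit 374) (nat_lit 318) (nat_lit 208)) (XT.lf (nat_lit 0) (nat_lit 3032523522763) (nat_lit 152) (nat_lit 21759424491748) (nat_lit 0) (nat_lit 2968211051105) (nat_lit 1) (nat_lit 5) (nat_lit 3) (nat_lit 4) (nat_lit 1) (nat_lit 4) (nat_lit 375) (nat_lit 318) (nat_lit 207))))) (XT.nd (nat_lit 234) (nat_lit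 0) (nat_lit 0) (XT.nd (nat_lit 78) (nat_lit 0) (nat_lit 0) (XT.lf (nat_lit 0) (nat_lit 3717291601899) (nat_lit 152) (nat_lit 24517961038377) (nat_lit 0) (nat_lit 3652979128705) (nat_lit 1) (nat_lit 5) (nat_lit 3) (nat_lit 4) (nat_lit 1) (nat_lit 4) (nat_lit 376) (nat_lit 318) (nat_lit 206)) (XT.nd (nat_lit 78) (nat_lit 0) (nat_lit 0) (XT.lf (nat_lit 0) (nat_lit 4504774882213) (nat_lit 152) (nat_lit 27690278089558) (nat_lit 0) (nat_lit 4440462407685) (nat_lit 1) (nat_lit 5) (nat_lit 3) (nat_lit 4) (nat_lit 1) (nat_lit 4) (nat_lit 377) (nat_lit 318) (nat_lit 205)) (XT.lf (nat_lit 0) (nat_lit 5410380645278) (nat_lit 152) (nat_lit 31338442718032) (nat_lit 0) (nat_lit 5346068169588) (nat_lit 1) (nat_lit 5) (nat_lit 3) (nat_lit 4) (nat_lit 1) (nat_lit 4) (nat_lit 378) (nat_lit 318) (nat_lit 204)))) (XT.nd (nat_lit 78) (nat_lit 0) (nat_lit 0) (XT.lf (nat_lit 0) (nat_lit 6451827264718) (nat_lit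 152) (nat_lit 35533832057833) (nat_lit 0) (nat_lit 6387514788018) (nat_lit 1) (nat_lit 5) (nat_lit 3) (nat_lit 4) (nat_lit 1) (nat_lit 4) (nat_lit 379) (nat_lit 318) (nat_lit 203)) (XT.nd (nat_lit 78) (nat_lit 0) (nat_lit 0) (XT.lf (nat_lit 0) (nat_lit 7649490870043) (nat_lit 152) (nat_lit 40358529813436) (nat_lit 0) (nat_lit 7585178392466) (nat_lit 1) (nat_lit 5) (nat_lit 3) (nat_lit 4) (nat_lit 1) (nat_lit 4) (nat_lit 380) (nat_lit 318) (nat_lit 202)) (XT.lf (nat_lit 0) (nat_lit 9026804010055) (nat_lit 152) (nat_lit 45906932245277) (nat_lit 0) (nat_lit 8962491531714) (nat_lit 1) (nat_lit 5) (nat_lit 3) (nat_lit 4) (nat_lit 1) (nat_lit 4) (nat_lit 381) (nat_lit 318) (nat_lit 201))))))))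
noncomputable def xc81 : XT := (XT.nd (nat_lit 43290) (nat_lit 0) (nat_lit 228) (XT.nd (nat_lit 42432) (nat_lit 0) (nat_lit 1140) (XT.nd (nat_lit 41964) (nat_lit 0) (nat_lit 1900) (XT.nd (nat_lit 156) (nat_lit 0) (nat_lit 0) (XT.nd (nat_lit 78) (nat_lit 0) (nat_lit 0) (XT.lf (nat_lit 0) (nat_lit 10610714115752) (nat_lit 152) (nat_lit 52287595053109) (nat_lit 0) (nat_lit 10546401636748) (nat_lit 1) (nat_lit 5) (nat_lit 3) (nat_lit 4) (nat_lit 1) (nat_lit 4) (nat_lit 382) (nat_lit 318) (nat_lit 200)) (XT.lf (nat_lit 0) (nat_lit 12432210732682) (nat_lit 152) (nat_lit 59625357291868) (nat_lit 0) (nat_lit 12367898253100) (nat_lit 1) (nat_lit 5) (nat_lit 3) (nat_lit 4) (nat_lit 1) (nat_lit 4) (nat_lit 383) (nat_lit 318) (nat_lit 199))) (XT.nd (nat_lit 78) (nat_lit 0) (nat_lit 0) (XT.lf (nat_lit 0) (nat_lit 14526931838132) (nat_lit 152) (nat_lit 68063783874922) (nat_lit 0) (nat_lit 14462619358048)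 (nat_lit 1) (nat_lit 5) (nat_lit 3) (nat_lit 4) (nat_lit 1) (nat_lit 4) (nat_lit 384) (nat_lit 318) (nat_lit 198)) (XT.nd (nat_lit 78) (nat_lit 0) (nat_lit 0) (XT.lf (nat_lit 0) (nat_lit 16935861105905) (nat_lit 152) (nat_lit 77767974452807) (nat_lit 0) (nat_lit 16871548625384) (nat_lit 1) (nat_lit 5) (nat_lit 3) (nat_lit 4) (nat_lit 1) (nat_lit 4) (nat_lit 385) (nat_lit 318) (nat_lit 197)) (XT.lf (nat_lit 0) (nat_lit 19706129760804) (nat_lit 152) (nat_lit 88927793623787) (nat_lit 0) (nat_lit 19641817279904) (nat_lit 1) (nat_lit 5) (nat_lit 3) (nat_lit 4) (nat_lit 1) (nat_lit 4) (nat_lit 386) (nat_lit 318) (nat_lit 196))))) (XT.nd (nat_lit 234) (nat_lit 152) (nat_lit 0) (XT.nd (nat_lit 78) (nat_lit 0) (nat_lit 0) (XT.lf (nat_lit 0) (nat_lit 6942502068) (nat_lit 380) (nat_lit 10974100744) (nat_lit 380) (nat_lit 10974100744) (nat_lit 28) (nat_lit 3) (nat_lit 33) (nat_lit 3) (nat_lit 33)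 (nat_lit 5) (nat_lit 319) (nat_lit 319) (nat_lit 262)) (XT.nd (nat_lit 78) (nat_lit 0) (nat_lit 76) (XT.lf (nat_lit 76) (nat_lit 6689156434) (nat_lit 0) (nat_lit 8532231305) (nat_lit 380) (nat_lit 46849343588) (nat_lit 29) (nat_lit 5) (nat_lit 28) (nat_lit 3) (nat_lit 33) (nat_lit 5) (nat_lit 320) (nat_lit 319) (nat_lit 261)) (XT.lf (nat_lit 0) (nat_lit 18903658113) (nat_lit 304) (nat_lit 25746521968) (nat_lit 380) (nat_lit 22031465062) (nat_lit 29) (nat_lit 5) (nat_lit 33) (nat_lit 5) (nat_lit 34) (nat_lit 5) (nat_lit 321) (nat_lit 319) (nat_lit 260)))) (XT.nd (nat_lit 78) (nat_lit 228) (nat_lit 0) (XT.lf (nat_lit 76) (nat_lit 8699761263) (nat_lit 0) (nat_lit 15202224826) (nat_lit 380) (nat_lit 47967657044) (nat_lit 30) (nat_lit 5) (nat_lit 29) (nat_lit 5) (nat_lit 34) (nat_lit 5) (nat_lit 322) (nat_lit 319) (nat_lit 259)) (XT.nd (nat_lit 78) (nat_lit 304) (nat_lit 0) (XT.lf (nat_lit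 0) (nat_lit 31830260843) (nat_lit 304) (nat_lit 27266842487) (nat_lit 76) (nat_lit 18411711903) (nat_lit 30) (nat_lit 5) (nat_lit 34) (nat_lit 5) (nat_lit 31) (nat_lit 5) (nat_lit 323) (nat_lit 319) (nat_lit 258)) (XT.lf (nat_lit 0) (nat_lit 14594861310) (nat_lit 304) (nat_lit 27678979245) (nat_lit 380) (nat_lit 41521116550) (nat_lit 26) (nat_lit 5) (nat_lit 30) (nat_lit 5) (nat_lit 31) (nat_lit 5) (nat_lit 324) (nat_lit 319) (nat_lit 257)))))) (XT.nd (nat_lit 390) (nat_lit 456) (nat_lit 0) (XT.nd (nat_lit 156) (nat_lit 152) (nat_lit 0) (XT.nd (nat_lit 78) (nat_lit 152) (nat_lit 0) (XT.lf (nat_lit 0) (nat_lit 56125115232) (nat_lit 380) (nat_lit 25430235630) (nat_lit 76) (nat_lit 9192498758) (nat_lit 26) (nat_lit 5) (nat_lit 31) (nat_lit 5) (nat_lit 27) (nat_lit 5) (nat_lit 325) (nat_lit 319) (nat_lit 256)) (XT.lf (nat_lit 0) (nat_lit 25889856648) (nat_lit 152) (nat_lit 48552575830) (nat_lit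 228) (nat_lit 23942993492) (nat_lit 24) (nat_lit 5) (nat_lit 26) (nat_lit 5) (nat_lit 27) (nat_lit 5) (nat_lit 326) (nat_lit 319) (nat_lit 255))) (XT.nd (nat_lit 78) (nat_lit 152) (nat_lit 0) (XT.lf (nat_lit 0) (nat_lit 87763975325) (nat_lit 152) (nat_lit 9071084791) (nat_lit 228) (nat_lit 10134424050) (nat_lit 24) (nat_lit 5) (nat_lit 26) (nat_lit 5) (nat_lit 27) (nat_lit 5) (nat_lit 327) (nat_lit 319) (nat_lit 254)) (XT.nd (nat_lit 78) (nat_lit 0) (nat_lit 0) (XT.lf (nat_lit 0) (nat_lit 8740544584) (nat_lit 152) (nat_lit 72199738516) (nat_lit 76) (nat_lit 35339192073) (nat_lit 22) (nat_lit 5) (nat_lit 24) (nat_lit 5) (nat_lit 23) (nat_lit 5) (nat_lit 328) (nat_lit 319) (nat_lit 253)) (XT.lf (nat_lit 0) (nat_lit 30891514809) (nat_lit 152) (nat_lit 8783504122) (nat_lit 76) (nat_lit 87016209438) (nat_lit 22) (nat_lit 5) (nat_lit 24) (nat_lit 5) (nat_lit 23) (nat_lit 5) (nat_lit 329) (nat_lit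 319) (nat_lit 252))))) (XT.nd (nat_lit 234) (nat_lit 228) (nat_lit 0) (XT.nd (nat_lit 78) (nat_lit 76) (nat_lit 0) (XT.lf (nat_lit 0) (nat_lit 59740531311) (nat_lit 228) (nat_lit 68276545015) (nat_lit 76) (nat_lit 10141359428) (nat_lit 20) (nat_lit 5) (nat_lit 23) (nat_lit 5) (nat_lit 21) (nat_lit 4) (nat_lit 330) (nat_lit 319) (nat_lit 251)) (XT.nd (nat_lit 78) (nat_lit 0) (nat_lit 0) (XT.lf (nat_lit 0) (nat_lit 8940385543) (nat_lit 76) (nat_lit 86715887170) (nat_lit 152) (nat_lit 55278546824) (nat_lit 19) (nat_lit 5) (nat_lit 20) (nat_lit 5) (nat_lit 21) (nat_lit 4) (nat_lit 331) (nat_lit 319) (nat_lit 250)) (XT.lf (nat_lit 0) (nat_lit 105411503088) (nat_lit 76) (nat_lit 35115830750) (nat_lit 152) (nat_lit 24565134272) (nat_lit 19) (nat_lit 5) (nat_lit 20) (nat_lit 5) (nat_lit 21) (nat_lit 4) (nat_lit 332) (nat_lit 319) (nat_lit 249)))) (XT.nd (nat_lit 78) (nat_lit 76) (nat_lit 0) (XT.lf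 (nat_lit 0) (nat_lit 12465493718) (nat_lit 152) (nat_lit 144263285472) (nat_lit 76) (nat_lit 24178025412) (nat_lit 17) (nat_lit 5) (nat_lit 19) (nat_lit 5) (nat_lit 18) (nat_lit 4) (nat_lit 333) (nat_lit 319) (nat_lit 248)) (XT.nd (nat_lit 78) (nat_lit 76) (nat_lit 0) (XT.lf (nat_lit 0) (nat_lit 57475225327) (nat_lit 152) (nat_lit 47493456538) (nat_lit 76) (nat_lit 93208218428) (nat_lit 17) (nat_lit 5) (nat_lit 19) (nat_lit 5) (nat_lit 18) (nat_lit 4) (nat_lit 334) (nat_lit 319) (nat_lit 247)) (XT.lf (nat_lit 0) (nat_lit 70024509967) (nat_lit 76) (nat_lit 42110677141) (nat_lit 152) (nat_lit 105467508236) (nat_lit 16) (nat_lit 5) (nat_lit 17) (nat_lit 5) (nat_lit 18) (nat_lit 4) (nat_lit 335) (nat_lit 319) (nat_lit 246))))))) (XT.nd (nat_lit 858) (nat_lit 380) (nat_lit 0) (XT.nd (nat_lit 390) (nat_lit 304) (nat_lit 0) (XT.nd (nat_lit 156) (nat_lit 152) (nat_lit 0) (XT.nd (nat_lit 78) (nat_lit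 76) (nat_lit 0) (XT.lf (nat_lit 0) (nat_lit 178843728835) (nat_lit 152) (nat_lit 30431351200) (nat_lit 0) (nat_lit 30089842264) (nat_lit 16) (nat_lit 5) (nat_lit 18) (nat_lit 4) (nat_lit 16) (nat_lit 4) (nat_lit 336) (nat_lit 319) (nat_lit 245)) (XT.lf (nat_lit 0) (nat_lit 112276639655) (nat_lit 76) (nat_lit 149935647899) (nat_lit 76) (nat_lit 1181135816) (nat_lit 15) (nat_lit 4) (nat_lit 16) (nat_lit 5) (nat_lit 16) (nat_lit 4) (nat_lit 337) (nat_lit 319) (nat_lit 244))) (XT.nd (nat_lit 78) (nat_lit 76) (nat_lit 0) (XT.lf (nat_lit 0) (nat_lit 62755607665) (nat_lit 152) (nat_lit 13830499524) (nat_lit 76) (nat_lit 213773699043) (nat_lit 14) (nat_lit 5) (nat_lit 16) (nat_lit 5) (nat_lit 15) (nat_lit 4) (nat_lit 338) (nat_lit 319) (nat_lit 243)) (XT.nd (nat_lit 78) (nat_lit 0) (nat_lit 0) (XT.lf (nat_lit 0) (nat_lit 143342318706) (nat_lit 152) (nat_lit 162953649333) (nat_lit 0) (nat_lit 13989684808)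 (nat_lit 13) (nat_lit 5) (nat_lit 15) (nat_lit 4) (nat_lit 13) (nat_lit 4) (nat_lit 339) (nat_lit 319) (nat_lit 242)) (XT.lf (nat_lit 0) (nat_lit 240420813820) (nat_lit 152) (nat_lit 2551173987) (nat_lit 0) (nat_lit 111067822283) (nat_lit 13) (nat_lit 5) (nat_lit 15) (nat_lit 4) (nat_lit 13) (nat_lit 4) (nat_lit 340) (nat_lit 319) (nat_lit 241))))) (XT.nd (nat_lit 234) (nat_lit 76) (nat_lit 0) (XT.nd (nat_lit 78) (nat_lit 152) (nat_lit 0) (XT.lf (nat_lit 0) (nat_lit 199688355522) (nat_lit 76) (nat_lit 160640905716) (nat_lit 76) (nat_lit 31287603190) (nat_lit 12) (nat_lit 4) (nat_lit 13) (nat_lit 5) (nat_lit 13) (nat_lit 4) (nat_lit 341) (nat_lit 319) (nat_lit 240)) (XT.nd (nat_lit 78) (nat_lit 76) (nat_lit 0) (XT.lf (nat_lit 0) (nat_lit 57888991404) (nat_lit 152) (nat_lit 4892241433) (nat_lit 76) (nat_lit 371634612775) (nat_lit 11) (nat_lit 5) (nat_lit 13) (nat_lit 5) (nat_lit 12) (nat_lit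 4) (nat_lit 342) (nat_lit 319) (nat_lit 239)) (XT.lf (nat_lit 0) (nat_lit 169308186214) (nat_lit 152) (nat_lit 255465986224) (nat_lit 0) (nat_lit 56826613949) (nat_lit 10) (nat_lit 5) (nat_lit 12) (nat_lit 4) (nat_lit 10) (nat_lit 4) (nat_lit 343) (nat_lit 319) (nat_lit 238)))) (XT.nd (nat_lit 78) (nat_lit 76) (nat_lit 0) (XT.lf (nat_lit 0) (nat_lit 300697333655) (nat_lit 152) (nat_lit 46461990157) (nat_lit 0) (nat_lit 188215583579) (nat_lit 10) (nat_lit 5) (nat_lit 12) (nat_lit 4) (nat_lit 10) (nat_lit 4) (nat_lit 344) (nat_lit 319) (nat_lit 237)) (XT.nd (nat_lit 78) (nat_lit 0) (nat_lit 0) (XT.lf (nat_lit 0) (nat_lit 212840398497) (nat_lit 76) (nat_lit 247767358630) (nat_lit 76) (nat_lit 135285453938) (nat_lit 9) (nat_lit 4) (nat_lit 10) (nat_lit 5) (nat_lit 10) (nat_lit 4) (nat_lit 345) (nat_lit 319) (nat_lit 236)) (XT.lf (nat_lit 0) (nat_lit 516259141882) (nat_lit 76) (nat_lit 130673952548)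 (nat_lit 76) (nat_lit 18191913406) (nat_lit 9) (nat_lit 4) (nat_lit 10) (nat_lit 5) (nat_lit 10) (nat_lit 4) (nat_lit 346) (nat_lit 319) (nat_lit 235)))))) (XT.nd (nat_lit 390) (nat_lit 152) (nat_lit 0) (XT.nd (nat_lit 156) (nat_lit 76) (nat_lit 0) (XT.nd (nat_lit 78) (nat_lit 0) (nat_lit 0) (XT.lf (nat_lit 0) (nat_lit 111997341443) (nat_lit 152) (nat_lit 616949033383) (nat_lit 0) (nat_lit 14186770961) (nat_lit 7) (nat_lit 5) (nat_lit 9) (nat_lit 4) (nat_lit 7) (nat_lit 4) (nat_lit 347) (nat_lit 319) (nat_lit 234)) (XT.lf (nat_lit 0) (nat_lit 274226915539) (nat_lit 152) (nat_lit 379913224594) (nat_lit 0) (nat_lit 176416256654) (nat_lit 7) (nat_lit 5) (nat_lit 9) (nat_lit 4) (nat_lit 7) (nat_lit 4) (nat_lit 348) (nat_lit 319) (nat_lit 233))) (XT.nd (nat_lit 78) (nat_lit 76) (nat_lit 0) (XT.lf (nat_lit 0) (nat_lit 460790655224) (nat_lit 152) (nat_lit 107322601377) (nat_lit 0) (nat_lit 362979919467)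 (nat_lit 7) (nat_lit 5) (nat_lit 9) (nat_lit 4) (nat_lit 7) (nat_lit 4) (nat_lit 349) (nat_lit 319) (nat_lit 232)) (XT.nd (nat_lit 78) (nat_lit 0) (nat_lit 0) (XT.lf (nat_lit 0) (nat_lit 226303207513) (nat_lit 76) (nat_lit 458406246340) (nat_lit 76) (nat_lit 360595443738) (nat_lit 6) (nat_lit 4) (nat_lit 7) (nat_lit 5) (nat_lit 7) (nat_lit 4) (nat_lit 350) (nat_lit 319) (nat_lit 231)) (XT.lf (nat_lit 0) (nat_lit 622034022401) (nat_lit 76) (nat_lit 325791871251) (nat_lit 76) (nat_lit 227981010522) (nat_lit 6) (nat_lit 4) (nat_lit 7) (nat_lit 5) (nat_lit 7) (nat_lit 4) (nat_lit 351) (nat_lit 319) (nat_lit 230))))) (XT.nd (nat_lit 234) (nat_lit 0) (nat_lit 0) (XT.nd (nat_lit 78) (nat_lit 152) (nat_lit 0) (XT.lf (nat_lit 0) (nat_lit 1077124057572) (nat_lit 76) (nat_lit 173285547329) (nat_lit 76) (nat_lit 75474636056) (nat_lit 6) (nat_lit 4) (nat_lit 7) (nat_lit 5) (nat_lit 7) (nat_lit 4) (nat_lit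 352) (nat_lit 319) (nat_lit 229)) (XT.nd (nat_lit 78) (nat_lit 0) (nat_lit 0) (XT.lf (nat_lit 0) (nat_lit 95957192423) (nat_lit 152) (nat_lit 1390249657542) (nat_lit 0) (nat_lit 10904187880) (nat_lit 4) (nat_lit 5) (nat_lit 6) (nat_lit 4) (nat_lit 4) (nat_lit 4) (nat_lit 353) (nat_lit 319) (nat_lit 228)) (XT.lf (nat_lit 0) (nat_lit 307250728125) (nat_lit 152) (nat_lit 1160753216562) (nat_lit 0) (nat_lit 222197690348) (nat_lit 4) (nat_lit 5) (nat_lit 6) (nat_lit 4) (nat_lit 4) (nat_lit 4) (nat_lit 354) (nat_lit 319) (nat_lit 227)))) (XT.nd (nat_lit 78) (nat_lit 0) (nat_lit 0) (XT.lf (nat_lit 0) (nat_lit 550238141025) (nat_lit 152) (nat_lit 896832629425) (nat_lit 0) (nat_lit 465185074349) (nat_lit 4) (nat_lit 5) (nat_lit 6) (nat_lit 4) (nat_lit 4) (nat_lit 4) (nat_lit 355) (nat_lit 319) (nat_lit 226)) (XT.nd (nat_lit 78) (nat_lit 0) (nat_lit 0) (XT.lf (nat_lit 0) (nat_lit 829673532678) (nat_lit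 152) (nat_lit 593324232469) (nat_lit 0) (nat_lit 744620440873) (nat_lit 4) (nat_lit 5) (nat_lit 6) (nat_lit 4) (nat_lit 4) (nat_lit 4) (nat_lit 356) (nat_lit 319) (nat_lit 225)) (XT.lf (nat_lit 0) (nat_lit 1151024117270) (nat_lit 152) (nat_lit 244289817927) (nat_lit 0) (nat_lit 1065971003613) (nat_lit 4) (nat_lit 5) (nat_lit 6) (nat_lit 4) (nat_lit 4) (nat_lit 4) (nat_lit 357) (nat_lit 319) (nat_lit 224))))))))
noncomputable def xc82 : XT := (XT.nd (nat_lit 1716) (nat_lit 0) (nat_lit 0) (XT.nd (nat_lit 858) (nat_lit 152) (nat_lit 0) (XT.nd (nat_lit 390) (nat_lit 0) (nat_lit 0) (XT.nd (nat_lit 156) (nat_lit 0) (nat_lit 0) (XT.nd (nat_lit 78) (nat_lit 0) (nat_lit 0) (XT.lf (nat_lit 0) (nat_lit 172452458807) (nat_lit 76) (nat_lit 1355265618603) (nat_lit 76) (nat_lit 1270212485944) (nat_lit 3) (nat_lit 4) (nat_lit 4) (nat_lit 5) (nat_lit 4) (nat_lit 4) (nat_lit 358) (nat_lit 319) (nat_lit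 223)) (XT.lf (nat_lit 0) (nat_lit 679160720529) (nat_lit 76) (nat_lit 1294525010187) (nat_lit 76) (nat_lit 1209471861005) (nat_lit 3) (nat_lit 4) (nat_lit 4) (nat_lit 5) (nat_lit 4) (nat_lit 4) (nat_lit 359) (nat_lit 319) (nat_lit 222))) (XT.nd (nat_lit 78) (nat_lit 0) (nat_lit 0) (XT.lf (nat_lit 0) (nat_lit 1261875046870) (nat_lit 76) (nat_lit 1224673401769) (nat_lit 76) (nat_lit 1139620238219) (nat_lit 3) (nat_lit 4) (nat_lit 4) (nat_lit 5) (nat_lit 4) (nat_lit 4) (nat_lit 360) (nat_lit 319) (nat_lit 221)) (XT.nd (nat_lit 78) (nat_lit 0) (nat_lit 0) (XT.lf (nat_lit 0) (nat_lit 1931996370301) (nat_lit 76) (nat_lit 1144344131446) (nat_lit 76) (nat_lit 1059290955402) (nat_lit 3) (nat_lit 4) (nat_lit 4) (nat_lit 5) (nat_lit 4) (nat_lit 4) (nat_lit 361) (nat_lit 319) (nat_lit 220)) (XT.lf (nat_lit 0) (nat_lit 2702635760196) (nat_lit 76) (nat_lit 1051965539580) (nat_lit 76) (nat_lit 966912352672)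 (nat_lit 3) (nat_lit 4) (nat_lit 4) (nat_lit 5) (nat_lit 4) (nat_lit 4) (nat_lit 362) (nat_lit 319) (nat_lit 219))))) (XT.nd (nat_lit 234) (nat_lit 0) (nat_lit 0) (XT.nd (nat_lit 78) (nat_lit 0) (nat_lit 0) (XT.lf (nat_lit 0) (nat_lit 3588870943747) (nat_lit 76) (nat_lit 945730218941) (nat_lit 76) (nat_lit 860677022586) (nat_lit 3) (nat_lit 4) (nat_lit 4) (nat_lit 5) (nat_lit 4) (nat_lit 4) (nat_lit 363) (nat_lit 319) (nat_lit 218)) (XT.nd (nat_lit 78) (nat_lit 0) (nat_lit 0) (XT.lf (nat_lit 0) (nat_lit 4608041304980) (nat_lit 76) (nat_lit 823559652384) (nat_lit 76) (nat_lit 738506447814) (nat_lit 3) (nat_lit 4) (nat_lit 4) (nat_lit 5) (nat_lit 4) (nat_lit 4) (nat_lit 364) (nat_lit 319) (nat_lit 217)) (XT.lf (nat_lit 0) (nat_lit 5780087133571) (nat_lit 76) (nat_lit 683063546217) (nat_lit 76) (nat_lit 598010334503) (nat_lit 3) (nat_lit 4) (nat_lit 4) (nat_lit 5) (nat_lit 4) (nat_lit 4)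 (nat_lit 365) (nat_lit 319) (nat_lit 216)))) (XT.nd (nat_lit 78) (nat_lit 0) (nat_lit 0) (XT.lf (nat_lit 0) (nat_lit 7127939760950) (nat_lit 76) (nat_lit 521493063579) (nat_lit 76) (nat_lit 436439845654) (nat_lit 3) (nat_lit 4) (nat_lit 4) (nat_lit 5) (nat_lit 4) (nat_lit 4) (nat_lit 366) (nat_lit 319) (nat_lit 215)) (XT.nd (nat_lit 78) (nat_lit 0) (nat_lit 0) (XT.lf (nat_lit 0) (nat_lit 8677970216783) (nat_lit 76) (nat_lit 335687042853) (nat_lit 76) (nat_lit 250633819527) (nat_lit 3) (nat_lit 4) (nat_lit 4) (nat_lit 5) (nat_lit 4) (nat_lit 4) (nat_lit 367) (nat_lit 319) (nat_lit 214)) (XT.lf (nat_lit 0) (nat_lit 10460505183901) (nat_lit 76) (nat_lit 122010148853) (nat_lit 76) (nat_lit 36956920829) (nat_lit 3) (nat_lit 4) (nat_lit 4) (nat_lit 5) (nat_lit 4) (nat_lit 4) (nat_lit 368) (nat_lit 319) (nat_lit 213)))))) (XT.nd (nat_lit 390) (nat_lit 0) (nat_lit 0) (XT.nd (nat_lit 156) (nat_lit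 0) (nat_lit 0) (XT.nd (nat_lit 78) (nat_lit 0) (nat_lit 0) (XT.lf (nat_lit 0) (nat_lit 211140957843) (nat_lit 152) (nat_lit 11825167943944) (nat_lit 0) (nat_lit 137181625575) (nat_lit 1) (nat_lit 5) (nat_lit 3) (nat_lit 4) (nat_lit 1) (nat_lit 4) (nat_lit 369) (nat_lit 319) (nat_lit 212)) (XT.lf (nat_lit 0) (nat_lit 507185155454) (nat_lit 152) (nat_lit 13017759290370) (nat_lit 0) (nat_lit 433225820098) (nat_lit 1) (nat_lit 5) (nat_lit 3) (nat_lit 4) (nat_lit 1) (nat_lit 4) (nat_lit 370) (nat_lit 319) (nat_lit 211))) (XT.nd (nat_lit 78) (nat_lit 0) (nat_lit 0) (XT.lf (nat_lit 0) (nat_lit 847635961201) (nat_lit 152) (nat_lit 14389239384130) (nat_lit 0) (nat_lit 773676623160) (nat_lit 1) (nat_lit 5) (nat_lit 3) (nat_lit 4) (nat_lit 1) (nat_lit 4) (nat_lit 371) (nat_lit 319) (nat_lit 210)) (XT.nd (nat_lit 78) (nat_lit 0) (nat_lit 0) (XT.lf (nat_lit 0) (nat_lit 1239154369111) (nat_lit 152)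 (nat_lit 15966441531408) (nat_lit 0) (nat_lit 1165195028734) (nat_lit 1) (nat_lit 5) (nat_lit 3) (nat_lit 4) (nat_lit 1) (nat_lit 4) (nat_lit 372) (nat_lit 319) (nat_lit 209)) (XT.lf (nat_lit 0) (nat_lit 1689400521947) (nat_lit 152) (nat_lit 17780224035084) (nat_lit 0) (nat_lit 1615441179539) (nat_lit 1) (nat_lit 5) (nat_lit 3) (nat_lit 4) (nat_lit 1) (nat_lit 4) (nat_lit 373) (nat_lit 319) (nat_lit 208))))) (XT.nd (nat_lit 234) (nat_lit 0) (nat_lit 0) (XT.nd (nat_lit 78) (nat_lit 0) (nat_lit 0) (XT.lf (nat_lit 0) (nat_lit 2207183583568) (nat_lit 152) (nat_lit 19866073944144) (nat_lit 0) (nat_lit 2133224239395) (nat_lit 1) (nat_lit 5) (nat_lit 3) (nat_lit 4) (nat_lit 1) (nat_lit 4) (nat_lit 374) (nat_lit 319) (nat_lit 207)) (XT.nd (nat_lit 78) (nat_lit 0) (nat_lit 0) (XT.lf (nat_lit 0) (nat_lit 2802634092137) (nat_lit 152) (nat_lit 22264801365503) (nat_lit 0) (nat_lit 2728674746429) (nat_lit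 1) (nat_lit 5) (nat_lit 3) (nat_lit 4) (nat_lit 1) (nat_lit 4) (nat_lit 375) (nat_lit 319) (nat_lit 206)) (XT.lf (nat_lit 0) (nat_lit 3487402166300) (nat_lit 152) (nat_lit 25023337922625) (nat_lit 0) (nat_lit 3413442819256) (nat_lit 1) (nat_lit 5) (nat_lit 3) (nat_lit 4) (nat_lit 1) (nat_lit 4) (nat_lit 376) (nat_lit 319) (nat_lit 205)))) (XT.nd (nat_lit 78) (nat_lit 0) (nat_lit 0) (XT.lf (nat_lit 0) (nat_lit 4274885442290) (nat_lit 152) (nat_lit 28195654982929) (nat_lit 0) (nat_lit 4200926094086) (nat_lit 1) (nat_lit 5) (nat_lit 3) (nat_lit 4) (nat_lit 1) (nat_lit 4) (nat_lit 377) (nat_lit 319) (nat_lit 204)) (XT.nd (nat_lit 78) (nat_lit 0) (nat_lit 0) (XT.lf (nat_lit 0) (nat_lit 5180491201594) (nat_lit 152) (nat_lit 31843819619336) (nat_lit 0) (nat_lit 5106531852380) (nat_lit 1) (nat_lit 5) (nat_lit 3) (nat_lit 4) (nat_lit 1) (nat_lit 4) (nat_lit 378) (nat_lit 319) (nat_lit 203)) (XT.lf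 (nat_lit 0) (nat_lit 6221937817764) (nat_lit 152) (nat_lit 36039208966036) (nat_lit 0) (nat_lit 6147978467672) (nat_lit 1) (nat_lit 5) (nat_lit 3) (nat_lit 4) (nat_lit 1) (nat_lit 4) (nat_lit 379) (nat_lit 319) (nat_lit 202))))))) (XT.nd (nat_lit 42510) (nat_lit 0) (nat_lit 1216) (XT.nd (nat_lit 390) (nat_lit 0) (nat_lit 0) (XT.nd (nat_lit 156) (nat_lit 0) (nat_lit 0) (XT.nd (nat_lit 78) (nat_lit 0) (nat_lit 0) (XT.lf (nat_lit 0) (nat_lit 7419601420247) (nat_lit 152) (nat_lit 40863906727638) (nat_lit 0) (nat_lit 7345642069391) (nat_lit 1) (nat_lit 5) (nat_lit 3) (nat_lit 4) (nat_lit 1) (nat_lit 4) (nat_lit 380) (nat_lit 319) (nat_lit 201)) (XT.lf (nat_lit 0) (nat_lit 8796914557786) (nat_lit 152) (nat_lit 46412309164695) (nat_lit 0) (nat_lit 8722955206267) (nat_lit 1) (nat_lit 5) (nat_lit 3) (nat_lit 4) (nat_lit 1) (nat_lit 4) (nat_lit 381) (nat_lit 319) (nat_lit 200))) (XT.nd (nat_lit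 78) (nat_lit 0) (nat_lit 0) (XT.lf (nat_lit 0) (nat_lit 10380824661333) (nat_lit 152) (nat_lit 52792971977063) (nat_lit 0) (nat_lit 10306865309237) (nat_lit 1) (nat_lit 5) (nat_lit 3) (nat_lit 4) (nat_lit 1) (nat_lit 4) (nat_lit 382) (nat_lit 319) (nat_lit 199)) (XT.nd (nat_lit 78) (nat_lit 0) (nat_lit 0) (XT.lf (nat_lit 0) (nat_lit 12202321276394) (nat_lit 152) (nat_lit 60130734219766) (nat_lit 0) (nat_lit 12128361923796) (nat_lit 1) (nat_lit 5) (nat_lit 3) (nat_lit 4) (nat_lit 1) (nat_lit 4) (nat_lit 383) (nat_lit 319) (nat_lit 198)) (XT.lf (nat_lit 0) (nat_lit 14297042380218) (nat_lit 152) (nat_lit 68569160806249) (nat_lit 0) (nat_lit 14223083027183) (nat_lit 1) (nat_lit 5) (nat_lit 3) (nat_lit 4) (nat_lit 1) (nat_lit 4) (nat_lit 384) (nat_lit 319) (nat_lit 197))))) (XT.nd (nat_lit 41886) (nat_lit 0) (nat_lit 2052) (XT.nd (nat_lit 78) (nat_lit 0) (nat_lit 0) (XT.lf (nat_lit 0) (nat_lit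 16705971646577) (nat_lit 152) (nat_lit 78273351387117) (nat_lit 0) (nat_lit 16632012293163) (nat_lit 1) (nat_lit 5) (nat_lit 3) (nat_lit 4) (nat_lit 1) (nat_lit 4) (nat_lit 385) (nat_lit 319) (nat_lit 196)) (XT.nd (nat_lit 41730) (nat_lit 0) (nat_lit 2052) (XT.lf (nat_lit 0) (nat_lit 19476240300247) (nat_lit 152) (nat_lit 89433170560690) (nat_lit 0) (nat_lit 19402280946503) (nat_lit 1) (nat_lit 5) (nat_lit 3) (nat_lit 4) (nat_lit 1) (nat_lit 4) (nat_lit 386) (nat_lit 319) (nat_lit 195)) (XT.lf (nat_lit 0) (nat_lit 8001155608) (nat_lit 380) (nat_lit 12610266459) (nat_lit 380) (nat_lit 12610266459) (nat_lit 28) (nat_lit 3) (nat_lit 33) (nat_lit 3) (nat_lit 33) (nat_lit 5) (nat_lit 320) (nat_lit 320) (nat_lit 260)))) (XT.nd (nat_lit 78) (nat_lit 0) (nat_lit 76) (XT.lf (nat_lit 76) (nat_lit 7711524202) (nat_lit 0) (nat_lit 9823907306) (nat_lit 380) (nat_lit 53841234038) (nat_lit 29) (nat_lit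 5) (nat_lit 28) (nat_lit 3) (nat_lit 33) (nat_lit 5) (nat_lit 321) (nat_lit 320) (nat_lit 259)) (XT.nd (nat_lit 78) (nat_lit 0) (nat_lit 0) (XT.lf (nat_lit 0) (nat_lit 21765594034) (nat_lit 304) (nat_lit 29587491475) (nat_lit 380) (nat_lit 25326804726) (nat_lit 29) (nat_lit 5) (nat_lit 33) (nat_lit 5) (nat_lit 34) (nat_lit 5) (nat_lit 322) (nat_lit 320) (nat_lit 258)) (XT.lf (nat_lit 76) (nat_lit 10024779296) (nat_lit 0) (nat_lit 17486280488) (nat_lit 380) (nat_lit 55135425539) (nat_lit 30) (nat_lit 5) (nat_lit 29) (nat_lit 5) (nat_lit 34) (nat_lit 5) (nat_lit 323) (nat_lit 320) (nat_lit 257)))))) (XT.nd (nat_lit 390) (nat_lit 532) (nat_lit 0) (XT.nd (nat_lit 156) (nat_lit 152) (nat_lit 0) (XT.nd (nat_lit 78) (nat_lit 304) (nat_lit 0) (XT.lf (nat_lit 0) (nat_lit 36625340547) (nat_lit 304) (nat_lit 31336162564) (nat_lit 76) (nat_lit 21170520353) (nat_lit 30) (nat_lit 5) (nat_lit 34) (nat_lit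 5) (nat_lit 31) (nat_lit 5) (nat_lit 324) (nat_lit 320) (nat_lit 256)) (XT.lf (nat_lit 0) (nat_lit 16803855607) (nat_lit 304) (nat_lit 31829740834) (nat_lit 380) (nat_lit 47727773593) (nat_lit 26) (nat_lit 5) (nat_lit 30) (nat_lit 5) (nat_lit 31) (nat_lit 5) (nat_lit 325) (nat_lit 320) (nat_lit 255))) (XT.nd (nat_lit 78) (nat_lit 152) (nat_lit 0) (XT.lf (nat_lit 0) (nat_lit 64560164901) (nat_lit 380) (nat_lit 29225161585) (nat_lit 76) (nat_lit 10572233292) (nat_lit 26) (nat_lit 5) (nat_lit 31) (nat_lit 5) (nat_lit 27) (nat_lit 5) (nat_lit 326) (nat_lit 320) (nat_lit 254)) (XT.nd (nat_lit 78) (nat_lit 0) (nat_lit 0) (XT.lf (nat_lit 0) (nat_lit 29792053199) (nat_lit 152) (nat_lit 55831677821) (nat_lit 228) (nat_lit 27517247118) (nat_lit 24) (nat_lit 5) (nat_lit 26) (nat_lit 5) (nat_lit 27) (nat_lit 5) (nat_lit 327) (nat_lit 320) (nat_lit 253)) (XT.lf (nat_lit 0) (nat_lit 100944848193) (nat_lit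 152) (nat_lit 10428456741) (nat_lit 228) (nat_lit 11639635139) (nat_lit 24) (nat_lit 5) (nat_lit 26) (nat_lit 5) (nat_lit 27) (nat_lit 5) (nat_lit 328) (nat_lit 320) (nat_lit 252))))) (XT.nd (nat_lit 234) (nat_lit 228) (nat_lit 0) (XT.nd (nat_lit 78) (nat_lit 152) (nat_lit 0) (XT.lf (nat_lit 0) (nat_lit 10064344824) (nat_lit 152) (nat_lit 83011158114) (nat_lit 76) (nat_lit 40643971476) (nat_lit 22) (nat_lit 5) (nat_lit 24) (nat_lit 5) (nat_lit 23) (nat_lit 5) (nat_lit 329) (nat_lit 320) (nat_lit 251)) (XT.nd (nat_lit 78) (nat_lit 152) (nat_lit 0) (XT.lf (nat_lit 0) (nat_lit 35536301640) (nat_lit 152) (nat_lit 10084906976) (nat_lit 76) (nat_lit 100072032673) (nat_lit 22) (nat_lit 5) (nat_lit 24) (nat_lit 5) (nat_lit 23) (nat_lit 5) (nat_lit 330) (nat_lit 320) (nat_lit 250)) (XT.lf (nat_lit 0) (nat_lit 68712077978) (nat_lit 228) (nat_lit 78501300585) (nat_lit 76) (nat_lit 11667241733) (nat_lit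 20) (nat_lit 5) (nat_lit 23) (nat_lit 5) (nat_lit 21) (nat_lit 4) (nat_lit 331) (nat_lit 320) (nat_lit 249)))) (XT.nd (nat_lit 78) (nat_lit 152) (nat_lit 0) (XT.lf (nat_lit 0) (nat_lit 10297409275) (nat_lit 76) (nat_lit 99717067171) (nat_lit 152) (nat_lit 63559092226) (nat_lit 19) (nat_lit 5) (nat_lit 20) (nat_lit 5) (nat_lit 21) (nat_lit 4) (nat_lit 332) (nat_lit 320) (nat_lit 248)) (XT.nd (nat_lit 78) (nat_lit 152) (nat_lit 0) (XT.lf (nat_lit 0) (nat_lit 121237111943) (nat_lit 76) (nat_lit 40377811385) (nat_lit 152) (nat_lit 28240133437) (nat_lit 19) (nat_lit 5) (nat_lit 20) (nat_lit 5) (nat_lit 21) (nat_lit 4) (nat_lit 333) (nat_lit 320) (nat_lit 247)) (XT.lf (nat_lit 0) (nat_lit 14343880028) (nat_lit 152) (nat_lit 165887672929) (nat_lit 76) (nat_lit 27809981837) (nat_lit 17) (nat_lit 5) (nat_lit 19) (nat_lit 5) (nat_lit 18) (nat_lit 4) (nat_lit 334) (nat_lit 320) (nat_lit 246))))))))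
noncomputable def xc83 : XT := (XT.nd (nat_lit 1716) (nat_lit 228) (nat_lit 0) (XT.nd (nat_lit 858) (nat_lit 456) (nat_lit 0) (XT.nd (nat_lit 390) (nat_lit 304) (nat_lit 0) (XT.nd (nat_lit 156) (nat_lit 152) (nat_lit 0) (XT.nd (nat_lit 78) (nat_lit 76) (nat_lit 0) (XT.lf (nat_lit 0) (nat_lit 66103954562) (nat_lit 152) (nat_lit 54604339919) (nat_lit 76) (nat_lit 107194018682) (nat_lit 17) (nat_lit 5) (nat_lit 19) (nat_lit 5) (nat_lit 18) (nat_lit 4) (nat_lit 335) (nat_lit 320) (nat_lit 245)) (XT.lf (nat_lit 0) (nat_lit 80540724511) (nat_lit 76) (nat_lit 48421734130) (nat_lit 152) (nat_lit 121279587326) (nat_lit 16) (nat_lit 5) (nat_lit 17) (nat_lit 5) (nat_lit 18) (nat_lit 4) (nat_lit 336) (nat_lit 320) (nat_lit 244))) (XT.nd (nat_lit 78) (nat_lit 152) (nat_lit 0) (XT.lf (nat_lit 0) (nat_lit 205676569078) (nat_lit 152) (nat_lit 34984434629) (nat_lit 0) (nat_lit 34607710748) (nat_lit 16)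 (nat_lit 5) (nat_lit 18) (nat_lit 4) (nat_lit 16) (nat_lit 4) (nat_lit 337) (nat_lit 320) (nat_lit 243)) (XT.nd (nat_lit 78) (nat_lit 76) (nat_lit 0) (XT.lf (nat_lit 0) (nat_lit 129129226707) (nat_lit 76) (nat_lit 172420824907) (nat_lit 76) (nat_lit 1351493600) (nat_lit 15) (nat_lit 4) (nat_lit 16) (nat_lit 5) (nat_lit 16) (nat_lit 4) (nat_lit 338) (nat_lit 320) (nat_lit 242)) (XT.lf (nat_lit 0) (nat_lit 72174345411) (nat_lit 152) (nat_lit 15894899956) (nat_lit 76) (nat_lit 245843719647) (nat_lit 14) (nat_lit 5) (nat_lit 16) (nat_lit 5) (nat_lit 15) (nat_lit 4) (nat_lit 339) (nat_lit 320) (nat_lit 241))))) (XT.nd (nat_lit 234) (nat_lit 152) (nat_lit 0) (XT.nd (nat_lit 78) (nat_lit 76) (nat_lit 0) (XT.lf (nat_lit 0) (nat_lit 164848952546) (nat_lit 152) (nat_lit 187386409358) (nat_lit 0) (nat_lit 16092343650) (nat_lit 13) (nat_lit 5) (nat_lit 15) (nat_lit 4) (nat_lit 13) (nat_lit 4) (nat_lit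 340) (nat_lit 320) (nat_lit 240)) (XT.nd (nat_lit 78) (nat_lit 76) (nat_lit 0) (XT.lf (nat_lit 0) (nat_lit 276488532444) (nat_lit 152) (nat_lit 2924904541) (nat_lit 0) (nat_lit 127731653122) (nat_lit 13) (nat_lit 5) (nat_lit 15) (nat_lit 4) (nat_lit 13) (nat_lit 4) (nat_lit 341) (nat_lit 320) (nat_lit 239)) (XT.lf (nat_lit 0) (nat_lit 229650147779) (nat_lit 76) (nat_lit 184732853225) (nat_lit 76) (nat_lit 35975738751) (nat_lit 12) (nat_lit 4) (nat_lit 13) (nat_lit 5) (nat_lit 13) (nat_lit 4) (nat_lit 342) (nat_lit 320) (nat_lit 238)))) (XT.nd (nat_lit 78) (nat_lit 76) (nat_lit 0) (XT.lf (nat_lit 0) (nat_lit 66576304763) (nat_lit 152) (nat_lit 5618263714) (nat_lit 76) (nat_lit 427383057955) (nat_lit 11) (nat_lit 5) (nat_lit 13) (nat_lit 5) (nat_lit 12) (nat_lit 4) (nat_lit 343) (nat_lit 320) (nat_lit 237)) (XT.nd (nat_lit 78) (nat_lit 0) (nat_lit 0) (XT.lf (nat_lit 0) (nat_lit 194708323826)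 (nat_lit 152) (nat_lit 293778014103) (nat_lit 0) (nat_lit 65353978813) (nat_lit 10) (nat_lit 5) (nat_lit 12) (nat_lit 4) (nat_lit 10) (nat_lit 4) (nat_lit 344) (nat_lit 320) (nat_lit 236)) (XT.lf (nat_lit 0) (nat_lit 345805333424) (nat_lit 152) (nat_lit 53424445155) (nat_lit 0) (nat_lit 216450853961) (nat_lit 10) (nat_lit 5) (nat_lit 12) (nat_lit 4) (nat_lit 10) (nat_lit 4) (nat_lit 345) (nat_lit 320) (nat_lit 235)))))) (XT.nd (nat_lit 390) (nat_lit 228) (nat_lit 0) (XT.nd (nat_lit 156) (nat_lit 152) (nat_lit 0) (XT.nd (nat_lit 78) (nat_lit 0) (nat_lit 0) (XT.lf (nat_lit 0) (nat_lit 244772990728) (nat_lit 76) (nat_lit 284929156743) (nat_lit 76) (nat_lit 155574560367) (nat_lit 9) (nat_lit 4) (nat_lit 10) (nat_lit 5) (nat_lit 10) (nat_lit 4) (nat_lit 346) (nat_lit 320) (nat_lit 234)) (XT.lf (nat_lit 0) (nat_lit 593703693561) (nat_lit 76) (nat_lit 150272170924) (nat_lit 76) (nat_lit 20917472886)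 (nat_lit 9) (nat_lit 4) (nat_lit 10) (nat_lit 5) (nat_lit 10) (nat_lit 4) (nat_lit 347) (nat_lit 320) (nat_lit 233))) (XT.nd (nat_lit 78) (nat_lit 0) (nat_lit 0) (XT.lf (nat_lit 0) (nat_lit 128799855524) (nat_lit 152) (nat_lit 709485392097) (nat_lit 0) (nat_lit 16317432532) (nat_lit 7) (nat_lit 5) (nat_lit 9) (nat_lit 4) (nat_lit 7) (nat_lit 4) (nat_lit 348) (nat_lit 320) (nat_lit 232)) (XT.nd (nat_lit 78) (nat_lit 0) (nat_lit 0) (XT.lf (nat_lit 0) (nat_lit 315363485796) (nat_lit 152) (nat_lit 436894994114) (nat_lit 0) (nat_lit 202880995958) (nat_lit 7) (nat_lit 5) (nat_lit 9) (nat_lit 4) (nat_lit 7) (nat_lit 4) (nat_lit 349) (nat_lit 320) (nat_lit 231)) (XT.lf (nat_lit 0) (nat_lit 529911456052) (nat_lit 152) (nat_lit 123416457524) (nat_lit 0) (nat_lit 417428908088) (nat_lit 7) (nat_lit 5) (nat_lit 9) (nat_lit 4) (nat_lit 7) (nat_lit 4) (nat_lit 350) (nat_lit 320) (nat_lit 230))))) (XT.nd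 (nat_lit 234) (nat_lit 152) (nat_lit 0) (XT.nd (nat_lit 78) (nat_lit 0) (nat_lit 0) (XT.lf (nat_lit 0) (nat_lit 260253016606) (nat_lit 76) (nat_lit 527164949792) (nat_lit 76) (nat_lit 414682351284) (nat_lit 6) (nat_lit 4) (nat_lit 7) (nat_lit 5) (nat_lit 7) (nat_lit 4) (nat_lit 351) (nat_lit 320) (nat_lit 229)) (XT.nd (nat_lit 78) (nat_lit 0) (nat_lit 0) (XT.lf (nat_lit 0) (nat_lit 715342889210) (nat_lit 76) (nat_lit 374658709766) (nat_lit 76) (nat_lit 262176067305) (nat_lit 6) (nat_lit 4) (nat_lit 7) (nat_lit 5) (nat_lit 7) (nat_lit 4) (nat_lit 352) (nat_lit 320) (nat_lit 228)) (XT.lf (nat_lit 0) (nat_lit 1238695938773) (nat_lit 76) (nat_lit 199276690583) (nat_lit 76) (nat_lit 86794009904) (nat_lit 6) (nat_lit 4) (nat_lit 7) (nat_lit 5) (nat_lit 7) (nat_lit 4) (nat_lit 353) (nat_lit 320) (nat_lit 227)))) (XT.nd (nat_lit 78) (nat_lit 0) (nat_lit 0) (XT.lf (nat_lit 0) (nat_lit 110352420406)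 (nat_lit 152) (nat_lit 1598783660704) (nat_lit 0) (nat_lit 12541364830) (nat_lit 4) (nat_lit 5) (nat_lit 6) (nat_lit 4) (nat_lit 4) (nat_lit 4) (nat_lit 354) (nat_lit 320) (nat_lit 226)) (XT.nd (nat_lit 78) (nat_lit 0) (nat_lit 0) (XT.lf (nat_lit 0) (nat_lit 353339771361) (nat_lit 152) (nat_lit 1334863202986) (nat_lit 0) (nat_lit 255528690655) (nat_lit 4) (nat_lit 5) (nat_lit 6) (nat_lit 4) (nat_lit 4) (nat_lit 4) (nat_lit 355) (nat_lit 320) (nat_lit 225)) (XT.lf (nat_lit 0) (nat_lit 632775109149) (nat_lit 152) (nat_lit 1031354918569) (nat_lit 0) (nat_lit 534964006592) (nat_lit 4) (nat_lit 5) (nat_lit 6) (nat_lit 4) (nat_lit 4) (nat_lit 4) (nat_lit 356) (nat_lit 320) (nat_lit 224))))))) (XT.nd (nat_lit 858) (nat_lit 152) (nat_lit 0) (XT.nd (nat_lit 390) (nat_lit 0) (nat_lit 0) (XT.nd (nat_lit 156) (nat_lit 76) (nat_lit 0) (XT.nd (nat_lit 78) (nat_lit 0) (nat_lit 0) (XT.lf (nat_lit 0) (nat_lit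 954125646903) (nat_lit 152) (nat_lit 682320601887) (nat_lit 0) (nat_lit 856314525343) (nat_lit 4) (nat_lit 5) (nat_lit 6) (nat_lit 4) (nat_lit 4) (nat_lit 4) (nat_lit 357) (nat_lit 320) (nat_lit 223)) (XT.lf (nat_lit 0) (nat_lit 1323678677750) (nat_lit 152) (nat_lit 280931320658) (nat_lit 0) (nat_lit 1225867539668) (nat_lit 4) (nat_lit 5) (nat_lit 6) (nat_lit 4) (nat_lit 4) (nat_lit 4) (nat_lit 358) (nat_lit 320) (nat_lit 222))) (XT.nd (nat_lit 78) (nat_lit 0) (nat_lit 0) (XT.lf (nat_lit 0) (nat_lit 198322208043) (nat_lit 76) (nat_lit 1558554478747) (nat_lit 76) (nat_lit 1460743326296) (nat_lit 3) (nat_lit 4) (nat_lit 4) (nat_lit 5) (nat_lit 4) (nat_lit 4) (nat_lit 359) (nat_lit 320) (nat_lit 221)) (XT.nd (nat_lit 78) (nat_lit 0) (nat_lit 0) (XT.lf (nat_lit 0) (nat_lit 781036463751) (nat_lit 76) (nat_lit 1488702907239) (nat_lit 76) (nat_lit 1390891742295) (nat_lit 3) (nat_lit 4) (nat_lit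 4) (nat_lit 5) (nat_lit 4) (nat_lit 4) (nat_lit 360) (nat_lit 320) (nat_lit 220)) (XT.lf (nat_lit 0) (nat_lit 1451157725764) (nat_lit 76) (nat_lit 1408373669012) (nat_lit 76) (nat_lit 1310562493203) (nat_lit 3) (nat_lit 4) (nat_lit 4) (nat_lit 5) (nat_lit 4) (nat_lit 4) (nat_lit 361) (nat_lit 320) (nat_lit 219))))) (XT.nd (nat_lit 234) (nat_lit 0) (nat_lit 0) (XT.nd (nat_lit 78) (nat_lit 0) (nat_lit 0) (XT.lf (nat_lit 0) (nat_lit 2221797062250) (nat_lit 76) (nat_lit 1315995105056) (nat_lit 76) (nat_lit 1218183919800) (nat_lit 3) (nat_lit 4) (nat_lit 4) (nat_lit 5) (nat_lit 4) (nat_lit 4) (nat_lit 362) (nat_lit 320) (nat_lit 218)) (XT.nd (nat_lit 78) (nat_lit 0) (nat_lit 0) (XT.lf (nat_lit 0) (nat_lit 3108032199359) (nat_lit 76) (nat_lit 1209759808686) (nat_lit 76) (nat_lit 1111948615215) (nat_lit 3) (nat_lit 4) (nat_lit 4) (nat_lit 5) (nat_lit 4) (nat_lit 4) (nat_lit 363) (nat_lit 320)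 (nat_lit 217)) (XT.lf (nat_lit 0) (nat_lit 4127202520207) (nat_lit 76) (nat_lit 1087589263233) (nat_lit 76) (nat_lit 989778062619) (nat_lit 3) (nat_lit 4) (nat_lit 4) (nat_lit 5) (nat_lit 4) (nat_lit 4) (nat_lit 364) (nat_lit 320) (nat_lit 216)))) (XT.nd (nat_lit 78) (nat_lit 0) (nat_lit 0) (XT.lf (nat_lit 0) (nat_lit 5299248313682) (nat_lit 76) (nat_lit 947093175416) (nat_lit 76) (nat_lit 849281968591) (nat_lit 3) (nat_lit 4) (nat_lit 4) (nat_lit 5) (nat_lit 4) (nat_lit 4) (nat_lit 365) (nat_lit 320) (nat_lit 215)) (XT.nd (nat_lit 78) (nat_lit 0) (nat_lit 0) (XT.lf (nat_lit 0) (nat_lit 6647100910525) (nat_lit 76) (nat_lit 785522708736) (nat_lit 76) (nat_lit 687711496509) (nat_lit 3) (nat_lit 4) (nat_lit 4) (nat_lit 5) (nat_lit 4) (nat_lit 4) (nat_lit 366) (nat_lit 320) (nat_lit 214)) (XT.lf (nat_lit 0) (nat_lit 8197131339804) (nat_lit 76) (nat_lit 599716701886) (nat_lit 76) (nat_lit 501905484963)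 (nat_lit 3) (nat_lit 4) (nat_lit 4) (nat_lit 5) (nat_lit 4) (nat_lit 4) (nat_lit 367) (nat_lit 320) (nat_lit 213)))))) (XT.nd (nat_lit 468) (nat_lit 0) (nat_lit 0) (XT.nd (nat_lit 234) (nat_lit 0) (nat_lit 0) (XT.nd (nat_lit 78) (nat_lit 152) (nat_lit 0) (XT.lf (nat_lit 0) (nat_lit 9979666283832) (nat_lit 76) (nat_lit 386039819952) (nat_lit 76) (nat_lit 288228598944) (nat_lit 3) (nat_lit 4) (nat_lit 4) (nat_lit 5) (nat_lit 4) (nat_lit 4) (nat_lit 368) (nat_lit 320) (nat_lit 212)) (XT.nd (nat_lit 78) (nat_lit 152) (nat_lit 0) (XT.lf (nat_lit 0) (nat_lit 12029581426296) (nat_lit 76) (nat_lit 140311428286) (nat_lit 76) (nat_lit 42500203726) (nat_lit 3) (nat_lit 4) (nat_lit 4) (nat_lit 5) (nat_lit 4) (nat_lit 4) (nat_lit 369) (nat_lit 320) (nat_lit 211)) (XT.lf (nat_lit 0) (nat_lit 242812333070) (nat_lit 152) (nat_lit 13598942647006) (nat_lit 0) (nat_lit 157759091637) (nat_lit 1) (nat_lit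 5) (nat_lit 3) (nat_lit 4) (nat_lit 1) (nat_lit 4) (nat_lit 370) (nat_lit 320) (nat_lit 210)))) (XT.nd (nat_lit 78) (nat_lit 0) (nat_lit 0) (XT.lf (nat_lit 0) (nat_lit 583263130120) (nat_lit 152) (nat_lit 14970422759117) (nat_lit 0) (nat_lit 498209886352) (nat_lit 1) (nat_lit 5) (nat_lit 3) (nat_lit 4) (nat_lit 1) (nat_lit 4) (nat_lit 371) (nat_lit 320) (nat_lit 209)) (XT.nd (nat_lit 78) (nat_lit 0) (nat_lit 0) (XT.lf (nat_lit 0) (nat_lit 974781530467) (nat_lit 152) (nat_lit 16547624922351) (nat_lit 0) (nat_lit 889728284668) (nat_lit 1) (nat_lit 5) (nat_lit 3) (nat_lit 4) (nat_lit 1) (nat_lit 4) (nat_lit 372) (nat_lit 320) (nat_lit 208)) (XT.lf (nat_lit 0) (nat_lit 1425027676726) (nat_lit 152) (nat_lit 18361407439903) (nat_lit 0) (nat_lit 1339974429162) (nat_lit 1) (nat_lit 5) (nat_lit 3) (nat_lit 4) (nat_lit 1) (nat_lit 4) (nat_lit 373) (nat_lit 320) (nat_lit 207))))) (XT.nd (nat_lit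 234) (nat_lit 0) (nat_lit 0) (XT.nd (nat_lit 78) (nat_lit 0) (nat_lit 0) (XT.lf (nat_lit 0) (nat_lit 1942810732629) (nat_lit 152) (nat_lit 20447257361028) (nat_lit 0) (nat_lit 1857757483529) (nat_lit 1) (nat_lit 5) (nat_lit 3) (nat_lit 4) (nat_lit 1) (nat_lit 4) (nat_lit 374) (nat_lit 320) (nat_lit 206)) (XT.nd (nat_lit 78) (nat_lit 0) (nat_lit 0) (XT.lf (nat_lit 0) (nat_lit 2538261236225) (nat_lit 152) (nat_lit 22845984792880) (nat_lit 0) (nat_lit 2453207985790) (nat_lit 1) (nat_lit 5) (nat_lit 3) (nat_lit 4) (nat_lit 1) (nat_lit 4) (nat_lit 375) (nat_lit 320) (nat_lit 205)) (XT.lf (nat_lit 0) (nat_lit 3223029306064) (nat_lit 152) (nat_lit 25604521359124) (nat_lit 0) (nat_lit 3137976054468) (nat_lit 1) (nat_lit 5) (nat_lit 3) (nat_lit 4) (nat_lit 1) (nat_lit 4) (nat_lit 376) (nat_lit 320) (nat_lit 204)))) (XT.nd (nat_lit 78) (nat_lit 0) (nat_lit 0) (XT.lf (nat_lit 0) (nat_lit 4010512578294)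 (nat_lit 152) (nat_lit 28776838427362) (nat_lit 0) (nat_lit 3925459325688) (nat_lit 1) (nat_lit 5) (nat_lit 3) (nat_lit 4) (nat_lit 1) (nat_lit 4) (nat_lit 377) (nat_lit 320) (nat_lit 203)) (XT.nd (nat_lit 78) (nat_lit 0) (nat_lit 0) (XT.lf (nat_lit 0) (nat_lit 4916118334328) (nat_lit 152) (nat_lit 32425003070667) (nat_lit 0) (nat_lit 4831065080844) (nat_lit 1) (nat_lit 5) (nat_lit 3) (nat_lit 4) (nat_lit 1) (nat_lit 4) (nat_lit 378) (nat_lit 320) (nat_lit 202)) (XT.lf (nat_lit 0) (nat_lit 5957564947655) (nat_lit 152) (nat_lit 36620392423366) (nat_lit 0) (nat_lit 5872511693408) (nat_lit 1) (nat_lit 5) (nat_lit 3) (nat_lit 4) (nat_lit 1) (nat_lit 4) (nat_lit 379) (nat_lit 320) (nat_lit 201))))))))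
noncomputable def xc84 : XT := (XT.nd (nat_lit 43524) (nat_lit 0) (nat_lit 228) (XT.nd (nat_lit 42666) (nat_lit 0) (nat_lit 1216) (XT.nd (nat_lit 390) (nat_lit 0) (nat_lit 0) (XT.nd (nat_lit 156) (nat_lit 0) (nat_lit 0) (XT.nd (nat_lit 78) (nat_lit 0) (nat_lit 0) (XT.lf (nat_lit 0) (nat_lit 7155228547665) (nat_lit 152) (nat_lit 41445090190184) (nat_lit 0) (nat_lit 7070175292754) (nat_lit 1) (nat_lit 5) (nat_lit 3) (nat_lit 4) (nat_lit 1) (nat_lit 4) (nat_lit 380) (nat_lit 320) (nat_lit 200)) (XT.lf (nat_lit 0) (nat_lit 8532541683054) (nat_lit 152) (nat_lit 46993492631777) (nat_lit 0) (nat_lit 8447488427566) (nat_lit 1) (nat_lit 5) (nat_lit 3) (nat_lit 4) (nat_lit 1) (nat_lit 4) (nat_lit 381) (nat_lit 320) (nat_lit 199))) (XT.nd (nat_lit 78) (nat_lit 0) (nat_lit 0) (XT.lf (nat_lit 0) (nat_lit 10116451784732) (nat_lit 152) (nat_lit 53374155448089) (nat_lit 0) (nat_lit 10031398528742) (nat_lit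 1) (nat_lit 5) (nat_lit 3) (nat_lit 4) (nat_lit 1) (nat_lit 4) (nat_lit 382) (nat_lit 320) (nat_lit 198)) (XT.nd (nat_lit 78) (nat_lit 0) (nat_lit 0) (XT.lf (nat_lit 0) (nat_lit 11937948398167) (nat_lit 152) (nat_lit 60711917694223) (nat_lit 0) (nat_lit 11852895141741) (nat_lit 1) (nat_lit 5) (nat_lit 3) (nat_lit 4) (nat_lit 1) (nat_lit 4) (nat_lit 383) (nat_lit 320) (nat_lit 197)) (XT.lf (nat_lit 0) (nat_lit 14032669500578) (nat_lit 152) (nat_lit 69150344283688) (nat_lit 0) (nat_lit 13947616243772) (nat_lit 1) (nat_lit 5) (nat_lit 3) (nat_lit 4) (nat_lit 1) (nat_lit 4) (nat_lit 384) (nat_lit 320) (nat_lit 196))))) (XT.nd (nat_lit 42042) (nat_lit 0) (nat_lit 2128) (XT.nd (nat_lit 41886) (nat_lit 0) (nat_lit 2052) (XT.lf (nat_lit 0) (nat_lit 16441598765707) (nat_lit 152) (nat_lit 78854534867149) (nat_lit 0) (nat_lit 16356545508571) (nat_lit 1) (nat_lit 5) (nat_lit 3) (nat_lit 4) (nat_lit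 1) (nat_lit 4) (nat_lit 385) (nat_lit 320) (nat_lit 195)) (XT.nd (nat_lit 78) (nat_lit 0) (nat_lit 0) (XT.lf (nat_lit 0) (nat_lit 9214393772) (nat_lit 380) (nat_lit 14494283254) (nat_lit 380) (nat_lit 14494283254) (nat_lit 28) (nat_lit 3) (nat_lit 33) (nat_lit 3) (nat_lit 33) (nat_lit 5) (nat_lit 321) (nat_lit 321) (nat_lit 258)) (XT.lf (nat_lit 76) (nat_lit 8882615254) (nat_lit 0) (nat_lit 11306447129) (nat_lit 380) (nat_lit 61890567660) (nat_lit 29) (nat_lit 5) (nat_lit 28) (nat_lit 3) (nat_lit 33) (nat_lit 5) (nat_lit 322) (nat_lit 321) (nat_lit 257)))) (XT.nd (nat_lit 78) (nat_lit 0) (nat_lit 0) (XT.lf (nat_lit 0) (nat_lit 25050385656) (nat_lit 304) (nat_lit 34009729534) (nat_lit 380) (nat_lit 29118732735) (nat_lit 29) (nat_lit 5) (nat_lit 33) (nat_lit 5) (nat_lit 34) (nat_lit 5) (nat_lit 323) (nat_lit 321) (nat_lit 256)) (XT.nd (nat_lit 78) (nat_lit 0) (nat_lit 76) (XT.lf (nat_lit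 76) (nat_lit 11543659777) (nat_lit 0) (nat_lit 20112036881) (nat_lit 380) (nat_lit 63385036110) (nat_lit 30) (nat_lit 5) (nat_lit 29) (nat_lit 5) (nat_lit 34) (nat_lit 5) (nat_lit 324) (nat_lit 321) (nat_lit 255)) (XT.lf (nat_lit 0) (nat_lit 42134673256) (nat_lit 304) (nat_lit 36020930014) (nat_lit 76) (nat_lit 24343869041) (nat_lit 30) (nat_lit 5) (nat_lit 34) (nat_lit 5) (nat_lit 31) (nat_lit 5) (nat_lit 325) (nat_lit 321) (nat_lit 254)))))) (XT.nd (nat_lit 390) (nat_lit 380) (nat_lit 0) (XT.nd (nat_lit 156) (nat_lit 304) (nat_lit 0) (XT.nd (nat_lit 78) (nat_lit 0) (nat_lit 0) (XT.lf (nat_lit 0) (nat_lit 19339379204) (nat_lit 304) (nat_lit 36603381317) (nat_lit 380) (nat_lit 54870674649) (nat_lit 26) (nat_lit 5) (nat_lit 30) (nat_lit 5) (nat_lit 31) (nat_lit 5) (nat_lit 326) (nat_lit 321) (nat_lit 253)) (XT.lf (nat_lit 0) (nat_lit 74256501459) (nat_lit 380) (nat_lit 33594108306) (nat_lit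 76) (nat_lit 12158718358) (nat_lit 26) (nat_lit 5) (nat_lit 31) (nat_lit 5) (nat_lit 27) (nat_lit 5) (nat_lit 327) (nat_lit 321) (nat_lit 252))) (XT.nd (nat_lit 78) (nat_lit 152) (nat_lit 0) (XT.lf (nat_lit 0) (nat_lit 34275014718) (nat_lit 152) (nat_lit 64203567956) (nat_lit 228) (nat_lit 31631831996) (nat_lit 24) (nat_lit 5) (nat_lit 26) (nat_lit 5) (nat_lit 27) (nat_lit 5) (nat_lit 328) (nat_lit 321) (nat_lit 251)) (XT.nd (nat_lit 78) (nat_lit 152) (nat_lit 0) (XT.lf (nat_lit 0) (nat_lit 116098882846) (nat_lit 152) (nat_lit 11990236958) (nat_lit 228) (nat_lit 13374274157) (nat_lit 24) (nat_lit 5) (nat_lit 26) (nat_lit 5) (nat_lit 27) (nat_lit 5) (nat_lit 329) (nat_lit 321) (nat_lit 250)) (XT.lf (nat_lit 0) (nat_lit 11583613599) (nat_lit 152) (nat_lit 95448812036) (nat_lit 76) (nat_lit 46743516607) (nat_lit 22) (nat_lit 5) (nat_lit 24) (nat_lit 5) (nat_lit 23) (nat_lit 5) (nat_lit 330)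 (nat_lit 321) (nat_lit 249))))) (XT.nd (nat_lit 234) (nat_lit 152) (nat_lit 0) (XT.nd (nat_lit 78) (nat_lit 228) (nat_lit 0) (XT.lf (nat_lit 0) (nat_lit 40875109540) (nat_lit 152) (nat_lit 11585451895) (nat_lit 76) (nat_lit 115085402278) (nat_lit 22) (nat_lit 5) (nat_lit 24) (nat_lit 5) (nat_lit 23) (nat_lit 5) (nat_lit 331) (nat_lit 321) (nat_lit 248)) (XT.nd (nat_lit 78) (nat_lit 76) (nat_lit 0) (XT.lf (nat_lit 0) (nat_lit 79026804208) (nat_lit 228) (nat_lit 90263848276) (nat_lit 76) (nat_lit 13420865528) (nat_lit 20) (nat_lit 5) (nat_lit 23) (nat_lit 5) (nat_lit 21) (nat_lit 4) (nat_lit 332) (nat_lit 321) (nat_lit 247)) (XT.lf (nat_lit 0) (nat_lit 11854093182) (nat_lit 76) (nat_lit 114669936831) (nat_lit 152) (nat_lit 73084459559) (nat_lit 19) (nat_lit 5) (nat_lit 20) (nat_lit 5) (nat_lit 21) (nat_lit 4) (nat_lit 333) (nat_lit 321) (nat_lit 246)))) (XT.nd (nat_lit 78) (nat_lit 152)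 (nat_lit 0) (XT.lf (nat_lit 0) (nat_lit 139433176574) (nat_lit 76) (nat_lit 46430404470) (nat_lit 152) (nat_lit 32468765191) (nat_lit 19) (nat_lit 5) (nat_lit 20) (nat_lit 5) (nat_lit 21) (nat_lit 4) (nat_lit 334) (nat_lit 321) (nat_lit 245)) (XT.nd (nat_lit 78) (nat_lit 0) (nat_lit 0) (XT.lf (nat_lit 0) (nat_lit 16501936324) (nat_lit 152) (nat_lit 190759402043) (nat_lit 76) (nat_lit 31985450842) (nat_lit 17) (nat_lit 5) (nat_lit 19) (nat_lit 5) (nat_lit 18) (nat_lit 4) (nat_lit 335) (nat_lit 321) (nat_lit 244)) (XT.lf (nat_lit 0) (nat_lit 76025177566) (nat_lit 152) (nat_lit 62785058885) (nat_lit 76) (nat_lit 123276575162) (nat_lit 17) (nat_lit 5) (nat_lit 19) (nat_lit 5) (nat_lit 18) (nat_lit 4) (nat_lit 336) (nat_lit 321) (nat_lit 243))))))) (XT.nd (nat_lit 858) (nat_lit 380) (nat_lit 0) (XT.nd (nat_lit 390) (nat_lit 304) (nat_lit 0) (XT.nd (nat_lit 156) (nat_lit 228) (nat_lit 0) (XT.nd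 (nat_lit 78) (nat_lit 0) (nat_lit 0) (XT.lf (nat_lit 0) (nat_lit 92631313754) (nat_lit 76) (nat_lit 55680801748) (nat_lit 152) (nat_lit 139465440627) (nat_lit 16) (nat_lit 5) (nat_lit 17) (nat_lit 5) (nat_lit 18) (nat_lit 4) (nat_lit 337) (nat_lit 321) (nat_lit 242)) (XT.lf (nat_lit 0) (nat_lit 236532803716) (nat_lit 152) (nat_lit 40223314000) (nat_lit 0) (nat_lit 39802188452) (nat_lit 16) (nat_lit 5) (nat_lit 18) (nat_lit 4) (nat_lit 16) (nat_lit 4) (nat_lit 338) (nat_lit 321) (nat_lit 241))) (XT.nd (nat_lit 78) (nat_lit 152) (nat_lit 0) (XT.lf (nat_lit 0) (nat_lit 148506997181) (nat_lit 76) (nat_lit 198280039246) (nat_lit 76) (nat_lit 1549066344) (nat_lit 15) (nat_lit 4) (nat_lit 16) (nat_lit 5) (nat_lit 16) (nat_lit 4) (nat_lit 339) (nat_lit 321) (nat_lit 240)) (XT.nd (nat_lit 78) (nat_lit 76) (nat_lit 0) (XT.lf (nat_lit 0) (nat_lit 83004577824) (nat_lit 152) (nat_lit 18271441569) (nat_lit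 76) (nat_lit 282723276269) (nat_lit 14) (nat_lit 5) (nat_lit 16) (nat_lit 5) (nat_lit 15) (nat_lit 4) (nat_lit 340) (nat_lit 321) (nat_lit 239)) (XT.lf (nat_lit 0) (nat_lit 189580292428) (nat_lit 152) (nat_lit 215486592028) (nat_lit 0) (nat_lit 18509375629) (nat_lit 13) (nat_lit 5) (nat_lit 15) (nat_lit 4) (nat_lit 13) (nat_lit 4) (nat_lit 341) (nat_lit 321) (nat_lit 238))))) (XT.nd (nat_lit 234) (nat_lit 152) (nat_lit 0) (XT.nd (nat_lit 78) (nat_lit 152) (nat_lit 0) (XT.lf (nat_lit 0) (nat_lit 317965287963) (nat_lit 152) (nat_lit 3356876106) (nat_lit 0) (nat_lit 146894166683) (nat_lit 13) (nat_lit 5) (nat_lit 15) (nat_lit 4) (nat_lit 13) (nat_lit 4) (nat_lit 342) (nat_lit 321) (nat_lit 237)) (XT.nd (nat_lit 78) (nat_lit 76) (nat_lit 0) (XT.lf (nat_lit 0) (nat_lit 264104126602) (nat_lit 76) (nat_lit 212439614216) (nat_lit 76) (nat_lit 41368315126) (nat_lit 12) (nat_lit 4) (nat_lit 13)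 (nat_lit 5) (nat_lit 13) (nat_lit 4) (nat_lit 343) (nat_lit 321) (nat_lit 236)) (XT.lf (nat_lit 0) (nat_lit 76565748321) (nat_lit 152) (nat_lit 6455094814) (nat_lit 76) (nat_lit 491492976583) (nat_lit 11) (nat_lit 5) (nat_lit 13) (nat_lit 5) (nat_lit 12) (nat_lit 4) (nat_lit 344) (nat_lit 321) (nat_lit 235)))) (XT.nd (nat_lit 78) (nat_lit 76) (nat_lit 0) (XT.lf (nat_lit 0) (nat_lit 223917528679) (nat_lit 152) (nat_lit 337838765327) (nat_lit 0) (nat_lit 75159625935) (nat_lit 10) (nat_lit 5) (nat_lit 12) (nat_lit 4) (nat_lit 10) (nat_lit 4) (nat_lit 345) (nat_lit 321) (nat_lit 234)) (XT.nd (nat_lit 78) (nat_lit 76) (nat_lit 0) (XT.lf (nat_lit 0) (nat_lit 397678704115) (nat_lit 152) (nat_lit 61432937240) (nat_lit 0) (nat_lit 248920699708) (nat_lit 10) (nat_lit 5) (nat_lit 12) (nat_lit 4) (nat_lit 10) (nat_lit 4) (nat_lit 346) (nat_lit 321) (nat_lit 233)) (XT.lf (nat_lit 0) (nat_lit 281493878812)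 (nat_lit 76) (nat_lit 327666030684) (nat_lit 76) (nat_lit 178907937873) (nat_lit 9) (nat_lit 4) (nat_lit 10) (nat_lit 5) (nat_lit 10) (nat_lit 4) (nat_lit 347) (nat_lit 321) (nat_lit 232)))))) (XT.nd (nat_lit 390) (nat_lit 152) (nat_lit 0) (XT.nd (nat_lit 156) (nat_lit 76) (nat_lit 0) (XT.nd (nat_lit 78) (nat_lit 152) (nat_lit 0) (XT.lf (nat_lit 0) (nat_lit 682763542791) (nat_lit 76) (nat_lit 172810823023) (nat_lit 76) (nat_lit 24052653341) (nat_lit 9) (nat_lit 4) (nat_lit 10) (nat_lit 5) (nat_lit 10) (nat_lit 4) (nat_lit 348) (nat_lit 321) (nat_lit 231)) (XT.lf (nat_lit 0) (nat_lit 148122036397) (nat_lit 152) (nat_lit 815903666851) (nat_lit 0) (nat_lit 18767048113) (nat_lit 7) (nat_lit 5) (nat_lit 9) (nat_lit 4) (nat_lit 7) (nat_lit 4) (nat_lit 349) (nat_lit 321) (nat_lit 230))) (XT.nd (nat_lit 78) (nat_lit 76) (nat_lit 0) (XT.lf (nat_lit 0) (nat_lit 362669923921) (nat_lit 152) (nat_lit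 502425300570) (nat_lit 0) (nat_lit 233314885092) (nat_lit 7) (nat_lit 5) (nat_lit 9) (nat_lit 4) (nat_lit 7) (nat_lit 4) (nat_lit 350) (nat_lit 321) (nat_lit 229)) (XT.nd (nat_lit 78) (nat_lit 76) (nat_lit 0) (XT.lf (nat_lit 0) (nat_lit 609399839900) (nat_lit 152) (nat_lit 141925497752) (nat_lit 0) (nat_lit 480044757119) (nat_lit 7) (nat_lit 5) (nat_lit 9) (nat_lit 4) (nat_lit 7) (nat_lit 4) (nat_lit 351) (nat_lit 321) (nat_lit 228)) (XT.lf (nat_lit 0) (nat_lit 299294241662) (nat_lit 76) (nat_lit 606238003415) (nat_lit 76) (nat_lit 476882882415) (nat_lit 6) (nat_lit 4) (nat_lit 7) (nat_lit 5) (nat_lit 7) (nat_lit 4) (nat_lit 352) (nat_lit 321) (nat_lit 227))))) (XT.nd (nat_lit 234) (nat_lit 0) (nat_lit 0) (XT.nd (nat_lit 78) (nat_lit 152) (nat_lit 0) (XT.lf (nat_lit 0) (nat_lit 822647168300) (nat_lit 76) (nat_lit 430856047669) (nat_lit 76) (nat_lit 301500893435) (nat_lit 6) (nat_lit 4)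 (nat_lit 7) (nat_lit 5) (nat_lit 7) (nat_lit 4) (nat_lit 353) (nat_lit 321) (nat_lit 226)) (XT.nd (nat_lit 78) (nat_lit 152) (nat_lit 0) (XT.lf (nat_lit 0) (nat_lit 1424502804117) (nat_lit 76) (nat_lit 229166917160) (nat_lit 76) (nat_lit 99811734027) (nat_lit 6) (nat_lit 4) (nat_lit 7) (nat_lit 5) (nat_lit 7) (nat_lit 4) (nat_lit 354) (nat_lit 321) (nat_lit 225)) (XT.lf (nat_lit 0) (nat_lit 126906530438) (nat_lit 152) (nat_lit 1838598604540) (nat_lit 0) (nat_lit 14423740644) (nat_lit 4) (nat_lit 5) (nat_lit 6) (nat_lit 4) (nat_lit 4) (nat_lit 4) (nat_lit 355) (nat_lit 321) (nat_lit 224)))) (XT.nd (nat_lit 78) (nat_lit 0) (nat_lit 0) (XT.lf (nat_lit 0) (nat_lit 406341821387) (nat_lit 152) (nat_lit 1535090417982) (nat_lit 0) (nat_lit 293859012593) (nat_lit 4) (nat_lit 5) (nat_lit 6) (nat_lit 4) (nat_lit 4) (nat_lit 4) (nat_lit 356) (nat_lit 321) (nat_lit 223)) (XT.nd (nat_lit 78) (nat_lit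 0) (nat_lit 0) (XT.lf (nat_lit 0) (nat_lit 727692318411) (nat_lit 152) (nat_lit 1186056186396) (nat_lit 0) (nat_lit 615209493093) (nat_lit 4) (nat_lit 5) (nat_lit 6) (nat_lit 4) (nat_lit 4) (nat_lit 4) (nat_lit 357) (nat_lit 321) (nat_lit 222)) (XT.lf (nat_lit 0) (nat_lit 1097245313842) (nat_lit 152) (nat_lit 784666979163) (nat_lit 0) (nat_lit 984762474156) (nat_lit 4) (nat_lit 5) (nat_lit 6) (nat_lit 4) (nat_lit 4) (nat_lit 4) (nat_lit 358) (nat_lit 321) (nat_lit 221))))))))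
noncomputable def xc85 : XT := (XT.nd (nat_lit 1716) (nat_lit 0) (nat_lit 0) (XT.nd (nat_lit 858) (nat_lit 152) (nat_lit 0) (XT.nd (nat_lit 390) (nat_lit 0) (nat_lit 0) (XT.nd (nat_lit 156) (nat_lit 0) (nat_lit 0) (XT.nd (nat_lit 78) (nat_lit 76) (nat_lit 0) (XT.lf (nat_lit 0) (nat_lit 1522231192372) (nat_lit 152) (nat_lit 323069529186) (nat_lit 0) (nat_lit 1409748340193) (nat_lit 4) (nat_lit 5) (nat_lit 6) (nat_lit 4) (nat_lit 4) (nat_lit 4) (nat_lit 359) (nat_lit 321) (nat_lit 220)) (XT.lf (nat_lit 0) (nat_lit 228071961113) (nat_lit 76) (nat_lit 1792336907536) (nat_lit 76) (nat_lit 1679854044492) (nat_lit 3) (nat_lit 4) (nat_lit 4) (nat_lit 5) (nat_lit 4) (nat_lit 4) (nat_lit 360) (nat_lit 321) (nat_lit 219))) (XT.nd (nat_lit 78) (nat_lit 0) (nat_lit 0) (XT.lf (nat_lit 0) (nat_lit 898193169717) (nat_lit 76) (nat_lit 1712007697219) (nat_lit 76) (nat_lit 1599524824727) (nat_lit 3) (nat_lit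 4) (nat_lit 4) (nat_lit 5) (nat_lit 4) (nat_lit 4) (nat_lit 361) (nat_lit 321) (nat_lit 218)) (XT.nd (nat_lit 78) (nat_lit 0) (nat_lit 0) (XT.lf (nat_lit 0) (nat_lit 1668832459762) (nat_lit 76) (nat_lit 1619629157532) (nat_lit 76) (nat_lit 1507146276826) (nat_lit 3) (nat_lit 4) (nat_lit 4) (nat_lit 5) (nat_lit 4) (nat_lit 4) (nat_lit 362) (nat_lit 321) (nat_lit 217)) (XT.lf (nat_lit 0) (nat_lit 2555067556486) (nat_lit 76) (nat_lit 1513393882265) (nat_lit 76) (nat_lit 1400910994416) (nat_lit 3) (nat_lit 4) (nat_lit 4) (nat_lit 5) (nat_lit 4) (nat_lit 4) (nat_lit 363) (nat_lit 321) (nat_lit 216))))) (XT.nd (nat_lit 234) (nat_lit 0) (nat_lit 0) (XT.nd (nat_lit 78) (nat_lit 0) (nat_lit 0) (XT.lf (nat_lit 0) (nat_lit 3574237842218) (nat_lit 76) (nat_lit 1391223355163) (nat_lit 76) (nat_lit 1278740461102) (nat_lit 3) (nat_lit 4) (nat_lit 4) (nat_lit 5) (nat_lit 4) (nat_lit 4) (nat_lit 364) (nat_lit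 321) (nat_lit 215)) (XT.nd (nat_lit 78) (nat_lit 0) (nat_lit 0) (XT.lf (nat_lit 0) (nat_lit 4746283605156) (nat_lit 76) (nat_lit 1250727283304) (nat_lit 76) (nat_lit 1138244383842) (nat_lit 3) (nat_lit 4) (nat_lit 4) (nat_lit 5) (nat_lit 4) (nat_lit 4) (nat_lit 365) (nat_lit 321) (nat_lit 214)) (XT.lf (nat_lit 0) (nat_lit 6094136175445) (nat_lit 76) (nat_lit 1089156830500) (nat_lit 76) (nat_lit 976673926340) (nat_lit 3) (nat_lit 4) (nat_lit 4) (nat_lit 5) (nat_lit 4) (nat_lit 4) (nat_lit 366) (nat_lit 321) (nat_lit 213)))) (XT.nd (nat_lit 78) (nat_lit 0) (nat_lit 0) (XT.lf (nat_lit 0) (nat_lit 7644166581635) (nat_lit 76) (nat_lit 903350835716) (nat_lit 76) (nat_lit 790867927473) (nat_lit 3) (nat_lit 4) (nat_lit 4) (nat_lit 5) (nat_lit 4) (nat_lit 4) (nat_lit 367) (nat_lit 321) (nat_lit 212)) (XT.nd (nat_lit 78) (nat_lit 0) (nat_lit 0) (XT.lf (nat_lit 0) (nat_lit 9426701505584) (nat_lit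 76) (nat_lit 689673964274) (nat_lit 76) (nat_lit 577191052479) (nat_lit 3) (nat_lit 4) (nat_lit 4) (nat_lit 5) (nat_lit 4) (nat_lit 4) (nat_lit 368) (nat_lit 321) (nat_lit 211)) (XT.lf (nat_lit 0) (nat_lit 11476616630589) (nat_lit 76) (nat_lit 443945581731) (nat_lit 76) (nat_lit 331462666848) (nat_lit 3) (nat_lit 4) (nat_lit 4) (nat_lit 5) (nat_lit 4) (nat_lit 4) (nat_lit 369) (nat_lit 321) (nat_lit 210)))))) (XT.nd (nat_lit 390) (nat_lit 0) (nat_lit 0) (XT.nd (nat_lit 156) (nat_lit 0) (nat_lit 0) (XT.nd (nat_lit 78) (nat_lit 152) (nat_lit 0) (XT.lf (nat_lit 0) (nat_lit 13834018991703) (nat_lit 76) (nat_lit 161357958865) (nat_lit 76) (nat_lit 48875041296) (nat_lit 3) (nat_lit 4) (nat_lit 4) (nat_lit 5) (nat_lit 4) (nat_lit 4) (nat_lit 370) (nat_lit 321) (nat_lit 209)) (XT.lf (nat_lit 0) (nat_lit 279234358117) (nat_lit 152) (nat_lit 15638783674658) (nat_lit 0) (nat_lit 181423123418) (nat_lit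 1) (nat_lit 5) (nat_lit 3) (nat_lit 4) (nat_lit 1) (nat_lit 4) (nat_lit 371) (nat_lit 321) (nat_lit 208))) (XT.nd (nat_lit 78) (nat_lit 0) (nat_lit 0) (XT.lf (nat_lit 0) (nat_lit 670752751887) (nat_lit 152) (nat_lit 17215985851768) (nat_lit 0) (nat_lit 572941515422) (nat_lit 1) (nat_lit 5) (nat_lit 3) (nat_lit 4) (nat_lit 1) (nat_lit 4) (nat_lit 372) (nat_lit 321) (nat_lit 207)) (XT.nd (nat_lit 78) (nat_lit 0) (nat_lit 0) (XT.lf (nat_lit 0) (nat_lit 1120998892427) (nat_lit 152) (nat_lit 19029768381385) (nat_lit 0) (nat_lit 1023187654427) (nat_lit 1) (nat_lit 5) (nat_lit 3) (nat_lit 4) (nat_lit 1) (nat_lit 4) (nat_lit 373) (nat_lit 321) (nat_lit 206)) (XT.lf (nat_lit 0) (nat_lit 1638781943357) (nat_lit 152) (nat_lit 21115618313002) (nat_lit 0) (nat_lit 1540970704022) (nat_lit 1) (nat_lit 5) (nat_lit 3) (nat_lit 4) (nat_lit 1) (nat_lit 4) (nat_lit 374) (nat_lit 321) (nat_lit 205))))) (XT.nd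 (nat_lit 234) (nat_lit 0) (nat_lit 0) (XT.nd (nat_lit 78) (nat_lit 0) (nat_lit 0) (XT.lf (nat_lit 0) (nat_lit 2234232442629) (nat_lit 152) (nat_lit 23514345753977) (nat_lit 0) (nat_lit 2136421202133) (nat_lit 1) (nat_lit 5) (nat_lit 3) (nat_lit 4) (nat_lit 1) (nat_lit 4) (nat_lit 375) (nat_lit 321) (nat_lit 204)) (XT.nd (nat_lit 78) (nat_lit 0) (nat_lit 0) (XT.lf (nat_lit 0) (nat_lit 2919000508708) (nat_lit 152) (nat_lit 26272882328155) (nat_lit 0) (nat_lit 2821189267201) (nat_lit 1) (nat_lit 5) (nat_lit 3) (nat_lit 4) (nat_lit 1) (nat_lit 4) (nat_lit 376) (nat_lit 321) (nat_lit 203)) (XT.lf (nat_lit 0) (nat_lit 3706483777668) (nat_lit 152) (nat_lit 29445199403292) (nat_lit 0) (nat_lit 3608672535284) (nat_lit 1) (nat_lit 5) (nat_lit 3) (nat_lit 4) (nat_lit 1) (nat_lit 4) (nat_lit 377) (nat_lit 321) (nat_lit 202)))) (XT.nd (nat_lit 78) (nat_lit 0) (nat_lit 0) (XT.lf (nat_lit 0) (nat_lit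 4612089530859) (nat_lit 152) (nat_lit 33093364052596) (nat_lit 0) (nat_lit 4514278287712) (nat_lit 1) (nat_lit 5) (nat_lit 3) (nat_lit 4) (nat_lit 1) (nat_lit 4) (nat_lit 378) (nat_lit 321) (nat_lit 201)) (XT.nd (nat_lit 78) (nat_lit 0) (nat_lit 0) (XT.lf (nat_lit 0) (nat_lit 5653536141713) (nat_lit 152) (nat_lit 37288753410510) (nat_lit 0) (nat_lit 5555724897902) (nat_lit 1) (nat_lit 5) (nat_lit 3) (nat_lit 4) (nat_lit 1) (nat_lit 4) (nat_lit 379) (nat_lit 321) (nat_lit 200)) (XT.lf (nat_lit 0) (nat_lit 6851199739573) (nat_lit 152) (nat_lit 42113451181865) (nat_lit 0) (nat_lit 6753388495185) (nat_lit 1) (nat_lit 5) (nat_lit 3) (nat_lit 4) (nat_lit 1) (nat_lit 4) (nat_lit 380) (nat_lit 321) (nat_lit 199))))))) (XT.nd (nat_lit 42744) (nat_lit 0) (nat_lit 1140) (XT.nd (nat_lit 42276) (nat_lit 0) (nat_lit 1900) (XT.nd (nat_lit 156) (nat_lit 0) (nat_lit 0) (XT.nd (nat_lit 78) (nat_lit 0) (nat_lit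 0) (XT.lf (nat_lit 0) (nat_lit 8228512873093) (nat_lit 152) (nat_lit 47661853627402) (nat_lit 0) (nat_lit 8130701628203) (nat_lit 1) (nat_lit 5) (nat_lit 3) (nat_lit 4) (nat_lit 1) (nat_lit 4) (nat_lit 381) (nat_lit 321) (nat_lit 198)) (XT.lf (nat_lit 0) (nat_lit 9812422973146) (nat_lit 152) (nat_lit 54042516447144) (nat_lit 0) (nat_lit 9714611727819) (nat_lit 1) (nat_lit 5) (nat_lit 3) (nat_lit 4) (nat_lit 1) (nat_lit 4) (nat_lit 382) (nat_lit 321) (nat_lit 197))) (XT.nd (nat_lit 78) (nat_lit 0) (nat_lit 0) (XT.lf (nat_lit 0) (nat_lit 11633919585167) (nat_lit 152) (nat_lit 61380278696260) (nat_lit 0) (nat_lit 11536108339460) (nat_lit 1) (nat_lit 5) (nat_lit 3) (nat_lit 4) (nat_lit 1) (nat_lit 4) (nat_lit 383) (nat_lit 321) (nat_lit 196)) (XT.nd (nat_lit 78) (nat_lit 0) (nat_lit 0) (XT.lf (nat_lit 0) (nat_lit 13728640686348) (nat_lit 152) (nat_lit 69818705288318) (nat_lit 0) (nat_lit 13630829440312)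 (nat_lit 1) (nat_lit 5) (nat_lit 3) (nat_lit 4) (nat_lit 1) (nat_lit 4) (nat_lit 384) (nat_lit 321) (nat_lit 195)) (XT.lf (nat_lit 0) (nat_lit 16137569950409) (nat_lit 152) (nat_lit 79522895874034) (nat_lit 0) (nat_lit 16039758704086) (nat_lit 1) (nat_lit 5) (nat_lit 3) (nat_lit 4) (nat_lit 1) (nat_lit 4) (nat_lit 385) (nat_lit 321) (nat_lit 194))))) (XT.nd (nat_lit 234) (nat_lit 152) (nat_lit 0) (XT.nd (nat_lit 78) (nat_lit 0) (nat_lit 0) (XT.lf (nat_lit 0) (nat_lit 10606431722) (nat_lit 380) (nat_lit 16662737142) (nat_lit 380) (nat_lit 16662737142) (nat_lit 28) (nat_lit 3) (nat_lit 33) (nat_lit 3) (nat_lit 33) (nat_lit 5) (nat_lit 322) (nat_lit 322) (nat_lit 256)) (XT.nd (nat_lit 78) (nat_lit 0) (nat_lit 76) (XT.lf (nat_lit 76) (nat_lit 10225867596) (nat_lit 0) (nat_lit 13009184503) (nat_lit 380) (nat_lit 71153849229) (nat_lit 29) (nat_lit 5) (nat_lit 28) (nat_lit 3) (nat_lit 33) (nat_lit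 5) (nat_lit 323) (nat_lit 322) (nat_lit 255)) (XT.lf (nat_lit 0) (nat_lit 28823030474) (nat_lit 304) (nat_lit 39099177122) (nat_lit 380) (nat_lit 33481179546) (nat_lit 29) (nat_lit 5) (nat_lit 33) (nat_lit 5) (nat_lit 34) (nat_lit 5) (nat_lit 324) (nat_lit 322) (nat_lit 254)))) (XT.nd (nat_lit 78) (nat_lit 228) (nat_lit 0) (XT.lf (nat_lit 76) (nat_lit 13286674594) (nat_lit 0) (nat_lit 23130970444) (nat_lit 380) (nat_lit 72877136888) (nat_lit 30) (nat_lit 5) (nat_lit 29) (nat_lit 5) (nat_lit 34) (nat_lit 5) (nat_lit 325) (nat_lit 322) (nat_lit 253)) (XT.nd (nat_lit 78) (nat_lit 304) (nat_lit 0) (XT.lf (nat_lit 0) (nat_lit 48466618387) (nat_lit 304) (nat_lit 41412230624) (nat_lit 76) (nat_lit 27993763677) (nat_lit 30) (nat_lit 5) (nat_lit 34) (nat_lit 5) (nat_lit 31) (nat_lit 5) (nat_lit 326) (nat_lit 322) (nat_lit 252)) (XT.lf (nat_lit 0) (nat_lit 22251586846) (nat_lit 304) (nat_lit 42093267992)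 (nat_lit 380) (nat_lit 63088977182) (nat_lit 26) (nat_lit 5) (nat_lit 30) (nat_lit 5) (nat_lit 31) (nat_lit 5) (nat_lit 327) (nat_lit 322) (nat_lit 251)))))) (XT.nd (nat_lit 468) (nat_lit 304) (nat_lit 0) (XT.nd (nat_lit 234) (nat_lit 304) (nat_lit 0) (XT.nd (nat_lit 78) (nat_lit 152) (nat_lit 0) (XT.lf (nat_lit 0) (nat_lit 85404286184) (nat_lit 380) (nat_lit 38622012820) (nat_lit 76) (nat_lit 13983017659) (nat_lit 26) (nat_lit 5) (nat_lit 31) (nat_lit 5) (nat_lit 27) (nat_lit 5) (nat_lit 328) (nat_lit 322) (nat_lit 250)) (XT.nd (nat_lit 78) (nat_lit 0) (nat_lit 0) (XT.lf (nat_lit 0) (nat_lit 39426969033) (nat_lit 152) (nat_lit 73831939415) (nat_lit 228) (nat_lit 36366775271) (nat_lit 24) (nat_lit 5) (nat_lit 26) (nat_lit 5) (nat_lit 27) (nat_lit 5) (nat_lit 329) (nat_lit 322) (nat_lit 249)) (XT.lf (nat_lit 0) (nat_lit 133523021454) (nat_lit 152) (nat_lit 13786890994) (nat_lit 228) (nat_lit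 15371866129) (nat_lit 24) (nat_lit 5) (nat_lit 26) (nat_lit 5) (nat_lit 27) (nat_lit 5) (nat_lit 330) (nat_lit 322) (nat_lit 248)))) (XT.nd (nat_lit 78) (nat_lit 152) (nat_lit 0) (XT.lf (nat_lit 0) (nat_lit 13328427513) (nat_lit 152) (nat_lit 109755532861) (nat_lit 76) (nat_lit 53757274274) (nat_lit 22) (nat_lit 5) (nat_lit 24) (nat_lit 5) (nat_lit 23) (nat_lit 5) (nat_lit 331) (nat_lit 322) (nat_lit 247)) (XT.nd (nat_lit 78) (nat_lit 152) (nat_lit 0) (XT.lf (nat_lit 0) (nat_lit 47012699339) (nat_lit 152) (nat_lit 13314051437) (nat_lit 76) (nat_lit 132350151903) (nat_lit 22) (nat_lit 5) (nat_lit 24) (nat_lit 5) (nat_lit 23) (nat_lit 5) (nat_lit 332) (nat_lit 322) (nat_lit 246)) (XT.lf (nat_lit 0) (nat_lit 90886809363) (nat_lit 228) (nat_lit 103793862268) (nat_lit 76) (nat_lit 15436670242) (nat_lit 20) (nat_lit 5) (nat_lit 23) (nat_lit 5) (nat_lit 21) (nat_lit 4) (nat_lit 333) (nat_lit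 322) (nat_lit 245))))) (XT.nd (nat_lit 234) (nat_lit 76) (nat_lit 0) (XT.nd (nat_lit 78) (nat_lit 152) (nat_lit 0) (XT.lf (nat_lit 0) (nat_lit 13641335715) (nat_lit 76) (nat_lit 131866880728) (nat_lit 152) (nat_lit 84040703918) (nat_lit 19) (nat_lit 5) (nat_lit 20) (nat_lit 5) (nat_lit 21) (nat_lit 4) (nat_lit 334) (nat_lit 322) (nat_lit 244)) (XT.nd (nat_lit 78) (nat_lit 152) (nat_lit 0) (XT.lf (nat_lit 0) (nat_lit 160356090935) (nat_lit 76) (nat_lit 53391881117) (nat_lit 152) (nat_lit 37333493383) (nat_lit 19) (nat_lit 5) (nat_lit 20) (nat_lit 5) (nat_lit 21) (nat_lit 4) (nat_lit 335) (nat_lit 322) (nat_lit 243)) (XT.lf (nat_lit 0) (nat_lit 18982122268) (nat_lit 152) (nat_lit 219364675808) (nat_lit 76) (nat_lit 36786271667) (nat_lit 17) (nat_lit 5) (nat_lit 19) (nat_lit 5) (nat_lit 18) (nat_lit 4) (nat_lit 336) (nat_lit 322) (nat_lit 242)))) (XT.nd (nat_lit 78) (nat_lit 76) (nat_lit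 0) (XT.lf (nat_lit 0) (nat_lit 87433211154) (nat_lit 152) (nat_lit 72195307682) (nat_lit 76) (nat_lit 141770672914) (nat_lit 17) (nat_lit 5) (nat_lit 19) (nat_lit 5) (nat_lit 18) (nat_lit 4) (nat_lit 337) (nat_lit 322) (nat_lit 241)) (XT.nd (nat_lit 78) (nat_lit 0) (nat_lit 0) (XT.lf (nat_lit 0) (nat_lit 106533179488) (nat_lit 76) (nat_lit 64029751877) (nat_lit 152) (nat_lit 160380655739) (nat_lit 16) (nat_lit 5) (nat_lit 17) (nat_lit 5) (nat_lit 18) (nat_lit 4) (nat_lit 338) (nat_lit 322) (nat_lit 240)) (XT.lf (nat_lit 0) (nat_lit 272016315409) (nat_lit 152) (nat_lit 46250167755) (nat_lit 0) (nat_lit 45775027943) (nat_lit 16) (nat_lit 5) (nat_lit 18) (nat_lit 4) (nat_lit 16) (nat_lit 4) (nat_lit 339) (nat_lit 322) (nat_lit 239))))))))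
noncomputable def xc86 : XT := (XT.nd (nat_lit 1716) (nat_lit 152) (nat_lit 0) (XT.nd (nat_lit 858) (nat_lit 304) (nat_lit 0) (XT.nd (nat_lit 390) (nat_lit 380) (nat_lit 0) (XT.nd (nat_lit 156) (nat_lit 152) (nat_lit 0) (XT.nd (nat_lit 78) (nat_lit 76) (nat_lit 0) (XT.lf (nat_lit 0) (nat_lit 170789388133) (nat_lit 76) (nat_lit 228019089068) (nat_lit 76) (nat_lit 1777531176) (nat_lit 15) (nat_lit 4) (nat_lit 16) (nat_lit 5) (nat_lit 16) (nat_lit 4) (nat_lit 340) (nat_lit 322) (nat_lit 238)) (XT.lf (nat_lit 0) (nat_lit 95458350019) (nat_lit 152) (nat_lit 21006340503) (nat_lit 76) (nat_lit 325134035138) (nat_lit 14) (nat_lit 5) (nat_lit 16) (nat_lit 5) (nat_lit 15) (nat_lit 4) (nat_lit 341) (nat_lit 322) (nat_lit 237))) (XT.nd (nat_lit 78) (nat_lit 76) (nat_lit 0) (XT.lf (nat_lit 0) (nat_lit 218020358599) (nat_lit 152) (nat_lit 247803698992) (nat_lit 0) (nat_lit 21288186837) (nat_lit 13)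 (nat_lit 5) (nat_lit 15) (nat_lit 4) (nat_lit 13) (nat_lit 4) (nat_lit 342) (nat_lit 322) (nat_lit 236)) (XT.nd (nat_lit 78) (nat_lit 76) (nat_lit 0) (XT.lf (nat_lit 0) (nat_lit 365662709251) (nat_lit 152) (nat_lit 3855292878) (nat_lit 0) (nat_lit 168930382871) (nat_lit 13) (nat_lit 5) (nat_lit 15) (nat_lit 4) (nat_lit 13) (nat_lit 4) (nat_lit 343) (nat_lit 322) (nat_lit 235)) (XT.lf (nat_lit 0) (nat_lit 303724627753) (nat_lit 76) (nat_lit 244303161646) (nat_lit 76) (nat_lit 47570700817) (nat_lit 12) (nat_lit 4) (nat_lit 13) (nat_lit 5) (nat_lit 13) (nat_lit 4) (nat_lit 344) (nat_lit 322) (nat_lit 234))))) (XT.nd (nat_lit 234) (nat_lit 228) (nat_lit 0) (XT.nd (nat_lit 78) (nat_lit 76) (nat_lit 0) (XT.lf (nat_lit 0) (nat_lit 88052877370) (nat_lit 152) (nat_lit 7418891395) (nat_lit 76) (nat_lit 565218783134) (nat_lit 11) (nat_lit 5) (nat_lit 13) (nat_lit 5) (nat_lit 12) (nat_lit 4) (nat_lit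 345) (nat_lit 322) (nat_lit 233)) (XT.nd (nat_lit 78) (nat_lit 0) (nat_lit 0) (XT.lf (nat_lit 0) (nat_lit 257507393352) (nat_lit 152) (nat_lit 388510080397) (nat_lit 0) (nat_lit 86435498218) (nat_lit 10) (nat_lit 5) (nat_lit 12) (nat_lit 4) (nat_lit 10) (nat_lit 4) (nat_lit 346) (nat_lit 322) (nat_lit 232)) (XT.lf (nat_lit 0) (nat_lit 457332453534) (nat_lit 152) (nat_lit 70643965018) (nat_lit 0) (nat_lit 286260481528) (nat_lit 10) (nat_lit 5) (nat_lit 12) (nat_lit 4) (nat_lit 10) (nat_lit 4) (nat_lit 347) (nat_lit 322) (nat_lit 231)))) (XT.nd (nat_lit 78) (nat_lit 152) (nat_lit 0) (XT.lf (nat_lit 0) (nat_lit 323721695587) (nat_lit 76) (nat_lit 376814045252) (nat_lit 76) (nat_lit 205742006400) (nat_lit 9) (nat_lit 4) (nat_lit 10) (nat_lit 5) (nat_lit 10) (nat_lit 4) (nat_lit 348) (nat_lit 322) (nat_lit 230)) (XT.nd (nat_lit 78) (nat_lit 152) (nat_lit 0) (XT.lf (nat_lit 0) (nat_lit 785181321995)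 (nat_lit 76) (nat_lit 198730802969) (nat_lit 76) (nat_lit 27658705991) (nat_lit 9) (nat_lit 4) (nat_lit 10) (nat_lit 5) (nat_lit 10) (nat_lit 4) (nat_lit 349) (nat_lit 322) (nat_lit 229)) (XT.lf (nat_lit 0) (nat_lit 170342007297) (nat_lit 152) (nat_lit 938285788478) (nat_lit 0) (nat_lit 21583618147) (nat_lit 7) (nat_lit 5) (nat_lit 9) (nat_lit 4) (nat_lit 7) (nat_lit 4) (nat_lit 350) (nat_lit 322) (nat_lit 228)))))) (XT.nd (nat_lit 390) (nat_lit 228) (nat_lit 0) (XT.nd (nat_lit 156) (nat_lit 76) (nat_lit 0) (XT.nd (nat_lit 78) (nat_lit 0) (nat_lit 0) (XT.lf (nat_lit 0) (nat_lit 417071860718) (nat_lit 152) (nat_lit 577786114438) (nat_lit 0) (nat_lit 268313433349) (nat_lit 7) (nat_lit 5) (nat_lit 9) (nat_lit 4) (nat_lit 7) (nat_lit 4) (nat_lit 351) (nat_lit 322) (nat_lit 227)) (XT.lf (nat_lit 0) (nat_lit 700811075197) (nat_lit 152) (nat_lit 163211730051) (nat_lit 0) (nat_lit 552052614594)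 (nat_lit 7) (nat_lit 5) (nat_lit 9) (nat_lit 4) (nat_lit 7) (nat_lit 4) (nat_lit 352) (nat_lit 322) (nat_lit 226))) (XT.nd (nat_lit 78) (nat_lit 0) (nat_lit 0) (XT.lf (nat_lit 0) (nat_lit 344190852440) (nat_lit 76) (nat_lit 697172426917) (nat_lit 76) (nat_lit 548413937416) (nat_lit 6) (nat_lit 4) (nat_lit 7) (nat_lit 5) (nat_lit 7) (nat_lit 4) (nat_lit 353) (nat_lit 322) (nat_lit 225)) (XT.nd (nat_lit 78) (nat_lit 0) (nat_lit 0) (XT.lf (nat_lit 0) (nat_lit 946046395309) (nat_lit 76) (nat_lit 495483344376) (nat_lit 76) (nat_lit 346724829745) (nat_lit 6) (nat_lit 4) (nat_lit 7) (nat_lit 5) (nat_lit 7) (nat_lit 4) (nat_lit 354) (nat_lit 322) (nat_lit 224)) (XT.lf (nat_lit 0) (nat_lit 1638180095834) (nat_lit 76) (nat_lit 263540989131) (nat_lit 76) (nat_lit 114782452648) (nat_lit 6) (nat_lit 4) (nat_lit 7) (nat_lit 5) (nat_lit 7) (nat_lit 4) (nat_lit 355) (nat_lit 322) (nat_lit 223))))) (XT.nd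 (nat_lit 234) (nat_lit 76) (nat_lit 0) (XT.nd (nat_lit 78) (nat_lit 0) (nat_lit 0) (XT.lf (nat_lit 0) (nat_lit 145943452893) (nat_lit 152) (nat_lit 2114386425262) (nat_lit 0) (nat_lit 16588187254) (nat_lit 4) (nat_lit 5) (nat_lit 6) (nat_lit 4) (nat_lit 4) (nat_lit 4) (nat_lit 356) (nat_lit 322) (nat_lit 222)) (XT.nd (nat_lit 78) (nat_lit 0) (nat_lit 0) (XT.lf (nat_lit 0) (nat_lit 467293914499) (nat_lit 152) (nat_lit 1765352267672) (nat_lit 0) (nat_lit 337938634493) (nat_lit 4) (nat_lit 5) (nat_lit 6) (nat_lit 4) (nat_lit 4) (nat_lit 4) (nat_lit 357) (nat_lit 322) (nat_lit 221)) (XT.lf (nat_lit 0) (nat_lit 836846879132) (nat_lit 152) (nat_lit 1363963124784) (nat_lit 0) (nat_lit 707491586632) (nat_lit 4) (nat_lit 5) (nat_lit 6) (nat_lit 4) (nat_lit 4) (nat_lit 4) (nat_lit 358) (nat_lit 322) (nat_lit 220)))) (XT.nd (nat_lit 78) (nat_lit 76) (nat_lit 0) (XT.lf (nat_lit 0) (nat_lit 1261832730883)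 (nat_lit 152) (nat_lit 902365730758) (nat_lit 0) (nat_lit 1132477427518) (nat_lit 4) (nat_lit 5) (nat_lit 6) (nat_lit 4) (nat_lit 4) (nat_lit 4) (nat_lit 359) (nat_lit 322) (nat_lit 219)) (XT.nd (nat_lit 78) (nat_lit 76) (nat_lit 0) (XT.lf (nat_lit 0) (nat_lit 1750566410328) (nat_lit 152) (nat_lit 371528832233) (nat_lit 0) (nat_lit 1621211097516) (nat_lit 4) (nat_lit 5) (nat_lit 6) (nat_lit 4) (nat_lit 4) (nat_lit 4) (nat_lit 360) (nat_lit 322) (nat_lit 218)) (XT.lf (nat_lit 0) (nat_lit 262283830414) (nat_lit 76) (nat_lit 2061186881835) (nat_lit 76) (nat_lit 1931831560808) (nat_lit 3) (nat_lit 4) (nat_lit 4) (nat_lit 5) (nat_lit 4) (nat_lit 4) (nat_lit 361) (nat_lit 322) (nat_lit 217))))))) (XT.nd (nat_lit 858) (nat_lit 0) (nat_lit 0) (XT.nd (nat_lit 390) (nat_lit 152) (nat_lit 0) (XT.nd (nat_lit 156) (nat_lit 0) (nat_lit 0) (XT.nd (nat_lit 78) (nat_lit 0) (nat_lit 0) (XT.lf (nat_lit 0)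 (nat_lit 1032923080073) (nat_lit 76) (nat_lit 1968808363252) (nat_lit 76) (nat_lit 1839453035082) (nat_lit 3) (nat_lit 4) (nat_lit 4) (nat_lit 5) (nat_lit 4) (nat_lit 4) (nat_lit 362) (nat_lit 322) (nat_lit 216)) (XT.lf (nat_lit 0) (nat_lit 1919158141681) (nat_lit 76) (nat_lit 1862573106336) (nat_lit 76) (nat_lit 1733217771955) (nat_lit 3) (nat_lit 4) (nat_lit 4) (nat_lit 5) (nat_lit 4) (nat_lit 4) (nat_lit 363) (nat_lit 322) (nat_lit 215))) (XT.nd (nat_lit 78) (nat_lit 0) (nat_lit 0) (XT.lf (nat_lit 0) (nat_lit 2938328396876) (nat_lit 76) (nat_lit 1740402595192) (nat_lit 76) (nat_lit 1611047255408) (nat_lit 3) (nat_lit 4) (nat_lit 4) (nat_lit 5) (nat_lit 4) (nat_lit 4) (nat_lit 364) (nat_lit 322) (nat_lit 214)) (XT.nd (nat_lit 78) (nat_lit 0) (nat_lit 0) (XT.lf (nat_lit 0) (nat_lit 4110374133261) (nat_lit 76) (nat_lit 1599906537209) (nat_lit 76) (nat_lit 1470551192728) (nat_lit 3) (nat_lit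 4) (nat_lit 4) (nat_lit 5) (nat_lit 4) (nat_lit 4) (nat_lit 365) (nat_lit 322) (nat_lit 213)) (XT.lf (nat_lit 0) (nat_lit 5458226680461) (nat_lit 76) (nat_lit 1438336096470) (nat_lit 76) (nat_lit 1308980747906) (nat_lit 3) (nat_lit 4) (nat_lit 4) (nat_lit 5) (nat_lit 4) (nat_lit 4) (nat_lit 366) (nat_lit 322) (nat_lit 212))))) (XT.nd (nat_lit 234) (nat_lit 152) (nat_lit 0) (XT.nd (nat_lit 78) (nat_lit 0) (nat_lit 0) (XT.lf (nat_lit 0) (nat_lit 7008257066572) (nat_lit 76) (nat_lit 1252530112179) (nat_lit 76) (nat_lit 1123174760063) (nat_lit 3) (nat_lit 4) (nat_lit 4) (nat_lit 5) (nat_lit 4) (nat_lit 4) (nat_lit 367) (nat_lit 322) (nat_lit 211)) (XT.nd (nat_lit 78) (nat_lit 0) (nat_lit 0) (XT.lf (nat_lit 0) (nat_lit 8790791973062) (nat_lit 76) (nat_lit 1038853249861) (nat_lit 76) (nat_lit 909497894656) (nat_lit 3) (nat_lit 4) (nat_lit 4) (nat_lit 5) (nat_lit 4) (nat_lit 4) (nat_lit 368)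 (nat_lit 322) (nat_lit 210)) (XT.lf (nat_lit 0) (nat_lit 10840707082885) (nat_lit 76) (nat_lit 793124875252) (nat_lit 76) (nat_lit 663769517362) (nat_lit 3) (nat_lit 4) (nat_lit 4) (nat_lit 5) (nat_lit 4) (nat_lit 4) (nat_lit 369) (nat_lit 322) (nat_lit 209)))) (XT.nd (nat_lit 78) (nat_lit 152) (nat_lit 0) (XT.lf (nat_lit 0) (nat_lit 13198109430797) (nat_lit 76) (nat_lit 510537259284) (nat_lit 76) (nat_lit 381181899059) (nat_lit 3) (nat_lit 4) (nat_lit 4) (nat_lit 5) (nat_lit 4) (nat_lit 4) (nat_lit 370) (nat_lit 322) (nat_lit 208)) (XT.nd (nat_lit 78) (nat_lit 152) (nat_lit 0) (XT.lf (nat_lit 0) (nat_lit 15909122106215) (nat_lit 76) (nat_lit 185561513818) (nat_lit 76) (nat_lit 56206151563) (nat_lit 3) (nat_lit 4) (nat_lit 4) (nat_lit 5) (nat_lit 4) (nat_lit 4) (nat_lit 371) (nat_lit 322) (nat_lit 207)) (XT.lf (nat_lit 0) (nat_lit 321119644225) (nat_lit 152) (nat_lit 17984600946539) (nat_lit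 0) (nat_lit 208636718989) (nat_lit 1) (nat_lit 5) (nat_lit 3) (nat_lit 4) (nat_lit 1) (nat_lit 4) (nat_lit 372) (nat_lit 322) (nat_lit 206)))))) (XT.nd (nat_lit 390) (nat_lit 0) (nat_lit 0) (XT.nd (nat_lit 156) (nat_lit 0) (nat_lit 0) (XT.nd (nat_lit 78) (nat_lit 0) (nat_lit 0) (XT.lf (nat_lit 0) (nat_lit 771365779792) (nat_lit 152) (nat_lit 19798383486648) (nat_lit 0) (nat_lit 658882853221) (nat_lit 1) (nat_lit 5) (nat_lit 3) (nat_lit 4) (nat_lit 1) (nat_lit 4) (nat_lit 373) (nat_lit 322) (nat_lit 205)) (XT.lf (nat_lit 0) (nat_lit 1289148826398) (nat_lit 152) (nat_lit 21884233427388) (nat_lit 0) (nat_lit 1176665898666) (nat_lit 1) (nat_lit 5) (nat_lit 3) (nat_lit 4) (nat_lit 1) (nat_lit 4) (nat_lit 374) (nat_lit 322) (nat_lit 204))) (XT.nd (nat_lit 78) (nat_lit 0) (nat_lit 0) (XT.lf (nat_lit 0) (nat_lit 1884599321909) (nat_lit 152) (nat_lit 24282960876297) (nat_lit 0) (nat_lit 1772116393168)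 (nat_lit 1) (nat_lit 5) (nat_lit 3) (nat_lit 4) (nat_lit 1) (nat_lit 4) (nat_lit 375) (nat_lit 322) (nat_lit 203)) (XT.nd (nat_lit 78) (nat_lit 0) (nat_lit 0) (XT.lf (nat_lit 0) (nat_lit 2569367384718) (nat_lit 152) (nat_lit 27041497457373) (nat_lit 0) (nat_lit 2456884455099) (nat_lit 1) (nat_lit 5) (nat_lit 3) (nat_lit 4) (nat_lit 1) (nat_lit 4) (nat_lit 376) (nat_lit 322) (nat_lit 202)) (XT.lf (nat_lit 0) (nat_lit 3356850650835) (nat_lit 152) (nat_lit 30213814538508) (nat_lit 0) (nat_lit 3244367720452) (nat_lit 1) (nat_lit 5) (nat_lit 3) (nat_lit 4) (nat_lit 1) (nat_lit 4) (nat_lit 377) (nat_lit 322) (nat_lit 201))))) (XT.nd (nat_lit 234) (nat_lit 0) (nat_lit 0) (XT.nd (nat_lit 78) (nat_lit 0) (nat_lit 0) (XT.lf (nat_lit 0) (nat_lit 4262456401554) (nat_lit 152) (nat_lit 33861979193028) (nat_lit 0) (nat_lit 4149973470507) (nat_lit 1) (nat_lit 5) (nat_lit 3) (nat_lit 4) (nat_lit 1) (nat_lit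 4) (nat_lit 378) (nat_lit 322) (nat_lit 200)) (XT.nd (nat_lit 78) (nat_lit 0) (nat_lit 0) (XT.lf (nat_lit 0) (nat_lit 5303903010258) (nat_lit 152) (nat_lit 38057368555479) (nat_lit 0) (nat_lit 5191420078634) (nat_lit 1) (nat_lit 5) (nat_lit 3) (nat_lit 4) (nat_lit 1) (nat_lit 4) (nat_lit 379) (nat_lit 322) (nat_lit 199)) (XT.lf (nat_lit 0) (nat_lit 6501566606249) (nat_lit 152) (nat_lit 42882066330777) (nat_lit 0) (nat_lit 6389083674123) (nat_lit 1) (nat_lit 5) (nat_lit 3) (nat_lit 4) (nat_lit 1) (nat_lit 4) (nat_lit 380) (nat_lit 322) (nat_lit 198)))) (XT.nd (nat_lit 78) (nat_lit 0) (nat_lit 0) (XT.lf (nat_lit 0) (nat_lit 7878879738143) (nat_lit 152) (nat_lit 48430468779745) (nat_lit 0) (nat_lit 7766396805581) (nat_lit 1) (nat_lit 5) (nat_lit 3) (nat_lit 4) (nat_lit 1) (nat_lit 4) (nat_lit 381) (nat_lit 322) (nat_lit 197)) (XT.nd (nat_lit 78) (nat_lit 0) (nat_lit 0) (XT.lf (nat_lit 0)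 (nat_lit 9462789836782) (nat_lit 152) (nat_lit 54811131602469) (nat_lit 0) (nat_lit 9350306903840) (nat_lit 1) (nat_lit 5) (nat_lit 3) (nat_lit 4) (nat_lit 1) (nat_lit 4) (nat_lit 382) (nat_lit 322) (nat_lit 196)) (XT.lf (nat_lit 0) (nat_lit 11284286447574) (nat_lit 152) (nat_lit 62148893854178) (nat_lit 0) (nat_lit 11171803514302) (nat_lit 1) (nat_lit 5) (nat_lit 3) (nat_lit 4) (nat_lit 1) (nat_lit 4) (nat_lit 383) (nat_lit 322) (nat_lit 195))))))))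
noncomputable def xc87 : XT := (XT.nd (nat_lit 43602) (nat_lit 0) (nat_lit 152) (XT.nd (nat_lit 42744) (nat_lit 0) (nat_lit 1064) (XT.nd (nat_lit 42276) (nat_lit 0) (nat_lit 1748) (XT.nd (nat_lit 156) (nat_lit 0) (nat_lit 0) (XT.nd (nat_lit 78) (nat_lit 0) (nat_lit 0) (XT.lf (nat_lit 0) (nat_lit 13379007547687) (nat_lit 152) (nat_lit 70587320448492) (nat_lit 0) (nat_lit 13266524614128) (nat_lit 1) (nat_lit 5) (nat_lit 3) (nat_lit 4) (nat_lit 1) (nat_lit 4) (nat_lit 384) (nat_lit 322) (nat_lit 194)) (XT.lf (nat_lit 0) (nat_lit 15787936810818) (nat_lit 152) (nat_lit 80291511036169) (nat_lit 0) (nat_lit 15675453877009) (nat_lit 1) (nat_lit 5) (nat_lit 3) (nat_lit 4) (nat_lit 1) (nat_lit 4) (nat_lit 385) (nat_lit 322) (nat_lit 193))) (XT.nd (nat_lit 41964) (nat_lit 0) (nat_lit 2052) (XT.lf (nat_lit 0) (nat_lit 18558205461681) (nat_lit 152) (nat_lit 91451330215664) (nat_lit 0) (nat_lit 18445722527656)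 (nat_lit 1) (nat_lit 5) (nat_lit 3) (nat_lit 4) (nat_lit 1) (nat_lit 4) (nat_lit 386) (nat_lit 322) (nat_lit 192)) (XT.nd (nat_lit 78) (nat_lit 0) (nat_lit 0) (XT.lf (nat_lit 0) (nat_lit 12204866335) (nat_lit 380) (nat_lit 19157846315) (nat_lit 380) (nat_lit 19157846315) (nat_lit 28) (nat_lit 3) (nat_lit 33) (nat_lit 3) (nat_lit 33) (nat_lit 5) (nat_lit 323) (nat_lit 323) (nat_lit 254)) (XT.lf (nat_lit 76) (nat_lit 11767959497) (nat_lit 0) (nat_lit 14965681502) (nat_lit 380) (nat_lit 81811574190) (nat_lit 29) (nat_lit 5) (nat_lit 28) (nat_lit 3) (nat_lit 33) (nat_lit 5) (nat_lit 324) (nat_lit 323) (nat_lit 253))))) (XT.nd (nat_lit 234) (nat_lit 380) (nat_lit 0) (XT.nd (nat_lit 78) (nat_lit 0) (nat_lit 0) (XT.lf (nat_lit 0) (nat_lit 33157892962) (nat_lit 304) (nat_lit 44954971011) (nat_lit 380) (nat_lit 38499301204) (nat_lit 29) (nat_lit 5) (nat_lit 33) (nat_lit 5) (nat_lit 34) (nat_lit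 5) (nat_lit 325) (nat_lit 323) (nat_lit 252)) (XT.nd (nat_lit 78) (nat_lit 0) (nat_lit 76) (XT.lf (nat_lit 76) (nat_lit 15288345613) (nat_lit 0) (nat_lit 26602225107) (nat_lit 380) (nat_lit 83796870265) (nat_lit 30) (nat_lit 5) (nat_lit 29) (nat_lit 5) (nat_lit 34) (nat_lit 5) (nat_lit 326) (nat_lit 323) (nat_lit 251)) (XT.lf (nat_lit 0) (nat_lit 55745491403) (nat_lit 304) (nat_lit 47615113314) (nat_lit 76) (nat_lit 32191553581) (nat_lit 30) (nat_lit 5) (nat_lit 34) (nat_lit 5) (nat_lit 31) (nat_lit 5) (nat_lit 327) (nat_lit 323) (nat_lit 250)))) (XT.nd (nat_lit 78) (nat_lit 152) (nat_lit 0) (XT.lf (nat_lit 0) (nat_lit 25597869871) (nat_lit 304) (nat_lit 48406788986) (nat_lit 380) (nat_lit 72543024203) (nat_lit 26) (nat_lit 5) (nat_lit 30) (nat_lit 5) (nat_lit 31) (nat_lit 5) (nat_lit 328) (nat_lit 323) (nat_lit 249)) (XT.nd (nat_lit 78) (nat_lit 152) (nat_lit 0) (XT.lf (nat_lit 0) (nat_lit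 98221968435) (nat_lit 380) (nat_lit 44406837063) (nat_lit 76) (nat_lit 16080841988) (nat_lit 26) (nat_lit 5) (nat_lit 31) (nat_lit 5) (nat_lit 27) (nat_lit 5) (nat_lit 329) (nat_lit 323) (nat_lit 248)) (XT.lf (nat_lit 0) (nat_lit 45349106720) (nat_lit 152) (nat_lit 84905094234) (nat_lit 228) (nat_lit 41814357517) (nat_lit 24) (nat_lit 5) (nat_lit 26) (nat_lit 5) (nat_lit 27) (nat_lit 5) (nat_lit 330) (nat_lit 323) (nat_lit 247)))))) (XT.nd (nat_lit 390) (nat_lit 304) (nat_lit 0) (XT.nd (nat_lit 156) (nat_lit 228) (nat_lit 0) (XT.nd (nat_lit 78) (nat_lit 152) (nat_lit 0) (XT.lf (nat_lit 0) (nat_lit 153558511482) (nat_lit 152) (nat_lit 15853501953) (nat_lit 228) (nat_lit 17671181662) (nat_lit 24) (nat_lit 5) (nat_lit 26) (nat_lit 5) (nat_lit 27) (nat_lit 5) (nat_lit 331) (nat_lit 323) (nat_lit 246)) (XT.lf (nat_lit 0) (nat_lit 15333190220) (nat_lit 152) (nat_lit 126210846927) (nat_lit 76)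 (nat_lit 61822551749) (nat_lit 22) (nat_lit 5) (nat_lit 24) (nat_lit 5) (nat_lit 23) (nat_lit 5) (nat_lit 332) (nat_lit 323) (nat_lit 245))) (XT.nd (nat_lit 78) (nat_lit 228) (nat_lit 0) (XT.lf (nat_lit 0) (nat_lit 54069385615) (nat_lit 152) (nat_lit 15304188836) (nat_lit 76) (nat_lit 152204141066) (nat_lit 22) (nat_lit 5) (nat_lit 24) (nat_lit 5) (nat_lit 23) (nat_lit 5) (nat_lit 333) (nat_lit 323) (nat_lit 244)) (XT.nd (nat_lit 78) (nat_lit 76) (nat_lit 0) (XT.lf (nat_lit 0) (nat_lit 104524355927) (nat_lit 228) (nat_lit 119355710419) (nat_lit 76) (nat_lit 17754193375) (nat_lit 20) (nat_lit 5) (nat_lit 23) (nat_lit 5) (nat_lit 21) (nat_lit 4) (nat_lit 334) (nat_lit 323) (nat_lit 243)) (XT.lf (nat_lit 0) (nat_lit 15694438572) (nat_lit 76) (nat_lit 151644231077) (nat_lit 152) (nat_lit 96641951604) (nat_lit 19) (nat_lit 5) (nat_lit 20) (nat_lit 5) (nat_lit 21) (nat_lit 4) (nat_lit 335) (nat_lit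 323) (nat_lit 242))))) (XT.nd (nat_lit 234) (nat_lit 152) (nat_lit 0) (XT.nd (nat_lit 78) (nat_lit 152) (nat_lit 0) (XT.lf (nat_lit 0) (nat_lit 184415506749) (nat_lit 76) (nat_lit 61398331319) (nat_lit 152) (nat_lit 42929293128) (nat_lit 19) (nat_lit 5) (nat_lit 20) (nat_lit 5) (nat_lit 21) (nat_lit 4) (nat_lit 336) (nat_lit 323) (nat_lit 241)) (XT.nd (nat_lit 78) (nat_lit 0) (nat_lit 0) (XT.lf (nat_lit 0) (nat_lit 21833142306) (nat_lit 152) (nat_lit 252262846714) (nat_lit 76) (nat_lit 42306483266) (nat_lit 17) (nat_lit 5) (nat_lit 19) (nat_lit 5) (nat_lit 18) (nat_lit 4) (nat_lit 337) (nat_lit 323) (nat_lit 240)) (XT.lf (nat_lit 0) (nat_lit 100551411694) (nat_lit 152) (nat_lit 83018925169) (nat_lit 76) (nat_lit 163038248502) (nat_lit 17) (nat_lit 5) (nat_lit 19) (nat_lit 5) (nat_lit 18) (nat_lit 4) (nat_lit 338) (nat_lit 323) (nat_lit 239)))) (XT.nd (nat_lit 78) (nat_lit 76) (nat_lit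 0) (XT.lf (nat_lit 0) (nat_lit 122518576956) (nat_lit 76) (nat_lit 73631817582) (nat_lit 152) (nat_lit 184434275097) (nat_lit 16) (nat_lit 5) (nat_lit 17) (nat_lit 5) (nat_lit 18) (nat_lit 4) (nat_lit 339) (nat_lit 323) (nat_lit 238)) (XT.nd (nat_lit 78) (nat_lit 76) (nat_lit 0) (XT.lf (nat_lit 0) (nat_lit 312821478135) (nat_lit 152) (nat_lit 53182669595) (nat_lit 0) (nat_lit 52643180980) (nat_lit 16) (nat_lit 5) (nat_lit 18) (nat_lit 4) (nat_lit 16) (nat_lit 4) (nat_lit 340) (nat_lit 323) (nat_lit 237)) (XT.lf (nat_lit 0) (nat_lit 196412591343) (nat_lit 76) (nat_lit 262219717218) (nat_lit 76) (nat_lit 2041215582) (nat_lit 15) (nat_lit 4) (nat_lit 16) (nat_lit 5) (nat_lit 16) (nat_lit 4) (nat_lit 341) (nat_lit 323) (nat_lit 236))))))) (XT.nd (nat_lit 858) (nat_lit 304) (nat_lit 0) (XT.nd (nat_lit 390) (nat_lit 304) (nat_lit 0) (XT.nd (nat_lit 156) (nat_lit 152) (nat_lit 0) (XT.nd (nat_lit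 78) (nat_lit 76) (nat_lit 0) (XT.lf (nat_lit 0) (nat_lit 109779435619) (nat_lit 152) (nat_lit 24152892863) (nat_lit 76) (nat_lit 373905854911) (nat_lit 14) (nat_lit 5) (nat_lit 16) (nat_lit 5) (nat_lit 15) (nat_lit 4) (nat_lit 342) (nat_lit 323) (nat_lit 235)) (XT.lf (nat_lit 0) (nat_lit 250725697687) (nat_lit 152) (nat_lit 284969806324) (nat_lit 0) (nat_lit 24483233285) (nat_lit 13) (nat_lit 5) (nat_lit 15) (nat_lit 4) (nat_lit 13) (nat_lit 4) (nat_lit 343) (nat_lit 323) (nat_lit 234))) (XT.nd (nat_lit 78) (nat_lit 152) (nat_lit 0) (XT.lf (nat_lit 0) (nat_lit 420514102854) (nat_lit 152) (nat_lit 4429719404) (nat_lit 0) (nat_lit 194271521539) (nat_lit 13) (nat_lit 5) (nat_lit 15) (nat_lit 4) (nat_lit 13) (nat_lit 4) (nat_lit 344) (nat_lit 323) (nat_lit 233)) (XT.nd (nat_lit 78) (nat_lit 76) (nat_lit 0) (XT.lf (nat_lit 0) (nat_lit 349287013530) (nat_lit 76) (nat_lit 280946825154) (nat_lit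 76) (nat_lit 54704142176) (nat_lit 12) (nat_lit 4) (nat_lit 13) (nat_lit 5) (nat_lit 13) (nat_lit 4) (nat_lit 345) (nat_lit 323) (nat_lit 232)) (XT.lf (nat_lit 0) (nat_lit 101262523002) (nat_lit 152) (nat_lit 8528346925) (nat_lit 76) (nat_lit 650003007080) (nat_lit 11) (nat_lit 5) (nat_lit 13) (nat_lit 5) (nat_lit 12) (nat_lit 4) (nat_lit 346) (nat_lit 323) (nat_lit 231))))) (XT.nd (nat_lit 234) (nat_lit 152) (nat_lit 0) (XT.nd (nat_lit 78) (nat_lit 76) (nat_lit 0) (XT.lf (nat_lit 0) (nat_lit 296135192618) (nat_lit 152) (nat_lit 446783190015) (nat_lit 0) (nat_lit 99402281093) (nat_lit 10) (nat_lit 5) (nat_lit 12) (nat_lit 4) (nat_lit 10) (nat_lit 4) (nat_lit 347) (nat_lit 323) (nat_lit 230)) (XT.nd (nat_lit 78) (nat_lit 76) (nat_lit 0) (XT.lf (nat_lit 0) (nat_lit 525933791357) (nat_lit 152) (nat_lit 81237601125) (nat_lit 0) (nat_lit 329200821707) (nat_lit 10) (nat_lit 5) (nat_lit 12) (nat_lit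 4) (nat_lit 10) (nat_lit 4) (nat_lit 348) (nat_lit 323) (nat_lit 229)) (XT.lf (nat_lit 0) (nat_lit 372282774087) (nat_lit 76) (nat_lit 433334722902) (nat_lit 76) (nat_lit 236601702707) (nat_lit 9) (nat_lit 4) (nat_lit 10) (nat_lit 5) (nat_lit 10) (nat_lit 4) (nat_lit 349) (nat_lit 323) (nat_lit 228)))) (XT.nd (nat_lit 78) (nat_lit 152) (nat_lit 0) (XT.lf (nat_lit 0) (nat_lit 902960976087) (nat_lit 76) (nat_lit 228539180686) (nat_lit 76) (nat_lit 31806116539) (nat_lit 9) (nat_lit 4) (nat_lit 10) (nat_lit 5) (nat_lit 10) (nat_lit 4) (nat_lit 350) (nat_lit 323) (nat_lit 227)) (XT.nd (nat_lit 78) (nat_lit 0) (nat_lit 0) (XT.lf (nat_lit 0) (nat_lit 195894567703) (nat_lit 152) (nat_lit 1079026064386) (nat_lit 0) (nat_lit 24822304777) (nat_lit 7) (nat_lit 5) (nat_lit 9) (nat_lit 4) (nat_lit 7) (nat_lit 4) (nat_lit 351) (nat_lit 323) (nat_lit 226)) (XT.lf (nat_lit 0) (nat_lit 479633734880) (nat_lit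 152) (nat_lit 664451777375) (nat_lit 0) (nat_lit 308561443054) (nat_lit 7) (nat_lit 5) (nat_lit 9) (nat_lit 4) (nat_lit 7) (nat_lit 4) (nat_lit 352) (nat_lit 323) (nat_lit 225)))))) (XT.nd (nat_lit 468) (nat_lit 76) (nat_lit 0) (XT.nd (nat_lit 234) (nat_lit 152) (nat_lit 0) (XT.nd (nat_lit 78) (nat_lit 76) (nat_lit 0) (XT.lf (nat_lit 0) (nat_lit 805933688697) (nat_lit 152) (nat_lit 187691529360) (nat_lit 0) (nat_lit 634861371742) (nat_lit 7) (nat_lit 5) (nat_lit 9) (nat_lit 4) (nat_lit 7) (nat_lit 4) (nat_lit 353) (nat_lit 323) (nat_lit 224)) (XT.nd (nat_lit 78) (nat_lit 0) (nat_lit 0) (XT.lf (nat_lit 0) (nat_lit 395821351405) (nat_lit 76) (nat_lit 801747325352) (nat_lit 76) (nat_lit 630674986545) (nat_lit 6) (nat_lit 4) (nat_lit 7) (nat_lit 5) (nat_lit 7) (nat_lit 4) (nat_lit 354) (nat_lit 323) (nat_lit 223)) (XT.lf (nat_lit 0) (nat_lit 1087954981648) (nat_lit 76) (nat_lit 569805006377)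 (nat_lit 76) (nat_lit 398732648569) (nat_lit 6) (nat_lit 4) (nat_lit 7) (nat_lit 5) (nat_lit 7) (nat_lit 4) (nat_lit 355) (nat_lit 323) (nat_lit 222)))) (XT.nd (nat_lit 78) (nat_lit 152) (nat_lit 0) (XT.lf (nat_lit 0) (nat_lit 1883908525030) (nat_lit 76) (nat_lit 303071407366) (nat_lit 76) (nat_lit 131999033034) (nat_lit 6) (nat_lit 4) (nat_lit 7) (nat_lit 5) (nat_lit 7) (nat_lit 4) (nat_lit 356) (nat_lit 323) (nat_lit 221)) (XT.nd (nat_lit 78) (nat_lit 0) (nat_lit 0) (XT.lf (nat_lit 0) (nat_lit 167835683786) (nat_lit 152) (nat_lit 2431542899480) (nat_lit 0) (nat_lit 19077084917) (nat_lit 4) (nat_lit 5) (nat_lit 6) (nat_lit 4) (nat_lit 4) (nat_lit 4) (nat_lit 357) (nat_lit 323) (nat_lit 220)) (XT.lf (nat_lit 0) (nat_lit 537388621639) (nat_lit 152) (nat_lit 2030153812543) (nat_lit 0) (nat_lit 388630011905) (nat_lit 4) (nat_lit 5) (nat_lit 6) (nat_lit 4) (nat_lit 4) (nat_lit 4) (nat_lit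 358) (nat_lit 323) (nat_lit 219))))) (XT.nd (nat_lit 234) (nat_lit 76) (nat_lit 0) (XT.nd (nat_lit 78) (nat_lit 0) (nat_lit 0) (XT.lf (nat_lit 0) (nat_lit 962374450102) (nat_lit 152) (nat_lit 1568556467171) (nat_lit 0) (nat_lit 813615830921) (nat_lit 4) (nat_lit 5) (nat_lit 6) (nat_lit 4) (nat_lit 4) (nat_lit 4) (nat_lit 359) (nat_lit 323) (nat_lit 218)) (XT.nd (nat_lit 78) (nat_lit 0) (nat_lit 0) (XT.lf (nat_lit 0) (nat_lit 1451108109298) (nat_lit 152) (nat_lit 1037719610954) (nat_lit 0) (nat_lit 1302349481902) (nat_lit 4) (nat_lit 5) (nat_lit 6) (nat_lit 4) (nat_lit 4) (nat_lit 4) (nat_lit 360) (nat_lit 323) (nat_lit 217)) (XT.lf (nat_lit 0) (nat_lit 2013151779515) (nat_lit 152) (nat_lit 427257305401) (nat_lit 0) (nat_lit 1864393144975) (nat_lit 4) (nat_lit 5) (nat_lit 6) (nat_lit 4) (nat_lit 4) (nat_lit 4) (nat_lit 361) (nat_lit 323) (nat_lit 216)))) (XT.nd (nat_lit 78) (nat_lit 0)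 (nat_lit 0) (XT.lf (nat_lit 0) (nat_lit 301627217931) (nat_lit 76) (nat_lit 2370364489285) (nat_lit 76) (nat_lit 2221605848534) (nat_lit 3) (nat_lit 4) (nat_lit 4) (nat_lit 5) (nat_lit 4) (nat_lit 4) (nat_lit 362) (nat_lit 323) (nat_lit 215)) (XT.nd (nat_lit 78) (nat_lit 0) (nat_lit 0) (XT.lf (nat_lit 0) (nat_lit 1187862249002) (nat_lit 76) (nat_lit 2264129248327) (nat_lit 76) (nat_lit 2115370602174) (nat_lit 3) (nat_lit 4) (nat_lit 4) (nat_lit 5) (nat_lit 4) (nat_lit 4) (nat_lit 363) (nat_lit 323) (nat_lit 214)) (XT.lf (nat_lit 0) (nat_lit 2207032477644) (nat_lit 76) (nat_lit 2141958751058) (nat_lit 76) (nat_lit 1993200100209) (nat_lit 3) (nat_lit 4) (nat_lit 4) (nat_lit 5) (nat_lit 4) (nat_lit 4) (nat_lit 364) (nat_lit 323) (nat_lit 213))))))))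
noncomputable def xc88 : XT := (XT.nd (nat_lit 1716) (nat_lit 0) (nat_lit 0) (XT.nd (nat_lit 858) (nat_lit 0) (nat_lit 0) (XT.nd (nat_lit 390) (nat_lit 152) (nat_lit 0) (XT.nd (nat_lit 156) (nat_lit 0) (nat_lit 0) (XT.nd (nat_lit 78) (nat_lit 0) (nat_lit 0) (XT.lf (nat_lit 0) (nat_lit 3379078190939) (nat_lit 76) (nat_lit 2001462705141) (nat_lit 76) (nat_lit 1852704050207) (nat_lit 3) (nat_lit 4) (nat_lit 4) (nat_lit 5) (nat_lit 4) (nat_lit 4) (nat_lit 365) (nat_lit 323) (nat_lit 212)) (XT.lf (nat_lit 0) (nat_lit 4726930718060) (nat_lit 76) (nat_lit 1839892274895) (nat_lit 76) (nat_lit 1691133616410) (nat_lit 3) (nat_lit 4) (nat_lit 4) (nat_lit 5) (nat_lit 4) (nat_lit 4) (nat_lit 366) (nat_lit 323) (nat_lit 211))) (XT.nd (nat_lit 78) (nat_lit 0) (nat_lit 0) (XT.lf (nat_lit 0) (nat_lit 6276961086712) (nat_lit 76) (nat_lit 1654086299727) (nat_lit 76) (nat_lit 1505327638154) (nat_lit 3) (nat_lit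 4) (nat_lit 4) (nat_lit 5) (nat_lit 4) (nat_lit 4) (nat_lit 367) (nat_lit 323) (nat_lit 210)) (XT.nd (nat_lit 78) (nat_lit 0) (nat_lit 0) (XT.lf (nat_lit 0) (nat_lit 8059495978021) (nat_lit 76) (nat_lit 1440409445342) (nat_lit 76) (nat_lit 1291650781084) (nat_lit 3) (nat_lit 4) (nat_lit 4) (nat_lit 5) (nat_lit 4) (nat_lit 4) (nat_lit 368) (nat_lit 323) (nat_lit 209)) (XT.lf (nat_lit 0) (nat_lit 10109411074642) (nat_lit 76) (nat_lit 1194681077632) (nat_lit 76) (nat_lit 1045922411038) (nat_lit 3) (nat_lit 4) (nat_lit 4) (nat_lit 5) (nat_lit 4) (nat_lit 4) (nat_lit 369) (nat_lit 323) (nat_lit 208))))) (XT.nd (nat_lit 234) (nat_lit 152) (nat_lit 0) (XT.nd (nat_lit 78) (nat_lit 0) (nat_lit 0) (XT.lf (nat_lit 0) (nat_lit 12466813411074) (nat_lit 76) (nat_lit 912093467663) (nat_lit 76) (nat_lit 763334799039) (nat_lit 3) (nat_lit 4) (nat_lit 4) (nat_lit 5) (nat_lit 4) (nat_lit 4) (nat_lit 370)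 (nat_lit 323) (nat_lit 207)) (XT.nd (nat_lit 78) (nat_lit 0) (nat_lit 0) (XT.lf (nat_lit 0) (nat_lit 15177826076510) (nat_lit 76) (nat_lit 587117727414) (nat_lit 76) (nat_lit 438359057024) (nat_lit 3) (nat_lit 4) (nat_lit 4) (nat_lit 5) (nat_lit 4) (nat_lit 4) (nat_lit 371) (nat_lit 323) (nat_lit 206)) (XT.lf (nat_lit 0) (nat_lit 18295490623098) (nat_lit 76) (nat_lit 213395635881) (nat_lit 76) (nat_lit 64636963955) (nat_lit 3) (nat_lit 4) (nat_lit 4) (nat_lit 5) (nat_lit 4) (nat_lit 4) (nat_lit 372) (nat_lit 323) (nat_lit 205)))) (XT.nd (nat_lit 78) (nat_lit 0) (nat_lit 0) (XT.lf (nat_lit 0) (nat_lit 369287690965) (nat_lit 152) (nat_lit 20682290877315) (nat_lit 0) (nat_lit 239932322912) (nat_lit 1) (nat_lit 5) (nat_lit 3) (nat_lit 4) (nat_lit 1) (nat_lit 4) (nat_lit 373) (nat_lit 323) (nat_lit 204)) (XT.nd (nat_lit 78) (nat_lit 0) (nat_lit 0) (XT.lf (nat_lit 0) (nat_lit 887070733810) (nat_lit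 152) (nat_lit 22768140825989) (nat_lit 0) (nat_lit 757715364747) (nat_lit 1) (nat_lit 5) (nat_lit 3) (nat_lit 4) (nat_lit 1) (nat_lit 4) (nat_lit 374) (nat_lit 323) (nat_lit 203)) (XT.lf (nat_lit 0) (nat_lit 1482521226052) (nat_lit 152) (nat_lit 25166868281795) (nat_lit 0) (nat_lit 1353165856112) (nat_lit 1) (nat_lit 5) (nat_lit 3) (nat_lit 4) (nat_lit 1) (nat_lit 4) (nat_lit 375) (nat_lit 323) (nat_lit 202)))))) (XT.nd (nat_lit 390) (nat_lit 0) (nat_lit 0) (XT.nd (nat_lit 156) (nat_lit 0) (nat_lit 0) (XT.nd (nat_lit 78) (nat_lit 0) (nat_lit 0) (XT.lf (nat_lit 0) (nat_lit 2167289286017) (nat_lit 152) (nat_lit 27925404868870) (nat_lit 0) (nat_lit 2037933915313) (nat_lit 1) (nat_lit 5) (nat_lit 3) (nat_lit 4) (nat_lit 1) (nat_lit 4) (nat_lit 376) (nat_lit 323) (nat_lit 201)) (XT.lf (nat_lit 0) (nat_lit 2954772549662) (nat_lit 152) (nat_lit 31097721955222) (nat_lit 0) (nat_lit 2825417178294)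 (nat_lit 1) (nat_lit 5) (nat_lit 3) (nat_lit 4) (nat_lit 1) (nat_lit 4) (nat_lit 377) (nat_lit 323) (nat_lit 200))) (XT.nd (nat_lit 78) (nat_lit 0) (nat_lit 0) (XT.lf (nat_lit 0) (nat_lit 3860378298231) (nat_lit 152) (nat_lit 34745886614278) (nat_lit 0) (nat_lit 3731022926286) (nat_lit 1) (nat_lit 5) (nat_lit 3) (nat_lit 4) (nat_lit 1) (nat_lit 4) (nat_lit 378) (nat_lit 323) (nat_lit 199)) (XT.nd (nat_lit 78) (nat_lit 0) (nat_lit 0) (XT.lf (nat_lit 0) (nat_lit 4901824905066) (nat_lit 152) (nat_lit 38941275980673) (nat_lit 0) (nat_lit 4772469532619) (nat_lit 1) (nat_lit 5) (nat_lit 3) (nat_lit 4) (nat_lit 1) (nat_lit 4) (nat_lit 379) (nat_lit 323) (nat_lit 198)) (XT.lf (nat_lit 0) (nat_lit 6099488499431) (nat_lit 152) (nat_lit 43765973759401) (nat_lit 0) (nat_lit 5970133126547) (nat_lit 1) (nat_lit 5) (nat_lit 3) (nat_lit 4) (nat_lit 1) (nat_lit 4) (nat_lit 380) (nat_lit 323) (nat_lit 197)))))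 (XT.nd (nat_lit 234) (nat_lit 0) (nat_lit 0) (XT.nd (nat_lit 78) (nat_lit 0) (nat_lit 0) (XT.lf (nat_lit 0) (nat_lit 7476801629911) (nat_lit 152) (nat_lit 49314376211351) (nat_lit 0) (nat_lit 7347446256648) (nat_lit 1) (nat_lit 5) (nat_lit 3) (nat_lit 4) (nat_lit 1) (nat_lit 4) (nat_lit 381) (nat_lit 323) (nat_lit 196)) (XT.nd (nat_lit 78) (nat_lit 0) (nat_lit 0) (XT.lf (nat_lit 0) (nat_lit 9060711727321) (nat_lit 152) (nat_lit 55695039036669) (nat_lit 0) (nat_lit 8931356353728) (nat_lit 1) (nat_lit 5) (nat_lit 3) (nat_lit 4) (nat_lit 1) (nat_lit 4) (nat_lit 382) (nat_lit 323) (nat_lit 195)) (XT.lf (nat_lit 0) (nat_lit 10882208337044) (nat_lit 152) (nat_lit 63032801290633) (nat_lit 0) (nat_lit 10752852963164) (nat_lit 1) (nat_lit 5) (nat_lit 3) (nat_lit 4) (nat_lit 1) (nat_lit 4) (nat_lit 383) (nat_lit 323) (nat_lit 194)))) (XT.nd (nat_lit 78) (nat_lit 0) (nat_lit 0) (XT.lf (nat_lit 0)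 (nat_lit 12976929436227) (nat_lit 152) (nat_lit 71471227886908) (nat_lit 0) (nat_lit 12847574062098) (nat_lit 1) (nat_lit 5) (nat_lit 3) (nat_lit 4) (nat_lit 1) (nat_lit 4) (nat_lit 384) (nat_lit 323) (nat_lit 193)) (XT.nd (nat_lit 78) (nat_lit 0) (nat_lit 0) (XT.lf (nat_lit 0) (nat_lit 15385858698550) (nat_lit 152) (nat_lit 81175418476290) (nat_lit 0) (nat_lit 15256503324204) (nat_lit 1) (nat_lit 5) (nat_lit 3) (nat_lit 4) (nat_lit 1) (nat_lit 4) (nat_lit 385) (nat_lit 323) (nat_lit 192)) (XT.lf (nat_lit 0) (nat_lit 18156127348711) (nat_lit 152) (nat_lit 92335237657268) (nat_lit 0) (nat_lit 18026771974176) (nat_lit 1) (nat_lit 5) (nat_lit 3) (nat_lit 4) (nat_lit 1) (nat_lit 4) (nat_lit 386) (nat_lit 323) (nat_lit 191))))))) (XT.nd (nat_lit 42744) (nat_lit 0) (nat_lit 912) (XT.nd (nat_lit 42276) (nat_lit 0) (nat_lit 1596) (XT.nd (nat_lit 42042) (nat_lit 0) (nat_lit 2052) (XT.nd (nat_lit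 41964) (nat_lit 0) (nat_lit 2052) (XT.lf (nat_lit 0) (nat_lit 21341936295081) (nat_lit 152) (nat_lit 105169029718165) (nat_lit 0) (nat_lit 21212580920382) (nat_lit 1) (nat_lit 5) (nat_lit 3) (nat_lit 4) (nat_lit 1) (nat_lit 4) (nat_lit 387) (nat_lit 323) (nat_lit 190)) (XT.lf (nat_lit 0) (nat_lit 14041244569) (nat_lit 380) (nat_lit 22028270787) (nat_lit 380) (nat_lit 22028270787) (nat_lit 28) (nat_lit 3) (nat_lit 33) (nat_lit 3) (nat_lit 33) (nat_lit 5) (nat_lit 324) (nat_lit 324) (nat_lit 252))) (XT.nd (nat_lit 78) (nat_lit 0) (nat_lit 76) (XT.lf (nat_lit 76) (nat_lit 13539362693) (nat_lit 0) (nat_lit 17214404670) (nat_lit 380) (nat_lit 94071701681) (nat_lit 29) (nat_lit 5) (nat_lit 28) (nat_lit 3) (nat_lit 33) (nat_lit 5) (nat_lit 325) (nat_lit 324) (nat_lit 251)) (XT.nd (nat_lit 78) (nat_lit 0) (nat_lit 0) (XT.lf (nat_lit 0) (nat_lit 38140202930) (nat_lit 304) (nat_lit 51691348852)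 (nat_lit 380) (nat_lit 44271130014) (nat_lit 29) (nat_lit 5) (nat_lit 33) (nat_lit 5) (nat_lit 34) (nat_lit 5) (nat_lit 326) (nat_lit 324) (nat_lit 250)) (XT.lf (nat_lit 76) (nat_lit 17588153092) (nat_lit 0) (nat_lit 30593775581) (nat_lit 380) (nat_lit 96357450214) (nat_lit 30) (nat_lit 5) (nat_lit 29) (nat_lit 5) (nat_lit 34) (nat_lit 5) (nat_lit 327) (nat_lit 324) (nat_lit 249))))) (XT.nd (nat_lit 234) (nat_lit 304) (nat_lit 0) (XT.nd (nat_lit 78) (nat_lit 304) (nat_lit 0) (XT.lf (nat_lit 0) (nat_lit 64114029865) (nat_lit 304) (nat_lit 54750611386) (nat_lit 76) (nat_lit 37019322803) (nat_lit 30) (nat_lit 5) (nat_lit 34) (nat_lit 5) (nat_lit 31) (nat_lit 5) (nat_lit 328) (nat_lit 324) (nat_lit 248)) (XT.nd (nat_lit 78) (nat_lit 0) (nat_lit 0) (XT.lf (nat_lit 0) (nat_lit 29444011599) (nat_lit 304) (nat_lit 55667452548) (nat_lit 380) (nat_lit 83417446032) (nat_lit 26) (nat_lit 5) (nat_lit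 30) (nat_lit 5) (nat_lit 31) (nat_lit 5) (nat_lit 329) (nat_lit 324) (nat_lit 247)) (XT.lf (nat_lit 0) (nat_lit 112960586441) (nat_lit 380) (nat_lit 51061452278) (nat_lit 76) (nat_lit 18493249331) (nat_lit 26) (nat_lit 5) (nat_lit 31) (nat_lit 5) (nat_lit 27) (nat_lit 5) (nat_lit 330) (nat_lit 324) (nat_lit 246)))) (XT.nd (nat_lit 78) (nat_lit 152) (nat_lit 0) (XT.lf (nat_lit 0) (nat_lit 52157591693) (nat_lit 152) (nat_lit 97639621247) (nat_lit 228) (nat_lit 48080889939) (nat_lit 24) (nat_lit 5) (nat_lit 26) (nat_lit 5) (nat_lit 27) (nat_lit 5) (nat_lit 331) (nat_lit 324) (nat_lit 245)) (XT.nd (nat_lit 78) (nat_lit 152) (nat_lit 0) (XT.lf (nat_lit 0) (nat_lit 176597609044) (nat_lit 152) (nat_lit 18230451488) (nat_lit 228) (nat_lit 20316970906) (nat_lit 24) (nat_lit 5) (nat_lit 26) (nat_lit 5) (nat_lit 27) (nat_lit 5) (nat_lit 332) (nat_lit 324) (nat_lit 244)) (XT.lf (nat_lit 0) (nat_lit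 17637326470) (nat_lit 152) (nat_lit 145136412822) (nat_lit 76) (nat_lit 71097209623) (nat_lit 22) (nat_lit 5) (nat_lit 24) (nat_lit 5) (nat_lit 23) (nat_lit 5) (nat_lit 333) (nat_lit 324) (nat_lit 243)))))) (XT.nd (nat_lit 390) (nat_lit 304) (nat_lit 0) (XT.nd (nat_lit 156) (nat_lit 228) (nat_lit 0) (XT.nd (nat_lit 78) (nat_lit 152) (nat_lit 0) (XT.lf (nat_lit 0) (nat_lit 62183408863) (nat_lit 152) (nat_lit 17594546601) (nat_lit 76) (nat_lit 175035871018) (nat_lit 22) (nat_lit 5) (nat_lit 24) (nat_lit 5) (nat_lit 23) (nat_lit 5) (nat_lit 334) (nat_lit 324) (nat_lit 242)) (XT.lf (nat_lit 0) (nat_lit 120206430987) (nat_lit 228) (nat_lit 137253599163) (nat_lit 76) (nat_lit 20418851756) (nat_lit 20) (nat_lit 5) (nat_lit 23) (nat_lit 5) (nat_lit 21) (nat_lit 4) (nat_lit 335) (nat_lit 324) (nat_lit 241))) (XT.nd (nat_lit 78) (nat_lit 152) (nat_lit 0) (XT.lf (nat_lit 0) (nat_lit 18053823640)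 (nat_lit 76) (nat_lit 174388837942) (nat_lit 152) (nat_lit 111134571073) (nat_lit 19) (nat_lit 5) (nat_lit 20) (nat_lit 5) (nat_lit 21) (nat_lit 4) (nat_lit 336) (nat_lit 324) (nat_lit 240)) (XT.nd (nat_lit 78) (nat_lit 152) (nat_lit 0) (XT.lf (nat_lit 0) (nat_lit 212082371267) (nat_lit 76) (nat_lit 70606317716) (nat_lit 152) (nat_lit 49365492948) (nat_lit 19) (nat_lit 5) (nat_lit 20) (nat_lit 5) (nat_lit 21) (nat_lit 4) (nat_lit 337) (nat_lit 324) (nat_lit 239)) (XT.lf (nat_lit 0) (nat_lit 25110912668) (nat_lit 152) (nat_lit 290097335751) (nat_lit 76) (nat_lit 48654172845) (nat_lit 17) (nat_lit 5) (nat_lit 19) (nat_lit 5) (nat_lit 18) (nat_lit 4) (nat_lit 338) (nat_lit 324) (nat_lit 238))))) (XT.nd (nat_lit 234) (nat_lit 228) (nat_lit 0) (XT.nd (nat_lit 78) (nat_lit 76) (nat_lit 0) (XT.lf (nat_lit 0) (nat_lit 115636557375) (nat_lit 152) (nat_lit 95467470057) (nat_lit 76) (nat_lit 187495478898)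 (nat_lit 17) (nat_lit 5) (nat_lit 19) (nat_lit 5) (nat_lit 18) (nat_lit 4) (nat_lit 339) (nat_lit 324) (nat_lit 237)) (XT.nd (nat_lit 78) (nat_lit 0) (nat_lit 0) (XT.lf (nat_lit 0) (nat_lit 140900462210) (nat_lit 76) (nat_lit 84674777685) (nat_lit 152) (nat_lit 212096785735) (nat_lit 16) (nat_lit 5) (nat_lit 17) (nat_lit 5) (nat_lit 18) (nat_lit 4) (nat_lit 340) (nat_lit 324) (nat_lit 236)) (XT.lf (nat_lit 0) (nat_lit 359746753099) (nat_lit 152) (nat_lit 61156271680) (nat_lit 0) (nat_lit 60541093926) (nat_lit 16) (nat_lit 5) (nat_lit 18) (nat_lit 4) (nat_lit 16) (nat_lit 4) (nat_lit 341) (nat_lit 324) (nat_lit 235)))) (XT.nd (nat_lit 78) (nat_lit 152) (nat_lit 0) (XT.lf (nat_lit 0) (nat_lit 225878105746) (nat_lit 76) (nat_lit 301550984661) (nat_lit 76) (nat_lit 2345170872) (nat_lit 15) (nat_lit 4) (nat_lit 16) (nat_lit 5) (nat_lit 16) (nat_lit 4) (nat_lit 342) (nat_lit 324) (nat_lit 234))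 (XT.nd (nat_lit 78) (nat_lit 76) (nat_lit 0) (XT.lf (nat_lit 0) (nat_lit 126248115119) (nat_lit 152) (nat_lit 27772500731) (nat_lit 76) (nat_lit 429993029558) (nat_lit 14) (nat_lit 5) (nat_lit 16) (nat_lit 5) (nat_lit 15) (nat_lit 4) (nat_lit 343) (nat_lit 324) (nat_lit 233)) (XT.lf (nat_lit 0) (nat_lit 288336280354) (nat_lit 152) (nat_lit 327711914312) (nat_lit 0) (nat_lit 28157093266) (nat_lit 13) (nat_lit 5) (nat_lit 15) (nat_lit 4) (nat_lit 13) (nat_lit 4) (nat_lit 344) (nat_lit 324) (nat_lit 232))))))))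
noncomputable def xc89 : XT := (XT.nd (nat_lit 1716) (nat_lit 152) (nat_lit 0) (XT.nd (nat_lit 858) (nat_lit 228) (nat_lit 0) (XT.nd (nat_lit 390) (nat_lit 304) (nat_lit 0) (XT.nd (nat_lit 156) (nat_lit 152) (nat_lit 0) (XT.nd (nat_lit 78) (nat_lit 76) (nat_lit 0) (XT.lf (nat_lit 0) (nat_lit 483592720903) (nat_lit 152) (nat_lit 5091253001) (nat_lit 0) (nat_lit 223413445412) (nat_lit 13) (nat_lit 5) (nat_lit 15) (nat_lit 4) (nat_lit 13) (nat_lit 4) (nat_lit 345) (nat_lit 324) (nat_lit 231)) (XT.lf (nat_lit 0) (nat_lit 401682856950) (nat_lit 76) (nat_lit 323087479749) (nat_lit 76) (nat_lit 62908127386) (nat_lit 12) (nat_lit 4) (nat_lit 13) (nat_lit 5) (nat_lit 13) (nat_lit 4) (nat_lit 346) (nat_lit 324) (nat_lit 230))) (XT.nd (nat_lit 78) (nat_lit 76) (nat_lit 0) (XT.lf (nat_lit 0) (nat_lit 116453197503) (nat_lit 152) (nat_lit 9805044575) (nat_lit 76) (nat_lit 747504521640) (nat_lit 11)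 (nat_lit 5) (nat_lit 13) (nat_lit 5) (nat_lit 12) (nat_lit 4) (nat_lit 347) (nat_lit 324) (nat_lit 229)) (XT.nd (nat_lit 78) (nat_lit 0) (nat_lit 0) (XT.lf (nat_lit 0) (nat_lit 340556749591) (nat_lit 152) (nat_lit 513798095782) (nat_lit 0) (nat_lit 114313725822) (nat_lit 10) (nat_lit 5) (nat_lit 12) (nat_lit 4) (nat_lit 10) (nat_lit 4) (nat_lit 348) (nat_lit 324) (nat_lit 228)) (XT.lf (nat_lit 0) (nat_lit 604824971436) (nat_lit 152) (nat_lit 93421004134) (nat_lit 0) (nat_lit 378581903715) (nat_lit 10) (nat_lit 5) (nat_lit 12) (nat_lit 4) (nat_lit 10) (nat_lit 4) (nat_lit 349) (nat_lit 324) (nat_lit 227))))) (XT.nd (nat_lit 234) (nat_lit 76) (nat_lit 0) (XT.nd (nat_lit 78) (nat_lit 152) (nat_lit 0) (XT.lf (nat_lit 0) (nat_lit 428127325671) (nat_lit 76) (nat_lit 498333850704) (nat_lit 76) (nat_lit 272090744764) (nat_lit 9) (nat_lit 4) (nat_lit 10) (nat_lit 5) (nat_lit 10) (nat_lit 4) (nat_lit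 350) (nat_lit 324) (nat_lit 226)) (XT.nd (nat_lit 78) (nat_lit 152) (nat_lit 0) (XT.lf (nat_lit 0) (nat_lit 1038406979432) (nat_lit 76) (nat_lit 262819118108) (nat_lit 76) (nat_lit 36575978934) (nat_lit 9) (nat_lit 4) (nat_lit 10) (nat_lit 5) (nat_lit 10) (nat_lit 4) (nat_lit 351) (nat_lit 324) (nat_lit 225)) (XT.lf (nat_lit 0) (nat_lit 225279705080) (nat_lit 152) (nat_lit 1240878013845) (nat_lit 0) (nat_lit 28546515451) (nat_lit 7) (nat_lit 5) (nat_lit 9) (nat_lit 4) (nat_lit 7) (nat_lit 4) (nat_lit 352) (nat_lit 324) (nat_lit 224)))) (XT.nd (nat_lit 78) (nat_lit 76) (nat_lit 0) (XT.lf (nat_lit 0) (nat_lit 551579623130) (nat_lit 152) (nat_lit 764117839460) (nat_lit 0) (nat_lit 354846411649) (nat_lit 7) (nat_lit 5) (nat_lit 9) (nat_lit 4) (nat_lit 7) (nat_lit 4) (nat_lit 353) (nat_lit 324) (nat_lit 223)) (XT.nd (nat_lit 78) (nat_lit 76) (nat_lit 0) (XT.lf (nat_lit 0) (nat_lit 926824462017)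 (nat_lit 152) (nat_lit 215843776571) (nat_lit 0) (nat_lit 730091231536) (nat_lit 7) (nat_lit 5) (nat_lit 9) (nat_lit 4) (nat_lit 7) (nat_lit 4) (nat_lit 354) (nat_lit 324) (nat_lit 222)) (XT.lf (nat_lit 0) (nat_lit 455195968936) (nat_lit 76) (nat_lit 922008694020) (nat_lit 76) (nat_lit 725275447015) (nat_lit 6) (nat_lit 4) (nat_lit 7) (nat_lit 5) (nat_lit 7) (nat_lit 4) (nat_lit 355) (nat_lit 324) (nat_lit 221)))))) (XT.nd (nat_lit 390) (nat_lit 76) (nat_lit 0) (XT.nd (nat_lit 156) (nat_lit 152) (nat_lit 0) (XT.nd (nat_lit 78) (nat_lit 0) (nat_lit 0) (XT.lf (nat_lit 0) (nat_lit 1251149459174) (nat_lit 76) (nat_lit 655275122434) (nat_lit 76) (nat_lit 458541861062) (nat_lit 6) (nat_lit 4) (nat_lit 7) (nat_lit 5) (nat_lit 7) (nat_lit 4) (nat_lit 356) (nat_lit 324) (nat_lit 220)) (XT.lf (nat_lit 0) (nat_lit 2166495873591) (nat_lit 76) (nat_lit 348531566384) (nat_lit 76) (nat_lit 151798292518)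 (nat_lit 6) (nat_lit 4) (nat_lit 7) (nat_lit 5) (nat_lit 7) (nat_lit 4) (nat_lit 357) (nat_lit 324) (nat_lit 219))) (XT.nd (nat_lit 78) (nat_lit 0) (nat_lit 0) (XT.lf (nat_lit 0) (nat_lit 193011575454) (nat_lit 152) (nat_lit 2796273208072) (nat_lit 0) (nat_lit 21939153949) (nat_lit 4) (nat_lit 5) (nat_lit 6) (nat_lit 4) (nat_lit 4) (nat_lit 4) (nat_lit 358) (nat_lit 324) (nat_lit 218)) (XT.nd (nat_lit 78) (nat_lit 0) (nat_lit 0) (XT.lf (nat_lit 0) (nat_lit 617997383668) (nat_lit 152) (nat_lit 2334675905008) (nat_lit 0) (nat_lit 446924953948) (nat_lit 4) (nat_lit 5) (nat_lit 6) (nat_lit 4) (nat_lit 4) (nat_lit 4) (nat_lit 359) (nat_lit 324) (nat_lit 217)) (XT.lf (nat_lit 0) (nat_lit 1106731025255) (nat_lit 152) (nat_lit 1803839085580) (nat_lit 0) (nat_lit 935658588391) (nat_lit 4) (nat_lit 5) (nat_lit 6) (nat_lit 4) (nat_lit 4) (nat_lit 4) (nat_lit 360) (nat_lit 324) (nat_lit 216))))) (XT.nd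 (nat_lit 234) (nat_lit 0) (nat_lit 0) (XT.nd (nat_lit 78) (nat_lit 76) (nat_lit 0) (XT.lf (nat_lit 0) (nat_lit 1668774680160) (nat_lit 152) (nat_lit 1193376812017) (nat_lit 0) (nat_lit 1497702237085) (nat_lit 4) (nat_lit 5) (nat_lit 6) (nat_lit 4) (nat_lit 4) (nat_lit 4) (nat_lit 361) (nat_lit 324) (nat_lit 215)) (XT.nd (nat_lit 78) (nat_lit 76) (nat_lit 0) (XT.lf (nat_lit 0) (nat_lit 2315124854674) (nat_lit 152) (nat_lit 491345257229) (nat_lit 0) (nat_lit 2144052406197) (nat_lit 4) (nat_lit 5) (nat_lit 6) (nat_lit 4) (nat_lit 4) (nat_lit 4) (nat_lit 362) (nat_lit 324) (nat_lit 214)) (XT.lf (nat_lit 0) (nat_lit 346871915332) (nat_lit 76) (nat_lit 2725918841449) (nat_lit 76) (nat_lit 2554846388275) (nat_lit 3) (nat_lit 4) (nat_lit 4) (nat_lit 5) (nat_lit 4) (nat_lit 4) (nat_lit 363) (nat_lit 324) (nat_lit 213)))) (XT.nd (nat_lit 78) (nat_lit 0) (nat_lit 0) (XT.lf (nat_lit 0) (nat_lit 1366042120884)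 (nat_lit 76) (nat_lit 2603748356246) (nat_lit 76) (nat_lit 2432675898988) (nat_lit 3) (nat_lit 4) (nat_lit 4) (nat_lit 5) (nat_lit 4) (nat_lit 4) (nat_lit 364) (nat_lit 324) (nat_lit 212)) (XT.nd (nat_lit 78) (nat_lit 0) (nat_lit 0) (XT.lf (nat_lit 0) (nat_lit 2538087814101) (nat_lit 76) (nat_lit 2463252320821) (nat_lit 76) (nat_lit 2292179860012) (nat_lit 3) (nat_lit 4) (nat_lit 4) (nat_lit 5) (nat_lit 4) (nat_lit 4) (nat_lit 365) (nat_lit 324) (nat_lit 211)) (XT.lf (nat_lit 0) (nat_lit 3885940323762) (nat_lit 76) (nat_lit 2301681899699) (nat_lit 76) (nat_lit 2130609435801) (nat_lit 3) (nat_lit 4) (nat_lit 4) (nat_lit 5) (nat_lit 4) (nat_lit 4) (nat_lit 366) (nat_lit 324) (nat_lit 210))))))) (XT.nd (nat_lit 858) (nat_lit 0) (nat_lit 0) (XT.nd (nat_lit 390) (nat_lit 152) (nat_lit 0) (XT.nd (nat_lit 156) (nat_lit 0) (nat_lit 0) (XT.nd (nat_lit 78) (nat_lit 0) (nat_lit 0) (XT.lf (nat_lit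 0) (nat_lit 5435970677232) (nat_lit 76) (nat_lit 2115875932465) (nat_lit 76) (nat_lit 1944803465882) (nat_lit 3) (nat_lit 4) (nat_lit 4) (nat_lit 5) (nat_lit 4) (nat_lit 4) (nat_lit 367) (nat_lit 324) (nat_lit 209)) (XT.lf (nat_lit 0) (nat_lit 7218505555339) (nat_lit 76) (nat_lit 1902199084979) (nat_lit 76) (nat_lit 1731126616061) (nat_lit 3) (nat_lit 4) (nat_lit 4) (nat_lit 5) (nat_lit 4) (nat_lit 4) (nat_lit 368) (nat_lit 324) (nat_lit 208))) (XT.nd (nat_lit 78) (nat_lit 0) (nat_lit 0) (XT.lf (nat_lit 0) (nat_lit 9268420640480) (nat_lit 76) (nat_lit 1656470723268) (nat_lit 76) (nat_lit 1485398252319) (nat_lit 3) (nat_lit 4) (nat_lit 4) (nat_lit 5) (nat_lit 4) (nat_lit 4) (nat_lit 369) (nat_lit 324) (nat_lit 207)) (XT.nd (nat_lit 78) (nat_lit 0) (nat_lit 0) (XT.lf (nat_lit 0) (nat_lit 11625822966931) (nat_lit 76) (nat_lit 1373883118515) (nat_lit 76) (nat_lit 1202810645801) (nat_lit 3)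 (nat_lit 4) (nat_lit 4) (nat_lit 5) (nat_lit 4) (nat_lit 4) (nat_lit 370) (nat_lit 324) (nat_lit 206)) (XT.lf (nat_lit 0) (nat_lit 14336835623686) (nat_lit 76) (nat_lit 1048907382802) (nat_lit 76) (nat_lit 877834908553) (nat_lit 3) (nat_lit 4) (nat_lit 4) (nat_lit 5) (nat_lit 4) (nat_lit 4) (nat_lit 371) (nat_lit 324) (nat_lit 205))))) (XT.nd (nat_lit 234) (nat_lit 0) (nat_lit 0) (XT.nd (nat_lit 78) (nat_lit 152) (nat_lit 0) (XT.lf (nat_lit 0) (nat_lit 17454500162725) (nat_lit 76) (nat_lit 675185295213) (nat_lit 76) (nat_lit 504112819628) (nat_lit 3) (nat_lit 4) (nat_lit 4) (nat_lit 5) (nat_lit 4) (nat_lit 4) (nat_lit 372) (nat_lit 324) (nat_lit 204)) (XT.nd (nat_lit 78) (nat_lit 152) (nat_lit 0) (XT.lf (nat_lit 0) (nat_lit 21039814368509) (nat_lit 76) (nat_lit 245404901860) (nat_lit 76) (nat_lit 74332425114) (nat_lit 3) (nat_lit 4) (nat_lit 4) (nat_lit 5) (nat_lit 4) (nat_lit 4) (nat_lit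 373) (nat_lit 324) (nat_lit 203)) (XT.lf (nat_lit 0) (nat_lit 424680920304) (nat_lit 152) (nat_lit 23784634349211) (nat_lit 0) (nat_lit 275922243995) (nat_lit 1) (nat_lit 5) (nat_lit 3) (nat_lit 4) (nat_lit 1) (nat_lit 4) (nat_lit 374) (nat_lit 324) (nat_lit 202)))) (XT.nd (nat_lit 78) (nat_lit 0) (nat_lit 0) (XT.lf (nat_lit 0) (nat_lit 1020131409703) (nat_lit 152) (nat_lit 26183361811016) (nat_lit 0) (nat_lit 871372732630) (nat_lit 1) (nat_lit 5) (nat_lit 3) (nat_lit 4) (nat_lit 1) (nat_lit 4) (nat_lit 375) (nat_lit 324) (nat_lit 201)) (XT.nd (nat_lit 78) (nat_lit 0) (nat_lit 0) (XT.lf (nat_lit 0) (nat_lit 1704899467196) (nat_lit 152) (nat_lit 28941898403308) (nat_lit 0) (nat_lit 1556140789459) (nat_lit 1) (nat_lit 5) (nat_lit 3) (nat_lit 4) (nat_lit 1) (nat_lit 4) (nat_lit 376) (nat_lit 324) (nat_lit 200)) (XT.lf (nat_lit 0) (nat_lit 2492382728690) (nat_lit 152) (nat_lit 32114215494195)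 (nat_lit 0) (nat_lit 2343624050377) (nat_lit 1) (nat_lit 5) (nat_lit 3) (nat_lit 4) (nat_lit 1) (nat_lit 4) (nat_lit 377) (nat_lit 324) (nat_lit 199)))))) (XT.nd (nat_lit 468) (nat_lit 0) (nat_lit 0) (XT.nd (nat_lit 234) (nat_lit 0) (nat_lit 0) (XT.nd (nat_lit 78) (nat_lit 0) (nat_lit 0) (XT.lf (nat_lit 0) (nat_lit 3397988475390) (nat_lit 152) (nat_lit 35762380157195) (nat_lit 0) (nat_lit 3249229796574) (nat_lit 1) (nat_lit 5) (nat_lit 3) (nat_lit 4) (nat_lit 1) (nat_lit 4) (nat_lit 378) (nat_lit 324) (nat_lit 198)) (XT.nd (nat_lit 78) (nat_lit 0) (nat_lit 0) (XT.lf (nat_lit 0) (nat_lit 4439435080599) (nat_lit 152) (nat_lit 39957769527020) (nat_lit 0) (nat_lit 4290676401347) (nat_lit 1) (nat_lit 5) (nat_lit 3) (nat_lit 4) (nat_lit 1) (nat_lit 4) (nat_lit 379) (nat_lit 324) (nat_lit 197)) (XT.lf (nat_lit 0) (nat_lit 5637098673550) (nat_lit 152) (nat_lit 44782467308731) (nat_lit 0) (nat_lit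 5488339993919) (nat_lit 1) (nat_lit 5) (nat_lit 3) (nat_lit 4) (nat_lit 1) (nat_lit 4) (nat_lit 380) (nat_lit 324) (nat_lit 196)))) (XT.nd (nat_lit 78) (nat_lit 0) (nat_lit 0) (XT.lf (nat_lit 0) (nat_lit 7014411802802) (nat_lit 152) (nat_lit 50330869763274) (nat_lit 0) (nat_lit 6865653122840) (nat_lit 1) (nat_lit 5) (nat_lit 3) (nat_lit 4) (nat_lit 1) (nat_lit 4) (nat_lit 381) (nat_lit 324) (nat_lit 195)) (XT.nd (nat_lit 78) (nat_lit 0) (nat_lit 0) (XT.lf (nat_lit 0) (nat_lit 8598321899142) (nat_lit 152) (nat_lit 56711532590847) (nat_lit 0) (nat_lit 8449563218894) (nat_lit 1) (nat_lit 5) (nat_lit 3) (nat_lit 4) (nat_lit 1) (nat_lit 4) (nat_lit 382) (nat_lit 324) (nat_lit 194)) (XT.lf (nat_lit 0) (nat_lit 10419818507936) (nat_lit 152) (nat_lit 64049294846772) (nat_lit 0) (nat_lit 10271059827438) (nat_lit 1) (nat_lit 5) (nat_lit 3) (nat_lit 4) (nat_lit 1) (nat_lit 4) (nat_lit 383) (nat_lit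 324) (nat_lit 193))))) (XT.nd (nat_lit 234) (nat_lit 0) (nat_lit 0) (XT.nd (nat_lit 78) (nat_lit 0) (nat_lit 0) (XT.lf (nat_lit 0) (nat_lit 12514539606311) (nat_lit 152) (nat_lit 72487721444752) (nat_lit 0) (nat_lit 12365780925596) (nat_lit 1) (nat_lit 5) (nat_lit 3) (nat_lit 4) (nat_lit 1) (nat_lit 4) (nat_lit 384) (nat_lit 324) (nat_lit 192)) (XT.nd (nat_lit 78) (nat_lit 0) (nat_lit 0) (XT.lf (nat_lit 0) (nat_lit 14923468867931) (nat_lit 152) (nat_lit 82191912035617) (nat_lit 0) (nat_lit 14774710187027) (nat_lit 1) (nat_lit 5) (nat_lit 3) (nat_lit 4) (nat_lit 1) (nat_lit 4) (nat_lit 385) (nat_lit 324) (nat_lit 191)) (XT.lf (nat_lit 0) (nat_lit 17693737517481) (nat_lit 152) (nat_lit 93351731217884) (nat_lit 0) (nat_lit 17544978836413) (nat_lit 1) (nat_lit 5) (nat_lit 3) (nat_lit 4) (nat_lit 1) (nat_lit 4) (nat_lit 386) (nat_lit 324) (nat_lit 190)))) (XT.nd (nat_lit 78) (nat_lit 0) (nat_lit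 0) (XT.lf (nat_lit 0) (nat_lit 20879546463320) (nat_lit 152) (nat_lit 106185523279902) (nat_lit 0) (nat_lit 20730787782109) (nat_lit 1) (nat_lit 5) (nat_lit 3) (nat_lit 4) (nat_lit 1) (nat_lit 4) (nat_lit 387) (nat_lit 324) (nat_lit 189)) (XT.nd (nat_lit 41964) (nat_lit 0) (nat_lit 2052) (XT.lf (nat_lit 0) (nat_lit 24543226750041) (nat_lit 152) (nat_lit 120944384153319) (nat_lit 0) (nat_lit 24394468068706) (nat_lit 1) (nat_lit 5) (nat_lit 3) (nat_lit 4) (nat_lit 1) (nat_lit 4) (nat_lit 388) (nat_lit 324) (nat_lit 188)) (XT.lf (nat_lit 0) (nat_lit 16151702169) (nat_lit 380) (nat_lit 25330052066) (nat_lit 380) (nat_lit 25330052066) (nat_lit 28) (nat_lit 3) (nat_lit 33) (nat_lit 3) (nat_lit 33) (nat_lit 5) (nat_lit 325) (nat_lit 325) (nat_lit 250))))))))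
noncomputable def xc90 : XT := (XT.nd (nat_lit 1716) (nat_lit 684) (nat_lit 0) (XT.nd (nat_lit 858) (nat_lit 608) (nat_lit 0) (XT.nd (nat_lit 390) (nat_lit 456) (nat_lit 0) (XT.nd (nat_lit 156) (nat_lit 152) (nat_lit 0) (XT.nd (nat_lit 78) (nat_lit 0) (nat_lit 76) (XT.lf (nat_lit 76) (nat_lit 15574962198) (nat_lit 0) (nat_lit 19799492360) (nat_lit 380) (nat_lit 108173679136) (nat_lit 29) (nat_lit 5) (nat_lit 28) (nat_lit 3) (nat_lit 33) (nat_lit 5) (nat_lit 326) (nat_lit 325) (nat_lit 249)) (XT.lf (nat_lit 0) (nat_lit 43867755883) (nat_lit 304) (nat_lit 59439858129) (nat_lit 380) (nat_lit 50909480900) (nat_lit 29) (nat_lit 5) (nat_lit 33) (nat_lit 5) (nat_lit 34) (nat_lit 5) (nat_lit 327) (nat_lit 325) (nat_lit 248))) (XT.nd (nat_lit 78) (nat_lit 228) (nat_lit 0) (XT.lf (nat_lit 76) (nat_lit 20231333059) (nat_lit 0) (nat_lit 35183761925) (nat_lit 380) (nat_lit 110804299814) (nat_lit 30)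 (nat_lit 5) (nat_lit 29) (nat_lit 5) (nat_lit 34) (nat_lit 5) (nat_lit 328) (nat_lit 325) (nat_lit 247)) (XT.nd (nat_lit 78) (nat_lit 304) (nat_lit 0) (XT.lf (nat_lit 0) (nat_lit 73736211661) (nat_lit 304) (nat_lit 62958084815) (nat_lit 76) (nat_lit 42571492440) (nat_lit 30) (nat_lit 5) (nat_lit 34) (nat_lit 5) (nat_lit 31) (nat_lit 5) (nat_lit 329) (nat_lit 325) (nat_lit 246)) (XT.lf (nat_lit 0) (nat_lit 33865498969) (nat_lit 304) (nat_lit 64017302161) (nat_lit 380) (nat_lit 95924745886) (nat_lit 26) (nat_lit 5) (nat_lit 30) (nat_lit 5) (nat_lit 31) (nat_lit 5) (nat_lit 330) (nat_lit 325) (nat_lit 245))))) (XT.nd (nat_lit 234) (nat_lit 304) (nat_lit 0) (XT.nd (nat_lit 78) (nat_lit 152) (nat_lit 0) (XT.lf (nat_lit 0) (nat_lit 129908699164) (nat_lit 380) (nat_lit 58715822978) (nat_lit 76) (nat_lit 21267449240) (nat_lit 26) (nat_lit 5) (nat_lit 31) (nat_lit 5) (nat_lit 27) (nat_lit 5) (nat_lit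 331) (nat_lit 325) (nat_lit 244)) (XT.nd (nat_lit 78) (nat_lit 0) (nat_lit 0) (XT.lf (nat_lit 0) (nat_lit 59985857264) (nat_lit 152) (nat_lit 112284628993) (nat_lit 228) (nat_lit 55288772991) (nat_lit 24) (nat_lit 5) (nat_lit 26) (nat_lit 5) (nat_lit 27) (nat_lit 5) (nat_lit 332) (nat_lit 325) (nat_lit 243)) (XT.lf (nat_lit 0) (nat_lit 203091273720) (nat_lit 152) (nat_lit 20964205784) (nat_lit 228) (nat_lit 23360820508) (nat_lit 24) (nat_lit 5) (nat_lit 26) (nat_lit 5) (nat_lit 27) (nat_lit 5) (nat_lit 333) (nat_lit 325) (nat_lit 242)))) (XT.nd (nat_lit 78) (nat_lit 152) (nat_lit 0) (XT.lf (nat_lit 0) (nat_lit 20286069272) (nat_lit 152) (nat_lit 166902291649) (nat_lit 76) (nat_lit 81762755233) (nat_lit 22) (nat_lit 5) (nat_lit 24) (nat_lit 5) (nat_lit 23) (nat_lit 5) (nat_lit 334) (nat_lit 325) (nat_lit 241)) (XT.nd (nat_lit 78) (nat_lit 152) (nat_lit 0) (XT.lf (nat_lit 0) (nat_lit 71513653959)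 (nat_lit 152) (nat_lit 20229743290) (nat_lit 76) (nat_lit 201292090077) (nat_lit 22) (nat_lit 5) (nat_lit 24) (nat_lit 5) (nat_lit 23) (nat_lit 5) (nat_lit 335) (nat_lit 325) (nat_lit 240)) (XT.lf (nat_lit 0) (nat_lit 138239982910) (nat_lit 228) (nat_lit 157837504581) (nat_lit 76) (nat_lit 23482835946) (nat_lit 20) (nat_lit 5) (nat_lit 23) (nat_lit 5) (nat_lit 21) (nat_lit 4) (nat_lit 336) (nat_lit 325) (nat_lit 239)))))) (XT.nd (nat_lit 390) (nat_lit 304) (nat_lit 0) (XT.nd (nat_lit 156) (nat_lit 228) (nat_lit 0) (XT.nd (nat_lit 78) (nat_lit 0) (nat_lit 0) (XT.lf (nat_lit 0) (nat_lit 20765843713) (nat_lit 76) (nat_lit 200545630329) (nat_lit 152) (nat_lit 127801979212) (nat_lit 19) (nat_lit 5) (nat_lit 20) (nat_lit 5) (nat_lit 21) (nat_lit 4) (nat_lit 337) (nat_lit 325) (nat_lit 238)) (XT.lf (nat_lit 0) (nat_lit 243898158720) (nat_lit 76) (nat_lit 81195932064) (nat_lit 152) (nat_lit 56767901655)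 (nat_lit 19) (nat_lit 5) (nat_lit 20) (nat_lit 5) (nat_lit 21) (nat_lit 4) (nat_lit 338) (nat_lit 325) (nat_lit 237))) (XT.nd (nat_lit 78) (nat_lit 76) (nat_lit 0) (XT.lf (nat_lit 0) (nat_lit 28879666026) (nat_lit 152) (nat_lit 333608202298) (nat_lit 76) (nat_lit 55953597137) (nat_lit 17) (nat_lit 5) (nat_lit 19) (nat_lit 5) (nat_lit 18) (nat_lit 4) (nat_lit 339) (nat_lit 325) (nat_lit 236)) (XT.nd (nat_lit 78) (nat_lit 76) (nat_lit 0) (XT.lf (nat_lit 0) (nat_lit 132983881379) (nat_lit 152) (nat_lit 109784343769) (nat_lit 76) (nat_lit 215620929747) (nat_lit 17) (nat_lit 5) (nat_lit 19) (nat_lit 5) (nat_lit 18) (nat_lit 4) (nat_lit 340) (nat_lit 325) (nat_lit 235)) (XT.lf (nat_lit 0) (nat_lit 162038630756) (nat_lit 76) (nat_lit 97374623802) (nat_lit 152) (nat_lit 243909314464) (nat_lit 16) (nat_lit 5) (nat_lit 17) (nat_lit 5) (nat_lit 18) (nat_lit 4) (nat_lit 341) (nat_lit 325) (nat_lit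 234))))) (XT.nd (nat_lit 234) (nat_lit 152) (nat_lit 0) (XT.nd (nat_lit 78) (nat_lit 152) (nat_lit 0) (XT.lf (nat_lit 0) (nat_lit 413710318610) (nat_lit 152) (nat_lit 70326840331) (nat_lit 0) (nat_lit 69623343686) (nat_lit 16) (nat_lit 5) (nat_lit 18) (nat_lit 4) (nat_lit 16) (nat_lit 4) (nat_lit 342) (nat_lit 325) (nat_lit 233)) (XT.nd (nat_lit 78) (nat_lit 76) (nat_lit 0) (XT.lf (nat_lit 0) (nat_lit 259762563159) (nat_lit 76) (nat_lit 346782354372) (nat_lit 76) (nat_lit 2695262535) (nat_lit 15) (nat_lit 4) (nat_lit 16) (nat_lit 5) (nat_lit 16) (nat_lit 4) (nat_lit 343) (nat_lit 325) (nat_lit 232)) (XT.lf (nat_lit 0) (nat_lit 145186666343) (nat_lit 152) (nat_lit 31935860861) (nat_lit 76) (nat_lit 494492964264) (nat_lit 14) (nat_lit 5) (nat_lit 16) (nat_lit 5) (nat_lit 15) (nat_lit 4) (nat_lit 344) (nat_lit 325) (nat_lit 231)))) (XT.nd (nat_lit 78) (nat_lit 76) (nat_lit 0) (XT.lf (nat_lit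 0) (nat_lit 331588029034) (nat_lit 152) (nat_lit 376866158576) (nat_lit 0) (nat_lit 32381696944) (nat_lit 13) (nat_lit 5) (nat_lit 15) (nat_lit 4) (nat_lit 13) (nat_lit 4) (nat_lit 345) (nat_lit 325) (nat_lit 230)) (XT.nd (nat_lit 78) (nat_lit 76) (nat_lit 0) (XT.lf (nat_lit 0) (nat_lit 556132765235) (nat_lit 152) (nat_lit 5852729749) (nat_lit 0) (nat_lit 256926366301) (nat_lit 13) (nat_lit 5) (nat_lit 15) (nat_lit 4) (nat_lit 13) (nat_lit 4) (nat_lit 346) (nat_lit 325) (nat_lit 229)) (XT.lf (nat_lit 0) (nat_lit 461937396185) (nat_lit 76) (nat_lit 371549566415) (nat_lit 76) (nat_lit 72343109354) (nat_lit 12) (nat_lit 4) (nat_lit 13) (nat_lit 5) (nat_lit 13) (nat_lit 4) (nat_lit 347) (nat_lit 325) (nat_lit 228))))))) (XT.nd (nat_lit 858) (nat_lit 228) (nat_lit 0) (XT.nd (nat_lit 390) (nat_lit 228) (nat_lit 0) (XT.nd (nat_lit 156) (nat_lit 76) (nat_lit 0) (XT.nd (nat_lit 78) (nat_lit 76)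 (nat_lit 0) (XT.lf (nat_lit 0) (nat_lit 133922157129) (nat_lit 152) (nat_lit 11273869776) (nat_lit 76) (nat_lit 859631004043) (nat_lit 11) (nat_lit 5) (nat_lit 13) (nat_lit 5) (nat_lit 12) (nat_lit 4) (nat_lit 348) (nat_lit 325) (nat_lit 227)) (XT.lf (nat_lit 0) (nat_lit 391641228443) (nat_lit 152) (nat_lit 590865864792) (nat_lit 0) (nat_lit 131461618393) (nat_lit 10) (nat_lit 5) (nat_lit 12) (nat_lit 4) (nat_lit 10) (nat_lit 4) (nat_lit 349) (nat_lit 325) (nat_lit 226))) (XT.nd (nat_lit 78) (nat_lit 76) (nat_lit 0) (XT.lf (nat_lit 0) (nat_lit 695549557510) (nat_lit 152) (nat_lit 107432463139) (nat_lit 0) (nat_lit 435369914227) (nat_lit 10) (nat_lit 5) (nat_lit 12) (nat_lit 4) (nat_lit 10) (nat_lit 4) (nat_lit 350) (nat_lit 325) (nat_lit 225)) (XT.nd (nat_lit 78) (nat_lit 0) (nat_lit 0) (XT.lf (nat_lit 0) (nat_lit 492348039245) (nat_lit 76) (nat_lit 573083111196) (nat_lit 76) (nat_lit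 312903439013) (nat_lit 9) (nat_lit 4) (nat_lit 10) (nat_lit 5) (nat_lit 10) (nat_lit 4) (nat_lit 351) (nat_lit 325) (nat_lit 224)) (XT.lf (nat_lit 0) (nat_lit 1194169430454) (nat_lit 76) (nat_lit 302241275290) (nat_lit 76) (nat_lit 42061577978) (nat_lit 9) (nat_lit 4) (nat_lit 10) (nat_lit 5) (nat_lit 10) (nat_lit 4) (nat_lit 352) (nat_lit 325) (nat_lit 223))))) (XT.nd (nat_lit 234) (nat_lit 76) (nat_lit 0) (XT.nd (nat_lit 78) (nat_lit 0) (nat_lit 0) (XT.lf (nat_lit 0) (nat_lit 259072380857) (nat_lit 152) (nat_lit 1427008233730) (nat_lit 0) (nat_lit 32829146802) (nat_lit 7) (nat_lit 5) (nat_lit 9) (nat_lit 4) (nat_lit 7) (nat_lit 4) (nat_lit 353) (nat_lit 325) (nat_lit 222)) (XT.nd (nat_lit 78) (nat_lit 0) (nat_lit 0) (XT.lf (nat_lit 0) (nat_lit 634317192700) (nat_lit 152) (nat_lit 878734226516) (nat_lit 0) (nat_lit 408073942121) (nat_lit 7) (nat_lit 5) (nat_lit 9) (nat_lit 4) (nat_lit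 7) (nat_lit 4) (nat_lit 354) (nat_lit 325) (nat_lit 221)) (XT.lf (nat_lit 0) (nat_lit 1065848675755) (nat_lit 152) (nat_lit 248219222307) (nat_lit 0) (nat_lit 839605410809) (nat_lit 7) (nat_lit 5) (nat_lit 9) (nat_lit 4) (nat_lit 7) (nat_lit 4) (nat_lit 355) (nat_lit 325) (nat_lit 220)))) (XT.nd (nat_lit 78) (nat_lit 0) (nat_lit 0) (XT.lf (nat_lit 0) (nat_lit 523476434083) (nat_lit 76) (nat_lit 1060309446037) (nat_lit 76) (nat_lit 834066168596) (nat_lit 6) (nat_lit 4) (nat_lit 7) (nat_lit 5) (nat_lit 7) (nat_lit 4) (nat_lit 356) (nat_lit 325) (nat_lit 219)) (XT.nd (nat_lit 78) (nat_lit 0) (nat_lit 0) (XT.lf (nat_lit 0) (nat_lit 1438822808317) (nat_lit 76) (nat_lit 753565910724) (nat_lit 76) (nat_lit 527322622420) (nat_lit 6) (nat_lit 4) (nat_lit 7) (nat_lit 5) (nat_lit 7) (nat_lit 4) (nat_lit 357) (nat_lit 325) (nat_lit 218)) (XT.lf (nat_lit 0) (nat_lit 2491471063558) (nat_lit 76) (nat_lit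 400810883885) (nat_lit 76) (nat_lit 174567586133) (nat_lit 6) (nat_lit 4) (nat_lit 7) (nat_lit 5) (nat_lit 7) (nat_lit 4) (nat_lit 358) (nat_lit 325) (nat_lit 217)))))) (XT.nd (nat_lit 390) (nat_lit 76) (nat_lit 0) (XT.nd (nat_lit 156) (nat_lit 0) (nat_lit 0) (XT.nd (nat_lit 78) (nat_lit 0) (nat_lit 0) (XT.lf (nat_lit 0) (nat_lit 221963719409) (nat_lit 152) (nat_lit 3215713337616) (nat_lit 0) (nat_lit 25230409873) (nat_lit 4) (nat_lit 5) (nat_lit 6) (nat_lit 4) (nat_lit 4) (nat_lit 4) (nat_lit 359) (nat_lit 325) (nat_lit 216)) (XT.lf (nat_lit 0) (nat_lit 710697345685) (nat_lit 152) (nat_lit 2684876550179) (nat_lit 0) (nat_lit 513964029937) (nat_lit 4) (nat_lit 5) (nat_lit 6) (nat_lit 4) (nat_lit 4) (nat_lit 4) (nat_lit 360) (nat_lit 325) (nat_lit 215))) (XT.nd (nat_lit 78) (nat_lit 0) (nat_lit 0) (XT.lf (nat_lit 0) (nat_lit 1272740987275) (nat_lit 152) (nat_lit 2074414304434) (nat_lit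 0) (nat_lit 1076007666126) (nat_lit 4) (nat_lit 5) (nat_lit 6) (nat_lit 4) (nat_lit 4) (nat_lit 4) (nat_lit 361) (nat_lit 325) (nat_lit 214)) (XT.nd (nat_lit 78) (nat_lit 0) (nat_lit 0) (XT.lf (nat_lit 0) (nat_lit 1919091150212) (nat_lit 152) (nat_lit 1372382773835) (nat_lit 0) (nat_lit 1722357824365) (nat_lit 4) (nat_lit 5) (nat_lit 6) (nat_lit 4) (nat_lit 4) (nat_lit 4) (nat_lit 362) (nat_lit 325) (nat_lit 213)) (XT.lf (nat_lit 0) (nat_lit 2662393815943) (nat_lit 152) (nat_lit 565046558869) (nat_lit 0) (nat_lit 2465660486012) (nat_lit 4) (nat_lit 5) (nat_lit 6) (nat_lit 4) (nat_lit 4) (nat_lit 4) (nat_lit 363) (nat_lit 325) (nat_lit 212))))) (XT.nd (nat_lit 234) (nat_lit 0) (nat_lit 0) (XT.nd (nat_lit 78) (nat_lit 0) (nat_lit 0) (XT.lf (nat_lit 0) (nat_lit 398903167441) (nat_lit 76) (nat_lit 3134806424771) (nat_lit 76) (nat_lit 2938073091289) (nat_lit 3) (nat_lit 4) (nat_lit 4) (nat_lit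 5) (nat_lit 4) (nat_lit 4) (nat_lit 364) (nat_lit 325) (nat_lit 211)) (XT.nd (nat_lit 78) (nat_lit 0) (nat_lit 0) (XT.lf (nat_lit 0) (nat_lit 1570948843199) (nat_lit 76) (nat_lit 2994310398470) (nat_lit 76) (nat_lit 2797577061899) (nat_lit 3) (nat_lit 4) (nat_lit 4) (nat_lit 5) (nat_lit 4) (nat_lit 4) (nat_lit 365) (nat_lit 325) (nat_lit 210)) (XT.lf (nat_lit 0) (nat_lit 2918801337679) (nat_lit 76) (nat_lit 2832739985281) (nat_lit 76) (nat_lit 2636006646025) (nat_lit 3) (nat_lit 4) (nat_lit 4) (nat_lit 5) (nat_lit 4) (nat_lit 4) (nat_lit 366) (nat_lit 325) (nat_lit 209)))) (XT.nd (nat_lit 78) (nat_lit 0) (nat_lit 0) (XT.lf (nat_lit 0) (nat_lit 4468831677947) (nat_lit 76) (nat_lit 2646934024946) (nat_lit 76) (nat_lit 2450200683355) (nat_lit 3) (nat_lit 4) (nat_lit 4) (nat_lit 5) (nat_lit 4) (nat_lit 4) (nat_lit 367) (nat_lit 325) (nat_lit 208)) (XT.nd (nat_lit 78) (nat_lit 0) (nat_lit 0)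 (XT.lf (nat_lit 0) (nat_lit 6251366544574) (nat_lit 76) (nat_lit 2433257183459) (nat_lit 76) (nat_lit 2236523839837) (nat_lit 3) (nat_lit 4) (nat_lit 4) (nat_lit 5) (nat_lit 4) (nat_lit 4) (nat_lit 368) (nat_lit 325) (nat_lit 207)) (XT.lf (nat_lit 0) (nat_lit 8301281619733) (nat_lit 76) (nat_lit 2187528826964) (nat_lit 76) (nat_lit 1990795481577) (nat_lit 3) (nat_lit 4) (nat_lit 4) (nat_lit 5) (nat_lit 4) (nat_lit 4) (nat_lit 369) (nat_lit 325) (nat_lit 206))))))))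
noncomputable def xc91 : XT := (XT.nd (nat_lit 43680) (nat_lit 0) (nat_lit 684) (XT.nd (nat_lit 858) (nat_lit 0) (nat_lit 0) (XT.nd (nat_lit 390) (nat_lit 152) (nat_lit 0) (XT.nd (nat_lit 156) (nat_lit 0) (nat_lit 0) (XT.nd (nat_lit 78) (nat_lit 0) (nat_lit 0) (XT.lf (nat_lit 0) (nat_lit 10658683937503) (nat_lit 76) (nat_lit 1904941226748) (nat_lit 76) (nat_lit 1708207879825) (nat_lit 3) (nat_lit 4) (nat_lit 4) (nat_lit 5) (nat_lit 4) (nat_lit 4) (nat_lit 370) (nat_lit 325) (nat_lit 205)) (XT.lf (nat_lit 0) (nat_lit 13369696586709) (nat_lit 76) (nat_lit 1579965494979) (nat_lit 76) (nat_lit 1383232146721) (nat_lit 3) (nat_lit 4) (nat_lit 4) (nat_lit 5) (nat_lit 4) (nat_lit 4) (nat_lit 371) (nat_lit 325) (nat_lit 204))) (XT.nd (nat_lit 78) (nat_lit 0) (nat_lit 0) (XT.lf (nat_lit 0) (nat_lit 16487361119186) (nat_lit 76) (nat_lit 1206243410820) (nat_lit 76) (nat_lit 1009510061401) (nat_lit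 3) (nat_lit 4) (nat_lit 4) (nat_lit 5) (nat_lit 4) (nat_lit 4) (nat_lit 372) (nat_lit 325) (nat_lit 203)) (XT.nd (nat_lit 78) (nat_lit 0) (nat_lit 0) (XT.lf (nat_lit 0) (nat_lit 20072675319262) (nat_lit 76) (nat_lit 776463020449) (nat_lit 76) (nat_lit 579729670021) (nat_lit 3) (nat_lit 4) (nat_lit 4) (nat_lit 5) (nat_lit 4) (nat_lit 4) (nat_lit 373) (nat_lit 325) (nat_lit 202)) (XT.lf (nat_lit 0) (nat_lit 24195786638680) (nat_lit 76) (nat_lit 282215577099) (nat_lit 76) (nat_lit 85482225793) (nat_lit 3) (nat_lit 4) (nat_lit 4) (nat_lit 5) (nat_lit 4) (nat_lit 4) (nat_lit 374) (nat_lit 325) (nat_lit 201))))) (XT.nd (nat_lit 234) (nat_lit 0) (nat_lit 0) (XT.nd (nat_lit 78) (nat_lit 0) (nat_lit 0) (XT.lf (nat_lit 0) (nat_lit 488383115585) (nat_lit 152) (nat_lit 27352329380835) (nat_lit 0) (nat_lit 317310635525) (nat_lit 1) (nat_lit 5) (nat_lit 3) (nat_lit 4) (nat_lit 1) (nat_lit 4) (nat_lit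 375) (nat_lit 325) (nat_lit 200)) (XT.nd (nat_lit 78) (nat_lit 0) (nat_lit 0) (XT.lf (nat_lit 0) (nat_lit 1173151170928) (nat_lit 152) (nat_lit 30110865977663) (nat_lit 0) (nat_lit 1002078690290) (nat_lit 1) (nat_lit 5) (nat_lit 3) (nat_lit 4) (nat_lit 1) (nat_lit 4) (nat_lit 376) (nat_lit 325) (nat_lit 199)) (XT.lf (nat_lit 0) (nat_lit 1960634430554) (nat_lit 152) (nat_lit 33283183072494) (nat_lit 0) (nat_lit 1789561949414) (nat_lit 1) (nat_lit 5) (nat_lit 3) (nat_lit 4) (nat_lit 1) (nat_lit 4) (nat_lit 377) (nat_lit 325) (nat_lit 198)))) (XT.nd (nat_lit 78) (nat_lit 0) (nat_lit 0) (XT.lf (nat_lit 0) (nat_lit 2866240175627) (nat_lit 152) (nat_lit 36931347738925) (nat_lit 0) (nat_lit 2695167694051) (nat_lit 1) (nat_lit 5) (nat_lit 3) (nat_lit 4) (nat_lit 1) (nat_lit 4) (nat_lit 378) (nat_lit 325) (nat_lit 197)) (XT.nd (nat_lit 78) (nat_lit 0) (nat_lit 0) (XT.lf (nat_lit 0) (nat_lit 3907686779423)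 (nat_lit 152) (nat_lit 41126737111732) (nat_lit 0) (nat_lit 3736614297467) (nat_lit 1) (nat_lit 5) (nat_lit 3) (nat_lit 4) (nat_lit 1) (nat_lit 4) (nat_lit 379) (nat_lit 325) (nat_lit 196)) (XT.lf (nat_lit 0) (nat_lit 5105350371145) (nat_lit 152) (nat_lit 45951434896036) (nat_lit 0) (nat_lit 4934277888859) (nat_lit 1) (nat_lit 5) (nat_lit 3) (nat_lit 4) (nat_lit 1) (nat_lit 4) (nat_lit 380) (nat_lit 325) (nat_lit 195)))))) (XT.nd (nat_lit 390) (nat_lit 0) (nat_lit 0) (XT.nd (nat_lit 156) (nat_lit 0) (nat_lit 0) (XT.nd (nat_lit 78) (nat_lit 0) (nat_lit 0) (XT.lf (nat_lit 0) (nat_lit 6482663499328) (nat_lit 152) (nat_lit 51499837352834) (nat_lit 0) (nat_lit 6311591016755) (nat_lit 1) (nat_lit 5) (nat_lit 3) (nat_lit 4) (nat_lit 1) (nat_lit 4) (nat_lit 381) (nat_lit 325) (nat_lit 194)) (XT.lf (nat_lit 0) (nat_lit 8066573594739) (nat_lit 152) (nat_lit 57880500182368) (nat_lit 0) (nat_lit 7895501111917)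 (nat_lit 1) (nat_lit 5) (nat_lit 3) (nat_lit 4) (nat_lit 1) (nat_lit 4) (nat_lit 382) (nat_lit 325) (nat_lit 193))) (XT.nd (nat_lit 78) (nat_lit 0) (nat_lit 0) (XT.lf (nat_lit 0) (nat_lit 9888070202724) (nat_lit 152) (nat_lit 65218262439998) (nat_lit 0) (nat_lit 9716997719685) (nat_lit 1) (nat_lit 5) (nat_lit 3) (nat_lit 4) (nat_lit 1) (nat_lit 4) (nat_lit 383) (nat_lit 325) (nat_lit 192)) (XT.nd (nat_lit 78) (nat_lit 0) (nat_lit 0) (XT.lf (nat_lit 0) (nat_lit 11982791300397) (nat_lit 152) (nat_lit 73656689039461) (nat_lit 0) (nat_lit 11811718817169) (nat_lit 1) (nat_lit 5) (nat_lit 3) (nat_lit 4) (nat_lit 1) (nat_lit 4) (nat_lit 384) (nat_lit 325) (nat_lit 191)) (XT.lf (nat_lit 0) (nat_lit 14391720561406) (nat_lit 152) (nat_lit 83360879631616) (nat_lit 0) (nat_lit 14220648078013) (nat_lit 1) (nat_lit 5) (nat_lit 3) (nat_lit 4) (nat_lit 1) (nat_lit 4) (nat_lit 385) (nat_lit 325) (nat_lit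 190))))) (XT.nd (nat_lit 42198) (nat_lit 0) (nat_lit 2052) (XT.nd (nat_lit 78) (nat_lit 0) (nat_lit 0) (XT.lf (nat_lit 0) (nat_lit 17161989210424) (nat_lit 152) (nat_lit 94520698815004) (nat_lit 0) (nat_lit 16990916726889) (nat_lit 1) (nat_lit 5) (nat_lit 3) (nat_lit 4) (nat_lit 1) (nat_lit 4) (nat_lit 386) (nat_lit 325) (nat_lit 189)) (XT.nd (nat_lit 78) (nat_lit 0) (nat_lit 0) (XT.lf (nat_lit 0) (nat_lit 20347798155801) (nat_lit 152) (nat_lit 107354490877997) (nat_lit 0) (nat_lit 20176725672142) (nat_lit 1) (nat_lit 5) (nat_lit 3) (nat_lit 4) (nat_lit 1) (nat_lit 4) (nat_lit 387) (nat_lit 325) (nat_lit 188)) (XT.lf (nat_lit 0) (nat_lit 24011478442120) (nat_lit 152) (nat_lit 122113351752261) (nat_lit 0) (nat_lit 23840405958353) (nat_lit 1) (nat_lit 5) (nat_lit 3) (nat_lit 4) (nat_lit 1) (nat_lit 4) (nat_lit 388) (nat_lit 325) (nat_lit 187)))) (XT.nd (nat_lit 78) (nat_lit 0) (nat_lit 0)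 (XT.lf (nat_lit 0) (nat_lit 18577686919) (nat_lit 380) (nat_lit 29127700263) (nat_lit 380) (nat_lit 29127700263) (nat_lit 28) (nat_lit 3) (nat_lit 33) (nat_lit 3) (nat_lit 33) (nat_lit 5) (nat_lit 326) (nat_lit 326) (nat_lit 248)) (XT.nd (nat_lit 78) (nat_lit 0) (nat_lit 76) (XT.lf (nat_lit 76) (nat_lit 17914756699) (nat_lit 0) (nat_lit 22771629439) (nat_lit 380) (nat_lit 124393093730) (nat_lit 29) (nat_lit 5) (nat_lit 28) (nat_lit 3) (nat_lit 33) (nat_lit 5) (nat_lit 327) (nat_lit 326) (nat_lit 247)) (XT.lf (nat_lit 0) (nat_lit 50452851223) (nat_lit 304) (nat_lit 68351910156) (nat_lit 380) (nat_lit 58544149828) (nat_lit 29) (nat_lit 5) (nat_lit 33) (nat_lit 5) (nat_lit 34) (nat_lit 5) (nat_lit 328) (nat_lit 326) (nat_lit 246))))))) (XT.nd (nat_lit 858) (nat_lit 684) (nat_lit 0) (XT.nd (nat_lit 390) (nat_lit 380) (nat_lit 0) (XT.nd (nat_lit 156) (nat_lit 380) (nat_lit 0) (XT.nd (nat_lit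 78) (nat_lit 0) (nat_lit 76) (XT.lf (nat_lit 76) (nat_lit 23269781225) (nat_lit 0) (nat_lit 40462021870) (nat_lit 380) (nat_lit 127419827257) (nat_lit 30) (nat_lit 5) (nat_lit 29) (nat_lit 5) (nat_lit 34) (nat_lit 5) (nat_lit 329) (nat_lit 326) (nat_lit 245)) (XT.lf (nat_lit 0) (nat_lit 84800482591) (nat_lit 304) (nat_lit 72397927382) (nat_lit 76) (nat_lit 48956665241) (nat_lit 30) (nat_lit 5) (nat_lit 34) (nat_lit 5) (nat_lit 31) (nat_lit 5) (nat_lit 330) (nat_lit 326) (nat_lit 244))) (XT.nd (nat_lit 78) (nat_lit 152) (nat_lit 0) (XT.lf (nat_lit 0) (nat_lit 38949018053) (nat_lit 304) (nat_lit 73619694636) (nat_lit 380) (nat_lit 110309437313) (nat_lit 26) (nat_lit 5) (nat_lit 30) (nat_lit 5) (nat_lit 31) (nat_lit 5) (nat_lit 331) (nat_lit 326) (nat_lit 243)) (XT.nd (nat_lit 78) (nat_lit 152) (nat_lit 0) (XT.lf (nat_lit 0) (nat_lit 149398047333) (nat_lit 380) (nat_lit 67519531290) (nat_lit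 76) (nat_lit 24457727314) (nat_lit 26) (nat_lit 5) (nat_lit 31) (nat_lit 5) (nat_lit 27) (nat_lit 5) (nat_lit 332) (nat_lit 326) (nat_lit 242)) (XT.lf (nat_lit 0) (nat_lit 68987234392) (nat_lit 152) (nat_lit 129126616013) (nat_lit 228) (nat_lit 63578874997) (nat_lit 24) (nat_lit 5) (nat_lit 26) (nat_lit 5) (nat_lit 27) (nat_lit 5) (nat_lit 333) (nat_lit 326) (nat_lit 241))))) (XT.nd (nat_lit 234) (nat_lit 228) (nat_lit 0) (XT.nd (nat_lit 78) (nat_lit 152) (nat_lit 0) (XT.lf (nat_lit 0) (nat_lit 233558006985) (nat_lit 152) (nat_lit 24108221583) (nat_lit 228) (nat_lit 26862148851) (nat_lit 24) (nat_lit 5) (nat_lit 26) (nat_lit 5) (nat_lit 27) (nat_lit 5) (nat_lit 334) (nat_lit 326) (nat_lit 240)) (XT.nd (nat_lit 78) (nat_lit 0) (nat_lit 0) (XT.lf (nat_lit 0) (nat_lit 23331356852) (nat_lit 152) (nat_lit 191934169917) (nat_lit 76) (nat_lit 94027897567) (nat_lit 22) (nat_lit 5) (nat_lit 24)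 (nat_lit 5) (nat_lit 23) (nat_lit 5) (nat_lit 335) (nat_lit 326) (nat_lit 239)) (XT.lf (nat_lit 0) (nat_lit 82242769173) (nat_lit 152) (nat_lit 23261191324) (nat_lit 76) (nat_lit 231486537544) (nat_lit 22) (nat_lit 5) (nat_lit 24) (nat_lit 5) (nat_lit 23) (nat_lit 5) (nat_lit 336) (nat_lit 326) (nat_lit 238)))) (XT.nd (nat_lit 78) (nat_lit 76) (nat_lit 0) (XT.lf (nat_lit 0) (nat_lit 158977936698) (nat_lit 228) (nat_lit 181510004025) (nat_lit 76) (nat_lit 27006135762) (nat_lit 20) (nat_lit 5) (nat_lit 23) (nat_lit 5) (nat_lit 21) (nat_lit 4) (nat_lit 337) (nat_lit 326) (nat_lit 237)) (XT.nd (nat_lit 78) (nat_lit 0) (nat_lit 0) (XT.lf (nat_lit 0) (nat_lit 23883704411) (nat_lit 76) (nat_lit 230626315479) (nat_lit 152) (nat_lit 146970175889) (nat_lit 19) (nat_lit 5) (nat_lit 20) (nat_lit 5) (nat_lit 21) (nat_lit 4) (nat_lit 338) (nat_lit 326) (nat_lit 236)) (XT.lf (nat_lit 0) (nat_lit 280485477433)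 (nat_lit 76) (nat_lit 93374313701) (nat_lit 152) (nat_lit 65281260638) (nat_lit 19) (nat_lit 5) (nat_lit 20) (nat_lit 5) (nat_lit 21) (nat_lit 4) (nat_lit 339) (nat_lit 326) (nat_lit 235)))))) (XT.nd (nat_lit 468) (nat_lit 304) (nat_lit 0) (XT.nd (nat_lit 234) (nat_lit 152) (nat_lit 0) (XT.nd (nat_lit 78) (nat_lit 76) (nat_lit 0) (XT.lf (nat_lit 0) (nat_lit 33213216276) (nat_lit 152) (nat_lit 383646609342) (nat_lit 76) (nat_lit 64347618459) (nat_lit 17) (nat_lit 5) (nat_lit 19) (nat_lit 5) (nat_lit 18) (nat_lit 4) (nat_lit 340) (nat_lit 326) (nat_lit 234)) (XT.nd (nat_lit 78) (nat_lit 76) (nat_lit 0) (XT.lf (nat_lit 0) (nat_lit 152932855192) (nat_lit 152) (nat_lit 126249540291) (nat_lit 76) (nat_lit 247964922905) (nat_lit 17) (nat_lit 5) (nat_lit 19) (nat_lit 5) (nat_lit 18) (nat_lit 4) (nat_lit 341) (nat_lit 326) (nat_lit 233)) (XT.lf (nat_lit 0) (nat_lit 186346768821) (nat_lit 76) (nat_lit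 111979781050) (nat_lit 152) (nat_lit 280494207565) (nat_lit 16) (nat_lit 5) (nat_lit 17) (nat_lit 5) (nat_lit 18) (nat_lit 4) (nat_lit 342) (nat_lit 326) (nat_lit 232)))) (XT.nd (nat_lit 78) (nat_lit 152) (nat_lit 0) (XT.lf (nat_lit 0) (nat_lit 475768040351) (nat_lit 152) (nat_lit 80873694660) (nat_lit 0) (nat_lit 80067666162) (nat_lit 16) (nat_lit 5) (nat_lit 18) (nat_lit 4) (nat_lit 16) (nat_lit 4) (nat_lit 343) (nat_lit 326) (nat_lit 231)) (XT.nd (nat_lit 78) (nat_lit 76) (nat_lit 0) (XT.lf (nat_lit 0) (nat_lit 298729020640) (nat_lit 76) (nat_lit 398798741184) (nat_lit 76) (nat_lit 3098278593) (nat_lit 15) (nat_lit 4) (nat_lit 16) (nat_lit 5) (nat_lit 16) (nat_lit 4) (nat_lit 344) (nat_lit 326) (nat_lit 230)) (XT.lf (nat_lit 0) (nat_lit 166965674957) (nat_lit 152) (nat_lit 36724338304) (nat_lit 76) (nat_lit 568667650130) (nat_lit 14) (nat_lit 5) (nat_lit 16) (nat_lit 5) (nat_lit 15)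 (nat_lit 4) (nat_lit 345) (nat_lit 326) (nat_lit 229))))) (XT.nd (nat_lit 234) (nat_lit 152) (nat_lit 0) (XT.nd (nat_lit 78) (nat_lit 76) (nat_lit 0) (XT.lf (nat_lit 0) (nat_lit 381327221386) (nat_lit 152) (nat_lit 433394159579) (nat_lit 0) (nat_lit 37239737640) (nat_lit 13) (nat_lit 5) (nat_lit 15) (nat_lit 4) (nat_lit 13) (nat_lit 4) (nat_lit 346) (nat_lit 326) (nat_lit 228)) (XT.nd (nat_lit 78) (nat_lit 76) (nat_lit 0) (XT.lf (nat_lit 0) (nat_lit 639553539149) (nat_lit 152) (nat_lit 6728967226) (nat_lit 0) (nat_lit 295466004858) (nat_lit 13) (nat_lit 5) (nat_lit 15) (nat_lit 4) (nat_lit 13) (nat_lit 4) (nat_lit 347) (nat_lit 326) (nat_lit 227)) (XT.lf (nat_lit 0) (nat_lit 531229601600) (nat_lit 76) (nat_lit 427281218545) (nat_lit 76) (nat_lit 83193640303) (nat_lit 12) (nat_lit 4) (nat_lit 13) (nat_lit 5) (nat_lit 13) (nat_lit 4) (nat_lit 348) (nat_lit 326) (nat_lit 226)))) (XT.nd (nat_lit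 78) (nat_lit 76) (nat_lit 0) (XT.lf (nat_lit 0) (nat_lit 154011221720) (nat_lit 152) (nat_lit 12963489763) (nat_lit 76) (nat_lit 988576262708) (nat_lit 11) (nat_lit 5) (nat_lit 13) (nat_lit 5) (nat_lit 12) (nat_lit 4) (nat_lit 349) (nat_lit 326) (nat_lit 225)) (XT.nd (nat_lit 78) (nat_lit 0) (nat_lit 0) (XT.lf (nat_lit 0) (nat_lit 450388143457) (nat_lit 152) (nat_lit 679494273542) (nat_lit 0) (nat_lit 151181491548) (nat_lit 10) (nat_lit 5) (nat_lit 12) (nat_lit 4) (nat_lit 10) (nat_lit 4) (nat_lit 350) (nat_lit 326) (nat_lit 224)) (XT.lf (nat_lit 0) (nat_lit 799882626569) (nat_lit 152) (nat_lit 123546053506) (nat_lit 0) (nat_lit 500675949530) (nat_lit 10) (nat_lit 5) (nat_lit 12) (nat_lit 4) (nat_lit 10) (nat_lit 4) (nat_lit 351) (nat_lit 326) (nat_lit 223))))))))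
noncomputable def xc92 : XT := (XT.nd (nat_lit 1716) (nat_lit 152) (nat_lit 0) (XT.nd (nat_lit 858) (nat_lit 76) (nat_lit 0) (XT.nd (nat_lit 390) (nat_lit 228) (nat_lit 0) (XT.nd (nat_lit 156) (nat_lit 152) (nat_lit 0) (XT.nd (nat_lit 78) (nat_lit 0) (nat_lit 0) (XT.lf (nat_lit 0) (nat_lit 566201466095) (nat_lit 76) (nat_lit 659044960019) (nat_lit 76) (nat_lit 359838261129) (nat_lit 9) (nat_lit 4) (nat_lit 10) (nat_lit 5) (nat_lit 10) (nat_lit 4) (nat_lit 352) (nat_lit 326) (nat_lit 222)) (XT.lf (nat_lit 0) (nat_lit 1373295906729) (nat_lit 76) (nat_lit 347576929318) (nat_lit 76) (nat_lit 48370211426) (nat_lit 9) (nat_lit 4) (nat_lit 10) (nat_lit 5) (nat_lit 10) (nat_lit 4) (nat_lit 353) (nat_lit 326) (nat_lit 221))) (XT.nd (nat_lit 78) (nat_lit 0) (nat_lit 0) (XT.lf (nat_lit 0) (nat_lit 297933782421) (nat_lit 152) (nat_lit 1641058348039) (nat_lit 0) (nat_lit 37754013365) (nat_lit 7) (nat_lit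 5) (nat_lit 9) (nat_lit 4) (nat_lit 7) (nat_lit 4) (nat_lit 354) (nat_lit 326) (nat_lit 220)) (XT.nd (nat_lit 78) (nat_lit 0) (nat_lit 0) (XT.lf (nat_lit 0) (nat_lit 729465245027) (nat_lit 152) (nat_lit 1010543385928) (nat_lit 0) (nat_lit 469285463476) (nat_lit 7) (nat_lit 5) (nat_lit 9) (nat_lit 4) (nat_lit 7) (nat_lit 4) (nat_lit 355) (nat_lit 326) (nat_lit 219)) (XT.lf (nat_lit 0) (nat_lit 1225726388790) (nat_lit 152) (nat_lit 285451258205) (nat_lit 0) (nat_lit 965546596375) (nat_lit 7) (nat_lit 5) (nat_lit 9) (nat_lit 4) (nat_lit 7) (nat_lit 4) (nat_lit 356) (nat_lit 326) (nat_lit 218))))) (XT.nd (nat_lit 234) (nat_lit 152) (nat_lit 0) (XT.nd (nat_lit 78) (nat_lit 0) (nat_lit 0) (XT.lf (nat_lit 0) (nat_lit 601998708124) (nat_lit 76) (nat_lit 1219355445485) (nat_lit 76) (nat_lit 959175643624) (nat_lit 6) (nat_lit 4) (nat_lit 7) (nat_lit 5) (nat_lit 7) (nat_lit 4) (nat_lit 357) (nat_lit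 326) (nat_lit 217)) (XT.nd (nat_lit 78) (nat_lit 0) (nat_lit 0) (XT.lf (nat_lit 0) (nat_lit 1654646932980) (nat_lit 76) (nat_lit 866600434327) (nat_lit 76) (nat_lit 606420624250) (nat_lit 6) (nat_lit 4) (nat_lit 7) (nat_lit 5) (nat_lit 7) (nat_lit 4) (nat_lit 358) (nat_lit 326) (nat_lit 216)) (XT.lf (nat_lit 0) (nat_lit 2865192334757) (nat_lit 76) (nat_lit 460932200811) (nat_lit 76) (nat_lit 200752383591) (nat_lit 6) (nat_lit 4) (nat_lit 7) (nat_lit 5) (nat_lit 7) (nat_lit 4) (nat_lit 359) (nat_lit 326) (nat_lit 215)))) (XT.nd (nat_lit 78) (nat_lit 0) (nat_lit 0) (XT.lf (nat_lit 0) (nat_lit 255258585553) (nat_lit 152) (nat_lit 3698069694276) (nat_lit 0) (nat_lit 29015260830) (nat_lit 4) (nat_lit 5) (nat_lit 6) (nat_lit 4) (nat_lit 4) (nat_lit 4) (nat_lit 360) (nat_lit 326) (nat_lit 214)) (XT.nd (nat_lit 78) (nat_lit 0) (nat_lit 0) (XT.lf (nat_lit 0) (nat_lit 817302215566) (nat_lit 152)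 (nat_lit 3087607472720) (nat_lit 0) (nat_lit 591058886145) (nat_lit 4) (nat_lit 5) (nat_lit 6) (nat_lit 4) (nat_lit 4) (nat_lit 4) (nat_lit 361) (nat_lit 326) (nat_lit 213)) (XT.lf (nat_lit 0) (nat_lit 1463652368434) (nat_lit 152) (nat_lit 2385575963155) (nat_lit 0) (nat_lit 1237409034930) (nat_lit 4) (nat_lit 5) (nat_lit 6) (nat_lit 4) (nat_lit 4) (nat_lit 4) (nat_lit 362) (nat_lit 326) (nat_lit 212)))))) (XT.nd (nat_lit 390) (nat_lit 0) (nat_lit 0) (XT.nd (nat_lit 156) (nat_lit 76) (nat_lit 0) (XT.nd (nat_lit 78) (nat_lit 0) (nat_lit 0) (XT.lf (nat_lit 0) (nat_lit 2206955025411) (nat_lit 152) (nat_lit 1578239766481) (nat_lit 0) (nat_lit 1980711688355) (nat_lit 4) (nat_lit 5) (nat_lit 6) (nat_lit 4) (nat_lit 4) (nat_lit 4) (nat_lit 363) (nat_lit 326) (nat_lit 211)) (XT.lf (nat_lit 0) (nat_lit 3061753064567) (nat_lit 152) (nat_lit 649803174501) (nat_lit 0) (nat_lit 2835509724423) (nat_lit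 4) (nat_lit 5) (nat_lit 6) (nat_lit 4) (nat_lit 4) (nat_lit 4) (nat_lit 364) (nat_lit 326) (nat_lit 210))) (XT.nd (nat_lit 78) (nat_lit 0) (nat_lit 0) (XT.lf (nat_lit 0) (nat_lit 458738994020) (nat_lit 76) (nat_lit 3605027204823) (nat_lit 76) (nat_lit 3378783861993) (nat_lit 3) (nat_lit 4) (nat_lit 4) (nat_lit 5) (nat_lit 4) (nat_lit 4) (nat_lit 365) (nat_lit 326) (nat_lit 209)) (XT.nd (nat_lit 78) (nat_lit 0) (nat_lit 0) (XT.lf (nat_lit 0) (nat_lit 1806591475299) (nat_lit 76) (nat_lit 3443456798532) (nat_lit 76) (nat_lit 3217213453368) (nat_lit 3) (nat_lit 4) (nat_lit 4) (nat_lit 5) (nat_lit 4) (nat_lit 4) (nat_lit 366) (nat_lit 326) (nat_lit 208)) (XT.lf (nat_lit 0) (nat_lit 3356621804087) (nat_lit 76) (nat_lit 3257650844197) (nat_lit 76) (nat_lit 3031407497001) (nat_lit 3) (nat_lit 4) (nat_lit 4) (nat_lit 5) (nat_lit 4) (nat_lit 4) (nat_lit 367) (nat_lit 326) (nat_lit 207))))) (XT.nd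 (nat_lit 234) (nat_lit 0) (nat_lit 0) (XT.nd (nat_lit 78) (nat_lit 0) (nat_lit 0) (XT.lf (nat_lit 0) (nat_lit 5139156660732) (nat_lit 76) (nat_lit 3043974007926) (nat_lit 76) (nat_lit 2817730658965) (nat_lit 3) (nat_lit 4) (nat_lit 4) (nat_lit 5) (nat_lit 4) (nat_lit 4) (nat_lit 368) (nat_lit 326) (nat_lit 206)) (XT.nd (nat_lit 78) (nat_lit 0) (nat_lit 0) (XT.lf (nat_lit 0) (nat_lit 7189071727210) (nat_lit 76) (nat_lit 2798245655967) (nat_lit 76) (nat_lit 2572002305471) (nat_lit 3) (nat_lit 4) (nat_lit 4) (nat_lit 5) (nat_lit 4) (nat_lit 4) (nat_lit 369) (nat_lit 326) (nat_lit 205)) (XT.lf (nat_lit 0) (nat_lit 9546474037432) (nat_lit 76) (nat_lit 2515658059695) (nat_lit 76) (nat_lit 2289414707864) (nat_lit 3) (nat_lit 4) (nat_lit 4) (nat_lit 5) (nat_lit 4) (nat_lit 4) (nat_lit 370) (nat_lit 326) (nat_lit 204)))) (XT.nd (nat_lit 78) (nat_lit 0) (nat_lit 0) (XT.lf (nat_lit 0) (nat_lit 12257486680075)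 (nat_lit 76) (nat_lit 2190682331357) (nat_lit 76) (nat_lit 1964438978364) (nat_lit 3) (nat_lit 4) (nat_lit 4) (nat_lit 5) (nat_lit 4) (nat_lit 4) (nat_lit 371) (nat_lit 326) (nat_lit 203)) (XT.nd (nat_lit 78) (nat_lit 0) (nat_lit 0) (XT.lf (nat_lit 0) (nat_lit 15375151206844) (nat_lit 76) (nat_lit 1816960250180) (nat_lit 76) (nat_lit 1590716896178) (nat_lit 3) (nat_lit 4) (nat_lit 4) (nat_lit 5) (nat_lit 4) (nat_lit 4) (nat_lit 372) (nat_lit 326) (nat_lit 202)) (XT.lf (nat_lit 0) (nat_lit 18960465401957) (nat_lit 76) (nat_lit 1387179862403) (nat_lit 76) (nat_lit 1160936507523) (nat_lit 3) (nat_lit 4) (nat_lit 4) (nat_lit 5) (nat_lit 4) (nat_lit 4) (nat_lit 373) (nat_lit 326) (nat_lit 201))))))) (XT.nd (nat_lit 858) (nat_lit 0) (nat_lit 0) (XT.nd (nat_lit 390) (nat_lit 0) (nat_lit 0) (XT.nd (nat_lit 156) (nat_lit 152) (nat_lit 0) (XT.nd (nat_lit 78) (nat_lit 0) (nat_lit 0) (XT.lf (nat_lit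 0) (nat_lit 23083576717059) (nat_lit 76) (nat_lit 892932421308) (nat_lit 76) (nat_lit 666689065664) (nat_lit 3) (nat_lit 4) (nat_lit 4) (nat_lit 5) (nat_lit 4) (nat_lit 4) (nat_lit 374) (nat_lit 326) (nat_lit 200)) (XT.lf (nat_lit 0) (nat_lit 27825154721358) (nat_lit 76) (nat_lit 324547868265) (nat_lit 76) (nat_lit 98304511958) (nat_lit 3) (nat_lit 4) (nat_lit 4) (nat_lit 5) (nat_lit 4) (nat_lit 4) (nat_lit 375) (nat_lit 326) (nat_lit 199))) (XT.nd (nat_lit 78) (nat_lit 0) (nat_lit 0) (XT.lf (nat_lit 0) (nat_lit 561640626202) (nat_lit 152) (nat_lit 31455178696651) (nat_lit 0) (nat_lit 364907272389) (nat_lit 1) (nat_lit 5) (nat_lit 3) (nat_lit 4) (nat_lit 1) (nat_lit 4) (nat_lit 376) (nat_lit 326) (nat_lit 198)) (XT.nd (nat_lit 78) (nat_lit 0) (nat_lit 0) (XT.lf (nat_lit 0) (nat_lit 1349123884201) (nat_lit 152) (nat_lit 34627495794912) (nat_lit 0) (nat_lit 1152390529952) (nat_lit 1) (nat_lit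 5) (nat_lit 3) (nat_lit 4) (nat_lit 1) (nat_lit 4) (nat_lit 377) (nat_lit 326) (nat_lit 197)) (XT.lf (nat_lit 0) (nat_lit 2254729627861) (nat_lit 152) (nat_lit 38275660464325) (nat_lit 0) (nat_lit 2057996273233) (nat_lit 1) (nat_lit 5) (nat_lit 3) (nat_lit 4) (nat_lit 1) (nat_lit 4) (nat_lit 378) (nat_lit 326) (nat_lit 196))))) (XT.nd (nat_lit 234) (nat_lit 0) (nat_lit 0) (XT.nd (nat_lit 78) (nat_lit 0) (nat_lit 0) (XT.lf (nat_lit 0) (nat_lit 3296176230428) (nat_lit 152) (nat_lit 42471049839726) (nat_lit 0) (nat_lit 3099442875469) (nat_lit 1) (nat_lit 5) (nat_lit 3) (nat_lit 4) (nat_lit 1) (nat_lit 4) (nat_lit 379) (nat_lit 326) (nat_lit 195)) (XT.nd (nat_lit 78) (nat_lit 0) (nat_lit 0) (XT.lf (nat_lit 0) (nat_lit 4493839821081) (nat_lit 152) (nat_lit 47295747626285) (nat_lit 0) (nat_lit 4297106465835) (nat_lit 1) (nat_lit 5) (nat_lit 3) (nat_lit 4) (nat_lit 1) (nat_lit 4) (nat_lit 380)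 (nat_lit 326) (nat_lit 194)) (XT.lf (nat_lit 0) (nat_lit 5871152948334) (nat_lit 152) (nat_lit 52844150085044) (nat_lit 0) (nat_lit 5674419592839) (nat_lit 1) (nat_lit 5) (nat_lit 3) (nat_lit 4) (nat_lit 1) (nat_lit 4) (nat_lit 381) (nat_lit 326) (nat_lit 193)))) (XT.nd (nat_lit 78) (nat_lit 0) (nat_lit 0) (XT.lf (nat_lit 0) (nat_lit 7455063042937) (nat_lit 152) (nat_lit 59224812916283) (nat_lit 0) (nat_lit 7258329687225) (nat_lit 1) (nat_lit 5) (nat_lit 3) (nat_lit 4) (nat_lit 1) (nat_lit 4) (nat_lit 382) (nat_lit 326) (nat_lit 192)) (XT.nd (nat_lit 78) (nat_lit 0) (nat_lit 0) (XT.lf (nat_lit 0) (nat_lit 9276559650220) (nat_lit 152) (nat_lit 66562575175396) (nat_lit 0) (nat_lit 9079826294319) (nat_lit 1) (nat_lit 5) (nat_lit 3) (nat_lit 4) (nat_lit 1) (nat_lit 4) (nat_lit 383) (nat_lit 326) (nat_lit 191)) (XT.lf (nat_lit 0) (nat_lit 11371280747281) (nat_lit 152) (nat_lit 75001001776149)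 (nat_lit 0) (nat_lit 11174547391216) (nat_lit 1) (nat_lit 5) (nat_lit 3) (nat_lit 4) (nat_lit 1) (nat_lit 4) (nat_lit 384) (nat_lit 326) (nat_lit 190)))))) (XT.nd (nat_lit 42432) (nat_lit 0) (nat_lit 1900) (XT.nd (nat_lit 156) (nat_lit 0) (nat_lit 0) (XT.nd (nat_lit 78) (nat_lit 0) (nat_lit 0) (XT.lf (nat_lit 0) (nat_lit 13780210007759) (nat_lit 152) (nat_lit 84705192369425) (nat_lit 0) (nat_lit 13583476651551) (nat_lit 1) (nat_lit 5) (nat_lit 3) (nat_lit 4) (nat_lit 1) (nat_lit 4) (nat_lit 385) (nat_lit 326) (nat_lit 189)) (XT.lf (nat_lit 0) (nat_lit 16550478656314) (nat_lit 152) (nat_lit 95865011553788) (nat_lit 0) (nat_lit 16353745299983) (nat_lit 1) (nat_lit 5) (nat_lit 3) (nat_lit 4) (nat_lit 1) (nat_lit 4) (nat_lit 386) (nat_lit 326) (nat_lit 188))) (XT.nd (nat_lit 78) (nat_lit 0) (nat_lit 0) (XT.lf (nat_lit 0) (nat_lit 19736287601290) (nat_lit 152) (nat_lit 108698803617629) (nat_lit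 0) (nat_lit 19539554244850) (nat_lit 1) (nat_lit 5) (nat_lit 3) (nat_lit 4) (nat_lit 1) (nat_lit 4) (nat_lit 387) (nat_lit 326) (nat_lit 187)) (XT.nd (nat_lit 42120) (nat_lit 0) (nat_lit 2052) (XT.lf (nat_lit 0) (nat_lit 23399967887260) (nat_lit 152) (nat_lit 123457664492630) (nat_lit 0) (nat_lit 23203234530726) (nat_lit 1) (nat_lit 5) (nat_lit 3) (nat_lit 4) (nat_lit 1) (nat_lit 4) (nat_lit 388) (nat_lit 326) (nat_lit 186)) (XT.lf (nat_lit 0) (nat_lit 21366781866) (nat_lit 380) (nat_lit 33495449168) (nat_lit 380) (nat_lit 33495449168) (nat_lit 28) (nat_lit 3) (nat_lit 33) (nat_lit 3) (nat_lit 33) (nat_lit 5) (nat_lit 327) (nat_lit 327) (nat_lit 246))))) (XT.nd (nat_lit 234) (nat_lit 152) (nat_lit 0) (XT.nd (nat_lit 78) (nat_lit 0) (nat_lit 76) (XT.lf (nat_lit 76) (nat_lit 20604654643) (nat_lit 0) (nat_lit 26189047371) (nat_lit 380) (nat_lit 143047039055) (nat_lit 29) (nat_lit 5) (nat_lit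 28) (nat_lit 3) (nat_lit 33) (nat_lit 5) (nat_lit 328) (nat_lit 327) (nat_lit 245)) (XT.nd (nat_lit 78) (nat_lit 0) (nat_lit 0) (XT.lf (nat_lit 0) (nat_lit 58024508174) (nat_lit 304) (nat_lit 78601727536) (nat_lit 380) (nat_lit 67324446626) (nat_lit 29) (nat_lit 5) (nat_lit 33) (nat_lit 5) (nat_lit 34) (nat_lit 5) (nat_lit 329) (nat_lit 327) (nat_lit 244)) (XT.lf (nat_lit 76) (nat_lit 26763082591) (nat_lit 0) (nat_lit 46531851167) (nat_lit 380) (nat_lit 146528931759) (nat_lit 30) (nat_lit 5) (nat_lit 29) (nat_lit 5) (nat_lit 34) (nat_lit 5) (nat_lit 330) (nat_lit 327) (nat_lit 243)))) (XT.nd (nat_lit 78) (nat_lit 304) (nat_lit 0) (XT.lf (nat_lit 0) (nat_lit 97523457952) (nat_lit 304) (nat_lit 83254690097) (nat_lit 76) (nat_lit 56299748343) (nat_lit 30) (nat_lit 5) (nat_lit 34) (nat_lit 5) (nat_lit 31) (nat_lit 5) (nat_lit 331) (nat_lit 327) (nat_lit 242)) (XT.nd (nat_lit 78) (nat_lit 0)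 (nat_lit 0) (XT.lf (nat_lit 0) (nat_lit 44794164136) (nat_lit 304) (nat_lit 84662495447) (nat_lit 380) (nat_lit 126852812869) (nat_lit 26) (nat_lit 5) (nat_lit 30) (nat_lit 5) (nat_lit 31) (nat_lit 5) (nat_lit 332) (nat_lit 327) (nat_lit 241)) (XT.lf (nat_lit 0) (nat_lit 171810055600) (nat_lit 380) (nat_lit 77644689615) (nat_lit 76) (nat_lit 28126507914) (nat_lit 26) (nat_lit 5) (nat_lit 31) (nat_lit 5) (nat_lit 27) (nat_lit 5) (nat_lit 333) (nat_lit 327) (nat_lit 240))))))))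
noncomputable def xc93 : XT := (XT.nd (nat_lit 1716) (nat_lit 456) (nat_lit 0) (XT.nd (nat_lit 858) (nat_lit 684) (nat_lit 0) (XT.nd (nat_lit 390) (nat_lit 304) (nat_lit 0) (XT.nd (nat_lit 156) (nat_lit 304) (nat_lit 0) (XT.nd (nat_lit 78) (nat_lit 0) (nat_lit 0) (XT.lf (nat_lit 0) (nat_lit 79337964948) (nat_lit 152) (nat_lit 148495073573) (nat_lit 228) (nat_lit 73113276044) (nat_lit 24) (nat_lit 5) (nat_lit 26) (nat_lit 5) (nat_lit 27) (nat_lit 5) (nat_lit 334) (nat_lit 327) (nat_lit 239)) (XT.lf (nat_lit 0) (nat_lit 268594008378) (nat_lit 152) (nat_lit 27723989741) (nat_lit 228) (nat_lit 30889357960) (nat_lit 24) (nat_lit 5) (nat_lit 26) (nat_lit 5) (nat_lit 27) (nat_lit 5) (nat_lit 335) (nat_lit 327) (nat_lit 238))) (XT.nd (nat_lit 78) (nat_lit 152) (nat_lit 0) (XT.lf (nat_lit 0) (nat_lit 26832857875) (nat_lit 152) (nat_lit 220721675005) (nat_lit 76) (nat_lit 108132633467) (nat_lit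 22) (nat_lit 5) (nat_lit 24) (nat_lit 5) (nat_lit 23) (nat_lit 5) (nat_lit 336) (nat_lit 327) (nat_lit 237)) (XT.nd (nat_lit 78) (nat_lit 152) (nat_lit 0) (XT.lf (nat_lit 0) (nat_lit 94580747589) (nat_lit 152) (nat_lit 26748091414) (nat_lit 76) (nat_lit 266209997537) (nat_lit 22) (nat_lit 5) (nat_lit 24) (nat_lit 5) (nat_lit 23) (nat_lit 5) (nat_lit 337) (nat_lit 327) (nat_lit 236)) (XT.lf (nat_lit 0) (nat_lit 182826106486) (nat_lit 228) (nat_lit 208734140740) (nat_lit 76) (nat_lit 31057717317) (nat_lit 20) (nat_lit 5) (nat_lit 23) (nat_lit 5) (nat_lit 21) (nat_lit 4) (nat_lit 338) (nat_lit 327) (nat_lit 235))))) (XT.nd (nat_lit 234) (nat_lit 76) (nat_lit 0) (XT.nd (nat_lit 78) (nat_lit 152) (nat_lit 0) (XT.lf (nat_lit 0) (nat_lit 27468516512) (nat_lit 76) (nat_lit 265219386129) (nat_lit 152) (nat_lit 169014114216) (nat_lit 19) (nat_lit 5) (nat_lit 20) (nat_lit 5) (nat_lit 21) (nat_lit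 4) (nat_lit 339) (nat_lit 327) (nat_lit 234)) (XT.nd (nat_lit 78) (nat_lit 152) (nat_lit 0) (XT.lf (nat_lit 0) (nat_lit 322560261170) (nat_lit 76) (nat_lit 107379698433) (nat_lit 152) (nat_lit 75072068815) (nat_lit 19) (nat_lit 5) (nat_lit 20) (nat_lit 5) (nat_lit 21) (nat_lit 4) (nat_lit 340) (nat_lit 327) (nat_lit 233)) (XT.lf (nat_lit 0) (nat_lit 38196408809) (nat_lit 152) (nat_lit 441191465923) (nat_lit 76) (nat_lit 74000503572) (nat_lit 17) (nat_lit 5) (nat_lit 19) (nat_lit 5) (nat_lit 18) (nat_lit 4) (nat_lit 341) (nat_lit 327) (nat_lit 232)))) (XT.nd (nat_lit 78) (nat_lit 76) (nat_lit 0) (XT.lf (nat_lit 0) (nat_lit 175873835724) (nat_lit 152) (nat_lit 145185114969) (nat_lit 76) (nat_lit 285160306858) (nat_lit 17) (nat_lit 5) (nat_lit 19) (nat_lit 5) (nat_lit 18) (nat_lit 4) (nat_lit 342) (nat_lit 327) (nat_lit 231)) (XT.nd (nat_lit 78) (nat_lit 0) (nat_lit 0) (XT.lf (nat_lit 0)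 (nat_lit 214300556130) (nat_lit 76) (nat_lit 128775964600) (nat_lit 152) (nat_lit 322567201407) (nat_lit 16) (nat_lit 5) (nat_lit 17) (nat_lit 5) (nat_lit 18) (nat_lit 4) (nat_lit 343) (nat_lit 327) (nat_lit 230)) (XT.lf (nat_lit 0) (nat_lit 547134134077) (nat_lit 152) (nat_lit 93003106726) (nat_lit 0) (nat_lit 92078436823) (nat_lit 16) (nat_lit 5) (nat_lit 18) (nat_lit 4) (nat_lit 16) (nat_lit 4) (nat_lit 344) (nat_lit 327) (nat_lit 229)))))) (XT.nd (nat_lit 390) (nat_lit 380) (nat_lit 0) (XT.nd (nat_lit 156) (nat_lit 152) (nat_lit 0) (XT.nd (nat_lit 78) (nat_lit 76) (nat_lit 0) (XT.lf (nat_lit 0) (nat_lit 343539941226) (nat_lit 76) (nat_lit 458617821668) (nat_lit 76) (nat_lit 3562057568) (nat_lit 15) (nat_lit 4) (nat_lit 16) (nat_lit 5) (nat_lit 16) (nat_lit 4) (nat_lit 345) (nat_lit 327) (nat_lit 228)) (XT.lf (nat_lit 0) (nat_lit 192011288894) (nat_lit 152) (nat_lit 42231551102) (nat_lit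 76) (nat_lit 653968358123) (nat_lit 14) (nat_lit 5) (nat_lit 16) (nat_lit 5) (nat_lit 15) (nat_lit 4) (nat_lit 346) (nat_lit 327) (nat_lit 227))) (XT.nd (nat_lit 78) (nat_lit 76) (nat_lit 0) (XT.lf (nat_lit 0) (nat_lit 438527051662) (nat_lit 152) (nat_lit 498401829615) (nat_lit 0) (nat_lit 42826292732) (nat_lit 13) (nat_lit 5) (nat_lit 15) (nat_lit 4) (nat_lit 13) (nat_lit 4) (nat_lit 347) (nat_lit 327) (nat_lit 226)) (XT.nd (nat_lit 78) (nat_lit 76) (nat_lit 0) (XT.lf (nat_lit 0) (nat_lit 735487219645) (nat_lit 152) (nat_lit 7737048048) (nat_lit 0) (nat_lit 339786422496) (nat_lit 13) (nat_lit 5) (nat_lit 15) (nat_lit 4) (nat_lit 13) (nat_lit 4) (nat_lit 348) (nat_lit 327) (nat_lit 225)) (XT.lf (nat_lit 0) (nat_lit 610915248635) (nat_lit 76) (nat_lit 491372809393) (nat_lit 76) (nat_lit 95671979010) (nat_lit 12) (nat_lit 4) (nat_lit 13) (nat_lit 5) (nat_lit 13) (nat_lit 4) (nat_lit 349)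 (nat_lit 327) (nat_lit 224))))) (XT.nd (nat_lit 234) (nat_lit 228) (nat_lit 0) (XT.nd (nat_lit 78) (nat_lit 76) (nat_lit 0) (XT.lf (nat_lit 0) (nat_lit 177113465296) (nat_lit 152) (nat_lit 14906908894) (nat_lit 76) (nat_lit 1136863161894) (nat_lit 11) (nat_lit 5) (nat_lit 13) (nat_lit 5) (nat_lit 12) (nat_lit 4) (nat_lit 350) (nat_lit 327) (nat_lit 223)) (XT.nd (nat_lit 78) (nat_lit 0) (nat_lit 0) (XT.lf (nat_lit 0) (nat_lit 517946917525) (nat_lit 152) (nat_lit 781417302309) (nat_lit 0) (nat_lit 173859191949) (nat_lit 10) (nat_lit 5) (nat_lit 12) (nat_lit 4) (nat_lit 10) (nat_lit 4) (nat_lit 351) (nat_lit 327) (nat_lit 222)) (XT.lf (nat_lit 0) (nat_lit 919865501032) (nat_lit 152) (nat_lit 142076994346) (nat_lit 0) (nat_lit 575777756455) (nat_lit 10) (nat_lit 5) (nat_lit 12) (nat_lit 4) (nat_lit 10) (nat_lit 4) (nat_lit 352) (nat_lit 327) (nat_lit 221)))) (XT.nd (nat_lit 78) (nat_lit 152)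 (nat_lit 0) (XT.lf (nat_lit 0) (nat_lit 651132609233) (nat_lit 76) (nat_lit 757901236835) (nat_lit 76) (nat_lit 413813475734) (nat_lit 9) (nat_lit 4) (nat_lit 10) (nat_lit 5) (nat_lit 10) (nat_lit 4) (nat_lit 353) (nat_lit 327) (nat_lit 220)) (XT.nd (nat_lit 78) (nat_lit 152) (nat_lit 0) (XT.lf (nat_lit 0) (nat_lit 1579291095541) (nat_lit 76) (nat_lit 399713062465) (nat_lit 76) (nat_lit 55625286997) (nat_lit 9) (nat_lit 4) (nat_lit 10) (nat_lit 5) (nat_lit 10) (nat_lit 4) (nat_lit 354) (nat_lit 327) (nat_lit 219)) (XT.lf (nat_lit 0) (nat_lit 342624261456) (nat_lit 152) (nat_lit 1887216252797) (nat_lit 0) (nat_lit 43417489315) (nat_lit 7) (nat_lit 5) (nat_lit 9) (nat_lit 4) (nat_lit 7) (nat_lit 4) (nat_lit 355) (nat_lit 327) (nat_lit 218))))))) (XT.nd (nat_lit 858) (nat_lit 152) (nat_lit 0) (XT.nd (nat_lit 390) (nat_lit 228) (nat_lit 0) (XT.nd (nat_lit 156) (nat_lit 76) (nat_lit 0) (XT.nd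 (nat_lit 78) (nat_lit 0) (nat_lit 0) (XT.lf (nat_lit 0) (nat_lit 838885389756) (nat_lit 152) (nat_lit 1162124156906) (nat_lit 0) (nat_lit 539678608168) (nat_lit 7) (nat_lit 5) (nat_lit 9) (nat_lit 4) (nat_lit 7) (nat_lit 4) (nat_lit 356) (nat_lit 327) (nat_lit 217)) (XT.lf (nat_lit 0) (nat_lit 1409585658391) (nat_lit 152) (nat_lit 328268306143) (nat_lit 0) (nat_lit 1110378868588) (nat_lit 7) (nat_lit 5) (nat_lit 9) (nat_lit 4) (nat_lit 7) (nat_lit 4) (nat_lit 357) (nat_lit 327) (nat_lit 216))) (XT.nd (nat_lit 78) (nat_lit 0) (nat_lit 0) (XT.lf (nat_lit 0) (nat_lit 692299126008) (nat_lit 76) (nat_lit 1402258446651) (nat_lit 76) (nat_lit 1103051649704) (nat_lit 6) (nat_lit 4) (nat_lit 7) (nat_lit 5) (nat_lit 7) (nat_lit 4) (nat_lit 358) (nat_lit 327) (nat_lit 215)) (XT.nd (nat_lit 78) (nat_lit 0) (nat_lit 0) (XT.lf (nat_lit 0) (nat_lit 1902844504810) (nat_lit 76) (nat_lit 996590224992) (nat_lit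 76) (nat_lit 697383421833) (nat_lit 6) (nat_lit 4) (nat_lit 7) (nat_lit 5) (nat_lit 7) (nat_lit 4) (nat_lit 359) (nat_lit 327) (nat_lit 214)) (XT.lf (nat_lit 0) (nat_lit 3294971647478) (nat_lit 76) (nat_lit 530071792250) (nat_lit 76) (nat_lit 230864983691) (nat_lit 6) (nat_lit 4) (nat_lit 7) (nat_lit 5) (nat_lit 7) (nat_lit 4) (nat_lit 360) (nat_lit 327) (nat_lit 213))))) (XT.nd (nat_lit 234) (nat_lit 76) (nat_lit 0) (XT.nd (nat_lit 78) (nat_lit 0) (nat_lit 0) (XT.lf (nat_lit 0) (nat_lit 293547606454) (nat_lit 152) (nat_lit 4252779661473) (nat_lit 0) (nat_lit 33367768840) (nat_lit 4) (nat_lit 5) (nat_lit 6) (nat_lit 4) (nat_lit 4) (nat_lit 4) (nat_lit 361) (nat_lit 327) (nat_lit 212)) (XT.nd (nat_lit 78) (nat_lit 0) (nat_lit 0) (XT.lf (nat_lit 0) (nat_lit 939897750568) (nat_lit 152) (nat_lit 3550748170199) (nat_lit 0) (nat_lit 679717909402) (nat_lit 4) (nat_lit 5) (nat_lit 6) (nat_lit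 4) (nat_lit 4) (nat_lit 4) (nat_lit 362) (nat_lit 327) (nat_lit 211)) (XT.lf (nat_lit 0) (nat_lit 1683200399932) (nat_lit 152) (nat_lit 2743411989430) (nat_lit 0) (nat_lit 1423020555678) (nat_lit 4) (nat_lit 5) (nat_lit 6) (nat_lit 4) (nat_lit 4) (nat_lit 4) (nat_lit 363) (nat_lit 327) (nat_lit 210)))) (XT.nd (nat_lit 78) (nat_lit 76) (nat_lit 0) (XT.lf (nat_lit 0) (nat_lit 2537998432469) (nat_lit 152) (nat_lit 1814975411280) (nat_lit 0) (nat_lit 2277818585529) (nat_lit 4) (nat_lit 5) (nat_lit 6) (nat_lit 4) (nat_lit 4) (nat_lit 4) (nat_lit 364) (nat_lit 327) (nat_lit 209)) (XT.nd (nat_lit 78) (nat_lit 76) (nat_lit 0) (XT.lf (nat_lit 0) (nat_lit 3521016157510) (nat_lit 152) (nat_lit 747273372264) (nat_lit 0) (nat_lit 3260836308235) (nat_lit 4) (nat_lit 5) (nat_lit 6) (nat_lit 4) (nat_lit 4) (nat_lit 4) (nat_lit 365) (nat_lit 327) (nat_lit 208)) (XT.lf (nat_lit 0) (nat_lit 527550108880)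 (nat_lit 76) (nat_lit 4145781146670) (nat_lit 76) (nat_lit 3885601295364) (nat_lit 3) (nat_lit 4) (nat_lit 4) (nat_lit 5) (nat_lit 4) (nat_lit 4) (nat_lit 366) (nat_lit 327) (nat_lit 207)))))) (XT.nd (nat_lit 468) (nat_lit 152) (nat_lit 0) (XT.nd (nat_lit 234) (nat_lit 0) (nat_lit 0) (XT.nd (nat_lit 78) (nat_lit 0) (nat_lit 0) (XT.lf (nat_lit 0) (nat_lit 2077580427686) (nat_lit 76) (nat_lit 3959975197551) (nat_lit 76) (nat_lit 3699795344479) (nat_lit 3) (nat_lit 4) (nat_lit 4) (nat_lit 5) (nat_lit 4) (nat_lit 4) (nat_lit 367) (nat_lit 327) (nat_lit 206)) (XT.nd (nat_lit 78) (nat_lit 0) (nat_lit 0) (XT.lf (nat_lit 0) (nat_lit 3860115275650) (nat_lit 76) (nat_lit 3746298365816) (nat_lit 76) (nat_lit 3486118511209) (nat_lit 3) (nat_lit 4) (nat_lit 4) (nat_lit 5) (nat_lit 4) (nat_lit 4) (nat_lit 368) (nat_lit 327) (nat_lit 205)) (XT.lf (nat_lit 0) (nat_lit 5910030334581) (nat_lit 76) (nat_lit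 3500570017802) (nat_lit 76) (nat_lit 3240390161860) (nat_lit 3) (nat_lit 4) (nat_lit 4) (nat_lit 5) (nat_lit 4) (nat_lit 4) (nat_lit 369) (nat_lit 327) (nat_lit 204)))) (XT.nd (nat_lit 78) (nat_lit 0) (nat_lit 0) (XT.lf (nat_lit 0) (nat_lit 8267432638239) (nat_lit 76) (nat_lit 3217982424960) (nat_lit 76) (nat_lit 2957802567857) (nat_lit 3) (nat_lit 4) (nat_lit 4) (nat_lit 5) (nat_lit 4) (nat_lit 4) (nat_lit 370) (nat_lit 327) (nat_lit 203)) (XT.nd (nat_lit 78) (nat_lit 0) (nat_lit 0) (XT.lf (nat_lit 0) (nat_lit 10978445275175) (nat_lit 76) (nat_lit 2893006699604) (nat_lit 76) (nat_lit 2632826841491) (nat_lit 3) (nat_lit 4) (nat_lit 4) (nat_lit 5) (nat_lit 4) (nat_lit 4) (nat_lit 371) (nat_lit 327) (nat_lit 202)) (XT.lf (nat_lit 0) (nat_lit 14096109796980) (nat_lit 76) (nat_lit 2519284621021) (nat_lit 76) (nat_lit 2259104762030) (nat_lit 3) (nat_lit 4) (nat_lit 4) (nat_lit 5) (nat_lit 4)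 (nat_lit 4) (nat_lit 372) (nat_lit 327) (nat_lit 201))))) (XT.nd (nat_lit 234) (nat_lit 152) (nat_lit 0) (XT.nd (nat_lit 78) (nat_lit 0) (nat_lit 0) (XT.lf (nat_lit 0) (nat_lit 17681423987778) (nat_lit 76) (nat_lit 2089504235499) (nat_lit 76) (nat_lit 1829324375745) (nat_lit 3) (nat_lit 4) (nat_lit 4) (nat_lit 5) (nat_lit 4) (nat_lit 4) (nat_lit 373) (nat_lit 327) (nat_lit 200)) (XT.nd (nat_lit 78) (nat_lit 0) (nat_lit 0) (XT.lf (nat_lit 0) (nat_lit 21804535299127) (nat_lit 76) (nat_lit 1595256796365) (nat_lit 76) (nat_lit 1335076935947) (nat_lit 3) (nat_lit 4) (nat_lit 4) (nat_lit 5) (nat_lit 4) (nat_lit 4) (nat_lit 374) (nat_lit 327) (nat_lit 199)) (XT.lf (nat_lit 0) (nat_lit 26546113300163) (nat_lit 76) (nat_lit 1026872245027) (nat_lit 76) (nat_lit 766692384032) (nat_lit 3) (nat_lit 4) (nat_lit 4) (nat_lit 5) (nat_lit 4) (nat_lit 4) (nat_lit 375) (nat_lit 327) (nat_lit 198)))) (XT.nd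 (nat_lit 78) (nat_lit 152) (nat_lit 0) (XT.lf (nat_lit 0) (nat_lit 31998927995253) (nat_lit 76) (nat_lit 373230014177) (nat_lit 76) (nat_lit 113050152680) (nat_lit 3) (nat_lit 4) (nat_lit 4) (nat_lit 5) (nat_lit 4) (nat_lit 4) (nat_lit 376) (nat_lit 327) (nat_lit 197)) (XT.nd (nat_lit 78) (nat_lit 0) (nat_lit 0) (XT.lf (nat_lit 0) (nat_lit 645886752857) (nat_lit 152) (nat_lit 36173455432106) (nat_lit 0) (nat_lit 419643394654) (nat_lit 1) (nat_lit 5) (nat_lit 3) (nat_lit 4) (nat_lit 1) (nat_lit 4) (nat_lit 377) (nat_lit 327) (nat_lit 196)) (XT.lf (nat_lit 0) (nat_lit 1551492495288) (nat_lit 152) (nat_lit 39821620104112) (nat_lit 0) (nat_lit 1325249136755) (nat_lit 1) (nat_lit 5) (nat_lit 3) (nat_lit 4) (nat_lit 1) (nat_lit 4) (nat_lit 378) (nat_lit 327) (nat_lit 195))))))))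
noncomputable def xc94 : XT := (XT.nd (nat_lit 43836) (nat_lit 0) (nat_lit 380) (XT.nd (nat_lit 42978) (nat_lit 0) (nat_lit 1444) (XT.nd (nat_lit 390) (nat_lit 0) (nat_lit 0) (XT.nd (nat_lit 156) (nat_lit 0) (nat_lit 0) (XT.nd (nat_lit 78) (nat_lit 0) (nat_lit 0) (XT.lf (nat_lit 0) (nat_lit 2592939096785) (nat_lit 152) (nat_lit 44017009481767) (nat_lit 0) (nat_lit 2366695737966) (nat_lit 1) (nat_lit 5) (nat_lit 3) (nat_lit 4) (nat_lit 1) (nat_lit 4) (nat_lit 379) (nat_lit 327) (nat_lit 194)) (XT.lf (nat_lit 0) (nat_lit 3790602686509) (nat_lit 152) (nat_lit 48841707270288) (nat_lit 0) (nat_lit 3564359327440) (nat_lit 1) (nat_lit 5) (nat_lit 3) (nat_lit 4) (nat_lit 1) (nat_lit 4) (nat_lit 380) (nat_lit 327) (nat_lit 193))) (XT.nd (nat_lit 78) (nat_lit 0) (nat_lit 0) (XT.lf (nat_lit 0) (nat_lit 5167915812954) (nat_lit 152) (nat_lit 54390109730752) (nat_lit 0) (nat_lit 4941672453668) (nat_lit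 1) (nat_lit 5) (nat_lit 3) (nat_lit 4) (nat_lit 1) (nat_lit 4) (nat_lit 381) (nat_lit 327) (nat_lit 192)) (XT.nd (nat_lit 78) (nat_lit 0) (nat_lit 0) (XT.lf (nat_lit 0) (nat_lit 6751825906854) (nat_lit 152) (nat_lit 60770772563474) (nat_lit 0) (nat_lit 6525582547379) (nat_lit 1) (nat_lit 5) (nat_lit 3) (nat_lit 4) (nat_lit 1) (nat_lit 4) (nat_lit 382) (nat_lit 327) (nat_lit 191)) (XT.lf (nat_lit 0) (nat_lit 8573322513526) (nat_lit 152) (nat_lit 68108534823877) (nat_lit 0) (nat_lit 8347079153887) (nat_lit 1) (nat_lit 5) (nat_lit 3) (nat_lit 4) (nat_lit 1) (nat_lit 4) (nat_lit 383) (nat_lit 327) (nat_lit 190))))) (XT.nd (nat_lit 234) (nat_lit 0) (nat_lit 0) (XT.nd (nat_lit 78) (nat_lit 0) (nat_lit 0) (XT.lf (nat_lit 0) (nat_lit 10668043610055) (nat_lit 152) (nat_lit 76546961425750) (nat_lit 0) (nat_lit 10441800250274) (nat_lit 1) (nat_lit 5) (nat_lit 3) (nat_lit 4) (nat_lit 1) (nat_lit 4)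 (nat_lit 384) (nat_lit 327) (nat_lit 189)) (XT.nd (nat_lit 78) (nat_lit 0) (nat_lit 0) (XT.lf (nat_lit 0) (nat_lit 13076972870071) (nat_lit 152) (nat_lit 86251152020001) (nat_lit 0) (nat_lit 12850729510165) (nat_lit 1) (nat_lit 5) (nat_lit 3) (nat_lit 4) (nat_lit 1) (nat_lit 4) (nat_lit 385) (nat_lit 327) (nat_lit 188)) (XT.lf (nat_lit 0) (nat_lit 15847241518225) (nat_lit 152) (nat_lit 97410971205212) (nat_lit 0) (nat_lit 15620998158211) (nat_lit 1) (nat_lit 5) (nat_lit 3) (nat_lit 4) (nat_lit 1) (nat_lit 4) (nat_lit 386) (nat_lit 327) (nat_lit 187)))) (XT.nd (nat_lit 78) (nat_lit 0) (nat_lit 0) (XT.lf (nat_lit 0) (nat_lit 19033050462851) (nat_lit 152) (nat_lit 110244763269790) (nat_lit 0) (nat_lit 18806807102743) (nat_lit 1) (nat_lit 5) (nat_lit 3) (nat_lit 4) (nat_lit 1) (nat_lit 4) (nat_lit 387) (nat_lit 327) (nat_lit 186)) (XT.nd (nat_lit 42198) (nat_lit 0) (nat_lit 2052) (XT.lf (nat_lit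 0) (nat_lit 22696730748517) (nat_lit 152) (nat_lit 125003624145432) (nat_lit 0) (nat_lit 22470487388328) (nat_lit 1) (nat_lit 5) (nat_lit 3) (nat_lit 4) (nat_lit 1) (nat_lit 4) (nat_lit 388) (nat_lit 327) (nat_lit 185)) (XT.lf (nat_lit 0) (nat_lit 24573645579) (nat_lit 380) (nat_lit 38518703303) (nat_lit 380) (nat_lit 38518703303) (nat_lit 28) (nat_lit 3) (nat_lit 33) (nat_lit 3) (nat_lit 33) (nat_lit 5) (nat_lit 328) (nat_lit 328) (nat_lit 244)))))) (XT.nd (nat_lit 390) (nat_lit 456) (nat_lit 0) (XT.nd (nat_lit 156) (nat_lit 152) (nat_lit 0) (XT.nd (nat_lit 78) (nat_lit 0) (nat_lit 76) (XT.lf (nat_lit 76) (nat_lit 23697382662) (nat_lit 0) (nat_lit 30118669895) (nat_lit 380) (nat_lit 164500300029) (nat_lit 29) (nat_lit 5) (nat_lit 28) (nat_lit 3) (nat_lit 33) (nat_lit 5) (nat_lit 329) (nat_lit 328) (nat_lit 243)) (XT.lf (nat_lit 0) (nat_lit 66731004263) (nat_lit 304) (nat_lit 90389741567)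 (nat_lit 380) (nat_lit 77422111219) (nat_lit 29) (nat_lit 5) (nat_lit 33) (nat_lit 5) (nat_lit 34) (nat_lit 5) (nat_lit 330) (nat_lit 328) (nat_lit 242))) (XT.nd (nat_lit 78) (nat_lit 228) (nat_lit 0) (XT.lf (nat_lit 76) (nat_lit 30779688029) (nat_lit 0) (nat_lit 53512026587) (nat_lit 380) (nat_lit 168505345559) (nat_lit 30) (nat_lit 5) (nat_lit 29) (nat_lit 5) (nat_lit 34) (nat_lit 5) (nat_lit 331) (nat_lit 328) (nat_lit 241)) (XT.nd (nat_lit 78) (nat_lit 304) (nat_lit 0) (XT.lf (nat_lit 0) (nat_lit 112154171709) (nat_lit 304) (nat_lit 95740680838) (nat_lit 76) (nat_lit 64744395521) (nat_lit 30) (nat_lit 5) (nat_lit 34) (nat_lit 5) (nat_lit 31) (nat_lit 5) (nat_lit 332) (nat_lit 328) (nat_lit 240)) (XT.lf (nat_lit 0) (nat_lit 51515400950) (nat_lit 304) (nat_lit 97361753784) (nat_lit 380) (nat_lit 145878436091) (nat_lit 26) (nat_lit 5) (nat_lit 30) (nat_lit 5) (nat_lit 31) (nat_lit 5)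 (nat_lit 333) (nat_lit 328) (nat_lit 239))))) (XT.nd (nat_lit 234) (nat_lit 304) (nat_lit 0) (XT.nd (nat_lit 78) (nat_lit 152) (nat_lit 0) (XT.lf (nat_lit 0) (nat_lit 197583303954) (nat_lit 380) (nat_lit 89289297504) (nat_lit 76) (nat_lit 32345575975) (nat_lit 26) (nat_lit 5) (nat_lit 31) (nat_lit 5) (nat_lit 27) (nat_lit 5) (nat_lit 334) (nat_lit 328) (nat_lit 238)) (XT.nd (nat_lit 78) (nat_lit 0) (nat_lit 0) (XT.lf (nat_lit 0) (nat_lit 91240659991) (nat_lit 152) (nat_lit 170768930192) (nat_lit 228) (nat_lit 84078429869) (nat_lit 24) (nat_lit 5) (nat_lit 26) (nat_lit 5) (nat_lit 27) (nat_lit 5) (nat_lit 335) (nat_lit 328) (nat_lit 237)) (XT.lf (nat_lit 0) (nat_lit 308884849027) (nat_lit 152) (nat_lit 31882236535) (nat_lit 228) (nat_lit 35521163756) (nat_lit 24) (nat_lit 5) (nat_lit 26) (nat_lit 5) (nat_lit 27) (nat_lit 5) (nat_lit 336) (nat_lit 328) (nat_lit 236)))) (XT.nd (nat_lit 78)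 (nat_lit 152) (nat_lit 0) (XT.lf (nat_lit 0) (nat_lit 30859145722) (nat_lit 152) (nat_lit 253827944857) (nat_lit 76) (nat_lit 124352945323) (nat_lit 22) (nat_lit 5) (nat_lit 24) (nat_lit 5) (nat_lit 23) (nat_lit 5) (nat_lit 337) (nat_lit 328) (nat_lit 235)) (XT.nd (nat_lit 78) (nat_lit 152) (nat_lit 0) (XT.lf (nat_lit 0) (nat_lit 108769041610) (nat_lit 152) (nat_lit 30758582170) (nat_lit 76) (nat_lit 306141859634) (nat_lit 22) (nat_lit 5) (nat_lit 24) (nat_lit 5) (nat_lit 23) (nat_lit 5) (nat_lit 338) (nat_lit 328) (nat_lit 234)) (XT.lf (nat_lit 0) (nat_lit 210251141009) (nat_lit 228) (nat_lit 240042474411) (nat_lit 76) (nat_lit 35716874870) (nat_lit 20) (nat_lit 5) (nat_lit 23) (nat_lit 5) (nat_lit 21) (nat_lit 4) (nat_lit 339) (nat_lit 328) (nat_lit 233))))))) (XT.nd (nat_lit 858) (nat_lit 456) (nat_lit 0) (XT.nd (nat_lit 390) (nat_lit 304) (nat_lit 0) (XT.nd (nat_lit 156) (nat_lit 228)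 (nat_lit 0) (XT.nd (nat_lit 78) (nat_lit 0) (nat_lit 0) (XT.lf (nat_lit 0) (nat_lit 31590500181) (nat_lit 76) (nat_lit 305001631158) (nat_lit 152) (nat_lit 194365030549) (nat_lit 19) (nat_lit 5) (nat_lit 20) (nat_lit 5) (nat_lit 21) (nat_lit 4) (nat_lit 340) (nat_lit 328) (nat_lit 232)) (XT.lf (nat_lit 0) (nat_lit 370945783991) (nat_lit 76) (nat_lit 123486076771) (nat_lit 152) (nat_lit 86331834964) (nat_lit 19) (nat_lit 5) (nat_lit 20) (nat_lit 5) (nat_lit 21) (nat_lit 4) (nat_lit 341) (nat_lit 328) (nat_lit 231))) (XT.nd (nat_lit 78) (nat_lit 76) (nat_lit 0) (XT.lf (nat_lit 0) (nat_lit 43926785133) (nat_lit 152) (nat_lit 507368571580) (nat_lit 76) (nat_lit 85101140428) (nat_lit 17) (nat_lit 5) (nat_lit 19) (nat_lit 5) (nat_lit 18) (nat_lit 4) (nat_lit 342) (nat_lit 328) (nat_lit 230)) (XT.nd (nat_lit 78) (nat_lit 76) (nat_lit 0) (XT.lf (nat_lit 0) (nat_lit 202255706737) (nat_lit 152)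 (nat_lit 166961478535) (nat_lit 76) (nat_lit 327934840990) (nat_lit 17) (nat_lit 5) (nat_lit 19) (nat_lit 5) (nat_lit 18) (nat_lit 4) (nat_lit 343) (nat_lit 328) (nat_lit 229)) (XT.lf (nat_lit 0) (nat_lit 246446979425) (nat_lit 76) (nat_lit 148091766769) (nat_lit 152) (nat_lit 370951421662) (nat_lit 16) (nat_lit 5) (nat_lit 17) (nat_lit 5) (nat_lit 18) (nat_lit 4) (nat_lit 344) (nat_lit 328) (nat_lit 228))))) (XT.nd (nat_lit 234) (nat_lit 152) (nat_lit 0) (XT.nd (nat_lit 78) (nat_lit 152) (nat_lit 0) (XT.lf (nat_lit 0) (nat_lit 629204925397) (nat_lit 152) (nat_lit 106952331046) (nat_lit 0) (nat_lit 105890671712) (nat_lit 16) (nat_lit 5) (nat_lit 18) (nat_lit 4) (nat_lit 16) (nat_lit 4) (nat_lit 345) (nat_lit 328) (nat_lit 227)) (XT.nd (nat_lit 78) (nat_lit 76) (nat_lit 0) (XT.lf (nat_lit 0) (nat_lit 395072117659) (nat_lit 76) (nat_lit 527409942408) (nat_lit 76) (nat_lit 4095638178) (nat_lit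 15) (nat_lit 4) (nat_lit 16) (nat_lit 5) (nat_lit 16) (nat_lit 4) (nat_lit 346) (nat_lit 328) (nat_lit 226)) (XT.lf (nat_lit 0) (nat_lit 220813558934) (nat_lit 152) (nat_lit 48565196472) (nat_lit 76) (nat_lit 752064035641) (nat_lit 14) (nat_lit 5) (nat_lit 16) (nat_lit 5) (nat_lit 15) (nat_lit 4) (nat_lit 347) (nat_lit 328) (nat_lit 225)))) (XT.nd (nat_lit 78) (nat_lit 76) (nat_lit 0) (XT.lf (nat_lit 0) (nat_lit 504306674303) (nat_lit 152) (nat_lit 573161004699) (nat_lit 0) (nat_lit 49250686128) (nat_lit 13) (nat_lit 5) (nat_lit 15) (nat_lit 4) (nat_lit 13) (nat_lit 4) (nat_lit 348) (nat_lit 328) (nat_lit 224)) (XT.nd (nat_lit 78) (nat_lit 76) (nat_lit 0) (XT.lf (nat_lit 0) (nat_lit 845810793802) (nat_lit 152) (nat_lit 8896649292) (nat_lit 0) (nat_lit 390754776728) (nat_lit 13) (nat_lit 5) (nat_lit 15) (nat_lit 4) (nat_lit 13) (nat_lit 4) (nat_lit 349) (nat_lit 328) (nat_lit 223)) (XT.lf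 (nat_lit 0) (nat_lit 702553448441) (nat_lit 76) (nat_lit 565078283215) (nat_lit 76) (nat_lit 110022241012) (nat_lit 12) (nat_lit 4) (nat_lit 13) (nat_lit 5) (nat_lit 13) (nat_lit 4) (nat_lit 350) (nat_lit 328) (nat_lit 222)))))) (XT.nd (nat_lit 390) (nat_lit 228) (nat_lit 0) (XT.nd (nat_lit 156) (nat_lit 76) (nat_lit 0) (XT.nd (nat_lit 78) (nat_lit 76) (nat_lit 0) (XT.lf (nat_lit 0) (nat_lit 203680908772) (nat_lit 152) (nat_lit 17142110194) (nat_lit 76) (nat_lit 1307392983837) (nat_lit 11) (nat_lit 5) (nat_lit 13) (nat_lit 5) (nat_lit 12) (nat_lit 4) (nat_lit 351) (nat_lit 328) (nat_lit 221)) (XT.lf (nat_lit 0) (nat_lit 595639372961) (nat_lit 152) (nat_lit 898629056624) (nat_lit 0) (nat_lit 199938431172) (nat_lit 10) (nat_lit 5) (nat_lit 12) (nat_lit 4) (nat_lit 10) (nat_lit 4) (nat_lit 352) (nat_lit 328) (nat_lit 220))) (XT.nd (nat_lit 78) (nat_lit 76) (nat_lit 0) (XT.lf (nat_lit 0) (nat_lit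 1057845689498) (nat_lit 152) (nat_lit 163387812166) (nat_lit 0) (nat_lit 662144733341) (nat_lit 10) (nat_lit 5) (nat_lit 12) (nat_lit 4) (nat_lit 10) (nat_lit 4) (nat_lit 353) (nat_lit 328) (nat_lit 219)) (XT.nd (nat_lit 78) (nat_lit 0) (nat_lit 0) (XT.lf (nat_lit 0) (nat_lit 748803198707) (nat_lit 76) (nat_lit 871586069099) (nat_lit 76) (nat_lit 475885100449) (nat_lit 9) (nat_lit 4) (nat_lit 10) (nat_lit 5) (nat_lit 10) (nat_lit 4) (nat_lit 354) (nat_lit 328) (nat_lit 218)) (XT.lf (nat_lit 0) (nat_lit 1816185366907) (nat_lit 76) (nat_lit 459669714652) (nat_lit 76) (nat_lit 63968735137) (nat_lit 9) (nat_lit 4) (nat_lit 10) (nat_lit 5) (nat_lit 10) (nat_lit 4) (nat_lit 355) (nat_lit 328) (nat_lit 217))))) (XT.nd (nat_lit 234) (nat_lit 76) (nat_lit 0) (XT.nd (nat_lit 78) (nat_lit 0) (nat_lit 0) (XT.lf (nat_lit 0) (nat_lit 394018211957) (nat_lit 152) (nat_lit 2170298049924) (nat_lit 0) (nat_lit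 49930395469) (nat_lit 7) (nat_lit 5) (nat_lit 9) (nat_lit 4) (nat_lit 7) (nat_lit 4) (nat_lit 356) (nat_lit 328) (nat_lit 216)) (XT.nd (nat_lit 78) (nat_lit 0) (nat_lit 0) (XT.lf (nat_lit 0) (nat_lit 964718468900) (nat_lit 152) (nat_lit 1336442223231) (nat_lit 0) (nat_lit 620630645268) (nat_lit 7) (nat_lit 5) (nat_lit 9) (nat_lit 4) (nat_lit 7) (nat_lit 4) (nat_lit 357) (nat_lit 328) (nat_lit 215)) (XT.lf (nat_lit 0) (nat_lit 1621023742524) (nat_lit 152) (nat_lit 377508067533) (nat_lit 0) (nat_lit 1276935912681) (nat_lit 7) (nat_lit 5) (nat_lit 9) (nat_lit 4) (nat_lit 7) (nat_lit 4) (nat_lit 358) (nat_lit 328) (nat_lit 214)))) (XT.nd (nat_lit 78) (nat_lit 0) (nat_lit 0) (XT.lf (nat_lit 0) (nat_lit 796144457416) (nat_lit 76) (nat_lit 1612596974966) (nat_lit 76) (nat_lit 1268509139721) (nat_lit 6) (nat_lit 4) (nat_lit 7) (nat_lit 5) (nat_lit 7) (nat_lit 4) (nat_lit 359) (nat_lit 328) (nat_lit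 213)) (XT.nd (nat_lit 78) (nat_lit 0) (nat_lit 0) (XT.lf (nat_lit 0) (nat_lit 2188271582712) (nat_lit 76) (nat_lit 1146078551190) (nat_lit 76) (nat_lit 801990711249) (nat_lit 6) (nat_lit 4) (nat_lit 7) (nat_lit 5) (nat_lit 7) (nat_lit 4) (nat_lit 360) (nat_lit 328) (nat_lit 212)) (XT.lf (nat_lit 0) (nat_lit 3789217744322) (nat_lit 76) (nat_lit 609582380610) (nat_lit 76) (nat_lit 265494536584) (nat_lit 6) (nat_lit 4) (nat_lit 7) (nat_lit 5) (nat_lit 7) (nat_lit 4) (nat_lit 361) (nat_lit 328) (nat_lit 211))))))))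
noncomputable def xc95 : XT := (XT.nd (nat_lit 1716) (nat_lit 0) (nat_lit 0) (XT.nd (nat_lit 858) (nat_lit 152) (nat_lit 0) (XT.nd (nat_lit 390) (nat_lit 76) (nat_lit 0) (XT.nd (nat_lit 156) (nat_lit 0) (nat_lit 0) (XT.nd (nat_lit 78) (nat_lit 0) (nat_lit 0) (XT.lf (nat_lit 0) (nat_lit 337579923655) (nat_lit 152) (nat_lit 4890696242495) (nat_lit 0) (nat_lit 38373099674) (nat_lit 4) (nat_lit 5) (nat_lit 6) (nat_lit 4) (nat_lit 4) (nat_lit 4) (nat_lit 362) (nat_lit 328) (nat_lit 210)) (XT.lf (nat_lit 0) (nat_lit 1080882566399) (nat_lit 152) (nat_lit 4083360075556) (nat_lit 0) (nat_lit 781675739733) (nat_lit 4) (nat_lit 5) (nat_lit 6) (nat_lit 4) (nat_lit 4) (nat_lit 4) (nat_lit 363) (nat_lit 328) (nat_lit 209))) (XT.nd (nat_lit 78) (nat_lit 0) (nat_lit 0) (XT.lf (nat_lit 0) (nat_lit 1935680593179) (nat_lit 152) (nat_lit 3154923509433) (nat_lit 0) (nat_lit 1636473764178) (nat_lit 4) (nat_lit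 5) (nat_lit 6) (nat_lit 4) (nat_lit 4) (nat_lit 4) (nat_lit 364) (nat_lit 328) (nat_lit 208)) (XT.nd (nat_lit 78) (nat_lit 0) (nat_lit 0) (XT.lf (nat_lit 0) (nat_lit 2918698313215) (nat_lit 152) (nat_lit 2087221480875) (nat_lit 0) (nat_lit 2619491482183) (nat_lit 4) (nat_lit 5) (nat_lit 6) (nat_lit 4) (nat_lit 4) (nat_lit 4) (nat_lit 365) (nat_lit 328) (nat_lit 207)) (XT.lf (nat_lit 0) (nat_lit 4049168681898) (nat_lit 152) (nat_lit 859364167585) (nat_lit 0) (nat_lit 3749961849100) (nat_lit 4) (nat_lit 5) (nat_lit 6) (nat_lit 4) (nat_lit 4) (nat_lit 4) (nat_lit 366) (nat_lit 328) (nat_lit 206))))) (XT.nd (nat_lit 234) (nat_lit 0) (nat_lit 0) (XT.nd (nat_lit 78) (nat_lit 0) (nat_lit 0) (XT.lf (nat_lit 0) (nat_lit 606682826162) (nat_lit 76) (nat_lit 4767648213660) (nat_lit 76) (nat_lit 4468441379327) (nat_lit 3) (nat_lit 4) (nat_lit 4) (nat_lit 5) (nat_lit 4) (nat_lit 4) (nat_lit 367) (nat_lit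 328) (nat_lit 205)) (XT.nd (nat_lit 78) (nat_lit 0) (nat_lit 0) (XT.lf (nat_lit 0) (nat_lit 2389217666578) (nat_lit 76) (nat_lit 4553971385870) (nat_lit 76) (nat_lit 4254764550202) (nat_lit 3) (nat_lit 4) (nat_lit 4) (nat_lit 5) (nat_lit 4) (nat_lit 4) (nat_lit 368) (nat_lit 328) (nat_lit 204)) (XT.lf (nat_lit 0) (nat_lit 4439132718945) (nat_lit 76) (nat_lit 4308243041285) (nat_lit 76) (nat_lit 4009036204456) (nat_lit 3) (nat_lit 4) (nat_lit 4) (nat_lit 5) (nat_lit 4) (nat_lit 4) (nat_lit 369) (nat_lit 328) (nat_lit 203)))) (XT.nd (nat_lit 78) (nat_lit 0) (nat_lit 0) (XT.lf (nat_lit 0) (nat_lit 6796535016896) (nat_lit 76) (nat_lit 4025655451426) (nat_lit 76) (nat_lit 3726448613587) (nat_lit 3) (nat_lit 4) (nat_lit 4) (nat_lit 5) (nat_lit 4) (nat_lit 4) (nat_lit 370) (nat_lit 328) (nat_lit 202)) (XT.nd (nat_lit 78) (nat_lit 0) (nat_lit 0) (XT.lf (nat_lit 0) (nat_lit 9507547648868) (nat_lit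 76) (nat_lit 3700679728664) (nat_lit 76) (nat_lit 3401472889947) (nat_lit 3) (nat_lit 4) (nat_lit 4) (nat_lit 5) (nat_lit 4) (nat_lit 4) (nat_lit 371) (nat_lit 328) (nat_lit 201)) (XT.lf (nat_lit 0) (nat_lit 12625212166359) (nat_lit 76) (nat_lit 3326957652336) (nat_lit 76) (nat_lit 3027750812856) (nat_lit 3) (nat_lit 4) (nat_lit 4) (nat_lit 5) (nat_lit 4) (nat_lit 4) (nat_lit 372) (nat_lit 328) (nat_lit 200)))))) (XT.nd (nat_lit 390) (nat_lit 152) (nat_lit 0) (XT.nd (nat_lit 156) (nat_lit 0) (nat_lit 0) (XT.nd (nat_lit 78) (nat_lit 0) (nat_lit 0) (XT.lf (nat_lit 0) (nat_lit 16210526353404) (nat_lit 76) (nat_lit 2897177268775) (nat_lit 76) (nat_lit 2597970428631) (nat_lit 3) (nat_lit 4) (nat_lit 4) (nat_lit 5) (nat_lit 4) (nat_lit 4) (nat_lit 373) (nat_lit 328) (nat_lit 199)) (XT.lf (nat_lit 0) (nat_lit 20333637661490) (nat_lit 76) (nat_lit 2402929831346) (nat_lit 76) (nat_lit 2103722990625)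 (nat_lit 3) (nat_lit 4) (nat_lit 4) (nat_lit 5) (nat_lit 4) (nat_lit 4) (nat_lit 374) (nat_lit 328) (nat_lit 198))) (XT.nd (nat_lit 78) (nat_lit 0) (nat_lit 0) (XT.lf (nat_lit 0) (nat_lit 25075215659687) (nat_lit 76) (nat_lit 1834545281491) (nat_lit 76) (nat_lit 1535338440269) (nat_lit 3) (nat_lit 4) (nat_lit 4) (nat_lit 5) (nat_lit 4) (nat_lit 4) (nat_lit 375) (nat_lit 328) (nat_lit 197)) (XT.nd (nat_lit 78) (nat_lit 0) (nat_lit 0) (XT.lf (nat_lit 0) (nat_lit 30528030352310) (nat_lit 76) (nat_lit 1180903051931) (nat_lit 76) (nat_lit 881696210271) (nat_lit 3) (nat_lit 4) (nat_lit 4) (nat_lit 5) (nat_lit 4) (nat_lit 4) (nat_lit 376) (nat_lit 328) (nat_lit 196)) (XT.lf (nat_lit 0) (nat_lit 36798767244213) (nat_lit 76) (nat_lit 429214490347) (nat_lit 76) (nat_lit 130007648308) (nat_lit 3) (nat_lit 4) (nat_lit 4) (nat_lit 5) (nat_lit 4) (nat_lit 4) (nat_lit 377) (nat_lit 328) (nat_lit 195)))))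 (XT.nd (nat_lit 234) (nat_lit 0) (nat_lit 0) (XT.nd (nat_lit 78) (nat_lit 0) (nat_lit 0) (XT.lf (nat_lit 0) (nat_lit 742769790530) (nat_lit 152) (nat_lit 41599473694715) (nat_lit 0) (nat_lit 482589927601) (nat_lit 1) (nat_lit 5) (nat_lit 3) (nat_lit 4) (nat_lit 1) (nat_lit 4) (nat_lit 378) (nat_lit 328) (nat_lit 194)) (XT.nd (nat_lit 78) (nat_lit 0) (nat_lit 0) (XT.lf (nat_lit 0) (nat_lit 1784216391098) (nat_lit 152) (nat_lit 45794863074331) (nat_lit 0) (nat_lit 1524036527919) (nat_lit 1) (nat_lit 5) (nat_lit 3) (nat_lit 4) (nat_lit 1) (nat_lit 4) (nat_lit 379) (nat_lit 328) (nat_lit 193)) (XT.lf (nat_lit 0) (nat_lit 2981879980014) (nat_lit 152) (nat_lit 50619560864557) (nat_lit 0) (nat_lit 2721700116618) (nat_lit 1) (nat_lit 5) (nat_lit 3) (nat_lit 4) (nat_lit 1) (nat_lit 4) (nat_lit 380) (nat_lit 328) (nat_lit 192)))) (XT.nd (nat_lit 78) (nat_lit 0) (nat_lit 0) (XT.lf (nat_lit 0) (nat_lit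 4359193105756) (nat_lit 152) (nat_lit 56167963326504) (nat_lit 0) (nat_lit 4099013242171) (nat_lit 1) (nat_lit 5) (nat_lit 3) (nat_lit 4) (nat_lit 1) (nat_lit 4) (nat_lit 381) (nat_lit 328) (nat_lit 191)) (XT.nd (nat_lit 78) (nat_lit 0) (nat_lit 0) (XT.lf (nat_lit 0) (nat_lit 5943103199045) (nat_lit 152) (nat_lit 62548626160516) (nat_lit 0) (nat_lit 5682923335296) (nat_lit 1) (nat_lit 5) (nat_lit 3) (nat_lit 4) (nat_lit 1) (nat_lit 4) (nat_lit 382) (nat_lit 328) (nat_lit 190)) (XT.lf (nat_lit 0) (nat_lit 7764599805185) (nat_lit 152) (nat_lit 69886388422039) (nat_lit 0) (nat_lit 7504419941293) (nat_lit 1) (nat_lit 5) (nat_lit 3) (nat_lit 4) (nat_lit 1) (nat_lit 4) (nat_lit 383) (nat_lit 328) (nat_lit 189))))))) (XT.nd (nat_lit 42588) (nat_lit 0) (nat_lit 1444) (XT.nd (nat_lit 468) (nat_lit 0) (nat_lit 0) (XT.nd (nat_lit 156) (nat_lit 0) (nat_lit 0) (XT.nd (nat_lit 78) (nat_lit 0) (nat_lit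 0) (XT.lf (nat_lit 0) (nat_lit 9859320901252) (nat_lit 152) (nat_lit 78324815024888) (nat_lit 0) (nat_lit 9599141037237) (nat_lit 1) (nat_lit 5) (nat_lit 3) (nat_lit 4) (nat_lit 1) (nat_lit 4) (nat_lit 384) (nat_lit 328) (nat_lit 188)) (XT.lf (nat_lit 0) (nat_lit 12268250160866) (nat_lit 152) (nat_lit 88029005619986) (nat_lit 0) (nat_lit 12008070296743) (nat_lit 1) (nat_lit 5) (nat_lit 3) (nat_lit 4) (nat_lit 1) (nat_lit 4) (nat_lit 385) (nat_lit 328) (nat_lit 187))) (XT.nd (nat_lit 78) (nat_lit 0) (nat_lit 0) (XT.lf (nat_lit 0) (nat_lit 15038518808671) (nat_lit 152) (nat_lit 99188824805935) (nat_lit 0) (nat_lit 14778338944453) (nat_lit 1) (nat_lit 5) (nat_lit 3) (nat_lit 4) (nat_lit 1) (nat_lit 4) (nat_lit 386) (nat_lit 328) (nat_lit 186)) (XT.nd (nat_lit 78) (nat_lit 0) (nat_lit 0) (XT.lf (nat_lit 0) (nat_lit 18224327752993) (nat_lit 152) (nat_lit 112022616871153) (nat_lit 0) (nat_lit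 17964147888694) (nat_lit 1) (nat_lit 5) (nat_lit 3) (nat_lit 4) (nat_lit 1) (nat_lit 4) (nat_lit 387) (nat_lit 328) (nat_lit 185)) (XT.lf (nat_lit 0) (nat_lit 21888008038395) (nat_lit 152) (nat_lit 126781477747353) (nat_lit 0) (nat_lit 21627828174025) (nat_lit 1) (nat_lit 5) (nat_lit 3) (nat_lit 4) (nat_lit 1) (nat_lit 4) (nat_lit 388) (nat_lit 328) (nat_lit 184))))) (XT.nd (nat_lit 234) (nat_lit 0) (nat_lit 0) (XT.nd (nat_lit 78) (nat_lit 0) (nat_lit 0) (XT.lf (nat_lit 0) (nat_lit 30946457542560) (nat_lit 152) (nat_lit 163272761266905) (nat_lit 0) (nat_lit 30686277678075) (nat_lit 1) (nat_lit 5) (nat_lit 3) (nat_lit 4) (nat_lit 1) (nat_lit 4) (nat_lit 390) (nat_lit 328) (nat_lit 182)) (XT.nd (nat_lit 78) (nat_lit 0) (nat_lit 0) (XT.lf (nat_lit 0) (nat_lit 36518457295100) (nat_lit 152) (nat_lit 185719143805204) (nat_lit 0) (nat_lit 36258277430569) (nat_lit 1) (nat_lit 5) (nat_lit 3) (nat_lit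 4) (nat_lit 1) (nat_lit 4) (nat_lit 391) (nat_lit 328) (nat_lit 181)) (XT.lf (nat_lit 0) (nat_lit 42926257010197) (nat_lit 152) (nat_lit 211532483724934) (nat_lit 0) (nat_lit 42666077145625) (nat_lit 1) (nat_lit 5) (nat_lit 3) (nat_lit 4) (nat_lit 1) (nat_lit 4) (nat_lit 392) (nat_lit 328) (nat_lit 180)))) (XT.nd (nat_lit 78) (nat_lit 0) (nat_lit 0) (XT.lf (nat_lit 0) (nat_lit 50295226682276) (nat_lit 152) (nat_lit 241217824633219) (nat_lit 0) (nat_lit 50035046817668) (nat_lit 1) (nat_lit 5) (nat_lit 3) (nat_lit 4) (nat_lit 1) (nat_lit 4) (nat_lit 393) (nat_lit 328) (nat_lit 179)) (XT.nd (nat_lit 78) (nat_lit 0) (nat_lit 0) (XT.lf (nat_lit 0) (nat_lit 58769541804920) (nat_lit 152) (nat_lit 275355966678264) (nat_lit 0) (nat_lit 58509361940282) (nat_lit 1) (nat_lit 5) (nat_lit 3) (nat_lit 4) (nat_lit 1) (nat_lit 4) (nat_lit 394) (nat_lit 328) (nat_lit 178)) (XT.lf (nat_lit 0) (nat_lit 68515004195749)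 (nat_lit 152) (nat_lit 314614830030517) (nat_lit 0) (nat_lit 68254824331083) (nat_lit 1) (nat_lit 5) (nat_lit 3) (nat_lit 4) (nat_lit 1) (nat_lit 4) (nat_lit 395) (nat_lit 328) (nat_lit 177)))))) (XT.nd (nat_lit 468) (nat_lit 456) (nat_lit 0) (XT.nd (nat_lit 234) (nat_lit 152) (nat_lit 0) (XT.nd (nat_lit 78) (nat_lit 0) (nat_lit 0) (XT.lf (nat_lit 0) (nat_lit 28261088586) (nat_lit 380) (nat_lit 44295704836) (nat_lit 380) (nat_lit 44295704836) (nat_lit 28) (nat_lit 3) (nat_lit 33) (nat_lit 3) (nat_lit 33) (nat_lit 5) (nat_lit 329) (nat_lit 329) (nat_lit 242)) (XT.nd (nat_lit 78) (nat_lit 0) (nat_lit 76) (XT.lf (nat_lit 76) (nat_lit 27253524898) (nat_lit 0) (nat_lit 34637427217) (nat_lit 380) (nat_lit 189172475555) (nat_lit 29) (nat_lit 5) (nat_lit 28) (nat_lit 3) (nat_lit 33) (nat_lit 5) (nat_lit 330) (nat_lit 329) (nat_lit 241)) (XT.lf (nat_lit 0) (nat_lit 76742787124) (nat_lit 304) (nat_lit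 103946505184) (nat_lit 380) (nat_lit 89034669942) (nat_lit 29) (nat_lit 5) (nat_lit 33) (nat_lit 5) (nat_lit 34) (nat_lit 5) (nat_lit 331) (nat_lit 329) (nat_lit 240)))) (XT.nd (nat_lit 78) (nat_lit 228) (nat_lit 0) (XT.lf (nat_lit 76) (nat_lit 35398261687) (nat_lit 0) (nat_lit 61539131326) (nat_lit 380) (nat_lit 193778934943) (nat_lit 30) (nat_lit 5) (nat_lit 29) (nat_lit 5) (nat_lit 34) (nat_lit 5) (nat_lit 332) (nat_lit 329) (nat_lit 239)) (XT.nd (nat_lit 78) (nat_lit 304) (nat_lit 0) (XT.lf (nat_lit 0) (nat_lit 128978957250) (nat_lit 304) (nat_lit 110100109789) (nat_lit 76) (nat_lit 74455816609) (nat_lit 30) (nat_lit 5) (nat_lit 34) (nat_lit 5) (nat_lit 31) (nat_lit 5) (nat_lit 333) (nat_lit 329) (nat_lit 238)) (XT.lf (nat_lit 0) (nat_lit 59244308214) (nat_lit 304) (nat_lit 111965929154) (nat_lit 380) (nat_lit 167758463351) (nat_lit 26) (nat_lit 5) (nat_lit 30) (nat_lit 5) (nat_lit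 31) (nat_lit 5) (nat_lit 334) (nat_lit 329) (nat_lit 237))))) (XT.nd (nat_lit 234) (nat_lit 304) (nat_lit 0) (XT.nd (nat_lit 78) (nat_lit 152) (nat_lit 0) (XT.lf (nat_lit 0) (nat_lit 227222115247) (nat_lit 380) (nat_lit 102681107590) (nat_lit 76) (nat_lit 37197481841) (nat_lit 26) (nat_lit 5) (nat_lit 31) (nat_lit 5) (nat_lit 27) (nat_lit 5) (nat_lit 335) (nat_lit 329) (nat_lit 236)) (XT.nd (nat_lit 78) (nat_lit 0) (nat_lit 0) (XT.lf (nat_lit 0) (nat_lit 104928271504) (nat_lit 152) (nat_lit 196383963923) (nat_lit 228) (nat_lit 96688804873) (nat_lit 24) (nat_lit 5) (nat_lit 26) (nat_lit 5) (nat_lit 27) (nat_lit 5) (nat_lit 336) (nat_lit 329) (nat_lit 235)) (XT.lf (nat_lit 0) (nat_lit 355218891611) (nat_lit 152) (nat_lit 36664306104) (nat_lit 228) (nat_lit 40848130080) (nat_lit 24) (nat_lit 5) (nat_lit 26) (nat_lit 5) (nat_lit 27) (nat_lit 5) (nat_lit 337) (nat_lit 329) (nat_lit 234))))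 (XT.nd (nat_lit 78) (nat_lit 152) (nat_lit 0) (XT.lf (nat_lit 0) (nat_lit 35489045304) (nat_lit 152) (nat_lit 291900638363) (nat_lit 76) (nat_lit 143006202310) (nat_lit 22) (nat_lit 5) (nat_lit 24) (nat_lit 5) (nat_lit 23) (nat_lit 5) (nat_lit 338) (nat_lit 329) (nat_lit 233)) (XT.nd (nat_lit 78) (nat_lit 152) (nat_lit 0) (XT.lf (nat_lit 0) (nat_lit 125085291525) (nat_lit 152) (nat_lit 35371066694) (nat_lit 76) (nat_lit 352063412655) (nat_lit 22) (nat_lit 5) (nat_lit 24) (nat_lit 5) (nat_lit 23) (nat_lit 5) (nat_lit 339) (nat_lit 329) (nat_lit 232)) (XT.lf (nat_lit 0) (nat_lit 241789657945) (nat_lit 228) (nat_lit 276047494012) (nat_lit 76) (nat_lit 41074784139) (nat_lit 20) (nat_lit 5) (nat_lit 23) (nat_lit 5) (nat_lit 21) (nat_lit 4) (nat_lit 340) (nat_lit 329) (nat_lit 231))))))))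
noncomputable def xc96 : XT := (XT.nd (nat_lit 1716) (nat_lit 380) (nat_lit 0) (XT.nd (nat_lit 858) (nat_lit 456) (nat_lit 0) (XT.nd (nat_lit 390) (nat_lit 304) (nat_lit 0) (XT.nd (nat_lit 156) (nat_lit 228) (nat_lit 0) (XT.nd (nat_lit 78) (nat_lit 0) (nat_lit 0) (XT.lf (nat_lit 0) (nat_lit 36330365335) (nat_lit 76) (nat_lit 350751374592) (nat_lit 152) (nat_lit 223518877155) (nat_lit 19) (nat_lit 5) (nat_lit 20) (nat_lit 5) (nat_lit 21) (nat_lit 4) (nat_lit 341) (nat_lit 329) (nat_lit 230)) (XT.lf (nat_lit 0) (nat_lit 426588773438) (nat_lit 76) (nat_lit 142008552426) (nat_lit 152) (nat_lit 99280820664) (nat_lit 19) (nat_lit 5) (nat_lit 20) (nat_lit 5) (nat_lit 21) (nat_lit 4) (nat_lit 342) (nat_lit 329) (nat_lit 229))) (XT.nd (nat_lit 78) (nat_lit 76) (nat_lit 0) (XT.lf (nat_lit 0) (nat_lit 50516494777) (nat_lit 152) (nat_lit 583472636727) (nat_lit 76) (nat_lit 97866735930) (nat_lit 17)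 (nat_lit 5) (nat_lit 19) (nat_lit 5) (nat_lit 18) (nat_lit 4) (nat_lit 343) (nat_lit 329) (nat_lit 228)) (XT.nd (nat_lit 78) (nat_lit 76) (nat_lit 0) (XT.lf (nat_lit 0) (nat_lit 232594664377) (nat_lit 152) (nat_lit 192004638932) (nat_lit 76) (nat_lit 377125436216) (nat_lit 17) (nat_lit 5) (nat_lit 19) (nat_lit 5) (nat_lit 18) (nat_lit 4) (nat_lit 344) (nat_lit 329) (nat_lit 227)) (XT.lf (nat_lit 0) (nat_lit 283415039477) (nat_lit 76) (nat_lit 170305083754) (nat_lit 152) (nat_lit 426593484661) (nat_lit 16) (nat_lit 5) (nat_lit 17) (nat_lit 5) (nat_lit 18) (nat_lit 4) (nat_lit 345) (nat_lit 329) (nat_lit 226))))) (XT.nd (nat_lit 234) (nat_lit 152) (nat_lit 0) (XT.nd (nat_lit 78) (nat_lit 152) (nat_lit 0) (XT.lf (nat_lit 0) (nat_lit 723586171737) (nat_lit 152) (nat_lit 122994241808) (nat_lit 0) (nat_lit 121774627376) (nat_lit 16) (nat_lit 5) (nat_lit 18) (nat_lit 4) (nat_lit 16) (nat_lit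 4) (nat_lit 346) (nat_lit 329) (nat_lit 225)) (XT.nd (nat_lit 78) (nat_lit 76) (nat_lit 0) (XT.lf (nat_lit 0) (nat_lit 454333831526) (nat_lit 76) (nat_lit 606521015993) (nat_lit 76) (nat_lit 4709433413) (nat_lit 15) (nat_lit 4) (nat_lit 16) (nat_lit 5) (nat_lit 16) (nat_lit 4) (nat_lit 347) (nat_lit 329) (nat_lit 224)) (XT.lf (nat_lit 0) (nat_lit 253936028847) (nat_lit 152) (nat_lit 55849153791) (nat_lit 76) (nat_lit 864873961439) (nat_lit 14) (nat_lit 5) (nat_lit 16) (nat_lit 5) (nat_lit 15) (nat_lit 4) (nat_lit 348) (nat_lit 329) (nat_lit 223)))) (XT.nd (nat_lit 78) (nat_lit 76) (nat_lit 0) (XT.lf (nat_lit 0) (nat_lit 579953102587) (nat_lit 152) (nat_lit 659134324132) (nat_lit 0) (nat_lit 56638628923) (nat_lit 13) (nat_lit 5) (nat_lit 15) (nat_lit 4) (nat_lit 13) (nat_lit 4) (nat_lit 349) (nat_lit 329) (nat_lit 222)) (XT.nd (nat_lit 78) (nat_lit 76) (nat_lit 0) (XT.lf (nat_lit 0) (nat_lit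 972682784297) (nat_lit 152) (nat_lit 10230423840) (nat_lit 0) (nat_lit 449368288781) (nat_lit 13) (nat_lit 5) (nat_lit 15) (nat_lit 4) (nat_lit 13) (nat_lit 4) (nat_lit 350) (nat_lit 329) (nat_lit 221)) (XT.lf (nat_lit 0) (nat_lit 807937155697) (nat_lit 76) (nat_lit 649839687258) (nat_lit 76) (nat_lit 126525172741) (nat_lit 12) (nat_lit 4) (nat_lit 13) (nat_lit 5) (nat_lit 13) (nat_lit 4) (nat_lit 351) (nat_lit 329) (nat_lit 220)))))) (XT.nd (nat_lit 390) (nat_lit 228) (nat_lit 0) (XT.nd (nat_lit 156) (nat_lit 76) (nat_lit 0) (XT.nd (nat_lit 78) (nat_lit 76) (nat_lit 0) (XT.lf (nat_lit 0) (nat_lit 234233365452) (nat_lit 152) (nat_lit 19712795318) (nat_lit 76) (nat_lit 1503502194293) (nat_lit 11) (nat_lit 5) (nat_lit 13) (nat_lit 5) (nat_lit 12) (nat_lit 4) (nat_lit 352) (nat_lit 329) (nat_lit 219)) (XT.lf (nat_lit 0) (nat_lit 684985594827) (nat_lit 152) (nat_lit 1033422779177) (nat_lit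 0) (nat_lit 229929468385) (nat_lit 10) (nat_lit 5) (nat_lit 12) (nat_lit 4) (nat_lit 10) (nat_lit 4) (nat_lit 353) (nat_lit 329) (nat_lit 218))) (XT.nd (nat_lit 78) (nat_lit 76) (nat_lit 0) (XT.lf (nat_lit 0) (nat_lit 1216522817637) (nat_lit 152) (nat_lit 187895430999) (nat_lit 0) (nat_lit 761466680331) (nat_lit 10) (nat_lit 5) (nat_lit 12) (nat_lit 4) (nat_lit 10) (nat_lit 4) (nat_lit 354) (nat_lit 329) (nat_lit 217)) (XT.nd (nat_lit 78) (nat_lit 0) (nat_lit 0) (XT.lf (nat_lit 0) (nat_lit 861124206369) (nat_lit 76) (nat_lit 1002323712348) (nat_lit 76) (nat_lit 547267565595) (nat_lit 9) (nat_lit 4) (nat_lit 10) (nat_lit 5) (nat_lit 10) (nat_lit 4) (nat_lit 355) (nat_lit 329) (nat_lit 216)) (XT.lf (nat_lit 0) (nat_lit 2088613630948) (nat_lit 76) (nat_lit 528619939575) (nat_lit 76) (nat_lit 73563784607) (nat_lit 9) (nat_lit 4) (nat_lit 10) (nat_lit 5) (nat_lit 10) (nat_lit 4) (nat_lit 356)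 (nat_lit 329) (nat_lit 215))))) (XT.nd (nat_lit 234) (nat_lit 76) (nat_lit 0) (XT.nd (nat_lit 78) (nat_lit 0) (nat_lit 0) (XT.lf (nat_lit 0) (nat_lit 453121179125) (nat_lit 152) (nat_lit 2495842272881) (nat_lit 0) (nat_lit 57420168594) (nat_lit 7) (nat_lit 5) (nat_lit 9) (nat_lit 4) (nat_lit 7) (nat_lit 4) (nat_lit 357) (nat_lit 329) (nat_lit 214)) (XT.nd (nat_lit 78) (nat_lit 0) (nat_lit 0) (XT.lf (nat_lit 0) (nat_lit 1109426443908) (nat_lit 152) (nat_lit 1536908135384) (nat_lit 0) (nat_lit 713725427975) (nat_lit 7) (nat_lit 5) (nat_lit 9) (nat_lit 4) (nat_lit 7) (nat_lit 4) (nat_lit 358) (nat_lit 329) (nat_lit 213)) (XT.lf (nat_lit 0) (nat_lit 1864177481880) (nat_lit 152) (nat_lit 434133911288) (nat_lit 0) (nat_lit 1468476461250) (nat_lit 7) (nat_lit 5) (nat_lit 9) (nat_lit 4) (nat_lit 7) (nat_lit 4) (nat_lit 359) (nat_lit 329) (nat_lit 212)))) (XT.nd (nat_lit 78) (nat_lit 0) (nat_lit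 0) (XT.lf (nat_lit 0) (nat_lit 915566475751) (nat_lit 76) (nat_lit 1854486340733) (nat_lit 76) (nat_lit 1458785316019) (nat_lit 6) (nat_lit 4) (nat_lit 7) (nat_lit 5) (nat_lit 7) (nat_lit 4) (nat_lit 360) (nat_lit 329) (nat_lit 211)) (XT.nd (nat_lit 78) (nat_lit 0) (nat_lit 0) (XT.lf (nat_lit 0) (nat_lit 2516512624224) (nat_lit 76) (nat_lit 1317990176932) (nat_lit 76) (nat_lit 922289148666) (nat_lit 6) (nat_lit 4) (nat_lit 7) (nat_lit 5) (nat_lit 7) (nat_lit 4) (nat_lit 361) (nat_lit 329) (nat_lit 210)) (XT.lf (nat_lit 0) (nat_lit 4357600670410) (nat_lit 76) (nat_lit 701019601234) (nat_lit 76) (nat_lit 305318569880) (nat_lit 6) (nat_lit 4) (nat_lit 7) (nat_lit 5) (nat_lit 7) (nat_lit 4) (nat_lit 362) (nat_lit 329) (nat_lit 209))))))) (XT.nd (nat_lit 858) (nat_lit 152) (nat_lit 0) (XT.nd (nat_lit 390) (nat_lit 76) (nat_lit 0) (XT.nd (nat_lit 156) (nat_lit 0) (nat_lit 0) (XT.nd (nat_lit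 78) (nat_lit 0) (nat_lit 0) (XT.lf (nat_lit 0) (nat_lit 388217045460) (nat_lit 152) (nat_lit 5624300400458) (nat_lit 0) (nat_lit 44129189774) (nat_lit 4) (nat_lit 5) (nat_lit 6) (nat_lit 4) (nat_lit 4) (nat_lit 4) (nat_lit 363) (nat_lit 329) (nat_lit 208)) (XT.lf (nat_lit 0) (nat_lit 1243015067235) (nat_lit 152) (nat_lit 4695863844792) (nat_lit 0) (nat_lit 898927209518) (nat_lit 4) (nat_lit 5) (nat_lit 6) (nat_lit 4) (nat_lit 4) (nat_lit 4) (nat_lit 364) (nat_lit 329) (nat_lit 207))) (XT.nd (nat_lit 78) (nat_lit 0) (nat_lit 0) (XT.lf (nat_lit 0) (nat_lit 2226032782918) (nat_lit 152) (nat_lit 3628161825328) (nat_lit 0) (nat_lit 1881944923435) (nat_lit 4) (nat_lit 5) (nat_lit 6) (nat_lit 4) (nat_lit 4) (nat_lit 4) (nat_lit 365) (nat_lit 329) (nat_lit 206)) (XT.nd (nat_lit 78) (nat_lit 0) (nat_lit 0) (XT.lf (nat_lit 0) (nat_lit 3356503147816) (nat_lit 152) (nat_lit 2400304519946) (nat_lit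 0) (nat_lit 3012415286798) (nat_lit 4) (nat_lit 5) (nat_lit 6) (nat_lit 4) (nat_lit 4) (nat_lit 4) (nat_lit 366) (nat_lit 329) (nat_lit 205)) (XT.lf (nat_lit 0) (nat_lit 4656544060373) (nat_lit 152) (nat_lit 988268633540) (nat_lit 0) (nat_lit 4312456198019) (nat_lit 4) (nat_lit 5) (nat_lit 6) (nat_lit 4) (nat_lit 4) (nat_lit 4) (nat_lit 367) (nat_lit 329) (nat_lit 204))))) (XT.nd (nat_lit 234) (nat_lit 0) (nat_lit 0) (XT.nd (nat_lit 78) (nat_lit 0) (nat_lit 0) (XT.lf (nat_lit 0) (nat_lit 697685402034) (nat_lit 76) (nat_lit 5482795366306) (nat_lit 76) (nat_lit 5138707502792) (nat_lit 3) (nat_lit 4) (nat_lit 4) (nat_lit 5) (nat_lit 4) (nat_lit 4) (nat_lit 368) (nat_lit 329) (nat_lit 203)) (XT.nd (nat_lit 78) (nat_lit 0) (nat_lit 0) (XT.lf (nat_lit 0) (nat_lit 2747600448693) (nat_lit 76) (nat_lit 5237067024704) (nat_lit 76) (nat_lit 4892979160180) (nat_lit 3) (nat_lit 4) (nat_lit 4) (nat_lit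 5) (nat_lit 4) (nat_lit 4) (nat_lit 369) (nat_lit 329) (nat_lit 202)) (XT.lf (nat_lit 0) (nat_lit 5105002741681) (nat_lit 76) (nat_lit 4954479437438) (nat_lit 76) (nat_lit 4610391572036) (nat_lit 3) (nat_lit 4) (nat_lit 4) (nat_lit 5) (nat_lit 4) (nat_lit 4) (nat_lit 370) (nat_lit 329) (nat_lit 201)))) (XT.nd (nat_lit 78) (nat_lit 0) (nat_lit 0) (XT.lf (nat_lit 0) (nat_lit 7816015369338) (nat_lit 76) (nat_lit 4629503716931) (nat_lit 76) (nat_lit 4285415850766) (nat_lit 3) (nat_lit 4) (nat_lit 4) (nat_lit 5) (nat_lit 4) (nat_lit 4) (nat_lit 371) (nat_lit 329) (nat_lit 200)) (XT.nd (nat_lit 78) (nat_lit 0) (nat_lit 0) (XT.lf (nat_lit 0) (nat_lit 10933679883075) (nat_lit 76) (nat_lit 4255781642564) (nat_lit 76) (nat_lit 3911693775735) (nat_lit 3) (nat_lit 4) (nat_lit 4) (nat_lit 5) (nat_lit 4) (nat_lit 4) (nat_lit 372) (nat_lit 329) (nat_lit 199)) (XT.lf (nat_lit 0) (nat_lit 14518994066857)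 (nat_lit 76) (nat_lit 3826001260709) (nat_lit 76) (nat_lit 3481913393302) (nat_lit 3) (nat_lit 4) (nat_lit 4) (nat_lit 5) (nat_lit 4) (nat_lit 4) (nat_lit 373) (nat_lit 329) (nat_lit 198)))))) (XT.nd (nat_lit 390) (nat_lit 152) (nat_lit 0) (XT.nd (nat_lit 156) (nat_lit 0) (nat_lit 0) (XT.nd (nat_lit 78) (nat_lit 0) (nat_lit 0) (XT.lf (nat_lit 0) (nat_lit 18642105372105) (nat_lit 76) (nat_lit 3331753824763) (nat_lit 76) (nat_lit 2987665956855) (nat_lit 3) (nat_lit 4) (nat_lit 4) (nat_lit 5) (nat_lit 4) (nat_lit 4) (nat_lit 374) (nat_lit 329) (nat_lit 197)) (XT.lf (nat_lit 0) (nat_lit 23383683367836) (nat_lit 76) (nat_lit 2763369276198) (nat_lit 76) (nat_lit 2419281407853) (nat_lit 3) (nat_lit 4) (nat_lit 4) (nat_lit 5) (nat_lit 4) (nat_lit 4) (nat_lit 375) (nat_lit 329) (nat_lit 196))) (XT.nd (nat_lit 78) (nat_lit 0) (nat_lit 0) (XT.lf (nat_lit 0) (nat_lit 28836498058312) (nat_lit 76) (nat_lit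 2109727047758) (nat_lit 76) (nat_lit 1765639179034) (nat_lit 3) (nat_lit 4) (nat_lit 4) (nat_lit 5) (nat_lit 4) (nat_lit 4) (nat_lit 376) (nat_lit 329) (nat_lit 195)) (XT.nd (nat_lit 78) (nat_lit 0) (nat_lit 0) (XT.lf (nat_lit 0) (nat_lit 35107234948349) (nat_lit 76) (nat_lit 1358038487149) (nat_lit 76) (nat_lit 1013950618095) (nat_lit 3) (nat_lit 4) (nat_lit 4) (nat_lit 5) (nat_lit 4) (nat_lit 4) (nat_lit 377) (nat_lit 329) (nat_lit 194)) (XT.lf (nat_lit 0) (nat_lit 42318582368404) (nat_lit 76) (nat_lit 493596644271) (nat_lit 76) (nat_lit 149508774930) (nat_lit 3) (nat_lit 4) (nat_lit 4) (nat_lit 5) (nat_lit 4) (nat_lit 4) (nat_lit 378) (nat_lit 329) (nat_lit 193))))) (XT.nd (nat_lit 234) (nat_lit 0) (nat_lit 0) (XT.nd (nat_lit 78) (nat_lit 0) (nat_lit 0) (XT.lf (nat_lit 0) (nat_lit 854185277820) (nat_lit 152) (nat_lit 47839394709446) (nat_lit 0) (nat_lit 554978434698) (nat_lit 1) (nat_lit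 5) (nat_lit 3) (nat_lit 4) (nat_lit 1) (nat_lit 4) (nat_lit 379) (nat_lit 329) (nat_lit 192)) (XT.nd (nat_lit 78) (nat_lit 0) (nat_lit 0) (XT.lf (nat_lit 0) (nat_lit 2051848866033) (nat_lit 152) (nat_lit 52664092501155) (nat_lit 0) (nat_lit 1752642022722) (nat_lit 1) (nat_lit 5) (nat_lit 3) (nat_lit 4) (nat_lit 1) (nat_lit 4) (nat_lit 380) (nat_lit 329) (nat_lit 191)) (XT.lf (nat_lit 0) (nat_lit 3429161991164) (nat_lit 152) (nat_lit 58212494964391) (nat_lit 0) (nat_lit 3129955147689) (nat_lit 1) (nat_lit 5) (nat_lit 3) (nat_lit 4) (nat_lit 1) (nat_lit 4) (nat_lit 381) (nat_lit 329) (nat_lit 190)))) (XT.nd (nat_lit 78) (nat_lit 0) (nat_lit 0) (XT.lf (nat_lit 0) (nat_lit 5013072083922) (nat_lit 152) (nat_lit 64593157799524) (nat_lit 0) (nat_lit 4713865240304) (nat_lit 1) (nat_lit 5) (nat_lit 3) (nat_lit 4) (nat_lit 1) (nat_lit 4) (nat_lit 382) (nat_lit 329) (nat_lit 189)) (XT.nd (nat_lit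 78) (nat_lit 0) (nat_lit 0) (XT.lf (nat_lit 0) (nat_lit 6834568689600) (nat_lit 152) (nat_lit 71930920062022) (nat_lit 0) (nat_lit 6535361845858) (nat_lit 1) (nat_lit 5) (nat_lit 3) (nat_lit 4) (nat_lit 1) (nat_lit 4) (nat_lit 383) (nat_lit 329) (nat_lit 188)) (XT.lf (nat_lit 0) (nat_lit 8929289785265) (nat_lit 152) (nat_lit 80369346665719) (nat_lit 0) (nat_lit 8630082941415) (nat_lit 1) (nat_lit 5) (nat_lit 3) (nat_lit 4) (nat_lit 1) (nat_lit 4) (nat_lit 384) (nat_lit 329) (nat_lit 187))))))))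
noncomputable def xc97 : XT := (XT.nd (nat_lit 43524) (nat_lit 0) (nat_lit 380) (XT.nd (nat_lit 42666) (nat_lit 0) (nat_lit 1444) (XT.nd (nat_lit 468) (nat_lit 0) (nat_lit 0) (XT.nd (nat_lit 156) (nat_lit 0) (nat_lit 0) (XT.nd (nat_lit 78) (nat_lit 0) (nat_lit 0) (XT.lf (nat_lit 0) (nat_lit 11338219044530) (nat_lit 152) (nat_lit 90073537261554) (nat_lit 0) (nat_lit 11039012200586) (nat_lit 1) (nat_lit 5) (nat_lit 3) (nat_lit 4) (nat_lit 1) (nat_lit 4) (nat_lit 385) (nat_lit 329) (nat_lit 186)) (XT.lf (nat_lit 0) (nat_lit 14108487692030) (nat_lit 152) (nat_lit 101233356448144) (nat_lit 0) (nat_lit 13809280848005) (nat_lit 1) (nat_lit 5) (nat_lit 3) (nat_lit 4) (nat_lit 1) (nat_lit 4) (nat_lit 386) (nat_lit 329) (nat_lit 185))) (XT.nd (nat_lit 78) (nat_lit 0) (nat_lit 0) (XT.lf (nat_lit 0) (nat_lit 17294296636088) (nat_lit 152) (nat_lit 114067148513920) (nat_lit 0) (nat_lit 16995089791992)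 (nat_lit 1) (nat_lit 5) (nat_lit 3) (nat_lit 4) (nat_lit 1) (nat_lit 4) (nat_lit 387) (nat_lit 329) (nat_lit 184)) (XT.nd (nat_lit 156) (nat_lit 0) (nat_lit 0) (XT.lf (nat_lit 0) (nat_lit 20957976921260) (nat_lit 152) (nat_lit 128826009390605) (nat_lit 0) (nat_lit 20658770077102) (nat_lit 1) (nat_lit 5) (nat_lit 3) (nat_lit 4) (nat_lit 1) (nat_lit 4) (nat_lit 388) (nat_lit 329) (nat_lit 183)) (XT.lf (nat_lit 0) (nat_lit 30016426425052) (nat_lit 152) (nat_lit 165317292910945) (nat_lit 0) (nat_lit 29717219580794) (nat_lit 1) (nat_lit 5) (nat_lit 3) (nat_lit 4) (nat_lit 1) (nat_lit 4) (nat_lit 390) (nat_lit 329) (nat_lit 181))))) (XT.nd (nat_lit 234) (nat_lit 0) (nat_lit 0) (XT.nd (nat_lit 78) (nat_lit 0) (nat_lit 0) (XT.lf (nat_lit 0) (nat_lit 35588426177442) (nat_lit 152) (nat_lit 187763675449563) (nat_lit 0) (nat_lit 35289219333143) (nat_lit 1) (nat_lit 5) (nat_lit 3) (nat_lit 4) (nat_lit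 1) (nat_lit 4) (nat_lit 391) (nat_lit 329) (nat_lit 180)) (XT.nd (nat_lit 78) (nat_lit 0) (nat_lit 0) (XT.lf (nat_lit 0) (nat_lit 41996225892407) (nat_lit 152) (nat_lit 213577015369569) (nat_lit 0) (nat_lit 41697019048073) (nat_lit 1) (nat_lit 5) (nat_lit 3) (nat_lit 4) (nat_lit 1) (nat_lit 4) (nat_lit 392) (nat_lit 329) (nat_lit 179)) (XT.lf (nat_lit 0) (nat_lit 49365195564371) (nat_lit 152) (nat_lit 243262356278095) (nat_lit 0) (nat_lit 49065988720007) (nat_lit 1) (nat_lit 5) (nat_lit 3) (nat_lit 4) (nat_lit 1) (nat_lit 4) (nat_lit 393) (nat_lit 329) (nat_lit 178)))) (XT.nd (nat_lit 78) (nat_lit 0) (nat_lit 0) (XT.lf (nat_lit 0) (nat_lit 57839510686916) (nat_lit 152) (nat_lit 277400498323350) (nat_lit 0) (nat_lit 57540303842525) (nat_lit 1) (nat_lit 5) (nat_lit 3) (nat_lit 4) (nat_lit 1) (nat_lit 4) (nat_lit 394) (nat_lit 329) (nat_lit 177)) (XT.nd (nat_lit 41808) (nat_lit 0) (nat_lit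 2052) (XT.lf (nat_lit 0) (nat_lit 67584973077658) (nat_lit 152) (nat_lit 316659361675785) (nat_lit 0) (nat_lit 67285766233244) (nat_lit 1) (nat_lit 5) (nat_lit 3) (nat_lit 4) (nat_lit 1) (nat_lit 4) (nat_lit 395) (nat_lit 329) (nat_lit 176)) (XT.lf (nat_lit 0) (nat_lit 32501307578) (nat_lit 380) (nat_lit 50939452651) (nat_lit 380) (nat_lit 50939452651) (nat_lit 28) (nat_lit 3) (nat_lit 33) (nat_lit 3) (nat_lit 33) (nat_lit 5) (nat_lit 330) (nat_lit 330) (nat_lit 240)))))) (XT.nd (nat_lit 390) (nat_lit 456) (nat_lit 0) (XT.nd (nat_lit 156) (nat_lit 152) (nat_lit 0) (XT.nd (nat_lit 78) (nat_lit 0) (nat_lit 76) (XT.lf (nat_lit 76) (nat_lit 31342714190) (nat_lit 0) (nat_lit 39833764807) (nat_lit 380) (nat_lit 217546177152) (nat_lit 29) (nat_lit 5) (nat_lit 28) (nat_lit 3) (nat_lit 33) (nat_lit 5) (nat_lit 331) (nat_lit 330) (nat_lit 239)) (XT.lf (nat_lit 0) (nat_lit 88255817458) (nat_lit 304)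 (nat_lit 119537197319) (nat_lit 380) (nat_lit 102389297307) (nat_lit 29) (nat_lit 5) (nat_lit 33) (nat_lit 5) (nat_lit 34) (nat_lit 5) (nat_lit 332) (nat_lit 330) (nat_lit 238))) (XT.nd (nat_lit 78) (nat_lit 228) (nat_lit 0) (XT.lf (nat_lit 76) (nat_lit 40709226235) (nat_lit 0) (nat_lit 70770228437) (nat_lit 380) (nat_lit 222844102256) (nat_lit 30) (nat_lit 5) (nat_lit 29) (nat_lit 5) (nat_lit 34) (nat_lit 5) (nat_lit 333) (nat_lit 330) (nat_lit 237)) (XT.nd (nat_lit 78) (nat_lit 304) (nat_lit 0) (XT.lf (nat_lit 0) (nat_lit 148327055872) (nat_lit 304) (nat_lit 126613861097) (nat_lit 76) (nat_lit 85624008956) (nat_lit 30) (nat_lit 5) (nat_lit 34) (nat_lit 5) (nat_lit 31) (nat_lit 5) (nat_lit 334) (nat_lit 330) (nat_lit 236)) (XT.lf (nat_lit 0) (nat_lit 68132162099) (nat_lit 304) (nat_lit 128760752215) (nat_lit 380) (nat_lit 192920918560) (nat_lit 26) (nat_lit 5) (nat_lit 30) (nat_lit 5)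 (nat_lit 31) (nat_lit 5) (nat_lit 335) (nat_lit 330) (nat_lit 235))))) (XT.nd (nat_lit 234) (nat_lit 304) (nat_lit 0) (XT.nd (nat_lit 78) (nat_lit 152) (nat_lit 0) (XT.lf (nat_lit 0) (nat_lit 261306427392) (nat_lit 380) (nat_lit 118082075590) (nat_lit 76) (nat_lit 42777156646) (nat_lit 26) (nat_lit 5) (nat_lit 31) (nat_lit 5) (nat_lit 27) (nat_lit 5) (nat_lit 336) (nat_lit 330) (nat_lit 234)) (XT.nd (nat_lit 78) (nat_lit 0) (nat_lit 0) (XT.lf (nat_lit 0) (nat_lit 120668655908) (nat_lit 152) (nat_lit 225841327285) (nat_lit 228) (nat_lit 111191074960) (nat_lit 24) (nat_lit 5) (nat_lit 26) (nat_lit 5) (nat_lit 27) (nat_lit 5) (nat_lit 337) (nat_lit 330) (nat_lit 233)) (XT.lf (nat_lit 0) (nat_lit 408502719856) (nat_lit 152) (nat_lit 42163750953) (nat_lit 228) (nat_lit 46974435989) (nat_lit 24) (nat_lit 5) (nat_lit 26) (nat_lit 5) (nat_lit 27) (nat_lit 5) (nat_lit 338) (nat_lit 330) (nat_lit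 232)))) (XT.nd (nat_lit 78) (nat_lit 152) (nat_lit 0) (XT.lf (nat_lit 0) (nat_lit 40813179207) (nat_lit 152) (nat_lit 335684601246) (nat_lit 76) (nat_lit 164457370984) (nat_lit 22) (nat_lit 5) (nat_lit 24) (nat_lit 5) (nat_lit 23) (nat_lit 5) (nat_lit 339) (nat_lit 330) (nat_lit 231)) (XT.nd (nat_lit 78) (nat_lit 152) (nat_lit 0) (XT.lf (nat_lit 0) (nat_lit 143848760999) (nat_lit 152) (nat_lit 40675741592) (nat_lit 76) (nat_lit 404873131795) (nat_lit 22) (nat_lit 5) (nat_lit 24) (nat_lit 5) (nat_lit 23) (nat_lit 5) (nat_lit 340) (nat_lit 330) (nat_lit 230)) (XT.lf (nat_lit 0) (nat_lit 278058746172) (nat_lit 228) (nat_lit 317453596139) (nat_lit 76) (nat_lit 47236287611) (nat_lit 20) (nat_lit 5) (nat_lit 23) (nat_lit 5) (nat_lit 21) (nat_lit 4) (nat_lit 341) (nat_lit 330) (nat_lit 229))))))) (XT.nd (nat_lit 858) (nat_lit 456) (nat_lit 0) (XT.nd (nat_lit 390) (nat_lit 304) (nat_lit 0) (XT.nd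 (nat_lit 156) (nat_lit 228) (nat_lit 0) (XT.nd (nat_lit 78) (nat_lit 0) (nat_lit 0) (XT.lf (nat_lit 0) (nat_lit 41780895656) (nat_lit 76) (nat_lit 403363701771) (nat_lit 152) (nat_lit 257046022168) (nat_lit 19) (nat_lit 5) (nat_lit 20) (nat_lit 5) (nat_lit 21) (nat_lit 4) (nat_lit 342) (nat_lit 330) (nat_lit 228)) (XT.lf (nat_lit 0) (nat_lit 490577937733) (nat_lit 76) (nat_lit 163309505716) (nat_lit 152) (nat_lit 114172346754) (nat_lit 19) (nat_lit 5) (nat_lit 20) (nat_lit 5) (nat_lit 21) (nat_lit 4) (nat_lit 343) (nat_lit 330) (nat_lit 227))) (XT.nd (nat_lit 78) (nat_lit 76) (nat_lit 0) (XT.lf (nat_lit 0) (nat_lit 58094492150) (nat_lit 152) (nat_lit 670992609294) (nat_lit 76) (nat_lit 112547067256) (nat_lit 17) (nat_lit 5) (nat_lit 19) (nat_lit 5) (nat_lit 18) (nat_lit 4) (nat_lit 344) (nat_lit 330) (nat_lit 226)) (XT.nd (nat_lit 78) (nat_lit 76) (nat_lit 0) (XT.lf (nat_lit 0) (nat_lit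 267484318952) (nat_lit 152) (nat_lit 220804532213) (nat_lit 76) (nat_lit 433694530723) (nat_lit 17) (nat_lit 5) (nat_lit 19) (nat_lit 5) (nat_lit 18) (nat_lit 4) (nat_lit 345) (nat_lit 330) (nat_lit 225)) (XT.lf (nat_lit 0) (nat_lit 325928061477) (nat_lit 76) (nat_lit 195850507541) (nat_lit 152) (nat_lit 490582015677) (nat_lit 16) (nat_lit 5) (nat_lit 17) (nat_lit 5) (nat_lit 18) (nat_lit 4) (nat_lit 346) (nat_lit 330) (nat_lit 224))))) (XT.nd (nat_lit 234) (nat_lit 152) (nat_lit 0) (XT.nd (nat_lit 78) (nat_lit 152) (nat_lit 0) (XT.lf (nat_lit 0) (nat_lit 832124481264) (nat_lit 152) (nat_lit 141442668139) (nat_lit 0) (nat_lit 140041089844) (nat_lit 16) (nat_lit 5) (nat_lit 18) (nat_lit 4) (nat_lit 16) (nat_lit 4) (nat_lit 347) (nat_lit 330) (nat_lit 223)) (XT.nd (nat_lit 78) (nat_lit 76) (nat_lit 0) (XT.lf (nat_lit 0) (nat_lit 522484583924) (nat_lit 76) (nat_lit 697498852493) (nat_lit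 76) (nat_lit 5415432174) (nat_lit 15) (nat_lit 4) (nat_lit 16) (nat_lit 5) (nat_lit 16) (nat_lit 4) (nat_lit 348) (nat_lit 330) (nat_lit 222)) (XT.lf (nat_lit 0) (nat_lit 292026762908) (nat_lit 152) (nat_lit 64225905196) (nat_lit 76) (nat_lit 994605297964) (nat_lit 14) (nat_lit 5) (nat_lit 16) (nat_lit 5) (nat_lit 15) (nat_lit 4) (nat_lit 349) (nat_lit 330) (nat_lit 221)))) (XT.nd (nat_lit 78) (nat_lit 76) (nat_lit 0) (XT.lf (nat_lit 0) (nat_lit 666946390953) (nat_lit 152) (nat_lit 758003844190) (nat_lit 0) (nat_lit 65134680257) (nat_lit 13) (nat_lit 5) (nat_lit 15) (nat_lit 4) (nat_lit 13) (nat_lit 4) (nat_lit 350) (nat_lit 330) (nat_lit 220)) (XT.nd (nat_lit 78) (nat_lit 76) (nat_lit 0) (XT.lf (nat_lit 0) (nat_lit 1118585482792) (nat_lit 152) (nat_lit 11764440840) (nat_lit 0) (nat_lit 516773755573) (nat_lit 13) (nat_lit 5) (nat_lit 15) (nat_lit 4) (nat_lit 13) (nat_lit 4) (nat_lit 351)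 (nat_lit 330) (nat_lit 219)) (XT.lf (nat_lit 0) (nat_lit 929128250782) (nat_lit 76) (nat_lit 747315384437) (nat_lit 76) (nat_lit 145503642850) (nat_lit 12) (nat_lit 4) (nat_lit 13) (nat_lit 5) (nat_lit 13) (nat_lit 4) (nat_lit 352) (nat_lit 330) (nat_lit 218)))))) (XT.nd (nat_lit 390) (nat_lit 228) (nat_lit 0) (XT.nd (nat_lit 156) (nat_lit 76) (nat_lit 0) (XT.nd (nat_lit 78) (nat_lit 76) (nat_lit 0) (XT.lf (nat_lit 0) (nat_lit 269368612510) (nat_lit 152) (nat_lit 22669237182) (nat_lit 76) (nat_lit 1729027722213) (nat_lit 11) (nat_lit 5) (nat_lit 13) (nat_lit 5) (nat_lit 12) (nat_lit 4) (nat_lit 353) (nat_lit 330) (nat_lit 217)) (XT.lf (nat_lit 0) (nat_lit 787733672933) (nat_lit 152) (nat_lit 1188435715191) (nat_lit 0) (nat_lit 264419094720) (nat_lit 10) (nat_lit 5) (nat_lit 12) (nat_lit 4) (nat_lit 10) (nat_lit 4) (nat_lit 354) (nat_lit 330) (nat_lit 216))) (XT.nd (nat_lit 78) (nat_lit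 76) (nat_lit 0) (XT.lf (nat_lit 0) (nat_lit 1399001448007) (nat_lit 152) (nat_lit 216079327507) (nat_lit 0) (nat_lit 875686861579) (nat_lit 10) (nat_lit 5) (nat_lit 12) (nat_lit 4) (nat_lit 10) (nat_lit 4) (nat_lit 355) (nat_lit 330) (nat_lit 215)) (XT.nd (nat_lit 78) (nat_lit 0) (nat_lit 0) (XT.lf (nat_lit 0) (nat_lit 990293236459) (nat_lit 76) (nat_lit 1152672067222) (nat_lit 76) (nat_lit 629357473651) (nat_lit 9) (nat_lit 4) (nat_lit 10) (nat_lit 5) (nat_lit 10) (nat_lit 4) (nat_lit 356) (nat_lit 330) (nat_lit 214)) (XT.lf (nat_lit 0) (nat_lit 2401906022664) (nat_lit 76) (nat_lit 607912754878) (nat_lit 76) (nat_lit 84598155095) (nat_lit 9) (nat_lit 4) (nat_lit 10) (nat_lit 5) (nat_lit 10) (nat_lit 4) (nat_lit 357) (nat_lit 330) (nat_lit 213))))) (XT.nd (nat_lit 234) (nat_lit 76) (nat_lit 0) (XT.nd (nat_lit 78) (nat_lit 0) (nat_lit 0) (XT.lf (nat_lit 0) (nat_lit 521089533971) (nat_lit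 152) (nat_lit 2870218247438) (nat_lit 0) (nat_lit 66033355550) (nat_lit 7) (nat_lit 5) (nat_lit 9) (nat_lit 4) (nat_lit 7) (nat_lit 4) (nat_lit 358) (nat_lit 330) (nat_lit 212)) (XT.nd (nat_lit 78) (nat_lit 0) (nat_lit 0) (XT.lf (nat_lit 0) (nat_lit 1275840565257) (nat_lit 152) (nat_lit 1767444037104) (nat_lit 0) (nat_lit 820784382752) (nat_lit 7) (nat_lit 5) (nat_lit 9) (nat_lit 4) (nat_lit 7) (nat_lit 4) (nat_lit 359) (nat_lit 330) (nat_lit 211)) (XT.lf (nat_lit 0) (nat_lit 2143804238738) (nat_lit 152) (nat_lit 499253720949) (nat_lit 0) (nat_lit 1688748052681) (nat_lit 7) (nat_lit 5) (nat_lit 9) (nat_lit 4) (nat_lit 7) (nat_lit 4) (nat_lit 360) (nat_lit 330) (nat_lit 210)))) (XT.nd (nat_lit 78) (nat_lit 0) (nat_lit 0) (XT.lf (nat_lit 0) (nat_lit 1052901711554) (nat_lit 76) (nat_lit 2132659155376) (nat_lit 76) (nat_lit 1677602966230) (nat_lit 6) (nat_lit 4) (nat_lit 7) (nat_lit 5) (nat_lit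 7) (nat_lit 4) (nat_lit 361) (nat_lit 330) (nat_lit 209)) (XT.nd (nat_lit 78) (nat_lit 0) (nat_lit 0) (XT.lf (nat_lit 0) (nat_lit 2893989747806) (nat_lit 76) (nat_lit 1515688584804) (nat_lit 76) (nat_lit 1060632392973) (nat_lit 6) (nat_lit 4) (nat_lit 7) (nat_lit 5) (nat_lit 7) (nat_lit 4) (nat_lit 362) (nat_lit 330) (nat_lit 208)) (XT.lf (nat_lit 0) (nat_lit 5011240970926) (nat_lit 76) (nat_lit 806172438230) (nat_lit 76) (nat_lit 351116244064) (nat_lit 6) (nat_lit 4) (nat_lit 7) (nat_lit 5) (nat_lit 7) (nat_lit 4) (nat_lit 363) (nat_lit 330) (nat_lit 207))))))))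
noncomputable def xc98 : XT := (XT.nd (nat_lit 1716) (nat_lit 0) (nat_lit 0) (XT.nd (nat_lit 858) (nat_lit 152) (nat_lit 0) (XT.nd (nat_lit 390) (nat_lit 76) (nat_lit 0) (XT.nd (nat_lit 156) (nat_lit 0) (nat_lit 0) (XT.nd (nat_lit 78) (nat_lit 0) (nat_lit 0) (XT.lf (nat_lit 0) (nat_lit 446449703041) (nat_lit 152) (nat_lit 6467945250008) (nat_lit 0) (nat_lit 50748662870) (nat_lit 4) (nat_lit 5) (nat_lit 6) (nat_lit 4) (nat_lit 4) (nat_lit 4) (nat_lit 364) (nat_lit 330) (nat_lit 206)) (XT.lf (nat_lit 0) (nat_lit 1429467414939) (nat_lit 152) (nat_lit 5400243238451) (nat_lit 0) (nat_lit 1033766373233) (nat_lit 4) (nat_lit 5) (nat_lit 6) (nat_lit 4) (nat_lit 4) (nat_lit 4) (nat_lit 365) (nat_lit 330) (nat_lit 205))) (XT.nd (nat_lit 78) (nat_lit 0) (nat_lit 0) (XT.lf (nat_lit 0) (nat_lit 2559937776546) (nat_lit 152) (nat_lit 4172385939945) (nat_lit 0) (nat_lit 2164236733504) (nat_lit 4) (nat_lit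 5) (nat_lit 6) (nat_lit 4) (nat_lit 4) (nat_lit 4) (nat_lit 366) (nat_lit 330) (nat_lit 204)) (XT.nd (nat_lit 78) (nat_lit 0) (nat_lit 0) (XT.lf (nat_lit 0) (nat_lit 3859978686241) (nat_lit 152) (nat_lit 2760350059518) (nat_lit 0) (nat_lit 3464277642038) (nat_lit 4) (nat_lit 5) (nat_lit 6) (nat_lit 4) (nat_lit 4) (nat_lit 4) (nat_lit 367) (nat_lit 330) (nat_lit 203)) (XT.lf (nat_lit 0) (nat_lit 5355025727039) (nat_lit 152) (nat_lit 1136508808206) (nat_lit 0) (nat_lit 4959324681827) (nat_lit 4) (nat_lit 5) (nat_lit 6) (nat_lit 4) (nat_lit 4) (nat_lit 4) (nat_lit 368) (nat_lit 330) (nat_lit 202))))) (XT.nd (nat_lit 234) (nat_lit 0) (nat_lit 0) (XT.nd (nat_lit 78) (nat_lit 0) (nat_lit 0) (XT.lf (nat_lit 0) (nat_lit 802338327233) (nat_lit 76) (nat_lit 6305214611212) (nat_lit 76) (nat_lit 5909513565122) (nat_lit 3) (nat_lit 4) (nat_lit 4) (nat_lit 5) (nat_lit 4) (nat_lit 4) (nat_lit 369) (nat_lit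 330) (nat_lit 201)) (XT.nd (nat_lit 78) (nat_lit 0) (nat_lit 0) (XT.lf (nat_lit 0) (nat_lit 3159740615905) (nat_lit 76) (nat_lit 6022627026201) (nat_lit 76) (nat_lit 5626925979348) (nat_lit 3) (nat_lit 4) (nat_lit 4) (nat_lit 5) (nat_lit 4) (nat_lit 4) (nat_lit 370) (nat_lit 330) (nat_lit 200)) (XT.lf (nat_lit 0) (nat_lit 5870753239809) (nat_lit 76) (nat_lit 5697651307655) (nat_lit 76) (nat_lit 5301950260138) (nat_lit 3) (nat_lit 4) (nat_lit 4) (nat_lit 5) (nat_lit 4) (nat_lit 4) (nat_lit 371) (nat_lit 330) (nat_lit 199)))) (XT.nd (nat_lit 78) (nat_lit 0) (nat_lit 0) (XT.lf (nat_lit 0) (nat_lit 8988417750283) (nat_lit 76) (nat_lit 5323929234994) (nat_lit 76) (nat_lit 4928228186899) (nat_lit 3) (nat_lit 4) (nat_lit 4) (nat_lit 5) (nat_lit 4) (nat_lit 4) (nat_lit 372) (nat_lit 330) (nat_lit 198)) (XT.nd (nat_lit 78) (nat_lit 0) (nat_lit 0) (XT.lf (nat_lit 0) (nat_lit 12573731931227) (nat_lit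 76) (nat_lit 4894148854621) (nat_lit 76) (nat_lit 4498447806025) (nat_lit 3) (nat_lit 4) (nat_lit 4) (nat_lit 5) (nat_lit 4) (nat_lit 4) (nat_lit 373) (nat_lit 330) (nat_lit 197)) (XT.lf (nat_lit 0) (nat_lit 16696843234008) (nat_lit 76) (nat_lit 4399901419965) (nat_lit 76) (nat_lit 4004200370932) (nat_lit 3) (nat_lit 4) (nat_lit 4) (nat_lit 5) (nat_lit 4) (nat_lit 4) (nat_lit 374) (nat_lit 330) (nat_lit 196)))))) (XT.nd (nat_lit 390) (nat_lit 152) (nat_lit 0) (XT.nd (nat_lit 156) (nat_lit 0) (nat_lit 0) (XT.nd (nat_lit 78) (nat_lit 0) (nat_lit 0) (XT.lf (nat_lit 0) (nat_lit 21438421227593) (nat_lit 76) (nat_lit 3831516872521) (nat_lit 76) (nat_lit 3435815823108) (nat_lit 3) (nat_lit 4) (nat_lit 4) (nat_lit 5) (nat_lit 4) (nat_lit 4) (nat_lit 375) (nat_lit 330) (nat_lit 195)) (XT.lf (nat_lit 0) (nat_lit 26891235916204) (nat_lit 76) (nat_lit 3177874645056) (nat_lit 76) (nat_lit 2782173595314)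 (nat_lit 3) (nat_lit 4) (nat_lit 4) (nat_lit 5) (nat_lit 4) (nat_lit 4) (nat_lit 376) (nat_lit 330) (nat_lit 194))) (XT.nd (nat_lit 78) (nat_lit 0) (nat_lit 0) (XT.lf (nat_lit 0) (nat_lit 33161972804618) (nat_lit 76) (nat_lit 2426186085295) (nat_lit 76) (nat_lit 2030485035265) (nat_lit 3) (nat_lit 4) (nat_lit 4) (nat_lit 5) (nat_lit 4) (nat_lit 4) (nat_lit 377) (nat_lit 330) (nat_lit 193)) (XT.nd (nat_lit 78) (nat_lit 0) (nat_lit 0) (XT.lf (nat_lit 0) (nat_lit 40373320223262) (nat_lit 76) (nat_lit 1561744243154) (nat_lit 76) (nat_lit 1166043192875) (nat_lit 3) (nat_lit 4) (nat_lit 4) (nat_lit 5) (nat_lit 4) (nat_lit 4) (nat_lit 378) (nat_lit 330) (nat_lit 192)) (XT.lf (nat_lit 0) (nat_lit 48666369752064) (nat_lit 76) (nat_lit 567636126071) (nat_lit 76) (nat_lit 171935075575) (nat_lit 3) (nat_lit 4) (nat_lit 4) (nat_lit 5) (nat_lit 4) (nat_lit 4) (nat_lit 379) (nat_lit 330) (nat_lit 191)))))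 (XT.nd (nat_lit 234) (nat_lit 0) (nat_lit 0) (XT.nd (nat_lit 78) (nat_lit 0) (nat_lit 0) (XT.lf (nat_lit 0) (nat_lit 982313083641) (nat_lit 152) (nat_lit 55015303886014) (nat_lit 0) (nat_lit 638225213481) (nat_lit 1) (nat_lit 5) (nat_lit 3) (nat_lit 4) (nat_lit 1) (nat_lit 4) (nat_lit 380) (nat_lit 330) (nat_lit 190)) (XT.nd (nat_lit 78) (nat_lit 0) (nat_lit 0) (XT.lf (nat_lit 0) (nat_lit 2359626208241) (nat_lit 152) (nat_lit 60563706350372) (nat_lit 0) (nat_lit 2015538337937) (nat_lit 1) (nat_lit 5) (nat_lit 3) (nat_lit 4) (nat_lit 1) (nat_lit 4) (nat_lit 381) (nat_lit 330) (nat_lit 189)) (XT.lf (nat_lit 0) (nat_lit 3943536300536) (nat_lit 152) (nat_lit 66944369186480) (nat_lit 0) (nat_lit 3599448430109) (nat_lit 1) (nat_lit 5) (nat_lit 3) (nat_lit 4) (nat_lit 1) (nat_lit 4) (nat_lit 382) (nat_lit 330) (nat_lit 188)))) (XT.nd (nat_lit 78) (nat_lit 0) (nat_lit 0) (XT.lf (nat_lit 0) (nat_lit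 5765032905812) (nat_lit 152) (nat_lit 74282131449826) (nat_lit 0) (nat_lit 5420945035277) (nat_lit 1) (nat_lit 5) (nat_lit 3) (nat_lit 4) (nat_lit 1) (nat_lit 4) (nat_lit 383) (nat_lit 330) (nat_lit 187)) (XT.nd (nat_lit 78) (nat_lit 0) (nat_lit 0) (XT.lf (nat_lit 0) (nat_lit 7859754001129) (nat_lit 152) (nat_lit 82720558054260) (nat_lit 0) (nat_lit 7515666130500) (nat_lit 1) (nat_lit 5) (nat_lit 3) (nat_lit 4) (nat_lit 1) (nat_lit 4) (nat_lit 384) (nat_lit 330) (nat_lit 186)) (XT.lf (nat_lit 0) (nat_lit 10268683260089) (nat_lit 152) (nat_lit 92424748650736) (nat_lit 0) (nat_lit 9924595389378) (nat_lit 1) (nat_lit 5) (nat_lit 3) (nat_lit 4) (nat_lit 1) (nat_lit 4) (nat_lit 385) (nat_lit 330) (nat_lit 185))))))) (XT.nd (nat_lit 42822) (nat_lit 0) (nat_lit 1368) (XT.nd (nat_lit 546) (nat_lit 0) (nat_lit 0) (XT.nd (nat_lit 312) (nat_lit 0) (nat_lit 0) (XT.nd (nat_lit 78) (nat_lit 0) (nat_lit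 0) (XT.lf (nat_lit 0) (nat_lit 13038951907326) (nat_lit 152) (nat_lit 103584567837883) (nat_lit 0) (nat_lit 12694864036544) (nat_lit 1) (nat_lit 5) (nat_lit 3) (nat_lit 4) (nat_lit 1) (nat_lit 4) (nat_lit 386) (nat_lit 330) (nat_lit 184)) (XT.lf (nat_lit 0) (nat_lit 16224760851153) (nat_lit 152) (nat_lit 116418359904144) (nat_lit 0) (nat_lit 15880672980310) (nat_lit 1) (nat_lit 5) (nat_lit 3) (nat_lit 4) (nat_lit 1) (nat_lit 4) (nat_lit 387) (nat_lit 330) (nat_lit 183))) (XT.nd (nat_lit 78) (nat_lit 0) (nat_lit 0) (XT.lf (nat_lit 0) (nat_lit 28946890639593) (nat_lit 152) (nat_lit 167668504302276) (nat_lit 0) (nat_lit 28602802768609) (nat_lit 1) (nat_lit 5) (nat_lit 3) (nat_lit 4) (nat_lit 1) (nat_lit 4) (nat_lit 390) (nat_lit 330) (nat_lit 180)) (XT.nd (nat_lit 78) (nat_lit 0) (nat_lit 0) (XT.lf (nat_lit 0) (nat_lit 34518890391851) (nat_lit 152) (nat_lit 190114886841171) (nat_lit 0) (nat_lit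 34174802520831) (nat_lit 1) (nat_lit 5) (nat_lit 3) (nat_lit 4) (nat_lit 1) (nat_lit 4) (nat_lit 391) (nat_lit 330) (nat_lit 179)) (XT.lf (nat_lit 0) (nat_lit 40926690106702) (nat_lit 152) (nat_lit 215928226761418) (nat_lit 0) (nat_lit 40582602235652) (nat_lit 1) (nat_lit 5) (nat_lit 3) (nat_lit 4) (nat_lit 1) (nat_lit 4) (nat_lit 392) (nat_lit 330) (nat_lit 178))))) (XT.nd (nat_lit 42042) (nat_lit 0) (nat_lit 2052) (XT.nd (nat_lit 78) (nat_lit 0) (nat_lit 0) (XT.lf (nat_lit 0) (nat_lit 48295659778567) (nat_lit 152) (nat_lit 245613567670154) (nat_lit 0) (nat_lit 47951571907491) (nat_lit 1) (nat_lit 5) (nat_lit 3) (nat_lit 4) (nat_lit 1) (nat_lit 4) (nat_lit 393) (nat_lit 330) (nat_lit 177)) (XT.nd (nat_lit 78) (nat_lit 0) (nat_lit 0) (XT.lf (nat_lit 0) (nat_lit 56769974901026) (nat_lit 152) (nat_lit 279751709715591) (nat_lit 0) (nat_lit 56425887029926) (nat_lit 1) (nat_lit 5) (nat_lit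 3) (nat_lit 4) (nat_lit 1) (nat_lit 4) (nat_lit 394) (nat_lit 330) (nat_lit 176)) (XT.lf (nat_lit 0) (nat_lit 66515437291693) (nat_lit 152) (nat_lit 319010573068185) (nat_lit 0) (nat_lit 66171349420572) (nat_lit 1) (nat_lit 5) (nat_lit 3) (nat_lit 4) (nat_lit 1) (nat_lit 4) (nat_lit 395) (nat_lit 330) (nat_lit 175)))) (XT.nd (nat_lit 78) (nat_lit 0) (nat_lit 0) (XT.lf (nat_lit 0) (nat_lit 37377301980) (nat_lit 380) (nat_lit 58579910880) (nat_lit 380) (nat_lit 58579910880) (nat_lit 28) (nat_lit 3) (nat_lit 33) (nat_lit 3) (nat_lit 33) (nat_lit 5) (nat_lit 331) (nat_lit 331) (nat_lit 238)) (XT.nd (nat_lit 78) (nat_lit 0) (nat_lit 76) (XT.lf (nat_lit 76) (nat_lit 36044998866) (nat_lit 0) (nat_lit 45809376603) (nat_lit 380) (nat_lit 250176463091) (nat_lit 29) (nat_lit 5) (nat_lit 28) (nat_lit 3) (nat_lit 33) (nat_lit 5) (nat_lit 332) (nat_lit 331) (nat_lit 237)) (XT.lf (nat_lit 0) (nat_lit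 101495409181) (nat_lit 304) (nat_lit 137466806299) (nat_lit 380) (nat_lit 117747258537) (nat_lit 29) (nat_lit 5) (nat_lit 33) (nat_lit 5) (nat_lit 34) (nat_lit 5) (nat_lit 333) (nat_lit 331) (nat_lit 236)))))) (XT.nd (nat_lit 390) (nat_lit 380) (nat_lit 0) (XT.nd (nat_lit 156) (nat_lit 380) (nat_lit 0) (XT.nd (nat_lit 78) (nat_lit 0) (nat_lit 76) (XT.lf (nat_lit 76) (nat_lit 46816536670) (nat_lit 0) (nat_lit 81385934658) (nat_lit 380) (nat_lit 256269452619) (nat_lit 30) (nat_lit 5) (nat_lit 29) (nat_lit 5) (nat_lit 34) (nat_lit 5) (nat_lit 334) (nat_lit 331) (nat_lit 235)) (XT.lf (nat_lit 0) (nat_lit 170577063240) (nat_lit 304) (nat_lit 145604983618) (nat_lit 76) (nat_lit 98467474085) (nat_lit 30) (nat_lit 5) (nat_lit 34) (nat_lit 5) (nat_lit 31) (nat_lit 5) (nat_lit 335) (nat_lit 331) (nat_lit 234))) (XT.nd (nat_lit 78) (nat_lit 152) (nat_lit 0) (XT.lf (nat_lit 0) (nat_lit 78352899573)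 (nat_lit 304) (nat_lit 148074814906) (nat_lit 380) (nat_lit 221858062549) (nat_lit 26) (nat_lit 5) (nat_lit 30) (nat_lit 5) (nat_lit 31) (nat_lit 5) (nat_lit 336) (nat_lit 331) (nat_lit 233)) (XT.nd (nat_lit 78) (nat_lit 152) (nat_lit 0) (XT.lf (nat_lit 0) (nat_lit 300503143757) (nat_lit 380) (nat_lit 135793480963) (nat_lit 76) (nat_lit 49193769862) (nat_lit 26) (nat_lit 5) (nat_lit 31) (nat_lit 5) (nat_lit 27) (nat_lit 5) (nat_lit 337) (nat_lit 331) (nat_lit 232)) (XT.lf (nat_lit 0) (nat_lit 138769819079) (nat_lit 152) (nat_lit 259717351537) (nat_lit 228) (nat_lit 127868941767) (nat_lit 24) (nat_lit 5) (nat_lit 26) (nat_lit 5) (nat_lit 27) (nat_lit 5) (nat_lit 338) (nat_lit 331) (nat_lit 231))))) (XT.nd (nat_lit 234) (nat_lit 228) (nat_lit 0) (XT.nd (nat_lit 78) (nat_lit 152) (nat_lit 0) (XT.lf (nat_lit 0) (nat_lit 469778879821) (nat_lit 152) (nat_lit 48488161560) (nat_lit 228) (nat_lit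 54019910572) (nat_lit 24) (nat_lit 5) (nat_lit 26) (nat_lit 5) (nat_lit 27) (nat_lit 5) (nat_lit 339) (nat_lit 331) (nat_lit 230)) (XT.nd (nat_lit 78) (nat_lit 0) (nat_lit 0) (XT.lf (nat_lit 0) (nat_lit 46935743693) (nat_lit 152) (nat_lit 386036434820) (nat_lit 76) (nat_lit 189126156841) (nat_lit 22) (nat_lit 5) (nat_lit 24) (nat_lit 5) (nat_lit 23) (nat_lit 5) (nat_lit 340) (nat_lit 331) (nat_lit 229)) (XT.lf (nat_lit 0) (nat_lit 165426586109) (nat_lit 152) (nat_lit 46776357950) (nat_lit 76) (nat_lit 465604258268) (nat_lit 22) (nat_lit 5) (nat_lit 24) (nat_lit 5) (nat_lit 23) (nat_lit 5) (nat_lit 341) (nat_lit 331) (nat_lit 228)))) (XT.nd (nat_lit 78) (nat_lit 76) (nat_lit 0) (XT.lf (nat_lit 0) (nat_lit 319768041678) (nat_lit 228) (nat_lit 365070862801) (nat_lit 76) (nat_lit 54321946897) (nat_lit 20) (nat_lit 5) (nat_lit 23) (nat_lit 5) (nat_lit 21) (nat_lit 4) (nat_lit 342) (nat_lit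 331) (nat_lit 227)) (XT.nd (nat_lit 78) (nat_lit 0) (nat_lit 0) (XT.lf (nat_lit 0) (nat_lit 48048767639) (nat_lit 76) (nat_lit 463867970451) (nat_lit 152) (nat_lit 295602406355) (nat_lit 19) (nat_lit 5) (nat_lit 20) (nat_lit 5) (nat_lit 21) (nat_lit 4) (nat_lit 343) (nat_lit 331) (nat_lit 226)) (XT.lf (nat_lit 0) (nat_lit 564165269814) (nat_lit 76) (nat_lit 187805682369) (nat_lit 152) (nat_lit 131297747342) (nat_lit 19) (nat_lit 5) (nat_lit 20) (nat_lit 5) (nat_lit 21) (nat_lit 4) (nat_lit 344) (nat_lit 331) (nat_lit 225))))))))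
noncomputable def xc99 : XT := (XT.nd (nat_lit 1716) (nat_lit 228) (nat_lit 0) (XT.nd (nat_lit 858) (nat_lit 456) (nat_lit 0) (XT.nd (nat_lit 390) (nat_lit 380) (nat_lit 0) (XT.nd (nat_lit 156) (nat_lit 152) (nat_lit 0) (XT.nd (nat_lit 78) (nat_lit 0) (nat_lit 0) (XT.lf (nat_lit 0) (nat_lit 66809061554) (nat_lit 152) (nat_lit 771640802811) (nat_lit 76) (nat_lit 129429370018) (nat_lit 17) (nat_lit 5) (nat_lit 19) (nat_lit 5) (nat_lit 18) (nat_lit 4) (nat_lit 345) (nat_lit 331) (nat_lit 224)) (XT.lf (nat_lit 0) (nat_lit 307607310779) (nat_lit 152) (nat_lit 253924605196) (nat_lit 76) (nat_lit 498748921352) (nat_lit 17) (nat_lit 5) (nat_lit 19) (nat_lit 5) (nat_lit 18) (nat_lit 4) (nat_lit 346) (nat_lit 331) (nat_lit 223))) (XT.nd (nat_lit 78) (nat_lit 76) (nat_lit 0) (XT.lf (nat_lit 0) (nat_lit 374817849964) (nat_lit 76) (nat_lit 225227827510) (nat_lit 152) (nat_lit 564168946246) (nat_lit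 16) (nat_lit 5) (nat_lit 17) (nat_lit 5) (nat_lit 18) (nat_lit 4) (nat_lit 347) (nat_lit 331) (nat_lit 222)) (XT.nd (nat_lit 78) (nat_lit 76) (nat_lit 0) (XT.lf (nat_lit 0) (nat_lit 956943443636) (nat_lit 152) (nat_lit 162658531544) (nat_lit 0) (nat_lit 161047456240) (nat_lit 16) (nat_lit 5) (nat_lit 18) (nat_lit 4) (nat_lit 16) (nat_lit 4) (nat_lit 348) (nat_lit 331) (nat_lit 221)) (XT.lf (nat_lit 0) (nat_lit 600857783928) (nat_lit 76) (nat_lit 802123441501) (nat_lit 76) (nat_lit 6227432254) (nat_lit 15) (nat_lit 4) (nat_lit 16) (nat_lit 5) (nat_lit 16) (nat_lit 4) (nat_lit 349) (nat_lit 331) (nat_lit 220))))) (XT.nd (nat_lit 234) (nat_lit 228) (nat_lit 0) (XT.nd (nat_lit 78) (nat_lit 76) (nat_lit 0) (XT.lf (nat_lit 0) (nat_lit 335831026670) (nat_lit 152) (nat_lit 73859320907) (nat_lit 76) (nat_lit 1143796275878) (nat_lit 14) (nat_lit 5) (nat_lit 16) (nat_lit 5) (nat_lit 15) (nat_lit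 4) (nat_lit 350) (nat_lit 331) (nat_lit 219)) (XT.nd (nat_lit 78) (nat_lit 0) (nat_lit 0) (XT.lf (nat_lit 0) (nat_lit 766988593814) (nat_lit 152) (nat_lit 871703945536) (nat_lit 0) (nat_lit 74905076621) (nat_lit 13) (nat_lit 5) (nat_lit 15) (nat_lit 4) (nat_lit 13) (nat_lit 4) (nat_lit 351) (nat_lit 331) (nat_lit 218)) (XT.lf (nat_lit 0) (nat_lit 1286373517574) (nat_lit 152) (nat_lit 13528693677) (nat_lit 0) (nat_lit 594289987887) (nat_lit 13) (nat_lit 5) (nat_lit 15) (nat_lit 4) (nat_lit 13) (nat_lit 4) (nat_lit 352) (nat_lit 331) (nat_lit 217)))) (XT.nd (nat_lit 78) (nat_lit 152) (nat_lit 0) (XT.lf (nat_lit 0) (nat_lit 1068497882903) (nat_lit 76) (nat_lit 859412498599) (nat_lit 76) (nat_lit 167328958048) (nat_lit 12) (nat_lit 4) (nat_lit 13) (nat_lit 5) (nat_lit 13) (nat_lit 4) (nat_lit 353) (nat_lit 331) (nat_lit 216)) (XT.nd (nat_lit 78) (nat_lit 76) (nat_lit 0) (XT.lf (nat_lit 0)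 (nat_lit 309774087556) (nat_lit 152) (nat_lit 26069261751) (nat_lit 76) (nat_lit 1988382030847) (nat_lit 11) (nat_lit 5) (nat_lit 13) (nat_lit 5) (nat_lit 12) (nat_lit 4) (nat_lit 354) (nat_lit 331) (nat_lit 215)) (XT.lf (nat_lit 0) (nat_lit 905893904503) (nat_lit 152) (nat_lit 1366700708868) (nat_lit 0) (nat_lit 304082114752) (nat_lit 10) (nat_lit 5) (nat_lit 12) (nat_lit 4) (nat_lit 10) (nat_lit 4) (nat_lit 355) (nat_lit 331) (nat_lit 214)))))) (XT.nd (nat_lit 390) (nat_lit 228) (nat_lit 0) (XT.nd (nat_lit 156) (nat_lit 152) (nat_lit 0) (XT.nd (nat_lit 78) (nat_lit 76) (nat_lit 0) (XT.lf (nat_lit 0) (nat_lit 1608851822277) (nat_lit 152) (nat_lit 248490910459) (nat_lit 0) (nat_lit 1007040026315) (nat_lit 10) (nat_lit 5) (nat_lit 12) (nat_lit 4) (nat_lit 10) (nat_lit 4) (nat_lit 356) (nat_lit 331) (nat_lit 213)) (XT.lf (nat_lit 0) (nat_lit 1138837523732) (nat_lit 76) (nat_lit 1325572724581)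 (nat_lit 76) (nat_lit 723760923217) (nat_lit 9) (nat_lit 4) (nat_lit 10) (nat_lit 5) (nat_lit 10) (nat_lit 4) (nat_lit 357) (nat_lit 331) (nat_lit 212))) (XT.nd (nat_lit 78) (nat_lit 152) (nat_lit 0) (XT.lf (nat_lit 0) (nat_lit 2762192188501) (nat_lit 76) (nat_lit 699099535306) (nat_lit 76) (nat_lit 97287729245) (nat_lit 9) (nat_lit 4) (nat_lit 10) (nat_lit 5) (nat_lit 10) (nat_lit 4) (nat_lit 358) (nat_lit 331) (nat_lit 211)) (XT.nd (nat_lit 78) (nat_lit 0) (nat_lit 0) (XT.lf (nat_lit 0) (nat_lit 599253098643) (nat_lit 152) (nat_lit 3300750707521) (nat_lit 0) (nat_lit 75938481125) (nat_lit 7) (nat_lit 5) (nat_lit 9) (nat_lit 4) (nat_lit 7) (nat_lit 4) (nat_lit 359) (nat_lit 331) (nat_lit 210)) (XT.lf (nat_lit 0) (nat_lit 1467216767069) (nat_lit 152) (nat_lit 2032560401772) (nat_lit 0) (nat_lit 943902146463) (nat_lit 7) (nat_lit 5) (nat_lit 9) (nat_lit 4) (nat_lit 7) (nat_lit 4) (nat_lit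 360) (nat_lit 331) (nat_lit 209))))) (XT.nd (nat_lit 234) (nat_lit 152) (nat_lit 0) (XT.nd (nat_lit 78) (nat_lit 76) (nat_lit 0) (XT.lf (nat_lit 0) (nat_lit 2465374976308) (nat_lit 152) (nat_lit 574141569615) (nat_lit 0) (nat_lit 1942060353017) (nat_lit 7) (nat_lit 5) (nat_lit 9) (nat_lit 4) (nat_lit 7) (nat_lit 4) (nat_lit 361) (nat_lit 331) (nat_lit 208)) (XT.nd (nat_lit 78) (nat_lit 0) (nat_lit 0) (XT.lf (nat_lit 0) (nat_lit 1210837168241) (nat_lit 76) (nat_lit 2452557925493) (nat_lit 76) (nat_lit 1929243299867) (nat_lit 6) (nat_lit 4) (nat_lit 7) (nat_lit 5) (nat_lit 7) (nat_lit 4) (nat_lit 362) (nat_lit 331) (nat_lit 207)) (XT.lf (nat_lit 0) (nat_lit 3328088383851) (nat_lit 76) (nat_lit 1743041782795) (nat_lit 76) (nat_lit 1219727155139) (nat_lit 6) (nat_lit 4) (nat_lit 7) (nat_lit 5) (nat_lit 7) (nat_lit 4) (nat_lit 363) (nat_lit 331) (nat_lit 206)))) (XT.nd (nat_lit 78) (nat_lit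 152) (nat_lit 0) (XT.lf (nat_lit 0) (nat_lit 5762927267760) (nat_lit 76) (nat_lit 927098225939) (nat_lit 76) (nat_lit 403783596516) (nat_lit 6) (nat_lit 4) (nat_lit 7) (nat_lit 5) (nat_lit 7) (nat_lit 4) (nat_lit 364) (nat_lit 331) (nat_lit 205)) (XT.nd (nat_lit 78) (nat_lit 0) (nat_lit 0) (XT.lf (nat_lit 0) (nat_lit 513417234688) (nat_lit 152) (nat_lit 7438136878326) (nat_lit 0) (nat_lit 58361033855) (nat_lit 4) (nat_lit 5) (nat_lit 6) (nat_lit 4) (nat_lit 4) (nat_lit 4) (nat_lit 365) (nat_lit 331) (nat_lit 204)) (XT.lf (nat_lit 0) (nat_lit 1643887593433) (nat_lit 152) (nat_lit 6210279585799) (nat_lit 0) (nat_lit 1188831391439) (nat_lit 4) (nat_lit 5) (nat_lit 6) (nat_lit 4) (nat_lit 4) (nat_lit 4) (nat_lit 366) (nat_lit 331) (nat_lit 203))))))) (XT.nd (nat_lit 858) (nat_lit 152) (nat_lit 0) (XT.nd (nat_lit 390) (nat_lit 0) (nat_lit 0) (XT.nd (nat_lit 156) (nat_lit 76) (nat_lit 0) (XT.nd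 (nat_lit 78) (nat_lit 0) (nat_lit 0) (XT.lf (nat_lit 0) (nat_lit 2943928500639) (nat_lit 152) (nat_lit 4798243710572) (nat_lit 0) (nat_lit 2488872297635) (nat_lit 4) (nat_lit 5) (nat_lit 6) (nat_lit 4) (nat_lit 4) (nat_lit 4) (nat_lit 367) (nat_lit 331) (nat_lit 202)) (XT.lf (nat_lit 0) (nat_lit 4438975539273) (nat_lit 152) (nat_lit 3174402463781) (nat_lit 0) (nat_lit 3983919335392) (nat_lit 4) (nat_lit 5) (nat_lit 6) (nat_lit 4) (nat_lit 4) (nat_lit 4) (nat_lit 368) (nat_lit 331) (nat_lit 201))) (XT.nd (nat_lit 78) (nat_lit 76) (nat_lit 0) (XT.lf (nat_lit 0) (nat_lit 6158279629657) (nat_lit 152) (nat_lit 1306985038424) (nat_lit 0) (nat_lit 5703223425013) (nat_lit 4) (nat_lit 5) (nat_lit 6) (nat_lit 4) (nat_lit 4) (nat_lit 4) (nat_lit 369) (nat_lit 331) (nat_lit 200)) (XT.nd (nat_lit 78) (nat_lit 0) (nat_lit 0) (XT.lf (nat_lit 0) (nat_lit 922689163194) (nat_lit 76) (nat_lit 7250996757495)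 (nat_lit 76) (nat_lit 6795940552186) (nat_lit 3) (nat_lit 4) (nat_lit 4) (nat_lit 5) (nat_lit 4) (nat_lit 4) (nat_lit 370) (nat_lit 331) (nat_lit 199)) (XT.lf (nat_lit 0) (nat_lit 3633701783835) (nat_lit 76) (nat_lit 6926021040654) (nat_lit 76) (nat_lit 6470964834768) (nat_lit 3) (nat_lit 4) (nat_lit 4) (nat_lit 5) (nat_lit 4) (nat_lit 4) (nat_lit 371) (nat_lit 331) (nat_lit 198))))) (XT.nd (nat_lit 234) (nat_lit 0) (nat_lit 0) (XT.nd (nat_lit 78) (nat_lit 0) (nat_lit 0) (XT.lf (nat_lit 0) (nat_lit 6751366291471) (nat_lit 76) (nat_lit 6552298969476) (nat_lit 76) (nat_lit 6097242763088) (nat_lit 3) (nat_lit 4) (nat_lit 4) (nat_lit 5) (nat_lit 4) (nat_lit 4) (nat_lit 372) (nat_lit 331) (nat_lit 197)) (XT.nd (nat_lit 78) (nat_lit 0) (nat_lit 0) (XT.lf (nat_lit 0) (nat_lit 10336680469948) (nat_lit 76) (nat_lit 6122518590392) (nat_lit 76) (nat_lit 5667462383568) (nat_lit 3) (nat_lit 4) (nat_lit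 4) (nat_lit 5) (nat_lit 4) (nat_lit 4) (nat_lit 373) (nat_lit 331) (nat_lit 196)) (XT.lf (nat_lit 0) (nat_lit 14459791770583) (nat_lit 76) (nat_lit 5628271156857) (nat_lit 76) (nat_lit 5173214949653) (nat_lit 3) (nat_lit 4) (nat_lit 4) (nat_lit 5) (nat_lit 4) (nat_lit 4) (nat_lit 374) (nat_lit 331) (nat_lit 195)))) (XT.nd (nat_lit 78) (nat_lit 0) (nat_lit 0) (XT.lf (nat_lit 0) (nat_lit 19201369762302) (nat_lit 76) (nat_lit 5059886610388) (nat_lit 76) (nat_lit 4604830402854) (nat_lit 3) (nat_lit 4) (nat_lit 4) (nat_lit 5) (nat_lit 4) (nat_lit 4) (nat_lit 375) (nat_lit 331) (nat_lit 194)) (XT.nd (nat_lit 78) (nat_lit 0) (nat_lit 0) (XT.lf (nat_lit 0) (nat_lit 24654184449291) (nat_lit 76) (nat_lit 4406244383772) (nat_lit 76) (nat_lit 3951188175951) (nat_lit 3) (nat_lit 4) (nat_lit 4) (nat_lit 5) (nat_lit 4) (nat_lit 4) (nat_lit 376) (nat_lit 331) (nat_lit 193)) (XT.lf (nat_lit 0) (nat_lit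 30924921336295) (nat_lit 76) (nat_lit 3654555824748) (nat_lit 76) (nat_lit 3199499616677) (nat_lit 3) (nat_lit 4) (nat_lit 4) (nat_lit 5) (nat_lit 4) (nat_lit 4) (nat_lit 377) (nat_lit 331) (nat_lit 192)))))) (XT.nd (nat_lit 468) (nat_lit 0) (nat_lit 0) (XT.nd (nat_lit 234) (nat_lit 152) (nat_lit 0) (XT.nd (nat_lit 78) (nat_lit 0) (nat_lit 0) (XT.lf (nat_lit 0) (nat_lit 38136268753711) (nat_lit 76) (nat_lit 2790113983248) (nat_lit 76) (nat_lit 2335057774961) (nat_lit 3) (nat_lit 4) (nat_lit 4) (nat_lit 5) (nat_lit 4) (nat_lit 4) (nat_lit 378) (nat_lit 331) (nat_lit 191)) (XT.nd (nat_lit 78) (nat_lit 0) (nat_lit 0) (XT.lf (nat_lit 0) (nat_lit 46429318281447) (nat_lit 76) (nat_lit 1796005866723) (nat_lit 76) (nat_lit 1340949658246) (nat_lit 3) (nat_lit 4) (nat_lit 4) (nat_lit 5) (nat_lit 4) (nat_lit 4) (nat_lit 379) (nat_lit 331) (nat_lit 190)) (XT.lf (nat_lit 0) (nat_lit 55966325236348)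 (nat_lit 76) (nat_lit 652781533760) (nat_lit 76) (nat_lit 197725325120) (nat_lit 3) (nat_lit 4) (nat_lit 4) (nat_lit 5) (nat_lit 4) (nat_lit 4) (nat_lit 380) (nat_lit 331) (nat_lit 189)))) (XT.nd (nat_lit 78) (nat_lit 0) (nat_lit 0) (XT.lf (nat_lit 0) (nat_lit 1129660056885) (nat_lit 152) (nat_lit 63267599446346) (nat_lit 0) (nat_lit 733959005770) (nat_lit 1) (nat_lit 5) (nat_lit 3) (nat_lit 4) (nat_lit 1) (nat_lit 4) (nat_lit 381) (nat_lit 331) (nat_lit 188)) (XT.nd (nat_lit 78) (nat_lit 0) (nat_lit 0) (XT.lf (nat_lit 0) (nat_lit 2713570148779) (nat_lit 152) (nat_lit 69648262283301) (nat_lit 0) (nat_lit 2317869097556) (nat_lit 1) (nat_lit 5) (nat_lit 3) (nat_lit 4) (nat_lit 1) (nat_lit 4) (nat_lit 382) (nat_lit 331) (nat_lit 187)) (XT.lf (nat_lit 0) (nat_lit 4535066753706) (nat_lit 152) (nat_lit 76986024547385) (nat_lit 0) (nat_lit 4139365702389) (nat_lit 1) (nat_lit 5) (nat_lit 3) (nat_lit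 4) (nat_lit 1) (nat_lit 4) (nat_lit 383) (nat_lit 331) (nat_lit 186))))) (XT.nd (nat_lit 234) (nat_lit 0) (nat_lit 0) (XT.nd (nat_lit 78) (nat_lit 0) (nat_lit 0) (XT.lf (nat_lit 0) (nat_lit 6629787848718) (nat_lit 152) (nat_lit 85424451152460) (nat_lit 0) (nat_lit 6234086797319) (nat_lit 1) (nat_lit 5) (nat_lit 3) (nat_lit 4) (nat_lit 1) (nat_lit 4) (nat_lit 384) (nat_lit 331) (nat_lit 185)) (XT.nd (nat_lit 78) (nat_lit 0) (nat_lit 0) (XT.lf (nat_lit 0) (nat_lit 9038717107414) (nat_lit 152) (nat_lit 95128641749494) (nat_lit 0) (nat_lit 8643016055945) (nat_lit 1) (nat_lit 5) (nat_lit 3) (nat_lit 4) (nat_lit 1) (nat_lit 4) (nat_lit 385) (nat_lit 331) (nat_lit 184)) (XT.lf (nat_lit 0) (nat_lit 11808985754421) (nat_lit 152) (nat_lit 106288460937125) (nat_lit 0) (nat_lit 11413284702890) (nat_lit 1) (nat_lit 5) (nat_lit 3) (nat_lit 4) (nat_lit 1) (nat_lit 4) (nat_lit 386) (nat_lit 331) (nat_lit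 183)))) (XT.nd (nat_lit 234) (nat_lit 0) (nat_lit 0) (XT.lf (nat_lit 0) (nat_lit 14994794698049) (nat_lit 152) (nat_lit 119122253003808) (nat_lit 0) (nat_lit 14599093646464) (nat_lit 1) (nat_lit 5) (nat_lit 3) (nat_lit 4) (nat_lit 1) (nat_lit 4) (nat_lit 387) (nat_lit 331) (nat_lit 182)) (XT.nd (nat_lit 78) (nat_lit 0) (nat_lit 0) (XT.lf (nat_lit 0) (nat_lit 27716924486033) (nat_lit 152) (nat_lit 170372397402902) (nat_lit 0) (nat_lit 27321223434325) (nat_lit 1) (nat_lit 5) (nat_lit 3) (nat_lit 4) (nat_lit 1) (nat_lit 4) (nat_lit 390) (nat_lit 331) (nat_lit 179)) (XT.lf (nat_lit 0) (nat_lit 33288924238176) (nat_lit 152) (nat_lit 192818779942037) (nat_lit 0) (nat_lit 32893223186439) (nat_lit 1) (nat_lit 5) (nat_lit 3) (nat_lit 4) (nat_lit 1) (nat_lit 4) (nat_lit 391) (nat_lit 331) (nat_lit 178))))))))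
noncomputable def xc100 : XT := (XT.nd (nat_lit 43680) (nat_lit 0) (nat_lit 152) (XT.nd (nat_lit 42822) (nat_lit 0) (nat_lit 1064) (XT.nd (nat_lit 42354) (nat_lit 0) (nat_lit 1748) (XT.nd (nat_lit 156) (nat_lit 0) (nat_lit 0) (XT.nd (nat_lit 78) (nat_lit 0) (nat_lit 0) (XT.lf (nat_lit 0) (nat_lit 39696723952928) (nat_lit 152) (nat_lit 218632119862495) (nat_lit 0) (nat_lit 39301022901164) (nat_lit 1) (nat_lit 5) (nat_lit 3) (nat_lit 4) (nat_lit 1) (nat_lit 4) (nat_lit 392) (nat_lit 331) (nat_lit 177)) (XT.lf (nat_lit 0) (nat_lit 47065693624707) (nat_lit 152) (nat_lit 248317460771413) (nat_lit 0) (nat_lit 46669992572919) (nat_lit 1) (nat_lit 5) (nat_lit 3) (nat_lit 4) (nat_lit 1) (nat_lit 4) (nat_lit 393) (nat_lit 331) (nat_lit 176))) (XT.nd (nat_lit 42042) (nat_lit 0) (nat_lit 2052) (XT.lf (nat_lit 0) (nat_lit 55540008747091) (nat_lit 152) (nat_lit 282455602817008) (nat_lit 0) (nat_lit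 55144307695283) (nat_lit 1) (nat_lit 5) (nat_lit 3) (nat_lit 4) (nat_lit 1) (nat_lit 4) (nat_lit 394) (nat_lit 331) (nat_lit 175)) (XT.nd (nat_lit 78) (nat_lit 0) (nat_lit 0) (XT.lf (nat_lit 0) (nat_lit 42984500879) (nat_lit 380) (nat_lit 67366549937) (nat_lit 380) (nat_lit 67366549937) (nat_lit 28) (nat_lit 3) (nat_lit 33) (nat_lit 3) (nat_lit 33) (nat_lit 5) (nat_lit 332) (nat_lit 332) (nat_lit 236)) (XT.lf (nat_lit 76) (nat_lit 41452412249) (nat_lit 0) (nat_lit 52681196761) (nat_lit 380) (nat_lit 287701692000) (nat_lit 29) (nat_lit 5) (nat_lit 28) (nat_lit 3) (nat_lit 33) (nat_lit 5) (nat_lit 333) (nat_lit 332) (nat_lit 235))))) (XT.nd (nat_lit 234) (nat_lit 380) (nat_lit 0) (XT.nd (nat_lit 78) (nat_lit 0) (nat_lit 0) (XT.lf (nat_lit 0) (nat_lit 116720642376) (nat_lit 304) (nat_lit 158086093317) (nat_lit 380) (nat_lit 135409019631) (nat_lit 29) (nat_lit 5) (nat_lit 33) (nat_lit 5) (nat_lit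 34) (nat_lit 5) (nat_lit 334) (nat_lit 332) (nat_lit 234)) (XT.nd (nat_lit 78) (nat_lit 0) (nat_lit 76) (XT.lf (nat_lit 76) (nat_lit 53839717737) (nat_lit 0) (nat_lit 93593954880) (nat_lit 380) (nat_lit 294708914009) (nat_lit 30) (nat_lit 5) (nat_lit 29) (nat_lit 5) (nat_lit 34) (nat_lit 5) (nat_lit 335) (nat_lit 332) (nat_lit 233)) (XT.lf (nat_lit 0) (nat_lit 196164340296) (nat_lit 304) (nat_lit 167445007801) (nat_lit 76) (nat_lit 113237492199) (nat_lit 30) (nat_lit 5) (nat_lit 34) (nat_lit 5) (nat_lit 31) (nat_lit 5) (nat_lit 336) (nat_lit 332) (nat_lit 232)))) (XT.nd (nat_lit 78) (nat_lit 152) (nat_lit 0) (XT.lf (nat_lit 0) (nat_lit 90106524989) (nat_lit 304) (nat_lit 170285999228) (nat_lit 380) (nat_lit 255136020480) (nat_lit 26) (nat_lit 5) (nat_lit 30) (nat_lit 5) (nat_lit 31) (nat_lit 5) (nat_lit 337) (nat_lit 332) (nat_lit 231)) (XT.nd (nat_lit 78) (nat_lit 152) (nat_lit 0) (XT.lf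 (nat_lit 0) (nat_lit 345579184134) (nat_lit 380) (nat_lit 156161818068) (nat_lit 76) (nat_lit 56572865376) (nat_lit 26) (nat_lit 5) (nat_lit 31) (nat_lit 5) (nat_lit 27) (nat_lit 5) (nat_lit 338) (nat_lit 332) (nat_lit 230)) (XT.lf (nat_lit 0) (nat_lit 159585945843) (nat_lit 152) (nat_lit 298674822062) (nat_lit 228) (nat_lit 147048682323) (nat_lit 24) (nat_lit 5) (nat_lit 26) (nat_lit 5) (nat_lit 27) (nat_lit 5) (nat_lit 339) (nat_lit 332) (nat_lit 229)))))) (XT.nd (nat_lit 390) (nat_lit 304) (nat_lit 0) (XT.nd (nat_lit 156) (nat_lit 228) (nat_lit 0) (XT.nd (nat_lit 78) (nat_lit 152) (nat_lit 0) (XT.lf (nat_lit 0) (nat_lit 540246280405) (nat_lit 152) (nat_lit 55761270834) (nat_lit 228) (nat_lit 62122374802) (nat_lit 24) (nat_lit 5) (nat_lit 26) (nat_lit 5) (nat_lit 27) (nat_lit 5) (nat_lit 340) (nat_lit 332) (nat_lit 228)) (XT.lf (nat_lit 0) (nat_lit 53976549560) (nat_lit 152) (nat_lit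 443941252320) (nat_lit 76) (nat_lit 217495216632) (nat_lit 22) (nat_lit 5) (nat_lit 24) (nat_lit 5) (nat_lit 23) (nat_lit 5) (nat_lit 341) (nat_lit 332) (nat_lit 227))) (XT.nd (nat_lit 78) (nat_lit 228) (nat_lit 0) (XT.lf (nat_lit 0) (nat_lit 190240960385) (nat_lit 152) (nat_lit 53792248405) (nat_lit 76) (nat_lit 535445015499) (nat_lit 22) (nat_lit 5) (nat_lit 24) (nat_lit 5) (nat_lit 23) (nat_lit 5) (nat_lit 342) (nat_lit 332) (nat_lit 226)) (XT.nd (nat_lit 78) (nat_lit 76) (nat_lit 0) (XT.lf (nat_lit 0) (nat_lit 367733613586) (nat_lit 228) (nat_lit 419830907904) (nat_lit 76) (nat_lit 62470402367) (nat_lit 20) (nat_lit 5) (nat_lit 23) (nat_lit 5) (nat_lit 21) (nat_lit 4) (nat_lit 343) (nat_lit 332) (nat_lit 225)) (XT.lf (nat_lit 0) (nat_lit 55256640542) (nat_lit 76) (nat_lit 533447949318) (nat_lit 152) (nat_lit 339942374765) (nat_lit 19) (nat_lit 5) (nat_lit 20) (nat_lit 5) (nat_lit 21)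 (nat_lit 4) (nat_lit 344) (nat_lit 332) (nat_lit 224))))) (XT.nd (nat_lit 234) (nat_lit 152) (nat_lit 0) (XT.nd (nat_lit 78) (nat_lit 152) (nat_lit 0) (XT.lf (nat_lit 0) (nat_lit 648790545293) (nat_lit 76) (nat_lit 215976346290) (nat_lit 152) (nat_lit 150992068101) (nat_lit 19) (nat_lit 5) (nat_lit 20) (nat_lit 5) (nat_lit 21) (nat_lit 4) (nat_lit 345) (nat_lit 332) (nat_lit 223)) (XT.nd (nat_lit 78) (nat_lit 0) (nat_lit 0) (XT.lf (nat_lit 0) (nat_lit 76830719903) (nat_lit 152) (nat_lit 887386395538) (nat_lit 76) (nat_lit 148843959017) (nat_lit 17) (nat_lit 5) (nat_lit 19) (nat_lit 5) (nat_lit 18) (nat_lit 4) (nat_lit 346) (nat_lit 332) (nat_lit 222)) (XT.lf (nat_lit 0) (nat_lit 353748667497) (nat_lit 152) (nat_lit 292012837110) (nat_lit 76) (nat_lit 573561419117) (nat_lit 17) (nat_lit 5) (nat_lit 19) (nat_lit 5) (nat_lit 18) (nat_lit 4) (nat_lit 347) (nat_lit 332) (nat_lit 221)))) (XT.nd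 (nat_lit 78) (nat_lit 76) (nat_lit 0) (XT.lf (nat_lit 0) (nat_lit 431040965466) (nat_lit 76) (nat_lit 259011807940) (nat_lit 152) (nat_lit 648794007062) (nat_lit 16) (nat_lit 5) (nat_lit 17) (nat_lit 5) (nat_lit 18) (nat_lit 4) (nat_lit 348) (nat_lit 332) (nat_lit 220)) (XT.nd (nat_lit 78) (nat_lit 76) (nat_lit 0) (XT.lf (nat_lit 0) (nat_lit 1100485179600) (nat_lit 152) (nat_lit 187056905366) (nat_lit 0) (nat_lit 185204728113) (nat_lit 16) (nat_lit 5) (nat_lit 18) (nat_lit 4) (nat_lit 16) (nat_lit 4) (nat_lit 349) (nat_lit 332) (nat_lit 219)) (XT.lf (nat_lit 0) (nat_lit 690986838977) (nat_lit 76) (nat_lit 922441777110) (nat_lit 76) (nat_lit 7161309099) (nat_lit 15) (nat_lit 4) (nat_lit 16) (nat_lit 5) (nat_lit 16) (nat_lit 4) (nat_lit 350) (nat_lit 332) (nat_lit 218))))))) (XT.nd (nat_lit 858) (nat_lit 304) (nat_lit 0) (XT.nd (nat_lit 390) (nat_lit 304) (nat_lit 0) (XT.nd (nat_lit 156)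 (nat_lit 152) (nat_lit 0) (XT.nd (nat_lit 78) (nat_lit 76) (nat_lit 0) (XT.lf (nat_lit 0) (nat_lit 386205869197) (nat_lit 152) (nat_lit 84937863605) (nat_lit 76) (nat_lit 1315365855801) (nat_lit 14) (nat_lit 5) (nat_lit 16) (nat_lit 5) (nat_lit 15) (nat_lit 4) (nat_lit 351) (nat_lit 332) (nat_lit 217)) (XT.lf (nat_lit 0) (nat_lit 882037067550) (nat_lit 152) (nat_lit 1002459177984) (nat_lit 0) (nat_lit 86140985052) (nat_lit 13) (nat_lit 5) (nat_lit 15) (nat_lit 4) (nat_lit 13) (nat_lit 4) (nat_lit 352) (nat_lit 332) (nat_lit 216))) (XT.nd (nat_lit 78) (nat_lit 152) (nat_lit 0) (XT.lf (nat_lit 0) (nat_lit 1479329705788) (nat_lit 152) (nat_lit 15557685223) (nat_lit 0) (nat_lit 683433613842) (nat_lit 13) (nat_lit 5) (nat_lit 15) (nat_lit 4) (nat_lit 13) (nat_lit 4) (nat_lit 353) (nat_lit 332) (nat_lit 215)) (XT.nd (nat_lit 78) (nat_lit 76) (nat_lit 0) (XT.lf (nat_lit 0) (nat_lit 1228772863640)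 (nat_lit 76) (nat_lit 988324227072) (nat_lit 76) (nat_lit 192428126911) (nat_lit 12) (nat_lit 4) (nat_lit 13) (nat_lit 5) (nat_lit 13) (nat_lit 4) (nat_lit 354) (nat_lit 332) (nat_lit 214)) (XT.lf (nat_lit 0) (nat_lit 356240339192) (nat_lit 152) (nat_lit 29979378039) (nat_lit 76) (nat_lit 2286639449125) (nat_lit 11) (nat_lit 5) (nat_lit 13) (nat_lit 5) (nat_lit 12) (nat_lit 4) (nat_lit 355) (nat_lit 332) (nat_lit 213))))) (XT.nd (nat_lit 234) (nat_lit 152) (nat_lit 0) (XT.nd (nat_lit 78) (nat_lit 76) (nat_lit 0) (XT.lf (nat_lit 0) (nat_lit 1041778126760) (nat_lit 152) (nat_lit 1571705540264) (nat_lit 0) (nat_lit 349694549791) (nat_lit 10) (nat_lit 5) (nat_lit 12) (nat_lit 4) (nat_lit 10) (nat_lit 4) (nat_lit 356) (nat_lit 332) (nat_lit 212)) (XT.nd (nat_lit 78) (nat_lit 76) (nat_lit 0) (XT.lf (nat_lit 0) (nat_lit 1850179714385) (nat_lit 152) (nat_lit 285764307954) (nat_lit 0) (nat_lit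 1158096132719) (nat_lit 10) (nat_lit 5) (nat_lit 12) (nat_lit 4) (nat_lit 10) (nat_lit 4) (nat_lit 357) (nat_lit 332) (nat_lit 211)) (XT.lf (nat_lit 0) (nat_lit 1309663380498) (nat_lit 76) (nat_lit 1524408517787) (nat_lit 76) (nat_lit 832324932036) (nat_lit 9) (nat_lit 4) (nat_lit 10) (nat_lit 5) (nat_lit 10) (nat_lit 4) (nat_lit 358) (nat_lit 332) (nat_lit 210)))) (XT.nd (nat_lit 78) (nat_lit 152) (nat_lit 0) (XT.lf (nat_lit 0) (nat_lit 3176521215217) (nat_lit 76) (nat_lit 803964365183) (nat_lit 76) (nat_lit 111880775880) (nat_lit 9) (nat_lit 4) (nat_lit 10) (nat_lit 5) (nat_lit 10) (nat_lit 4) (nat_lit 359) (nat_lit 332) (nat_lit 209)) (XT.nd (nat_lit 78) (nat_lit 0) (nat_lit 0) (XT.lf (nat_lit 0) (nat_lit 689141165198) (nat_lit 152) (nat_lit 3795863104173) (nat_lit 0) (nat_lit 87329345728) (nat_lit 7) (nat_lit 5) (nat_lit 9) (nat_lit 4) (nat_lit 7) (nat_lit 4) (nat_lit 360) (nat_lit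 332) (nat_lit 208)) (XT.lf (nat_lit 0) (nat_lit 1687299370615) (nat_lit 152) (nat_lit 2337444279885) (nat_lit 0) (nat_lit 1085487548810) (nat_lit 7) (nat_lit 5) (nat_lit 9) (nat_lit 4) (nat_lit 7) (nat_lit 4) (nat_lit 361) (nat_lit 332) (nat_lit 207)))))) (XT.nd (nat_lit 390) (nat_lit 76) (nat_lit 0) (XT.nd (nat_lit 156) (nat_lit 152) (nat_lit 0) (XT.nd (nat_lit 78) (nat_lit 76) (nat_lit 0) (XT.lf (nat_lit 0) (nat_lit 2835181299698) (nat_lit 152) (nat_lit 660262646663) (nat_lit 0) (nat_lit 2233369475862) (nat_lit 7) (nat_lit 5) (nat_lit 9) (nat_lit 4) (nat_lit 7) (nat_lit 4) (nat_lit 362) (nat_lit 332) (nat_lit 206)) (XT.lf (nat_lit 0) (nat_lit 1392462894672) (nat_lit 76) (nat_lit 2820441536292) (nat_lit 76) (nat_lit 2218629710690) (nat_lit 6) (nat_lit 4) (nat_lit 7) (nat_lit 5) (nat_lit 7) (nat_lit 4) (nat_lit 363) (nat_lit 332) (nat_lit 205))) (XT.nd (nat_lit 78) (nat_lit 152) (nat_lit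 0) (XT.lf (nat_lit 0) (nat_lit 3827301772902) (nat_lit 76) (nat_lit 2004497982366) (nat_lit 76) (nat_lit 1402686155229) (nat_lit 6) (nat_lit 4) (nat_lit 7) (nat_lit 5) (nat_lit 7) (nat_lit 4) (nat_lit 364) (nat_lit 332) (nat_lit 204)) (XT.nd (nat_lit 78) (nat_lit 152) (nat_lit 0) (XT.lf (nat_lit 0) (nat_lit 6627366472248) (nat_lit 76) (nat_lit 1066162900831) (nat_lit 76) (nat_lit 464351072359) (nat_lit 6) (nat_lit 4) (nat_lit 7) (nat_lit 5) (nat_lit 7) (nat_lit 4) (nat_lit 365) (nat_lit 332) (nat_lit 203)) (XT.lf (nat_lit 0) (nat_lit 590429877502) (nat_lit 152) (nat_lit 8553857289710) (nat_lit 0) (nat_lit 67115243038) (nat_lit 4) (nat_lit 5) (nat_lit 6) (nat_lit 4) (nat_lit 4) (nat_lit 4) (nat_lit 366) (nat_lit 332) (nat_lit 202))))) (XT.nd (nat_lit 234) (nat_lit 76) (nat_lit 0) (XT.nd (nat_lit 78) (nat_lit 0) (nat_lit 0) (XT.lf (nat_lit 0) (nat_lit 1890470782544) (nat_lit 152) (nat_lit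 7141821419004) (nat_lit 0) (nat_lit 1367156147202) (nat_lit 4) (nat_lit 5) (nat_lit 6) (nat_lit 4) (nat_lit 4) (nat_lit 4) (nat_lit 367) (nat_lit 332) (nat_lit 201)) (XT.nd (nat_lit 78) (nat_lit 0) (nat_lit 0) (XT.lf (nat_lit 0) (nat_lit 3385517819297) (nat_lit 152) (nat_lit 5517980176144) (nat_lit 0) (nat_lit 2862203183192) (nat_lit 4) (nat_lit 5) (nat_lit 6) (nat_lit 4) (nat_lit 4) (nat_lit 4) (nat_lit 368) (nat_lit 332) (nat_lit 200)) (XT.lf (nat_lit 0) (nat_lit 5104821908045) (nat_lit 152) (nat_lit 3650562754206) (nat_lit 0) (nat_lit 4581507271276) (nat_lit 4) (nat_lit 5) (nat_lit 6) (nat_lit 4) (nat_lit 4) (nat_lit 4) (nat_lit 369) (nat_lit 332) (nat_lit 199)))) (XT.nd (nat_lit 78) (nat_lit 76) (nat_lit 0) (XT.lf (nat_lit 0) (nat_lit 7082021607045) (nat_lit 152) (nat_lit 1503032725368) (nat_lit 0) (nat_lit 6558706969699) (nat_lit 4) (nat_lit 5) (nat_lit 6) (nat_lit 4) (nat_lit 4)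 (nat_lit 4) (nat_lit 370) (nat_lit 332) (nat_lit 198)) (XT.nd (nat_lit 78) (nat_lit 0) (nat_lit 0) (XT.lf (nat_lit 0) (nat_lit 1061092603364) (nat_lit 76) (nat_lit 8338646236791) (nat_lit 76) (nat_lit 7815331598943) (nat_lit 3) (nat_lit 4) (nat_lit 4) (nat_lit 5) (nat_lit 4) (nat_lit 4) (nat_lit 371) (nat_lit 332) (nat_lit 197)) (XT.lf (nat_lit 0) (nat_lit 4178757108533) (nat_lit 76) (nat_lit 7964924166902) (nat_lit 76) (nat_lit 7441609528618) (nat_lit 3) (nat_lit 4) (nat_lit 4) (nat_lit 5) (nat_lit 4) (nat_lit 4) (nat_lit 372) (nat_lit 332) (nat_lit 196))))))))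
noncomputable def xc101 : XT := (XT.nd (nat_lit 43992) (nat_lit 0) (nat_lit 684) (XT.nd (nat_lit 858) (nat_lit 0) (nat_lit 0) (XT.nd (nat_lit 390) (nat_lit 152) (nat_lit 0) (XT.nd (nat_lit 156) (nat_lit 0) (nat_lit 0) (XT.nd (nat_lit 78) (nat_lit 0) (nat_lit 0) (XT.lf (nat_lit 0) (nat_lit 7764071284864) (nat_lit 76) (nat_lit 7535143788940) (nat_lit 76) (nat_lit 7011829150276) (nat_lit 3) (nat_lit 4) (nat_lit 4) (nat_lit 5) (nat_lit 4) (nat_lit 4) (nat_lit 373) (nat_lit 332) (nat_lit 195)) (XT.lf (nat_lit 0) (nat_lit 11887182583633) (nat_lit 76) (nat_lit 7040896356380) (nat_lit 76) (nat_lit 6517581717386) (nat_lit 3) (nat_lit 4) (nat_lit 4) (nat_lit 5) (nat_lit 4) (nat_lit 4) (nat_lit 374) (nat_lit 332) (nat_lit 194))) (XT.nd (nat_lit 78) (nat_lit 0) (nat_lit 0) (XT.lf (nat_lit 0) (nat_lit 16628760573730) (nat_lit 76) (nat_lit 6472511810759) (nat_lit 76) (nat_lit 5949197171478) (nat_lit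 3) (nat_lit 4) (nat_lit 4) (nat_lit 5) (nat_lit 4) (nat_lit 4) (nat_lit 375) (nat_lit 332) (nat_lit 193)) (XT.nd (nat_lit 78) (nat_lit 0) (nat_lit 0) (XT.lf (nat_lit 0) (nat_lit 22081575259308) (nat_lit 76) (nat_lit 5818869584879) (nat_lit 76) (nat_lit 5295554945349) (nat_lit 3) (nat_lit 4) (nat_lit 4) (nat_lit 5) (nat_lit 4) (nat_lit 4) (nat_lit 376) (nat_lit 332) (nat_lit 192)) (XT.lf (nat_lit 0) (nat_lit 28352312145085) (nat_lit 76) (nat_lit 5067181026496) (nat_lit 76) (nat_lit 4543866386749) (nat_lit 3) (nat_lit 4) (nat_lit 4) (nat_lit 5) (nat_lit 4) (nat_lit 4) (nat_lit 377) (nat_lit 332) (nat_lit 191))))) (XT.nd (nat_lit 234) (nat_lit 152) (nat_lit 0) (XT.nd (nat_lit 78) (nat_lit 0) (nat_lit 0) (XT.lf (nat_lit 0) (nat_lit 35563659561434) (nat_lit 76) (nat_lit 4202739185555) (nat_lit 76) (nat_lit 3679424545618) (nat_lit 3) (nat_lit 4) (nat_lit 4) (nat_lit 5) (nat_lit 4) (nat_lit 4)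 (nat_lit 378) (nat_lit 332) (nat_lit 190)) (XT.nd (nat_lit 78) (nat_lit 0) (nat_lit 0) (XT.lf (nat_lit 0) (nat_lit 43856709088242) (nat_lit 76) (nat_lit 3208631069514) (nat_lit 76) (nat_lit 2685316429413) (nat_lit 3) (nat_lit 4) (nat_lit 4) (nat_lit 5) (nat_lit 4) (nat_lit 4) (nat_lit 379) (nat_lit 332) (nat_lit 189)) (XT.lf (nat_lit 0) (nat_lit 53393716042337) (nat_lit 76) (nat_lit 2065406736973) (nat_lit 76) (nat_lit 1542092096730) (nat_lit 3) (nat_lit 4) (nat_lit 4) (nat_lit 5) (nat_lit 4) (nat_lit 4) (nat_lit 380) (nat_lit 332) (nat_lit 188)))) (XT.nd (nat_lit 78) (nat_lit 152) (nat_lit 0) (XT.lf (nat_lit 0) (nat_lit 64361274038038) (nat_lit 76) (nat_lit 750698755339) (nat_lit 76) (nat_lit 227384114972) (nat_lit 3) (nat_lit 4) (nat_lit 4) (nat_lit 5) (nat_lit 4) (nat_lit 4) (nat_lit 381) (nat_lit 332) (nat_lit 187)) (XT.nd (nat_lit 78) (nat_lit 0) (nat_lit 0) (XT.lf (nat_lit 0) (nat_lit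 1299109073507) (nat_lit 152) (nat_lit 72757739346232) (nat_lit 0) (nat_lit 844052864399) (nat_lit 1) (nat_lit 5) (nat_lit 3) (nat_lit 4) (nat_lit 1) (nat_lit 4) (nat_lit 382) (nat_lit 332) (nat_lit 186)) (XT.lf (nat_lit 0) (nat_lit 3120605678130) (nat_lit 152) (nat_lit 80095501610956) (nat_lit 0) (nat_lit 2665549468940) (nat_lit 1) (nat_lit 5) (nat_lit 3) (nat_lit 4) (nat_lit 1) (nat_lit 4) (nat_lit 383) (nat_lit 332) (nat_lit 185)))))) (XT.nd (nat_lit 546) (nat_lit 0) (nat_lit 0) (XT.nd (nat_lit 156) (nat_lit 0) (nat_lit 0) (XT.nd (nat_lit 78) (nat_lit 0) (nat_lit 0) (XT.lf (nat_lit 0) (nat_lit 5215326772878) (nat_lit 152) (nat_lit 88533928216588) (nat_lit 0) (nat_lit 4760270563617) (nat_lit 1) (nat_lit 5) (nat_lit 3) (nat_lit 4) (nat_lit 1) (nat_lit 4) (nat_lit 384) (nat_lit 332) (nat_lit 184)) (XT.lf (nat_lit 0) (nat_lit 7624256031345) (nat_lit 152) (nat_lit 98238118814107) (nat_lit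 0) (nat_lit 7169199822022) (nat_lit 1) (nat_lit 5) (nat_lit 3) (nat_lit 4) (nat_lit 1) (nat_lit 4) (nat_lit 385) (nat_lit 332) (nat_lit 183))) (XT.nd (nat_lit 78) (nat_lit 0) (nat_lit 0) (XT.lf (nat_lit 0) (nat_lit 10394524678152) (nat_lit 152) (nat_lit 109397938002160) (nat_lit 0) (nat_lit 9939468468775) (nat_lit 1) (nat_lit 5) (nat_lit 3) (nat_lit 4) (nat_lit 1) (nat_lit 4) (nat_lit 386) (nat_lit 332) (nat_lit 182)) (XT.nd (nat_lit 234) (nat_lit 0) (nat_lit 0) (XT.lf (nat_lit 0) (nat_lit 13580333621606) (nat_lit 152) (nat_lit 122231730069209) (nat_lit 0) (nat_lit 13125277412183) (nat_lit 1) (nat_lit 5) (nat_lit 3) (nat_lit 4) (nat_lit 1) (nat_lit 4) (nat_lit 387) (nat_lit 332) (nat_lit 181)) (XT.lf (nat_lit 0) (nat_lit 26302463409193) (nat_lit 152) (nat_lit 173481874469140) (nat_lit 0) (nat_lit 25847407199664) (nat_lit 1) (nat_lit 5) (nat_lit 3) (nat_lit 4) (nat_lit 1) (nat_lit 4) (nat_lit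 390) (nat_lit 332) (nat_lit 178))))) (XT.nd (nat_lit 42354) (nat_lit 0) (nat_lit 2052) (XT.nd (nat_lit 78) (nat_lit 0) (nat_lit 0) (XT.lf (nat_lit 0) (nat_lit 31874463161237) (nat_lit 152) (nat_lit 195928257008485) (nat_lit 0) (nat_lit 31419406951681) (nat_lit 1) (nat_lit 5) (nat_lit 3) (nat_lit 4) (nat_lit 1) (nat_lit 4) (nat_lit 391) (nat_lit 332) (nat_lit 177)) (XT.nd (nat_lit 78) (nat_lit 0) (nat_lit 0) (XT.lf (nat_lit 0) (nat_lit 38282262875903) (nat_lit 152) (nat_lit 221741596929125) (nat_lit 0) (nat_lit 37827206666323) (nat_lit 1) (nat_lit 5) (nat_lit 3) (nat_lit 4) (nat_lit 1) (nat_lit 4) (nat_lit 392) (nat_lit 332) (nat_lit 176)) (XT.lf (nat_lit 0) (nat_lit 45651232547606) (nat_lit 152) (nat_lit 251426937838201) (nat_lit 0) (nat_lit 45196176338006) (nat_lit 1) (nat_lit 5) (nat_lit 3) (nat_lit 4) (nat_lit 1) (nat_lit 4) (nat_lit 393) (nat_lit 332) (nat_lit 175)))) (XT.nd (nat_lit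 78) (nat_lit 0) (nat_lit 0) (XT.lf (nat_lit 0) (nat_lit 49432632421) (nat_lit 380) (nat_lit 77471269611) (nat_lit 380) (nat_lit 77471269611) (nat_lit 28) (nat_lit 3) (nat_lit 33) (nat_lit 3) (nat_lit 33) (nat_lit 5) (nat_lit 333) (nat_lit 333) (nat_lit 234)) (XT.nd (nat_lit 78) (nat_lit 0) (nat_lit 76) (XT.lf (nat_lit 76) (nat_lit 47670775827) (nat_lit 0) (nat_lit 60583689067) (nat_lit 380) (nat_lit 330856007763) (nat_lit 29) (nat_lit 5) (nat_lit 28) (nat_lit 3) (nat_lit 33) (nat_lit 5) (nat_lit 334) (nat_lit 333) (nat_lit 233)) (XT.lf (nat_lit 0) (nat_lit 134229435760) (nat_lit 304) (nat_lit 181798452360) (nat_lit 380) (nat_lit 155720124797) (nat_lit 29) (nat_lit 5) (nat_lit 33) (nat_lit 5) (nat_lit 34) (nat_lit 5) (nat_lit 335) (nat_lit 333) (nat_lit 232))))))) (XT.nd (nat_lit 858) (nat_lit 684) (nat_lit 0) (XT.nd (nat_lit 390) (nat_lit 380) (nat_lit 0) (XT.nd (nat_lit 156) (nat_lit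 380) (nat_lit 0) (XT.nd (nat_lit 78) (nat_lit 0) (nat_lit 76) (XT.lf (nat_lit 76) (nat_lit 61916205127) (nat_lit 0) (nat_lit 107633146428) (nat_lit 380) (nat_lit 338914527857) (nat_lit 30) (nat_lit 5) (nat_lit 29) (nat_lit 5) (nat_lit 34) (nat_lit 5) (nat_lit 336) (nat_lit 333) (nat_lit 231)) (XT.lf (nat_lit 0) (nat_lit 225589533927) (nat_lit 304) (nat_lit 192561212008) (nat_lit 76) (nat_lit 130223038148) (nat_lit 30) (nat_lit 5) (nat_lit 34) (nat_lit 5) (nat_lit 31) (nat_lit 5) (nat_lit 337) (nat_lit 333) (nat_lit 230))) (XT.nd (nat_lit 78) (nat_lit 152) (nat_lit 0) (XT.lf (nat_lit 0) (nat_lit 103623025839) (nat_lit 304) (nat_lit 195828870444) (nat_lit 380) (nat_lit 293405855346) (nat_lit 26) (nat_lit 5) (nat_lit 30) (nat_lit 5) (nat_lit 31) (nat_lit 5) (nat_lit 338) (nat_lit 333) (nat_lit 229)) (XT.nd (nat_lit 78) (nat_lit 152) (nat_lit 0) (XT.lf (nat_lit 0) (nat_lit 397416491858) (nat_lit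 380) (nat_lit 179585572789) (nat_lit 76) (nat_lit 65058817892) (nat_lit 26) (nat_lit 5) (nat_lit 31) (nat_lit 5) (nat_lit 27) (nat_lit 5) (nat_lit 339) (nat_lit 333) (nat_lit 228)) (XT.lf (nat_lit 0) (nat_lit 183524332163) (nat_lit 152) (nat_lit 343475945406) (nat_lit 228) (nat_lit 169105530450) (nat_lit 24) (nat_lit 5) (nat_lit 26) (nat_lit 5) (nat_lit 27) (nat_lit 5) (nat_lit 340) (nat_lit 333) (nat_lit 227))))) (XT.nd (nat_lit 234) (nat_lit 228) (nat_lit 0) (XT.nd (nat_lit 78) (nat_lit 152) (nat_lit 0) (XT.lf (nat_lit 0) (nat_lit 621283652417) (nat_lit 152) (nat_lit 64125374532) (nat_lit 228) (nat_lit 71440336047) (nat_lit 24) (nat_lit 5) (nat_lit 26) (nat_lit 5) (nat_lit 27) (nat_lit 5) (nat_lit 341) (nat_lit 333) (nat_lit 226)) (XT.nd (nat_lit 78) (nat_lit 0) (nat_lit 0) (XT.lf (nat_lit 0) (nat_lit 62073367959) (nat_lit 152) (nat_lit 510531950397) (nat_lit 76) (nat_lit 250119602162)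 (nat_lit 22) (nat_lit 5) (nat_lit 24) (nat_lit 5) (nat_lit 23) (nat_lit 5) (nat_lit 342) (nat_lit 333) (nat_lit 225)) (XT.lf (nat_lit 0) (nat_lit 218777396587) (nat_lit 152) (nat_lit 61860659778) (nat_lit 76) (nat_lit 615761857420) (nat_lit 22) (nat_lit 5) (nat_lit 24) (nat_lit 5) (nat_lit 23) (nat_lit 5) (nat_lit 343) (nat_lit 333) (nat_lit 224)))) (XT.nd (nat_lit 78) (nat_lit 76) (nat_lit 0) (XT.lf (nat_lit 0) (nat_lit 422893932113) (nat_lit 228) (nat_lit 482805102261) (nat_lit 76) (nat_lit 71841086304) (nat_lit 20) (nat_lit 5) (nat_lit 23) (nat_lit 5) (nat_lit 21) (nat_lit 4) (nat_lit 344) (nat_lit 333) (nat_lit 223)) (XT.nd (nat_lit 78) (nat_lit 0) (nat_lit 0) (XT.lf (nat_lit 0) (nat_lit 63545558368) (nat_lit 76) (nat_lit 613464977860) (nat_lit 152) (nat_lit 390933434160) (nat_lit 19) (nat_lit 5) (nat_lit 20) (nat_lit 5) (nat_lit 21) (nat_lit 4) (nat_lit 345) (nat_lit 333) (nat_lit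 222)) (XT.lf (nat_lit 0) (nat_lit 746109493822) (nat_lit 76) (nat_lit 248372655749) (nat_lit 152) (nat_lit 173640620213) (nat_lit 19) (nat_lit 5) (nat_lit 20) (nat_lit 5) (nat_lit 21) (nat_lit 4) (nat_lit 346) (nat_lit 333) (nat_lit 221)))))) (XT.nd (nat_lit 468) (nat_lit 304) (nat_lit 0) (XT.nd (nat_lit 234) (nat_lit 152) (nat_lit 0) (XT.nd (nat_lit 78) (nat_lit 76) (nat_lit 0) (XT.lf (nat_lit 0) (nat_lit 88355554063) (nat_lit 152) (nat_lit 1020493955855) (nat_lit 76) (nat_lit 171170691619) (nat_lit 17) (nat_lit 5) (nat_lit 19) (nat_lit 5) (nat_lit 18) (nat_lit 4) (nat_lit 347) (nat_lit 333) (nat_lit 220)) (XT.nd (nat_lit 78) (nat_lit 76) (nat_lit 0) (XT.lf (nat_lit 0) (nat_lit 406811164295) (nat_lit 152) (nat_lit 335814415709) (nat_lit 76) (nat_lit 659595752636) (nat_lit 17) (nat_lit 5) (nat_lit 19) (nat_lit 5) (nat_lit 18) (nat_lit 4) (nat_lit 348) (nat_lit 333) (nat_lit 219)) (XT.lf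 (nat_lit 0) (nat_lit 495697441483) (nat_lit 76) (nat_lit 297863432669) (nat_lit 152) (nat_lit 746112895553) (nat_lit 16) (nat_lit 5) (nat_lit 17) (nat_lit 5) (nat_lit 18) (nat_lit 4) (nat_lit 349) (nat_lit 333) (nat_lit 218)))) (XT.nd (nat_lit 78) (nat_lit 152) (nat_lit 0) (XT.lf (nat_lit 0) (nat_lit 1265558122453) (nat_lit 152) (nat_lit 215115134244) (nat_lit 0) (nat_lit 212985553349) (nat_lit 16) (nat_lit 5) (nat_lit 18) (nat_lit 4) (nat_lit 16) (nat_lit 4) (nat_lit 350) (nat_lit 333) (nat_lit 217)) (XT.nd (nat_lit 78) (nat_lit 76) (nat_lit 0) (XT.lf (nat_lit 0) (nat_lit 794635157799) (nat_lit 76) (nat_lit 1060807907105) (nat_lit 76) (nat_lit 8235325507) (nat_lit 15) (nat_lit 4) (nat_lit 16) (nat_lit 5) (nat_lit 16) (nat_lit 4) (nat_lit 351) (nat_lit 333) (nat_lit 216)) (XT.lf (nat_lit 0) (nat_lit 444136892129) (nat_lit 152) (nat_lit 97678274383) (nat_lit 76) (nat_lit 1512670838927)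 (nat_lit 14) (nat_lit 5) (nat_lit 16) (nat_lit 5) (nat_lit 15) (nat_lit 4) (nat_lit 352) (nat_lit 333) (nat_lit 215))))) (XT.nd (nat_lit 234) (nat_lit 152) (nat_lit 0) (XT.nd (nat_lit 78) (nat_lit 76) (nat_lit 0) (XT.lf (nat_lit 0) (nat_lit 1014342767314) (nat_lit 152) (nat_lit 1152827782937) (nat_lit 0) (nat_lit 99062243915) (nat_lit 13) (nat_lit 5) (nat_lit 15) (nat_lit 4) (nat_lit 13) (nat_lit 4) (nat_lit 353) (nat_lit 333) (nat_lit 214)) (XT.nd (nat_lit 78) (nat_lit 76) (nat_lit 0) (XT.lf (nat_lit 0) (nat_lit 1701229283075) (nat_lit 152) (nat_lit 17891101707) (nat_lit 0) (nat_lit 785948752533) (nat_lit 13) (nat_lit 5) (nat_lit 15) (nat_lit 4) (nat_lit 13) (nat_lit 4) (nat_lit 354) (nat_lit 333) (nat_lit 213)) (XT.lf (nat_lit 0) (nat_lit 1413089018745) (nat_lit 76) (nat_lit 1136572750496) (nat_lit 76) (nat_lit 221292213742) (nat_lit 12) (nat_lit 4) (nat_lit 13) (nat_lit 5) (nat_lit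 13) (nat_lit 4) (nat_lit 355) (nat_lit 333) (nat_lit 212)))) (XT.nd (nat_lit 78) (nat_lit 76) (nat_lit 0) (XT.lf (nat_lit 0) (nat_lit 409676494798) (nat_lit 152) (nat_lit 34476078338) (nat_lit 76) (nat_lit 2629635452430) (nat_lit 11) (nat_lit 5) (nat_lit 13) (nat_lit 5) (nat_lit 12) (nat_lit 4) (nat_lit 356) (nat_lit 333) (nat_lit 211)) (XT.nd (nat_lit 78) (nat_lit 0) (nat_lit 0) (XT.lf (nat_lit 0) (nat_lit 1198044949050) (nat_lit 152) (nat_lit 1807461163413) (nat_lit 0) (nat_lit 402148821352) (nat_lit 10) (nat_lit 5) (nat_lit 12) (nat_lit 4) (nat_lit 10) (nat_lit 4) (nat_lit 357) (nat_lit 333) (nat_lit 210)) (XT.lf (nat_lit 0) (nat_lit 2127706761348) (nat_lit 152) (nat_lit 328628773373) (nat_lit 0) (nat_lit 1331810630099) (nat_lit 10) (nat_lit 5) (nat_lit 12) (nat_lit 4) (nat_lit 10) (nat_lit 4) (nat_lit 358) (nat_lit 333) (nat_lit 209))))))))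
noncomputable def xc102 : XT := (XT.nd (nat_lit 1716) (nat_lit 152) (nat_lit 0) (XT.nd (nat_lit 858) (nat_lit 76) (nat_lit 0) (XT.nd (nat_lit 390) (nat_lit 228) (nat_lit 0) (XT.nd (nat_lit 156) (nat_lit 152) (nat_lit 0) (XT.nd (nat_lit 78) (nat_lit 0) (nat_lit 0) (XT.lf (nat_lit 0) (nat_lit 1506113060130) (nat_lit 76) (nat_lit 1753069708134) (nat_lit 76) (nat_lit 957173573796) (nat_lit 9) (nat_lit 4) (nat_lit 10) (nat_lit 5) (nat_lit 10) (nat_lit 4) (nat_lit 359) (nat_lit 333) (nat_lit 208)) (XT.lf (nat_lit 0) (nat_lit 3652999547550) (nat_lit 76) (nat_lit 924558944029) (nat_lit 76) (nat_lit 128662807006) (nat_lit 9) (nat_lit 4) (nat_lit 10) (nat_lit 5) (nat_lit 10) (nat_lit 4) (nat_lit 360) (nat_lit 333) (nat_lit 207))) (XT.nd (nat_lit 78) (nat_lit 0) (nat_lit 0) (XT.lf (nat_lit 0) (nat_lit 792512416922) (nat_lit 152) (nat_lit 4365242411405) (nat_lit 0) (nat_lit 100428817480) (nat_lit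 7) (nat_lit 5) (nat_lit 9) (nat_lit 4) (nat_lit 7) (nat_lit 4) (nat_lit 361) (nat_lit 333) (nat_lit 206)) (XT.nd (nat_lit 78) (nat_lit 0) (nat_lit 0) (XT.lf (nat_lit 0) (nat_lit 1940394343115) (nat_lit 152) (nat_lit 2688060784133) (nat_lit 0) (nat_lit 1248310741908) (nat_lit 7) (nat_lit 5) (nat_lit 9) (nat_lit 4) (nat_lit 7) (nat_lit 4) (nat_lit 362) (nat_lit 333) (nat_lit 205)) (XT.lf (nat_lit 0) (nat_lit 3260458552834) (nat_lit 152) (nat_lit 759301923894) (nat_lit 0) (nat_lit 2568374950091) (nat_lit 7) (nat_lit 5) (nat_lit 9) (nat_lit 4) (nat_lit 7) (nat_lit 4) (nat_lit 363) (nat_lit 333) (nat_lit 204))))) (XT.nd (nat_lit 234) (nat_lit 152) (nat_lit 0) (XT.nd (nat_lit 78) (nat_lit 0) (nat_lit 0) (XT.lf (nat_lit 0) (nat_lit 1601332443197) (nat_lit 76) (nat_lit 3243507707737) (nat_lit 76) (nat_lit 2551424103659) (nat_lit 6) (nat_lit 4) (nat_lit 7) (nat_lit 5) (nat_lit 7) (nat_lit 4) (nat_lit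 364) (nat_lit 333) (nat_lit 203)) (XT.nd (nat_lit 78) (nat_lit 0) (nat_lit 0) (XT.lf (nat_lit 0) (nat_lit 4401397138250) (nat_lit 76) (nat_lit 2305172628418) (nat_lit 76) (nat_lit 1613089023179) (nat_lit 6) (nat_lit 4) (nat_lit 7) (nat_lit 5) (nat_lit 7) (nat_lit 4) (nat_lit 365) (nat_lit 333) (nat_lit 202)) (XT.lf (nat_lit 0) (nat_lit 7621471529531) (nat_lit 76) (nat_lit 1226087291345) (nat_lit 76) (nat_lit 534003685096) (nat_lit 6) (nat_lit 4) (nat_lit 7) (nat_lit 5) (nat_lit 7) (nat_lit 4) (nat_lit 366) (nat_lit 333) (nat_lit 201)))) (XT.nd (nat_lit 78) (nat_lit 0) (nat_lit 0) (XT.lf (nat_lit 0) (nat_lit 678994402689) (nat_lit 152) (nat_lit 9836935792154) (nat_lit 0) (nat_lit 77182570405) (nat_lit 4) (nat_lit 5) (nat_lit 6) (nat_lit 4) (nat_lit 4) (nat_lit 4) (nat_lit 367) (nat_lit 333) (nat_lit 200)) (XT.nd (nat_lit 78) (nat_lit 0) (nat_lit 0) (XT.lf (nat_lit 0) (nat_lit 2174041437806)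 (nat_lit 152) (nat_lit 8213094552713) (nat_lit 0) (nat_lit 1572229604858) (nat_lit 4) (nat_lit 5) (nat_lit 6) (nat_lit 4) (nat_lit 4) (nat_lit 4) (nat_lit 368) (nat_lit 333) (nat_lit 199)) (XT.lf (nat_lit 0) (nat_lit 3893345525131) (nat_lit 152) (nat_lit 6345677133747) (nat_lit 0) (nat_lit 3291533691605) (nat_lit 4) (nat_lit 5) (nat_lit 6) (nat_lit 4) (nat_lit 4) (nat_lit 4) (nat_lit 369) (nat_lit 333) (nat_lit 198)))))) (XT.nd (nat_lit 390) (nat_lit 0) (nat_lit 0) (XT.nd (nat_lit 156) (nat_lit 76) (nat_lit 0) (XT.nd (nat_lit 78) (nat_lit 0) (nat_lit 0) (XT.lf (nat_lit 0) (nat_lit 5870545222894) (nat_lit 152) (nat_lit 4198147107494) (nat_lit 0) (nat_lit 5268733388867) (nat_lit 4) (nat_lit 5) (nat_lit 6) (nat_lit 4) (nat_lit 4) (nat_lit 4) (nat_lit 370) (nat_lit 333) (nat_lit 197)) (XT.lf (nat_lit 0) (nat_lit 8144324873009) (nat_lit 152) (nat_lit 1728487582137) (nat_lit 0) (nat_lit 7542513038545)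 (nat_lit 4) (nat_lit 5) (nat_lit 6) (nat_lit 4) (nat_lit 4) (nat_lit 4) (nat_lit 371) (nat_lit 333) (nat_lit 196))) (XT.nd (nat_lit 78) (nat_lit 0) (nat_lit 0) (XT.lf (nat_lit 0) (nat_lit 1220256543540) (nat_lit 76) (nat_lit 9589443146353) (nat_lit 76) (nat_lit 8987631311510) (nat_lit 3) (nat_lit 4) (nat_lit 4) (nat_lit 5) (nat_lit 4) (nat_lit 4) (nat_lit 372) (nat_lit 333) (nat_lit 195)) (XT.nd (nat_lit 78) (nat_lit 0) (nat_lit 0) (XT.lf (nat_lit 0) (nat_lit 4805570718006) (nat_lit 76) (nat_lit 9159662769366) (nat_lit 76) (nat_lit 8557850934193) (nat_lit 3) (nat_lit 4) (nat_lit 4) (nat_lit 5) (nat_lit 4) (nat_lit 4) (nat_lit 373) (nat_lit 333) (nat_lit 194)) (XT.lf (nat_lit 0) (nat_lit 8928682015153) (nat_lit 76) (nat_lit 8665415337654) (nat_lit 76) (nat_lit 8063603502194) (nat_lit 3) (nat_lit 4) (nat_lit 4) (nat_lit 5) (nat_lit 4) (nat_lit 4) (nat_lit 374) (nat_lit 333) (nat_lit 193)))))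 (XT.nd (nat_lit 234) (nat_lit 0) (nat_lit 0) (XT.nd (nat_lit 78) (nat_lit 0) (nat_lit 0) (XT.lf (nat_lit 0) (nat_lit 13670260003838) (nat_lit 76) (nat_lit 8097030792770) (nat_lit 76) (nat_lit 7495218957060) (nat_lit 3) (nat_lit 4) (nat_lit 4) (nat_lit 5) (nat_lit 4) (nat_lit 4) (nat_lit 375) (nat_lit 333) (nat_lit 192)) (XT.nd (nat_lit 78) (nat_lit 0) (nat_lit 0) (XT.lf (nat_lit 0) (nat_lit 19123074688190) (nat_lit 76) (nat_lit 7443388567532) (nat_lit 76) (nat_lit 6841576731605) (nat_lit 3) (nat_lit 4) (nat_lit 4) (nat_lit 5) (nat_lit 4) (nat_lit 4) (nat_lit 376) (nat_lit 333) (nat_lit 191)) (XT.lf (nat_lit 0) (nat_lit 25393811572900) (nat_lit 76) (nat_lit 6691700009706) (nat_lit 76) (nat_lit 6089888173591) (nat_lit 3) (nat_lit 4) (nat_lit 4) (nat_lit 5) (nat_lit 4) (nat_lit 4) (nat_lit 377) (nat_lit 333) (nat_lit 190)))) (XT.nd (nat_lit 78) (nat_lit 0) (nat_lit 0) (XT.lf (nat_lit 0) (nat_lit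 32605158988322) (nat_lit 76) (nat_lit 5827258169249) (nat_lit 76) (nat_lit 5225446332970) (nat_lit 3) (nat_lit 4) (nat_lit 4) (nat_lit 5) (nat_lit 4) (nat_lit 4) (nat_lit 378) (nat_lit 333) (nat_lit 189)) (XT.nd (nat_lit 78) (nat_lit 0) (nat_lit 0) (XT.lf (nat_lit 0) (nat_lit 40898208514323) (nat_lit 76) (nat_lit 4833150053630) (nat_lit 76) (nat_lit 4231338217207) (nat_lit 3) (nat_lit 4) (nat_lit 4) (nat_lit 5) (nat_lit 4) (nat_lit 4) (nat_lit 379) (nat_lit 333) (nat_lit 188)) (XT.lf (nat_lit 0) (nat_lit 50435215467717) (nat_lit 76) (nat_lit 3689925721455) (nat_lit 76) (nat_lit 3088113884909) (nat_lit 3) (nat_lit 4) (nat_lit 4) (nat_lit 5) (nat_lit 4) (nat_lit 4) (nat_lit 380) (nat_lit 333) (nat_lit 187))))))) (XT.nd (nat_lit 43368) (nat_lit 0) (nat_lit 1368) (XT.nd (nat_lit 390) (nat_lit 0) (nat_lit 0) (XT.nd (nat_lit 156) (nat_lit 152) (nat_lit 0) (XT.nd (nat_lit 78) (nat_lit 0) (nat_lit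 0) (XT.lf (nat_lit 0) (nat_lit 61402773462808) (nat_lit 76) (nat_lit 2375217740140) (nat_lit 76) (nat_lit 1773405903486) (nat_lit 3) (nat_lit 4) (nat_lit 4) (nat_lit 5) (nat_lit 4) (nat_lit 4) (nat_lit 381) (nat_lit 333) (nat_lit 186)) (XT.lf (nat_lit 0) (nat_lit 74015465156022) (nat_lit 76) (nat_lit 863303562224) (nat_lit 76) (nat_lit 261491725476) (nat_lit 3) (nat_lit 4) (nat_lit 4) (nat_lit 5) (nat_lit 4) (nat_lit 4) (nat_lit 382) (nat_lit 333) (nat_lit 185))) (XT.nd (nat_lit 78) (nat_lit 0) (nat_lit 0) (XT.lf (nat_lit 0) (nat_lit 1493975440650) (nat_lit 152) (nat_lit 83671400235262) (nat_lit 0) (nat_lit 970660799929) (nat_lit 1) (nat_lit 5) (nat_lit 3) (nat_lit 4) (nat_lit 1) (nat_lit 4) (nat_lit 383) (nat_lit 333) (nat_lit 184)) (XT.nd (nat_lit 78) (nat_lit 0) (nat_lit 0) (XT.lf (nat_lit 0) (nat_lit 3588696535168) (nat_lit 152) (nat_lit 92109826841378) (nat_lit 0) (nat_lit 3065381894385)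 (nat_lit 1) (nat_lit 5) (nat_lit 3) (nat_lit 4) (nat_lit 1) (nat_lit 4) (nat_lit 384) (nat_lit 333) (nat_lit 183)) (XT.lf (nat_lit 0) (nat_lit 5997625793435) (nat_lit 152) (nat_lit 101814017439319) (nat_lit 0) (nat_lit 5474311152598) (nat_lit 1) (nat_lit 5) (nat_lit 3) (nat_lit 4) (nat_lit 1) (nat_lit 4) (nat_lit 385) (nat_lit 333) (nat_lit 182))))) (XT.nd (nat_lit 468) (nat_lit 0) (nat_lit 0) (XT.nd (nat_lit 312) (nat_lit 0) (nat_lit 0) (XT.lf (nat_lit 0) (nat_lit 8767894440068) (nat_lit 152) (nat_lit 112973836627738) (nat_lit 0) (nat_lit 8244579799185) (nat_lit 1) (nat_lit 5) (nat_lit 3) (nat_lit 4) (nat_lit 1) (nat_lit 4) (nat_lit 386) (nat_lit 333) (nat_lit 181)) (XT.nd (nat_lit 78) (nat_lit 0) (nat_lit 0) (XT.lf (nat_lit 0) (nat_lit 24675833170613) (nat_lit 152) (nat_lit 177057773095765) (nat_lit 0) (nat_lit 24152518529597) (nat_lit 1) (nat_lit 5) (nat_lit 3) (nat_lit 4) (nat_lit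 1) (nat_lit 4) (nat_lit 390) (nat_lit 333) (nat_lit 177)) (XT.lf (nat_lit 0) (nat_lit 30247832922571) (nat_lit 152) (nat_lit 199504155635292) (nat_lit 0) (nat_lit 29724518281532) (nat_lit 1) (nat_lit 5) (nat_lit 3) (nat_lit 4) (nat_lit 1) (nat_lit 4) (nat_lit 391) (nat_lit 333) (nat_lit 176)))) (XT.nd (nat_lit 42354) (nat_lit 0) (nat_lit 2052) (XT.lf (nat_lit 0) (nat_lit 36655632637162) (nat_lit 152) (nat_lit 225317495556090) (nat_lit 0) (nat_lit 36132317996102) (nat_lit 1) (nat_lit 5) (nat_lit 3) (nat_lit 4) (nat_lit 1) (nat_lit 4) (nat_lit 392) (nat_lit 333) (nat_lit 175)) (XT.nd (nat_lit 78) (nat_lit 0) (nat_lit 0) (XT.lf (nat_lit 0) (nat_lit 56847872396) (nat_lit 380) (nat_lit 89091761326) (nat_lit 380) (nat_lit 89091761326) (nat_lit 28) (nat_lit 3) (nat_lit 33) (nat_lit 3) (nat_lit 33) (nat_lit 5) (nat_lit 334) (nat_lit 334) (nat_lit 232)) (XT.lf (nat_lit 76) (nat_lit 54821771589)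 (nat_lit 0) (nat_lit 69671478943) (nat_lit 380) (nat_lit 380483699637) (nat_lit 29) (nat_lit 5) (nat_lit 28) (nat_lit 3) (nat_lit 33) (nat_lit 5) (nat_lit 335) (nat_lit 334) (nat_lit 231)))))) (XT.nd (nat_lit 390) (nat_lit 532) (nat_lit 0) (XT.nd (nat_lit 156) (nat_lit 228) (nat_lit 0) (XT.nd (nat_lit 78) (nat_lit 0) (nat_lit 0) (XT.lf (nat_lit 0) (nat_lit 154364378176) (nat_lit 304) (nat_lit 209067800589) (nat_lit 380) (nat_lit 179077956161) (nat_lit 29) (nat_lit 5) (nat_lit 33) (nat_lit 5) (nat_lit 34) (nat_lit 5) (nat_lit 336) (nat_lit 334) (nat_lit 230)) (XT.lf (nat_lit 76) (nat_lit 71204036447) (nat_lit 0) (nat_lit 123778192734) (nat_lit 380) (nat_lit 389751160152) (nat_lit 30) (nat_lit 5) (nat_lit 29) (nat_lit 5) (nat_lit 34) (nat_lit 5) (nat_lit 337) (nat_lit 334) (nat_lit 229))) (XT.nd (nat_lit 78) (nat_lit 304) (nat_lit 0) (XT.lf (nat_lit 0) (nat_lit 259428374289) (nat_lit 304)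 (nat_lit 221444980226) (nat_lit 76) (nat_lit 149756434981) (nat_lit 30) (nat_lit 5) (nat_lit 34) (nat_lit 5) (nat_lit 31) (nat_lit 5) (nat_lit 338) (nat_lit 334) (nat_lit 228)) (XT.nd (nat_lit 78) (nat_lit 0) (nat_lit 0) (XT.lf (nat_lit 0) (nat_lit 119166874499) (nat_lit 304) (nat_lit 225203179333) (nat_lit 380) (nat_lit 337416304003) (nat_lit 26) (nat_lit 5) (nat_lit 30) (nat_lit 5) (nat_lit 31) (nat_lit 5) (nat_lit 339) (nat_lit 334) (nat_lit 227)) (XT.lf (nat_lit 0) (nat_lit 457029290858) (nat_lit 380) (nat_lit 206523017034) (nat_lit 76) (nat_lit 74817657747) (nat_lit 26) (nat_lit 5) (nat_lit 31) (nat_lit 5) (nat_lit 27) (nat_lit 5) (nat_lit 340) (nat_lit 334) (nat_lit 226))))) (XT.nd (nat_lit 234) (nat_lit 228) (nat_lit 0) (XT.nd (nat_lit 78) (nat_lit 152) (nat_lit 0) (XT.lf (nat_lit 0) (nat_lit 211053355858) (nat_lit 152) (nat_lit 394997261629) (nat_lit 228) (nat_lit 194471016560)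 (nat_lit 24) (nat_lit 5) (nat_lit 26) (nat_lit 5) (nat_lit 27) (nat_lit 5) (nat_lit 341) (nat_lit 334) (nat_lit 225)) (XT.nd (nat_lit 78) (nat_lit 152) (nat_lit 0) (XT.lf (nat_lit 0) (nat_lit 714476525384) (nat_lit 152) (nat_lit 73744114983) (nat_lit 228) (nat_lit 82156087795) (nat_lit 24) (nat_lit 5) (nat_lit 26) (nat_lit 5) (nat_lit 27) (nat_lit 5) (nat_lit 342) (nat_lit 334) (nat_lit 224)) (XT.lf (nat_lit 0) (nat_lit 71384627190) (nat_lit 152) (nat_lit 587111372619) (nat_lit 76) (nat_lit 287637620396) (nat_lit 22) (nat_lit 5) (nat_lit 24) (nat_lit 5) (nat_lit 23) (nat_lit 5) (nat_lit 343) (nat_lit 334) (nat_lit 223)))) (XT.nd (nat_lit 78) (nat_lit 228) (nat_lit 0) (XT.lf (nat_lit 0) (nat_lit 251594226977) (nat_lit 152) (nat_lit 71139436712) (nat_lit 76) (nat_lit 708126203781) (nat_lit 22) (nat_lit 5) (nat_lit 24) (nat_lit 5) (nat_lit 23) (nat_lit 5) (nat_lit 344) (nat_lit 334) (nat_lit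 222)) (XT.nd (nat_lit 78) (nat_lit 76) (nat_lit 0) (XT.lf (nat_lit 0) (nat_lit 486328230995) (nat_lit 228) (nat_lit 555225533515) (nat_lit 76) (nat_lit 82617342695) (nat_lit 20) (nat_lit 5) (nat_lit 23) (nat_lit 5) (nat_lit 21) (nat_lit 4) (nat_lit 345) (nat_lit 334) (nat_lit 221)) (XT.lf (nat_lit 0) (nat_lit 73077711023) (nat_lit 76) (nat_lit 705484600640) (nat_lit 152) (nat_lit 449573224847) (nat_lit 19) (nat_lit 5) (nat_lit 20) (nat_lit 5) (nat_lit 21) (nat_lit 4) (nat_lit 346) (nat_lit 334) (nat_lit 220))))))))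
noncomputable def xc103 : XT := (XT.nd (nat_lit 1716) (nat_lit 228) (nat_lit 0) (XT.nd (nat_lit 858) (nat_lit 532) (nat_lit 0) (XT.nd (nat_lit 390) (nat_lit 380) (nat_lit 0) (XT.nd (nat_lit 156) (nat_lit 76) (nat_lit 0) (XT.nd (nat_lit 78) (nat_lit 152) (nat_lit 0) (XT.lf (nat_lit 0) (nat_lit 858026195199) (nat_lit 76) (nat_lit 285628446374) (nat_lit 152) (nat_lit 199686518082) (nat_lit 19) (nat_lit 5) (nat_lit 20) (nat_lit 5) (nat_lit 21) (nat_lit 4) (nat_lit 347) (nat_lit 334) (nat_lit 219)) (XT.lf (nat_lit 0) (nat_lit 101609058193) (nat_lit 152) (nat_lit 1173567747522) (nat_lit 76) (nat_lit 196846400276) (nat_lit 17) (nat_lit 5) (nat_lit 19) (nat_lit 5) (nat_lit 18) (nat_lit 4) (nat_lit 348) (nat_lit 334) (nat_lit 218))) (XT.nd (nat_lit 78) (nat_lit 76) (nat_lit 0) (XT.lf (nat_lit 0) (nat_lit 467832987653) (nat_lit 152) (nat_lit 386186315707) (nat_lit 76) (nat_lit 758535206762) (nat_lit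 17) (nat_lit 5) (nat_lit 19) (nat_lit 5) (nat_lit 18) (nat_lit 4) (nat_lit 349) (nat_lit 334) (nat_lit 217)) (XT.nd (nat_lit 78) (nat_lit 0) (nat_lit 0) (XT.lf (nat_lit 0) (nat_lit 570052308138) (nat_lit 76) (nat_lit 342542836823) (nat_lit 152) (nat_lit 858029669154) (nat_lit 16) (nat_lit 5) (nat_lit 17) (nat_lit 5) (nat_lit 18) (nat_lit 4) (nat_lit 350) (nat_lit 334) (nat_lit 216)) (XT.lf (nat_lit 0) (nat_lit 1455391966275) (nat_lit 152) (nat_lit 247382172300) (nat_lit 0) (nat_lit 244933474080) (nat_lit 16) (nat_lit 5) (nat_lit 18) (nat_lit 4) (nat_lit 16) (nat_lit 4) (nat_lit 351) (nat_lit 334) (nat_lit 215))))) (XT.nd (nat_lit 234) (nat_lit 152) (nat_lit 0) (XT.nd (nat_lit 78) (nat_lit 152) (nat_lit 0) (XT.lf (nat_lit 0) (nat_lit 913830653001) (nat_lit 76) (nat_lit 1219928989903) (nat_lit 76) (nat_lit 9470488260) (nat_lit 15) (nat_lit 4) (nat_lit 16) (nat_lit 5) (nat_lit 16) (nat_lit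 4) (nat_lit 352) (nat_lit 334) (nat_lit 214)) (XT.nd (nat_lit 78) (nat_lit 76) (nat_lit 0) (XT.lf (nat_lit 0) (nat_lit 510757533739) (nat_lit 152) (nat_lit 112329812317) (nat_lit 76) (nat_lit 1739571543977) (nat_lit 14) (nat_lit 5) (nat_lit 16) (nat_lit 5) (nat_lit 15) (nat_lit 4) (nat_lit 353) (nat_lit 334) (nat_lit 213)) (XT.lf (nat_lit 0) (nat_lit 1166494287994) (nat_lit 152) (nat_lit 1325751744900) (nat_lit 0) (nat_lit 113921664515) (nat_lit 13) (nat_lit 5) (nat_lit 15) (nat_lit 4) (nat_lit 13) (nat_lit 4) (nat_lit 354) (nat_lit 334) (nat_lit 212)))) (XT.nd (nat_lit 78) (nat_lit 152) (nat_lit 0) (XT.lf (nat_lit 0) (nat_lit 1956413767347) (nat_lit 152) (nat_lit 20574588286) (nat_lit 0) (nat_lit 903841138467) (nat_lit 13) (nat_lit 5) (nat_lit 15) (nat_lit 4) (nat_lit 13) (nat_lit 4) (nat_lit 355) (nat_lit 334) (nat_lit 211)) (XT.nd (nat_lit 78) (nat_lit 76) (nat_lit 0) (XT.lf (nat_lit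 0) (nat_lit 1625052542111) (nat_lit 76) (nat_lit 1307058579413) (nat_lit 76) (nat_lit 254485945836) (nat_lit 12) (nat_lit 4) (nat_lit 13) (nat_lit 5) (nat_lit 13) (nat_lit 4) (nat_lit 356) (nat_lit 334) (nat_lit 210)) (XT.lf (nat_lit 0) (nat_lit 471128048207) (nat_lit 152) (nat_lit 39647334015) (nat_lit 76) (nat_lit 3024080835274) (nat_lit 11) (nat_lit 5) (nat_lit 13) (nat_lit 5) (nat_lit 12) (nat_lit 4) (nat_lit 357) (nat_lit 334) (nat_lit 209)))))) (XT.nd (nat_lit 390) (nat_lit 228) (nat_lit 0) (XT.nd (nat_lit 156) (nat_lit 228) (nat_lit 0) (XT.nd (nat_lit 78) (nat_lit 0) (nat_lit 0) (XT.lf (nat_lit 0) (nat_lit 1377751769499) (nat_lit 152) (nat_lit 2078580180731) (nat_lit 0) (nat_lit 462471211922) (nat_lit 10) (nat_lit 5) (nat_lit 12) (nat_lit 4) (nat_lit 10) (nat_lit 4) (nat_lit 358) (nat_lit 334) (nat_lit 208)) (XT.lf (nat_lit 0) (nat_lit 2446862843456) (nat_lit 152) (nat_lit 377922952688)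 (nat_lit 0) (nat_lit 1531582283194) (nat_lit 10) (nat_lit 5) (nat_lit 12) (nat_lit 4) (nat_lit 10) (nat_lit 4) (nat_lit 359) (nat_lit 334) (nat_lit 207))) (XT.nd (nat_lit 78) (nat_lit 152) (nat_lit 0) (XT.lf (nat_lit 0) (nat_lit 1732030149627) (nat_lit 76) (nat_lit 2016030098327) (nat_lit 76) (nat_lit 1100749535730) (nat_lit 9) (nat_lit 4) (nat_lit 10) (nat_lit 5) (nat_lit 10) (nat_lit 4) (nat_lit 360) (nat_lit 334) (nat_lit 206)) (XT.nd (nat_lit 78) (nat_lit 152) (nat_lit 0) (XT.lf (nat_lit 0) (nat_lit 4200949593141) (nat_lit 76) (nat_lit 1063242728219) (nat_lit 76) (nat_lit 147962163591) (nat_lit 9) (nat_lit 4) (nat_lit 10) (nat_lit 5) (nat_lit 10) (nat_lit 4) (nat_lit 361) (nat_lit 334) (nat_lit 205)) (XT.lf (nat_lit 0) (nat_lit 911389337642) (nat_lit 152) (nat_lit 5020028653347) (nat_lit 0) (nat_lit 115493192952) (nat_lit 7) (nat_lit 5) (nat_lit 9) (nat_lit 4) (nat_lit 7) (nat_lit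 4) (nat_lit 362) (nat_lit 334) (nat_lit 204))))) (XT.nd (nat_lit 234) (nat_lit 152) (nat_lit 0) (XT.nd (nat_lit 78) (nat_lit 76) (nat_lit 0) (XT.lf (nat_lit 0) (nat_lit 2231453545175) (nat_lit 152) (nat_lit 3091269797607) (nat_lit 0) (nat_lit 1435557399150) (nat_lit 7) (nat_lit 5) (nat_lit 9) (nat_lit 4) (nat_lit 7) (nat_lit 4) (nat_lit 363) (nat_lit 334) (nat_lit 203)) (XT.nd (nat_lit 78) (nat_lit 76) (nat_lit 0) (XT.lf (nat_lit 0) (nat_lit 3749527379752) (nat_lit 152) (nat_lit 873197121916) (nat_lit 0) (nat_lit 2953631232566) (nat_lit 7) (nat_lit 5) (nat_lit 9) (nat_lit 4) (nat_lit 7) (nat_lit 4) (nat_lit 364) (nat_lit 334) (nat_lit 202)) (XT.lf (nat_lit 0) (nat_lit 1841532396123) (nat_lit 76) (nat_lit 3730033819286) (nat_lit 76) (nat_lit 2934137671091) (nat_lit 6) (nat_lit 4) (nat_lit 7) (nat_lit 5) (nat_lit 7) (nat_lit 4) (nat_lit 365) (nat_lit 334) (nat_lit 201)))) (XT.nd (nat_lit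 78) (nat_lit 152) (nat_lit 0) (XT.lf (nat_lit 0) (nat_lit 5061606784158) (nat_lit 76) (nat_lit 2650948483888) (nat_lit 76) (nat_lit 1855052334815) (nat_lit 6) (nat_lit 4) (nat_lit 7) (nat_lit 5) (nat_lit 7) (nat_lit 4) (nat_lit 366) (nat_lit 334) (nat_lit 200)) (XT.nd (nat_lit 78) (nat_lit 152) (nat_lit 0) (XT.lf (nat_lit 0) (nat_lit 8764692324327) (nat_lit 76) (nat_lit 1410000351314) (nat_lit 76) (nat_lit 614104201477) (nat_lit 6) (nat_lit 4) (nat_lit 7) (nat_lit 5) (nat_lit 7) (nat_lit 4) (nat_lit 367) (nat_lit 334) (nat_lit 199)) (XT.lf (nat_lit 0) (nat_lit 780843596032) (nat_lit 152) (nat_lit 11312476092158) (nat_lit 0) (nat_lit 88759986901) (nat_lit 4) (nat_lit 5) (nat_lit 6) (nat_lit 4) (nat_lit 4) (nat_lit 4) (nat_lit 368) (nat_lit 334) (nat_lit 198))))))) (XT.nd (nat_lit 858) (nat_lit 152) (nat_lit 0) (XT.nd (nat_lit 390) (nat_lit 0) (nat_lit 0) (XT.nd (nat_lit 156) (nat_lit 76)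 (nat_lit 0) (XT.nd (nat_lit 78) (nat_lit 0) (nat_lit 0) (XT.lf (nat_lit 0) (nat_lit 2500147682119) (nat_lit 152) (nat_lit 9445058675777) (nat_lit 0) (nat_lit 1808064072486) (nat_lit 4) (nat_lit 5) (nat_lit 6) (nat_lit 4) (nat_lit 4) (nat_lit 4) (nat_lit 369) (nat_lit 334) (nat_lit 197)) (XT.lf (nat_lit 0) (nat_lit 4477347378807) (nat_lit 152) (nat_lit 7297528651772) (nat_lit 0) (nat_lit 3785263768737) (nat_lit 4) (nat_lit 5) (nat_lit 6) (nat_lit 4) (nat_lit 4) (nat_lit 4) (nat_lit 370) (nat_lit 334) (nat_lit 196))) (XT.nd (nat_lit 78) (nat_lit 76) (nat_lit 0) (XT.lf (nat_lit 0) (nat_lit 6751127027986) (nat_lit 152) (nat_lit 4827869128369) (nat_lit 0) (nat_lit 6059043417537) (nat_lit 4) (nat_lit 5) (nat_lit 6) (nat_lit 4) (nat_lit 4) (nat_lit 4) (nat_lit 371) (nat_lit 334) (nat_lit 195)) (XT.nd (nat_lit 78) (nat_lit 76) (nat_lit 0) (XT.lf (nat_lit 0) (nat_lit 9365973622793) (nat_lit 152)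 (nat_lit 1987760680110) (nat_lit 0) (nat_lit 8673890012014) (nat_lit 4) (nat_lit 5) (nat_lit 6) (nat_lit 4) (nat_lit 4) (nat_lit 4) (nat_lit 372) (nat_lit 334) (nat_lit 194)) (XT.lf (nat_lit 0) (nat_lit 1403295062631) (nat_lit 76) (nat_lit 11027859598679) (nat_lit 76) (nat_lit 10335775987613) (nat_lit 3) (nat_lit 4) (nat_lit 4) (nat_lit 5) (nat_lit 4) (nat_lit 4) (nat_lit 373) (nat_lit 334) (nat_lit 193))))) (XT.nd (nat_lit 234) (nat_lit 0) (nat_lit 0) (XT.nd (nat_lit 78) (nat_lit 0) (nat_lit 0) (XT.lf (nat_lit 0) (nat_lit 5526406358367) (nat_lit 76) (nat_lit 10533612167704) (nat_lit 76) (nat_lit 9841528556389) (nat_lit 3) (nat_lit 4) (nat_lit 4) (nat_lit 5) (nat_lit 4) (nat_lit 4) (nat_lit 374) (nat_lit 334) (nat_lit 192)) (XT.nd (nat_lit 78) (nat_lit 0) (nat_lit 0) (XT.lf (nat_lit 0) (nat_lit 10267984345826) (nat_lit 76) (nat_lit 9965227623461) (nat_lit 76) (nat_lit 9273144011929) (nat_lit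 3) (nat_lit 4) (nat_lit 4) (nat_lit 5) (nat_lit 4) (nat_lit 4) (nat_lit 375) (nat_lit 334) (nat_lit 191)) (XT.lf (nat_lit 0) (nat_lit 15720799029110) (nat_lit 76) (nat_lit 9311585398780) (nat_lit 76) (nat_lit 8619501787059) (nat_lit 3) (nat_lit 4) (nat_lit 4) (nat_lit 5) (nat_lit 4) (nat_lit 4) (nat_lit 376) (nat_lit 334) (nat_lit 190)))) (XT.nd (nat_lit 78) (nat_lit 0) (nat_lit 0) (XT.lf (nat_lit 0) (nat_lit 21991535912892) (nat_lit 76) (nat_lit 8559896841440) (nat_lit 76) (nat_lit 7867813229554) (nat_lit 3) (nat_lit 4) (nat_lit 4) (nat_lit 5) (nat_lit 4) (nat_lit 4) (nat_lit 377) (nat_lit 334) (nat_lit 189)) (XT.nd (nat_lit 78) (nat_lit 0) (nat_lit 0) (XT.lf (nat_lit 0) (nat_lit 29202883327508) (nat_lit 76) (nat_lit 7695455001404) (nat_lit 76) (nat_lit 7003371389376) (nat_lit 3) (nat_lit 4) (nat_lit 4) (nat_lit 5) (nat_lit 4) (nat_lit 4) (nat_lit 378) (nat_lit 334) (nat_lit 188)) (XT.lf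 (nat_lit 0) (nat_lit 37495932852808) (nat_lit 76) (nat_lit 6701346886151) (nat_lit 76) (nat_lit 6009263273999) (nat_lit 3) (nat_lit 4) (nat_lit 4) (nat_lit 5) (nat_lit 4) (nat_lit 4) (nat_lit 379) (nat_lit 334) (nat_lit 187)))))) (XT.nd (nat_lit 780) (nat_lit 0) (nat_lit 0) (XT.nd (nat_lit 234) (nat_lit 152) (nat_lit 0) (XT.nd (nat_lit 78) (nat_lit 0) (nat_lit 0) (XT.lf (nat_lit 0) (nat_lit 47032939805591) (nat_lit 76) (nat_lit 5558122554296) (nat_lit 76) (nat_lit 4866038942035) (nat_lit 3) (nat_lit 4) (nat_lit 4) (nat_lit 5) (nat_lit 4) (nat_lit 4) (nat_lit 380) (nat_lit 334) (nat_lit 186)) (XT.nd (nat_lit 78) (nat_lit 0) (nat_lit 0) (XT.lf (nat_lit 0) (nat_lit 58000497800152) (nat_lit 76) (nat_lit 4243414573257) (nat_lit 76) (nat_lit 3551330960904) (nat_lit 3) (nat_lit 4) (nat_lit 4) (nat_lit 5) (nat_lit 4) (nat_lit 4) (nat_lit 381) (nat_lit 334) (nat_lit 185)) (XT.lf (nat_lit 0) (nat_lit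 70613189492906) (nat_lit 76) (nat_lit 2731500395582) (nat_lit 76) (nat_lit 2039416783147) (nat_lit 3) (nat_lit 4) (nat_lit 4) (nat_lit 5) (nat_lit 4) (nat_lit 4) (nat_lit 382) (nat_lit 334) (nat_lit 184)))) (XT.nd (nat_lit 78) (nat_lit 152) (nat_lit 0) (XT.lf (nat_lit 0) (nat_lit 85117784938710) (nat_lit 76) (nat_lit 992799091706) (nat_lit 76) (nat_lit 300715479199) (nat_lit 3) (nat_lit 4) (nat_lit 4) (nat_lit 5) (nat_lit 4) (nat_lit 4) (nat_lit 383) (nat_lit 334) (nat_lit 183)) (XT.nd (nat_lit 78) (nat_lit 0) (nat_lit 0) (XT.lf (nat_lit 0) (nat_lit 1718071761372) (nat_lit 152) (nat_lit 96222110260793) (nat_lit 0) (nat_lit 1116259924357) (nat_lit 1) (nat_lit 5) (nat_lit 3) (nat_lit 4) (nat_lit 1) (nat_lit 4) (nat_lit 384) (nat_lit 334) (nat_lit 182)) (XT.lf (nat_lit 0) (nat_lit 4127001019465) (nat_lit 152) (nat_lit 105926300859100) (nat_lit 0) (nat_lit 3525189182403) (nat_lit 1) (nat_lit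 5) (nat_lit 3) (nat_lit 4) (nat_lit 1) (nat_lit 4) (nat_lit 385) (nat_lit 334) (nat_lit 181))))) (XT.nd (nat_lit 42666) (nat_lit 0) (nat_lit 2052) (XT.nd (nat_lit 78) (nat_lit 0) (nat_lit 0) (XT.lf (nat_lit 0) (nat_lit 22805208396062) (nat_lit 152) (nat_lit 181170056516774) (nat_lit 0) (nat_lit 22203396558843) (nat_lit 1) (nat_lit 5) (nat_lit 3) (nat_lit 4) (nat_lit 1) (nat_lit 4) (nat_lit 390) (nat_lit 334) (nat_lit 176)) (XT.nd (nat_lit 42510) (nat_lit 0) (nat_lit 2052) (XT.lf (nat_lit 0) (nat_lit 28377208147944) (nat_lit 152) (nat_lit 203616439056461) (nat_lit 0) (nat_lit 27775396310706) (nat_lit 1) (nat_lit 5) (nat_lit 3) (nat_lit 4) (nat_lit 1) (nat_lit 4) (nat_lit 391) (nat_lit 334) (nat_lit 175)) (XT.lf (nat_lit 0) (nat_lit 65375314210) (nat_lit 380) (nat_lit 102455375259) (nat_lit 380) (nat_lit 102455375259) (nat_lit 28) (nat_lit 3) (nat_lit 33) (nat_lit 3) (nat_lit 33) (nat_lit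 5) (nat_lit 335) (nat_lit 335) (nat_lit 230)))) (XT.nd (nat_lit 78) (nat_lit 0) (nat_lit 76) (XT.lf (nat_lit 76) (nat_lit 63045324200) (nat_lit 0) (nat_lit 80122379625) (nat_lit 380) (nat_lit 437555718257) (nat_lit 29) (nat_lit 5) (nat_lit 28) (nat_lit 3) (nat_lit 33) (nat_lit 5) (nat_lit 336) (nat_lit 335) (nat_lit 229)) (XT.nd (nat_lit 78) (nat_lit 0) (nat_lit 0) (XT.lf (nat_lit 0) (nat_lit 177519433430) (nat_lit 304) (nat_lit 240427653380) (nat_lit 380) (nat_lit 205939507917) (nat_lit 29) (nat_lit 5) (nat_lit 33) (nat_lit 5) (nat_lit 34) (nat_lit 5) (nat_lit 337) (nat_lit 335) (nat_lit 228)) (XT.lf (nat_lit 76) (nat_lit 81884944789) (nat_lit 0) (nat_lit 142344977857) (nat_lit 380) (nat_lit 448213420652) (nat_lit 30) (nat_lit 5) (nat_lit 29) (nat_lit 5) (nat_lit 34) (nat_lit 5) (nat_lit 338) (nat_lit 335) (nat_lit 227))))))))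
noncomputable def xc104 : XT := (XT.nd (nat_lit 1716) (nat_lit 532) (nat_lit 0) (XT.nd (nat_lit 858) (nat_lit 532) (nat_lit 0) (XT.nd (nat_lit 390) (nat_lit 532) (nat_lit 0) (XT.nd (nat_lit 156) (nat_lit 152) (nat_lit 0) (XT.nd (nat_lit 78) (nat_lit 304) (nat_lit 0) (XT.lf (nat_lit 0) (nat_lit 298342940658) (nat_lit 304) (nat_lit 254661414531) (nat_lit 76) (nat_lit 172219855699) (nat_lit 30) (nat_lit 5) (nat_lit 34) (nat_lit 5) (nat_lit 31) (nat_lit 5) (nat_lit 339) (nat_lit 335) (nat_lit 226)) (XT.lf (nat_lit 0) (nat_lit 137042204187) (nat_lit 304) (nat_lit 258983639842) (nat_lit 380) (nat_lit 388028424730) (nat_lit 26) (nat_lit 5) (nat_lit 30) (nat_lit 5) (nat_lit 31) (nat_lit 5) (nat_lit 340) (nat_lit 335) (nat_lit 225))) (XT.nd (nat_lit 78) (nat_lit 152) (nat_lit 0) (XT.lf (nat_lit 0) (nat_lit 525583930401) (nat_lit 380) (nat_lit 237501173427) (nat_lit 76) (nat_lit 86040319394) (nat_lit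 26) (nat_lit 5) (nat_lit 31) (nat_lit 5) (nat_lit 27) (nat_lit 5) (nat_lit 341) (nat_lit 335) (nat_lit 224)) (XT.nd (nat_lit 78) (nat_lit 0) (nat_lit 0) (XT.lf (nat_lit 0) (nat_lit 242711641937) (nat_lit 152) (nat_lit 454246793717) (nat_lit 228) (nat_lit 223641409341) (nat_lit 24) (nat_lit 5) (nat_lit 26) (nat_lit 5) (nat_lit 27) (nat_lit 5) (nat_lit 342) (nat_lit 335) (nat_lit 223)) (XT.lf (nat_lit 0) (nat_lit 821648250017) (nat_lit 152) (nat_lit 84805682530) (nat_lit 228) (nat_lit 94479275136) (nat_lit 24) (nat_lit 5) (nat_lit 26) (nat_lit 5) (nat_lit 27) (nat_lit 5) (nat_lit 343) (nat_lit 335) (nat_lit 222))))) (XT.nd (nat_lit 234) (nat_lit 228) (nat_lit 0) (XT.nd (nat_lit 78) (nat_lit 152) (nat_lit 0) (XT.lf (nat_lit 0) (nat_lit 82092513358) (nat_lit 152) (nat_lit 675177798483) (nat_lit 76) (nat_lit 330783322366) (nat_lit 22) (nat_lit 5) (nat_lit 24) (nat_lit 5) (nat_lit 23) (nat_lit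 5) (nat_lit 344) (nat_lit 335) (nat_lit 221)) (XT.nd (nat_lit 78) (nat_lit 152) (nat_lit 0) (XT.lf (nat_lit 0) (nat_lit 289333528057) (nat_lit 152) (nat_lit 81810108716) (nat_lit 76) (nat_lit 814345185575) (nat_lit 22) (nat_lit 5) (nat_lit 24) (nat_lit 5) (nat_lit 23) (nat_lit 5) (nat_lit 345) (nat_lit 335) (nat_lit 220)) (XT.lf (nat_lit 0) (nat_lit 559277623727) (nat_lit 228) (nat_lit 638509110926) (nat_lit 76) (nat_lit 95010014757) (nat_lit 20) (nat_lit 5) (nat_lit 23) (nat_lit 5) (nat_lit 21) (nat_lit 4) (nat_lit 346) (nat_lit 335) (nat_lit 219)))) (XT.nd (nat_lit 78) (nat_lit 152) (nat_lit 0) (XT.lf (nat_lit 0) (nat_lit 84039608810) (nat_lit 76) (nat_lit 811307197051) (nat_lit 152) (nat_lit 517009038866) (nat_lit 19) (nat_lit 5) (nat_lit 20) (nat_lit 5) (nat_lit 21) (nat_lit 4) (nat_lit 347) (nat_lit 335) (nat_lit 218)) (XT.nd (nat_lit 78) (nat_lit 152) (nat_lit 0) (XT.lf (nat_lit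 0) (nat_lit 986730334160) (nat_lit 76) (nat_lit 328472631864) (nat_lit 152) (nat_lit 229639348223) (nat_lit 19) (nat_lit 5) (nat_lit 20) (nat_lit 5) (nat_lit 21) (nat_lit 4) (nat_lit 348) (nat_lit 335) (nat_lit 217)) (XT.lf (nat_lit 0) (nat_lit 116850546239) (nat_lit 152) (nat_lit 1349602681514) (nat_lit 76) (nat_lit 226373439648) (nat_lit 17) (nat_lit 5) (nat_lit 19) (nat_lit 5) (nat_lit 18) (nat_lit 4) (nat_lit 349) (nat_lit 335) (nat_lit 216)))))) (XT.nd (nat_lit 390) (nat_lit 304) (nat_lit 0) (XT.nd (nat_lit 156) (nat_lit 152) (nat_lit 0) (XT.nd (nat_lit 78) (nat_lit 76) (nat_lit 0) (XT.lf (nat_lit 0) (nat_lit 538008048250) (nat_lit 152) (nat_lit 444114064684) (nat_lit 76) (nat_lit 872315556759) (nat_lit 17) (nat_lit 5) (nat_lit 19) (nat_lit 5) (nat_lit 18) (nat_lit 4) (nat_lit 350) (nat_lit 335) (nat_lit 215)) (XT.lf (nat_lit 0) (nat_lit 655560343722) (nat_lit 76) (nat_lit 393924178607)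 (nat_lit 152) (nat_lit 986733997991) (nat_lit 16) (nat_lit 5) (nat_lit 17) (nat_lit 5) (nat_lit 18) (nat_lit 4) (nat_lit 351) (nat_lit 335) (nat_lit 214))) (XT.nd (nat_lit 78) (nat_lit 152) (nat_lit 0) (XT.lf (nat_lit 0) (nat_lit 1673700856077) (nat_lit 152) (nat_lit 284489322659) (nat_lit 0) (nat_lit 281673561527) (nat_lit 16) (nat_lit 5) (nat_lit 18) (nat_lit 4) (nat_lit 16) (nat_lit 4) (nat_lit 352) (nat_lit 335) (nat_lit 213)) (XT.nd (nat_lit 78) (nat_lit 76) (nat_lit 0) (XT.lf (nat_lit 0) (nat_lit 1050905418460) (nat_lit 76) (nat_lit 1402918260303) (nat_lit 76) (nat_lit 10890958609) (nat_lit 15) (nat_lit 4) (nat_lit 16) (nat_lit 5) (nat_lit 16) (nat_lit 4) (nat_lit 353) (nat_lit 335) (nat_lit 212)) (XT.lf (nat_lit 0) (nat_lit 587371245305) (nat_lit 152) (nat_lit 129179130499) (nat_lit 76) (nat_lit 2000507335469) (nat_lit 14) (nat_lit 5) (nat_lit 16) (nat_lit 5) (nat_lit 15) (nat_lit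 4) (nat_lit 354) (nat_lit 335) (nat_lit 211))))) (XT.nd (nat_lit 234) (nat_lit 152) (nat_lit 0) (XT.nd (nat_lit 78) (nat_lit 76) (nat_lit 0) (XT.lf (nat_lit 0) (nat_lit 1341468511028) (nat_lit 152) (nat_lit 1524614351264) (nat_lit 0) (nat_lit 131009977718) (nat_lit 13) (nat_lit 5) (nat_lit 15) (nat_lit 4) (nat_lit 13) (nat_lit 4) (nat_lit 355) (nat_lit 335) (nat_lit 210)) (XT.nd (nat_lit 78) (nat_lit 76) (nat_lit 0) (XT.lf (nat_lit 0) (nat_lit 2249875901871) (nat_lit 152) (nat_lit 23660641424) (nat_lit 0) (nat_lit 1039417364476) (nat_lit 13) (nat_lit 5) (nat_lit 15) (nat_lit 4) (nat_lit 13) (nat_lit 4) (nat_lit 356) (nat_lit 335) (nat_lit 209)) (XT.lf (nat_lit 0) (nat_lit 1868810552392) (nat_lit 76) (nat_lit 1503117303068) (nat_lit 76) (nat_lit 292658762122) (nat_lit 12) (nat_lit 4) (nat_lit 13) (nat_lit 5) (nat_lit 13) (nat_lit 4) (nat_lit 357) (nat_lit 335) (nat_lit 208)))) (XT.nd (nat_lit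 78) (nat_lit 76) (nat_lit 0) (XT.lf (nat_lit 0) (nat_lit 541797315317) (nat_lit 152) (nat_lit 45594316103) (nat_lit 76) (nat_lit 3477693009700) (nat_lit 11) (nat_lit 5) (nat_lit 13) (nat_lit 5) (nat_lit 12) (nat_lit 4) (nat_lit 358) (nat_lit 335) (nat_lit 207)) (XT.nd (nat_lit 78) (nat_lit 0) (nat_lit 0) (XT.lf (nat_lit 0) (nat_lit 1584414593972) (nat_lit 152) (nat_lit 2390367088979) (nat_lit 0) (nat_lit 531841944650) (nat_lit 10) (nat_lit 5) (nat_lit 12) (nat_lit 4) (nat_lit 10) (nat_lit 4) (nat_lit 359) (nat_lit 335) (nat_lit 206)) (XT.lf (nat_lit 0) (nat_lit 2813892321320) (nat_lit 152) (nat_lit 434611292233) (nat_lit 0) (nat_lit 1761319669968) (nat_lit 10) (nat_lit 5) (nat_lit 12) (nat_lit 4) (nat_lit 10) (nat_lit 4) (nat_lit 360) (nat_lit 335) (nat_lit 205))))))) (XT.nd (nat_lit 858) (nat_lit 76) (nat_lit 0) (XT.nd (nat_lit 390) (nat_lit 228) (nat_lit 0) (XT.nd (nat_lit 156) (nat_lit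 152) (nat_lit 0) (XT.nd (nat_lit 78) (nat_lit 0) (nat_lit 0) (XT.lf (nat_lit 0) (nat_lit 1991834770732) (nat_lit 76) (nat_lit 2318434563150) (nat_lit 76) (nat_lit 1265861910032) (nat_lit 9) (nat_lit 4) (nat_lit 10) (nat_lit 5) (nat_lit 10) (nat_lit 4) (nat_lit 361) (nat_lit 335) (nat_lit 204)) (XT.lf (nat_lit 0) (nat_lit 4831092117904) (nat_lit 76) (nat_lit 1222729094038) (nat_lit 76) (nat_lit 170156439384) (nat_lit 9) (nat_lit 4) (nat_lit 10) (nat_lit 5) (nat_lit 10) (nat_lit 4) (nat_lit 362) (nat_lit 335) (nat_lit 203))) (XT.nd (nat_lit 78) (nat_lit 0) (nat_lit 0) (XT.lf (nat_lit 0) (nat_lit 1048097782281) (nat_lit 152) (nat_lit 5773032860787) (nat_lit 0) (nat_lit 132817211856) (nat_lit 7) (nat_lit 5) (nat_lit 9) (nat_lit 4) (nat_lit 7) (nat_lit 4) (nat_lit 363) (nat_lit 335) (nat_lit 202)) (XT.nd (nat_lit 78) (nat_lit 0) (nat_lit 0) (XT.lf (nat_lit 0) (nat_lit 2566171615206) (nat_lit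 152) (nat_lit 3554960188498) (nat_lit 0) (nat_lit 1650891043771) (nat_lit 7) (nat_lit 5) (nat_lit 9) (nat_lit 4) (nat_lit 7) (nat_lit 4) (nat_lit 364) (nat_lit 335) (nat_lit 201)) (XT.lf (nat_lit 0) (nat_lit 4311956519980) (nat_lit 152) (nat_lit 1004176621725) (nat_lit 0) (nat_lit 3396675947668) (nat_lit 7) (nat_lit 5) (nat_lit 9) (nat_lit 4) (nat_lit 7) (nat_lit 4) (nat_lit 365) (nat_lit 335) (nat_lit 200))))) (XT.nd (nat_lit 234) (nat_lit 152) (nat_lit 0) (XT.nd (nat_lit 78) (nat_lit 0) (nat_lit 0) (XT.lf (nat_lit 0) (nat_lit 2117762320907) (nat_lit 76) (nat_lit 4289538858447) (nat_lit 76) (nat_lit 3374258285371) (nat_lit 6) (nat_lit 4) (nat_lit 7) (nat_lit 5) (nat_lit 7) (nat_lit 4) (nat_lit 366) (nat_lit 335) (nat_lit 199)) (XT.nd (nat_lit 78) (nat_lit 0) (nat_lit 0) (XT.lf (nat_lit 0) (nat_lit 5820847858621) (nat_lit 76) (nat_lit 3048590727139) (nat_lit 76) (nat_lit 2133310153399)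 (nat_lit 6) (nat_lit 4) (nat_lit 7) (nat_lit 5) (nat_lit 7) (nat_lit 4) (nat_lit 367) (nat_lit 335) (nat_lit 198)) (XT.lf (nat_lit 0) (nat_lit 10079396222402) (nat_lit 76) (nat_lit 1621500378504) (nat_lit 76) (nat_lit 706219804187) (nat_lit 6) (nat_lit 4) (nat_lit 7) (nat_lit 5) (nat_lit 7) (nat_lit 4) (nat_lit 368) (nat_lit 335) (nat_lit 197)))) (XT.nd (nat_lit 78) (nat_lit 0) (nat_lit 0) (XT.lf (nat_lit 0) (nat_lit 897970160343) (nat_lit 152) (nat_lit 13009347453944) (nat_lit 0) (nat_lit 102074008327) (nat_lit 4) (nat_lit 5) (nat_lit 6) (nat_lit 4) (nat_lit 4) (nat_lit 4) (nat_lit 369) (nat_lit 335) (nat_lit 196)) (XT.nd (nat_lit 78) (nat_lit 0) (nat_lit 0) (XT.lf (nat_lit 0) (nat_lit 2875169856095) (nat_lit 152) (nat_lit 10861817431894) (nat_lit 0) (nat_lit 2079273703699) (nat_lit 4) (nat_lit 5) (nat_lit 6) (nat_lit 4) (nat_lit 4) (nat_lit 4) (nat_lit 370) (nat_lit 335) (nat_lit 195))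 (XT.lf (nat_lit 0) (nat_lit 5148949504461) (nat_lit 152) (nat_lit 8392157910191) (nat_lit 0) (nat_lit 4353053351735) (nat_lit 4) (nat_lit 5) (nat_lit 6) (nat_lit 4) (nat_lit 4) (nat_lit 4) (nat_lit 371) (nat_lit 335) (nat_lit 194)))))) (XT.nd (nat_lit 390) (nat_lit 0) (nat_lit 0) (XT.nd (nat_lit 156) (nat_lit 76) (nat_lit 0) (XT.nd (nat_lit 78) (nat_lit 0) (nat_lit 0) (XT.lf (nat_lit 0) (nat_lit 7763796098561) (nat_lit 152) (nat_lit 5552049463409) (nat_lit 0) (nat_lit 6967899945548) (nat_lit 4) (nat_lit 5) (nat_lit 6) (nat_lit 4) (nat_lit 4) (nat_lit 4) (nat_lit 372) (nat_lit 335) (nat_lit 193)) (XT.lf (nat_lit 0) (nat_lit 10770869680453) (nat_lit 152) (nat_lit 2285924752374) (nat_lit 0) (nat_lit 9974973527191) (nat_lit 4) (nat_lit 5) (nat_lit 6) (nat_lit 4) (nat_lit 4) (nat_lit 4) (nat_lit 373) (nat_lit 335) (nat_lit 192))) (XT.nd (nat_lit 78) (nat_lit 0) (nat_lit 0) (XT.lf (nat_lit 0)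 (nat_lit 1613789350425) (nat_lit 76) (nat_lit 12682038523640) (nat_lit 76) (nat_lit 11886142370161) (nat_lit 3) (nat_lit 4) (nat_lit 4) (nat_lit 5) (nat_lit 4) (nat_lit 4) (nat_lit 374) (nat_lit 335) (nat_lit 191)) (XT.nd (nat_lit 78) (nat_lit 0) (nat_lit 0) (XT.lf (nat_lit 0) (nat_lit 6355367336818) (nat_lit 76) (nat_lit 12113653979955) (nat_lit 76) (nat_lit 11317757826286) (nat_lit 3) (nat_lit 4) (nat_lit 4) (nat_lit 5) (nat_lit 4) (nat_lit 4) (nat_lit 375) (nat_lit 335) (nat_lit 190)) (XT.lf (nat_lit 0) (nat_lit 11808182019174) (nat_lit 76) (nat_lit 11460011755759) (nat_lit 76) (nat_lit 10664115601926) (nat_lit 3) (nat_lit 4) (nat_lit 4) (nat_lit 5) (nat_lit 4) (nat_lit 4) (nat_lit 376) (nat_lit 335) (nat_lit 189))))) (XT.nd (nat_lit 234) (nat_lit 0) (nat_lit 0) (XT.nd (nat_lit 78) (nat_lit 0) (nat_lit 0) (XT.lf (nat_lit 0) (nat_lit 18078918902150) (nat_lit 76) (nat_lit 10708323198839)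 (nat_lit 76) (nat_lit 9912427044864) (nat_lit 3) (nat_lit 4) (nat_lit 4) (nat_lit 5) (nat_lit 4) (nat_lit 4) (nat_lit 377) (nat_lit 335) (nat_lit 188)) (XT.nd (nat_lit 78) (nat_lit 0) (nat_lit 0) (XT.lf (nat_lit 0) (nat_lit 25290266316064) (nat_lit 76) (nat_lit 9843881359170) (nat_lit 76) (nat_lit 9047985205071) (nat_lit 3) (nat_lit 4) (nat_lit 4) (nat_lit 5) (nat_lit 4) (nat_lit 4) (nat_lit 378) (nat_lit 335) (nat_lit 187)) (XT.lf (nat_lit 0) (nat_lit 33583315840754) (nat_lit 76) (nat_lit 8849773244236) (nat_lit 76) (nat_lit 8053877090029) (nat_lit 3) (nat_lit 4) (nat_lit 4) (nat_lit 5) (nat_lit 4) (nat_lit 4) (nat_lit 379) (nat_lit 335) (nat_lit 186)))) (XT.nd (nat_lit 78) (nat_lit 0) (nat_lit 0) (XT.lf (nat_lit 0) (nat_lit 43120322793007) (nat_lit 76) (nat_lit 7706548912658) (nat_lit 76) (nat_lit 6910652758357) (nat_lit 3) (nat_lit 4) (nat_lit 4) (nat_lit 5) (nat_lit 4) (nat_lit 4)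 (nat_lit 380) (nat_lit 335) (nat_lit 185)) (XT.nd (nat_lit 78) (nat_lit 0) (nat_lit 0) (XT.lf (nat_lit 0) (nat_lit 54087880787107) (nat_lit 76) (nat_lit 6391840931861) (nat_lit 76) (nat_lit 5595944777478) (nat_lit 3) (nat_lit 4) (nat_lit 4) (nat_lit 5) (nat_lit 4) (nat_lit 4) (nat_lit 381) (nat_lit 335) (nat_lit 184)) (XT.lf (nat_lit 0) (nat_lit 66700572479459) (nat_lit 76) (nat_lit 4879926754395) (nat_lit 76) (nat_lit 4084030599941) (nat_lit 3) (nat_lit 4) (nat_lit 4) (nat_lit 5) (nat_lit 4) (nat_lit 4) (nat_lit 382) (nat_lit 335) (nat_lit 183))))))))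
noncomputable def xc105 : XT := (XT.nd (nat_lit 44850) (nat_lit 0) (nat_lit 0) (XT.nd (nat_lit 43992) (nat_lit 0) (nat_lit 760) (XT.nd (nat_lit 43524) (nat_lit 0) (nat_lit 1444) (XT.nd (nat_lit 43290) (nat_lit 0) (nat_lit 1900) (XT.nd (nat_lit 43212) (nat_lit 0) (nat_lit 1900) (XT.lf (nat_lit 0) (nat_lit 81205167924915) (nat_lit 76) (nat_lit 3141225450701) (nat_lit 76) (nat_lit 2345329296186) (nat_lit 3) (nat_lit 4) (nat_lit 4) (nat_lit 5) (nat_lit 4) (nat_lit 4) (nat_lit 383) (nat_lit 335) (nat_lit 182)) (XT.lf (nat_lit 0) (nat_lit 75181808660) (nat_lit 380) (nat_lit 117823567925) (nat_lit 380) (nat_lit 117823567925) (nat_lit 28) (nat_lit 3) (nat_lit 33) (nat_lit 3) (nat_lit 33) (nat_lit 5) (nat_lit 336) (nat_lit 336) (nat_lit 228))) (XT.nd (nat_lit 78) (nat_lit 0) (nat_lit 76) (XT.lf (nat_lit 76) (nat_lit 72502339746) (nat_lit 0) (nat_lit 92140871797) (nat_lit 380) (nat_lit 503188670456)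 (nat_lit 29) (nat_lit 5) (nat_lit 28) (nat_lit 3) (nat_lit 33) (nat_lit 5) (nat_lit 337) (nat_lit 336) (nat_lit 227)) (XT.nd (nat_lit 78) (nat_lit 0) (nat_lit 0) (XT.lf (nat_lit 0) (nat_lit 204147649789) (nat_lit 304) (nat_lit 276491561465) (nat_lit 380) (nat_lit 236830326983) (nat_lit 29) (nat_lit 5) (nat_lit 33) (nat_lit 5) (nat_lit 34) (nat_lit 5) (nat_lit 338) (nat_lit 336) (nat_lit 226)) (XT.lf (nat_lit 76) (nat_lit 94167915524) (nat_lit 0) (nat_lit 163696767040) (nat_lit 380) (nat_lit 515445121068) (nat_lit 30) (nat_lit 5) (nat_lit 29) (nat_lit 5) (nat_lit 34) (nat_lit 5) (nat_lit 339) (nat_lit 336) (nat_lit 225))))) (XT.nd (nat_lit 234) (nat_lit 304) (nat_lit 0) (XT.nd (nat_lit 78) (nat_lit 304) (nat_lit 0) (XT.lf (nat_lit 0) (nat_lit 343094616332) (nat_lit 304) (nat_lit 292860390244) (nat_lit 76) (nat_lit 198052800384) (nat_lit 30) (nat_lit 5) (nat_lit 34) (nat_lit 5) (nat_lit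 31) (nat_lit 5) (nat_lit 340) (nat_lit 336) (nat_lit 224)) (XT.nd (nat_lit 78) (nat_lit 0) (nat_lit 0) (XT.lf (nat_lit 0) (nat_lit 157598760535) (nat_lit 304) (nat_lit 297831173424) (nat_lit 380) (nat_lit 446232442789) (nat_lit 26) (nat_lit 5) (nat_lit 30) (nat_lit 5) (nat_lit 31) (nat_lit 5) (nat_lit 341) (nat_lit 336) (nat_lit 223)) (XT.lf (nat_lit 0) (nat_lit 604421705907) (nat_lit 380) (nat_lit 273126125501) (nat_lit 76) (nat_lit 98946377121) (nat_lit 26) (nat_lit 5) (nat_lit 31) (nat_lit 5) (nat_lit 27) (nat_lit 5) (nat_lit 342) (nat_lit 336) (nat_lit 222)))) (XT.nd (nat_lit 78) (nat_lit 152) (nat_lit 0) (XT.lf (nat_lit 0) (nat_lit 279118601989) (nat_lit 152) (nat_lit 522383769557) (nat_lit 228) (nat_lit 257187424369) (nat_lit 24) (nat_lit 5) (nat_lit 26) (nat_lit 5) (nat_lit 27) (nat_lit 5) (nat_lit 343) (nat_lit 336) (nat_lit 221)) (XT.nd (nat_lit 78) (nat_lit 152) (nat_lit 0) (XT.lf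 (nat_lit 0) (nat_lit 944895673400) (nat_lit 152) (nat_lit 97526497328) (nat_lit 228) (nat_lit 108650995647) (nat_lit 24) (nat_lit 5) (nat_lit 26) (nat_lit 5) (nat_lit 27) (nat_lit 5) (nat_lit 344) (nat_lit 336) (nat_lit 220)) (XT.lf (nat_lit 0) (nat_lit 94406535609) (nat_lit 152) (nat_lit 776454256514) (nat_lit 76) (nat_lit 380400865267) (nat_lit 22) (nat_lit 5) (nat_lit 24) (nat_lit 5) (nat_lit 23) (nat_lit 5) (nat_lit 345) (nat_lit 336) (nat_lit 219)))))) (XT.nd (nat_lit 390) (nat_lit 304) (nat_lit 0) (XT.nd (nat_lit 156) (nat_lit 228) (nat_lit 0) (XT.nd (nat_lit 78) (nat_lit 152) (nat_lit 0) (XT.lf (nat_lit 0) (nat_lit 332733683568) (nat_lit 152) (nat_lit 94081440900) (nat_lit 76) (nat_lit 936497002146) (nat_lit 22) (nat_lit 5) (nat_lit 24) (nat_lit 5) (nat_lit 23) (nat_lit 5) (nat_lit 346) (nat_lit 336) (nat_lit 218)) (XT.lf (nat_lit 0) (nat_lit 643169386820) (nat_lit 228) (nat_lit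 734285286551) (nat_lit 76) (nat_lit 109261570398) (nat_lit 20) (nat_lit 5) (nat_lit 23) (nat_lit 5) (nat_lit 21) (nat_lit 4) (nat_lit 347) (nat_lit 336) (nat_lit 217))) (XT.nd (nat_lit 78) (nat_lit 152) (nat_lit 0) (XT.lf (nat_lit 0) (nat_lit 96645732464) (nat_lit 76) (nat_lit 933003205769) (nat_lit 152) (nat_lit 594560266373) (nat_lit 19) (nat_lit 5) (nat_lit 20) (nat_lit 5) (nat_lit 21) (nat_lit 4) (nat_lit 348) (nat_lit 336) (nat_lit 216)) (XT.nd (nat_lit 78) (nat_lit 152) (nat_lit 0) (XT.lf (nat_lit 0) (nat_lit 1134740042834) (nat_lit 76) (nat_lit 377743465044) (nat_lit 152) (nat_lit 264085138871) (nat_lit 19) (nat_lit 5) (nat_lit 20) (nat_lit 5) (nat_lit 21) (nat_lit 4) (nat_lit 349) (nat_lit 336) (nat_lit 215)) (XT.lf (nat_lit 0) (nat_lit 134378225956) (nat_lit 152) (nat_lit 1552042911236) (nat_lit 76) (nat_lit 260329515581) (nat_lit 17) (nat_lit 5) (nat_lit 19) (nat_lit 5) (nat_lit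 18) (nat_lit 4) (nat_lit 350) (nat_lit 336) (nat_lit 214))))) (XT.nd (nat_lit 234) (nat_lit 228) (nat_lit 0) (XT.nd (nat_lit 78) (nat_lit 76) (nat_lit 0) (XT.lf (nat_lit 0) (nat_lit 618709340515) (nat_lit 152) (nat_lit 510731024382) (nat_lit 76) (nat_lit 1003162942434) (nat_lit 17) (nat_lit 5) (nat_lit 19) (nat_lit 5) (nat_lit 18) (nat_lit 4) (nat_lit 351) (nat_lit 336) (nat_lit 213)) (XT.nd (nat_lit 78) (nat_lit 0) (nat_lit 0) (XT.lf (nat_lit 0) (nat_lit 753894538466) (nat_lit 76) (nat_lit 453012742078) (nat_lit 152) (nat_lit 1134744005791) (nat_lit 16) (nat_lit 5) (nat_lit 17) (nat_lit 5) (nat_lit 18) (nat_lit 4) (nat_lit 352) (nat_lit 336) (nat_lit 212)) (XT.lf (nat_lit 0) (nat_lit 1924756056218) (nat_lit 152) (nat_lit 327162588366) (nat_lit 0) (nat_lit 323924645914) (nat_lit 16) (nat_lit 5) (nat_lit 18) (nat_lit 4) (nat_lit 16) (nat_lit 4) (nat_lit 353) (nat_lit 336) (nat_lit 211))))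 (XT.nd (nat_lit 78) (nat_lit 152) (nat_lit 0) (XT.lf (nat_lit 0) (nat_lit 1208541357891) (nat_lit 76) (nat_lit 1613355940305) (nat_lit 76) (nat_lit 12524524600) (nat_lit 15) (nat_lit 4) (nat_lit 16) (nat_lit 5) (nat_lit 16) (nat_lit 4) (nat_lit 354) (nat_lit 336) (nat_lit 210)) (XT.nd (nat_lit 78) (nat_lit 76) (nat_lit 0) (XT.lf (nat_lit 0) (nat_lit 675476993730) (nat_lit 152) (nat_lit 148555883880) (nat_lit 76) (nat_lit 2300583481079) (nat_lit 14) (nat_lit 5) (nat_lit 16) (nat_lit 5) (nat_lit 15) (nat_lit 4) (nat_lit 355) (nat_lit 336) (nat_lit 209)) (XT.lf (nat_lit 0) (nat_lit 1542688848049) (nat_lit 152) (nat_lit 1753306386471) (nat_lit 0) (nat_lit 150661522409) (nat_lit 13) (nat_lit 5) (nat_lit 15) (nat_lit 4) (nat_lit 13) (nat_lit 4) (nat_lit 356) (nat_lit 336) (nat_lit 208))))))) (XT.nd (nat_lit 858) (nat_lit 228) (nat_lit 0) (XT.nd (nat_lit 390) (nat_lit 304) (nat_lit 0) (XT.nd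 (nat_lit 156) (nat_lit 152) (nat_lit 0) (XT.nd (nat_lit 78) (nat_lit 76) (nat_lit 0) (XT.lf (nat_lit 0) (nat_lit 2587357339645) (nat_lit 152) (nat_lit 27209635479) (nat_lit 0) (nat_lit 1195330010917) (nat_lit 13) (nat_lit 5) (nat_lit 15) (nat_lit 4) (nat_lit 13) (nat_lit 4) (nat_lit 357) (nat_lit 336) (nat_lit 207)) (XT.lf (nat_lit 0) (nat_lit 2149132232766) (nat_lit 76) (nat_lit 1728584850697) (nat_lit 76) (nat_lit 336557519284) (nat_lit 12) (nat_lit 4) (nat_lit 13) (nat_lit 5) (nat_lit 13) (nat_lit 4) (nat_lit 358) (nat_lit 336) (nat_lit 206))) (XT.nd (nat_lit 78) (nat_lit 76) (nat_lit 0) (XT.lf (nat_lit 0) (nat_lit 623066957891) (nat_lit 152) (nat_lit 52433374282) (nat_lit 76) (nat_lit 3999346998307) (nat_lit 11) (nat_lit 5) (nat_lit 13) (nat_lit 5) (nat_lit 12) (nat_lit 4) (nat_lit 359) (nat_lit 336) (nat_lit 205)) (XT.nd (nat_lit 78) (nat_lit 0) (nat_lit 0) (XT.lf (nat_lit 0) (nat_lit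 1822076827716) (nat_lit 152) (nat_lit 2748922062449) (nat_lit 0) (nat_lit 611618274865) (nat_lit 10) (nat_lit 5) (nat_lit 12) (nat_lit 4) (nat_lit 10) (nat_lit 4) (nat_lit 360) (nat_lit 336) (nat_lit 204)) (XT.lf (nat_lit 0) (nat_lit 3235976208344) (nat_lit 152) (nat_lit 499802907914) (nat_lit 0) (nat_lit 2025517653956) (nat_lit 10) (nat_lit 5) (nat_lit 12) (nat_lit 4) (nat_lit 10) (nat_lit 4) (nat_lit 361) (nat_lit 336) (nat_lit 203))))) (XT.nd (nat_lit 234) (nat_lit 76) (nat_lit 0) (XT.nd (nat_lit 78) (nat_lit 152) (nat_lit 0) (XT.lf (nat_lit 0) (nat_lit 2290610060943) (nat_lit 76) (nat_lit 2666199709872) (nat_lit 76) (nat_lit 1455741154150) (nat_lit 9) (nat_lit 4) (nat_lit 10) (nat_lit 5) (nat_lit 10) (nat_lit 4) (nat_lit 362) (nat_lit 336) (nat_lit 202)) (XT.nd (nat_lit 78) (nat_lit 152) (nat_lit 0) (XT.lf (nat_lit 0) (nat_lit 5555756000460) (nat_lit 76) (nat_lit 1406138425316) (nat_lit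 76) (nat_lit 195679868433) (nat_lit 9) (nat_lit 4) (nat_lit 10) (nat_lit 5) (nat_lit 10) (nat_lit 4) (nat_lit 363) (nat_lit 336) (nat_lit 201)) (XT.lf (nat_lit 0) (nat_lit 1205312482888) (nat_lit 152) (nat_lit 6638987721427) (nat_lit 0) (nat_lit 152739823851) (nat_lit 7) (nat_lit 5) (nat_lit 9) (nat_lit 4) (nat_lit 7) (nat_lit 4) (nat_lit 364) (nat_lit 336) (nat_lit 200)))) (XT.nd (nat_lit 78) (nat_lit 76) (nat_lit 0) (XT.lf (nat_lit 0) (nat_lit 2951097386413) (nat_lit 152) (nat_lit 4088204157227) (nat_lit 0) (nat_lit 1898524726613) (nat_lit 7) (nat_lit 5) (nat_lit 9) (nat_lit 4) (nat_lit 7) (nat_lit 4) (nat_lit 365) (nat_lit 336) (nat_lit 199)) (XT.nd (nat_lit 78) (nat_lit 76) (nat_lit 0) (XT.lf (nat_lit 0) (nat_lit 4958750023131) (nat_lit 152) (nat_lit 1154803063205) (nat_lit 0) (nat_lit 3906177362666) (nat_lit 7) (nat_lit 5) (nat_lit 9) (nat_lit 4) (nat_lit 7) (nat_lit 4) (nat_lit 366)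 (nat_lit 336) (nat_lit 198)) (XT.lf (nat_lit 0) (nat_lit 2435426718469) (nat_lit 76) (nat_lit 4932969661707) (nat_lit 76) (nat_lit 3880397000665) (nat_lit 6) (nat_lit 4) (nat_lit 7) (nat_lit 5) (nat_lit 7) (nat_lit 4) (nat_lit 367) (nat_lit 336) (nat_lit 197)))))) (XT.nd (nat_lit 390) (nat_lit 76) (nat_lit 0) (XT.nd (nat_lit 156) (nat_lit 152) (nat_lit 0) (XT.nd (nat_lit 78) (nat_lit 0) (nat_lit 0) (XT.lf (nat_lit 0) (nat_lit 6693975080393) (nat_lit 76) (nat_lit 3505879314030) (nat_lit 76) (nat_lit 2453306652487) (nat_lit 6) (nat_lit 4) (nat_lit 7) (nat_lit 5) (nat_lit 7) (nat_lit 4) (nat_lit 368) (nat_lit 336) (nat_lit 196)) (XT.lf (nat_lit 0) (nat_lit 11591305693135) (nat_lit 76) (nat_lit 1864725415993) (nat_lit 76) (nat_lit 812152754013) (nat_lit 6) (nat_lit 4) (nat_lit 7) (nat_lit 5) (nat_lit 7) (nat_lit 4) (nat_lit 369) (nat_lit 336) (nat_lit 195))) (XT.nd (nat_lit 78) (nat_lit 0)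 (nat_lit 0) (XT.lf (nat_lit 0) (nat_lit 1032665703228) (nat_lit 152) (nat_lit 14960749532689) (nat_lit 0) (nat_lit 117385127263) (nat_lit 4) (nat_lit 5) (nat_lit 6) (nat_lit 4) (nat_lit 4) (nat_lit 4) (nat_lit 370) (nat_lit 336) (nat_lit 194)) (XT.nd (nat_lit 78) (nat_lit 0) (nat_lit 0) (XT.lf (nat_lit 0) (nat_lit 3306445350886) (nat_lit 152) (nat_lit 12491090012463) (nat_lit 0) (nat_lit 2391164774634) (nat_lit 4) (nat_lit 5) (nat_lit 6) (nat_lit 4) (nat_lit 4) (nat_lit 4) (nat_lit 371) (nat_lit 336) (nat_lit 193)) (XT.lf (nat_lit 0) (nat_lit 5921291944371) (nat_lit 152) (nat_lit 9650981566967) (nat_lit 0) (nat_lit 5006011367869) (nat_lit 4) (nat_lit 5) (nat_lit 6) (nat_lit 4) (nat_lit 4) (nat_lit 4) (nat_lit 372) (nat_lit 336) (nat_lit 192))))) (XT.nd (nat_lit 234) (nat_lit 0) (nat_lit 0) (XT.nd (nat_lit 78) (nat_lit 76) (nat_lit 0) (XT.lf (nat_lit 0) (nat_lit 8928365525728) (nat_lit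 152) (nat_lit 6384856857049) (nat_lit 0) (nat_lit 8013084949010) (nat_lit 4) (nat_lit 5) (nat_lit 6) (nat_lit 4) (nat_lit 4) (nat_lit 4) (nat_lit 373) (nat_lit 336) (nat_lit 191)) (XT.nd (nat_lit 78) (nat_lit 76) (nat_lit 0) (XT.lf (nat_lit 0) (nat_lit 12386500143289) (nat_lit 152) (nat_lit 2628813442733) (nat_lit 0) (nat_lit 11471219566382) (nat_lit 4) (nat_lit 5) (nat_lit 6) (nat_lit 4) (nat_lit 4) (nat_lit 4) (nat_lit 374) (nat_lit 336) (nat_lit 190)) (XT.lf (nat_lit 0) (nat_lit 1855857774464) (nat_lit 76) (nat_lit 14584344290964) (nat_lit 76) (nat_lit 13669063713893) (nat_lit 3) (nat_lit 4) (nat_lit 4) (nat_lit 5) (nat_lit 4) (nat_lit 4) (nat_lit 375) (nat_lit 336) (nat_lit 189)))) (XT.nd (nat_lit 78) (nat_lit 0) (nat_lit 0) (XT.lf (nat_lit 0) (nat_lit 7308672456014) (nat_lit 76) (nat_lit 13930702067190) (nat_lit 76) (nat_lit 13015421489976) (nat_lit 3) (nat_lit 4) (nat_lit 4) (nat_lit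 5) (nat_lit 4) (nat_lit 4) (nat_lit 376) (nat_lit 336) (nat_lit 188)) (XT.nd (nat_lit 78) (nat_lit 0) (nat_lit 0) (XT.lf (nat_lit 0) (nat_lit 13579409338288) (nat_lit 76) (nat_lit 13179013510637) (nat_lit 76) (nat_lit 12263732933299) (nat_lit 3) (nat_lit 4) (nat_lit 4) (nat_lit 5) (nat_lit 4) (nat_lit 4) (nat_lit 377) (nat_lit 336) (nat_lit 187)) (XT.lf (nat_lit 0) (nat_lit 20790756751592) (nat_lit 76) (nat_lit 12314571671287) (nat_lit 76) (nat_lit 11399291093841) (nat_lit 3) (nat_lit 4) (nat_lit 4) (nat_lit 5) (nat_lit 4) (nat_lit 4) (nat_lit 378) (nat_lit 336) (nat_lit 186))))))))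
noncomputable def xc106 : XT := (XT.nd (nat_lit 1716) (nat_lit 760) (nat_lit 0) (XT.nd (nat_lit 858) (nat_lit 684) (nat_lit 0) (XT.nd (nat_lit 390) (nat_lit 456) (nat_lit 0) (XT.nd (nat_lit 156) (nat_lit 0) (nat_lit 76) (XT.nd (nat_lit 78) (nat_lit 0) (nat_lit 0) (XT.lf (nat_lit 0) (nat_lit 86459229161) (nat_lit 380) (nat_lit 135497017198) (nat_lit 380) (nat_lit 135497017198) (nat_lit 28) (nat_lit 3) (nat_lit 33) (nat_lit 3) (nat_lit 33) (nat_lit 5) (nat_lit 337) (nat_lit 337) (nat_lit 226)) (XT.lf (nat_lit 76) (nat_lit 83377854728) (nat_lit 0) (nat_lit 105962104819) (nat_lit 380) (nat_lit 578666664378) (nat_lit 29) (nat_lit 5) (nat_lit 28) (nat_lit 3) (nat_lit 33) (nat_lit 5) (nat_lit 338) (nat_lit 337) (nat_lit 225))) (XT.nd (nat_lit 78) (nat_lit 0) (nat_lit 0) (XT.lf (nat_lit 0) (nat_lit 234770025116) (nat_lit 304) (nat_lit 317965114270) (nat_lit 380) (nat_lit 272354795031) (nat_lit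 29) (nat_lit 5) (nat_lit 33) (nat_lit 5) (nat_lit 34) (nat_lit 5) (nat_lit 339) (nat_lit 337) (nat_lit 224)) (XT.nd (nat_lit 78) (nat_lit 0) (nat_lit 76) (XT.lf (nat_lit 76) (nat_lit 108293276022) (nat_lit 0) (nat_lit 188251314236) (nat_lit 380) (nat_lit 592761652795) (nat_lit 30) (nat_lit 5) (nat_lit 29) (nat_lit 5) (nat_lit 34) (nat_lit 5) (nat_lit 340) (nat_lit 337) (nat_lit 223)) (XT.lf (nat_lit 0) (nat_lit 394558986154) (nat_lit 304) (nat_lit 336789269977) (nat_lit 76) (nat_lit 227760694982) (nat_lit 30) (nat_lit 5) (nat_lit 34) (nat_lit 5) (nat_lit 31) (nat_lit 5) (nat_lit 341) (nat_lit 337) (nat_lit 222))))) (XT.nd (nat_lit 234) (nat_lit 152) (nat_lit 0) (XT.nd (nat_lit 78) (nat_lit 152) (nat_lit 0) (XT.lf (nat_lit 0) (nat_lit 181238745291) (nat_lit 304) (nat_lit 342505840066) (nat_lit 380) (nat_lit 513167123460) (nat_lit 26) (nat_lit 5) (nat_lit 30) (nat_lit 5) (nat_lit 31) (nat_lit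 5) (nat_lit 342) (nat_lit 337) (nat_lit 221)) (XT.nd (nat_lit 78) (nat_lit 152) (nat_lit 0) (XT.lf (nat_lit 0) (nat_lit 695085102395) (nat_lit 380) (nat_lit 314094874994) (nat_lit 76) (nat_lit 113788341113) (nat_lit 26) (nat_lit 5) (nat_lit 31) (nat_lit 5) (nat_lit 27) (nat_lit 5) (nat_lit 343) (nat_lit 337) (nat_lit 220)) (XT.lf (nat_lit 0) (nat_lit 320986553922) (nat_lit 152) (nat_lit 600741302311) (nat_lit 228) (nat_lit 295765389539) (nat_lit 24) (nat_lit 5) (nat_lit 26) (nat_lit 5) (nat_lit 27) (nat_lit 5) (nat_lit 344) (nat_lit 337) (nat_lit 219)))) (XT.nd (nat_lit 78) (nat_lit 152) (nat_lit 0) (XT.lf (nat_lit 0) (nat_lit 1086630164962) (nat_lit 152) (nat_lit 112155443511) (nat_lit 228) (nat_lit 124948515876) (nat_lit 24) (nat_lit 5) (nat_lit 26) (nat_lit 5) (nat_lit 27) (nat_lit 5) (nat_lit 345) (nat_lit 337) (nat_lit 218)) (XT.nd (nat_lit 78) (nat_lit 0) (nat_lit 0) (XT.lf (nat_lit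 0) (nat_lit 108567625778) (nat_lit 152) (nat_lit 892922234884) (nat_lit 76) (nat_lit 437461028739) (nat_lit 22) (nat_lit 5) (nat_lit 24) (nat_lit 5) (nat_lit 23) (nat_lit 5) (nat_lit 346) (nat_lit 337) (nat_lit 217)) (XT.lf (nat_lit 0) (nat_lit 382643831605) (nat_lit 152) (nat_lit 108193517812) (nat_lit 76) (nat_lit 1076971581757) (nat_lit 22) (nat_lit 5) (nat_lit 24) (nat_lit 5) (nat_lit 23) (nat_lit 5) (nat_lit 347) (nat_lit 337) (nat_lit 216)))))) (XT.nd (nat_lit 390) (nat_lit 304) (nat_lit 0) (XT.nd (nat_lit 156) (nat_lit 152) (nat_lit 0) (XT.nd (nat_lit 78) (nat_lit 76) (nat_lit 0) (XT.lf (nat_lit 0) (nat_lit 739644885227) (nat_lit 228) (nat_lit 844427935099) (nat_lit 76) (nat_lit 125650846357) (nat_lit 20) (nat_lit 5) (nat_lit 23) (nat_lit 5) (nat_lit 21) (nat_lit 4) (nat_lit 348) (nat_lit 337) (nat_lit 215)) (XT.lf (nat_lit 0) (nat_lit 111142730202) (nat_lit 76) (nat_lit 1072953633070)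 (nat_lit 152) (nat_lit 683744209298) (nat_lit 19) (nat_lit 5) (nat_lit 20) (nat_lit 5) (nat_lit 21) (nat_lit 4) (nat_lit 349) (nat_lit 337) (nat_lit 214))) (XT.nd (nat_lit 78) (nat_lit 152) (nat_lit 0) (XT.lf (nat_lit 0) (nat_lit 1304951169145) (nat_lit 76) (nat_lit 434404938223) (nat_lit 152) (nat_lit 303697825327) (nat_lit 19) (nat_lit 5) (nat_lit 20) (nat_lit 5) (nat_lit 21) (nat_lit 4) (nat_lit 350) (nat_lit 337) (nat_lit 213)) (XT.nd (nat_lit 78) (nat_lit 0) (nat_lit 0) (XT.lf (nat_lit 0) (nat_lit 154535033786) (nat_lit 152) (nat_lit 1784849217484) (nat_lit 76) (nat_lit 299378988276) (nat_lit 17) (nat_lit 5) (nat_lit 19) (nat_lit 5) (nat_lit 18) (nat_lit 4) (nat_lit 351) (nat_lit 337) (nat_lit 212)) (XT.lf (nat_lit 0) (nat_lit 711515805885) (nat_lit 152) (nat_lit 587340564615) (nat_lit 76) (nat_lit 1153637423241) (nat_lit 17) (nat_lit 5) (nat_lit 19) (nat_lit 5) (nat_lit 18) (nat_lit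 4) (nat_lit 352) (nat_lit 337) (nat_lit 211))))) (XT.nd (nat_lit 234) (nat_lit 152) (nat_lit 0) (XT.nd (nat_lit 78) (nat_lit 76) (nat_lit 0) (XT.lf (nat_lit 0) (nat_lit 866978827504) (nat_lit 76) (nat_lit 520964605511) (nat_lit 152) (nat_lit 1304955537171) (nat_lit 16) (nat_lit 5) (nat_lit 17) (nat_lit 5) (nat_lit 18) (nat_lit 4) (nat_lit 353) (nat_lit 337) (nat_lit 210)) (XT.nd (nat_lit 78) (nat_lit 76) (nat_lit 0) (XT.lf (nat_lit 0) (nat_lit 2213469518887) (nat_lit 152) (nat_lit 376236876286) (nat_lit 0) (nat_lit 372513380729) (nat_lit 16) (nat_lit 5) (nat_lit 18) (nat_lit 4) (nat_lit 16) (nat_lit 4) (nat_lit 354) (nat_lit 337) (nat_lit 209)) (XT.lf (nat_lit 0) (nat_lit 1389822657348) (nat_lit 76) (nat_lit 1855359286705) (nat_lit 76) (nat_lit 14403144462) (nat_lit 15) (nat_lit 4) (nat_lit 16) (nat_lit 5) (nat_lit 16) (nat_lit 4) (nat_lit 355) (nat_lit 337) (nat_lit 208)))) (XT.nd (nat_lit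 78) (nat_lit 76) (nat_lit 0) (XT.lf (nat_lit 0) (nat_lit 776798589391) (nat_lit 152) (nat_lit 170839178603) (nat_lit 76) (nat_lit 2645671037486) (nat_lit 14) (nat_lit 5) (nat_lit 16) (nat_lit 5) (nat_lit 15) (nat_lit 4) (nat_lit 356) (nat_lit 337) (nat_lit 207)) (XT.nd (nat_lit 78) (nat_lit 0) (nat_lit 0) (XT.lf (nat_lit 0) (nat_lit 1774092220903) (nat_lit 152) (nat_lit 2016302255608) (nat_lit 0) (nat_lit 173260787092) (nat_lit 13) (nat_lit 5) (nat_lit 15) (nat_lit 4) (nat_lit 13) (nat_lit 4) (nat_lit 357) (nat_lit 337) (nat_lit 206)) (XT.lf (nat_lit 0) (nat_lit 2975460980284) (nat_lit 152) (nat_lit 31291003554) (nat_lit 0) (nat_lit 1374629544137) (nat_lit 13) (nat_lit 5) (nat_lit 15) (nat_lit 4) (nat_lit 13) (nat_lit 4) (nat_lit 358) (nat_lit 337) (nat_lit 205))))))) (XT.nd (nat_lit 858) (nat_lit 228) (nat_lit 0) (XT.nd (nat_lit 390) (nat_lit 228) (nat_lit 0) (XT.nd (nat_lit 156) (nat_lit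 152) (nat_lit 0) (XT.nd (nat_lit 78) (nat_lit 76) (nat_lit 0) (XT.lf (nat_lit 0) (nat_lit 2471502141416) (nat_lit 76) (nat_lit 1987872542135) (nat_lit 76) (nat_lit 387041103958) (nat_lit 12) (nat_lit 4) (nat_lit 13) (nat_lit 5) (nat_lit 13) (nat_lit 4) (nat_lit 359) (nat_lit 337) (nat_lit 204)) (XT.lf (nat_lit 0) (nat_lit 716527035810) (nat_lit 152) (nat_lit 60298312950) (nat_lit 76) (nat_lit 4599249076146) (nat_lit 11) (nat_lit 5) (nat_lit 13) (nat_lit 5) (nat_lit 12) (nat_lit 4) (nat_lit 360) (nat_lit 337) (nat_lit 203))) (XT.nd (nat_lit 78) (nat_lit 76) (nat_lit 0) (XT.lf (nat_lit 0) (nat_lit 2095388385635) (nat_lit 152) (nat_lit 3161260303857) (nat_lit 0) (nat_lit 703361045219) (nat_lit 10) (nat_lit 5) (nat_lit 12) (nat_lit 4) (nat_lit 10) (nat_lit 4) (nat_lit 361) (nat_lit 337) (nat_lit 202)) (XT.nd (nat_lit 78) (nat_lit 76) (nat_lit 0) (XT.lf (nat_lit 0) (nat_lit 3721372668952) (nat_lit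 152) (nat_lit 574773285006) (nat_lit 0) (nat_lit 2329345327376) (nat_lit 10) (nat_lit 5) (nat_lit 12) (nat_lit 4) (nat_lit 10) (nat_lit 4) (nat_lit 362) (nat_lit 337) (nat_lit 201)) (XT.lf (nat_lit 0) (nat_lit 2634201626493) (nat_lit 76) (nat_lit 3066129637807) (nat_lit 76) (nat_lit 1674102295221) (nat_lit 9) (nat_lit 4) (nat_lit 10) (nat_lit 5) (nat_lit 10) (nat_lit 4) (nat_lit 363) (nat_lit 337) (nat_lit 200))))) (XT.nd (nat_lit 234) (nat_lit 76) (nat_lit 0) (XT.nd (nat_lit 78) (nat_lit 152) (nat_lit 0) (XT.lf (nat_lit 0) (nat_lit 6389119449581) (nat_lit 76) (nat_lit 1617059164292) (nat_lit 76) (nat_lit 225031820828) (nat_lit 9) (nat_lit 4) (nat_lit 10) (nat_lit 5) (nat_lit 10) (nat_lit 4) (nat_lit 364) (nat_lit 337) (nat_lit 199)) (XT.nd (nat_lit 78) (nat_lit 0) (nat_lit 0) (XT.lf (nat_lit 0) (nat_lit 1386109380475) (nat_lit 152) (nat_lit 7634835827862) (nat_lit 0) (nat_lit 175650820277)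 (nat_lit 7) (nat_lit 5) (nat_lit 9) (nat_lit 4) (nat_lit 7) (nat_lit 4) (nat_lit 365) (nat_lit 337) (nat_lit 198)) (XT.lf (nat_lit 0) (nat_lit 3393762016248) (nat_lit 152) (nat_lit 4701434735785) (nat_lit 0) (nat_lit 2183303455472) (nat_lit 7) (nat_lit 5) (nat_lit 9) (nat_lit 4) (nat_lit 7) (nat_lit 4) (nat_lit 366) (nat_lit 337) (nat_lit 197)))) (XT.nd (nat_lit 78) (nat_lit 76) (nat_lit 0) (XT.lf (nat_lit 0) (nat_lit 5702562545620) (nat_lit 152) (nat_lit 1328023483533) (nat_lit 0) (nat_lit 4492103984343) (nat_lit 7) (nat_lit 5) (nat_lit 9) (nat_lit 4) (nat_lit 7) (nat_lit 4) (nat_lit 367) (nat_lit 337) (nat_lit 196)) (XT.nd (nat_lit 78) (nat_lit 0) (nat_lit 0) (XT.lf (nat_lit 0) (nat_lit 2800740763612) (nat_lit 76) (nat_lit 5672915091676) (nat_lit 76) (nat_lit 4462456529963) (nat_lit 6) (nat_lit 4) (nat_lit 7) (nat_lit 5) (nat_lit 7) (nat_lit 4) (nat_lit 368) (nat_lit 337) (nat_lit 195))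 (XT.lf (nat_lit 0) (nat_lit 7698071374950) (nat_lit 76) (nat_lit 4031761194364) (nat_lit 76) (nat_lit 2821302632271) (nat_lit 6) (nat_lit 4) (nat_lit 7) (nat_lit 5) (nat_lit 7) (nat_lit 4) (nat_lit 369) (nat_lit 337) (nat_lit 194)))))) (XT.nd (nat_lit 390) (nat_lit 76) (nat_lit 0) (XT.nd (nat_lit 156) (nat_lit 0) (nat_lit 0) (XT.nd (nat_lit 78) (nat_lit 152) (nat_lit 0) (XT.lf (nat_lit 0) (nat_lit 13330001575364) (nat_lit 76) (nat_lit 2144434213809) (nat_lit 76) (nat_lit 933975651386) (nat_lit 6) (nat_lit 4) (nat_lit 7) (nat_lit 5) (nat_lit 7) (nat_lit 4) (nat_lit 370) (nat_lit 337) (nat_lit 193)) (XT.lf (nat_lit 0) (nat_lit 1187565572953) (nat_lit 152) (nat_lit 17204861932840) (nat_lit 0) (nat_lit 134992909726) (nat_lit 4) (nat_lit 5) (nat_lit 6) (nat_lit 4) (nat_lit 4) (nat_lit 4) (nat_lit 371) (nat_lit 337) (nat_lit 192))) (XT.nd (nat_lit 78) (nat_lit 0) (nat_lit 0) (XT.lf (nat_lit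 0) (nat_lit 3802412165902) (nat_lit 152) (nat_lit 14364753488461) (nat_lit 0) (nat_lit 2749839502459) (nat_lit 4) (nat_lit 5) (nat_lit 6) (nat_lit 4) (nat_lit 4) (nat_lit 4) (nat_lit 372) (nat_lit 337) (nat_lit 191)) (XT.nd (nat_lit 78) (nat_lit 0) (nat_lit 0) (XT.lf (nat_lit 0) (nat_lit 6809485746794) (nat_lit 152) (nat_lit 11098628779515) (nat_lit 0) (nat_lit 5756913083163) (nat_lit 4) (nat_lit 5) (nat_lit 6) (nat_lit 4) (nat_lit 4) (nat_lit 4) (nat_lit 373) (nat_lit 337) (nat_lit 190)) (XT.lf (nat_lit 0) (nat_lit 10267620363951) (nat_lit 152) (nat_lit 7342585366044) (nat_lit 0) (nat_lit 9215047700155) (nat_lit 4) (nat_lit 5) (nat_lit 6) (nat_lit 4) (nat_lit 4) (nat_lit 4) (nat_lit 374) (nat_lit 337) (nat_lit 189))))) (XT.nd (nat_lit 234) (nat_lit 0) (nat_lit 0) (XT.nd (nat_lit 78) (nat_lit 76) (nat_lit 0) (XT.lf (nat_lit 0) (nat_lit 14244475172924) (nat_lit 152) (nat_lit 3023135442132)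 (nat_lit 0) (nat_lit 13191902508986) (nat_lit 4) (nat_lit 5) (nat_lit 6) (nat_lit 4) (nat_lit 4) (nat_lit 4) (nat_lit 375) (nat_lit 337) (nat_lit 188)) (XT.nd (nat_lit 78) (nat_lit 0) (nat_lit 0) (XT.lf (nat_lit 0) (nat_lit 2134236456871) (nat_lit 76) (nat_lit 16771995926124) (nat_lit 76) (nat_lit 15719423262061) (nat_lit 3) (nat_lit 4) (nat_lit 4) (nat_lit 5) (nat_lit 4) (nat_lit 4) (nat_lit 376) (nat_lit 337) (nat_lit 187)) (XT.lf (nat_lit 0) (nat_lit 8404973338536) (nat_lit 76) (nat_lit 16020307369890) (nat_lit 76) (nat_lit 14967734705719) (nat_lit 3) (nat_lit 4) (nat_lit 4) (nat_lit 5) (nat_lit 4) (nat_lit 4) (nat_lit 377) (nat_lit 337) (nat_lit 186)))) (XT.nd (nat_lit 43758) (nat_lit 0) (nat_lit 1900) (XT.lf (nat_lit 0) (nat_lit 15616320751310) (nat_lit 76) (nat_lit 15155865530816) (nat_lit 76) (nat_lit 14103292866552) (nat_lit 3) (nat_lit 4) (nat_lit 4) (nat_lit 5) (nat_lit 4) (nat_lit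 4) (nat_lit 378) (nat_lit 337) (nat_lit 185)) (XT.nd (nat_lit 78) (nat_lit 0) (nat_lit 0) (XT.lf (nat_lit 0) (nat_lit 99428226352) (nat_lit 380) (nat_lit 155821504814) (nat_lit 380) (nat_lit 155821504814) (nat_lit 28) (nat_lit 3) (nat_lit 33) (nat_lit 3) (nat_lit 33) (nat_lit 5) (nat_lit 338) (nat_lit 338) (nat_lit 224)) (XT.lf (nat_lit 76) (nat_lit 95884656960) (nat_lit 0) (nat_lit 121856497859) (nat_lit 380) (nat_lit 665466432166) (nat_lit 29) (nat_lit 5) (nat_lit 28) (nat_lit 3) (nat_lit 33) (nat_lit 5) (nat_lit 339) (nat_lit 338) (nat_lit 223))))))))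
noncomputable def xc107 : XT := (XT.nd (nat_lit 1716) (nat_lit 608) (nat_lit 0) (XT.nd (nat_lit 858) (nat_lit 608) (nat_lit 0) (XT.nd (nat_lit 390) (nat_lit 532) (nat_lit 0) (XT.nd (nat_lit 156) (nat_lit 228) (nat_lit 0) (XT.nd (nat_lit 78) (nat_lit 0) (nat_lit 0) (XT.lf (nat_lit 0) (nat_lit 269985701178) (nat_lit 304) (nat_lit 365659744234) (nat_lit 380) (nat_lit 313207953039) (nat_lit 29) (nat_lit 5) (nat_lit 33) (nat_lit 5) (nat_lit 34) (nat_lit 5) (nat_lit 340) (nat_lit 338) (nat_lit 222)) (XT.lf (nat_lit 76) (nat_lit 124537398366) (nat_lit 0) (nat_lit 216489035674) (nat_lit 380) (nat_lit 681675721937) (nat_lit 30) (nat_lit 5) (nat_lit 29) (nat_lit 5) (nat_lit 34) (nat_lit 5) (nat_lit 341) (nat_lit 338) (nat_lit 221))) (XT.nd (nat_lit 78) (nat_lit 304) (nat_lit 0) (XT.lf (nat_lit 0) (nat_lit 453742968196) (nat_lit 304) (nat_lit 387307525272) (nat_lit 76) (nat_lit 261924779978) (nat_lit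 30) (nat_lit 5) (nat_lit 34) (nat_lit 5) (nat_lit 31) (nat_lit 5) (nat_lit 342) (nat_lit 338) (nat_lit 220)) (XT.nd (nat_lit 78) (nat_lit 0) (nat_lit 0) (XT.lf (nat_lit 0) (nat_lit 208424686140) (nat_lit 304) (nat_lit 393881708989) (nat_lit 380) (nat_lit 590142051527) (nat_lit 26) (nat_lit 5) (nat_lit 30) (nat_lit 5) (nat_lit 31) (nat_lit 5) (nat_lit 343) (nat_lit 338) (nat_lit 219)) (XT.lf (nat_lit 0) (nat_lit 799347974070) (nat_lit 380) (nat_lit 361208978205) (nat_lit 76) (nat_lit 130856597894) (nat_lit 26) (nat_lit 5) (nat_lit 31) (nat_lit 5) (nat_lit 27) (nat_lit 5) (nat_lit 344) (nat_lit 338) (nat_lit 218))))) (XT.nd (nat_lit 234) (nat_lit 228) (nat_lit 0) (XT.nd (nat_lit 78) (nat_lit 152) (nat_lit 0) (XT.lf (nat_lit 0) (nat_lit 369134659230) (nat_lit 152) (nat_lit 690852472948) (nat_lit 228) (nat_lit 340130085693) (nat_lit 24) (nat_lit 5) (nat_lit 26) (nat_lit 5) (nat_lit 27) (nat_lit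 5) (nat_lit 345) (nat_lit 338) (nat_lit 217)) (XT.nd (nat_lit 78) (nat_lit 152) (nat_lit 0) (XT.lf (nat_lit 0) (nat_lit 1249624795983) (nat_lit 152) (nat_lit 128978738551) (nat_lit 228) (nat_lit 143690695626) (nat_lit 24) (nat_lit 5) (nat_lit 26) (nat_lit 5) (nat_lit 27) (nat_lit 5) (nat_lit 346) (nat_lit 338) (nat_lit 216)) (XT.lf (nat_lit 0) (nat_lit 124852852690) (nat_lit 152) (nat_lit 1026860449052) (nat_lit 76) (nat_lit 503080208519) (nat_lit 22) (nat_lit 5) (nat_lit 24) (nat_lit 5) (nat_lit 23) (nat_lit 5) (nat_lit 347) (nat_lit 338) (nat_lit 215)))) (XT.nd (nat_lit 78) (nat_lit 228) (nat_lit 0) (XT.lf (nat_lit 0) (nat_lit 440040478559) (nat_lit 152) (nat_lit 124422440211) (nat_lit 76) (nat_lit 1238517341167) (nat_lit 22) (nat_lit 5) (nat_lit 24) (nat_lit 5) (nat_lit 23) (nat_lit 5) (nat_lit 348) (nat_lit 338) (nat_lit 214)) (XT.nd (nat_lit 78) (nat_lit 76) (nat_lit 0) (XT.lf (nat_lit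 0) (nat_lit 850591686355) (nat_lit 228) (nat_lit 971092016151) (nat_lit 76) (nat_lit 144498503858) (nat_lit 20) (nat_lit 5) (nat_lit 23) (nat_lit 5) (nat_lit 21) (nat_lit 4) (nat_lit 349) (nat_lit 338) (nat_lit 213)) (XT.lf (nat_lit 0) (nat_lit 127814243982) (nat_lit 76) (nat_lit 1233896637527) (nat_lit 152) (nat_lit 786305767324) (nat_lit 19) (nat_lit 5) (nat_lit 20) (nat_lit 5) (nat_lit 21) (nat_lit 4) (nat_lit 350) (nat_lit 338) (nat_lit 212)))))) (XT.nd (nat_lit 390) (nat_lit 380) (nat_lit 0) (XT.nd (nat_lit 156) (nat_lit 76) (nat_lit 0) (XT.nd (nat_lit 78) (nat_lit 152) (nat_lit 0) (XT.lf (nat_lit 0) (nat_lit 1500693935168) (nat_lit 76) (nat_lit 499565643737) (nat_lit 152) (nat_lit 349252435327) (nat_lit 19) (nat_lit 5) (nat_lit 20) (nat_lit 5) (nat_lit 21) (nat_lit 4) (nat_lit 351) (nat_lit 338) (nat_lit 211)) (XT.lf (nat_lit 0) (nat_lit 177715344761) (nat_lit 152) (nat_lit 2052576501476)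 (nat_lit 76) (nat_lit 344285870814) (nat_lit 17) (nat_lit 5) (nat_lit 19) (nat_lit 5) (nat_lit 18) (nat_lit 4) (nat_lit 352) (nat_lit 338) (nat_lit 210))) (XT.nd (nat_lit 78) (nat_lit 76) (nat_lit 0) (XT.lf (nat_lit 0) (nat_lit 818243225383) (nat_lit 152) (nat_lit 675441563542) (nat_lit 76) (nat_lit 1326683066550) (nat_lit 17) (nat_lit 5) (nat_lit 19) (nat_lit 5) (nat_lit 18) (nat_lit 4) (nat_lit 353) (nat_lit 338) (nat_lit 209)) (XT.nd (nat_lit 78) (nat_lit 0) (nat_lit 0) (XT.lf (nat_lit 0) (nat_lit 997025733497) (nat_lit 76) (nat_lit 599109260135) (nat_lit 152) (nat_lit 1500698815203) (nat_lit 16) (nat_lit 5) (nat_lit 17) (nat_lit 5) (nat_lit 18) (nat_lit 4) (nat_lit 354) (nat_lit 338) (nat_lit 208)) (XT.lf (nat_lit 0) (nat_lit 2545489987732) (nat_lit 152) (nat_lit 432672331861) (nat_lit 0) (nat_lit 428390416516) (nat_lit 16) (nat_lit 5) (nat_lit 18) (nat_lit 4) (nat_lit 16) (nat_lit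 4) (nat_lit 355) (nat_lit 338) (nat_lit 207))))) (XT.nd (nat_lit 234) (nat_lit 152) (nat_lit 0) (XT.nd (nat_lit 78) (nat_lit 152) (nat_lit 0) (XT.lf (nat_lit 0) (nat_lit 1598296128370) (nat_lit 76) (nat_lit 2133663145952) (nat_lit 76) (nat_lit 16563571648) (nat_lit 15) (nat_lit 4) (nat_lit 16) (nat_lit 5) (nat_lit 16) (nat_lit 4) (nat_lit 356) (nat_lit 338) (nat_lit 206)) (XT.nd (nat_lit 78) (nat_lit 76) (nat_lit 0) (XT.lf (nat_lit 0) (nat_lit 893318413036) (nat_lit 152) (nat_lit 196464988960) (nat_lit 76) (nat_lit 3042521719003) (nat_lit 14) (nat_lit 5) (nat_lit 16) (nat_lit 5) (nat_lit 15) (nat_lit 4) (nat_lit 357) (nat_lit 338) (nat_lit 205)) (XT.lf (nat_lit 0) (nat_lit 2040206088553) (nat_lit 152) (nat_lit 2318747526778) (nat_lit 0) (nat_lit 199249932619) (nat_lit 13) (nat_lit 5) (nat_lit 15) (nat_lit 4) (nat_lit 13) (nat_lit 4) (nat_lit 358) (nat_lit 338) (nat_lit 204)))) (XT.nd (nat_lit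 78) (nat_lit 152) (nat_lit 0) (XT.lf (nat_lit 0) (nat_lit 3421780157340) (nat_lit 152) (nat_lit 35984595678) (nat_lit 0) (nat_lit 1580823999640) (nat_lit 13) (nat_lit 5) (nat_lit 15) (nat_lit 4) (nat_lit 13) (nat_lit 4) (nat_lit 359) (nat_lit 338) (nat_lit 203)) (XT.nd (nat_lit 78) (nat_lit 76) (nat_lit 0) (XT.lf (nat_lit 0) (nat_lit 2842227518383) (nat_lit 76) (nat_lit 2286053396107) (nat_lit 76) (nat_lit 445097236872) (nat_lit 12) (nat_lit 4) (nat_lit 13) (nat_lit 5) (nat_lit 13) (nat_lit 4) (nat_lit 360) (nat_lit 338) (nat_lit 202)) (XT.lf (nat_lit 0) (nat_lit 824006117069) (nat_lit 152) (nat_lit 69343008872) (nat_lit 76) (nat_lit 5289136458810) (nat_lit 11) (nat_lit 5) (nat_lit 13) (nat_lit 5) (nat_lit 12) (nat_lit 4) (nat_lit 361) (nat_lit 338) (nat_lit 201))))))) (XT.nd (nat_lit 858) (nat_lit 76) (nat_lit 0) (XT.nd (nat_lit 390) (nat_lit 228) (nat_lit 0) (XT.nd (nat_lit 156) (nat_lit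 228) (nat_lit 0) (XT.nd (nat_lit 78) (nat_lit 0) (nat_lit 0) (XT.lf (nat_lit 0) (nat_lit 2409696669008) (nat_lit 152) (nat_lit 3635449298048) (nat_lit 0) (nat_lit 808865224024) (nat_lit 10) (nat_lit 5) (nat_lit 12) (nat_lit 4) (nat_lit 10) (nat_lit 4) (nat_lit 362) (nat_lit 338) (nat_lit 200)) (XT.lf (nat_lit 0) (nat_lit 4279578591494) (nat_lit 152) (nat_lit 660989233072) (nat_lit 0) (nat_lit 2678747145632) (nat_lit 10) (nat_lit 5) (nat_lit 12) (nat_lit 4) (nat_lit 10) (nat_lit 4) (nat_lit 363) (nat_lit 338) (nat_lit 199))) (XT.nd (nat_lit 78) (nat_lit 152) (nat_lit 0) (XT.lf (nat_lit 0) (nat_lit 3029331913121) (nat_lit 76) (nat_lit 3526049061894) (nat_lit 76) (nat_lit 1925217615269) (nat_lit 9) (nat_lit 4) (nat_lit 10) (nat_lit 5) (nat_lit 10) (nat_lit 4) (nat_lit 364) (nat_lit 338) (nat_lit 198)) (XT.nd (nat_lit 78) (nat_lit 152) (nat_lit 0) (XT.lf (nat_lit 0) (nat_lit 7347487404108)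 (nat_lit 76) (nat_lit 1859618020167) (nat_lit 76) (nat_lit 258786572878) (nat_lit 9) (nat_lit 4) (nat_lit 10) (nat_lit 5) (nat_lit 10) (nat_lit 4) (nat_lit 365) (nat_lit 338) (nat_lit 197)) (XT.lf (nat_lit 0) (nat_lit 1594025806566) (nat_lit 152) (nat_lit 8780061162889) (nat_lit 0) (nat_lit 201998460595) (nat_lit 7) (nat_lit 5) (nat_lit 9) (nat_lit 4) (nat_lit 7) (nat_lit 4) (nat_lit 366) (nat_lit 338) (nat_lit 196))))) (XT.nd (nat_lit 234) (nat_lit 152) (nat_lit 0) (XT.nd (nat_lit 78) (nat_lit 76) (nat_lit 0) (XT.lf (nat_lit 0) (nat_lit 3902826335224) (nat_lit 152) (nat_lit 5406649912107) (nat_lit 0) (nat_lit 2510798988817) (nat_lit 7) (nat_lit 5) (nat_lit 9) (nat_lit 4) (nat_lit 7) (nat_lit 4) (nat_lit 367) (nat_lit 338) (nat_lit 195)) (XT.nd (nat_lit 78) (nat_lit 76) (nat_lit 0) (XT.lf (nat_lit 0) (nat_lit 6557946941844) (nat_lit 152) (nat_lit 1527226976458) (nat_lit 0) (nat_lit 5165919595058)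 (nat_lit 7) (nat_lit 5) (nat_lit 9) (nat_lit 4) (nat_lit 7) (nat_lit 4) (nat_lit 368) (nat_lit 338) (nat_lit 194)) (XT.lf (nat_lit 0) (nat_lit 3220851906413) (nat_lit 76) (nat_lit 6523852340844) (nat_lit 76) (nat_lit 5131824993728) (nat_lit 6) (nat_lit 4) (nat_lit 7) (nat_lit 5) (nat_lit 7) (nat_lit 4) (nat_lit 369) (nat_lit 338) (nat_lit 193)))) (XT.nd (nat_lit 78) (nat_lit 152) (nat_lit 0) (XT.lf (nat_lit 0) (nat_lit 8852782105766) (nat_lit 76) (nat_lit 4636525360837) (nat_lit 76) (nat_lit 3244498013433) (nat_lit 6) (nat_lit 4) (nat_lit 7) (nat_lit 5) (nat_lit 7) (nat_lit 4) (nat_lit 370) (nat_lit 338) (nat_lit 192)) (XT.nd (nat_lit 78) (nat_lit 152) (nat_lit 0) (XT.lf (nat_lit 0) (nat_lit 15329501833037) (nat_lit 76) (nat_lit 2466099334853) (nat_lit 76) (nat_lit 1074071987200) (nat_lit 6) (nat_lit 4) (nat_lit 7) (nat_lit 5) (nat_lit 7) (nat_lit 4) (nat_lit 371) (nat_lit 338) (nat_lit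 191)) (XT.lf (nat_lit 0) (nat_lit 1365700419663) (nat_lit 152) (nat_lit 19785591200269) (nat_lit 0) (nat_lit 155241856298) (nat_lit 4) (nat_lit 5) (nat_lit 6) (nat_lit 4) (nat_lit 4) (nat_lit 4) (nat_lit 372) (nat_lit 338) (nat_lit 190)))))) (XT.nd (nat_lit 468) (nat_lit 0) (nat_lit 0) (XT.nd (nat_lit 234) (nat_lit 76) (nat_lit 0) (XT.nd (nat_lit 78) (nat_lit 0) (nat_lit 0) (XT.lf (nat_lit 0) (nat_lit 4372774000151) (nat_lit 152) (nat_lit 16519466492167) (nat_lit 0) (nat_lit 3162315436622) (nat_lit 4) (nat_lit 5) (nat_lit 6) (nat_lit 4) (nat_lit 4) (nat_lit 4) (nat_lit 373) (nat_lit 338) (nat_lit 189)) (XT.nd (nat_lit 78) (nat_lit 0) (nat_lit 0) (XT.lf (nat_lit 0) (nat_lit 7830908616956) (nat_lit 152) (nat_lit 12763423079431) (nat_lit 0) (nat_lit 6620450053284) (nat_lit 4) (nat_lit 5) (nat_lit 6) (nat_lit 4) (nat_lit 4) (nat_lit 4) (nat_lit 374) (nat_lit 338) (nat_lit 188)) (XT.lf (nat_lit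 0) (nat_lit 11807763425623) (nat_lit 152) (nat_lit 8443973156158) (nat_lit 0) (nat_lit 10597304861827) (nat_lit 4) (nat_lit 5) (nat_lit 6) (nat_lit 4) (nat_lit 4) (nat_lit 4) (nat_lit 375) (nat_lit 338) (nat_lit 187)))) (XT.nd (nat_lit 78) (nat_lit 76) (nat_lit 0) (XT.lf (nat_lit 0) (nat_lit 16381146455020) (nat_lit 152) (nat_lit 3476605745589) (nat_lit 0) (nat_lit 15170687891116) (nat_lit 4) (nat_lit 5) (nat_lit 6) (nat_lit 4) (nat_lit 4) (nat_lit 4) (nat_lit 376) (nat_lit 338) (nat_lit 186)) (XT.nd (nat_lit 78) (nat_lit 0) (nat_lit 0) (XT.lf (nat_lit 0) (nat_lit 2454371937680) (nat_lit 76) (nat_lit 19287795308626) (nat_lit 76) (nat_lit 18077336744628) (nat_lit 3) (nat_lit 4) (nat_lit 4) (nat_lit 5) (nat_lit 4) (nat_lit 4) (nat_lit 377) (nat_lit 338) (nat_lit 185)) (XT.lf (nat_lit 0) (nat_lit 9665719349993) (nat_lit 76) (nat_lit 18423353469794) (nat_lit 76) (nat_lit 17212894905714) (nat_lit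 3) (nat_lit 4) (nat_lit 4) (nat_lit 5) (nat_lit 4) (nat_lit 4) (nat_lit 378) (nat_lit 338) (nat_lit 184))))) (XT.nd (nat_lit 43914) (nat_lit 0) (nat_lit 1976) (XT.nd (nat_lit 43758) (nat_lit 0) (nat_lit 1900) (XT.lf (nat_lit 0) (nat_lit 17958768873290) (nat_lit 76) (nat_lit 17429245355587) (nat_lit 76) (nat_lit 16218786791437) (nat_lit 3) (nat_lit 4) (nat_lit 4) (nat_lit 5) (nat_lit 4) (nat_lit 4) (nat_lit 379) (nat_lit 338) (nat_lit 183)) (XT.nd (nat_lit 78) (nat_lit 0) (nat_lit 0) (XT.lf (nat_lit 0) (nat_lit 114342545612) (nat_lit 380) (nat_lit 179194681414) (nat_lit 380) (nat_lit 179194681414) (nat_lit 28) (nat_lit 3) (nat_lit 33) (nat_lit 3) (nat_lit 33) (nat_lit 5) (nat_lit 339) (nat_lit 339) (nat_lit 222)) (XT.lf (nat_lit 76) (nat_lit 110267449283) (nat_lit 0) (nat_lit 140135031001) (nat_lit 380) (nat_lit 765286221665) (nat_lit 29) (nat_lit 5) (nat_lit 28) (nat_lit 3) (nat_lit 33)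 (nat_lit 5) (nat_lit 340) (nat_lit 339) (nat_lit 221)))) (XT.nd (nat_lit 78) (nat_lit 0) (nat_lit 0) (XT.lf (nat_lit 0) (nat_lit 310483686634) (nat_lit 304) (nat_lit 420508602144) (nat_lit 380) (nat_lit 360189099683) (nat_lit 29) (nat_lit 5) (nat_lit 33) (nat_lit 5) (nat_lit 34) (nat_lit 5) (nat_lit 341) (nat_lit 339) (nat_lit 220)) (XT.nd (nat_lit 78) (nat_lit 0) (nat_lit 76) (XT.lf (nat_lit 76) (nat_lit 143218107131) (nat_lit 0) (nat_lit 248962409401) (nat_lit 380) (nat_lit 783926945047) (nat_lit 30) (nat_lit 5) (nat_lit 29) (nat_lit 5) (nat_lit 34) (nat_lit 5) (nat_lit 342) (nat_lit 339) (nat_lit 219)) (XT.lf (nat_lit 0) (nat_lit 521804514839) (nat_lit 304) (nat_lit 445403551832) (nat_lit 76) (nat_lit 301213482419) (nat_lit 30) (nat_lit 5) (nat_lit 34) (nat_lit 5) (nat_lit 31) (nat_lit 5) (nat_lit 343) (nat_lit 339) (nat_lit 218))))))))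
noncomputable def xc108 : XT := (XT.nd (nat_lit 1716) (nat_lit 608) (nat_lit 0) (XT.nd (nat_lit 858) (nat_lit 608) (nat_lit 0) (XT.nd (nat_lit 390) (nat_lit 380) (nat_lit 0) (XT.nd (nat_lit 156) (nat_lit 304) (nat_lit 0) (XT.nd (nat_lit 78) (nat_lit 0) (nat_lit 0) (XT.lf (nat_lit 0) (nat_lit 239688486646) (nat_lit 304) (nat_lit 452963959979) (nat_lit 380) (nat_lit 678663253055) (nat_lit 26) (nat_lit 5) (nat_lit 30) (nat_lit 5) (nat_lit 31) (nat_lit 5) (nat_lit 344) (nat_lit 339) (nat_lit 217)) (XT.lf (nat_lit 0) (nat_lit 919250250570) (nat_lit 380) (nat_lit 415390228120) (nat_lit 76) (nat_lit 150485091823) (nat_lit 26) (nat_lit 5) (nat_lit 31) (nat_lit 5) (nat_lit 27) (nat_lit 5) (nat_lit 345) (nat_lit 339) (nat_lit 216))) (XT.nd (nat_lit 78) (nat_lit 152) (nat_lit 0) (XT.lf (nat_lit 0) (nat_lit 424504950529) (nat_lit 152) (nat_lit 794480325206) (nat_lit 228) (nat_lit 391149513649) (nat_lit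 24) (nat_lit 5) (nat_lit 26) (nat_lit 5) (nat_lit 27) (nat_lit 5) (nat_lit 346) (nat_lit 339) (nat_lit 215)) (XT.nd (nat_lit 78) (nat_lit 152) (nat_lit 0) (XT.lf (nat_lit 0) (nat_lit 1437068595742) (nat_lit 152) (nat_lit 148325533087) (nat_lit 228) (nat_lit 165244226146) (nat_lit 24) (nat_lit 5) (nat_lit 26) (nat_lit 5) (nat_lit 27) (nat_lit 5) (nat_lit 347) (nat_lit 339) (nat_lit 214)) (XT.lf (nat_lit 0) (nat_lit 143580843387) (nat_lit 152) (nat_lit 1180889424868) (nat_lit 76) (nat_lit 578542259055) (nat_lit 22) (nat_lit 5) (nat_lit 24) (nat_lit 5) (nat_lit 23) (nat_lit 5) (nat_lit 348) (nat_lit 339) (nat_lit 213))))) (XT.nd (nat_lit 234) (nat_lit 152) (nat_lit 0) (XT.nd (nat_lit 78) (nat_lit 228) (nat_lit 0) (XT.lf (nat_lit 0) (nat_lit 506046604947) (nat_lit 152) (nat_lit 143085726641) (nat_lit 76) (nat_lit 1424294959089) (nat_lit 22) (nat_lit 5) (nat_lit 24) (nat_lit 5) (nat_lit 23)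 (nat_lit 5) (nat_lit 349) (nat_lit 339) (nat_lit 212)) (XT.nd (nat_lit 78) (nat_lit 76) (nat_lit 0) (XT.lf (nat_lit 0) (nat_lit 978180490986) (nat_lit 228) (nat_lit 1116755735993) (nat_lit 76) (nat_lit 166173302535) (nat_lit 20) (nat_lit 5) (nat_lit 23) (nat_lit 5) (nat_lit 21) (nat_lit 4) (nat_lit 350) (nat_lit 339) (nat_lit 211)) (XT.lf (nat_lit 0) (nat_lit 146986459406) (nat_lit 76) (nat_lit 1418981102530) (nat_lit 152) (nat_lit 904251576945) (nat_lit 19) (nat_lit 5) (nat_lit 20) (nat_lit 5) (nat_lit 21) (nat_lit 4) (nat_lit 351) (nat_lit 339) (nat_lit 210)))) (XT.nd (nat_lit 78) (nat_lit 152) (nat_lit 0) (XT.lf (nat_lit 0) (nat_lit 1725798093989) (nat_lit 76) (nat_lit 574500463666) (nat_lit 152) (nat_lit 401640252384) (nat_lit 19) (nat_lit 5) (nat_lit 20) (nat_lit 5) (nat_lit 21) (nat_lit 4) (nat_lit 352) (nat_lit 339) (nat_lit 209)) (XT.nd (nat_lit 78) (nat_lit 0) (nat_lit 0) (XT.lf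 (nat_lit 0) (nat_lit 204372688749) (nat_lit 152) (nat_lit 2360462902120) (nat_lit 76) (nat_lit 395928777369) (nat_lit 17) (nat_lit 5) (nat_lit 19) (nat_lit 5) (nat_lit 18) (nat_lit 4) (nat_lit 353) (nat_lit 339) (nat_lit 208)) (XT.lf (nat_lit 0) (nat_lit 940979745950) (nat_lit 152) (nat_lit 776757733223) (nat_lit 76) (nat_lit 1525685549084) (nat_lit 17) (nat_lit 5) (nat_lit 19) (nat_lit 5) (nat_lit 18) (nat_lit 4) (nat_lit 354) (nat_lit 339) (nat_lit 207)))))) (XT.nd (nat_lit 390) (nat_lit 304) (nat_lit 0) (XT.nd (nat_lit 156) (nat_lit 228) (nat_lit 0) (XT.nd (nat_lit 78) (nat_lit 0) (nat_lit 0) (XT.lf (nat_lit 0) (nat_lit 1146579655425) (nat_lit 76) (nat_lit 688975621781) (nat_lit 152) (nat_lit 1725803597753) (nat_lit 16) (nat_lit 5) (nat_lit 17) (nat_lit 5) (nat_lit 18) (nat_lit 4) (nat_lit 355) (nat_lit 339) (nat_lit 206)) (XT.lf (nat_lit 0) (nat_lit 2927313516902) (nat_lit 152) (nat_lit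 497573124273) (nat_lit 0) (nat_lit 492649000679) (nat_lit 16) (nat_lit 5) (nat_lit 18) (nat_lit 4) (nat_lit 16) (nat_lit 4) (nat_lit 356) (nat_lit 339) (nat_lit 205))) (XT.nd (nat_lit 78) (nat_lit 152) (nat_lit 0) (XT.lf (nat_lit 0) (nat_lit 1838040602384) (nat_lit 76) (nat_lit 2453712592319) (nat_lit 76) (nat_lit 19048073760) (nat_lit 15) (nat_lit 4) (nat_lit 16) (nat_lit 5) (nat_lit 16) (nat_lit 4) (nat_lit 357) (nat_lit 339) (nat_lit 204)) (XT.nd (nat_lit 78) (nat_lit 76) (nat_lit 0) (XT.lf (nat_lit 0) (nat_lit 1027316201636) (nat_lit 152) (nat_lit 225934687070) (nat_lit 76) (nat_lit 3498899996433) (nat_lit 14) (nat_lit 5) (nat_lit 16) (nat_lit 5) (nat_lit 15) (nat_lit 4) (nat_lit 358) (nat_lit 339) (nat_lit 203)) (XT.lf (nat_lit 0) (nat_lit 2346237027935) (nat_lit 152) (nat_lit 2666559605004) (nat_lit 0) (nat_lit 229137443279) (nat_lit 13) (nat_lit 5) (nat_lit 15) (nat_lit 4) (nat_lit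 13) (nat_lit 4) (nat_lit 359) (nat_lit 339) (nat_lit 202))))) (XT.nd (nat_lit 234) (nat_lit 152) (nat_lit 0) (XT.nd (nat_lit 78) (nat_lit 152) (nat_lit 0) (XT.lf (nat_lit 0) (nat_lit 3935047203635) (nat_lit 152) (nat_lit 41382240863) (nat_lit 0) (nat_lit 1817947617644) (nat_lit 13) (nat_lit 5) (nat_lit 15) (nat_lit 4) (nat_lit 13) (nat_lit 4) (nat_lit 360) (nat_lit 339) (nat_lit 201)) (XT.nd (nat_lit 78) (nat_lit 76) (nat_lit 0) (XT.lf (nat_lit 0) (nat_lit 3268561688300) (nat_lit 76) (nat_lit 2628961384845) (nat_lit 76) (nat_lit 511861797692) (nat_lit 12) (nat_lit 4) (nat_lit 13) (nat_lit 5) (nat_lit 13) (nat_lit 4) (nat_lit 361) (nat_lit 339) (nat_lit 200)) (XT.lf (nat_lit 0) (nat_lit 947607054203) (nat_lit 152) (nat_lit 79744421623) (nat_lit 76) (nat_lit 6082506943694) (nat_lit 11) (nat_lit 5) (nat_lit 13) (nat_lit 5) (nat_lit 12) (nat_lit 4) (nat_lit 362) (nat_lit 339) (nat_lit 199))))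 (XT.nd (nat_lit 78) (nat_lit 76) (nat_lit 0) (XT.lf (nat_lit 0) (nat_lit 2771151188663) (nat_lit 152) (nat_lit 4180766653899) (nat_lit 0) (nat_lit 930195024280) (nat_lit 10) (nat_lit 5) (nat_lit 12) (nat_lit 4) (nat_lit 10) (nat_lit 4) (nat_lit 363) (nat_lit 339) (nat_lit 198)) (XT.nd (nat_lit 78) (nat_lit 76) (nat_lit 0) (XT.lf (nat_lit 0) (nat_lit 4921515397003) (nat_lit 152) (nat_lit 760137584245) (nat_lit 0) (nat_lit 3080559231957) (nat_lit 10) (nat_lit 5) (nat_lit 12) (nat_lit 4) (nat_lit 10) (nat_lit 4) (nat_lit 364) (nat_lit 339) (nat_lit 197)) (XT.lf (nat_lit 0) (nat_lit 3483731732341) (nat_lit 76) (nat_lit 4054956404858) (nat_lit 76) (nat_lit 2214000239234) (nat_lit 9) (nat_lit 4) (nat_lit 10) (nat_lit 5) (nat_lit 10) (nat_lit 4) (nat_lit 365) (nat_lit 339) (nat_lit 196))))))) (XT.nd (nat_lit 858) (nat_lit 228) (nat_lit 0) (XT.nd (nat_lit 390) (nat_lit 152) (nat_lit 0) (XT.nd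 (nat_lit 156) (nat_lit 76) (nat_lit 0) (XT.nd (nat_lit 78) (nat_lit 152) (nat_lit 0) (XT.lf (nat_lit 0) (nat_lit 8449610542769) (nat_lit 76) (nat_lit 2138560709000) (nat_lit 76) (nat_lit 297604542875) (nat_lit 9) (nat_lit 4) (nat_lit 10) (nat_lit 5) (nat_lit 10) (nat_lit 4) (nat_lit 366) (nat_lit 339) (nat_lit 195)) (XT.lf (nat_lit 0) (nat_lit 1833129691932) (nat_lit 152) (nat_lit 10097070307717) (nat_lit 0) (nat_lit 232298242748) (nat_lit 7) (nat_lit 5) (nat_lit 9) (nat_lit 4) (nat_lit 7) (nat_lit 4) (nat_lit 367) (nat_lit 339) (nat_lit 194))) (XT.nd (nat_lit 78) (nat_lit 76) (nat_lit 0) (XT.lf (nat_lit 0) (nat_lit 4488250298013) (nat_lit 152) (nat_lit 6217647373180) (nat_lit 0) (nat_lit 2887418848499) (nat_lit 7) (nat_lit 5) (nat_lit 9) (nat_lit 4) (nat_lit 7) (nat_lit 4) (nat_lit 368) (nat_lit 339) (nat_lit 193)) (XT.nd (nat_lit 78) (nat_lit 76) (nat_lit 0) (XT.lf (nat_lit 0) (nat_lit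 7541638993996) (nat_lit 152) (nat_lit 1756311000541) (nat_lit 0) (nat_lit 5940807544194) (nat_lit 7) (nat_lit 5) (nat_lit 9) (nat_lit 4) (nat_lit 7) (nat_lit 4) (nat_lit 369) (nat_lit 339) (nat_lit 192)) (XT.lf (nat_lit 0) (nat_lit 3703979713744) (nat_lit 76) (nat_lit 7502430180944) (nat_lit 76) (nat_lit 5901598730893) (nat_lit 6) (nat_lit 4) (nat_lit 7) (nat_lit 5) (nat_lit 7) (nat_lit 4) (nat_lit 370) (nat_lit 339) (nat_lit 191))))) (XT.nd (nat_lit 234) (nat_lit 0) (nat_lit 0) (XT.nd (nat_lit 78) (nat_lit 152) (nat_lit 0) (XT.lf (nat_lit 0) (nat_lit 10180699440212) (nat_lit 76) (nat_lit 5332004155374) (nat_lit 76) (nat_lit 3731172705106) (nat_lit 6) (nat_lit 4) (nat_lit 7) (nat_lit 5) (nat_lit 7) (nat_lit 4) (nat_lit 371) (nat_lit 339) (nat_lit 190)) (XT.nd (nat_lit 78) (nat_lit 152) (nat_lit 0) (XT.lf (nat_lit 0) (nat_lit 17628927124150) (nat_lit 76) (nat_lit 2836014226743) (nat_lit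 76) (nat_lit 1235182776286) (nat_lit 6) (nat_lit 4) (nat_lit 7) (nat_lit 5) (nat_lit 7) (nat_lit 4) (nat_lit 372) (nat_lit 339) (nat_lit 189)) (XT.lf (nat_lit 0) (nat_lit 1570555490755) (nat_lit 152) (nat_lit 22753429863298) (nat_lit 0) (nat_lit 178528142389) (nat_lit 4) (nat_lit 5) (nat_lit 6) (nat_lit 4) (nat_lit 4) (nat_lit 4) (nat_lit 373) (nat_lit 339) (nat_lit 188)))) (XT.nd (nat_lit 78) (nat_lit 0) (nat_lit 0) (XT.lf (nat_lit 0) (nat_lit 5028690107254) (nat_lit 152) (nat_lit 18997386451201) (nat_lit 0) (nat_lit 3636662758764) (nat_lit 4) (nat_lit 5) (nat_lit 6) (nat_lit 4) (nat_lit 4) (nat_lit 4) (nat_lit 374) (nat_lit 339) (nat_lit 187)) (XT.nd (nat_lit 78) (nat_lit 0) (nat_lit 0) (XT.lf (nat_lit 0) (nat_lit 9005544915656) (nat_lit 152) (nat_lit 14677936528483) (nat_lit 0) (nat_lit 7613517567058) (nat_lit 4) (nat_lit 5) (nat_lit 6) (nat_lit 4) (nat_lit 4) (nat_lit 4) (nat_lit 375)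 (nat_lit 339) (nat_lit 186)) (XT.lf (nat_lit 0) (nat_lit 13578927944821) (nat_lit 152) (nat_lit 9710569118397) (nat_lit 0) (nat_lit 12186900596129) (nat_lit 4) (nat_lit 5) (nat_lit 6) (nat_lit 4) (nat_lit 4) (nat_lit 4) (nat_lit 376) (nat_lit 339) (nat_lit 185)))))) (XT.nd (nat_lit 2028) (nat_lit 0) (nat_lit 0) (XT.nd (nat_lit 156) (nat_lit 152) (nat_lit 0) (XT.nd (nat_lit 78) (nat_lit 76) (nat_lit 0) (XT.lf (nat_lit 0) (nat_lit 18838318427928) (nat_lit 152) (nat_lit 3998096597701) (nat_lit 0) (nat_lit 17446291079155) (nat_lit 4) (nat_lit 5) (nat_lit 6) (nat_lit 4) (nat_lit 4) (nat_lit 4) (nat_lit 377) (nat_lit 339) (nat_lit 184)) (XT.lf (nat_lit 0) (nat_lit 2822527737616) (nat_lit 76) (nat_lit 22180964600069) (nat_lit 76) (nat_lit 20788937251225) (nat_lit 3) (nat_lit 4) (nat_lit 4) (nat_lit 5) (nat_lit 4) (nat_lit 4) (nat_lit 378) (nat_lit 339) (nat_lit 183))) (XT.nd (nat_lit 1716) (nat_lit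 152) (nat_lit 0) (XT.lf (nat_lit 0) (nat_lit 11115577260565) (nat_lit 76) (nat_lit 21186856486044) (nat_lit 76) (nat_lit 19794829137139) (nat_lit 3) (nat_lit 4) (nat_lit 4) (nat_lit 5) (nat_lit 4) (nat_lit 4) (nat_lit 379) (nat_lit 339) (nat_lit 182)) (XT.nd (nat_lit 78) (nat_lit 0) (nat_lit 0) (XT.lf (nat_lit 0) (nat_lit 143975032850571) (nat_lit 152) (nat_lit 759608789643488) (nat_lit 0) (nat_lit 142764574285964) (nat_lit 1) (nat_lit 5) (nat_lit 3) (nat_lit 4) (nat_lit 1) (nat_lit 4) (nat_lit 401) (nat_lit 339) (nat_lit 160)) (XT.lf (nat_lit 0) (nat_lit 169898156552826) (nat_lit 152) (nat_lit 864038146648690) (nat_lit 0) (nat_lit 168687697988216) (nat_lit 1) (nat_lit 5) (nat_lit 3) (nat_lit 4) (nat_lit 1) (nat_lit 4) (nat_lit 402) (nat_lit 339) (nat_lit 159))))) (XT.nd (nat_lit 42120) (nat_lit 0) (nat_lit 2128) (XT.nd (nat_lit 41964) (nat_lit 0) (nat_lit 2052) (XT.lf (nat_lit 0) (nat_lit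 199709748810405) (nat_lit 152) (nat_lit 984131907204705) (nat_lit 0) (nat_lit 198499290245792) (nat_lit 1) (nat_lit 5) (nat_lit 3) (nat_lit 4) (nat_lit 1) (nat_lit 4) (nat_lit 403) (nat_lit 339) (nat_lit 158)) (XT.nd (nat_lit 78) (nat_lit 0) (nat_lit 0) (XT.lf (nat_lit 0) (nat_lit 131493991957) (nat_lit 380) (nat_lit 206073846482) (nat_lit 380) (nat_lit 206073846482) (nat_lit 28) (nat_lit 3) (nat_lit 33) (nat_lit 3) (nat_lit 33) (nat_lit 5) (nat_lit 340) (nat_lit 340) (nat_lit 220)) (XT.lf (nat_lit 76) (nat_lit 126807637586) (nat_lit 0) (nat_lit 161155329858) (nat_lit 380) (nat_lit 880079022344) (nat_lit 29) (nat_lit 5) (nat_lit 28) (nat_lit 3) (nat_lit 33) (nat_lit 5) (nat_lit 341) (nat_lit 340) (nat_lit 219)))) (XT.nd (nat_lit 78) (nat_lit 0) (nat_lit 0) (XT.lf (nat_lit 0) (nat_lit 357056338139) (nat_lit 304) (nat_lit 483584814035) (nat_lit 380) (nat_lit 414217429617) (nat_lit 29) (nat_lit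 5) (nat_lit 33) (nat_lit 5) (nat_lit 34) (nat_lit 5) (nat_lit 342) (nat_lit 340) (nat_lit 218)) (XT.nd (nat_lit 78) (nat_lit 0) (nat_lit 76) (XT.lf (nat_lit 76) (nat_lit 164700898067) (nat_lit 0) (nat_lit 286306784706) (nat_lit 380) (nat_lit 901515884587) (nat_lit 30) (nat_lit 5) (nat_lit 29) (nat_lit 5) (nat_lit 34) (nat_lit 5) (nat_lit 343) (nat_lit 340) (nat_lit 217)) (XT.lf (nat_lit 0) (nat_lit 600075268748) (nat_lit 304) (nat_lit 512214007305) (nat_lit 76) (nat_lit 346395493775) (nat_lit 30) (nat_lit 5) (nat_lit 34) (nat_lit 5) (nat_lit 31) (nat_lit 5) (nat_lit 344) (nat_lit 340) (nat_lit 216))))))))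
noncomputable def xc109 : XT := (XT.nd (nat_lit 1716) (nat_lit 608) (nat_lit 0) (XT.nd (nat_lit 858) (nat_lit 608) (nat_lit 0) (XT.nd (nat_lit 390) (nat_lit 380) (nat_lit 0) (XT.nd (nat_lit 156) (nat_lit 304) (nat_lit 0) (XT.nd (nat_lit 78) (nat_lit 0) (nat_lit 0) (XT.lf (nat_lit 0) (nat_lit 275641833431) (nat_lit 304) (nat_lit 520908549925) (nat_lit 380) (nat_lit 780462660710) (nat_lit 26) (nat_lit 5) (nat_lit 30) (nat_lit 5) (nat_lit 31) (nat_lit 5) (nat_lit 345) (nat_lit 340) (nat_lit 215)) (XT.lf (nat_lit 0) (nat_lit 1057137848942) (nat_lit 380) (nat_lit 477698689131) (nat_lit 76) (nat_lit 173057858806) (nat_lit 26) (nat_lit 5) (nat_lit 31) (nat_lit 5) (nat_lit 27) (nat_lit 5) (nat_lit 346) (nat_lit 340) (nat_lit 214))) (XT.nd (nat_lit 78) (nat_lit 152) (nat_lit 0) (XT.lf (nat_lit 0) (nat_lit 488180762988) (nat_lit 152) (nat_lit 913652359859) (nat_lit 228) (nat_lit 449821876502) (nat_lit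 24) (nat_lit 5) (nat_lit 26) (nat_lit 5) (nat_lit 27) (nat_lit 5) (nat_lit 347) (nat_lit 340) (nat_lit 213)) (XT.nd (nat_lit 78) (nat_lit 152) (nat_lit 0) (XT.lf (nat_lit 0) (nat_lit 1652628945868) (nat_lit 152) (nat_lit 170574350764) (nat_lit 228) (nat_lit 190030804246) (nat_lit 24) (nat_lit 5) (nat_lit 26) (nat_lit 5) (nat_lit 27) (nat_lit 5) (nat_lit 348) (nat_lit 340) (nat_lit 212)) (XT.lf (nat_lit 0) (nat_lit 165118017377) (nat_lit 152) (nat_lit 1358022769380) (nat_lit 76) (nat_lit 665323612475) (nat_lit 22) (nat_lit 5) (nat_lit 24) (nat_lit 5) (nat_lit 23) (nat_lit 5) (nat_lit 349) (nat_lit 340) (nat_lit 211))))) (XT.nd (nat_lit 234) (nat_lit 152) (nat_lit 0) (XT.nd (nat_lit 78) (nat_lit 228) (nat_lit 0) (XT.lf (nat_lit 0) (nat_lit 581953636977) (nat_lit 152) (nat_lit 164548525447) (nat_lit 76) (nat_lit 1637939215614) (nat_lit 22) (nat_lit 5) (nat_lit 24) (nat_lit 5) (nat_lit 23)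 (nat_lit 5) (nat_lit 350) (nat_lit 340) (nat_lit 210)) (XT.nd (nat_lit 78) (nat_lit 76) (nat_lit 0) (XT.lf (nat_lit 0) (nat_lit 1124907603710) (nat_lit 228) (nat_lit 1284269033950) (nat_lit 76) (nat_lit 191099315380) (nat_lit 20) (nat_lit 5) (nat_lit 23) (nat_lit 5) (nat_lit 21) (nat_lit 4) (nat_lit 351) (nat_lit 340) (nat_lit 209)) (XT.lf (nat_lit 0) (nat_lit 169034487922) (nat_lit 76) (nat_lit 1631828244753) (nat_lit 152) (nat_lit 1039889271538) (nat_lit 19) (nat_lit 5) (nat_lit 20) (nat_lit 5) (nat_lit 21) (nat_lit 4) (nat_lit 352) (nat_lit 340) (nat_lit 208)))) (XT.nd (nat_lit 78) (nat_lit 152) (nat_lit 0) (XT.lf (nat_lit 0) (nat_lit 1984667859917) (nat_lit 76) (nat_lit 660675513079) (nat_lit 152) (nat_lit 461886253765) (nat_lit 19) (nat_lit 5) (nat_lit 20) (nat_lit 5) (nat_lit 21) (nat_lit 4) (nat_lit 353) (nat_lit 340) (nat_lit 207)) (XT.nd (nat_lit 78) (nat_lit 0) (nat_lit 0) (XT.lf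 (nat_lit 0) (nat_lit 235028624027) (nat_lit 152) (nat_lit 2714532281046) (nat_lit 76) (nat_lit 455318113584) (nat_lit 17) (nat_lit 5) (nat_lit 19) (nat_lit 5) (nat_lit 18) (nat_lit 4) (nat_lit 354) (nat_lit 340) (nat_lit 206)) (XT.lf (nat_lit 0) (nat_lit 1082126735638) (nat_lit 152) (nat_lit 893271344170) (nat_lit 76) (nat_lit 1754538398498) (nat_lit 17) (nat_lit 5) (nat_lit 19) (nat_lit 5) (nat_lit 18) (nat_lit 4) (nat_lit 355) (nat_lit 340) (nat_lit 205)))))) (XT.nd (nat_lit 390) (nat_lit 304) (nat_lit 0) (XT.nd (nat_lit 156) (nat_lit 228) (nat_lit 0) (XT.nd (nat_lit 78) (nat_lit 0) (nat_lit 0) (XT.lf (nat_lit 0) (nat_lit 1318566650546) (nat_lit 76) (nat_lit 792321944348) (nat_lit 152) (nat_lit 1984674107374) (nat_lit 16) (nat_lit 5) (nat_lit 17) (nat_lit 5) (nat_lit 18) (nat_lit 4) (nat_lit 356) (nat_lit 340) (nat_lit 204)) (XT.lf (nat_lit 0) (nat_lit 3366410567885) (nat_lit 152) (nat_lit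 572209049537) (nat_lit 0) (nat_lit 566546367178) (nat_lit 16) (nat_lit 5) (nat_lit 18) (nat_lit 4) (nat_lit 16) (nat_lit 4) (nat_lit 357) (nat_lit 340) (nat_lit 203))) (XT.nd (nat_lit 78) (nat_lit 152) (nat_lit 0) (XT.lf (nat_lit 0) (nat_lit 2113746734148) (nat_lit 76) (nat_lit 2821769461865) (nat_lit 76) (nat_lit 21905259392) (nat_lit 15) (nat_lit 4) (nat_lit 16) (nat_lit 5) (nat_lit 16) (nat_lit 4) (nat_lit 358) (nat_lit 340) (nat_lit 202)) (XT.nd (nat_lit 78) (nat_lit 76) (nat_lit 0) (XT.lf (nat_lit 0) (nat_lit 1181413652028) (nat_lit 152) (nat_lit 259824852147) (nat_lit 76) (nat_lit 4023735010703) (nat_lit 14) (nat_lit 5) (nat_lit 16) (nat_lit 5) (nat_lit 15) (nat_lit 4) (nat_lit 359) (nat_lit 340) (nat_lit 201)) (XT.lf (nat_lit 0) (nat_lit 2698172601859) (nat_lit 152) (nat_lit 3066543507350) (nat_lit 0) (nat_lit 263508075473) (nat_lit 13) (nat_lit 5) (nat_lit 15) (nat_lit 4) (nat_lit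 13) (nat_lit 4) (nat_lit 360) (nat_lit 340) (nat_lit 200))))) (XT.nd (nat_lit 234) (nat_lit 152) (nat_lit 0) (XT.nd (nat_lit 78) (nat_lit 152) (nat_lit 0) (XT.lf (nat_lit 0) (nat_lit 4525304301340) (nat_lit 152) (nat_lit 47589543597) (nat_lit 0) (nat_lit 2090639773944) (nat_lit 13) (nat_lit 5) (nat_lit 15) (nat_lit 4) (nat_lit 13) (nat_lit 4) (nat_lit 361) (nat_lit 340) (nat_lit 199)) (XT.nd (nat_lit 78) (nat_lit 76) (nat_lit 0) (XT.lf (nat_lit 0) (nat_lit 3758845973423) (nat_lit 76) (nat_lit 3023305576935) (nat_lit 76) (nat_lit 588641048662) (nat_lit 12) (nat_lit 4) (nat_lit 13) (nat_lit 5) (nat_lit 13) (nat_lit 4) (nat_lit 362) (nat_lit 340) (nat_lit 198)) (XT.lf (nat_lit 0) (nat_lit 1089748127135) (nat_lit 152) (nat_lit 91706055695) (nat_lit 76) (nat_lit 6994882997393) (nat_lit 11) (nat_lit 5) (nat_lit 13) (nat_lit 5) (nat_lit 12) (nat_lit 4) (nat_lit 363) (nat_lit 340) (nat_lit 197))))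 (XT.nd (nat_lit 78) (nat_lit 76) (nat_lit 0) (XT.lf (nat_lit 0) (nat_lit 3186823881558) (nat_lit 152) (nat_lit 4807881622603) (nat_lit 0) (nat_lit 1069724290514) (nat_lit 10) (nat_lit 5) (nat_lit 12) (nat_lit 4) (nat_lit 10) (nat_lit 4) (nat_lit 364) (nat_lit 340) (nat_lit 196)) (XT.nd (nat_lit 78) (nat_lit 76) (nat_lit 0) (XT.lf (nat_lit 0) (nat_lit 5659742719246) (nat_lit 152) (nat_lit 874158196334) (nat_lit 0) (nat_lit 3542643127700) (nat_lit 10) (nat_lit 5) (nat_lit 12) (nat_lit 4) (nat_lit 10) (nat_lit 4) (nat_lit 365) (nat_lit 340) (nat_lit 195)) (XT.lf (nat_lit 0) (nat_lit 4006291516580) (nat_lit 76) (nat_lit 4663199853245) (nat_lit 76) (nat_lit 2546100261263) (nat_lit 9) (nat_lit 4) (nat_lit 10) (nat_lit 5) (nat_lit 10) (nat_lit 4) (nat_lit 366) (nat_lit 340) (nat_lit 194))))))) (XT.nd (nat_lit 858) (nat_lit 228) (nat_lit 0) (XT.nd (nat_lit 390) (nat_lit 152) (nat_lit 0) (XT.nd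 (nat_lit 156) (nat_lit 76) (nat_lit 0) (XT.nd (nat_lit 78) (nat_lit 152) (nat_lit 0) (XT.lf (nat_lit 0) (nat_lit 9717052145391) (nat_lit 76) (nat_lit 2459344804619) (nat_lit 76) (nat_lit 342245212257) (nat_lit 9) (nat_lit 4) (nat_lit 10) (nat_lit 5) (nat_lit 10) (nat_lit 4) (nat_lit 367) (nat_lit 340) (nat_lit 193)) (XT.lf (nat_lit 0) (nat_lit 2108099156596) (nat_lit 152) (nat_lit 11611630831489) (nat_lit 0) (nat_lit 267142989038) (nat_lit 7) (nat_lit 5) (nat_lit 9) (nat_lit 4) (nat_lit 7) (nat_lit 4) (nat_lit 368) (nat_lit 340) (nat_lit 192))) (XT.nd (nat_lit 78) (nat_lit 76) (nat_lit 0) (XT.lf (nat_lit 0) (nat_lit 5161487852171) (nat_lit 152) (nat_lit 7150294459691) (nat_lit 0) (nat_lit 3320531684363) (nat_lit 7) (nat_lit 5) (nat_lit 9) (nat_lit 4) (nat_lit 7) (nat_lit 4) (nat_lit 369) (nat_lit 340) (nat_lit 191)) (XT.nd (nat_lit 78) (nat_lit 76) (nat_lit 0) (XT.lf (nat_lit 0) (nat_lit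 8672884851318) (nat_lit 152) (nat_lit 2019757633696) (nat_lit 0) (nat_lit 6831928683293) (nat_lit 7) (nat_lit 5) (nat_lit 9) (nat_lit 4) (nat_lit 7) (nat_lit 4) (nat_lit 370) (nat_lit 340) (nat_lit 190)) (XT.lf (nat_lit 0) (nat_lit 4259576686963) (nat_lit 76) (nat_lit 8627794699747) (nat_lit 76) (nat_lit 6786838531534) (nat_lit 6) (nat_lit 4) (nat_lit 7) (nat_lit 5) (nat_lit 7) (nat_lit 4) (nat_lit 371) (nat_lit 340) (nat_lit 189))))) (XT.nd (nat_lit 234) (nat_lit 0) (nat_lit 0) (XT.nd (nat_lit 78) (nat_lit 152) (nat_lit 0) (XT.lf (nat_lit 0) (nat_lit 11707804370294) (nat_lit 76) (nat_lit 6131804771429) (nat_lit 76) (nat_lit 4290848603052) (nat_lit 6) (nat_lit 4) (nat_lit 7) (nat_lit 5) (nat_lit 7) (nat_lit 4) (nat_lit 372) (nat_lit 340) (nat_lit 188)) (XT.nd (nat_lit 78) (nat_lit 152) (nat_lit 0) (XT.lf (nat_lit 0) (nat_lit 20273266204990) (nat_lit 76) (nat_lit 3261416354449) (nat_lit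 76) (nat_lit 1420460185929) (nat_lit 6) (nat_lit 4) (nat_lit 7) (nat_lit 5) (nat_lit 7) (nat_lit 4) (nat_lit 373) (nat_lit 340) (nat_lit 187)) (XT.lf (nat_lit 0) (nat_lit 1806138820525) (nat_lit 152) (nat_lit 26166444329930) (nat_lit 0) (nat_lit 205307369530) (nat_lit 4) (nat_lit 5) (nat_lit 6) (nat_lit 4) (nat_lit 4) (nat_lit 4) (nat_lit 374) (nat_lit 340) (nat_lit 186)))) (XT.nd (nat_lit 78) (nat_lit 0) (nat_lit 0) (XT.lf (nat_lit 0) (nat_lit 5782993628696) (nat_lit 152) (nat_lit 21846994407696) (nat_lit 0) (nat_lit 4182162177607) (nat_lit 4) (nat_lit 5) (nat_lit 6) (nat_lit 4) (nat_lit 4) (nat_lit 4) (nat_lit 375) (nat_lit 340) (nat_lit 185)) (XT.nd (nat_lit 78) (nat_lit 0) (nat_lit 0) (XT.lf (nat_lit 0) (nat_lit 10356376657659) (nat_lit 152) (nat_lit 16879626998030) (nat_lit 0) (nat_lit 8755545206489) (nat_lit 4) (nat_lit 5) (nat_lit 6) (nat_lit 4) (nat_lit 4) (nat_lit 4) (nat_lit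 376) (nat_lit 340) (nat_lit 184)) (XT.lf (nat_lit 0) (nat_lit 15615767140592) (nat_lit 152) (nat_lit 11167154477699) (nat_lit 0) (nat_lit 14014935689350) (nat_lit 4) (nat_lit 5) (nat_lit 6) (nat_lit 4) (nat_lit 4) (nat_lit 4) (nat_lit 377) (nat_lit 340) (nat_lit 183)))))) (XT.nd (nat_lit 1950) (nat_lit 0) (nat_lit 0) (XT.nd (nat_lit 1716) (nat_lit 152) (nat_lit 0) (XT.nd (nat_lit 78) (nat_lit 76) (nat_lit 0) (XT.lf (nat_lit 0) (nat_lit 21664066195637) (nat_lit 152) (nat_lit 4597811080002) (nat_lit 0) (nat_lit 20063234744334) (nat_lit 4) (nat_lit 5) (nat_lit 6) (nat_lit 4) (nat_lit 4) (nat_lit 4) (nat_lit 378) (nat_lit 340) (nat_lit 182)) (XT.nd (nat_lit 78) (nat_lit 0) (nat_lit 0) (XT.lf (nat_lit 0) (nat_lit 3245906905279) (nat_lit 76) (nat_lit 25508109286410) (nat_lit 76) (nat_lit 23907277835054) (nat_lit 3) (nat_lit 4) (nat_lit 4) (nat_lit 5) (nat_lit 4) (nat_lit 4) (nat_lit 379) (nat_lit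 340) (nat_lit 181)) (XT.lf (nat_lit 0) (nat_lit 12782913855754) (nat_lit 76) (nat_lit 24364884955761) (nat_lit 76) (nat_lit 22764053504358) (nat_lit 3) (nat_lit 4) (nat_lit 4) (nat_lit 5) (nat_lit 4) (nat_lit 4) (nat_lit 380) (nat_lit 340) (nat_lit 180)))) (XT.nd (nat_lit 78) (nat_lit 0) (nat_lit 0) (XT.lf (nat_lit 0) (nat_lit 117106317378451) (nat_lit 152) (nat_lit 678312614558205) (nat_lit 0) (nat_lit 115714290029150) (nat_lit 1) (nat_lit 5) (nat_lit 3) (nat_lit 4) (nat_lit 1) (nat_lit 4) (nat_lit 400) (nat_lit 340) (nat_lit 160)) (XT.nd (nat_lit 78) (nat_lit 0) (nat_lit 0) (XT.lf (nat_lit 0) (nat_lit 139648164076070) (nat_lit 152) (nat_lit 769120751084454) (nat_lit 0) (nat_lit 138256136726768) (nat_lit 1) (nat_lit 5) (nat_lit 3) (nat_lit 4) (nat_lit 1) (nat_lit 4) (nat_lit 401) (nat_lit 340) (nat_lit 159)) (XT.lf (nat_lit 0) (nat_lit 165571287778318) (nat_lit 152) (nat_lit 873550108089670)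 (nat_lit 0) (nat_lit 164179260429014) (nat_lit 1) (nat_lit 5) (nat_lit 3) (nat_lit 4) (nat_lit 1) (nat_lit 4) (nat_lit 402) (nat_lit 340) (nat_lit 158))))) (XT.nd (nat_lit 42198) (nat_lit 0) (nat_lit 2128) (XT.nd (nat_lit 42042) (nat_lit 0) (nat_lit 2052) (XT.lf (nat_lit 0) (nat_lit 195382880035890) (nat_lit 152) (nat_lit 993643868645698) (nat_lit 0) (nat_lit 193990852686584) (nat_lit 1) (nat_lit 5) (nat_lit 3) (nat_lit 4) (nat_lit 1) (nat_lit 4) (nat_lit 403) (nat_lit 340) (nat_lit 157)) (XT.nd (nat_lit 78) (nat_lit 0) (nat_lit 0) (XT.lf (nat_lit 0) (nat_lit 151218139525) (nat_lit 380) (nat_lit 236984895369) (nat_lit 380) (nat_lit 236984895369) (nat_lit 28) (nat_lit 3) (nat_lit 33) (nat_lit 3) (nat_lit 33) (nat_lit 5) (nat_lit 341) (nat_lit 341) (nat_lit 218)) (XT.lf (nat_lit 76) (nat_lit 145828836842) (nat_lit 0) (nat_lit 185328662763) (nat_lit 380) (nat_lit 1012090775452) (nat_lit 29)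 (nat_lit 5) (nat_lit 28) (nat_lit 3) (nat_lit 33) (nat_lit 5) (nat_lit 342) (nat_lit 341) (nat_lit 217)))) (XT.nd (nat_lit 78) (nat_lit 0) (nat_lit 0) (XT.lf (nat_lit 0) (nat_lit 410614863348) (nat_lit 304) (nat_lit 556122476836) (nat_lit 380) (nat_lit 476350017581) (nat_lit 29) (nat_lit 5) (nat_lit 33) (nat_lit 5) (nat_lit 34) (nat_lit 5) (nat_lit 343) (nat_lit 341) (nat_lit 216)) (XT.nd (nat_lit 78) (nat_lit 0) (nat_lit 76) (XT.lf (nat_lit 76) (nat_lit 189406089386) (nat_lit 0) (nat_lit 329252812919) (nat_lit 380) (nat_lit 1036743189985) (nat_lit 30) (nat_lit 5) (nat_lit 29) (nat_lit 5) (nat_lit 34) (nat_lit 5) (nat_lit 344) (nat_lit 341) (nat_lit 215)) (XT.lf (nat_lit 0) (nat_lit 690086617044) (nat_lit 304) (nat_lit 589046049950) (nat_lit 76) (nat_lit 398354809518) (nat_lit 30) (nat_lit 5) (nat_lit 34) (nat_lit 5) (nat_lit 31) (nat_lit 5) (nat_lit 345) (nat_lit 341) (nat_lit 214))))))))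
noncomputable def xc110 : XT := (XT.nd (nat_lit 1716) (nat_lit 608) (nat_lit 0) (XT.nd (nat_lit 858) (nat_lit 608) (nat_lit 0) (XT.nd (nat_lit 390) (nat_lit 380) (nat_lit 0) (XT.nd (nat_lit 156) (nat_lit 304) (nat_lit 0) (XT.nd (nat_lit 78) (nat_lit 0) (nat_lit 0) (XT.lf (nat_lit 0) (nat_lit 316988164240) (nat_lit 304) (nat_lit 599044829350) (nat_lit 380) (nat_lit 897531999095) (nat_lit 26) (nat_lit 5) (nat_lit 30) (nat_lit 5) (nat_lit 31) (nat_lit 5) (nat_lit 346) (nat_lit 341) (nat_lit 213)) (XT.lf (nat_lit 0) (nat_lit 1215708572246) (nat_lit 380) (nat_lit 549353437146) (nat_lit 76) (nat_lit 199016540054) (nat_lit 26) (nat_lit 5) (nat_lit 31) (nat_lit 5) (nat_lit 27) (nat_lit 5) (nat_lit 347) (nat_lit 341) (nat_lit 212))) (XT.nd (nat_lit 78) (nat_lit 152) (nat_lit 0) (XT.lf (nat_lit 0) (nat_lit 561407930275) (nat_lit 152) (nat_lit 1050700203155) (nat_lit 228) (nat_lit 517295109437) (nat_lit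 24) (nat_lit 5) (nat_lit 26) (nat_lit 5) (nat_lit 27) (nat_lit 5) (nat_lit 348) (nat_lit 341) (nat_lit 211)) (XT.nd (nat_lit 78) (nat_lit 152) (nat_lit 0) (XT.lf (nat_lit 0) (nat_lit 1900523333694) (nat_lit 152) (nat_lit 196160494090) (nat_lit 228) (nat_lit 218535382674) (nat_lit 24) (nat_lit 5) (nat_lit 26) (nat_lit 5) (nat_lit 27) (nat_lit 5) (nat_lit 349) (nat_lit 341) (nat_lit 210)) (XT.lf (nat_lit 0) (nat_lit 189885755887) (nat_lit 152) (nat_lit 1561726132448) (nat_lit 76) (nat_lit 765122165357) (nat_lit 22) (nat_lit 5) (nat_lit 24) (nat_lit 5) (nat_lit 23) (nat_lit 5) (nat_lit 350) (nat_lit 341) (nat_lit 209))))) (XT.nd (nat_lit 234) (nat_lit 152) (nat_lit 0) (XT.nd (nat_lit 78) (nat_lit 228) (nat_lit 0) (XT.lf (nat_lit 0) (nat_lit 669246713744) (nat_lit 152) (nat_lit 189230758751) (nat_lit 76) (nat_lit 1883630107531) (nat_lit 22) (nat_lit 5) (nat_lit 24) (nat_lit 5) (nat_lit 23)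 (nat_lit 5) (nat_lit 351) (nat_lit 341) (nat_lit 208)) (XT.nd (nat_lit 78) (nat_lit 76) (nat_lit 0) (XT.lf (nat_lit 0) (nat_lit 1293643773814) (nat_lit 228) (nat_lit 1476909341826) (nat_lit 76) (nat_lit 219764225894) (nat_lit 20) (nat_lit 5) (nat_lit 23) (nat_lit 5) (nat_lit 21) (nat_lit 4) (nat_lit 352) (nat_lit 341) (nat_lit 207)) (XT.lf (nat_lit 0) (nat_lit 194389706180) (nat_lit 76) (nat_lit 1876602463955) (nat_lit 152) (nat_lit 1195872630549) (nat_lit 19) (nat_lit 5) (nat_lit 20) (nat_lit 5) (nat_lit 21) (nat_lit 4) (nat_lit 353) (nat_lit 341) (nat_lit 206)))) (XT.nd (nat_lit 78) (nat_lit 152) (nat_lit 0) (XT.lf (nat_lit 0) (nat_lit 2282368078096) (nat_lit 76) (nat_lit 759776824814) (nat_lit 152) (nat_lit 531169164247) (nat_lit 19) (nat_lit 5) (nat_lit 20) (nat_lit 5) (nat_lit 21) (nat_lit 4) (nat_lit 354) (nat_lit 341) (nat_lit 205)) (XT.nd (nat_lit 78) (nat_lit 0) (nat_lit 0) (XT.lf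 (nat_lit 0) (nat_lit 270282941801) (nat_lit 152) (nat_lit 3121712080562) (nat_lit 76) (nat_lit 523615845449) (nat_lit 17) (nat_lit 5) (nat_lit 19) (nat_lit 5) (nat_lit 18) (nat_lit 4) (nat_lit 355) (nat_lit 341) (nat_lit 204)) (XT.lf (nat_lit 0) (nat_lit 1244445767001) (nat_lit 152) (nat_lit 1027262008717) (nat_lit 76) (nat_lit 2017719171166) (nat_lit 17) (nat_lit 5) (nat_lit 19) (nat_lit 5) (nat_lit 18) (nat_lit 4) (nat_lit 356) (nat_lit 341) (nat_lit 203)))))) (XT.nd (nat_lit 390) (nat_lit 304) (nat_lit 0) (XT.nd (nat_lit 156) (nat_lit 228) (nat_lit 0) (XT.nd (nat_lit 78) (nat_lit 0) (nat_lit 0) (XT.lf (nat_lit 0) (nat_lit 1516351683521) (nat_lit 76) (nat_lit 911170220349) (nat_lit 152) (nat_lit 2282375200764) (nat_lit 16) (nat_lit 5) (nat_lit 17) (nat_lit 5) (nat_lit 18) (nat_lit 4) (nat_lit 357) (nat_lit 341) (nat_lit 202)) (XT.lf (nat_lit 0) (nat_lit 3871372170798) (nat_lit 152) (nat_lit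 658040374168) (nat_lit 0) (nat_lit 651528334653) (nat_lit 16) (nat_lit 5) (nat_lit 18) (nat_lit 4) (nat_lit 16) (nat_lit 4) (nat_lit 358) (nat_lit 341) (nat_lit 201))) (XT.nd (nat_lit 78) (nat_lit 152) (nat_lit 0) (XT.lf (nat_lit 0) (nat_lit 2430808775579) (nat_lit 76) (nat_lit 3245034866550) (nat_lit 76) (nat_lit 25191029069) (nat_lit 15) (nat_lit 4) (nat_lit 16) (nat_lit 5) (nat_lit 16) (nat_lit 4) (nat_lit 359) (nat_lit 341) (nat_lit 200)) (XT.nd (nat_lit 78) (nat_lit 76) (nat_lit 0) (XT.lf (nat_lit 0) (nat_lit 1358625715066) (nat_lit 152) (nat_lit 298798551247) (nat_lit 76) (nat_lit 4627295273503) (nat_lit 14) (nat_lit 5) (nat_lit 16) (nat_lit 5) (nat_lit 15) (nat_lit 4) (nat_lit 360) (nat_lit 341) (nat_lit 199)) (XT.lf (nat_lit 0) (nat_lit 3102898507060) (nat_lit 152) (nat_lit 3526525004412) (nat_lit 0) (nat_lit 303034298668) (nat_lit 13) (nat_lit 5) (nat_lit 15) (nat_lit 4) (nat_lit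 13) (nat_lit 4) (nat_lit 361) (nat_lit 341) (nat_lit 198))))) (XT.nd (nat_lit 234) (nat_lit 152) (nat_lit 0) (XT.nd (nat_lit 78) (nat_lit 152) (nat_lit 0) (XT.lf (nat_lit 0) (nat_lit 5204099959517) (nat_lit 152) (nat_lit 54727949885) (nat_lit 0) (nat_lit 2404235750361) (nat_lit 13) (nat_lit 5) (nat_lit 15) (nat_lit 4) (nat_lit 13) (nat_lit 4) (nat_lit 362) (nat_lit 341) (nat_lit 197)) (XT.nd (nat_lit 78) (nat_lit 76) (nat_lit 0) (XT.lf (nat_lit 0) (nat_lit 4322672893540) (nat_lit 76) (nat_lit 3476801401652) (nat_lit 76) (nat_lit 676937191833) (nat_lit 12) (nat_lit 4) (nat_lit 13) (nat_lit 5) (nat_lit 13) (nat_lit 4) (nat_lit 363) (nat_lit 341) (nat_lit 196)) (XT.lf (nat_lit 0) (nat_lit 1253210357397) (nat_lit 152) (nat_lit 105461941992) (nat_lit 76) (nat_lit 8044115456185) (nat_lit 11) (nat_lit 5) (nat_lit 13) (nat_lit 5) (nat_lit 12) (nat_lit 4) (nat_lit 364) (nat_lit 341) (nat_lit 195))))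 (XT.nd (nat_lit 78) (nat_lit 76) (nat_lit 0) (XT.lf (nat_lit 0) (nat_lit 3664847474828) (nat_lit 152) (nat_lit 5529063843777) (nat_lit 0) (nat_lit 1230182943612) (nat_lit 10) (nat_lit 5) (nat_lit 12) (nat_lit 4) (nat_lit 10) (nat_lit 4) (nat_lit 365) (nat_lit 341) (nat_lit 194)) (XT.nd (nat_lit 78) (nat_lit 76) (nat_lit 0) (XT.lf (nat_lit 0) (nat_lit 6508704136729) (nat_lit 152) (nat_lit 1005281906465) (nat_lit 0) (nat_lit 4074039605134) (nat_lit 10) (nat_lit 5) (nat_lit 12) (nat_lit 4) (nat_lit 10) (nat_lit 4) (nat_lit 366) (nat_lit 341) (nat_lit 193)) (XT.lf (nat_lit 0) (nat_lit 4607235262507) (nat_lit 76) (nat_lit 5362679821901) (nat_lit 76) (nat_lit 2928015289975) (nat_lit 9) (nat_lit 4) (nat_lit 10) (nat_lit 5) (nat_lit 10) (nat_lit 4) (nat_lit 367) (nat_lit 341) (nat_lit 192))))))) (XT.nd (nat_lit 858) (nat_lit 228) (nat_lit 0) (XT.nd (nat_lit 390) (nat_lit 152) (nat_lit 0) (XT.nd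 (nat_lit 156) (nat_lit 76) (nat_lit 0) (XT.nd (nat_lit 78) (nat_lit 152) (nat_lit 0) (XT.lf (nat_lit 0) (nat_lit 11174609983235) (nat_lit 76) (nat_lit 2828246517197) (nat_lit 76) (nat_lit 393581984985) (nat_lit 9) (nat_lit 4) (nat_lit 10) (nat_lit 5) (nat_lit 10) (nat_lit 4) (nat_lit 368) (nat_lit 341) (nat_lit 191)) (XT.lf (nat_lit 0) (nat_lit 2424314038309) (nat_lit 152) (nat_lit 13353375439286) (nat_lit 0) (nat_lit 307214444863) (nat_lit 7) (nat_lit 5) (nat_lit 9) (nat_lit 4) (nat_lit 7) (nat_lit 4) (nat_lit 369) (nat_lit 341) (nat_lit 190))) (XT.nd (nat_lit 78) (nat_lit 76) (nat_lit 0) (XT.lf (nat_lit 0) (nat_lit 5935711037147) (nat_lit 152) (nat_lit 8222838613926) (nat_lit 0) (nat_lit 3818611443512) (nat_lit 7) (nat_lit 5) (nat_lit 9) (nat_lit 4) (nat_lit 7) (nat_lit 4) (nat_lit 370) (nat_lit 341) (nat_lit 189)) (XT.nd (nat_lit 78) (nat_lit 76) (nat_lit 0) (XT.lf (nat_lit 0) (nat_lit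 9973817585233) (nat_lit 152) (nat_lit 2322721265951) (nat_lit 0) (nat_lit 7856717991434) (nat_lit 7) (nat_lit 5) (nat_lit 9) (nat_lit 4) (nat_lit 7) (nat_lit 4) (nat_lit 371) (nat_lit 341) (nat_lit 188)) (XT.lf (nat_lit 0) (nat_lit 4898513202224) (nat_lit 76) (nat_lit 9921963898405) (nat_lit 76) (nat_lit 7804864304463) (nat_lit 6) (nat_lit 4) (nat_lit 7) (nat_lit 5) (nat_lit 7) (nat_lit 4) (nat_lit 372) (nat_lit 341) (nat_lit 187))))) (XT.nd (nat_lit 234) (nat_lit 0) (nat_lit 0) (XT.nd (nat_lit 78) (nat_lit 152) (nat_lit 0) (XT.lf (nat_lit 0) (nat_lit 13463975036462) (nat_lit 76) (nat_lit 7051575481661) (nat_lit 76) (nat_lit 4934475887596) (nat_lit 6) (nat_lit 4) (nat_lit 7) (nat_lit 5) (nat_lit 7) (nat_lit 4) (nat_lit 373) (nat_lit 341) (nat_lit 186)) (XT.nd (nat_lit 78) (nat_lit 152) (nat_lit 0) (XT.lf (nat_lit 0) (nat_lit 23314256144977) (nat_lit 76) (nat_lit 3750628802849) (nat_lit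 76) (nat_lit 1633529208676) (nat_lit 6) (nat_lit 4) (nat_lit 7) (nat_lit 5) (nat_lit 7) (nat_lit 4) (nat_lit 374) (nat_lit 341) (nat_lit 185)) (XT.lf (nat_lit 0) (nat_lit 2077059648259) (nat_lit 152) (nat_lit 30091410969693) (nat_lit 0) (nat_lit 236103479331) (nat_lit 4) (nat_lit 5) (nat_lit 6) (nat_lit 4) (nat_lit 4) (nat_lit 4) (nat_lit 375) (nat_lit 341) (nat_lit 184)))) (XT.nd (nat_lit 78) (nat_lit 0) (nat_lit 0) (XT.lf (nat_lit 0) (nat_lit 6650442677048) (nat_lit 152) (nat_lit 25124043560393) (nat_lit 0) (nat_lit 4809486508049) (nat_lit 4) (nat_lit 5) (nat_lit 6) (nat_lit 4) (nat_lit 4) (nat_lit 4) (nat_lit 376) (nat_lit 341) (nat_lit 183)) (XT.nd (nat_lit 78) (nat_lit 0) (nat_lit 0) (XT.lf (nat_lit 0) (nat_lit 11909833159828) (nat_lit 152) (nat_lit 19411571040380) (nat_lit 0) (nat_lit 10068876990768) (nat_lit 4) (nat_lit 5) (nat_lit 6) (nat_lit 4) (nat_lit 4) (nat_lit 4) (nat_lit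 377) (nat_lit 341) (nat_lit 182)) (XT.lf (nat_lit 0) (nat_lit 17958132214742) (nat_lit 152) (nat_lit 12842227642959) (nat_lit 0) (nat_lit 16117176045628) (nat_lit 4) (nat_lit 5) (nat_lit 6) (nat_lit 4) (nat_lit 4) (nat_lit 4) (nat_lit 378) (nat_lit 341) (nat_lit 181)))))) (XT.nd (nat_lit 1794) (nat_lit 0) (nat_lit 0) (XT.nd (nat_lit 156) (nat_lit 152) (nat_lit 0) (XT.nd (nat_lit 78) (nat_lit 76) (nat_lit 0) (XT.lf (nat_lit 0) (nat_lit 24913676127645) (nat_lit 152) (nat_lit 5287482736441) (nat_lit 0) (nat_lit 23072719958484) (nat_lit 4) (nat_lit 5) (nat_lit 6) (nat_lit 4) (nat_lit 4) (nat_lit 4) (nat_lit 379) (nat_lit 341) (nat_lit 180)) (XT.lf (nat_lit 0) (nat_lit 3732792946379) (nat_lit 76) (nat_lit 29334325676598) (nat_lit 76) (nat_lit 27493369507397) (nat_lit 3) (nat_lit 4) (nat_lit 4) (nat_lit 5) (nat_lit 4) (nat_lit 4) (nat_lit 380) (nat_lit 341) (nat_lit 179))) (XT.nd (nat_lit 1482)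 (nat_lit 152) (nat_lit 0) (XT.lf (nat_lit 0) (nat_lit 14700350938733) (nat_lit 76) (nat_lit 28019617696713) (nat_lit 76) (nat_lit 26178661527477) (nat_lit 3) (nat_lit 4) (nat_lit 4) (nat_lit 5) (nat_lit 4) (nat_lit 4) (nat_lit 381) (nat_lit 341) (nat_lit 178)) (XT.nd (nat_lit 78) (nat_lit 0) (nat_lit 0) (XT.lf (nat_lit 0) (nat_lit 112130418287766) (nat_lit 152) (nat_lit 689251370215333) (nat_lit 0) (nat_lit 110529586836067) (nat_lit 1) (nat_lit 5) (nat_lit 3) (nat_lit 4) (nat_lit 1) (nat_lit 4) (nat_lit 400) (nat_lit 341) (nat_lit 159)) (XT.lf (nat_lit 0) (nat_lit 134672264985379) (nat_lit 152) (nat_lit 780059506741596) (nat_lit 0) (nat_lit 133071433533677) (nat_lit 1) (nat_lit 5) (nat_lit 3) (nat_lit 4) (nat_lit 1) (nat_lit 4) (nat_lit 401) (nat_lit 341) (nat_lit 158))))) (XT.nd (nat_lit 42276) (nat_lit 0) (nat_lit 2052) (XT.nd (nat_lit 78) (nat_lit 0) (nat_lit 0) (XT.lf (nat_lit 0) (nat_lit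 160595388687620) (nat_lit 152) (nat_lit 884488863746825) (nat_lit 0) (nat_lit 158994557235918) (nat_lit 1) (nat_lit 5) (nat_lit 3) (nat_lit 4) (nat_lit 1) (nat_lit 4) (nat_lit 402) (nat_lit 341) (nat_lit 157)) (XT.nd (nat_lit 42120) (nat_lit 0) (nat_lit 2052) (XT.lf (nat_lit 0) (nat_lit 190406980945188) (nat_lit 152) (nat_lit 1004582624302863) (nat_lit 0) (nat_lit 188806149493484) (nat_lit 1) (nat_lit 5) (nat_lit 3) (nat_lit 4) (nat_lit 1) (nat_lit 4) (nat_lit 403) (nat_lit 341) (nat_lit 156)) (XT.lf (nat_lit 0) (nat_lit 173900897334) (nat_lit 380) (nat_lit 272532608437) (nat_lit 380) (nat_lit 272532608437) (nat_lit 28) (nat_lit 3) (nat_lit 33) (nat_lit 3) (nat_lit 33) (nat_lit 5) (nat_lit 342) (nat_lit 342) (nat_lit 216)))) (XT.nd (nat_lit 78) (nat_lit 0) (nat_lit 76) (XT.lf (nat_lit 76) (nat_lit 167703202912) (nat_lit 0) (nat_lit 213127987453) (nat_lit 380) (nat_lit 1163904315972) (nat_lit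 29) (nat_lit 5) (nat_lit 28) (nat_lit 3) (nat_lit 33) (nat_lit 5) (nat_lit 343) (nat_lit 342) (nat_lit 215)) (XT.nd (nat_lit 78) (nat_lit 0) (nat_lit 0) (XT.lf (nat_lit 0) (nat_lit 472207149174) (nat_lit 304) (nat_lit 639540803518) (nat_lit 380) (nat_lit 547802500197) (nat_lit 29) (nat_lit 5) (nat_lit 33) (nat_lit 5) (nat_lit 34) (nat_lit 5) (nat_lit 344) (nat_lit 342) (nat_lit 214)) (XT.lf (nat_lit 76) (nat_lit 217817045599) (nat_lit 0) (nat_lit 378640742801) (nat_lit 380) (nat_lit 1192254610041) (nat_lit 30) (nat_lit 5) (nat_lit 29) (nat_lit 5) (nat_lit 34) (nat_lit 5) (nat_lit 345) (nat_lit 342) (nat_lit 213))))))))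
noncomputable def xc111 : XT := (XT.nd (nat_lit 1716) (nat_lit 684) (nat_lit 0) (XT.nd (nat_lit 858) (nat_lit 532) (nat_lit 0) (XT.nd (nat_lit 390) (nat_lit 532) (nat_lit 0) (XT.nd (nat_lit 156) (nat_lit 152) (nat_lit 0) (XT.nd (nat_lit 78) (nat_lit 304) (nat_lit 0) (XT.lf (nat_lit 0) (nat_lit 793599653444) (nat_lit 304) (nat_lit 677402913245) (nat_lit 76) (nat_lit 458108024653) (nat_lit 30) (nat_lit 5) (nat_lit 34) (nat_lit 5) (nat_lit 31) (nat_lit 5) (nat_lit 346) (nat_lit 342) (nat_lit 212)) (XT.lf (nat_lit 0) (nat_lit 364536431064) (nat_lit 304) (nat_lit 688901551436) (nat_lit 380) (nat_lit 1032161753045) (nat_lit 26) (nat_lit 5) (nat_lit 30) (nat_lit 5) (nat_lit 31) (nat_lit 5) (nat_lit 347) (nat_lit 342) (nat_lit 211))) (XT.nd (nat_lit 78) (nat_lit 152) (nat_lit 0) (XT.lf (nat_lit 0) (nat_lit 1398064892838) (nat_lit 380) (nat_lit 631756410862) (nat_lit 76) (nat_lit 228869022897)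 (nat_lit 26) (nat_lit 5) (nat_lit 31) (nat_lit 5) (nat_lit 27) (nat_lit 5) (nat_lit 348) (nat_lit 342) (nat_lit 210)) (XT.nd (nat_lit 78) (nat_lit 0) (nat_lit 0) (XT.lf (nat_lit 0) (nat_lit 645619159769) (nat_lit 152) (nat_lit 1208305225551) (nat_lit 228) (nat_lit 594889339150) (nat_lit 24) (nat_lit 5) (nat_lit 26) (nat_lit 5) (nat_lit 27) (nat_lit 5) (nat_lit 349) (nat_lit 342) (nat_lit 209)) (XT.lf (nat_lit 0) (nat_lit 2185601868491) (nat_lit 152) (nat_lit 225584561179) (nat_lit 228) (nat_lit 251315658159) (nat_lit 24) (nat_lit 5) (nat_lit 26) (nat_lit 5) (nat_lit 27) (nat_lit 5) (nat_lit 350) (nat_lit 342) (nat_lit 208))))) (XT.nd (nat_lit 234) (nat_lit 228) (nat_lit 0) (XT.nd (nat_lit 78) (nat_lit 152) (nat_lit 0) (XT.lf (nat_lit 0) (nat_lit 218368646417) (nat_lit 152) (nat_lit 1795985012739) (nat_lit 76) (nat_lit 879890498487) (nat_lit 22) (nat_lit 5) (nat_lit 24) (nat_lit 5) (nat_lit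 23) (nat_lit 5) (nat_lit 351) (nat_lit 342) (nat_lit 207)) (XT.nd (nat_lit 78) (nat_lit 152) (nat_lit 0) (XT.lf (nat_lit 0) (nat_lit 769633744412) (nat_lit 152) (nat_lit 217615338150) (nat_lit 76) (nat_lit 2166174630901) (nat_lit 22) (nat_lit 5) (nat_lit 24) (nat_lit 5) (nat_lit 23) (nat_lit 5) (nat_lit 352) (nat_lit 342) (nat_lit 206)) (XT.lf (nat_lit 0) (nat_lit 1487690362227) (nat_lit 228) (nat_lit 1698445707398) (nat_lit 76) (nat_lit 252728869764) (nat_lit 20) (nat_lit 5) (nat_lit 23) (nat_lit 5) (nat_lit 21) (nat_lit 4) (nat_lit 353) (nat_lit 342) (nat_lit 205)))) (XT.nd (nat_lit 78) (nat_lit 152) (nat_lit 0) (XT.lf (nat_lit 0) (nat_lit 223548196186) (nat_lit 76) (nat_lit 2158092820308) (nat_lit 152) (nat_lit 1375253501147) (nat_lit 19) (nat_lit 5) (nat_lit 20) (nat_lit 5) (nat_lit 21) (nat_lit 4) (nat_lit 354) (nat_lit 342) (nat_lit 204)) (XT.nd (nat_lit 78) (nat_lit 152) (nat_lit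 0) (XT.lf (nat_lit 0) (nat_lit 2624723319445) (nat_lit 76) (nat_lit 873743337023) (nat_lit 152) (nat_lit 610844518028) (nat_lit 19) (nat_lit 5) (nat_lit 20) (nat_lit 5) (nat_lit 21) (nat_lit 4) (nat_lit 355) (nat_lit 342) (nat_lit 203)) (XT.lf (nat_lit 0) (nat_lit 310825401347) (nat_lit 152) (nat_lit 3589968860404) (nat_lit 76) (nat_lit 602158233478) (nat_lit 17) (nat_lit 5) (nat_lit 19) (nat_lit 5) (nat_lit 18) (nat_lit 4) (nat_lit 356) (nat_lit 342) (nat_lit 202)))))) (XT.nd (nat_lit 390) (nat_lit 304) (nat_lit 0) (XT.nd (nat_lit 156) (nat_lit 152) (nat_lit 0) (XT.nd (nat_lit 78) (nat_lit 76) (nat_lit 0) (XT.lf (nat_lit 0) (nat_lit 1431112647944) (nat_lit 152) (nat_lit 1181351281988) (nat_lit 76) (nat_lit 2320377056590) (nat_lit 17) (nat_lit 5) (nat_lit 19) (nat_lit 5) (nat_lit 18) (nat_lit 4) (nat_lit 357) (nat_lit 342) (nat_lit 201)) (XT.lf (nat_lit 0) (nat_lit 1743804462812) (nat_lit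 76) (nat_lit 1047845741567) (nat_lit 152) (nat_lit 2624731463702) (nat_lit 16) (nat_lit 5) (nat_lit 17) (nat_lit 5) (nat_lit 18) (nat_lit 4) (nat_lit 358) (nat_lit 342) (nat_lit 200))) (XT.nd (nat_lit 78) (nat_lit 152) (nat_lit 0) (XT.lf (nat_lit 0) (nat_lit 4452078009825) (nat_lit 152) (nat_lit 756746405492) (nat_lit 0) (nat_lit 749257594226) (nat_lit 16) (nat_lit 5) (nat_lit 18) (nat_lit 4) (nat_lit 16) (nat_lit 4) (nat_lit 359) (nat_lit 342) (nat_lit 199)) (XT.nd (nat_lit 78) (nat_lit 76) (nat_lit 0) (XT.lf (nat_lit 0) (nat_lit 2795430115590) (nat_lit 76) (nat_lit 3731790085497) (nat_lit 76) (nat_lit 28969668888) (nat_lit 15) (nat_lit 4) (nat_lit 16) (nat_lit 5) (nat_lit 16) (nat_lit 4) (nat_lit 360) (nat_lit 342) (nat_lit 198)) (XT.lf (nat_lit 0) (nat_lit 1562419583845) (nat_lit 152) (nat_lit 343618312217) (nat_lit 76) (nat_lit 5321389572994) (nat_lit 14) (nat_lit 5) (nat_lit 16) (nat_lit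 5) (nat_lit 15) (nat_lit 4) (nat_lit 361) (nat_lit 342) (nat_lit 197))))) (XT.nd (nat_lit 234) (nat_lit 152) (nat_lit 0) (XT.nd (nat_lit 78) (nat_lit 76) (nat_lit 0) (XT.lf (nat_lit 0) (nat_lit 3568333294402) (nat_lit 152) (nat_lit 4055503733116) (nat_lit 0) (nat_lit 348489452446) (nat_lit 13) (nat_lit 5) (nat_lit 15) (nat_lit 4) (nat_lit 13) (nat_lit 4) (nat_lit 362) (nat_lit 342) (nat_lit 196)) (XT.nd (nat_lit 78) (nat_lit 76) (nat_lit 0) (XT.lf (nat_lit 0) (nat_lit 5984714963256) (nat_lit 152) (nat_lit 62937123273) (nat_lit 0) (nat_lit 2764871120722) (nat_lit 13) (nat_lit 5) (nat_lit 15) (nat_lit 4) (nat_lit 13) (nat_lit 4) (nat_lit 363) (nat_lit 342) (nat_lit 195)) (XT.lf (nat_lit 0) (nat_lit 4971073845798) (nat_lit 76) (nat_lit 3998321602960) (nat_lit 76) (nat_lit 778477759925) (nat_lit 12) (nat_lit 4) (nat_lit 13) (nat_lit 5) (nat_lit 13) (nat_lit 4) (nat_lit 364) (nat_lit 342) (nat_lit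 194)))) (XT.nd (nat_lit 78) (nat_lit 76) (nat_lit 0) (XT.lf (nat_lit 0) (nat_lit 1441191919469) (nat_lit 152) (nat_lit 121281216612) (nat_lit 76) (nat_lit 9250732781557) (nat_lit 11) (nat_lit 5) (nat_lit 13) (nat_lit 5) (nat_lit 12) (nat_lit 4) (nat_lit 365) (nat_lit 342) (nat_lit 193)) (XT.nd (nat_lit 78) (nat_lit 0) (nat_lit 0) (XT.lf (nat_lit 0) (nat_lit 4214574604398) (nat_lit 152) (nat_lit 6358423403546) (nat_lit 0) (nat_lit 1414710392353) (nat_lit 10) (nat_lit 5) (nat_lit 12) (nat_lit 4) (nat_lit 10) (nat_lit 4) (nat_lit 366) (nat_lit 342) (nat_lit 192)) (XT.lf (nat_lit 0) (nat_lit 7485009764496) (nat_lit 152) (nat_lit 1156074177828) (nat_lit 0) (nat_lit 4685145552164) (nat_lit 10) (nat_lit 5) (nat_lit 12) (nat_lit 4) (nat_lit 10) (nat_lit 4) (nat_lit 367) (nat_lit 342) (nat_lit 191))))))) (XT.nd (nat_lit 858) (nat_lit 228) (nat_lit 0) (XT.nd (nat_lit 390) (nat_lit 228) (nat_lit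 0) (XT.nd (nat_lit 156) (nat_lit 152) (nat_lit 0) (XT.nd (nat_lit 78) (nat_lit 0) (nat_lit 0) (XT.lf (nat_lit 0) (nat_lit 5298320565827) (nat_lit 76) (nat_lit 6167081788130) (nat_lit 76) (nat_lit 3367217575549) (nat_lit 9) (nat_lit 4) (nat_lit 10) (nat_lit 5) (nat_lit 10) (nat_lit 4) (nat_lit 368) (nat_lit 342) (nat_lit 190)) (XT.lf (nat_lit 0) (nat_lit 12850801492845) (nat_lit 76) (nat_lit 3252483488641) (nat_lit 76) (nat_lit 452619275843) (nat_lit 9) (nat_lit 4) (nat_lit 10) (nat_lit 5) (nat_lit 10) (nat_lit 4) (nat_lit 369) (nat_lit 342) (nat_lit 189))) (XT.nd (nat_lit 78) (nat_lit 0) (nat_lit 0) (XT.lf (nat_lit 0) (nat_lit 2787961150272) (nat_lit 152) (nat_lit 15356381742380) (nat_lit 0) (nat_lit 353296617240) (nat_lit 7) (nat_lit 5) (nat_lit 9) (nat_lit 4) (nat_lit 7) (nat_lit 4) (nat_lit 370) (nat_lit 342) (nat_lit 188)) (XT.nd (nat_lit 78) (nat_lit 0) (nat_lit 0) (XT.lf (nat_lit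 0) (nat_lit 6826067698125) (nat_lit 152) (nat_lit 9456264394886) (nat_lit 0) (nat_lit 4391403164950) (nat_lit 7) (nat_lit 5) (nat_lit 9) (nat_lit 4) (nat_lit 7) (nat_lit 4) (nat_lit 371) (nat_lit 342) (nat_lit 187)) (XT.lf (nat_lit 0) (nat_lit 11469890227719) (nat_lit 152) (nat_lit 2671129446166) (nat_lit 0) (nat_lit 9035225694420) (nat_lit 7) (nat_lit 5) (nat_lit 9) (nat_lit 4) (nat_lit 7) (nat_lit 4) (nat_lit 372) (nat_lit 342) (nat_lit 186))))) (XT.nd (nat_lit 234) (nat_lit 152) (nat_lit 0) (XT.nd (nat_lit 78) (nat_lit 0) (nat_lit 0) (XT.lf (nat_lit 0) (nat_lit 5633290191796) (nat_lit 76) (nat_lit 11410258478398) (nat_lit 76) (nat_lit 8975593944991) (nat_lit 6) (nat_lit 4) (nat_lit 7) (nat_lit 5) (nat_lit 7) (nat_lit 4) (nat_lit 373) (nat_lit 342) (nat_lit 185)) (XT.nd (nat_lit 78) (nat_lit 0) (nat_lit 0) (XT.lf (nat_lit 0) (nat_lit 15483571299964) (nat_lit 76) (nat_lit 8109311799765)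 (nat_lit 76) (nat_lit 5674647266264) (nat_lit 6) (nat_lit 4) (nat_lit 7) (nat_lit 5) (nat_lit 7) (nat_lit 4) (nat_lit 374) (nat_lit 342) (nat_lit 184)) (XT.lf (nat_lit 0) (nat_lit 26811394573708) (nat_lit 76) (nat_lit 4313223119672) (nat_lit 76) (nat_lit 1878558586090) (nat_lit 6) (nat_lit 4) (nat_lit 7) (nat_lit 5) (nat_lit 7) (nat_lit 4) (nat_lit 375) (nat_lit 342) (nat_lit 183)))) (XT.nd (nat_lit 78) (nat_lit 0) (nat_lit 0) (XT.lf (nat_lit 0) (nat_lit 2388618599018) (nat_lit 152) (nat_lit 34605122607793) (nat_lit 0) (nat_lit 271519004537) (nat_lit 4) (nat_lit 5) (nat_lit 6) (nat_lit 4) (nat_lit 4) (nat_lit 4) (nat_lit 376) (nat_lit 342) (nat_lit 182)) (XT.nd (nat_lit 78) (nat_lit 0) (nat_lit 0) (XT.lf (nat_lit 0) (nat_lit 7648009081666) (nat_lit 152) (nat_lit 28892650088056) (nat_lit 0) (nat_lit 5530909487131) (nat_lit 4) (nat_lit 5) (nat_lit 6) (nat_lit 4) (nat_lit 4) (nat_lit 4) (nat_lit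 377) (nat_lit 342) (nat_lit 181)) (XT.lf (nat_lit 0) (nat_lit 13696308136464) (nat_lit 152) (nat_lit 22323306690876) (nat_lit 0) (nat_lit 11579208541883) (nat_lit 4) (nat_lit 5) (nat_lit 6) (nat_lit 4) (nat_lit 4) (nat_lit 4) (nat_lit 378) (nat_lit 342) (nat_lit 180)))))) (XT.nd (nat_lit 44070) (nat_lit 0) (nat_lit 1900) (XT.nd (nat_lit 1638) (nat_lit 152) (nat_lit 0) (XT.nd (nat_lit 78) (nat_lit 76) (nat_lit 0) (XT.lf (nat_lit 0) (nat_lit 20651852049267) (nat_lit 152) (nat_lit 14768561784567) (nat_lit 0) (nat_lit 18534752454646) (nat_lit 4) (nat_lit 5) (nat_lit 6) (nat_lit 4) (nat_lit 4) (nat_lit 4) (nat_lit 379) (nat_lit 342) (nat_lit 179)) (XT.nd (nat_lit 78) (nat_lit 76) (nat_lit 0) (XT.lf (nat_lit 0) (nat_lit 28650727548804) (nat_lit 152) (nat_lit 6080605142703) (nat_lit 0) (nat_lit 26533627954147) (nat_lit 4) (nat_lit 5) (nat_lit 6) (nat_lit 4) (nat_lit 4) (nat_lit 4) (nat_lit 380)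 (nat_lit 342) (nat_lit 178)) (XT.lf (nat_lit 0) (nat_lit 4292711892349) (nat_lit 76) (nat_lit 33734474525990) (nat_lit 76) (nat_lit 31617374931303) (nat_lit 3) (nat_lit 4) (nat_lit 4) (nat_lit 5) (nat_lit 4) (nat_lit 4) (nat_lit 381) (nat_lit 342) (nat_lit 177)))) (XT.nd (nat_lit 78) (nat_lit 0) (nat_lit 0) (XT.lf (nat_lit 0) (nat_lit 106408134333465) (nat_lit 152) (nat_lit 701830939221060) (nat_lit 0) (nat_lit 104567178164005) (nat_lit 1) (nat_lit 5) (nat_lit 3) (nat_lit 4) (nat_lit 1) (nat_lit 4) (nat_lit 400) (nat_lit 342) (nat_lit 158)) (XT.nd (nat_lit 78) (nat_lit 0) (nat_lit 0) (XT.lf (nat_lit 0) (nat_lit 128949981031071) (nat_lit 152) (nat_lit 792639075747336) (nat_lit 0) (nat_lit 127109024861611) (nat_lit 1) (nat_lit 5) (nat_lit 3) (nat_lit 4) (nat_lit 1) (nat_lit 4) (nat_lit 401) (nat_lit 342) (nat_lit 157)) (XT.lf (nat_lit 0) (nat_lit 154873104733309) (nat_lit 152) (nat_lit 897068432752577)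 (nat_lit 0) (nat_lit 153032148563846) (nat_lit 1) (nat_lit 5) (nat_lit 3) (nat_lit 4) (nat_lit 1) (nat_lit 4) (nat_lit 402) (nat_lit 342) (nat_lit 156))))) (XT.nd (nat_lit 234) (nat_lit 152) (nat_lit 0) (XT.nd (nat_lit 78) (nat_lit 0) (nat_lit 0) (XT.lf (nat_lit 0) (nat_lit 199986059821) (nat_lit 380) (nat_lit 313412483645) (nat_lit 380) (nat_lit 313412483645) (nat_lit 28) (nat_lit 3) (nat_lit 33) (nat_lit 3) (nat_lit 33) (nat_lit 5) (nat_lit 343) (nat_lit 343) (nat_lit 214)) (XT.nd (nat_lit 78) (nat_lit 0) (nat_lit 76) (XT.lf (nat_lit 76) (nat_lit 192858714006) (nat_lit 0) (nat_lit 245097204682) (nat_lit 380) (nat_lit 1338489906054) (nat_lit 29) (nat_lit 5) (nat_lit 28) (nat_lit 3) (nat_lit 33) (nat_lit 5) (nat_lit 344) (nat_lit 343) (nat_lit 213)) (XT.lf (nat_lit 0) (nat_lit 543038264138) (nat_lit 304) (nat_lit 735471890138) (nat_lit 380) (nat_lit 629972860087) (nat_lit 29) (nat_lit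 5) (nat_lit 33) (nat_lit 5) (nat_lit 34) (nat_lit 5) (nat_lit 345) (nat_lit 343) (nat_lit 212)))) (XT.nd (nat_lit 78) (nat_lit 228) (nat_lit 0) (XT.lf (nat_lit 76) (nat_lit 250489634805) (nat_lit 0) (nat_lit 435436860228) (nat_lit 380) (nat_lit 1371092757356) (nat_lit 30) (nat_lit 5) (nat_lit 29) (nat_lit 5) (nat_lit 34) (nat_lit 5) (nat_lit 346) (nat_lit 343) (nat_lit 211)) (XT.nd (nat_lit 78) (nat_lit 304) (nat_lit 0) (XT.lf (nat_lit 0) (nat_lit 912639634613) (nat_lit 304) (nat_lit 779013316812) (nat_lit 76) (nat_lit 526824223592) (nat_lit 30) (nat_lit 5) (nat_lit 34) (nat_lit 5) (nat_lit 31) (nat_lit 5) (nat_lit 347) (nat_lit 343) (nat_lit 210)) (XT.lf (nat_lit 0) (nat_lit 419216927625) (nat_lit 304) (nat_lit 792236782399) (nat_lit 380) (nat_lit 1186985981285) (nat_lit 26) (nat_lit 5) (nat_lit 30) (nat_lit 5) (nat_lit 31) (nat_lit 5) (nat_lit 348) (nat_lit 343) (nat_lit 209))))))))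
noncomputable def xc112 : XT := (XT.nd (nat_lit 1716) (nat_lit 456) (nat_lit 0) (XT.nd (nat_lit 858) (nat_lit 532) (nat_lit 0) (XT.nd (nat_lit 390) (nat_lit 456) (nat_lit 0) (XT.nd (nat_lit 156) (nat_lit 152) (nat_lit 0) (XT.nd (nat_lit 78) (nat_lit 152) (nat_lit 0) (XT.lf (nat_lit 0) (nat_lit 1607774653043) (nat_lit 380) (nat_lit 726519840842) (nat_lit 76) (nat_lit 263199377719) (nat_lit 26) (nat_lit 5) (nat_lit 31) (nat_lit 5) (nat_lit 27) (nat_lit 5) (nat_lit 349) (nat_lit 343) (nat_lit 208)) (XT.lf (nat_lit 0) (nat_lit 742462063946) (nat_lit 152) (nat_lit 1389551003276) (nat_lit 228) (nat_lit 684122712269) (nat_lit 24) (nat_lit 5) (nat_lit 26) (nat_lit 5) (nat_lit 27) (nat_lit 5) (nat_lit 350) (nat_lit 343) (nat_lit 207))) (XT.nd (nat_lit 78) (nat_lit 152) (nat_lit 0) (XT.lf (nat_lit 0) (nat_lit 2513442175035) (nat_lit 152) (nat_lit 259422240045) (nat_lit 228) (nat_lit 289012982750)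 (nat_lit 24) (nat_lit 5) (nat_lit 26) (nat_lit 5) (nat_lit 27) (nat_lit 5) (nat_lit 351) (nat_lit 343) (nat_lit 206)) (XT.nd (nat_lit 78) (nat_lit 0) (nat_lit 0) (XT.lf (nat_lit 0) (nat_lit 251123963908) (nat_lit 152) (nat_lit 2065382734725) (nat_lit 76) (nat_lit 1011874079555) (nat_lit 22) (nat_lit 5) (nat_lit 24) (nat_lit 5) (nat_lit 23) (nat_lit 5) (nat_lit 352) (nat_lit 343) (nat_lit 205)) (XT.lf (nat_lit 0) (nat_lit 885078823924) (nat_lit 152) (nat_lit 250257612851) (nat_lit 76) (nat_lit 2491100831010) (nat_lit 22) (nat_lit 5) (nat_lit 24) (nat_lit 5) (nat_lit 23) (nat_lit 5) (nat_lit 353) (nat_lit 343) (nat_lit 204))))) (XT.nd (nat_lit 234) (nat_lit 228) (nat_lit 0) (XT.nd (nat_lit 78) (nat_lit 76) (nat_lit 0) (XT.lf (nat_lit 0) (nat_lit 1710843933455) (nat_lit 228) (nat_lit 1953212536512) (nat_lit 76) (nat_lit 290638207780) (nat_lit 20) (nat_lit 5) (nat_lit 23) (nat_lit 5) (nat_lit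 21) (nat_lit 4) (nat_lit 354) (nat_lit 343) (nat_lit 203)) (XT.nd (nat_lit 78) (nat_lit 0) (nat_lit 0) (XT.lf (nat_lit 0) (nat_lit 257080451382) (nat_lit 76) (nat_lit 2481806733343) (nat_lit 152) (nat_lit 1581541508184) (nat_lit 19) (nat_lit 5) (nat_lit 20) (nat_lit 5) (nat_lit 21) (nat_lit 4) (nat_lit 355) (nat_lit 343) (nat_lit 202)) (XT.lf (nat_lit 0) (nat_lit 3018431839769) (nat_lit 76) (nat_lit 1004804828871) (nat_lit 152) (nat_lit 702471179962) (nat_lit 19) (nat_lit 5) (nat_lit 20) (nat_lit 5) (nat_lit 21) (nat_lit 4) (nat_lit 356) (nat_lit 343) (nat_lit 201)))) (XT.nd (nat_lit 78) (nat_lit 76) (nat_lit 0) (XT.lf (nat_lit 0) (nat_lit 357449225369) (nat_lit 152) (nat_lit 4128464165085) (nat_lit 76) (nat_lit 692481976978) (nat_lit 17) (nat_lit 5) (nat_lit 19) (nat_lit 5) (nat_lit 18) (nat_lit 4) (nat_lit 357) (nat_lit 343) (nat_lit 200)) (XT.nd (nat_lit 78) (nat_lit 76) (nat_lit 0)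 (XT.lf (nat_lit 0) (nat_lit 1645779557152) (nat_lit 152) (nat_lit 1358553953086) (nat_lit 76) (nat_lit 2668433622451) (nat_lit 17) (nat_lit 5) (nat_lit 19) (nat_lit 5) (nat_lit 18) (nat_lit 4) (nat_lit 358) (nat_lit 343) (nat_lit 199)) (XT.lf (nat_lit 0) (nat_lit 2005375152470) (nat_lit 76) (nat_lit 1205022593853) (nat_lit 152) (nat_lit 3018441170270) (nat_lit 16) (nat_lit 5) (nat_lit 17) (nat_lit 5) (nat_lit 18) (nat_lit 4) (nat_lit 359) (nat_lit 343) (nat_lit 198)))))) (XT.nd (nat_lit 390) (nat_lit 304) (nat_lit 0) (XT.nd (nat_lit 156) (nat_lit 152) (nat_lit 0) (XT.nd (nat_lit 78) (nat_lit 76) (nat_lit 0) (XT.lf (nat_lit 0) (nat_lit 5119889721436) (nat_lit 152) (nat_lit 870258347563) (nat_lit 0) (nat_lit 861646240449) (nat_lit 16) (nat_lit 5) (nat_lit 18) (nat_lit 4) (nat_lit 16) (nat_lit 4) (nat_lit 360) (nat_lit 343) (nat_lit 197)) (XT.lf (nat_lit 0) (nat_lit 3214744650829) (nat_lit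 76) (nat_lit 4291558589977) (nat_lit 76) (nat_lit 33315108226) (nat_lit 15) (nat_lit 4) (nat_lit 16) (nat_lit 5) (nat_lit 16) (nat_lit 4) (nat_lit 361) (nat_lit 343) (nat_lit 196))) (XT.nd (nat_lit 78) (nat_lit 76) (nat_lit 0) (XT.lf (nat_lit 0) (nat_lit 1796782530132) (nat_lit 152) (nat_lit 395161042628) (nat_lit 76) (nat_lit 6119598015344) (nat_lit 14) (nat_lit 5) (nat_lit 16) (nat_lit 5) (nat_lit 15) (nat_lit 4) (nat_lit 362) (nat_lit 343) (nat_lit 195)) (XT.nd (nat_lit 78) (nat_lit 0) (nat_lit 0) (XT.lf (nat_lit 0) (nat_lit 4103583297094) (nat_lit 152) (nat_lit 4663829276480) (nat_lit 0) (nat_lit 400762877101) (nat_lit 13) (nat_lit 5) (nat_lit 15) (nat_lit 4) (nat_lit 13) (nat_lit 4) (nat_lit 363) (nat_lit 343) (nat_lit 194)) (XT.lf (nat_lit 0) (nat_lit 6882422215163) (nat_lit 152) (nat_lit 72377677326) (nat_lit 0) (nat_lit 3179601794733) (nat_lit 13) (nat_lit 5) (nat_lit 15) (nat_lit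 4) (nat_lit 13) (nat_lit 4) (nat_lit 364) (nat_lit 343) (nat_lit 193))))) (XT.nd (nat_lit 234) (nat_lit 76) (nat_lit 0) (XT.nd (nat_lit 78) (nat_lit 152) (nat_lit 0) (XT.lf (nat_lit 0) (nat_lit 5716734936449) (nat_lit 76) (nat_lit 4598069836644) (nat_lit 76) (nat_lit 895249415836) (nat_lit 12) (nat_lit 4) (nat_lit 13) (nat_lit 5) (nat_lit 13) (nat_lit 4) (nat_lit 365) (nat_lit 343) (nat_lit 192)) (XT.nd (nat_lit 78) (nat_lit 76) (nat_lit 0) (XT.lf (nat_lit 0) (nat_lit 1657370713788) (nat_lit 152) (nat_lit 139473386493) (nat_lit 76) (nat_lit 10638342704042) (nat_lit 11) (nat_lit 5) (nat_lit 13) (nat_lit 5) (nat_lit 12) (nat_lit 4) (nat_lit 366) (nat_lit 343) (nat_lit 191)) (XT.lf (nat_lit 0) (nat_lit 4846760801367) (nat_lit 152) (nat_lit 7312186901375) (nat_lit 0) (nat_lit 1626916956649) (nat_lit 10) (nat_lit 5) (nat_lit 12) (nat_lit 4) (nat_lit 10) (nat_lit 4) (nat_lit 367) (nat_lit 343)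 (nat_lit 190)))) (XT.nd (nat_lit 78) (nat_lit 76) (nat_lit 0) (XT.lf (nat_lit 0) (nat_lit 8607761234657) (nat_lit 152) (nat_lit 1329485293457) (nat_lit 0) (nat_lit 5387917389722) (nat_lit 10) (nat_lit 5) (nat_lit 12) (nat_lit 4) (nat_lit 10) (nat_lit 4) (nat_lit 368) (nat_lit 343) (nat_lit 189)) (XT.nd (nat_lit 78) (nat_lit 0) (nat_lit 0) (XT.lf (nat_lit 0) (nat_lit 6093068661244) (nat_lit 76) (nat_lit 7092144051014) (nat_lit 76) (nat_lit 3872300205891) (nat_lit 9) (nat_lit 4) (nat_lit 10) (nat_lit 5) (nat_lit 10) (nat_lit 4) (nat_lit 369) (nat_lit 343) (nat_lit 188)) (XT.lf (nat_lit 0) (nat_lit 14778421725940) (nat_lit 76) (nat_lit 3740356007298) (nat_lit 76) (nat_lit 520512162011) (nat_lit 9) (nat_lit 4) (nat_lit 10) (nat_lit 5) (nat_lit 10) (nat_lit 4) (nat_lit 370) (nat_lit 343) (nat_lit 187))))))) (XT.nd (nat_lit 858) (nat_lit 76) (nat_lit 0) (XT.nd (nat_lit 390) (nat_lit 152) (nat_lit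 0) (XT.nd (nat_lit 156) (nat_lit 76) (nat_lit 0) (XT.nd (nat_lit 78) (nat_lit 0) (nat_lit 0) (XT.lf (nat_lit 0) (nat_lit 3206155327515) (nat_lit 152) (nat_lit 17659838994059) (nat_lit 0) (nat_lit 406291114097) (nat_lit 7) (nat_lit 5) (nat_lit 9) (nat_lit 4) (nat_lit 7) (nat_lit 4) (nat_lit 371) (nat_lit 343) (nat_lit 186)) (XT.lf (nat_lit 0) (nat_lit 7849977856932) (nat_lit 152) (nat_lit 10874704045703) (nat_lit 0) (nat_lit 5050113643406) (nat_lit 7) (nat_lit 5) (nat_lit 9) (nat_lit 4) (nat_lit 7) (nat_lit 4) (nat_lit 372) (nat_lit 343) (nat_lit 185))) (XT.nd (nat_lit 78) (nat_lit 76) (nat_lit 0) (XT.lf (nat_lit 0) (nat_lit 13190373765432) (nat_lit 152) (nat_lit 3071798855773) (nat_lit 0) (nat_lit 10390509551813) (nat_lit 7) (nat_lit 5) (nat_lit 9) (nat_lit 4) (nat_lit 7) (nat_lit 4) (nat_lit 373) (nat_lit 343) (nat_lit 184)) (XT.nd (nat_lit 78) (nat_lit 0) (nat_lit 0) (XT.lf (nat_lit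 0) (nat_lit 6478283727551) (nat_lit 76) (nat_lit 13121797246553) (nat_lit 76) (nat_lit 10321933032852) (nat_lit 6) (nat_lit 4) (nat_lit 7) (nat_lit 5) (nat_lit 7) (nat_lit 4) (nat_lit 374) (nat_lit 343) (nat_lit 183)) (XT.lf (nat_lit 0) (nat_lit 17806107001033) (nat_lit 76) (nat_lit 9325708566595) (nat_lit 76) (nat_lit 6525844352823) (nat_lit 6) (nat_lit 4) (nat_lit 7) (nat_lit 5) (nat_lit 7) (nat_lit 4) (nat_lit 375) (nat_lit 343) (nat_lit 182))))) (XT.nd (nat_lit 234) (nat_lit 0) (nat_lit 0) (XT.nd (nat_lit 78) (nat_lit 152) (nat_lit 0) (XT.lf (nat_lit 0) (nat_lit 30833103765047) (nat_lit 76) (nat_lit 4960206584897) (nat_lit 76) (nat_lit 2160342371063) (nat_lit 6) (nat_lit 4) (nat_lit 7) (nat_lit 5) (nat_lit 7) (nat_lit 4) (nat_lit 376) (nat_lit 343) (nat_lit 181)) (XT.nd (nat_lit 78) (nat_lit 0) (nat_lit 0) (XT.lf (nat_lit 0) (nat_lit 2746911391532) (nat_lit 152) (nat_lit 39795890993401)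 (nat_lit 0) (nat_lit 312246857717) (nat_lit 4) (nat_lit 5) (nat_lit 6) (nat_lit 4) (nat_lit 4) (nat_lit 4) (nat_lit 377) (nat_lit 343) (nat_lit 180)) (XT.lf (nat_lit 0) (nat_lit 8795210446231) (nat_lit 152) (nat_lit 33226547596429) (nat_lit 0) (nat_lit 6360545912375) (nat_lit 4) (nat_lit 5) (nat_lit 6) (nat_lit 4) (nat_lit 4) (nat_lit 4) (nat_lit 378) (nat_lit 343) (nat_lit 179)))) (XT.nd (nat_lit 78) (nat_lit 0) (nat_lit 0) (XT.lf (nat_lit 0) (nat_lit 15750754358947) (nat_lit 152) (nat_lit 25671802690302) (nat_lit 0) (nat_lit 13316089825056) (nat_lit 4) (nat_lit 5) (nat_lit 6) (nat_lit 4) (nat_lit 4) (nat_lit 4) (nat_lit 379) (nat_lit 343) (nat_lit 178)) (XT.nd (nat_lit 78) (nat_lit 0) (nat_lit 0) (XT.lf (nat_lit 0) (nat_lit 23749629858408) (nat_lit 152) (nat_lit 16983846048596) (nat_lit 0) (nat_lit 21314965324486) (nat_lit 4) (nat_lit 5) (nat_lit 6) (nat_lit 4) (nat_lit 4) (nat_lit 4)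 (nat_lit 380) (nat_lit 343) (nat_lit 177)) (XT.lf (nat_lit 0) (nat_lit 32948336682646) (nat_lit 152) (nat_lit 6992695910929) (nat_lit 0) (nat_lit 30513672148698) (nat_lit 4) (nat_lit 5) (nat_lit 6) (nat_lit 4) (nat_lit 4) (nat_lit 4) (nat_lit 381) (nat_lit 343) (nat_lit 176)))))) (XT.nd (nat_lit 44226) (nat_lit 0) (nat_lit 1444) (XT.nd (nat_lit 43992) (nat_lit 0) (nat_lit 1900) (XT.nd (nat_lit 43914) (nat_lit 0) (nat_lit 1900) (XT.lf (nat_lit 0) (nat_lit 4936618679237) (nat_lit 76) (nat_lit 38794645703303) (nat_lit 76) (nat_lit 36359981169332) (nat_lit 3) (nat_lit 4) (nat_lit 4) (nat_lit 5) (nat_lit 4) (nat_lit 4) (nat_lit 382) (nat_lit 343) (nat_lit 175)) (XT.lf (nat_lit 0) (nat_lit 229983989881) (nat_lit 380) (nat_lit 360424344049) (nat_lit 380) (nat_lit 360424344049) (nat_lit 28) (nat_lit 3) (nat_lit 33) (nat_lit 3) (nat_lit 33) (nat_lit 5) (nat_lit 344) (nat_lit 344) (nat_lit 212)))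 (XT.nd (nat_lit 78) (nat_lit 0) (nat_lit 76) (XT.lf (nat_lit 76) (nat_lit 221787544287) (nat_lit 0) (nat_lit 281861799836) (nat_lit 380) (nat_lit 1539263348624) (nat_lit 29) (nat_lit 5) (nat_lit 28) (nat_lit 3) (nat_lit 33) (nat_lit 5) (nat_lit 345) (nat_lit 344) (nat_lit 211)) (XT.nd (nat_lit 78) (nat_lit 0) (nat_lit 0) (XT.lf (nat_lit 0) (nat_lit 624494035962) (nat_lit 304) (nat_lit 845792648019) (nat_lit 380) (nat_lit 724468777653) (nat_lit 29) (nat_lit 5) (nat_lit 33) (nat_lit 5) (nat_lit 34) (nat_lit 5) (nat_lit 346) (nat_lit 344) (nat_lit 210)) (XT.lf (nat_lit 76) (nat_lit 288063104500) (nat_lit 0) (nat_lit 500752393805) (nat_lit 380) (nat_lit 1576756637544) (nat_lit 30) (nat_lit 5) (nat_lit 29) (nat_lit 5) (nat_lit 34) (nat_lit 5) (nat_lit 347) (nat_lit 344) (nat_lit 209))))) (XT.nd (nat_lit 234) (nat_lit 304) (nat_lit 0) (XT.nd (nat_lit 78) (nat_lit 304) (nat_lit 0) (XT.lf (nat_lit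 0) (nat_lit 1049535604873) (nat_lit 304) (nat_lit 895865289064) (nat_lit 76) (nat_lit 605847853533) (nat_lit 30) (nat_lit 5) (nat_lit 34) (nat_lit 5) (nat_lit 31) (nat_lit 5) (nat_lit 348) (nat_lit 344) (nat_lit 208)) (XT.nd (nat_lit 78) (nat_lit 0) (nat_lit 0) (XT.lf (nat_lit 0) (nat_lit 482099490890) (nat_lit 304) (nat_lit 911072298435) (nat_lit 380) (nat_lit 1365033852226) (nat_lit 26) (nat_lit 5) (nat_lit 30) (nat_lit 5) (nat_lit 31) (nat_lit 5) (nat_lit 349) (nat_lit 344) (nat_lit 207)) (XT.lf (nat_lit 0) (nat_lit 1848940870870) (nat_lit 380) (nat_lit 835497793037) (nat_lit 76) (nat_lit 302679285426) (nat_lit 26) (nat_lit 5) (nat_lit 31) (nat_lit 5) (nat_lit 27) (nat_lit 5) (nat_lit 350) (nat_lit 344) (nat_lit 206)))) (XT.nd (nat_lit 78) (nat_lit 152) (nat_lit 0) (XT.lf (nat_lit 0) (nat_lit 853831396381) (nat_lit 152) (nat_lit 1597983649149) (nat_lit 228) (nat_lit 786741098124) (nat_lit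 24) (nat_lit 5) (nat_lit 26) (nat_lit 5) (nat_lit 27) (nat_lit 5) (nat_lit 351) (nat_lit 344) (nat_lit 205)) (XT.nd (nat_lit 78) (nat_lit 152) (nat_lit 0) (XT.lf (nat_lit 0) (nat_lit 2890458521154) (nat_lit 152) (nat_lit 298335572035) (nat_lit 228) (nat_lit 332364911915) (nat_lit 24) (nat_lit 5) (nat_lit 26) (nat_lit 5) (nat_lit 27) (nat_lit 5) (nat_lit 352) (nat_lit 344) (nat_lit 204)) (XT.lf (nat_lit 0) (nat_lit 288792574016) (nat_lit 152) (nat_lit 2375190122306) (nat_lit 76) (nat_lit 1163655196249) (nat_lit 22) (nat_lit 5) (nat_lit 24) (nat_lit 5) (nat_lit 23) (nat_lit 5) (nat_lit 353) (nat_lit 344) (nat_lit 203))))))))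
noncomputable def xc113 : XT := (XT.nd (nat_lit 1716) (nat_lit 152) (nat_lit 0) (XT.nd (nat_lit 858) (nat_lit 532) (nat_lit 0) (XT.nd (nat_lit 390) (nat_lit 304) (nat_lit 0) (XT.nd (nat_lit 156) (nat_lit 228) (nat_lit 0) (XT.nd (nat_lit 78) (nat_lit 152) (nat_lit 0) (XT.lf (nat_lit 0) (nat_lit 1017840661010) (nat_lit 152) (nat_lit 287796235102) (nat_lit 76) (nat_lit 2864765959801) (nat_lit 22) (nat_lit 5) (nat_lit 24) (nat_lit 5) (nat_lit 23) (nat_lit 5) (nat_lit 354) (nat_lit 344) (nat_lit 202)) (XT.lf (nat_lit 0) (nat_lit 1967470536247) (nat_lit 228) (nat_lit 2246194396577) (nat_lit 76) (nat_lit 334233944656) (nat_lit 20) (nat_lit 5) (nat_lit 23) (nat_lit 5) (nat_lit 21) (nat_lit 4) (nat_lit 355) (nat_lit 344) (nat_lit 201))) (XT.nd (nat_lit 78) (nat_lit 152) (nat_lit 0) (XT.lf (nat_lit 0) (nat_lit 295642538575) (nat_lit 76) (nat_lit 2854077735774) (nat_lit 152) (nat_lit 1818772720698)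 (nat_lit 19) (nat_lit 5) (nat_lit 20) (nat_lit 5) (nat_lit 21) (nat_lit 4) (nat_lit 356) (nat_lit 344) (nat_lit 200)) (XT.nd (nat_lit 78) (nat_lit 152) (nat_lit 0) (XT.lf (nat_lit 0) (nat_lit 3471196632678) (nat_lit 76) (nat_lit 1155525546619) (nat_lit 152) (nat_lit 807841845032) (nat_lit 19) (nat_lit 5) (nat_lit 20) (nat_lit 5) (nat_lit 21) (nat_lit 4) (nat_lit 357) (nat_lit 344) (nat_lit 199)) (XT.lf (nat_lit 0) (nat_lit 411066619624) (nat_lit 152) (nat_lit 4747733771413) (nat_lit 76) (nat_lit 796354279935) (nat_lit 17) (nat_lit 5) (nat_lit 19) (nat_lit 5) (nat_lit 18) (nat_lit 4) (nat_lit 358) (nat_lit 344) (nat_lit 198))))) (XT.nd (nat_lit 234) (nat_lit 228) (nat_lit 0) (XT.nd (nat_lit 78) (nat_lit 76) (nat_lit 0) (XT.lf (nat_lit 0) (nat_lit 1892646499812) (nat_lit 152) (nat_lit 1562337030019) (nat_lit 76) (nat_lit 3068698671392) (nat_lit 17) (nat_lit 5) (nat_lit 19) (nat_lit 5) (nat_lit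 18) (nat_lit 4) (nat_lit 359) (nat_lit 344) (nat_lit 197)) (XT.nd (nat_lit 78) (nat_lit 0) (nat_lit 0) (XT.lf (nat_lit 0) (nat_lit 2306181440642) (nat_lit 76) (nat_lit 1385775976164) (nat_lit 152) (nat_lit 3471207335989) (nat_lit 16) (nat_lit 5) (nat_lit 17) (nat_lit 5) (nat_lit 18) (nat_lit 4) (nat_lit 360) (nat_lit 344) (nat_lit 196)) (XT.lf (nat_lit 0) (nat_lit 5887873187317) (nat_lit 152) (nat_lit 1000797085517) (nat_lit 0) (nat_lit 990893181876) (nat_lit 16) (nat_lit 5) (nat_lit 18) (nat_lit 4) (nat_lit 16) (nat_lit 4) (nat_lit 361) (nat_lit 344) (nat_lit 195)))) (XT.nd (nat_lit 78) (nat_lit 152) (nat_lit 0) (XT.lf (nat_lit 0) (nat_lit 3696956361989) (nat_lit 76) (nat_lit 4935292372164) (nat_lit 76) (nat_lit 38312366146) (nat_lit 15) (nat_lit 4) (nat_lit 16) (nat_lit 5) (nat_lit 16) (nat_lit 4) (nat_lit 362) (nat_lit 344) (nat_lit 194)) (XT.nd (nat_lit 78) (nat_lit 76) (nat_lit 0)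 (XT.lf (nat_lit 0) (nat_lit 2066299916238) (nat_lit 152) (nat_lit 454435186606) (nat_lit 76) (nat_lit 7037537722485) (nat_lit 14) (nat_lit 5) (nat_lit 16) (nat_lit 5) (nat_lit 15) (nat_lit 4) (nat_lit 363) (nat_lit 344) (nat_lit 193)) (XT.lf (nat_lit 0) (nat_lit 4719120798109) (nat_lit 152) (nat_lit 5363403655397) (nat_lit 0) (nat_lit 460877313800) (nat_lit 13) (nat_lit 5) (nat_lit 15) (nat_lit 4) (nat_lit 13) (nat_lit 4) (nat_lit 364) (nat_lit 344) (nat_lit 192)))))) (XT.nd (nat_lit 390) (nat_lit 304) (nat_lit 0) (XT.nd (nat_lit 156) (nat_lit 152) (nat_lit 0) (XT.nd (nat_lit 78) (nat_lit 76) (nat_lit 0) (XT.lf (nat_lit 0) (nat_lit 7914785553047) (nat_lit 152) (nat_lit 83234318008) (nat_lit 0) (nat_lit 3656542068407) (nat_lit 13) (nat_lit 5) (nat_lit 15) (nat_lit 4) (nat_lit 13) (nat_lit 4) (nat_lit 365) (nat_lit 344) (nat_lit 191)) (XT.lf (nat_lit 0) (nat_lit 6574245187337) (nat_lit 76)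 (nat_lit 5287780307030) (nat_lit 76) (nat_lit 1029536822103) (nat_lit 12) (nat_lit 4) (nat_lit 13) (nat_lit 5) (nat_lit 13) (nat_lit 4) (nat_lit 366) (nat_lit 344) (nat_lit 190))) (XT.nd (nat_lit 78) (nat_lit 76) (nat_lit 0) (XT.lf (nat_lit 0) (nat_lit 1905976325695) (nat_lit 152) (nat_lit 160394384930) (nat_lit 76) (nat_lit 12234094113618) (nat_lit 11) (nat_lit 5) (nat_lit 13) (nat_lit 5) (nat_lit 12) (nat_lit 4) (nat_lit 367) (nat_lit 344) (nat_lit 189)) (XT.nd (nat_lit 78) (nat_lit 0) (nat_lit 0) (XT.lf (nat_lit 0) (nat_lit 5573774926344) (nat_lit 152) (nat_lit 8409014926977) (nat_lit 0) (nat_lit 1870954504263) (nat_lit 10) (nat_lit 5) (nat_lit 12) (nat_lit 4) (nat_lit 10) (nat_lit 4) (nat_lit 368) (nat_lit 344) (nat_lit 188)) (XT.lf (nat_lit 0) (nat_lit 9898925424005) (nat_lit 152) (nat_lit 1528908079123) (nat_lit 0) (nat_lit 6196105001760) (nat_lit 10) (nat_lit 5) (nat_lit 12) (nat_lit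 4) (nat_lit 10) (nat_lit 4) (nat_lit 369) (nat_lit 344) (nat_lit 187))))) (XT.nd (nat_lit 234) (nat_lit 76) (nat_lit 0) (XT.nd (nat_lit 78) (nat_lit 152) (nat_lit 0) (XT.lf (nat_lit 0) (nat_lit 7007028968403) (nat_lit 76) (nat_lit 8155965654632) (nat_lit 76) (nat_lit 4453145232244) (nat_lit 9) (nat_lit 4) (nat_lit 10) (nat_lit 5) (nat_lit 10) (nat_lit 4) (nat_lit 370) (nat_lit 344) (nat_lit 186)) (XT.nd (nat_lit 78) (nat_lit 152) (nat_lit 0) (XT.lf (nat_lit 0) (nat_lit 16995184991763) (nat_lit 76) (nat_lit 4301409404885) (nat_lit 76) (nat_lit 598588982373) (nat_lit 9) (nat_lit 4) (nat_lit 10) (nat_lit 5) (nat_lit 10) (nat_lit 4) (nat_lit 371) (nat_lit 344) (nat_lit 185)) (XT.lf (nat_lit 0) (nat_lit 3687078630197) (nat_lit 152) (nat_lit 20308814835850) (nat_lit 0) (nat_lit 467234784441) (nat_lit 7) (nat_lit 5) (nat_lit 9) (nat_lit 4) (nat_lit 7) (nat_lit 4) (nat_lit 372) (nat_lit 344) (nat_lit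 184)))) (XT.nd (nat_lit 78) (nat_lit 76) (nat_lit 0) (XT.lf (nat_lit 0) (nat_lit 9027474538563) (nat_lit 152) (nat_lit 12505909646195) (nat_lit 0) (nat_lit 5807630692725) (nat_lit 7) (nat_lit 5) (nat_lit 9) (nat_lit 4) (nat_lit 7) (nat_lit 4) (nat_lit 373) (nat_lit 344) (nat_lit 183)) (XT.nd (nat_lit 78) (nat_lit 76) (nat_lit 0) (XT.lf (nat_lit 0) (nat_lit 15168929832935) (nat_lit 152) (nat_lit 3532568678605) (nat_lit 0) (nat_lit 11949085987026) (nat_lit 7) (nat_lit 5) (nat_lit 9) (nat_lit 4) (nat_lit 7) (nat_lit 4) (nat_lit 374) (nat_lit 344) (nat_lit 182)) (XT.lf (nat_lit 0) (nat_lit 7450026291965) (nat_lit 76) (nat_lit 15090066830810) (nat_lit 76) (nat_lit 11870222984840) (nat_lit 6) (nat_lit 4) (nat_lit 7) (nat_lit 5) (nat_lit 7) (nat_lit 4) (nat_lit 375) (nat_lit 344) (nat_lit 181))))))) (XT.nd (nat_lit 44772) (nat_lit 0) (nat_lit 988) (XT.nd (nat_lit 390) (nat_lit 0) (nat_lit 0)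 (XT.nd (nat_lit 156) (nat_lit 152) (nat_lit 0) (XT.nd (nat_lit 78) (nat_lit 0) (nat_lit 0) (XT.lf (nat_lit 0) (nat_lit 20477023055781) (nat_lit 76) (nat_lit 10724564849214) (nat_lit 76) (nat_lit 7504721003190) (nat_lit 6) (nat_lit 4) (nat_lit 7) (nat_lit 5) (nat_lit 7) (nat_lit 4) (nat_lit 376) (nat_lit 344) (nat_lit 180)) (XT.lf (nat_lit 0) (nat_lit 35458069333798) (nat_lit 76) (nat_lit 5704237570571) (nat_lit 76) (nat_lit 2484393724500) (nat_lit 6) (nat_lit 4) (nat_lit 7) (nat_lit 5) (nat_lit 7) (nat_lit 4) (nat_lit 377) (nat_lit 344) (nat_lit 179))) (XT.nd (nat_lit 78) (nat_lit 0) (nat_lit 0) (XT.lf (nat_lit 0) (nat_lit 3158948102275) (nat_lit 152) (nat_lit 45765274638206) (nat_lit 0) (nat_lit 359083888265) (nat_lit 4) (nat_lit 5) (nat_lit 6) (nat_lit 4) (nat_lit 4) (nat_lit 4) (nat_lit 378) (nat_lit 344) (nat_lit 178)) (XT.nd (nat_lit 78) (nat_lit 0) (nat_lit 0) (XT.lf (nat_lit 0)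 (nat_lit 10114492014915) (nat_lit 152) (nat_lit 38210529732237) (nat_lit 0) (nat_lit 7314627800875) (nat_lit 4) (nat_lit 5) (nat_lit 6) (nat_lit 4) (nat_lit 4) (nat_lit 4) (nat_lit 379) (nat_lit 344) (nat_lit 177)) (XT.lf (nat_lit 0) (nat_lit 18113367514311) (nat_lit 152) (nat_lit 29522573090668) (nat_lit 0) (nat_lit 15313503300243) (nat_lit 4) (nat_lit 5) (nat_lit 6) (nat_lit 4) (nat_lit 4) (nat_lit 4) (nat_lit 380) (nat_lit 344) (nat_lit 176))))) (XT.nd (nat_lit 44148) (nat_lit 0) (nat_lit 1824) (XT.nd (nat_lit 78) (nat_lit 0) (nat_lit 0) (XT.lf (nat_lit 0) (nat_lit 27312074338492) (nat_lit 152) (nat_lit 19531422953121) (nat_lit 0) (nat_lit 24512210124402) (nat_lit 4) (nat_lit 5) (nat_lit 6) (nat_lit 4) (nat_lit 4) (nat_lit 4) (nat_lit 381) (nat_lit 344) (nat_lit 175)) (XT.nd (nat_lit 43992) (nat_lit 0) (nat_lit 1824) (XT.lf (nat_lit 0) (nat_lit 37890587186194) (nat_lit 152) (nat_lit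 8041600295164) (nat_lit 0) (nat_lit 35090722972084) (nat_lit 4) (nat_lit 5) (nat_lit 6) (nat_lit 4) (nat_lit 4) (nat_lit 4) (nat_lit 382) (nat_lit 344) (nat_lit 174)) (XT.lf (nat_lit 0) (nat_lit 264481604308) (nat_lit 380) (nat_lit 414487986475) (nat_lit 380) (nat_lit 414487986475) (nat_lit 28) (nat_lit 3) (nat_lit 33) (nat_lit 3) (nat_lit 33) (nat_lit 5) (nat_lit 345) (nat_lit 345) (nat_lit 210)))) (XT.nd (nat_lit 78) (nat_lit 0) (nat_lit 76) (XT.lf (nat_lit 76) (nat_lit 255055693458) (nat_lit 0) (nat_lit 324141080739) (nat_lit 380) (nat_lit 1770152818148) (nat_lit 29) (nat_lit 5) (nat_lit 28) (nat_lit 3) (nat_lit 33) (nat_lit 5) (nat_lit 346) (nat_lit 345) (nat_lit 209)) (XT.nd (nat_lit 78) (nat_lit 0) (nat_lit 0) (XT.lf (nat_lit 0) (nat_lit 718168165707) (nat_lit 304) (nat_lit 972661525835) (nat_lit 380) (nat_lit 833139085645) (nat_lit 29) (nat_lit 5) (nat_lit 33) (nat_lit 5) (nat_lit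 34) (nat_lit 5) (nat_lit 347) (nat_lit 345) (nat_lit 208)) (XT.lf (nat_lit 76) (nat_lit 331272588681) (nat_lit 0) (nat_lit 575865256310) (nat_lit 380) (nat_lit 1813270107910) (nat_lit 30) (nat_lit 5) (nat_lit 29) (nat_lit 5) (nat_lit 34) (nat_lit 5) (nat_lit 348) (nat_lit 345) (nat_lit 207)))))) (XT.nd (nat_lit 390) (nat_lit 532) (nat_lit 0) (XT.nd (nat_lit 156) (nat_lit 152) (nat_lit 0) (XT.nd (nat_lit 78) (nat_lit 304) (nat_lit 0) (XT.lf (nat_lit 0) (nat_lit 1206965964559) (nat_lit 304) (nat_lit 1030245063315) (nat_lit 76) (nat_lit 696725028842) (nat_lit 30) (nat_lit 5) (nat_lit 34) (nat_lit 5) (nat_lit 31) (nat_lit 5) (nat_lit 349) (nat_lit 345) (nat_lit 206)) (XT.lf (nat_lit 0) (nat_lit 554414432763) (nat_lit 304) (nat_lit 1047733142199) (nat_lit 380) (nat_lit 1569788910210) (nat_lit 26) (nat_lit 5) (nat_lit 30) (nat_lit 5) (nat_lit 31) (nat_lit 5) (nat_lit 350) (nat_lit 345) (nat_lit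 205))) (XT.nd (nat_lit 78) (nat_lit 152) (nat_lit 0) (XT.lf (nat_lit 0) (nat_lit 2126282016526) (nat_lit 380) (nat_lit 960822443897) (nat_lit 76) (nat_lit 348081179034) (nat_lit 26) (nat_lit 5) (nat_lit 31) (nat_lit 5) (nat_lit 27) (nat_lit 5) (nat_lit 351) (nat_lit 345) (nat_lit 204)) (XT.nd (nat_lit 78) (nat_lit 0) (nat_lit 0) (XT.lf (nat_lit 0) (nat_lit 981906123111) (nat_lit 152) (nat_lit 1837681193029) (nat_lit 228) (nat_lit 904752246975) (nat_lit 24) (nat_lit 5) (nat_lit 26) (nat_lit 5) (nat_lit 27) (nat_lit 5) (nat_lit 352) (nat_lit 345) (nat_lit 203)) (XT.lf (nat_lit 0) (nat_lit 3324027314347) (nat_lit 152) (nat_lit 343085904804) (nat_lit 228) (nat_lit 382219634904) (nat_lit 24) (nat_lit 5) (nat_lit 26) (nat_lit 5) (nat_lit 27) (nat_lit 5) (nat_lit 353) (nat_lit 345) (nat_lit 202))))) (XT.nd (nat_lit 234) (nat_lit 228) (nat_lit 0) (XT.nd (nat_lit 78) (nat_lit 152) (nat_lit 0) (XT.lf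 (nat_lit 0) (nat_lit 332111471855) (nat_lit 152) (nat_lit 2731468623542) (nat_lit 76) (nat_lit 1338203479286) (nat_lit 22) (nat_lit 5) (nat_lit 24) (nat_lit 5) (nat_lit 23) (nat_lit 5) (nat_lit 354) (nat_lit 345) (nat_lit 201)) (XT.nd (nat_lit 78) (nat_lit 152) (nat_lit 0) (XT.lf (nat_lit 0) (nat_lit 1170516770367) (nat_lit 152) (nat_lit 330965655489) (nat_lit 76) (nat_lit 3294480856902) (nat_lit 22) (nat_lit 5) (nat_lit 24) (nat_lit 5) (nat_lit 23) (nat_lit 5) (nat_lit 355) (nat_lit 345) (nat_lit 200)) (XT.lf (nat_lit 0) (nat_lit 2262591126343) (nat_lit 228) (nat_lit 2583123540628) (nat_lit 76) (nat_lit 384369040672) (nat_lit 20) (nat_lit 5) (nat_lit 23) (nat_lit 5) (nat_lit 21) (nat_lit 4) (nat_lit 356) (nat_lit 345) (nat_lit 199)))) (XT.nd (nat_lit 78) (nat_lit 152) (nat_lit 0) (XT.lf (nat_lit 0) (nat_lit 339988934094) (nat_lit 76) (nat_lit 3282189390416) (nat_lit 152) (nat_lit 2091588618434)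 (nat_lit 19) (nat_lit 5) (nat_lit 20) (nat_lit 5) (nat_lit 21) (nat_lit 4) (nat_lit 357) (nat_lit 345) (nat_lit 198)) (XT.nd (nat_lit 78) (nat_lit 152) (nat_lit 0) (XT.lf (nat_lit 0) (nat_lit 3991876140391) (nat_lit 76) (nat_lit 1328854373634) (nat_lit 152) (nat_lit 929018112771) (nat_lit 19) (nat_lit 5) (nat_lit 20) (nat_lit 5) (nat_lit 21) (nat_lit 4) (nat_lit 358) (nat_lit 345) (nat_lit 197)) (XT.lf (nat_lit 0) (nat_lit 472726620469) (nat_lit 152) (nat_lit 5459893823186) (nat_lit 76) (nat_lit 915807426772) (nat_lit 17) (nat_lit 5) (nat_lit 19) (nat_lit 5) (nat_lit 18) (nat_lit 4) (nat_lit 359) (nat_lit 345) (nat_lit 196))))))))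
noncomputable def xc114 : XT := (XT.nd (nat_lit 1716) (nat_lit 0) (nat_lit 0) (XT.nd (nat_lit 858) (nat_lit 456) (nat_lit 0) (XT.nd (nat_lit 390) (nat_lit 304) (nat_lit 0) (XT.nd (nat_lit 156) (nat_lit 152) (nat_lit 0) (XT.nd (nat_lit 78) (nat_lit 76) (nat_lit 0) (XT.lf (nat_lit 0) (nat_lit 2176543481654) (nat_lit 152) (nat_lit 1796687572401) (nat_lit 76) (nat_lit 3529003476316) (nat_lit 17) (nat_lit 5) (nat_lit 19) (nat_lit 5) (nat_lit 18) (nat_lit 4) (nat_lit 360) (nat_lit 345) (nat_lit 195)) (XT.lf (nat_lit 0) (nat_lit 2652108668309) (nat_lit 76) (nat_lit 1593642367472) (nat_lit 152) (nat_lit 3991888428962) (nat_lit 16) (nat_lit 5) (nat_lit 17) (nat_lit 5) (nat_lit 18) (nat_lit 4) (nat_lit 361) (nat_lit 345) (nat_lit 194))) (XT.nd (nat_lit 78) (nat_lit 152) (nat_lit 0) (XT.lf (nat_lit 0) (nat_lit 6771054171210) (nat_lit 152) (nat_lit 1150916637622) (nat_lit 0) (nat_lit 1139527163211)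 (nat_lit 16) (nat_lit 5) (nat_lit 18) (nat_lit 4) (nat_lit 16) (nat_lit 4) (nat_lit 362) (nat_lit 345) (nat_lit 193)) (XT.nd (nat_lit 78) (nat_lit 76) (nat_lit 0) (XT.lf (nat_lit 0) (nat_lit 4251499826523) (nat_lit 76) (nat_lit 5675586223217) (nat_lit 76) (nat_lit 44059214781) (nat_lit 15) (nat_lit 4) (nat_lit 16) (nat_lit 5) (nat_lit 16) (nat_lit 4) (nat_lit 363) (nat_lit 345) (nat_lit 192)) (XT.lf (nat_lit 0) (nat_lit 2376244908654) (nat_lit 152) (nat_lit 522600455208) (nat_lit 76) (nat_lit 8093168384518) (nat_lit 14) (nat_lit 5) (nat_lit 16) (nat_lit 5) (nat_lit 15) (nat_lit 4) (nat_lit 364) (nat_lit 345) (nat_lit 191))))) (XT.nd (nat_lit 234) (nat_lit 152) (nat_lit 0) (XT.nd (nat_lit 78) (nat_lit 76) (nat_lit 0) (XT.lf (nat_lit 0) (nat_lit 5426988922704) (nat_lit 152) (nat_lit 6167914194214) (nat_lit 0) (nat_lit 530008914751) (nat_lit 13) (nat_lit 5) (nat_lit 15) (nat_lit 4) (nat_lit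 13) (nat_lit 4) (nat_lit 365) (nat_lit 345) (nat_lit 190)) (XT.nd (nat_lit 78) (nat_lit 76) (nat_lit 0) (XT.lf (nat_lit 0) (nat_lit 9102003390246) (nat_lit 152) (nat_lit 95719457455) (nat_lit 0) (nat_lit 4205023382043) (nat_lit 13) (nat_lit 5) (nat_lit 15) (nat_lit 4) (nat_lit 13) (nat_lit 4) (nat_lit 366) (nat_lit 345) (nat_lit 189)) (XT.lf (nat_lit 0) (nat_lit 7560381973318) (nat_lit 76) (nat_lit 6080947349219) (nat_lit 76) (nat_lit 1183967340800) (nat_lit 12) (nat_lit 4) (nat_lit 13) (nat_lit 5) (nat_lit 13) (nat_lit 4) (nat_lit 367) (nat_lit 345) (nat_lit 188)))) (XT.nd (nat_lit 78) (nat_lit 76) (nat_lit 0) (XT.lf (nat_lit 0) (nat_lit 2191872778208) (nat_lit 152) (nat_lit 184453535459) (nat_lit 76) (nat_lit 14069208233663) (nat_lit 11) (nat_lit 5) (nat_lit 13) (nat_lit 5) (nat_lit 12) (nat_lit 4) (nat_lit 368) (nat_lit 345) (nat_lit 187)) (XT.nd (nat_lit 78) (nat_lit 0) (nat_lit 0)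 (XT.lf (nat_lit 0) (nat_lit 6409841168903) (nat_lit 152) (nat_lit 9670367158761) (nat_lit 0) (nat_lit 2151597683015) (nat_lit 10) (nat_lit 5) (nat_lit 12) (nat_lit 4) (nat_lit 10) (nat_lit 4) (nat_lit 369) (nat_lit 345) (nat_lit 186)) (XT.lf (nat_lit 0) (nat_lit 11383764240743) (nat_lit 152) (nat_lit 1758244284677) (nat_lit 0) (nat_lit 7125520754730) (nat_lit 10) (nat_lit 5) (nat_lit 12) (nat_lit 4) (nat_lit 10) (nat_lit 4) (nat_lit 370) (nat_lit 345) (nat_lit 185)))))) (XT.nd (nat_lit 390) (nat_lit 228) (nat_lit 0) (XT.nd (nat_lit 156) (nat_lit 152) (nat_lit 0) (XT.nd (nat_lit 78) (nat_lit 0) (nat_lit 0) (XT.lf (nat_lit 0) (nat_lit 8058083319692) (nat_lit 76) (nat_lit 9379360499777) (nat_lit 76) (nat_lit 5121117013656) (nat_lit 9) (nat_lit 4) (nat_lit 10) (nat_lit 5) (nat_lit 10) (nat_lit 4) (nat_lit 371) (nat_lit 345) (nat_lit 184)) (XT.lf (nat_lit 0) (nat_lit 19544462745769) (nat_lit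 76) (nat_lit 4946620812965) (nat_lit 76) (nat_lit 688377326751) (nat_lit 9) (nat_lit 4) (nat_lit 10) (nat_lit 5) (nat_lit 10) (nat_lit 4) (nat_lit 372) (nat_lit 345) (nat_lit 183))) (XT.nd (nat_lit 78) (nat_lit 0) (nat_lit 0) (XT.lf (nat_lit 0) (nat_lit 4240140427414) (nat_lit 152) (nat_lit 23355137055694) (nat_lit 0) (nat_lit 537320004548) (nat_lit 7) (nat_lit 5) (nat_lit 9) (nat_lit 4) (nat_lit 7) (nat_lit 4) (nat_lit 373) (nat_lit 345) (nat_lit 182)) (XT.nd (nat_lit 78) (nat_lit 0) (nat_lit 0) (XT.lf (nat_lit 0) (nat_lit 10381595721685) (nat_lit 152) (nat_lit 14381796088313) (nat_lit 0) (nat_lit 6678775298757) (nat_lit 7) (nat_lit 5) (nat_lit 9) (nat_lit 4) (nat_lit 7) (nat_lit 4) (nat_lit 374) (nat_lit 345) (nat_lit 181)) (XT.lf (nat_lit 0) (nat_lit 17444269309908) (nat_lit 152) (nat_lit 4062453976212) (nat_lit 0) (nat_lit 13741448886926) (nat_lit 7) (nat_lit 5) (nat_lit 9) (nat_lit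 4) (nat_lit 7) (nat_lit 4) (nat_lit 375) (nat_lit 345) (nat_lit 180))))) (XT.nd (nat_lit 234) (nat_lit 152) (nat_lit 0) (XT.nd (nat_lit 78) (nat_lit 0) (nat_lit 0) (XT.lf (nat_lit 0) (nat_lit 8567530239754) (nat_lit 76) (nat_lit 17353576853370) (nat_lit 76) (nat_lit 13650756430342) (nat_lit 6) (nat_lit 4) (nat_lit 7) (nat_lit 5) (nat_lit 7) (nat_lit 4) (nat_lit 376) (nat_lit 345) (nat_lit 179)) (XT.nd (nat_lit 78) (nat_lit 0) (nat_lit 0) (XT.lf (nat_lit 0) (nat_lit 23548576517621) (nat_lit 76) (nat_lit 12333249574804) (nat_lit 76) (nat_lit 8630429151736) (nat_lit 6) (nat_lit 4) (nat_lit 7) (nat_lit 5) (nat_lit 7) (nat_lit 4) (nat_lit 377) (nat_lit 345) (nat_lit 178)) (XT.lf (nat_lit 0) (nat_lit 40776779736887) (nat_lit 76) (nat_lit 6559873204598) (nat_lit 76) (nat_lit 2857052781494) (nat_lit 6) (nat_lit 4) (nat_lit 7) (nat_lit 5) (nat_lit 7) (nat_lit 4) (nat_lit 378) (nat_lit 345) (nat_lit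 177)))) (XT.nd (nat_lit 78) (nat_lit 0) (nat_lit 0) (XT.lf (nat_lit 0) (nat_lit 3632790319138) (nat_lit 152) (nat_lit 52630065830758) (nat_lit 0) (nat_lit 412946472934) (nat_lit 4) (nat_lit 5) (nat_lit 6) (nat_lit 4) (nat_lit 4) (nat_lit 4) (nat_lit 379) (nat_lit 345) (nat_lit 176)) (XT.nd (nat_lit 78) (nat_lit 0) (nat_lit 0) (XT.lf (nat_lit 0) (nat_lit 11631665818476) (nat_lit 152) (nat_lit 43942109189308) (nat_lit 0) (nat_lit 8411821972249) (nat_lit 4) (nat_lit 5) (nat_lit 6) (nat_lit 4) (nat_lit 4) (nat_lit 4) (nat_lit 380) (nat_lit 345) (nat_lit 175)) (XT.lf (nat_lit 0) (nat_lit 20830372642608) (nat_lit 152) (nat_lit 33950959051865) (nat_lit 0) (nat_lit 17610528796361) (nat_lit 4) (nat_lit 5) (nat_lit 6) (nat_lit 4) (nat_lit 4) (nat_lit 4) (nat_lit 381) (nat_lit 345) (nat_lit 174))))))) (XT.nd (nat_lit 44850) (nat_lit 0) (nat_lit 684) (XT.nd (nat_lit 44382) (nat_lit 0) (nat_lit 1368)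 (XT.nd (nat_lit 44148) (nat_lit 0) (nat_lit 1824) (XT.nd (nat_lit 44070) (nat_lit 0) (nat_lit 1824) (XT.lf (nat_lit 0) (nat_lit 31408885490267) (nat_lit 152) (nat_lit 22461136393998) (nat_lit 0) (nat_lit 28189041644002) (nat_lit 4) (nat_lit 5) (nat_lit 6) (nat_lit 4) (nat_lit 4) (nat_lit 4) (nat_lit 382) (nat_lit 345) (nat_lit 173)) (XT.lf (nat_lit 0) (nat_lit 304153857010) (nat_lit 380) (nat_lit 476661177504) (nat_lit 380) (nat_lit 476661177504) (nat_lit 28) (nat_lit 3) (nat_lit 33) (nat_lit 3) (nat_lit 33) (nat_lit 5) (nat_lit 346) (nat_lit 346) (nat_lit 208))) (XT.nd (nat_lit 78) (nat_lit 0) (nat_lit 76) (XT.lf (nat_lit 76) (nat_lit 293314060731) (nat_lit 0) (nat_lit 372762251112) (nat_lit 380) (nat_lit 2035675716091) (nat_lit 29) (nat_lit 5) (nat_lit 28) (nat_lit 3) (nat_lit 33) (nat_lit 5) (nat_lit 347) (nat_lit 346) (nat_lit 207)) (XT.nd (nat_lit 78) (nat_lit 0) (nat_lit 0) (XT.lf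 (nat_lit 0) (nat_lit 825893408975) (nat_lit 304) (nat_lit 1118560740051) (nat_lit 380) (nat_lit 958109941946) (nat_lit 29) (nat_lit 5) (nat_lit 33) (nat_lit 5) (nat_lit 34) (nat_lit 5) (nat_lit 348) (nat_lit 346) (nat_lit 206)) (XT.lf (nat_lit 76) (nat_lit 380963490976) (nat_lit 0) (nat_lit 662245047354) (nat_lit 380) (nat_lit 2085260604991) (nat_lit 30) (nat_lit 5) (nat_lit 29) (nat_lit 5) (nat_lit 34) (nat_lit 5) (nat_lit 349) (nat_lit 346) (nat_lit 205))))) (XT.nd (nat_lit 234) (nat_lit 304) (nat_lit 0) (XT.nd (nat_lit 78) (nat_lit 304) (nat_lit 0) (XT.lf (nat_lit 0) (nat_lit 1388010873575) (nat_lit 304) (nat_lit 1184781808365) (nat_lit 76) (nat_lit 801233781111) (nat_lit 30) (nat_lit 5) (nat_lit 34) (nat_lit 5) (nat_lit 31) (nat_lit 5) (nat_lit 350) (nat_lit 346) (nat_lit 204)) (XT.nd (nat_lit 78) (nat_lit 0) (nat_lit 0) (XT.lf (nat_lit 0) (nat_lit 637576611469) (nat_lit 304) (nat_lit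 1204893112771) (nat_lit 380) (nat_lit 1805257231732) (nat_lit 26) (nat_lit 5) (nat_lit 30) (nat_lit 5) (nat_lit 31) (nat_lit 5) (nat_lit 351) (nat_lit 346) (nat_lit 203)) (XT.lf (nat_lit 0) (nat_lit 2445224330367) (nat_lit 380) (nat_lit 1104945796799) (nat_lit 76) (nat_lit 400293356489) (nat_lit 26) (nat_lit 5) (nat_lit 31) (nat_lit 5) (nat_lit 27) (nat_lit 5) (nat_lit 352) (nat_lit 346) (nat_lit 202)))) (XT.nd (nat_lit 78) (nat_lit 152) (nat_lit 0) (XT.lf (nat_lit 0) (nat_lit 1129192054639) (nat_lit 152) (nat_lit 2113333369343) (nat_lit 228) (nat_lit 1040465072023) (nat_lit 24) (nat_lit 5) (nat_lit 26) (nat_lit 5) (nat_lit 27) (nat_lit 5) (nat_lit 353) (nat_lit 346) (nat_lit 201)) (XT.nd (nat_lit 78) (nat_lit 152) (nat_lit 0) (XT.lf (nat_lit 0) (nat_lit 3822631422857) (nat_lit 152) (nat_lit 394548788229) (nat_lit 228) (nat_lit 439552569706) (nat_lit 24) (nat_lit 5) (nat_lit 26) (nat_lit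 5) (nat_lit 27) (nat_lit 5) (nat_lit 354) (nat_lit 346) (nat_lit 200)) (XT.lf (nat_lit 0) (nat_lit 381928201508) (nat_lit 152) (nat_lit 3141188904136) (nat_lit 76) (nat_lit 1538934003901) (nat_lit 22) (nat_lit 5) (nat_lit 24) (nat_lit 5) (nat_lit 23) (nat_lit 5) (nat_lit 355) (nat_lit 346) (nat_lit 199)))))) (XT.nd (nat_lit 390) (nat_lit 304) (nat_lit 0) (XT.nd (nat_lit 156) (nat_lit 228) (nat_lit 0) (XT.nd (nat_lit 78) (nat_lit 152) (nat_lit 0) (XT.lf (nat_lit 0) (nat_lit 1346094293639) (nat_lit 152) (nat_lit 380610492563) (nat_lit 76) (nat_lit 3788652987804) (nat_lit 22) (nat_lit 5) (nat_lit 24) (nat_lit 5) (nat_lit 23) (nat_lit 5) (nat_lit 356) (nat_lit 346) (nat_lit 198)) (XT.lf (nat_lit 0) (nat_lit 2601979802599) (nat_lit 228) (nat_lit 2970592060052) (nat_lit 76) (nat_lit 442024400037) (nat_lit 20) (nat_lit 5) (nat_lit 23) (nat_lit 5) (nat_lit 21) (nat_lit 4) (nat_lit 357) (nat_lit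 346) (nat_lit 197))) (XT.nd (nat_lit 78) (nat_lit 152) (nat_lit 0) (XT.lf (nat_lit 0) (nat_lit 390987285349) (nat_lit 76) (nat_lit 3774517794650) (nat_lit 152) (nat_lit 2405326903358) (nat_lit 19) (nat_lit 5) (nat_lit 20) (nat_lit 5) (nat_lit 21) (nat_lit 4) (nat_lit 358) (nat_lit 346) (nat_lit 196)) (XT.nd (nat_lit 78) (nat_lit 152) (nat_lit 0) (XT.lf (nat_lit 0) (nat_lit 4590657571137) (nat_lit 76) (nat_lit 1528182525915) (nat_lit 152) (nat_lit 1068370822868) (nat_lit 19) (nat_lit 5) (nat_lit 20) (nat_lit 5) (nat_lit 21) (nat_lit 4) (nat_lit 359) (nat_lit 346) (nat_lit 195)) (XT.lf (nat_lit 0) (nat_lit 543635619513) (nat_lit 152) (nat_lit 6278877886124) (nat_lit 76) (nat_lit 1053178544453) (nat_lit 17) (nat_lit 5) (nat_lit 19) (nat_lit 5) (nat_lit 18) (nat_lit 4) (nat_lit 360) (nat_lit 346) (nat_lit 194))))) (XT.nd (nat_lit 234) (nat_lit 228) (nat_lit 0) (XT.nd (nat_lit 78) (nat_lit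 76) (nat_lit 0) (XT.lf (nat_lit 0) (nat_lit 2503025009097) (nat_lit 152) (nat_lit 2066190699096) (nat_lit 76) (nat_lit 4058354000951) (nat_lit 17) (nat_lit 5) (nat_lit 19) (nat_lit 5) (nat_lit 18) (nat_lit 4) (nat_lit 361) (nat_lit 346) (nat_lit 193)) (XT.nd (nat_lit 78) (nat_lit 0) (nat_lit 0) (XT.lf (nat_lit 0) (nat_lit 3049924977304) (nat_lit 76) (nat_lit 1832688718724) (nat_lit 152) (nat_lit 4590671687691) (nat_lit 16) (nat_lit 5) (nat_lit 17) (nat_lit 5) (nat_lit 18) (nat_lit 4) (nat_lit 362) (nat_lit 346) (nat_lit 192)) (XT.lf (nat_lit 0) (nat_lit 7786712301274) (nat_lit 152) (nat_lit 1323554125158) (nat_lit 0) (nat_lit 1310456240757) (nat_lit 16) (nat_lit 5) (nat_lit 18) (nat_lit 4) (nat_lit 16) (nat_lit 4) (nat_lit 363) (nat_lit 346) (nat_lit 191)))) (XT.nd (nat_lit 78) (nat_lit 152) (nat_lit 0) (XT.lf (nat_lit 0) (nat_lit 4889224808240) (nat_lit 76) (nat_lit 6526924153092) (nat_lit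 76) (nat_lit 50668092245) (nat_lit 15) (nat_lit 4) (nat_lit 16) (nat_lit 5) (nat_lit 16) (nat_lit 4) (nat_lit 364) (nat_lit 346) (nat_lit 190)) (XT.nd (nat_lit 78) (nat_lit 76) (nat_lit 0) (XT.lf (nat_lit 0) (nat_lit 2732681648718) (nat_lit 152) (nat_lit 600990516389) (nat_lit 76) (nat_lit 9307143644962) (nat_lit 14) (nat_lit 5) (nat_lit 16) (nat_lit 5) (nat_lit 15) (nat_lit 4) (nat_lit 365) (nat_lit 346) (nat_lit 189)) (XT.lf (nat_lit 0) (nat_lit 6241037264798) (nat_lit 152) (nat_lit 7093101316167) (nat_lit 0) (nat_lit 609510254899) (nat_lit 13) (nat_lit 5) (nat_lit 15) (nat_lit 4) (nat_lit 13) (nat_lit 4) (nat_lit 366) (nat_lit 346) (nat_lit 188))))))))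
noncomputable def xc115 : XT := (XT.nd (nat_lit 45786) (nat_lit 0) (nat_lit 228) (XT.nd (nat_lit 858) (nat_lit 152) (nat_lit 0) (XT.nd (nat_lit 390) (nat_lit 304) (nat_lit 0) (XT.nd (nat_lit 156) (nat_lit 152) (nat_lit 0) (XT.nd (nat_lit 78) (nat_lit 76) (nat_lit 0) (XT.lf (nat_lit 0) (nat_lit 10467303901990) (nat_lit 152) (nat_lit 110077369831) (nat_lit 0) (nat_lit 4835776891902) (nat_lit 13) (nat_lit 5) (nat_lit 15) (nat_lit 4) (nat_lit 13) (nat_lit 4) (nat_lit 367) (nat_lit 346) (nat_lit 187)) (XT.lf (nat_lit 0) (nat_lit 8694439275274) (nat_lit 76) (nat_lit 6993089448680) (nat_lit 76) (nat_lit 1361562438428) (nat_lit 12) (nat_lit 4) (nat_lit 13) (nat_lit 5) (nat_lit 13) (nat_lit 4) (nat_lit 368) (nat_lit 346) (nat_lit 186))) (XT.nd (nat_lit 78) (nat_lit 76) (nat_lit 0) (XT.lf (nat_lit 0) (nat_lit 2520653697706) (nat_lit 152) (nat_lit 212121560326) (nat_lit 76) (nat_lit 16179589470983)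 (nat_lit 11) (nat_lit 5) (nat_lit 13) (nat_lit 5) (nat_lit 12) (nat_lit 4) (nat_lit 369) (nat_lit 346) (nat_lit 185)) (XT.nd (nat_lit 78) (nat_lit 0) (nat_lit 0) (XT.lf (nat_lit 0) (nat_lit 7371317346967) (nat_lit 152) (nat_lit 11120922227084) (nat_lit 0) (nat_lit 2474337337821) (nat_lit 10) (nat_lit 5) (nat_lit 12) (nat_lit 4) (nat_lit 10) (nat_lit 4) (nat_lit 370) (nat_lit 346) (nat_lit 184)) (XT.lf (nat_lit 0) (nat_lit 13091328879227) (nat_lit 152) (nat_lit 2021980922603) (nat_lit 0) (nat_lit 8194348869986) (nat_lit 10) (nat_lit 5) (nat_lit 12) (nat_lit 4) (nat_lit 10) (nat_lit 4) (nat_lit 371) (nat_lit 346) (nat_lit 183))))) (XT.nd (nat_lit 234) (nat_lit 76) (nat_lit 0) (XT.nd (nat_lit 78) (nat_lit 152) (nat_lit 0) (XT.lf (nat_lit 0) (nat_lit 9266795822204) (nat_lit 76) (nat_lit 10786264572437) (nat_lit 76) (nat_lit 5889284563115) (nat_lit 9) (nat_lit 4) (nat_lit 10) (nat_lit 5) (nat_lit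 10) (nat_lit 4) (nat_lit 372) (nat_lit 346) (nat_lit 182)) (XT.nd (nat_lit 78) (nat_lit 152) (nat_lit 0) (XT.lf (nat_lit 0) (nat_lit 22476132161598) (nat_lit 76) (nat_lit 5688613932904) (nat_lit 76) (nat_lit 791633923512) (nat_lit 9) (nat_lit 4) (nat_lit 10) (nat_lit 5) (nat_lit 10) (nat_lit 4) (nat_lit 373) (nat_lit 346) (nat_lit 181)) (XT.lf (nat_lit 0) (nat_lit 4876161493559) (nat_lit 152) (nat_lit 26858407609864) (nat_lit 0) (nat_lit 617918007077) (nat_lit 7) (nat_lit 5) (nat_lit 9) (nat_lit 4) (nat_lit 7) (nat_lit 4) (nat_lit 374) (nat_lit 346) (nat_lit 180)))) (XT.nd (nat_lit 78) (nat_lit 76) (nat_lit 0) (XT.lf (nat_lit 0) (nat_lit 11938835081705) (nat_lit 152) (nat_lit 16539065497921) (nat_lit 0) (nat_lit 7680591595177) (nat_lit 7) (nat_lit 5) (nat_lit 9) (nat_lit 4) (nat_lit 7) (nat_lit 4) (nat_lit 375) (nat_lit 346) (nat_lit 179)) (XT.nd (nat_lit 78) (nat_lit 76) (nat_lit 0) (XT.lf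 (nat_lit 0) (nat_lit 20060909707931) (nat_lit 152) (nat_lit 4671822069480) (nat_lit 0) (nat_lit 15802666221361) (nat_lit 7) (nat_lit 5) (nat_lit 9) (nat_lit 4) (nat_lit 7) (nat_lit 4) (nat_lit 376) (nat_lit 346) (nat_lit 178)) (XT.lf (nat_lit 0) (nat_lit 9852659778737) (nat_lit 76) (nat_lit 19956613379818) (nat_lit 76) (nat_lit 15698369893213) (nat_lit 6) (nat_lit 4) (nat_lit 7) (nat_lit 5) (nat_lit 7) (nat_lit 4) (nat_lit 377) (nat_lit 346) (nat_lit 177)))))) (XT.nd (nat_lit 44460) (nat_lit 0) (nat_lit 1672) (XT.nd (nat_lit 156) (nat_lit 152) (nat_lit 0) (XT.nd (nat_lit 78) (nat_lit 0) (nat_lit 0) (XT.lf (nat_lit 0) (nat_lit 27080862997890) (nat_lit 76) (nat_lit 14183237009670) (nat_lit 76) (nat_lit 9924993523034) (nat_lit 6) (nat_lit 4) (nat_lit 7) (nat_lit 5) (nat_lit 7) (nat_lit 4) (nat_lit 378) (nat_lit 346) (nat_lit 176)) (XT.lf (nat_lit 0) (nat_lit 46893296699704) (nat_lit 76) (nat_lit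 7543854184109) (nat_lit 76) (nat_lit 3285610697447) (nat_lit 6) (nat_lit 4) (nat_lit 7) (nat_lit 5) (nat_lit 7) (nat_lit 4) (nat_lit 379) (nat_lit 346) (nat_lit 175))) (XT.nd (nat_lit 78) (nat_lit 0) (nat_lit 0) (XT.lf (nat_lit 0) (nat_lit 4177708868159) (nat_lit 152) (nat_lit 60524575702968) (nat_lit 0) (nat_lit 474888444955) (nat_lit 4) (nat_lit 5) (nat_lit 6) (nat_lit 4) (nat_lit 4) (nat_lit 4) (nat_lit 380) (nat_lit 346) (nat_lit 174)) (XT.nd (nat_lit 78) (nat_lit 0) (nat_lit 0) (XT.lf (nat_lit 0) (nat_lit 13376415692248) (nat_lit 152) (nat_lit 50533425565614) (nat_lit 0) (nat_lit 9673595269026) (nat_lit 4) (nat_lit 5) (nat_lit 6) (nat_lit 4) (nat_lit 4) (nat_lit 4) (nat_lit 381) (nat_lit 346) (nat_lit 173)) (XT.lf (nat_lit 0) (nat_lit 23954928539869) (nat_lit 152) (nat_lit 39043602907826) (nat_lit 0) (nat_lit 20252108116632) (nat_lit 4) (nat_lit 5) (nat_lit 6) (nat_lit 4) (nat_lit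 4) (nat_lit 4) (nat_lit 382) (nat_lit 346) (nat_lit 172))))) (XT.nd (nat_lit 234) (nat_lit 152) (nat_lit 0) (XT.nd (nat_lit 78) (nat_lit 0) (nat_lit 0) (XT.lf (nat_lit 0) (nat_lit 349776944678) (nat_lit 380) (nat_lit 548160348880) (nat_lit 380) (nat_lit 548160348880) (nat_lit 28) (nat_lit 3) (nat_lit 33) (nat_lit 3) (nat_lit 33) (nat_lit 5) (nat_lit 347) (nat_lit 347) (nat_lit 206)) (XT.nd (nat_lit 78) (nat_lit 0) (nat_lit 76) (XT.lf (nat_lit 76) (nat_lit 337311179862) (nat_lit 0) (nat_lit 428676595027) (nat_lit 380) (nat_lit 2341027054769) (nat_lit 29) (nat_lit 5) (nat_lit 28) (nat_lit 3) (nat_lit 33) (nat_lit 5) (nat_lit 348) (nat_lit 347) (nat_lit 205)) (XT.lf (nat_lit 0) (nat_lit 949777434244) (nat_lit 304) (nat_lit 1286344839975) (nat_lit 380) (nat_lit 1101826428289) (nat_lit 29) (nat_lit 5) (nat_lit 33) (nat_lit 5) (nat_lit 34) (nat_lit 5) (nat_lit 349) (nat_lit 347) (nat_lit 204))))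 (XT.nd (nat_lit 78) (nat_lit 228) (nat_lit 0) (XT.lf (nat_lit 76) (nat_lit 438108025203) (nat_lit 0) (nat_lit 761581806421) (nat_lit 380) (nat_lit 2398049681294) (nat_lit 30) (nat_lit 5) (nat_lit 29) (nat_lit 5) (nat_lit 34) (nat_lit 5) (nat_lit 350) (nat_lit 347) (nat_lit 203)) (XT.nd (nat_lit 78) (nat_lit 304) (nat_lit 0) (XT.lf (nat_lit 0) (nat_lit 1596212515449) (nat_lit 304) (nat_lit 1362499068694) (nat_lit 76) (nat_lit 921418846722) (nat_lit 30) (nat_lit 5) (nat_lit 34) (nat_lit 5) (nat_lit 31) (nat_lit 5) (nat_lit 351) (nat_lit 347) (nat_lit 202)) (XT.lf (nat_lit 0) (nat_lit 733213113617) (nat_lit 304) (nat_lit 1385627079115) (nat_lit 380) (nat_lit 2076045805143) (nat_lit 26) (nat_lit 5) (nat_lit 30) (nat_lit 5) (nat_lit 31) (nat_lit 5) (nat_lit 352) (nat_lit 347) (nat_lit 201))))))) (XT.nd (nat_lit 858) (nat_lit 684) (nat_lit 0) (XT.nd (nat_lit 390) (nat_lit 456) (nat_lit 0) (XT.nd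 (nat_lit 156) (nat_lit 152) (nat_lit 0) (XT.nd (nat_lit 78) (nat_lit 152) (nat_lit 0) (XT.lf (nat_lit 0) (nat_lit 2812007988513) (nat_lit 380) (nat_lit 1270687655973) (nat_lit 76) (nat_lit 460337360416) (nat_lit 26) (nat_lit 5) (nat_lit 31) (nat_lit 5) (nat_lit 27) (nat_lit 5) (nat_lit 353) (nat_lit 347) (nat_lit 200)) (XT.lf (nat_lit 0) (nat_lit 1298570872711) (nat_lit 152) (nat_lit 2430333372748) (nat_lit 228) (nat_lit 1196534823754) (nat_lit 24) (nat_lit 5) (nat_lit 26) (nat_lit 5) (nat_lit 27) (nat_lit 5) (nat_lit 354) (nat_lit 347) (nat_lit 199))) (XT.nd (nat_lit 78) (nat_lit 152) (nat_lit 0) (XT.lf (nat_lit 0) (nat_lit 4396026144873) (nat_lit 152) (nat_lit 453731104727) (nat_lit 228) (nat_lit 505485447273) (nat_lit 24) (nat_lit 5) (nat_lit 26) (nat_lit 5) (nat_lit 27) (nat_lit 5) (nat_lit 355) (nat_lit 347) (nat_lit 198)) (XT.nd (nat_lit 78) (nat_lit 0) (nat_lit 0) (XT.lf (nat_lit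 0) (nat_lit 439217438444) (nat_lit 152) (nat_lit 3612367229974) (nat_lit 76) (nat_lit 1769774106544) (nat_lit 22) (nat_lit 5) (nat_lit 24) (nat_lit 5) (nat_lit 23) (nat_lit 5) (nat_lit 356) (nat_lit 347) (nat_lit 197)) (XT.lf (nat_lit 0) (nat_lit 1548008443521) (nat_lit 152) (nat_lit 437702057941) (nat_lit 76) (nat_lit 4356950937764) (nat_lit 22) (nat_lit 5) (nat_lit 24) (nat_lit 5) (nat_lit 23) (nat_lit 5) (nat_lit 357) (nat_lit 347) (nat_lit 196))))) (XT.nd (nat_lit 234) (nat_lit 228) (nat_lit 0) (XT.nd (nat_lit 78) (nat_lit 76) (nat_lit 0) (XT.lf (nat_lit 0) (nat_lit 2992276778511) (nat_lit 228) (nat_lit 3416180860234) (nat_lit 76) (nat_lit 508328062511) (nat_lit 20) (nat_lit 5) (nat_lit 23) (nat_lit 5) (nat_lit 21) (nat_lit 4) (nat_lit 358) (nat_lit 347) (nat_lit 195)) (XT.nd (nat_lit 78) (nat_lit 0) (nat_lit 0) (XT.lf (nat_lit 0) (nat_lit 449635386575) (nat_lit 76) (nat_lit 4340695460574)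 (nat_lit 152) (nat_lit 2766125932934) (nat_lit 19) (nat_lit 5) (nat_lit 20) (nat_lit 5) (nat_lit 21) (nat_lit 4) (nat_lit 359) (nat_lit 347) (nat_lit 194)) (XT.lf (nat_lit 0) (nat_lit 5279256214133) (nat_lit 76) (nat_lit 1757409901957) (nat_lit 152) (nat_lit 1228626441143) (nat_lit 19) (nat_lit 5) (nat_lit 20) (nat_lit 5) (nat_lit 21) (nat_lit 4) (nat_lit 360) (nat_lit 347) (nat_lit 193)))) (XT.nd (nat_lit 78) (nat_lit 76) (nat_lit 0) (XT.lf (nat_lit 0) (nat_lit 625180966958) (nat_lit 152) (nat_lit 7220709561073) (nat_lit 76) (nat_lit 1211155328892) (nat_lit 17) (nat_lit 5) (nat_lit 19) (nat_lit 5) (nat_lit 18) (nat_lit 4) (nat_lit 361) (nat_lit 347) (nat_lit 192)) (XT.nd (nat_lit 78) (nat_lit 76) (nat_lit 0) (XT.lf (nat_lit 0) (nat_lit 2878478764390) (nat_lit 152) (nat_lit 2376119297030) (nat_lit 76) (nat_lit 4667107103503) (nat_lit 17) (nat_lit 5) (nat_lit 19) (nat_lit 5) (nat_lit 18)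 (nat_lit 4) (nat_lit 362) (nat_lit 347) (nat_lit 191)) (XT.lf (nat_lit 0) (nat_lit 3507413730515) (nat_lit 76) (nat_lit 2107592023608) (nat_lit 152) (nat_lit 5279272436599) (nat_lit 16) (nat_lit 5) (nat_lit 17) (nat_lit 5) (nat_lit 18) (nat_lit 4) (nat_lit 363) (nat_lit 347) (nat_lit 190)))))) (XT.nd (nat_lit 468) (nat_lit 380) (nat_lit 0) (XT.nd (nat_lit 234) (nat_lit 152) (nat_lit 0) (XT.nd (nat_lit 78) (nat_lit 152) (nat_lit 0) (XT.lf (nat_lit 0) (nat_lit 8954719149780) (nat_lit 152) (nat_lit 1522087237802) (nat_lit 0) (nat_lit 1507024679188) (nat_lit 16) (nat_lit 5) (nat_lit 18) (nat_lit 4) (nat_lit 16) (nat_lit 4) (nat_lit 364) (nat_lit 347) (nat_lit 189)) (XT.nd (nat_lit 78) (nat_lit 76) (nat_lit 0) (XT.lf (nat_lit 0) (nat_lit 5622608535328) (nat_lit 76) (nat_lit 7505962773328) (nat_lit 76) (nat_lit 58268302488) (nat_lit 15) (nat_lit 4) (nat_lit 16) (nat_lit 5) (nat_lit 16) (nat_lit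 4) (nat_lit 365) (nat_lit 347) (nat_lit 188)) (XT.lf (nat_lit 0) (nat_lit 3142583898873) (nat_lit 152) (nat_lit 691139088480) (nat_lit 76) (nat_lit 10703215193799) (nat_lit 14) (nat_lit 5) (nat_lit 16) (nat_lit 5) (nat_lit 15) (nat_lit 4) (nat_lit 366) (nat_lit 347) (nat_lit 187)))) (XT.nd (nat_lit 78) (nat_lit 76) (nat_lit 0) (XT.lf (nat_lit 0) (nat_lit 7177192857307) (nat_lit 152) (nat_lit 8157066508165) (nat_lit 0) (nat_lit 700936795353) (nat_lit 13) (nat_lit 5) (nat_lit 15) (nat_lit 4) (nat_lit 13) (nat_lit 4) (nat_lit 367) (nat_lit 347) (nat_lit 186)) (XT.nd (nat_lit 78) (nat_lit 76) (nat_lit 0) (XT.lf (nat_lit 0) (nat_lit 12037399489714) (nat_lit 152) (nat_lit 126588970586) (nat_lit 0) (nat_lit 5561143427617) (nat_lit 13) (nat_lit 5) (nat_lit 15) (nat_lit 4) (nat_lit 13) (nat_lit 4) (nat_lit 368) (nat_lit 347) (nat_lit 185)) (XT.lf (nat_lit 0) (nat_lit 9998605171070) (nat_lit 76)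 (nat_lit 8042052863772) (nat_lit 76) (nat_lit 1565796801552) (nat_lit 12) (nat_lit 4) (nat_lit 13) (nat_lit 5) (nat_lit 13) (nat_lit 4) (nat_lit 369) (nat_lit 347) (nat_lit 184))))) (XT.nd (nat_lit 234) (nat_lit 228) (nat_lit 0) (XT.nd (nat_lit 78) (nat_lit 76) (nat_lit 0) (XT.lf (nat_lit 0) (nat_lit 2898751754453) (nat_lit 152) (nat_lit 243939790252) (nat_lit 76) (nat_lit 18606527893347) (nat_lit 11) (nat_lit 5) (nat_lit 13) (nat_lit 5) (nat_lit 12) (nat_lit 4) (nat_lit 370) (nat_lit 347) (nat_lit 183)) (XT.nd (nat_lit 78) (nat_lit 0) (nat_lit 0) (XT.lf (nat_lit 0) (nat_lit 8477014951075) (nat_lit 152) (nat_lit 12789060556994) (nat_lit 0) (nat_lit 2845487940273) (nat_lit 10) (nat_lit 5) (nat_lit 12) (nat_lit 4) (nat_lit 10) (nat_lit 4) (nat_lit 371) (nat_lit 347) (nat_lit 182)) (XT.lf (nat_lit 0) (nat_lit 15055028212904) (nat_lit 152) (nat_lit 2325278057383) (nat_lit 0) (nat_lit 9423501202032)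 (nat_lit 10) (nat_lit 5) (nat_lit 12) (nat_lit 4) (nat_lit 10) (nat_lit 4) (nat_lit 372) (nat_lit 347) (nat_lit 181)))) (XT.nd (nat_lit 78) (nat_lit 152) (nat_lit 0) (XT.lf (nat_lit 0) (nat_lit 10656815198981) (nat_lit 76) (nat_lit 12404204256558) (nat_lit 76) (nat_lit 6772677245624) (nat_lit 9) (nat_lit 4) (nat_lit 10) (nat_lit 5) (nat_lit 10) (nat_lit 4) (nat_lit 373) (nat_lit 347) (nat_lit 180)) (XT.nd (nat_lit 78) (nat_lit 152) (nat_lit 0) (XT.lf (nat_lit 0) (nat_lit 25847551988835) (nat_lit 76) (nat_lit 6541906021324) (nat_lit 76) (nat_lit 910379010336) (nat_lit 9) (nat_lit 4) (nat_lit 10) (nat_lit 5) (nat_lit 10) (nat_lit 4) (nat_lit 374) (nat_lit 347) (nat_lit 179)) (XT.lf (nat_lit 0) (nat_lit 5607585719130) (nat_lit 152) (nat_lit 30887168748180) (nat_lit 0) (nat_lit 710605709535) (nat_lit 7) (nat_lit 5) (nat_lit 9) (nat_lit 4) (nat_lit 7) (nat_lit 4) (nat_lit 375) (nat_lit 347)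 (nat_lit 178))))))))
noncomputable def xc116 : XT := (XT.nd (nat_lit 45864) (nat_lit 0) (nat_lit 0) (XT.nd (nat_lit 45006) (nat_lit 0) (nat_lit 988) (XT.nd (nat_lit 390) (nat_lit 152) (nat_lit 0) (XT.nd (nat_lit 156) (nat_lit 76) (nat_lit 0) (XT.nd (nat_lit 78) (nat_lit 0) (nat_lit 0) (XT.lf (nat_lit 0) (nat_lit 13729660345298) (nat_lit 152) (nat_lit 19019925319858) (nat_lit 0) (nat_lit 8832680335667) (nat_lit 7) (nat_lit 5) (nat_lit 9) (nat_lit 4) (nat_lit 7) (nat_lit 4) (nat_lit 376) (nat_lit 347) (nat_lit 177)) (XT.lf (nat_lit 0) (nat_lit 23070046165283) (nat_lit 152) (nat_lit 5372595377510) (nat_lit 0) (nat_lit 18173066155621) (nat_lit 7) (nat_lit 5) (nat_lit 9) (nat_lit 4) (nat_lit 7) (nat_lit 4) (nat_lit 377) (nat_lit 347) (nat_lit 176))) (XT.nd (nat_lit 78) (nat_lit 0) (nat_lit 0) (XT.lf (nat_lit 0) (nat_lit 11330558747832) (nat_lit 76) (nat_lit 22950105385612) (nat_lit 76) (nat_lit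 18053125375924) (nat_lit 6) (nat_lit 4) (nat_lit 7) (nat_lit 5) (nat_lit 7) (nat_lit 4) (nat_lit 378) (nat_lit 347) (nat_lit 175)) (XT.nd (nat_lit 78) (nat_lit 0) (nat_lit 0) (XT.lf (nat_lit 0) (nat_lit 31142992449560) (nat_lit 76) (nat_lit 16310722560096) (nat_lit 76) (nat_lit 11413742550384) (nat_lit 6) (nat_lit 4) (nat_lit 7) (nat_lit 5) (nat_lit 7) (nat_lit 4) (nat_lit 379) (nat_lit 347) (nat_lit 174)) (XT.lf (nat_lit 0) (nat_lit 53927291206386) (nat_lit 76) (nat_lit 8675432310835) (nat_lit 76) (nat_lit 3778452301103) (nat_lit 6) (nat_lit 4) (nat_lit 7) (nat_lit 5) (nat_lit 7) (nat_lit 4) (nat_lit 380) (nat_lit 347) (nat_lit 173))))) (XT.nd (nat_lit 44382) (nat_lit 0) (nat_lit 1824) (XT.nd (nat_lit 78) (nat_lit 0) (nat_lit 0) (XT.lf (nat_lit 0) (nat_lit 4804365199254) (nat_lit 152) (nat_lit 69603262056595) (nat_lit 0) (nat_lit 546121712515) (nat_lit 4) (nat_lit 5) (nat_lit 6) (nat_lit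 4) (nat_lit 4) (nat_lit 4) (nat_lit 381) (nat_lit 347) (nat_lit 172)) (XT.nd (nat_lit 44226) (nat_lit 0) (nat_lit 1824) (XT.lf (nat_lit 0) (nat_lit 15382878046842) (nat_lit 152) (nat_lit 58113439398875) (nat_lit 0) (nat_lit 11124634560091) (nat_lit 4) (nat_lit 5) (nat_lit 6) (nat_lit 4) (nat_lit 4) (nat_lit 4) (nat_lit 382) (nat_lit 347) (nat_lit 171)) (XT.lf (nat_lit 0) (nat_lit 402243493273) (nat_lit 380) (nat_lit 630384397243) (nat_lit 380) (nat_lit 630384397243) (nat_lit 28) (nat_lit 3) (nat_lit 33) (nat_lit 3) (nat_lit 33) (nat_lit 5) (nat_lit 348) (nat_lit 348) (nat_lit 204)))) (XT.nd (nat_lit 78) (nat_lit 0) (nat_lit 76) (XT.lf (nat_lit 76) (nat_lit 387907864419) (nat_lit 0) (nat_lit 492978089005) (nat_lit 380) (nat_lit 2692181098817) (nat_lit 29) (nat_lit 5) (nat_lit 28) (nat_lit 3) (nat_lit 33) (nat_lit 5) (nat_lit 349) (nat_lit 348) (nat_lit 203)) (XT.nd (nat_lit 78) (nat_lit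 0) (nat_lit 0) (XT.lf (nat_lit 0) (nat_lit 1092244059907) (nat_lit 304) (nat_lit 1479296557589) (nat_lit 380) (nat_lit 1267100388791) (nat_lit 29) (nat_lit 5) (nat_lit 33) (nat_lit 5) (nat_lit 34) (nat_lit 5) (nat_lit 350) (nat_lit 348) (nat_lit 202)) (XT.lf (nat_lit 76) (nat_lit 503824236984) (nat_lit 0) (nat_lit 875819078869) (nat_lit 380) (nat_lit 2757757122565) (nat_lit 30) (nat_lit 5) (nat_lit 29) (nat_lit 5) (nat_lit 34) (nat_lit 5) (nat_lit 351) (nat_lit 348) (nat_lit 201)))))) (XT.nd (nat_lit 390) (nat_lit 532) (nat_lit 0) (XT.nd (nat_lit 156) (nat_lit 152) (nat_lit 0) (XT.nd (nat_lit 78) (nat_lit 304) (nat_lit 0) (XT.lf (nat_lit 0) (nat_lit 1835644400961) (nat_lit 304) (nat_lit 1566873920738) (nat_lit 76) (nat_lit 1059631672555) (nat_lit 30) (nat_lit 5) (nat_lit 34) (nat_lit 5) (nat_lit 31) (nat_lit 5) (nat_lit 352) (nat_lit 348) (nat_lit 200)) (XT.lf (nat_lit 0) (nat_lit 843195088545)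 (nat_lit 304) (nat_lit 1593471140549) (nat_lit 380) (nat_lit 2387452667333) (nat_lit 26) (nat_lit 5) (nat_lit 30) (nat_lit 5) (nat_lit 31) (nat_lit 5) (nat_lit 353) (nat_lit 348) (nat_lit 199))) (XT.nd (nat_lit 78) (nat_lit 152) (nat_lit 0) (XT.lf (nat_lit 0) (nat_lit 3233809193286) (nat_lit 380) (nat_lit 1461290796545) (nat_lit 76) (nat_lit 529387964821) (nat_lit 26) (nat_lit 5) (nat_lit 31) (nat_lit 5) (nat_lit 27) (nat_lit 5) (nat_lit 354) (nat_lit 348) (nat_lit 198)) (XT.nd (nat_lit 78) (nat_lit 0) (nat_lit 0) (XT.lf (nat_lit 0) (nat_lit 1493356511085) (nat_lit 152) (nat_lit 2794883377150) (nat_lit 228) (nat_lit 1376015040457) (nat_lit 24) (nat_lit 5) (nat_lit 26) (nat_lit 5) (nat_lit 27) (nat_lit 5) (nat_lit 355) (nat_lit 348) (nat_lit 197)) (XT.lf (nat_lit 0) (nat_lit 5055430073097) (nat_lit 152) (nat_lit 521790769123) (nat_lit 228) (nat_lit 581308258399) (nat_lit 24) (nat_lit 5)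 (nat_lit 26) (nat_lit 5) (nat_lit 27) (nat_lit 5) (nat_lit 356) (nat_lit 348) (nat_lit 196))))) (XT.nd (nat_lit 234) (nat_lit 228) (nat_lit 0) (XT.nd (nat_lit 78) (nat_lit 152) (nat_lit 0) (XT.lf (nat_lit 0) (nat_lit 505100059285) (nat_lit 152) (nat_lit 4154222307073) (nat_lit 76) (nat_lit 2035240224081) (nat_lit 22) (nat_lit 5) (nat_lit 24) (nat_lit 5) (nat_lit 23) (nat_lit 5) (nat_lit 357) (nat_lit 348) (nat_lit 195)) (XT.nd (nat_lit 78) (nat_lit 152) (nat_lit 0) (XT.lf (nat_lit 0) (nat_lit 1780209714461) (nat_lit 152) (nat_lit 503357360200) (nat_lit 76) (nat_lit 5010493579782) (nat_lit 22) (nat_lit 5) (nat_lit 24) (nat_lit 5) (nat_lit 23) (nat_lit 5) (nat_lit 358) (nat_lit 348) (nat_lit 194)) (XT.lf (nat_lit 0) (nat_lit 3441118299464) (nat_lit 228) (nat_lit 3928607982597) (nat_lit 76) (nat_lit 584577273755) (nat_lit 20) (nat_lit 5) (nat_lit 23) (nat_lit 5) (nat_lit 21) (nat_lit 4) (nat_lit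 359) (nat_lit 348) (nat_lit 193)))) (XT.nd (nat_lit 78) (nat_lit 152) (nat_lit 0) (XT.lf (nat_lit 0) (nat_lit 517080700931) (nat_lit 76) (nat_lit 4991799777186) (nat_lit 152) (nat_lit 3181044818391) (nat_lit 19) (nat_lit 5) (nat_lit 20) (nat_lit 5) (nat_lit 21) (nat_lit 4) (nat_lit 360) (nat_lit 348) (nat_lit 192)) (XT.nd (nat_lit 78) (nat_lit 152) (nat_lit 0) (XT.lf (nat_lit 0) (nat_lit 6071144651792) (nat_lit 76) (nat_lit 2021021385099) (nat_lit 152) (nat_lit 1412920403417) (nat_lit 19) (nat_lit 5) (nat_lit 20) (nat_lit 5) (nat_lit 21) (nat_lit 4) (nat_lit 361) (nat_lit 348) (nat_lit 191)) (XT.lf (nat_lit 0) (nat_lit 718958115418) (nat_lit 152) (nat_lit 8303815989207) (nat_lit 76) (nat_lit 1392828630322) (nat_lit 17) (nat_lit 5) (nat_lit 19) (nat_lit 5) (nat_lit 18) (nat_lit 4) (nat_lit 362) (nat_lit 348) (nat_lit 190))))))) (XT.nd (nat_lit 858) (nat_lit 456) (nat_lit 0) (XT.nd (nat_lit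 390) (nat_lit 304) (nat_lit 0) (XT.nd (nat_lit 156) (nat_lit 152) (nat_lit 0) (XT.nd (nat_lit 78) (nat_lit 76) (nat_lit 0) (XT.lf (nat_lit 0) (nat_lit 3310250582019) (nat_lit 152) (nat_lit 2732537186344) (nat_lit 76) (nat_lit 5367173170851) (nat_lit 17) (nat_lit 5) (nat_lit 19) (nat_lit 5) (nat_lit 18) (nat_lit 4) (nat_lit 363) (nat_lit 348) (nat_lit 189)) (XT.lf (nat_lit 0) (nat_lit 4033525795094) (nat_lit 76) (nat_lit 2423730824937) (nat_lit 152) (nat_lit 6071163298879) (nat_lit 16) (nat_lit 5) (nat_lit 17) (nat_lit 5) (nat_lit 18) (nat_lit 4) (nat_lit 364) (nat_lit 348) (nat_lit 188))) (XT.nd (nat_lit 78) (nat_lit 152) (nat_lit 0) (XT.lf (nat_lit 0) (nat_lit 10297927024752) (nat_lit 152) (nat_lit 1750400318836) (nat_lit 0) (nat_lit 1733078382819) (nat_lit 16) (nat_lit 5) (nat_lit 18) (nat_lit 4) (nat_lit 16) (nat_lit 4) (nat_lit 365) (nat_lit 348) (nat_lit 187)) (XT.nd (nat_lit 78)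 (nat_lit 76) (nat_lit 0) (XT.lf (nat_lit 0) (nat_lit 6465999820052) (nat_lit 76) (nat_lit 8631857187265) (nat_lit 76) (nat_lit 67008545143) (nat_lit 15) (nat_lit 4) (nat_lit 16) (nat_lit 5) (nat_lit 16) (nat_lit 4) (nat_lit 366) (nat_lit 348) (nat_lit 186)) (XT.lf (nat_lit 0) (nat_lit 3613971485857) (nat_lit 152) (nat_lit 794809947693) (nat_lit 76) (nat_lit 12308697474451) (nat_lit 14) (nat_lit 5) (nat_lit 16) (nat_lit 5) (nat_lit 15) (nat_lit 4) (nat_lit 367) (nat_lit 348) (nat_lit 185))))) (XT.nd (nat_lit 234) (nat_lit 152) (nat_lit 0) (XT.nd (nat_lit 78) (nat_lit 76) (nat_lit 0) (XT.lf (nat_lit 0) (nat_lit 8253771788011) (nat_lit 152) (nat_lit 9380626480285) (nat_lit 0) (nat_lit 806077316334) (nat_lit 13) (nat_lit 5) (nat_lit 15) (nat_lit 4) (nat_lit 13) (nat_lit 4) (nat_lit 368) (nat_lit 348) (nat_lit 184)) (XT.nd (nat_lit 78) (nat_lit 76) (nat_lit 0) (XT.lf (nat_lit 0) (nat_lit 13843009415004)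 (nat_lit 152) (nat_lit 145577312605) (nat_lit 0) (nat_lit 6395314943219) (nat_lit 13) (nat_lit 5) (nat_lit 15) (nat_lit 4) (nat_lit 13) (nat_lit 4) (nat_lit 369) (nat_lit 348) (nat_lit 183)) (XT.lf (nat_lit 0) (nat_lit 11498395950137) (nat_lit 76) (nat_lit 9248360791667) (nat_lit 76) (nat_lit 1800666319788) (nat_lit 12) (nat_lit 4) (nat_lit 13) (nat_lit 5) (nat_lit 13) (nat_lit 4) (nat_lit 370) (nat_lit 348) (nat_lit 182)))) (XT.nd (nat_lit 78) (nat_lit 76) (nat_lit 0) (XT.lf (nat_lit 0) (nat_lit 3333564519203) (nat_lit 152) (nat_lit 280530755673) (nat_lit 76) (nat_lit 21397507078647) (nat_lit 11) (nat_lit 5) (nat_lit 13) (nat_lit 5) (nat_lit 12) (nat_lit 4) (nat_lit 371) (nat_lit 348) (nat_lit 181)) (XT.nd (nat_lit 78) (nat_lit 0) (nat_lit 0) (XT.lf (nat_lit 0) (nat_lit 9748567195296) (nat_lit 152) (nat_lit 14707419637404) (nat_lit 0) (nat_lit 3272311132660) (nat_lit 10) (nat_lit 5) (nat_lit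 12) (nat_lit 4) (nat_lit 10) (nat_lit 4) (nat_lit 372) (nat_lit 348) (nat_lit 180)) (XT.lf (nat_lit 0) (nat_lit 17313282446197) (nat_lit 152) (nat_lit 2674069763260) (nat_lit 0) (nat_lit 10837026383507) (nat_lit 10) (nat_lit 5) (nat_lit 12) (nat_lit 4) (nat_lit 10) (nat_lit 4) (nat_lit 373) (nat_lit 348) (nat_lit 179)))))) (XT.nd (nat_lit 390) (nat_lit 228) (nat_lit 0) (XT.nd (nat_lit 156) (nat_lit 152) (nat_lit 0) (XT.nd (nat_lit 78) (nat_lit 0) (nat_lit 0) (XT.lf (nat_lit 0) (nat_lit 12255337481434) (nat_lit 76) (nat_lit 14264834893723) (nat_lit 76) (nat_lit 7788578830987) (nat_lit 9) (nat_lit 4) (nat_lit 10) (nat_lit 5) (nat_lit 10) (nat_lit 4) (nat_lit 374) (nat_lit 348) (nat_lit 178)) (XT.lf (nat_lit 0) (nat_lit 29724684789427) (nat_lit 76) (nat_lit 7523191923375) (nat_lit 76) (nat_lit 1046935860598) (nat_lit 9) (nat_lit 4) (nat_lit 10) (nat_lit 5) (nat_lit 10) (nat_lit 4) (nat_lit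 375) (nat_lit 348) (nat_lit 177))) (XT.nd (nat_lit 78) (nat_lit 0) (nat_lit 0) (XT.lf (nat_lit 0) (nat_lit 6448723578162) (nat_lit 152) (nat_lit 35520244058015) (nat_lit 0) (nat_lit 817196567020) (nat_lit 7) (nat_lit 5) (nat_lit 9) (nat_lit 4) (nat_lit 7) (nat_lit 4) (nat_lit 376) (nat_lit 348) (nat_lit 176)) (XT.nd (nat_lit 78) (nat_lit 0) (nat_lit 0) (XT.lf (nat_lit 0) (nat_lit 15789109398103) (nat_lit 152) (nat_lit 21872914115757) (nat_lit 0) (nat_lit 10157582386935) (nat_lit 7) (nat_lit 5) (nat_lit 9) (nat_lit 4) (nat_lit 7) (nat_lit 4) (nat_lit 377) (nat_lit 348) (nat_lit 175)) (XT.lf (nat_lit 0) (nat_lit 26530553090954) (nat_lit 152) (nat_lit 6178484682328) (nat_lit 0) (nat_lit 20899026079763) (nat_lit 7) (nat_lit 5) (nat_lit 9) (nat_lit 4) (nat_lit 7) (nat_lit 4) (nat_lit 378) (nat_lit 348) (nat_lit 174))))) (XT.nd (nat_lit 234) (nat_lit 152) (nat_lit 0) (XT.nd (nat_lit 78) (nat_lit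 0) (nat_lit 0) (XT.lf (nat_lit 0) (nat_lit 13030142561733) (nat_lit 76) (nat_lit 26392621192563) (nat_lit 76) (nat_lit 20761094181352) (nat_lit 6) (nat_lit 4) (nat_lit 7) (nat_lit 5) (nat_lit 7) (nat_lit 4) (nat_lit 379) (nat_lit 348) (nat_lit 173)) (XT.nd (nat_lit 78) (nat_lit 0) (nat_lit 0) (XT.lf (nat_lit 0) (nat_lit 35814441318495) (nat_lit 76) (nat_lit 18757330943335) (nat_lit 76) (nat_lit 13125803932107) (nat_lit 6) (nat_lit 4) (nat_lit 7) (nat_lit 5) (nat_lit 7) (nat_lit 4) (nat_lit 380) (nat_lit 348) (nat_lit 172)) (XT.lf (nat_lit 0) (nat_lit 62016384888650) (nat_lit 76) (nat_lit 9976747156786) (nat_lit 76) (nat_lit 4345220145542) (nat_lit 6) (nat_lit 4) (nat_lit 7) (nat_lit 5) (nat_lit 7) (nat_lit 4) (nat_lit 381) (nat_lit 348) (nat_lit 171)))) (XT.nd (nat_lit 44304) (nat_lit 0) (nat_lit 1824) (XT.lf (nat_lit 0) (nat_lit 5525019979800) (nat_lit 152) (nat_lit 80043751363710) (nat_lit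 0) (nat_lit 628039970011) (nat_lit 4) (nat_lit 5) (nat_lit 6) (nat_lit 4) (nat_lit 4) (nat_lit 4) (nat_lit 382) (nat_lit 348) (nat_lit 170)) (XT.nd (nat_lit 78) (nat_lit 0) (nat_lit 0) (XT.lf (nat_lit 0) (nat_lit 462580022476) (nat_lit 380) (nat_lit 724942053828) (nat_lit 380) (nat_lit 724942053828) (nat_lit 28) (nat_lit 3) (nat_lit 33) (nat_lit 3) (nat_lit 33) (nat_lit 5) (nat_lit 349) (nat_lit 349) (nat_lit 202)) (XT.lf (nat_lit 76) (nat_lit 446094049812) (nat_lit 0) (nat_lit 566924805928) (nat_lit 380) (nat_lit 3096008252927) (nat_lit 29) (nat_lit 5) (nat_lit 28) (nat_lit 3) (nat_lit 33) (nat_lit 5) (nat_lit 350) (nat_lit 349) (nat_lit 201))))))))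
noncomputable def xc117 : XT := (XT.nd (nat_lit 1716) (nat_lit 532) (nat_lit 0) (XT.nd (nat_lit 858) (nat_lit 608) (nat_lit 0) (XT.nd (nat_lit 390) (nat_lit 532) (nat_lit 0) (XT.nd (nat_lit 156) (nat_lit 228) (nat_lit 0) (XT.nd (nat_lit 78) (nat_lit 0) (nat_lit 0) (XT.lf (nat_lit 0) (nat_lit 1256080676854) (nat_lit 304) (nat_lit 1701191034890) (nat_lit 380) (nat_lit 1457165444280) (nat_lit 29) (nat_lit 5) (nat_lit 33) (nat_lit 5) (nat_lit 34) (nat_lit 5) (nat_lit 351) (nat_lit 349) (nat_lit 200)) (XT.lf (nat_lit 76) (nat_lit 579397878581) (nat_lit 0) (nat_lit 1007191941822) (nat_lit 380) (nat_lit 3171420682690) (nat_lit 30) (nat_lit 5) (nat_lit 29) (nat_lit 5) (nat_lit 34) (nat_lit 5) (nat_lit 352) (nat_lit 349) (nat_lit 199))) (XT.nd (nat_lit 78) (nat_lit 304) (nat_lit 0) (XT.lf (nat_lit 0) (nat_lit 2110991067302) (nat_lit 304) (nat_lit 1801905002602) (nat_lit 76) (nat_lit 1218576422549)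 (nat_lit 30) (nat_lit 5) (nat_lit 34) (nat_lit 5) (nat_lit 31) (nat_lit 5) (nat_lit 353) (nat_lit 349) (nat_lit 198)) (XT.nd (nat_lit 78) (nat_lit 0) (nat_lit 0) (XT.lf (nat_lit 0) (nat_lit 969674357790) (nat_lit 304) (nat_lit 1832491811304) (nat_lit 380) (nat_lit 2745570560944) (nat_lit 26) (nat_lit 5) (nat_lit 30) (nat_lit 5) (nat_lit 31) (nat_lit 5) (nat_lit 354) (nat_lit 349) (nat_lit 197)) (XT.lf (nat_lit 0) (nat_lit 3718880577190) (nat_lit 380) (nat_lit 1680484410112) (nat_lit 76) (nat_lit 608796159804) (nat_lit 26) (nat_lit 5) (nat_lit 31) (nat_lit 5) (nat_lit 27) (nat_lit 5) (nat_lit 355) (nat_lit 349) (nat_lit 196))))) (XT.nd (nat_lit 234) (nat_lit 228) (nat_lit 0) (XT.nd (nat_lit 78) (nat_lit 152) (nat_lit 0) (XT.lf (nat_lit 0) (nat_lit 1717359993395) (nat_lit 152) (nat_lit 3214115882581) (nat_lit 228) (nat_lit 1582417291338) (nat_lit 24) (nat_lit 5) (nat_lit 26) (nat_lit 5)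 (nat_lit 27) (nat_lit 5) (nat_lit 356) (nat_lit 349) (nat_lit 195)) (XT.nd (nat_lit 78) (nat_lit 152) (nat_lit 0) (XT.lf (nat_lit 0) (nat_lit 5813744588972) (nat_lit 152) (nat_lit 600059383499) (nat_lit 228) (nat_lit 668504492648) (nat_lit 24) (nat_lit 5) (nat_lit 26) (nat_lit 5) (nat_lit 27) (nat_lit 5) (nat_lit 357) (nat_lit 349) (nat_lit 194)) (XT.lf (nat_lit 0) (nat_lit 580865072015) (nat_lit 152) (nat_lit 4777355647540) (nat_lit 76) (nat_lit 2340526258870) (nat_lit 22) (nat_lit 5) (nat_lit 24) (nat_lit 5) (nat_lit 23) (nat_lit 5) (nat_lit 358) (nat_lit 349) (nat_lit 193)))) (XT.nd (nat_lit 78) (nat_lit 228) (nat_lit 0) (XT.lf (nat_lit 0) (nat_lit 2047241174967) (nat_lit 152) (nat_lit 578860959366) (nat_lit 76) (nat_lit 5762067617772) (nat_lit 22) (nat_lit 5) (nat_lit 24) (nat_lit 5) (nat_lit 23) (nat_lit 5) (nat_lit 359) (nat_lit 349) (nat_lit 192)) (XT.nd (nat_lit 78) (nat_lit 76)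 (nat_lit 0) (XT.lf (nat_lit 0) (nat_lit 3957286047541) (nat_lit 228) (nat_lit 4517899174941) (nat_lit 76) (nat_lit 672263866229) (nat_lit 20) (nat_lit 5) (nat_lit 23) (nat_lit 5) (nat_lit 21) (nat_lit 4) (nat_lit 360) (nat_lit 349) (nat_lit 191)) (XT.lf (nat_lit 0) (nat_lit 594642810887) (nat_lit 76) (nat_lit 5740569741893) (nat_lit 152) (nat_lit 3658201537760) (nat_lit 19) (nat_lit 5) (nat_lit 20) (nat_lit 5) (nat_lit 21) (nat_lit 4) (nat_lit 361) (nat_lit 349) (nat_lit 190)))))) (XT.nd (nat_lit 390) (nat_lit 380) (nat_lit 0) (XT.nd (nat_lit 156) (nat_lit 76) (nat_lit 0) (XT.nd (nat_lit 78) (nat_lit 152) (nat_lit 0) (XT.lf (nat_lit 0) (nat_lit 6981816353749) (nat_lit 76) (nat_lit 2324174591236) (nat_lit 152) (nat_lit 1624858460982) (nat_lit 19) (nat_lit 5) (nat_lit 20) (nat_lit 5) (nat_lit 21) (nat_lit 4) (nat_lit 362) (nat_lit 349) (nat_lit 189)) (XT.lf (nat_lit 0) (nat_lit 826801835314)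 (nat_lit 152) (nat_lit 9549388383032) (nat_lit 76) (nat_lit 1601752926455) (nat_lit 17) (nat_lit 5) (nat_lit 19) (nat_lit 5) (nat_lit 18) (nat_lit 4) (nat_lit 363) (nat_lit 349) (nat_lit 188))) (XT.nd (nat_lit 78) (nat_lit 76) (nat_lit 0) (XT.lf (nat_lit 0) (nat_lit 3806788171568) (nat_lit 152) (nat_lit 3142417760333) (nat_lit 76) (nat_lit 6172249147857) (nat_lit 17) (nat_lit 5) (nat_lit 19) (nat_lit 5) (nat_lit 18) (nat_lit 4) (nat_lit 364) (nat_lit 349) (nat_lit 187)) (XT.nd (nat_lit 78) (nat_lit 0) (nat_lit 0) (XT.lf (nat_lit 0) (nat_lit 4638554668140) (nat_lit 76) (nat_lit 2787290447005) (nat_lit 152) (nat_lit 6981837791283) (nat_lit 16) (nat_lit 5) (nat_lit 17) (nat_lit 5) (nat_lit 18) (nat_lit 4) (nat_lit 365) (nat_lit 349) (nat_lit 186)) (XT.lf (nat_lit 0) (nat_lit 11842616080360) (nat_lit 152) (nat_lit 2012960363157) (nat_lit 0) (nat_lit 1993040141567) (nat_lit 16) (nat_lit 5)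 (nat_lit 18) (nat_lit 4) (nat_lit 16) (nat_lit 4) (nat_lit 366) (nat_lit 349) (nat_lit 185))))) (XT.nd (nat_lit 234) (nat_lit 152) (nat_lit 0) (XT.nd (nat_lit 78) (nat_lit 152) (nat_lit 0) (XT.lf (nat_lit 0) (nat_lit 7435899796406) (nat_lit 76) (nat_lit 9926635763795) (nat_lit 76) (nat_lit 77059824859) (nat_lit 15) (nat_lit 4) (nat_lit 16) (nat_lit 5) (nat_lit 16) (nat_lit 4) (nat_lit 367) (nat_lit 349) (nat_lit 184)) (XT.nd (nat_lit 78) (nat_lit 76) (nat_lit 0) (XT.lf (nat_lit 0) (nat_lit 4156067210363) (nat_lit 152) (nat_lit 914031436777) (nat_lit 76) (nat_lit 14155002096815) (nat_lit 14) (nat_lit 5) (nat_lit 16) (nat_lit 5) (nat_lit 15) (nat_lit 4) (nat_lit 368) (nat_lit 349) (nat_lit 183)) (XT.lf (nat_lit 0) (nat_lit 9491837557808) (nat_lit 152) (nat_lit 10787720449225) (nat_lit 0) (nat_lit 926988915053) (nat_lit 13) (nat_lit 5) (nat_lit 15) (nat_lit 4) (nat_lit 13) (nat_lit 4) (nat_lit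 369) (nat_lit 349) (nat_lit 182)))) (XT.nd (nat_lit 78) (nat_lit 152) (nat_lit 0) (XT.lf (nat_lit 0) (nat_lit 15919460828642) (nat_lit 152) (nat_lit 167413906797) (nat_lit 0) (nat_lit 7354612185805) (nat_lit 13) (nat_lit 5) (nat_lit 15) (nat_lit 4) (nat_lit 13) (nat_lit 4) (nat_lit 370) (nat_lit 349) (nat_lit 181)) (XT.nd (nat_lit 78) (nat_lit 76) (nat_lit 0) (XT.lf (nat_lit 0) (nat_lit 13223155345234) (nat_lit 76) (nat_lit 10635614909153) (nat_lit 76) (nat_lit 2070766266246) (nat_lit 12) (nat_lit 4) (nat_lit 13) (nat_lit 5) (nat_lit 13) (nat_lit 4) (nat_lit 371) (nat_lit 349) (nat_lit 180)) (XT.lf (nat_lit 0) (nat_lit 3833599198279) (nat_lit 152) (nat_lit 322610366667) (nat_lit 76) (nat_lit 24607133141425) (nat_lit 11) (nat_lit 5) (nat_lit 13) (nat_lit 5) (nat_lit 12) (nat_lit 4) (nat_lit 372) (nat_lit 349) (nat_lit 179))))))) (XT.nd (nat_lit 858) (nat_lit 0) (nat_lit 0) (XT.nd (nat_lit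 390) (nat_lit 228) (nat_lit 0) (XT.nd (nat_lit 156) (nat_lit 228) (nat_lit 0) (XT.nd (nat_lit 78) (nat_lit 0) (nat_lit 0) (XT.lf (nat_lit 0) (nat_lit 11210852275770) (nat_lit 152) (nat_lit 16913532580640) (nat_lit 0) (nat_lit 3763157803576) (nat_lit 10) (nat_lit 5) (nat_lit 12) (nat_lit 4) (nat_lit 10) (nat_lit 4) (nat_lit 373) (nat_lit 349) (nat_lit 178)) (XT.lf (nat_lit 0) (nat_lit 19910274814152) (nat_lit 152) (nat_lit 3075180225685) (nat_lit 0) (nat_lit 12462580341917) (nat_lit 10) (nat_lit 5) (nat_lit 12) (nat_lit 4) (nat_lit 10) (nat_lit 4) (nat_lit 374) (nat_lit 349) (nat_lit 177))) (XT.nd (nat_lit 78) (nat_lit 152) (nat_lit 0) (XT.lf (nat_lit 0) (nat_lit 14093638105620) (nat_lit 76) (nat_lit 16404560126784) (nat_lit 76) (nat_lit 8956865654515) (nat_lit 9) (nat_lit 4) (nat_lit 10) (nat_lit 5) (nat_lit 10) (nat_lit 4) (nat_lit 375) (nat_lit 349) (nat_lit 176)) (XT.nd (nat_lit 78)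 (nat_lit 152) (nat_lit 0) (XT.lf (nat_lit 0) (nat_lit 34183387509555) (nat_lit 76) (nat_lit 8651670711015) (nat_lit 76) (nat_lit 1203976238714) (nat_lit 9) (nat_lit 4) (nat_lit 10) (nat_lit 5) (nat_lit 10) (nat_lit 4) (nat_lit 376) (nat_lit 349) (nat_lit 175)) (XT.lf (nat_lit 0) (nat_lit 7416032115765) (nat_lit 152) (nat_lit 40848280664909) (nat_lit 0) (nat_lit 939776052872) (nat_lit 7) (nat_lit 5) (nat_lit 9) (nat_lit 4) (nat_lit 7) (nat_lit 4) (nat_lit 377) (nat_lit 349) (nat_lit 174))))) (XT.nd (nat_lit 234) (nat_lit 152) (nat_lit 0) (XT.nd (nat_lit 78) (nat_lit 76) (nat_lit 0) (XT.lf (nat_lit 0) (nat_lit 18157475808583) (nat_lit 152) (nat_lit 25153851231548) (nat_lit 0) (nat_lit 11681219745670) (nat_lit 7) (nat_lit 5) (nat_lit 9) (nat_lit 4) (nat_lit 7) (nat_lit 4) (nat_lit 378) (nat_lit 349) (nat_lit 173)) (XT.nd (nat_lit 78) (nat_lit 76) (nat_lit 0) (XT.lf (nat_lit 0) (nat_lit 30510136055261)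 (nat_lit 152) (nat_lit 7105257383310) (nat_lit 0) (nat_lit 24033879992331) (nat_lit 7) (nat_lit 5) (nat_lit 9) (nat_lit 4) (nat_lit 7) (nat_lit 4) (nat_lit 379) (nat_lit 349) (nat_lit 172)) (XT.lf (nat_lit 0) (nat_lit 14984663947298) (nat_lit 76) (nat_lit 30351514370774) (nat_lit 76) (nat_lit 23875258307828) (nat_lit 6) (nat_lit 4) (nat_lit 7) (nat_lit 5) (nat_lit 7) (nat_lit 4) (nat_lit 380) (nat_lit 349) (nat_lit 171)))) (XT.nd (nat_lit 78) (nat_lit 152) (nat_lit 0) (XT.lf (nat_lit 0) (nat_lit 41186607517405) (nat_lit 76) (nat_lit 21570930584250) (nat_lit 76) (nat_lit 15094674521291) (nat_lit 6) (nat_lit 4) (nat_lit 7) (nat_lit 5) (nat_lit 7) (nat_lit 4) (nat_lit 381) (nat_lit 349) (nat_lit 170)) (XT.nd (nat_lit 78) (nat_lit 152) (nat_lit 0) (XT.lf (nat_lit 0) (nat_lit 71318842622935) (nat_lit 76) (nat_lit 11473259229795) (nat_lit 76) (nat_lit 4997003166824) (nat_lit 6) (nat_lit 4) (nat_lit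 7) (nat_lit 5) (nat_lit 7) (nat_lit 4) (nat_lit 382) (nat_lit 349) (nat_lit 169)) (XT.lf (nat_lit 0) (nat_lit 6353772977267) (nat_lit 152) (nat_lit 92050314067227) (nat_lit 0) (nat_lit 722245965979) (nat_lit 4) (nat_lit 5) (nat_lit 6) (nat_lit 4) (nat_lit 4) (nat_lit 4) (nat_lit 383) (nat_lit 349) (nat_lit 168)))))) (XT.nd (nat_lit 44538) (nat_lit 0) (nat_lit 1368) (XT.nd (nat_lit 44304) (nat_lit 0) (nat_lit 1824) (XT.nd (nat_lit 78) (nat_lit 0) (nat_lit 0) (XT.lf (nat_lit 0) (nat_lit 20343856218039) (nat_lit 152) (nat_lit 76855023602735) (nat_lit 0) (nat_lit 14712329206744) (nat_lit 4) (nat_lit 5) (nat_lit 6) (nat_lit 4) (nat_lit 4) (nat_lit 4) (nat_lit 384) (nat_lit 349) (nat_lit 167)) (XT.nd (nat_lit 44148) (nat_lit 0) (nat_lit 1824) (XT.lf (nat_lit 0) (nat_lit 36432451944892) (nat_lit 152) (nat_lit 59380439568642) (nat_lit 0) (nat_lit 30800924933591) (nat_lit 4) (nat_lit 5) (nat_lit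 6) (nat_lit 4) (nat_lit 4) (nat_lit 4) (nat_lit 385) (nat_lit 349) (nat_lit 166)) (XT.lf (nat_lit 0) (nat_lit 531967029789) (nat_lit 380) (nat_lit 833683359633) (nat_lit 380) (nat_lit 833683359633) (nat_lit 28) (nat_lit 3) (nat_lit 33) (nat_lit 3) (nat_lit 33) (nat_lit 5) (nat_lit 350) (nat_lit 350) (nat_lit 200)))) (XT.nd (nat_lit 78) (nat_lit 0) (nat_lit 76) (XT.lf (nat_lit 76) (nat_lit 513008161617) (nat_lit 0) (nat_lit 651963529518) (nat_lit 380) (nat_lit 3560409482767) (nat_lit 29) (nat_lit 5) (nat_lit 28) (nat_lit 3) (nat_lit 33) (nat_lit 5) (nat_lit 351) (nat_lit 350) (nat_lit 199)) (XT.nd (nat_lit 78) (nat_lit 0) (nat_lit 0) (XT.lf (nat_lit 0) (nat_lit 1444492784401) (nat_lit 304) (nat_lit 1956369685332) (nat_lit 380) (nat_lit 1675740258782) (nat_lit 29) (nat_lit 5) (nat_lit 33) (nat_lit 5) (nat_lit 34) (nat_lit 5) (nat_lit 352) (nat_lit 350) (nat_lit 198)) (XT.lf (nat_lit 76)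 (nat_lit 666307564943) (nat_lit 0) (nat_lit 1158270733945) (nat_lit 380) (nat_lit 3647133778848) (nat_lit 30) (nat_lit 5) (nat_lit 29) (nat_lit 5) (nat_lit 34) (nat_lit 5) (nat_lit 353) (nat_lit 350) (nat_lit 197))))) (XT.nd (nat_lit 234) (nat_lit 304) (nat_lit 0) (XT.nd (nat_lit 78) (nat_lit 304) (nat_lit 0) (XT.lf (nat_lit 0) (nat_lit 2427639732083) (nat_lit 304) (nat_lit 2072190748269) (nat_lit 76) (nat_lit 1401362885258) (nat_lit 30) (nat_lit 5) (nat_lit 34) (nat_lit 5) (nat_lit 31) (nat_lit 5) (nat_lit 354) (nat_lit 350) (nat_lit 196)) (XT.nd (nat_lit 78) (nat_lit 0) (nat_lit 0) (XT.lf (nat_lit 0) (nat_lit 1115125515967) (nat_lit 304) (nat_lit 2107365582752) (nat_lit 380) (nat_lit 3157406140179) (nat_lit 26) (nat_lit 5) (nat_lit 30) (nat_lit 5) (nat_lit 31) (nat_lit 5) (nat_lit 355) (nat_lit 350) (nat_lit 195)) (XT.lf (nat_lit 0) (nat_lit 4276712667483) (nat_lit 380) (nat_lit 1932557067156)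 (nat_lit 76) (nat_lit 700115583970) (nat_lit 26) (nat_lit 5) (nat_lit 31) (nat_lit 5) (nat_lit 27) (nat_lit 5) (nat_lit 356) (nat_lit 350) (nat_lit 194)))) (XT.nd (nat_lit 78) (nat_lit 152) (nat_lit 0) (XT.lf (nat_lit 0) (nat_lit 1974963996673) (nat_lit 152) (nat_lit 3696233264105) (nat_lit 228) (nat_lit 1819779881116) (nat_lit 24) (nat_lit 5) (nat_lit 26) (nat_lit 5) (nat_lit 27) (nat_lit 5) (nat_lit 357) (nat_lit 350) (nat_lit 193)) (XT.nd (nat_lit 78) (nat_lit 152) (nat_lit 0) (XT.lf (nat_lit 0) (nat_lit 6685806281031) (nat_lit 152) (nat_lit 690068290273) (nat_lit 228) (nat_lit 768780163134) (nat_lit 24) (nat_lit 5) (nat_lit 26) (nat_lit 5) (nat_lit 27) (nat_lit 5) (nat_lit 358) (nat_lit 350) (nat_lit 192)) (XT.lf (nat_lit 0) (nat_lit 667994835718) (nat_lit 152) (nat_lit 5493958990442) (nat_lit 76) (nat_lit 2691605198591) (nat_lit 22) (nat_lit 5) (nat_lit 24) (nat_lit 5) (nat_lit 23)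 (nat_lit 5) (nat_lit 359) (nat_lit 350) (nat_lit 191))))))))
noncomputable def xc118 : XT := (XT.nd (nat_lit 1716) (nat_lit 152) (nat_lit 0) (XT.nd (nat_lit 858) (nat_lit 532) (nat_lit 0) (XT.nd (nat_lit 390) (nat_lit 304) (nat_lit 0) (XT.nd (nat_lit 156) (nat_lit 228) (nat_lit 0) (XT.nd (nat_lit 78) (nat_lit 152) (nat_lit 0) (XT.lf (nat_lit 0) (nat_lit 2354327353734) (nat_lit 152) (nat_lit 665690099594) (nat_lit 76) (nat_lit 6626377761212) (nat_lit 22) (nat_lit 5) (nat_lit 24) (nat_lit 5) (nat_lit 23) (nat_lit 5) (nat_lit 360) (nat_lit 350) (nat_lit 190)) (XT.lf (nat_lit 0) (nat_lit 4550878957059) (nat_lit 228) (nat_lit 5195584047367) (nat_lit 76) (nat_lit 773103447231) (nat_lit 20) (nat_lit 5) (nat_lit 23) (nat_lit 5) (nat_lit 21) (nat_lit 4) (nat_lit 361) (nat_lit 350) (nat_lit 189))) (XT.nd (nat_lit 78) (nat_lit 152) (nat_lit 0) (XT.lf (nat_lit 0) (nat_lit 683839236162) (nat_lit 76)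 (nat_lit 6601655201762) (nat_lit 152) (nat_lit 4206931765861) (nat_lit 19) (nat_lit 5) (nat_lit 20) (nat_lit 5) (nat_lit 21) (nat_lit 4) (nat_lit 362) (nat_lit 350) (nat_lit 188)) (XT.nd (nat_lit 78) (nat_lit 152) (nat_lit 0) (XT.lf (nat_lit 0) (nat_lit 8029088809978) (nat_lit 76) (nat_lit 2672800778691) (nat_lit 152) (nat_lit 1868587227900) (nat_lit 19) (nat_lit 5) (nat_lit 20) (nat_lit 5) (nat_lit 21) (nat_lit 4) (nat_lit 363) (nat_lit 350) (nat_lit 187)) (XT.lf (nat_lit 0) (nat_lit 950822112564) (nat_lit 152) (nat_lit 10981796637041) (nat_lit 76) (nat_lit 1842015866621) (nat_lit 17) (nat_lit 5) (nat_lit 19) (nat_lit 5) (nat_lit 18) (nat_lit 4) (nat_lit 364) (nat_lit 350) (nat_lit 186))))) (XT.nd (nat_lit 234) (nat_lit 228) (nat_lit 0) (XT.nd (nat_lit 78) (nat_lit 76) (nat_lit 0) (XT.lf (nat_lit 0) (nat_lit 4377806399002) (nat_lit 152) (nat_lit 3613780421387) (nat_lit 76) (nat_lit 7098086521077)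 (nat_lit 17) (nat_lit 5) (nat_lit 19) (nat_lit 5) (nat_lit 18) (nat_lit 4) (nat_lit 365) (nat_lit 350) (nat_lit 185)) (XT.nd (nat_lit 78) (nat_lit 0) (nat_lit 0) (XT.lf (nat_lit 0) (nat_lit 5334337871221) (nat_lit 76) (nat_lit 3205384012791) (nat_lit 152) (nat_lit 8029113458140) (nat_lit 16) (nat_lit 5) (nat_lit 17) (nat_lit 5) (nat_lit 18) (nat_lit 4) (nat_lit 366) (nat_lit 350) (nat_lit 184)) (XT.lf (nat_lit 0) (nat_lit 13619008493847) (nat_lit 152) (nat_lit 2314904414980) (nat_lit 0) (nat_lit 2291996163804) (nat_lit 16) (nat_lit 5) (nat_lit 18) (nat_lit 4) (nat_lit 16) (nat_lit 4) (nat_lit 367) (nat_lit 350) (nat_lit 183)))) (XT.nd (nat_lit 78) (nat_lit 152) (nat_lit 0) (XT.lf (nat_lit 0) (nat_lit 8551284768397) (nat_lit 76) (nat_lit 11415631127185) (nat_lit 76) (nat_lit 88618797034) (nat_lit 15) (nat_lit 4) (nat_lit 16) (nat_lit 5) (nat_lit 16) (nat_lit 4) (nat_lit 368) (nat_lit 350)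 (nat_lit 182)) (XT.nd (nat_lit 78) (nat_lit 76) (nat_lit 0) (XT.lf (nat_lit 0) (nat_lit 4779477293149) (nat_lit 152) (nat_lit 1051136149973) (nat_lit 76) (nat_lit 16278252412242) (nat_lit 14) (nat_lit 5) (nat_lit 16) (nat_lit 5) (nat_lit 15) (nat_lit 4) (nat_lit 369) (nat_lit 350) (nat_lit 181)) (XT.lf (nat_lit 0) (nat_lit 10915613192685) (nat_lit 152) (nat_lit 12405878514262) (nat_lit 0) (nat_lit 1066037253270) (nat_lit 13) (nat_lit 5) (nat_lit 15) (nat_lit 4) (nat_lit 13) (nat_lit 4) (nat_lit 370) (nat_lit 350) (nat_lit 180)))))) (XT.nd (nat_lit 390) (nat_lit 304) (nat_lit 0) (XT.nd (nat_lit 156) (nat_lit 152) (nat_lit 0) (XT.nd (nat_lit 78) (nat_lit 76) (nat_lit 0) (XT.lf (nat_lit 0) (nat_lit 18307379953987) (nat_lit 152) (nat_lit 192525990776) (nat_lit 0) (nat_lit 8457804014511) (nat_lit 13) (nat_lit 5) (nat_lit 15) (nat_lit 4) (nat_lit 13) (nat_lit 4) (nat_lit 371) (nat_lit 350) (nat_lit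 179)) (XT.lf (nat_lit 0) (nat_lit 15206628648967) (nat_lit 76) (nat_lit 12230957144571) (nat_lit 76) (nat_lit 2381381205041) (nat_lit 12) (nat_lit 4) (nat_lit 13) (nat_lit 5) (nat_lit 13) (nat_lit 4) (nat_lit 372) (nat_lit 350) (nat_lit 178))) (XT.nd (nat_lit 78) (nat_lit 76) (nat_lit 0) (XT.lf (nat_lit 0) (nat_lit 4408639078926) (nat_lit 152) (nat_lit 371001919884) (nat_lit 76) (nat_lit 28298203113381) (nat_lit 11) (nat_lit 5) (nat_lit 13) (nat_lit 5) (nat_lit 12) (nat_lit 4) (nat_lit 373) (nat_lit 350) (nat_lit 177)) (XT.nd (nat_lit 78) (nat_lit 0) (nat_lit 0) (XT.lf (nat_lit 0) (nat_lit 12892480118027) (nat_lit 152) (nat_lit 19450562465941) (nat_lit 0) (nat_lit 4327631474882) (nat_lit 10) (nat_lit 5) (nat_lit 12) (nat_lit 4) (nat_lit 10) (nat_lit 4) (nat_lit 374) (nat_lit 350) (nat_lit 176)) (XT.lf (nat_lit 0) (nat_lit 22896816037050) (nat_lit 152) (nat_lit 3536457257977) (nat_lit 0)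 (nat_lit 14331967393874) (nat_lit 10) (nat_lit 5) (nat_lit 12) (nat_lit 4) (nat_lit 10) (nat_lit 4) (nat_lit 375) (nat_lit 350) (nat_lit 175))))) (XT.nd (nat_lit 234) (nat_lit 76) (nat_lit 0) (XT.nd (nat_lit 78) (nat_lit 152) (nat_lit 0) (XT.lf (nat_lit 0) (nat_lit 16207683822954) (nat_lit 76) (nat_lit 18865244145048) (nat_lit 76) (nat_lit 10300395501845) (nat_lit 9) (nat_lit 4) (nat_lit 10) (nat_lit 5) (nat_lit 10) (nat_lit 4) (nat_lit 376) (nat_lit 350) (nat_lit 174)) (XT.nd (nat_lit 78) (nat_lit 152) (nat_lit 0) (XT.lf (nat_lit 0) (nat_lit 39310895637283) (nat_lit 76) (nat_lit 9949421317011) (nat_lit 76) (nat_lit 1384572673786) (nat_lit 9) (nat_lit 4) (nat_lit 10) (nat_lit 5) (nat_lit 10) (nat_lit 4) (nat_lit 377) (nat_lit 350) (nat_lit 173)) (XT.lf (nat_lit 0) (nat_lit 8528436933794) (nat_lit 152) (nat_lit 46975522763277) (nat_lit 0) (nat_lit 1080742461406) (nat_lit 7) (nat_lit 5)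 (nat_lit 9) (nat_lit 4) (nat_lit 7) (nat_lit 4) (nat_lit 378) (nat_lit 350) (nat_lit 172)))) (XT.nd (nat_lit 78) (nat_lit 76) (nat_lit 0) (XT.lf (nat_lit 0) (nat_lit 20881097180448) (nat_lit 152) (nat_lit 28926928915090) (nat_lit 0) (nat_lit 13433402708045) (nat_lit 7) (nat_lit 5) (nat_lit 9) (nat_lit 4) (nat_lit 7) (nat_lit 4) (nat_lit 379) (nat_lit 350) (nat_lit 171)) (XT.nd (nat_lit 78) (nat_lit 76) (nat_lit 0) (XT.lf (nat_lit 0) (nat_lit 35086656464053) (nat_lit 152) (nat_lit 8171045989772) (nat_lit 0) (nat_lit 27638961991637) (nat_lit 7) (nat_lit 5) (nat_lit 9) (nat_lit 4) (nat_lit 7) (nat_lit 4) (nat_lit 380) (nat_lit 350) (nat_lit 170)) (XT.lf (nat_lit 0) (nat_lit 17232363540381) (nat_lit 76) (nat_lit 34904241525880) (nat_lit 76) (nat_lit 27456547053452) (nat_lit 6) (nat_lit 4) (nat_lit 7) (nat_lit 5) (nat_lit 7) (nat_lit 4) (nat_lit 381) (nat_lit 350) (nat_lit 169))))))) (XT.nd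 (nat_lit 45006) (nat_lit 0) (nat_lit 912) (XT.nd (nat_lit 44538) (nat_lit 0) (nat_lit 1672) (XT.nd (nat_lit 156) (nat_lit 152) (nat_lit 0) (XT.nd (nat_lit 78) (nat_lit 0) (nat_lit 0) (XT.lf (nat_lit 0) (nat_lit 47364598645874) (nat_lit 76) (nat_lit 24806570171444) (nat_lit 76) (nat_lit 17358875699006) (nat_lit 6) (nat_lit 4) (nat_lit 7) (nat_lit 5) (nat_lit 7) (nat_lit 4) (nat_lit 382) (nat_lit 350) (nat_lit 168)) (XT.lf (nat_lit 0) (nat_lit 82016669017121) (nat_lit 76) (nat_lit 13194248113879) (nat_lit 76) (nat_lit 5746553641432) (nat_lit 6) (nat_lit 4) (nat_lit 7) (nat_lit 5) (nat_lit 7) (nat_lit 4) (nat_lit 383) (nat_lit 350) (nat_lit 167))) (XT.nd (nat_lit 78) (nat_lit 0) (nat_lit 0) (XT.lf (nat_lit 0) (nat_lit 7306838924233) (nat_lit 152) (nat_lit 105857861176525) (nat_lit 0) (nat_lit 830582861230) (nat_lit 4) (nat_lit 5) (nat_lit 6) (nat_lit 4) (nat_lit 4) (nat_lit 4) (nat_lit 384)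 (nat_lit 350) (nat_lit 166)) (XT.nd (nat_lit 44226) (nat_lit 0) (nat_lit 1824) (XT.lf (nat_lit 0) (nat_lit 23395434651072) (nat_lit 152) (nat_lit 88383277142462) (nat_lit 0) (nat_lit 16919178588063) (nat_lit 4) (nat_lit 5) (nat_lit 6) (nat_lit 4) (nat_lit 4) (nat_lit 4) (nat_lit 385) (nat_lit 350) (nat_lit 165)) (XT.lf (nat_lit 0) (nat_lit 611762087237) (nat_lit 380) (nat_lit 958735861862) (nat_lit 380) (nat_lit 958735861862) (nat_lit 28) (nat_lit 3) (nat_lit 33) (nat_lit 3) (nat_lit 33) (nat_lit 5) (nat_lit 351) (nat_lit 351) (nat_lit 198))))) (XT.nd (nat_lit 234) (nat_lit 152) (nat_lit 0) (XT.nd (nat_lit 78) (nat_lit 0) (nat_lit 76) (XT.lf (nat_lit 76) (nat_lit 589959389135) (nat_lit 0) (nat_lit 749758060988) (nat_lit 380) (nat_lit 4094470899057) (nat_lit 29) (nat_lit 5) (nat_lit 28) (nat_lit 3) (nat_lit 33) (nat_lit 5) (nat_lit 352) (nat_lit 351) (nat_lit 197)) (XT.nd (nat_lit 78) (nat_lit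 0) (nat_lit 0) (XT.lf (nat_lit 0) (nat_lit 1661166706612) (nat_lit 304) (nat_lit 2249825134508) (nat_lit 380) (nat_lit 1927101295982) (nat_lit 29) (nat_lit 5) (nat_lit 33) (nat_lit 5) (nat_lit 34) (nat_lit 5) (nat_lit 353) (nat_lit 351) (nat_lit 196)) (XT.lf (nat_lit 76) (nat_lit 766253703143) (nat_lit 0) (nat_lit 1332011344679) (nat_lit 380) (nat_lit 4194203840953) (nat_lit 30) (nat_lit 5) (nat_lit 29) (nat_lit 5) (nat_lit 34) (nat_lit 5) (nat_lit 354) (nat_lit 351) (nat_lit 195)))) (XT.nd (nat_lit 78) (nat_lit 304) (nat_lit 0) (XT.lf (nat_lit 0) (nat_lit 2791785695438) (nat_lit 304) (nat_lit 2383019356938) (nat_lit 76) (nat_lit 1611567317539) (nat_lit 30) (nat_lit 5) (nat_lit 34) (nat_lit 5) (nat_lit 31) (nat_lit 5) (nat_lit 355) (nat_lit 351) (nat_lit 194)) (XT.nd (nat_lit 78) (nat_lit 0) (nat_lit 0) (XT.lf (nat_lit 0) (nat_lit 1282394346771) (nat_lit 304) (nat_lit 2423470419978) (nat_lit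 380) (nat_lit 3631017057496) (nat_lit 26) (nat_lit 5) (nat_lit 30) (nat_lit 5) (nat_lit 31) (nat_lit 5) (nat_lit 356) (nat_lit 351) (nat_lit 193)) (XT.lf (nat_lit 0) (nat_lit 4918219570414) (nat_lit 380) (nat_lit 2222440623847) (nat_lit 76) (nat_lit 805132921714) (nat_lit 26) (nat_lit 5) (nat_lit 31) (nat_lit 5) (nat_lit 27) (nat_lit 5) (nat_lit 357) (nat_lit 351) (nat_lit 192)))))) (XT.nd (nat_lit 390) (nat_lit 304) (nat_lit 0) (XT.nd (nat_lit 156) (nat_lit 304) (nat_lit 0) (XT.nd (nat_lit 78) (nat_lit 0) (nat_lit 0) (XT.lf (nat_lit 0) (nat_lit 2271208599403) (nat_lit 152) (nat_lit 4250668253068) (nat_lit 228) (nat_lit 2092746860318) (nat_lit 24) (nat_lit 5) (nat_lit 26) (nat_lit 5) (nat_lit 27) (nat_lit 5) (nat_lit 358) (nat_lit 351) (nat_lit 191)) (XT.lf (nat_lit 0) (nat_lit 7688677225993) (nat_lit 152) (nat_lit 793578533247) (nat_lit 228) (nat_lit 884097185026) (nat_lit 24) (nat_lit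 5) (nat_lit 26) (nat_lit 5) (nat_lit 27) (nat_lit 5) (nat_lit 359) (nat_lit 351) (nat_lit 190))) (XT.nd (nat_lit 78) (nat_lit 152) (nat_lit 0) (XT.lf (nat_lit 0) (nat_lit 768194063269) (nat_lit 152) (nat_lit 6318052835811) (nat_lit 76) (nat_lit 3095345979052) (nat_lit 22) (nat_lit 5) (nat_lit 24) (nat_lit 5) (nat_lit 23) (nat_lit 5) (nat_lit 360) (nat_lit 351) (nat_lit 189)) (XT.nd (nat_lit 78) (nat_lit 152) (nat_lit 0) (XT.lf (nat_lit 0) (nat_lit 2707476458702) (nat_lit 152) (nat_lit 765543611752) (nat_lit 76) (nat_lit 7620334425979) (nat_lit 22) (nat_lit 5) (nat_lit 24) (nat_lit 5) (nat_lit 23) (nat_lit 5) (nat_lit 361) (nat_lit 351) (nat_lit 188)) (XT.lf (nat_lit 0) (nat_lit 5233510802424) (nat_lit 228) (nat_lit 5974921651587) (nat_lit 76) (nat_lit 889068965122) (nat_lit 20) (nat_lit 5) (nat_lit 23) (nat_lit 5) (nat_lit 21) (nat_lit 4) (nat_lit 362) (nat_lit 351) (nat_lit 187))))) (XT.nd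 (nat_lit 234) (nat_lit 76) (nat_lit 0) (XT.nd (nat_lit 78) (nat_lit 152) (nat_lit 0) (XT.lf (nat_lit 0) (nat_lit 786415124340) (nat_lit 76) (nat_lit 7591903480956) (nat_lit 152) (nat_lit 4837971528802) (nat_lit 19) (nat_lit 5) (nat_lit 20) (nat_lit 5) (nat_lit 21) (nat_lit 4) (nat_lit 363) (nat_lit 351) (nat_lit 186)) (XT.nd (nat_lit 78) (nat_lit 152) (nat_lit 0) (XT.lf (nat_lit 0) (nat_lit 9233452133870) (nat_lit 76) (nat_lit 3073720894565) (nat_lit 152) (nat_lit 2148875310400) (nat_lit 19) (nat_lit 5) (nat_lit 20) (nat_lit 5) (nat_lit 21) (nat_lit 4) (nat_lit 364) (nat_lit 351) (nat_lit 185)) (XT.lf (nat_lit 0) (nat_lit 1093445430925) (nat_lit 152) (nat_lit 12629066129992) (nat_lit 76) (nat_lit 2118318247520) (nat_lit 17) (nat_lit 5) (nat_lit 19) (nat_lit 5) (nat_lit 18) (nat_lit 4) (nat_lit 365) (nat_lit 351) (nat_lit 184)))) (XT.nd (nat_lit 78) (nat_lit 76) (nat_lit 0) (XT.lf (nat_lit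 0) (nat_lit 5034477360136) (nat_lit 152) (nat_lit 4155847482330) (nat_lit 76) (nat_lit 8162799500027) (nat_lit 17) (nat_lit 5) (nat_lit 19) (nat_lit 5) (nat_lit 18) (nat_lit 4) (nat_lit 366) (nat_lit 351) (nat_lit 183)) (XT.nd (nat_lit 78) (nat_lit 0) (nat_lit 0) (XT.lf (nat_lit 0) (nat_lit 6134488554067) (nat_lit 76) (nat_lit 3686191613753) (nat_lit 152) (nat_lit 9233480475473) (nat_lit 16) (nat_lit 5) (nat_lit 17) (nat_lit 5) (nat_lit 18) (nat_lit 4) (nat_lit 367) (nat_lit 351) (nat_lit 182)) (XT.lf (nat_lit 0) (nat_lit 15661859769007) (nat_lit 152) (nat_lit 2662140075223) (nat_lit 0) (nat_lit 2635795589132) (nat_lit 16) (nat_lit 5) (nat_lit 18) (nat_lit 4) (nat_lit 16) (nat_lit 4) (nat_lit 368) (nat_lit 351) (nat_lit 181))))))))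
noncomputable def xc119 : XT := (XT.nd (nat_lit 45942) (nat_lit 0) (nat_lit 380) (XT.nd (nat_lit 858) (nat_lit 228) (nat_lit 0) (XT.nd (nat_lit 390) (nat_lit 380) (nat_lit 0) (XT.nd (nat_lit 156) (nat_lit 152) (nat_lit 0) (XT.nd (nat_lit 78) (nat_lit 76) (nat_lit 0) (XT.lf (nat_lit 0) (nat_lit 9833977485570) (nat_lit 76) (nat_lit 13127975795372) (nat_lit 76) (nat_lit 101911615414) (nat_lit 15) (nat_lit 4) (nat_lit 16) (nat_lit 5) (nat_lit 16) (nat_lit 4) (nat_lit 369) (nat_lit 351) (nat_lit 180)) (XT.lf (nat_lit 0) (nat_lit 5496398888052) (nat_lit 152) (nat_lit 1208806570714) (nat_lit 76) (nat_lit 18719990274763) (nat_lit 14) (nat_lit 5) (nat_lit 16) (nat_lit 5) (nat_lit 15) (nat_lit 4) (nat_lit 370) (nat_lit 351) (nat_lit 179))) (XT.nd (nat_lit 78) (nat_lit 76) (nat_lit 0) (XT.lf (nat_lit 0) (nat_lit 12552955172499) (nat_lit 152) (nat_lit 14266760289627) (nat_lit 0) (nat_lit 1225942841987)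 (nat_lit 13) (nat_lit 5) (nat_lit 15) (nat_lit 4) (nat_lit 13) (nat_lit 4) (nat_lit 371) (nat_lit 351) (nat_lit 178)) (XT.nd (nat_lit 78) (nat_lit 76) (nat_lit 0) (XT.lf (nat_lit 0) (nat_lit 21053486947878) (nat_lit 152) (nat_lit 221404887850) (nat_lit 0) (nat_lit 9726474617318) (nat_lit 13) (nat_lit 5) (nat_lit 15) (nat_lit 4) (nat_lit 13) (nat_lit 4) (nat_lit 372) (nat_lit 351) (nat_lit 177)) (XT.lf (nat_lit 0) (nat_lit 17487622947785) (nat_lit 76) (nat_lit 14065600715534) (nat_lit 76) (nat_lit 2738588384934) (nat_lit 12) (nat_lit 4) (nat_lit 13) (nat_lit 5) (nat_lit 13) (nat_lit 4) (nat_lit 373) (nat_lit 351) (nat_lit 176))))) (XT.nd (nat_lit 234) (nat_lit 228) (nat_lit 0) (XT.nd (nat_lit 78) (nat_lit 76) (nat_lit 0) (XT.lf (nat_lit 0) (nat_lit 5069934941449) (nat_lit 152) (nat_lit 426652206519) (nat_lit 76) (nat_lit 32542933580950) (nat_lit 11) (nat_lit 5) (nat_lit 13) (nat_lit 5)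 (nat_lit 12) (nat_lit 4) (nat_lit 374) (nat_lit 351) (nat_lit 175)) (XT.nd (nat_lit 78) (nat_lit 0) (nat_lit 0) (XT.lf (nat_lit 0) (nat_lit 14826352136406) (nat_lit 152) (nat_lit 22368146834475) (nat_lit 0) (nat_lit 4976776196697) (nat_lit 10) (nat_lit 5) (nat_lit 12) (nat_lit 4) (nat_lit 10) (nat_lit 4) (nat_lit 375) (nat_lit 351) (nat_lit 174)) (XT.lf (nat_lit 0) (nat_lit 26331338443194) (nat_lit 152) (nat_lit 4066925845493) (nat_lit 0) (nat_lit 16481762503461) (nat_lit 10) (nat_lit 5) (nat_lit 12) (nat_lit 4) (nat_lit 10) (nat_lit 4) (nat_lit 376) (nat_lit 351) (nat_lit 173)))) (XT.nd (nat_lit 78) (nat_lit 152) (nat_lit 0) (XT.lf (nat_lit 0) (nat_lit 18638836397523) (nat_lit 76) (nat_lit 21695030766235) (nat_lit 76) (nat_lit 11845454826482) (nat_lit 9) (nat_lit 4) (nat_lit 10) (nat_lit 5) (nat_lit 10) (nat_lit 4) (nat_lit 377) (nat_lit 351) (nat_lit 172)) (XT.nd (nat_lit 78) (nat_lit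 152) (nat_lit 0) (XT.lf (nat_lit 0) (nat_lit 45207529983856) (nat_lit 76) (nat_lit 11441834514067) (nat_lit 76) (nat_lit 1592258574297) (nat_lit 9) (nat_lit 4) (nat_lit 10) (nat_lit 5) (nat_lit 10) (nat_lit 4) (nat_lit 378) (nat_lit 351) (nat_lit 171)) (XT.lf (nat_lit 0) (nat_lit 9807702474366) (nat_lit 152) (nat_lit 54021851176734) (nat_lit 0) (nat_lit 1242853831074) (nat_lit 7) (nat_lit 5) (nat_lit 9) (nat_lit 4) (nat_lit 7) (nat_lit 4) (nat_lit 379) (nat_lit 351) (nat_lit 170)))))) (XT.nd (nat_lit 390) (nat_lit 152) (nat_lit 0) (XT.nd (nat_lit 156) (nat_lit 76) (nat_lit 0) (XT.nd (nat_lit 78) (nat_lit 0) (nat_lit 0) (XT.lf (nat_lit 0) (nat_lit 24013261757952) (nat_lit 152) (nat_lit 33265968251455) (nat_lit 0) (nat_lit 15448413114648) (nat_lit 7) (nat_lit 5) (nat_lit 9) (nat_lit 4) (nat_lit 7) (nat_lit 4) (nat_lit 380) (nat_lit 351) (nat_lit 169)) (XT.lf (nat_lit 0) (nat_lit 40349654934041)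 (nat_lit 152) (nat_lit 9396702887456) (nat_lit 0) (nat_lit 31784806290728) (nat_lit 7) (nat_lit 5) (nat_lit 9) (nat_lit 4) (nat_lit 7) (nat_lit 4) (nat_lit 381) (nat_lit 351) (nat_lit 168))) (XT.nd (nat_lit 78) (nat_lit 0) (nat_lit 0) (XT.lf (nat_lit 0) (nat_lit 19817218072185) (nat_lit 76) (nat_lit 40139877754377) (nat_lit 76) (nat_lit 31575029111055) (nat_lit 6) (nat_lit 4) (nat_lit 7) (nat_lit 5) (nat_lit 7) (nat_lit 4) (nat_lit 382) (nat_lit 351) (nat_lit 167)) (XT.nd (nat_lit 78) (nat_lit 0) (nat_lit 0) (XT.lf (nat_lit 0) (nat_lit 54469288443404) (nat_lit 76) (nat_lit 28527555696826) (nat_lit 76) (nat_lit 19962707053496) (nat_lit 6) (nat_lit 4) (nat_lit 7) (nat_lit 5) (nat_lit 7) (nat_lit 4) (nat_lit 383) (nat_lit 351) (nat_lit 166)) (XT.lf (nat_lit 0) (nat_lit 94319169370254) (nat_lit 76) (nat_lit 15173385330669) (nat_lit 76) (nat_lit 6608536687333) (nat_lit 6) (nat_lit 4) (nat_lit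 7) (nat_lit 5) (nat_lit 7) (nat_lit 4) (nat_lit 384) (nat_lit 351) (nat_lit 165))))) (XT.nd (nat_lit 44460) (nat_lit 0) (nat_lit 1900) (XT.nd (nat_lit 44304) (nat_lit 0) (nat_lit 1824) (XT.lf (nat_lit 0) (nat_lit 8402864763153) (nat_lit 152) (nat_lit 121736540352410) (nat_lit 0) (nat_lit 955170290681) (nat_lit 4) (nat_lit 5) (nat_lit 6) (nat_lit 4) (nat_lit 4) (nat_lit 4) (nat_lit 385) (nat_lit 351) (nat_lit 164)) (XT.nd (nat_lit 78) (nat_lit 0) (nat_lit 0) (XT.lf (nat_lit 0) (nat_lit 703526402576) (nat_lit 380) (nat_lit 1102546239844) (nat_lit 380) (nat_lit 1102546239844) (nat_lit 28) (nat_lit 3) (nat_lit 33) (nat_lit 3) (nat_lit 33) (nat_lit 5) (nat_lit 352) (nat_lit 352) (nat_lit 196)) (XT.lf (nat_lit 76) (nat_lit 678453299983) (nat_lit 0) (nat_lit 862221771681) (nat_lit 380) (nat_lit 4708641529284) (nat_lit 29) (nat_lit 5) (nat_lit 28) (nat_lit 3) (nat_lit 33) (nat_lit 5) (nat_lit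 353) (nat_lit 352) (nat_lit 195)))) (XT.nd (nat_lit 78) (nat_lit 0) (nat_lit 0) (XT.lf (nat_lit 0) (nat_lit 1910341716046) (nat_lit 304) (nat_lit 2587298901944) (nat_lit 380) (nat_lit 2216166489156) (nat_lit 29) (nat_lit 5) (nat_lit 33) (nat_lit 5) (nat_lit 34) (nat_lit 5) (nat_lit 354) (nat_lit 352) (nat_lit 194)) (XT.nd (nat_lit 78) (nat_lit 0) (nat_lit 76) (XT.lf (nat_lit 76) (nat_lit 881191761230) (nat_lit 0) (nat_lit 1531813046866) (nat_lit 380) (nat_lit 4823334413525) (nat_lit 30) (nat_lit 5) (nat_lit 29) (nat_lit 5) (nat_lit 34) (nat_lit 5) (nat_lit 355) (nat_lit 352) (nat_lit 193)) (XT.lf (nat_lit 0) (nat_lit 3210553552433) (nat_lit 304) (nat_lit 2740472257779) (nat_lit 76) (nat_lit 1853302414785) (nat_lit 30) (nat_lit 5) (nat_lit 34) (nat_lit 5) (nat_lit 31) (nat_lit 5) (nat_lit 356) (nat_lit 352) (nat_lit 192))))))) (XT.nd (nat_lit 858) (nat_lit 608) (nat_lit 0) (XT.nd (nat_lit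 390) (nat_lit 380) (nat_lit 0) (XT.nd (nat_lit 156) (nat_lit 304) (nat_lit 0) (XT.nd (nat_lit 78) (nat_lit 0) (nat_lit 0) (XT.lf (nat_lit 0) (nat_lit 1474753501364) (nat_lit 304) (nat_lit 2786990982833) (nat_lit 380) (nat_lit 4175669613315) (nat_lit 26) (nat_lit 5) (nat_lit 30) (nat_lit 5) (nat_lit 31) (nat_lit 5) (nat_lit 357) (nat_lit 352) (nat_lit 191)) (XT.lf (nat_lit 0) (nat_lit 5655952508100) (nat_lit 380) (nat_lit 2555806714867) (nat_lit 76) (nat_lit 925902860083) (nat_lit 26) (nat_lit 5) (nat_lit 31) (nat_lit 5) (nat_lit 27) (nat_lit 5) (nat_lit 358) (nat_lit 352) (nat_lit 190))) (XT.nd (nat_lit 78) (nat_lit 152) (nat_lit 0) (XT.lf (nat_lit 0) (nat_lit 2611889891755) (nat_lit 152) (nat_lit 4888268490535) (nat_lit 228) (nat_lit 2406658887123) (nat_lit 24) (nat_lit 5) (nat_lit 26) (nat_lit 5) (nat_lit 27) (nat_lit 5) (nat_lit 359) (nat_lit 352) (nat_lit 189)) (XT.nd (nat_lit 78)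 (nat_lit 152) (nat_lit 0) (XT.lf (nat_lit 0) (nat_lit 8841978812015) (nat_lit 152) (nat_lit 912615312804) (nat_lit 228) (nat_lit 1016711760830) (nat_lit 24) (nat_lit 5) (nat_lit 26) (nat_lit 5) (nat_lit 27) (nat_lit 5) (nat_lit 360) (nat_lit 352) (nat_lit 188)) (XT.lf (nat_lit 0) (nat_lit 883423174419) (nat_lit 152) (nat_lit 7265760758764) (nat_lit 76) (nat_lit 3559647876419) (nat_lit 22) (nat_lit 5) (nat_lit 24) (nat_lit 5) (nat_lit 23) (nat_lit 5) (nat_lit 361) (nat_lit 352) (nat_lit 187))))) (XT.nd (nat_lit 234) (nat_lit 152) (nat_lit 0) (XT.nd (nat_lit 78) (nat_lit 228) (nat_lit 0) (XT.lf (nat_lit 0) (nat_lit 3113597928950) (nat_lit 152) (nat_lit 880375151412) (nat_lit 76) (nat_lit 8763384590318) (nat_lit 22) (nat_lit 5) (nat_lit 24) (nat_lit 5) (nat_lit 23) (nat_lit 5) (nat_lit 362) (nat_lit 352) (nat_lit 186)) (XT.nd (nat_lit 78) (nat_lit 76) (nat_lit 0) (XT.lf (nat_lit 0) (nat_lit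 6018537424152) (nat_lit 228) (nat_lit 6871159897143) (nat_lit 76) (nat_lit 1022429310501) (nat_lit 20) (nat_lit 5) (nat_lit 23) (nat_lit 5) (nat_lit 21) (nat_lit 4) (nat_lit 363) (nat_lit 352) (nat_lit 185)) (XT.lf (nat_lit 0) (nat_lit 904377395074) (nat_lit 76) (nat_lit 8730689002291) (nat_lit 152) (nat_lit 5563667256657) (nat_lit 19) (nat_lit 5) (nat_lit 20) (nat_lit 5) (nat_lit 21) (nat_lit 4) (nat_lit 364) (nat_lit 352) (nat_lit 184)))) (XT.nd (nat_lit 78) (nat_lit 152) (nat_lit 0) (XT.lf (nat_lit 0) (nat_lit 10618469955761) (nat_lit 76) (nat_lit 3534779028046) (nat_lit 152) (nat_lit 2471206605686) (nat_lit 19) (nat_lit 5) (nat_lit 20) (nat_lit 5) (nat_lit 21) (nat_lit 4) (nat_lit 365) (nat_lit 352) (nat_lit 183)) (XT.nd (nat_lit 78) (nat_lit 0) (nat_lit 0) (XT.lf (nat_lit 0) (nat_lit 1257462246681) (nat_lit 152) (nat_lit 14523426047521) (nat_lit 76) (nat_lit 2436065985333) (nat_lit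 17) (nat_lit 5) (nat_lit 19) (nat_lit 5) (nat_lit 18) (nat_lit 4) (nat_lit 366) (nat_lit 352) (nat_lit 182)) (XT.lf (nat_lit 0) (nat_lit 5789648965128) (nat_lit 152) (nat_lit 4779224602966) (nat_lit 76) (nat_lit 9387219425626) (nat_lit 17) (nat_lit 5) (nat_lit 19) (nat_lit 5) (nat_lit 18) (nat_lit 4) (nat_lit 367) (nat_lit 352) (nat_lit 181)))))) (XT.nd (nat_lit 468) (nat_lit 304) (nat_lit 0) (XT.nd (nat_lit 234) (nat_lit 152) (nat_lit 0) (XT.nd (nat_lit 78) (nat_lit 76) (nat_lit 0) (XT.lf (nat_lit 0) (nat_lit 7054661838813) (nat_lit 76) (nat_lit 4239120355093) (nat_lit 152) (nat_lit 10618502545744) (nat_lit 16) (nat_lit 5) (nat_lit 17) (nat_lit 5) (nat_lit 18) (nat_lit 4) (nat_lit 368) (nat_lit 352) (nat_lit 180)) (XT.nd (nat_lit 78) (nat_lit 76) (nat_lit 0) (XT.lf (nat_lit 0) (nat_lit 18011138735178) (nat_lit 152) (nat_lit 3061461084991) (nat_lit 0) (nat_lit 3031164928074) (nat_lit 16)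 (nat_lit 5) (nat_lit 18) (nat_lit 4) (nat_lit 16) (nat_lit 4) (nat_lit 369) (nat_lit 352) (nat_lit 179)) (XT.lf (nat_lit 0) (nat_lit 11309074109852) (nat_lit 76) (nat_lit 15097172164003) (nat_lit 76) (nat_lit 117198356838) (nat_lit 15) (nat_lit 4) (nat_lit 16) (nat_lit 5) (nat_lit 16) (nat_lit 4) (nat_lit 370) (nat_lit 352) (nat_lit 178)))) (XT.nd (nat_lit 78) (nat_lit 76) (nat_lit 0) (XT.lf (nat_lit 0) (nat_lit 6320858721964) (nat_lit 152) (nat_lit 1390127554995) (nat_lit 76) (nat_lit 21527988816494) (nat_lit 14) (nat_lit 5) (nat_lit 16) (nat_lit 5) (nat_lit 15) (nat_lit 4) (nat_lit 371) (nat_lit 352) (nat_lit 177)) (XT.nd (nat_lit 78) (nat_lit 0) (nat_lit 0) (XT.lf (nat_lit 0) (nat_lit 14435898449064) (nat_lit 152) (nat_lit 16406774331730) (nat_lit 0) (nat_lit 1409834268833) (nat_lit 13) (nat_lit 5) (nat_lit 15) (nat_lit 4) (nat_lit 13) (nat_lit 4) (nat_lit 372) (nat_lit 352) (nat_lit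 176)) (XT.lf (nat_lit 0) (nat_lit 24211509990659) (nat_lit 152) (nat_lit 254615619861) (nat_lit 0) (nat_lit 11185445810393) (nat_lit 13) (nat_lit 5) (nat_lit 15) (nat_lit 4) (nat_lit 13) (nat_lit 4) (nat_lit 373) (nat_lit 352) (nat_lit 175))))) (XT.nd (nat_lit 234) (nat_lit 76) (nat_lit 0) (XT.nd (nat_lit 78) (nat_lit 152) (nat_lit 0) (XT.lf (nat_lit 0) (nat_lit 20110766391066) (nat_lit 76) (nat_lit 16175440822319) (nat_lit 76) (nat_lit 3149376642022) (nat_lit 12) (nat_lit 4) (nat_lit 13) (nat_lit 5) (nat_lit 13) (nat_lit 4) (nat_lit 374) (nat_lit 352) (nat_lit 174)) (XT.nd (nat_lit 78) (nat_lit 76) (nat_lit 0) (XT.lf (nat_lit 0) (nat_lit 5830425183183) (nat_lit 152) (nat_lit 490650036478) (nat_lit 76) (nat_lit 37424373618516) (nat_lit 11) (nat_lit 5) (nat_lit 13) (nat_lit 5) (nat_lit 12) (nat_lit 4) (nat_lit 375) (nat_lit 352) (nat_lit 173)) (XT.lf (nat_lit 0) (nat_lit 17050304957377)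 (nat_lit 152) (nat_lit 25723368858620) (nat_lit 0) (nat_lit 5723292626641) (nat_lit 10) (nat_lit 5) (nat_lit 12) (nat_lit 4) (nat_lit 10) (nat_lit 4) (nat_lit 376) (nat_lit 352) (nat_lit 172)))) (XT.nd (nat_lit 78) (nat_lit 76) (nat_lit 0) (XT.lf (nat_lit 0) (nat_lit 30281039210116) (nat_lit 152) (nat_lit 4676964721425) (nat_lit 0) (nat_lit 18954026879363) (nat_lit 10) (nat_lit 5) (nat_lit 12) (nat_lit 4) (nat_lit 10) (nat_lit 4) (nat_lit 377) (nat_lit 352) (nat_lit 171)) (XT.nd (nat_lit 78) (nat_lit 0) (nat_lit 0) (XT.lf (nat_lit 0) (nat_lit 21434661858004) (nat_lit 76) (nat_lit 24949285380739) (nat_lit 76) (nat_lit 13622273049971) (nat_lit 9) (nat_lit 4) (nat_lit 10) (nat_lit 5) (nat_lit 10) (nat_lit 4) (nat_lit 378) (nat_lit 352) (nat_lit 170)) (XT.lf (nat_lit 0) (nat_lit 51988659482175) (nat_lit 76) (nat_lit 13158109690802) (nat_lit 76) (nat_lit 1831097360020) (nat_lit 9) (nat_lit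 4) (nat_lit 10) (nat_lit 5) (nat_lit 10) (nat_lit 4) (nat_lit 379) (nat_lit 352) (nat_lit 169))))))))
noncomputable def xc120 : XT := (XT.nd (nat_lit 46098) (nat_lit 0) (nat_lit 0) (XT.nd (nat_lit 45240) (nat_lit 0) (nat_lit 760) (XT.nd (nat_lit 44772) (nat_lit 0) (nat_lit 1520) (XT.nd (nat_lit 156) (nat_lit 76) (nat_lit 0) (XT.nd (nat_lit 78) (nat_lit 0) (nat_lit 0) (XT.lf (nat_lit 0) (nat_lit 11278857845900) (nat_lit 152) (nat_lit 62125128852463) (nat_lit 0) (nat_lit 1429281906080) (nat_lit 7) (nat_lit 5) (nat_lit 9) (nat_lit 4) (nat_lit 7) (nat_lit 4) (nat_lit 380) (nat_lit 352) (nat_lit 168)) (XT.lf (nat_lit 0) (nat_lit 27615251021975) (nat_lit 152) (nat_lit 38255863488493) (nat_lit 0) (nat_lit 17765675082146) (nat_lit 7) (nat_lit 5) (nat_lit 9) (nat_lit 4) (nat_lit 7) (nat_lit 4) (nat_lit 381) (nat_lit 352) (nat_lit 167))) (XT.nd (nat_lit 78) (nat_lit 76) (nat_lit 0) (XT.lf (nat_lit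 0) (nat_lit 46402103174435) (nat_lit 152) (nat_lit 10806208319983) (nat_lit 0) (nat_lit 36552527234598) (nat_lit 7) (nat_lit 5) (nat_lit 9) (nat_lit 4) (nat_lit 7) (nat_lit 4) (nat_lit 382) (nat_lit 352) (nat_lit 166)) (XT.nd (nat_lit 78) (nat_lit 0) (nat_lit 0) (XT.lf (nat_lit 0) (nat_lit 22789800783576) (nat_lit 76) (nat_lit 46160859417242) (nat_lit 76) (nat_lit 36311283477399) (nat_lit 6) (nat_lit 4) (nat_lit 7) (nat_lit 5) (nat_lit 7) (nat_lit 4) (nat_lit 383) (nat_lit 352) (nat_lit 165)) (XT.lf (nat_lit 0) (nat_lit 62639681710405) (nat_lit 76) (nat_lit 32806689051097) (nat_lit 76) (nat_lit 22957113111248) (nat_lit 6) (nat_lit 4) (nat_lit 7) (nat_lit 5) (nat_lit 7) (nat_lit 4) (nat_lit 384) (nat_lit 352) (nat_lit 164))))) (XT.nd (nat_lit 234) (nat_lit 152) (nat_lit 0) (XT.nd (nat_lit 78) (nat_lit 0) (nat_lit 0) (XT.lf (nat_lit 0) (nat_lit 809055364667) (nat_lit 380) (nat_lit 1267928174839)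 (nat_lit 380) (nat_lit 1267928174839) (nat_lit 28) (nat_lit 3) (nat_lit 33) (nat_lit 3) (nat_lit 33) (nat_lit 5) (nat_lit 353) (nat_lit 353) (nat_lit 194)) (XT.nd (nat_lit 78) (nat_lit 0) (nat_lit 76) (XT.lf (nat_lit 76) (nat_lit 780221296854) (nat_lit 0) (nat_lit 991555038601) (nat_lit 380) (nat_lit 5414937755175) (nat_lit 29) (nat_lit 5) (nat_lit 28) (nat_lit 3) (nat_lit 33) (nat_lit 5) (nat_lit 354) (nat_lit 353) (nat_lit 193)) (XT.lf (nat_lit 0) (nat_lit 2196892976055) (nat_lit 304) (nat_lit 2975393735164) (nat_lit 380) (nat_lit 2548591461604) (nat_lit 29) (nat_lit 5) (nat_lit 33) (nat_lit 5) (nat_lit 34) (nat_lit 5) (nat_lit 355) (nat_lit 353) (nat_lit 192)))) (XT.nd (nat_lit 78) (nat_lit 228) (nat_lit 0) (XT.lf (nat_lit 76) (nat_lit 1013370527392) (nat_lit 0) (nat_lit 1761585004263) (nat_lit 380) (nat_lit 5546834572854) (nat_lit 30) (nat_lit 5) (nat_lit 29) (nat_lit 5) (nat_lit 34)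 (nat_lit 5) (nat_lit 356) (nat_lit 353) (nat_lit 191)) (XT.nd (nat_lit 78) (nat_lit 304) (nat_lit 0) (XT.lf (nat_lit 0) (nat_lit 3692136587323) (nat_lit 304) (nat_lit 3151543094404) (nat_lit 76) (nat_lit 2131297776712) (nat_lit 30) (nat_lit 5) (nat_lit 34) (nat_lit 5) (nat_lit 31) (nat_lit 5) (nat_lit 357) (nat_lit 353) (nat_lit 190)) (XT.lf (nat_lit 0) (nat_lit 1695966528518) (nat_lit 304) (nat_lit 3205039630151) (nat_lit 380) (nat_lit 4802020053192) (nat_lit 26) (nat_lit 5) (nat_lit 30) (nat_lit 5) (nat_lit 31) (nat_lit 5) (nat_lit 358) (nat_lit 353) (nat_lit 189)))))) (XT.nd (nat_lit 390) (nat_lit 456) (nat_lit 0) (XT.nd (nat_lit 156) (nat_lit 152) (nat_lit 0) (XT.nd (nat_lit 78) (nat_lit 152) (nat_lit 0) (XT.lf (nat_lit 0) (nat_lit 6504345385920) (nat_lit 380) (nat_lit 2939177720163) (nat_lit 76) (nat_lit 1064788289181) (nat_lit 26) (nat_lit 5) (nat_lit 31) (nat_lit 5) (nat_lit 27)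 (nat_lit 5) (nat_lit 359) (nat_lit 353) (nat_lit 188)) (XT.lf (nat_lit 0) (nat_lit 3003673377364) (nat_lit 152) (nat_lit 5621508763742) (nat_lit 228) (nat_lit 2767657718496) (nat_lit 24) (nat_lit 5) (nat_lit 26) (nat_lit 5) (nat_lit 27) (nat_lit 5) (nat_lit 360) (nat_lit 353) (nat_lit 187))) (XT.nd (nat_lit 78) (nat_lit 152) (nat_lit 0) (XT.lf (nat_lit 0) (nat_lit 10168275635422) (nat_lit 152) (nat_lit 1049507609401) (nat_lit 228) (nat_lit 1169218523480) (nat_lit 24) (nat_lit 5) (nat_lit 26) (nat_lit 5) (nat_lit 27) (nat_lit 5) (nat_lit 361) (nat_lit 353) (nat_lit 186)) (XT.nd (nat_lit 78) (nat_lit 0) (nat_lit 0) (XT.lf (nat_lit 0) (nat_lit 1015936651836) (nat_lit 152) (nat_lit 8355624870751) (nat_lit 76) (nat_lit 4093595058266) (nat_lit 22) (nat_lit 5) (nat_lit 24) (nat_lit 5) (nat_lit 23) (nat_lit 5) (nat_lit 362) (nat_lit 353) (nat_lit 185)) (XT.lf (nat_lit 0) (nat_lit 3580637619383)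 (nat_lit 152) (nat_lit 1012431422534) (nat_lit 76) (nat_lit 10077892279200) (nat_lit 22) (nat_lit 5) (nat_lit 24) (nat_lit 5) (nat_lit 23) (nat_lit 5) (nat_lit 363) (nat_lit 353) (nat_lit 184))))) (XT.nd (nat_lit 234) (nat_lit 228) (nat_lit 0) (XT.nd (nat_lit 78) (nat_lit 76) (nat_lit 0) (XT.lf (nat_lit 0) (nat_lit 6921318038808) (nat_lit 228) (nat_lit 7901833880066) (nat_lit 76) (nat_lit 1175793707537) (nat_lit 20) (nat_lit 5) (nat_lit 23) (nat_lit 5) (nat_lit 21) (nat_lit 4) (nat_lit 364) (nat_lit 353) (nat_lit 183)) (XT.nd (nat_lit 78) (nat_lit 0) (nat_lit 0) (XT.lf (nat_lit 0) (nat_lit 1040034005910) (nat_lit 76) (nat_lit 10040292352023) (nat_lit 152) (nat_lit 6398217344047) (nat_lit 19) (nat_lit 5) (nat_lit 20) (nat_lit 5) (nat_lit 21) (nat_lit 4) (nat_lit 365) (nat_lit 353) (nat_lit 182)) (XT.lf (nat_lit 0) (nat_lit 12211240450494) (nat_lit 76) (nat_lit 4064995881721) (nat_lit 152)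 (nat_lit 2841887595575) (nat_lit 19) (nat_lit 5) (nat_lit 20) (nat_lit 5) (nat_lit 21) (nat_lit 4) (nat_lit 366) (nat_lit 353) (nat_lit 181)))) (XT.nd (nat_lit 78) (nat_lit 76) (nat_lit 0) (XT.lf (nat_lit 0) (nat_lit 1446081584527) (nat_lit 152) (nat_lit 16701939953159) (nat_lit 76) (nat_lit 2801475883651) (nat_lit 17) (nat_lit 5) (nat_lit 19) (nat_lit 5) (nat_lit 18) (nat_lit 4) (nat_lit 367) (nat_lit 353) (nat_lit 180)) (XT.nd (nat_lit 78) (nat_lit 76) (nat_lit 0) (XT.lf (nat_lit 0) (nat_lit 6658096310632) (nat_lit 152) (nat_lit 5496108292116) (nat_lit 76) (nat_lit 10795302339921) (nat_lit 17) (nat_lit 5) (nat_lit 19) (nat_lit 5) (nat_lit 18) (nat_lit 4) (nat_lit 368) (nat_lit 353) (nat_lit 179)) (XT.lf (nat_lit 0) (nat_lit 8112861115871) (nat_lit 76) (nat_lit 4874988407811) (nat_lit 152) (nat_lit 12211277926813) (nat_lit 16) (nat_lit 5) (nat_lit 17) (nat_lit 5) (nat_lit 18) (nat_lit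 4) (nat_lit 369) (nat_lit 353) (nat_lit 178))))))) (XT.nd (nat_lit 858) (nat_lit 228) (nat_lit 0) (XT.nd (nat_lit 390) (nat_lit 304) (nat_lit 0) (XT.nd (nat_lit 156) (nat_lit 152) (nat_lit 0) (XT.nd (nat_lit 78) (nat_lit 76) (nat_lit 0) (XT.lf (nat_lit 0) (nat_lit 20712809546074) (nat_lit 152) (nat_lit 3520680246594) (nat_lit 0) (nat_lit 3485839667719) (nat_lit 16) (nat_lit 5) (nat_lit 18) (nat_lit 4) (nat_lit 16) (nat_lit 4) (nat_lit 370) (nat_lit 353) (nat_lit 177)) (XT.lf (nat_lit 0) (nat_lit 13005435227423) (nat_lit 76) (nat_lit 17361747988094) (nat_lit 76) (nat_lit 134778109692) (nat_lit 15) (nat_lit 4) (nat_lit 16) (nat_lit 5) (nat_lit 16) (nat_lit 4) (nat_lit 371) (nat_lit 353) (nat_lit 176))) (XT.nd (nat_lit 78) (nat_lit 76) (nat_lit 0) (XT.lf (nat_lit 0) (nat_lit 7268987530791) (nat_lit 152) (nat_lit 1598646687240) (nat_lit 76) (nat_lit 24757187139360) (nat_lit 14) (nat_lit 5)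 (nat_lit 16) (nat_lit 5) (nat_lit 15) (nat_lit 4) (nat_lit 372) (nat_lit 353) (nat_lit 175)) (XT.nd (nat_lit 78) (nat_lit 0) (nat_lit 0) (XT.lf (nat_lit 0) (nat_lit 16601283216945) (nat_lit 152) (nat_lit 18867790480475) (nat_lit 0) (nat_lit 1621309409573) (nat_lit 13) (nat_lit 5) (nat_lit 15) (nat_lit 4) (nat_lit 13) (nat_lit 4) (nat_lit 373) (nat_lit 353) (nat_lit 174)) (XT.lf (nat_lit 0) (nat_lit 27843236489711) (nat_lit 152) (nat_lit 292807961958) (nat_lit 0) (nat_lit 12863262682313) (nat_lit 13) (nat_lit 5) (nat_lit 15) (nat_lit 4) (nat_lit 13) (nat_lit 4) (nat_lit 374) (nat_lit 353) (nat_lit 173))))) (XT.nd (nat_lit 234) (nat_lit 76) (nat_lit 0) (XT.nd (nat_lit 78) (nat_lit 152) (nat_lit 0) (XT.lf (nat_lit 0) (nat_lit 23127381350568) (nat_lit 76) (nat_lit 18601756945253) (nat_lit 76) (nat_lit 3621783137832) (nat_lit 12) (nat_lit 4) (nat_lit 13) (nat_lit 5) (nat_lit 13) (nat_lit 4)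 (nat_lit 375) (nat_lit 353) (nat_lit 172)) (XT.nd (nat_lit 78) (nat_lit 76) (nat_lit 0) (XT.lf (nat_lit 0) (nat_lit 6704988961052) (nat_lit 152) (nat_lit 564247541179) (nat_lit 76) (nat_lit 43038029661615) (nat_lit 11) (nat_lit 5) (nat_lit 13) (nat_lit 5) (nat_lit 12) (nat_lit 4) (nat_lit 376) (nat_lit 353) (nat_lit 171)) (XT.lf (nat_lit 0) (nat_lit 19607850701369) (nat_lit 152) (nat_lit 29581874186637) (nat_lit 0) (nat_lit 6581786520970) (nat_lit 10) (nat_lit 5) (nat_lit 12) (nat_lit 4) (nat_lit 10) (nat_lit 4) (nat_lit 377) (nat_lit 353) (nat_lit 170)))) (XT.nd (nat_lit 78) (nat_lit 76) (nat_lit 0) (XT.lf (nat_lit 0) (nat_lit 34823195091969) (nat_lit 152) (nat_lit 5378509428963) (nat_lit 0) (nat_lit 21797130911557) (nat_lit 10) (nat_lit 5) (nat_lit 12) (nat_lit 4) (nat_lit 10) (nat_lit 4) (nat_lit 378) (nat_lit 353) (nat_lit 169)) (XT.nd (nat_lit 78) (nat_lit 0) (nat_lit 0) (XT.lf (nat_lit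 0) (nat_lit 24649861137349) (nat_lit 76) (nat_lit 28691678187524) (nat_lit 76) (nat_lit 15665614007100) (nat_lit 9) (nat_lit 4) (nat_lit 10) (nat_lit 5) (nat_lit 10) (nat_lit 4) (nat_lit 379) (nat_lit 353) (nat_lit 168)) (XT.lf (nat_lit 0) (nat_lit 59786958405062) (nat_lit 76) (nat_lit 15131826144140) (nat_lit 76) (nat_lit 2105761963705) (nat_lit 9) (nat_lit 4) (nat_lit 10) (nat_lit 5) (nat_lit 10) (nat_lit 4) (nat_lit 380) (nat_lit 353) (nat_lit 167)))))) (XT.nd (nat_lit 44850) (nat_lit 0) (nat_lit 1520) (XT.nd (nat_lit 156) (nat_lit 76) (nat_lit 0) (XT.nd (nat_lit 78) (nat_lit 0) (nat_lit 0) (XT.lf (nat_lit 0) (nat_lit 12970686523073) (nat_lit 152) (nat_lit 71443898179741) (nat_lit 0) (nat_lit 1643674192253) (nat_lit 7) (nat_lit 5) (nat_lit 9) (nat_lit 4) (nat_lit 7) (nat_lit 4) (nat_lit 381) (nat_lit 353) (nat_lit 166)) (XT.lf (nat_lit 0) (nat_lit 31757538675521) (nat_lit 152) (nat_lit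 43994243011253) (nat_lit 0) (nat_lit 20430526344695) (nat_lit 7) (nat_lit 5) (nat_lit 9) (nat_lit 4) (nat_lit 7) (nat_lit 4) (nat_lit 382) (nat_lit 353) (nat_lit 165))) (XT.nd (nat_lit 78) (nat_lit 76) (nat_lit 0) (XT.lf (nat_lit 0) (nat_lit 53362418650817) (nat_lit 152) (nat_lit 12427139567533) (nat_lit 0) (nat_lit 42035406319985) (nat_lit 7) (nat_lit 5) (nat_lit 9) (nat_lit 4) (nat_lit 7) (nat_lit 4) (nat_lit 383) (nat_lit 353) (nat_lit 164)) (XT.nd (nat_lit 44538) (nat_lit 0) (nat_lit 1672) (XT.lf (nat_lit 0) (nat_lit 26208270901540) (nat_lit 76) (nat_lit 53084988329608) (nat_lit 76) (nat_lit 41757975998771) (nat_lit 6) (nat_lit 4) (nat_lit 7) (nat_lit 5) (nat_lit 7) (nat_lit 4) (nat_lit 384) (nat_lit 353) (nat_lit 163)) (XT.lf (nat_lit 0) (nat_lit 930413670655) (nat_lit 380) (nat_lit 1458117400323) (nat_lit 380) (nat_lit 1458117400323) (nat_lit 28) (nat_lit 3) (nat_lit 33) (nat_lit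 3) (nat_lit 33) (nat_lit 5) (nat_lit 354) (nat_lit 354) (nat_lit 192))))) (XT.nd (nat_lit 234) (nat_lit 152) (nat_lit 0) (XT.nd (nat_lit 78) (nat_lit 0) (nat_lit 76) (XT.lf (nat_lit 76) (nat_lit 897254492798) (nat_lit 0) (nat_lit 1140288295274) (nat_lit 380) (nat_lit 6227178415803) (nat_lit 29) (nat_lit 5) (nat_lit 28) (nat_lit 3) (nat_lit 33) (nat_lit 5) (nat_lit 355) (nat_lit 354) (nat_lit 191)) (XT.nd (nat_lit 78) (nat_lit 0) (nat_lit 0) (XT.lf (nat_lit 0) (nat_lit 2526426924431) (nat_lit 304) (nat_lit 3421702793872) (nat_lit 380) (nat_lit 2930880180145) (nat_lit 29) (nat_lit 5) (nat_lit 33) (nat_lit 5) (nat_lit 34) (nat_lit 5) (nat_lit 356) (nat_lit 354) (nat_lit 190)) (XT.lf (nat_lit 76) (nat_lit 1165376107996) (nat_lit 0) (nat_lit 2025822755180) (nat_lit 380) (nat_lit 6378859756740) (nat_lit 30) (nat_lit 5) (nat_lit 29) (nat_lit 5) (nat_lit 34) (nat_lit 5) (nat_lit 357) (nat_lit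 354) (nat_lit 189)))) (XT.nd (nat_lit 78) (nat_lit 304) (nat_lit 0) (XT.lf (nat_lit 0) (nat_lit 4245957076954) (nat_lit 304) (nat_lit 3624274557020) (nat_lit 76) (nat_lit 2450992442999) (nat_lit 30) (nat_lit 5) (nat_lit 34) (nat_lit 5) (nat_lit 31) (nat_lit 5) (nat_lit 358) (nat_lit 354) (nat_lit 188)) (XT.nd (nat_lit 78) (nat_lit 0) (nat_lit 0) (XT.lf (nat_lit 0) (nat_lit 1950361509270) (nat_lit 304) (nat_lit 3685795574592) (nat_lit 380) (nat_lit 5522323059566) (nat_lit 26) (nat_lit 5) (nat_lit 30) (nat_lit 5) (nat_lit 31) (nat_lit 5) (nat_lit 359) (nat_lit 354) (nat_lit 187)) (XT.lf (nat_lit 0) (nat_lit 7479997195023) (nat_lit 380) (nat_lit 3380054376725) (nat_lit 76) (nat_lit 1224506532622) (nat_lit 26) (nat_lit 5) (nat_lit 31) (nat_lit 5) (nat_lit 27) (nat_lit 5) (nat_lit 360) (nat_lit 354) (nat_lit 186))))))))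
noncomputable def xc121 : XT := (XT.nd (nat_lit 1716) (nat_lit 0) (nat_lit 0) (XT.nd (nat_lit 858) (nat_lit 684) (nat_lit 0) (XT.nd (nat_lit 390) (nat_lit 304) (nat_lit 0) (XT.nd (nat_lit 156) (nat_lit 304) (nat_lit 0) (XT.nd (nat_lit 78) (nat_lit 0) (nat_lit 0) (XT.lf (nat_lit 0) (nat_lit 3454224385364) (nat_lit 152) (nat_lit 6464735078021) (nat_lit 228) (nat_lit 3182806374988) (nat_lit 24) (nat_lit 5) (nat_lit 26) (nat_lit 5) (nat_lit 27) (nat_lit 5) (nat_lit 361) (nat_lit 354) (nat_lit 185)) (XT.lf (nat_lit 0) (nat_lit 11693516981949) (nat_lit 152) (nat_lit 1206933750565) (nat_lit 228) (nat_lit 1344601300887) (nat_lit 24) (nat_lit 5) (nat_lit 26) (nat_lit 5) (nat_lit 27) (nat_lit 5) (nat_lit 362) (nat_lit 354) (nat_lit 184))) (XT.nd (nat_lit 78) (nat_lit 152) (nat_lit 0) (XT.lf (nat_lit 0) (nat_lit 1168327150560) (nat_lit 152) (nat_lit 9608968599981) (nat_lit 76) (nat_lit 4707634317297)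 (nat_lit 22) (nat_lit 5) (nat_lit 24) (nat_lit 5) (nat_lit 23) (nat_lit 5) (nat_lit 363) (nat_lit 354) (nat_lit 183)) (XT.nd (nat_lit 78) (nat_lit 152) (nat_lit 0) (XT.lf (nat_lit 0) (nat_lit 4117733263116) (nat_lit 152) (nat_lit 1164296134712) (nat_lit 76) (nat_lit 11589576121333) (nat_lit 22) (nat_lit 5) (nat_lit 24) (nat_lit 5) (nat_lit 23) (nat_lit 5) (nat_lit 364) (nat_lit 354) (nat_lit 182)) (XT.lf (nat_lit 0) (nat_lit 7959515745409) (nat_lit 228) (nat_lit 9087108960828) (nat_lit 76) (nat_lit 1352162764017) (nat_lit 20) (nat_lit 5) (nat_lit 23) (nat_lit 5) (nat_lit 21) (nat_lit 4) (nat_lit 365) (nat_lit 354) (nat_lit 181))))) (XT.nd (nat_lit 234) (nat_lit 76) (nat_lit 0) (XT.nd (nat_lit 78) (nat_lit 152) (nat_lit 0) (XT.lf (nat_lit 0) (nat_lit 1196039107986) (nat_lit 76) (nat_lit 11546336204364) (nat_lit 152) (nat_lit 7357949944817) (nat_lit 19) (nat_lit 5) (nat_lit 20) (nat_lit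 5) (nat_lit 21) (nat_lit 4) (nat_lit 366) (nat_lit 354) (nat_lit 180)) (XT.nd (nat_lit 78) (nat_lit 152) (nat_lit 0) (XT.lf (nat_lit 0) (nat_lit 14042926519103) (nat_lit 76) (nat_lit 4674745263577) (nat_lit 152) (nat_lit 3268170734183) (nat_lit 19) (nat_lit 5) (nat_lit 20) (nat_lit 5) (nat_lit 21) (nat_lit 4) (nat_lit 367) (nat_lit 354) (nat_lit 179)) (XT.lf (nat_lit 0) (nat_lit 1662993822845) (nat_lit 152) (nat_lit 19207230945007) (nat_lit 76) (nat_lit 3221697266591) (nat_lit 17) (nat_lit 5) (nat_lit 19) (nat_lit 5) (nat_lit 18) (nat_lit 4) (nat_lit 368) (nat_lit 354) (nat_lit 178)))) (XT.nd (nat_lit 78) (nat_lit 76) (nat_lit 0) (XT.lf (nat_lit 0) (nat_lit 7656810757782) (nat_lit 152) (nat_lit 6320524534954) (nat_lit 76) (nat_lit 12414597691249) (nat_lit 17) (nat_lit 5) (nat_lit 19) (nat_lit 5) (nat_lit 18) (nat_lit 4) (nat_lit 369) (nat_lit 354) (nat_lit 177)) (XT.nd (nat_lit 78) (nat_lit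 0) (nat_lit 0) (XT.lf (nat_lit 0) (nat_lit 9329790284187) (nat_lit 76) (nat_lit 5606236668569) (nat_lit 152) (nat_lit 14042969615234) (nat_lit 16) (nat_lit 5) (nat_lit 17) (nat_lit 5) (nat_lit 18) (nat_lit 4) (nat_lit 370) (nat_lit 354) (nat_lit 176)) (XT.lf (nat_lit 0) (nat_lit 23819730978453) (nat_lit 152) (nat_lit 4048782282717) (nat_lit 0) (nat_lit 4008715618204) (nat_lit 16) (nat_lit 5) (nat_lit 18) (nat_lit 4) (nat_lit 16) (nat_lit 4) (nat_lit 371) (nat_lit 354) (nat_lit 175)))))) (XT.nd (nat_lit 390) (nat_lit 380) (nat_lit 0) (XT.nd (nat_lit 156) (nat_lit 152) (nat_lit 0) (XT.nd (nat_lit 78) (nat_lit 76) (nat_lit 0) (XT.lf (nat_lit 0) (nat_lit 14956250512364) (nat_lit 76) (nat_lit 19966010185922) (nat_lit 76) (nat_lit 154994825638) (nat_lit 15) (nat_lit 4) (nat_lit 16) (nat_lit 5) (nat_lit 16) (nat_lit 4) (nat_lit 372) (nat_lit 354) (nat_lit 174)) (XT.lf (nat_lit 0) (nat_lit 8359335660812)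 (nat_lit 152) (nat_lit 1838443689568) (nat_lit 76) (nat_lit 28470765210560) (nat_lit 14) (nat_lit 5) (nat_lit 16) (nat_lit 5) (nat_lit 15) (nat_lit 4) (nat_lit 373) (nat_lit 354) (nat_lit 173))) (XT.nd (nat_lit 78) (nat_lit 76) (nat_lit 0) (XT.lf (nat_lit 0) (nat_lit 19091475699881) (nat_lit 152) (nat_lit 21697959051779) (nat_lit 0) (nat_lit 1864505821323) (nat_lit 13) (nat_lit 5) (nat_lit 15) (nat_lit 4) (nat_lit 13) (nat_lit 4) (nat_lit 374) (nat_lit 354) (nat_lit 172)) (XT.nd (nat_lit 78) (nat_lit 76) (nat_lit 0) (XT.lf (nat_lit 0) (nat_lit 32019721963510) (nat_lit 152) (nat_lit 336729155584) (nat_lit 0) (nat_lit 14792752084932) (nat_lit 13) (nat_lit 5) (nat_lit 15) (nat_lit 4) (nat_lit 13) (nat_lit 4) (nat_lit 375) (nat_lit 354) (nat_lit 171)) (XT.lf (nat_lit 0) (nat_lit 26596488553791) (nat_lit 76) (nat_lit 21392020486729) (nat_lit 76) (nat_lit 4165050608133) (nat_lit 12) (nat_lit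 4) (nat_lit 13) (nat_lit 5) (nat_lit 13) (nat_lit 4) (nat_lit 376) (nat_lit 354) (nat_lit 170))))) (XT.nd (nat_lit 234) (nat_lit 228) (nat_lit 0) (XT.nd (nat_lit 78) (nat_lit 76) (nat_lit 0) (XT.lf (nat_lit 0) (nat_lit 7710737305505) (nat_lit 152) (nat_lit 648884671774) (nat_lit 76) (nat_lit 49493734111100) (nat_lit 11) (nat_lit 5) (nat_lit 13) (nat_lit 5) (nat_lit 12) (nat_lit 4) (nat_lit 377) (nat_lit 354) (nat_lit 169)) (XT.nd (nat_lit 78) (nat_lit 0) (nat_lit 0) (XT.lf (nat_lit 0) (nat_lit 22549028306866) (nat_lit 152) (nat_lit 34019155314045) (nat_lit 0) (nat_lit 7569054499367) (nat_lit 10) (nat_lit 5) (nat_lit 12) (nat_lit 4) (nat_lit 10) (nat_lit 4) (nat_lit 378) (nat_lit 354) (nat_lit 168)) (XT.lf (nat_lit 0) (nat_lit 40046674356018) (nat_lit 152) (nat_lit 6185285842798) (nat_lit 0) (nat_lit 25066700548509) (nat_lit 10) (nat_lit 5) (nat_lit 12) (nat_lit 4) (nat_lit 10) (nat_lit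 4) (nat_lit 379) (nat_lit 354) (nat_lit 167)))) (XT.nd (nat_lit 78) (nat_lit 152) (nat_lit 0) (XT.lf (nat_lit 0) (nat_lit 28347340308438) (nat_lit 76) (nat_lit 32995429915407) (nat_lit 76) (nat_lit 18015456107888) (nat_lit 9) (nat_lit 4) (nat_lit 10) (nat_lit 5) (nat_lit 10) (nat_lit 4) (nat_lit 380) (nat_lit 354) (nat_lit 166)) (XT.nd (nat_lit 78) (nat_lit 152) (nat_lit 0) (XT.lf (nat_lit 0) (nat_lit 68755002166245) (nat_lit 76) (nat_lit 17401600065546) (nat_lit 76) (nat_lit 2421626258020) (nat_lit 9) (nat_lit 4) (nat_lit 10) (nat_lit 5) (nat_lit 10) (nat_lit 4) (nat_lit 381) (nat_lit 354) (nat_lit 165)) (XT.lf (nat_lit 0) (nat_lit 14916289501751) (nat_lit 152) (nat_lit 82160482906255) (nat_lit 0) (nat_lit 1890225321288) (nat_lit 7) (nat_lit 5) (nat_lit 9) (nat_lit 4) (nat_lit 7) (nat_lit 4) (nat_lit 382) (nat_lit 354) (nat_lit 164))))))) (XT.nd (nat_lit 45396) (nat_lit 0) (nat_lit 456)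 (XT.nd (nat_lit 44928) (nat_lit 0) (nat_lit 1292) (XT.nd (nat_lit 44694) (nat_lit 0) (nat_lit 1596) (XT.nd (nat_lit 78) (nat_lit 0) (nat_lit 0) (XT.lf (nat_lit 0) (nat_lit 36521169477038) (nat_lit 152) (nat_lit 50593379462552) (nat_lit 0) (nat_lit 23495105296571) (nat_lit 7) (nat_lit 5) (nat_lit 9) (nat_lit 4) (nat_lit 7) (nat_lit 4) (nat_lit 383) (nat_lit 354) (nat_lit 163)) (XT.lf (nat_lit 0) (nat_lit 61366781448604) (nat_lit 152) (nat_lit 14291210502325) (nat_lit 0) (nat_lit 48340717268132) (nat_lit 7) (nat_lit 5) (nat_lit 9) (nat_lit 4) (nat_lit 7) (nat_lit 4) (nat_lit 384) (nat_lit 354) (nat_lit 162))) (XT.nd (nat_lit 78) (nat_lit 0) (nat_lit 0) (XT.lf (nat_lit 0) (nat_lit 1069975722228) (nat_lit 380) (nat_lit 1676835009811) (nat_lit 380) (nat_lit 1676835009811) (nat_lit 28) (nat_lit 3) (nat_lit 33) (nat_lit 3) (nat_lit 33) (nat_lit 5) (nat_lit 355) (nat_lit 355) (nat_lit 190)) (XT.nd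 (nat_lit 78) (nat_lit 0) (nat_lit 76) (XT.lf (nat_lit 76) (nat_lit 1031842667789) (nat_lit 0) (nat_lit 1311331540233) (nat_lit 380) (nat_lit 7161255176171) (nat_lit 29) (nat_lit 5) (nat_lit 28) (nat_lit 3) (nat_lit 33) (nat_lit 5) (nat_lit 356) (nat_lit 355) (nat_lit 189)) (XT.lf (nat_lit 0) (nat_lit 2905390964583) (nat_lit 304) (nat_lit 3934958211769) (nat_lit 380) (nat_lit 3370512206638) (nat_lit 29) (nat_lit 5) (nat_lit 33) (nat_lit 5) (nat_lit 34) (nat_lit 5) (nat_lit 357) (nat_lit 355) (nat_lit 188))))) (XT.nd (nat_lit 234) (nat_lit 152) (nat_lit 0) (XT.nd (nat_lit 78) (nat_lit 228) (nat_lit 0) (XT.lf (nat_lit 76) (nat_lit 1340182525327) (nat_lit 0) (nat_lit 2329696168667) (nat_lit 380) (nat_lit 7335688718708) (nat_lit 30) (nat_lit 5) (nat_lit 29) (nat_lit 5) (nat_lit 34) (nat_lit 5) (nat_lit 358) (nat_lit 355) (nat_lit 187)) (XT.nd (nat_lit 78) (nat_lit 304) (nat_lit 0) (XT.lf (nat_lit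 0) (nat_lit 4882850639655) (nat_lit 304) (nat_lit 4167915739406) (nat_lit 76) (nat_lit 2818641309283) (nat_lit 30) (nat_lit 5) (nat_lit 34) (nat_lit 5) (nat_lit 31) (nat_lit 5) (nat_lit 359) (nat_lit 355) (nat_lit 186)) (XT.lf (nat_lit 0) (nat_lit 2242915736775) (nat_lit 304) (nat_lit 4238664910720) (nat_lit 380) (nat_lit 6350671517289) (nat_lit 26) (nat_lit 5) (nat_lit 30) (nat_lit 5) (nat_lit 31) (nat_lit 5) (nat_lit 360) (nat_lit 355) (nat_lit 185)))) (XT.nd (nat_lit 78) (nat_lit 152) (nat_lit 0) (XT.lf (nat_lit 0) (nat_lit 8601996775194) (nat_lit 380) (nat_lit 3887062532129) (nat_lit 76) (nat_lit 1408182512564) (nat_lit 26) (nat_lit 5) (nat_lit 31) (nat_lit 5) (nat_lit 27) (nat_lit 5) (nat_lit 361) (nat_lit 355) (nat_lit 184)) (XT.nd (nat_lit 78) (nat_lit 0) (nat_lit 0) (XT.lf (nat_lit 0) (nat_lit 3972358044224) (nat_lit 152) (nat_lit 7434445339511) (nat_lit 228) (nat_lit 3660227330267)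 (nat_lit 24) (nat_lit 5) (nat_lit 26) (nat_lit 5) (nat_lit 27) (nat_lit 5) (nat_lit 362) (nat_lit 355) (nat_lit 183)) (XT.lf (nat_lit 0) (nat_lit 13447544530159) (nat_lit 152) (nat_lit 1387973812965) (nat_lit 228) (nat_lit 1546291495177) (nat_lit 24) (nat_lit 5) (nat_lit 26) (nat_lit 5) (nat_lit 27) (nat_lit 5) (nat_lit 363) (nat_lit 355) (nat_lit 182)))))) (XT.nd (nat_lit 468) (nat_lit 304) (nat_lit 0) (XT.nd (nat_lit 234) (nat_lit 228) (nat_lit 0) (XT.nd (nat_lit 78) (nat_lit 152) (nat_lit 0) (XT.lf (nat_lit 0) (nat_lit 1343576223861) (nat_lit 152) (nat_lit 11050313888932) (nat_lit 76) (nat_lit 5413779465112) (nat_lit 22) (nat_lit 5) (nat_lit 24) (nat_lit 5) (nat_lit 23) (nat_lit 5) (nat_lit 364) (nat_lit 355) (nat_lit 181)) (XT.nd (nat_lit 78) (nat_lit 152) (nat_lit 0) (XT.lf (nat_lit 0) (nat_lit 4735393253206) (nat_lit 152) (nat_lit 1338940554010) (nat_lit 76) (nat_lit 13328012539725)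 (nat_lit 22) (nat_lit 5) (nat_lit 24) (nat_lit 5) (nat_lit 23) (nat_lit 5) (nat_lit 365) (nat_lit 355) (nat_lit 180)) (XT.lf (nat_lit 0) (nat_lit 9153443107811) (nat_lit 228) (nat_lit 10450175304009) (nat_lit 76) (nat_lit 1554987178883) (nat_lit 20) (nat_lit 5) (nat_lit 23) (nat_lit 5) (nat_lit 21) (nat_lit 4) (nat_lit 366) (nat_lit 355) (nat_lit 179)))) (XT.nd (nat_lit 78) (nat_lit 152) (nat_lit 0) (XT.lf (nat_lit 0) (nat_lit 1375444975085) (nat_lit 76) (nat_lit 13278286634668) (nat_lit 152) (nat_lit 8461642435906) (nat_lit 19) (nat_lit 5) (nat_lit 20) (nat_lit 5) (nat_lit 21) (nat_lit 4) (nat_lit 367) (nat_lit 355) (nat_lit 178)) (XT.nd (nat_lit 78) (nat_lit 152) (nat_lit 0) (XT.lf (nat_lit 0) (nat_lit 16149365497752) (nat_lit 76) (nat_lit 5375957052810) (nat_lit 152) (nat_lit 3758396343760) (nat_lit 19) (nat_lit 5) (nat_lit 20) (nat_lit 5) (nat_lit 21) (nat_lit 4) (nat_lit 368) (nat_lit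 355) (nat_lit 177)) (XT.lf (nat_lit 0) (nat_lit 1912442896754) (nat_lit 152) (nat_lit 22088315585906) (nat_lit 76) (nat_lit 3704951856876) (nat_lit 17) (nat_lit 5) (nat_lit 19) (nat_lit 5) (nat_lit 18) (nat_lit 4) (nat_lit 369) (nat_lit 355) (nat_lit 176))))) (XT.nd (nat_lit 234) (nat_lit 228) (nat_lit 0) (XT.nd (nat_lit 78) (nat_lit 76) (nat_lit 0) (XT.lf (nat_lit 0) (nat_lit 8805332371869) (nat_lit 152) (nat_lit 7268603214457) (nat_lit 76) (nat_lit 14276787345195) (nat_lit 17) (nat_lit 5) (nat_lit 19) (nat_lit 5) (nat_lit 18) (nat_lit 4) (nat_lit 370) (nat_lit 355) (nat_lit 175)) (XT.nd (nat_lit 78) (nat_lit 0) (nat_lit 0) (XT.lf (nat_lit 0) (nat_lit 10729258827522) (nat_lit 76) (nat_lit 6447172168542) (nat_lit 152) (nat_lit 16149415057066) (nat_lit 16) (nat_lit 5) (nat_lit 17) (nat_lit 5) (nat_lit 18) (nat_lit 4) (nat_lit 371) (nat_lit 355) (nat_lit 174)) (XT.lf (nat_lit 0) (nat_lit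 27392690625575) (nat_lit 152) (nat_lit 4656099624470) (nat_lit 0) (nat_lit 4610022961183) (nat_lit 16) (nat_lit 5) (nat_lit 18) (nat_lit 4) (nat_lit 16) (nat_lit 4) (nat_lit 372) (nat_lit 355) (nat_lit 173)))) (XT.nd (nat_lit 78) (nat_lit 152) (nat_lit 0) (XT.lf (nat_lit 0) (nat_lit 17199688089844) (nat_lit 76) (nat_lit 22960911713519) (nat_lit 76) (nat_lit 178244049100) (nat_lit 15) (nat_lit 4) (nat_lit 16) (nat_lit 5) (nat_lit 16) (nat_lit 4) (nat_lit 373) (nat_lit 355) (nat_lit 172)) (XT.nd (nat_lit 78) (nat_lit 76) (nat_lit 0) (XT.lf (nat_lit 0) (nat_lit 9613236010238) (nat_lit 152) (nat_lit 2114210242429) (nat_lit 76) (nat_lit 32741379992367) (nat_lit 14) (nat_lit 5) (nat_lit 16) (nat_lit 5) (nat_lit 15) (nat_lit 4) (nat_lit 374) (nat_lit 355) (nat_lit 171)) (XT.lf (nat_lit 0) (nat_lit 21955197055161) (nat_lit 152) (nat_lit 24952652908966) (nat_lit 0) (nat_lit 2144181694758) (nat_lit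 13) (nat_lit 5) (nat_lit 15) (nat_lit 4) (nat_lit 13) (nat_lit 4) (nat_lit 375) (nat_lit 355) (nat_lit 170))))))))
noncomputable def xc122 : XT := (XT.nd (nat_lit 46332) (nat_lit 0) (nat_lit 152) (XT.nd (nat_lit 45474) (nat_lit 0) (nat_lit 912) (XT.nd (nat_lit 390) (nat_lit 228) (nat_lit 0) (XT.nd (nat_lit 156) (nat_lit 152) (nat_lit 0) (XT.nd (nat_lit 78) (nat_lit 76) (nat_lit 0) (XT.lf (nat_lit 0) (nat_lit 36822680258296) (nat_lit 152) (nat_lit 387238528417) (nat_lit 0) (nat_lit 17011664897879) (nat_lit 13) (nat_lit 5) (nat_lit 15) (nat_lit 4) (nat_lit 13) (nat_lit 4) (nat_lit 376) (nat_lit 355) (nat_lit 169)) (XT.lf (nat_lit 0) (nat_lit 30585961837340) (nat_lit 76) (nat_lit 24600823559502) (nat_lit 76) (nat_lit 4789808199071) (nat_lit 12) (nat_lit 4) (nat_lit 13) (nat_lit 5) (nat_lit 13) (nat_lit 4) (nat_lit 377) (nat_lit 355) (nat_lit 168))) (XT.nd (nat_lit 78) (nat_lit 76) (nat_lit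 0) (XT.lf (nat_lit 0) (nat_lit 8867347901554) (nat_lit 152) (nat_lit 746217372099) (nat_lit 76) (nat_lit 56917794227948) (nat_lit 11) (nat_lit 5) (nat_lit 13) (nat_lit 5) (nat_lit 12) (nat_lit 4) (nat_lit 378) (nat_lit 355) (nat_lit 167)) (XT.nd (nat_lit 78) (nat_lit 0) (nat_lit 0) (XT.lf (nat_lit 0) (nat_lit 25931382553117) (nat_lit 152) (nat_lit 39122028610708) (nat_lit 0) (nat_lit 8704412674462) (nat_lit 10) (nat_lit 5) (nat_lit 12) (nat_lit 4) (nat_lit 10) (nat_lit 4) (nat_lit 379) (nat_lit 355) (nat_lit 166)) (XT.lf (nat_lit 0) (nat_lit 46053675509613) (nat_lit 152) (nat_lit 7113078718832) (nat_lit 0) (nat_lit 28826705630951) (nat_lit 10) (nat_lit 5) (nat_lit 12) (nat_lit 4) (nat_lit 10) (nat_lit 4) (nat_lit 380) (nat_lit 355) (nat_lit 165))))) (XT.nd (nat_lit 234) (nat_lit 0) (nat_lit 0) (XT.nd (nat_lit 78) (nat_lit 152) (nat_lit 0) (XT.lf (nat_lit 0) (nat_lit 32599441355072) (nat_lit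 76) (nat_lit 37944744402531) (nat_lit 76) (nat_lit 20717774523863) (nat_lit 9) (nat_lit 4) (nat_lit 10) (nat_lit 5) (nat_lit 10) (nat_lit 4) (nat_lit 381) (nat_lit 355) (nat_lit 164)) (XT.nd (nat_lit 78) (nat_lit 152) (nat_lit 0) (XT.lf (nat_lit 0) (nat_lit 79068252491502) (nat_lit 76) (nat_lit 20011840075216) (nat_lit 76) (nat_lit 2784870196541) (nat_lit 9) (nat_lit 4) (nat_lit 10) (nat_lit 5) (nat_lit 10) (nat_lit 4) (nat_lit 382) (nat_lit 355) (nat_lit 163)) (XT.lf (nat_lit 0) (nat_lit 17153732927178) (nat_lit 152) (nat_lit 94484555341855) (nat_lit 0) (nat_lit 2173759119631) (nat_lit 7) (nat_lit 5) (nat_lit 9) (nat_lit 4) (nat_lit 7) (nat_lit 4) (nat_lit 383) (nat_lit 355) (nat_lit 162)))) (XT.nd (nat_lit 44694) (nat_lit 0) (nat_lit 1596) (XT.lf (nat_lit 0) (nat_lit 41999344898737) (nat_lit 152) (nat_lit 58182386381641) (nat_lit 0) (nat_lit 27019371091186) (nat_lit 7) (nat_lit 5) (nat_lit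 9) (nat_lit 4) (nat_lit 7) (nat_lit 4) (nat_lit 384) (nat_lit 355) (nat_lit 161)) (XT.nd (nat_lit 78) (nat_lit 0) (nat_lit 0) (XT.lf (nat_lit 0) (nat_lit 1230472081299) (nat_lit 380) (nat_lit 1928360260859) (nat_lit 380) (nat_lit 1928360260859) (nat_lit 28) (nat_lit 3) (nat_lit 33) (nat_lit 3) (nat_lit 33) (nat_lit 5) (nat_lit 356) (nat_lit 356) (nat_lit 188)) (XT.lf (nat_lit 76) (nat_lit 1186619068767) (nat_lit 0) (nat_lit 1508031271773) (nat_lit 380) (nat_lit 8235443451083) (nat_lit 29) (nat_lit 5) (nat_lit 28) (nat_lit 3) (nat_lit 33) (nat_lit 5) (nat_lit 357) (nat_lit 356) (nat_lit 187)))))) (XT.nd (nat_lit 390) (nat_lit 532) (nat_lit 0) (XT.nd (nat_lit 156) (nat_lit 228) (nat_lit 0) (XT.nd (nat_lit 78) (nat_lit 0) (nat_lit 0) (XT.lf (nat_lit 0) (nat_lit 3341199610395) (nat_lit 304) (nat_lit 4525201942638) (nat_lit 380) (nat_lit 3876089037234) (nat_lit 29) (nat_lit 5) (nat_lit 33)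 (nat_lit 5) (nat_lit 34) (nat_lit 5) (nat_lit 358) (nat_lit 356) (nat_lit 186)) (XT.lf (nat_lit 76) (nat_lit 1541209904981) (nat_lit 0) (nat_lit 2679150594126) (nat_lit 380) (nat_lit 8436042025347) (nat_lit 30) (nat_lit 5) (nat_lit 29) (nat_lit 5) (nat_lit 34) (nat_lit 5) (nat_lit 359) (nat_lit 356) (nat_lit 185))) (XT.nd (nat_lit 78) (nat_lit 304) (nat_lit 0) (XT.lf (nat_lit 0) (nat_lit 5615278236479) (nat_lit 304) (nat_lit 4793103099434) (nat_lit 76) (nat_lit 3241437505550) (nat_lit 30) (nat_lit 5) (nat_lit 34) (nat_lit 5) (nat_lit 31) (nat_lit 5) (nat_lit 360) (nat_lit 356) (nat_lit 184)) (XT.nd (nat_lit 78) (nat_lit 0) (nat_lit 0) (XT.lf (nat_lit 0) (nat_lit 2579353098133) (nat_lit 304) (nat_lit 4874464647282) (nat_lit 380) (nat_lit 7303272243965) (nat_lit 26) (nat_lit 5) (nat_lit 30) (nat_lit 5) (nat_lit 31) (nat_lit 5) (nat_lit 361) (nat_lit 356) (nat_lit 183)) (XT.lf (nat_lit 0)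 (nat_lit 9892296292168) (nat_lit 380) (nat_lit 4470121911112) (nat_lit 76) (nat_lit 1619409889485) (nat_lit 26) (nat_lit 5) (nat_lit 31) (nat_lit 5) (nat_lit 27) (nat_lit 5) (nat_lit 362) (nat_lit 356) (nat_lit 182))))) (XT.nd (nat_lit 234) (nat_lit 228) (nat_lit 0) (XT.nd (nat_lit 78) (nat_lit 152) (nat_lit 0) (XT.lf (nat_lit 0) (nat_lit 4568211751656) (nat_lit 152) (nat_lit 8549612140276) (nat_lit 228) (nat_lit 4209261429074) (nat_lit 24) (nat_lit 5) (nat_lit 26) (nat_lit 5) (nat_lit 27) (nat_lit 5) (nat_lit 363) (nat_lit 356) (nat_lit 181)) (XT.nd (nat_lit 78) (nat_lit 152) (nat_lit 0) (XT.lf (nat_lit 0) (nat_lit 15464676210377) (nat_lit 152) (nat_lit 1596169884769) (nat_lit 228) (nat_lit 1778235218816) (nat_lit 24) (nat_lit 5) (nat_lit 26) (nat_lit 5) (nat_lit 27) (nat_lit 5) (nat_lit 364) (nat_lit 356) (nat_lit 180)) (XT.lf (nat_lit 0) (nat_lit 1545112657982) (nat_lit 152) (nat_lit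 12707860971482) (nat_lit 76) (nat_lit 6225846385045) (nat_lit 22) (nat_lit 5) (nat_lit 24) (nat_lit 5) (nat_lit 23) (nat_lit 5) (nat_lit 365) (nat_lit 356) (nat_lit 179)))) (XT.nd (nat_lit 78) (nat_lit 228) (nat_lit 0) (XT.lf (nat_lit 0) (nat_lit 5445702241659) (nat_lit 152) (nat_lit 1539781636424) (nat_lit 76) (nat_lit 15327214420828) (nat_lit 22) (nat_lit 5) (nat_lit 24) (nat_lit 5) (nat_lit 23) (nat_lit 5) (nat_lit 366) (nat_lit 356) (nat_lit 178)) (XT.nd (nat_lit 78) (nat_lit 76) (nat_lit 0) (XT.lf (nat_lit 0) (nat_lit 10526459574429) (nat_lit 228) (nat_lit 12017701598898) (nat_lit 76) (nat_lit 1788235255915) (nat_lit 20) (nat_lit 5) (nat_lit 23) (nat_lit 5) (nat_lit 21) (nat_lit 4) (nat_lit 367) (nat_lit 356) (nat_lit 177)) (XT.lf (nat_lit 0) (nat_lit 1581761722028) (nat_lit 76) (nat_lit 15270029629604) (nat_lit 152) (nat_lit 9730888800813) (nat_lit 19) (nat_lit 5) (nat_lit 20) (nat_lit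 5) (nat_lit 21) (nat_lit 4) (nat_lit 368) (nat_lit 356) (nat_lit 176))))))) (XT.nd (nat_lit 1092) (nat_lit 0) (nat_lit 0) (XT.nd (nat_lit 390) (nat_lit 532) (nat_lit 0) (XT.nd (nat_lit 156) (nat_lit 76) (nat_lit 0) (XT.nd (nat_lit 78) (nat_lit 152) (nat_lit 0) (XT.lf (nat_lit 0) (nat_lit 18571770323006) (nat_lit 76) (nat_lit 6182350610501) (nat_lit 152) (nat_lit 4322155794907) (nat_lit 19) (nat_lit 5) (nat_lit 20) (nat_lit 5) (nat_lit 21) (nat_lit 4) (nat_lit 369) (nat_lit 356) (nat_lit 175)) (XT.lf (nat_lit 0) (nat_lit 2199309331633) (nat_lit 152) (nat_lit 25401562923148) (nat_lit 76) (nat_lit 4260694635631) (nat_lit 17) (nat_lit 5) (nat_lit 19) (nat_lit 5) (nat_lit 18) (nat_lit 4) (nat_lit 370) (nat_lit 356) (nat_lit 174))) (XT.nd (nat_lit 78) (nat_lit 76) (nat_lit 0) (XT.lf (nat_lit 0) (nat_lit 10126132227966) (nat_lit 152) (nat_lit 8358893696065) (nat_lit 76) (nat_lit 16418305447168)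 (nat_lit 17) (nat_lit 5) (nat_lit 19) (nat_lit 5) (nat_lit 18) (nat_lit 4) (nat_lit 371) (nat_lit 356) (nat_lit 173)) (XT.nd (nat_lit 78) (nat_lit 0) (nat_lit 0) (XT.lf (nat_lit 0) (nat_lit 12338647652185) (nat_lit 76) (nat_lit 7414247993587) (nat_lit 152) (nat_lit 18571827315283) (nat_lit 16) (nat_lit 5) (nat_lit 17) (nat_lit 5) (nat_lit 18) (nat_lit 4) (nat_lit 372) (nat_lit 356) (nat_lit 172)) (XT.lf (nat_lit 0) (nat_lit 31501594219680) (nat_lit 152) (nat_lit 5354514567645) (nat_lit 0) (nat_lit 5301526405547) (nat_lit 16) (nat_lit 5) (nat_lit 18) (nat_lit 4) (nat_lit 16) (nat_lit 4) (nat_lit 373) (nat_lit 356) (nat_lit 171))))) (XT.nd (nat_lit 468) (nat_lit 152) (nat_lit 0) (XT.nd (nat_lit 78) (nat_lit 304) (nat_lit 0) (XT.lf (nat_lit 0) (nat_lit 19779641303793) (nat_lit 76) (nat_lit 26405048470327) (nat_lit 76) (nat_lit 204980656174) (nat_lit 15) (nat_lit 4) (nat_lit 16) (nat_lit 5)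 (nat_lit 16) (nat_lit 4) (nat_lit 374) (nat_lit 356) (nat_lit 170)) (XT.nd (nat_lit 312) (nat_lit 228) (nat_lit 0) (XT.lf (nat_lit 0) (nat_lit 11055221412004) (nat_lit 152) (nat_lit 2431341778360) (nat_lit 76) (nat_lit 37652586991391) (nat_lit 14) (nat_lit 5) (nat_lit 16) (nat_lit 5) (nat_lit 15) (nat_lit 4) (nat_lit 375) (nat_lit 356) (nat_lit 169)) (XT.lf (nat_lit 0) (nat_lit 10197450086957) (nat_lit 152) (nat_lit 858149977581) (nat_lit 76) (nat_lit 65455463362279) (nat_lit 11) (nat_lit 5) (nat_lit 13) (nat_lit 5) (nat_lit 12) (nat_lit 4) (nat_lit 379) (nat_lit 356) (nat_lit 165)))) (XT.nd (nat_lit 78) (nat_lit 76) (nat_lit 0) (XT.lf (nat_lit 0) (nat_lit 29821089936251) (nat_lit 152) (nat_lit 44990332901979) (nat_lit 0) (nat_lit 10010074575775) (nat_lit 10) (nat_lit 5) (nat_lit 12) (nat_lit 4) (nat_lit 10) (nat_lit 4) (nat_lit 380) (nat_lit 356) (nat_lit 164)) (XT.nd (nat_lit 78) (nat_lit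 76) (nat_lit 0) (XT.lf (nat_lit 0) (nat_lit 52961726836200) (nat_lit 152) (nat_lit 8180040526365) (nat_lit 0) (nat_lit 33150711475718) (nat_lit 10) (nat_lit 5) (nat_lit 12) (nat_lit 4) (nat_lit 10) (nat_lit 4) (nat_lit 381) (nat_lit 356) (nat_lit 163)) (XT.lf (nat_lit 0) (nat_lit 37489357558612) (nat_lit 76) (nat_lit 43636456062770) (nat_lit 76) (nat_lit 23825440702284) (nat_lit 9) (nat_lit 4) (nat_lit 10) (nat_lit 5) (nat_lit 10) (nat_lit 4) (nat_lit 382) (nat_lit 356) (nat_lit 162)))))) (XT.nd (nat_lit 45162) (nat_lit 0) (nat_lit 988) (XT.nd (nat_lit 44928) (nat_lit 0) (nat_lit 1444) (XT.nd (nat_lit 44850) (nat_lit 0) (nat_lit 1444) (XT.lf (nat_lit 0) (nat_lit 90928490365469) (nat_lit 76) (nat_lit 23013616086376) (nat_lit 76) (nat_lit 3202600725885) (nat_lit 9) (nat_lit 4) (nat_lit 10) (nat_lit 5) (nat_lit 10) (nat_lit 4) (nat_lit 383) (nat_lit 356) (nat_lit 161)) (XT.lf (nat_lit 0)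 (nat_lit 1415042894051) (nat_lit 380) (nat_lit 2217614299667) (nat_lit 380) (nat_lit 2217614299667) (nat_lit 28) (nat_lit 3) (nat_lit 33) (nat_lit 3) (nat_lit 33) (nat_lit 5) (nat_lit 357) (nat_lit 357) (nat_lit 186))) (XT.nd (nat_lit 78) (nat_lit 0) (nat_lit 76) (XT.lf (nat_lit 76) (nat_lit 1364611929695) (nat_lit 0) (nat_lit 1734235962920) (nat_lit 380) (nat_lit 9470759967601) (nat_lit 29) (nat_lit 5) (nat_lit 28) (nat_lit 3) (nat_lit 33) (nat_lit 5) (nat_lit 358) (nat_lit 357) (nat_lit 185)) (XT.nd (nat_lit 78) (nat_lit 0) (nat_lit 0) (XT.lf (nat_lit 0) (nat_lit 3842379552806) (nat_lit 304) (nat_lit 5203982233357) (nat_lit 380) (nat_lit 4457502392517) (nat_lit 29) (nat_lit 5) (nat_lit 33) (nat_lit 5) (nat_lit 34) (nat_lit 5) (nat_lit 359) (nat_lit 357) (nat_lit 184)) (XT.lf (nat_lit 76) (nat_lit 1772391391374) (nat_lit 0) (nat_lit 3081023183365) (nat_lit 380) (nat_lit 9701448328266)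 (nat_lit 30) (nat_lit 5) (nat_lit 29) (nat_lit 5) (nat_lit 34) (nat_lit 5) (nat_lit 360) (nat_lit 357) (nat_lit 183))))) (XT.nd (nat_lit 234) (nat_lit 304) (nat_lit 0) (XT.nd (nat_lit 78) (nat_lit 304) (nat_lit 0) (XT.lf (nat_lit 0) (nat_lit 6457569972613) (nat_lit 304) (nat_lit 5512068563682) (nat_lit 76) (nat_lit 3727653131287) (nat_lit 30) (nat_lit 5) (nat_lit 34) (nat_lit 5) (nat_lit 31) (nat_lit 5) (nat_lit 361) (nat_lit 357) (nat_lit 182)) (XT.nd (nat_lit 78) (nat_lit 0) (nat_lit 0) (XT.lf (nat_lit 0) (nat_lit 2966256063491) (nat_lit 304) (nat_lit 5605634344339) (nat_lit 380) (nat_lit 8398763079866) (nat_lit 26) (nat_lit 5) (nat_lit 30) (nat_lit 5) (nat_lit 31) (nat_lit 5) (nat_lit 362) (nat_lit 357) (nat_lit 181)) (XT.lf (nat_lit 0) (nat_lit 11376140736518) (nat_lit 380) (nat_lit 5140640197147) (nat_lit 76) (nat_lit 1862321372936) (nat_lit 26) (nat_lit 5) (nat_lit 31) (nat_lit 5)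 (nat_lit 27) (nat_lit 5) (nat_lit 363) (nat_lit 357) (nat_lit 180)))) (XT.nd (nat_lit 78) (nat_lit 152) (nat_lit 0) (XT.lf (nat_lit 0) (nat_lit 5253443515008) (nat_lit 152) (nat_lit 9832053961196) (nat_lit 228) (nat_lit 4840650642881) (nat_lit 24) (nat_lit 5) (nat_lit 26) (nat_lit 5) (nat_lit 27) (nat_lit 5) (nat_lit 364) (nat_lit 357) (nat_lit 179)) (XT.nd (nat_lit 78) (nat_lit 152) (nat_lit 0) (XT.lf (nat_lit 0) (nat_lit 17784377642459) (nat_lit 152) (nat_lit 1835595367379) (nat_lit 228) (nat_lit 2044970501156) (nat_lit 24) (nat_lit 5) (nat_lit 26) (nat_lit 5) (nat_lit 27) (nat_lit 5) (nat_lit 365) (nat_lit 357) (nat_lit 178)) (XT.lf (nat_lit 0) (nat_lit 1776879557090) (nat_lit 152) (nat_lit 14614040116607) (nat_lit 76) (nat_lit 7159723342928) (nat_lit 22) (nat_lit 5) (nat_lit 24) (nat_lit 5) (nat_lit 23) (nat_lit 5) (nat_lit 366) (nat_lit 357) (nat_lit 177))))))))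
noncomputable def xc123 : XT := (XT.nd (nat_lit 47190) (nat_lit 380) (nat_lit 0) (XT.nd (nat_lit 46332) (nat_lit 0) (nat_lit 760) (XT.nd (nat_lit 390) (nat_lit 608) (nat_lit 0) (XT.nd (nat_lit 156) (nat_lit 228) (nat_lit 0) (XT.nd (nat_lit 78) (nat_lit 152) (nat_lit 0) (XT.lf (nat_lit 0) (nat_lit 6262557578264) (nat_lit 152) (nat_lit 1770748881368) (nat_lit 76) (nat_lit 17626296584062) (nat_lit 22) (nat_lit 5) (nat_lit 24) (nat_lit 5) (nat_lit 23) (nat_lit 5) (nat_lit 367) (nat_lit 357) (nat_lit 176)) (XT.lf (nat_lit 0) (nat_lit 12105428510931) (nat_lit 228) (nat_lit 13820356838193) (nat_lit 76) (nat_lit 2056470544454) (nat_lit 20) (nat_lit 5) (nat_lit 23) (nat_lit 5) (nat_lit 21) (nat_lit 4) (nat_lit 368) (nat_lit 357) (nat_lit 175))) (XT.nd (nat_lit 78) (nat_lit 152) (nat_lit 0) (XT.lf (nat_lit 0) (nat_lit 1819025980847) (nat_lit 76) (nat_lit 17560534073845) (nat_lit 152) (nat_lit 11190522120572)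 (nat_lit 19) (nat_lit 5) (nat_lit 20) (nat_lit 5) (nat_lit 21) (nat_lit 4) (nat_lit 369) (nat_lit 357) (nat_lit 174)) (XT.nd (nat_lit 78) (nat_lit 152) (nat_lit 0) (XT.lf (nat_lit 0) (nat_lit 21357535871905) (nat_lit 76) (nat_lit 7109703201903) (nat_lit 152) (nat_lit 4970479163828) (nat_lit 19) (nat_lit 5) (nat_lit 20) (nat_lit 5) (nat_lit 21) (nat_lit 4) (nat_lit 370) (nat_lit 357) (nat_lit 173)) (XT.lf (nat_lit 0) (nat_lit 2529205731654) (nat_lit 152) (nat_lit 29211797361133) (nat_lit 76) (nat_lit 4899798831145) (nat_lit 17) (nat_lit 5) (nat_lit 19) (nat_lit 5) (nat_lit 18) (nat_lit 4) (nat_lit 371) (nat_lit 357) (nat_lit 172))))) (XT.nd (nat_lit 858) (nat_lit 76) (nat_lit 0) (XT.nd (nat_lit 702) (nat_lit 532) (nat_lit 0) (XT.lf (nat_lit 0) (nat_lit 11645052062402) (nat_lit 152) (nat_lit 9612727750052) (nat_lit 76) (nat_lit 18881051264391) (nat_lit 17) (nat_lit 5) (nat_lit 19) (nat_lit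 5) (nat_lit 18) (nat_lit 4) (nat_lit 372) (nat_lit 357) (nat_lit 171)) (XT.nd (nat_lit 78) (nat_lit 0) (nat_lit 0) (XT.lf (nat_lit 0) (nat_lit 34294253426814) (nat_lit 152) (nat_lit 51738882837022) (nat_lit 0) (nat_lit 11511585762250) (nat_lit 10) (nat_lit 5) (nat_lit 12) (nat_lit 4) (nat_lit 10) (nat_lit 4) (nat_lit 381) (nat_lit 357) (nat_lit 162)) (XT.lf (nat_lit 0) (nat_lit 60905985861739) (nat_lit 152) (nat_lit 9407046605098) (nat_lit 0) (nat_lit 38123318197171) (nat_lit 10) (nat_lit 5) (nat_lit 12) (nat_lit 4) (nat_lit 10) (nat_lit 4) (nat_lit 382) (nat_lit 357) (nat_lit 161)))) (XT.nd (nat_lit 44928) (nat_lit 0) (nat_lit 1444) (XT.lf (nat_lit 0) (nat_lit 43112761192614) (nat_lit 76) (nat_lit 50181924472079) (nat_lit 76) (nat_lit 27399256807507) (nat_lit 9) (nat_lit 4) (nat_lit 10) (nat_lit 5) (nat_lit 10) (nat_lit 4) (nat_lit 383) (nat_lit 357) (nat_lit 160)) (XT.nd (nat_lit 78)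 (nat_lit 0) (nat_lit 0) (XT.lf (nat_lit 0) (nat_lit 1627299328579) (nat_lit 380) (nat_lit 2550256444374) (nat_lit 380) (nat_lit 2550256444374) (nat_lit 28) (nat_lit 3) (nat_lit 33) (nat_lit 3) (nat_lit 33) (nat_lit 5) (nat_lit 358) (nat_lit 358) (nat_lit 184)) (XT.lf (nat_lit 76) (nat_lit 1569303719612) (nat_lit 0) (nat_lit 1994371357647) (nat_lit 380) (nat_lit 10891373961876) (nat_lit 29) (nat_lit 5) (nat_lit 28) (nat_lit 3) (nat_lit 33) (nat_lit 5) (nat_lit 359) (nat_lit 358) (nat_lit 183)))))) (XT.nd (nat_lit 390) (nat_lit 532) (nat_lit 0) (XT.nd (nat_lit 156) (nat_lit 228) (nat_lit 0) (XT.nd (nat_lit 78) (nat_lit 0) (nat_lit 0) (XT.lf (nat_lit 0) (nat_lit 4418736486370) (nat_lit 304) (nat_lit 5984579567848) (nat_lit 380) (nat_lit 5126127751166) (nat_lit 29) (nat_lit 5) (nat_lit 33) (nat_lit 5) (nat_lit 34) (nat_lit 5) (nat_lit 360) (nat_lit 358) (nat_lit 182)) (XT.lf (nat_lit 76) (nat_lit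 2038250100570) (nat_lit 0) (nat_lit 3543176660960) (nat_lit 380) (nat_lit 11156665576838) (nat_lit 30) (nat_lit 5) (nat_lit 29) (nat_lit 5) (nat_lit 34) (nat_lit 5) (nat_lit 361) (nat_lit 358) (nat_lit 181))) (XT.nd (nat_lit 78) (nat_lit 304) (nat_lit 0) (XT.lf (nat_lit 0) (nat_lit 7426205469006) (nat_lit 304) (nat_lit 6338878847730) (nat_lit 76) (nat_lit 4286801100908) (nat_lit 30) (nat_lit 5) (nat_lit 34) (nat_lit 5) (nat_lit 31) (nat_lit 5) (nat_lit 362) (nat_lit 358) (nat_lit 180)) (XT.nd (nat_lit 78) (nat_lit 0) (nat_lit 0) (XT.lf (nat_lit 0) (nat_lit 3411194473496) (nat_lit 304) (nat_lit 6446479495964) (nat_lit 380) (nat_lit 9658577541322) (nat_lit 26) (nat_lit 5) (nat_lit 30) (nat_lit 5) (nat_lit 31) (nat_lit 5) (nat_lit 363) (nat_lit 358) (nat_lit 179)) (XT.lf (nat_lit 0) (nat_lit 13082561847392) (nat_lit 380) (nat_lit 5911736226241) (nat_lit 76) (nat_lit 2141669578897) (nat_lit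 26) (nat_lit 5) (nat_lit 31) (nat_lit 5) (nat_lit 27) (nat_lit 5) (nat_lit 364) (nat_lit 358) (nat_lit 178))))) (XT.nd (nat_lit 234) (nat_lit 228) (nat_lit 0) (XT.nd (nat_lit 78) (nat_lit 152) (nat_lit 0) (XT.lf (nat_lit 0) (nat_lit 6041460042716) (nat_lit 152) (nat_lit 11306862055283) (nat_lit 228) (nat_lit 5566748238894) (nat_lit 24) (nat_lit 5) (nat_lit 26) (nat_lit 5) (nat_lit 27) (nat_lit 5) (nat_lit 365) (nat_lit 358) (nat_lit 177)) (XT.nd (nat_lit 78) (nat_lit 152) (nat_lit 0) (XT.lf (nat_lit 0) (nat_lit 20452034289224) (nat_lit 152) (nat_lit 2110934672405) (nat_lit 228) (nat_lit 2351716075965) (nat_lit 24) (nat_lit 5) (nat_lit 26) (nat_lit 5) (nat_lit 27) (nat_lit 5) (nat_lit 366) (nat_lit 358) (nat_lit 176)) (XT.lf (nat_lit 0) (nat_lit 2043411490963) (nat_lit 152) (nat_lit 16806146133646) (nat_lit 76) (nat_lit 8233681844462) (nat_lit 22) (nat_lit 5) (nat_lit 24) (nat_lit 5) (nat_lit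 23) (nat_lit 5) (nat_lit 367) (nat_lit 358) (nat_lit 175)))) (XT.nd (nat_lit 78) (nat_lit 228) (nat_lit 0) (XT.lf (nat_lit 0) (nat_lit 7201941215274) (nat_lit 152) (nat_lit 2036361213180) (nat_lit 76) (nat_lit 20270241071754) (nat_lit 22) (nat_lit 5) (nat_lit 24) (nat_lit 5) (nat_lit 23) (nat_lit 5) (nat_lit 368) (nat_lit 358) (nat_lit 174)) (XT.nd (nat_lit 78) (nat_lit 76) (nat_lit 0) (XT.lf (nat_lit 0) (nat_lit 13921242787826) (nat_lit 228) (nat_lit 15893410363515) (nat_lit 76) (nat_lit 2364941126236) (nat_lit 20) (nat_lit 5) (nat_lit 23) (nat_lit 5) (nat_lit 21) (nat_lit 4) (nat_lit 369) (nat_lit 358) (nat_lit 173)) (XT.lf (nat_lit 0) (nat_lit 2091879878364) (nat_lit 76) (nat_lit 20194614184771) (nat_lit 152) (nat_lit 12869100438384) (nat_lit 19) (nat_lit 5) (nat_lit 20) (nat_lit 5) (nat_lit 21) (nat_lit 4) (nat_lit 370) (nat_lit 358) (nat_lit 172))))))) (XT.nd (nat_lit 46644) (nat_lit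 988) (nat_lit 0) (XT.nd (nat_lit 46176) (nat_lit 0) (nat_lit 532) (XT.nd (nat_lit 45942) (nat_lit 0) (nat_lit 836) (XT.nd (nat_lit 78) (nat_lit 152) (nat_lit 0) (XT.lf (nat_lit 0) (nat_lit 24561166253029) (nat_lit 76) (nat_lit 8176158682057) (nat_lit 152) (nat_lit 5716051038165) (nat_lit 19) (nat_lit 5) (nat_lit 20) (nat_lit 5) (nat_lit 21) (nat_lit 4) (nat_lit 371) (nat_lit 358) (nat_lit 171)) (XT.lf (nat_lit 0) (nat_lit 2908586591610) (nat_lit 152) (nat_lit 33593566964935) (nat_lit 76) (nat_lit 5634768655945) (nat_lit 17) (nat_lit 5) (nat_lit 19) (nat_lit 5) (nat_lit 18) (nat_lit 4) (nat_lit 372) (nat_lit 358) (nat_lit 170))) (XT.nd (nat_lit 78) (nat_lit 0) (nat_lit 0) (XT.lf (nat_lit 0) (nat_lit 1871394228185) (nat_lit 380) (nat_lit 2932794910847) (nat_lit 380) (nat_lit 2932794910847) (nat_lit 28) (nat_lit 3) (nat_lit 33) (nat_lit 3) (nat_lit 33) (nat_lit 5) (nat_lit 359) (nat_lit 359)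 (nat_lit 182)) (XT.nd (nat_lit 78) (nat_lit 0) (nat_lit 76) (XT.lf (nat_lit 76) (nat_lit 1804699277904) (nat_lit 0) (nat_lit 2293527061513) (nat_lit 380) (nat_lit 12525080055502) (nat_lit 29) (nat_lit 5) (nat_lit 28) (nat_lit 3) (nat_lit 33) (nat_lit 5) (nat_lit 360) (nat_lit 359) (nat_lit 181)) (XT.lf (nat_lit 0) (nat_lit 5081546959812) (nat_lit 304) (nat_lit 6882266502639) (nat_lit 380) (nat_lit 5895046913668) (nat_lit 29) (nat_lit 5) (nat_lit 33) (nat_lit 5) (nat_lit 34) (nat_lit 5) (nat_lit 361) (nat_lit 359) (nat_lit 180))))) (XT.nd (nat_lit 234) (nat_lit 152) (nat_lit 0) (XT.nd (nat_lit 78) (nat_lit 228) (nat_lit 0) (XT.lf (nat_lit 76) (nat_lit 2343987616025) (nat_lit 0) (nat_lit 4074653160173) (nat_lit 380) (nat_lit 12830165412860) (nat_lit 30) (nat_lit 5) (nat_lit 29) (nat_lit 5) (nat_lit 34) (nat_lit 5) (nat_lit 362) (nat_lit 359) (nat_lit 179)) (XT.nd (nat_lit 78) (nat_lit 304)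 (nat_lit 0) (XT.lf (nat_lit 0) (nat_lit 8540136289735) (nat_lit 304) (nat_lit 7289710674508) (nat_lit 76) (nat_lit 4929821265990) (nat_lit 30) (nat_lit 5) (nat_lit 34) (nat_lit 5) (nat_lit 31) (nat_lit 5) (nat_lit 363) (nat_lit 359) (nat_lit 178)) (XT.lf (nat_lit 0) (nat_lit 3922873644885) (nat_lit 304) (nat_lit 7413451420339) (nat_lit 380) (nat_lit 11107364172124) (nat_lit 26) (nat_lit 5) (nat_lit 30) (nat_lit 5) (nat_lit 31) (nat_lit 5) (nat_lit 364) (nat_lit 359) (nat_lit 177)))) (XT.nd (nat_lit 78) (nat_lit 152) (nat_lit 0) (XT.lf (nat_lit 0) (nat_lit 15044946124801) (nat_lit 380) (nat_lit 6798496659815) (nat_lit 76) (nat_lit 2462920015748) (nat_lit 26) (nat_lit 5) (nat_lit 31) (nat_lit 5) (nat_lit 27) (nat_lit 5) (nat_lit 365) (nat_lit 359) (nat_lit 176)) (XT.nd (nat_lit 78) (nat_lit 0) (nat_lit 0) (XT.lf (nat_lit 0) (nat_lit 6947679049468) (nat_lit 152) (nat_lit 13002891363506) (nat_lit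 228) (nat_lit 6401760474411) (nat_lit 24) (nat_lit 5) (nat_lit 26) (nat_lit 5) (nat_lit 27) (nat_lit 5) (nat_lit 366) (nat_lit 359) (nat_lit 175)) (XT.lf (nat_lit 0) (nat_lit 23519839432908) (nat_lit 152) (nat_lit 2427574873206) (nat_lit 228) (nat_lit 2704473487084) (nat_lit 24) (nat_lit 5) (nat_lit 26) (nat_lit 5) (nat_lit 27) (nat_lit 5) (nat_lit 367) (nat_lit 359) (nat_lit 174)))))) (XT.nd (nat_lit 1794) (nat_lit 152) (nat_lit 0) (XT.nd (nat_lit 234) (nat_lit 1064) (nat_lit 0) (XT.nd (nat_lit 78) (nat_lit 152) (nat_lit 0) (XT.lf (nat_lit 0) (nat_lit 2349923214842) (nat_lit 152) (nat_lit 19327068053351) (nat_lit 76) (nat_lit 9468734121203) (nat_lit 22) (nat_lit 5) (nat_lit 24) (nat_lit 5) (nat_lit 23) (nat_lit 5) (nat_lit 368) (nat_lit 359) (nat_lit 173)) (XT.nd (nat_lit 78) (nat_lit 152) (nat_lit 0) (XT.lf (nat_lit 0) (nat_lit 8282232397769) (nat_lit 152) (nat_lit 2341815394860) (nat_lit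 76) (nat_lit 23310777232579) (nat_lit 22) (nat_lit 5) (nat_lit 24) (nat_lit 5) (nat_lit 23) (nat_lit 5) (nat_lit 369) (nat_lit 359) (nat_lit 172)) (XT.lf (nat_lit 0) (nat_lit 16009429206192) (nat_lit 228) (nat_lit 18277421917734) (nat_lit 76) (nat_lit 2719682295257) (nat_lit 20) (nat_lit 5) (nat_lit 23) (nat_lit 5) (nat_lit 21) (nat_lit 4) (nat_lit 370) (nat_lit 359) (nat_lit 171)))) (XT.nd (nat_lit 78) (nat_lit 988) (nat_lit 0) (XT.lf (nat_lit 0) (nat_lit 2405661860412) (nat_lit 76) (nat_lit 23223806312372) (nat_lit 152) (nat_lit 14799465503935) (nat_lit 19) (nat_lit 5) (nat_lit 20) (nat_lit 5) (nat_lit 21) (nat_lit 4) (nat_lit 371) (nat_lit 359) (nat_lit 170)) (XT.nd (nat_lit 1404) (nat_lit 988) (nat_lit 0) (XT.lf (nat_lit 0) (nat_lit 28245341191240) (nat_lit 76) (nat_lit 9402582484266) (nat_lit 152) (nat_lit 6573458693709) (nat_lit 19) (nat_lit 5) (nat_lit 20) (nat_lit 5) (nat_lit 21)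 (nat_lit 4) (nat_lit 372) (nat_lit 359) (nat_lit 169)) (XT.lf (nat_lit 0) (nat_lit 60621323158966) (nat_lit 76) (nat_lit 122788803747980) (nat_lit 76) (nat_lit 96588735933699) (nat_lit 6) (nat_lit 4) (nat_lit 7) (nat_lit 5) (nat_lit 7) (nat_lit 4) (nat_lit 390) (nat_lit 359) (nat_lit 151))))) (XT.nd (nat_lit 234) (nat_lit 0) (nat_lit 0) (XT.nd (nat_lit 78) (nat_lit 152) (nat_lit 0) (XT.lf (nat_lit 0) (nat_lit 166622798658287) (nat_lit 76) (nat_lit 87266445087049) (nat_lit 76) (nat_lit 61066377272768) (nat_lit 6) (nat_lit 4) (nat_lit 7) (nat_lit 5) (nat_lit 7) (nat_lit 4) (nat_lit 391) (nat_lit 359) (nat_lit 150)) (XT.nd (nat_lit 78) (nat_lit 152) (nat_lit 0) (XT.lf (nat_lit 0) (nat_lit 288524495482501) (nat_lit 76) (nat_lit 46415732626983) (nat_lit 76) (nat_lit 20215664812700) (nat_lit 6) (nat_lit 4) (nat_lit 7) (nat_lit 5) (nat_lit 7) (nat_lit 4) (nat_lit 392) (nat_lit 359) (nat_lit 149))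 (XT.lf (nat_lit 0) (nat_lit 25704555422922) (nat_lit 152) (nat_lit 372394860141063) (nat_lit 0) (nat_lit 2921887758328) (nat_lit 4) (nat_lit 5) (nat_lit 6) (nat_lit 4) (nat_lit 4) (nat_lit 4) (nat_lit 393) (nat_lit 359) (nat_lit 148)))) (XT.nd (nat_lit 44226) (nat_lit 0) (nat_lit 1824) (XT.lf (nat_lit 0) (nat_lit 82302244900328) (nat_lit 152) (nat_lit 310921435257146) (nat_lit 0) (nat_lit 59519577235734) (nat_lit 4) (nat_lit 5) (nat_lit 6) (nat_lit 4) (nat_lit 4) (nat_lit 4) (nat_lit 394) (nat_lit 359) (nat_lit 147)) (XT.nd (nat_lit 78) (nat_lit 0) (nat_lit 0) (XT.lf (nat_lit 0) (nat_lit 2152103362654) (nat_lit 380) (nat_lit 3372714147336) (nat_lit 380) (nat_lit 3372714147336) (nat_lit 28) (nat_lit 3) (nat_lit 33) (nat_lit 3) (nat_lit 33) (nat_lit 5) (nat_lit 360) (nat_lit 360) (nat_lit 180)) (XT.lf (nat_lit 76) (nat_lit 2075404169854) (nat_lit 0) (nat_lit 2637556120904) (nat_lit 380)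 (nat_lit 14403842063333) (nat_lit 29) (nat_lit 5) (nat_lit 28) (nat_lit 3) (nat_lit 33) (nat_lit 5) (nat_lit 361) (nat_lit 360) (nat_lit 179))))))))
noncomputable def xc124 : XT := (XT.nd (nat_lit 47190) (nat_lit 0) (nat_lit 152) (XT.nd (nat_lit 858) (nat_lit 1140) (nat_lit 0) (XT.nd (nat_lit 390) (nat_lit 532) (nat_lit 0) (XT.nd (nat_lit 156) (nat_lit 228) (nat_lit 0) (XT.nd (nat_lit 78) (nat_lit 0) (nat_lit 0) (XT.lf (nat_lit 0) (nat_lit 5843779004151) (nat_lit 304) (nat_lit 7914606477741) (nat_lit 380) (nat_lit 6779303950587) (nat_lit 29) (nat_lit 5) (nat_lit 33) (nat_lit 5) (nat_lit 34) (nat_lit 5) (nat_lit 362) (nat_lit 360) (nat_lit 178)) (XT.lf (nat_lit 76) (nat_lit 2695585758708) (nat_lit 0) (nat_lit 4685851134251) (nat_lit 380) (nat_lit 14754690224407) (nat_lit 30) (nat_lit 5) (nat_lit 29) (nat_lit 5) (nat_lit 34) (nat_lit 5) (nat_lit 363) (nat_lit 360) (nat_lit 177))) (XT.nd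 (nat_lit 78) (nat_lit 304) (nat_lit 0) (XT.lf (nat_lit 0) (nat_lit 9821156733482) (nat_lit 304) (nat_lit 8383167275395) (nat_lit 76) (nat_lit 5669294455848) (nat_lit 30) (nat_lit 5) (nat_lit 34) (nat_lit 5) (nat_lit 31) (nat_lit 5) (nat_lit 364) (nat_lit 360) (nat_lit 176)) (XT.nd (nat_lit 78) (nat_lit 0) (nat_lit 0) (XT.lf (nat_lit 0) (nat_lit 4511304691894) (nat_lit 304) (nat_lit 8525469133374) (nat_lit 380) (nat_lit 12773468797643) (nat_lit 26) (nat_lit 5) (nat_lit 30) (nat_lit 5) (nat_lit 31) (nat_lit 5) (nat_lit 365) (nat_lit 360) (nat_lit 175)) (XT.lf (nat_lit 0) (nat_lit 17301688043748) (nat_lit 380) (nat_lit 7818271158514) (nat_lit 76) (nat_lit 2832358018122) (nat_lit 26) (nat_lit 5) (nat_lit 31) (nat_lit 5) (nat_lit 27) (nat_lit 5) (nat_lit 366) (nat_lit 360) (nat_lit 174))))) (XT.nd (nat_lit 234) (nat_lit 228) (nat_lit 0) (XT.nd (nat_lit 78) (nat_lit 152) (nat_lit 0) (XT.lf (nat_lit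 0) (nat_lit 7989830907149) (nat_lit 152) (nat_lit 14953325067979) (nat_lit 228) (nat_lit 7362024545334) (nat_lit 24) (nat_lit 5) (nat_lit 26) (nat_lit 5) (nat_lit 27) (nat_lit 5) (nat_lit 367) (nat_lit 360) (nat_lit 173)) (XT.nd (nat_lit 78) (nat_lit 152) (nat_lit 0) (XT.lf (nat_lit 0) (nat_lit 27047815348071) (nat_lit 152) (nat_lit 2791711104140) (nat_lit 228) (nat_lit 3110144509939) (nat_lit 24) (nat_lit 5) (nat_lit 26) (nat_lit 5) (nat_lit 27) (nat_lit 5) (nat_lit 368) (nat_lit 360) (nat_lit 172)) (XT.lf (nat_lit 0) (nat_lit 2702411697246) (nat_lit 152) (nat_lit 22226128261095) (nat_lit 76) (nat_lit 10889044239438) (nat_lit 22) (nat_lit 5) (nat_lit 24) (nat_lit 5) (nat_lit 23) (nat_lit 5) (nat_lit 369) (nat_lit 360) (nat_lit 171)))) (XT.nd (nat_lit 78) (nat_lit 228) (nat_lit 0) (XT.lf (nat_lit 0) (nat_lit 9524567257588) (nat_lit 152) (nat_lit 2693087703864) (nat_lit 76) (nat_lit 26807393817514)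 (nat_lit 22) (nat_lit 5) (nat_lit 24) (nat_lit 5) (nat_lit 23) (nat_lit 5) (nat_lit 370) (nat_lit 360) (nat_lit 170)) (XT.nd (nat_lit 78) (nat_lit 76) (nat_lit 0) (XT.lf (nat_lit 0) (nat_lit 18410843587267) (nat_lit 228) (nat_lit 21019035205161) (nat_lit 76) (nat_lit 3127634639611) (nat_lit 20) (nat_lit 5) (nat_lit 23) (nat_lit 5) (nat_lit 21) (nat_lit 4) (nat_lit 371) (nat_lit 360) (nat_lit 169)) (XT.lf (nat_lit 0) (nat_lit 2766511139697) (nat_lit 76) (nat_lit 26707377259141) (nat_lit 152) (nat_lit 17019385329369) (nat_lit 19) (nat_lit 5) (nat_lit 20) (nat_lit 5) (nat_lit 21) (nat_lit 4) (nat_lit 372) (nat_lit 360) (nat_lit 168)))))) (XT.nd (nat_lit 1638) (nat_lit 152) (nat_lit 0) (XT.nd (nat_lit 1404) (nat_lit 76) (nat_lit 0) (XT.nd (nat_lit 1326) (nat_lit 912) (nat_lit 0) (XT.lf (nat_lit 0) (nat_lit 32482142370120) (nat_lit 76) (nat_lit 10812969856830) (nat_lit 152) (nat_lit 7559477497629)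 (nat_lit 19) (nat_lit 5) (nat_lit 20) (nat_lit 5) (nat_lit 21) (nat_lit 4) (nat_lit 373) (nat_lit 360) (nat_lit 167)) (XT.lf (nat_lit 0) (nat_lit 141945094482121) (nat_lit 152) (nat_lit 33056438304836) (nat_lit 0) (nat_lit 111815016495696) (nat_lit 7) (nat_lit 5) (nat_lit 9) (nat_lit 4) (nat_lit 7) (nat_lit 4) (nat_lit 390) (nat_lit 360) (nat_lit 150))) (XT.nd (nat_lit 78) (nat_lit 0) (nat_lit 0) (XT.lf (nat_lit 0) (nat_lit 69714521632871) (nat_lit 76) (nat_lit 141207124310145) (nat_lit 76) (nat_lit 111077046323720) (nat_lit 6) (nat_lit 4) (nat_lit 7) (nat_lit 5) (nat_lit 7) (nat_lit 4) (nat_lit 391) (nat_lit 360) (nat_lit 149)) (XT.nd (nat_lit 78) (nat_lit 0) (nat_lit 0) (XT.lf (nat_lit 0) (nat_lit 191616218457084) (nat_lit 76) (nat_lit 100356411850079) (nat_lit 76) (nat_lit 70226333863654) (nat_lit 6) (nat_lit 4) (nat_lit 7) (nat_lit 5) (nat_lit 7) (nat_lit 4) (nat_lit 392) (nat_lit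 360) (nat_lit 148)) (XT.lf (nat_lit 0) (nat_lit 331803169804924) (nat_lit 76) (nat_lit 53378092521006) (nat_lit 76) (nat_lit 23248014534579) (nat_lit 6) (nat_lit 4) (nat_lit 7) (nat_lit 5) (nat_lit 7) (nat_lit 4) (nat_lit 393) (nat_lit 360) (nat_lit 147))))) (XT.nd (nat_lit 44460) (nat_lit 0) (nat_lit 1900) (XT.nd (nat_lit 44304) (nat_lit 0) (nat_lit 1824) (XT.lf (nat_lit 0) (nat_lit 29560238736383) (nat_lit 152) (nat_lit 428254089162174) (nat_lit 0) (nat_lit 3360170922099) (nat_lit 4) (nat_lit 5) (nat_lit 6) (nat_lit 4) (nat_lit 4) (nat_lit 4) (nat_lit 394) (nat_lit 360) (nat_lit 146)) (XT.nd (nat_lit 78) (nat_lit 0) (nat_lit 0) (XT.lf (nat_lit 0) (nat_lit 2474918867234) (nat_lit 380) (nat_lit 3878621269331) (nat_lit 380) (nat_lit 3878621269331) (nat_lit 28) (nat_lit 3) (nat_lit 33) (nat_lit 3) (nat_lit 33) (nat_lit 5) (nat_lit 361) (nat_lit 361) (nat_lit 178)) (XT.lf (nat_lit 76) (nat_lit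 2386714795533) (nat_lit 0) (nat_lit 3033189539165) (nat_lit 380) (nat_lit 16564418372459) (nat_lit 29) (nat_lit 5) (nat_lit 28) (nat_lit 3) (nat_lit 33) (nat_lit 5) (nat_lit 362) (nat_lit 361) (nat_lit 177)))) (XT.nd (nat_lit 78) (nat_lit 0) (nat_lit 0) (XT.lf (nat_lit 0) (nat_lit 6720345855052) (nat_lit 304) (nat_lit 9101797449182) (nat_lit 380) (nat_lit 7796199543076) (nat_lit 29) (nat_lit 5) (nat_lit 33) (nat_lit 5) (nat_lit 34) (nat_lit 5) (nat_lit 363) (nat_lit 361) (nat_lit 176)) (XT.nd (nat_lit 78) (nat_lit 0) (nat_lit 76) (XT.lf (nat_lit 76) (nat_lit 3099923622726) (nat_lit 0) (nat_lit 5388728804427) (nat_lit 380) (nat_lit 16967893757780) (nat_lit 30) (nat_lit 5) (nat_lit 29) (nat_lit 5) (nat_lit 34) (nat_lit 5) (nat_lit 364) (nat_lit 361) (nat_lit 175)) (XT.lf (nat_lit 0) (nat_lit 11294330243721) (nat_lit 304) (nat_lit 9640642366486) (nat_lit 76) (nat_lit 6519688624194) (nat_lit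 30) (nat_lit 5) (nat_lit 34) (nat_lit 5) (nat_lit 31) (nat_lit 5) (nat_lit 365) (nat_lit 361) (nat_lit 174))))))) (XT.nd (nat_lit 2028) (nat_lit 76) (nat_lit 0) (XT.nd (nat_lit 390) (nat_lit 1140) (nat_lit 0) (XT.nd (nat_lit 156) (nat_lit 304) (nat_lit 0) (XT.nd (nat_lit 78) (nat_lit 0) (nat_lit 0) (XT.lf (nat_lit 0) (nat_lit 5188000395886) (nat_lit 304) (nat_lit 9804289503369) (nat_lit 380) (nat_lit 14689489117062) (nat_lit 26) (nat_lit 5) (nat_lit 30) (nat_lit 5) (nat_lit 31) (nat_lit 5) (nat_lit 366) (nat_lit 361) (nat_lit 173)) (XT.lf (nat_lit 0) (nat_lit 19896941250482) (nat_lit 380) (nat_lit 8991011832085) (nat_lit 76) (nat_lit 3257211720850) (nat_lit 26) (nat_lit 5) (nat_lit 31) (nat_lit 5) (nat_lit 27) (nat_lit 5) (nat_lit 367) (nat_lit 361) (nat_lit 172))) (XT.nd (nat_lit 78) (nat_lit 152) (nat_lit 0) (XT.lf (nat_lit 0) (nat_lit 9188305543419) (nat_lit 152) (nat_lit 17196323828136)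 (nat_lit 228) (nat_lit 8466328226952) (nat_lit 24) (nat_lit 5) (nat_lit 26) (nat_lit 5) (nat_lit 27) (nat_lit 5) (nat_lit 368) (nat_lit 361) (nat_lit 171)) (XT.nd (nat_lit 78) (nat_lit 152) (nat_lit 0) (XT.lf (nat_lit 0) (nat_lit 31104987650453) (nat_lit 152) (nat_lit 3210467769727) (nat_lit 228) (nat_lit 3576666186272) (nat_lit 24) (nat_lit 5) (nat_lit 26) (nat_lit 5) (nat_lit 27) (nat_lit 5) (nat_lit 369) (nat_lit 361) (nat_lit 170)) (XT.lf (nat_lit 0) (nat_lit 3107773451967) (nat_lit 152) (nat_lit 25560047500064) (nat_lit 76) (nat_lit 12522400875395) (nat_lit 22) (nat_lit 5) (nat_lit 24) (nat_lit 5) (nat_lit 23) (nat_lit 5) (nat_lit 370) (nat_lit 361) (nat_lit 169))))) (XT.nd (nat_lit 234) (nat_lit 912) (nat_lit 0) (XT.nd (nat_lit 78) (nat_lit 228) (nat_lit 0) (XT.lf (nat_lit 0) (nat_lit 10953252346343) (nat_lit 152) (nat_lit 3097050859274) (nat_lit 76) (nat_lit 30828502890176) (nat_lit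 22) (nat_lit 5) (nat_lit 24) (nat_lit 5) (nat_lit 23) (nat_lit 5) (nat_lit 371) (nat_lit 361) (nat_lit 168)) (XT.nd (nat_lit 78) (nat_lit 76) (nat_lit 0) (XT.lf (nat_lit 0) (nat_lit 21172470125468) (nat_lit 228) (nat_lit 24171890485759) (nat_lit 76) (nat_lit 3596779835602) (nat_lit 20) (nat_lit 5) (nat_lit 23) (nat_lit 5) (nat_lit 21) (nat_lit 4) (nat_lit 372) (nat_lit 361) (nat_lit 167)) (XT.lf (nat_lit 0) (nat_lit 3181487810820) (nat_lit 76) (nat_lit 30713483847947) (nat_lit 152) (nat_lit 19572293128656) (nat_lit 19) (nat_lit 5) (nat_lit 20) (nat_lit 5) (nat_lit 21) (nat_lit 4) (nat_lit 373) (nat_lit 361) (nat_lit 166)))) (XT.nd (nat_lit 1248) (nat_lit 912) (nat_lit 0) (XT.lf (nat_lit 0) (nat_lit 37354463725783) (nat_lit 76) (nat_lit 12434915335298) (nat_lit 152) (nat_lit 8693399122171) (nat_lit 19) (nat_lit 5) (nat_lit 20) (nat_lit 5) (nat_lit 21) (nat_lit 4) (nat_lit 374) (nat_lit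 361) (nat_lit 165)) (XT.nd (nat_lit 78) (nat_lit 0) (nat_lit 0) (XT.lf (nat_lit 0) (nat_lit 97147036867805) (nat_lit 152) (nat_lit 134579395188608) (nat_lit 0) (nat_lit 62497447183415) (nat_lit 7) (nat_lit 5) (nat_lit 9) (nat_lit 4) (nat_lit 7) (nat_lit 4) (nat_lit 390) (nat_lit 361) (nat_lit 149)) (XT.lf (nat_lit 0) (nat_lit 163236858654461) (nat_lit 152) (nat_lit 38014904050516) (nat_lit 0) (nat_lit 128587268970071) (nat_lit 7) (nat_lit 5) (nat_lit 9) (nat_lit 4) (nat_lit 7) (nat_lit 4) (nat_lit 391) (nat_lit 361) (nat_lit 148)))))) (XT.nd (nat_lit 44694) (nat_lit 0) (nat_lit 1368) (XT.nd (nat_lit 156) (nat_lit 0) (nat_lit 0) (XT.nd (nat_lit 78) (nat_lit 0) (nat_lit 0) (XT.lf (nat_lit 0) (nat_lit 80171699877848) (nat_lit 76) (nat_lit 162388192956644) (nat_lit 76) (nat_lit 127738603272253) (nat_lit 6) (nat_lit 4) (nat_lit 7) (nat_lit 5) (nat_lit 7) (nat_lit 4) (nat_lit 392) (nat_lit 361)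 (nat_lit 147)) (XT.lf (nat_lit 0) (nat_lit 220358651225686) (nat_lit 76) (nat_lit 115409873627571) (nat_lit 76) (nat_lit 80760283943180) (nat_lit 6) (nat_lit 4) (nat_lit 7) (nat_lit 5) (nat_lit 7) (nat_lit 4) (nat_lit 393) (nat_lit 361) (nat_lit 146))) (XT.nd (nat_lit 44382) (nat_lit 0) (nat_lit 1672) (XT.lf (nat_lit 0) (nat_lit 381573645275695) (nat_lit 76) (nat_lit 61384806399140) (nat_lit 76) (nat_lit 26735216714748) (nat_lit 6) (nat_lit 4) (nat_lit 7) (nat_lit 5) (nat_lit 7) (nat_lit 4) (nat_lit 394) (nat_lit 361) (nat_lit 145)) (XT.nd (nat_lit 78) (nat_lit 0) (nat_lit 0) (XT.lf (nat_lit 0) (nat_lit 2846156697457) (nat_lit 380) (nat_lit 4460414459652) (nat_lit 380) (nat_lit 4460414459652) (nat_lit 28) (nat_lit 3) (nat_lit 33) (nat_lit 3) (nat_lit 33) (nat_lit 5) (nat_lit 362) (nat_lit 362) (nat_lit 176)) (XT.lf (nat_lit 76) (nat_lit 2744722015014) (nat_lit 0) (nat_lit 3488167970134)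 (nat_lit 380) (nat_lit 19049081128045) (nat_lit 29) (nat_lit 5) (nat_lit 28) (nat_lit 3) (nat_lit 33) (nat_lit 5) (nat_lit 363) (nat_lit 362) (nat_lit 175))))) (XT.nd (nat_lit 234) (nat_lit 380) (nat_lit 0) (XT.nd (nat_lit 78) (nat_lit 0) (nat_lit 0) (XT.lf (nat_lit 0) (nat_lit 7728397733520) (nat_lit 304) (nat_lit 10467067066391) (nat_lit 380) (nat_lit 8965629474463) (nat_lit 29) (nat_lit 5) (nat_lit 33) (nat_lit 5) (nat_lit 34) (nat_lit 5) (nat_lit 364) (nat_lit 362) (nat_lit 174)) (XT.nd (nat_lit 78) (nat_lit 0) (nat_lit 76) (XT.lf (nat_lit 76) (nat_lit 3564912166294) (nat_lit 0) (nat_lit 6197038125121) (nat_lit 380) (nat_lit 19513077821228) (nat_lit 30) (nat_lit 5) (nat_lit 29) (nat_lit 5) (nat_lit 34) (nat_lit 5) (nat_lit 365) (nat_lit 362) (nat_lit 173)) (XT.lf (nat_lit 0) (nat_lit 12988479780442) (nat_lit 304) (nat_lit 11086738721294) (nat_lit 76) (nat_lit 7497641917800) (nat_lit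 30) (nat_lit 5) (nat_lit 34) (nat_lit 5) (nat_lit 31) (nat_lit 5) (nat_lit 366) (nat_lit 362) (nat_lit 172)))) (XT.nd (nat_lit 78) (nat_lit 152) (nat_lit 0) (XT.lf (nat_lit 0) (nat_lit 5966200455426) (nat_lit 304) (nat_lit 11274932928866) (nat_lit 380) (nat_lit 16892912484450) (nat_lit 26) (nat_lit 5) (nat_lit 30) (nat_lit 5) (nat_lit 31) (nat_lit 5) (nat_lit 367) (nat_lit 362) (nat_lit 171)) (XT.nd (nat_lit 78) (nat_lit 152) (nat_lit 0) (XT.lf (nat_lit 0) (nat_lit 22881482438185) (nat_lit 380) (nat_lit 10339663606742) (nat_lit 76) (nat_lit 3745793478984) (nat_lit 26) (nat_lit 5) (nat_lit 31) (nat_lit 5) (nat_lit 27) (nat_lit 5) (nat_lit 368) (nat_lit 362) (nat_lit 170)) (XT.lf (nat_lit 0) (nat_lit 10566551375081) (nat_lit 152) (nat_lit 19775772402326) (nat_lit 228) (nat_lit 9736277460858) (nat_lit 24) (nat_lit 5) (nat_lit 26) (nat_lit 5) (nat_lit 27) (nat_lit 5) (nat_lit 369) (nat_lit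 362) (nat_lit 169))))))))
noncomputable def xc125 : XT := (XT.nd (nat_lit 48516) (nat_lit 0) (nat_lit 76) (XT.nd (nat_lit 46488) (nat_lit 0) (nat_lit 228) (XT.nd (nat_lit 1560) (nat_lit 988) (nat_lit 0) (XT.nd (nat_lit 156) (nat_lit 228) (nat_lit 0) (XT.nd (nat_lit 78) (nat_lit 152) (nat_lit 0) (XT.lf (nat_lit 0) (nat_lit 35770735798151) (nat_lit 152) (nat_lit 3692037935160) (nat_lit 228) (nat_lit 4113166114094) (nat_lit 24) (nat_lit 5) (nat_lit 26) (nat_lit 5) (nat_lit 27) (nat_lit 5) (nat_lit 370) (nat_lit 362) (nat_lit 168)) (XT.lf (nat_lit 0) (nat_lit 3573939469863) (nat_lit 152) (nat_lit 29394054624926) (nat_lit 76) (nat_lit 14400761006735) (nat_lit 22) (nat_lit 5) (nat_lit 24) (nat_lit 5) (nat_lit 23) (nat_lit 5) (nat_lit 371) (nat_lit 362) (nat_lit 167))) (XT.nd (nat_lit 78) (nat_lit 228) (nat_lit 0) (XT.lf (nat_lit 0) (nat_lit 12596240198383) (nat_lit 152) (nat_lit 3561608488037)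 (nat_lit 76) (nat_lit 35452778323730) (nat_lit 22) (nat_lit 5) (nat_lit 24) (nat_lit 5) (nat_lit 23) (nat_lit 5) (nat_lit 372) (nat_lit 362) (nat_lit 166)) (XT.nd (nat_lit 78) (nat_lit 76) (nat_lit 0) (XT.lf (nat_lit 0) (nat_lit 24348340644371) (nat_lit 228) (nat_lit 27797674058489) (nat_lit 76) (nat_lit 4136296810980) (nat_lit 20) (nat_lit 5) (nat_lit 23) (nat_lit 5) (nat_lit 21) (nat_lit 4) (nat_lit 373) (nat_lit 362) (nat_lit 165)) (XT.lf (nat_lit 0) (nat_lit 3658710982570) (nat_lit 76) (nat_lit 35320506425090) (nat_lit 152) (nat_lit 22508137097865) (nat_lit 19) (nat_lit 5) (nat_lit 20) (nat_lit 5) (nat_lit 21) (nat_lit 4) (nat_lit 374) (nat_lit 362) (nat_lit 164))))) (XT.nd (nat_lit 234) (nat_lit 76) (nat_lit 0) (XT.nd (nat_lit 78) (nat_lit 0) (nat_lit 0) (XT.lf (nat_lit 0) (nat_lit 45629270611339) (nat_lit 152) (nat_lit 251330795604951) (nat_lit 0) (nat_lit 5782242474290) (nat_lit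 7) (nat_lit 5) (nat_lit 9) (nat_lit 4) (nat_lit 7) (nat_lit 4) (nat_lit 390) (nat_lit 362) (nat_lit 148)) (XT.nd (nat_lit 78) (nat_lit 0) (nat_lit 0) (XT.lf (nat_lit 0) (nat_lit 111719092397995) (nat_lit 152) (nat_lit 154766304466860) (nat_lit 0) (nat_lit 71872064260945) (nat_lit 7) (nat_lit 5) (nat_lit 9) (nat_lit 4) (nat_lit 7) (nat_lit 4) (nat_lit 391) (nat_lit 362) (nat_lit 147)) (XT.lf (nat_lit 0) (nat_lit 187722387452648) (nat_lit 152) (nat_lit 43717139658057) (nat_lit 0) (nat_lit 147875359315598) (nat_lit 7) (nat_lit 5) (nat_lit 9) (nat_lit 4) (nat_lit 7) (nat_lit 4) (nat_lit 392) (nat_lit 362) (nat_lit 146)))) (XT.nd (nat_lit 44538) (nat_lit 0) (nat_lit 1672) (XT.lf (nat_lit 0) (nat_lit 92197454859560) (nat_lit 76) (nat_lit 186746421900123) (nat_lit 76) (nat_lit 146899393763072) (nat_lit 6) (nat_lit 4) (nat_lit 7) (nat_lit 5) (nat_lit 7) (nat_lit 4) (nat_lit 393) (nat_lit 362)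 (nat_lit 145)) (XT.nd (nat_lit 78) (nat_lit 0) (nat_lit 0) (XT.lf (nat_lit 0) (nat_lit 3273080202179) (nat_lit 380) (nat_lit 5129476628540) (nat_lit 380) (nat_lit 5129476628540) (nat_lit 28) (nat_lit 3) (nat_lit 33) (nat_lit 3) (nat_lit 33) (nat_lit 5) (nat_lit 363) (nat_lit 363) (nat_lit 174)) (XT.lf (nat_lit 76) (nat_lit 3156430317381) (nat_lit 0) (nat_lit 4011393165726) (nat_lit 380) (nat_lit 21906443297037) (nat_lit 29) (nat_lit 5) (nat_lit 28) (nat_lit 3) (nat_lit 33) (nat_lit 5) (nat_lit 364) (nat_lit 363) (nat_lit 173)))))) (XT.nd (nat_lit 390) (nat_lit 1292) (nat_lit 0) (XT.nd (nat_lit 156) (nat_lit 228) (nat_lit 0) (XT.nd (nat_lit 78) (nat_lit 0) (nat_lit 0) (XT.lf (nat_lit 0) (nat_lit 8887657393707) (nat_lit 304) (nat_lit 12037127126223) (nat_lit 380) (nat_lit 10310473895577) (nat_lit 29) (nat_lit 5) (nat_lit 33) (nat_lit 5) (nat_lit 34) (nat_lit 5) (nat_lit 365) (nat_lit 363)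 (nat_lit 172)) (XT.lf (nat_lit 76) (nat_lit 4099648991359) (nat_lit 0) (nat_lit 7126593843912) (nat_lit 380) (nat_lit 22440039494248) (nat_lit 30) (nat_lit 5) (nat_lit 29) (nat_lit 5) (nat_lit 34) (nat_lit 5) (nat_lit 366) (nat_lit 363) (nat_lit 171))) (XT.nd (nat_lit 78) (nat_lit 304) (nat_lit 0) (XT.lf (nat_lit 0) (nat_lit 14936751747633) (nat_lit 304) (nat_lit 12749749529364) (nat_lit 76) (nat_lit 8622288205452) (nat_lit 30) (nat_lit 5) (nat_lit 34) (nat_lit 5) (nat_lit 31) (nat_lit 5) (nat_lit 367) (nat_lit 363) (nat_lit 170)) (XT.nd (nat_lit 78) (nat_lit 0) (nat_lit 0) (XT.lf (nat_lit 0) (nat_lit 6861130523860) (nat_lit 304) (nat_lit 12966172868189) (nat_lit 380) (nat_lit 19426849356988) (nat_lit 26) (nat_lit 5) (nat_lit 30) (nat_lit 5) (nat_lit 31) (nat_lit 5) (nat_lit 368) (nat_lit 363) (nat_lit 169)) (XT.lf (nat_lit 0) (nat_lit 26313704804010) (nat_lit 380) (nat_lit 11890613147635)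 (nat_lit 76) (nat_lit 4307662500837) (nat_lit 26) (nat_lit 5) (nat_lit 31) (nat_lit 5) (nat_lit 27) (nat_lit 5) (nat_lit 369) (nat_lit 363) (nat_lit 168))))) (XT.nd (nat_lit 234) (nat_lit 988) (nat_lit 0) (XT.nd (nat_lit 78) (nat_lit 152) (nat_lit 0) (XT.lf (nat_lit 0) (nat_lit 12151534081456) (nat_lit 152) (nat_lit 22742138262652) (nat_lit 228) (nat_lit 11196719079884) (nat_lit 24) (nat_lit 5) (nat_lit 26) (nat_lit 5) (nat_lit 27) (nat_lit 5) (nat_lit 370) (nat_lit 363) (nat_lit 167)) (XT.nd (nat_lit 78) (nat_lit 152) (nat_lit 0) (XT.lf (nat_lit 0) (nat_lit 41136346167972) (nat_lit 152) (nat_lit 4245843625414) (nat_lit 228) (nat_lit 4730141031118) (nat_lit 24) (nat_lit 5) (nat_lit 26) (nat_lit 5) (nat_lit 27) (nat_lit 5) (nat_lit 371) (nat_lit 363) (nat_lit 166)) (XT.lf (nat_lit 0) (nat_lit 4110030390419) (nat_lit 152) (nat_lit 33803162818553) (nat_lit 76) (nat_lit 16560875157769) (nat_lit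 22) (nat_lit 5) (nat_lit 24) (nat_lit 5) (nat_lit 23) (nat_lit 5) (nat_lit 372) (nat_lit 363) (nat_lit 165)))) (XT.nd (nat_lit 78) (nat_lit 988) (nat_lit 0) (XT.lf (nat_lit 0) (nat_lit 14485676228207) (nat_lit 152) (nat_lit 4095849761145) (nat_lit 76) (nat_lit 40770695072310) (nat_lit 22) (nat_lit 5) (nat_lit 24) (nat_lit 5) (nat_lit 23) (nat_lit 5) (nat_lit 373) (nat_lit 363) (nat_lit 164)) (XT.nd (nat_lit 1248) (nat_lit 836) (nat_lit 0) (XT.lf (nat_lit 0) (nat_lit 28000591741090) (nat_lit 228) (nat_lit 31967325167162) (nat_lit 76) (nat_lit 4756741332655) (nat_lit 20) (nat_lit 5) (nat_lit 23) (nat_lit 5) (nat_lit 21) (nat_lit 4) (nat_lit 374) (nat_lit 363) (nat_lit 163)) (XT.lf (nat_lit 0) (nat_lit 241871592074332) (nat_lit 76) (nat_lit 61216676310643) (nat_lit 76) (nat_lit 8518981599393) (nat_lit 9) (nat_lit 4) (nat_lit 10) (nat_lit 5) (nat_lit 10) (nat_lit 4) (nat_lit 390) (nat_lit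 363) (nat_lit 147))))))) (XT.nd (nat_lit 45474) (nat_lit 0) (nat_lit 152) (XT.nd (nat_lit 45006) (nat_lit 0) (nat_lit 1292) (XT.nd (nat_lit 44772) (nat_lit 0) (nat_lit 1596) (XT.nd (nat_lit 78) (nat_lit 0) (nat_lit 0) (XT.lf (nat_lit 0) (nat_lit 52473661203058) (nat_lit 152) (nat_lit 289030414945656) (nat_lit 0) (nat_lit 6649578845449) (nat_lit 7) (nat_lit 5) (nat_lit 9) (nat_lit 4) (nat_lit 7) (nat_lit 4) (nat_lit 391) (nat_lit 363) (nat_lit 146)) (XT.lf (nat_lit 0) (nat_lit 128476956257711) (nat_lit 152) (nat_lit 177981250136855) (nat_lit 0) (nat_lit 82652873900101) (nat_lit 7) (nat_lit 5) (nat_lit 9) (nat_lit 4) (nat_lit 7) (nat_lit 4) (nat_lit 392) (nat_lit 363) (nat_lit 145))) (XT.nd (nat_lit 78) (nat_lit 0) (nat_lit 0) (XT.lf (nat_lit 0) (nat_lit 3764042232585) (nat_lit 380) (nat_lit 5898898122775) (nat_lit 380) (nat_lit 5898898122775) (nat_lit 28) (nat_lit 3) (nat_lit 33) (nat_lit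 3) (nat_lit 33) (nat_lit 5) (nat_lit 364) (nat_lit 364) (nat_lit 172)) (XT.nd (nat_lit 78) (nat_lit 0) (nat_lit 76) (XT.lf (nat_lit 76) (nat_lit 3629894865074) (nat_lit 0) (nat_lit 4613102140639) (nat_lit 380) (nat_lit 25192409791431) (nat_lit 29) (nat_lit 5) (nat_lit 28) (nat_lit 3) (nat_lit 33) (nat_lit 5) (nat_lit 365) (nat_lit 364) (nat_lit 171)) (XT.lf (nat_lit 0) (nat_lit 10220806002884) (nat_lit 304) (nat_lit 13842696195062) (nat_lit 380) (nat_lit 11857044979870) (nat_lit 29) (nat_lit 5) (nat_lit 33) (nat_lit 5) (nat_lit 34) (nat_lit 5) (nat_lit 366) (nat_lit 364) (nat_lit 170))))) (XT.nd (nat_lit 234) (nat_lit 152) (nat_lit 0) (XT.nd (nat_lit 78) (nat_lit 228) (nat_lit 0) (XT.lf (nat_lit 76) (nat_lit 4714596340155) (nat_lit 0) (nat_lit 8195582920516) (nat_lit 380) (nat_lit 25806045418260) (nat_lit 30) (nat_lit 5) (nat_lit 29) (nat_lit 5) (nat_lit 34) (nat_lit 5) (nat_lit 367) (nat_lit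 364) (nat_lit 169)) (XT.nd (nat_lit 78) (nat_lit 304) (nat_lit 0) (XT.lf (nat_lit 0) (nat_lit 17177264509871) (nat_lit 304) (nat_lit 14662211958674) (nat_lit 76) (nat_lit 9915631436257) (nat_lit 30) (nat_lit 5) (nat_lit 34) (nat_lit 5) (nat_lit 31) (nat_lit 5) (nat_lit 368) (nat_lit 364) (nat_lit 168)) (XT.lf (nat_lit 0) (nat_lit 7890300102528) (nat_lit 304) (nat_lit 14911098798413) (nat_lit 380) (nat_lit 22340876760439) (nat_lit 26) (nat_lit 5) (nat_lit 30) (nat_lit 5) (nat_lit 31) (nat_lit 5) (nat_lit 369) (nat_lit 364) (nat_lit 167)))) (XT.nd (nat_lit 78) (nat_lit 152) (nat_lit 0) (XT.lf (nat_lit 0) (nat_lit 30260760524686) (nat_lit 380) (nat_lit 13674205119691) (nat_lit 76) (nat_lit 4953811875966) (nat_lit 26) (nat_lit 5) (nat_lit 31) (nat_lit 5) (nat_lit 27) (nat_lit 5) (nat_lit 370) (nat_lit 364) (nat_lit 166)) (XT.nd (nat_lit 78) (nat_lit 0) (nat_lit 0) (XT.lf (nat_lit 0) (nat_lit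 13974264193760) (nat_lit 152) (nat_lit 26153459002033) (nat_lit 228) (nat_lit 12876226941788) (nat_lit 24) (nat_lit 5) (nat_lit 26) (nat_lit 5) (nat_lit 27) (nat_lit 5) (nat_lit 371) (nat_lit 364) (nat_lit 165)) (XT.lf (nat_lit 0) (nat_lit 47306798093242) (nat_lit 152) (nat_lit 4882720169211) (nat_lit 228) (nat_lit 5439662185717) (nat_lit 24) (nat_lit 5) (nat_lit 26) (nat_lit 5) (nat_lit 27) (nat_lit 5) (nat_lit 372) (nat_lit 364) (nat_lit 164)))))) (XT.nd (nat_lit 46410) (nat_lit 0) (nat_lit 1140) (XT.nd (nat_lit 1404) (nat_lit 0) (nat_lit 0) (XT.nd (nat_lit 78) (nat_lit 988) (nat_lit 0) (XT.lf (nat_lit 0) (nat_lit 4726534949040) (nat_lit 152) (nat_lit 38873637241252) (nat_lit 76) (nat_lit 19045006431453) (nat_lit 22) (nat_lit 5) (nat_lit 24) (nat_lit 5) (nat_lit 23) (nat_lit 5) (nat_lit 373) (nat_lit 364) (nat_lit 163)) (XT.nd (nat_lit 1248) (nat_lit 988) (nat_lit 0) (XT.lf (nat_lit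 0) (nat_lit 16658527662489) (nat_lit 152) (nat_lit 4710227225244) (nat_lit 76) (nat_lit 46886299333172) (nat_lit 22) (nat_lit 5) (nat_lit 24) (nat_lit 5) (nat_lit 23) (nat_lit 5) (nat_lit 374) (nat_lit 364) (nat_lit 162)) (XT.lf (nat_lit 0) (nat_lit 114680801875275) (nat_lit 76) (nat_lit 133484916735397) (nat_lit 76) (nat_lit 72882567817459) (nat_lit 9) (nat_lit 4) (nat_lit 10) (nat_lit 5) (nat_lit 10) (nat_lit 4) (nat_lit 390) (nat_lit 364) (nat_lit 146)))) (XT.nd (nat_lit 44850) (nat_lit 0) (nat_lit 1444) (XT.lf (nat_lit 0) (nat_lit 278152330885506) (nat_lit 76) (nat_lit 70399177757227) (nat_lit 76) (nat_lit 9796828839289) (nat_lit 9) (nat_lit 4) (nat_lit 10) (nat_lit 5) (nat_lit 10) (nat_lit 4) (nat_lit 391) (nat_lit 364) (nat_lit 145)) (XT.nd (nat_lit 78) (nat_lit 0) (nat_lit 0) (XT.lf (nat_lit 0) (nat_lit 4328648567532) (nat_lit 380) (nat_lit 6783732841157) (nat_lit 380) (nat_lit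 6783732841157) (nat_lit 28) (nat_lit 3) (nat_lit 33) (nat_lit 3) (nat_lit 33) (nat_lit 5) (nat_lit 365) (nat_lit 365) (nat_lit 170)) (XT.lf (nat_lit 76) (nat_lit 4174379094901) (nat_lit 0) (nat_lit 5305067461775) (nat_lit 380) (nat_lit 28971271260024) (nat_lit 29) (nat_lit 5) (nat_lit 28) (nat_lit 3) (nat_lit 33) (nat_lit 5) (nat_lit 366) (nat_lit 365) (nat_lit 169))))) (XT.nd (nat_lit 234) (nat_lit 380) (nat_lit 0) (XT.nd (nat_lit 78) (nat_lit 0) (nat_lit 0) (XT.lf (nat_lit 0) (nat_lit 11753926903407) (nat_lit 304) (nat_lit 15919100624248) (nat_lit 380) (nat_lit 13635601726818) (nat_lit 29) (nat_lit 5) (nat_lit 33) (nat_lit 5) (nat_lit 34) (nat_lit 5) (nat_lit 367) (nat_lit 365) (nat_lit 168)) (XT.nd (nat_lit 78) (nat_lit 0) (nat_lit 76) (XT.lf (nat_lit 76) (nat_lit 5421785791247) (nat_lit 0) (nat_lit 9424920358606) (nat_lit 380) (nat_lit 29676952230905) (nat_lit 30) (nat_lit 5) (nat_lit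 29) (nat_lit 5) (nat_lit 34) (nat_lit 5) (nat_lit 368) (nat_lit 365) (nat_lit 167)) (XT.lf (nat_lit 0) (nat_lit 19753854186423) (nat_lit 304) (nat_lit 16861543752404) (nat_lit 76) (nat_lit 11402976151685) (nat_lit 30) (nat_lit 5) (nat_lit 34) (nat_lit 5) (nat_lit 31) (nat_lit 5) (nat_lit 369) (nat_lit 365) (nat_lit 166)))) (XT.nd (nat_lit 78) (nat_lit 152) (nat_lit 0) (XT.lf (nat_lit 0) (nat_lit 9073845117976) (nat_lit 304) (nat_lit 17147763618171) (nat_lit 380) (nat_lit 25692008274431) (nat_lit 26) (nat_lit 5) (nat_lit 30) (nat_lit 5) (nat_lit 31) (nat_lit 5) (nat_lit 370) (nat_lit 365) (nat_lit 165)) (XT.nd (nat_lit 78) (nat_lit 152) (nat_lit 0) (XT.lf (nat_lit 0) (nat_lit 34799874603445) (nat_lit 380) (nat_lit 15725335887577) (nat_lit 76) (nat_lit 5696883657364) (nat_lit 26) (nat_lit 5) (nat_lit 31) (nat_lit 5) (nat_lit 27) (nat_lit 5) (nat_lit 371) (nat_lit 365) (nat_lit 164)) (XT.lf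 (nat_lit 0) (nat_lit 16070403822888) (nat_lit 152) (nat_lit 30076477852325) (nat_lit 228) (nat_lit 14807660982997) (nat_lit 24) (nat_lit 5) (nat_lit 26) (nat_lit 5) (nat_lit 27) (nat_lit 5) (nat_lit 372) (nat_lit 365) (nat_lit 163))))))))
noncomputable def xc126 : XT := (XT.nd (nat_lit 140478) (nat_lit 0) (nat_lit 152) (XT.nd (nat_lit 93288) (nat_lit 0) (nat_lit 152) (XT.nd (nat_lit 46566) (nat_lit 0) (nat_lit 152) (XT.nd (nat_lit 46332) (nat_lit 0) (nat_lit 456) (XT.nd (nat_lit 78) (nat_lit 152) (nat_lit 0) (XT.lf (nat_lit 0) (nat_lit 54402817807284) (nat_lit 152) (nat_lit 5615128194582) (nat_lit 228) (nat_lit 6255611513524) (nat_lit 24) (nat_lit 5) (nat_lit 26) (nat_lit 5) (nat_lit 27) (nat_lit 5) (nat_lit 373) (nat_lit 365) (nat_lit 162)) (XT.lf (nat_lit 0) (nat_lit 5435515191440) (nat_lit 152) (nat_lit 44704682827376) (nat_lit 76) (nat_lit 21901757396184) (nat_lit 22) (nat_lit 5) (nat_lit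 24) (nat_lit 5) (nat_lit 23) (nat_lit 5) (nat_lit 374) (nat_lit 365) (nat_lit 161))) (XT.nd (nat_lit 78) (nat_lit 0) (nat_lit 0) (XT.lf (nat_lit 0) (nat_lit 4977945852707) (nat_lit 380) (nat_lit 7801292767305) (nat_lit 380) (nat_lit 7801292767305) (nat_lit 28) (nat_lit 3) (nat_lit 33) (nat_lit 3) (nat_lit 33) (nat_lit 5) (nat_lit 366) (nat_lit 366) (nat_lit 168)) (XT.nd (nat_lit 78) (nat_lit 0) (nat_lit 76) (XT.lf (nat_lit 76) (nat_lit 4800535959186) (nat_lit 0) (nat_lit 6100827581072) (nat_lit 380) (nat_lit 33316961948935) (nat_lit 29) (nat_lit 5) (nat_lit 28) (nat_lit 3) (nat_lit 33) (nat_lit 5) (nat_lit 367) (nat_lit 366) (nat_lit 167)) (XT.lf (nat_lit 0) (nat_lit 13517015938987) (nat_lit 304) (nat_lit 18306965717831) (nat_lit 380) (nat_lit 15680941985817) (nat_lit 29) (nat_lit 5) (nat_lit 33) (nat_lit 5) (nat_lit 34) (nat_lit 5) (nat_lit 368) (nat_lit 366) (nat_lit 166))))) (XT.nd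 (nat_lit 234) (nat_lit 152) (nat_lit 0) (XT.nd (nat_lit 78) (nat_lit 228) (nat_lit 0) (XT.lf (nat_lit 76) (nat_lit 6235053659986) (nat_lit 0) (nat_lit 10838658412407) (nat_lit 380) (nat_lit 34128495065470) (nat_lit 30) (nat_lit 5) (nat_lit 29) (nat_lit 5) (nat_lit 34) (nat_lit 5) (nat_lit 369) (nat_lit 366) (nat_lit 165)) (XT.nd (nat_lit 78) (nat_lit 304) (nat_lit 0) (XT.lf (nat_lit 0) (nat_lit 22716932314440) (nat_lit 304) (nat_lit 19390775315210) (nat_lit 76) (nat_lit 13113422574430) (nat_lit 30) (nat_lit 5) (nat_lit 34) (nat_lit 5) (nat_lit 31) (nat_lit 5) (nat_lit 370) (nat_lit 366) (nat_lit 164)) (XT.lf (nat_lit 0) (nat_lit 10434921885724) (nat_lit 304) (nat_lit 19719928160894) (nat_lit 380) (nat_lit 29545809515539) (nat_lit 26) (nat_lit 5) (nat_lit 30) (nat_lit 5) (nat_lit 31) (nat_lit 5) (nat_lit 371) (nat_lit 366) (nat_lit 163)))) (XT.nd (nat_lit 78) (nat_lit 152) (nat_lit 0) (XT.lf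 (nat_lit 0) (nat_lit 40019855794005) (nat_lit 380) (nat_lit 18084136270662) (nat_lit 76) (nat_lit 6551416205971) (nat_lit 26) (nat_lit 5) (nat_lit 31) (nat_lit 5) (nat_lit 27) (nat_lit 5) (nat_lit 372) (nat_lit 366) (nat_lit 162)) (XT.nd (nat_lit 78) (nat_lit 0) (nat_lit 0) (XT.lf (nat_lit 0) (nat_lit 18480964396371) (nat_lit 152) (nat_lit 34587949530164) (nat_lit 228) (nat_lit 17028810130402) (nat_lit 24) (nat_lit 5) (nat_lit 26) (nat_lit 5) (nat_lit 27) (nat_lit 5) (nat_lit 373) (nat_lit 366) (nat_lit 161)) (XT.lf (nat_lit 0) (nat_lit 62563240478419) (nat_lit 152) (nat_lit 6457397423761) (nat_lit 228) (nat_lit 7193953240513) (nat_lit 24) (nat_lit 5) (nat_lit 26) (nat_lit 5) (nat_lit 27) (nat_lit 5) (nat_lit 374) (nat_lit 366) (nat_lit 160)))))) (XT.nd (nat_lit 390) (nat_lit 304) (nat_lit 0) (XT.nd (nat_lit 156) (nat_lit 0) (nat_lit 76) (XT.nd (nat_lit 78) (nat_lit 0) (nat_lit 0) (XT.lf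 (nat_lit 0) (nat_lit 5724637730647) (nat_lit 380) (nat_lit 8971486682381) (nat_lit 380) (nat_lit 8971486682381) (nat_lit 28) (nat_lit 3) (nat_lit 33) (nat_lit 3) (nat_lit 33) (nat_lit 5) (nat_lit 367) (nat_lit 367) (nat_lit 166)) (XT.lf (nat_lit 76) (nat_lit 5520616353101) (nat_lit 0) (nat_lit 7015951718257) (nat_lit 380) (nat_lit 38314506241205) (nat_lit 29) (nat_lit 5) (nat_lit 28) (nat_lit 3) (nat_lit 33) (nat_lit 5) (nat_lit 368) (nat_lit 367) (nat_lit 165))) (XT.nd (nat_lit 78) (nat_lit 0) (nat_lit 0) (XT.lf (nat_lit 0) (nat_lit 15544568329887) (nat_lit 304) (nat_lit 21053010575464) (nat_lit 380) (nat_lit 18033083283671) (nat_lit 29) (nat_lit 5) (nat_lit 33) (nat_lit 5) (nat_lit 34) (nat_lit 5) (nat_lit 369) (nat_lit 367) (nat_lit 164)) (XT.nd (nat_lit 78) (nat_lit 0) (nat_lit 76) (XT.lf (nat_lit 76) (nat_lit 7170311709024) (nat_lit 0) (nat_lit 12464457174275) (nat_lit 380) (nat_lit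 39247769325236) (nat_lit 30) (nat_lit 5) (nat_lit 29) (nat_lit 5) (nat_lit 34) (nat_lit 5) (nat_lit 370) (nat_lit 367) (nat_lit 163)) (XT.lf (nat_lit 0) (nat_lit 26124472161646) (nat_lit 304) (nat_lit 22299391612452) (nat_lit 76) (nat_lit 15080435960589) (nat_lit 30) (nat_lit 5) (nat_lit 34) (nat_lit 5) (nat_lit 31) (nat_lit 5) (nat_lit 371) (nat_lit 367) (nat_lit 162))))) (XT.nd (nat_lit 46566) (nat_lit 0) (nat_lit 304) (XT.nd (nat_lit 78) (nat_lit 152) (nat_lit 0) (XT.lf (nat_lit 0) (nat_lit 12000160168621) (nat_lit 304) (nat_lit 22677917385026) (nat_lit 380) (nat_lit 33977680942828) (nat_lit 26) (nat_lit 5) (nat_lit 30) (nat_lit 5) (nat_lit 31) (nat_lit 5) (nat_lit 372) (nat_lit 367) (nat_lit 161)) (XT.nd (nat_lit 78) (nat_lit 152) (nat_lit 0) (XT.lf (nat_lit 0) (nat_lit 46022834163138) (nat_lit 380) (nat_lit 20796756711223) (nat_lit 76) (nat_lit 7534128636869) (nat_lit 26) (nat_lit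 5) (nat_lit 31) (nat_lit 5) (nat_lit 27) (nat_lit 5) (nat_lit 373) (nat_lit 367) (nat_lit 160)) (XT.lf (nat_lit 0) (nat_lit 21253109055863) (nat_lit 152) (nat_lit 39776141959681) (nat_lit 228) (nat_lit 19583131649928) (nat_lit 24) (nat_lit 5) (nat_lit 26) (nat_lit 5) (nat_lit 27) (nat_lit 5) (nat_lit 374) (nat_lit 367) (nat_lit 159)))) (XT.nd (nat_lit 78) (nat_lit 0) (nat_lit 0) (XT.lf (nat_lit 0) (nat_lit 6583333390270) (nat_lit 380) (nat_lit 10317209684724) (nat_lit 380) (nat_lit 10317209684724) (nat_lit 28) (nat_lit 3) (nat_lit 33) (nat_lit 3) (nat_lit 33) (nat_lit 5) (nat_lit 368) (nat_lit 368) (nat_lit 164)) (XT.nd (nat_lit 78) (nat_lit 0) (nat_lit 76) (XT.lf (nat_lit 76) (nat_lit 6348708806094) (nat_lit 0) (nat_lit 8068344476013) (nat_lit 380) (nat_lit 44061682177333) (nat_lit 29) (nat_lit 5) (nat_lit 28) (nat_lit 3) (nat_lit 33) (nat_lit 5) (nat_lit 369) (nat_lit 368) (nat_lit 163))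 (XT.lf (nat_lit 0) (nat_lit 17876253579409) (nat_lit 304) (nat_lit 24210962161753) (nat_lit 380) (nat_lit 20738045776208) (nat_lit 29) (nat_lit 5) (nat_lit 33) (nat_lit 5) (nat_lit 34) (nat_lit 5) (nat_lit 370) (nat_lit 368) (nat_lit 162))))))) (XT.nd (nat_lit 47190) (nat_lit 0) (nat_lit 152) (XT.nd (nat_lit 46722) (nat_lit 0) (nat_lit 152) (XT.nd (nat_lit 156) (nat_lit 380) (nat_lit 0) (XT.nd (nat_lit 78) (nat_lit 0) (nat_lit 76) (XT.lf (nat_lit 76) (nat_lit 8245858465407) (nat_lit 0) (nat_lit 14334125750423) (nat_lit 380) (nat_lit 45134934723981) (nat_lit 30) (nat_lit 5) (nat_lit 29) (nat_lit 5) (nat_lit 34) (nat_lit 5) (nat_lit 371) (nat_lit 368) (nat_lit 161)) (XT.lf (nat_lit 0) (nat_lit 30043142985924) (nat_lit 304) (nat_lit 25644300354289) (nat_lit 76) (nat_lit 17342501354673) (nat_lit 30) (nat_lit 5) (nat_lit 34) (nat_lit 5) (nat_lit 31) (nat_lit 5) (nat_lit 372) (nat_lit 368) (nat_lit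 160))) (XT.nd (nat_lit 78) (nat_lit 152) (nat_lit 0) (XT.lf (nat_lit 0) (nat_lit 13800184193944) (nat_lit 304) (nat_lit 26079604992779) (nat_lit 380) (nat_lit 39074333084220) (nat_lit 26) (nat_lit 5) (nat_lit 30) (nat_lit 5) (nat_lit 31) (nat_lit 5) (nat_lit 373) (nat_lit 368) (nat_lit 159)) (XT.nd (nat_lit 78) (nat_lit 152) (nat_lit 0) (XT.lf (nat_lit 0) (nat_lit 52926259287632) (nat_lit 380) (nat_lit 23916270217878) (nat_lit 76) (nat_lit 8664247932400) (nat_lit 26) (nat_lit 5) (nat_lit 31) (nat_lit 5) (nat_lit 27) (nat_lit 5) (nat_lit 374) (nat_lit 368) (nat_lit 158)) (XT.lf (nat_lit 0) (nat_lit 24441075414270) (nat_lit 152) (nat_lit 45742563253628) (nat_lit 228) (nat_lit 22520601397392) (nat_lit 24) (nat_lit 5) (nat_lit 26) (nat_lit 5) (nat_lit 27) (nat_lit 5) (nat_lit 375) (nat_lit 368) (nat_lit 157))))) (XT.nd (nat_lit 234) (nat_lit 152) (nat_lit 0) (XT.nd (nat_lit 78) (nat_lit 0)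 (nat_lit 0) (XT.lf (nat_lit 0) (nat_lit 7570833398830) (nat_lit 380) (nat_lit 11864791137421) (nat_lit 380) (nat_lit 11864791137421) (nat_lit 28) (nat_lit 3) (nat_lit 33) (nat_lit 3) (nat_lit 33) (nat_lit 5) (nat_lit 369) (nat_lit 369) (nat_lit 162)) (XT.nd (nat_lit 78) (nat_lit 0) (nat_lit 76) (XT.lf (nat_lit 76) (nat_lit 7301015127030) (nat_lit 0) (nat_lit 9278596147428) (nat_lit 380) (nat_lit 50670934503893) (nat_lit 29) (nat_lit 5) (nat_lit 28) (nat_lit 3) (nat_lit 33) (nat_lit 5) (nat_lit 370) (nat_lit 369) (nat_lit 161)) (XT.lf (nat_lit 0) (nat_lit 20557691616351) (nat_lit 304) (nat_lit 27842606485992) (nat_lit 380) (nat_lit 23848752642628) (nat_lit 29) (nat_lit 5) (nat_lit 33) (nat_lit 5) (nat_lit 34) (nat_lit 5) (nat_lit 371) (nat_lit 369) (nat_lit 160)))) (XT.nd (nat_lit 78) (nat_lit 228) (nat_lit 0) (XT.lf (nat_lit 76) (nat_lit 9482737235241) (nat_lit 0) (nat_lit 16484244612990)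 (nat_lit 380) (nat_lit 51905174932547) (nat_lit 30) (nat_lit 5) (nat_lit 29) (nat_lit 5) (nat_lit 34) (nat_lit 5) (nat_lit 372) (nat_lit 369) (nat_lit 159)) (XT.nd (nat_lit 78) (nat_lit 304) (nat_lit 0) (XT.lf (nat_lit 0) (nat_lit 34549614433836) (nat_lit 304) (nat_lit 29490945407408) (nat_lit 76) (nat_lit 19943876557871) (nat_lit 30) (nat_lit 5) (nat_lit 34) (nat_lit 5) (nat_lit 31) (nat_lit 5) (nat_lit 373) (nat_lit 369) (nat_lit 158)) (XT.lf (nat_lit 0) (nat_lit 15870211823058) (nat_lit 304) (nat_lit 29991545741694) (nat_lit 380) (nat_lit 44935483046829) (nat_lit 26) (nat_lit 5) (nat_lit 30) (nat_lit 5) (nat_lit 31) (nat_lit 5) (nat_lit 374) (nat_lit 369) (nat_lit 157)))))) (XT.nd (nat_lit 46800) (nat_lit 0) (nat_lit 0) (XT.nd (nat_lit 46566) (nat_lit 0) (nat_lit 152) (XT.nd (nat_lit 46488) (nat_lit 0) (nat_lit 152) (XT.lf (nat_lit 0) (nat_lit 60865198180796) (nat_lit 380) (nat_lit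 27503710750537) (nat_lit 76) (nat_lit 9963885122262) (nat_lit 26) (nat_lit 5) (nat_lit 31) (nat_lit 5) (nat_lit 27) (nat_lit 5) (nat_lit 375) (nat_lit 369) (nat_lit 156)) (XT.lf (nat_lit 0) (nat_lit 8706458408670) (nat_lit 380) (nat_lit 13644509808026) (nat_lit 380) (nat_lit 13644509808026) (nat_lit 28) (nat_lit 3) (nat_lit 33) (nat_lit 3) (nat_lit 33) (nat_lit 5) (nat_lit 370) (nat_lit 370) (nat_lit 160))) (XT.nd (nat_lit 78) (nat_lit 0) (nat_lit 76) (XT.lf (nat_lit 76) (nat_lit 8396167396100) (nat_lit 0) (nat_lit 10670385569553) (nat_lit 380) (nat_lit 58271574679447) (nat_lit 29) (nat_lit 5) (nat_lit 28) (nat_lit 3) (nat_lit 33) (nat_lit 5) (nat_lit 371) (nat_lit 370) (nat_lit 159)) (XT.nd (nat_lit 78) (nat_lit 0) (nat_lit 0) (XT.lf (nat_lit 0) (nat_lit 23641345358826) (nat_lit 304) (nat_lit 32018997458873) (nat_lit 380) (nat_lit 27426065539015) (nat_lit 29) (nat_lit 5) (nat_lit 33)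 (nat_lit 5) (nat_lit 34) (nat_lit 5) (nat_lit 372) (nat_lit 370) (nat_lit 158)) (XT.lf (nat_lit 76) (nat_lit 10905147820544) (nat_lit 0) (nat_lit 18956881304941) (nat_lit 380) (nat_lit 59690951172406) (nat_lit 30) (nat_lit 5) (nat_lit 29) (nat_lit 5) (nat_lit 34) (nat_lit 5) (nat_lit 373) (nat_lit 370) (nat_lit 157))))) (XT.nd (nat_lit 46644) (nat_lit 0) (nat_lit 152) (XT.nd (nat_lit 78) (nat_lit 304) (nat_lit 0) (XT.lf (nat_lit 0) (nat_lit 39732056598928) (nat_lit 304) (nat_lit 33914587218502) (nat_lit 76) (nat_lit 22935458041549) (nat_lit 30) (nat_lit 5) (nat_lit 34) (nat_lit 5) (nat_lit 31) (nat_lit 5) (nat_lit 374) (nat_lit 370) (nat_lit 156)) (XT.nd (nat_lit 78) (nat_lit 0) (nat_lit 0) (XT.lf (nat_lit 0) (nat_lit 18250743596533) (nat_lit 304) (nat_lit 34490277602948) (nat_lit 380) (nat_lit 51675805503835) (nat_lit 26) (nat_lit 5) (nat_lit 30) (nat_lit 5) (nat_lit 31) (nat_lit 5) (nat_lit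 375) (nat_lit 370) (nat_lit 155)) (XT.lf (nat_lit 0) (nat_lit 69994977907929) (nat_lit 380) (nat_lit 31629267363101) (nat_lit 76) (nat_lit 11458467890602) (nat_lit 26) (nat_lit 5) (nat_lit 31) (nat_lit 5) (nat_lit 27) (nat_lit 5) (nat_lit 376) (nat_lit 370) (nat_lit 154)))) (XT.nd (nat_lit 78) (nat_lit 0) (nat_lit 0) (XT.lf (nat_lit 0) (nat_lit 10012427169981) (nat_lit 380) (nat_lit 15691186279223) (nat_lit 380) (nat_lit 15691186279223) (nat_lit 28) (nat_lit 3) (nat_lit 33) (nat_lit 3) (nat_lit 33) (nat_lit 5) (nat_lit 371) (nat_lit 371) (nat_lit 158)) (XT.nd (nat_lit 78) (nat_lit 0) (nat_lit 76) (XT.lf (nat_lit 76) (nat_lit 9655592505528) (nat_lit 0) (nat_lit 12270943404993) (nat_lit 380) (nat_lit 67012310881341) (nat_lit 29) (nat_lit 5) (nat_lit 28) (nat_lit 3) (nat_lit 33) (nat_lit 5) (nat_lit 372) (nat_lit 371) (nat_lit 157)) (XT.lf (nat_lit 0) (nat_lit 27187547162667) (nat_lit 304)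 (nat_lit 36821847077690) (nat_lit 380) (nat_lit 31539975369862) (nat_lit 29) (nat_lit 5) (nat_lit 33) (nat_lit 5) (nat_lit 34) (nat_lit 5) (nat_lit 373) (nat_lit 371) (nat_lit 156))))))))
noncomputable def xc127 : XT := (XT.nd (nat_lit 187590) (nat_lit 0) (nat_lit 152) (XT.nd (nat_lit 93678) (nat_lit 0) (nat_lit 0) (XT.nd (nat_lit 46800) (nat_lit 0) (nat_lit 0) (XT.nd (nat_lit 156) (nat_lit 228) (nat_lit 0) (XT.nd (nat_lit 78) (nat_lit 0) (nat_lit 76) (XT.lf (nat_lit 76) (nat_lit 12540919993639) (nat_lit 0) (nat_lit 21800413500685) (nat_lit 380) (nat_lit 68644593848249) (nat_lit 30) (nat_lit 5) (nat_lit 29) (nat_lit 5) (nat_lit 34) (nat_lit 5) (nat_lit 374) (nat_lit 371) (nat_lit 155)) (XT.lf (nat_lit 0) (nat_lit 45691865088781) (nat_lit 304) (nat_lit 39001775301264) (nat_lit 76) (nat_lit 26375776747780) (nat_lit 30) (nat_lit 5) (nat_lit 34) (nat_lit 5) (nat_lit 31) (nat_lit 5) (nat_lit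 375) (nat_lit 371) (nat_lit 154))) (XT.nd (nat_lit 78) (nat_lit 0) (nat_lit 0) (XT.lf (nat_lit 0) (nat_lit 20988355136027) (nat_lit 304) (nat_lit 39663819243389) (nat_lit 380) (nat_lit 59427176329396) (nat_lit 26) (nat_lit 5) (nat_lit 30) (nat_lit 5) (nat_lit 31) (nat_lit 5) (nat_lit 376) (nat_lit 371) (nat_lit 153)) (XT.nd (nat_lit 46488) (nat_lit 0) (nat_lit 152) (XT.lf (nat_lit 0) (nat_lit 80494224594129) (nat_lit 380) (nat_lit 36373657467553) (nat_lit 76) (nat_lit 13177238074192) (nat_lit 26) (nat_lit 5) (nat_lit 31) (nat_lit 5) (nat_lit 27) (nat_lit 5) (nat_lit 377) (nat_lit 371) (nat_lit 152)) (XT.lf (nat_lit 0) (nat_lit 11514291245487) (nat_lit 380) (nat_lit 18044864221102) (nat_lit 380) (nat_lit 18044864221102) (nat_lit 28) (nat_lit 3) (nat_lit 33) (nat_lit 3) (nat_lit 33) (nat_lit 5) (nat_lit 372) (nat_lit 372) (nat_lit 156))))) (XT.nd (nat_lit 234) (nat_lit 152) (nat_lit 0) (XT.nd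 (nat_lit 78) (nat_lit 0) (nat_lit 76) (XT.lf (nat_lit 76) (nat_lit 11103931381367) (nat_lit 0) (nat_lit 14111584915748) (nat_lit 380) (nat_lit 77064157513525) (nat_lit 29) (nat_lit 5) (nat_lit 28) (nat_lit 3) (nat_lit 33) (nat_lit 5) (nat_lit 373) (nat_lit 372) (nat_lit 155)) (XT.nd (nat_lit 78) (nat_lit 0) (nat_lit 0) (XT.lf (nat_lit 0) (nat_lit 31265679237080) (nat_lit 304) (nat_lit 42345124139334) (nat_lit 380) (nat_lit 36270971675336) (nat_lit 29) (nat_lit 5) (nat_lit 33) (nat_lit 5) (nat_lit 34) (nat_lit 5) (nat_lit 374) (nat_lit 372) (nat_lit 154)) (XT.lf (nat_lit 76) (nat_lit 14422057992695) (nat_lit 0) (nat_lit 25070475525790) (nat_lit 380) (nat_lit 78941282925474) (nat_lit 30) (nat_lit 5) (nat_lit 29) (nat_lit 5) (nat_lit 34) (nat_lit 5) (nat_lit 375) (nat_lit 372) (nat_lit 153)))) (XT.nd (nat_lit 78) (nat_lit 304) (nat_lit 0) (XT.lf (nat_lit 0) (nat_lit 52545644852108) (nat_lit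 304) (nat_lit 44852041596443) (nat_lit 76) (nat_lit 30332143259945) (nat_lit 30) (nat_lit 5) (nat_lit 34) (nat_lit 5) (nat_lit 31) (nat_lit 5) (nat_lit 376) (nat_lit 372) (nat_lit 152)) (XT.nd (nat_lit 78) (nat_lit 0) (nat_lit 0) (XT.lf (nat_lit 0) (nat_lit 24136608406440) (nat_lit 304) (nat_lit 45613392129897) (nat_lit 380) (nat_lit 68341252778796) (nat_lit 26) (nat_lit 5) (nat_lit 30) (nat_lit 5) (nat_lit 31) (nat_lit 5) (nat_lit 377) (nat_lit 372) (nat_lit 151)) (XT.lf (nat_lit 0) (nat_lit 92568358283256) (nat_lit 380) (nat_lit 41829706087677) (nat_lit 76) (nat_lit 15153823785322) (nat_lit 26) (nat_lit 5) (nat_lit 31) (nat_lit 5) (nat_lit 27) (nat_lit 5) (nat_lit 378) (nat_lit 372) (nat_lit 150)))))) (XT.nd (nat_lit 390) (nat_lit 152) (nat_lit 0) (XT.nd (nat_lit 156) (nat_lit 0) (nat_lit 76) (XT.nd (nat_lit 78) (nat_lit 0) (nat_lit 0) (XT.lf (nat_lit 0) (nat_lit 13241434932316) (nat_lit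 380) (nat_lit 20751593854264) (nat_lit 380) (nat_lit 20751593854264) (nat_lit 28) (nat_lit 3) (nat_lit 33) (nat_lit 3) (nat_lit 33) (nat_lit 5) (nat_lit 373) (nat_lit 373) (nat_lit 154)) (XT.lf (nat_lit 76) (nat_lit 12769521088578) (nat_lit 0) (nat_lit 16228322653115) (nat_lit 380) (nat_lit 88623781140541) (nat_lit 29) (nat_lit 5) (nat_lit 28) (nat_lit 3) (nat_lit 33) (nat_lit 5) (nat_lit 374) (nat_lit 373) (nat_lit 153))) (XT.nd (nat_lit 78) (nat_lit 0) (nat_lit 0) (XT.lf (nat_lit 0) (nat_lit 35955531122651) (nat_lit 304) (nat_lit 48696892760227) (nat_lit 380) (nat_lit 41711617426633) (nat_lit 29) (nat_lit 5) (nat_lit 33) (nat_lit 5) (nat_lit 34) (nat_lit 5) (nat_lit 375) (nat_lit 373) (nat_lit 152)) (XT.nd (nat_lit 78) (nat_lit 0) (nat_lit 76) (XT.lf (nat_lit 76) (nat_lit 16585366691606) (nat_lit 0) (nat_lit 28831046854660) (nat_lit 380) (nat_lit 90782475364285) (nat_lit 30) (nat_lit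 5) (nat_lit 29) (nat_lit 5) (nat_lit 34) (nat_lit 5) (nat_lit 376) (nat_lit 373) (nat_lit 151)) (XT.lf (nat_lit 0) (nat_lit 60427491579932) (nat_lit 304) (nat_lit 51579847835903) (nat_lit 76) (nat_lit 34881964748935) (nat_lit 30) (nat_lit 5) (nat_lit 34) (nat_lit 5) (nat_lit 31) (nat_lit 5) (nat_lit 377) (nat_lit 373) (nat_lit 150))))) (XT.nd (nat_lit 46722) (nat_lit 0) (nat_lit 228) (XT.nd (nat_lit 46566) (nat_lit 0) (nat_lit 152) (XT.lf (nat_lit 0) (nat_lit 27757099667413) (nat_lit 304) (nat_lit 52455400949382) (nat_lit 380) (nat_lit 78592440695607) (nat_lit 26) (nat_lit 5) (nat_lit 30) (nat_lit 5) (nat_lit 31) (nat_lit 5) (nat_lit 378) (nat_lit 373) (nat_lit 149)) (XT.nd (nat_lit 78) (nat_lit 0) (nat_lit 0) (XT.lf (nat_lit 0) (nat_lit 15227650172169) (nat_lit 380) (nat_lit 23864332932401) (nat_lit 380) (nat_lit 23864332932401) (nat_lit 28) (nat_lit 3) (nat_lit 33) (nat_lit 3) (nat_lit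 33) (nat_lit 5) (nat_lit 374) (nat_lit 374) (nat_lit 152)) (XT.lf (nat_lit 76) (nat_lit 14684949251871) (nat_lit 0) (nat_lit 18662571051085) (nat_lit 380) (nat_lit 101917348311612) (nat_lit 29) (nat_lit 5) (nat_lit 28) (nat_lit 3) (nat_lit 33) (nat_lit 5) (nat_lit 375) (nat_lit 374) (nat_lit 151)))) (XT.nd (nat_lit 78) (nat_lit 0) (nat_lit 0) (XT.lf (nat_lit 0) (nat_lit 41348860791057) (nat_lit 304) (nat_lit 56001426674254) (nat_lit 380) (nat_lit 47968360040626) (nat_lit 29) (nat_lit 5) (nat_lit 33) (nat_lit 5) (nat_lit 34) (nat_lit 5) (nat_lit 376) (nat_lit 374) (nat_lit 150)) (XT.nd (nat_lit 78) (nat_lit 0) (nat_lit 76) (XT.lf (nat_lit 76) (nat_lit 19073171695353) (nat_lit 0) (nat_lit 33155703882859) (nat_lit 380) (nat_lit 104399846668920) (nat_lit 30) (nat_lit 5) (nat_lit 29) (nat_lit 5) (nat_lit 34) (nat_lit 5) (nat_lit 377) (nat_lit 374) (nat_lit 149)) (XT.lf (nat_lit 0) (nat_lit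 69491615316928) (nat_lit 304) (nat_lit 59316825011282) (nat_lit 76) (nat_lit 40114259461276) (nat_lit 30) (nat_lit 5) (nat_lit 34) (nat_lit 5) (nat_lit 31) (nat_lit 5) (nat_lit 378) (nat_lit 374) (nat_lit 148))))))) (XT.nd (nat_lit 234858) (nat_lit 0) (nat_lit 0) (XT.nd (nat_lit 47034) (nat_lit 0) (nat_lit 0) (XT.nd (nat_lit 156) (nat_lit 0) (nat_lit 0) (XT.nd (nat_lit 78) (nat_lit 0) (nat_lit 0) (XT.lf (nat_lit 0) (nat_lit 17511797697998) (nat_lit 380) (nat_lit 27443982872259) (nat_lit 380) (nat_lit 27443982872259) (nat_lit 28) (nat_lit 3) (nat_lit 33) (nat_lit 3) (nat_lit 33) (nat_lit 5) (nat_lit 375) (nat_lit 375) (nat_lit 150)) (XT.lf (nat_lit 76) (nat_lit 16887691639656) (nat_lit 0) (nat_lit 21461956708751) (nat_lit 380) (nat_lit 117204950558347) (nat_lit 29) (nat_lit 5) (nat_lit 28) (nat_lit 3) (nat_lit 33) (nat_lit 5) (nat_lit 376) (nat_lit 375) (nat_lit 149))) (XT.nd (nat_lit 78)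 (nat_lit 76) (nat_lit 0) (XT.lf (nat_lit 0) (nat_lit 47551189909721) (nat_lit 304) (nat_lit 64401640675389) (nat_lit 380) (nat_lit 55163614046717) (nat_lit 29) (nat_lit 5) (nat_lit 33) (nat_lit 5) (nat_lit 34) (nat_lit 5) (nat_lit 377) (nat_lit 375) (nat_lit 148)) (XT.nd (nat_lit 46722) (nat_lit 76) (nat_lit 0) (XT.lf (nat_lit 76) (nat_lit 21934147449661) (nat_lit 0) (nat_lit 38129059465289) (nat_lit 380) (nat_lit 120059823669252) (nat_lit 30) (nat_lit 5) (nat_lit 29) (nat_lit 5) (nat_lit 34) (nat_lit 5) (nat_lit 378) (nat_lit 375) (nat_lit 147)) (XT.lf (nat_lit 0) (nat_lit 20138567352700) (nat_lit 380) (nat_lit 31560580303096) (nat_lit 380) (nat_lit 31560580303096) (nat_lit 28) (nat_lit 3) (nat_lit 33) (nat_lit 3) (nat_lit 33) (nat_lit 5) (nat_lit 376) (nat_lit 376) (nat_lit 148))))) (XT.nd (nat_lit 46956) (nat_lit 0) (nat_lit 0) (XT.nd (nat_lit 78) (nat_lit 0) (nat_lit 0) (XT.lf (nat_lit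 76) (nat_lit 19420845385606) (nat_lit 0) (nat_lit 24681250215066) (nat_lit 380) (nat_lit 134785693142093) (nat_lit 29) (nat_lit 5) (nat_lit 28) (nat_lit 3) (nat_lit 33) (nat_lit 5) (nat_lit 377) (nat_lit 376) (nat_lit 147)) (XT.nd (nat_lit 46800) (nat_lit 76) (nat_lit 0) (XT.lf (nat_lit 0) (nat_lit 54683868396183) (nat_lit 304) (nat_lit 74061886776694) (nat_lit 380) (nat_lit 63438156153723) (nat_lit 29) (nat_lit 5) (nat_lit 33) (nat_lit 5) (nat_lit 34) (nat_lit 5) (nat_lit 378) (nat_lit 376) (nat_lit 146)) (XT.lf (nat_lit 0) (nat_lit 23159352455607) (nat_lit 380) (nat_lit 36294667348559) (nat_lit 380) (nat_lit 36294667348560) (nat_lit 28) (nat_lit 3) (nat_lit 33) (nat_lit 3) (nat_lit 33) (nat_lit 5) (nat_lit 377) (nat_lit 377) (nat_lit 146)))) (XT.nd (nat_lit 46878) (nat_lit 0) (nat_lit 0) (XT.lf (nat_lit 76) (nat_lit 22333972193451) (nat_lit 0) (nat_lit 28383437747326) (nat_lit 380) (nat_lit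 155003547113403) (nat_lit 29) (nat_lit 5) (nat_lit 28) (nat_lit 3) (nat_lit 33) (nat_lit 5) (nat_lit 378) (nat_lit 377) (nat_lit 145)) (XT.nd (nat_lit 93912) (nat_lit 0) (nat_lit 0) (XT.lf (nat_lit 0) (nat_lit 26633255323950) (nat_lit 380) (nat_lit 41738867450843) (nat_lit 380) (nat_lit 41738867450843) (nat_lit 28) (nat_lit 3) (nat_lit 33) (nat_lit 3) (nat_lit 33) (nat_lit 5) (nat_lit 378) (nat_lit 378) (nat_lit 144)) (XT.lf (nat_lit 0) (nat_lit 35222480165927) (nat_lit 380) (nat_lit 55199652203738) (nat_lit 380) (nat_lit 55199652203738) (nat_lit 28) (nat_lit 3) (nat_lit 33) (nat_lit 3) (nat_lit 33) (nat_lit 5) (nat_lit 380) (nat_lit 380) (nat_lit 140)))))) (XT.nd (nat_lit 47034) (nat_lit 0) (nat_lit 0) (XT.nd (nat_lit 234) (nat_lit 0) (nat_lit 0) (XT.nd (nat_lit 78) (nat_lit 0) (nat_lit 76) (XT.lf (nat_lit 76) (nat_lit 33967179959720) (nat_lit 0) (nat_lit 43167660883968) (nat_lit 380)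 (nat_lit 235741019716088) (nat_lit 29) (nat_lit 5) (nat_lit 28) (nat_lit 3) (nat_lit 33) (nat_lit 5) (nat_lit 381) (nat_lit 380) (nat_lit 139)) (XT.nd (nat_lit 78) (nat_lit 0) (nat_lit 0) (XT.lf (nat_lit 0) (nat_lit 95642427599114) (nat_lit 304) (nat_lit 129534702859219) (nat_lit 380) (nat_lit 110953731601335) (nat_lit 29) (nat_lit 5) (nat_lit 33) (nat_lit 5) (nat_lit 34) (nat_lit 5) (nat_lit 382) (nat_lit 380) (nat_lit 138)) (XT.lf (nat_lit 76) (nat_lit 44117405124574) (nat_lit 0) (nat_lit 76691157808128) (nat_lit 380) (nat_lit 241483189267114) (nat_lit 30) (nat_lit 5) (nat_lit 29) (nat_lit 5) (nat_lit 34) (nat_lit 5) (nat_lit 383) (nat_lit 380) (nat_lit 137)))) (XT.nd (nat_lit 46644) (nat_lit 152) (nat_lit 0) (XT.lf (nat_lit 0) (nat_lit 160738328929515) (nat_lit 304) (nat_lit 137203420675017) (nat_lit 76) (nat_lit 92786719701976) (nat_lit 30) (nat_lit 5) (nat_lit 34) (nat_lit 5) (nat_lit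 31) (nat_lit 5) (nat_lit 384) (nat_lit 380) (nat_lit 136)) (XT.nd (nat_lit 78) (nat_lit 0) (nat_lit 0) (XT.lf (nat_lit 0) (nat_lit 40505852190816) (nat_lit 380) (nat_lit 63479600034298) (nat_lit 380) (nat_lit 63479600034299) (nat_lit 28) (nat_lit 3) (nat_lit 33) (nat_lit 3) (nat_lit 33) (nat_lit 5) (nat_lit 381) (nat_lit 381) (nat_lit 138)) (XT.lf (nat_lit 76) (nat_lit 39062256953679) (nat_lit 0) (nat_lit 49642810016564) (nat_lit 380) (nat_lit 271102172673500) (nat_lit 29) (nat_lit 5) (nat_lit 28) (nat_lit 3) (nat_lit 33) (nat_lit 5) (nat_lit 382) (nat_lit 381) (nat_lit 137))))) (XT.nd (nat_lit 46878) (nat_lit 0) (nat_lit 0) (XT.nd (nat_lit 78) (nat_lit 76) (nat_lit 0) (XT.lf (nat_lit 0) (nat_lit 109988791738981) (nat_lit 304) (nat_lit 148964908288104) (nat_lit 380) (nat_lit 127596791341533) (nat_lit 29) (nat_lit 5) (nat_lit 33) (nat_lit 5) (nat_lit 34) (nat_lit 5) (nat_lit 383) (nat_lit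 381) (nat_lit 136)) (XT.nd (nat_lit 46722) (nat_lit 76) (nat_lit 0) (XT.lf (nat_lit 76) (nat_lit 50735015893261) (nat_lit 0) (nat_lit 88194831479347) (nat_lit 380) (nat_lit 277705667657180) (nat_lit 30) (nat_lit 5) (nat_lit 29) (nat_lit 5) (nat_lit 34) (nat_lit 5) (nat_lit 384) (nat_lit 381) (nat_lit 135)) (XT.lf (nat_lit 0) (nat_lit 46581730019439) (nat_lit 380) (nat_lit 73001540039443) (nat_lit 380) (nat_lit 73001540039443) (nat_lit 28) (nat_lit 3) (nat_lit 33) (nat_lit 3) (nat_lit 33) (nat_lit 5) (nat_lit 382) (nat_lit 382) (nat_lit 136)))) (XT.nd (nat_lit 78) (nat_lit 0) (nat_lit 0) (XT.lf (nat_lit 76) (nat_lit 44921595496728) (nat_lit 0) (nat_lit 57089231519052) (nat_lit 380) (nat_lit 311767498574524) (nat_lit 29) (nat_lit 5) (nat_lit 28) (nat_lit 3) (nat_lit 33) (nat_lit 5) (nat_lit 383) (nat_lit 382) (nat_lit 135)) (XT.nd (nat_lit 46800) (nat_lit 76) (nat_lit 0) (XT.lf (nat_lit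 0) (nat_lit 126487110499830) (nat_lit 304) (nat_lit 171309644531318) (nat_lit 380) (nat_lit 146736310042763) (nat_lit 29) (nat_lit 5) (nat_lit 33) (nat_lit 5) (nat_lit 34) (nat_lit 5) (nat_lit 384) (nat_lit 382) (nat_lit 134)) (XT.lf (nat_lit 0) (nat_lit 53568989522356) (nat_lit 380) (nat_lit 83951771045359) (nat_lit 380) (nat_lit 83951771045359) (nat_lit 28) (nat_lit 3) (nat_lit 33) (nat_lit 3) (nat_lit 33) (nat_lit 5) (nat_lit 383) (nat_lit 383) (nat_lit 134))))))))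

set_option maxRecDepth 10000000 in
noncomputable def Tp : PT := (PT.nd (nat_lit 7137234) (PT.nd (nat_lit 6856122) pc0 pc1) (PT.nd (nat_lit 186498) pc2 pc3))

set_option maxRecDepth 10000000 in
noncomputable def Tx : XT := (XT.nd (nat_lit 11657256) (nat_lit 0) (nat_lit 76) XT.nil (XT.nd (nat_lit 6326970) (nat_lit 0) (nat_lit 0) (XT.nd (nat_lit 2809950) (nat_lit 0) (nat_lit 0) (XT.nd (nat_lit 2056782) (nat_lit 0) (nat_lit 0) (XT.nd (nat_lit 1496586) (nat_lit 0) (nat_lit 0) (XT.nd (nat_lit 1122498) (nat_lit 0) (nat_lit 0) (XT.nd (nat_lit 888186) (nat_lit 0) (nat_lit 0) (XT.nd (nat_lit 700908) (nat_lit 0) (nat_lit 0) (XT.nd (nat_lit 514176) (nat_lit 0) (nat_lit 0) xc0 xc1) (XT.nd (nat_lit 94146) (nat_lit 0) (nat_lit 0) xc2 xc3)) (XT.nd (nat_lit 95472) (nat_lit 0) (nat_lit 0) (XT.nd (nat_lit 47736) (nat_lit 0) (nat_lit 0) xc4 xc5) (XT.nd (nat_lit 91494) (nat_lit 0) (nat_lit 0) xc6 xc7))) (XT.nd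 (nat_lit 188448) (nat_lit 0) (nat_lit 0) (XT.nd (nat_lit 94302) (nat_lit 0) (nat_lit 0) (XT.nd (nat_lit 47190) (nat_lit 0) (nat_lit 0) xc8 xc9) (XT.nd (nat_lit 47112) (nat_lit 0) (nat_lit 0) xc10 xc11)) (XT.nd (nat_lit 93366) (nat_lit 0) (nat_lit 0) (XT.nd (nat_lit 46878) (nat_lit 0) (nat_lit 0) xc12 xc13) (XT.nd (nat_lit 46098) (nat_lit 0) (nat_lit 0) xc14 xc15)))) (XT.nd (nat_lit 282438) (nat_lit 0) (nat_lit 0) (XT.nd (nat_lit 141414) (nat_lit 0) (nat_lit 0) (XT.nd (nat_lit 91962) (nat_lit 0) (nat_lit 0) (XT.nd (nat_lit 46020) (nat_lit 0) (nat_lit 0) xc16 xc17) (XT.nd (nat_lit 3432) (nat_lit 0) (nat_lit 0) xc18 xc19)) (XT.nd (nat_lit 91806) (nat_lit 0) (nat_lit 0) (XT.nd (nat_lit 45864) (nat_lit 0) (nat_lit 0) xc20 xc21) (XT.nd (nat_lit 45708) (nat_lit 0) (nat_lit 0) xc22 xc23))) (XT.nd (nat_lit 139776) (nat_lit 0) (nat_lit 0) (XT.nd (nat_lit 91026) (nat_lit 0) (nat_lit 0) (XT.nd (nat_lit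 45552) (nat_lit 0) (nat_lit 0) xc24 xc25) (XT.nd (nat_lit 3432) (nat_lit 0) (nat_lit 0) xc26 xc27)) (XT.nd (nat_lit 48516) (nat_lit 0) (nat_lit 0) (XT.nd (nat_lit 45006) (nat_lit 0) (nat_lit 0) xc28 xc29) (XT.nd (nat_lit 44772) (nat_lit 0) (nat_lit 0) xc30 xc31))))) (XT.nd (nat_lit 377286) (nat_lit 0) (nat_lit 0) (XT.nd (nat_lit 190710) (nat_lit 0) (nat_lit 0) (XT.nd (nat_lit 95706) (nat_lit 0) (nat_lit 0) (XT.nd (nat_lit 47892) (nat_lit 0) (nat_lit 0) (XT.nd (nat_lit 3432) (nat_lit 0) (nat_lit 0) xc32 xc33) (XT.nd (nat_lit 3432) (nat_lit 0) (nat_lit 0) xc34 xc35)) (XT.nd (nat_lit 47580) (nat_lit 0) (nat_lit 0) (XT.nd (nat_lit 44070) (nat_lit 0) (nat_lit 0) xc36 xc37) (XT.nd (nat_lit 43914) (nat_lit 0) (nat_lit 0) xc38 xc39))) (XT.nd (nat_lit 93756) (nat_lit 0) (nat_lit 0) (XT.nd (nat_lit 47112) (nat_lit 0) (nat_lit 0) (XT.nd (nat_lit 43680) (nat_lit 0) (nat_lit 0) xc40 xc41) (XT.nd (nat_lit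 43134) (nat_lit 0) (nat_lit 0) xc42 xc43)) (XT.nd (nat_lit 46488) (nat_lit 0) (nat_lit 0) (XT.nd (nat_lit 42978) (nat_lit 0) (nat_lit 0) xc44 xc45) (XT.nd (nat_lit 42822) (nat_lit 0) (nat_lit 0) xc46 xc47)))) (XT.nd (nat_lit 186498) (nat_lit 0) (nat_lit 0) (XT.nd (nat_lit 92898) (nat_lit 0) (nat_lit 0) (XT.nd (nat_lit 46332) (nat_lit 0) (nat_lit 0) (XT.nd (nat_lit 42900) (nat_lit 0) (nat_lit 152) xc48 xc49) (XT.nd (nat_lit 43056) (nat_lit 0) (nat_lit 152) xc50 xc51)) (XT.nd (nat_lit 46722) (nat_lit 0) (nat_lit 0) (XT.nd (nat_lit 3432) (nat_lit 0) (nat_lit 0) xc52 xc53) (XT.nd (nat_lit 3432) (nat_lit 0) (nat_lit 0) xc54 xc55))) (XT.nd (nat_lit 94380) (nat_lit 0) (nat_lit 0) (XT.nd (nat_lit 47034) (nat_lit 0) (nat_lit 0) (XT.nd (nat_lit 3432) (nat_lit 0) (nat_lit 0) xc56 xc57) (XT.nd (nat_lit 43836) (nat_lit 0) (nat_lit 152) xc58 xc59)) (XT.nd (nat_lit 47424) (nat_lit 0) (nat_lit 0) (XT.nd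 (nat_lit 43914) (nat_lit 0) (nat_lit 0) xc60 xc61) (XT.nd (nat_lit 44070) (nat_lit 0) (nat_lit 0) xc62 xc63)))))) (XT.nd (nat_lit 982254) (nat_lit 0) (nat_lit 0) (XT.nd (nat_lit 466362) (nat_lit 0) (nat_lit 0) (XT.nd (nat_lit 231348) (nat_lit 0) (nat_lit 0) (XT.nd (nat_lit 94848) (nat_lit 0) (nat_lit 0) (XT.nd (nat_lit 47346) (nat_lit 0) (nat_lit 0) (XT.nd (nat_lit 43914) (nat_lit 0) (nat_lit 0) xc64 xc65) (XT.nd (nat_lit 43992) (nat_lit 0) (nat_lit 0) xc66 xc67)) (XT.nd (nat_lit 88530) (nat_lit 0) (nat_lit 0) (XT.nd (nat_lit 44148) (nat_lit 0) (nat_lit 0) xc68 xc69) (XT.nd (nat_lit 3432) (nat_lit 152) (nat_lit 0) xc70 xc71))) (XT.nd (nat_lit 96408) (nat_lit 0) (nat_lit 0) (XT.nd (nat_lit 48048) (nat_lit 0) (nat_lit 0) (XT.nd (nat_lit 3432) (nat_lit 0) (nat_lit 0) xc72 xc73) (XT.nd (nat_lit 44850) (nat_lit 0) (nat_lit 152) xc74 xc75)) (XT.nd (nat_lit 48438) (nat_lit 0) (nat_lit 0) (XT.nd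 (nat_lit 44928) (nat_lit 0) (nat_lit 0) xc76 xc77) (XT.nd (nat_lit 45006) (nat_lit 0) (nat_lit 0) xc78 xc79)))) (XT.nd (nat_lit 236496) (nat_lit 0) (nat_lit 0) (XT.nd (nat_lit 97032) (nat_lit 0) (nat_lit 0) (XT.nd (nat_lit 48438) (nat_lit 0) (nat_lit 0) (XT.nd (nat_lit 3432) (nat_lit 0) (nat_lit 0) xc80 xc81) (XT.nd (nat_lit 45084) (nat_lit 0) (nat_lit 0) xc82 xc83)) (XT.nd (nat_lit 90636) (nat_lit 0) (nat_lit 0) (XT.nd (nat_lit 45240) (nat_lit 0) (nat_lit 0) xc84 xc85) (XT.nd (nat_lit 3432) (nat_lit 0) (nat_lit 0) xc86 xc87))) (XT.nd (nat_lit 139620) (nat_lit 0) (nat_lit 0) (XT.nd (nat_lit 90714) (nat_lit 0) (nat_lit 0) (XT.nd (nat_lit 45318) (nat_lit 0) (nat_lit 0) xc88 xc89) (XT.nd (nat_lit 3432) (nat_lit 152) (nat_lit 0) xc90 xc91)) (XT.nd (nat_lit 48984) (nat_lit 0) (nat_lit 0) (XT.nd (nat_lit 45474) (nat_lit 0) (nat_lit 0) xc92 xc93) (XT.nd (nat_lit 45552) (nat_lit 0) (nat_lit 0)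 xc94 xc95))))) (XT.nd (nat_lit 656916) (nat_lit 0) (nat_lit 152) (XT.nd (nat_lit 281112) (nat_lit 0) (nat_lit 0) (XT.nd (nat_lit 97734) (nat_lit 0) (nat_lit 0) (XT.nd (nat_lit 48672) (nat_lit 0) (nat_lit 0) (XT.nd (nat_lit 3432) (nat_lit 0) (nat_lit 0) xc96 xc97) (XT.nd (nat_lit 45396) (nat_lit 0) (nat_lit 0) xc98 xc99)) (XT.nd (nat_lit 91182) (nat_lit 0) (nat_lit 0) (XT.nd (nat_lit 45396) (nat_lit 0) (nat_lit 0) xc100 xc101) (XT.nd (nat_lit 45942) (nat_lit 0) (nat_lit 0) xc102 xc103))) (XT.nd (nat_lit 187902) (nat_lit 152) (nat_lit 0) (XT.nd (nat_lit 93600) (nat_lit 0) (nat_lit 0) (XT.nd (nat_lit 3432) (nat_lit 0) (nat_lit 0) xc104 xc105) (XT.nd (nat_lit 47112) (nat_lit 0) (nat_lit 0) xc106 xc107)) (XT.nd (nat_lit 93912) (nat_lit 0) (nat_lit 0) (XT.nd (nat_lit 46956) (nat_lit 0) (nat_lit 0) xc108 xc109) (XT.nd (nat_lit 46878) (nat_lit 0) (nat_lit 0) xc110 xc111)))) (XT.nd (nat_lit 424320)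 (nat_lit 0) (nat_lit 76) (XT.nd (nat_lit 189618) (nat_lit 0) (nat_lit 76) (XT.nd (nat_lit 94614) (nat_lit 0) (nat_lit 76) (XT.nd (nat_lit 47268) (nat_lit 0) (nat_lit 76) xc112 xc113) (XT.nd (nat_lit 47424) (nat_lit 0) (nat_lit 0) xc114 xc115)) (XT.nd (nat_lit 139386) (nat_lit 0) (nat_lit 0) (XT.nd (nat_lit 91806) (nat_lit 0) (nat_lit 0) xc116 xc117) (XT.nd (nat_lit 47580) (nat_lit 0) (nat_lit 0) xc118 xc119))) (XT.nd (nat_lit 373620) (nat_lit 0) (nat_lit 0) (XT.nd (nat_lit 140322) (nat_lit 152) (nat_lit 0) (XT.nd (nat_lit 92274) (nat_lit 0) (nat_lit 76) xc120 xc121) (XT.nd (nat_lit 93054) (nat_lit 228) (nat_lit 0) xc122 xc123)) (XT.nd (nat_lit 235248) (nat_lit 0) (nat_lit 1368) (XT.nd (nat_lit 94380) (nat_lit 0) (nat_lit 152) xc124 xc125) (XT.nd (nat_lit 281346) (nat_lit 0) (nat_lit 304) xc126 xc127))))))) XT.nil))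

set_option maxRecDepth 10000000 in
noncomputable def Te : XT := XT.nil

set_option maxRecDepth 10000000 in
noncomputable def Tz : ZL := (ZL.cons (nat_lit 76) (nat_lit 6) (nat_lit 322857859214578115058) (ZL.cons (nat_lit 152) (nat_lit 6) (nat_lit 303683876524776964796) (ZL.cons (nat_lit 228) (nat_lit 3) (nat_lit 150381837580488096491) (ZL.cons (nat_lit 304) (nat_lit 6) (nat_lit 281633796431505641996) (ZL.cons (nat_lit 380) (nat_lit 6) (nat_lit 265093942790155081756) (ZL.cons (nat_lit 456) (nat_lit 3) (nat_lit 131277318628207640089) (ZL.cons (nat_lit 532) (nat_lit 6) (nat_lit 246073111102601937482) (ZL.cons (nat_lit 608) (nat_lit 6) (nat_lit 231866753327925787634) (ZL.cons (nat_lit 684) (nat_lit 3) (nat_lit 114829330779728197479) (ZL.cons (nat_lit 760) (nat_lit 6) (nat_lit 215529441887048215310) (ZL.cons (nat_lit 836) (nat_lit 6) (nat_lit 203409010830917238504) (ZL.cons (nat_lit 912) (nat_lit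 3) (nat_lit 100744465516124100696) (ZL.cons (nat_lit 988) (nat_lit 6) (nat_lit 189470515116366615174) (ZL.cons (nat_lit 1064) (nat_lit 6) (nat_lit 179239051219310121276) (ZL.cons (nat_lit 1140) (nat_lit 3) (nat_lit 88784708305885914068) (ZL.cons (nat_lit 1216) (nat_lit 6) (nat_lit 167472867737695153290) (ZL.cons (nat_lit 1292) (nat_lit 6) (nat_lit 158983327320513351348) (ZL.cons (nat_lit 1368) (nat_lit 3) (nat_lit 78765735570022635179) (ZL.cons (nat_lit 1444) (nat_lit 6) (nat_lit 149220355840754279116) (ZL.cons (nat_lit 1520) (nat_lit 6) (nat_lit 142376913062227355818) (ZL.cons (nat_lit 1596) (nat_lit 3) (nat_lit 70557214713518860088) (ZL.cons (nat_lit 1672) (nat_lit 6) (nat_lit 136867249358797669366) (ZL.cons (nat_lit 1748) (nat_lit 6) (nat_lit 134506953866921394030) (ZL.cons (nat_lit 1824) (nat_lit 6) (nat_lit 129268652464663894298) (ZL.cons (nat_lit 1900) (nat_lit 3) (nat_lit 64085420303988627302)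 (ZL.cons (nat_lit 1976) (nat_lit 6) (nat_lit 125297036714568878594) (ZL.cons (nat_lit 2052) (nat_lit 6) (nat_lit 123244605852067769606) (ZL.cons (nat_lit 2128) (nat_lit 3) (nat_lit 60160248104228468906) (ZL.cons (nat_lit 2204) (nat_lit 6) (nat_lit 120866302723336155254) (ZL.cons (nat_lit 2280) (nat_lit 6) (nat_lit 122514401091091009652) (ZL.cons (nat_lit 2356) (nat_lit 6) (nat_lit 119631866745272970840) (ZL.cons (nat_lit 2432) (nat_lit 3) (nat_lit 59338623869729250773) (ZL.cons (nat_lit 2508) (nat_lit 6) (nat_lit 116088455254600033884) (ZL.cons (nat_lit 2584) (nat_lit 6) (nat_lit 117261939261590351380) (ZL.cons (nat_lit 2660) (nat_lit 6) (nat_lit 115477216772458952262) (ZL.cons (nat_lit 2736) (nat_lit 3) (nat_lit 56477113078714884825) (ZL.cons (nat_lit 2812) (nat_lit 6) (nat_lit 113581903649540869704) (ZL.cons (nat_lit 2888) (nat_lit 3) (nat_lit 56375900083111969940) (ZL.cons (nat_lit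 2964) (nat_lit 6) (nat_lit 111402293558185074764) (ZL.cons (nat_lit 3040) (nat_lit 1) (nat_lit 18446744073709551617) ZL.nil))))))))))))))))))))))))))))))))))))))))

noncomputable def vl : XL := ⟨(nat_lit 0), (nat_lit 76), (nat_lit 63985888), (nat_lit 228), (nat_lit 257762344), (nat_lit 76), (nat_lit 63985888), (nat_lit 1), (nat_lit 5), (nat_lit 3), (nat_lit 4), (nat_lit 1), (nat_lit 4), (nat_lit 0), (nat_lit 0), (nat_lit 0)⟩

noncomputable def cp0 : Nat := (nat_lit 30563164506591021876778731464937733624540036418411667483475410628583224854277663594905600)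

noncomputable def cp1 : Nat := (nat_lit 7198502749906692939054801691902614054354937318857614253336106663073846595592322327144094830068058621350757345492598473024344801372751277379062862837528637625820842150614305759963852181752870502224078209613059928632226727192996350266655957179362147868386990934961997752711520321101050433423344616756102019928556972949409559647091159876852493661827975906987220344147870194773431180119610292775772993163940378834270148521560653845848303866753995415515242522425910071416906639087221509158598796682418249079842675988642142242359777019479843913418754379637126073532736562283940605623168552208464904445750409172208377703527227465348746151345660546358139873888724441072765299813497117016862404620939536293088711694994312968829792853813160987487235740048552406256138165594743255681612760007675131042358073276055989966064709504213047204716319456569034614727119281567224368288095615210518357065693360988933812158371055174753215215578610170593280)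

noncomputable def rc0 : Nat := (nat_lit 6949949218716550937737159091803523872844082063395159668775314643149123707091966204126983887537160185400099154458513520593610176560531887175990982889553627137080007821698692076192298718497565799174872280219666091081840639963830226016407090024154541373940662977716652090737088948586498930990845339738984580679299908434676997866670730285835476954134874445668600206968867329689412761203154818138729793330189973767719069873013295403932131605907401568673353303923289773568969315148034227279520200090772561748066010464292858177408721988711575479267428012059040101080375462206478509556470554201786330384935745740392893062408926563570108948253291102398832263828482611288659498910743449060081435002768254076119358438676052639327280217720183921527854765492680436646865606269003712567520773766833638244220527096579172277163955175628057486320882518562530398790088632341801420132152443201054732946699445340279459950546076810612653369124577729314816)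

noncomputable def rc1 : Nat := (nat_lit 7198502749906692939054801691902614054354937318857614253336106663073846595592322327144094830068058621350757345492598473024344801372751277379062862837528637625820842150614305759963852181752870502224078209613059928632226727192996350266655957179362147868386990934961997752711520321101050433423344616756102019928556972949409559647091159876852493661827975906987220344147870194773431180119610292775772993163940378834270148521560653845848303866753995415515242522425910071416906639087221509158598796682418249079842675988642142242359777019479843913418754379637126073532736562283940605623168552208464904445750409172208377703527227465348746151345660546358139873888724441072765299813497117016862404620939536293088711694994312968829792853813160987487235740048552406256138165594743255681612760007675131042358073276055989966064709504213047204716319456569034614727119281567224368288095615210518357065693360988933812158371055174753215215578610170593280)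

end Vale.Agent.Lib.P154.PChain.BF.S0
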