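import Vale.Agent.Lib.P154.PChain.BF.R0_0

set_option linter.all false

namespace Vale.Agent.Lib.P154.PChain.BF.S1

open Vale.Agent.Lib.P154.Chain

noncomputable def pc0 : PT := (PT.nd (nat_lit 6481410) (PT.nd (nat_lit 6293898) (PT.nd (nat_lit 6153498) (PT.nd (nat_lit 6106620) (PT.nd (nat_lit 6059820) (PT.nd (nat_lit 6059742) PT.nil (PT.lf (nat_lit 76) (nat_lit 6) (nat_lit 1) (nat_lit 3) (nat_lit 160) (nat_lit 129) (nat_lit 161))) (PT.nd (nat_lit 46722) (PT.lf (nat_lit 76) (nat_lit 6) (nat_lit 1) (nat_lit 1) (nat_lit 161) (nat_lit 129) (nat_lit 160)) (PT.lf (nat_lit 152) (nat_lit 6) (nat_lit 2) (nat_lit 3) (nat_lit 159) (nat_lit 130) (nat_lit 161)))) (PT.nd (nat_lit 78) (PT.lf (nat_lit 228) (nat_lit 3) (nat_lit 3) (nat_lit 1) (nat_lit 160) (nat_lit 130) (nat_lit 160)) (PT.nd (nat_lit 46722) (PT.lf (nat_lit 152) (nat_lit 6) (nat_lit 2) (nat_lit 1) (nat_lit 161) (nat_lit 130) (nat_lit 159))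 (PT.lf (nat_lit 304) (nat_lit 6) (nat_lit 4) (nat_lit 3) (nat_lit 159) (nat_lit 131) (nat_lit 160))))) (PT.nd (nat_lit 46878) (PT.nd (nat_lit 46722) (PT.lf (nat_lit 304) (nat_lit 6) (nat_lit 4) (nat_lit 1) (nat_lit 160) (nat_lit 131) (nat_lit 159)) (PT.nd (nat_lit 78) (PT.lf (nat_lit 380) (nat_lit 6) (nat_lit 5) (nat_lit 3) (nat_lit 158) (nat_lit 132) (nat_lit 160)) (PT.lf (nat_lit 456) (nat_lit 3) (nat_lit 6) (nat_lit 1) (nat_lit 159) (nat_lit 132) (nat_lit 159)))) (PT.nd (nat_lit 46722) (PT.lf (nat_lit 380) (nat_lit 6) (nat_lit 5) (nat_lit 1) (nat_lit 160) (nat_lit 132) (nat_lit 158)) (PT.nd (nat_lit 78) (PT.lf (nat_lit 532) (nat_lit 6) (nat_lit 7) (nat_lit 3) (nat_lit 158) (nat_lit 133) (nat_lit 159)) (PT.lf (nat_lit 532) (nat_lit 6) (nat_lit 7) (nat_lit 1) (nat_lit 159) (nat_lit 133) (nat_lit 158)))))) (PT.nd (nat_lit 93756) (PT.nd (nat_lit 46878) (PT.nd (nat_lit 78) (PT.lf (nat_lit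 608) (nat_lit 6) (nat_lit 8) (nat_lit 3) (nat_lit 157) (nat_lit 134) (nat_lit 159)) (PT.nd (nat_lit 78) (PT.lf (nat_lit 684) (nat_lit 3) (nat_lit 9) (nat_lit 1) (nat_lit 158) (nat_lit 134) (nat_lit 158)) (PT.lf (nat_lit 608) (nat_lit 6) (nat_lit 8) (nat_lit 1) (nat_lit 159) (nat_lit 134) (nat_lit 157)))) (PT.nd (nat_lit 78) (PT.lf (nat_lit 760) (nat_lit 6) (nat_lit 10) (nat_lit 3) (nat_lit 157) (nat_lit 135) (nat_lit 158)) (PT.nd (nat_lit 46722) (PT.lf (nat_lit 760) (nat_lit 6) (nat_lit 10) (nat_lit 1) (nat_lit 158) (nat_lit 135) (nat_lit 157)) (PT.lf (nat_lit 836) (nat_lit 6) (nat_lit 11) (nat_lit 3) (nat_lit 156) (nat_lit 136) (nat_lit 158))))) (PT.nd (nat_lit 46878) (PT.nd (nat_lit 78) (PT.lf (nat_lit 912) (nat_lit 3) (nat_lit 12) (nat_lit 1) (nat_lit 157) (nat_lit 136) (nat_lit 157)) (PT.nd (nat_lit 46722) (PT.lf (nat_lit 836) (nat_lit 6) (nat_lit 11) (nat_lit 1) (nat_lit 158) (nat_lit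 136) (nat_lit 156)) (PT.lf (nat_lit 988) (nat_lit 6) (nat_lit 13) (nat_lit 3) (nat_lit 156) (nat_lit 137) (nat_lit 157)))) (PT.nd (nat_lit 46722) (PT.lf (nat_lit 988) (nat_lit 6) (nat_lit 13) (nat_lit 1) (nat_lit 157) (nat_lit 137) (nat_lit 156)) (PT.nd (nat_lit 78) (PT.lf (nat_lit 1064) (nat_lit 6) (nat_lit 14) (nat_lit 3) (nat_lit 155) (nat_lit 138) (nat_lit 157)) (PT.lf (nat_lit 1140) (nat_lit 3) (nat_lit 15) (nat_lit 1) (nat_lit 156) (nat_lit 138) (nat_lit 156))))))) (PT.nd (nat_lit 234078) (PT.nd (nat_lit 140400) (PT.nd (nat_lit 93522) (PT.nd (nat_lit 46722) (PT.lf (nat_lit 1064) (nat_lit 6) (nat_lit 14) (nat_lit 1) (nat_lit 157) (nat_lit 138) (nat_lit 155)) (PT.nd (nat_lit 78) (PT.lf (nat_lit 1216) (nat_lit 6) (nat_lit 16) (nat_lit 3) (nat_lit 155) (nat_lit 139) (nat_lit 156)) (PT.lf (nat_lit 1216) (nat_lit 6) (nat_lit 16) (nat_lit 1) (nat_lit 156) (nat_lit 139) (nat_lit 155)))) (PT.nd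 (nat_lit 78) (PT.lf (nat_lit 1292) (nat_lit 6) (nat_lit 17) (nat_lit 3) (nat_lit 154) (nat_lit 140) (nat_lit 156)) (PT.nd (nat_lit 78) (PT.lf (nat_lit 1368) (nat_lit 3) (nat_lit 18) (nat_lit 1) (nat_lit 155) (nat_lit 140) (nat_lit 155)) (PT.lf (nat_lit 1292) (nat_lit 6) (nat_lit 17) (nat_lit 1) (nat_lit 156) (nat_lit 140) (nat_lit 154))))) (PT.nd (nat_lit 46878) (PT.nd (nat_lit 78) (PT.lf (nat_lit 1444) (nat_lit 6) (nat_lit 19) (nat_lit 3) (nat_lit 154) (nat_lit 141) (nat_lit 155)) (PT.nd (nat_lit 46722) (PT.lf (nat_lit 1444) (nat_lit 6) (nat_lit 19) (nat_lit 1) (nat_lit 155) (nat_lit 141) (nat_lit 154)) (PT.lf (nat_lit 1520) (nat_lit 6) (nat_lit 20) (nat_lit 3) (nat_lit 153) (nat_lit 142) (nat_lit 155)))) (PT.nd (nat_lit 78) (PT.lf (nat_lit 1596) (nat_lit 3) (nat_lit 21) (nat_lit 1) (nat_lit 154) (nat_lit 142) (nat_lit 154)) (PT.nd (nat_lit 46644) (PT.lf (nat_lit 1520) (nat_lit 6) (nat_lit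 20) (nat_lit 1) (nat_lit 155) (nat_lit 142) (nat_lit 153)) (PT.lf (nat_lit 1672) (nat_lit 6) (nat_lit 22) (nat_lit 3) (nat_lit 152) (nat_lit 143) (nat_lit 155)))))) (PT.nd (nat_lit 93600) (PT.nd (nat_lit 46800) (PT.nd (nat_lit 78) (PT.lf (nat_lit 1748) (nat_lit 6) (nat_lit 23) (nat_lit 3) (nat_lit 153) (nat_lit 143) (nat_lit 154)) (PT.nd (nat_lit 78) (PT.lf (nat_lit 1748) (nat_lit 6) (nat_lit 23) (nat_lit 1) (nat_lit 154) (nat_lit 143) (nat_lit 153)) (PT.lf (nat_lit 1672) (nat_lit 6) (nat_lit 22) (nat_lit 1) (nat_lit 155) (nat_lit 143) (nat_lit 152)))) (PT.nd (nat_lit 78) (PT.lf (nat_lit 1824) (nat_lit 6) (nat_lit 24) (nat_lit 3) (nat_lit 152) (nat_lit 144) (nat_lit 154)) (PT.nd (nat_lit 78) (PT.lf (nat_lit 1900) (nat_lit 3) (nat_lit 25) (nat_lit 1) (nat_lit 153) (nat_lit 144) (nat_lit 153)) (PT.lf (nat_lit 1824) (nat_lit 6) (nat_lit 24) (nat_lit 1) (nat_lit 154) (nat_lit 144) (nat_lit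 152))))) (PT.nd (nat_lit 234) (PT.nd (nat_lit 78) (PT.lf (nat_lit 1976) (nat_lit 6) (nat_lit 26) (nat_lit 3) (nat_lit 151) (nat_lit 145) (nat_lit 154)) (PT.nd (nat_lit 78) (PT.lf (nat_lit 2052) (nat_lit 6) (nat_lit 27) (nat_lit 3) (nat_lit 152) (nat_lit 145) (nat_lit 153)) (PT.lf (nat_lit 2052) (nat_lit 6) (nat_lit 27) (nat_lit 1) (nat_lit 153) (nat_lit 145) (nat_lit 152)))) (PT.nd (nat_lit 46644) (PT.nd (nat_lit 46566) (PT.lf (nat_lit 1976) (nat_lit 6) (nat_lit 26) (nat_lit 1) (nat_lit 154) (nat_lit 145) (nat_lit 151)) (PT.lf (nat_lit 2280) (nat_lit 6) (nat_lit 30) (nat_lit 3) (nat_lit 150) (nat_lit 146) (nat_lit 154))) (PT.nd (nat_lit 78) (PT.lf (nat_lit 2356) (nat_lit 6) (nat_lit 31) (nat_lit 3) (nat_lit 151) (nat_lit 146) (nat_lit 153)) (PT.lf (nat_lit 2432) (nat_lit 3) (nat_lit 32) (nat_lit 1) (nat_lit 152) (nat_lit 146) (nat_lit 152))))))))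
noncomputable def pc1 : PT := (PT.nd (nat_lit 187122) (PT.nd (nat_lit 93678) (PT.nd (nat_lit 46878) (PT.nd (nat_lit 46644) (PT.nd (nat_lit 78) (PT.lf (nat_lit 2356) (nat_lit 6) (nat_lit 31) (nat_lit 1) (nat_lit 153) (nat_lit 146) (nat_lit 151)) (PT.nd (nat_lit 46488) (PT.lf (nat_lit 2280) (nat_lit 6) (nat_lit 30) (nat_lit 1) (nat_lit 154) (nat_lit 146) (nat_lit 150)) (PT.lf (nat_lit 2204) (nat_lit 6) (nat_lit 29) (nat_lit 3) (nat_lit 149) (nat_lit 147) (nat_lit 154)))) (PT.nd (nat_lit 78) (PT.lf (nat_lit 2584) (nat_lit 6) (nat_lit 34) (nat_lit 3) (nat_lit 150) (nat_lit 147) (nat_lit 153)) (PT.nd (nat_lit 78) (PT.lf (nat_lit 2660) (nat_lit 6) (nat_lit 35) (nat_lit 3) (nat_lit 151) (nat_lit 147) (nat_lit 152)) (PT.lf (nat_lit 2660) (nat_lit 6) (nat_lit 35) (nat_lit 1) (nat_lit 152) (nat_lit 147) (nat_lit 151))))) (PT.nd (nat_lit 46566) (PT.nd (nat_lit 78) (PT.lf (nat_lit 2584) (nat_lit 6)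 (nat_lit 34) (nat_lit 1) (nat_lit 153) (nat_lit 147) (nat_lit 150)) (PT.nd (nat_lit 46410) (PT.lf (nat_lit 2204) (nat_lit 6) (nat_lit 29) (nat_lit 1) (nat_lit 154) (nat_lit 147) (nat_lit 149)) (PT.lf (nat_lit 2128) (nat_lit 3) (nat_lit 28) (nat_lit 3) (nat_lit 148) (nat_lit 148) (nat_lit 154)))) (PT.nd (nat_lit 78) (PT.lf (nat_lit 2508) (nat_lit 6) (nat_lit 33) (nat_lit 3) (nat_lit 149) (nat_lit 148) (nat_lit 153)) (PT.nd (nat_lit 78) (PT.lf (nat_lit 2812) (nat_lit 6) (nat_lit 37) (nat_lit 3) (nat_lit 150) (nat_lit 148) (nat_lit 152)) (PT.lf (nat_lit 2888) (nat_lit 3) (nat_lit 38) (nat_lit 1) (nat_lit 151) (nat_lit 148) (nat_lit 151)))))) (PT.nd (nat_lit 46722) (PT.nd (nat_lit 46488) (PT.nd (nat_lit 78) (PT.lf (nat_lit 2812) (nat_lit 6) (nat_lit 37) (nat_lit 1) (nat_lit 152) (nat_lit 148) (nat_lit 150)) (PT.nd (nat_lit 78) (PT.lf (nat_lit 2508) (nat_lit 6) (nat_lit 33) (nat_lit 1) (nat_lit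 153) (nat_lit 148) (nat_lit 149)) (PT.lf (nat_lit 2128) (nat_lit 3) (nat_lit 28) (nat_lit 0) (nat_lit 154) (nat_lit 148) (nat_lit 148)))) (PT.nd (nat_lit 78) (PT.lf (nat_lit 2204) (nat_lit 6) (nat_lit 29) (nat_lit 5) (nat_lit 147) (nat_lit 149) (nat_lit 154)) (PT.nd (nat_lit 78) (PT.lf (nat_lit 2508) (nat_lit 6) (nat_lit 33) (nat_lit 5) (nat_lit 148) (nat_lit 149) (nat_lit 153)) (PT.lf (nat_lit 2736) (nat_lit 3) (nat_lit 36) (nat_lit 3) (nat_lit 149) (nat_lit 149) (nat_lit 152))))) (PT.nd (nat_lit 234) (PT.nd (nat_lit 78) (PT.lf (nat_lit 2964) (nat_lit 6) (nat_lit 39) (nat_lit 3) (nat_lit 150) (nat_lit 149) (nat_lit 151)) (PT.nd (nat_lit 78) (PT.lf (nat_lit 2964) (nat_lit 6) (nat_lit 39) (nat_lit 1) (nat_lit 151) (nat_lit 149) (nat_lit 150)) (PT.lf (nat_lit 2736) (nat_lit 3) (nat_lit 36) (nat_lit 0) (nat_lit 152) (nat_lit 149) (nat_lit 149)))) (PT.nd (nat_lit 46332) (PT.nd (nat_lit 78)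 (PT.lf (nat_lit 2508) (nat_lit 6) (nat_lit 33) (nat_lit 0) (nat_lit 153) (nat_lit 149) (nat_lit 148)) (PT.lf (nat_lit 2204) (nat_lit 6) (nat_lit 29) (nat_lit 0) (nat_lit 154) (nat_lit 149) (nat_lit 147))) (PT.nd (nat_lit 78) (PT.lf (nat_lit 2280) (nat_lit 6) (nat_lit 30) (nat_lit 5) (nat_lit 146) (nat_lit 150) (nat_lit 154)) (PT.lf (nat_lit 2584) (nat_lit 6) (nat_lit 34) (nat_lit 5) (nat_lit 147) (nat_lit 150) (nat_lit 153))))))) (PT.nd (nat_lit 47034) (PT.nd (nat_lit 468) (PT.nd (nat_lit 234) (PT.nd (nat_lit 78) (PT.lf (nat_lit 2812) (nat_lit 6) (nat_lit 37) (nat_lit 5) (nat_lit 148) (nat_lit 150) (nat_lit 152)) (PT.nd (nat_lit 78) (PT.lf (nat_lit 2964) (nat_lit 6) (nat_lit 39) (nat_lit 5) (nat_lit 149) (nat_lit 150) (nat_lit 151)) (PT.lf (nat_lit 3040) (nat_lit 1) (nat_lit 40) (nat_lit 0) (nat_lit 150) (nat_lit 150) (nat_lit 150)))) (PT.nd (nat_lit 78) (PT.lf (nat_lit 2964) (nat_lit 6)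 (nat_lit 39) (nat_lit 0) (nat_lit 151) (nat_lit 150) (nat_lit 149)) (PT.nd (nat_lit 78) (PT.lf (nat_lit 2812) (nat_lit 6) (nat_lit 37) (nat_lit 0) (nat_lit 152) (nat_lit 150) (nat_lit 148)) (PT.lf (nat_lit 2584) (nat_lit 6) (nat_lit 34) (nat_lit 0) (nat_lit 153) (nat_lit 150) (nat_lit 147))))) (PT.nd (nat_lit 46332) (PT.nd (nat_lit 46176) (PT.lf (nat_lit 2280) (nat_lit 6) (nat_lit 30) (nat_lit 0) (nat_lit 154) (nat_lit 150) (nat_lit 146)) (PT.nd (nat_lit 78) (PT.lf (nat_lit 1976) (nat_lit 6) (nat_lit 26) (nat_lit 5) (nat_lit 145) (nat_lit 151) (nat_lit 154)) (PT.lf (nat_lit 2356) (nat_lit 6) (nat_lit 31) (nat_lit 5) (nat_lit 146) (nat_lit 151) (nat_lit 153)))) (PT.nd (nat_lit 78) (PT.lf (nat_lit 2660) (nat_lit 6) (nat_lit 35) (nat_lit 5) (nat_lit 147) (nat_lit 151) (nat_lit 152)) (PT.nd (nat_lit 78) (PT.lf (nat_lit 2888) (nat_lit 3) (nat_lit 38) (nat_lit 4) (nat_lit 148) (nat_lit 151) (nat_lit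 151)) (PT.lf (nat_lit 2964) (nat_lit 6) (nat_lit 39) (nat_lit 4) (nat_lit 149) (nat_lit 151) (nat_lit 150)))))) (PT.nd (nat_lit 46410) (PT.nd (nat_lit 234) (PT.nd (nat_lit 78) (PT.lf (nat_lit 2964) (nat_lit 6) (nat_lit 39) (nat_lit 2) (nat_lit 150) (nat_lit 151) (nat_lit 149)) (PT.nd (nat_lit 78) (PT.lf (nat_lit 2888) (nat_lit 3) (nat_lit 38) (nat_lit 0) (nat_lit 151) (nat_lit 151) (nat_lit 148)) (PT.lf (nat_lit 2660) (nat_lit 6) (nat_lit 35) (nat_lit 0) (nat_lit 152) (nat_lit 151) (nat_lit 147)))) (PT.nd (nat_lit 78) (PT.lf (nat_lit 2356) (nat_lit 6) (nat_lit 31) (nat_lit 0) (nat_lit 153) (nat_lit 151) (nat_lit 146)) (PT.nd (nat_lit 46020) (PT.lf (nat_lit 1976) (nat_lit 6) (nat_lit 26) (nat_lit 0) (nat_lit 154) (nat_lit 151) (nat_lit 145)) (PT.lf (nat_lit 1672) (nat_lit 6) (nat_lit 22) (nat_lit 5) (nat_lit 143) (nat_lit 152) (nat_lit 155))))) (PT.nd (nat_lit 234) (PT.nd (nat_lit 78) (PT.lf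 (nat_lit 1824) (nat_lit 6) (nat_lit 24) (nat_lit 5) (nat_lit 144) (nat_lit 152) (nat_lit 154)) (PT.nd (nat_lit 78) (PT.lf (nat_lit 2052) (nat_lit 6) (nat_lit 27) (nat_lit 5) (nat_lit 145) (nat_lit 152) (nat_lit 153)) (PT.lf (nat_lit 2432) (nat_lit 3) (nat_lit 32) (nat_lit 4) (nat_lit 146) (nat_lit 152) (nat_lit 152)))) (PT.nd (nat_lit 156) (PT.nd (nat_lit 78) (PT.lf (nat_lit 2660) (nat_lit 6) (nat_lit 35) (nat_lit 4) (nat_lit 147) (nat_lit 152) (nat_lit 151)) (PT.lf (nat_lit 2812) (nat_lit 6) (nat_lit 37) (nat_lit 4) (nat_lit 148) (nat_lit 152) (nat_lit 150))) (PT.nd (nat_lit 78) (PT.lf (nat_lit 2736) (nat_lit 3) (nat_lit 36) (nat_lit 2) (nat_lit 149) (nat_lit 152) (nat_lit 149)) (PT.lf (nat_lit 2812) (nat_lit 6) (nat_lit 37) (nat_lit 2) (nat_lit 150) (nat_lit 152) (nat_lit 148))))))))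
noncomputable def pc2 : PT := (PT.nd (nat_lit 93366) (PT.nd (nat_lit 46722) (PT.nd (nat_lit 46254) (PT.nd (nat_lit 234) (PT.nd (nat_lit 78) (PT.lf (nat_lit 2660) (nat_lit 6) (nat_lit 35) (nat_lit 2) (nat_lit 151) (nat_lit 152) (nat_lit 147)) (PT.nd (nat_lit 78) (PT.lf (nat_lit 2432) (nat_lit 3) (nat_lit 32) (nat_lit 0) (nat_lit 152) (nat_lit 152) (nat_lit 146)) (PT.lf (nat_lit 2052) (nat_lit 6) (nat_lit 27) (nat_lit 0) (nat_lit 153) (nat_lit 152) (nat_lit 145)))) (PT.nd (nat_lit 78) (PT.lf (nat_lit 1824) (nat_lit 6) (nat_lit 24) (nat_lit 0) (nat_lit 154) (nat_lit 152) (nat_lit 144)) (PT.nd (nat_lit 45864) (PT.lf (nat_lit 1672) (nat_lit 6) (nat_lit 22) (nat_lit 0) (nat_lit 155) (nat_lit 152) (nat_lit 143)) (PT.lf (nat_lit 1520) (nat_lit 6) (nat_lit 20) (nat_lit 5) (nat_lit 142) (nat_lit 153) (nat_lit 155))))) (PT.nd (nat_lit 234) (PT.nd (nat_lit 78) (PT.lf (nat_lit 1748) (nat_lit 6) (nat_lit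 23) (nat_lit 5) (nat_lit 143) (nat_lit 153) (nat_lit 154)) (PT.nd (nat_lit 78) (PT.lf (nat_lit 1900) (nat_lit 3) (nat_lit 25) (nat_lit 4) (nat_lit 144) (nat_lit 153) (nat_lit 153)) (PT.lf (nat_lit 2052) (nat_lit 6) (nat_lit 27) (nat_lit 4) (nat_lit 145) (nat_lit 153) (nat_lit 152)))) (PT.nd (nat_lit 78) (PT.lf (nat_lit 2356) (nat_lit 6) (nat_lit 31) (nat_lit 4) (nat_lit 146) (nat_lit 153) (nat_lit 151)) (PT.nd (nat_lit 78) (PT.lf (nat_lit 2584) (nat_lit 6) (nat_lit 34) (nat_lit 4) (nat_lit 147) (nat_lit 153) (nat_lit 150)) (PT.lf (nat_lit 2508) (nat_lit 6) (nat_lit 33) (nat_lit 4) (nat_lit 148) (nat_lit 153) (nat_lit 149)))))) (PT.nd (nat_lit 468) (PT.nd (nat_lit 234) (PT.nd (nat_lit 78) (PT.lf (nat_lit 2508) (nat_lit 6) (nat_lit 33) (nat_lit 2) (nat_lit 149) (nat_lit 153) (nat_lit 148)) (PT.nd (nat_lit 78) (PT.lf (nat_lit 2584) (nat_lit 6) (nat_lit 34) (nat_lit 2) (nat_lit 150) (nat_lit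 153) (nat_lit 147)) (PT.lf (nat_lit 2356) (nat_lit 6) (nat_lit 31) (nat_lit 2) (nat_lit 151) (nat_lit 153) (nat_lit 146)))) (PT.nd (nat_lit 78) (PT.lf (nat_lit 2052) (nat_lit 6) (nat_lit 27) (nat_lit 2) (nat_lit 152) (nat_lit 153) (nat_lit 145)) (PT.nd (nat_lit 78) (PT.lf (nat_lit 1900) (nat_lit 3) (nat_lit 25) (nat_lit 0) (nat_lit 153) (nat_lit 153) (nat_lit 144)) (PT.lf (nat_lit 1748) (nat_lit 6) (nat_lit 23) (nat_lit 0) (nat_lit 154) (nat_lit 153) (nat_lit 143))))) (PT.nd (nat_lit 45864) (PT.nd (nat_lit 45708) (PT.lf (nat_lit 1520) (nat_lit 6) (nat_lit 20) (nat_lit 0) (nat_lit 155) (nat_lit 153) (nat_lit 142)) (PT.nd (nat_lit 78) (PT.lf (nat_lit 1292) (nat_lit 6) (nat_lit 17) (nat_lit 5) (nat_lit 140) (nat_lit 154) (nat_lit 156)) (PT.lf (nat_lit 1444) (nat_lit 6) (nat_lit 19) (nat_lit 5) (nat_lit 141) (nat_lit 154) (nat_lit 155)))) (PT.nd (nat_lit 156) (PT.nd (nat_lit 78) (PT.lf (nat_lit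 1596) (nat_lit 3) (nat_lit 21) (nat_lit 4) (nat_lit 142) (nat_lit 154) (nat_lit 154)) (PT.lf (nat_lit 1748) (nat_lit 6) (nat_lit 23) (nat_lit 4) (nat_lit 143) (nat_lit 154) (nat_lit 153))) (PT.nd (nat_lit 78) (PT.lf (nat_lit 1824) (nat_lit 6) (nat_lit 24) (nat_lit 4) (nat_lit 144) (nat_lit 154) (nat_lit 152)) (PT.lf (nat_lit 1976) (nat_lit 6) (nat_lit 26) (nat_lit 4) (nat_lit 145) (nat_lit 154) (nat_lit 151))))))) (PT.nd (nat_lit 46332) (PT.nd (nat_lit 468) (PT.nd (nat_lit 234) (PT.nd (nat_lit 78) (PT.lf (nat_lit 2280) (nat_lit 6) (nat_lit 30) (nat_lit 4) (nat_lit 146) (nat_lit 154) (nat_lit 150)) (PT.nd (nat_lit 78) (PT.lf (nat_lit 2204) (nat_lit 6) (nat_lit 29) (nat_lit 4) (nat_lit 147) (nat_lit 154) (nat_lit 149)) (PT.lf (nat_lit 2128) (nat_lit 3) (nat_lit 28) (nat_lit 2) (nat_lit 148) (nat_lit 154) (nat_lit 148)))) (PT.nd (nat_lit 78) (PT.lf (nat_lit 2204) (nat_lit 6) (nat_lit 29) (nat_lit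 2) (nat_lit 149) (nat_lit 154) (nat_lit 147)) (PT.nd (nat_lit 78) (PT.lf (nat_lit 2280) (nat_lit 6) (nat_lit 30) (nat_lit 2) (nat_lit 150) (nat_lit 154) (nat_lit 146)) (PT.lf (nat_lit 1976) (nat_lit 6) (nat_lit 26) (nat_lit 2) (nat_lit 151) (nat_lit 154) (nat_lit 145))))) (PT.nd (nat_lit 234) (PT.nd (nat_lit 78) (PT.lf (nat_lit 1824) (nat_lit 6) (nat_lit 24) (nat_lit 2) (nat_lit 152) (nat_lit 154) (nat_lit 144)) (PT.nd (nat_lit 78) (PT.lf (nat_lit 1748) (nat_lit 6) (nat_lit 23) (nat_lit 2) (nat_lit 153) (nat_lit 154) (nat_lit 143)) (PT.lf (nat_lit 1596) (nat_lit 3) (nat_lit 21) (nat_lit 0) (nat_lit 154) (nat_lit 154) (nat_lit 142)))) (PT.nd (nat_lit 78) (PT.lf (nat_lit 1444) (nat_lit 6) (nat_lit 19) (nat_lit 0) (nat_lit 155) (nat_lit 154) (nat_lit 141)) (PT.nd (nat_lit 45474) (PT.lf (nat_lit 1292) (nat_lit 6) (nat_lit 17) (nat_lit 0) (nat_lit 156) (nat_lit 154) (nat_lit 140)) (PT.lf (nat_lit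 1064) (nat_lit 6) (nat_lit 14) (nat_lit 5) (nat_lit 138) (nat_lit 155) (nat_lit 157)))))) (PT.nd (nat_lit 1092) (PT.nd (nat_lit 234) (PT.nd (nat_lit 78) (PT.lf (nat_lit 1216) (nat_lit 6) (nat_lit 16) (nat_lit 5) (nat_lit 139) (nat_lit 155) (nat_lit 156)) (PT.nd (nat_lit 78) (PT.lf (nat_lit 1368) (nat_lit 3) (nat_lit 18) (nat_lit 4) (nat_lit 140) (nat_lit 155) (nat_lit 155)) (PT.lf (nat_lit 1444) (nat_lit 6) (nat_lit 19) (nat_lit 4) (nat_lit 141) (nat_lit 155) (nat_lit 154)))) (PT.nd (nat_lit 78) (PT.lf (nat_lit 1520) (nat_lit 6) (nat_lit 20) (nat_lit 4) (nat_lit 142) (nat_lit 155) (nat_lit 153)) (PT.nd (nat_lit 702) (PT.lf (nat_lit 1672) (nat_lit 6) (nat_lit 22) (nat_lit 4) (nat_lit 143) (nat_lit 155) (nat_lit 152)) (PT.lf (nat_lit 1672) (nat_lit 6) (nat_lit 22) (nat_lit 2) (nat_lit 152) (nat_lit 155) (nat_lit 143))))) (PT.nd (nat_lit 234) (PT.nd (nat_lit 78) (PT.lf (nat_lit 1520) (nat_lit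 6) (nat_lit 20) (nat_lit 2) (nat_lit 153) (nat_lit 155) (nat_lit 142)) (PT.nd (nat_lit 78) (PT.lf (nat_lit 1444) (nat_lit 6) (nat_lit 19) (nat_lit 2) (nat_lit 154) (nat_lit 155) (nat_lit 141)) (PT.lf (nat_lit 1368) (nat_lit 3) (nat_lit 18) (nat_lit 0) (nat_lit 155) (nat_lit 155) (nat_lit 140)))) (PT.nd (nat_lit 45318) (PT.nd (nat_lit 78) (PT.lf (nat_lit 1216) (nat_lit 6) (nat_lit 16) (nat_lit 0) (nat_lit 156) (nat_lit 155) (nat_lit 139)) (PT.lf (nat_lit 1064) (nat_lit 6) (nat_lit 14) (nat_lit 0) (nat_lit 157) (nat_lit 155) (nat_lit 138))) (PT.nd (nat_lit 78) (PT.lf (nat_lit 836) (nat_lit 6) (nat_lit 11) (nat_lit 5) (nat_lit 136) (nat_lit 156) (nat_lit 158)) (PT.lf (nat_lit 988) (nat_lit 6) (nat_lit 13) (nat_lit 5) (nat_lit 137) (nat_lit 156) (nat_lit 157))))))))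
noncomputable def pc3 : PT := (PT.nd (nat_lit 95316) (PT.nd (nat_lit 46878) (PT.nd (nat_lit 1482) (PT.nd (nat_lit 1248) (PT.nd (nat_lit 78) (PT.lf (nat_lit 1140) (nat_lit 3) (nat_lit 15) (nat_lit 4) (nat_lit 138) (nat_lit 156) (nat_lit 156)) (PT.nd (nat_lit 78) (PT.lf (nat_lit 1216) (nat_lit 6) (nat_lit 16) (nat_lit 4) (nat_lit 139) (nat_lit 156) (nat_lit 155)) (PT.lf (nat_lit 1292) (nat_lit 6) (nat_lit 17) (nat_lit 4) (nat_lit 140) (nat_lit 156) (nat_lit 154)))) (PT.nd (nat_lit 78) (PT.lf (nat_lit 1292) (nat_lit 6) (nat_lit 17) (nat_lit 2) (nat_lit 154) (nat_lit 156) (nat_lit 140)) (PT.nd (nat_lit 78) (PT.lf (nat_lit 1216) (nat_lit 6) (nat_lit 16) (nat_lit 2) (nat_lit 155) (nat_lit 156) (nat_lit 139)) (PT.lf (nat_lit 1140) (nat_lit 3) (nat_lit 15) (nat_lit 0) (nat_lit 156) (nat_lit 156) (nat_lit 138))))) (PT.nd (nat_lit 45162) (PT.nd (nat_lit 78) (PT.lf (nat_lit 988) (nat_lit 6) (nat_lit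 13) (nat_lit 0) (nat_lit 157) (nat_lit 156) (nat_lit 137)) (PT.nd (nat_lit 45006) (PT.lf (nat_lit 836) (nat_lit 6) (nat_lit 11) (nat_lit 0) (nat_lit 158) (nat_lit 156) (nat_lit 136)) (PT.lf (nat_lit 608) (nat_lit 6) (nat_lit 8) (nat_lit 5) (nat_lit 134) (nat_lit 157) (nat_lit 159)))) (PT.nd (nat_lit 78) (PT.lf (nat_lit 760) (nat_lit 6) (nat_lit 10) (nat_lit 5) (nat_lit 135) (nat_lit 157) (nat_lit 158)) (PT.nd (nat_lit 78) (PT.lf (nat_lit 912) (nat_lit 3) (nat_lit 12) (nat_lit 4) (nat_lit 136) (nat_lit 157) (nat_lit 157)) (PT.lf (nat_lit 988) (nat_lit 6) (nat_lit 13) (nat_lit 4) (nat_lit 137) (nat_lit 157) (nat_lit 156)))))) (PT.nd (nat_lit 46410) (PT.nd (nat_lit 1482) (PT.nd (nat_lit 1326) (PT.lf (nat_lit 1064) (nat_lit 6) (nat_lit 14) (nat_lit 4) (nat_lit 138) (nat_lit 157) (nat_lit 155)) (PT.nd (nat_lit 78) (PT.lf (nat_lit 1064) (nat_lit 6) (nat_lit 14) (nat_lit 2) (nat_lit 155) (nat_lit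 157) (nat_lit 138)) (PT.lf (nat_lit 988) (nat_lit 6) (nat_lit 13) (nat_lit 2) (nat_lit 156) (nat_lit 157) (nat_lit 137)))) (PT.nd (nat_lit 78) (PT.lf (nat_lit 912) (nat_lit 3) (nat_lit 12) (nat_lit 0) (nat_lit 157) (nat_lit 157) (nat_lit 136)) (PT.nd (nat_lit 78) (PT.lf (nat_lit 760) (nat_lit 6) (nat_lit 10) (nat_lit 0) (nat_lit 158) (nat_lit 157) (nat_lit 135)) (PT.lf (nat_lit 608) (nat_lit 6) (nat_lit 8) (nat_lit 0) (nat_lit 159) (nat_lit 157) (nat_lit 134))))) (PT.nd (nat_lit 234) (PT.nd (nat_lit 78) (PT.lf (nat_lit 380) (nat_lit 6) (nat_lit 5) (nat_lit 5) (nat_lit 132) (nat_lit 158) (nat_lit 160)) (PT.nd (nat_lit 78) (PT.lf (nat_lit 532) (nat_lit 6) (nat_lit 7) (nat_lit 5) (nat_lit 133) (nat_lit 158) (nat_lit 159)) (PT.lf (nat_lit 684) (nat_lit 3) (nat_lit 9) (nat_lit 4) (nat_lit 134) (nat_lit 158) (nat_lit 158)))) (PT.nd (nat_lit 1638) (PT.nd (nat_lit 78) (PT.lf (nat_lit 760) (nat_lit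 6) (nat_lit 10) (nat_lit 4) (nat_lit 135) (nat_lit 158) (nat_lit 157)) (PT.lf (nat_lit 836) (nat_lit 6) (nat_lit 11) (nat_lit 4) (nat_lit 136) (nat_lit 158) (nat_lit 156))) (PT.nd (nat_lit 78) (PT.lf (nat_lit 836) (nat_lit 6) (nat_lit 11) (nat_lit 2) (nat_lit 156) (nat_lit 158) (nat_lit 136)) (PT.lf (nat_lit 760) (nat_lit 6) (nat_lit 10) (nat_lit 2) (nat_lit 157) (nat_lit 158) (nat_lit 135))))))) (PT.nd (nat_lit 47112) (PT.nd (nat_lit 44928) (PT.nd (nat_lit 44694) (PT.nd (nat_lit 78) (PT.lf (nat_lit 684) (nat_lit 3) (nat_lit 9) (nat_lit 0) (nat_lit 158) (nat_lit 158) (nat_lit 134)) (PT.nd (nat_lit 78) (PT.lf (nat_lit 532) (nat_lit 6) (nat_lit 7) (nat_lit 0) (nat_lit 159) (nat_lit 158) (nat_lit 133)) (PT.lf (nat_lit 380) (nat_lit 6) (nat_lit 5) (nat_lit 0) (nat_lit 160) (nat_lit 158) (nat_lit 132)))) (PT.nd (nat_lit 78) (PT.lf (nat_lit 152) (nat_lit 6) (nat_lit 2) (nat_lit 5) (nat_lit 130)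 (nat_lit 159) (nat_lit 161)) (PT.nd (nat_lit 78) (PT.lf (nat_lit 304) (nat_lit 6) (nat_lit 4) (nat_lit 5) (nat_lit 131) (nat_lit 159) (nat_lit 160)) (PT.lf (nat_lit 456) (nat_lit 3) (nat_lit 6) (nat_lit 4) (nat_lit 132) (nat_lit 159) (nat_lit 159))))) (PT.nd (nat_lit 1950) (PT.nd (nat_lit 78) (PT.lf (nat_lit 532) (nat_lit 6) (nat_lit 7) (nat_lit 4) (nat_lit 133) (nat_lit 159) (nat_lit 158)) (PT.nd (nat_lit 1794) (PT.lf (nat_lit 608) (nat_lit 6) (nat_lit 8) (nat_lit 4) (nat_lit 134) (nat_lit 159) (nat_lit 157)) (PT.lf (nat_lit 608) (nat_lit 6) (nat_lit 8) (nat_lit 2) (nat_lit 157) (nat_lit 159) (nat_lit 134)))) (PT.nd (nat_lit 78) (PT.lf (nat_lit 532) (nat_lit 6) (nat_lit 7) (nat_lit 2) (nat_lit 158) (nat_lit 159) (nat_lit 133)) (PT.nd (nat_lit 78) (PT.lf (nat_lit 456) (nat_lit 3) (nat_lit 6) (nat_lit 0) (nat_lit 159) (nat_lit 159) (nat_lit 132)) (PT.lf (nat_lit 304) (nat_lit 6) (nat_lit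 4) (nat_lit 0) (nat_lit 160) (nat_lit 159) (nat_lit 131)))))) (PT.nd (nat_lit 46722) (PT.nd (nat_lit 44538) (PT.nd (nat_lit 44382) (PT.lf (nat_lit 152) (nat_lit 6) (nat_lit 2) (nat_lit 0) (nat_lit 161) (nat_lit 159) (nat_lit 130)) (PT.nd (nat_lit 78) (PT.lf (nat_lit 76) (nat_lit 6) (nat_lit 1) (nat_lit 5) (nat_lit 129) (nat_lit 160) (nat_lit 161)) (PT.lf (nat_lit 228) (nat_lit 3) (nat_lit 3) (nat_lit 4) (nat_lit 130) (nat_lit 160) (nat_lit 160)))) (PT.nd (nat_lit 78) (PT.lf (nat_lit 304) (nat_lit 6) (nat_lit 4) (nat_lit 4) (nat_lit 131) (nat_lit 160) (nat_lit 159)) (PT.nd (nat_lit 2028) (PT.lf (nat_lit 380) (nat_lit 6) (nat_lit 5) (nat_lit 4) (nat_lit 132) (nat_lit 160) (nat_lit 158)) (PT.lf (nat_lit 380) (nat_lit 6) (nat_lit 5) (nat_lit 2) (nat_lit 158) (nat_lit 160) (nat_lit 132))))) (PT.nd (nat_lit 44538) (PT.nd (nat_lit 78) (PT.lf (nat_lit 304) (nat_lit 6) (nat_lit 4) (nat_lit 2) (nat_lit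 159) (nat_lit 160) (nat_lit 131)) (PT.nd (nat_lit 78) (PT.lf (nat_lit 228) (nat_lit 3) (nat_lit 3) (nat_lit 0) (nat_lit 160) (nat_lit 160) (nat_lit 130)) (PT.lf (nat_lit 76) (nat_lit 6) (nat_lit 1) (nat_lit 0) (nat_lit 161) (nat_lit 160) (nat_lit 129)))) (PT.nd (nat_lit 2340) (PT.nd (nat_lit 78) (PT.lf (nat_lit 76) (nat_lit 6) (nat_lit 1) (nat_lit 4) (nat_lit 129) (nat_lit 161) (nat_lit 160)) (PT.lf (nat_lit 152) (nat_lit 6) (nat_lit 2) (nat_lit 4) (nat_lit 130) (nat_lit 161) (nat_lit 159))) (PT.nd (nat_lit 78) (PT.lf (nat_lit 152) (nat_lit 6) (nat_lit 2) (nat_lit 2) (nat_lit 159) (nat_lit 161) (nat_lit 130)) (PT.lf (nat_lit 76) (nat_lit 6) (nat_lit 1) (nat_lit 2) (nat_lit 160) (nat_lit 161) (nat_lit 129))))))))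
noncomputable def xc0 : XT := (XT.nd (nat_lit 234000) (nat_lit 0) (nat_lit 0) (XT.nd (nat_lit 140634) (nat_lit 0) (nat_lit 0) (XT.nd (nat_lit 93678) (nat_lit 0) (nat_lit 0) (XT.nd (nat_lit 46878) (nat_lit 0) (nat_lit 0) (XT.nd (nat_lit 46722) (nat_lit 0) (nat_lit 0) (XT.lf (nat_lit 0) (nat_lit 7222552673933) (nat_lit 152) (nat_lit 1396165888781) (nat_lit 0) (nat_lit 7222552673933) (nat_lit 1) (nat_lit 5) (nat_lit 3) (nat_lit 4) (nat_lit 1) (nat_lit 4) (nat_lit 376) (nat_lit 262) (nat_lit 262)) (XT.nd (nat_lit 78) (nat_lit 0) (nat_lit 0) (XT.lf (nat_lit 0) (nat_lit 5460855585524) (nat_lit 152) (nat_lit 1056601096166) (nat_lit 0) (nat_lit 5460855585524) (nat_lit 1) (nat_lit 5) (nat_lit 3) (nat_lit 4) (nat_lit 1) (nat_lit 4) (nat_lit 374) (nat_lit 263) (nat_lit 263)) (XT.lf (nat_lit 0) (nat_lit 12560514288552) (nat_lit 152) (nat_lit 2429052528104) (nat_lit 0) (nat_lit 12560506982890) (nat_lit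 1) (nat_lit 5) (nat_lit 3) (nat_lit 4) (nat_lit 1) (nat_lit 4) (nat_lit 375) (nat_lit 263) (nat_lit 262)))) (XT.nd (nat_lit 46644) (nat_lit 0) (nat_lit 0) (XT.nd (nat_lit 46566) (nat_lit 0) (nat_lit 0) (XT.lf (nat_lit 0) (nat_lit 14445090722960) (nat_lit 152) (nat_lit 2792376441320) (nat_lit 0) (nat_lit 14445077064549) (nat_lit 1) (nat_lit 5) (nat_lit 3) (nat_lit 4) (nat_lit 1) (nat_lit 4) (nat_lit 376) (nat_lit 263) (nat_lit 261)) (XT.lf (nat_lit 0) (nat_lit 4128694706341) (nat_lit 152) (nat_lit 799976193724) (nat_lit 0) (nat_lit 4128694706341) (nat_lit 1) (nat_lit 5) (nat_lit 3) (nat_lit 4) (nat_lit 1) (nat_lit 4) (nat_lit 372) (nat_lit 264) (nat_lit 264))) (XT.nd (nat_lit 78) (nat_lit 0) (nat_lit 0) (XT.lf (nat_lit 0) (nat_lit 9496626232707) (nat_lit 152) (nat_lit 1838645753524) (nat_lit 0) (nat_lit 9496617831196) (nat_lit 1) (nat_lit 5) (nat_lit 3) (nat_lit 4) (nat_lit 1) (nat_lit 4)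 (nat_lit 373) (nat_lit 264) (nat_lit 263)) (XT.lf (nat_lit 0) (nat_lit 10921694352407) (nat_lit 152) (nat_lit 2113253555654) (nat_lit 0) (nat_lit 10921678645235) (nat_lit 1) (nat_lit 5) (nat_lit 3) (nat_lit 4) (nat_lit 1) (nat_lit 4) (nat_lit 374) (nat_lit 264) (nat_lit 262))))) (XT.nd (nat_lit 46644) (nat_lit 0) (nat_lit 0) (XT.nd (nat_lit 46488) (nat_lit 0) (nat_lit 0) (XT.nd (nat_lit 78) (nat_lit 0) (nat_lit 0) (XT.lf (nat_lit 0) (nat_lit 12560475539343) (nat_lit 152) (nat_lit 2429148555183) (nat_lit 0) (nat_lit 12560453479421) (nat_lit 1) (nat_lit 5) (nat_lit 3) (nat_lit 4) (nat_lit 1) (nat_lit 4) (nat_lit 375) (nat_lit 264) (nat_lit 261)) (XT.lf (nat_lit 0) (nat_lit 14445032903693) (nat_lit 152) (nat_lit 2792511306451) (nat_lit 0) (nat_lit 14445005319641) (nat_lit 1) (nat_lit 5) (nat_lit 3) (nat_lit 4) (nat_lit 1) (nat_lit 4) (nat_lit 376) (nat_lit 264) (nat_lit 260))) (XT.nd (nat_lit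 78) (nat_lit 0) (nat_lit 0) (XT.lf (nat_lit 0) (nat_lit 3121315194324) (nat_lit 152) (nat_lit 606085993771) (nat_lit 0) (nat_lit 3121315194324) (nat_lit 1) (nat_lit 5) (nat_lit 3) (nat_lit 4) (nat_lit 1) (nat_lit 4) (nat_lit 370) (nat_lit 265) (nat_lit 265)) (XT.lf (nat_lit 0) (nat_lit 7179747616288) (nat_lit 152) (nat_lit 1392503369827) (nat_lit 0) (nat_lit 7179737954550) (nat_lit 1) (nat_lit 5) (nat_lit 3) (nat_lit 4) (nat_lit 1) (nat_lit 4) (nat_lit 371) (nat_lit 265) (nat_lit 264)))) (XT.nd (nat_lit 156) (nat_lit 0) (nat_lit 0) (XT.nd (nat_lit 78) (nat_lit 0) (nat_lit 0) (XT.lf (nat_lit 0) (nat_lit 8257370071244) (nat_lit 152) (nat_lit 1600011455268) (nat_lit 0) (nat_lit 8257352007996) (nat_lit 1) (nat_lit 5) (nat_lit 3) (nat_lit 4) (nat_lit 1) (nat_lit 4) (nat_lit 372) (nat_lit 265) (nat_lit 263)) (XT.lf (nat_lit 0) (nat_lit 9496581671117) (nat_lit 152) (nat_lit 1838756184666) (nat_lit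 0) (nat_lit 9496556302206) (nat_lit 1) (nat_lit 5) (nat_lit 3) (nat_lit 4) (nat_lit 1) (nat_lit 4) (nat_lit 373) (nat_lit 265) (nat_lit 262))) (XT.nd (nat_lit 78) (nat_lit 0) (nat_lit 0) (XT.lf (nat_lit 0) (nat_lit 10921627860250) (nat_lit 152) (nat_lit 2113408650554) (nat_lit 0) (nat_lit 10921596138590) (nat_lit 1) (nat_lit 5) (nat_lit 3) (nat_lit 4) (nat_lit 1) (nat_lit 4) (nat_lit 374) (nat_lit 265) (nat_lit 261)) (XT.lf (nat_lit 0) (nat_lit 12560389977126) (nat_lit 152) (nat_lit 2429342488134) (nat_lit 0) (nat_lit 12560352731337) (nat_lit 1) (nat_lit 5) (nat_lit 3) (nat_lit 4) (nat_lit 1) (nat_lit 4) (nat_lit 375) (nat_lit 265) (nat_lit 260)))))) (XT.nd (nat_lit 46722) (nat_lit 0) (nat_lit 0) (XT.nd (nat_lit 46410) (nat_lit 0) (nat_lit 0) (XT.nd (nat_lit 46254) (nat_lit 0) (nat_lit 0) (XT.lf (nat_lit 0) (nat_lit 14444930758816) (nat_lit 152) (nat_lit 2792739011619) (nat_lit 0) (nat_lit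 14444888709436) (nat_lit 1) (nat_lit 5) (nat_lit 3) (nat_lit 4) (nat_lit 1) (nat_lit 4) (nat_lit 376) (nat_lit 265) (nat_lit 259)) (XT.nd (nat_lit 78) (nat_lit 0) (nat_lit 0) (XT.lf (nat_lit 0) (nat_lit 2359505881437) (nat_lit 152) (nat_lit 459655506061) (nat_lit 0) (nat_lit 2359505881437) (nat_lit 1) (nat_lit 5) (nat_lit 3) (nat_lit 4) (nat_lit 1) (nat_lit 4) (nat_lit 368) (nat_lit 266) (nat_lit 266)) (XT.lf (nat_lit 0) (nat_lit 5427694597048) (nat_lit 152) (nat_lit 1055489085717) (nat_lit 0) (nat_lit 5427683486050) (nat_lit 1) (nat_lit 5) (nat_lit 3) (nat_lit 4) (nat_lit 1) (nat_lit 4) (nat_lit 369) (nat_lit 266) (nat_lit 265)))) (XT.nd (nat_lit 156) (nat_lit 0) (nat_lit 0) (XT.nd (nat_lit 78) (nat_lit 0) (nat_lit 0) (XT.lf (nat_lit 0) (nat_lit 6242608145996) (nat_lit 152) (nat_lit 1212239915536) (nat_lit 0) (nat_lit 6242587373260) (nat_lit 1) (nat_lit 5) (nat_lit 3) (nat_lit 4) (nat_lit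 1) (nat_lit 4) (nat_lit 370) (nat_lit 266) (nat_lit 264)) (XT.lf (nat_lit 0) (nat_lit 7179696370459) (nat_lit 152) (nat_lit 1392630365640) (nat_lit 0) (nat_lit 7179667196212) (nat_lit 1) (nat_lit 5) (nat_lit 3) (nat_lit 4) (nat_lit 1) (nat_lit 4) (nat_lit 371) (nat_lit 266) (nat_lit 263))) (XT.nd (nat_lit 78) (nat_lit 0) (nat_lit 0) (XT.lf (nat_lit 0) (nat_lit 8257293605263) (nat_lit 152) (nat_lit 1600189814403) (nat_lit 0) (nat_lit 8257257125354) (nat_lit 1) (nat_lit 5) (nat_lit 3) (nat_lit 4) (nat_lit 1) (nat_lit 4) (nat_lit 372) (nat_lit 266) (nat_lit 262)) (XT.lf (nat_lit 0) (nat_lit 9496483274567) (nat_lit 152) (nat_lit 1838979207559) (nat_lit 0) (nat_lit 9496440441910) (nat_lit 1) (nat_lit 5) (nat_lit 3) (nat_lit 4) (nat_lit 1) (nat_lit 4) (nat_lit 373) (nat_lit 266) (nat_lit 261))))) (XT.nd (nat_lit 46332) (nat_lit 0) (nat_lit 0) (XT.nd (nat_lit 156) (nat_lit 0) (nat_lit 0) (XT.nd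 (nat_lit 78) (nat_lit 0) (nat_lit 0) (XT.lf (nat_lit 0) (nat_lit 10921510393642) (nat_lit 152) (nat_lit 2113670511498) (nat_lit 0) (nat_lit 10921462036854) (nat_lit 1) (nat_lit 5) (nat_lit 3) (nat_lit 4) (nat_lit 1) (nat_lit 4) (nat_lit 374) (nat_lit 266) (nat_lit 260)) (XT.lf (nat_lit 0) (nat_lit 12560255927859) (nat_lit 152) (nat_lit 2429638121295) (nat_lit 0) (nat_lit 12560202767480) (nat_lit 1) (nat_lit 5) (nat_lit 3) (nat_lit 4) (nat_lit 1) (nat_lit 4) (nat_lit 375) (nat_lit 266) (nat_lit 259))) (XT.nd (nat_lit 46098) (nat_lit 0) (nat_lit 0) (XT.lf (nat_lit 0) (nat_lit 14444782289845) (nat_lit 152) (nat_lit 2793064011926) (nat_lit 0) (nat_lit 14444724952431) (nat_lit 1) (nat_lit 5) (nat_lit 3) (nat_lit 4) (nat_lit 1) (nat_lit 4) (nat_lit 376) (nat_lit 266) (nat_lit 258)) (XT.lf (nat_lit 0) (nat_lit 1783370068352) (nat_lit 152) (nat_lit 349138133085) (nat_lit 0) (nat_lit 1783370068352)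 (nat_lit 1) (nat_lit 5) (nat_lit 3) (nat_lit 4) (nat_lit 1) (nat_lit 4) (nat_lit 366) (nat_lit 267) (nat_lit 267)))) (XT.nd (nat_lit 156) (nat_lit 0) (nat_lit 0) (XT.nd (nat_lit 78) (nat_lit 0) (nat_lit 0) (XT.lf (nat_lit 0) (nat_lit 4102706887412) (nat_lit 152) (nat_lit 801041341138) (nat_lit 0) (nat_lit 4102694109764) (nat_lit 1) (nat_lit 5) (nat_lit 3) (nat_lit 4) (nat_lit 1) (nat_lit 4) (nat_lit 367) (nat_lit 267) (nat_lit 266)) (XT.lf (nat_lit 0) (nat_lit 4718986183823) (nat_lit 152) (nat_lit 919389129314) (nat_lit 0) (nat_lit 4718962295177) (nat_lit 1) (nat_lit 5) (nat_lit 3) (nat_lit 4) (nat_lit 1) (nat_lit 4) (nat_lit 368) (nat_lit 267) (nat_lit 265))) (XT.nd (nat_lit 78) (nat_lit 0) (nat_lit 0) (XT.lf (nat_lit 0) (nat_lit 5427635664345) (nat_lit 152) (nat_lit 1055635130902) (nat_lit 0) (nat_lit 5427602113961) (nat_lit 1) (nat_lit 5) (nat_lit 3) (nat_lit 4) (nat_lit 1) (nat_lit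 4) (nat_lit 369) (nat_lit 267) (nat_lit 264)) (XT.lf (nat_lit 0) (nat_lit 6242520210117) (nat_lit 152) (nat_lit 1212445028541) (nat_lit 0) (nat_lit 6242478258222) (nat_lit 1) (nat_lit 5) (nat_lit 3) (nat_lit 4) (nat_lit 1) (nat_lit 4) (nat_lit 370) (nat_lit 267) (nat_lit 263))))))) (XT.nd (nat_lit 47034) (nat_lit 0) (nat_lit 0) (XT.nd (nat_lit 46410) (nat_lit 0) (nat_lit 0) (XT.nd (nat_lit 234) (nat_lit 0) (nat_lit 0) (XT.nd (nat_lit 78) (nat_lit 0) (nat_lit 0) (XT.lf (nat_lit 0) (nat_lit 7179583214427) (nat_lit 152) (nat_lit 1392886841967) (nat_lit 0) (nat_lit 7179533956871) (nat_lit 1) (nat_lit 5) (nat_lit 3) (nat_lit 4) (nat_lit 1) (nat_lit 4) (nat_lit 371) (nat_lit 267) (nat_lit 262)) (XT.nd (nat_lit 78) (nat_lit 0) (nat_lit 0) (XT.lf (nat_lit 0) (nat_lit 8257158518664) (nat_lit 152) (nat_lit 1600490954488) (nat_lit 0) (nat_lit 8257102908358) (nat_lit 1) (nat_lit 5) (nat_lit 3) (nat_lit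 4) (nat_lit 1) (nat_lit 4) (nat_lit 372) (nat_lit 267) (nat_lit 261)) (XT.lf (nat_lit 0) (nat_lit 9496329117910) (nat_lit 152) (nat_lit 1839319185694) (nat_lit 0) (nat_lit 9496267983475) (nat_lit 1) (nat_lit 5) (nat_lit 3) (nat_lit 4) (nat_lit 1) (nat_lit 4) (nat_lit 373) (nat_lit 267) (nat_lit 260)))) (XT.nd (nat_lit 156) (nat_lit 0) (nat_lit 0) (XT.nd (nat_lit 78) (nat_lit 0) (nat_lit 0) (XT.lf (nat_lit 0) (nat_lit 10921339654325) (nat_lit 152) (nat_lit 2114044261851) (nat_lit 0) (nat_lit 10921273716298) (nat_lit 1) (nat_lit 5) (nat_lit 3) (nat_lit 4) (nat_lit 1) (nat_lit 4) (nat_lit 374) (nat_lit 267) (nat_lit 259)) (XT.lf (nat_lit 0) (nat_lit 12560070768838) (nat_lit 152) (nat_lit 2430041238794) (nat_lit 0) (nat_lit 12560000653775) (nat_lit 1) (nat_lit 5) (nat_lit 3) (nat_lit 4) (nat_lit 1) (nat_lit 4) (nat_lit 375) (nat_lit 267) (nat_lit 258))) (XT.nd (nat_lit 45942) (nat_lit 0) (nat_lit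 0) (XT.lf (nat_lit 0) (nat_lit 14444584591951) (nat_lit 152) (nat_lit 2793492666074) (nat_lit 0) (nat_lit 14444510844683) (nat_lit 1) (nat_lit 5) (nat_lit 3) (nat_lit 4) (nat_lit 1) (nat_lit 4) (nat_lit 376) (nat_lit 267) (nat_lit 257)) (XT.lf (nat_lit 0) (nat_lit 1347615317507) (nat_lit 152) (nat_lit 265807001338) (nat_lit 0) (nat_lit 1347615317507) (nat_lit 1) (nat_lit 5) (nat_lit 3) (nat_lit 4) (nat_lit 1) (nat_lit 4) (nat_lit 364) (nat_lit 268) (nat_lit 268))))) (XT.nd (nat_lit 312) (nat_lit 0) (nat_lit 0) (XT.nd (nat_lit 156) (nat_lit 0) (nat_lit 0) (XT.nd (nat_lit 78) (nat_lit 0) (nat_lit 0) (XT.lf (nat_lit 0) (nat_lit 3100614320000) (nat_lit 152) (nat_lit 609083283378) (nat_lit 0) (nat_lit 3100599625705) (nat_lit 1) (nat_lit 5) (nat_lit 3) (nat_lit 4) (nat_lit 1) (nat_lit 4) (nat_lit 365) (nat_lit 268) (nat_lit 267)) (XT.lf (nat_lit 0) (nat_lit 3566710720794) (nat_lit 152) (nat_lit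 698366100941) (nat_lit 0) (nat_lit 3566683248851) (nat_lit 1) (nat_lit 5) (nat_lit 3) (nat_lit 4) (nat_lit 1) (nat_lit 4) (nat_lit 366) (nat_lit 268) (nat_lit 266))) (XT.nd (nat_lit 78) (nat_lit 0) (nat_lit 0) (XT.lf (nat_lit 0) (nat_lit 4102639114803) (nat_lit 152) (nat_lit 801209293101) (nat_lit 0) (nat_lit 4102600531862) (nat_lit 1) (nat_lit 5) (nat_lit 3) (nat_lit 4) (nat_lit 1) (nat_lit 4) (nat_lit 367) (nat_lit 268) (nat_lit 265)) (XT.lf (nat_lit 0) (nat_lit 4718885057563) (nat_lit 152) (nat_lit 919625009270) (nat_lit 0) (nat_lit 4718836812884) (nat_lit 1) (nat_lit 5) (nat_lit 3) (nat_lit 4) (nat_lit 1) (nat_lit 4) (nat_lit 368) (nat_lit 268) (nat_lit 264)))) (XT.nd (nat_lit 156) (nat_lit 0) (nat_lit 0) (XT.nd (nat_lit 78) (nat_lit 0) (nat_lit 0) (XT.lf (nat_lit 0) (nat_lit 5427505534909) (nat_lit 152) (nat_lit 1055930078678) (nat_lit 0) (nat_lit 5427448888719) (nat_lit 1) (nat_lit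 5) (nat_lit 3) (nat_lit 4) (nat_lit 1) (nat_lit 4) (nat_lit 369) (nat_lit 268) (nat_lit 263)) (XT.lf (nat_lit 0) (nat_lit 6242364860528) (nat_lit 152) (nat_lit 1212791339638) (nat_lit 0) (nat_lit 6242300908677) (nat_lit 1) (nat_lit 5) (nat_lit 3) (nat_lit 4) (nat_lit 1) (nat_lit 4) (nat_lit 370) (nat_lit 268) (nat_lit 262))) (XT.nd (nat_lit 78) (nat_lit 0) (nat_lit 0) (XT.lf (nat_lit 0) (nat_lit 7179405934271) (nat_lit 152) (nat_lit 1393277816823) (nat_lit 0) (nat_lit 7179335629670) (nat_lit 1) (nat_lit 5) (nat_lit 3) (nat_lit 4) (nat_lit 1) (nat_lit 4) (nat_lit 371) (nat_lit 268) (nat_lit 261)) (XT.lf (nat_lit 0) (nat_lit 8256962168449) (nat_lit 152) (nat_lit 1600920767394) (nat_lit 0) (nat_lit 8256886339719) (nat_lit 1) (nat_lit 5) (nat_lit 3) (nat_lit 4) (nat_lit 1) (nat_lit 4) (nat_lit 372) (nat_lit 268) (nat_lit 260)))))) (XT.nd (nat_lit 46332) (nat_lit 0) (nat_lit 0) (XT.nd (nat_lit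 46020) (nat_lit 0) (nat_lit 0) (XT.nd (nat_lit 156) (nat_lit 0) (nat_lit 0) (XT.nd (nat_lit 78) (nat_lit 0) (nat_lit 0) (XT.lf (nat_lit 0) (nat_lit 9496116185036) (nat_lit 152) (nat_lit 1839782770818) (nat_lit 0) (nat_lit 9496035552714) (nat_lit 1) (nat_lit 5) (nat_lit 3) (nat_lit 4) (nat_lit 1) (nat_lit 4) (nat_lit 373) (nat_lit 268) (nat_lit 259)) (XT.lf (nat_lit 0) (nat_lit 10921112301746) (nat_lit 152) (nat_lit 2114537214121) (nat_lit 0) (nat_lit 10921027492389) (nat_lit 1) (nat_lit 5) (nat_lit 3) (nat_lit 4) (nat_lit 1) (nat_lit 4) (nat_lit 374) (nat_lit 268) (nat_lit 258))) (XT.nd (nat_lit 78) (nat_lit 0) (nat_lit 0) (XT.lf (nat_lit 0) (nat_lit 12559830877386) (nat_lit 152) (nat_lit 2430559727713) (nat_lit 0) (nat_lit 12559742435824) (nat_lit 1) (nat_lit 5) (nat_lit 3) (nat_lit 4) (nat_lit 1) (nat_lit 4) (nat_lit 375) (nat_lit 268) (nat_lit 257)) (XT.lf (nat_lit 0) (nat_lit 14444333797131)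 (nat_lit 152) (nat_lit 2794033360773) (nat_lit 0) (nat_lit 14444242197129) (nat_lit 1) (nat_lit 5) (nat_lit 3) (nat_lit 4) (nat_lit 1) (nat_lit 4) (nat_lit 376) (nat_lit 268) (nat_lit 256)))) (XT.nd (nat_lit 156) (nat_lit 0) (nat_lit 0) (XT.nd (nat_lit 78) (nat_lit 0) (nat_lit 0) (XT.lf (nat_lit 0) (nat_lit 1017991822243) (nat_lit 152) (nat_lit 203067955729) (nat_lit 0) (nat_lit 1017991822243) (nat_lit 1) (nat_lit 5) (nat_lit 3) (nat_lit 4) (nat_lit 1) (nat_lit 4) (nat_lit 362) (nat_lit 269) (nat_lit 269)) (XT.lf (nat_lit 0) (nat_lit 2342645144353) (nat_lit 152) (nat_lit 464442555520) (nat_lit 0) (nat_lit 2342628245913) (nat_lit 1) (nat_lit 5) (nat_lit 3) (nat_lit 4) (nat_lit 1) (nat_lit 4) (nat_lit 363) (nat_lit 269) (nat_lit 268))) (XT.nd (nat_lit 78) (nat_lit 0) (nat_lit 0) (XT.lf (nat_lit 0) (nat_lit 2695196806719) (nat_lit 152) (nat_lit 531717312663) (nat_lit 0) (nat_lit 2695165213984)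 (nat_lit 1) (nat_lit 5) (nat_lit 3) (nat_lit 4) (nat_lit 1) (nat_lit 4) (nat_lit 364) (nat_lit 269) (nat_lit 267)) (XT.lf (nat_lit 0) (nat_lit 3100536381500) (nat_lit 152) (nat_lit 609276428135) (nat_lit 0) (nat_lit 3100492011118) (nat_lit 1) (nat_lit 5) (nat_lit 3) (nat_lit 4) (nat_lit 1) (nat_lit 4) (nat_lit 365) (nat_lit 269) (nat_lit 266))))) (XT.nd (nat_lit 312) (nat_lit 0) (nat_lit 0) (XT.nd (nat_lit 156) (nat_lit 0) (nat_lit 0) (XT.nd (nat_lit 78) (nat_lit 0) (nat_lit 0) (XT.lf (nat_lit 0) (nat_lit 3566594425594) (nat_lit 152) (nat_lit 698637362890) (nat_lit 0) (nat_lit 3566538944214) (nat_lit 1) (nat_lit 5) (nat_lit 3) (nat_lit 4) (nat_lit 1) (nat_lit 4) (nat_lit 366) (nat_lit 269) (nat_lit 265)) (XT.lf (nat_lit 0) (nat_lit 4102489465952) (nat_lit 152) (nat_lit 801548483043) (nat_lit 0) (nat_lit 4102424322834) (nat_lit 1) (nat_lit 5) (nat_lit 3) (nat_lit 4) (nat_lit 1) (nat_lit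 4) (nat_lit 367) (nat_lit 269) (nat_lit 264))) (XT.nd (nat_lit 78) (nat_lit 0) (nat_lit 0) (XT.lf (nat_lit 0) (nat_lit 4718706405536) (nat_lit 152) (nat_lit 920023267032) (nat_lit 0) (nat_lit 4718632860907) (nat_lit 1) (nat_lit 5) (nat_lit 3) (nat_lit 4) (nat_lit 1) (nat_lit 4) (nat_lit 368) (nat_lit 269) (nat_lit 263)) (XT.lf (nat_lit 0) (nat_lit 5427301662729) (nat_lit 152) (nat_lit 1056379699762) (nat_lit 0) (nat_lit 5427220812438) (nat_lit 1) (nat_lit 5) (nat_lit 3) (nat_lit 4) (nat_lit 1) (nat_lit 4) (nat_lit 369) (nat_lit 269) (nat_lit 262)))) (XT.nd (nat_lit 156) (nat_lit 0) (nat_lit 0) (XT.nd (nat_lit 78) (nat_lit 0) (nat_lit 0) (XT.lf (nat_lit 0) (nat_lit 6242139057781) (nat_lit 152) (nat_lit 1213285624480) (nat_lit 0) (nat_lit 6242051854741) (nat_lit 1) (nat_lit 5) (nat_lit 3) (nat_lit 4) (nat_lit 1) (nat_lit 4) (nat_lit 370) (nat_lit 269) (nat_lit 261)) (XT.lf (nat_lit 0) (nat_lit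 7179161061465) (nat_lit 152) (nat_lit 1393810939715) (nat_lit 0) (nat_lit 7179068334296) (nat_lit 1) (nat_lit 5) (nat_lit 3) (nat_lit 4) (nat_lit 1) (nat_lit 4) (nat_lit 371) (nat_lit 269) (nat_lit 260))) (XT.nd (nat_lit 78) (nat_lit 0) (nat_lit 0) (XT.lf (nat_lit 0) (nat_lit 8256700712984) (nat_lit 152) (nat_lit 1601487662504) (nat_lit 0) (nat_lit 8256603182223) (nat_lit 1) (nat_lit 5) (nat_lit 3) (nat_lit 4) (nat_lit 1) (nat_lit 4) (nat_lit 372) (nat_lit 269) (nat_lit 259)) (XT.lf (nat_lit 0) (nat_lit 9495840309866) (nat_lit 152) (nat_lit 1840379033075) (nat_lit 0) (nat_lit 9495738602069) (nat_lit 1) (nat_lit 5) (nat_lit 3) (nat_lit 4) (nat_lit 1) (nat_lit 4) (nat_lit 373) (nat_lit 269) (nat_lit 258))))))))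
noncomputable def xc1 : XT := (XT.nd (nat_lit 93366) (nat_lit 0) (nat_lit 0) (XT.nd (nat_lit 46722) (nat_lit 0) (nat_lit 0) (XT.nd (nat_lit 46098) (nat_lit 0) (nat_lit 0) (XT.nd (nat_lit 45786) (nat_lit 0) (nat_lit 0) (XT.nd (nat_lit 78) (nat_lit 0) (nat_lit 0) (XT.lf (nat_lit 0) (nat_lit 10920823887704) (nat_lit 152) (nat_lit 2115159013025) (nat_lit 0) (nat_lit 10920718547702) (nat_lit 1) (nat_lit 5) (nat_lit 3) (nat_lit 4) (nat_lit 1) (nat_lit 4) (nat_lit 374) (nat_lit 269) (nat_lit 257)) (XT.nd (nat_lit 78) (nat_lit 0) (nat_lit 0) (XT.lf (nat_lit 0) (nat_lit 12559531559976) (nat_lit 152) (nat_lit 2431203732399) (nat_lit 0) (nat_lit 12559423061535) (nat_lit 1) (nat_lit 5) (nat_lit 3) (nat_lit 4) (nat_lit 1) (nat_lit 4) (nat_lit 375) (nat_lit 269) (nat_lit 256)) (XT.lf (nat_lit 0) (nat_lit 14444024998531) (nat_lit 152) (nat_lit 2794696674835) (nat_lit 0) (nat_lit 14443913753621) (nat_lit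 1) (nat_lit 5) (nat_lit 3) (nat_lit 4) (nat_lit 1) (nat_lit 4) (nat_lit 376) (nat_lit 269) (nat_lit 255)))) (XT.nd (nat_lit 156) (nat_lit 0) (nat_lit 0) (XT.nd (nat_lit 78) (nat_lit 0) (nat_lit 0) (XT.lf (nat_lit 0) (nat_lit 768599258800) (nat_lit 152) (nat_lit 155940174940) (nat_lit 0) (nat_lit 768599258800) (nat_lit 1) (nat_lit 5) (nat_lit 3) (nat_lit 4) (nat_lit 1) (nat_lit 4) (nat_lit 360) (nat_lit 270) (nat_lit 270)) (XT.lf (nat_lit 0) (nat_lit 1769231841414) (nat_lit 152) (nat_lit 355656598309) (nat_lit 0) (nat_lit 1769212408208) (nat_lit 1) (nat_lit 5) (nat_lit 3) (nat_lit 4) (nat_lit 1) (nat_lit 4) (nat_lit 361) (nat_lit 270) (nat_lit 269))) (XT.nd (nat_lit 78) (nat_lit 0) (nat_lit 0) (XT.lf (nat_lit 0) (nat_lit 2035944741946) (nat_lit 152) (nat_lit 406254717942) (nat_lit 0) (nat_lit 2035908410301) (nat_lit 1) (nat_lit 5) (nat_lit 3) (nat_lit 4) (nat_lit 1) (nat_lit 4) (nat_lit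 362) (nat_lit 270) (nat_lit 268)) (XT.lf (nat_lit 0) (nat_lit 2342555515077) (nat_lit 152) (nat_lit 464664671991) (nat_lit 0) (nat_lit 2342504489138) (nat_lit 1) (nat_lit 5) (nat_lit 3) (nat_lit 4) (nat_lit 1) (nat_lit 4) (nat_lit 363) (nat_lit 270) (nat_lit 267))))) (XT.nd (nat_lit 312) (nat_lit 0) (nat_lit 0) (XT.nd (nat_lit 156) (nat_lit 0) (nat_lit 0) (XT.nd (nat_lit 78) (nat_lit 0) (nat_lit 0) (XT.lf (nat_lit 0) (nat_lit 2695063067239) (nat_lit 152) (nat_lit 532029263905) (nat_lit 0) (nat_lit 2694999263651) (nat_lit 1) (nat_lit 5) (nat_lit 3) (nat_lit 4) (nat_lit 1) (nat_lit 4) (nat_lit 364) (nat_lit 270) (nat_lit 266)) (XT.lf (nat_lit 0) (nat_lit 3100364285321) (nat_lit 152) (nat_lit 609666496568) (nat_lit 0) (nat_lit 3100289370735) (nat_lit 1) (nat_lit 5) (nat_lit 3) (nat_lit 4) (nat_lit 1) (nat_lit 4) (nat_lit 365) (nat_lit 270) (nat_lit 265))) (XT.nd (nat_lit 78) (nat_lit 0) (nat_lit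 0) (XT.lf (nat_lit 0) (nat_lit 3566388975763) (nat_lit 152) (nat_lit 699095359316) (nat_lit 0) (nat_lit 3566304399440) (nat_lit 1) (nat_lit 5) (nat_lit 3) (nat_lit 4) (nat_lit 1) (nat_lit 4) (nat_lit 366) (nat_lit 270) (nat_lit 264)) (XT.lf (nat_lit 0) (nat_lit 4102255012945) (nat_lit 152) (nat_lit 802065547290) (nat_lit 0) (nat_lit 4102162035111) (nat_lit 1) (nat_lit 5) (nat_lit 3) (nat_lit 4) (nat_lit 1) (nat_lit 4) (nat_lit 367) (nat_lit 270) (nat_lit 263)))) (XT.nd (nat_lit 156) (nat_lit 0) (nat_lit 0) (XT.nd (nat_lit 78) (nat_lit 0) (nat_lit 0) (XT.lf (nat_lit 0) (nat_lit 4718446732377) (nat_lit 152) (nat_lit 920591694601) (nat_lit 0) (nat_lit 4718346448881) (nat_lit 1) (nat_lit 5) (nat_lit 3) (nat_lit 4) (nat_lit 1) (nat_lit 4) (nat_lit 368) (nat_lit 270) (nat_lit 262)) (XT.lf (nat_lit 0) (nat_lit 5427020059003) (nat_lit 152) (nat_lit 1056992791088) (nat_lit 0) (nat_lit 5426913422757)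 (nat_lit 1) (nat_lit 5) (nat_lit 3) (nat_lit 4) (nat_lit 1) (nat_lit 4) (nat_lit 369) (nat_lit 270) (nat_lit 261))) (XT.nd (nat_lit 78) (nat_lit 0) (nat_lit 0) (XT.lf (nat_lit 0) (nat_lit 6241838383996) (nat_lit 152) (nat_lit 1213937553857) (nat_lit 0) (nat_lit 6241726223621) (nat_lit 1) (nat_lit 5) (nat_lit 3) (nat_lit 4) (nat_lit 1) (nat_lit 4) (nat_lit 370) (nat_lit 270) (nat_lit 260)) (XT.lf (nat_lit 0) (nat_lit 7178843805021) (nat_lit 152) (nat_lit 1394496641310) (nat_lit 0) (nat_lit 7178726841054) (nat_lit 1) (nat_lit 5) (nat_lit 3) (nat_lit 4) (nat_lit 1) (nat_lit 4) (nat_lit 371) (nat_lit 270) (nat_lit 259)))))) (XT.nd (nat_lit 46020) (nat_lit 0) (nat_lit 0) (XT.nd (nat_lit 312) (nat_lit 0) (nat_lit 0) (XT.nd (nat_lit 156) (nat_lit 0) (nat_lit 0) (XT.nd (nat_lit 78) (nat_lit 0) (nat_lit 0) (XT.lf (nat_lit 0) (nat_lit 8256369036835) (nat_lit 152) (nat_lit 1602202731245) (nat_lit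 0) (nat_lit 8256247895833) (nat_lit 1) (nat_lit 5) (nat_lit 3) (nat_lit 4) (nat_lit 1) (nat_lit 4) (nat_lit 372) (nat_lit 270) (nat_lit 258)) (XT.lf (nat_lit 0) (nat_lit 9495496094844) (nat_lit 152) (nat_lit 1841119638464) (nat_lit 0) (nat_lit 9495371321637) (nat_lit 1) (nat_lit 5) (nat_lit 3) (nat_lit 4) (nat_lit 1) (nat_lit 4) (nat_lit 373) (nat_lit 270) (nat_lit 257))) (XT.nd (nat_lit 78) (nat_lit 0) (nat_lit 0) (XT.lf (nat_lit 0) (nat_lit 10920468769314) (nat_lit 152) (nat_lit 2115921824196) (nat_lit 0) (nat_lit 10920340837667) (nat_lit 1) (nat_lit 5) (nat_lit 3) (nat_lit 4) (nat_lit 1) (nat_lit 4) (nat_lit 374) (nat_lit 270) (nat_lit 256)) (XT.lf (nat_lit 0) (nat_lit 12559166960396) (nat_lit 152) (nat_lit 2431985852945) (nat_lit 0) (nat_lit 12559036282281) (nat_lit 1) (nat_lit 5) (nat_lit 3) (nat_lit 4) (nat_lit 1) (nat_lit 4) (nat_lit 375) (nat_lit 270) (nat_lit 255)))) (XT.nd (nat_lit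 45552) (nat_lit 0) (nat_lit 0) (XT.nd (nat_lit 45474) (nat_lit 0) (nat_lit 0) (XT.lf (nat_lit 0) (nat_lit 14443652154439) (nat_lit 152) (nat_lit 2795495586142) (nat_lit 0) (nat_lit 14443519088090) (nat_lit 1) (nat_lit 5) (nat_lit 3) (nat_lit 4) (nat_lit 1) (nat_lit 4) (nat_lit 376) (nat_lit 270) (nat_lit 254)) (XT.lf (nat_lit 0) (nat_lit 579850329640) (nat_lit 152) (nat_lit 120663545871) (nat_lit 0) (nat_lit 579850329640) (nat_lit 1) (nat_lit 5) (nat_lit 3) (nat_lit 4) (nat_lit 1) (nat_lit 4) (nat_lit 358) (nat_lit 271) (nat_lit 271))) (XT.nd (nat_lit 78) (nat_lit 0) (nat_lit 0) (XT.lf (nat_lit 0) (nat_lit 1335327336271) (nat_lit 152) (nat_lit 274069480842) (nat_lit 0) (nat_lit 1335304988085) (nat_lit 1) (nat_lit 5) (nat_lit 3) (nat_lit 4) (nat_lit 1) (nat_lit 4) (nat_lit 359) (nat_lit 271) (nat_lit 270)) (XT.lf (nat_lit 0) (nat_lit 1537153779680) (nat_lit 152) (nat_lit 312016977338) (nat_lit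 0) (nat_lit 1537111998288) (nat_lit 1) (nat_lit 5) (nat_lit 3) (nat_lit 4) (nat_lit 1) (nat_lit 4) (nat_lit 360) (nat_lit 271) (nat_lit 269))))) (XT.nd (nat_lit 312) (nat_lit 0) (nat_lit 0) (XT.nd (nat_lit 156) (nat_lit 0) (nat_lit 0) (XT.nd (nat_lit 78) (nat_lit 0) (nat_lit 0) (XT.lf (nat_lit 0) (nat_lit 1769128767747) (nat_lit 152) (nat_lit 355912032250) (nat_lit 0) (nat_lit 1769070087916) (nat_lit 1) (nat_lit 5) (nat_lit 3) (nat_lit 4) (nat_lit 1) (nat_lit 4) (nat_lit 361) (nat_lit 271) (nat_lit 268)) (XT.lf (nat_lit 0) (nat_lit 2035790941544) (nat_lit 152) (nat_lit 406613461870) (nat_lit 0) (nat_lit 2035717567418) (nat_lit 1) (nat_lit 5) (nat_lit 3) (nat_lit 4) (nat_lit 1) (nat_lit 4) (nat_lit 362) (nat_lit 271) (nat_lit 267))) (XT.nd (nat_lit 78) (nat_lit 0) (nat_lit 0) (XT.lf (nat_lit 0) (nat_lit 2342357604471) (nat_lit 152) (nat_lit 465113250690) (nat_lit 0) (nat_lit 2342271452697)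 (nat_lit 1) (nat_lit 5) (nat_lit 3) (nat_lit 4) (nat_lit 1) (nat_lit 4) (nat_lit 363) (nat_lit 271) (nat_lit 266)) (XT.lf (nat_lit 0) (nat_lit 2694826799933) (nat_lit 152) (nat_lit 532555959795) (nat_lit 0) (nat_lit 2694729537161) (nat_lit 1) (nat_lit 5) (nat_lit 3) (nat_lit 4) (nat_lit 1) (nat_lit 4) (nat_lit 364) (nat_lit 271) (nat_lit 265)))) (XT.nd (nat_lit 156) (nat_lit 0) (nat_lit 0) (XT.nd (nat_lit 78) (nat_lit 0) (nat_lit 0) (XT.lf (nat_lit 0) (nat_lit 3100094664363) (nat_lit 152) (nat_lit 610261120452) (nat_lit 0) (nat_lit 3099987739854) (nat_lit 1) (nat_lit 5) (nat_lit 3) (nat_lit 4) (nat_lit 1) (nat_lit 4) (nat_lit 365) (nat_lit 271) (nat_lit 264)) (XT.lf (nat_lit 0) (nat_lit 3566090351631) (nat_lit 152) (nat_lit 699749051020) (nat_lit 0) (nat_lit 3565975025610) (nat_lit 1) (nat_lit 5) (nat_lit 3) (nat_lit 4) (nat_lit 1) (nat_lit 4) (nat_lit 366) (nat_lit 271) (nat_lit 263)))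 (XT.nd (nat_lit 78) (nat_lit 0) (nat_lit 0) (XT.lf (nat_lit 0) (nat_lit 4101931168660) (nat_lit 152) (nat_lit 802770602315) (nat_lit 0) (nat_lit 4101808536978) (nat_lit 1) (nat_lit 5) (nat_lit 3) (nat_lit 4) (nat_lit 1) (nat_lit 4) (nat_lit 367) (nat_lit 271) (nat_lit 262)) (XT.lf (nat_lit 0) (nat_lit 4718100957524) (nat_lit 152) (nat_lit 921341413384) (nat_lit 0) (nat_lit 4717971973092) (nat_lit 1) (nat_lit 5) (nat_lit 3) (nat_lit 4) (nat_lit 1) (nat_lit 4) (nat_lit 368) (nat_lit 271) (nat_lit 261))))))) (XT.nd (nat_lit 46410) (nat_lit 0) (nat_lit 0) (XT.nd (nat_lit 546) (nat_lit 0) (nat_lit 0) (XT.nd (nat_lit 234) (nat_lit 0) (nat_lit 0) (XT.nd (nat_lit 78) (nat_lit 0) (nat_lit 0) (XT.lf (nat_lit 0) (nat_lit 5426655214091) (nat_lit 152) (nat_lit 1057781347922) (nat_lit 0) (nat_lit 5426520705530) (nat_lit 1) (nat_lit 5) (nat_lit 3) (nat_lit 4) (nat_lit 1) (nat_lit 4) (nat_lit 369) (nat_lit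 271) (nat_lit 260)) (XT.nd (nat_lit 78) (nat_lit 0) (nat_lit 0) (XT.lf (nat_lit 0) (nat_lit 6241456956425) (nat_lit 152) (nat_lit 1214759882909) (nat_lit 0) (nat_lit 6241317644273) (nat_lit 1) (nat_lit 5) (nat_lit 3) (nat_lit 4) (nat_lit 1) (nat_lit 4) (nat_lit 370) (nat_lit 271) (nat_lit 259)) (XT.lf (nat_lit 0) (nat_lit 7178447957745) (nat_lit 152) (nat_lit 1395348337508) (nat_lit 0) (nat_lit 7178304468557) (nat_lit 1) (nat_lit 5) (nat_lit 3) (nat_lit 4) (nat_lit 1) (nat_lit 4) (nat_lit 371) (nat_lit 271) (nat_lit 258)))) (XT.nd (nat_lit 156) (nat_lit 0) (nat_lit 0) (XT.nd (nat_lit 78) (nat_lit 0) (nat_lit 0) (XT.lf (nat_lit 0) (nat_lit 8255960650686) (nat_lit 152) (nat_lit 1603079964091) (nat_lit 0) (nat_lit 8255813529293) (nat_lit 1) (nat_lit 5) (nat_lit 3) (nat_lit 4) (nat_lit 1) (nat_lit 4) (nat_lit 372) (nat_lit 271) (nat_lit 257)) (XT.lf (nat_lit 0) (nat_lit 9495076805328) (nat_lit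 152) (nat_lit 1842019077092) (nat_lit 0) (nat_lit 9494926525495) (nat_lit 1) (nat_lit 5) (nat_lit 3) (nat_lit 4) (nat_lit 1) (nat_lit 4) (nat_lit 373) (nat_lit 271) (nat_lit 256))) (XT.nd (nat_lit 78) (nat_lit 0) (nat_lit 0) (XT.lf (nat_lit 0) (nat_lit 10920039998608) (nat_lit 152) (nat_lit 2116840572199) (nat_lit 0) (nat_lit 10919886972307) (nat_lit 1) (nat_lit 5) (nat_lit 3) (nat_lit 4) (nat_lit 1) (nat_lit 4) (nat_lit 374) (nat_lit 271) (nat_lit 255)) (XT.lf (nat_lit 0) (nat_lit 12558729945178) (nat_lit 152) (nat_lit 2432921391709) (nat_lit 0) (nat_lit 12558574530643) (nat_lit 1) (nat_lit 5) (nat_lit 3) (nat_lit 4) (nat_lit 1) (nat_lit 4) (nat_lit 375) (nat_lit 271) (nat_lit 254))))) (XT.nd (nat_lit 45552) (nat_lit 0) (nat_lit 0) (XT.nd (nat_lit 45396) (nat_lit 0) (nat_lit 0) (XT.nd (nat_lit 45318) (nat_lit 0) (nat_lit 0) (XT.lf (nat_lit 0) (nat_lit 14443207970079) (nat_lit 152) (nat_lit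 2796445725567) (nat_lit 0) (nat_lit 14443050478819) (nat_lit 1) (nat_lit 5) (nat_lit 3) (nat_lit 4) (nat_lit 1) (nat_lit 4) (nat_lit 376) (nat_lit 271) (nat_lit 253)) (XT.lf (nat_lit 0) (nat_lit 436930852258) (nat_lit 152) (nat_lit 94401901714) (nat_lit 0) (nat_lit 436930852258) (nat_lit 1) (nat_lit 5) (nat_lit 3) (nat_lit 4) (nat_lit 1) (nat_lit 4) (nat_lit 356) (nat_lit 272) (nat_lit 272))) (XT.nd (nat_lit 78) (nat_lit 0) (nat_lit 0) (XT.lf (nat_lit 0) (nat_lit 1006863275007) (nat_lit 152) (nat_lit 213149198081) (nat_lit 0) (nat_lit 1006837574593) (nat_lit 1) (nat_lit 5) (nat_lit 3) (nat_lit 4) (nat_lit 1) (nat_lit 4) (nat_lit 357) (nat_lit 272) (nat_lit 271)) (XT.lf (nat_lit 0) (nat_lit 1159649210671) (nat_lit 152) (nat_lit 241484213319) (nat_lit 0) (nat_lit 1159601162071) (nat_lit 1) (nat_lit 5) (nat_lit 3) (nat_lit 4) (nat_lit 1) (nat_lit 4) (nat_lit 358) (nat_lit 272) (nat_lit 270))))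 (XT.nd (nat_lit 156) (nat_lit 0) (nat_lit 0) (XT.nd (nat_lit 78) (nat_lit 0) (nat_lit 0) (XT.lf (nat_lit 0) (nat_lit 1335208801555) (nat_lit 152) (nat_lit 274363229874) (nat_lit 0) (nat_lit 1335141319749) (nat_lit 1) (nat_lit 5) (nat_lit 3) (nat_lit 4) (nat_lit 1) (nat_lit 4) (nat_lit 359) (nat_lit 272) (nat_lit 269)) (XT.lf (nat_lit 0) (nat_lit 1536976909218) (nat_lit 152) (nat_lit 312429532855) (nat_lit 0) (nat_lit 1536892528973) (nat_lit 1) (nat_lit 5) (nat_lit 3) (nat_lit 4) (nat_lit 1) (nat_lit 4) (nat_lit 360) (nat_lit 272) (nat_lit 268))) (XT.nd (nat_lit 78) (nat_lit 0) (nat_lit 0) (XT.lf (nat_lit 0) (nat_lit 1768901170550) (nat_lit 152) (nat_lit 356427897754) (nat_lit 0) (nat_lit 1768802096010) (nat_lit 1) (nat_lit 5) (nat_lit 3) (nat_lit 4) (nat_lit 1) (nat_lit 4) (nat_lit 361) (nat_lit 272) (nat_lit 267)) (XT.lf (nat_lit 0) (nat_lit 2035519234143) (nat_lit 152) (nat_lit 407219162144)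 (nat_lit 0) (nat_lit 2035407381955) (nat_lit 1) (nat_lit 5) (nat_lit 3) (nat_lit 4) (nat_lit 1) (nat_lit 4) (nat_lit 362) (nat_lit 272) (nat_lit 266)))))) (XT.nd (nat_lit 624) (nat_lit 0) (nat_lit 0) (XT.nd (nat_lit 312) (nat_lit 0) (nat_lit 0) (XT.nd (nat_lit 156) (nat_lit 0) (nat_lit 0) (XT.nd (nat_lit 78) (nat_lit 0) (nat_lit 0) (XT.lf (nat_lit 0) (nat_lit 2342047540370) (nat_lit 152) (nat_lit 465797068156) (nat_lit 0) (nat_lit 2341924577184) (nat_lit 1) (nat_lit 5) (nat_lit 3) (nat_lit 4) (nat_lit 1) (nat_lit 4) (nat_lit 363) (nat_lit 272) (nat_lit 265)) (XT.lf (nat_lit 0) (nat_lit 2694483382180) (nat_lit 152) (nat_lit 533307705255) (nat_lit 0) (nat_lit 2694350757257) (nat_lit 1) (nat_lit 5) (nat_lit 3) (nat_lit 4) (nat_lit 1) (nat_lit 4) (nat_lit 364) (nat_lit 272) (nat_lit 264))) (XT.nd (nat_lit 78) (nat_lit 0) (nat_lit 0) (XT.lf (nat_lit 0) (nat_lit 3099722243435) (nat_lit 152) (nat_lit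 611071933731) (nat_lit 0) (nat_lit 3099581217000) (nat_lit 1) (nat_lit 5) (nat_lit 3) (nat_lit 4) (nat_lit 1) (nat_lit 4) (nat_lit 365) (nat_lit 272) (nat_lit 263)) (XT.lf (nat_lit 0) (nat_lit 3565692710550) (nat_lit 152) (nat_lit 700611227621) (nat_lit 0) (nat_lit 3565544378454) (nat_lit 1) (nat_lit 5) (nat_lit 3) (nat_lit 4) (nat_lit 1) (nat_lit 4) (nat_lit 366) (nat_lit 272) (nat_lit 262)))) (XT.nd (nat_lit 156) (nat_lit 0) (nat_lit 0) (XT.nd (nat_lit 78) (nat_lit 0) (nat_lit 0) (XT.lf (nat_lit 0) (nat_lit 4101511597012) (nat_lit 152) (nat_lit 803677442674) (nat_lit 0) (nat_lit 4101356912166) (nat_lit 1) (nat_lit 5) (nat_lit 3) (nat_lit 4) (nat_lit 1) (nat_lit 4) (nat_lit 367) (nat_lit 272) (nat_lit 261)) (XT.lf (nat_lit 0) (nat_lit 4717662315817) (nat_lit 152) (nat_lit 922287091794) (nat_lit 0) (nat_lit 4717502106842) (nat_lit 1) (nat_lit 5) (nat_lit 3) (nat_lit 4) (nat_lit 1) (nat_lit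 4) (nat_lit 368) (nat_lit 272) (nat_lit 260))) (XT.nd (nat_lit 78) (nat_lit 0) (nat_lit 0) (XT.lf (nat_lit 0) (nat_lit 5426199989724) (nat_lit 152) (nat_lit 1058760798549) (nat_lit 0) (nat_lit 5426034977158) (nat_lit 1) (nat_lit 5) (nat_lit 3) (nat_lit 4) (nat_lit 1) (nat_lit 4) (nat_lit 369) (nat_lit 272) (nat_lit 259)) (XT.lf (nat_lit 0) (nat_lit 6240987312354) (nat_lit 152) (nat_lit 1215768700682) (nat_lit 0) (nat_lit 6240818122752) (nat_lit 1) (nat_lit 5) (nat_lit 3) (nat_lit 4) (nat_lit 1) (nat_lit 4) (nat_lit 370) (nat_lit 272) (nat_lit 258))))) (XT.nd (nat_lit 312) (nat_lit 0) (nat_lit 0) (XT.nd (nat_lit 156) (nat_lit 0) (nat_lit 0) (XT.nd (nat_lit 78) (nat_lit 0) (nat_lit 0) (XT.lf (nat_lit 0) (nat_lit 7177965774801) (nat_lit 152) (nat_lit 1396382691930) (nat_lit 0) (nat_lit 7177792952994) (nat_lit 1) (nat_lit 5) (nat_lit 3) (nat_lit 4) (nat_lit 1) (nat_lit 4) (nat_lit 371) (nat_lit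 272) (nat_lit 257)) (XT.lf (nat_lit 0) (nat_lit 8255467564375) (nat_lit 152) (nat_lit 1604136524294) (nat_lit 0) (nat_lit 8255291584128) (nat_lit 1) (nat_lit 5) (nat_lit 3) (nat_lit 4) (nat_lit 1) (nat_lit 4) (nat_lit 372) (nat_lit 272) (nat_lit 256))) (XT.nd (nat_lit 78) (nat_lit 0) (nat_lit 0) (XT.lf (nat_lit 0) (nat_lit 9494574237826) (nat_lit 152) (nat_lit 1843094946670) (nat_lit 0) (nat_lit 9494395511111) (nat_lit 1) (nat_lit 5) (nat_lit 3) (nat_lit 4) (nat_lit 1) (nat_lit 4) (nat_lit 373) (nat_lit 272) (nat_lit 255)) (XT.lf (nat_lit 0) (nat_lit 10919529186594) (nat_lit 152) (nat_lit 2117933232539) (nat_lit 0) (nat_lit 10919348071645) (nat_lit 1) (nat_lit 5) (nat_lit 3) (nat_lit 4) (nat_lit 1) (nat_lit 4) (nat_lit 374) (nat_lit 272) (nat_lit 254)))) (XT.nd (nat_lit 45318) (nat_lit 0) (nat_lit 0) (XT.nd (nat_lit 45240) (nat_lit 0) (nat_lit 0) (XT.lf (nat_lit 0) (nat_lit 12558211964022)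 (nat_lit 152) (nat_lit 2434028652710) (nat_lit 0) (nat_lit 12558028772348) (nat_lit 1) (nat_lit 5) (nat_lit 3) (nat_lit 4) (nat_lit 1) (nat_lit 4) (nat_lit 375) (nat_lit 272) (nat_lit 253)) (XT.lf (nat_lit 0) (nat_lit 328635299130) (nat_lit 152) (nat_lit 75018764636) (nat_lit 0) (nat_lit 328635299130) (nat_lit 1) (nat_lit 5) (nat_lit 3) (nat_lit 4) (nat_lit 1) (nat_lit 4) (nat_lit 354) (nat_lit 273) (nat_lit 273))) (XT.nd (nat_lit 78) (nat_lit 0) (nat_lit 0) (XT.lf (nat_lit 0) (nat_lit 758071850035) (nat_lit 152) (nat_lit 167971706423) (nat_lit 0) (nat_lit 758042294559) (nat_lit 1) (nat_lit 5) (nat_lit 3) (nat_lit 4) (nat_lit 1) (nat_lit 4) (nat_lit 355) (nat_lit 273) (nat_lit 272)) (XT.lf (nat_lit 0) (nat_lit 873802538615) (nat_lit 152) (nat_lit 188984493241) (nat_lit 0) (nat_lit 873747282725) (nat_lit 1) (nat_lit 5) (nat_lit 3) (nat_lit 4) (nat_lit 1) (nat_lit 4) (nat_lit 356) (nat_lit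 273) (nat_lit 271))))))))
noncomputable def xc2 : XT := (XT.nd (nat_lit 47346) (nat_lit 0) (nat_lit 0) (XT.nd (nat_lit 1170) (nat_lit 0) (nat_lit 0) (XT.nd (nat_lit 546) (nat_lit 0) (nat_lit 0) (XT.nd (nat_lit 234) (nat_lit 0) (nat_lit 0) (XT.nd (nat_lit 78) (nat_lit 0) (nat_lit 0) (XT.lf (nat_lit 0) (nat_lit 1006726960083) (nat_lit 152) (nat_lit 213487009468) (nat_lit 0) (nat_lit 1006649356007) (nat_lit 1) (nat_lit 5) (nat_lit 3) (nat_lit 4) (nat_lit 1) (nat_lit 4) (nat_lit 357) (nat_lit 273) (nat_lit 270)) (XT.nd (nat_lit 78) (nat_lit 0) (nat_lit 0) (XT.lf (nat_lit 0) (nat_lit 1159445809640) (nat_lit 152) (nat_lit 241958652163) (nat_lit 0) (nat_lit 1159348772358) (nat_lit 1) (nat_lit 5) (nat_lit 3) (nat_lit 4) (nat_lit 1) (nat_lit 4) (nat_lit 358) (nat_lit 273) (nat_lit 269)) (XT.lf (nat_lit 0) (nat_lit 1334947064778) (nat_lit 152) (nat_lit 274956475203) (nat_lit 0) (nat_lit 1334833129057)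 (nat_lit 1) (nat_lit 5) (nat_lit 3) (nat_lit 4) (nat_lit 1) (nat_lit 4) (nat_lit 359) (nat_lit 273) (nat_lit 268)))) (XT.nd (nat_lit 156) (nat_lit 0) (nat_lit 0) (XT.nd (nat_lit 78) (nat_lit 0) (nat_lit 0) (XT.lf (nat_lit 0) (nat_lit 1536664445706) (nat_lit 152) (nat_lit 313126088170) (nat_lit 0) (nat_lit 1536535815690) (nat_lit 1) (nat_lit 5) (nat_lit 3) (nat_lit 4) (nat_lit 1) (nat_lit 4) (nat_lit 360) (nat_lit 273) (nat_lit 267)) (XT.lf (nat_lit 0) (nat_lit 1768544596834) (nat_lit 152) (nat_lit 357214287840) (nat_lit 0) (nat_lit 1768403189170) (nat_lit 1) (nat_lit 5) (nat_lit 3) (nat_lit 4) (nat_lit 1) (nat_lit 4) (nat_lit 361) (nat_lit 273) (nat_lit 266))) (XT.nd (nat_lit 78) (nat_lit 0) (nat_lit 0) (XT.lf (nat_lit 0) (nat_lit 2035124303727) (nat_lit 152) (nat_lit 408083669422) (nat_lit 0) (nat_lit 2034971785065) (nat_lit 1) (nat_lit 5) (nat_lit 3) (nat_lit 4) (nat_lit 1) (nat_lit 4)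 (nat_lit 362) (nat_lit 273) (nat_lit 265)) (XT.lf (nat_lit 0) (nat_lit 2341619256303) (nat_lit 152) (nat_lit 466729503427) (nat_lit 0) (nat_lit 2341457075903) (nat_lit 1) (nat_lit 5) (nat_lit 3) (nat_lit 4) (nat_lit 1) (nat_lit 4) (nat_lit 363) (nat_lit 273) (nat_lit 264))))) (XT.nd (nat_lit 312) (nat_lit 0) (nat_lit 0) (XT.nd (nat_lit 156) (nat_lit 0) (nat_lit 0) (XT.nd (nat_lit 78) (nat_lit 0) (nat_lit 0) (XT.lf (nat_lit 0) (nat_lit 2694026094938) (nat_lit 152) (nat_lit 534299208346) (nat_lit 0) (nat_lit 2693855513027) (nat_lit 1) (nat_lit 5) (nat_lit 3) (nat_lit 4) (nat_lit 1) (nat_lit 4) (nat_lit 364) (nat_lit 273) (nat_lit 263)) (XT.lf (nat_lit 0) (nat_lit 3099239736040) (nat_lit 152) (nat_lit 612114800144) (nat_lit 0) (nat_lit 3099061848467) (nat_lit 1) (nat_lit 5) (nat_lit 3) (nat_lit 4) (nat_lit 1) (nat_lit 4) (nat_lit 365) (nat_lit 273) (nat_lit 262))) (XT.nd (nat_lit 78) (nat_lit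 0) (nat_lit 0) (XT.lf (nat_lit 0) (nat_lit 3565188272587) (nat_lit 152) (nat_lit 701698757792) (nat_lit 0) (nat_lit 3565004032265) (nat_lit 1) (nat_lit 5) (nat_lit 3) (nat_lit 4) (nat_lit 1) (nat_lit 4) (nat_lit 366) (nat_lit 273) (nat_lit 261)) (XT.lf (nat_lit 0) (nat_lit 4100988088990) (nat_lit 152) (nat_lit 804803810895) (nat_lit 0) (nat_lit 4100798324539) (nat_lit 1) (nat_lit 5) (nat_lit 3) (nat_lit 4) (nat_lit 1) (nat_lit 4) (nat_lit 367) (nat_lit 273) (nat_lit 260)))) (XT.nd (nat_lit 156) (nat_lit 0) (nat_lit 0) (XT.nd (nat_lit 78) (nat_lit 0) (nat_lit 0) (XT.lf (nat_lit 0) (nat_lit 4717122225136) (nat_lit 152) (nat_lit 923447232233) (nat_lit 0) (nat_lit 4716927657093) (nat_lit 1) (nat_lit 5) (nat_lit 3) (nat_lit 4) (nat_lit 1) (nat_lit 4) (nat_lit 368) (nat_lit 273) (nat_lit 259)) (XT.lf (nat_lit 0) (nat_lit 5425645479339) (nat_lit 152) (nat_lit 1059950306135) (nat_lit 0) (nat_lit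 5425446734261) (nat_lit 1) (nat_lit 5) (nat_lit 3) (nat_lit 4) (nat_lit 1) (nat_lit 4) (nat_lit 369) (nat_lit 273) (nat_lit 258))) (XT.nd (nat_lit 78) (nat_lit 0) (nat_lit 0) (XT.lf (nat_lit 0) (nat_lit 6240420263096) (nat_lit 152) (nat_lit 1216983744916) (nat_lit 0) (nat_lit 6240217885812) (nat_lit 1) (nat_lit 5) (nat_lit 3) (nat_lit 4) (nat_lit 1) (nat_lit 4) (nat_lit 370) (nat_lit 273) (nat_lit 257)) (XT.lf (nat_lit 0) (nat_lit 7177387822175) (nat_lit 152) (nat_lit 1397619941945) (nat_lit 0) (nat_lit 7177182286452) (nat_lit 1) (nat_lit 5) (nat_lit 3) (nat_lit 4) (nat_lit 1) (nat_lit 4) (nat_lit 371) (nat_lit 273) (nat_lit 256)))))) (XT.nd (nat_lit 45552) (nat_lit 0) (nat_lit 0) (XT.nd (nat_lit 234) (nat_lit 0) (nat_lit 0) (XT.nd (nat_lit 78) (nat_lit 0) (nat_lit 0) (XT.lf (nat_lit 0) (nat_lit 8254880130559) (nat_lit 152) (nat_lit 1605393083685) (nat_lit 0) (nat_lit 8254671848367) (nat_lit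 1) (nat_lit 5) (nat_lit 3) (nat_lit 4) (nat_lit 1) (nat_lit 4) (nat_lit 372) (nat_lit 273) (nat_lit 255)) (XT.nd (nat_lit 78) (nat_lit 0) (nat_lit 0) (XT.lf (nat_lit 0) (nat_lit 9493978559498) (nat_lit 152) (nat_lit 1844368296822) (nat_lit 0) (nat_lit 9493767889073) (nat_lit 1) (nat_lit 5) (nat_lit 3) (nat_lit 4) (nat_lit 1) (nat_lit 4) (nat_lit 373) (nat_lit 273) (nat_lit 254)) (XT.lf (nat_lit 0) (nat_lit 10918926339124) (nat_lit 152) (nat_lit 2119221183352) (nat_lit 0) (nat_lit 10918713591974) (nat_lit 1) (nat_lit 5) (nat_lit 3) (nat_lit 4) (nat_lit 1) (nat_lit 4) (nat_lit 374) (nat_lit 273) (nat_lit 253)))) (XT.nd (nat_lit 45162) (nat_lit 0) (nat_lit 0) (XT.nd (nat_lit 45084) (nat_lit 0) (nat_lit 0) (XT.lf (nat_lit 0) (nat_lit 12557602882516) (nat_lit 152) (nat_lit 2435329299751) (nat_lit 0) (nat_lit 12557388329519) (nat_lit 1) (nat_lit 5) (nat_lit 3) (nat_lit 4) (nat_lit 1) (nat_lit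 4) (nat_lit 375) (nat_lit 273) (nat_lit 252)) (XT.lf (nat_lit 0) (nat_lit 246486222758) (nat_lit 152) (nat_lit 60907932954) (nat_lit 0) (nat_lit 246486222758) (nat_lit 1) (nat_lit 5) (nat_lit 3) (nat_lit 4) (nat_lit 1) (nat_lit 4) (nat_lit 352) (nat_lit 274) (nat_lit 274))) (XT.nd (nat_lit 78) (nat_lit 0) (nat_lit 0) (XT.lf (nat_lit 0) (nat_lit 569460573685) (nat_lit 152) (nat_lit 134831075717) (nat_lit 0) (nat_lit 569426584888) (nat_lit 1) (nat_lit 5) (nat_lit 3) (nat_lit 4) (nat_lit 1) (nat_lit 4) (nat_lit 353) (nat_lit 274) (nat_lit 273)) (XT.lf (nat_lit 0) (nat_lit 657202557475) (nat_lit 152) (nat_lit 150245322557) (nat_lit 0) (nat_lit 657139013201) (nat_lit 1) (nat_lit 5) (nat_lit 3) (nat_lit 4) (nat_lit 1) (nat_lit 4) (nat_lit 354) (nat_lit 274) (nat_lit 272))))) (XT.nd (nat_lit 312) (nat_lit 0) (nat_lit 0) (XT.nd (nat_lit 156) (nat_lit 0) (nat_lit 0) (XT.nd (nat_lit 78) (nat_lit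 0) (nat_lit 0) (XT.lf (nat_lit 0) (nat_lit 757915087872) (nat_lit 152) (nat_lit 168360189518) (nat_lit 0) (nat_lit 757825843185) (nat_lit 1) (nat_lit 5) (nat_lit 3) (nat_lit 4) (nat_lit 1) (nat_lit 4) (nat_lit 355) (nat_lit 274) (nat_lit 271)) (XT.lf (nat_lit 0) (nat_lit 873568627429) (nat_lit 152) (nat_lit 189530097912) (nat_lit 0) (nat_lit 873457034556) (nat_lit 1) (nat_lit 5) (nat_lit 3) (nat_lit 4) (nat_lit 1) (nat_lit 4) (nat_lit 356) (nat_lit 274) (nat_lit 270))) (XT.nd (nat_lit 78) (nat_lit 0) (nat_lit 0) (XT.lf (nat_lit 0) (nat_lit 1006425962790) (nat_lit 152) (nat_lit 214169241597) (nat_lit 0) (nat_lit 1006294936711) (nat_lit 1) (nat_lit 5) (nat_lit 3) (nat_lit 4) (nat_lit 1) (nat_lit 4) (nat_lit 357) (nat_lit 274) (nat_lit 269)) (XT.lf (nat_lit 0) (nat_lit 1159086476601) (nat_lit 152) (nat_lit 242759690776) (nat_lit 0) (nat_lit 1158938552083) (nat_lit 1) (nat_lit 5) (nat_lit 3)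 (nat_lit 4) (nat_lit 1) (nat_lit 4) (nat_lit 358) (nat_lit 274) (nat_lit 268)))) (XT.nd (nat_lit 156) (nat_lit 0) (nat_lit 0) (XT.nd (nat_lit 78) (nat_lit 0) (nat_lit 0) (XT.lf (nat_lit 0) (nat_lit 1334537005004) (nat_lit 152) (nat_lit 275860823802) (nat_lit 0) (nat_lit 1334374386191) (nat_lit 1) (nat_lit 5) (nat_lit 3) (nat_lit 4) (nat_lit 1) (nat_lit 4) (nat_lit 359) (nat_lit 274) (nat_lit 267)) (XT.lf (nat_lit 0) (nat_lit 1536210275728) (nat_lit 152) (nat_lit 314120271540) (nat_lit 0) (nat_lit 1536034879267) (nat_lit 1) (nat_lit 5) (nat_lit 3) (nat_lit 4) (nat_lit 1) (nat_lit 4) (nat_lit 360) (nat_lit 274) (nat_lit 266))) (XT.nd (nat_lit 78) (nat_lit 0) (nat_lit 0) (XT.lf (nat_lit 0) (nat_lit 1768052070156) (nat_lit 152) (nat_lit 358286588401) (nat_lit 0) (nat_lit 1767865562697) (nat_lit 1) (nat_lit 5) (nat_lit 3) (nat_lit 4) (nat_lit 1) (nat_lit 4) (nat_lit 361) (nat_lit 274) (nat_lit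 265)) (XT.lf (nat_lit 0) (nat_lit 2034598423398) (nat_lit 152) (nat_lit 409223897977) (nat_lit 0) (nat_lit 2034402254200) (nat_lit 1) (nat_lit 5) (nat_lit 3) (nat_lit 4) (nat_lit 1) (nat_lit 4) (nat_lit 362) (nat_lit 274) (nat_lit 264))))))) (XT.nd (nat_lit 46020) (nat_lit 0) (nat_lit 0) (XT.nd (nat_lit 546) (nat_lit 0) (nat_lit 0) (XT.nd (nat_lit 234) (nat_lit 0) (nat_lit 0) (XT.nd (nat_lit 78) (nat_lit 0) (nat_lit 0) (XT.lf (nat_lit 0) (nat_lit 2341064372798) (nat_lit 152) (nat_lit 467928799802) (nat_lit 0) (nat_lit 2340859802090) (nat_lit 1) (nat_lit 5) (nat_lit 3) (nat_lit 4) (nat_lit 1) (nat_lit 4) (nat_lit 363) (nat_lit 274) (nat_lit 263)) (XT.nd (nat_lit 78) (nat_lit 0) (nat_lit 0) (XT.lf (nat_lit 0) (nat_lit 2693445991280) (nat_lit 152) (nat_lit 535549868042) (nat_lit 0) (nat_lit 2693234114910) (nat_lit 1) (nat_lit 5) (nat_lit 3) (nat_lit 4) (nat_lit 1) (nat_lit 4) (nat_lit 364)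 (nat_lit 274) (nat_lit 262)) (XT.lf (nat_lit 0) (nat_lit 3098637701815) (nat_lit 152) (nat_lit 613410123599) (nat_lit 0) (nat_lit 3098419472695) (nat_lit 1) (nat_lit 5) (nat_lit 3) (nat_lit 4) (nat_lit 1) (nat_lit 4) (nat_lit 365) (nat_lit 274) (nat_lit 261)))) (XT.nd (nat_lit 156) (nat_lit 0) (nat_lit 0) (XT.nd (nat_lit 78) (nat_lit 0) (nat_lit 0) (XT.lf (nat_lit 0) (nat_lit 3564567168303) (nat_lit 152) (nat_lit 703032919297) (nat_lit 0) (nat_lit 3564343415054) (nat_lit 1) (nat_lit 5) (nat_lit 3) (nat_lit 4) (nat_lit 1) (nat_lit 4) (nat_lit 366) (nat_lit 274) (nat_lit 260)) (XT.lf (nat_lit 0) (nat_lit 4100350402047) (nat_lit 152) (nat_lit 806171744618) (nat_lit 0) (nat_lit 4100121845207) (nat_lit 1) (nat_lit 5) (nat_lit 3) (nat_lit 4) (nat_lit 1) (nat_lit 4) (nat_lit 367) (nat_lit 274) (nat_lit 259))) (XT.nd (nat_lit 78) (nat_lit 0) (nat_lit 0) (XT.lf (nat_lit 0) (nat_lit 4716470118488)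 (nat_lit 152) (nat_lit 924844533102) (nat_lit 0) (nat_lit 4716237384612) (nat_lit 1) (nat_lit 5) (nat_lit 3) (nat_lit 4) (nat_lit 1) (nat_lit 4) (nat_lit 368) (nat_lit 274) (nat_lit 258)) (XT.lf (nat_lit 0) (nat_lit 5424980833819) (nat_lit 152) (nat_lit 1061373143652) (nat_lit 0) (nat_lit 5424744467738) (nat_lit 1) (nat_lit 5) (nat_lit 3) (nat_lit 4) (nat_lit 1) (nat_lit 4) (nat_lit 369) (nat_lit 274) (nat_lit 257))))) (XT.nd (nat_lit 312) (nat_lit 0) (nat_lit 0) (XT.nd (nat_lit 156) (nat_lit 0) (nat_lit 0) (XT.nd (nat_lit 78) (nat_lit 0) (nat_lit 0) (XT.lf (nat_lit 0) (nat_lit 6239744714207) (nat_lit 152) (nat_lit 1218428788215) (nat_lit 0) (nat_lit 6239505189687) (nat_lit 1) (nat_lit 5) (nat_lit 3) (nat_lit 4) (nat_lit 1) (nat_lit 4) (nat_lit 370) (nat_lit 274) (nat_lit 256)) (XT.lf (nat_lit 0) (nat_lit 7176702792097) (nat_lit 152) (nat_lit 1399084294619) (nat_lit 0) (nat_lit 7176460521108)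 (nat_lit 1) (nat_lit 5) (nat_lit 3) (nat_lit 4) (nat_lit 1) (nat_lit 4) (nat_lit 371) (nat_lit 274) (nat_lit 255))) (XT.nd (nat_lit 78) (nat_lit 0) (nat_lit 0) (XT.lf (nat_lit 0) (nat_lit 8254186855968) (nat_lit 152) (nat_lit 1606874227120) (nat_lit 0) (nat_lit 8253942196746) (nat_lit 1) (nat_lit 5) (nat_lit 3) (nat_lit 4) (nat_lit 1) (nat_lit 4) (nat_lit 372) (nat_lit 274) (nat_lit 254)) (XT.lf (nat_lit 0) (nat_lit 9493278115766) (nat_lit 152) (nat_lit 1845864040918) (nat_lit 0) (nat_lit 9493031379818) (nat_lit 1) (nat_lit 5) (nat_lit 3) (nat_lit 4) (nat_lit 1) (nat_lit 4) (nat_lit 373) (nat_lit 274) (nat_lit 253)))) (XT.nd (nat_lit 45006) (nat_lit 0) (nat_lit 0) (XT.nd (nat_lit 78) (nat_lit 0) (nat_lit 0) (XT.lf (nat_lit 0) (nat_lit 10918219661356) (nat_lit 152) (nat_lit 2120729623676) (nat_lit 0) (nat_lit 10917971119561) (nat_lit 1) (nat_lit 5) (nat_lit 3) (nat_lit 4) (nat_lit 1) (nat_lit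 4) (nat_lit 374) (nat_lit 274) (nat_lit 252)) (XT.lf (nat_lit 0) (nat_lit 12556890783848) (nat_lit 152) (nat_lit 2436848780273) (nat_lit 0) (nat_lit 12556640671750) (nat_lit 1) (nat_lit 5) (nat_lit 3) (nat_lit 4) (nat_lit 1) (nat_lit 4) (nat_lit 375) (nat_lit 274) (nat_lit 251))) (XT.nd (nat_lit 78) (nat_lit 0) (nat_lit 0) (XT.lf (nat_lit 0) (nat_lit 184068327256) (nat_lit 152) (nat_lit 50865562309) (nat_lit 0) (nat_lit 184068327256) (nat_lit 1) (nat_lit 5) (nat_lit 3) (nat_lit 4) (nat_lit 1) (nat_lit 4) (nat_lit 350) (nat_lit 275) (nat_lit 275)) (XT.lf (nat_lit 0) (nat_lit 426280753232) (nat_lit 152) (nat_lit 110945047721) (nat_lit 0) (nat_lit 426241666114) (nat_lit 1) (nat_lit 5) (nat_lit 3) (nat_lit 4) (nat_lit 1) (nat_lit 4) (nat_lit 351) (nat_lit 275) (nat_lit 274)))))) (XT.nd (nat_lit 624) (nat_lit 0) (nat_lit 0) (XT.nd (nat_lit 312) (nat_lit 0) (nat_lit 0) (XT.nd (nat_lit 156) (nat_lit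 0) (nat_lit 0) (XT.nd (nat_lit 78) (nat_lit 0) (nat_lit 0) (XT.lf (nat_lit 0) (nat_lit 492894198613) (nat_lit 152) (nat_lit 122054828184) (nat_lit 0) (nat_lit 492821122699) (nat_lit 1) (nat_lit 5) (nat_lit 3) (nat_lit 4) (nat_lit 1) (nat_lit 4) (nat_lit 352) (nat_lit 275) (nat_lit 273)) (XT.lf (nat_lit 0) (nat_lit 569280297198) (nat_lit 152) (nat_lit 135277831277) (nat_lit 0) (nat_lit 569177665807) (nat_lit 1) (nat_lit 5) (nat_lit 3) (nat_lit 4) (nat_lit 1) (nat_lit 4) (nat_lit 353) (nat_lit 275) (nat_lit 272))) (XT.nd (nat_lit 78) (nat_lit 0) (nat_lit 0) (XT.lf (nat_lit 0) (nat_lit 656933559611) (nat_lit 152) (nat_lit 150872767929) (nat_lit 0) (nat_lit 656805227806) (nat_lit 1) (nat_lit 5) (nat_lit 3) (nat_lit 4) (nat_lit 1) (nat_lit 4) (nat_lit 354) (nat_lit 275) (nat_lit 271)) (XT.lf (nat_lit 0) (nat_lit 757568940985) (nat_lit 152) (nat_lit 169144756466) (nat_lit 0) (nat_lit 757418260994)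 (nat_lit 1) (nat_lit 5) (nat_lit 3) (nat_lit 4) (nat_lit 1) (nat_lit 4) (nat_lit 355) (nat_lit 275) (nat_lit 270)))) (XT.nd (nat_lit 156) (nat_lit 0) (nat_lit 0) (XT.nd (nat_lit 78) (nat_lit 0) (nat_lit 0) (XT.lf (nat_lit 0) (nat_lit 873155394435) (nat_lit 152) (nat_lit 190451292316) (nat_lit 0) (nat_lit 872985281239) (nat_lit 1) (nat_lit 5) (nat_lit 3) (nat_lit 4) (nat_lit 1) (nat_lit 4) (nat_lit 356) (nat_lit 275) (nat_lit 269)) (XT.lf (nat_lit 0) (nat_lit 1005954394050) (nat_lit 152) (nat_lit 215209242485) (nat_lit 0) (nat_lit 1005767382414) (nat_lit 1) (nat_lit 5) (nat_lit 3) (nat_lit 4) (nat_lit 1) (nat_lit 4) (nat_lit 357) (nat_lit 275) (nat_lit 268))) (XT.nd (nat_lit 78) (nat_lit 0) (nat_lit 0) (XT.lf (nat_lit 0) (nat_lit 1158564181127) (nat_lit 152) (nat_lit 243903001651) (nat_lit 0) (nat_lit 1158362475196) (nat_lit 1) (nat_lit 5) (nat_lit 3) (nat_lit 4) (nat_lit 1) (nat_lit 4)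 (nat_lit 358) (nat_lit 275) (nat_lit 267)) (XT.lf (nat_lit 0) (nat_lit 1333970599325) (nat_lit 152) (nat_lit 277093969448) (nat_lit 0) (nat_lit 1333756115746) (nat_lit 1) (nat_lit 5) (nat_lit 3) (nat_lit 4) (nat_lit 1) (nat_lit 4) (nat_lit 359) (nat_lit 275) (nat_lit 266))))) (XT.nd (nat_lit 312) (nat_lit 0) (nat_lit 0) (XT.nd (nat_lit 156) (nat_lit 0) (nat_lit 0) (XT.nd (nat_lit 78) (nat_lit 0) (nat_lit 0) (XT.lf (nat_lit 0) (nat_lit 1535605513349) (nat_lit 152) (nat_lit 315431534378) (nat_lit 0) (nat_lit 1535379918772) (nat_lit 1) (nat_lit 5) (nat_lit 3) (nat_lit 4) (nat_lit 1) (nat_lit 4) (nat_lit 360) (nat_lit 275) (nat_lit 265)) (XT.lf (nat_lit 0) (nat_lit 1767413954126) (nat_lit 152) (nat_lit 359665779232) (nat_lit 0) (nat_lit 1767178697811) (nat_lit 1) (nat_lit 5) (nat_lit 3) (nat_lit 4) (nat_lit 1) (nat_lit 4) (nat_lit 361) (nat_lit 275) (nat_lit 264))) (XT.nd (nat_lit 78) (nat_lit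 0) (nat_lit 0) (XT.lf (nat_lit 0) (nat_lit 2033931304192) (nat_lit 152) (nat_lit 410662156628) (nat_lit 0) (nat_lit 2033687646366) (nat_lit 1) (nat_lit 5) (nat_lit 3) (nat_lit 4) (nat_lit 1) (nat_lit 4) (nat_lit 362) (nat_lit 275) (nat_lit 263)) (XT.lf (nat_lit 0) (nat_lit 2340372033439) (nat_lit 152) (nat_lit 469418421775) (nat_lit 0) (nat_lit 2340121069952) (nat_lit 1) (nat_lit 5) (nat_lit 3) (nat_lit 4) (nat_lit 1) (nat_lit 4) (nat_lit 363) (nat_lit 275) (nat_lit 262)))) (XT.nd (nat_lit 156) (nat_lit 0) (nat_lit 0) (XT.nd (nat_lit 78) (nat_lit 0) (nat_lit 0) (XT.lf (nat_lit 0) (nat_lit 2692731721354) (nat_lit 152) (nat_lit 537084153773) (nat_lit 0) (nat_lit 2692474405118) (nat_lit 1) (nat_lit 5) (nat_lit 3) (nat_lit 4) (nat_lit 1) (nat_lit 4) (nat_lit 364) (nat_lit 275) (nat_lit 261)) (XT.lf (nat_lit 0) (nat_lit 3097904361830) (nat_lit 152) (nat_lit 614983247380) (nat_lit 0) (nat_lit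 3097641521464) (nat_lit 1) (nat_lit 5) (nat_lit 3) (nat_lit 4) (nat_lit 1) (nat_lit 4) (nat_lit 365) (nat_lit 275) (nat_lit 260))) (XT.nd (nat_lit 78) (nat_lit 0) (nat_lit 0) (XT.lf (nat_lit 0) (nat_lit 3563817245659) (nat_lit 152) (nat_lit 704639815296) (nat_lit 0) (nat_lit 3563549601702) (nat_lit 1) (nat_lit 5) (nat_lit 3) (nat_lit 4) (nat_lit 1) (nat_lit 4) (nat_lit 366) (nat_lit 275) (nat_lit 259)) (XT.lf (nat_lit 0) (nat_lit 4099586059698) (nat_lit 152) (nat_lit 807808007764) (nat_lit 0) (nat_lit 4099314238705) (nat_lit 1) (nat_lit 5) (nat_lit 3) (nat_lit 4) (nat_lit 1) (nat_lit 4) (nat_lit 367) (nat_lit 275) (nat_lit 258))))))))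
noncomputable def xc3 : XT := (XT.nd (nat_lit 47112) (nat_lit 0) (nat_lit 0) (XT.nd (nat_lit 45864) (nat_lit 0) (nat_lit 0) (XT.nd (nat_lit 546) (nat_lit 0) (nat_lit 0) (XT.nd (nat_lit 234) (nat_lit 0) (nat_lit 0) (XT.nd (nat_lit 78) (nat_lit 0) (nat_lit 0) (XT.lf (nat_lit 0) (nat_lit 4715693237267) (nat_lit 152) (nat_lit 926506332895) (nat_lit 0) (nat_lit 4715417784069) (nat_lit 1) (nat_lit 5) (nat_lit 3) (nat_lit 4) (nat_lit 1) (nat_lit 4) (nat_lit 368) (nat_lit 275) (nat_lit 257)) (XT.nd (nat_lit 78) (nat_lit 0) (nat_lit 0) (XT.lf (nat_lit 0) (nat_lit 5424193049229) (nat_lit 152) (nat_lit 1063057149227) (nat_lit 0) (nat_lit 5423914437592) (nat_lit 1) (nat_lit 5) (nat_lit 3) (nat_lit 4) (nat_lit 1) (nat_lit 4) (nat_lit 369) (nat_lit 275) (nat_lit 256)) (XT.lf (nat_lit 0) (nat_lit 6238947448428) (nat_lit 152) (nat_lit 1220132103165) (nat_lit 0) (nat_lit 6238666090322) (nat_lit 1) (nat_lit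 5) (nat_lit 3) (nat_lit 4) (nat_lit 1) (nat_lit 4) (nat_lit 370) (nat_lit 275) (nat_lit 255)))) (XT.nd (nat_lit 156) (nat_lit 0) (nat_lit 0) (XT.nd (nat_lit 78) (nat_lit 0) (nat_lit 0) (XT.lf (nat_lit 0) (nat_lit 7175897281806) (nat_lit 152) (nat_lit 1400804400330) (nat_lit 0) (nat_lit 7175613535466) (nat_lit 1) (nat_lit 5) (nat_lit 3) (nat_lit 4) (nat_lit 1) (nat_lit 4) (nat_lit 371) (nat_lit 275) (nat_lit 254)) (XT.lf (nat_lit 0) (nat_lit 8253374176535) (nat_lit 152) (nat_lit 1608608933493) (nat_lit 0) (nat_lit 8253088353470) (nat_lit 1) (nat_lit 5) (nat_lit 3) (nat_lit 4) (nat_lit 1) (nat_lit 4) (nat_lit 372) (nat_lit 275) (nat_lit 253))) (XT.nd (nat_lit 78) (nat_lit 0) (nat_lit 0) (XT.lf (nat_lit 0) (nat_lit 9492459202297) (nat_lit 152) (nat_lit 1847611443519) (nat_lit 0) (nat_lit 9492171573384) (nat_lit 1) (nat_lit 5) (nat_lit 3) (nat_lit 4) (nat_lit 1) (nat_lit 4) (nat_lit 373) (nat_lit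 275) (nat_lit 252)) (XT.lf (nat_lit 0) (nat_lit 10917395326986) (nat_lit 152) (nat_lit 2122488066475) (nat_lit 0) (nat_lit 10917106127771) (nat_lit 1) (nat_lit 5) (nat_lit 3) (nat_lit 4) (nat_lit 1) (nat_lit 4) (nat_lit 374) (nat_lit 275) (nat_lit 251))))) (XT.nd (nat_lit 45006) (nat_lit 0) (nat_lit 0) (XT.nd (nat_lit 44850) (nat_lit 0) (nat_lit 0) (XT.nd (nat_lit 44772) (nat_lit 0) (nat_lit 0) (XT.lf (nat_lit 0) (nat_lit 12556061735651) (nat_lit 152) (nat_lit 2438616823243) (nat_lit 0) (nat_lit 12555771170956) (nat_lit 1) (nat_lit 5) (nat_lit 3) (nat_lit 4) (nat_lit 1) (nat_lit 4) (nat_lit 375) (nat_lit 275) (nat_lit 250)) (XT.lf (nat_lit 0) (nat_lit 136524830473) (nat_lit 152) (nat_lit 43993649518) (nat_lit 0) (nat_lit 136524830473) (nat_lit 1) (nat_lit 5) (nat_lit 3) (nat_lit 4) (nat_lit 1) (nat_lit 4) (nat_lit 348) (nat_lit 276) (nat_lit 276))) (XT.nd (nat_lit 78) (nat_lit 0) (nat_lit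 0) (XT.lf (nat_lit 0) (nat_lit 317369250711) (nat_lit 152) (nat_lit 94232786465) (nat_lit 0) (nat_lit 317324300526) (nat_lit 1) (nat_lit 5) (nat_lit 3) (nat_lit 4) (nat_lit 1) (nat_lit 4) (nat_lit 349) (nat_lit 276) (nat_lit 275)) (XT.lf (nat_lit 0) (nat_lit 368046670574) (nat_lit 152) (nat_lit 102005931235) (nat_lit 0) (nat_lit 367962633272) (nat_lit 1) (nat_lit 5) (nat_lit 3) (nat_lit 4) (nat_lit 1) (nat_lit 4) (nat_lit 350) (nat_lit 276) (nat_lit 274)))) (XT.nd (nat_lit 156) (nat_lit 0) (nat_lit 0) (XT.nd (nat_lit 78) (nat_lit 0) (nat_lit 0) (XT.lf (nat_lit 0) (nat_lit 426073435272) (nat_lit 152) (nat_lit 111458816615) (nat_lit 0) (nat_lit 425955409172) (nat_lit 1) (nat_lit 5) (nat_lit 3) (nat_lit 4) (nat_lit 1) (nat_lit 4) (nat_lit 351) (nat_lit 276) (nat_lit 273)) (XT.lf (nat_lit 0) (nat_lit 492584851070) (nat_lit 152) (nat_lit 122776390362) (nat_lit 0) (nat_lit 492437269495) (nat_lit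 1) (nat_lit 5) (nat_lit 3) (nat_lit 4) (nat_lit 1) (nat_lit 4) (nat_lit 352) (nat_lit 276) (nat_lit 272))) (XT.nd (nat_lit 78) (nat_lit 0) (nat_lit 0) (XT.lf (nat_lit 0) (nat_lit 568882228278) (nat_lit 152) (nat_lit 136180083266) (nat_lit 0) (nat_lit 568708946289) (nat_lit 1) (nat_lit 5) (nat_lit 3) (nat_lit 4) (nat_lit 1) (nat_lit 4) (nat_lit 353) (nat_lit 276) (nat_lit 271)) (XT.lf (nat_lit 0) (nat_lit 656458341667) (nat_lit 152) (nat_lit 151932141494) (nat_lit 0) (nat_lit 656262711492) (nat_lit 1) (nat_lit 5) (nat_lit 3) (nat_lit 4) (nat_lit 1) (nat_lit 4) (nat_lit 354) (nat_lit 276) (nat_lit 270)))))) (XT.nd (nat_lit 624) (nat_lit 0) (nat_lit 0) (XT.nd (nat_lit 312) (nat_lit 0) (nat_lit 0) (XT.nd (nat_lit 156) (nat_lit 0) (nat_lit 0) (XT.nd (nat_lit 78) (nat_lit 0) (nat_lit 0) (XT.lf (nat_lit 0) (nat_lit 757026636935) (nat_lit 152) (nat_lit 170340757488) (nat_lit 0) (nat_lit 756811573554)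 (nat_lit 1) (nat_lit 5) (nat_lit 3) (nat_lit 4) (nat_lit 1) (nat_lit 4) (nat_lit 355) (nat_lit 276) (nat_lit 269)) (XT.lf (nat_lit 0) (nat_lit 872554754639) (nat_lit 152) (nat_lit 191766099823) (nat_lit 0) (nat_lit 872322792819) (nat_lit 1) (nat_lit 5) (nat_lit 3) (nat_lit 4) (nat_lit 1) (nat_lit 4) (nat_lit 356) (nat_lit 276) (nat_lit 268))) (XT.nd (nat_lit 78) (nat_lit 0) (nat_lit 0) (XT.lf (nat_lit 0) (nat_lit 1005303027519) (nat_lit 152) (nat_lit 216627359978) (nat_lit 0) (nat_lit 1005056371403) (nat_lit 1) (nat_lit 5) (nat_lit 3) (nat_lit 4) (nat_lit 1) (nat_lit 4) (nat_lit 357) (nat_lit 276) (nat_lit 267)) (XT.lf (nat_lit 0) (nat_lit 1157868704391) (nat_lit 152) (nat_lit 245410953915) (nat_lit 0) (nat_lit 1157609270628) (nat_lit 1) (nat_lit 5) (nat_lit 3) (nat_lit 4) (nat_lit 1) (nat_lit 4) (nat_lit 358) (nat_lit 276) (nat_lit 266)))) (XT.nd (nat_lit 156) (nat_lit 0) (nat_lit 0) (XT.nd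 (nat_lit 78) (nat_lit 0) (nat_lit 0) (XT.lf (nat_lit 0) (nat_lit 1333236765890) (nat_lit 152) (nat_lit 278680038904) (nat_lit 0) (nat_lit 1332966221128) (nat_lit 1) (nat_lit 5) (nat_lit 3) (nat_lit 4) (nat_lit 1) (nat_lit 4) (nat_lit 359) (nat_lit 276) (nat_lit 265)) (XT.lf (nat_lit 0) (nat_lit 1534838326262) (nat_lit 152) (nat_lit 317085531827) (nat_lit 0) (nat_lit 1534558119763) (nat_lit 1) (nat_lit 5) (nat_lit 3) (nat_lit 4) (nat_lit 1) (nat_lit 4) (nat_lit 360) (nat_lit 276) (nat_lit 264))) (XT.nd (nat_lit 78) (nat_lit 0) (nat_lit 0) (XT.lf (nat_lit 0) (nat_lit 1766617763863) (nat_lit 152) (nat_lit 361378844501) (nat_lit 0) (nat_lit 1766329155853) (nat_lit 1) (nat_lit 5) (nat_lit 3) (nat_lit 4) (nat_lit 1) (nat_lit 4) (nat_lit 361) (nat_lit 276) (nat_lit 263)) (XT.lf (nat_lit 0) (nat_lit 2033109893777) (nat_lit 152) (nat_lit 412426585219) (nat_lit 0) (nat_lit 2032813980105) (nat_lit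 1) (nat_lit 5) (nat_lit 3) (nat_lit 4) (nat_lit 1) (nat_lit 4) (nat_lit 362) (nat_lit 276) (nat_lit 262))))) (XT.nd (nat_lit 312) (nat_lit 0) (nat_lit 0) (XT.nd (nat_lit 156) (nat_lit 0) (nat_lit 0) (XT.nd (nat_lit 78) (nat_lit 0) (nat_lit 0) (XT.lf (nat_lit 0) (nat_lit 2339528692457) (nat_lit 152) (nat_lit 471227514123) (nat_lit 0) (nat_lit 2339226426036) (nat_lit 1) (nat_lit 5) (nat_lit 3) (nat_lit 4) (nat_lit 1) (nat_lit 4) (nat_lit 363) (nat_lit 276) (nat_lit 261)) (XT.lf (nat_lit 0) (nat_lit 2691869310313) (nat_lit 152) (nat_lit 538932084172) (nat_lit 0) (nat_lit 2691561519762) (nat_lit 1) (nat_lit 5) (nat_lit 3) (nat_lit 4) (nat_lit 1) (nat_lit 4) (nat_lit 364) (nat_lit 276) (nat_lit 260))) (XT.nd (nat_lit 78) (nat_lit 0) (nat_lit 0) (XT.lf (nat_lit 0) (nat_lit 3097025368129) (nat_lit 152) (nat_lit 616864949997) (nat_lit 0) (nat_lit 3096712773987) (nat_lit 1) (nat_lit 5) (nat_lit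 3) (nat_lit 4) (nat_lit 1) (nat_lit 4) (nat_lit 365) (nat_lit 276) (nat_lit 259)) (XT.lf (nat_lit 0) (nat_lit 3562923832254) (nat_lit 152) (nat_lit 706550885059) (nat_lit 0) (nat_lit 3562607061076) (nat_lit 1) (nat_lit 5) (nat_lit 3) (nat_lit 4) (nat_lit 1) (nat_lit 4) (nat_lit 366) (nat_lit 276) (nat_lit 258)))) (XT.nd (nat_lit 156) (nat_lit 0) (nat_lit 0) (XT.nd (nat_lit 78) (nat_lit 0) (nat_lit 0) (XT.lf (nat_lit 0) (nat_lit 4098680107420) (nat_lit 152) (nat_lit 809744614175) (nat_lit 0) (nat_lit 4098359704038) (nat_lit 1) (nat_lit 5) (nat_lit 3) (nat_lit 4) (nat_lit 1) (nat_lit 4) (nat_lit 367) (nat_lit 276) (nat_lit 257)) (XT.lf (nat_lit 0) (nat_lit 4714776381621) (nat_lit 152) (nat_lit 928465145088) (nat_lit 0) (nat_lit 4714452819799) (nat_lit 1) (nat_lit 5) (nat_lit 3) (nat_lit 4) (nat_lit 1) (nat_lit 4) (nat_lit 368) (nat_lit 276) (nat_lit 256))) (XT.nd (nat_lit 78) (nat_lit 0)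 (nat_lit 0) (XT.lf (nat_lit 0) (nat_lit 5423266712394) (nat_lit 152) (nat_lit 1065035270795) (nat_lit 0) (nat_lit 5422940404103) (nat_lit 1) (nat_lit 5) (nat_lit 3) (nat_lit 4) (nat_lit 1) (nat_lit 4) (nat_lit 369) (nat_lit 276) (nat_lit 255)) (XT.lf (nat_lit 0) (nat_lit 6238012867080) (nat_lit 152) (nat_lit 1222127015494) (nat_lit 0) (nat_lit 6237684170556) (nat_lit 1) (nat_lit 5) (nat_lit 3) (nat_lit 4) (nat_lit 1) (nat_lit 4) (nat_lit 370) (nat_lit 276) (nat_lit 254))))))) (XT.nd (nat_lit 45708) (nat_lit 0) (nat_lit 0) (XT.nd (nat_lit 45084) (nat_lit 0) (nat_lit 0) (XT.nd (nat_lit 234) (nat_lit 0) (nat_lit 0) (XT.nd (nat_lit 78) (nat_lit 0) (nat_lit 0) (XT.lf (nat_lit 0) (nat_lit 7174955531316) (nat_lit 152) (nat_lit 1402813913321) (nat_lit 0) (nat_lit 7174624758067) (nat_lit 1) (nat_lit 5) (nat_lit 3) (nat_lit 4) (nat_lit 1) (nat_lit 4) (nat_lit 371) (nat_lit 276) (nat_lit 253)) (XT.nd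 (nat_lit 78) (nat_lit 0) (nat_lit 0) (XT.lf (nat_lit 0) (nat_lit 8252426192010) (nat_lit 152) (nat_lit 1610631142711) (nat_lit 0) (nat_lit 8252093612913) (nat_lit 1) (nat_lit 5) (nat_lit 3) (nat_lit 4) (nat_lit 1) (nat_lit 4) (nat_lit 372) (nat_lit 276) (nat_lit 252)) (XT.lf (nat_lit 0) (nat_lit 9491505796871) (nat_lit 152) (nat_lit 1849644692935) (nat_lit 0) (nat_lit 9491171647471) (nat_lit 1) (nat_lit 5) (nat_lit 3) (nat_lit 4) (nat_lit 1) (nat_lit 4) (nat_lit 373) (nat_lit 276) (nat_lit 251)))) (XT.nd (nat_lit 44694) (nat_lit 0) (nat_lit 0) (XT.nd (nat_lit 78) (nat_lit 0) (nat_lit 0) (XT.lf (nat_lit 0) (nat_lit 10916437207733) (nat_lit 152) (nat_lit 2124530916063) (nat_lit 0) (nat_lit 10916101692853) (nat_lit 1) (nat_lit 5) (nat_lit 3) (nat_lit 4) (nat_lit 1) (nat_lit 4) (nat_lit 374) (nat_lit 276) (nat_lit 250)) (XT.lf (nat_lit 0) (nat_lit 12555099517418) (nat_lit 152) (nat_lit 2440668020808)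 (nat_lit 0) (nat_lit 12554762815164) (nat_lit 1) (nat_lit 5) (nat_lit 3) (nat_lit 4) (nat_lit 1) (nat_lit 4) (nat_lit 375) (nat_lit 276) (nat_lit 249))) (XT.nd (nat_lit 78) (nat_lit 0) (nat_lit 0) (XT.lf (nat_lit 0) (nat_lit 100176526029) (nat_lit 152) (nat_lit 39627292684) (nat_lit 0) (nat_lit 100176526029) (nat_lit 1) (nat_lit 5) (nat_lit 3) (nat_lit 4) (nat_lit 1) (nat_lit 4) (nat_lit 346) (nat_lit 277) (nat_lit 277)) (XT.lf (nat_lit 0) (nat_lit 234272471583) (nat_lit 152) (nat_lit 83147274632) (nat_lit 0) (nat_lit 234220778871) (nat_lit 1) (nat_lit 5) (nat_lit 3) (nat_lit 4) (nat_lit 1) (nat_lit 4) (nat_lit 347) (nat_lit 277) (nat_lit 276))))) (XT.nd (nat_lit 312) (nat_lit 0) (nat_lit 0) (XT.nd (nat_lit 156) (nat_lit 0) (nat_lit 0) (XT.nd (nat_lit 78) (nat_lit 0) (nat_lit 0) (XT.lf (nat_lit 0) (nat_lit 272946179416) (nat_lit 152) (nat_lit 88303326647) (nat_lit 0) (nat_lit 272849536518)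 (nat_lit 1) (nat_lit 5) (nat_lit 3) (nat_lit 4) (nat_lit 1) (nat_lit 4) (nat_lit 348) (nat_lit 277) (nat_lit 275)) (XT.lf (nat_lit 0) (nat_lit 317130835057) (nat_lit 152) (nat_lit 94823620693) (nat_lit 0) (nat_lit 316995105042) (nat_lit 1) (nat_lit 5) (nat_lit 3) (nat_lit 4) (nat_lit 1) (nat_lit 4) (nat_lit 349) (nat_lit 277) (nat_lit 274))) (XT.nd (nat_lit 78) (nat_lit 0) (nat_lit 0) (XT.lf (nat_lit 0) (nat_lit 367690920899) (nat_lit 152) (nat_lit 102835727740) (nat_lit 0) (nat_lit 367521202087) (nat_lit 1) (nat_lit 5) (nat_lit 3) (nat_lit 4) (nat_lit 1) (nat_lit 4) (nat_lit 350) (nat_lit 277) (nat_lit 273)) (XT.lf (nat_lit 0) (nat_lit 425615656013) (nat_lit 152) (nat_lit 112496406403) (nat_lit 0) (nat_lit 425416381725) (nat_lit 1) (nat_lit 5) (nat_lit 3) (nat_lit 4) (nat_lit 1) (nat_lit 4) (nat_lit 351) (nat_lit 277) (nat_lit 272)))) (XT.nd (nat_lit 156) (nat_lit 0) (nat_lit 0) (XT.nd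 (nat_lit 78) (nat_lit 0) (nat_lit 0) (XT.lf (nat_lit 0) (nat_lit 492038350435) (nat_lit 152) (nat_lit 123994669962) (nat_lit 0) (nat_lit 491813375733) (nat_lit 1) (nat_lit 5) (nat_lit 3) (nat_lit 4) (nat_lit 1) (nat_lit 4) (nat_lit 352) (nat_lit 277) (nat_lit 271)) (XT.lf (nat_lit 0) (nat_lit 568258578620) (nat_lit 152) (nat_lit 137555484442) (nat_lit 0) (nat_lit 568011255732) (nat_lit 1) (nat_lit 5) (nat_lit 3) (nat_lit 4) (nat_lit 1) (nat_lit 4) (nat_lit 353) (nat_lit 277) (nat_lit 270))) (XT.nd (nat_lit 78) (nat_lit 0) (nat_lit 0) (XT.lf (nat_lit 0) (nat_lit 655767605902) (nat_lit 152) (nat_lit 153444170126) (nat_lit 0) (nat_lit 655500849809) (nat_lit 1) (nat_lit 5) (nat_lit 3) (nat_lit 4) (nat_lit 1) (nat_lit 4) (nat_lit 354) (nat_lit 277) (nat_lit 269)) (XT.lf (nat_lit 0) (nat_lit 756277565424) (nat_lit 152) (nat_lit 171971592605) (nat_lit 0) (nat_lit 755993910891) (nat_lit 1) (nat_lit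 5) (nat_lit 3) (nat_lit 4) (nat_lit 1) (nat_lit 4) (nat_lit 355) (nat_lit 277) (nat_lit 268)))))) (XT.nd (nat_lit 624) (nat_lit 0) (nat_lit 0) (XT.nd (nat_lit 312) (nat_lit 0) (nat_lit 0) (XT.nd (nat_lit 156) (nat_lit 0) (nat_lit 0) (XT.nd (nat_lit 78) (nat_lit 0) (nat_lit 0) (XT.lf (nat_lit 0) (nat_lit 871754956393) (nat_lit 152) (nat_lit 193500244926) (nat_lit 0) (nat_lit 871456607565) (nat_lit 1) (nat_lit 5) (nat_lit 3) (nat_lit 4) (nat_lit 1) (nat_lit 4) (nat_lit 356) (nat_lit 277) (nat_lit 267)) (XT.lf (nat_lit 0) (nat_lit 1004459119068) (nat_lit 152) (nat_lit 218451339852) (nat_lit 0) (nat_lit 1004147992593) (nat_lit 1) (nat_lit 5) (nat_lit 3) (nat_lit 4) (nat_lit 1) (nat_lit 4) (nat_lit 357) (nat_lit 277) (nat_lit 266))) (XT.nd (nat_lit 78) (nat_lit 0) (nat_lit 0) (XT.lf (nat_lit 0) (nat_lit 1156986439241) (nat_lit 152) (nat_lit 247313050981) (nat_lit 0) (nat_lit 1156664201767) (nat_lit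 1) (nat_lit 5) (nat_lit 3) (nat_lit 4) (nat_lit 1) (nat_lit 4) (nat_lit 358) (nat_lit 277) (nat_lit 265)) (XT.lf (nat_lit 0) (nat_lit 1332321147088) (nat_lit 152) (nat_lit 280650063963) (nat_lit 0) (nat_lit 1331989247877) (nat_lit 1) (nat_lit 5) (nat_lit 3) (nat_lit 4) (nat_lit 1) (nat_lit 4) (nat_lit 359) (nat_lit 277) (nat_lit 264)))) (XT.nd (nat_lit 156) (nat_lit 0) (nat_lit 0) (XT.nd (nat_lit 78) (nat_lit 0) (nat_lit 0) (XT.lf (nat_lit 0) (nat_lit 1533893704285) (nat_lit 152) (nat_lit 319114624706) (nat_lit 0) (nat_lit 1533553403563) (nat_lit 1) (nat_lit 5) (nat_lit 3) (nat_lit 4) (nat_lit 1) (nat_lit 4) (nat_lit 360) (nat_lit 277) (nat_lit 263)) (XT.lf (nat_lit 0) (nat_lit 1765647921734) (nat_lit 152) (nat_lit 363459300702) (nat_lit 0) (nat_lit 1765300315349) (nat_lit 1) (nat_lit 5) (nat_lit 3) (nat_lit 4) (nat_lit 1) (nat_lit 4) (nat_lit 361) (nat_lit 277) (nat_lit 262))) (XT.nd (nat_lit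 78) (nat_lit 0) (nat_lit 0) (XT.lf (nat_lit 0) (nat_lit 2032118121079) (nat_lit 152) (nat_lit 414551705177) (nat_lit 0) (nat_lit 2031764161946) (nat_lit 1) (nat_lit 5) (nat_lit 3) (nat_lit 4) (nat_lit 1) (nat_lit 4) (nat_lit 362) (nat_lit 277) (nat_lit 261)) (XT.lf (nat_lit 0) (nat_lit 2338517849701) (nat_lit 152) (nat_lit 473391472133) (nat_lit 0) (nat_lit 2338158366438) (nat_lit 1) (nat_lit 5) (nat_lit 3) (nat_lit 4) (nat_lit 1) (nat_lit 4) (nat_lit 363) (nat_lit 277) (nat_lit 260))))) (XT.nd (nat_lit 312) (nat_lit 0) (nat_lit 0) (XT.nd (nat_lit 156) (nat_lit 0) (nat_lit 0) (XT.nd (nat_lit 78) (nat_lit 0) (nat_lit 0) (XT.lf (nat_lit 0) (nat_lit 2690841884897) (nat_lit 152) (nat_lit 541129814400) (nat_lit 0) (nat_lit 2690477598043) (nat_lit 1) (nat_lit 5) (nat_lit 3) (nat_lit 4) (nat_lit 1) (nat_lit 4) (nat_lit 364) (nat_lit 277) (nat_lit 259)) (XT.lf (nat_lit 0) (nat_lit 3095983523010)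 (nat_lit 152) (nat_lit 619092047370) (nat_lit 0) (nat_lit 3095615059119) (nat_lit 1) (nat_lit 5) (nat_lit 3) (nat_lit 4) (nat_lit 1) (nat_lit 4) (nat_lit 365) (nat_lit 277) (nat_lit 258))) (XT.nd (nat_lit 78) (nat_lit 0) (nat_lit 0) (XT.lf (nat_lit 0) (nat_lit 3561869448261) (nat_lit 152) (nat_lit 708803519081) (nat_lit 0) (nat_lit 3561497352166) (nat_lit 1) (nat_lit 5) (nat_lit 3) (nat_lit 4) (nat_lit 1) (nat_lit 4) (nat_lit 366) (nat_lit 277) (nat_lit 257)) (XT.lf (nat_lit 0) (nat_lit 4097614820060) (nat_lit 152) (nat_lit 812019453978) (nat_lit 0) (nat_lit 4097239565525) (nat_lit 1) (nat_lit 5) (nat_lit 3) (nat_lit 4) (nat_lit 1) (nat_lit 4) (nat_lit 367) (nat_lit 277) (nat_lit 256)))) (XT.nd (nat_lit 156) (nat_lit 0) (nat_lit 0) (XT.nd (nat_lit 78) (nat_lit 0) (nat_lit 0) (XT.lf (nat_lit 0) (nat_lit 4713701613071) (nat_lit 152) (nat_lit 930759294267) (nat_lit 0) (nat_lit 4713323612067)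 (nat_lit 1) (nat_lit 5) (nat_lit 3) (nat_lit 4) (nat_lit 1) (nat_lit 4) (nat_lit 368) (nat_lit 277) (nat_lit 255)) (XT.lf (nat_lit 0) (nat_lit 5422183699331) (nat_lit 152) (nat_lit 1067346210735) (nat_lit 0) (nat_lit 5421803310094) (nat_lit 1) (nat_lit 5) (nat_lit 3) (nat_lit 4) (nat_lit 1) (nat_lit 4) (nat_lit 369) (nat_lit 277) (nat_lit 254))) (XT.nd (nat_lit 78) (nat_lit 0) (nat_lit 0) (XT.lf (nat_lit 0) (nat_lit 6236922684876) (nat_lit 152) (nat_lit 1224452556095) (nat_lit 0) (nat_lit 6236540218914) (nat_lit 1) (nat_lit 5) (nat_lit 3) (nat_lit 4) (nat_lit 1) (nat_lit 4) (nat_lit 370) (nat_lit 277) (nat_lit 253)) (XT.lf (nat_lit 0) (nat_lit 7173859115076) (nat_lit 152) (nat_lit 1405152150150) (nat_lit 0) (nat_lit 7173474843266) (nat_lit 1) (nat_lit 5) (nat_lit 3) (nat_lit 4) (nat_lit 1) (nat_lit 4) (nat_lit 371) (nat_lit 277) (nat_lit 252))))))))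
noncomputable def xc4 : XT := (XT.nd (nat_lit 46722) (nat_lit 0) (nat_lit 0) (XT.nd (nat_lit 45552) (nat_lit 0) (nat_lit 0) (XT.nd (nat_lit 44928) (nat_lit 0) (nat_lit 0) (XT.nd (nat_lit 234) (nat_lit 0) (nat_lit 0) (XT.nd (nat_lit 78) (nat_lit 0) (nat_lit 0) (XT.lf (nat_lit 0) (nat_lit 8251324354869) (nat_lit 152) (nat_lit 1612980419738) (nat_lit 0) (nat_lit 8250938512757) (nat_lit 1) (nat_lit 5) (nat_lit 3) (nat_lit 4) (nat_lit 1) (nat_lit 4) (nat_lit 372) (nat_lit 277) (nat_lit 251)) (XT.nd (nat_lit 78) (nat_lit 0) (nat_lit 0) (XT.lf (nat_lit 0) (nat_lit 9490399245903) (nat_lit 152) (nat_lit 1852003570134) (nat_lit 0) (nat_lit 9490012038310) (nat_lit 1) (nat_lit 5) (nat_lit 3) (nat_lit 4) (nat_lit 1) (nat_lit 4) (nat_lit 373) (nat_lit 277) (nat_lit 250)) (XT.lf (nat_lit 0) (nat_lit 10915326557785) (nat_lit 152) (nat_lit 2126898141237) (nat_lit 0) (nat_lit 10914938162818) (nat_lit 1)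 (nat_lit 5) (nat_lit 3) (nat_lit 4) (nat_lit 1) (nat_lit 4) (nat_lit 374) (nat_lit 277) (nat_lit 249)))) (XT.nd (nat_lit 44538) (nat_lit 0) (nat_lit 0) (XT.nd (nat_lit 44460) (nat_lit 0) (nat_lit 0) (XT.lf (nat_lit 0) (nat_lit 12553985303140) (nat_lit 152) (nat_lit 2443042505091) (nat_lit 0) (nat_lit 12553595875674) (nat_lit 1) (nat_lit 5) (nat_lit 3) (nat_lit 4) (nat_lit 1) (nat_lit 4) (nat_lit 375) (nat_lit 277) (nat_lit 248)) (XT.lf (nat_lit 0) (nat_lit 72233606812) (nat_lit 152) (nat_lit 37279965594) (nat_lit 0) (nat_lit 72233606812) (nat_lit 1) (nat_lit 5) (nat_lit 3) (nat_lit 4) (nat_lit 1) (nat_lit 4) (nat_lit 344) (nat_lit 278) (nat_lit 278))) (XT.nd (nat_lit 78) (nat_lit 0) (nat_lit 0) (XT.lf (nat_lit 0) (nat_lit 170583726643) (nat_lit 152) (nat_lit 76549097545) (nat_lit 0) (nat_lit 170524280023) (nat_lit 1) (nat_lit 5) (nat_lit 3) (nat_lit 4) (nat_lit 1) (nat_lit 4) (nat_lit 345)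 (nat_lit 278) (nat_lit 277)) (XT.lf (nat_lit 0) (nat_lit 200234048298) (nat_lit 152) (nat_lit 79618017120) (nat_lit 0) (nat_lit 200122908967) (nat_lit 1) (nat_lit 5) (nat_lit 3) (nat_lit 4) (nat_lit 1) (nat_lit 4) (nat_lit 346) (nat_lit 278) (nat_lit 276))))) (XT.nd (nat_lit 312) (nat_lit 0) (nat_lit 0) (XT.nd (nat_lit 156) (nat_lit 0) (nat_lit 0) (XT.nd (nat_lit 78) (nat_lit 0) (nat_lit 0) (XT.lf (nat_lit 0) (nat_lit 233998293581) (nat_lit 152) (nat_lit 83826733994) (nat_lit 0) (nat_lit 233842204064) (nat_lit 1) (nat_lit 5) (nat_lit 3) (nat_lit 4) (nat_lit 1) (nat_lit 4) (nat_lit 347) (nat_lit 278) (nat_lit 275)) (XT.lf (nat_lit 0) (nat_lit 272537067290) (nat_lit 152) (nat_lit 89257592627) (nat_lit 0) (nat_lit 272341890656) (nat_lit 1) (nat_lit 5) (nat_lit 3) (nat_lit 4) (nat_lit 1) (nat_lit 4) (nat_lit 348) (nat_lit 278) (nat_lit 274))) (XT.nd (nat_lit 78) (nat_lit 0) (nat_lit 0) (XT.lf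 (nat_lit 0) (nat_lit 316604388910) (nat_lit 152) (nat_lit 96016848949) (nat_lit 0) (nat_lit 316375223478) (nat_lit 1) (nat_lit 5) (nat_lit 3) (nat_lit 4) (nat_lit 1) (nat_lit 4) (nat_lit 349) (nat_lit 278) (nat_lit 273)) (XT.lf (nat_lit 0) (nat_lit 367062445169) (nat_lit 152) (nat_lit 104236749280) (nat_lit 0) (nat_lit 366803724261) (nat_lit 1) (nat_lit 5) (nat_lit 3) (nat_lit 4) (nat_lit 1) (nat_lit 4) (nat_lit 350) (nat_lit 278) (nat_lit 272)))) (XT.nd (nat_lit 156) (nat_lit 0) (nat_lit 0) (XT.nd (nat_lit 78) (nat_lit 0) (nat_lit 0) (XT.lf (nat_lit 0) (nat_lit 424898458907) (nat_lit 152) (nat_lit 114078117755) (nat_lit 0) (nat_lit 424614037585) (nat_lit 1) (nat_lit 5) (nat_lit 3) (nat_lit 4) (nat_lit 1) (nat_lit 4) (nat_lit 351) (nat_lit 278) (nat_lit 271)) (XT.lf (nat_lit 0) (nat_lit 491244004305) (nat_lit 152) (nat_lit 125733502889) (nat_lit 0) (nat_lit 490937234797) (nat_lit 1) (nat_lit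 5) (nat_lit 3) (nat_lit 4) (nat_lit 1) (nat_lit 4) (nat_lit 352) (nat_lit 278) (nat_lit 270))) (XT.nd (nat_lit 78) (nat_lit 0) (nat_lit 0) (XT.lf (nat_lit 0) (nat_lit 567397146382) (nat_lit 152) (nat_lit 139430944826) (nat_lit 0) (nat_lit 567070943670) (nat_lit 1) (nat_lit 5) (nat_lit 3) (nat_lit 4) (nat_lit 1) (nat_lit 4) (nat_lit 353) (nat_lit 278) (nat_lit 269)) (XT.lf (nat_lit 0) (nat_lit 654847837919) (nat_lit 152) (nat_lit 155438436995) (nat_lit 0) (nat_lit 654504736767) (nat_lit 1) (nat_lit 5) (nat_lit 3) (nat_lit 4) (nat_lit 1) (nat_lit 4) (nat_lit 354) (nat_lit 278) (nat_lit 268)))))) (XT.nd (nat_lit 546) (nat_lit 0) (nat_lit 0) (XT.nd (nat_lit 234) (nat_lit 0) (nat_lit 0) (XT.nd (nat_lit 78) (nat_lit 0) (nat_lit 0) (XT.lf (nat_lit 0) (nat_lit 755307070706) (nat_lit 152) (nat_lit 174069169460) (nat_lit 0) (nat_lit 754949275259) (nat_lit 1) (nat_lit 5) (nat_lit 3) (nat_lit 4) (nat_lit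 1) (nat_lit 4) (nat_lit 355) (nat_lit 278) (nat_lit 267)) (XT.nd (nat_lit 78) (nat_lit 0) (nat_lit 0) (XT.lf (nat_lit 0) (nat_lit 870740351471) (nat_lit 152) (nat_lit 195687656552) (nat_lit 0) (nat_lit 870369778376) (nat_lit 1) (nat_lit 5) (nat_lit 3) (nat_lit 4) (nat_lit 1) (nat_lit 4) (nat_lit 356) (nat_lit 278) (nat_lit 266)) (XT.lf (nat_lit 0) (nat_lit 1003406157446) (nat_lit 152) (nat_lit 220716868670) (nat_lit 0) (nat_lit 1003024473353) (nat_lit 1) (nat_lit 5) (nat_lit 3) (nat_lit 4) (nat_lit 1) (nat_lit 4) (nat_lit 357) (nat_lit 278) (nat_lit 265)))) (XT.nd (nat_lit 156) (nat_lit 0) (nat_lit 0) (XT.nd (nat_lit 78) (nat_lit 0) (nat_lit 0) (XT.lf (nat_lit 0) (nat_lit 1155900123967) (nat_lit 152) (nat_lit 249646507792) (nat_lit 0) (nat_lit 1155508778136) (nat_lit 1) (nat_lit 5) (nat_lit 3) (nat_lit 4) (nat_lit 1) (nat_lit 4) (nat_lit 358) (nat_lit 278) (nat_lit 264)) (XT.lf (nat_lit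 0) (nat_lit 1331205828639) (nat_lit 152) (nat_lit 283042588594) (nat_lit 0) (nat_lit 1330806081297) (nat_lit 1) (nat_lit 5) (nat_lit 3) (nat_lit 4) (nat_lit 1) (nat_lit 4) (nat_lit 359) (nat_lit 278) (nat_lit 263))) (XT.nd (nat_lit 78) (nat_lit 0) (nat_lit 0) (XT.lf (nat_lit 0) (nat_lit 1532753165683) (nat_lit 152) (nat_lit 321558512659) (nat_lit 0) (nat_lit 1532346112680) (nat_lit 1) (nat_lit 5) (nat_lit 3) (nat_lit 4) (nat_lit 1) (nat_lit 4) (nat_lit 360) (nat_lit 278) (nat_lit 262)) (XT.lf (nat_lit 0) (nat_lit 1764485452564) (nat_lit 152) (nat_lit 365947852413) (nat_lit 0) (nat_lit 1764072046812) (nat_lit 1) (nat_lit 5) (nat_lit 3) (nat_lit 4) (nat_lit 1) (nat_lit 4) (nat_lit 361) (nat_lit 278) (nat_lit 261))))) (XT.nd (nat_lit 312) (nat_lit 0) (nat_lit 0) (XT.nd (nat_lit 156) (nat_lit 0) (nat_lit 0) (XT.nd (nat_lit 78) (nat_lit 0) (nat_lit 0) (XT.lf (nat_lit 0) (nat_lit 2030936581852)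 (nat_lit 152) (nat_lit 417079094939) (nat_lit 0) (nat_lit 2030517651969) (nat_lit 1) (nat_lit 5) (nat_lit 3) (nat_lit 4) (nat_lit 1) (nat_lit 4) (nat_lit 362) (nat_lit 278) (nat_lit 260)) (XT.lf (nat_lit 0) (nat_lit 2337319727813) (nat_lit 152) (nat_lit 475952634112) (nat_lit 0) (nat_lit 2336895994340) (nat_lit 1) (nat_lit 5) (nat_lit 3) (nat_lit 4) (nat_lit 1) (nat_lit 4) (nat_lit 363) (nat_lit 278) (nat_lit 259))) (XT.nd (nat_lit 78) (nat_lit 0) (nat_lit 0) (XT.lf (nat_lit 0) (nat_lit 2689629343306) (nat_lit 152) (nat_lit 543720343525) (nat_lit 0) (nat_lit 2689201432796) (nat_lit 1) (nat_lit 5) (nat_lit 3) (nat_lit 4) (nat_lit 1) (nat_lit 4) (nat_lit 364) (nat_lit 278) (nat_lit 258)) (XT.lf (nat_lit 0) (nat_lit 3094758442545) (nat_lit 152) (nat_lit 621708113144) (nat_lit 0) (nat_lit 3094326899830) (nat_lit 1) (nat_lit 5) (nat_lit 3) (nat_lit 4) (nat_lit 1) (nat_lit 4) (nat_lit 365) (nat_lit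 278) (nat_lit 257)))) (XT.nd (nat_lit 156) (nat_lit 0) (nat_lit 0) (XT.nd (nat_lit 78) (nat_lit 0) (nat_lit 0) (XT.lf (nat_lit 0) (nat_lit 3560633464429) (nat_lit 152) (nat_lit 711441790636) (nat_lit 0) (nat_lit 3560198763275) (nat_lit 1) (nat_lit 5) (nat_lit 3) (nat_lit 4) (nat_lit 1) (nat_lit 4) (nat_lit 366) (nat_lit 278) (nat_lit 256)) (XT.lf (nat_lit 0) (nat_lit 4096369355038) (nat_lit 152) (nat_lit 814677034908) (nat_lit 0) (nat_lit 4095931907415) (nat_lit 1) (nat_lit 5) (nat_lit 3) (nat_lit 4) (nat_lit 1) (nat_lit 4) (nat_lit 367) (nat_lit 278) (nat_lit 255))) (XT.nd (nat_lit 78) (nat_lit 0) (nat_lit 0) (XT.lf (nat_lit 0) (nat_lit 4712447903536) (nat_lit 152) (nat_lit 933433665958) (nat_lit 0) (nat_lit 4712008067680) (nat_lit 1) (nat_lit 5) (nat_lit 3) (nat_lit 4) (nat_lit 1) (nat_lit 4) (nat_lit 368) (nat_lit 278) (nat_lit 254)) (XT.lf (nat_lit 0) (nat_lit 5420922820655) (nat_lit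 152) (nat_lit 1070035183088) (nat_lit 0) (nat_lit 5420480908073) (nat_lit 1) (nat_lit 5) (nat_lit 3) (nat_lit 4) (nat_lit 1) (nat_lit 4) (nat_lit 369) (nat_lit 278) (nat_lit 253))))))) (XT.nd (nat_lit 45396) (nat_lit 0) (nat_lit 0) (XT.nd (nat_lit 44772) (nat_lit 0) (nat_lit 0) (XT.nd (nat_lit 234) (nat_lit 0) (nat_lit 0) (XT.nd (nat_lit 78) (nat_lit 0) (nat_lit 0) (XT.lf (nat_lit 0) (nat_lit 6235655572164) (nat_lit 152) (nat_lit 1227154224676) (nat_lit 0) (nat_lit 6235211853735) (nat_lit 1) (nat_lit 5) (nat_lit 3) (nat_lit 4) (nat_lit 1) (nat_lit 4) (nat_lit 370) (nat_lit 278) (nat_lit 252)) (XT.nd (nat_lit 78) (nat_lit 0) (nat_lit 0) (XT.lf (nat_lit 0) (nat_lit 7172586581463) (nat_lit 152) (nat_lit 1407864858928) (nat_lit 0) (nat_lit 7172141292731) (nat_lit 1) (nat_lit 5) (nat_lit 3) (nat_lit 4) (nat_lit 1) (nat_lit 4) (nat_lit 371) (nat_lit 278) (nat_lit 251)) (XT.lf (nat_lit 0) (nat_lit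 8250047107429) (nat_lit 152) (nat_lit 1615702728688) (nat_lit 0) (nat_lit 8249600453217) (nat_lit 1) (nat_lit 5) (nat_lit 3) (nat_lit 4) (nat_lit 1) (nat_lit 4) (nat_lit 372) (nat_lit 278) (nat_lit 250)))) (XT.nd (nat_lit 156) (nat_lit 0) (nat_lit 0) (XT.nd (nat_lit 78) (nat_lit 0) (nat_lit 0) (XT.lf (nat_lit 0) (nat_lit 9489117899483) (nat_lit 152) (nat_lit 1854734227060) (nat_lit 0) (nat_lit 9488670057897) (nat_lit 1) (nat_lit 5) (nat_lit 3) (nat_lit 4) (nat_lit 1) (nat_lit 4) (nat_lit 373) (nat_lit 278) (nat_lit 249)) (XT.lf (nat_lit 0) (nat_lit 10914041647035) (nat_lit 152) (nat_lit 2129636057273) (nat_lit 0) (nat_lit 10913592772950) (nat_lit 1) (nat_lit 5) (nat_lit 3) (nat_lit 4) (nat_lit 1) (nat_lit 4) (nat_lit 374) (nat_lit 278) (nat_lit 248))) (XT.nd (nat_lit 44304) (nat_lit 0) (nat_lit 0) (XT.lf (nat_lit 0) (nat_lit 12552697292972) (nat_lit 152) (nat_lit 2445786733396) (nat_lit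 0) (nat_lit 12552247521061) (nat_lit 1) (nat_lit 5) (nat_lit 3) (nat_lit 4) (nat_lit 1) (nat_lit 4) (nat_lit 375) (nat_lit 278) (nat_lit 247)) (XT.lf (nat_lit 0) (nat_lit 50577609557) (nat_lit 152) (nat_lit 36602454958) (nat_lit 0) (nat_lit 50577609557) (nat_lit 1) (nat_lit 5) (nat_lit 3) (nat_lit 4) (nat_lit 1) (nat_lit 4) (nat_lit 342) (nat_lit 279) (nat_lit 279))))) (XT.nd (nat_lit 312) (nat_lit 0) (nat_lit 0) (XT.nd (nat_lit 156) (nat_lit 0) (nat_lit 0) (XT.nd (nat_lit 78) (nat_lit 0) (nat_lit 0) (XT.lf (nat_lit 0) (nat_lit 121441897603) (nat_lit 152) (nat_lit 73611599582) (nat_lit 0) (nat_lit 121373533991) (nat_lit 1) (nat_lit 5) (nat_lit 3) (nat_lit 4) (nat_lit 1) (nat_lit 4) (nat_lit 343) (nat_lit 279) (nat_lit 278)) (XT.lf (nat_lit 0) (nat_lit 144330359301) (nat_lit 152) (nat_lit 74977877704) (nat_lit 0) (nat_lit 144202549070) (nat_lit 1) (nat_lit 5) (nat_lit 3) (nat_lit 4) (nat_lit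 1) (nat_lit 4) (nat_lit 344) (nat_lit 279) (nat_lit 277))) (XT.nd (nat_lit 78) (nat_lit 0) (nat_lit 0) (XT.lf (nat_lit 0) (nat_lit 170268421940) (nat_lit 152) (nat_lit 77330475811) (nat_lit 0) (nat_lit 170088918996) (nat_lit 1) (nat_lit 5) (nat_lit 3) (nat_lit 4) (nat_lit 1) (nat_lit 4) (nat_lit 345) (nat_lit 279) (nat_lit 276)) (XT.lf (nat_lit 0) (nat_lit 199763569353) (nat_lit 152) (nat_lit 80715422997) (nat_lit 0) (nat_lit 199539116225) (nat_lit 1) (nat_lit 5) (nat_lit 3) (nat_lit 4) (nat_lit 1) (nat_lit 4) (nat_lit 346) (nat_lit 279) (nat_lit 275)))) (XT.nd (nat_lit 156) (nat_lit 0) (nat_lit 0) (XT.nd (nat_lit 78) (nat_lit 0) (nat_lit 0) (XT.lf (nat_lit 0) (nat_lit 233392880512) (nat_lit 152) (nat_lit 85198946489) (nat_lit 0) (nat_lit 233129340266) (nat_lit 1) (nat_lit 5) (nat_lit 3) (nat_lit 4) (nat_lit 1) (nat_lit 4) (nat_lit 347) (nat_lit 279) (nat_lit 274)) (XT.lf (nat_lit 0) (nat_lit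 271814320200) (nat_lit 152) (nat_lit 90868767398) (nat_lit 0) (nat_lit 271516791156) (nat_lit 1) (nat_lit 5) (nat_lit 3) (nat_lit 4) (nat_lit 1) (nat_lit 4) (nat_lit 348) (nat_lit 279) (nat_lit 273))) (XT.nd (nat_lit 78) (nat_lit 0) (nat_lit 0) (XT.lf (nat_lit 0) (nat_lit 315779612237) (nat_lit 152) (nat_lit 97835817004) (nat_lit 0) (nat_lit 315452527717) (nat_lit 1) (nat_lit 5) (nat_lit 3) (nat_lit 4) (nat_lit 1) (nat_lit 4) (nat_lit 349) (nat_lit 279) (nat_lit 272)) (XT.lf (nat_lit 0) (nat_lit 366148947119) (nat_lit 152) (nat_lit 106236407146) (nat_lit 0) (nat_lit 365796162185) (nat_lit 1) (nat_lit 5) (nat_lit 3) (nat_lit 4) (nat_lit 1) (nat_lit 4) (nat_lit 350) (nat_lit 279) (nat_lit 271)))))) (XT.nd (nat_lit 624) (nat_lit 0) (nat_lit 0) (XT.nd (nat_lit 312) (nat_lit 0) (nat_lit 0) (XT.nd (nat_lit 156) (nat_lit 0) (nat_lit 0) (XT.nd (nat_lit 78) (nat_lit 0) (nat_lit 0) (XT.lf (nat_lit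 0) (nat_lit 423907811833) (nat_lit 152) (nat_lit 116234897197) (nat_lit 0) (nat_lit 423532678714) (nat_lit 1) (nat_lit 5) (nat_lit 3) (nat_lit 4) (nat_lit 1) (nat_lit 4) (nat_lit 351) (nat_lit 279) (nat_lit 270)) (XT.lf (nat_lit 0) (nat_lit 490186271125) (nat_lit 152) (nat_lit 128026909788) (nat_lit 0) (nat_lit 489791704800) (nat_lit 1) (nat_lit 5) (nat_lit 3) (nat_lit 4) (nat_lit 1) (nat_lit 4) (nat_lit 352) (nat_lit 279) (nat_lit 269))) (XT.nd (nat_lit 78) (nat_lit 0) (nat_lit 0) (XT.lf (nat_lit 0) (nat_lit 566281077457) (nat_lit 152) (nat_lit 141843158210) (nat_lit 0) (nat_lit 565869612693) (nat_lit 1) (nat_lit 5) (nat_lit 3) (nat_lit 4) (nat_lit 1) (nat_lit 4) (nat_lit 353) (nat_lit 279) (nat_lit 268)) (XT.lf (nat_lit 0) (nat_lit 653681042258) (nat_lit 152) (nat_lit 157953960365) (nat_lit 0) (nat_lit 653254883199) (nat_lit 1) (nat_lit 5) (nat_lit 3) (nat_lit 4) (nat_lit 1) (nat_lit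 4) (nat_lit 354) (nat_lit 279) (nat_lit 267)))) (XT.nd (nat_lit 156) (nat_lit 0) (nat_lit 0) (XT.nd (nat_lit 78) (nat_lit 0) (nat_lit 0) (XT.lf (nat_lit 0) (nat_lit 754096164840) (nat_lit 152) (nat_lit 176674527601) (nat_lit 0) (nat_lit 753657228133) (nat_lit 1) (nat_lit 5) (nat_lit 3) (nat_lit 4) (nat_lit 1) (nat_lit 4) (nat_lit 355) (nat_lit 279) (nat_lit 266)) (XT.lf (nat_lit 0) (nat_lit 869491088906) (nat_lit 152) (nat_lit 198371131885) (nat_lit 0) (nat_lit 869041041200) (nat_lit 1) (nat_lit 5) (nat_lit 3) (nat_lit 4) (nat_lit 1) (nat_lit 4) (nat_lit 356) (nat_lit 279) (nat_lit 265))) (XT.nd (nat_lit 78) (nat_lit 0) (nat_lit 0) (XT.lf (nat_lit 0) (nat_lit 1002123541230) (nat_lit 152) (nat_lit 223468271996) (nat_lit 0) (nat_lit 1001663831787) (nat_lit 1) (nat_lit 5) (nat_lit 3) (nat_lit 4) (nat_lit 1) (nat_lit 4) (nat_lit 357) (nat_lit 279) (nat_lit 264)) (XT.lf (nat_lit 0) (nat_lit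 1154588504575) (nat_lit 152) (nat_lit 252456978937) (nat_lit 0) (nat_lit 1154120393621) (nat_lit 1) (nat_lit 5) (nat_lit 3) (nat_lit 4) (nat_lit 1) (nat_lit 4) (nat_lit 358) (nat_lit 279) (nat_lit 263))))) (XT.nd (nat_lit 312) (nat_lit 0) (nat_lit 0) (XT.nd (nat_lit 156) (nat_lit 0) (nat_lit 0) (XT.nd (nat_lit 78) (nat_lit 0) (nat_lit 0) (XT.lf (nat_lit 0) (nat_lit 1329868989094) (nat_lit 152) (nat_lit 285904423062) (nat_lit 0) (nat_lit 1329393572479) (nat_lit 1) (nat_lit 5) (nat_lit 3) (nat_lit 4) (nat_lit 1) (nat_lit 4) (nat_lit 359) (nat_lit 279) (nat_lit 262)) (XT.lf (nat_lit 0) (nat_lit 1531394395571) (nat_lit 152) (nat_lit 324465010884) (nat_lit 0) (nat_lit 1530912626206) (nat_lit 1) (nat_lit 5) (nat_lit 3) (nat_lit 4) (nat_lit 1) (nat_lit 4) (nat_lit 360) (nat_lit 279) (nat_lit 261))) (XT.nd (nat_lit 78) (nat_lit 0) (nat_lit 0) (XT.lf (nat_lit 0) (nat_lit 1763107612394) (nat_lit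 152) (nat_lit 368893188689) (nat_lit 0) (nat_lit 1762620318899) (nat_lit 1) (nat_lit 5) (nat_lit 3) (nat_lit 4) (nat_lit 1) (nat_lit 4) (nat_lit 361) (nat_lit 279) (nat_lit 260)) (XT.lf (nat_lit 0) (nat_lit 2029542159021) (nat_lit 152) (nat_lit 420058203433) (nat_lit 0) (nat_lit 2029050061935) (nat_lit 1) (nat_lit 5) (nat_lit 3) (nat_lit 4) (nat_lit 1) (nat_lit 4) (nat_lit 362) (nat_lit 279) (nat_lit 259)))) (XT.nd (nat_lit 156) (nat_lit 0) (nat_lit 0) (XT.nd (nat_lit 78) (nat_lit 0) (nat_lit 0) (XT.lf (nat_lit 0) (nat_lit 2335910885279) (nat_lit 152) (nat_lit 478961109752) (nat_lit 0) (nat_lit 2335414611157) (nat_lit 1) (nat_lit 5) (nat_lit 3) (nat_lit 4) (nat_lit 1) (nat_lit 4) (nat_lit 363) (nat_lit 279) (nat_lit 258)) (XT.lf (nat_lit 0) (nat_lit 2688207961898) (nat_lit 152) (nat_lit 546754355813) (nat_lit 0) (nat_lit 2687708055571) (nat_lit 1) (nat_lit 5) (nat_lit 3) (nat_lit 4) (nat_lit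 1) (nat_lit 4) (nat_lit 364) (nat_lit 279) (nat_lit 257))) (XT.nd (nat_lit 78) (nat_lit 0) (nat_lit 0) (XT.lf (nat_lit 0) (nat_lit 3093326157769) (nat_lit 152) (nat_lit 624764331214) (nat_lit 0) (nat_lit 3092823093003) (nat_lit 1) (nat_lit 5) (nat_lit 3) (nat_lit 4) (nat_lit 1) (nat_lit 4) (nat_lit 365) (nat_lit 279) (nat_lit 256)) (XT.lf (nat_lit 0) (nat_lit 3559191698464) (nat_lit 152) (nat_lit 714517318081) (nat_lit 0) (nat_lit 3558685887229) (nat_lit 1) (nat_lit 5) (nat_lit 3) (nat_lit 4) (nat_lit 1) (nat_lit 4) (nat_lit 366) (nat_lit 279) (nat_lit 255))))))))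
noncomputable def xc5 : XT := (XT.nd (nat_lit 46488) (nat_lit 0) (nat_lit 0) (XT.nd (nat_lit 45240) (nat_lit 0) (nat_lit 0) (XT.nd (nat_lit 546) (nat_lit 0) (nat_lit 0) (XT.nd (nat_lit 234) (nat_lit 0) (nat_lit 0) (XT.nd (nat_lit 78) (nat_lit 0) (nat_lit 0) (XT.lf (nat_lit 0) (nat_lit 4094919344560) (nat_lit 152) (nat_lit 817769353114) (nat_lit 0) (nat_lit 4094411145091) (nat_lit 1) (nat_lit 5) (nat_lit 3) (nat_lit 4) (nat_lit 1) (nat_lit 4) (nat_lit 367) (nat_lit 279) (nat_lit 254)) (XT.nd (nat_lit 78) (nat_lit 0) (nat_lit 0) (XT.lf (nat_lit 0) (nat_lit 4710990723917) (nat_lit 152) (nat_lit 936540584826) (nat_lit 0) (nat_lit 4710480447723) (nat_lit 1) (nat_lit 5) (nat_lit 3) (nat_lit 4) (nat_lit 1) (nat_lit 4) (nat_lit 368) (nat_lit 279) (nat_lit 253)) (XT.lf (nat_lit 0) (nat_lit 5419459407000) (nat_lit 152) (nat_lit 1073154798183) (nat_lit 0) (nat_lit 5418947324958) (nat_lit 1) (nat_lit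 5) (nat_lit 3) (nat_lit 4) (nat_lit 1) (nat_lit 4) (nat_lit 369) (nat_lit 279) (nat_lit 252)))) (XT.nd (nat_lit 156) (nat_lit 0) (nat_lit 0) (XT.nd (nat_lit 78) (nat_lit 0) (nat_lit 0) (XT.lf (nat_lit 0) (nat_lit 6234186737608) (nat_lit 152) (nat_lit 1230284879969) (nat_lit 0) (nat_lit 6233673085264) (nat_lit 1) (nat_lit 5) (nat_lit 3) (nat_lit 4) (nat_lit 1) (nat_lit 4) (nat_lit 370) (nat_lit 279) (nat_lit 251)) (XT.lf (nat_lit 0) (nat_lit 7171113033080) (nat_lit 152) (nat_lit 1411005114393) (nat_lit 0) (nat_lit 7170598015256) (nat_lit 1) (nat_lit 5) (nat_lit 3) (nat_lit 4) (nat_lit 1) (nat_lit 4) (nat_lit 371) (nat_lit 279) (nat_lit 250))) (XT.nd (nat_lit 78) (nat_lit 0) (nat_lit 0) (XT.lf (nat_lit 0) (nat_lit 8248569460066) (nat_lit 152) (nat_lit 1618851332129) (nat_lit 0) (nat_lit 8248053254868) (nat_lit 1) (nat_lit 5) (nat_lit 3) (nat_lit 4) (nat_lit 1) (nat_lit 4) (nat_lit 372) (nat_lit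 279) (nat_lit 249)) (XT.lf (nat_lit 0) (nat_lit 9487636687790) (nat_lit 152) (nat_lit 1857890089610) (nat_lit 0) (nat_lit 9487119450092) (nat_lit 1) (nat_lit 5) (nat_lit 3) (nat_lit 4) (nat_lit 1) (nat_lit 4) (nat_lit 373) (nat_lit 279) (nat_lit 248))))) (XT.nd (nat_lit 44382) (nat_lit 0) (nat_lit 0) (XT.nd (nat_lit 44226) (nat_lit 0) (nat_lit 0) (XT.nd (nat_lit 78) (nat_lit 0) (nat_lit 0) (XT.lf (nat_lit 0) (nat_lit 10912557335925) (nat_lit 152) (nat_lit 2132798232092) (nat_lit 0) (nat_lit 10912039200401) (nat_lit 1) (nat_lit 5) (nat_lit 3) (nat_lit 4) (nat_lit 1) (nat_lit 4) (nat_lit 374) (nat_lit 279) (nat_lit 247)) (XT.lf (nat_lit 0) (nat_lit 12551210286716) (nat_lit 152) (nat_lit 2448954397145) (nat_lit 0) (nat_lit 12550691370475) (nat_lit 1) (nat_lit 5) (nat_lit 3) (nat_lit 4) (nat_lit 1) (nat_lit 4) (nat_lit 375) (nat_lit 279) (nat_lit 246))) (XT.nd (nat_lit 78) (nat_lit 0) (nat_lit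 0) (XT.lf (nat_lit 0) (nat_lit 33596358154) (nat_lit 152) (nat_lit 37352176338) (nat_lit 0) (nat_lit 33596358154) (nat_lit 1) (nat_lit 5) (nat_lit 3) (nat_lit 4) (nat_lit 1) (nat_lit 4) (nat_lit 340) (nat_lit 280) (nat_lit 280)) (XT.lf (nat_lit 0) (nat_lit 83152028719) (nat_lit 152) (nat_lit 73749851734) (nat_lit 0) (nat_lit 83073410565) (nat_lit 1) (nat_lit 5) (nat_lit 3) (nat_lit 4) (nat_lit 1) (nat_lit 4) (nat_lit 341) (nat_lit 280) (nat_lit 279)))) (XT.nd (nat_lit 156) (nat_lit 0) (nat_lit 0) (XT.nd (nat_lit 78) (nat_lit 0) (nat_lit 0) (XT.lf (nat_lit 0) (nat_lit 100997836643) (nat_lit 152) (nat_lit 73685548408) (nat_lit 0) (nat_lit 100850854877) (nat_lit 1) (nat_lit 5) (nat_lit 3) (nat_lit 4) (nat_lit 1) (nat_lit 4) (nat_lit 342) (nat_lit 280) (nat_lit 278)) (XT.lf (nat_lit 0) (nat_lit 121079297195) (nat_lit 152) (nat_lit 74510184588) (nat_lit 0) (nat_lit 120872868809) (nat_lit 1)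 (nat_lit 5) (nat_lit 3) (nat_lit 4) (nat_lit 1) (nat_lit 4) (nat_lit 343) (nat_lit 280) (nat_lit 277))) (XT.nd (nat_lit 78) (nat_lit 0) (nat_lit 0) (XT.lf (nat_lit 0) (nat_lit 143789308515) (nat_lit 152) (nat_lit 76239894463) (nat_lit 0) (nat_lit 143531187417) (nat_lit 1) (nat_lit 5) (nat_lit 3) (nat_lit 4) (nat_lit 1) (nat_lit 4) (nat_lit 344) (nat_lit 280) (nat_lit 276)) (XT.lf (nat_lit 0) (nat_lit 169572196911) (nat_lit 152) (nat_lit 78908520180) (nat_lit 0) (nat_lit 169269125628) (nat_lit 1) (nat_lit 5) (nat_lit 3) (nat_lit 4) (nat_lit 1) (nat_lit 4) (nat_lit 345) (nat_lit 280) (nat_lit 275)))))) (XT.nd (nat_lit 624) (nat_lit 0) (nat_lit 0) (XT.nd (nat_lit 312) (nat_lit 0) (nat_lit 0) (XT.nd (nat_lit 156) (nat_lit 0) (nat_lit 0) (XT.nd (nat_lit 78) (nat_lit 0) (nat_lit 0) (XT.lf (nat_lit 0) (nat_lit 198932410200) (nat_lit 152) (nat_lit 82568273984) (nat_lit 0) (nat_lit 198590251800)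 (nat_lit 1) (nat_lit 5) (nat_lit 3) (nat_lit 4) (nat_lit 1) (nat_lit 4) (nat_lit 346) (nat_lit 280) (nat_lit 274)) (XT.lf (nat_lit 0) (nat_lit 232444387338) (nat_lit 152) (nat_lit 87290759752) (nat_lit 0) (nat_lit 232068240141) (nat_lit 1) (nat_lit 5) (nat_lit 3) (nat_lit 4) (nat_lit 1) (nat_lit 4) (nat_lit 347) (nat_lit 280) (nat_lit 273))) (XT.nd (nat_lit 78) (nat_lit 0) (nat_lit 0) (XT.lf (nat_lit 0) (nat_lit 270763797443) (nat_lit 152) (nat_lit 93168373945) (nat_lit 0) (nat_lit 270358094769) (nat_lit 1) (nat_lit 5) (nat_lit 3) (nat_lit 4) (nat_lit 1) (nat_lit 4) (nat_lit 348) (nat_lit 280) (nat_lit 272)) (XT.lf (nat_lit 0) (nat_lit 314640368103) (nat_lit 152) (nat_lit 100316113362) (nat_lit 0) (nat_lit 314208965015) (nat_lit 1) (nat_lit 5) (nat_lit 3) (nat_lit 4) (nat_lit 1) (nat_lit 4) (nat_lit 349) (nat_lit 280) (nat_lit 271)))) (XT.nd (nat_lit 156) (nat_lit 0) (nat_lit 0) (XT.nd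 (nat_lit 78) (nat_lit 0) (nat_lit 0) (XT.lf (nat_lit 0) (nat_lit 364932553962) (nat_lit 152) (nat_lit 108873825080) (nat_lit 0) (nat_lit 364478802688) (nat_lit 1) (nat_lit 5) (nat_lit 3) (nat_lit 4) (nat_lit 1) (nat_lit 4) (nat_lit 350) (nat_lit 280) (nat_lit 270)) (XT.lf (nat_lit 0) (nat_lit 422624332569) (nat_lit 152) (nat_lit 119008942588) (nat_lit 0) (nat_lit 422151148090) (nat_lit 1) (nat_lit 5) (nat_lit 3) (nat_lit 4) (nat_lit 1) (nat_lit 4) (nat_lit 351) (nat_lit 280) (nat_lit 269))) (XT.nd (nat_lit 78) (nat_lit 0) (nat_lit 0) (XT.lf (nat_lit 0) (nat_lit 488844456115) (nat_lit 152) (nat_lit 130919761664) (nat_lit 0) (nat_lit 488354373196) (nat_lit 1) (nat_lit 5) (nat_lit 3) (nat_lit 4) (nat_lit 1) (nat_lit 4) (nat_lit 352) (nat_lit 280) (nat_lit 268)) (XT.lf (nat_lit 0) (nat_lit 564888535712) (nat_lit 152) (nat_lit 144839320071) (nat_lit 0) (nat_lit 564383758498) (nat_lit 1) (nat_lit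 5) (nat_lit 3) (nat_lit 4) (nat_lit 1) (nat_lit 4) (nat_lit 353) (nat_lit 280) (nat_lit 267))))) (XT.nd (nat_lit 312) (nat_lit 0) (nat_lit 0) (XT.nd (nat_lit 156) (nat_lit 0) (nat_lit 0) (XT.nd (nat_lit 78) (nat_lit 0) (nat_lit 0) (XT.lf (nat_lit 0) (nat_lit 652244390309) (nat_lit 152) (nat_lit 161039956997) (nat_lit 0) (nat_lit 651726835447) (nat_lit 1) (nat_lit 5) (nat_lit 3) (nat_lit 4) (nat_lit 1) (nat_lit 4) (nat_lit 354) (nat_lit 280) (nat_lit 266)) (XT.lf (nat_lit 0) (nat_lit 752621156191) (nat_lit 152) (nat_lit 179838641425) (nat_lit 0) (nat_lit 752092490332) (nat_lit 1) (nat_lit 5) (nat_lit 3) (nat_lit 4) (nat_lit 1) (nat_lit 4) (nat_lit 355) (nat_lit 280) (nat_lit 265))) (XT.nd (nat_lit 78) (nat_lit 0) (nat_lit 0) (XT.lf (nat_lit 0) (nat_lit 867982726605) (nat_lit 152) (nat_lit 201603173702) (nat_lit 0) (nat_lit 867444399008) (nat_lit 1) (nat_lit 5) (nat_lit 3) (nat_lit 4) (nat_lit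 1) (nat_lit 4) (nat_lit 356) (nat_lit 280) (nat_lit 264)) (XT.lf (nat_lit 0) (nat_lit 1000586175754) (nat_lit 152) (nat_lit 226759381634) (nat_lit 0) (nat_lit 1000039446645) (nat_lit 1) (nat_lit 5) (nat_lit 3) (nat_lit 4) (nat_lit 1) (nat_lit 4) (nat_lit 357) (nat_lit 280) (nat_lit 263)))) (XT.nd (nat_lit 156) (nat_lit 0) (nat_lit 0) (XT.nd (nat_lit 78) (nat_lit 0) (nat_lit 0) (XT.lf (nat_lit 0) (nat_lit 1153025918946) (nat_lit 152) (nat_lit 255799451897) (nat_lit 0) (nat_lit 1152471884177) (nat_lit 1) (nat_lit 5) (nat_lit 3) (nat_lit 4) (nat_lit 1) (nat_lit 4) (nat_lit 358) (nat_lit 280) (nat_lit 262)) (XT.lf (nat_lit 0) (nat_lit 1328284472898) (nat_lit 152) (nat_lit 289291559779) (nat_lit 0) (nat_lit 1327724085379) (nat_lit 1) (nat_lit 5) (nat_lit 3) (nat_lit 4) (nat_lit 1) (nat_lit 4) (nat_lit 359) (nat_lit 280) (nat_lit 261))) (XT.nd (nat_lit 78) (nat_lit 0) (nat_lit 0) (XT.lf (nat_lit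 0) (nat_lit 1529790809316) (nat_lit 152) (nat_lit 327890985652) (nat_lit 0) (nat_lit 1529224897667) (nat_lit 1) (nat_lit 5) (nat_lit 3) (nat_lit 4) (nat_lit 1) (nat_lit 4) (nat_lit 360) (nat_lit 280) (nat_lit 260)) (XT.lf (nat_lit 0) (nat_lit 1761487443479) (nat_lit 152) (nat_lit 372352935675) (nat_lit 0) (nat_lit 1760916728239) (nat_lit 1) (nat_lit 5) (nat_lit 3) (nat_lit 4) (nat_lit 1) (nat_lit 4) (nat_lit 361) (nat_lit 280) (nat_lit 259))))))) (XT.nd (nat_lit 45084) (nat_lit 0) (nat_lit 0) (XT.nd (nat_lit 546) (nat_lit 0) (nat_lit 0) (XT.nd (nat_lit 234) (nat_lit 0) (nat_lit 0) (XT.nd (nat_lit 78) (nat_lit 0) (nat_lit 0) (XT.lf (nat_lit 0) (nat_lit 2027907570402) (nat_lit 152) (nat_lit 423547317564) (nat_lit 0) (nat_lit 2027332678127) (nat_lit 1) (nat_lit 5) (nat_lit 3) (nat_lit 4) (nat_lit 1) (nat_lit 4) (nat_lit 362) (nat_lit 280) (nat_lit 258)) (XT.nd (nat_lit 78) (nat_lit 0) (nat_lit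 0) (XT.lf (nat_lit 0) (nat_lit 2334263757787) (nat_lit 152) (nat_lit 482475760532) (nat_lit 0) (nat_lit 2333685233306) (nat_lit 1) (nat_lit 5) (nat_lit 3) (nat_lit 4) (nat_lit 1) (nat_lit 4) (nat_lit 363) (nat_lit 280) (nat_lit 257)) (XT.lf (nat_lit 0) (nat_lit 2686549931038) (nat_lit 152) (nat_lit 550291212375) (nat_lit 0) (nat_lit 2685968248118) (nat_lit 1) (nat_lit 5) (nat_lit 3) (nat_lit 4) (nat_lit 1) (nat_lit 4) (nat_lit 364) (nat_lit 280) (nat_lit 256)))) (XT.nd (nat_lit 156) (nat_lit 0) (nat_lit 0) (XT.nd (nat_lit 78) (nat_lit 0) (nat_lit 0) (XT.lf (nat_lit 0) (nat_lit 3091658645720) (nat_lit 152) (nat_lit 628320497150) (nat_lit 0) (nat_lit 3091074216331) (nat_lit 1) (nat_lit 5) (nat_lit 3) (nat_lit 4) (nat_lit 1) (nat_lit 4) (nat_lit 365) (nat_lit 280) (nat_lit 255)) (XT.lf (nat_lit 0) (nat_lit 3557515941902) (nat_lit 152) (nat_lit 718090274779) (nat_lit 0) (nat_lit 3556929124279)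 (nat_lit 1) (nat_lit 5) (nat_lit 3) (nat_lit 4) (nat_lit 1) (nat_lit 4) (nat_lit 366) (nat_lit 280) (nat_lit 254))) (XT.nd (nat_lit 78) (nat_lit 0) (nat_lit 0) (XT.lf (nat_lit 0) (nat_lit 4093236418857) (nat_lit 152) (nat_lit 821356910474) (nat_lit 0) (nat_lit 4092647524509) (nat_lit 1) (nat_lit 5) (nat_lit 3) (nat_lit 4) (nat_lit 1) (nat_lit 4) (nat_lit 367) (nat_lit 280) (nat_lit 253)) (XT.lf (nat_lit 0) (nat_lit 4709301564177) (nat_lit 152) (nat_lit 940140838413) (nat_lit 0) (nat_lit 4708710863982) (nat_lit 1) (nat_lit 5) (nat_lit 3) (nat_lit 4) (nat_lit 1) (nat_lit 4) (nat_lit 368) (nat_lit 280) (nat_lit 252))))) (XT.nd (nat_lit 312) (nat_lit 0) (nat_lit 0) (XT.nd (nat_lit 156) (nat_lit 0) (nat_lit 0) (XT.nd (nat_lit 78) (nat_lit 0) (nat_lit 0) (XT.lf (nat_lit 0) (nat_lit 5417764826359) (nat_lit 152) (nat_lit 1076766091968) (nat_lit 0) (nat_lit 5417172555862) (nat_lit 1) (nat_lit 5)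 (nat_lit 3) (nat_lit 4) (nat_lit 1) (nat_lit 4) (nat_lit 369) (nat_lit 280) (nat_lit 251)) (XT.lf (nat_lit 0) (nat_lit 6232487443141) (nat_lit 152) (nat_lit 1233905773926) (nat_lit 0) (nat_lit 6231893807163) (nat_lit 1) (nat_lit 5) (nat_lit 3) (nat_lit 4) (nat_lit 1) (nat_lit 4) (nat_lit 370) (nat_lit 280) (nat_lit 250))) (XT.nd (nat_lit 78) (nat_lit 0) (nat_lit 0) (XT.lf (nat_lit 0) (nat_lit 7169409639633) (nat_lit 152) (nat_lit 1414634356326) (nat_lit 0) (nat_lit 7168814816281) (nat_lit 1) (nat_lit 5) (nat_lit 3) (nat_lit 4) (nat_lit 1) (nat_lit 4) (nat_lit 371) (nat_lit 280) (nat_lit 249)) (XT.lf (nat_lit 0) (nat_lit 8246862502289) (nat_lit 152) (nat_lit 1622487833171) (nat_lit 0) (nat_lit 8246266646437) (nat_lit 1) (nat_lit 5) (nat_lit 3) (nat_lit 4) (nat_lit 1) (nat_lit 4) (nat_lit 372) (nat_lit 280) (nat_lit 248)))) (XT.nd (nat_lit 156) (nat_lit 0) (nat_lit 0) (XT.nd (nat_lit 78)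 (nat_lit 0) (nat_lit 0) (XT.lf (nat_lit 0) (nat_lit 9485926630595) (nat_lit 152) (nat_lit 1861532902922) (nat_lit 0) (nat_lit 9485329876918) (nat_lit 1) (nat_lit 5) (nat_lit 3) (nat_lit 4) (nat_lit 1) (nat_lit 4) (nat_lit 373) (nat_lit 280) (nat_lit 247)) (XT.lf (nat_lit 0) (nat_lit 10910844583584) (nat_lit 152) (nat_lit 2136446534333) (nat_lit 0) (nat_lit 10910247049189) (nat_lit 1) (nat_lit 5) (nat_lit 3) (nat_lit 4) (nat_lit 1) (nat_lit 4) (nat_lit 374) (nat_lit 280) (nat_lit 246))) (XT.nd (nat_lit 43992) (nat_lit 0) (nat_lit 0) (XT.lf (nat_lit 0) (nat_lit 12549495190770) (nat_lit 152) (nat_lit 2452607472368) (nat_lit 0) (nat_lit 12548896977490) (nat_lit 1) (nat_lit 5) (nat_lit 3) (nat_lit 4) (nat_lit 1) (nat_lit 4) (nat_lit 375) (nat_lit 280) (nat_lit 245)) (XT.lf (nat_lit 0) (nat_lit 20058955290) (nat_lit 152) (nat_lit 39370392685) (nat_lit 0) (nat_lit 20058955290) (nat_lit 1) (nat_lit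 5) (nat_lit 3) (nat_lit 4) (nat_lit 1) (nat_lit 4) (nat_lit 338) (nat_lit 281) (nat_lit 281)))))) (XT.nd (nat_lit 624) (nat_lit 0) (nat_lit 0) (XT.nd (nat_lit 312) (nat_lit 0) (nat_lit 0) (XT.nd (nat_lit 156) (nat_lit 0) (nat_lit 0) (XT.nd (nat_lit 78) (nat_lit 0) (nat_lit 0) (XT.lf (nat_lit 0) (nat_lit 52898062876) (nat_lit 152) (nat_lit 76567726255) (nat_lit 0) (nat_lit 52807651999) (nat_lit 1) (nat_lit 5) (nat_lit 3) (nat_lit 4) (nat_lit 1) (nat_lit 4) (nat_lit 339) (nat_lit 281) (nat_lit 280)) (XT.lf (nat_lit 0) (nat_lit 67011726466) (nat_lit 152) (nat_lit 75257086943) (nat_lit 0) (nat_lit 66842697435) (nat_lit 1) (nat_lit 5) (nat_lit 3) (nat_lit 4) (nat_lit 1) (nat_lit 4) (nat_lit 340) (nat_lit 281) (nat_lit 279))) (XT.nd (nat_lit 78) (nat_lit 0) (nat_lit 0) (XT.lf (nat_lit 0) (nat_lit 82735038250) (nat_lit 152) (nat_lit 74783224492) (nat_lit 0) (nat_lit 82497645606) (nat_lit 1) (nat_lit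 5) (nat_lit 3) (nat_lit 4) (nat_lit 1) (nat_lit 4) (nat_lit 341) (nat_lit 281) (nat_lit 278)) (XT.lf (nat_lit 0) (nat_lit 100375628239) (nat_lit 152) (nat_lit 75136867680) (nat_lit 0) (nat_lit 100078788976) (nat_lit 1) (nat_lit 5) (nat_lit 3) (nat_lit 4) (nat_lit 1) (nat_lit 4) (nat_lit 342) (nat_lit 281) (nat_lit 277)))) (XT.nd (nat_lit 156) (nat_lit 0) (nat_lit 0) (XT.nd (nat_lit 78) (nat_lit 0) (nat_lit 0) (XT.lf (nat_lit 0) (nat_lit 120278638411) (nat_lit 152) (nat_lit 76324935612) (nat_lit 0) (nat_lit 119930106436) (nat_lit 1) (nat_lit 5) (nat_lit 3) (nat_lit 4) (nat_lit 1) (nat_lit 4) (nat_lit 343) (nat_lit 281) (nat_lit 276)) (XT.lf (nat_lit 0) (nat_lit 142833475489) (nat_lit 152) (nat_lit 78370673097) (nat_lit 0) (nat_lit 142439993329) (nat_lit 1) (nat_lit 5) (nat_lit 3) (nat_lit 4) (nat_lit 1) (nat_lit 4) (nat_lit 344) (nat_lit 281) (nat_lit 275))) (XT.nd (nat_lit 78) (nat_lit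 0) (nat_lit 0) (XT.lf (nat_lit 0) (nat_lit 168481429761) (nat_lit 152) (nat_lit 81314105432) (nat_lit 0) (nat_lit 168048860484) (nat_lit 1) (nat_lit 5) (nat_lit 3) (nat_lit 4) (nat_lit 1) (nat_lit 4) (nat_lit 345) (nat_lit 281) (nat_lit 274)) (XT.lf (nat_lit 0) (nat_lit 197724309029) (nat_lit 152) (nat_lit 85212821512) (nat_lit 0) (nat_lit 197257750955) (nat_lit 1) (nat_lit 5) (nat_lit 3) (nat_lit 4) (nat_lit 1) (nat_lit 4) (nat_lit 346) (nat_lit 281) (nat_lit 273))))) (XT.nd (nat_lit 312) (nat_lit 0) (nat_lit 0) (XT.nd (nat_lit 156) (nat_lit 0) (nat_lit 0) (XT.nd (nat_lit 78) (nat_lit 0) (nat_lit 0) (XT.lf (nat_lit 0) (nat_lit 231134256584) (nat_lit 152) (nat_lit 90143100564) (nat_lit 0) (nat_lit 230638143033) (nat_lit 1) (nat_lit 5) (nat_lit 3) (nat_lit 4) (nat_lit 1) (nat_lit 4) (nat_lit 347) (nat_lit 281) (nat_lit 272)) (XT.lf (nat_lit 0) (nat_lit 269364945312) (nat_lit 152) (nat_lit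 96201404569) (nat_lit 0) (nat_lit 268843131347) (nat_lit 1) (nat_lit 5) (nat_lit 3) (nat_lit 4) (nat_lit 1) (nat_lit 4) (nat_lit 348) (nat_lit 281) (nat_lit 271))) (XT.nd (nat_lit 78) (nat_lit 0) (nat_lit 0) (XT.lf (nat_lit 0) (nat_lit 313164366948) (nat_lit 152) (nat_lit 103506265562) (nat_lit 0) (nat_lit 312620204798) (nat_lit 1) (nat_lit 5) (nat_lit 3) (nat_lit 4) (nat_lit 1) (nat_lit 4) (nat_lit 349) (nat_lit 281) (nat_lit 270)) (XT.lf (nat_lit 0) (nat_lit 363389466700) (nat_lit 152) (nat_lit 112200604737) (nat_lit 0) (nat_lit 362825871344) (nat_lit 1) (nat_lit 5) (nat_lit 3) (nat_lit 4) (nat_lit 1) (nat_lit 4) (nat_lit 350) (nat_lit 281) (nat_lit 269)))) (XT.nd (nat_lit 156) (nat_lit 0) (nat_lit 0) (XT.nd (nat_lit 78) (nat_lit 0) (nat_lit 0) (XT.lf (nat_lit 0) (nat_lit 421022909562) (nat_lit 152) (nat_lit 122454528729) (nat_lit 0) (nat_lit 420442415767) (nat_lit 1) (nat_lit 5) (nat_lit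 3) (nat_lit 4) (nat_lit 1) (nat_lit 4) (nat_lit 351) (nat_lit 281) (nat_lit 268)) (XT.lf (nat_lit 0) (nat_lit 487192306373) (nat_lit 152) (nat_lit 134468657791) (nat_lit 0) (nat_lit 486597118282) (nat_lit 1) (nat_lit 5) (nat_lit 3) (nat_lit 4) (nat_lit 1) (nat_lit 4) (nat_lit 352) (nat_lit 281) (nat_lit 267))) (XT.nd (nat_lit 78) (nat_lit 0) (nat_lit 0) (XT.lf (nat_lit 0) (nat_lit 563192275765) (nat_lit 152) (nat_lit 148478050970) (nat_lit 0) (nat_lit 562584310027) (nat_lit 1) (nat_lit 5) (nat_lit 3) (nat_lit 4) (nat_lit 1) (nat_lit 4) (nat_lit 353) (nat_lit 281) (nat_lit 266)) (XT.lf (nat_lit 0) (nat_lit 650509773663) (nat_lit 152) (nat_lit 164756805088) (nat_lit 0) (nat_lit 649890696926) (nat_lit 1) (nat_lit 5) (nat_lit 3) (nat_lit 4) (nat_lit 1) (nat_lit 4) (nat_lit 354) (nat_lit 281) (nat_lit 265))))))))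
noncomputable def xc6 : XT := (XT.nd (nat_lit 46098) (nat_lit 0) (nat_lit 0) (XT.nd (nat_lit 1170) (nat_lit 0) (nat_lit 0) (XT.nd (nat_lit 546) (nat_lit 0) (nat_lit 0) (XT.nd (nat_lit 234) (nat_lit 0) (nat_lit 0) (XT.nd (nat_lit 78) (nat_lit 0) (nat_lit 0) (XT.lf (nat_lit 0) (nat_lit 750853185894) (nat_lit 152) (nat_lit 183623417508) (nat_lit 0) (nat_lit 750224447419) (nat_lit 1) (nat_lit 5) (nat_lit 3) (nat_lit 4) (nat_lit 1) (nat_lit 4) (nat_lit 355) (nat_lit 281) (nat_lit 264)) (XT.nd (nat_lit 78) (nat_lit 0) (nat_lit 0) (XT.lf (nat_lit 0) (nat_lit 866185753132) (nat_lit 152) (nat_lit 205447017605) (nat_lit 0) (nat_lit 865548613147) (nat_lit 1) (nat_lit 5) (nat_lit 3) (nat_lit 4) (nat_lit 1) (nat_lit 4) (nat_lit 356) (nat_lit 281) (nat_lit 263)) (XT.lf (nat_lit 0) (nat_lit 998763982128) (nat_lit 152) (nat_lit 230654588859) (nat_lit 0) (nat_lit 998119536481) (nat_lit 1) (nat_lit 5) (nat_lit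 3) (nat_lit 4) (nat_lit 1) (nat_lit 4) (nat_lit 357) (nat_lit 281) (nat_lit 262)))) (XT.nd (nat_lit 156) (nat_lit 0) (nat_lit 0) (XT.nd (nat_lit 78) (nat_lit 0) (nat_lit 0) (XT.lf (nat_lit 0) (nat_lit 1151181794753) (nat_lit 152) (nat_lit 259739322880) (nat_lit 0) (nat_lit 1150530996357) (nat_lit 1) (nat_lit 5) (nat_lit 3) (nat_lit 4) (nat_lit 1) (nat_lit 4) (nat_lit 358) (nat_lit 281) (nat_lit 261)) (XT.lf (nat_lit 0) (nat_lit 1326421278646) (nat_lit 152) (nat_lit 293270268812) (nat_lit 0) (nat_lit 1325764956120) (nat_lit 1) (nat_lit 5) (nat_lit 3) (nat_lit 4) (nat_lit 1) (nat_lit 4) (nat_lit 359) (nat_lit 281) (nat_lit 260))) (XT.nd (nat_lit 78) (nat_lit 0) (nat_lit 0) (XT.lf (nat_lit 0) (nat_lit 1527911032405) (nat_lit 152) (nat_lit 331903466903) (nat_lit 0) (nat_lit 1527249906288) (nat_lit 1) (nat_lit 5) (nat_lit 3) (nat_lit 4) (nat_lit 1) (nat_lit 4) (nat_lit 360) (nat_lit 281) (nat_lit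 259)) (XT.lf (nat_lit 0) (nat_lit 1759593246863) (nat_lit 152) (nat_lit 376394784072) (nat_lit 0) (nat_lit 1758927943710) (nat_lit 1) (nat_lit 5) (nat_lit 3) (nat_lit 4) (nat_lit 1) (nat_lit 4) (nat_lit 361) (nat_lit 281) (nat_lit 258))))) (XT.nd (nat_lit 312) (nat_lit 0) (nat_lit 0) (XT.nd (nat_lit 156) (nat_lit 0) (nat_lit 0) (XT.nd (nat_lit 78) (nat_lit 0) (nat_lit 0) (XT.lf (nat_lit 0) (nat_lit 2026000834914) (nat_lit 152) (nat_lit 427614702610) (nat_lit 0) (nat_lit 2025331899556) (nat_lit 1) (nat_lit 5) (nat_lit 3) (nat_lit 4) (nat_lit 1) (nat_lit 4) (nat_lit 362) (nat_lit 281) (nat_lit 257)) (XT.lf (nat_lit 0) (nat_lit 2332346118930) (nat_lit 152) (nat_lit 486565351359) (nat_lit 0) (nat_lit 2331674025133) (nat_lit 1) (nat_lit 5) (nat_lit 3) (nat_lit 4) (nat_lit 1) (nat_lit 4) (nat_lit 363) (nat_lit 281) (nat_lit 256))) (XT.nd (nat_lit 78) (nat_lit 0) (nat_lit 0) (XT.lf (nat_lit 0)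 (nat_lit 2684622810992) (nat_lit 152) (nat_lit 554400112577) (nat_lit 0) (nat_lit 2683947970726) (nat_lit 1) (nat_lit 5) (nat_lit 3) (nat_lit 4) (nat_lit 1) (nat_lit 4) (nat_lit 364) (nat_lit 281) (nat_lit 255)) (XT.lf (nat_lit 0) (nat_lit 3089723281161) (nat_lit 152) (nat_lit 632446188114) (nat_lit 0) (nat_lit 3089046052661) (nat_lit 1) (nat_lit 5) (nat_lit 3) (nat_lit 4) (nat_lit 1) (nat_lit 4) (nat_lit 365) (nat_lit 281) (nat_lit 254)))) (XT.nd (nat_lit 156) (nat_lit 0) (nat_lit 0) (XT.nd (nat_lit 78) (nat_lit 0) (nat_lit 0) (XT.lf (nat_lit 0) (nat_lit 3555573408201) (nat_lit 152) (nat_lit 722230566404) (nat_lit 0) (nat_lit 3554894102977) (nat_lit 1) (nat_lit 5) (nat_lit 3) (nat_lit 4) (nat_lit 1) (nat_lit 4) (nat_lit 366) (nat_lit 281) (nat_lit 253)) (XT.lf (nat_lit 0) (nat_lit 4091287651120) (nat_lit 152) (nat_lit 825509898327) (nat_lit 0) (nat_lit 4090606540048) (nat_lit 1) (nat_lit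 5) (nat_lit 3) (nat_lit 4) (nat_lit 1) (nat_lit 4) (nat_lit 367) (nat_lit 281) (nat_lit 252))) (XT.nd (nat_lit 78) (nat_lit 0) (nat_lit 0) (XT.lf (nat_lit 0) (nat_lit 4707347375540) (nat_lit 152) (nat_lit 944304866463) (nat_lit 0) (nat_lit 4706664694165) (nat_lit 1) (nat_lit 5) (nat_lit 3) (nat_lit 4) (nat_lit 1) (nat_lit 4) (nat_lit 368) (nat_lit 281) (nat_lit 251)) (XT.lf (nat_lit 0) (nat_lit 5415805923896) (nat_lit 152) (nat_lit 1080939720191) (nat_lit 0) (nat_lit 5415121877040) (nat_lit 1) (nat_lit 5) (nat_lit 3) (nat_lit 4) (nat_lit 1) (nat_lit 4) (nat_lit 369) (nat_lit 281) (nat_lit 250)))))) (XT.nd (nat_lit 44304) (nat_lit 0) (nat_lit 0) (XT.nd (nat_lit 234) (nat_lit 0) (nat_lit 0) (XT.nd (nat_lit 78) (nat_lit 0) (nat_lit 0) (XT.lf (nat_lit 0) (nat_lit 6230524441697) (nat_lit 152) (nat_lit 1238087750125) (nat_lit 0) (nat_lit 6229839207468) (nat_lit 1) (nat_lit 5) (nat_lit 3) (nat_lit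 4) (nat_lit 1) (nat_lit 4) (nat_lit 370) (nat_lit 281) (nat_lit 249)) (XT.nd (nat_lit 78) (nat_lit 0) (nat_lit 0) (XT.lf (nat_lit 0) (nat_lit 7167443073859) (nat_lit 152) (nat_lit 1418823591634) (nat_lit 0) (nat_lit 7166756807130) (nat_lit 1) (nat_lit 5) (nat_lit 3) (nat_lit 4) (nat_lit 1) (nat_lit 4) (nat_lit 371) (nat_lit 281) (nat_lit 248)) (XT.lf (nat_lit 0) (nat_lit 8244892837097) (nat_lit 152) (nat_lit 1626683380748) (nat_lit 0) (nat_lit 8244205672543) (nat_lit 1) (nat_lit 5) (nat_lit 3) (nat_lit 4) (nat_lit 1) (nat_lit 4) (nat_lit 372) (nat_lit 281) (nat_lit 247)))) (XT.nd (nat_lit 156) (nat_lit 0) (nat_lit 0) (XT.nd (nat_lit 78) (nat_lit 0) (nat_lit 0) (XT.lf (nat_lit 0) (nat_lit 9483954270258) (nat_lit 152) (nat_lit 1865733939428) (nat_lit 0) (nat_lit 9483266324985) (nat_lit 1) (nat_lit 5) (nat_lit 3) (nat_lit 4) (nat_lit 1) (nat_lit 4) (nat_lit 373) (nat_lit 281) (nat_lit 246))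 (XT.lf (nat_lit 0) (nat_lit 10908869879641) (nat_lit 152) (nat_lit 2140652343822) (nat_lit 0) (nat_lit 10908181255484) (nat_lit 1) (nat_lit 5) (nat_lit 3) (nat_lit 4) (nat_lit 1) (nat_lit 4) (nat_lit 374) (nat_lit 281) (nat_lit 245))) (XT.nd (nat_lit 43836) (nat_lit 0) (nat_lit 0) (XT.lf (nat_lit 0) (nat_lit 12547518448910) (nat_lit 152) (nat_lit 2456817432276) (nat_lit 0) (nat_lit 12546829234418) (nat_lit 1) (nat_lit 5) (nat_lit 3) (nat_lit 4) (nat_lit 1) (nat_lit 4) (nat_lit 375) (nat_lit 281) (nat_lit 244)) (XT.lf (nat_lit 0) (nat_lit 9021026117) (nat_lit 152) (nat_lit 42565471358) (nat_lit 0) (nat_lit 9021026117) (nat_lit 1) (nat_lit 5) (nat_lit 3) (nat_lit 4) (nat_lit 1) (nat_lit 4) (nat_lit 336) (nat_lit 282) (nat_lit 282))))) (XT.nd (nat_lit 312) (nat_lit 0) (nat_lit 0) (XT.nd (nat_lit 156) (nat_lit 0) (nat_lit 0) (XT.nd (nat_lit 78) (nat_lit 0) (nat_lit 0) (XT.lf (nat_lit 0) (nat_lit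 28525195633) (nat_lit 152) (nat_lit 81818780664) (nat_lit 0) (nat_lit 28421223125) (nat_lit 1) (nat_lit 5) (nat_lit 3) (nat_lit 4) (nat_lit 1) (nat_lit 4) (nat_lit 337) (nat_lit 282) (nat_lit 281)) (XT.lf (nat_lit 0) (nat_lit 39909772262) (nat_lit 152) (nat_lit 79376429776) (nat_lit 0) (nat_lit 39715388876) (nat_lit 1) (nat_lit 5) (nat_lit 3) (nat_lit 4) (nat_lit 1) (nat_lit 4) (nat_lit 338) (nat_lit 282) (nat_lit 280))) (XT.nd (nat_lit 78) (nat_lit 0) (nat_lit 0) (XT.lf (nat_lit 0) (nat_lit 52418523836) (nat_lit 152) (nat_lit 77756104926) (nat_lit 0) (nat_lit 52145522296) (nat_lit 1) (nat_lit 5) (nat_lit 3) (nat_lit 4) (nat_lit 1) (nat_lit 4) (nat_lit 339) (nat_lit 282) (nat_lit 279)) (XT.lf (nat_lit 0) (nat_lit 66296186801) (nat_lit 152) (nat_lit 76926104106) (nat_lit 0) (nat_lit 65954821649) (nat_lit 1) (nat_lit 5) (nat_lit 3) (nat_lit 4) (nat_lit 1) (nat_lit 4) (nat_lit 340) (nat_lit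 282) (nat_lit 278)))) (XT.nd (nat_lit 156) (nat_lit 0) (nat_lit 0) (XT.nd (nat_lit 78) (nat_lit 0) (nat_lit 0) (XT.lf (nat_lit 0) (nat_lit 81814280649) (nat_lit 152) (nat_lit 76870188170) (nat_lit 0) (nat_lit 81413468877) (nat_lit 1) (nat_lit 5) (nat_lit 3) (nat_lit 4) (nat_lit 1) (nat_lit 4) (nat_lit 341) (nat_lit 282) (nat_lit 277)) (XT.lf (nat_lit 0) (nat_lit 99276420259) (nat_lit 152) (nat_lit 77587263109) (nat_lit 0) (nat_lit 98823915775) (nat_lit 1) (nat_lit 5) (nat_lit 3) (nat_lit 4) (nat_lit 1) (nat_lit 4) (nat_lit 342) (nat_lit 282) (nat_lit 276))) (XT.nd (nat_lit 78) (nat_lit 0) (nat_lit 0) (XT.lf (nat_lit 0) (nat_lit 119024256189) (nat_lit 152) (nat_lit 79091358652) (nat_lit 0) (nat_lit 118526801520) (nat_lit 1) (nat_lit 5) (nat_lit 3) (nat_lit 4) (nat_lit 1) (nat_lit 4) (nat_lit 343) (nat_lit 282) (nat_lit 275)) (XT.lf (nat_lit 0) (nat_lit 141444159142) (nat_lit 152) (nat_lit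 81411902755) (nat_lit 0) (nat_lit 140907617356) (nat_lit 1) (nat_lit 5) (nat_lit 3) (nat_lit 4) (nat_lit 1) (nat_lit 4) (nat_lit 344) (nat_lit 282) (nat_lit 274))))))) (XT.nd (nat_lit 1170) (nat_lit 0) (nat_lit 0) (XT.nd (nat_lit 546) (nat_lit 0) (nat_lit 0) (XT.nd (nat_lit 234) (nat_lit 0) (nat_lit 0) (XT.nd (nat_lit 78) (nat_lit 0) (nat_lit 0) (XT.lf (nat_lit 0) (nat_lit 166974779394) (nat_lit 152) (nat_lit 84594297366) (nat_lit 0) (nat_lit 166404248810) (nat_lit 1) (nat_lit 5) (nat_lit 3) (nat_lit 4) (nat_lit 1) (nat_lit 4) (nat_lit 345) (nat_lit 282) (nat_lit 273)) (XT.nd (nat_lit 78) (nat_lit 0) (nat_lit 0) (XT.lf (nat_lit 0) (nat_lit 196115629079) (nat_lit 152) (nat_lit 88700806730) (nat_lit 0) (nat_lit 195515543019) (nat_lit 1) (nat_lit 5) (nat_lit 3) (nat_lit 4) (nat_lit 1) (nat_lit 4) (nat_lit 346) (nat_lit 282) (nat_lit 272)) (XT.lf (nat_lit 0) (nat_lit 229436855257) (nat_lit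 152) (nat_lit 93811775593) (nat_lit 0) (nat_lit 228811068783) (nat_lit 1) (nat_lit 5) (nat_lit 3) (nat_lit 4) (nat_lit 1) (nat_lit 4) (nat_lit 347) (nat_lit 282) (nat_lit 271)))) (XT.nd (nat_lit 156) (nat_lit 0) (nat_lit 0) (XT.nd (nat_lit 78) (nat_lit 0) (nat_lit 0) (XT.lf (nat_lit 0) (nat_lit 267590394961) (nat_lit 152) (nat_lit 100027201174) (nat_lit 0) (nat_lit 266942260302) (nat_lit 1) (nat_lit 5) (nat_lit 3) (nat_lit 4) (nat_lit 1) (nat_lit 4) (nat_lit 348) (nat_lit 282) (nat_lit 270)) (XT.lf (nat_lit 0) (nat_lit 311322730491) (nat_lit 152) (nat_lit 107468689624) (nat_lit 0) (nat_lit 310655162626) (nat_lit 1) (nat_lit 5) (nat_lit 3) (nat_lit 4) (nat_lit 1) (nat_lit 4) (nat_lit 349) (nat_lit 282) (nat_lit 269))) (XT.nd (nat_lit 78) (nat_lit 0) (nat_lit 0) (XT.lf (nat_lit 0) (nat_lit 361489494497) (nat_lit 152) (nat_lit 116281835283) (nat_lit 0) (nat_lit 360805028193) (nat_lit 1) (nat_lit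 5) (nat_lit 3) (nat_lit 4) (nat_lit 1) (nat_lit 4) (nat_lit 350) (nat_lit 282) (nat_lit 268)) (XT.lf (nat_lit 0) (nat_lit 419072210624) (nat_lit 152) (nat_lit 126639069262) (nat_lit 0) (nat_lit 418373050024) (nat_lit 1) (nat_lit 5) (nat_lit 3) (nat_lit 4) (nat_lit 1) (nat_lit 4) (nat_lit 351) (nat_lit 282) (nat_lit 267))))) (XT.nd (nat_lit 312) (nat_lit 0) (nat_lit 0) (XT.nd (nat_lit 156) (nat_lit 0) (nat_lit 0) (XT.nd (nat_lit 78) (nat_lit 0) (nat_lit 0) (XT.lf (nat_lit 0) (nat_lit 485197497230) (nat_lit 152) (nat_lit 138743033095) (nat_lit 0) (nat_lit 484485558983) (nat_lit 1) (nat_lit 5) (nat_lit 3) (nat_lit 4) (nat_lit 1) (nat_lit 4) (nat_lit 352) (nat_lit 282) (nat_lit 266)) (XT.lf (nat_lit 0) (nat_lit 561159109923) (nat_lit 152) (nat_lit 152830543465) (nat_lit 0) (nat_lit 560436060677) (nat_lit 1) (nat_lit 5) (nat_lit 3) (nat_lit 4) (nat_lit 1) (nat_lit 4) (nat_lit 353) (nat_lit 282)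 (nat_lit 265))) (XT.nd (nat_lit 78) (nat_lit 0) (nat_lit 0) (XT.lf (nat_lit 0) (nat_lit 648443254169) (nat_lit 152) (nat_lit 169177225576) (nat_lit 0) (nat_lit 647710543186) (nat_lit 1) (nat_lit 5) (nat_lit 3) (nat_lit 4) (nat_lit 1) (nat_lit 4) (nat_lit 354) (nat_lit 282) (nat_lit 264)) (XT.lf (nat_lit 0) (nat_lit 748757663224) (nat_lit 152) (nat_lit 188102905817) (nat_lit 0) (nat_lit 748016550730) (nat_lit 1) (nat_lit 5) (nat_lit 3) (nat_lit 4) (nat_lit 1) (nat_lit 4) (nat_lit 355) (nat_lit 282) (nat_lit 263)))) (XT.nd (nat_lit 156) (nat_lit 0) (nat_lit 0) (XT.nd (nat_lit 78) (nat_lit 0) (nat_lit 0) (XT.lf (nat_lit 0) (nat_lit 864065010310) (nat_lit 152) (nat_lit 209977869236) (nat_lit 0) (nat_lit 863316592154) (nat_lit 1) (nat_lit 5) (nat_lit 3) (nat_lit 4) (nat_lit 1) (nat_lit 4) (nat_lit 356) (nat_lit 282) (nat_lit 262)) (XT.lf (nat_lit 0) (nat_lit 996621308738) (nat_lit 152) (nat_lit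 235230104247) (nat_lit 0) (nat_lit 995866537833) (nat_lit 1) (nat_lit 5) (nat_lit 3) (nat_lit 4) (nat_lit 1) (nat_lit 4) (nat_lit 357) (nat_lit 282) (nat_lit 261))) (XT.nd (nat_lit 78) (nat_lit 0) (nat_lit 0) (XT.lf (nat_lit 0) (nat_lit 1149020051305) (nat_lit 152) (nat_lit 264353676319) (nat_lit 0) (nat_lit 1148259756270) (nat_lit 1) (nat_lit 5) (nat_lit 3) (nat_lit 4) (nat_lit 1) (nat_lit 4) (nat_lit 358) (nat_lit 282) (nat_lit 260)) (XT.lf (nat_lit 0) (nat_lit 1324242952538) (nat_lit 152) (nat_lit 297918394469) (nat_lit 0) (nat_lit 1323477853912) (nat_lit 1) (nat_lit 5) (nat_lit 3) (nat_lit 4) (nat_lit 1) (nat_lit 4) (nat_lit 359) (nat_lit 282) (nat_lit 259)))))) (XT.nd (nat_lit 624) (nat_lit 0) (nat_lit 0) (XT.nd (nat_lit 312) (nat_lit 0) (nat_lit 0) (XT.nd (nat_lit 156) (nat_lit 0) (nat_lit 0) (XT.nd (nat_lit 78) (nat_lit 0) (nat_lit 0) (XT.lf (nat_lit 0) (nat_lit 1525718286593) (nat_lit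 152) (nat_lit 336580959706) (nat_lit 0) (nat_lit 1524949010931) (nat_lit 1) (nat_lit 5) (nat_lit 3) (nat_lit 4) (nat_lit 1) (nat_lit 4) (nat_lit 360) (nat_lit 282) (nat_lit 258)) (XT.lf (nat_lit 0) (nat_lit 1757387962178) (nat_lit 152) (nat_lit 381097813523) (nat_lit 0) (nat_lit 1756615054312) (nat_lit 1) (nat_lit 5) (nat_lit 3) (nat_lit 4) (nat_lit 1) (nat_lit 4) (nat_lit 361) (nat_lit 282) (nat_lit 257))) (XT.nd (nat_lit 78) (nat_lit 0) (nat_lit 0) (XT.lf (nat_lit 0) (nat_lit 2023784646861) (nat_lit 152) (nat_lit 432339937843) (nat_lit 0) (nat_lit 2023008580555) (nat_lit 1) (nat_lit 5) (nat_lit 3) (nat_lit 4) (nat_lit 1) (nat_lit 4) (nat_lit 362) (nat_lit 282) (nat_lit 256)) (XT.lf (nat_lit 0) (nat_lit 2330120449688) (nat_lit 152) (nat_lit 491309895967) (nat_lit 0) (nat_lit 2329341636913) (nat_lit 1) (nat_lit 5) (nat_lit 3) (nat_lit 4) (nat_lit 1) (nat_lit 4) (nat_lit 363) (nat_lit 282)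 (nat_lit 255)))) (XT.nd (nat_lit 156) (nat_lit 0) (nat_lit 0) (XT.nd (nat_lit 78) (nat_lit 0) (nat_lit 0) (XT.lf (nat_lit 0) (nat_lit 2682388897237) (nat_lit 152) (nat_lit 559161447946) (nat_lit 0) (nat_lit 2681607696229) (nat_lit 1) (nat_lit 5) (nat_lit 3) (nat_lit 4) (nat_lit 1) (nat_lit 4) (nat_lit 364) (nat_lit 282) (nat_lit 254)) (XT.lf (nat_lit 0) (nat_lit 3087482198265) (nat_lit 152) (nat_lit 637222124145) (nat_lit 0) (nat_lit 3086698920531) (nat_lit 1) (nat_lit 5) (nat_lit 3) (nat_lit 4) (nat_lit 1) (nat_lit 4) (nat_lit 365) (nat_lit 282) (nat_lit 253))) (XT.nd (nat_lit 78) (nat_lit 0) (nat_lit 0) (XT.lf (nat_lit 0) (nat_lit 3553326091269) (nat_lit 152) (nat_lit 727019198662) (nat_lit 0) (nat_lit 3552541007688) (nat_lit 1) (nat_lit 5) (nat_lit 3) (nat_lit 4) (nat_lit 1) (nat_lit 4) (nat_lit 366) (nat_lit 282) (nat_lit 252)) (XT.lf (nat_lit 0) (nat_lit 4089034913287) (nat_lit 152)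 (nat_lit 830309570783) (nat_lit 0) (nat_lit 4088248259403) (nat_lit 1) (nat_lit 5) (nat_lit 3) (nat_lit 4) (nat_lit 1) (nat_lit 4) (nat_lit 367) (nat_lit 282) (nat_lit 251))))) (XT.nd (nat_lit 312) (nat_lit 0) (nat_lit 0) (XT.nd (nat_lit 156) (nat_lit 0) (nat_lit 0) (XT.nd (nat_lit 78) (nat_lit 0) (nat_lit 0) (XT.lf (nat_lit 0) (nat_lit 4705089923880) (nat_lit 152) (nat_lit 949114139092) (nat_lit 0) (nat_lit 4704301904516) (nat_lit 1) (nat_lit 5) (nat_lit 3) (nat_lit 4) (nat_lit 1) (nat_lit 4) (nat_lit 368) (nat_lit 282) (nat_lit 250)) (XT.lf (nat_lit 0) (nat_lit 5413544373255) (nat_lit 152) (nat_lit 1085757340795) (nat_lit 0) (nat_lit 5412755166517) (nat_lit 1) (nat_lit 5) (nat_lit 3) (nat_lit 4) (nat_lit 1) (nat_lit 4) (nat_lit 369) (nat_lit 282) (nat_lit 249))) (XT.nd (nat_lit 78) (nat_lit 0) (nat_lit 0) (XT.lf (nat_lit 0) (nat_lit 6228259326727) (nat_lit 152) (nat_lit 1242912629838)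 (nat_lit 0) (nat_lit 6227469087489) (nat_lit 1) (nat_lit 5) (nat_lit 3) (nat_lit 4) (nat_lit 1) (nat_lit 4) (nat_lit 370) (nat_lit 282) (nat_lit 248)) (XT.lf (nat_lit 0) (nat_lit 7165174859471) (nat_lit 152) (nat_lit 1423654783617) (nat_lit 0) (nat_lit 7164383722408) (nat_lit 1) (nat_lit 5) (nat_lit 3) (nat_lit 4) (nat_lit 1) (nat_lit 4) (nat_lit 371) (nat_lit 282) (nat_lit 247)))) (XT.nd (nat_lit 156) (nat_lit 0) (nat_lit 0) (XT.nd (nat_lit 78) (nat_lit 0) (nat_lit 0) (XT.lf (nat_lit 0) (nat_lit 8242621927563) (nat_lit 152) (nat_lit 1631520061660) (nat_lit 0) (nat_lit 8241830009782) (nat_lit 1) (nat_lit 5) (nat_lit 3) (nat_lit 4) (nat_lit 1) (nat_lit 4) (nat_lit 372) (nat_lit 282) (nat_lit 246)) (XT.lf (nat_lit 0) (nat_lit 9481681017119) (nat_lit 152) (nat_lit 1870575393322) (nat_lit 0) (nat_lit 9480888420452) (nat_lit 1) (nat_lit 5) (nat_lit 3) (nat_lit 4) (nat_lit 1) (nat_lit 4) (nat_lit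 373) (nat_lit 282) (nat_lit 245))) (XT.nd (nat_lit 78) (nat_lit 0) (nat_lit 0) (XT.lf (nat_lit 0) (nat_lit 10906594588585) (nat_lit 152) (nat_lit 2145497948135) (nat_lit 0) (nat_lit 10905801401584) (nat_lit 1) (nat_lit 5) (nat_lit 3) (nat_lit 4) (nat_lit 1) (nat_lit 4) (nat_lit 374) (nat_lit 282) (nat_lit 244)) (XT.lf (nat_lit 0) (nat_lit 12545241385751) (nat_lit 152) (nat_lit 2461666645649) (nat_lit 0) (nat_lit 12544447685416) (nat_lit 1) (nat_lit 5) (nat_lit 3) (nat_lit 4) (nat_lit 1) (nat_lit 4) (nat_lit 375) (nat_lit 282) (nat_lit 243))))))))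
noncomputable def xc7 : XT := (XT.nd (nat_lit 2418) (nat_lit 0) (nat_lit 0) (XT.nd (nat_lit 1170) (nat_lit 0) (nat_lit 0) (XT.nd (nat_lit 546) (nat_lit 0) (nat_lit 0) (XT.nd (nat_lit 234) (nat_lit 0) (nat_lit 0) (XT.nd (nat_lit 78) (nat_lit 152) (nat_lit 0) (XT.lf (nat_lit 0) (nat_lit 45922575463) (nat_lit 76) (nat_lit 240939834) (nat_lit 76) (nat_lit 240939834) (nat_lit 3) (nat_lit 4) (nat_lit 4) (nat_lit 5) (nat_lit 4) (nat_lit 4) (nat_lit 334) (nat_lit 283) (nat_lit 283)) (XT.nd (nat_lit 78) (nat_lit 0) (nat_lit 0) (XT.lf (nat_lit 0) (nat_lit 8374805471) (nat_lit 152) (nat_lit 89377719103) (nat_lit 0) (nat_lit 8255237086) (nat_lit 1) (nat_lit 5) (nat_lit 3) (nat_lit 4) (nat_lit 1) (nat_lit 4) (nat_lit 335) (nat_lit 283) (nat_lit 282)) (XT.lf (nat_lit 0) (nat_lit 17802693167) (nat_lit 152) (nat_lit 85861933782) (nat_lit 0) (nat_lit 17579152274) (nat_lit 1) (nat_lit 5) (nat_lit 3) (nat_lit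 4) (nat_lit 1) (nat_lit 4) (nat_lit 336) (nat_lit 283) (nat_lit 281)))) (XT.nd (nat_lit 156) (nat_lit 0) (nat_lit 0) (XT.nd (nat_lit 78) (nat_lit 0) (nat_lit 0) (XT.lf (nat_lit 0) (nat_lit 27973725738) (nat_lit 152) (nat_lit 83185416136) (nat_lit 0) (nat_lit 27659773967) (nat_lit 1) (nat_lit 5) (nat_lit 3) (nat_lit 4) (nat_lit 1) (nat_lit 4) (nat_lit 337) (nat_lit 283) (nat_lit 280)) (XT.lf (nat_lit 0) (nat_lit 39086901647) (nat_lit 152) (nat_lit 81295799514) (nat_lit 0) (nat_lit 38694331722) (nat_lit 1) (nat_lit 5) (nat_lit 3) (nat_lit 4) (nat_lit 1) (nat_lit 4) (nat_lit 338) (nat_lit 283) (nat_lit 279))) (XT.nd (nat_lit 78) (nat_lit 0) (nat_lit 0) (XT.lf (nat_lit 0) (nat_lit 51359652595) (nat_lit 152) (nat_lit 80156113155) (nat_lit 0) (nat_lit 50898719058) (nat_lit 1) (nat_lit 5) (nat_lit 3) (nat_lit 4) (nat_lit 1) (nat_lit 4) (nat_lit 339) (nat_lit 283) (nat_lit 278)) (XT.lf (nat_lit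 0) (nat_lit 65032097624) (nat_lit 152) (nat_lit 79744058850) (nat_lit 0) (nat_lit 64511717468) (nat_lit 1) (nat_lit 5) (nat_lit 3) (nat_lit 4) (nat_lit 1) (nat_lit 4) (nat_lit 340) (nat_lit 283) (nat_lit 277))))) (XT.nd (nat_lit 312) (nat_lit 0) (nat_lit 0) (XT.nd (nat_lit 156) (nat_lit 0) (nat_lit 0) (XT.nd (nat_lit 78) (nat_lit 0) (nat_lit 0) (XT.lf (nat_lit 0) (nat_lit 80371741093) (nat_lit 152) (nat_lit 80051574666) (nat_lit 0) (nat_lit 79799668224) (nat_lit 1) (nat_lit 5) (nat_lit 3) (nat_lit 4) (nat_lit 1) (nat_lit 4) (nat_lit 341) (nat_lit 283) (nat_lit 276)) (XT.lf (nat_lit 0) (nat_lit 97678706460) (nat_lit 152) (nat_lit 81084677216) (nat_lit 0) (nat_lit 97061683407) (nat_lit 1) (nat_lit 5) (nat_lit 3) (nat_lit 4) (nat_lit 1) (nat_lit 4) (nat_lit 342) (nat_lit 283) (nat_lit 275))) (XT.nd (nat_lit 78) (nat_lit 0) (nat_lit 0) (XT.lf (nat_lit 0) (nat_lit 117291608267) (nat_lit 152)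 (nat_lit 82863579376) (nat_lit 0) (nat_lit 116635498096) (nat_lit 1) (nat_lit 5) (nat_lit 3) (nat_lit 4) (nat_lit 1) (nat_lit 4) (nat_lit 343) (nat_lit 283) (nat_lit 274)) (XT.lf (nat_lit 0) (nat_lit 139594177199) (nat_lit 152) (nat_lit 85423085755) (nat_lit 0) (nat_lit 138904078231) (nat_lit 1) (nat_lit 5) (nat_lit 3) (nat_lit 4) (nat_lit 1) (nat_lit 4) (nat_lit 344) (nat_lit 283) (nat_lit 273)))) (XT.nd (nat_lit 156) (nat_lit 0) (nat_lit 0) (XT.nd (nat_lit 78) (nat_lit 0) (nat_lit 0) (XT.lf (nat_lit 0) (nat_lit 165022767867) (nat_lit 152) (nat_lit 88813273650) (nat_lit 0) (nat_lit 164303113423) (nat_lit 1) (nat_lit 5) (nat_lit 3) (nat_lit 4) (nat_lit 1) (nat_lit 4) (nat_lit 345) (nat_lit 283) (nat_lit 272)) (XT.lf (nat_lit 0) (nat_lit 194074896176) (nat_lit 152) (nat_lit 93100472826) (nat_lit 0) (nat_lit 193329541317) (nat_lit 1) (nat_lit 5) (nat_lit 3) (nat_lit 4) (nat_lit 1) (nat_lit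 4) (nat_lit 346) (nat_lit 283) (nat_lit 271))) (XT.nd (nat_lit 78) (nat_lit 0) (nat_lit 0) (XT.lf (nat_lit 0) (nat_lit 227318973330) (nat_lit 152) (nat_lit 98368563265) (nat_lit 0) (nat_lit 226551270286) (nat_lit 1) (nat_lit 5) (nat_lit 3) (nat_lit 4) (nat_lit 1) (nat_lit 4) (nat_lit 347) (nat_lit 283) (nat_lit 270)) (XT.lf (nat_lit 0) (nat_lit 265405426927) (nat_lit 152) (nat_lit 104720616302) (nat_lit 0) (nat_lit 264618290677) (nat_lit 1) (nat_lit 5) (nat_lit 3) (nat_lit 4) (nat_lit 1) (nat_lit 4) (nat_lit 348) (nat_lit 283) (nat_lit 269)))))) (XT.nd (nat_lit 624) (nat_lit 0) (nat_lit 0) (XT.nd (nat_lit 312) (nat_lit 0) (nat_lit 0) (XT.nd (nat_lit 156) (nat_lit 0) (nat_lit 0) (XT.nd (nat_lit 78) (nat_lit 0) (nat_lit 0) (XT.lf (nat_lit 0) (nat_lit 309079426711) (nat_lit 152) (nat_lit 112280911237) (nat_lit 0) (nat_lit 308275392022) (nat_lit 1) (nat_lit 5) (nat_lit 3) (nat_lit 4) (nat_lit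 1) (nat_lit 4) (nat_lit 349) (nat_lit 283) (nat_lit 268)) (XT.lf (nat_lit 0) (nat_lit 359195463983) (nat_lit 152) (nat_lit 121197366882) (nat_lit 0) (nat_lit 358376734998) (nat_lit 1) (nat_lit 5) (nat_lit 3) (nat_lit 4) (nat_lit 1) (nat_lit 4) (nat_lit 350) (nat_lit 283) (nat_lit 267))) (XT.nd (nat_lit 78) (nat_lit 0) (nat_lit 0) (XT.lf (nat_lit 0) (nat_lit 416734069905) (nat_lit 152) (nat_lit 131644435632) (nat_lit 0) (nat_lit 415902563273) (nat_lit 1) (nat_lit 5) (nat_lit 3) (nat_lit 4) (nat_lit 1) (nat_lit 4) (nat_lit 351) (nat_lit 283) (nat_lit 266)) (XT.lf (nat_lit 0) (nat_lit 482820999811) (nat_lit 152) (nat_lit 143826516657) (nat_lit 0) (nat_lit 481978382181) (nat_lit 1) (nat_lit 5) (nat_lit 3) (nat_lit 4) (nat_lit 1) (nat_lit 4) (nat_lit 352) (nat_lit 283) (nat_lit 265)))) (XT.nd (nat_lit 156) (nat_lit 0) (nat_lit 0) (XT.nd (nat_lit 78) (nat_lit 0) (nat_lit 0) (XT.lf (nat_lit 0)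 (nat_lit 558749258853) (nat_lit 152) (nat_lit 157981955020) (nat_lit 0) (nat_lit 557896979485) (nat_lit 1) (nat_lit 5) (nat_lit 3) (nat_lit 4) (nat_lit 1) (nat_lit 4) (nat_lit 353) (nat_lit 283) (nat_lit 264)) (XT.lf (nat_lit 0) (nat_lit 646004399923) (nat_lit 152) (nat_lit 174387704951) (nat_lit 0) (nat_lit 645143719044) (nat_lit 1) (nat_lit 5) (nat_lit 3) (nat_lit 4) (nat_lit 1) (nat_lit 4) (nat_lit 354) (nat_lit 283) (nat_lit 263))) (XT.nd (nat_lit 78) (nat_lit 0) (nat_lit 0) (XT.lf (nat_lit 0) (nat_lit 746293588826) (nat_lit 152) (nat_lit 193364748514) (nat_lit 0) (nat_lit 745425602285) (nat_lit 1) (nat_lit 5) (nat_lit 3) (nat_lit 4) (nat_lit 1) (nat_lit 4) (nat_lit 355) (nat_lit 283) (nat_lit 262)) (XT.lf (nat_lit 0) (nat_lit 861579005344) (nat_lit 152) (nat_lit 215284375691) (nat_lit 0) (nat_lit 860704666054) (nat_lit 1) (nat_lit 5) (nat_lit 3) (nat_lit 4) (nat_lit 1) (nat_lit 4)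 (nat_lit 356) (nat_lit 283) (nat_lit 261))))) (XT.nd (nat_lit 312) (nat_lit 0) (nat_lit 0) (XT.nd (nat_lit 156) (nat_lit 0) (nat_lit 0) (XT.nd (nat_lit 78) (nat_lit 0) (nat_lit 0) (XT.lf (nat_lit 0) (nat_lit 994116233714) (nat_lit 152) (nat_lit 240575448753) (nat_lit 0) (nat_lit 993236370294) (nat_lit 1) (nat_lit 5) (nat_lit 3) (nat_lit 4) (nat_lit 1) (nat_lit 4) (nat_lit 357) (nat_lit 283) (nat_lit 260)) (XT.lf (nat_lit 0) (nat_lit 1146498393621) (nat_lit 152) (nat_lit 269732793042) (nat_lit 0) (nat_lit 1145613726610) (nat_lit 1) (nat_lit 5) (nat_lit 3) (nat_lit 4) (nat_lit 1) (nat_lit 4) (nat_lit 358) (nat_lit 283) (nat_lit 259))) (XT.nd (nat_lit 78) (nat_lit 0) (nat_lit 0) (XT.lf (nat_lit 0) (nat_lit 1321706875150) (nat_lit 152) (nat_lit 303326878338) (nat_lit 0) (nat_lit 1320818031104) (nat_lit 1) (nat_lit 5) (nat_lit 3) (nat_lit 4) (nat_lit 1) (nat_lit 4) (nat_lit 359) (nat_lit 283)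 (nat_lit 258)) (XT.lf (nat_lit 0) (nat_lit 1523169670332) (nat_lit 152) (nat_lit 342014980224) (nat_lit 0) (nat_lit 1522277194080) (nat_lit 1) (nat_lit 5) (nat_lit 3) (nat_lit 4) (nat_lit 1) (nat_lit 4) (nat_lit 360) (nat_lit 283) (nat_lit 257)))) (XT.nd (nat_lit 156) (nat_lit 0) (nat_lit 0) (XT.nd (nat_lit 78) (nat_lit 0) (nat_lit 0) (XT.lf (nat_lit 0) (nat_lit 1754828442549) (nat_lit 152) (nat_lit 386554039823) (nat_lit 0) (nat_lit 1753932807858) (nat_lit 1) (nat_lit 5) (nat_lit 3) (nat_lit 4) (nat_lit 1) (nat_lit 4) (nat_lit 361) (nat_lit 283) (nat_lit 256)) (XT.lf (nat_lit 0) (nat_lit 2021215646042) (nat_lit 152) (nat_lit 437815473517) (nat_lit 0) (nat_lit 2020317264882) (nat_lit 1) (nat_lit 5) (nat_lit 3) (nat_lit 4) (nat_lit 1) (nat_lit 4) (nat_lit 362) (nat_lit 283) (nat_lit 255))) (XT.nd (nat_lit 78) (nat_lit 0) (nat_lit 0) (XT.lf (nat_lit 0) (nat_lit 2327543204357) (nat_lit 152)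 (nat_lit 496802222402) (nat_lit 0) (nat_lit 2326642434963) (nat_lit 1) (nat_lit 5) (nat_lit 3) (nat_lit 4) (nat_lit 1) (nat_lit 4) (nat_lit 363) (nat_lit 283) (nat_lit 254)) (XT.lf (nat_lit 0) (nat_lit 2679804482764) (nat_lit 152) (nat_lit 564668375043) (nat_lit 0) (nat_lit 2678901636646) (nat_lit 1) (nat_lit 5) (nat_lit 3) (nat_lit 4) (nat_lit 1) (nat_lit 4) (nat_lit 364) (nat_lit 283) (nat_lit 253))))))) (XT.nd (nat_lit 44616) (nat_lit 0) (nat_lit 0) (XT.nd (nat_lit 546) (nat_lit 0) (nat_lit 0) (XT.nd (nat_lit 234) (nat_lit 0) (nat_lit 0) (XT.nd (nat_lit 78) (nat_lit 0) (nat_lit 0) (XT.lf (nat_lit 0) (nat_lit 3084891549756) (nat_lit 152) (nat_lit 642741747469) (nat_lit 0) (nat_lit 3083986897790) (nat_lit 1) (nat_lit 5) (nat_lit 3) (nat_lit 4) (nat_lit 1) (nat_lit 4) (nat_lit 365) (nat_lit 283) (nat_lit 252)) (XT.nd (nat_lit 78) (nat_lit 0) (nat_lit 0) (XT.lf (nat_lit 0) (nat_lit 3550730021859)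 (nat_lit 152) (nat_lit 732549862185) (nat_lit 0) (nat_lit 3549823799591) (nat_lit 1) (nat_lit 5) (nat_lit 3) (nat_lit 4) (nat_lit 1) (nat_lit 4) (nat_lit 366) (nat_lit 283) (nat_lit 251)) (XT.lf (nat_lit 0) (nat_lit 4086434130051) (nat_lit 152) (nat_lit 835849834477) (nat_lit 0) (nat_lit 4085526542302) (nat_lit 1) (nat_lit 5) (nat_lit 3) (nat_lit 4) (nat_lit 1) (nat_lit 4) (nat_lit 367) (nat_lit 283) (nat_lit 250)))) (XT.nd (nat_lit 156) (nat_lit 0) (nat_lit 0) (XT.nd (nat_lit 78) (nat_lit 0) (nat_lit 0) (XT.lf (nat_lit 0) (nat_lit 4702485041664) (nat_lit 152) (nat_lit 954662750762) (nat_lit 0) (nat_lit 4701576266540) (nat_lit 1) (nat_lit 5) (nat_lit 3) (nat_lit 4) (nat_lit 1) (nat_lit 4) (nat_lit 368) (nat_lit 283) (nat_lit 249)) (XT.lf (nat_lit 0) (nat_lit 5410935926709) (nat_lit 152) (nat_lit 1091313211574) (nat_lit 0) (nat_lit 5410026119086) (nat_lit 1) (nat_lit 5) (nat_lit 3) (nat_lit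 4) (nat_lit 1) (nat_lit 4) (nat_lit 369) (nat_lit 283) (nat_lit 248))) (XT.nd (nat_lit 78) (nat_lit 0) (nat_lit 0) (XT.lf (nat_lit 0) (nat_lit 6225647780763) (nat_lit 152) (nat_lit 1248474812887) (nat_lit 0) (nat_lit 6224737075314) (nat_lit 1) (nat_lit 5) (nat_lit 3) (nat_lit 4) (nat_lit 1) (nat_lit 4) (nat_lit 370) (nat_lit 283) (nat_lit 247)) (XT.lf (nat_lit 0) (nat_lit 7162560618361) (nat_lit 152) (nat_lit 1429222455595) (nat_lit 0) (nat_lit 7161649132195) (nat_lit 1) (nat_lit 5) (nat_lit 3) (nat_lit 4) (nat_lit 1) (nat_lit 4) (nat_lit 371) (nat_lit 283) (nat_lit 246))))) (XT.nd (nat_lit 43758) (nat_lit 0) (nat_lit 0) (XT.nd (nat_lit 156) (nat_lit 0) (nat_lit 0) (XT.nd (nat_lit 78) (nat_lit 0) (nat_lit 0) (XT.lf (nat_lit 0) (nat_lit 8240005342848) (nat_lit 152) (nat_lit 1637092506621) (nat_lit 0) (nat_lit 8239093177797) (nat_lit 1) (nat_lit 5) (nat_lit 3) (nat_lit 4) (nat_lit 1) (nat_lit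 4) (nat_lit 372) (nat_lit 283) (nat_lit 245)) (XT.lf (nat_lit 0) (nat_lit 9479062394486) (nat_lit 152) (nat_lit 1876151988702) (nat_lit 0) (nat_lit 9478149639100) (nat_lit 1) (nat_lit 5) (nat_lit 3) (nat_lit 4) (nat_lit 1) (nat_lit 4) (nat_lit 373) (nat_lit 283) (nat_lit 244))) (XT.nd (nat_lit 78) (nat_lit 0) (nat_lit 0) (XT.lf (nat_lit 0) (nat_lit 10903974193850) (nat_lit 152) (nat_lit 2151078152575) (nat_lit 0) (nat_lit 10903060925130) (nat_lit 1) (nat_lit 5) (nat_lit 3) (nat_lit 4) (nat_lit 1) (nat_lit 4) (nat_lit 374) (nat_lit 283) (nat_lit 243)) (XT.lf (nat_lit 0) (nat_lit 12542619450059) (nat_lit 152) (nat_lit 2467249988403) (nat_lit 0) (nat_lit 12541705734960) (nat_lit 1) (nat_lit 5) (nat_lit 3) (nat_lit 4) (nat_lit 1) (nat_lit 4) (nat_lit 375) (nat_lit 283) (nat_lit 242)))) (XT.nd (nat_lit 156) (nat_lit 152) (nat_lit 0) (XT.nd (nat_lit 78) (nat_lit 0) (nat_lit 0) (XT.lf (nat_lit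 0) (nat_lit 19480078569) (nat_lit 76) (nat_lit 8105044816) (nat_lit 76) (nat_lit 8105044816) (nat_lit 3) (nat_lit 4) (nat_lit 4) (nat_lit 5) (nat_lit 4) (nat_lit 4) (nat_lit 332) (nat_lit 284) (nat_lit 284)) (XT.lf (nat_lit 0) (nat_lit 63962875061) (nat_lit 76) (nat_lit 8758377611) (nat_lit 76) (nat_lit 8609873677) (nat_lit 3) (nat_lit 4) (nat_lit 4) (nat_lit 5) (nat_lit 4) (nat_lit 4) (nat_lit 333) (nat_lit 284) (nat_lit 283))) (XT.nd (nat_lit 78) (nat_lit 152) (nat_lit 0) (XT.lf (nat_lit 0) (nat_lit 91087890281) (nat_lit 76) (nat_lit 1014274746) (nat_lit 76) (nat_lit 736636956) (nat_lit 3) (nat_lit 4) (nat_lit 4) (nat_lit 5) (nat_lit 4) (nat_lit 4) (nat_lit 334) (nat_lit 284) (nat_lit 282)) (XT.lf (nat_lit 0) (nat_lit 7740615092) (nat_lit 152) (nat_lit 90949349895) (nat_lit 0) (nat_lit 7379570555) (nat_lit 1) (nat_lit 5) (nat_lit 3) (nat_lit 4) (nat_lit 1) (nat_lit 4) (nat_lit 335) (nat_lit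 284) (nat_lit 281)))))) (XT.nd (nat_lit 624) (nat_lit 0) (nat_lit 0) (XT.nd (nat_lit 312) (nat_lit 0) (nat_lit 0) (XT.nd (nat_lit 156) (nat_lit 0) (nat_lit 0) (XT.nd (nat_lit 78) (nat_lit 0) (nat_lit 0) (XT.lf (nat_lit 0) (nat_lit 16856391960) (nat_lit 152) (nat_lit 88069208981) (nat_lit 0) (nat_lit 16404936546) (nat_lit 1) (nat_lit 5) (nat_lit 3) (nat_lit 4) (nat_lit 1) (nat_lit 4) (nat_lit 336) (nat_lit 284) (nat_lit 280)) (XT.lf (nat_lit 0) (nat_lit 26756023811) (nat_lit 152) (nat_lit 85945425600) (nat_lit 0) (nat_lit 26225950243) (nat_lit 1) (nat_lit 5) (nat_lit 3) (nat_lit 4) (nat_lit 1) (nat_lit 4) (nat_lit 337) (nat_lit 284) (nat_lit 279))) (XT.nd (nat_lit 78) (nat_lit 0) (nat_lit 0) (XT.lf (nat_lit 0) (nat_lit 37633199093) (nat_lit 152) (nat_lit 84536447469) (nat_lit 0) (nat_lit 37034761913) (nat_lit 1) (nat_lit 5) (nat_lit 3) (nat_lit 4) (nat_lit 1) (nat_lit 4) (nat_lit 338) (nat_lit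 284) (nat_lit 278)) (XT.lf (nat_lit 0) (nat_lit 49700732106) (nat_lit 152) (nat_lit 83814707626) (nat_lit 0) (nat_lit 49042848307) (nat_lit 1) (nat_lit 5) (nat_lit 3) (nat_lit 4) (nat_lit 1) (nat_lit 4) (nat_lit 339) (nat_lit 284) (nat_lit 277)))) (XT.nd (nat_lit 156) (nat_lit 0) (nat_lit 0) (XT.nd (nat_lit 78) (nat_lit 0) (nat_lit 0) (XT.lf (nat_lit 0) (nat_lit 63194726756) (nat_lit 152) (nat_lit 83766085072) (nat_lit 0) (nat_lit 62485150244) (nat_lit 1) (nat_lit 5) (nat_lit 3) (nat_lit 4) (nat_lit 1) (nat_lit 4) (nat_lit 340) (nat_lit 284) (nat_lit 276)) (XT.lf (nat_lit 0) (nat_lit 78379195982) (nat_lit 152) (nat_lit 84389628498) (nat_lit 0) (nat_lit 77624669286) (nat_lit 1) (nat_lit 5) (nat_lit 3) (nat_lit 4) (nat_lit 1) (nat_lit 4) (nat_lit 341) (nat_lit 284) (nat_lit 275))) (XT.nd (nat_lit 78) (nat_lit 0) (nat_lit 0) (XT.lf (nat_lit 0) (nat_lit 95551227226) (nat_lit 152) (nat_lit 85697537666)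 (nat_lit 0) (nat_lit 94757613412) (nat_lit 1) (nat_lit 5) (nat_lit 3) (nat_lit 4) (nat_lit 1) (nat_lit 4) (nat_lit 342) (nat_lit 284) (nat_lit 274)) (XT.lf (nat_lit 0) (nat_lit 115046795011) (nat_lit 152) (nat_lit 87715402103) (nat_lit 0) (nat_lit 114219192400) (nat_lit 1) (nat_lit 5) (nat_lit 3) (nat_lit 4) (nat_lit 1) (nat_lit 4) (nat_lit 343) (nat_lit 284) (nat_lit 273))))) (XT.nd (nat_lit 312) (nat_lit 0) (nat_lit 0) (XT.nd (nat_lit 156) (nat_lit 0) (nat_lit 0) (XT.nd (nat_lit 78) (nat_lit 0) (nat_lit 0) (XT.lf (nat_lit 0) (nat_lit 137247334360) (nat_lit 152) (nat_lit 90482701765) (nat_lit 0) (nat_lit 136390176273) (nat_lit 1) (nat_lit 5) (nat_lit 3) (nat_lit 4) (nat_lit 1) (nat_lit 4) (nat_lit 344) (nat_lit 284) (nat_lit 272)) (XT.lf (nat_lit 0) (nat_lit 162587203652) (nat_lit 152) (nat_lit 94053579473) (nat_lit 0) (nat_lit 161704345151) (nat_lit 1) (nat_lit 5) (nat_lit 3) (nat_lit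 4) (nat_lit 1) (nat_lit 4) (nat_lit 345) (nat_lit 284) (nat_lit 271))) (XT.nd (nat_lit 78) (nat_lit 0) (nat_lit 0) (XT.lf (nat_lit 0) (nat_lit 191562182937) (nat_lit 152) (nat_lit 98497900223) (nat_lit 0) (nat_lit 190656976249) (nat_lit 1) (nat_lit 5) (nat_lit 3) (nat_lit 4) (nat_lit 1) (nat_lit 4) (nat_lit 346) (nat_lit 284) (nat_lit 270)) (XT.lf (nat_lit 0) (nat_lit 224739173984) (nat_lit 152) (nat_lit 103902618120) (nat_lit 0) (nat_lit 223814534091) (nat_lit 1) (nat_lit 5) (nat_lit 3) (nat_lit 4) (nat_lit 1) (nat_lit 4) (nat_lit 347) (nat_lit 284) (nat_lit 269)))) (XT.nd (nat_lit 156) (nat_lit 0) (nat_lit 0) (XT.nd (nat_lit 78) (nat_lit 0) (nat_lit 0) (XT.lf (nat_lit 0) (nat_lit 262767291836) (nat_lit 152) (nat_lit 110373477641) (nat_lit 0) (nat_lit 261825753504) (nat_lit 1) (nat_lit 5) (nat_lit 3) (nat_lit 4) (nat_lit 1) (nat_lit 4) (nat_lit 348) (nat_lit 284) (nat_lit 268)) (XT.lf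 (nat_lit 0) (nat_lit 306390564885) (nat_lit 152) (nat_lit 118037082562) (nat_lit 0) (nat_lit 305434332258) (nat_lit 1) (nat_lit 5) (nat_lit 3) (nat_lit 4) (nat_lit 1) (nat_lit 4) (nat_lit 349) (nat_lit 284) (nat_lit 267))) (XT.nd (nat_lit 78) (nat_lit 0) (nat_lit 0) (XT.lf (nat_lit 0) (nat_lit 356462491951) (nat_lit 152) (nat_lit 127043372979) (nat_lit 0) (nat_lit 355493481676) (nat_lit 1) (nat_lit 5) (nat_lit 3) (nat_lit 4) (nat_lit 1) (nat_lit 4) (nat_lit 350) (nat_lit 284) (nat_lit 266)) (XT.lf (nat_lit 0) (nat_lit 413962741174) (nat_lit 152) (nat_lit 137568558920) (nat_lit 0) (nat_lit 412982619901) (nat_lit 1) (nat_lit 5) (nat_lit 3) (nat_lit 4) (nat_lit 1) (nat_lit 4) (nat_lit 351) (nat_lit 284) (nat_lit 265))))))))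
noncomputable def xc8 : XT := (XT.nd (nat_lit 45630) (nat_lit 0) (nat_lit 0) (XT.nd (nat_lit 1170) (nat_lit 0) (nat_lit 0) (XT.nd (nat_lit 546) (nat_lit 0) (nat_lit 0) (XT.nd (nat_lit 234) (nat_lit 0) (nat_lit 0) (XT.nd (nat_lit 78) (nat_lit 0) (nat_lit 0) (XT.lf (nat_lit 0) (nat_lit 480016317429) (nat_lit 152) (nat_lit 149818567938) (nat_lit 0) (nat_lit 479026534418) (nat_lit 1) (nat_lit 5) (nat_lit 3) (nat_lit 4) (nat_lit 1) (nat_lit 4) (nat_lit 352) (nat_lit 284) (nat_lit 264)) (XT.nd (nat_lit 78) (nat_lit 0) (nat_lit 0) (XT.lf (nat_lit 0) (nat_lit 555915573295) (nat_lit 152) (nat_lit 164033074122) (nat_lit 0) (nat_lit 554917388773) (nat_lit 1) (nat_lit 5) (nat_lit 3) (nat_lit 4) (nat_lit 1) (nat_lit 4) (nat_lit 353) (nat_lit 284) (nat_lit 263)) (XT.lf (nat_lit 0) (nat_lit 643145494213) (nat_lit 152) (nat_lit 180490187375) (nat_lit 0) (nat_lit 642140004029) (nat_lit 1) (nat_lit 5) (nat_lit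 3) (nat_lit 4) (nat_lit 1) (nat_lit 4) (nat_lit 354) (nat_lit 284) (nat_lit 262)))) (XT.nd (nat_lit 156) (nat_lit 0) (nat_lit 0) (XT.nd (nat_lit 78) (nat_lit 0) (nat_lit 0) (XT.lf (nat_lit 0) (nat_lit 743412752548) (nat_lit 152) (nat_lit 199511894695) (nat_lit 0) (nat_lit 742400909615) (nat_lit 1) (nat_lit 5) (nat_lit 3) (nat_lit 4) (nat_lit 1) (nat_lit 4) (nat_lit 355) (nat_lit 284) (nat_lit 261)) (XT.lf (nat_lit 0) (nat_lit 858679099008) (nat_lit 152) (nat_lit 221470359922) (nat_lit 0) (nat_lit 857661731945) (nat_lit 1) (nat_lit 5) (nat_lit 3) (nat_lit 4) (nat_lit 1) (nat_lit 4) (nat_lit 356) (nat_lit 284) (nat_lit 260))) (XT.nd (nat_lit 78) (nat_lit 0) (nat_lit 0) (XT.lf (nat_lit 0) (nat_lit 991199744718) (nat_lit 152) (nat_lit 246795205202) (nat_lit 0) (nat_lit 990177574064) (nat_lit 1) (nat_lit 5) (nat_lit 3) (nat_lit 4) (nat_lit 1) (nat_lit 4) (nat_lit 357) (nat_lit 284) (nat_lit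 259)) (XT.lf (nat_lit 0) (nat_lit 1143567484921) (nat_lit 152) (nat_lit 275981916637) (nat_lit 0) (nat_lit 1142541137231) (nat_lit 1) (nat_lit 5) (nat_lit 3) (nat_lit 4) (nat_lit 1) (nat_lit 4) (nat_lit 358) (nat_lit 284) (nat_lit 258))))) (XT.nd (nat_lit 312) (nat_lit 0) (nat_lit 0) (XT.nd (nat_lit 156) (nat_lit 0) (nat_lit 0) (XT.nd (nat_lit 78) (nat_lit 0) (nat_lit 0) (XT.lf (nat_lit 0) (nat_lit 1318763427577) (nat_lit 152) (nat_lit 309601538583) (nat_lit 0) (nat_lit 1317733447682) (nat_lit 1) (nat_lit 5) (nat_lit 3) (nat_lit 4) (nat_lit 1) (nat_lit 4) (nat_lit 359) (nat_lit 284) (nat_lit 257)) (XT.lf (nat_lit 0) (nat_lit 1520215319390) (nat_lit 152) (nat_lit 348311846250) (nat_lit 0) (nat_lit 1519182181057) (nat_lit 1) (nat_lit 5) (nat_lit 3) (nat_lit 4) (nat_lit 1) (nat_lit 4) (nat_lit 360) (nat_lit 284) (nat_lit 256))) (XT.nd (nat_lit 78) (nat_lit 0) (nat_lit 0) (XT.lf (nat_lit 0)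 (nat_lit 1751864610418) (nat_lit 152) (nat_lit 392870215223) (nat_lit 0) (nat_lit 1750828725616) (nat_lit 1) (nat_lit 5) (nat_lit 3) (nat_lit 4) (nat_lit 1) (nat_lit 4) (nat_lit 361) (nat_lit 284) (nat_lit 255)) (XT.lf (nat_lit 0) (nat_lit 2018243569399) (nat_lit 152) (nat_lit 444148439679) (nat_lit 0) (nat_lit 2017205296362) (nat_lit 1) (nat_lit 5) (nat_lit 3) (nat_lit 4) (nat_lit 1) (nat_lit 4) (nat_lit 362) (nat_lit 284) (nat_lit 254)))) (XT.nd (nat_lit 156) (nat_lit 0) (nat_lit 0) (XT.nd (nat_lit 78) (nat_lit 0) (nat_lit 0) (XT.lf (nat_lit 0) (nat_lit 2324563958572) (nat_lit 152) (nat_lit 503149789226) (nat_lit 0) (nat_lit 2323523608811) (nat_lit 1) (nat_lit 5) (nat_lit 3) (nat_lit 4) (nat_lit 1) (nat_lit 4) (nat_lit 363) (nat_lit 284) (nat_lit 253)) (XT.lf (nat_lit 0) (nat_lit 2676819002944) (nat_lit 152) (nat_lit 571028638094) (nat_lit 0) (nat_lit 2675776847335) (nat_lit 1) (nat_lit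 5) (nat_lit 3) (nat_lit 4) (nat_lit 1) (nat_lit 4) (nat_lit 364) (nat_lit 284) (nat_lit 252))) (XT.nd (nat_lit 78) (nat_lit 0) (nat_lit 0) (XT.lf (nat_lit 0) (nat_lit 3081900649034) (nat_lit 152) (nat_lit 649113050718) (nat_lit 0) (nat_lit 3080856923123) (nat_lit 1) (nat_lit 5) (nat_lit 3) (nat_lit 4) (nat_lit 1) (nat_lit 4) (nat_lit 365) (nat_lit 284) (nat_lit 251)) (XT.lf (nat_lit 0) (nat_lit 3547734407311) (nat_lit 152) (nat_lit 738930765606) (nat_lit 0) (nat_lit 3546689315919) (nat_lit 1) (nat_lit 5) (nat_lit 3) (nat_lit 4) (nat_lit 1) (nat_lit 4) (nat_lit 366) (nat_lit 284) (nat_lit 250)))))) (XT.nd (nat_lit 546) (nat_lit 0) (nat_lit 0) (XT.nd (nat_lit 234) (nat_lit 0) (nat_lit 0) (XT.nd (nat_lit 78) (nat_lit 0) (nat_lit 0) (XT.lf (nat_lit 0) (nat_lit 4083434416522) (nat_lit 152) (nat_lit 842239085874) (nat_lit 0) (nat_lit 4082388137756) (nat_lit 1) (nat_lit 5) (nat_lit 3) (nat_lit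 4) (nat_lit 1) (nat_lit 4) (nat_lit 367) (nat_lit 284) (nat_lit 249)) (XT.nd (nat_lit 78) (nat_lit 0) (nat_lit 0) (XT.lf (nat_lit 0) (nat_lit 4699481763805) (nat_lit 152) (nat_lit 961059261268) (nat_lit 0) (nat_lit 4698434452540) (nat_lit 1) (nat_lit 5) (nat_lit 3) (nat_lit 4) (nat_lit 1) (nat_lit 4) (nat_lit 368) (nat_lit 284) (nat_lit 248)) (XT.lf (nat_lit 0) (nat_lit 5407929549432) (nat_lit 152) (nat_lit 1097716034349) (nat_lit 0) (nat_lit 5406881340341) (nat_lit 1) (nat_lit 5) (nat_lit 3) (nat_lit 4) (nat_lit 1) (nat_lit 4) (nat_lit 369) (nat_lit 284) (nat_lit 247)))) (XT.nd (nat_lit 156) (nat_lit 0) (nat_lit 0) (XT.nd (nat_lit 78) (nat_lit 0) (nat_lit 0) (XT.lf (nat_lit 0) (nat_lit 6222638708340) (nat_lit 152) (nat_lit 1254883124591) (nat_lit 0) (nat_lit 6221589718532) (nat_lit 1) (nat_lit 5) (nat_lit 3) (nat_lit 4) (nat_lit 1) (nat_lit 4) (nat_lit 370) (nat_lit 284) (nat_lit 246))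 (XT.lf (nat_lit 0) (nat_lit 7159549202334) (nat_lit 152) (nat_lit 1435635540282) (nat_lit 0) (nat_lit 7158499533640) (nat_lit 1) (nat_lit 5) (nat_lit 3) (nat_lit 4) (nat_lit 1) (nat_lit 4) (nat_lit 371) (nat_lit 284) (nat_lit 245))) (XT.nd (nat_lit 78) (nat_lit 0) (nat_lit 0) (XT.lf (nat_lit 0) (nat_lit 8236991888904) (nat_lit 152) (nat_lit 1643509741727) (nat_lit 0) (nat_lit 8235941629875) (nat_lit 1) (nat_lit 5) (nat_lit 3) (nat_lit 4) (nat_lit 1) (nat_lit 4) (nat_lit 372) (nat_lit 284) (nat_lit 244)) (XT.lf (nat_lit 0) (nat_lit 9476047168440) (nat_lit 152) (nat_lit 1882572832868) (nat_lit 0) (nat_lit 9474996396076) (nat_lit 1) (nat_lit 5) (nat_lit 3) (nat_lit 4) (nat_lit 1) (nat_lit 4) (nat_lit 373) (nat_lit 284) (nat_lit 243))))) (XT.nd (nat_lit 43602) (nat_lit 0) (nat_lit 0) (XT.nd (nat_lit 43446) (nat_lit 0) (nat_lit 152) (XT.nd (nat_lit 78) (nat_lit 0) (nat_lit 0) (XT.lf (nat_lit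 0) (nat_lit 10900957426845) (nat_lit 152) (nat_lit 2157502135055) (nat_lit 0) (nat_lit 10899906208104) (nat_lit 1) (nat_lit 5) (nat_lit 3) (nat_lit 4) (nat_lit 1) (nat_lit 4) (nat_lit 374) (nat_lit 284) (nat_lit 242)) (XT.lf (nat_lit 0) (nat_lit 12539601343090) (nat_lit 152) (nat_lit 2473676699850) (nat_lit 0) (nat_lit 12538549736194) (nat_lit 1) (nat_lit 5) (nat_lit 3) (nat_lit 4) (nat_lit 1) (nat_lit 4) (nat_lit 375) (nat_lit 284) (nat_lit 241))) (XT.nd (nat_lit 78) (nat_lit 76) (nat_lit 0) (XT.lf (nat_lit 0) (nat_lit 12506381450) (nat_lit 152) (nat_lit 2660736256) (nat_lit 0) (nat_lit 12506381450) (nat_lit 4) (nat_lit 5) (nat_lit 6) (nat_lit 4) (nat_lit 4) (nat_lit 4) (nat_lit 330) (nat_lit 285) (nat_lit 285)) (XT.lf (nat_lit 0) (nat_lit 15590552904) (nat_lit 76) (nat_lit 23685984701) (nat_lit 76) (nat_lit 23515205176) (nat_lit 3) (nat_lit 4) (nat_lit 4) (nat_lit 5) (nat_lit 4) (nat_lit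 4) (nat_lit 331) (nat_lit 285) (nat_lit 284)))) (XT.nd (nat_lit 156) (nat_lit 152) (nat_lit 0) (XT.nd (nat_lit 78) (nat_lit 0) (nat_lit 0) (XT.lf (nat_lit 0) (nat_lit 38089307396) (nat_lit 76) (nat_lit 16822343973) (nat_lit 76) (nat_lit 16503060514) (nat_lit 3) (nat_lit 4) (nat_lit 4) (nat_lit 5) (nat_lit 4) (nat_lit 4) (nat_lit 332) (nat_lit 285) (nat_lit 283)) (XT.lf (nat_lit 0) (nat_lit 62334764671) (nat_lit 76) (nat_lit 9754523095) (nat_lit 76) (nat_lit 9306105781) (nat_lit 3) (nat_lit 4) (nat_lit 4) (nat_lit 5) (nat_lit 4) (nat_lit 4) (nat_lit 333) (nat_lit 285) (nat_lit 282))) (XT.nd (nat_lit 78) (nat_lit 152) (nat_lit 0) (XT.lf (nat_lit 0) (nat_lit 88801292373) (nat_lit 76) (nat_lit 2344238616) (nat_lit 76) (nat_lit 1783530992) (nat_lit 3) (nat_lit 4) (nat_lit 4) (nat_lit 5) (nat_lit 4) (nat_lit 4) (nat_lit 334) (nat_lit 285) (nat_lit 281)) (XT.lf (nat_lit 0) (nat_lit 6340257875)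 (nat_lit 152) (nat_lit 94123360779) (nat_lit 0) (nat_lit 5730673272) (nat_lit 1) (nat_lit 5) (nat_lit 3) (nat_lit 4) (nat_lit 1) (nat_lit 4) (nat_lit 335) (nat_lit 285) (nat_lit 280))))))) (XT.nd (nat_lit 1170) (nat_lit 0) (nat_lit 0) (XT.nd (nat_lit 546) (nat_lit 0) (nat_lit 0) (XT.nd (nat_lit 234) (nat_lit 0) (nat_lit 0) (XT.nd (nat_lit 78) (nat_lit 0) (nat_lit 0) (XT.lf (nat_lit 0) (nat_lit 15184634023) (nat_lit 152) (nat_lit 91795954130) (nat_lit 0) (nat_lit 14496431267) (nat_lit 1) (nat_lit 5) (nat_lit 3) (nat_lit 4) (nat_lit 1) (nat_lit 4) (nat_lit 336) (nat_lit 285) (nat_lit 279)) (XT.nd (nat_lit 78) (nat_lit 0) (nat_lit 0) (XT.lf (nat_lit 0) (nat_lit 24848265248) (nat_lit 152) (nat_lit 90152809241) (nat_lit 0) (nat_lit 24091698879) (nat_lit 1) (nat_lit 5) (nat_lit 3) (nat_lit 4) (nat_lit 1) (nat_lit 4) (nat_lit 337) (nat_lit 285) (nat_lit 278)) (XT.lf (nat_lit 0) (nat_lit 35520222595)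 (nat_lit 152) (nat_lit 89161777625) (nat_lit 0) (nat_lit 34704209606) (nat_lit 1) (nat_lit 5) (nat_lit 3) (nat_lit 4) (nat_lit 1) (nat_lit 4) (nat_lit 338) (nat_lit 285) (nat_lit 277)))) (XT.nd (nat_lit 156) (nat_lit 0) (nat_lit 0) (XT.nd (nat_lit 78) (nat_lit 0) (nat_lit 0) (XT.lf (nat_lit 0) (nat_lit 47409305228) (nat_lit 152) (nat_lit 88803469533) (nat_lit 0) (nat_lit 46541599528) (nat_lit 1) (nat_lit 5) (nat_lit 3) (nat_lit 4) (nat_lit 1) (nat_lit 4) (nat_lit 339) (nat_lit 285) (nat_lit 276)) (XT.lf (nat_lit 0) (nat_lit 60748125636) (nat_lit 152) (nat_lit 89070874590) (nat_lit 0) (nat_lit 59835469750) (nat_lit 1) (nat_lit 5) (nat_lit 3) (nat_lit 4) (nat_lit 1) (nat_lit 4) (nat_lit 340) (nat_lit 285) (nat_lit 275))) (XT.nd (nat_lit 78) (nat_lit 0) (nat_lit 0) (XT.lf (nat_lit 0) (nat_lit 75797660738) (nat_lit 152) (nat_lit 89969224634) (nat_lit 0) (nat_lit 74845917736) (nat_lit 1) (nat_lit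 5) (nat_lit 3) (nat_lit 4) (nat_lit 1) (nat_lit 4) (nat_lit 341) (nat_lit 285) (nat_lit 274)) (XT.lf (nat_lit 0) (nat_lit 92852357961) (nat_lit 152) (nat_lit 91516096078) (nat_lit 0) (nat_lit 91866626161) (nat_lit 1) (nat_lit 5) (nat_lit 3) (nat_lit 4) (nat_lit 1) (nat_lit 4) (nat_lit 342) (nat_lit 285) (nat_lit 273))))) (XT.nd (nat_lit 312) (nat_lit 0) (nat_lit 0) (XT.nd (nat_lit 156) (nat_lit 0) (nat_lit 0) (XT.nd (nat_lit 78) (nat_lit 0) (nat_lit 0) (XT.lf (nat_lit 0) (nat_lit 112245896163) (nat_lit 152) (nat_lit 93741753798) (nat_lit 0) (nat_lit 111230608887) (nat_lit 1) (nat_lit 5) (nat_lit 3) (nat_lit 4) (nat_lit 1) (nat_lit 4) (nat_lit 343) (nat_lit 285) (nat_lit 272)) (XT.lf (nat_lit 0) (nat_lit 134357714136) (nat_lit 152) (nat_lit 96689743273) (nat_lit 0) (nat_lit 133316726445) (nat_lit 1) (nat_lit 5) (nat_lit 3) (nat_lit 4) (nat_lit 1) (nat_lit 4) (nat_lit 344) (nat_lit 285) (nat_lit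 271))) (XT.nd (nat_lit 78) (nat_lit 0) (nat_lit 0) (XT.lf (nat_lit 0) (nat_lit 159620434404) (nat_lit 152) (nat_lit 100417742556) (nat_lit 0) (nat_lit 158557098527) (nat_lit 1) (nat_lit 5) (nat_lit 3) (nat_lit 4) (nat_lit 1) (nat_lit 4) (nat_lit 345) (nat_lit 285) (nat_lit 270)) (XT.lf (nat_lit 0) (nat_lit 188528327582) (nat_lit 152) (nat_lit 104998690763) (nat_lit 0) (nat_lit 187445558500) (nat_lit 1) (nat_lit 5) (nat_lit 3) (nat_lit 4) (nat_lit 1) (nat_lit 4) (nat_lit 346) (nat_lit 285) (nat_lit 269)))) (XT.nd (nat_lit 156) (nat_lit 0) (nat_lit 0) (XT.nd (nat_lit 78) (nat_lit 0) (nat_lit 0) (XT.lf (nat_lit 0) (nat_lit 221646982883) (nat_lit 152) (nat_lit 110522215144) (nat_lit 0) (nat_lit 220547315362) (nat_lit 1) (nat_lit 5) (nat_lit 3) (nat_lit 4) (nat_lit 1) (nat_lit 4) (nat_lit 347) (nat_lit 285) (nat_lit 268)) (XT.lf (nat_lit 0) (nat_lit 259624374000) (nat_lit 152) (nat_lit 117096384652)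 (nat_lit 0) (nat_lit 258510012184) (nat_lit 1) (nat_lit 5) (nat_lit 3) (nat_lit 4) (nat_lit 1) (nat_lit 4) (nat_lit 348) (nat_lit 285) (nat_lit 267))) (XT.nd (nat_lit 78) (nat_lit 0) (nat_lit 0) (XT.lf (nat_lit 0) (nat_lit 303203536845) (nat_lit 152) (nat_lit 124849824344) (nat_lit 0) (nat_lit 302076397380) (nat_lit 1) (nat_lit 5) (nat_lit 3) (nat_lit 4) (nat_lit 1) (nat_lit 4) (nat_lit 349) (nat_lit 285) (nat_lit 266)) (XT.lf (nat_lit 0) (nat_lit 353237107212) (nat_lit 152) (nat_lit 133934231952) (nat_lit 0) (nat_lit 352098856749) (nat_lit 1) (nat_lit 5) (nat_lit 3) (nat_lit 4) (nat_lit 1) (nat_lit 4) (nat_lit 350) (nat_lit 285) (nat_lit 265)))))) (XT.nd (nat_lit 624) (nat_lit 0) (nat_lit 0) (XT.nd (nat_lit 312) (nat_lit 0) (nat_lit 0) (XT.nd (nat_lit 156) (nat_lit 0) (nat_lit 0) (XT.nd (nat_lit 78) (nat_lit 0) (nat_lit 0) (XT.lf (nat_lit 0) (nat_lit 410704002783) (nat_lit 152) (nat_lit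 144527345887) (nat_lit 0) (nat_lit 409556090583) (nat_lit 1) (nat_lit 5) (nat_lit 3) (nat_lit 4) (nat_lit 1) (nat_lit 4) (nat_lit 351) (nat_lit 285) (nat_lit 264)) (XT.lf (nat_lit 0) (nat_lit 476728575862) (nat_lit 152) (nat_lit 156836422725) (nat_lit 0) (nat_lit 475572262151) (nat_lit 1) (nat_lit 5) (nat_lit 3) (nat_lit 4) (nat_lit 1) (nat_lit 4) (nat_lit 352) (nat_lit 285) (nat_lit 263))) (XT.nd (nat_lit 78) (nat_lit 0) (nat_lit 0) (XT.lf (nat_lit 0) (nat_lit 552602611575) (nat_lit 152) (nat_lit 171102292230) (nat_lit 0) (nat_lit 551438992203) (nat_lit 1) (nat_lit 5) (nat_lit 3) (nat_lit 4) (nat_lit 1) (nat_lit 4) (nat_lit 353) (nat_lit 285) (nat_lit 262)) (XT.lf (nat_lit 0) (nat_lit 639810601926) (nat_lit 152) (nat_lit 187604069241) (nat_lit 0) (nat_lit 638640629804) (nat_lit 1) (nat_lit 5) (nat_lit 3) (nat_lit 4) (nat_lit 1) (nat_lit 4) (nat_lit 354) (nat_lit 285) (nat_lit 261)))) (XT.nd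 (nat_lit 156) (nat_lit 0) (nat_lit 0) (XT.nd (nat_lit 78) (nat_lit 0) (nat_lit 0) (XT.lf (nat_lit 0) (nat_lit 740058790202) (nat_lit 152) (nat_lit 206664614612) (nat_lit 0) (nat_lit 738883293951) (nat_lit 1) (nat_lit 5) (nat_lit 3) (nat_lit 4) (nat_lit 1) (nat_lit 4) (nat_lit 355) (nat_lit 285) (nat_lit 260)) (XT.lf (nat_lit 0) (nat_lit 855308554002) (nat_lit 152) (nat_lit 228656852057) (nat_lit 0) (nat_lit 854128254159) (nat_lit 1) (nat_lit 5) (nat_lit 3) (nat_lit 4) (nat_lit 1) (nat_lit 4) (nat_lit 356) (nat_lit 285) (nat_lit 259))) (XT.nd (nat_lit 78) (nat_lit 0) (nat_lit 0) (XT.lf (nat_lit 0) (nat_lit 987814780008) (nat_lit 152) (nat_lit 254011064483) (nat_lit 0) (nat_lit 986630303130) (nat_lit 1) (nat_lit 5) (nat_lit 3) (nat_lit 4) (nat_lit 1) (nat_lit 4) (nat_lit 357) (nat_lit 285) (nat_lit 258)) (XT.lf (nat_lit 0) (nat_lit 1140169981338) (nat_lit 152) (nat_lit 283223312567) (nat_lit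 0) (nat_lit 1138981872255) (nat_lit 1) (nat_lit 5) (nat_lit 3) (nat_lit 4) (nat_lit 1) (nat_lit 4) (nat_lit 358) (nat_lit 285) (nat_lit 257))))) (XT.nd (nat_lit 312) (nat_lit 0) (nat_lit 0) (XT.nd (nat_lit 156) (nat_lit 0) (nat_lit 0) (XT.nd (nat_lit 78) (nat_lit 0) (nat_lit 0) (XT.lf (nat_lit 0) (nat_lit 1315355020626) (nat_lit 152) (nat_lit 316865140293) (nat_lit 0) (nat_lit 1314163753104) (nat_lit 1) (nat_lit 5) (nat_lit 3) (nat_lit 4) (nat_lit 1) (nat_lit 4) (nat_lit 359) (nat_lit 285) (nat_lit 256)) (XT.lf (nat_lit 0) (nat_lit 1516797431250) (nat_lit 152) (nat_lit 355594757335) (nat_lit 0) (nat_lit 1515603417259) (nat_lit 1) (nat_lit 5) (nat_lit 3) (nat_lit 4) (nat_lit 1) (nat_lit 4) (nat_lit 360) (nat_lit 285) (nat_lit 255))) (XT.nd (nat_lit 78) (nat_lit 0) (nat_lit 0) (XT.lf (nat_lit 0) (nat_lit 1748438477766) (nat_lit 152) (nat_lit 400169917070) (nat_lit 0) (nat_lit 1747242075540)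 (nat_lit 1) (nat_lit 5) (nat_lit 3) (nat_lit 4) (nat_lit 1) (nat_lit 4) (nat_lit 361) (nat_lit 285) (nat_lit 254)) (XT.lf (nat_lit 0) (nat_lit 2014810267605) (nat_lit 152) (nat_lit 451462742187) (nat_lit 0) (nat_lit 2013611788654) (nat_lit 1) (nat_lit 5) (nat_lit 3) (nat_lit 4) (nat_lit 1) (nat_lit 4) (nat_lit 362) (nat_lit 285) (nat_lit 253)))) (XT.nd (nat_lit 156) (nat_lit 0) (nat_lit 0) (XT.nd (nat_lit 78) (nat_lit 0) (nat_lit 0) (XT.lf (nat_lit 0) (nat_lit 2321124422742) (nat_lit 152) (nat_lit 510476787962) (nat_lit 0) (nat_lit 2319924137944) (nat_lit 1) (nat_lit 5) (nat_lit 3) (nat_lit 4) (nat_lit 1) (nat_lit 4) (nat_lit 363) (nat_lit 285) (nat_lit 252)) (XT.lf (nat_lit 0) (nat_lit 2673374046213) (nat_lit 152) (nat_lit 578366677028) (nat_lit 0) (nat_lit 2672172191112) (nat_lit 1) (nat_lit 5) (nat_lit 3) (nat_lit 4) (nat_lit 1) (nat_lit 4) (nat_lit 364) (nat_lit 285) (nat_lit 251)))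 (XT.nd (nat_lit 78) (nat_lit 0) (nat_lit 0) (XT.lf (nat_lit 0) (nat_lit 3078450978477) (nat_lit 152) (nat_lit 656460689824) (nat_lit 0) (nat_lit 3077247757896) (nat_lit 1) (nat_lit 5) (nat_lit 3) (nat_lit 4) (nat_lit 1) (nat_lit 4) (nat_lit 365) (nat_lit 285) (nat_lit 250)) (XT.lf (nat_lit 0) (nat_lit 3544280637773) (nat_lit 152) (nat_lit 746286752688) (nat_lit 0) (nat_lit 3543076229818) (nat_lit 1) (nat_lit 5) (nat_lit 3) (nat_lit 4) (nat_lit 1) (nat_lit 4) (nat_lit 366) (nat_lit 285) (nat_lit 249))))))))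
noncomputable def xc9 : XT := (XT.nd (nat_lit 45552) (nat_lit 0) (nat_lit 0) (XT.nd (nat_lit 44304) (nat_lit 0) (nat_lit 0) (XT.nd (nat_lit 546) (nat_lit 0) (nat_lit 0) (XT.nd (nat_lit 234) (nat_lit 0) (nat_lit 0) (XT.nd (nat_lit 78) (nat_lit 0) (nat_lit 0) (XT.lf (nat_lit 0) (nat_lit 4079977082654) (nat_lit 152) (nat_lit 849602332065) (nat_lit 0) (nat_lit 4078771642200) (nat_lit 1) (nat_lit 5) (nat_lit 3) (nat_lit 4) (nat_lit 1) (nat_lit 4) (nat_lit 367) (nat_lit 285) (nat_lit 248)) (XT.nd (nat_lit 78) (nat_lit 0) (nat_lit 0) (XT.lf (nat_lit 0) (nat_lit 4696021330520) (nat_lit 152) (nat_lit 968428819728) (nat_lit 0) (nat_lit 4694814992239) (nat_lit 1) (nat_lit 5) (nat_lit 3) (nat_lit 4) (nat_lit 1) (nat_lit 4) (nat_lit 368) (nat_lit 285) (nat_lit 247)) (XT.lf (nat_lit 0) (nat_lit 5404466421001) (nat_lit 152) (nat_lit 1105091081739) (nat_lit 0) (nat_lit 5403259302003) (nat_lit 1) (nat_lit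 5) (nat_lit 3) (nat_lit 4) (nat_lit 1) (nat_lit 4) (nat_lit 369) (nat_lit 285) (nat_lit 246)))) (XT.nd (nat_lit 156) (nat_lit 0) (nat_lit 0) (XT.nd (nat_lit 78) (nat_lit 0) (nat_lit 0) (XT.lf (nat_lit 0) (nat_lit 6219173236304) (nat_lit 152) (nat_lit 1262262944963) (nat_lit 0) (nat_lit 6217965438421) (nat_lit 1) (nat_lit 5) (nat_lit 3) (nat_lit 4) (nat_lit 1) (nat_lit 4) (nat_lit 370) (nat_lit 285) (nat_lit 245)) (XT.lf (nat_lit 0) (nat_lit 7156081692380) (nat_lit 152) (nat_lit 1443019511073) (nat_lit 0) (nat_lit 7154873304162) (nat_lit 1) (nat_lit 5) (nat_lit 3) (nat_lit 4) (nat_lit 1) (nat_lit 4) (nat_lit 371) (nat_lit 285) (nat_lit 244))) (XT.nd (nat_lit 78) (nat_lit 0) (nat_lit 0) (XT.lf (nat_lit 0) (nat_lit 8233522606848) (nat_lit 152) (nat_lit 1650897321578) (nat_lit 0) (nat_lit 8232313705295) (nat_lit 1) (nat_lit 5) (nat_lit 3) (nat_lit 4) (nat_lit 1) (nat_lit 4) (nat_lit 372) (nat_lit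 285) (nat_lit 243)) (XT.lf (nat_lit 0) (nat_lit 9472576345425) (nat_lit 152) (nat_lit 1889963551033) (nat_lit 0) (nat_lit 9471366997495) (nat_lit 1) (nat_lit 5) (nat_lit 3) (nat_lit 4) (nat_lit 1) (nat_lit 4) (nat_lit 373) (nat_lit 285) (nat_lit 242))))) (XT.nd (nat_lit 43446) (nat_lit 0) (nat_lit 152) (XT.nd (nat_lit 43290) (nat_lit 0) (nat_lit 228) (XT.nd (nat_lit 78) (nat_lit 0) (nat_lit 0) (XT.lf (nat_lit 0) (nat_lit 10897485263867) (nat_lit 152) (nat_lit 2164895582188) (nat_lit 0) (nat_lit 10896275527782) (nat_lit 1) (nat_lit 5) (nat_lit 3) (nat_lit 4) (nat_lit 1) (nat_lit 4) (nat_lit 374) (nat_lit 285) (nat_lit 241)) (XT.lf (nat_lit 0) (nat_lit 12536128014926) (nat_lit 152) (nat_lit 2481072519999) (nat_lit 0) (nat_lit 12534917941314) (nat_lit 1) (nat_lit 5) (nat_lit 3) (nat_lit 4) (nat_lit 1) (nat_lit 4) (nat_lit 375) (nat_lit 285) (nat_lit 240))) (XT.nd (nat_lit 78) (nat_lit 0) (nat_lit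 0) (XT.lf (nat_lit 0) (nat_lit 259284125) (nat_lit 152) (nat_lit 21163576995) (nat_lit 0) (nat_lit 259284125) (nat_lit 4) (nat_lit 5) (nat_lit 6) (nat_lit 4) (nat_lit 4) (nat_lit 4) (nat_lit 328) (nat_lit 286) (nat_lit 286)) (XT.lf (nat_lit 0) (nat_lit 12253796651) (nat_lit 152) (nat_lit 24606331839) (nat_lit 0) (nat_lit 12057400198) (nat_lit 4) (nat_lit 5) (nat_lit 6) (nat_lit 4) (nat_lit 4) (nat_lit 4) (nat_lit 329) (nat_lit 286) (nat_lit 285)))) (XT.nd (nat_lit 156) (nat_lit 0) (nat_lit 0) (XT.nd (nat_lit 78) (nat_lit 76) (nat_lit 0) (XT.lf (nat_lit 0) (nat_lit 24739463737) (nat_lit 152) (nat_lit 6272851771) (nat_lit 0) (nat_lit 24372287760) (nat_lit 4) (nat_lit 5) (nat_lit 6) (nat_lit 4) (nat_lit 4) (nat_lit 4) (nat_lit 330) (nat_lit 286) (nat_lit 284)) (XT.lf (nat_lit 0) (nat_lit 13718225956) (nat_lit 76) (nat_lit 24831552007) (nat_lit 76) (nat_lit 24315872096) (nat_lit 3) (nat_lit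 4) (nat_lit 4) (nat_lit 5) (nat_lit 4) (nat_lit 4) (nat_lit 331) (nat_lit 286) (nat_lit 283))) (XT.nd (nat_lit 78) (nat_lit 0) (nat_lit 0) (XT.lf (nat_lit 0) (nat_lit 35459719801) (nat_lit 76) (nat_lit 18351802423) (nat_lit 76) (nat_lit 17706988656) (nat_lit 3) (nat_lit 4) (nat_lit 4) (nat_lit 5) (nat_lit 4) (nat_lit 4) (nat_lit 332) (nat_lit 286) (nat_lit 282)) (XT.lf (nat_lit 0) (nat_lit 59046689558) (nat_lit 76) (nat_lit 11617799931) (nat_lit 76) (nat_lit 10860695855) (nat_lit 3) (nat_lit 4) (nat_lit 4) (nat_lit 5) (nat_lit 4) (nat_lit 4) (nat_lit 333) (nat_lit 286) (nat_lit 281)))))) (XT.nd (nat_lit 624) (nat_lit 0) (nat_lit 0) (XT.nd (nat_lit 312) (nat_lit 0) (nat_lit 0) (XT.nd (nat_lit 156) (nat_lit 0) (nat_lit 0) (XT.nd (nat_lit 78) (nat_lit 152) (nat_lit 0) (XT.lf (nat_lit 0) (nat_lit 84940619418) (nat_lit 76) (nat_lit 4497792309) (nat_lit 76) (nat_lit 3643044485) (nat_lit 3) (nat_lit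 4) (nat_lit 4) (nat_lit 5) (nat_lit 4) (nat_lit 4) (nat_lit 334) (nat_lit 286) (nat_lit 280)) (XT.lf (nat_lit 0) (nat_lit 4146335528) (nat_lit 152) (nat_lit 98961851966) (nat_lit 0) (nat_lit 3276284203) (nat_lit 1) (nat_lit 5) (nat_lit 3) (nat_lit 4) (nat_lit 1) (nat_lit 4) (nat_lit 335) (nat_lit 286) (nat_lit 279))) (XT.nd (nat_lit 78) (nat_lit 0) (nat_lit 0) (XT.lf (nat_lit 0) (nat_lit 12754711050) (nat_lit 152) (nat_lit 97115083809) (nat_lit 0) (nat_lit 11816296114) (nat_lit 1) (nat_lit 5) (nat_lit 3) (nat_lit 4) (nat_lit 1) (nat_lit 4) (nat_lit 336) (nat_lit 286) (nat_lit 278)) (XT.lf (nat_lit 0) (nat_lit 22213124339) (nat_lit 152) (nat_lit 95889885434) (nat_lit 0) (nat_lit 21215262783) (nat_lit 1) (nat_lit 5) (nat_lit 3) (nat_lit 4) (nat_lit 1) (nat_lit 4) (nat_lit 337) (nat_lit 286) (nat_lit 277)))) (XT.nd (nat_lit 156) (nat_lit 0) (nat_lit 0) (XT.nd (nat_lit 78) (nat_lit 0) (nat_lit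 0) (XT.lf (nat_lit 0) (nat_lit 32706631307) (nat_lit 152) (nat_lit 95262285570) (nat_lit 0) (nat_lit 31657077038) (nat_lit 1) (nat_lit 5) (nat_lit 3) (nat_lit 4) (nat_lit 1) (nat_lit 4) (nat_lit 338) (nat_lit 286) (nat_lit 276)) (XT.lf (nat_lit 0) (nat_lit 44440539698) (nat_lit 152) (nat_lit 95220005089) (nat_lit 0) (nat_lit 43346035245) (nat_lit 1) (nat_lit 5) (nat_lit 3) (nat_lit 4) (nat_lit 1) (nat_lit 4) (nat_lit 339) (nat_lit 286) (nat_lit 275))) (XT.nd (nat_lit 78) (nat_lit 0) (nat_lit 0) (XT.lf (nat_lit 0) (nat_lit 57644425982) (nat_lit 152) (nat_lit 95762216764) (nat_lit 0) (nat_lit 56510834411) (nat_lit 1) (nat_lit 5) (nat_lit 3) (nat_lit 4) (nat_lit 1) (nat_lit 4) (nat_lit 340) (nat_lit 286) (nat_lit 274)) (XT.lf (nat_lit 0) (nat_lit 72576627063) (nat_lit 152) (nat_lit 96899529084) (nat_lit 0) (nat_lit 71409046695) (nat_lit 1) (nat_lit 5) (nat_lit 3) (nat_lit 4) (nat_lit 1) (nat_lit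 4) (nat_lit 341) (nat_lit 286) (nat_lit 273))))) (XT.nd (nat_lit 312) (nat_lit 0) (nat_lit 0) (XT.nd (nat_lit 156) (nat_lit 0) (nat_lit 0) (XT.nd (nat_lit 78) (nat_lit 0) (nat_lit 0) (XT.lf (nat_lit 0) (nat_lit 89529294703) (nat_lit 152) (nat_lit 98654193811) (nat_lit 0) (nat_lit 88332158859) (nat_lit 1) (nat_lit 5) (nat_lit 3) (nat_lit 4) (nat_lit 1) (nat_lit 4) (nat_lit 342) (nat_lit 286) (nat_lit 272)) (XT.lf (nat_lit 0) (nat_lit 108834111528) (nat_lit 152) (nat_lit 101060541344) (nat_lit 0) (nat_lit 107611275270) (nat_lit 1) (nat_lit 5) (nat_lit 3) (nat_lit 4) (nat_lit 1) (nat_lit 4) (nat_lit 343) (nat_lit 286) (nat_lit 271))) (XT.nd (nat_lit 78) (nat_lit 0) (nat_lit 0) (XT.lf (nat_lit 0) (nat_lit 130868780477) (nat_lit 152) (nat_lit 104165652394) (nat_lit 0) (nat_lit 129623596033) (nat_lit 1) (nat_lit 5) (nat_lit 3) (nat_lit 4) (nat_lit 1) (nat_lit 4) (nat_lit 344) (nat_lit 286) (nat_lit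 270)) (XT.lf (nat_lit 0) (nat_lit 156064414638) (nat_lit 152) (nat_lit 108030279134) (nat_lit 0) (nat_lit 154799796989) (nat_lit 1) (nat_lit 5) (nat_lit 3) (nat_lit 4) (nat_lit 1) (nat_lit 4) (nat_lit 345) (nat_lit 286) (nat_lit 269)))) (XT.nd (nat_lit 156) (nat_lit 0) (nat_lit 0) (XT.nd (nat_lit 78) (nat_lit 0) (nat_lit 0) (XT.lf (nat_lit 0) (nat_lit 184913972070) (nat_lit 152) (nat_lit 112730033826) (nat_lit 0) (nat_lit 183632455982) (nat_lit 1) (nat_lit 5) (nat_lit 3) (nat_lit 4) (nat_lit 1) (nat_lit 4) (nat_lit 346) (nat_lit 286) (nat_lit 268)) (XT.lf (nat_lit 0) (nat_lit 217981900637) (nat_lit 152) (nat_lit 118356868193) (nat_lit 0) (nat_lit 216685690253) (nat_lit 1) (nat_lit 5) (nat_lit 3) (nat_lit 4) (nat_lit 1) (nat_lit 4) (nat_lit 347) (nat_lit 286) (nat_lit 267))) (XT.nd (nat_lit 78) (nat_lit 0) (nat_lit 0) (XT.lf (nat_lit 0) (nat_lit 255915181549) (nat_lit 152) (nat_lit 125020872472)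 (nat_lit 0) (nat_lit 254606193518) (nat_lit 1) (nat_lit 5) (nat_lit 3) (nat_lit 4) (nat_lit 1) (nat_lit 4) (nat_lit 348) (nat_lit 286) (nat_lit 266)) (XT.lf (nat_lit 0) (nat_lit 299455987694) (nat_lit 152) (nat_lit 132852429356) (nat_lit 0) (nat_lit 298135888664) (nat_lit 1) (nat_lit 5) (nat_lit 3) (nat_lit 4) (nat_lit 1) (nat_lit 4) (nat_lit 349) (nat_lit 286) (nat_lit 265))))))) (XT.nd (nat_lit 1170) (nat_lit 0) (nat_lit 0) (XT.nd (nat_lit 546) (nat_lit 0) (nat_lit 0) (XT.nd (nat_lit 234) (nat_lit 0) (nat_lit 0) (XT.nd (nat_lit 78) (nat_lit 0) (nat_lit 0) (XT.lf (nat_lit 0) (nat_lit 349456204410) (nat_lit 152) (nat_lit 142004764957) (nat_lit 0) (nat_lit 348126443642) (nat_lit 1) (nat_lit 5) (nat_lit 3) (nat_lit 4) (nat_lit 1) (nat_lit 4) (nat_lit 350) (nat_lit 286) (nat_lit 264)) (XT.nd (nat_lit 78) (nat_lit 0) (nat_lit 0) (XT.lf (nat_lit 0) (nat_lit 406894096805) (nat_lit 152) (nat_lit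 152656946712) (nat_lit 0) (nat_lit 405555934527) (nat_lit 1) (nat_lit 5) (nat_lit 3) (nat_lit 4) (nat_lit 1) (nat_lit 4) (nat_lit 351) (nat_lit 286) (nat_lit 263)) (XT.lf (nat_lit 0) (nat_lit 472893449732) (nat_lit 152) (nat_lit 165017386871) (nat_lit 0) (nat_lit 471547981792) (nat_lit 1) (nat_lit 5) (nat_lit 3) (nat_lit 4) (nat_lit 1) (nat_lit 4) (nat_lit 352) (nat_lit 286) (nat_lit 262)))) (XT.nd (nat_lit 156) (nat_lit 0) (nat_lit 0) (XT.nd (nat_lit 78) (nat_lit 0) (nat_lit 0) (XT.lf (nat_lit 0) (nat_lit 548745554878) (nat_lit 152) (nat_lit 179327920135) (nat_lit 0) (nat_lit 547393734189) (nat_lit 1) (nat_lit 5) (nat_lit 3) (nat_lit 4) (nat_lit 1) (nat_lit 4) (nat_lit 353) (nat_lit 286) (nat_lit 261)) (XT.lf (nat_lit 0) (nat_lit 635934475170) (nat_lit 152) (nat_lit 195868535196) (nat_lit 0) (nat_lit 634577130350) (nat_lit 1) (nat_lit 5) (nat_lit 3) (nat_lit 4) (nat_lit 1) (nat_lit 4)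 (nat_lit 354) (nat_lit 286) (nat_lit 260))) (XT.nd (nat_lit 78) (nat_lit 0) (nat_lit 0) (XT.lf (nat_lit 0) (nat_lit 736166080787) (nat_lit 152) (nat_lit 214962852785) (nat_lit 0) (nat_lit 734803932376) (nat_lit 1) (nat_lit 5) (nat_lit 3) (nat_lit 4) (nat_lit 1) (nat_lit 4) (nat_lit 355) (nat_lit 286) (nat_lit 259)) (XT.lf (nat_lit 0) (nat_lit 851401424882) (nat_lit 152) (nat_lit 236984457376) (nat_lit 0) (nat_lit 850035099436) (nat_lit 1) (nat_lit 5) (nat_lit 3) (nat_lit 4) (nat_lit 1) (nat_lit 4) (nat_lit 356) (nat_lit 286) (nat_lit 258))))) (XT.nd (nat_lit 312) (nat_lit 0) (nat_lit 0) (XT.nd (nat_lit 156) (nat_lit 0) (nat_lit 0) (XT.nd (nat_lit 78) (nat_lit 0) (nat_lit 0) (XT.lf (nat_lit 0) (nat_lit 983895112015) (nat_lit 152) (nat_lit 262364206450) (nat_lit 0) (nat_lit 982525154364) (nat_lit 1) (nat_lit 5) (nat_lit 3) (nat_lit 4) (nat_lit 1) (nat_lit 4) (nat_lit 357) (nat_lit 286) (nat_lit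 257)) (XT.lf (nat_lit 0) (nat_lit 1136239409977) (nat_lit 152) (nat_lit 291598660315) (nat_lit 0) (nat_lit 1134866293887) (nat_lit 1) (nat_lit 5) (nat_lit 3) (nat_lit 4) (nat_lit 1) (nat_lit 4) (nat_lit 358) (nat_lit 286) (nat_lit 256))) (XT.nd (nat_lit 78) (nat_lit 0) (nat_lit 0) (XT.lf (nat_lit 0) (nat_lit 1311414968076) (nat_lit 152) (nat_lit 325259797417) (nat_lit 0) (nat_lit 1310039105517) (nat_lit 1) (nat_lit 5) (nat_lit 3) (nat_lit 4) (nat_lit 1) (nat_lit 4) (nat_lit 359) (nat_lit 286) (nat_lit 255)) (XT.lf (nat_lit 0) (nat_lit 1512849134187) (nat_lit 152) (nat_lit 364006205220) (nat_lit 0) (nat_lit 1511470883394) (nat_lit 1) (nat_lit 5) (nat_lit 3) (nat_lit 4) (nat_lit 1) (nat_lit 4) (nat_lit 360) (nat_lit 286) (nat_lit 254)))) (XT.nd (nat_lit 156) (nat_lit 0) (nat_lit 0) (XT.nd (nat_lit 78) (nat_lit 0) (nat_lit 0) (XT.lf (nat_lit 0) (nat_lit 1744483011561) (nat_lit 152) (nat_lit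 408595965617) (nat_lit 0) (nat_lit 1743102684043) (nat_lit 1) (nat_lit 5) (nat_lit 3) (nat_lit 4) (nat_lit 1) (nat_lit 4) (nat_lit 361) (nat_lit 286) (nat_lit 253)) (XT.lf (nat_lit 0) (nat_lit 2010848567364) (nat_lit 152) (nat_lit 459901486962) (nat_lit 0) (nat_lit 2009466433998) (nat_lit 1) (nat_lit 5) (nat_lit 3) (nat_lit 4) (nat_lit 1) (nat_lit 4) (nat_lit 362) (nat_lit 286) (nat_lit 252))) (XT.nd (nat_lit 78) (nat_lit 0) (nat_lit 0) (XT.lf (nat_lit 0) (nat_lit 2317157301601) (nat_lit 152) (nat_lit 518926572934) (nat_lit 0) (nat_lit 2315773597932) (nat_lit 1) (nat_lit 5) (nat_lit 3) (nat_lit 4) (nat_lit 1) (nat_lit 4) (nat_lit 363) (nat_lit 286) (nat_lit 251)) (XT.lf (nat_lit 0) (nat_lit 2669402211245) (nat_lit 152) (nat_lit 586826062172) (nat_lit 0) (nat_lit 2668017142096) (nat_lit 1) (nat_lit 5) (nat_lit 3) (nat_lit 4) (nat_lit 1) (nat_lit 4) (nat_lit 364) (nat_lit 286) (nat_lit 250))))))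 (XT.nd (nat_lit 624) (nat_lit 0) (nat_lit 0) (XT.nd (nat_lit 312) (nat_lit 0) (nat_lit 0) (XT.nd (nat_lit 156) (nat_lit 0) (nat_lit 0) (XT.nd (nat_lit 78) (nat_lit 0) (nat_lit 0) (XT.lf (nat_lit 0) (nat_lit 3074475044529) (nat_lit 152) (nat_lit 664928422944) (nat_lit 0) (nat_lit 3073088788006) (nat_lit 1) (nat_lit 5) (nat_lit 3) (nat_lit 4) (nat_lit 1) (nat_lit 4) (nat_lit 365) (nat_lit 286) (nat_lit 249)) (XT.lf (nat_lit 0) (nat_lit 3540301139495) (nat_lit 152) (nat_lit 754761744917) (nat_lit 0) (nat_lit 3538913850473) (nat_lit 1) (nat_lit 5) (nat_lit 3) (nat_lit 4) (nat_lit 1) (nat_lit 4) (nat_lit 366) (nat_lit 286) (nat_lit 248))) (XT.nd (nat_lit 78) (nat_lit 0) (nat_lit 0) (XT.lf (nat_lit 0) (nat_lit 4075994484958) (nat_lit 152) (nat_lit 858083636564) (nat_lit 0) (nat_lit 4074606298111) (nat_lit 1) (nat_lit 5) (nat_lit 3) (nat_lit 4) (nat_lit 1) (nat_lit 4) (nat_lit 367) (nat_lit 286)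 (nat_lit 247)) (XT.lf (nat_lit 0) (nat_lit 4692036037678) (nat_lit 152) (nat_lit 976915613156) (nat_lit 0) (nat_lit 4690647070112) (nat_lit 1) (nat_lit 5) (nat_lit 3) (nat_lit 4) (nat_lit 1) (nat_lit 4) (nat_lit 368) (nat_lit 286) (nat_lit 246)))) (XT.nd (nat_lit 156) (nat_lit 0) (nat_lit 0) (XT.nd (nat_lit 78) (nat_lit 0) (nat_lit 0) (XT.lf (nat_lit 0) (nat_lit 5400478784554) (nat_lit 152) (nat_lit 1113582648149) (nat_lit 0) (nat_lit 5399089138104) (nat_lit 1) (nat_lit 5) (nat_lit 3) (nat_lit 4) (nat_lit 1) (nat_lit 4) (nat_lit 369) (nat_lit 286) (nat_lit 245)) (XT.lf (nat_lit 0) (nat_lit 6215183561940) (nat_lit 152) (nat_lit 1270758661793) (nat_lit 0) (nat_lit 6213793325154) (nat_lit 1) (nat_lit 5) (nat_lit 3) (nat_lit 4) (nat_lit 1) (nat_lit 4) (nat_lit 370) (nat_lit 286) (nat_lit 244))) (XT.nd (nat_lit 78) (nat_lit 0) (nat_lit 0) (XT.lf (nat_lit 0) (nat_lit 7152090245914) (nat_lit 152)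 (nat_lit 1451518836963) (nat_lit 0) (nat_lit 7150699495793) (nat_lit 1) (nat_lit 5) (nat_lit 3) (nat_lit 4) (nat_lit 1) (nat_lit 4) (nat_lit 371) (nat_lit 286) (nat_lit 243)) (XT.lf (nat_lit 0) (nat_lit 8229529619423) (nat_lit 152) (nat_lit 1659399785781) (nat_lit 0) (nat_lit 8228138422925) (nat_lit 1) (nat_lit 5) (nat_lit 3) (nat_lit 4) (nat_lit 1) (nat_lit 4) (nat_lit 372) (nat_lit 286) (nat_lit 242))))) (XT.nd (nat_lit 43290) (nat_lit 0) (nat_lit 228) (XT.nd (nat_lit 156) (nat_lit 0) (nat_lit 0) (XT.nd (nat_lit 78) (nat_lit 0) (nat_lit 0) (XT.lf (nat_lit 0) (nat_lit 9468582018037) (nat_lit 152) (nat_lit 1898468744204) (nat_lit 0) (nat_lit 9467190433384) (nat_lit 1) (nat_lit 5) (nat_lit 3) (nat_lit 4) (nat_lit 1) (nat_lit 4) (nat_lit 373) (nat_lit 286) (nat_lit 241)) (XT.lf (nat_lit 0) (nat_lit 10893489771293) (nat_lit 152) (nat_lit 2173403148375) (nat_lit 0) (nat_lit 10892097849114)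 (nat_lit 1) (nat_lit 5) (nat_lit 3) (nat_lit 4) (nat_lit 1) (nat_lit 4) (nat_lit 374) (nat_lit 286) (nat_lit 240))) (XT.nd (nat_lit 43056) (nat_lit 0) (nat_lit 456) (XT.lf (nat_lit 0) (nat_lit 12532131509146) (nat_lit 152) (nat_lit 2489582149678) (nat_lit 0) (nat_lit 12530739293467) (nat_lit 1) (nat_lit 5) (nat_lit 3) (nat_lit 4) (nat_lit 1) (nat_lit 4) (nat_lit 375) (nat_lit 286) (nat_lit 239)) (XT.lf (nat_lit 0) (nat_lit 7139708552) (nat_lit 152) (nat_lit 2899099318) (nat_lit 0) (nat_lit 7139708552) (nat_lit 7) (nat_lit 5) (nat_lit 9) (nat_lit 4) (nat_lit 7) (nat_lit 4) (nat_lit 326) (nat_lit 287) (nat_lit 287)))) (XT.nd (nat_lit 156) (nat_lit 76) (nat_lit 0) (XT.nd (nat_lit 78) (nat_lit 76) (nat_lit 0) (XT.lf (nat_lit 0) (nat_lit 17903730113) (nat_lit 76) (nat_lit 10436936582) (nat_lit 76) (nat_lit 10193012187) (nat_lit 6) (nat_lit 4) (nat_lit 7) (nat_lit 5) (nat_lit 7) (nat_lit 4) (nat_lit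 327) (nat_lit 287) (nat_lit 286)) (XT.lf (nat_lit 0) (nat_lit 210265564) (nat_lit 152) (nat_lit 18680189) (nat_lit 76) (nat_lit 43178111131) (nat_lit 5) (nat_lit 5) (nat_lit 7) (nat_lit 5) (nat_lit 6) (nat_lit 4) (nat_lit 328) (nat_lit 287) (nat_lit 285))) (XT.nd (nat_lit 78) (nat_lit 0) (nat_lit 0) (XT.lf (nat_lit 0) (nat_lit 11469806998) (nat_lit 152) (nat_lit 26651797246) (nat_lit 0) (nat_lit 10876775100) (nat_lit 4) (nat_lit 5) (nat_lit 6) (nat_lit 4) (nat_lit 4) (nat_lit 4) (nat_lit 329) (nat_lit 287) (nat_lit 284)) (XT.lf (nat_lit 0) (nat_lit 23547043113) (nat_lit 152) (nat_lit 9145603490) (nat_lit 0) (nat_lit 22805507281) (nat_lit 4) (nat_lit 5) (nat_lit 6) (nat_lit 4) (nat_lit 4) (nat_lit 4) (nat_lit 330) (nat_lit 287) (nat_lit 283))))))))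
noncomputable def xc10 : XT := (XT.nd (nat_lit 2340) (nat_lit 0) (nat_lit 0) (XT.nd (nat_lit 1170) (nat_lit 0) (nat_lit 0) (XT.nd (nat_lit 546) (nat_lit 0) (nat_lit 0) (XT.nd (nat_lit 234) (nat_lit 152) (nat_lit 0) (XT.nd (nat_lit 78) (nat_lit 0) (nat_lit 0) (XT.lf (nat_lit 0) (nat_lit 9936939577) (nat_lit 76) (nat_lit 26974320369) (nat_lit 76) (nat_lit 26103650681) (nat_lit 3) (nat_lit 4) (nat_lit 4) (nat_lit 5) (nat_lit 4) (nat_lit 4) (nat_lit 331) (nat_lit 287) (nat_lit 282)) (XT.nd (nat_lit 78) (nat_lit 0) (nat_lit 0) (XT.lf (nat_lit 0) (nat_lit 31019945903) (nat_lit 76) (nat_lit 20828389171) (nat_lit 76) (nat_lit 19845429173) (nat_lit 3) (nat_lit 4) (nat_lit 4) (nat_lit 5) (nat_lit 4) (nat_lit 4) (nat_lit 332) (nat_lit 287) (nat_lit 281)) (XT.lf (nat_lit 0) (nat_lit 54034317818) (nat_lit 76) (nat_lit 14384663537) (nat_lit 76) (nat_lit 13304059792) (nat_lit 3) (nat_lit 4) (nat_lit 4)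 (nat_lit 5) (nat_lit 4) (nat_lit 4) (nat_lit 333) (nat_lit 287) (nat_lit 280)))) (XT.nd (nat_lit 156) (nat_lit 0) (nat_lit 0) (XT.nd (nat_lit 78) (nat_lit 152) (nat_lit 0) (XT.lf (nat_lit 0) (nat_lit 79430336511) (nat_lit 76) (nat_lit 7517070574) (nat_lit 76) (nat_lit 6351559222) (nat_lit 3) (nat_lit 4) (nat_lit 4) (nat_lit 5) (nat_lit 4) (nat_lit 4) (nat_lit 334) (nat_lit 287) (nat_lit 279)) (XT.lf (nat_lit 0) (nat_lit 1083441703) (nat_lit 76) (nat_lit 33282217) (nat_lit 152) (nat_lit 105527007809) (nat_lit 1) (nat_lit 5) (nat_lit 2) (nat_lit 5) (nat_lit 3) (nat_lit 4) (nat_lit 335) (nat_lit 287) (nat_lit 278))) (XT.nd (nat_lit 78) (nat_lit 0) (nat_lit 0) (XT.lf (nat_lit 0) (nat_lit 9519081069) (nat_lit 152) (nat_lit 104130667946) (nat_lit 0) (nat_lit 8312093661) (nat_lit 1) (nat_lit 5) (nat_lit 3) (nat_lit 4) (nat_lit 1) (nat_lit 4) (nat_lit 336) (nat_lit 287) (nat_lit 277)) (XT.lf (nat_lit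 0) (nat_lit 18799043979) (nat_lit 152) (nat_lit 103268901324) (nat_lit 0) (nat_lit 17540363858) (nat_lit 1) (nat_lit 5) (nat_lit 3) (nat_lit 4) (nat_lit 1) (nat_lit 4) (nat_lit 337) (nat_lit 287) (nat_lit 276))))) (XT.nd (nat_lit 312) (nat_lit 0) (nat_lit 0) (XT.nd (nat_lit 156) (nat_lit 0) (nat_lit 0) (XT.nd (nat_lit 78) (nat_lit 0) (nat_lit 0) (XT.lf (nat_lit 0) (nat_lit 29137376704) (nat_lit 152) (nat_lit 102957329070) (nat_lit 0) (nat_lit 27833746399) (nat_lit 1) (nat_lit 5) (nat_lit 3) (nat_lit 4) (nat_lit 1) (nat_lit 4) (nat_lit 338) (nat_lit 287) (nat_lit 275)) (XT.lf (nat_lit 0) (nat_lit 40736350972) (nat_lit 152) (nat_lit 103189855207) (nat_lit 0) (nat_lit 39393633549) (nat_lit 1) (nat_lit 5) (nat_lit 3) (nat_lit 4) (nat_lit 1) (nat_lit 4) (nat_lit 339) (nat_lit 287) (nat_lit 274))) (XT.nd (nat_lit 78) (nat_lit 0) (nat_lit 0) (XT.lf (nat_lit 0) (nat_lit 53822903235) (nat_lit 152)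 (nat_lit 103971029157) (nat_lit 0) (nat_lit 52446197014) (nat_lit 1) (nat_lit 5) (nat_lit 3) (nat_lit 4) (nat_lit 1) (nat_lit 4) (nat_lit 340) (nat_lit 287) (nat_lit 273)) (XT.lf (nat_lit 0) (nat_lit 68653074733) (nat_lit 152) (nat_lit 105316134761) (nat_lit 0) (nat_lit 67246813036) (nat_lit 1) (nat_lit 5) (nat_lit 3) (nat_lit 4) (nat_lit 1) (nat_lit 4) (nat_lit 341) (nat_lit 287) (nat_lit 272)))) (XT.nd (nat_lit 156) (nat_lit 0) (nat_lit 0) (XT.nd (nat_lit 78) (nat_lit 0) (nat_lit 0) (XT.lf (nat_lit 0) (nat_lit 85517020995) (nat_lit 152) (nat_lit 107251489301) (nat_lit 0) (nat_lit 84085058885) (nat_lit 1) (nat_lit 5) (nat_lit 3) (nat_lit 4) (nat_lit 1) (nat_lit 4) (nat_lit 342) (nat_lit 287) (nat_lit 271)) (XT.lf (nat_lit 0) (nat_lit 104744688798) (nat_lit 152) (nat_lit 109814958409) (nat_lit 0) (nat_lit 103290378501) (nat_lit 1) (nat_lit 5) (nat_lit 3) (nat_lit 4) (nat_lit 1) (nat_lit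 4) (nat_lit 343) (nat_lit 287) (nat_lit 270))) (XT.nd (nat_lit 78) (nat_lit 0) (nat_lit 0) (XT.lf (nat_lit 0) (nat_lit 126712271639) (nat_lit 152) (nat_lit 113056696915) (nat_lit 0) (nat_lit 125238528137) (nat_lit 1) (nat_lit 5) (nat_lit 3) (nat_lit 4) (nat_lit 1) (nat_lit 4) (nat_lit 344) (nat_lit 287) (nat_lit 269)) (XT.lf (nat_lit 0) (nat_lit 151849570055) (nat_lit 152) (nat_lit 117040130140) (nat_lit 0) (nat_lit 150358928113) (nat_lit 1) (nat_lit 5) (nat_lit 3) (nat_lit 4) (nat_lit 1) (nat_lit 4) (nat_lit 345) (nat_lit 287) (nat_lit 268)))))) (XT.nd (nat_lit 546) (nat_lit 0) (nat_lit 0) (XT.nd (nat_lit 234) (nat_lit 0) (nat_lit 0) (XT.nd (nat_lit 78) (nat_lit 0) (nat_lit 0) (XT.lf (nat_lit 0) (nat_lit 180648400752) (nat_lit 152) (nat_lit 121843194818) (nat_lit 0) (nat_lit 179143064516) (nat_lit 1) (nat_lit 5) (nat_lit 3) (nat_lit 4) (nat_lit 1) (nat_lit 4) (nat_lit 346) (nat_lit 287)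 (nat_lit 267)) (XT.nd (nat_lit 78) (nat_lit 0) (nat_lit 0) (XT.lf (nat_lit 0) (nat_lit 213672219114) (nat_lit 152) (nat_lit 127559863956) (nat_lit 0) (nat_lit 212154105230) (nat_lit 1) (nat_lit 5) (nat_lit 3) (nat_lit 4) (nat_lit 1) (nat_lit 4) (nat_lit 347) (nat_lit 287) (nat_lit 266)) (XT.lf (nat_lit 0) (nat_lit 251567143327) (nat_lit 152) (nat_lit 134301985427) (nat_lit 0) (nat_lit 250037918444) (nat_lit 1) (nat_lit 5) (nat_lit 3) (nat_lit 4) (nat_lit 1) (nat_lit 4) (nat_lit 348) (nat_lit 287) (nat_lit 265)))) (XT.nd (nat_lit 156) (nat_lit 0) (nat_lit 0) (XT.nd (nat_lit 78) (nat_lit 0) (nat_lit 0) (XT.lf (nat_lit 0) (nat_lit 295074595820) (nat_lit 152) (nat_lit 142201470304) (nat_lit 0) (nat_lit 293535709200) (nat_lit 1) (nat_lit 5) (nat_lit 3) (nat_lit 4) (nat_lit 1) (nat_lit 4) (nat_lit 349) (nat_lit 287) (nat_lit 264)) (XT.lf (nat_lit 0) (nat_lit 345045809360) (nat_lit 152) (nat_lit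 151412873725) (nat_lit 0) (nat_lit 343498521229) (nat_lit 1) (nat_lit 5) (nat_lit 3) (nat_lit 4) (nat_lit 1) (nat_lit 4) (nat_lit 350) (nat_lit 287) (nat_lit 263))) (XT.nd (nat_lit 78) (nat_lit 0) (nat_lit 0) (XT.lf (nat_lit 0) (nat_lit 402458481603) (nat_lit 152) (nat_lit 162116418802) (nat_lit 0) (nat_lit 400903887810) (nat_lit 1) (nat_lit 5) (nat_lit 3) (nat_lit 4) (nat_lit 1) (nat_lit 4) (nat_lit 351) (nat_lit 287) (nat_lit 262)) (XT.lf (nat_lit 0) (nat_lit 468435903963) (nat_lit 152) (nat_lit 174521522719) (nat_lit 0) (nat_lit 466874957420) (nat_lit 1) (nat_lit 5) (nat_lit 3) (nat_lit 4) (nat_lit 1) (nat_lit 4) (nat_lit 352) (nat_lit 287) (nat_lit 261))))) (XT.nd (nat_lit 312) (nat_lit 0) (nat_lit 0) (XT.nd (nat_lit 156) (nat_lit 0) (nat_lit 0) (XT.nd (nat_lit 78) (nat_lit 0) (nat_lit 0) (XT.lf (nat_lit 0) (nat_lit 544268939050) (nat_lit 152) (nat_lit 188870894033) (nat_lit 0) (nat_lit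 542702468378) (nat_lit 1) (nat_lit 5) (nat_lit 3) (nat_lit 4) (nat_lit 1) (nat_lit 4) (nat_lit 353) (nat_lit 287) (nat_lit 260)) (XT.lf (nat_lit 0) (nat_lit 631441276682) (nat_lit 152) (nat_lit 205445281312) (nat_lit 0) (nat_lit 629870002419) (nat_lit 1) (nat_lit 5) (nat_lit 3) (nat_lit 4) (nat_lit 1) (nat_lit 4) (nat_lit 354) (nat_lit 287) (nat_lit 259))) (XT.nd (nat_lit 78) (nat_lit 0) (nat_lit 0) (XT.lf (nat_lit 0) (nat_lit 731658462595) (nat_lit 152) (nat_lit 224568966047) (nat_lit 0) (nat_lit 730083011296) (nat_lit 1) (nat_lit 5) (nat_lit 3) (nat_lit 4) (nat_lit 1) (nat_lit 4) (nat_lit 355) (nat_lit 287) (nat_lit 258)) (XT.lf (nat_lit 0) (nat_lit 846881267817) (nat_lit 152) (nat_lit 246616107287) (nat_lit 0) (nat_lit 845302184313) (nat_lit 1) (nat_lit 5) (nat_lit 3) (nat_lit 4) (nat_lit 1) (nat_lit 4) (nat_lit 356) (nat_lit 287) (nat_lit 257)))) (XT.nd (nat_lit 156) (nat_lit 0) (nat_lit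 0) (XT.nd (nat_lit 78) (nat_lit 0) (nat_lit 0) (XT.lf (nat_lit 0) (nat_lit 979364051582) (nat_lit 152) (nat_lit 272018062142) (nat_lit 0) (nat_lit 977781809639) (nat_lit 1) (nat_lit 5) (nat_lit 3) (nat_lit 4) (nat_lit 1) (nat_lit 4) (nat_lit 357) (nat_lit 287) (nat_lit 256)) (XT.lf (nat_lit 0) (nat_lit 1131698868355) (nat_lit 152) (nat_lit 301271825383) (nat_lit 0) (nat_lit 1130113879943) (nat_lit 1) (nat_lit 5) (nat_lit 3) (nat_lit 4) (nat_lit 1) (nat_lit 4) (nat_lit 358) (nat_lit 287) (nat_lit 255))) (XT.nd (nat_lit 78) (nat_lit 0) (nat_lit 0) (XT.lf (nat_lit 0) (nat_lit 1306866181941) (nat_lit 152) (nat_lit 334949753246) (nat_lit 0) (nat_lit 1305278805295) (nat_lit 1) (nat_lit 5) (nat_lit 3) (nat_lit 4) (nat_lit 1) (nat_lit 4) (nat_lit 359) (nat_lit 287) (nat_lit 254)) (XT.lf (nat_lit 0) (nat_lit 1508293178911) (nat_lit 152) (nat_lit 373710761711) (nat_lit 0) (nat_lit 1506703725540)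 (nat_lit 1) (nat_lit 5) (nat_lit 3) (nat_lit 4) (nat_lit 1) (nat_lit 4) (nat_lit 360) (nat_lit 287) (nat_lit 253))))))) (XT.nd (nat_lit 43992) (nat_lit 0) (nat_lit 0) (XT.nd (nat_lit 546) (nat_lit 0) (nat_lit 0) (XT.nd (nat_lit 234) (nat_lit 0) (nat_lit 0) (XT.nd (nat_lit 78) (nat_lit 0) (nat_lit 0) (XT.lf (nat_lit 0) (nat_lit 1739920822249) (nat_lit 152) (nat_lit 418313218335) (nat_lit 0) (nat_lit 1738329563030) (nat_lit 1) (nat_lit 5) (nat_lit 3) (nat_lit 4) (nat_lit 1) (nat_lit 4) (nat_lit 361) (nat_lit 287) (nat_lit 252)) (XT.nd (nat_lit 78) (nat_lit 0) (nat_lit 0) (XT.lf (nat_lit 0) (nat_lit 2006280957151) (nat_lit 152) (nat_lit 469629779878) (nat_lit 0) (nat_lit 2004688127630) (nat_lit 1) (nat_lit 5) (nat_lit 3) (nat_lit 4) (nat_lit 1) (nat_lit 4) (nat_lit 362) (nat_lit 287) (nat_lit 251)) (XT.lf (nat_lit 0) (nat_lit 2312584977560) (nat_lit 152) (nat_lit 528664466022) (nat_lit 0)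 (nat_lit 2310990782559) (nat_lit 1) (nat_lit 5) (nat_lit 3) (nat_lit 4) (nat_lit 1) (nat_lit 4) (nat_lit 363) (nat_lit 287) (nat_lit 250)))) (XT.nd (nat_lit 156) (nat_lit 0) (nat_lit 0) (XT.nd (nat_lit 78) (nat_lit 0) (nat_lit 0) (XT.lf (nat_lit 0) (nat_lit 2664825788225) (nat_lit 152) (nat_lit 596572303236) (nat_lit 0) (nat_lit 2663230405849) (nat_lit 1) (nat_lit 5) (nat_lit 3) (nat_lit 4) (nat_lit 1) (nat_lit 4) (nat_lit 364) (nat_lit 287) (nat_lit 249)) (XT.lf (nat_lit 0) (nat_lit 3069895057178) (nat_lit 152) (nat_lit 674681923117) (nat_lit 0) (nat_lit 3068298642303) (nat_lit 1) (nat_lit 5) (nat_lit 3) (nat_lit 4) (nat_lit 1) (nat_lit 4) (nat_lit 365) (nat_lit 287) (nat_lit 248))) (XT.nd (nat_lit 78) (nat_lit 0) (nat_lit 0) (XT.lf (nat_lit 0) (nat_lit 3535718052727) (nat_lit 152) (nat_lit 764521557359) (nat_lit 0) (nat_lit 3534120740026) (nat_lit 1) (nat_lit 5) (nat_lit 3) (nat_lit 4)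 (nat_lit 1) (nat_lit 4) (nat_lit 366) (nat_lit 287) (nat_lit 247)) (XT.lf (nat_lit 0) (nat_lit 4071408703045) (nat_lit 152) (nat_lit 867848937935) (nat_lit 0) (nat_lit 4069810609626) (nat_lit 1) (nat_lit 5) (nat_lit 3) (nat_lit 4) (nat_lit 1) (nat_lit 4) (nat_lit 367) (nat_lit 287) (nat_lit 246))))) (XT.nd (nat_lit 312) (nat_lit 0) (nat_lit 0) (XT.nd (nat_lit 156) (nat_lit 0) (nat_lit 0) (XT.nd (nat_lit 78) (nat_lit 0) (nat_lit 0) (XT.lf (nat_lit 0) (nat_lit 4687447912159) (nat_lit 152) (nat_lit 986685687510) (nat_lit 0) (nat_lit 4685849139855) (nat_lit 1) (nat_lit 5) (nat_lit 3) (nat_lit 4) (nat_lit 1) (nat_lit 4) (nat_lit 368) (nat_lit 287) (nat_lit 245)) (XT.lf (nat_lit 0) (nat_lit 5395888621118) (nat_lit 152) (nat_lit 1123356872922) (nat_lit 0) (nat_lit 5394289258480) (nat_lit 1) (nat_lit 5) (nat_lit 3) (nat_lit 4) (nat_lit 1) (nat_lit 4) (nat_lit 369) (nat_lit 287) (nat_lit 244)))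 (XT.nd (nat_lit 78) (nat_lit 0) (nat_lit 0) (XT.lf (nat_lit 0) (nat_lit 6210591626401) (nat_lit 152) (nat_lit 1280536495626) (nat_lit 0) (nat_lit 6208991750428) (nat_lit 1) (nat_lit 5) (nat_lit 3) (nat_lit 4) (nat_lit 1) (nat_lit 4) (nat_lit 370) (nat_lit 287) (nat_lit 243)) (XT.lf (nat_lit 0) (nat_lit 7147496769417) (nat_lit 152) (nat_lit 1461299809109) (nat_lit 0) (nat_lit 7145896447066) (nat_lit 1) (nat_lit 5) (nat_lit 3) (nat_lit 4) (nat_lit 1) (nat_lit 4) (nat_lit 371) (nat_lit 287) (nat_lit 242)))) (XT.nd (nat_lit 156) (nat_lit 0) (nat_lit 0) (XT.nd (nat_lit 78) (nat_lit 0) (nat_lit 0) (XT.lf (nat_lit 0) (nat_lit 8224934802962) (nat_lit 152) (nat_lit 1669183486896) (nat_lit 0) (nat_lit 8223334092457) (nat_lit 1) (nat_lit 5) (nat_lit 3) (nat_lit 4) (nat_lit 1) (nat_lit 4) (nat_lit 372) (nat_lit 287) (nat_lit 241)) (XT.lf (nat_lit 0) (nat_lit 9463986036390) (nat_lit 152) (nat_lit 1908254818335)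 (nat_lit 0) (nat_lit 9462384988359) (nat_lit 1) (nat_lit 5) (nat_lit 3) (nat_lit 4) (nat_lit 1) (nat_lit 4) (nat_lit 373) (nat_lit 287) (nat_lit 240))) (XT.nd (nat_lit 78) (nat_lit 0) (nat_lit 0) (XT.lf (nat_lit 0) (nat_lit 10888892776441) (nat_lit 152) (nat_lit 2183191285997) (nat_lit 0) (nat_lit 10887291434909) (nat_lit 1) (nat_lit 5) (nat_lit 3) (nat_lit 4) (nat_lit 1) (nat_lit 4) (nat_lit 374) (nat_lit 287) (nat_lit 239)) (XT.lf (nat_lit 0) (nat_lit 12527533633247) (nat_lit 152) (nat_lit 2499372081641) (nat_lit 0) (nat_lit 12525932036496) (nat_lit 1) (nat_lit 5) (nat_lit 3) (nat_lit 4) (nat_lit 1) (nat_lit 4) (nat_lit 375) (nat_lit 287) (nat_lit 238)))))) (XT.nd (nat_lit 624) (nat_lit 152) (nat_lit 0) (XT.nd (nat_lit 312) (nat_lit 228) (nat_lit 0) (XT.nd (nat_lit 156) (nat_lit 76) (nat_lit 0) (XT.nd (nat_lit 78) (nat_lit 152) (nat_lit 0) (XT.lf (nat_lit 0) (nat_lit 4061666581) (nat_lit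 76) (nat_lit 4875554029) (nat_lit 76) (nat_lit 4875554029) (nat_lit 9) (nat_lit 4) (nat_lit 10) (nat_lit 5) (nat_lit 10) (nat_lit 4) (nat_lit 324) (nat_lit 288) (nat_lit 288)) (XT.lf (nat_lit 0) (nat_lit 1707023536) (nat_lit 152) (nat_lit 27641769609) (nat_lit 0) (nat_lit 1426510482) (nat_lit 7) (nat_lit 5) (nat_lit 9) (nat_lit 4) (nat_lit 7) (nat_lit 4) (nat_lit 325) (nat_lit 288) (nat_lit 287))) (XT.nd (nat_lit 78) (nat_lit 76) (nat_lit 0) (XT.lf (nat_lit 0) (nat_lit 14024963570) (nat_lit 152) (nat_lit 6874382338) (nat_lit 0) (nat_lit 13500526121) (nat_lit 7) (nat_lit 5) (nat_lit 9) (nat_lit 4) (nat_lit 7) (nat_lit 4) (nat_lit 326) (nat_lit 288) (nat_lit 286)) (XT.lf (nat_lit 0) (nat_lit 15785786372) (nat_lit 76) (nat_lit 11784301853) (nat_lit 76) (nat_lit 11047756236) (nat_lit 6) (nat_lit 4) (nat_lit 7) (nat_lit 5) (nat_lit 7) (nat_lit 4) (nat_lit 327) (nat_lit 288) (nat_lit 285))))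 (XT.nd (nat_lit 156) (nat_lit 76) (nat_lit 0) (XT.nd (nat_lit 78) (nat_lit 152) (nat_lit 0) (XT.lf (nat_lit 0) (nat_lit 40419581890) (nat_lit 76) (nat_lit 2013547305) (nat_lit 76) (nat_lit 1092559801) (nat_lit 6) (nat_lit 4) (nat_lit 7) (nat_lit 5) (nat_lit 7) (nat_lit 4) (nat_lit 328) (nat_lit 288) (nat_lit 284)) (XT.lf (nat_lit 0) (nat_lit 9690092310) (nat_lit 152) (nat_lit 30782748035) (nat_lit 0) (nat_lit 8688822169) (nat_lit 4) (nat_lit 5) (nat_lit 6) (nat_lit 4) (nat_lit 4) (nat_lit 4) (nat_lit 329) (nat_lit 288) (nat_lit 283))) (XT.nd (nat_lit 78) (nat_lit 76) (nat_lit 0) (XT.lf (nat_lit 0) (nat_lit 21412171060) (nat_lit 152) (nat_lit 13995933681) (nat_lit 0) (nat_lit 20281767063) (nat_lit 4) (nat_lit 5) (nat_lit 6) (nat_lit 4) (nat_lit 4) (nat_lit 4) (nat_lit 330) (nat_lit 288) (nat_lit 282)) (XT.lf (nat_lit 0) (nat_lit 4172712075) (nat_lit 76) (nat_lit 30156213515) (nat_lit 76)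 (nat_lit 28913519209) (nat_lit 3) (nat_lit 4) (nat_lit 4) (nat_lit 5) (nat_lit 4) (nat_lit 4) (nat_lit 331) (nat_lit 288) (nat_lit 281))))) (XT.nd (nat_lit 312) (nat_lit 152) (nat_lit 0) (XT.nd (nat_lit 156) (nat_lit 0) (nat_lit 0) (XT.nd (nat_lit 78) (nat_lit 0) (nat_lit 0) (XT.lf (nat_lit 0) (nat_lit 24683120560) (nat_lit 76) (nat_lit 24300559175) (nat_lit 76) (nat_lit 22960221121) (nat_lit 3) (nat_lit 4) (nat_lit 4) (nat_lit 5) (nat_lit 4) (nat_lit 4) (nat_lit 332) (nat_lit 288) (nat_lit 280)) (XT.lf (nat_lit 0) (nat_lit 47199581307) (nat_lit 76) (nat_lit 18109248199) (nat_lit 76) (nat_lit 16684002539) (nat_lit 3) (nat_lit 4) (nat_lit 4) (nat_lit 5) (nat_lit 4) (nat_lit 4) (nat_lit 333) (nat_lit 288) (nat_lit 279))) (XT.nd (nat_lit 78) (nat_lit 0) (nat_lit 0) (XT.lf (nat_lit 0) (nat_lit 72162633768) (nat_lit 76) (nat_lit 11461146243) (nat_lit 76) (nat_lit 9962067882) (nat_lit 3) (nat_lit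 4) (nat_lit 4) (nat_lit 5) (nat_lit 4) (nat_lit 4) (nat_lit 334) (nat_lit 288) (nat_lit 278)) (XT.lf (nat_lit 0) (nat_lit 100060685489) (nat_lit 76) (nat_lit 4226181747) (nat_lit 76) (nat_lit 2662901037) (nat_lit 3) (nat_lit 4) (nat_lit 4) (nat_lit 5) (nat_lit 4) (nat_lit 4) (nat_lit 335) (nat_lit 288) (nat_lit 277)))) (XT.nd (nat_lit 156) (nat_lit 0) (nat_lit 0) (XT.nd (nat_lit 78) (nat_lit 0) (nat_lit 0) (XT.lf (nat_lit 0) (nat_lit 5414438277) (nat_lit 152) (nat_lit 112979967971) (nat_lit 0) (nat_lit 3915263425) (nat_lit 1) (nat_lit 5) (nat_lit 3) (nat_lit 4) (nat_lit 1) (nat_lit 4) (nat_lit 336) (nat_lit 288) (nat_lit 276)) (XT.lf (nat_lit 0) (nat_lit 14539226944) (nat_lit 152) (nat_lit 112434228958) (nat_lit 0) (nat_lit 12995101908) (nat_lit 1) (nat_lit 5) (nat_lit 3) (nat_lit 4) (nat_lit 1) (nat_lit 4) (nat_lit 337) (nat_lit 288) (nat_lit 275))) (XT.nd (nat_lit 78) (nat_lit 0) (nat_lit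 0) (XT.lf (nat_lit 0) (nat_lit 24742625545) (nat_lit 152) (nat_lit 112397463323) (nat_lit 0) (nat_lit 23159413392) (nat_lit 1) (nat_lit 5) (nat_lit 3) (nat_lit 4) (nat_lit 1) (nat_lit 4) (nat_lit 338) (nat_lit 288) (nat_lit 274)) (XT.lf (nat_lit 0) (nat_lit 36224265792) (nat_lit 152) (nat_lit 112868951735) (nat_lit 0) (nat_lit 34607064841) (nat_lit 1) (nat_lit 5) (nat_lit 3) (nat_lit 4) (nat_lit 1) (nat_lit 4) (nat_lit 339) (nat_lit 288) (nat_lit 273))))))))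
noncomputable def xc11 : XT := (XT.nd (nat_lit 2418) (nat_lit 0) (nat_lit 0) (XT.nd (nat_lit 1170) (nat_lit 0) (nat_lit 0) (XT.nd (nat_lit 546) (nat_lit 0) (nat_lit 0) (XT.nd (nat_lit 234) (nat_lit 0) (nat_lit 0) (XT.nd (nat_lit 78) (nat_lit 0) (nat_lit 0) (XT.lf (nat_lit 0) (nat_lit 49208788471) (nat_lit 152) (nat_lit 113857918970) (nat_lit 0) (nat_lit 47562032044) (nat_lit 1) (nat_lit 5) (nat_lit 3) (nat_lit 4) (nat_lit 1) (nat_lit 4) (nat_lit 340) (nat_lit 288) (nat_lit 272)) (XT.nd (nat_lit 78) (nat_lit 0) (nat_lit 0) (XT.lf (nat_lit 0) (nat_lit 63950238593) (nat_lit 152) (nat_lit 115383714385) (nat_lit 0) (nat_lit 62277781751) (nat_lit 1) (nat_lit 5) (nat_lit 3) (nat_lit 4) (nat_lit 1) (nat_lit 4) (nat_lit 341) (nat_lit 288) (nat_lit 271)) (XT.lf (nat_lit 0) (nat_lit 80737035832) (nat_lit 152) (nat_lit 117476190501) (nat_lit 0) (nat_lit 79042230805) (nat_lit 1) (nat_lit 5) (nat_lit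 3) (nat_lit 4) (nat_lit 1) (nat_lit 4) (nat_lit 342) (nat_lit 288) (nat_lit 270)))) (XT.nd (nat_lit 156) (nat_lit 0) (nat_lit 0) (XT.nd (nat_lit 78) (nat_lit 0) (nat_lit 0) (XT.lf (nat_lit 0) (nat_lit 99897617527) (nat_lit 152) (nat_lit 120176287066) (nat_lit 0) (nat_lit 98183379294) (nat_lit 1) (nat_lit 5) (nat_lit 3) (nat_lit 4) (nat_lit 1) (nat_lit 4) (nat_lit 343) (nat_lit 288) (nat_lit 269)) (XT.lf (nat_lit 0) (nat_lit 121806864623) (nat_lit 152) (nat_lit 123536832057) (nat_lit 0) (nat_lit 120075727951) (nat_lit 1) (nat_lit 5) (nat_lit 3) (nat_lit 4) (nat_lit 1) (nat_lit 4) (nat_lit 344) (nat_lit 288) (nat_lit 268))) (XT.nd (nat_lit 78) (nat_lit 0) (nat_lit 0) (XT.lf (nat_lit 0) (nat_lit 146893436304) (nat_lit 152) (nat_lit 127623575268) (nat_lit 0) (nat_lit 145147605337) (nat_lit 1) (nat_lit 5) (nat_lit 3) (nat_lit 4) (nat_lit 1) (nat_lit 4) (nat_lit 345) (nat_lit 288) (nat_lit 267))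 (XT.lf (nat_lit 0) (nat_lit 175648156797) (nat_lit 152) (nat_lit 132516474717) (nat_lit 0) (nat_lit 173889548181) (nat_lit 1) (nat_lit 5) (nat_lit 3) (nat_lit 4) (nat_lit 1) (nat_lit 4) (nat_lit 346) (nat_lit 288) (nat_lit 266))))) (XT.nd (nat_lit 312) (nat_lit 0) (nat_lit 0) (XT.nd (nat_lit 156) (nat_lit 0) (nat_lit 0) (XT.nd (nat_lit 78) (nat_lit 0) (nat_lit 0) (XT.lf (nat_lit 0) (nat_lit 208633618459) (nat_lit 152) (nat_lit 138311261047) (nat_lit 0) (nat_lit 206863898846) (nat_lit 1) (nat_lit 5) (nat_lit 3) (nat_lit 4) (nat_lit 1) (nat_lit 4) (nat_lit 347) (nat_lit 288) (nat_lit 265)) (XT.lf (nat_lit 0) (nat_lit 246495189020) (nat_lit 152) (nat_lit 145121310511) (nat_lit 0) (nat_lit 244715807669) (nat_lit 1) (nat_lit 5) (nat_lit 3) (nat_lit 4) (nat_lit 1) (nat_lit 4) (nat_lit 348) (nat_lit 288) (nat_lit 264))) (XT.nd (nat_lit 78) (nat_lit 0) (nat_lit 0) (XT.lf (nat_lit 0) (nat_lit 289973638338)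 (nat_lit 152) (nat_lit 153079863208) (nat_lit 0) (nat_lit 288185855476) (nat_lit 1) (nat_lit 5) (nat_lit 3) (nat_lit 4) (nat_lit 1) (nat_lit 4) (nat_lit 349) (nat_lit 288) (nat_lit 263)) (XT.lf (nat_lit 0) (nat_lit 339919631725) (nat_lit 152) (nat_lit 162342629951) (nat_lit 0) (nat_lit 338124543202) (nat_lit 1) (nat_lit 5) (nat_lit 3) (nat_lit 4) (nat_lit 1) (nat_lit 4) (nat_lit 350) (nat_lit 288) (nat_lit 262)))) (XT.nd (nat_lit 156) (nat_lit 0) (nat_lit 0) (XT.nd (nat_lit 78) (nat_lit 0) (nat_lit 0) (XT.lf (nat_lit 0) (nat_lit 397310373401) (nat_lit 152) (nat_lit 173090838785) (nat_lit 0) (nat_lit 395508932128) (nat_lit 1) (nat_lit 5) (nat_lit 3) (nat_lit 4) (nat_lit 1) (nat_lit 4) (nat_lit 351) (nat_lit 288) (nat_lit 261)) (XT.lf (nat_lit 0) (nat_lit 463268725702) (nat_lit 152) (nat_lit 185534780753) (nat_lit 0) (nat_lit 461461760299) (nat_lit 1) (nat_lit 5) (nat_lit 3) (nat_lit 4) (nat_lit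 1) (nat_lit 4) (nat_lit 352) (nat_lit 288) (nat_lit 260))) (XT.nd (nat_lit 78) (nat_lit 0) (nat_lit 0) (XT.lf (nat_lit 0) (nat_lit 539085178129) (nat_lit 152) (nat_lit 199917924285) (nat_lit 0) (nat_lit 537273409135) (nat_lit 1) (nat_lit 5) (nat_lit 3) (nat_lit 4) (nat_lit 1) (nat_lit 4) (nat_lit 353) (nat_lit 288) (nat_lit 259)) (XT.lf (nat_lit 0) (nat_lit 626243096057) (nat_lit 152) (nat_lit 216521678710) (nat_lit 0) (nat_lit 624427150027) (nat_lit 1) (nat_lit 5) (nat_lit 3) (nat_lit 4) (nat_lit 1) (nat_lit 4) (nat_lit 354) (nat_lit 288) (nat_lit 258)))))) (XT.nd (nat_lit 624) (nat_lit 0) (nat_lit 0) (XT.nd (nat_lit 312) (nat_lit 0) (nat_lit 0) (XT.nd (nat_lit 156) (nat_lit 0) (nat_lit 0) (XT.nd (nat_lit 78) (nat_lit 0) (nat_lit 0) (XT.lf (nat_lit 0) (nat_lit 726447743097) (nat_lit 152) (nat_lit 235670900094) (nat_lit 0) (nat_lit 724628164862) (nat_lit 1) (nat_lit 5) (nat_lit 3) (nat_lit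 4) (nat_lit 1) (nat_lit 4) (nat_lit 355) (nat_lit 288) (nat_lit 257)) (XT.lf (nat_lit 0) (nat_lit 841659644951) (nat_lit 152) (nat_lit 257740247115) (nat_lit 0) (nat_lit 839836908278) (nat_lit 1) (nat_lit 5) (nat_lit 3) (nat_lit 4) (nat_lit 1) (nat_lit 4) (nat_lit 356) (nat_lit 288) (nat_lit 256))) (XT.nd (nat_lit 78) (nat_lit 0) (nat_lit 0) (XT.lf (nat_lit 0) (nat_lit 974132947527) (nat_lit 152) (nat_lit 283161511345) (nat_lit 0) (nat_lit 972307464385) (nat_lit 1) (nat_lit 5) (nat_lit 3) (nat_lit 4) (nat_lit 1) (nat_lit 4) (nat_lit 357) (nat_lit 288) (nat_lit 255)) (XT.lf (nat_lit 0) (nat_lit 1126459519787) (nat_lit 152) (nat_lit 312432065347) (nat_lit 0) (nat_lit 1124631648410) (nat_lit 1) (nat_lit 5) (nat_lit 3) (nat_lit 4) (nat_lit 1) (nat_lit 4) (nat_lit 358) (nat_lit 288) (nat_lit 254)))) (XT.nd (nat_lit 156) (nat_lit 0) (nat_lit 0) (XT.nd (nat_lit 78) (nat_lit 0) (nat_lit 0) (XT.lf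 (nat_lit 0) (nat_lit 1301619664231) (nat_lit 152) (nat_lit 346124593871) (nat_lit 0) (nat_lit 1299789716130) (nat_lit 1) (nat_lit 5) (nat_lit 3) (nat_lit 4) (nat_lit 1) (nat_lit 4) (nat_lit 359) (nat_lit 288) (nat_lit 253)) (XT.lf (nat_lit 0) (nat_lit 1503040427165) (nat_lit 152) (nat_lit 384898298564) (nat_lit 0) (nat_lit 1501208673216) (nat_lit 1) (nat_lit 5) (nat_lit 3) (nat_lit 4) (nat_lit 1) (nat_lit 4) (nat_lit 360) (nat_lit 288) (nat_lit 252))) (XT.nd (nat_lit 78) (nat_lit 0) (nat_lit 0) (XT.lf (nat_lit 0) (nat_lit 1734662649603) (nat_lit 152) (nat_lit 429511795386) (nat_lit 0) (nat_lit 1732829325351) (nat_lit 1) (nat_lit 5) (nat_lit 3) (nat_lit 4) (nat_lit 1) (nat_lit 4) (nat_lit 361) (nat_lit 288) (nat_lit 251)) (XT.lf (nat_lit 0) (nat_lit 2001018070678) (nat_lit 152) (nat_lit 480837957101) (nat_lit 0) (nat_lit 1999183380946) (nat_lit 1) (nat_lit 5) (nat_lit 3) (nat_lit 4) (nat_lit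 1) (nat_lit 4) (nat_lit 362) (nat_lit 288) (nat_lit 250))))) (XT.nd (nat_lit 312) (nat_lit 0) (nat_lit 0) (XT.nd (nat_lit 156) (nat_lit 0) (nat_lit 0) (XT.nd (nat_lit 78) (nat_lit 0) (nat_lit 0) (XT.lf (nat_lit 0) (nat_lit 2307317992107) (nat_lit 152) (nat_lit 539880991221) (nat_lit 0) (nat_lit 2305482115001) (nat_lit 1) (nat_lit 5) (nat_lit 3) (nat_lit 4) (nat_lit 1) (nat_lit 4) (nat_lit 363) (nat_lit 288) (nat_lit 249)) (XT.lf (nat_lit 0) (nat_lit 2659555238441) (nat_lit 152) (nat_lit 607796087544) (nat_lit 0) (nat_lit 2657718328836) (nat_lit 1) (nat_lit 5) (nat_lit 3) (nat_lit 4) (nat_lit 1) (nat_lit 4) (nat_lit 364) (nat_lit 288) (nat_lit 248))) (XT.nd (nat_lit 78) (nat_lit 0) (nat_lit 0) (XT.lf (nat_lit 0) (nat_lit 3064621407977) (nat_lit 152) (nat_lit 685912019694) (nat_lit 0) (nat_lit 3062783600546) (nat_lit 1) (nat_lit 5) (nat_lit 3) (nat_lit 4) (nat_lit 1) (nat_lit 4) (nat_lit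 365) (nat_lit 288) (nat_lit 247)) (XT.lf (nat_lit 0) (nat_lit 3530441708380) (nat_lit 152) (nat_lit 775757142866) (nat_lit 0) (nat_lit 3528603120231) (nat_lit 1) (nat_lit 5) (nat_lit 3) (nat_lit 4) (nat_lit 1) (nat_lit 4) (nat_lit 366) (nat_lit 288) (nat_lit 246)))) (XT.nd (nat_lit 156) (nat_lit 0) (nat_lit 0) (XT.nd (nat_lit 78) (nat_lit 0) (nat_lit 0) (XT.lf (nat_lit 0) (nat_lit 4066130015093) (nat_lit 152) (nat_lit 879089296424) (nat_lit 0) (nat_lit 4064290748059) (nat_lit 1) (nat_lit 5) (nat_lit 3) (nat_lit 4) (nat_lit 1) (nat_lit 4) (nat_lit 367) (nat_lit 288) (nat_lit 245)) (XT.lf (nat_lit 0) (nat_lit 4682167186290) (nat_lit 152) (nat_lit 997930196418) (nat_lit 0) (nat_lit 4680327328921) (nat_lit 1) (nat_lit 5) (nat_lit 3) (nat_lit 4) (nat_lit 1) (nat_lit 4) (nat_lit 368) (nat_lit 288) (nat_lit 244))) (XT.nd (nat_lit 78) (nat_lit 0) (nat_lit 0) (XT.lf (nat_lit 0) (nat_lit 5390606123147)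 (nat_lit 152) (nat_lit 1134604990891) (nat_lit 0) (nat_lit 5388765752443) (nat_lit 1) (nat_lit 5) (nat_lit 3) (nat_lit 4) (nat_lit 1) (nat_lit 4) (nat_lit 369) (nat_lit 288) (nat_lit 243)) (XT.lf (nat_lit 0) (nat_lit 6205307587472) (nat_lit 152) (nat_lit 1291787751908) (nat_lit 0) (nat_lit 6203466770390) (nat_lit 1) (nat_lit 5) (nat_lit 3) (nat_lit 4) (nat_lit 1) (nat_lit 4) (nat_lit 370) (nat_lit 288) (nat_lit 242))))))) (XT.nd (nat_lit 43836) (nat_lit 0) (nat_lit 0) (XT.nd (nat_lit 43212) (nat_lit 0) (nat_lit 228) (XT.nd (nat_lit 234) (nat_lit 0) (nat_lit 0) (XT.nd (nat_lit 78) (nat_lit 0) (nat_lit 0) (XT.lf (nat_lit 0) (nat_lit 7142211390523) (nat_lit 152) (nat_lit 1472553794359) (nat_lit 0) (nat_lit 7140370185287) (nat_lit 1) (nat_lit 5) (nat_lit 3) (nat_lit 4) (nat_lit 1) (nat_lit 4) (nat_lit 371) (nat_lit 288) (nat_lit 241)) (XT.nd (nat_lit 78) (nat_lit 0) (nat_lit 0) (XT.lf (nat_lit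 0) (nat_lit 8219648258883) (nat_lit 152) (nat_lit 1680439845162) (nat_lit 0) (nat_lit 8217806716121) (nat_lit 1) (nat_lit 5) (nat_lit 3) (nat_lit 4) (nat_lit 1) (nat_lit 4) (nat_lit 372) (nat_lit 288) (nat_lit 240)) (XT.lf (nat_lit 0) (nat_lit 9458698479106) (nat_lit 152) (nat_lit 1919513240092) (nat_lit 0) (nat_lit 9456856642843) (nat_lit 1) (nat_lit 5) (nat_lit 3) (nat_lit 4) (nat_lit 1) (nat_lit 4) (nat_lit 373) (nat_lit 288) (nat_lit 239)))) (XT.nd (nat_lit 42822) (nat_lit 0) (nat_lit 684) (XT.nd (nat_lit 78) (nat_lit 0) (nat_lit 0) (XT.lf (nat_lit 0) (nat_lit 10883604338109) (nat_lit 152) (nat_lit 2194451502095) (nat_lit 0) (nat_lit 10881762246628) (nat_lit 1) (nat_lit 5) (nat_lit 3) (nat_lit 4) (nat_lit 1) (nat_lit 4) (nat_lit 374) (nat_lit 288) (nat_lit 238)) (XT.lf (nat_lit 0) (nat_lit 12522244428786) (nat_lit 152) (nat_lit 2510633858036) (nat_lit 0) (nat_lit 12520402115376) (nat_lit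 1) (nat_lit 5) (nat_lit 3) (nat_lit 4) (nat_lit 1) (nat_lit 4) (nat_lit 375) (nat_lit 288) (nat_lit 237))) (XT.nd (nat_lit 78) (nat_lit 152) (nat_lit 0) (XT.lf (nat_lit 0) (nat_lit 4383864716) (nat_lit 76) (nat_lit 3447090677) (nat_lit 76) (nat_lit 3447090677) (nat_lit 12) (nat_lit 4) (nat_lit 13) (nat_lit 5) (nat_lit 13) (nat_lit 4) (nat_lit 322) (nat_lit 289) (nat_lit 289)) (XT.lf (nat_lit 0) (nat_lit 4885227447) (nat_lit 152) (nat_lit 15505980132) (nat_lit 0) (nat_lit 4536830234) (nat_lit 10) (nat_lit 5) (nat_lit 12) (nat_lit 4) (nat_lit 10) (nat_lit 4) (nat_lit 323) (nat_lit 289) (nat_lit 288))))) (XT.nd (nat_lit 312) (nat_lit 152) (nat_lit 0) (XT.nd (nat_lit 156) (nat_lit 76) (nat_lit 0) (XT.nd (nat_lit 78) (nat_lit 152) (nat_lit 0) (XT.lf (nat_lit 0) (nat_lit 7009701470) (nat_lit 76) (nat_lit 10655914455) (nat_lit 76) (nat_lit 10004563144) (nat_lit 9) (nat_lit 4) (nat_lit 10) (nat_lit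 5) (nat_lit 10) (nat_lit 4) (nat_lit 324) (nat_lit 289) (nat_lit 287)) (XT.lf (nat_lit 0) (nat_lit 879435383) (nat_lit 152) (nat_lit 29955564570) (nat_lit 0) (nat_lit 32407923) (nat_lit 7) (nat_lit 5) (nat_lit 9) (nat_lit 4) (nat_lit 7) (nat_lit 4) (nat_lit 325) (nat_lit 289) (nat_lit 286))) (XT.nd (nat_lit 78) (nat_lit 76) (nat_lit 0) (XT.lf (nat_lit 0) (nat_lit 12732187080) (nat_lit 152) (nat_lit 10123989214) (nat_lit 0) (nat_lit 11673051450) (nat_lit 7) (nat_lit 5) (nat_lit 9) (nat_lit 4) (nat_lit 7) (nat_lit 4) (nat_lit 326) (nat_lit 289) (nat_lit 285)) (XT.lf (nat_lit 0) (nat_lit 11508460859) (nat_lit 76) (nat_lit 14261469496) (nat_lit 76) (nat_lit 13017891980) (nat_lit 6) (nat_lit 4) (nat_lit 7) (nat_lit 5) (nat_lit 7) (nat_lit 4) (nat_lit 327) (nat_lit 289) (nat_lit 284)))) (XT.nd (nat_lit 156) (nat_lit 0) (nat_lit 0) (XT.nd (nat_lit 78) (nat_lit 152) (nat_lit 0) (XT.lf (nat_lit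 0) (nat_lit 35397386727) (nat_lit 76) (nat_lit 4865921250) (nat_lit 76) (nat_lit 3461959485) (nat_lit 6) (nat_lit 4) (nat_lit 7) (nat_lit 5) (nat_lit 7) (nat_lit 4) (nat_lit 328) (nat_lit 289) (nat_lit 283)) (XT.lf (nat_lit 0) (nat_lit 6879832083) (nat_lit 152) (nat_lit 37080007156) (nat_lit 0) (nat_lit 5450733631) (nat_lit 4) (nat_lit 5) (nat_lit 6) (nat_lit 4) (nat_lit 4) (nat_lit 4) (nat_lit 329) (nat_lit 289) (nat_lit 282))) (XT.nd (nat_lit 78) (nat_lit 0) (nat_lit 0) (XT.lf (nat_lit 0) (nat_lit 18293078342) (nat_lit 152) (nat_lit 20918740107) (nat_lit 0) (nat_lit 16751689580) (nat_lit 4) (nat_lit 5) (nat_lit 6) (nat_lit 4) (nat_lit 4) (nat_lit 4) (nat_lit 330) (nat_lit 289) (nat_lit 281)) (XT.lf (nat_lit 0) (nat_lit 30840929054) (nat_lit 152) (nat_lit 3502784487) (nat_lit 0) (nat_lit 29201896545) (nat_lit 4) (nat_lit 5) (nat_lit 6) (nat_lit 4) (nat_lit 4) (nat_lit 4) (nat_lit 331)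 (nat_lit 289) (nat_lit 280)))))) (XT.nd (nat_lit 624) (nat_lit 0) (nat_lit 0) (XT.nd (nat_lit 312) (nat_lit 152) (nat_lit 0) (XT.nd (nat_lit 156) (nat_lit 0) (nat_lit 0) (XT.nd (nat_lit 78) (nat_lit 0) (nat_lit 0) (XT.lf (nat_lit 0) (nat_lit 16325262405) (nat_lit 76) (nat_lit 28836246195) (nat_lit 76) (nat_lit 27112306079) (nat_lit 3) (nat_lit 4) (nat_lit 4) (nat_lit 5) (nat_lit 4) (nat_lit 4) (nat_lit 332) (nat_lit 289) (nat_lit 279)) (XT.lf (nat_lit 0) (nat_lit 38408756921) (nat_lit 76) (nat_lit 22864426227) (nat_lit 76) (nat_lit 21066653410) (nat_lit 3) (nat_lit 4) (nat_lit 4) (nat_lit 5) (nat_lit 4) (nat_lit 4) (nat_lit 333) (nat_lit 289) (nat_lit 278))) (XT.nd (nat_lit 78) (nat_lit 0) (nat_lit 0) (XT.lf (nat_lit 0) (nat_lit 62995317005) (nat_lit 76) (nat_lit 16407186017) (nat_lit 76) (nat_lit 14545210851) (nat_lit 3) (nat_lit 4) (nat_lit 4) (nat_lit 5) (nat_lit 4) (nat_lit 4) (nat_lit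 334) (nat_lit 289) (nat_lit 277)) (XT.lf (nat_lit 0) (nat_lit 90565984052) (nat_lit 76) (nat_lit 9338188256) (nat_lit 76) (nat_lit 7420384961) (nat_lit 3) (nat_lit 4) (nat_lit 4) (nat_lit 5) (nat_lit 4) (nat_lit 4) (nat_lit 335) (nat_lit 289) (nat_lit 276)))) (XT.nd (nat_lit 156) (nat_lit 0) (nat_lit 0) (XT.nd (nat_lit 78) (nat_lit 76) (nat_lit 0) (XT.lf (nat_lit 0) (nat_lit 424851119) (nat_lit 152) (nat_lit 1082659165) (nat_lit 76) (nat_lit 121223716853) (nat_lit 2) (nat_lit 5) (nat_lit 4) (nat_lit 5) (nat_lit 3) (nat_lit 4) (nat_lit 336) (nat_lit 289) (nat_lit 275)) (XT.lf (nat_lit 0) (nat_lit 9350328987) (nat_lit 152) (nat_lit 123565189967) (nat_lit 0) (nat_lit 7490547893) (nat_lit 1) (nat_lit 5) (nat_lit 3) (nat_lit 4) (nat_lit 1) (nat_lit 4) (nat_lit 337) (nat_lit 289) (nat_lit 274))) (XT.nd (nat_lit 78) (nat_lit 0) (nat_lit 0) (XT.lf (nat_lit 0) (nat_lit 19436393567) (nat_lit 152)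 (nat_lit 123767386607) (nat_lit 0) (nat_lit 17542623676) (nat_lit 1) (nat_lit 5) (nat_lit 3) (nat_lit 4) (nat_lit 1) (nat_lit 4) (nat_lit 338) (nat_lit 289) (nat_lit 273)) (XT.lf (nat_lit 0) (nat_lit 30816004231) (nat_lit 152) (nat_lit 124446668303) (nat_lit 0) (nat_lit 28892678863) (nat_lit 1) (nat_lit 5) (nat_lit 3) (nat_lit 4) (nat_lit 1) (nat_lit 4) (nat_lit 339) (nat_lit 289) (nat_lit 272))))) (XT.nd (nat_lit 312) (nat_lit 0) (nat_lit 0) (XT.nd (nat_lit 156) (nat_lit 0) (nat_lit 0) (XT.nd (nat_lit 78) (nat_lit 0) (nat_lit 0) (XT.lf (nat_lit 0) (nat_lit 43711805533) (nat_lit 152) (nat_lit 125616325350) (nat_lit 0) (nat_lit 41762779752) (nat_lit 1) (nat_lit 5) (nat_lit 3) (nat_lit 4) (nat_lit 1) (nat_lit 4) (nat_lit 340) (nat_lit 289) (nat_lit 271)) (XT.lf (nat_lit 0) (nat_lit 58376106631) (nat_lit 152) (nat_lit 127299242341) (nat_lit 0) (nat_lit 56404732664) (nat_lit 1) (nat_lit 5)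 (nat_lit 3) (nat_lit 4) (nat_lit 1) (nat_lit 4) (nat_lit 341) (nat_lit 289) (nat_lit 270))) (XT.nd (nat_lit 78) (nat_lit 0) (nat_lit 0) (XT.lf (nat_lit 0) (nat_lit 75095817764) (nat_lit 152) (nat_lit 129528345913) (nat_lit 0) (nat_lit 73105010591) (nat_lit 1) (nat_lit 5) (nat_lit 3) (nat_lit 4) (nat_lit 1) (nat_lit 4) (nat_lit 342) (nat_lit 289) (nat_lit 269)) (XT.lf (nat_lit 0) (nat_lit 94198063713) (nat_lit 152) (nat_lit 132347248963) (nat_lit 0) (nat_lit 92190358101) (nat_lit 1) (nat_lit 5) (nat_lit 3) (nat_lit 4) (nat_lit 1) (nat_lit 4) (nat_lit 343) (nat_lit 289) (nat_lit 268)))) (XT.nd (nat_lit 156) (nat_lit 0) (nat_lit 0) (XT.nd (nat_lit 78) (nat_lit 0) (nat_lit 0) (XT.lf (nat_lit 0) (nat_lit 116056584074) (nat_lit 152) (nat_lit 135811103940) (nat_lit 0) (nat_lit 114034184167) (nat_lit 1) (nat_lit 5) (nat_lit 3) (nat_lit 4) (nat_lit 1) (nat_lit 4) (nat_lit 344) (nat_lit 289) (nat_lit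 267)) (XT.lf (nat_lit 0) (nat_lit 141099045550) (nat_lit 152) (nat_lit 139987681922) (nat_lit 0) (nat_lit 139063867995) (nat_lit 1) (nat_lit 5) (nat_lit 3) (nat_lit 4) (nat_lit 1) (nat_lit 4) (nat_lit 345) (nat_lit 289) (nat_lit 266))) (XT.nd (nat_lit 78) (nat_lit 0) (nat_lit 0) (XT.lf (nat_lit 0) (nat_lit 169815409344) (nat_lit 152) (nat_lit 144958698563) (nat_lit 0) (nat_lit 167769120790) (nat_lit 1) (nat_lit 5) (nat_lit 3) (nat_lit 4) (nat_lit 1) (nat_lit 4) (nat_lit 346) (nat_lit 289) (nat_lit 265)) (XT.lf (nat_lit 0) (nat_lit 202767517355) (nat_lit 152) (nat_lit 150821412886) (nat_lit 0) (nat_lit 200711567064) (nat_lit 1) (nat_lit 5) (nat_lit 3) (nat_lit 4) (nat_lit 1) (nat_lit 4) (nat_lit 347) (nat_lit 289) (nat_lit 264))))))))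
noncomputable def xc12 : XT := (XT.nd (nat_lit 44850) (nat_lit 0) (nat_lit 0) (XT.nd (nat_lit 1170) (nat_lit 0) (nat_lit 0) (XT.nd (nat_lit 546) (nat_lit 0) (nat_lit 0) (XT.nd (nat_lit 234) (nat_lit 0) (nat_lit 0) (XT.nd (nat_lit 78) (nat_lit 0) (nat_lit 0) (XT.lf (nat_lit 0) (nat_lit 240600084740) (nat_lit 152) (nat_lit 157690530170) (nat_lit 0) (nat_lit 238535732938) (nat_lit 1) (nat_lit 5) (nat_lit 3) (nat_lit 4) (nat_lit 1) (nat_lit 4) (nat_lit 348) (nat_lit 289) (nat_lit 263)) (XT.nd (nat_lit 78) (nat_lit 0) (nat_lit 0) (XT.lf (nat_lit 0) (nat_lit 284053313905) (nat_lit 152) (nat_lit 165700446189) (nat_lit 0) (nat_lit 281981656442) (nat_lit 1) (nat_lit 5) (nat_lit 3) (nat_lit 4) (nat_lit 1) (nat_lit 4) (nat_lit 349) (nat_lit 289) (nat_lit 262)) (XT.lf (nat_lit 0) (nat_lit 333977376725) (nat_lit 152) (nat_lit 175007876690) (nat_lit 0) (nat_lit 331899366512) (nat_lit 1) (nat_lit 5) (nat_lit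 3) (nat_lit 4) (nat_lit 1) (nat_lit 4) (nat_lit 350) (nat_lit 289) (nat_lit 261)))) (XT.nd (nat_lit 156) (nat_lit 0) (nat_lit 0) (XT.nd (nat_lit 78) (nat_lit 0) (nat_lit 0) (XT.lf (nat_lit 0) (nat_lit 391349048342) (nat_lit 152) (nat_lit 185794923575) (nat_lit 0) (nat_lit 389265513999) (nat_lit 1) (nat_lit 5) (nat_lit 3) (nat_lit 4) (nat_lit 1) (nat_lit 4) (nat_lit 351) (nat_lit 289) (nat_lit 260)) (XT.lf (nat_lit 0) (nat_lit 457290817983) (nat_lit 152) (nat_lit 198272637761) (nat_lit 0) (nat_lit 455202480049) (nat_lit 1) (nat_lit 5) (nat_lit 3) (nat_lit 4) (nat_lit 1) (nat_lit 4) (nat_lit 352) (nat_lit 289) (nat_lit 259))) (XT.nd (nat_lit 78) (nat_lit 0) (nat_lit 0) (XT.lf (nat_lit 0) (nat_lit 533092850706) (nat_lit 152) (nat_lit 212685148438) (nat_lit 0) (nat_lit 531000335737) (nat_lit 1) (nat_lit 5) (nat_lit 3) (nat_lit 4) (nat_lit 1) (nat_lit 4) (nat_lit 353) (nat_lit 289) (nat_lit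 258)) (XT.lf (nat_lit 0) (nat_lit 620238229761) (nat_lit 152) (nat_lit 229314439512) (nat_lit 0) (nat_lit 618142082586) (nat_lit 1) (nat_lit 5) (nat_lit 3) (nat_lit 4) (nat_lit 1) (nat_lit 4) (nat_lit 354) (nat_lit 289) (nat_lit 257))))) (XT.nd (nat_lit 312) (nat_lit 0) (nat_lit 0) (XT.nd (nat_lit 156) (nat_lit 0) (nat_lit 0) (XT.nd (nat_lit 78) (nat_lit 0) (nat_lit 0) (XT.lf (nat_lit 0) (nat_lit 720431973433) (nat_lit 152) (nat_lit 248485866677) (nat_lit 0) (nat_lit 718332667819) (nat_lit 1) (nat_lit 5) (nat_lit 3) (nat_lit 4) (nat_lit 1) (nat_lit 4) (nat_lit 355) (nat_lit 289) (nat_lit 256)) (XT.lf (nat_lit 0) (nat_lit 835634394098) (nat_lit 152) (nat_lit 270574523073) (nat_lit 0) (nat_lit 833532342016) (nat_lit 1) (nat_lit 5) (nat_lit 3) (nat_lit 4) (nat_lit 1) (nat_lit 4) (nat_lit 356) (nat_lit 289) (nat_lit 255))) (XT.nd (nat_lit 78) (nat_lit 0) (nat_lit 0) (XT.lf (nat_lit 0) (nat_lit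 968099452161) (nat_lit 152) (nat_lit 296012578065) (nat_lit 0) (nat_lit 965995011845) (nat_lit 1) (nat_lit 5) (nat_lit 3) (nat_lit 4) (nat_lit 1) (nat_lit 4) (nat_lit 357) (nat_lit 289) (nat_lit 254)) (XT.lf (nat_lit 0) (nat_lit 1120418855280) (nat_lit 152) (nat_lit 325297732728) (nat_lit 0) (nat_lit 1118312338238) (nat_lit 1) (nat_lit 5) (nat_lit 3) (nat_lit 4) (nat_lit 1) (nat_lit 4) (nat_lit 358) (nat_lit 289) (nat_lit 253)))) (XT.nd (nat_lit 156) (nat_lit 0) (nat_lit 0) (XT.nd (nat_lit 78) (nat_lit 0) (nat_lit 0) (XT.lf (nat_lit 0) (nat_lit 1295572765688) (nat_lit 152) (nat_lit 359002957480) (nat_lit 0) (nat_lit 1293464442799) (nat_lit 1) (nat_lit 5) (nat_lit 3) (nat_lit 4) (nat_lit 1) (nat_lit 4) (nat_lit 359) (nat_lit 289) (nat_lit 252)) (XT.lf (nat_lit 0) (nat_lit 1496988107721) (nat_lit 152) (nat_lit 397787702371) (nat_lit 0) (nat_lit 1494878214530) (nat_lit 1) (nat_lit 5) (nat_lit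 3) (nat_lit 4) (nat_lit 1) (nat_lit 4) (nat_lit 360) (nat_lit 289) (nat_lit 251))) (XT.nd (nat_lit 78) (nat_lit 0) (nat_lit 0) (XT.lf (nat_lit 0) (nat_lit 1728605616332) (nat_lit 152) (nat_lit 442410799364) (nat_lit 0) (nat_lit 1726494357660) (nat_lit 1) (nat_lit 5) (nat_lit 3) (nat_lit 4) (nat_lit 1) (nat_lit 4) (nat_lit 361) (nat_lit 289) (nat_lit 250)) (XT.lf (nat_lit 0) (nat_lit 1994956938427) (nat_lit 152) (nat_lit 493745309055) (nat_lit 0) (nat_lit 1992844492381) (nat_lit 1) (nat_lit 5) (nat_lit 3) (nat_lit 4) (nat_lit 1) (nat_lit 4) (nat_lit 362) (nat_lit 289) (nat_lit 249)))))) (XT.nd (nat_lit 546) (nat_lit 0) (nat_lit 0) (XT.nd (nat_lit 234) (nat_lit 0) (nat_lit 0) (XT.nd (nat_lit 78) (nat_lit 0) (nat_lit 0) (XT.lf (nat_lit 0) (nat_lit 2301253295526) (nat_lit 152) (nat_lit 552795602285) (nat_lit 0) (nat_lit 2299139816980) (nat_lit 1) (nat_lit 5) (nat_lit 3) (nat_lit 4) (nat_lit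 1) (nat_lit 4) (nat_lit 363) (nat_lit 289) (nat_lit 248)) (XT.nd (nat_lit 78) (nat_lit 0) (nat_lit 0) (XT.lf (nat_lit 0) (nat_lit 2653487442442) (nat_lit 152) (nat_lit 620717010877) (nat_lit 0) (nat_lit 2651373066071) (nat_lit 1) (nat_lit 5) (nat_lit 3) (nat_lit 4) (nat_lit 1) (nat_lit 4) (nat_lit 364) (nat_lit 289) (nat_lit 247)) (XT.lf (nat_lit 0) (nat_lit 3058550916833) (nat_lit 152) (nat_lit 698838431957) (nat_lit 0) (nat_lit 3056435759744) (nat_lit 1) (nat_lit 5) (nat_lit 3) (nat_lit 4) (nat_lit 1) (nat_lit 4) (nat_lit 365) (nat_lit 289) (nat_lit 246)))) (XT.nd (nat_lit 156) (nat_lit 0) (nat_lit 0) (XT.nd (nat_lit 78) (nat_lit 0) (nat_lit 0) (XT.lf (nat_lit 0) (nat_lit 3524368873631) (nat_lit 152) (nat_lit 788688328110) (nat_lit 0) (nat_lit 3522253037656) (nat_lit 1) (nat_lit 5) (nat_lit 3) (nat_lit 4) (nat_lit 1) (nat_lit 4) (nat_lit 366) (nat_lit 289) (nat_lit 245)) (XT.lf (nat_lit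 0) (nat_lit 4060055142426) (nat_lit 152) (nat_lit 892024632088) (nat_lit 0) (nat_lit 4057938716117) (nat_lit 1) (nat_lit 5) (nat_lit 3) (nat_lit 4) (nat_lit 1) (nat_lit 4) (nat_lit 367) (nat_lit 289) (nat_lit 244))) (XT.nd (nat_lit 78) (nat_lit 0) (nat_lit 0) (XT.lf (nat_lit 0) (nat_lit 4676090541521) (nat_lit 152) (nat_lit 1010869141143) (nat_lit 0) (nat_lit 4673973601877) (nat_lit 1) (nat_lit 5) (nat_lit 3) (nat_lit 4) (nat_lit 1) (nat_lit 4) (nat_lit 368) (nat_lit 289) (nat_lit 243)) (XT.lf (nat_lit 0) (nat_lit 5384527937419) (nat_lit 152) (nat_lit 1147547073929) (nat_lit 0) (nat_lit 5382410551397) (nat_lit 1) (nat_lit 5) (nat_lit 3) (nat_lit 4) (nat_lit 1) (nat_lit 4) (nat_lit 369) (nat_lit 289) (nat_lit 242))))) (XT.nd (nat_lit 312) (nat_lit 0) (nat_lit 0) (XT.nd (nat_lit 156) (nat_lit 0) (nat_lit 0) (XT.nd (nat_lit 78) (nat_lit 0) (nat_lit 0) (XT.lf (nat_lit 0) (nat_lit 6199228061780)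 (nat_lit 152) (nat_lit 1304732563914) (nat_lit 0) (nat_lit 6197110287604) (nat_lit 1) (nat_lit 5) (nat_lit 3) (nat_lit 4) (nat_lit 1) (nat_lit 4) (nat_lit 370) (nat_lit 289) (nat_lit 241)) (XT.lf (nat_lit 0) (nat_lit 7136130699646) (nat_lit 152) (nat_lit 1485500979381) (nat_lit 0) (nat_lit 7134012587944) (nat_lit 1) (nat_lit 5) (nat_lit 3) (nat_lit 4) (nat_lit 1) (nat_lit 4) (nat_lit 371) (nat_lit 289) (nat_lit 240))) (XT.nd (nat_lit 78) (nat_lit 0) (nat_lit 0) (XT.lf (nat_lit 0) (nat_lit 8213566554801) (nat_lit 152) (nat_lit 1693389093675) (nat_lit 0) (nat_lit 8211448149598) (nat_lit 1) (nat_lit 5) (nat_lit 3) (nat_lit 4) (nat_lit 1) (nat_lit 4) (nat_lit 372) (nat_lit 289) (nat_lit 239)) (XT.lf (nat_lit 0) (nat_lit 9452615893976) (nat_lit 152) (nat_lit 1932464282946) (nat_lit 0) (nat_lit 9450497233554) (nat_lit 1) (nat_lit 5) (nat_lit 3) (nat_lit 4) (nat_lit 1) (nat_lit 4) (nat_lit 373)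 (nat_lit 289) (nat_lit 238)))) (XT.nd (nat_lit 42666) (nat_lit 0) (nat_lit 912) (XT.nd (nat_lit 78) (nat_lit 0) (nat_lit 0) (XT.lf (nat_lit 0) (nat_lit 10877520986850) (nat_lit 152) (nat_lit 2207404105246) (nat_lit 0) (nat_lit 10875402104500) (nat_lit 1) (nat_lit 5) (nat_lit 3) (nat_lit 4) (nat_lit 1) (nat_lit 4) (nat_lit 374) (nat_lit 289) (nat_lit 237)) (XT.lf (nat_lit 0) (nat_lit 12516160411328) (nat_lit 152) (nat_lit 2523587817966) (nat_lit 0) (nat_lit 12514041335996) (nat_lit 1) (nat_lit 5) (nat_lit 3) (nat_lit 4) (nat_lit 1) (nat_lit 4) (nat_lit 375) (nat_lit 289) (nat_lit 236))) (XT.nd (nat_lit 78) (nat_lit 152) (nat_lit 0) (XT.lf (nat_lit 0) (nat_lit 1177248607) (nat_lit 76) (nat_lit 4086879534) (nat_lit 76) (nat_lit 4086879534) (nat_lit 15) (nat_lit 4) (nat_lit 16) (nat_lit 5) (nat_lit 16) (nat_lit 4) (nat_lit 320) (nat_lit 290) (nat_lit 290)) (XT.lf (nat_lit 0) (nat_lit 3183947961)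 (nat_lit 152) (nat_lit 14579689195) (nat_lit 0) (nat_lit 2751238622) (nat_lit 13) (nat_lit 5) (nat_lit 15) (nat_lit 4) (nat_lit 13) (nat_lit 4) (nat_lit 321) (nat_lit 290) (nat_lit 289))))))) (XT.nd (nat_lit 1170) (nat_lit 152) (nat_lit 0) (XT.nd (nat_lit 546) (nat_lit 228) (nat_lit 0) (XT.nd (nat_lit 234) (nat_lit 228) (nat_lit 0) (XT.nd (nat_lit 78) (nat_lit 228) (nat_lit 0) (XT.lf (nat_lit 0) (nat_lit 7673846463) (nat_lit 76) (nat_lit 7867764649) (nat_lit 76) (nat_lit 7058786321) (nat_lit 12) (nat_lit 4) (nat_lit 13) (nat_lit 5) (nat_lit 13) (nat_lit 4) (nat_lit 322) (nat_lit 290) (nat_lit 288)) (XT.nd (nat_lit 78) (nat_lit 76) (nat_lit 0) (XT.lf (nat_lit 0) (nat_lit 4145439015) (nat_lit 152) (nat_lit 17780515280) (nat_lit 0) (nat_lit 3093430910) (nat_lit 10) (nat_lit 5) (nat_lit 12) (nat_lit 4) (nat_lit 10) (nat_lit 4) (nat_lit 323) (nat_lit 290) (nat_lit 287)) (XT.lf (nat_lit 0) (nat_lit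 3647017948) (nat_lit 76) (nat_lit 12736685065) (nat_lit 76) (nat_lit 11421238613) (nat_lit 9) (nat_lit 4) (nat_lit 10) (nat_lit 5) (nat_lit 10) (nat_lit 4) (nat_lit 324) (nat_lit 290) (nat_lit 286)))) (XT.nd (nat_lit 156) (nat_lit 76) (nat_lit 0) (XT.nd (nat_lit 78) (nat_lit 152) (nat_lit 0) (XT.lf (nat_lit 0) (nat_lit 27554974213) (nat_lit 76) (nat_lit 2514511386) (nat_lit 76) (nat_lit 969988111) (nat_lit 9) (nat_lit 4) (nat_lit 10) (nat_lit 5) (nat_lit 10) (nat_lit 4) (nat_lit 325) (nat_lit 290) (nat_lit 285)) (XT.lf (nat_lit 0) (nat_lit 10375794180) (nat_lit 152) (nat_lit 15610598528) (nat_lit 0) (nat_lit 8761238151) (nat_lit 7) (nat_lit 5) (nat_lit 9) (nat_lit 4) (nat_lit 7) (nat_lit 4) (nat_lit 326) (nat_lit 290) (nat_lit 284))) (XT.nd (nat_lit 78) (nat_lit 0) (nat_lit 0) (XT.lf (nat_lit 0) (nat_lit 4988066772) (nat_lit 76) (nat_lit 17916905834) (nat_lit 76) (nat_lit 16141965556) (nat_lit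 6) (nat_lit 4) (nat_lit 7) (nat_lit 5) (nat_lit 7) (nat_lit 4) (nat_lit 327) (nat_lit 290) (nat_lit 283)) (XT.lf (nat_lit 0) (nat_lit 28229279901) (nat_lit 76) (nat_lit 8847623937) (nat_lit 76) (nat_lit 6933219094) (nat_lit 6) (nat_lit 4) (nat_lit 7) (nat_lit 5) (nat_lit 7) (nat_lit 4) (nat_lit 328) (nat_lit 290) (nat_lit 282))))) (XT.nd (nat_lit 312) (nat_lit 0) (nat_lit 0) (XT.nd (nat_lit 156) (nat_lit 76) (nat_lit 0) (XT.nd (nat_lit 78) (nat_lit 0) (nat_lit 0) (XT.lf (nat_lit 0) (nat_lit 2984042965) (nat_lit 152) (nat_lit 45666781852) (nat_lit 0) (nat_lit 1099155579) (nat_lit 4) (nat_lit 5) (nat_lit 6) (nat_lit 4) (nat_lit 4) (nat_lit 4) (nat_lit 329) (nat_lit 290) (nat_lit 281)) (XT.lf (nat_lit 0) (nat_lit 14128739231) (nat_lit 152) (nat_lit 30049468983) (nat_lit 0) (nat_lit 12146208097) (nat_lit 4) (nat_lit 5) (nat_lit 6) (nat_lit 4) (nat_lit 4) (nat_lit 4) (nat_lit 330) (nat_lit 290)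 (nat_lit 280))) (XT.nd (nat_lit 78) (nat_lit 76) (nat_lit 0) (XT.lf (nat_lit 0) (nat_lit 26443068210) (nat_lit 152) (nat_lit 13106516997) (nat_lit 0) (nat_lit 24375629471) (nat_lit 4) (nat_lit 5) (nat_lit 6) (nat_lit 4) (nat_lit 4) (nat_lit 4) (nat_lit 331) (nat_lit 290) (nat_lit 279)) (XT.lf (nat_lit 0) (nat_lit 5782848129) (nat_lit 76) (nat_lit 34524191935) (nat_lit 76) (nat_lit 32382920494) (nat_lit 3) (nat_lit 4) (nat_lit 4) (nat_lit 5) (nat_lit 4) (nat_lit 4) (nat_lit 332) (nat_lit 290) (nat_lit 278)))) (XT.nd (nat_lit 156) (nat_lit 0) (nat_lit 0) (XT.nd (nat_lit 78) (nat_lit 0) (nat_lit 0) (XT.lf (nat_lit 0) (nat_lit 27489850268) (nat_lit 76) (nat_lit 28743233712) (nat_lit 76) (nat_lit 26537759923) (nat_lit 3) (nat_lit 4) (nat_lit 4) (nat_lit 5) (nat_lit 4) (nat_lit 4) (nat_lit 333) (nat_lit 290) (nat_lit 277)) (XT.lf (nat_lit 0) (nat_lit 51749025678) (nat_lit 76) (nat_lit 22451960237)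 (nat_lit 76) (nat_lit 20190658319) (nat_lit 3) (nat_lit 4) (nat_lit 4) (nat_lit 5) (nat_lit 4) (nat_lit 4) (nat_lit 334) (nat_lit 290) (nat_lit 276))) (XT.nd (nat_lit 78) (nat_lit 0) (nat_lit 0) (XT.lf (nat_lit 0) (nat_lit 79035010399) (nat_lit 76) (nat_lit 15527281377) (nat_lit 76) (nat_lit 13217433259) (nat_lit 3) (nat_lit 4) (nat_lit 4) (nat_lit 5) (nat_lit 4) (nat_lit 4) (nat_lit 335) (nat_lit 290) (nat_lit 275)) (XT.lf (nat_lit 0) (nat_lit 109881660653) (nat_lit 76) (nat_lit 7833714284) (nat_lit 76) (nat_lit 5481652079) (nat_lit 3) (nat_lit 4) (nat_lit 4) (nat_lit 5) (nat_lit 4) (nat_lit 4) (nat_lit 336) (nat_lit 290) (nat_lit 274)))))) (XT.nd (nat_lit 624) (nat_lit 0) (nat_lit 0) (XT.nd (nat_lit 312) (nat_lit 0) (nat_lit 0) (XT.nd (nat_lit 156) (nat_lit 0) (nat_lit 0) (XT.nd (nat_lit 78) (nat_lit 0) (nat_lit 0) (XT.lf (nat_lit 0) (nat_lit 3130828192) (nat_lit 152) (nat_lit 136879564020)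 (nat_lit 0) (nat_lit 919004019) (nat_lit 1) (nat_lit 5) (nat_lit 3) (nat_lit 4) (nat_lit 1) (nat_lit 4) (nat_lit 337) (nat_lit 290) (nat_lit 273)) (XT.lf (nat_lit 0) (nat_lit 13114863189) (nat_lit 152) (nat_lit 137289553944) (nat_lit 0) (nat_lit 10873483540) (nat_lit 1) (nat_lit 5) (nat_lit 3) (nat_lit 4) (nat_lit 1) (nat_lit 4) (nat_lit 338) (nat_lit 290) (nat_lit 272))) (XT.nd (nat_lit 78) (nat_lit 0) (nat_lit 0) (XT.lf (nat_lit 0) (nat_lit 24405752475) (nat_lit 152) (nat_lit 138149525452) (nat_lit 0) (nat_lit 22138672413) (nat_lit 1) (nat_lit 5) (nat_lit 3) (nat_lit 4) (nat_lit 1) (nat_lit 4) (nat_lit 339) (nat_lit 290) (nat_lit 271)) (XT.lf (nat_lit 0) (nat_lit 37224404755) (nat_lit 152) (nat_lit 139476304074) (nat_lit 0) (nat_lit 34934976506) (nat_lit 1) (nat_lit 5) (nat_lit 3) (nat_lit 4) (nat_lit 1) (nat_lit 4) (nat_lit 340) (nat_lit 290) (nat_lit 270)))) (XT.nd (nat_lit 156) (nat_lit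 0) (nat_lit 0) (XT.nd (nat_lit 78) (nat_lit 0) (nat_lit 0) (XT.lf (nat_lit 0) (nat_lit 51821619746) (nat_lit 152) (nat_lit 141295848522) (nat_lit 0) (nat_lit 49512758291) (nat_lit 1) (nat_lit 5) (nat_lit 3) (nat_lit 4) (nat_lit 1) (nat_lit 4) (nat_lit 341) (nat_lit 290) (nat_lit 269)) (XT.lf (nat_lit 0) (nat_lit 68482995132) (nat_lit 152) (nat_lit 143643758579) (nat_lit 0) (nat_lit 66157235239) (nat_lit 1) (nat_lit 5) (nat_lit 3) (nat_lit 4) (nat_lit 1) (nat_lit 4) (nat_lit 342) (nat_lit 290) (nat_lit 268))) (XT.nd (nat_lit 78) (nat_lit 0) (nat_lit 0) (XT.lf (nat_lit 0) (nat_lit 87534514347) (nat_lit 152) (nat_lit 146565971615) (nat_lit 0) (nat_lit 85194060158) (nat_lit 1) (nat_lit 5) (nat_lit 3) (nat_lit 4) (nat_lit 1) (nat_lit 4) (nat_lit 343) (nat_lit 290) (nat_lit 267)) (XT.lf (nat_lit 0) (nat_lit 109348924503) (nat_lit 152) (nat_lit 150119661363) (nat_lit 0) (nat_lit 106995692667)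 (nat_lit 1) (nat_lit 5) (nat_lit 3) (nat_lit 4) (nat_lit 1) (nat_lit 4) (nat_lit 344) (nat_lit 290) (nat_lit 266))))) (XT.nd (nat_lit 312) (nat_lit 0) (nat_lit 0) (XT.nd (nat_lit 156) (nat_lit 0) (nat_lit 0) (XT.nd (nat_lit 78) (nat_lit 0) (nat_lit 0) (XT.lf (nat_lit 0) (nat_lit 134353029280) (nat_lit 152) (nat_lit 154374356537) (nat_lit 0) (nat_lit 131988686445) (nat_lit 1) (nat_lit 5) (nat_lit 3) (nat_lit 4) (nat_lit 1) (nat_lit 4) (nat_lit 345) (nat_lit 290) (nat_lit 265)) (XT.lf (nat_lit 0) (nat_lit 163036039421) (nat_lit 152) (nat_lit 159413301171) (nat_lit 0) (nat_lit 160662034849) (nat_lit 1) (nat_lit 5) (nat_lit 3) (nat_lit 4) (nat_lit 1) (nat_lit 4) (nat_lit 346) (nat_lit 290) (nat_lit 264))) (XT.nd (nat_lit 78) (nat_lit 0) (nat_lit 0) (XT.lf (nat_lit 0) (nat_lit 195959144257) (nat_lit 152) (nat_lit 165335083314) (nat_lit 0) (nat_lit 193576738174) (nat_lit 1) (nat_lit 5) (nat_lit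 3) (nat_lit 4) (nat_lit 1) (nat_lit 4) (nat_lit 347) (nat_lit 290) (nat_lit 263)) (XT.lf (nat_lit 0) (nat_lit 233766491490) (nat_lit 152) (nat_lit 172255563920) (nat_lit 0) (nat_lit 231376779745) (nat_lit 1) (nat_lit 5) (nat_lit 3) (nat_lit 4) (nat_lit 1) (nat_lit 4) (nat_lit 348) (nat_lit 290) (nat_lit 262)))) (XT.nd (nat_lit 156) (nat_lit 0) (nat_lit 0) (XT.nd (nat_lit 78) (nat_lit 0) (nat_lit 0) (XT.lf (nat_lit 0) (nat_lit 277197790087) (nat_lit 152) (nat_lit 180310143697) (nat_lit 0) (nat_lit 274801725593) (nat_lit 1) (nat_lit 5) (nat_lit 3) (nat_lit 4) (nat_lit 1) (nat_lit 4) (nat_lit 349) (nat_lit 290) (nat_lit 261)) (XT.lf (nat_lit 0) (nat_lit 327102782849) (nat_lit 152) (nat_lit 189656412248) (nat_lit 0) (nat_lit 324701194225) (nat_lit 1) (nat_lit 5) (nat_lit 3) (nat_lit 4) (nat_lit 1) (nat_lit 4) (nat_lit 350) (nat_lit 290) (nat_lit 260))) (XT.nd (nat_lit 78) (nat_lit 0) (nat_lit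 0) (XT.lf (nat_lit 0) (nat_lit 384457871806) (nat_lit 152) (nat_lit 200477231351) (nat_lit 0) (nat_lit 382051479591) (nat_lit 1) (nat_lit 5) (nat_lit 3) (nat_lit 4) (nat_lit 1) (nat_lit 4) (nat_lit 351) (nat_lit 290) (nat_lit 259)) (XT.lf (nat_lit 0) (nat_lit 450385221743) (nat_lit 152) (nat_lit 212984312683) (nat_lit 0) (nat_lit 447974652492) (nat_lit 1) (nat_lit 5) (nat_lit 3) (nat_lit 4) (nat_lit 1) (nat_lit 4) (nat_lit 352) (nat_lit 290) (nat_lit 258))))))))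
noncomputable def xc13 : XT := (XT.nd (nat_lit 44772) (nat_lit 0) (nat_lit 0) (XT.nd (nat_lit 1170) (nat_lit 0) (nat_lit 0) (XT.nd (nat_lit 546) (nat_lit 0) (nat_lit 0) (XT.nd (nat_lit 234) (nat_lit 0) (nat_lit 0) (XT.nd (nat_lit 78) (nat_lit 0) (nat_lit 0) (XT.lf (nat_lit 0) (nat_lit 526174715593) (nat_lit 152) (nat_lit 227422360009) (nat_lit 0) (nat_lit 523760514137) (nat_lit 1) (nat_lit 5) (nat_lit 3) (nat_lit 4) (nat_lit 1) (nat_lit 4) (nat_lit 353) (nat_lit 290) (nat_lit 257)) (XT.nd (nat_lit 78) (nat_lit 0) (nat_lit 0) (XT.lf (nat_lit 0) (nat_lit 613309191280) (nat_lit 152) (nat_lit 244073856864) (nat_lit 0) (nat_lit 610891831385) (nat_lit 1) (nat_lit 5) (nat_lit 3) (nat_lit 4) (nat_lit 1) (nat_lit 4) (nat_lit 354) (nat_lit 290) (nat_lit 256)) (XT.lf (nat_lit 0) (nat_lit 713493453762) (nat_lit 152) (nat_lit 263264593404) (nat_lit 0) (nat_lit 711073347398) (nat_lit 1) (nat_lit 5) (nat_lit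 3) (nat_lit 4) (nat_lit 1) (nat_lit 4) (nat_lit 355) (nat_lit 290) (nat_lit 255)))) (XT.nd (nat_lit 156) (nat_lit 0) (nat_lit 0) (XT.nd (nat_lit 78) (nat_lit 0) (nat_lit 0) (XT.lf (nat_lit 0) (nat_lit 828687629915) (nat_lit 152) (nat_lit 285370040561) (nat_lit 0) (nat_lit 826265135317) (nat_lit 1) (nat_lit 5) (nat_lit 3) (nat_lit 4) (nat_lit 1) (nat_lit 4) (nat_lit 356) (nat_lit 290) (nat_lit 254)) (XT.lf (nat_lit 0) (nat_lit 961145518837) (nat_lit 152) (nat_lit 310822696215) (nat_lit 0) (nat_lit 958720947514) (nat_lit 1) (nat_lit 5) (nat_lit 3) (nat_lit 4) (nat_lit 1) (nat_lit 4) (nat_lit 357) (nat_lit 290) (nat_lit 253))) (XT.nd (nat_lit 78) (nat_lit 0) (nat_lit 0) (XT.lf (nat_lit 0) (nat_lit 1113458687919) (nat_lit 152) (nat_lit 340120547106) (nat_lit 0) (nat_lit 1111032310748) (nat_lit 1) (nat_lit 5) (nat_lit 3) (nat_lit 4) (nat_lit 1) (nat_lit 4) (nat_lit 358) (nat_lit 290) (nat_lit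 252)) (XT.lf (nat_lit 0) (nat_lit 1288607177427) (nat_lit 152) (nat_lit 373836812056) (nat_lit 0) (nat_lit 1286179229954) (nat_lit 1) (nat_lit 5) (nat_lit 3) (nat_lit 4) (nat_lit 1) (nat_lit 4) (nat_lit 359) (nat_lit 290) (nat_lit 251))))) (XT.nd (nat_lit 312) (nat_lit 0) (nat_lit 0) (XT.nd (nat_lit 156) (nat_lit 0) (nat_lit 0) (XT.nd (nat_lit 78) (nat_lit 0) (nat_lit 0) (XT.lf (nat_lit 0) (nat_lit 1490017805633) (nat_lit 152) (nat_lit 412631157118) (nat_lit 0) (nat_lit 1487588492680) (nat_lit 1) (nat_lit 5) (nat_lit 3) (nat_lit 4) (nat_lit 1) (nat_lit 4) (nat_lit 360) (nat_lit 290) (nat_lit 250)) (XT.lf (nat_lit 0) (nat_lit 1721631215263) (nat_lit 152) (nat_lit 457262602088) (nat_lit 0) (nat_lit 1719200714936) (nat_lit 1) (nat_lit 5) (nat_lit 3) (nat_lit 4) (nat_lit 1) (nat_lit 4) (nat_lit 361) (nat_lit 290) (nat_lit 249))) (XT.nd (nat_lit 78) (nat_lit 0) (nat_lit 0) (XT.lf (nat_lit 0)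 (nat_lit 1987978973028) (nat_lit 152) (nat_lit 508604370888) (nat_lit 0) (nat_lit 1985547440201) (nat_lit 1) (nat_lit 5) (nat_lit 3) (nat_lit 4) (nat_lit 1) (nat_lit 4) (nat_lit 362) (nat_lit 290) (nat_lit 248)) (XT.lf (nat_lit 0) (nat_lit 2294272230710) (nat_lit 152) (nat_lit 567660976387) (nat_lit 0) (nat_lit 2291839800057) (nat_lit 1) (nat_lit 5) (nat_lit 3) (nat_lit 4) (nat_lit 1) (nat_lit 4) (nat_lit 363) (nat_lit 290) (nat_lit 247)))) (XT.nd (nat_lit 156) (nat_lit 0) (nat_lit 0) (XT.nd (nat_lit 78) (nat_lit 0) (nat_lit 0) (XT.lf (nat_lit 0) (nat_lit 2646503682480) (nat_lit 152) (nat_lit 635587873909) (nat_lit 0) (nat_lit 2644070471110) (nat_lit 1) (nat_lit 5) (nat_lit 3) (nat_lit 4) (nat_lit 1) (nat_lit 4) (nat_lit 364) (nat_lit 290) (nat_lit 246)) (XT.lf (nat_lit 0) (nat_lit 3051564813266) (nat_lit 152) (nat_lit 713714067970) (nat_lit 0) (nat_lit 3049130923010) (nat_lit 1) (nat_lit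 5) (nat_lit 3) (nat_lit 4) (nat_lit 1) (nat_lit 4) (nat_lit 365) (nat_lit 290) (nat_lit 245))) (XT.nd (nat_lit 78) (nat_lit 0) (nat_lit 0) (XT.lf (nat_lit 0) (nat_lit 3517380732146) (nat_lit 152) (nat_lit 803568114543) (nat_lit 0) (nat_lit 3514946251556) (nat_lit 1) (nat_lit 5) (nat_lit 3) (nat_lit 4) (nat_lit 1) (nat_lit 4) (nat_lit 366) (nat_lit 290) (nat_lit 244)) (XT.lf (nat_lit 0) (nat_lit 4053065228839) (nat_lit 152) (nat_lit 906908027581) (nat_lit 0) (nat_lit 4050630234914) (nat_lit 1) (nat_lit 5) (nat_lit 3) (nat_lit 4) (nat_lit 1) (nat_lit 4) (nat_lit 367) (nat_lit 290) (nat_lit 243)))))) (XT.nd (nat_lit 42978) (nat_lit 0) (nat_lit 608) (XT.nd (nat_lit 312) (nat_lit 0) (nat_lit 0) (XT.nd (nat_lit 156) (nat_lit 0) (nat_lit 0) (XT.nd (nat_lit 78) (nat_lit 0) (nat_lit 0) (XT.lf (nat_lit 0) (nat_lit 4669099086976) (nat_lit 152) (nat_lit 1025755674949) (nat_lit 0) (nat_lit 4666663646673)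 (nat_lit 1) (nat_lit 5) (nat_lit 3) (nat_lit 4) (nat_lit 1) (nat_lit 4) (nat_lit 368) (nat_lit 290) (nat_lit 242)) (XT.lf (nat_lit 0) (nat_lit 5377535142910) (nat_lit 152) (nat_lit 1162436336703) (nat_lit 0) (nat_lit 5375099314453) (nat_lit 1) (nat_lit 5) (nat_lit 3) (nat_lit 4) (nat_lit 1) (nat_lit 4) (nat_lit 369) (nat_lit 290) (nat_lit 241))) (XT.nd (nat_lit 78) (nat_lit 0) (nat_lit 0) (XT.lf (nat_lit 0) (nat_lit 6192234102086) (nat_lit 152) (nat_lit 1319624199704) (nat_lit 0) (nat_lit 6189797936102) (nat_lit 1) (nat_lit 5) (nat_lit 3) (nat_lit 4) (nat_lit 1) (nat_lit 4) (nat_lit 370) (nat_lit 290) (nat_lit 240)) (XT.lf (nat_lit 0) (nat_lit 7129135726746) (nat_lit 152) (nat_lit 1500394678663) (nat_lit 0) (nat_lit 7126699267262) (nat_lit 1) (nat_lit 5) (nat_lit 3) (nat_lit 4) (nat_lit 1) (nat_lit 4) (nat_lit 371) (nat_lit 290) (nat_lit 239)))) (XT.nd (nat_lit 156) (nat_lit 0) (nat_lit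 0) (XT.nd (nat_lit 78) (nat_lit 0) (nat_lit 0) (XT.lf (nat_lit 0) (nat_lit 8206570700853) (nat_lit 152) (nat_lit 1708284587298) (nat_lit 0) (nat_lit 8204133986151) (nat_lit 1) (nat_lit 5) (nat_lit 3) (nat_lit 4) (nat_lit 1) (nat_lit 4) (nat_lit 372) (nat_lit 290) (nat_lit 238)) (XT.lf (nat_lit 0) (nat_lit 9445619273899) (nat_lit 152) (nat_lit 1947361336866) (nat_lit 0) (nat_lit 9443182337268) (nat_lit 1) (nat_lit 5) (nat_lit 3) (nat_lit 4) (nat_lit 1) (nat_lit 4) (nat_lit 373) (nat_lit 290) (nat_lit 237))) (XT.nd (nat_lit 78) (nat_lit 0) (nat_lit 0) (XT.lf (nat_lit 0) (nat_lit 10870523700575) (nat_lit 152) (nat_lit 2222302515945) (nat_lit 0) (nat_lit 10868086570962) (nat_lit 1) (nat_lit 5) (nat_lit 3) (nat_lit 4) (nat_lit 1) (nat_lit 4) (nat_lit 374) (nat_lit 290) (nat_lit 236)) (XT.lf (nat_lit 0) (nat_lit 12509162545749) (nat_lit 152) (nat_lit 2538487408473) (nat_lit 0) (nat_lit 12506725248327)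 (nat_lit 1) (nat_lit 5) (nat_lit 3) (nat_lit 4) (nat_lit 1) (nat_lit 4) (nat_lit 375) (nat_lit 290) (nat_lit 235))))) (XT.nd (nat_lit 312) (nat_lit 304) (nat_lit 0) (XT.nd (nat_lit 156) (nat_lit 380) (nat_lit 0) (XT.nd (nat_lit 78) (nat_lit 76) (nat_lit 0) (XT.lf (nat_lit 0) (nat_lit 2225181725) (nat_lit 152) (nat_lit 3414597397) (nat_lit 0) (nat_lit 2225181725) (nat_lit 19) (nat_lit 5) (nat_lit 21) (nat_lit 4) (nat_lit 19) (nat_lit 4) (nat_lit 318) (nat_lit 291) (nat_lit 291)) (XT.lf (nat_lit 0) (nat_lit 14877292443) (nat_lit 76) (nat_lit 1421248439) (nat_lit 76) (nat_lit 840829441) (nat_lit 18) (nat_lit 4) (nat_lit 19) (nat_lit 5) (nat_lit 19) (nat_lit 4) (nat_lit 319) (nat_lit 291) (nat_lit 290))) (XT.nd (nat_lit 78) (nat_lit 152) (nat_lit 0) (XT.lf (nat_lit 0) (nat_lit 1281075236) (nat_lit 76) (nat_lit 9234874940) (nat_lit 76) (nat_lit 8230123857) (nat_lit 15) (nat_lit 4) (nat_lit 16)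 (nat_lit 5) (nat_lit 16) (nat_lit 4) (nat_lit 320) (nat_lit 291) (nat_lit 289)) (XT.lf (nat_lit 0) (nat_lit 2549156331) (nat_lit 152) (nat_lit 16813888596) (nat_lit 0) (nat_lit 1242562264) (nat_lit 13) (nat_lit 5) (nat_lit 15) (nat_lit 4) (nat_lit 13) (nat_lit 4) (nat_lit 321) (nat_lit 291) (nat_lit 288)))) (XT.nd (nat_lit 156) (nat_lit 76) (nat_lit 0) (XT.nd (nat_lit 78) (nat_lit 152) (nat_lit 0) (XT.lf (nat_lit 0) (nat_lit 4370795499) (nat_lit 76) (nat_lit 9998584570) (nat_lit 76) (nat_lit 8364800077) (nat_lit 12) (nat_lit 4) (nat_lit 13) (nat_lit 5) (nat_lit 13) (nat_lit 4) (nat_lit 322) (nat_lit 291) (nat_lit 287)) (XT.lf (nat_lit 0) (nat_lit 2302990818) (nat_lit 152) (nat_lit 22374087350) (nat_lit 0) (nat_lit 526789052) (nat_lit 10) (nat_lit 5) (nat_lit 12) (nat_lit 4) (nat_lit 10) (nat_lit 4) (nat_lit 323) (nat_lit 291) (nat_lit 286))) (XT.nd (nat_lit 78) (nat_lit 76) (nat_lit 0)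 (XT.lf (nat_lit 0) (nat_lit 14052455372) (nat_lit 152) (nat_lit 1928934753) (nat_lit 0) (nat_lit 12047176784) (nat_lit 10) (nat_lit 5) (nat_lit 12) (nat_lit 4) (nat_lit 10) (nat_lit 4) (nat_lit 324) (nat_lit 291) (nat_lit 285)) (XT.lf (nat_lit 0) (nat_lit 21145216311) (nat_lit 76) (nat_lit 6177805010) (nat_lit 76) (nat_lit 3973329185) (nat_lit 9) (nat_lit 4) (nat_lit 10) (nat_lit 5) (nat_lit 10) (nat_lit 4) (nat_lit 325) (nat_lit 291) (nat_lit 284))))))) (XT.nd (nat_lit 1170) (nat_lit 0) (nat_lit 0) (XT.nd (nat_lit 546) (nat_lit 228) (nat_lit 0) (XT.nd (nat_lit 234) (nat_lit 152) (nat_lit 0) (XT.nd (nat_lit 78) (nat_lit 76) (nat_lit 0) (XT.lf (nat_lit 0) (nat_lit 6909681533) (nat_lit 152) (nat_lit 23441556983) (nat_lit 0) (nat_lit 4708115964) (nat_lit 7) (nat_lit 5) (nat_lit 9) (nat_lit 4) (nat_lit 7) (nat_lit 4) (nat_lit 326) (nat_lit 291) (nat_lit 283)) (XT.nd (nat_lit 78) (nat_lit 76)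 (nat_lit 0) (XT.lf (nat_lit 0) (nat_lit 19013027950) (nat_lit 152) (nat_lit 3707726509) (nat_lit 0) (nat_lit 16671997817) (nat_lit 7) (nat_lit 5) (nat_lit 9) (nat_lit 4) (nat_lit 7) (nat_lit 4) (nat_lit 327) (nat_lit 291) (nat_lit 282)) (XT.lf (nat_lit 0) (nat_lit 18775015843) (nat_lit 76) (nat_lit 14036558245) (nat_lit 76) (nat_lit 11574254577) (nat_lit 6) (nat_lit 4) (nat_lit 7) (nat_lit 5) (nat_lit 7) (nat_lit 4) (nat_lit 328) (nat_lit 291) (nat_lit 281)))) (XT.nd (nat_lit 156) (nat_lit 0) (nat_lit 0) (XT.nd (nat_lit 78) (nat_lit 152) (nat_lit 0) (XT.lf (nat_lit 0) (nat_lit 43801705847) (nat_lit 76) (nat_lit 4463564515) (nat_lit 76) (nat_lit 1895805600) (nat_lit 6) (nat_lit 4) (nat_lit 7) (nat_lit 5) (nat_lit 7) (nat_lit 4) (nat_lit 329) (nat_lit 291) (nat_lit 280)) (XT.lf (nat_lit 0) (nat_lit 8837677527) (nat_lit 152) (nat_lit 41566765004) (nat_lit 0) (nat_lit 6375215370) (nat_lit 4)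 (nat_lit 5) (nat_lit 6) (nat_lit 4) (nat_lit 4) (nat_lit 4) (nat_lit 330) (nat_lit 291) (nat_lit 279))) (XT.nd (nat_lit 78) (nat_lit 0) (nat_lit 0) (XT.lf (nat_lit 0) (nat_lit 20948944130) (nat_lit 152) (nat_lit 25035120525) (nat_lit 0) (nat_lit 18412649272) (nat_lit 4) (nat_lit 5) (nat_lit 6) (nat_lit 4) (nat_lit 4) (nat_lit 4) (nat_lit 331) (nat_lit 291) (nat_lit 278)) (XT.lf (nat_lit 0) (nat_lit 34497262368) (nat_lit 152) (nat_lit 6792695585) (nat_lit 0) (nat_lit 31896765161) (nat_lit 4) (nat_lit 5) (nat_lit 6) (nat_lit 4) (nat_lit 4) (nat_lit 4) (nat_lit 332) (nat_lit 291) (nat_lit 277))))) (XT.nd (nat_lit 312) (nat_lit 152) (nat_lit 0) (XT.nd (nat_lit 156) (nat_lit 0) (nat_lit 0) (XT.nd (nat_lit 78) (nat_lit 0) (nat_lit 0) (XT.lf (nat_lit 0) (nat_lit 14229230567) (nat_lit 76) (nat_lit 35860690801) (nat_lit 76) (nat_lit 33204365465) (nat_lit 3) (nat_lit 4) (nat_lit 4) (nat_lit 5) (nat_lit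 4) (nat_lit 4) (nat_lit 333) (nat_lit 291) (nat_lit 276)) (XT.lf (nat_lit 0) (nat_lit 38203723651) (nat_lit 76) (nat_lit 29713736227) (nat_lit 76) (nat_lit 27008864691) (nat_lit 3) (nat_lit 4) (nat_lit 4) (nat_lit 5) (nat_lit 4) (nat_lit 4) (nat_lit 334) (nat_lit 291) (nat_lit 275))) (XT.nd (nat_lit 78) (nat_lit 0) (nat_lit 0) (XT.lf (nat_lit 0) (nat_lit 65242158523) (nat_lit 76) (nat_lit 22914552062) (nat_lit 76) (nat_lit 20167466440) (nat_lit 3) (nat_lit 4) (nat_lit 4) (nat_lit 5) (nat_lit 4) (nat_lit 4) (nat_lit 335) (nat_lit 291) (nat_lit 274)) (XT.lf (nat_lit 0) (nat_lit 95873548040) (nat_lit 76) (nat_lit 15330110792) (nat_lit 76) (nat_lit 12546317268) (nat_lit 3) (nat_lit 4) (nat_lit 4) (nat_lit 5) (nat_lit 4) (nat_lit 4) (nat_lit 336) (nat_lit 291) (nat_lit 273)))) (XT.nd (nat_lit 156) (nat_lit 0) (nat_lit 0) (XT.nd (nat_lit 78) (nat_lit 152) (nat_lit 0) (XT.lf (nat_lit 0) (nat_lit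 130697201996) (nat_lit 76) (nat_lit 6812021173) (nat_lit 76) (nat_lit 3996307735) (nat_lit 3) (nat_lit 4) (nat_lit 4) (nat_lit 5) (nat_lit 4) (nat_lit 4) (nat_lit 337) (nat_lit 291) (nat_lit 272)) (XT.lf (nat_lit 0) (nat_lit 5654352293) (nat_lit 152) (nat_lit 153228529477) (nat_lit 0) (nat_lit 3021509807) (nat_lit 1) (nat_lit 5) (nat_lit 3) (nat_lit 4) (nat_lit 1) (nat_lit 4) (nat_lit 338) (nat_lit 291) (nat_lit 271))) (XT.nd (nat_lit 78) (nat_lit 0) (nat_lit 0) (XT.lf (nat_lit 0) (nat_lit 16868092557) (nat_lit 152) (nat_lit 154245622561) (nat_lit 0) (nat_lit 14212901884) (nat_lit 1) (nat_lit 5) (nat_lit 3) (nat_lit 4) (nat_lit 1) (nat_lit 4) (nat_lit 339) (nat_lit 291) (nat_lit 270)) (XT.lf (nat_lit 0) (nat_lit 29619658729) (nat_lit 152) (nat_lit 155709028640) (nat_lit 0) (nat_lit 26945034851) (nat_lit 1) (nat_lit 5) (nat_lit 3) (nat_lit 4) (nat_lit 1) (nat_lit 4) (nat_lit 340) (nat_lit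 291) (nat_lit 269)))))) (XT.nd (nat_lit 624) (nat_lit 0) (nat_lit 0) (XT.nd (nat_lit 312) (nat_lit 0) (nat_lit 0) (XT.nd (nat_lit 156) (nat_lit 0) (nat_lit 0) (XT.nd (nat_lit 78) (nat_lit 0) (nat_lit 0) (XT.lf (nat_lit 0) (nat_lit 44158537974) (nat_lit 152) (nat_lit 157647379573) (nat_lit 0) (nat_lit 41467015657) (nat_lit 1) (nat_lit 5) (nat_lit 3) (nat_lit 4) (nat_lit 1) (nat_lit 4) (nat_lit 341) (nat_lit 291) (nat_lit 268)) (XT.lf (nat_lit 0) (nat_lit 60769186626) (nat_lit 152) (nat_lit 160098599616) (nat_lit 0) (nat_lit 58062970014) (nat_lit 1) (nat_lit 5) (nat_lit 3) (nat_lit 4) (nat_lit 1) (nat_lit 4) (nat_lit 342) (nat_lit 291) (nat_lit 267))) (XT.nd (nat_lit 78) (nat_lit 0) (nat_lit 0) (XT.lf (nat_lit 0) (nat_lit 79776595636) (nat_lit 152) (nat_lit 163110647422) (nat_lit 0) (nat_lit 77057601376) (nat_lit 1) (nat_lit 5) (nat_lit 3) (nat_lit 4) (nat_lit 1) (nat_lit 4) (nat_lit 343)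 (nat_lit 291) (nat_lit 266)) (XT.lf (nat_lit 0) (nat_lit 101552649093) (nat_lit 152) (nat_lit 166742454363) (nat_lit 0) (nat_lit 98822543835) (nat_lit 1) (nat_lit 5) (nat_lit 3) (nat_lit 4) (nat_lit 1) (nat_lit 4) (nat_lit 344) (nat_lit 291) (nat_lit 265)))) (XT.nd (nat_lit 156) (nat_lit 0) (nat_lit 0) (XT.nd (nat_lit 78) (nat_lit 0) (nat_lit 0) (XT.lf (nat_lit 0) (nat_lit 126523400218) (nat_lit 152) (nat_lit 171065077529) (nat_lit 0) (nat_lit 123783633222) (nat_lit 1) (nat_lit 5) (nat_lit 3) (nat_lit 4) (nat_lit 1) (nat_lit 4) (nat_lit 345) (nat_lit 291) (nat_lit 264)) (XT.lf (nat_lit 0) (nat_lit 155177407184) (nat_lit 152) (nat_lit 176163089984) (nat_lit 0) (nat_lit 152429238677) (nat_lit 1) (nat_lit 5) (nat_lit 3) (nat_lit 4) (nat_lit 1) (nat_lit 4) (nat_lit 346) (nat_lit 291) (nat_lit 263))) (XT.nd (nat_lit 78) (nat_lit 0) (nat_lit 0) (XT.lf (nat_lit 0) (nat_lit 188075291867) (nat_lit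 152) (nat_lit 182136235448) (nat_lit 0) (nat_lit 185319817698) (nat_lit 1) (nat_lit 5) (nat_lit 3) (nat_lit 4) (nat_lit 1) (nat_lit 4) (nat_lit 347) (nat_lit 291) (nat_lit 262)) (XT.lf (nat_lit 0) (nat_lit 225860708532) (nat_lit 152) (nat_lit 189101379812) (nat_lit 0) (nat_lit 223098881614) (nat_lit 1) (nat_lit 5) (nat_lit 3) (nat_lit 4) (nat_lit 1) (nat_lit 4) (nat_lit 348) (nat_lit 291) (nat_lit 261))))) (XT.nd (nat_lit 312) (nat_lit 0) (nat_lit 0) (XT.nd (nat_lit 156) (nat_lit 0) (nat_lit 0) (XT.nd (nat_lit 78) (nat_lit 0) (nat_lit 0) (XT.lf (nat_lit 0) (nat_lit 269272937071) (nat_lit 152) (nat_lit 197194797639) (nat_lit 0) (nat_lit 266505586024) (nat_lit 1) (nat_lit 5) (nat_lit 3) (nat_lit 4) (nat_lit 1) (nat_lit 4) (nat_lit 349) (nat_lit 291) (nat_lit 260)) (XT.lf (nat_lit 0) (nat_lit 319161347173) (nat_lit 152) (nat_lit 206574838409) (nat_lit 0) (nat_lit 316389192534) (nat_lit 1)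 (nat_lit 5) (nat_lit 3) (nat_lit 4) (nat_lit 1) (nat_lit 4) (nat_lit 350) (nat_lit 291) (nat_lit 259))) (XT.nd (nat_lit 78) (nat_lit 0) (nat_lit 0) (XT.lf (nat_lit 0) (nat_lit 376502016426) (nat_lit 152) (nat_lit 217425024657) (nat_lit 0) (nat_lit 373725684751) (nat_lit 1) (nat_lit 5) (nat_lit 3) (nat_lit 4) (nat_lit 1) (nat_lit 4) (nat_lit 351) (nat_lit 291) (nat_lit 258)) (XT.lf (nat_lit 0) (nat_lit 442416827490) (nat_lit 152) (nat_lit 229957642638) (nat_lit 0) (nat_lit 439636863610) (nat_lit 1) (nat_lit 5) (nat_lit 3) (nat_lit 4) (nat_lit 1) (nat_lit 4) (nat_lit 352) (nat_lit 291) (nat_lit 257)))) (XT.nd (nat_lit 156) (nat_lit 0) (nat_lit 0) (XT.nd (nat_lit 78) (nat_lit 0) (nat_lit 0) (XT.lf (nat_lit 0) (nat_lit 518195417972) (nat_lit 152) (nat_lit 244417895746) (nat_lit 0) (nat_lit 515412295653) (nat_lit 1) (nat_lit 5) (nat_lit 3) (nat_lit 4) (nat_lit 1) (nat_lit 4) (nat_lit 353) (nat_lit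 291) (nat_lit 256)) (XT.lf (nat_lit 0) (nat_lit 605320412469) (nat_lit 152) (nat_lit 261088701976) (nat_lit 0) (nat_lit 602534543682) (nat_lit 1) (nat_lit 5) (nat_lit 3) (nat_lit 4) (nat_lit 1) (nat_lit 4) (nat_lit 354) (nat_lit 291) (nat_lit 255))) (XT.nd (nat_lit 78) (nat_lit 0) (nat_lit 0) (XT.lf (nat_lit 0) (nat_lit 705496430439) (nat_lit 152) (nat_lit 280296229277) (nat_lit 0) (nat_lit 702708173418) (nat_lit 1) (nat_lit 5) (nat_lit 3) (nat_lit 4) (nat_lit 1) (nat_lit 4) (nat_lit 355) (nat_lit 291) (nat_lit 254)) (XT.lf (nat_lit 0) (nat_lit 820683437450) (nat_lit 152) (nat_lit 302416277096) (nat_lit 0) (nat_lit 817893103704) (nat_lit 1) (nat_lit 5) (nat_lit 3) (nat_lit 4) (nat_lit 1) (nat_lit 4) (nat_lit 356) (nat_lit 291) (nat_lit 253))))))))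
noncomputable def xc14 : XT := (XT.nd (nat_lit 44538) (nat_lit 0) (nat_lit 0) (XT.nd (nat_lit 1170) (nat_lit 0) (nat_lit 0) (XT.nd (nat_lit 546) (nat_lit 0) (nat_lit 0) (XT.nd (nat_lit 234) (nat_lit 0) (nat_lit 0) (XT.nd (nat_lit 78) (nat_lit 0) (nat_lit 0) (XT.lf (nat_lit 0) (nat_lit 953135092336) (nat_lit 152) (nat_lit 327881628977) (nat_lit 0) (nat_lit 950342952742) (nat_lit 1) (nat_lit 5) (nat_lit 3) (nat_lit 4) (nat_lit 1) (nat_lit 4) (nat_lit 357) (nat_lit 291) (nat_lit 252)) (XT.nd (nat_lit 78) (nat_lit 0) (nat_lit 0) (XT.lf (nat_lit 0) (nat_lit 1105442840517) (nat_lit 152) (nat_lit 357190520066) (nat_lit 0) (nat_lit 1102649130621) (nat_lit 1) (nat_lit 5) (nat_lit 3) (nat_lit 4) (nat_lit 1) (nat_lit 4) (nat_lit 358) (nat_lit 291) (nat_lit 251)) (XT.lf (nat_lit 0) (nat_lit 1280586616198) (nat_lit 152) (nat_lit 390916385188) (nat_lit 0) (nat_lit 1277791540821) (nat_lit 1) (nat_lit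 5) (nat_lit 3) (nat_lit 4) (nat_lit 1) (nat_lit 4) (nat_lit 359) (nat_lit 291) (nat_lit 250)))) (XT.nd (nat_lit 156) (nat_lit 0) (nat_lit 0) (XT.nd (nat_lit 78) (nat_lit 0) (nat_lit 0) (XT.lf (nat_lit 0) (nat_lit 1481993145425) (nat_lit 152) (nat_lit 429719078226) (nat_lit 0) (nat_lit 1479196882674) (nat_lit 1) (nat_lit 5) (nat_lit 3) (nat_lit 4) (nat_lit 1) (nat_lit 4) (nat_lit 360) (nat_lit 291) (nat_lit 249)) (XT.lf (nat_lit 0) (nat_lit 1713602990725) (nat_lit 152) (nat_lit 474357782305) (nat_lit 0) (nat_lit 1710805695474) (nat_lit 1) (nat_lit 5) (nat_lit 3) (nat_lit 4) (nat_lit 1) (nat_lit 4) (nat_lit 361) (nat_lit 291) (nat_lit 248))) (XT.nd (nat_lit 78) (nat_lit 0) (nat_lit 0) (XT.lf (nat_lit 0) (nat_lit 1979947649072) (nat_lit 152) (nat_lit 525705863374) (nat_lit 0) (nat_lit 1977149455996) (nat_lit 1) (nat_lit 5) (nat_lit 3) (nat_lit 4) (nat_lit 1) (nat_lit 4) (nat_lit 362) (nat_lit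 291) (nat_lit 247)) (XT.lf (nat_lit 0) (nat_lit 2286238211608) (nat_lit 152) (nat_lit 584767957802) (nat_lit 0) (nat_lit 2283439237814) (nat_lit 1) (nat_lit 5) (nat_lit 3) (nat_lit 4) (nat_lit 1) (nat_lit 4) (nat_lit 363) (nat_lit 291) (nat_lit 246))))) (XT.nd (nat_lit 312) (nat_lit 0) (nat_lit 0) (XT.nd (nat_lit 156) (nat_lit 0) (nat_lit 0) (XT.nd (nat_lit 78) (nat_lit 0) (nat_lit 0) (XT.lf (nat_lit 0) (nat_lit 2638467319773) (nat_lit 152) (nat_lit 652699628306) (nat_lit 0) (nat_lit 2635667667094) (nat_lit 1) (nat_lit 5) (nat_lit 3) (nat_lit 4) (nat_lit 1) (nat_lit 4) (nat_lit 364) (nat_lit 291) (nat_lit 245)) (XT.lf (nat_lit 0) (nat_lit 3043526412641) (nat_lit 152) (nat_lit 730829972788) (nat_lit 0) (nat_lit 3040726169627) (nat_lit 1) (nat_lit 5) (nat_lit 3) (nat_lit 4) (nat_lit 1) (nat_lit 4) (nat_lit 365) (nat_lit 291) (nat_lit 244))) (XT.nd (nat_lit 78) (nat_lit 0) (nat_lit 0) (XT.lf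 (nat_lit 0) (nat_lit 3509340559419) (nat_lit 152) (nat_lit 820687628421) (nat_lit 0) (nat_lit 3506539803071) (nat_lit 1) (nat_lit 5) (nat_lit 3) (nat_lit 4) (nat_lit 1) (nat_lit 4) (nat_lit 366) (nat_lit 291) (nat_lit 243)) (XT.lf (nat_lit 0) (nat_lit 4045023515154) (nat_lit 152) (nat_lit 924030679772) (nat_lit 0) (nat_lit 4042222312428) (nat_lit 1) (nat_lit 5) (nat_lit 3) (nat_lit 4) (nat_lit 1) (nat_lit 4) (nat_lit 367) (nat_lit 291) (nat_lit 242)))) (XT.nd (nat_lit 156) (nat_lit 0) (nat_lit 0) (XT.nd (nat_lit 78) (nat_lit 0) (nat_lit 0) (XT.lf (nat_lit 0) (nat_lit 4661056033327) (nat_lit 152) (nat_lit 1042881056108) (nat_lit 0) (nat_lit 4658254442446) (nat_lit 1) (nat_lit 5) (nat_lit 3) (nat_lit 4) (nat_lit 1) (nat_lit 4) (nat_lit 368) (nat_lit 291) (nat_lit 241)) (XT.lf (nat_lit 0) (nat_lit 5369490924076) (nat_lit 152) (nat_lit 1179564090878) (nat_lit 0) (nat_lit 5366688995669) (nat_lit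 1) (nat_lit 5) (nat_lit 3) (nat_lit 4) (nat_lit 1) (nat_lit 4) (nat_lit 369) (nat_lit 291) (nat_lit 240))) (XT.nd (nat_lit 78) (nat_lit 0) (nat_lit 0) (XT.lf (nat_lit 0) (nat_lit 6184188870046) (nat_lit 152) (nat_lit 1336754017370) (nat_lit 0) (nat_lit 6181386648138) (nat_lit 1) (nat_lit 5) (nat_lit 3) (nat_lit 4) (nat_lit 1) (nat_lit 4) (nat_lit 370) (nat_lit 291) (nat_lit 239)) (XT.lf (nat_lit 0) (nat_lit 7121089613659) (nat_lit 152) (nat_lit 1517526290670) (nat_lit 0) (nat_lit 7118287136533) (nat_lit 1) (nat_lit 5) (nat_lit 3) (nat_lit 4) (nat_lit 1) (nat_lit 4) (nat_lit 371) (nat_lit 291) (nat_lit 238)))))) (XT.nd (nat_lit 42744) (nat_lit 0) (nat_lit 456) (XT.nd (nat_lit 234) (nat_lit 0) (nat_lit 0) (XT.nd (nat_lit 78) (nat_lit 0) (nat_lit 0) (XT.lf (nat_lit 0) (nat_lit 8198523821637) (nat_lit 152) (nat_lit 1725417759602) (nat_lit 0) (nat_lit 8195721122582) (nat_lit 1) (nat_lit 5) (nat_lit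 3) (nat_lit 4) (nat_lit 1) (nat_lit 4) (nat_lit 372) (nat_lit 291) (nat_lit 237)) (XT.nd (nat_lit 78) (nat_lit 0) (nat_lit 0) (XT.lf (nat_lit 0) (nat_lit 9437571728484) (nat_lit 152) (nat_lit 1964495865949) (nat_lit 0) (nat_lit 9434768836448) (nat_lit 1) (nat_lit 5) (nat_lit 3) (nat_lit 4) (nat_lit 1) (nat_lit 4) (nat_lit 373) (nat_lit 291) (nat_lit 236)) (XT.lf (nat_lit 0) (nat_lit 10862475575856) (nat_lit 152) (nat_lit 2239438224836) (nat_lit 0) (nat_lit 10859672516010) (nat_lit 1) (nat_lit 5) (nat_lit 3) (nat_lit 4) (nat_lit 1) (nat_lit 4) (nat_lit 374) (nat_lit 291) (nat_lit 235)))) (XT.nd (nat_lit 42354) (nat_lit 0) (nat_lit 1368) (XT.nd (nat_lit 42276) (nat_lit 0) (nat_lit 1748) (XT.lf (nat_lit 0) (nat_lit 12501113917289) (nat_lit 152) (nat_lit 2555624143284) (nat_lit 0) (nat_lit 12498310711521) (nat_lit 1) (nat_lit 5) (nat_lit 3) (nat_lit 4) (nat_lit 1) (nat_lit 4) (nat_lit 375)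 (nat_lit 291) (nat_lit 234)) (XT.lf (nat_lit 0) (nat_lit 5117349301) (nat_lit 76) (nat_lit 793750938) (nat_lit 76) (nat_lit 793750938) (nat_lit 24) (nat_lit 4) (nat_lit 25) (nat_lit 5) (nat_lit 25) (nat_lit 4) (nat_lit 316) (nat_lit 292) (nat_lit 292))) (XT.nd (nat_lit 78) (nat_lit 152) (nat_lit 0) (XT.lf (nat_lit 0) (nat_lit 2454640718) (nat_lit 76) (nat_lit 6387861523) (nat_lit 76) (nat_lit 5666981127) (nat_lit 21) (nat_lit 4) (nat_lit 22) (nat_lit 5) (nat_lit 22) (nat_lit 4) (nat_lit 317) (nat_lit 292) (nat_lit 291)) (XT.lf (nat_lit 0) (nat_lit 4595558683) (nat_lit 152) (nat_lit 7828587704) (nat_lit 0) (nat_lit 3347657837) (nat_lit 19) (nat_lit 5) (nat_lit 21) (nat_lit 4) (nat_lit 19) (nat_lit 4) (nat_lit 318) (nat_lit 292) (nat_lit 290))))) (XT.nd (nat_lit 312) (nat_lit 456) (nat_lit 0) (XT.nd (nat_lit 156) (nat_lit 228) (nat_lit 0) (XT.nd (nat_lit 78) (nat_lit 152) (nat_lit 0) (XT.lf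 (nat_lit 0) (nat_lit 12910473994) (nat_lit 76) (nat_lit 3031797816) (nat_lit 76) (nat_lit 1279184798) (nat_lit 18) (nat_lit 4) (nat_lit 19) (nat_lit 5) (nat_lit 19) (nat_lit 4) (nat_lit 319) (nat_lit 292) (nat_lit 289)) (XT.lf (nat_lit 0) (nat_lit 9521182679) (nat_lit 152) (nat_lit 1862135668) (nat_lit 0) (nat_lit 7492022339) (nat_lit 16) (nat_lit 5) (nat_lit 18) (nat_lit 4) (nat_lit 16) (nat_lit 4) (nat_lit 320) (nat_lit 292) (nat_lit 288))) (XT.nd (nat_lit 78) (nat_lit 76) (nat_lit 0) (XT.lf (nat_lit 0) (nat_lit 882988423) (nat_lit 152) (nat_lit 545910079) (nat_lit 76) (nat_lit 19356063133) (nat_lit 14) (nat_lit 5) (nat_lit 16) (nat_lit 5) (nat_lit 15) (nat_lit 4) (nat_lit 321) (nat_lit 292) (nat_lit 287)) (XT.lf (nat_lit 0) (nat_lit 12151288196) (nat_lit 152) (nat_lit 1145716945) (nat_lit 0) (nat_lit 9660732190) (nat_lit 13) (nat_lit 5) (nat_lit 15) (nat_lit 4) (nat_lit 13) (nat_lit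 4) (nat_lit 322) (nat_lit 292) (nat_lit 286)))) (XT.nd (nat_lit 156) (nat_lit 228) (nat_lit 0) (XT.nd (nat_lit 78) (nat_lit 152) (nat_lit 0) (XT.lf (nat_lit 0) (nat_lit 21676955285) (nat_lit 76) (nat_lit 3265458924) (nat_lit 76) (nat_lit 527499949) (nat_lit 12) (nat_lit 4) (nat_lit 13) (nat_lit 5) (nat_lit 13) (nat_lit 4) (nat_lit 323) (nat_lit 292) (nat_lit 285)) (XT.lf (nat_lit 0) (nat_lit 10722526836) (nat_lit 152) (nat_lit 9627019741) (nat_lit 0) (nat_lit 7988182400) (nat_lit 10) (nat_lit 5) (nat_lit 12) (nat_lit 4) (nat_lit 10) (nat_lit 4) (nat_lit 324) (nat_lit 292) (nat_lit 284))) (XT.nd (nat_lit 78) (nat_lit 152) (nat_lit 0) (XT.lf (nat_lit 0) (nat_lit 12405041275) (nat_lit 76) (nat_lit 11074569504) (nat_lit 76) (nat_lit 8167010079) (nat_lit 9) (nat_lit 4) (nat_lit 10) (nat_lit 5) (nat_lit 10) (nat_lit 4) (nat_lit 325) (nat_lit 292) (nat_lit 283)) (XT.lf (nat_lit 0) (nat_lit 1684953638)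 (nat_lit 76) (nat_lit 595399627) (nat_lit 152) (nat_lit 33188998733) (nat_lit 7) (nat_lit 5) (nat_lit 8) (nat_lit 5) (nat_lit 9) (nat_lit 4) (nat_lit 326) (nat_lit 292) (nat_lit 282))))))) (XT.nd (nat_lit 1170) (nat_lit 0) (nat_lit 0) (XT.nd (nat_lit 546) (nat_lit 228) (nat_lit 0) (XT.nd (nat_lit 234) (nat_lit 152) (nat_lit 0) (XT.nd (nat_lit 78) (nat_lit 76) (nat_lit 0) (XT.lf (nat_lit 0) (nat_lit 14103407366) (nat_lit 152) (nat_lit 14571302011) (nat_lit 0) (nat_lit 11150484614) (nat_lit 7) (nat_lit 5) (nat_lit 9) (nat_lit 4) (nat_lit 7) (nat_lit 4) (nat_lit 327) (nat_lit 292) (nat_lit 281)) (XT.nd (nat_lit 78) (nat_lit 0) (nat_lit 0) (XT.lf (nat_lit 0) (nat_lit 6849619821) (nat_lit 76) (nat_lit 20534246802) (nat_lit 76) (nat_lit 17475868803) (nat_lit 6) (nat_lit 4) (nat_lit 7) (nat_lit 5) (nat_lit 7) (nat_lit 4) (nat_lit 328) (nat_lit 292) (nat_lit 280)) (XT.lf (nat_lit 0) (nat_lit 31450428185)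 (nat_lit 76) (nat_lit 11175778492) (nat_lit 76) (nat_lit 8025700279) (nat_lit 6) (nat_lit 4) (nat_lit 7) (nat_lit 5) (nat_lit 7) (nat_lit 4) (nat_lit 329) (nat_lit 292) (nat_lit 279)))) (XT.nd (nat_lit 156) (nat_lit 0) (nat_lit 0) (XT.nd (nat_lit 78) (nat_lit 0) (nat_lit 0) (XT.lf (nat_lit 0) (nat_lit 1623739326) (nat_lit 76) (nat_lit 709701470) (nat_lit 152) (nat_lit 55003333436) (nat_lit 4) (nat_lit 5) (nat_lit 5) (nat_lit 5) (nat_lit 6) (nat_lit 4) (nat_lit 330) (nat_lit 292) (nat_lit 278)) (XT.lf (nat_lit 0) (nat_lit 14251063082) (nat_lit 152) (nat_lit 39521980793) (nat_lit 0) (nat_lit 11196288946) (nat_lit 4) (nat_lit 5) (nat_lit 6) (nat_lit 4) (nat_lit 4) (nat_lit 4) (nat_lit 331) (nat_lit 292) (nat_lit 277))) (XT.nd (nat_lit 78) (nat_lit 0) (nat_lit 0) (XT.lf (nat_lit 0) (nat_lit 27645836990) (nat_lit 152) (nat_lit 21590563420) (nat_lit 0) (nat_lit 24535234724) (nat_lit 4) (nat_lit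 5) (nat_lit 6) (nat_lit 4) (nat_lit 4) (nat_lit 4) (nat_lit 332) (nat_lit 292) (nat_lit 276)) (XT.lf (nat_lit 0) (nat_lit 42762765845) (nat_lit 152) (nat_lit 1550882372) (nat_lit 0) (nat_lit 39603617379) (nat_lit 4) (nat_lit 5) (nat_lit 6) (nat_lit 4) (nat_lit 4) (nat_lit 4) (nat_lit 333) (nat_lit 292) (nat_lit 275))))) (XT.nd (nat_lit 312) (nat_lit 152) (nat_lit 0) (XT.nd (nat_lit 156) (nat_lit 0) (nat_lit 0) (XT.nd (nat_lit 78) (nat_lit 0) (nat_lit 0) (XT.lf (nat_lit 0) (nat_lit 22094394145) (nat_lit 76) (nat_lit 38334592211) (nat_lit 76) (nat_lit 35133229659) (nat_lit 3) (nat_lit 4) (nat_lit 4) (nat_lit 5) (nat_lit 4) (nat_lit 4) (nat_lit 334) (nat_lit 292) (nat_lit 274)) (XT.lf (nat_lit 0) (nat_lit 48917568280) (nat_lit 76) (nat_lit 31644533869) (nat_lit 76) (nat_lit 28406463416) (nat_lit 3) (nat_lit 4) (nat_lit 4) (nat_lit 5) (nat_lit 4) (nat_lit 4) (nat_lit 335) (nat_lit 292) (nat_lit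 273))) (XT.nd (nat_lit 78) (nat_lit 0) (nat_lit 0) (XT.lf (nat_lit 0) (nat_lit 79361774546) (nat_lit 76) (nat_lit 24154984618) (nat_lit 76) (nat_lit 20884994250) (nat_lit 3) (nat_lit 4) (nat_lit 4) (nat_lit 5) (nat_lit 4) (nat_lit 4) (nat_lit 336) (nat_lit 292) (nat_lit 272)) (XT.lf (nat_lit 0) (nat_lit 114022660459) (nat_lit 76) (nat_lit 15719409799) (nat_lit 76) (nat_lit 12421662984) (nat_lit 3) (nat_lit 4) (nat_lit 4) (nat_lit 5) (nat_lit 4) (nat_lit 4) (nat_lit 337) (nat_lit 292) (nat_lit 271)))) (XT.nd (nat_lit 156) (nat_lit 0) (nat_lit 0) (XT.nd (nat_lit 78) (nat_lit 152) (nat_lit 0) (XT.lf (nat_lit 0) (nat_lit 153578373785) (nat_lit 76) (nat_lit 6172765556) (nat_lit 76) (nat_lit 2850882700) (nat_lit 3) (nat_lit 4) (nat_lit 4) (nat_lit 5) (nat_lit 4) (nat_lit 4) (nat_lit 338) (nat_lit 292) (nat_lit 270)) (XT.lf (nat_lit 0) (nat_lit 8055548519) (nat_lit 152) (nat_lit 173049883269)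 (nat_lit 0) (nat_lit 4960297855) (nat_lit 1) (nat_lit 5) (nat_lit 3) (nat_lit 4) (nat_lit 1) (nat_lit 4) (nat_lit 339) (nat_lit 292) (nat_lit 269))) (XT.nd (nat_lit 78) (nat_lit 0) (nat_lit 0) (XT.lf (nat_lit 0) (nat_lit 20748778946) (nat_lit 152) (nat_lit 174632095832) (nat_lit 0) (nat_lit 17636629842) (nat_lit 1) (nat_lit 5) (nat_lit 3) (nat_lit 4) (nat_lit 1) (nat_lit 4) (nat_lit 340) (nat_lit 292) (nat_lit 268)) (XT.lf (nat_lit 0) (nat_lit 35236931456) (nat_lit 152) (nat_lit 176673756751) (nat_lit 0) (nat_lit 32110088058) (nat_lit 1) (nat_lit 5) (nat_lit 3) (nat_lit 4) (nat_lit 1) (nat_lit 4) (nat_lit 341) (nat_lit 292) (nat_lit 267)))))) (XT.nd (nat_lit 624) (nat_lit 0) (nat_lit 0) (XT.nd (nat_lit 312) (nat_lit 0) (nat_lit 0) (XT.nd (nat_lit 156) (nat_lit 0) (nat_lit 0) (XT.nd (nat_lit 78) (nat_lit 0) (nat_lit 0) (XT.lf (nat_lit 0) (nat_lit 51803469904) (nat_lit 152) (nat_lit 179214811565)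 (nat_lit 0) (nat_lit 48663848857) (nat_lit 1) (nat_lit 5) (nat_lit 3) (nat_lit 4) (nat_lit 1) (nat_lit 4) (nat_lit 342) (nat_lit 292) (nat_lit 266)) (XT.lf (nat_lit 0) (nat_lit 70772522214) (nat_lit 152) (nat_lit 182304976564) (nat_lit 0) (nat_lit 67621790169) (nat_lit 1) (nat_lit 5) (nat_lit 3) (nat_lit 4) (nat_lit 1) (nat_lit 4) (nat_lit 343) (nat_lit 292) (nat_lit 265))) (XT.nd (nat_lit 78) (nat_lit 0) (nat_lit 0) (XT.lf (nat_lit 0) (nat_lit 92515222020) (nat_lit 152) (nat_lit 186004711497) (nat_lit 0) (nat_lit 89354828237) (nat_lit 1) (nat_lit 5) (nat_lit 3) (nat_lit 4) (nat_lit 1) (nat_lit 4) (nat_lit 344) (nat_lit 292) (nat_lit 264)) (XT.lf (nat_lit 0) (nat_lit 117456969969) (nat_lit 152) (nat_lit 190386402483) (nat_lit 0) (nat_lit 114288174675) (nat_lit 1) (nat_lit 5) (nat_lit 3) (nat_lit 4) (nat_lit 1) (nat_lit 4) (nat_lit 345) (nat_lit 292) (nat_lit 263)))) (XT.nd (nat_lit 156)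 (nat_lit 0) (nat_lit 0) (XT.nd (nat_lit 78) (nat_lit 0) (nat_lit 0) (XT.lf (nat_lit 0) (nat_lit 146085756782) (nat_lit 152) (nat_lit 195535778260) (nat_lit 0) (nat_lit 142909655827) (nat_lit 1) (nat_lit 5) (nat_lit 3) (nat_lit 4) (nat_lit 1) (nat_lit 4) (nat_lit 346) (nat_lit 292) (nat_lit 262)) (XT.lf (nat_lit 0) (nat_lit 178961710898) (nat_lit 152) (nat_lit 201553587482) (nat_lit 0) (nat_lit 175779257193) (nat_lit 1) (nat_lit 5) (nat_lit 3) (nat_lit 4) (nat_lit 1) (nat_lit 4) (nat_lit 347) (nat_lit 292) (nat_lit 261))) (XT.nd (nat_lit 78) (nat_lit 0) (nat_lit 0) (XT.lf (nat_lit 0) (nat_lit 216728057504) (nat_lit 152) (nat_lit 208557569897) (nat_lit 0) (nat_lit 213540079670) (nat_lit 1) (nat_lit 5) (nat_lit 3) (nat_lit 4) (nat_lit 1) (nat_lit 4) (nat_lit 348) (nat_lit 292) (nat_lit 260)) (XT.lf (nat_lit 0) (nat_lit 260123703384) (nat_lit 152) (nat_lit 216684759942) (nat_lit 0) (nat_lit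 256930921958) (nat_lit 1) (nat_lit 5) (nat_lit 3) (nat_lit 4) (nat_lit 1) (nat_lit 4) (nat_lit 349) (nat_lit 292) (nat_lit 259))))) (XT.nd (nat_lit 312) (nat_lit 0) (nat_lit 0) (XT.nd (nat_lit 156) (nat_lit 0) (nat_lit 0) (XT.nd (nat_lit 78) (nat_lit 0) (nat_lit 0) (XT.lf (nat_lit 0) (nat_lit 309997693781) (nat_lit 152) (nat_lit 226094167857) (nat_lit 0) (nat_lit 306800735320) (nat_lit 1) (nat_lit 5) (nat_lit 3) (nat_lit 4) (nat_lit 1) (nat_lit 4) (nat_lit 350) (nat_lit 292) (nat_lit 258)) (XT.lf (nat_lit 0) (nat_lit 367325824161) (nat_lit 152) (nat_lit 236969890754) (nat_lit 0) (nat_lit 364125233495) (nat_lit 1) (nat_lit 5) (nat_lit 3) (nat_lit 4) (nat_lit 1) (nat_lit 4) (nat_lit 351) (nat_lit 292) (nat_lit 257))) (XT.nd (nat_lit 78) (nat_lit 0) (nat_lit 0) (XT.lf (nat_lit 0) (nat_lit 433229731857) (nat_lit 152) (nat_lit 249524714516) (nat_lit 0) (nat_lit 430025982752) (nat_lit 1) (nat_lit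 5) (nat_lit 3) (nat_lit 4) (nat_lit 1) (nat_lit 4) (nat_lit 352) (nat_lit 292) (nat_lit 256)) (XT.lf (nat_lit 0) (nat_lit 508998841150) (nat_lit 152) (nat_lit 264004276999) (nat_lit 0) (nat_lit 505792345576) (nat_lit 1) (nat_lit 5) (nat_lit 3) (nat_lit 4) (nat_lit 1) (nat_lit 4) (nat_lit 353) (nat_lit 292) (nat_lit 255)))) (XT.nd (nat_lit 156) (nat_lit 0) (nat_lit 0) (XT.nd (nat_lit 78) (nat_lit 0) (nat_lit 0) (XT.lf (nat_lit 0) (nat_lit 596115591135) (nat_lit 152) (nat_lit 280691873990) (nat_lit 0) (nat_lit 592906707327) (nat_lit 1) (nat_lit 5) (nat_lit 3) (nat_lit 4) (nat_lit 1) (nat_lit 4) (nat_lit 354) (nat_lit 292) (nat_lit 254)) (XT.lf (nat_lit 0) (nat_lit 696284439963) (nat_lit 152) (nat_lit 299914001953) (nat_lit 0) (nat_lit 693073479430) (nat_lit 1) (nat_lit 5) (nat_lit 3) (nat_lit 4) (nat_lit 1) (nat_lit 4) (nat_lit 355) (nat_lit 292) (nat_lit 253))) (XT.nd (nat_lit 78) (nat_lit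 0) (nat_lit 0) (XT.lf (nat_lit 0) (nat_lit 811465212938) (nat_lit 152) (nat_lit 322046746000) (nat_lit 0) (nat_lit 808252446558) (nat_lit 1) (nat_lit 5) (nat_lit 3) (nat_lit 4) (nat_lit 1) (nat_lit 4) (nat_lit 356) (nat_lit 292) (nat_lit 252)) (XT.lf (nat_lit 0) (nat_lit 943911446923) (nat_lit 152) (nat_lit 347523138079) (nat_lit 0) (nat_lit 940697110240) (nat_lit 1) (nat_lit 5) (nat_lit 3) (nat_lit 4) (nat_lit 1) (nat_lit 4) (nat_lit 357) (nat_lit 292) (nat_lit 251))))))))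
noncomputable def xc15 : XT := (XT.nd (nat_lit 44460) (nat_lit 0) (nat_lit 0) (XT.nd (nat_lit 1170) (nat_lit 0) (nat_lit 0) (XT.nd (nat_lit 546) (nat_lit 0) (nat_lit 0) (XT.nd (nat_lit 234) (nat_lit 0) (nat_lit 0) (XT.nd (nat_lit 78) (nat_lit 0) (nat_lit 0) (XT.lf (nat_lit 0) (nat_lit 1096214481278) (nat_lit 152) (nat_lit 376841629340) (nat_lit 0) (nat_lit 1092998779114) (nat_lit 1) (nat_lit 5) (nat_lit 3) (nat_lit 4) (nat_lit 1) (nat_lit 4) (nat_lit 358) (nat_lit 292) (nat_lit 250)) (XT.nd (nat_lit 78) (nat_lit 0) (nat_lit 0) (XT.lf (nat_lit 0) (nat_lit 1271354157979) (nat_lit 152) (nat_lit 410575842437) (nat_lit 0) (nat_lit 1268137268441) (nat_lit 1) (nat_lit 5) (nat_lit 3) (nat_lit 4) (nat_lit 1) (nat_lit 4) (nat_lit 359) (nat_lit 292) (nat_lit 249)) (XT.lf (nat_lit 0) (nat_lit 1472757122875) (nat_lit 152) (nat_lit 449385794585) (nat_lit 0) (nat_lit 1469539200837) (nat_lit 1) (nat_lit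 5) (nat_lit 3) (nat_lit 4) (nat_lit 1) (nat_lit 4) (nat_lit 360) (nat_lit 292) (nat_lit 248)))) (XT.nd (nat_lit 156) (nat_lit 0) (nat_lit 0) (XT.nd (nat_lit 78) (nat_lit 0) (nat_lit 0) (XT.lf (nat_lit 0) (nat_lit 1704363868757) (nat_lit 152) (nat_lit 494030810933) (nat_lit 0) (nat_lit 1701145048894) (nat_lit 1) (nat_lit 5) (nat_lit 3) (nat_lit 4) (nat_lit 1) (nat_lit 4) (nat_lit 361) (nat_lit 292) (nat_lit 247)) (XT.lf (nat_lit 0) (nat_lit 1970705831959) (nat_lit 152) (nat_lit 545384380932) (nat_lit 0) (nat_lit 1967486231378) (nat_lit 1) (nat_lit 5) (nat_lit 3) (nat_lit 4) (nat_lit 1) (nat_lit 4) (nat_lit 362) (nat_lit 292) (nat_lit 246))) (XT.nd (nat_lit 78) (nat_lit 0) (nat_lit 0) (XT.lf (nat_lit 0) (nat_lit 2276994050890) (nat_lit 152) (nat_lit 604451248342) (nat_lit 0) (nat_lit 2273773771424) (nat_lit 1) (nat_lit 5) (nat_lit 3) (nat_lit 4) (nat_lit 1) (nat_lit 4) (nat_lit 363) (nat_lit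 292) (nat_lit 245)) (XT.lf (nat_lit 0) (nat_lit 2629221121138) (nat_lit 152) (nat_lit 672387069265) (nat_lit 0) (nat_lit 2626000251337) (nat_lit 1) (nat_lit 5) (nat_lit 3) (nat_lit 4) (nat_lit 1) (nat_lit 4) (nat_lit 364) (nat_lit 292) (nat_lit 244))))) (XT.nd (nat_lit 312) (nat_lit 0) (nat_lit 0) (XT.nd (nat_lit 156) (nat_lit 0) (nat_lit 0) (XT.nd (nat_lit 78) (nat_lit 0) (nat_lit 0) (XT.lf (nat_lit 0) (nat_lit 3034278441903) (nat_lit 152) (nat_lit 750521022807) (nat_lit 0) (nat_lit 3031057058768) (nat_lit 1) (nat_lit 5) (nat_lit 3) (nat_lit 4) (nat_lit 1) (nat_lit 4) (nat_lit 365) (nat_lit 292) (nat_lit 243)) (XT.lf (nat_lit 0) (nat_lit 3500091047723) (nat_lit 152) (nat_lit 840381816753) (nat_lit 0) (nat_lit 3496869218210) (nat_lit 1) (nat_lit 5) (nat_lit 3) (nat_lit 4) (nat_lit 1) (nat_lit 4) (nat_lit 366) (nat_lit 292) (nat_lit 242))) (XT.nd (nat_lit 78) (nat_lit 0) (nat_lit 0) (XT.lf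 (nat_lit 0) (nat_lit 4035772663494) (nat_lit 152) (nat_lit 943727597073) (nat_lit 0) (nat_lit 4032550445826) (nat_lit 1) (nat_lit 5) (nat_lit 3) (nat_lit 4) (nat_lit 1) (nat_lit 4) (nat_lit 367) (nat_lit 292) (nat_lit 241)) (XT.lf (nat_lit 0) (nat_lit 4651804016481) (nat_lit 152) (nat_lit 1062580346424) (nat_lit 0) (nat_lit 4648581461287) (nat_lit 1) (nat_lit 5) (nat_lit 3) (nat_lit 4) (nat_lit 1) (nat_lit 4) (nat_lit 368) (nat_lit 292) (nat_lit 240)))) (XT.nd (nat_lit 156) (nat_lit 0) (nat_lit 0) (XT.nd (nat_lit 78) (nat_lit 0) (nat_lit 0) (XT.lf (nat_lit 0) (nat_lit 5360237894025) (nat_lit 152) (nat_lit 1199265444686) (nat_lit 0) (nat_lit 5357015045330) (nat_lit 1) (nat_lit 5) (nat_lit 3) (nat_lit 4) (nat_lit 1) (nat_lit 4) (nat_lit 369) (nat_lit 292) (nat_lit 239)) (XT.lf (nat_lit 0) (nat_lit 6174934958947) (nat_lit 152) (nat_lit 1356457165520) (nat_lit 0) (nat_lit 6171711855034) (nat_lit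 1) (nat_lit 5) (nat_lit 3) (nat_lit 4) (nat_lit 1) (nat_lit 4) (nat_lit 370) (nat_lit 292) (nat_lit 238))) (XT.nd (nat_lit 78) (nat_lit 0) (nat_lit 0) (XT.lf (nat_lit 0) (nat_lit 7111834936431) (nat_lit 152) (nat_lit 1537230999115) (nat_lit 0) (nat_lit 7108611610590) (nat_lit 1) (nat_lit 5) (nat_lit 3) (nat_lit 4) (nat_lit 1) (nat_lit 4) (nat_lit 371) (nat_lit 292) (nat_lit 237)) (XT.lf (nat_lit 0) (nat_lit 8189268478210) (nat_lit 152) (nat_lit 1745123824827) (nat_lit 0) (nat_lit 8186044959387) (nat_lit 1) (nat_lit 5) (nat_lit 3) (nat_lit 4) (nat_lit 1) (nat_lit 4) (nat_lit 372) (nat_lit 292) (nat_lit 236)))))) (XT.nd (nat_lit 42666) (nat_lit 0) (nat_lit 608) (XT.nd (nat_lit 42354) (nat_lit 0) (nat_lit 1368) (XT.nd (nat_lit 156) (nat_lit 0) (nat_lit 0) (XT.nd (nat_lit 78) (nat_lit 0) (nat_lit 0) (XT.lf (nat_lit 0) (nat_lit 9428315805754) (nat_lit 152) (nat_lit 1984203110982) (nat_lit 0)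 (nat_lit 9425092119121) (nat_lit 1) (nat_lit 5) (nat_lit 3) (nat_lit 4) (nat_lit 1) (nat_lit 4) (nat_lit 373) (nat_lit 292) (nat_lit 235)) (XT.lf (nat_lit 0) (nat_lit 10853219149384) (nat_lit 152) (nat_lit 2259146495789) (nat_lit 0) (nat_lit 10849995316830) (nat_lit 1) (nat_lit 5) (nat_lit 3) (nat_lit 4) (nat_lit 1) (nat_lit 4) (nat_lit 374) (nat_lit 292) (nat_lit 234))) (XT.nd (nat_lit 42120) (nat_lit 0) (nat_lit 2128) (XT.lf (nat_lit 0) (nat_lit 12491857052780) (nat_lit 152) (nat_lit 2575333306342) (nat_lit 0) (nat_lit 12488633093337) (nat_lit 1) (nat_lit 5) (nat_lit 3) (nat_lit 4) (nat_lit 1) (nat_lit 4) (nat_lit 375) (nat_lit 292) (nat_lit 233)) (XT.lf (nat_lit 0) (nat_lit 2293622750) (nat_lit 152) (nat_lit 1195321742) (nat_lit 0) (nat_lit 2293622750) (nat_lit 29) (nat_lit 5) (nat_lit 31) (nat_lit 4) (nat_lit 29) (nat_lit 4) (nat_lit 314) (nat_lit 293) (nat_lit 293)))) (XT.nd (nat_lit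 156) (nat_lit 380) (nat_lit 0) (XT.nd (nat_lit 78) (nat_lit 76) (nat_lit 0) (XT.lf (nat_lit 0) (nat_lit 2178997511) (nat_lit 152) (nat_lit 8982759708) (nat_lit 0) (nat_lit 1283664060) (nat_lit 25) (nat_lit 5) (nat_lit 27) (nat_lit 4) (nat_lit 25) (nat_lit 4) (nat_lit 315) (nat_lit 293) (nat_lit 292)) (XT.lf (nat_lit 0) (nat_lit 9360626516) (nat_lit 76) (nat_lit 2880599190) (nat_lit 76) (nat_lit 1206714911) (nat_lit 24) (nat_lit 4) (nat_lit 25) (nat_lit 5) (nat_lit 25) (nat_lit 4) (nat_lit 316) (nat_lit 293) (nat_lit 291))) (XT.nd (nat_lit 78) (nat_lit 152) (nat_lit 0) (XT.lf (nat_lit 0) (nat_lit 530128518) (nat_lit 76) (nat_lit 8119058840) (nat_lit 76) (nat_lit 5942313472) (nat_lit 21) (nat_lit 4) (nat_lit 22) (nat_lit 5) (nat_lit 22) (nat_lit 4) (nat_lit 317) (nat_lit 293) (nat_lit 290)) (XT.lf (nat_lit 0) (nat_lit 3786084313) (nat_lit 152) (nat_lit 10846319776) (nat_lit 0) (nat_lit 1265867170)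 (nat_lit 19) (nat_lit 5) (nat_lit 21) (nat_lit 4) (nat_lit 19) (nat_lit 4) (nat_lit 318) (nat_lit 293) (nat_lit 289))))) (XT.nd (nat_lit 312) (nat_lit 304) (nat_lit 0) (XT.nd (nat_lit 156) (nat_lit 228) (nat_lit 0) (XT.nd (nat_lit 78) (nat_lit 152) (nat_lit 0) (XT.lf (nat_lit 0) (nat_lit 8938355866) (nat_lit 76) (nat_lit 5703988321) (nat_lit 76) (nat_lit 2744891029) (nat_lit 18) (nat_lit 4) (nat_lit 19) (nat_lit 5) (nat_lit 19) (nat_lit 4) (nat_lit 319) (nat_lit 293) (nat_lit 288)) (XT.lf (nat_lit 0) (nat_lit 7560897706) (nat_lit 152) (nat_lit 7060907047) (nat_lit 0) (nat_lit 4467627146) (nat_lit 16) (nat_lit 5) (nat_lit 18) (nat_lit 4) (nat_lit 16) (nat_lit 4) (nat_lit 320) (nat_lit 293) (nat_lit 287))) (XT.nd (nat_lit 78) (nat_lit 152) (nat_lit 0) (XT.lf (nat_lit 0) (nat_lit 14084872182) (nat_lit 76) (nat_lit 5178006250) (nat_lit 76) (nat_lit 1777461203) (nat_lit 15) (nat_lit 4) (nat_lit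 16) (nat_lit 5) (nat_lit 16) (nat_lit 4) (nat_lit 321) (nat_lit 293) (nat_lit 286)) (XT.lf (nat_lit 0) (nat_lit 8976791713) (nat_lit 152) (nat_lit 8707287003) (nat_lit 0) (nat_lit 5580735923) (nat_lit 13) (nat_lit 5) (nat_lit 15) (nat_lit 4) (nat_lit 13) (nat_lit 4) (nat_lit 322) (nat_lit 293) (nat_lit 285)))) (XT.nd (nat_lit 156) (nat_lit 76) (nat_lit 0) (XT.nd (nat_lit 78) (nat_lit 152) (nat_lit 0) (XT.lf (nat_lit 0) (nat_lit 13091775210) (nat_lit 76) (nat_lit 8168525664) (nat_lit 76) (nat_lit 4557336858) (nat_lit 12) (nat_lit 4) (nat_lit 13) (nat_lit 5) (nat_lit 13) (nat_lit 4) (nat_lit 323) (nat_lit 293) (nat_lit 284)) (XT.lf (nat_lit 0) (nat_lit 6241055760) (nat_lit 152) (nat_lit 19780290330) (nat_lit 0) (nat_lit 2724147432) (nat_lit 10) (nat_lit 5) (nat_lit 12) (nat_lit 4) (nat_lit 10) (nat_lit 4) (nat_lit 324) (nat_lit 293) (nat_lit 283))) (XT.nd (nat_lit 78) (nat_lit 0) (nat_lit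 0) (XT.lf (nat_lit 0) (nat_lit 1163445681) (nat_lit 76) (nat_lit 17300611130) (nat_lit 76) (nat_lit 13633081073) (nat_lit 9) (nat_lit 4) (nat_lit 10) (nat_lit 5) (nat_lit 10) (nat_lit 4) (nat_lit 325) (nat_lit 293) (nat_lit 282)) (XT.lf (nat_lit 0) (nat_lit 25411450904) (nat_lit 76) (nat_lit 7166998251) (nat_lit 76) (nat_lit 3368492776) (nat_lit 9) (nat_lit 4) (nat_lit 10) (nat_lit 5) (nat_lit 10) (nat_lit 4) (nat_lit 326) (nat_lit 293) (nat_lit 281))))))) (XT.nd (nat_lit 1170) (nat_lit 0) (nat_lit 0) (XT.nd (nat_lit 546) (nat_lit 228) (nat_lit 0) (XT.nd (nat_lit 234) (nat_lit 152) (nat_lit 0) (XT.nd (nat_lit 78) (nat_lit 76) (nat_lit 0) (XT.lf (nat_lit 0) (nat_lit 7960089932) (nat_lit 152) (nat_lit 28064731250) (nat_lit 0) (nat_lit 4337499987) (nat_lit 7) (nat_lit 5) (nat_lit 9) (nat_lit 4) (nat_lit 7) (nat_lit 4) (nat_lit 327) (nat_lit 293) (nat_lit 280)) (XT.nd (nat_lit 78) (nat_lit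 76) (nat_lit 0) (XT.lf (nat_lit 0) (nat_lit 20874701913) (nat_lit 152) (nat_lit 7391032458) (nat_lit 0) (nat_lit 17160411752) (nat_lit 7) (nat_lit 5) (nat_lit 9) (nat_lit 4) (nat_lit 7) (nat_lit 4) (nat_lit 328) (nat_lit 293) (nat_lit 279)) (XT.lf (nat_lit 0) (nat_lit 16450245373) (nat_lit 76) (nat_lit 19295893831) (nat_lit 76) (nat_lit 15501864354) (nat_lit 6) (nat_lit 4) (nat_lit 7) (nat_lit 5) (nat_lit 7) (nat_lit 4) (nat_lit 329) (nat_lit 293) (nat_lit 278)))) (XT.nd (nat_lit 156) (nat_lit 0) (nat_lit 0) (XT.nd (nat_lit 78) (nat_lit 152) (nat_lit 0) (XT.lf (nat_lit 0) (nat_lit 43622933786) (nat_lit 76) (nat_lit 9096936579) (nat_lit 76) (nat_lit 5233568564) (nat_lit 6) (nat_lit 4) (nat_lit 7) (nat_lit 5) (nat_lit 7) (nat_lit 4) (nat_lit 330) (nat_lit 293) (nat_lit 277)) (XT.lf (nat_lit 0) (nat_lit 6218379568) (nat_lit 152) (nat_lit 56850536370) (nat_lit 0) (nat_lit 2585358832) (nat_lit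 4) (nat_lit 5) (nat_lit 6) (nat_lit 4) (nat_lit 4) (nat_lit 4) (nat_lit 331) (nat_lit 293) (nat_lit 276))) (XT.nd (nat_lit 78) (nat_lit 0) (nat_lit 0) (XT.lf (nat_lit 0) (nat_lit 19479636666) (nat_lit 152) (nat_lit 39189560361) (nat_lit 0) (nat_lit 15798069731) (nat_lit 4) (nat_lit 5) (nat_lit 6) (nat_lit 4) (nat_lit 4) (nat_lit 4) (nat_lit 332) (nat_lit 293) (nat_lit 275)) (XT.lf (nat_lit 0) (nat_lit 34480463948) (nat_lit 152) (nat_lit 19385045715) (nat_lit 0) (nat_lit 30756682927) (nat_lit 4) (nat_lit 5) (nat_lit 6) (nat_lit 4) (nat_lit 4) (nat_lit 4) (nat_lit 333) (nat_lit 293) (nat_lit 274))))) (XT.nd (nat_lit 312) (nat_lit 152) (nat_lit 0) (XT.nd (nat_lit 156) (nat_lit 0) (nat_lit 0) (XT.nd (nat_lit 78) (nat_lit 0) (nat_lit 0) (XT.lf (nat_lit 0) (nat_lit 3105854628) (nat_lit 76) (nat_lit 48483197111) (nat_lit 76) (nat_lit 44722708188) (nat_lit 3) (nat_lit 4) (nat_lit 4) (nat_lit 5)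 (nat_lit 4) (nat_lit 4) (nat_lit 334) (nat_lit 293) (nat_lit 273)) (XT.lf (nat_lit 0) (nat_lit 29741845512) (nat_lit 76) (nat_lit 41888030789) (nat_lit 76) (nat_lit 38095621952) (nat_lit 3) (nat_lit 4) (nat_lit 4) (nat_lit 5) (nat_lit 4) (nat_lit 4) (nat_lit 335) (nat_lit 293) (nat_lit 272))) (XT.nd (nat_lit 78) (nat_lit 0) (nat_lit 0) (XT.lf (nat_lit 0) (nat_lit 60023283735) (nat_lit 76) (nat_lit 34480996337) (nat_lit 76) (nat_lit 30660831053) (nat_lit 3) (nat_lit 4) (nat_lit 4) (nat_lit 5) (nat_lit 4) (nat_lit 4) (nat_lit 336) (nat_lit 293) (nat_lit 271)) (XT.lf (nat_lit 0) (nat_lit 94542632218) (nat_lit 76) (nat_lit 26117173518) (nat_lit 76) (nat_lit 22272872193) (nat_lit 3) (nat_lit 4) (nat_lit 4) (nat_lit 5) (nat_lit 4) (nat_lit 4) (nat_lit 337) (nat_lit 293) (nat_lit 270)))) (XT.nd (nat_lit 156) (nat_lit 152) (nat_lit 0) (XT.nd (nat_lit 78) (nat_lit 0) (nat_lit 0) (XT.lf (nat_lit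 0) (nat_lit 133975269518) (nat_lit 76) (nat_lit 16632922318) (nat_lit 76) (nat_lit 12767633131) (nat_lit 3) (nat_lit 4) (nat_lit 4) (nat_lit 5) (nat_lit 4) (nat_lit 4) (nat_lit 338) (nat_lit 293) (nat_lit 269)) (XT.lf (nat_lit 0) (nat_lit 179092703758) (nat_lit 76) (nat_lit 5842681302) (nat_lit 76) (nat_lit 1959141801) (nat_lit 3) (nat_lit 4) (nat_lit 4) (nat_lit 5) (nat_lit 4) (nat_lit 4) (nat_lit 339) (nat_lit 293) (nat_lit 268))) (XT.nd (nat_lit 78) (nat_lit 0) (nat_lit 0) (XT.lf (nat_lit 0) (nat_lit 10438204716) (nat_lit 152) (nat_lit 196615739574) (nat_lit 0) (nat_lit 6827640512) (nat_lit 1) (nat_lit 5) (nat_lit 3) (nat_lit 4) (nat_lit 1) (nat_lit 4) (nat_lit 340) (nat_lit 293) (nat_lit 267)) (XT.lf (nat_lit 0) (nat_lit 24882247022) (nat_lit 152) (nat_lit 198747235264) (nat_lit 0) (nat_lit 21258905170) (nat_lit 1) (nat_lit 5) (nat_lit 3) (nat_lit 4) (nat_lit 1) (nat_lit 4) (nat_lit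 341) (nat_lit 293) (nat_lit 266)))))) (XT.nd (nat_lit 624) (nat_lit 0) (nat_lit 0) (XT.nd (nat_lit 312) (nat_lit 0) (nat_lit 0) (XT.nd (nat_lit 156) (nat_lit 0) (nat_lit 0) (XT.nd (nat_lit 78) (nat_lit 0) (nat_lit 0) (XT.lf (nat_lit 0) (nat_lit 41410428769) (nat_lit 152) (nat_lit 201366407269) (nat_lit 0) (nat_lit 37775975919) (nat_lit 1) (nat_lit 5) (nat_lit 3) (nat_lit 4) (nat_lit 1) (nat_lit 4) (nat_lit 342) (nat_lit 293) (nat_lit 265)) (XT.lf (nat_lit 0) (nat_lit 60346127428) (nat_lit 152) (nat_lit 204524500261) (nat_lit 0) (nat_lit 56702012840) (nat_lit 1) (nat_lit 5) (nat_lit 3) (nat_lit 4) (nat_lit 1) (nat_lit 4) (nat_lit 343) (nat_lit 293) (nat_lit 264))) (XT.nd (nat_lit 78) (nat_lit 0) (nat_lit 0) (XT.lf (nat_lit 0) (nat_lit 82059824058) (nat_lit 152) (nat_lit 208283303014) (nat_lit 0) (nat_lit 78407307959) (nat_lit 1) (nat_lit 5) (nat_lit 3) (nat_lit 4) (nat_lit 1) (nat_lit 4)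 (nat_lit 344) (nat_lit 293) (nat_lit 263)) (XT.lf (nat_lit 0) (nat_lit 106976351854) (nat_lit 152) (nat_lit 212716357323) (nat_lit 0) (nat_lit 103316530094) (nat_lit 1) (nat_lit 5) (nat_lit 3) (nat_lit 4) (nat_lit 1) (nat_lit 4) (nat_lit 345) (nat_lit 293) (nat_lit 262)))) (XT.nd (nat_lit 156) (nat_lit 0) (nat_lit 0) (XT.nd (nat_lit 78) (nat_lit 0) (nat_lit 0) (XT.lf (nat_lit 0) (nat_lit 135583208100) (nat_lit 152) (nat_lit 217910396857) (nat_lit 0) (nat_lit 131917033591) (nat_lit 1) (nat_lit 5) (nat_lit 3) (nat_lit 4) (nat_lit 1) (nat_lit 4) (nat_lit 346) (nat_lit 293) (nat_lit 261)) (XT.lf (nat_lit 0) (nat_lit 168440092157) (nat_lit 152) (nat_lit 223967044130) (nat_lit 0) (nat_lit 164768393518) (nat_lit 1) (nat_lit 5) (nat_lit 3) (nat_lit 4) (nat_lit 1) (nat_lit 4) (nat_lit 347) (nat_lit 293) (nat_lit 260))) (XT.nd (nat_lit 78) (nat_lit 0) (nat_lit 0) (XT.lf (nat_lit 0) (nat_lit 206189856104)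 (nat_lit 152) (nat_lit 231004798762) (nat_lit 0) (nat_lit 202513353874) (nat_lit 1) (nat_lit 5) (nat_lit 3) (nat_lit 4) (nat_lit 1) (nat_lit 4) (nat_lit 348) (nat_lit 293) (nat_lit 259)) (XT.lf (nat_lit 0) (nat_lit 249571082280) (nat_lit 152) (nat_lit 239161355953) (nat_lit 0) (nat_lit 245890403014) (nat_lit 1) (nat_lit 5) (nat_lit 3) (nat_lit 4) (nat_lit 1) (nat_lit 4) (nat_lit 349) (nat_lit 293) (nat_lit 258))))) (XT.nd (nat_lit 312) (nat_lit 0) (nat_lit 0) (XT.nd (nat_lit 156) (nat_lit 0) (nat_lit 0) (XT.nd (nat_lit 78) (nat_lit 0) (nat_lit 0) (XT.lf (nat_lit 0) (nat_lit 299432533804) (nat_lit 152) (nat_lit 248596300517) (nat_lit 0) (nat_lit 295748222333) (nat_lit 1) (nat_lit 5) (nat_lit 3) (nat_lit 4) (nat_lit 1) (nat_lit 4) (nat_lit 350) (nat_lit 293) (nat_lit 257)) (XT.lf (nat_lit 0) (nat_lit 356749760816) (nat_lit 152) (nat_lit 259494229196) (nat_lit 0) (nat_lit 353062290906) (nat_lit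 1) (nat_lit 5) (nat_lit 3) (nat_lit 4) (nat_lit 1) (nat_lit 4) (nat_lit 351) (nat_lit 293) (nat_lit 256))) (XT.nd (nat_lit 78) (nat_lit 0) (nat_lit 0) (XT.lf (nat_lit 0) (nat_lit 422644187323) (nat_lit 152) (nat_lit 272068362333) (nat_lit 0) (nat_lit 418953970943) (nat_lit 1) (nat_lit 5) (nat_lit 3) (nat_lit 4) (nat_lit 1) (nat_lit 4) (nat_lit 352) (nat_lit 293) (nat_lit 255)) (XT.lf (nat_lit 0) (nat_lit 498405052103) (nat_lit 152) (nat_lit 286564715577) (nat_lit 0) (nat_lit 494712447490) (nat_lit 1) (nat_lit 5) (nat_lit 3) (nat_lit 4) (nat_lit 1) (nat_lit 4) (nat_lit 353) (nat_lit 293) (nat_lit 254)))) (XT.nd (nat_lit 156) (nat_lit 0) (nat_lit 0) (XT.nd (nat_lit 78) (nat_lit 0) (nat_lit 0) (XT.lf (nat_lit 0) (nat_lit 585514632946) (nat_lit 152) (nat_lit 303266913230) (nat_lit 0) (nat_lit 581819951608) (nat_lit 1) (nat_lit 5) (nat_lit 3) (nat_lit 4) (nat_lit 1) (nat_lit 4) (nat_lit 354)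 (nat_lit 293) (nat_lit 253)) (XT.lf (nat_lit 0) (nat_lit 685677247738) (nat_lit 152) (nat_lit 322501737420) (nat_lit 0) (nat_lit 681980760553) (nat_lit 1) (nat_lit 5) (nat_lit 3) (nat_lit 4) (nat_lit 1) (nat_lit 4) (nat_lit 355) (nat_lit 293) (nat_lit 252))) (XT.nd (nat_lit 78) (nat_lit 0) (nat_lit 0) (XT.lf (nat_lit 0) (nat_lit 800852599813) (nat_lit 152) (nat_lit 344645521665) (nat_lit 0) (nat_lit 797154542325) (nat_lit 1) (nat_lit 5) (nat_lit 3) (nat_lit 4) (nat_lit 1) (nat_lit 4) (nat_lit 356) (nat_lit 293) (nat_lit 251)) (XT.lf (nat_lit 0) (nat_lit 933294119971) (nat_lit 152) (nat_lit 370131513916) (nat_lit 0) (nat_lit 929594697002) (nat_lit 1) (nat_lit 5) (nat_lit 3) (nat_lit 4) (nat_lit 1) (nat_lit 4) (nat_lit 357) (nat_lit 293) (nat_lit 250))))))))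
noncomputable def xc16 : XT := (XT.nd (nat_lit 44226) (nat_lit 0) (nat_lit 0) (XT.nd (nat_lit 1170) (nat_lit 0) (nat_lit 0) (XT.nd (nat_lit 546) (nat_lit 0) (nat_lit 0) (XT.nd (nat_lit 234) (nat_lit 0) (nat_lit 0) (XT.nd (nat_lit 78) (nat_lit 0) (nat_lit 0) (XT.lf (nat_lit 0) (nat_lit 1085593055345) (nat_lit 152) (nat_lit 399458353152) (nat_lit 0) (nat_lit 1081892445002) (nat_lit 1) (nat_lit 5) (nat_lit 3) (nat_lit 4) (nat_lit 1) (nat_lit 4) (nat_lit 358) (nat_lit 293) (nat_lit 249)) (XT.nd (nat_lit 78) (nat_lit 0) (nat_lit 0) (XT.lf (nat_lit 0) (nat_lit 1260729167716) (nat_lit 152) (nat_lit 433199825359) (nat_lit 0) (nat_lit 1257027524874) (nat_lit 1) (nat_lit 5) (nat_lit 3) (nat_lit 4) (nat_lit 1) (nat_lit 4) (nat_lit 359) (nat_lit 293) (nat_lit 248)) (XT.lf (nat_lit 0) (nat_lit 1462129033195) (nat_lit 152) (nat_lit 472016089776) (nat_lit 0) (nat_lit 1458426492527) (nat_lit 1) (nat_lit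 5) (nat_lit 3) (nat_lit 4) (nat_lit 1) (nat_lit 4) (nat_lit 360) (nat_lit 293) (nat_lit 247)))) (XT.nd (nat_lit 156) (nat_lit 0) (nat_lit 0) (XT.nd (nat_lit 78) (nat_lit 0) (nat_lit 0) (XT.lf (nat_lit 0) (nat_lit 1693733083931) (nat_lit 152) (nat_lit 516666595054) (nat_lit 0) (nat_lit 1690029762546) (nat_lit 1) (nat_lit 5) (nat_lit 3) (nat_lit 4) (nat_lit 1) (nat_lit 4) (nat_lit 361) (nat_lit 293) (nat_lit 246)) (XT.lf (nat_lit 0) (nat_lit 1960072703528) (nat_lit 152) (nat_lit 568024938034) (nat_lit 0) (nat_lit 1956368703257) (nat_lit 1) (nat_lit 5) (nat_lit 3) (nat_lit 4) (nat_lit 1) (nat_lit 4) (nat_lit 362) (nat_lit 293) (nat_lit 245))) (XT.nd (nat_lit 78) (nat_lit 0) (nat_lit 0) (XT.lf (nat_lit 0) (nat_lit 2266358884541) (nat_lit 152) (nat_lit 627095955864) (nat_lit 0) (nat_lit 2262654293935) (nat_lit 1) (nat_lit 5) (nat_lit 3) (nat_lit 4) (nat_lit 1) (nat_lit 4) (nat_lit 363) (nat_lit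 293) (nat_lit 244)) (XT.lf (nat_lit 0) (nat_lit 2618584182687) (nat_lit 152) (nat_lit 695035385848) (nat_lit 0) (nat_lit 2614879078747) (nat_lit 1) (nat_lit 5) (nat_lit 3) (nat_lit 4) (nat_lit 1) (nat_lit 4) (nat_lit 364) (nat_lit 293) (nat_lit 243))))) (XT.nd (nat_lit 312) (nat_lit 0) (nat_lit 0) (XT.nd (nat_lit 156) (nat_lit 0) (nat_lit 0) (XT.nd (nat_lit 78) (nat_lit 0) (nat_lit 0) (XT.lf (nat_lit 0) (nat_lit 3023639962494) (nat_lit 152) (nat_lit 773172477703) (nat_lit 0) (nat_lit 3019934412176) (nat_lit 1) (nat_lit 5) (nat_lit 3) (nat_lit 4) (nat_lit 1) (nat_lit 4) (nat_lit 365) (nat_lit 293) (nat_lit 242)) (XT.lf (nat_lit 0) (nat_lit 3489451228350) (nat_lit 152) (nat_lit 863036000617) (nat_lit 0) (nat_lit 3485745289877) (nat_lit 1) (nat_lit 5) (nat_lit 3) (nat_lit 4) (nat_lit 1) (nat_lit 4) (nat_lit 366) (nat_lit 293) (nat_lit 241))) (XT.nd (nat_lit 78) (nat_lit 0) (nat_lit 0) (XT.lf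 (nat_lit 0) (nat_lit 4025131678935) (nat_lit 152) (nat_lit 966384153952) (nat_lit 0) (nat_lit 4021425402937) (nat_lit 1) (nat_lit 5) (nat_lit 3) (nat_lit 4) (nat_lit 1) (nat_lit 4) (nat_lit 367) (nat_lit 293) (nat_lit 240)) (XT.lf (nat_lit 0) (nat_lit 4641162018717) (nat_lit 152) (nat_lit 1085238966796) (nat_lit 0) (nat_lit 4637455449217) (nat_lit 1) (nat_lit 5) (nat_lit 3) (nat_lit 4) (nat_lit 1) (nat_lit 4) (nat_lit 368) (nat_lit 293) (nat_lit 239)))) (XT.nd (nat_lit 156) (nat_lit 0) (nat_lit 0) (XT.nd (nat_lit 78) (nat_lit 0) (nat_lit 0) (XT.lf (nat_lit 0) (nat_lit 5349595015213) (nat_lit 152) (nat_lit 1221925859398) (nat_lit 0) (nat_lit 5345888190495) (nat_lit 1) (nat_lit 5) (nat_lit 3) (nat_lit 4) (nat_lit 1) (nat_lit 4) (nat_lit 369) (nat_lit 293) (nat_lit 238)) (XT.lf (nat_lit 0) (nat_lit 6164291314007) (nat_lit 152) (nat_lit 1379119140528) (nat_lit 0) (nat_lit 6160584267360) (nat_lit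 1) (nat_lit 5) (nat_lit 3) (nat_lit 4) (nat_lit 1) (nat_lit 4) (nat_lit 370) (nat_lit 293) (nat_lit 237))) (XT.nd (nat_lit 78) (nat_lit 0) (nat_lit 0) (XT.lf (nat_lit 0) (nat_lit 7101190625292) (nat_lit 152) (nat_lit 1559894330904) (nat_lit 0) (nat_lit 7097483385664) (nat_lit 1) (nat_lit 5) (nat_lit 3) (nat_lit 4) (nat_lit 1) (nat_lit 4) (nat_lit 371) (nat_lit 293) (nat_lit 236)) (XT.lf (nat_lit 0) (nat_lit 8178623587768) (nat_lit 152) (nat_lit 1767788336423) (nat_lit 0) (nat_lit 8174916180330) (nat_lit 1) (nat_lit 5) (nat_lit 3) (nat_lit 4) (nat_lit 1) (nat_lit 4) (nat_lit 372) (nat_lit 293) (nat_lit 235)))))) (XT.nd (nat_lit 42432) (nat_lit 0) (nat_lit 836) (XT.nd (nat_lit 42120) (nat_lit 0) (nat_lit 1824) (XT.nd (nat_lit 78) (nat_lit 0) (nat_lit 0) (XT.lf (nat_lit 0) (nat_lit 9417670411570) (nat_lit 152) (nat_lit 2006868648498) (nat_lit 0) (nat_lit 9413962858210) (nat_lit 1) (nat_lit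 5) (nat_lit 3) (nat_lit 4) (nat_lit 1) (nat_lit 4) (nat_lit 373) (nat_lit 293) (nat_lit 234)) (XT.nd (nat_lit 78) (nat_lit 0) (nat_lit 0) (XT.lf (nat_lit 0) (nat_lit 10842573317163) (nat_lit 152) (nat_lit 2281812925410) (nat_lit 0) (nat_lit 10838865636915) (nat_lit 1) (nat_lit 5) (nat_lit 3) (nat_lit 4) (nat_lit 1) (nat_lit 4) (nat_lit 374) (nat_lit 293) (nat_lit 233)) (XT.lf (nat_lit 0) (nat_lit 12481210839658) (nat_lit 152) (nat_lit 2598000511706) (nat_lit 0) (nat_lit 12477503049072) (nat_lit 1) (nat_lit 5) (nat_lit 3) (nat_lit 4) (nat_lit 1) (nat_lit 4) (nat_lit 375) (nat_lit 293) (nat_lit 232)))) (XT.nd (nat_lit 156) (nat_lit 456) (nat_lit 0) (XT.nd (nat_lit 78) (nat_lit 304) (nat_lit 0) (XT.lf (nat_lit 0) (nat_lit 3774835882) (nat_lit 152) (nat_lit 637095612) (nat_lit 152) (nat_lit 637095612) (nat_lit 35) (nat_lit 4) (nat_lit 37) (nat_lit 5) (nat_lit 37) (nat_lit 4) (nat_lit 312) (nat_lit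 294) (nat_lit 294)) (XT.lf (nat_lit 0) (nat_lit 2775666802) (nat_lit 152) (nat_lit 4611750843) (nat_lit 152) (nat_lit 3410786364) (nat_lit 31) (nat_lit 4) (nat_lit 33) (nat_lit 5) (nat_lit 33) (nat_lit 4) (nat_lit 313) (nat_lit 294) (nat_lit 293))) (XT.nd (nat_lit 78) (nat_lit 304) (nat_lit 0) (XT.lf (nat_lit 0) (nat_lit 5240805422) (nat_lit 152) (nat_lit 3199329387) (nat_lit 0) (nat_lit 3161841148) (nat_lit 29) (nat_lit 5) (nat_lit 31) (nat_lit 4) (nat_lit 29) (nat_lit 4) (nat_lit 314) (nat_lit 294) (nat_lit 292)) (XT.lf (nat_lit 0) (nat_lit 1743057843) (nat_lit 76) (nat_lit 498700334) (nat_lit 152) (nat_lit 10281300170) (nat_lit 25) (nat_lit 5) (nat_lit 26) (nat_lit 5) (nat_lit 27) (nat_lit 4) (nat_lit 315) (nat_lit 294) (nat_lit 291))))) (XT.nd (nat_lit 312) (nat_lit 456) (nat_lit 0) (XT.nd (nat_lit 156) (nat_lit 304) (nat_lit 0) (XT.nd (nat_lit 78) (nat_lit 152) (nat_lit 0) (XT.lf (nat_lit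 0) (nat_lit 6721308844) (nat_lit 76) (nat_lit 5111306580) (nat_lit 76) (nat_lit 1730788114) (nat_lit 24) (nat_lit 4) (nat_lit 25) (nat_lit 5) (nat_lit 25) (nat_lit 4) (nat_lit 316) (nat_lit 294) (nat_lit 290)) (XT.lf (nat_lit 0) (nat_lit 7618620045) (nat_lit 152) (nat_lit 3188641185) (nat_lit 0) (nat_lit 3943421208) (nat_lit 22) (nat_lit 5) (nat_lit 24) (nat_lit 4) (nat_lit 22) (nat_lit 4) (nat_lit 317) (nat_lit 294) (nat_lit 289))) (XT.nd (nat_lit 78) (nat_lit 76) (nat_lit 0) (XT.lf (nat_lit 0) (nat_lit 120171196) (nat_lit 76) (nat_lit 1932406013) (nat_lit 152) (nat_lit 14055501990) (nat_lit 19) (nat_lit 5) (nat_lit 20) (nat_lit 5) (nat_lit 21) (nat_lit 4) (nat_lit 318) (nat_lit 294) (nat_lit 288)) (XT.lf (nat_lit 0) (nat_lit 2883222704) (nat_lit 76) (nat_lit 9490101943) (nat_lit 76) (nat_lit 5266624994) (nat_lit 18) (nat_lit 4) (nat_lit 19) (nat_lit 5) (nat_lit 19) (nat_lit 4) (nat_lit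 319) (nat_lit 294) (nat_lit 287)))) (XT.nd (nat_lit 156) (nat_lit 228) (nat_lit 0) (XT.nd (nat_lit 78) (nat_lit 76) (nat_lit 0) (XT.lf (nat_lit 0) (nat_lit 4565931966) (nat_lit 152) (nat_lit 14481038564) (nat_lit 0) (nat_lit 348030674) (nat_lit 16) (nat_lit 5) (nat_lit 18) (nat_lit 4) (nat_lit 16) (nat_lit 4) (nat_lit 320) (nat_lit 294) (nat_lit 286)) (XT.lf (nat_lit 0) (nat_lit 5660277189) (nat_lit 76) (nat_lit 10105473529) (nat_lit 76) (nat_lit 5620377031) (nat_lit 15) (nat_lit 4) (nat_lit 16) (nat_lit 5) (nat_lit 16) (nat_lit 4) (nat_lit 321) (nat_lit 294) (nat_lit 285))) (XT.nd (nat_lit 78) (nat_lit 76) (nat_lit 0) (XT.lf (nat_lit 0) (nat_lit 4678663168) (nat_lit 152) (nat_lit 18680503330) (nat_lit 0) (nat_lit 310663025) (nat_lit 13) (nat_lit 5) (nat_lit 15) (nat_lit 4) (nat_lit 13) (nat_lit 4) (nat_lit 322) (nat_lit 294) (nat_lit 284)) (XT.lf (nat_lit 0) (nat_lit 2049533823) (nat_lit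 76) (nat_lit 14385208801) (nat_lit 76) (nat_lit 9830136470) (nat_lit 12) (nat_lit 4) (nat_lit 13) (nat_lit 5) (nat_lit 13) (nat_lit 4) (nat_lit 323) (nat_lit 294) (nat_lit 283))))))) (XT.nd (nat_lit 1170) (nat_lit 152) (nat_lit 0) (XT.nd (nat_lit 546) (nat_lit 228) (nat_lit 0) (XT.nd (nat_lit 234) (nat_lit 228) (nat_lit 0) (XT.nd (nat_lit 78) (nat_lit 152) (nat_lit 0) (XT.lf (nat_lit 0) (nat_lit 700335038) (nat_lit 152) (nat_lit 3261046919) (nat_lit 76) (nat_lit 25284058684) (nat_lit 11) (nat_lit 5) (nat_lit 13) (nat_lit 5) (nat_lit 12) (nat_lit 4) (nat_lit 324) (nat_lit 294) (nat_lit 282)) (XT.nd (nat_lit 78) (nat_lit 76) (nat_lit 0) (XT.lf (nat_lit 0) (nat_lit 12486057649) (nat_lit 152) (nat_lit 12159231168) (nat_lit 0) (nat_lit 7986800937) (nat_lit 10) (nat_lit 5) (nat_lit 12) (nat_lit 4) (nat_lit 10) (nat_lit 4) (nat_lit 325) (nat_lit 294) (nat_lit 281)) (XT.lf (nat_lit 0) (nat_lit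 11029835087) (nat_lit 76) (nat_lit 15053305687) (nat_lit 76) (nat_lit 10440157308) (nat_lit 9) (nat_lit 4) (nat_lit 10) (nat_lit 5) (nat_lit 10) (nat_lit 4) (nat_lit 326) (nat_lit 294) (nat_lit 280)))) (XT.nd (nat_lit 156) (nat_lit 76) (nat_lit 0) (XT.nd (nat_lit 78) (nat_lit 76) (nat_lit 0) (XT.lf (nat_lit 0) (nat_lit 646854508) (nat_lit 152) (nat_lit 3366727234) (nat_lit 76) (nat_lit 36986343147) (nat_lit 8) (nat_lit 5) (nat_lit 10) (nat_lit 5) (nat_lit 9) (nat_lit 4) (nat_lit 327) (nat_lit 294) (nat_lit 279)) (XT.lf (nat_lit 0) (nat_lit 13202610763) (nat_lit 152) (nat_lit 24130123673) (nat_lit 0) (nat_lit 8759737547) (nat_lit 7) (nat_lit 5) (nat_lit 9) (nat_lit 4) (nat_lit 7) (nat_lit 4) (nat_lit 328) (nat_lit 294) (nat_lit 278))) (XT.nd (nat_lit 78) (nat_lit 76) (nat_lit 0) (XT.lf (nat_lit 0) (nat_lit 27526348366) (nat_lit 152) (nat_lit 1417672314) (nat_lit 0) (nat_lit 23014136613)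 (nat_lit 7) (nat_lit 5) (nat_lit 9) (nat_lit 4) (nat_lit 7) (nat_lit 4) (nat_lit 329) (nat_lit 294) (nat_lit 277)) (XT.lf (nat_lit 0) (nat_lit 25400339895) (nat_lit 76) (nat_lit 18924879048) (nat_lit 76) (nat_lit 14352372914) (nat_lit 6) (nat_lit 4) (nat_lit 7) (nat_lit 5) (nat_lit 7) (nat_lit 4) (nat_lit 330) (nat_lit 294) (nat_lit 276))))) (XT.nd (nat_lit 312) (nat_lit 76) (nat_lit 0) (XT.nd (nat_lit 156) (nat_lit 0) (nat_lit 0) (XT.nd (nat_lit 78) (nat_lit 152) (nat_lit 0) (XT.lf (nat_lit 0) (nat_lit 55803380563) (nat_lit 76) (nat_lit 7621999797) (nat_lit 76) (nat_lit 2997063769) (nat_lit 6) (nat_lit 4) (nat_lit 7) (nat_lit 5) (nat_lit 7) (nat_lit 4) (nat_lit 331) (nat_lit 294) (nat_lit 275)) (XT.lf (nat_lit 0) (nat_lit 9838887913) (nat_lit 152) (nat_lit 59934014608) (nat_lit 0) (nat_lit 5514325652) (nat_lit 4) (nat_lit 5) (nat_lit 6) (nat_lit 4) (nat_lit 4) (nat_lit 4) (nat_lit 332)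 (nat_lit 294) (nat_lit 274))) (XT.nd (nat_lit 78) (nat_lit 0) (nat_lit 0) (XT.lf (nat_lit 0) (nat_lit 24738757306) (nat_lit 152) (nat_lit 40333992486) (nat_lit 0) (nat_lit 20377487143) (nat_lit 4) (nat_lit 5) (nat_lit 6) (nat_lit 4) (nat_lit 4) (nat_lit 4) (nat_lit 333) (nat_lit 294) (nat_lit 273)) (XT.lf (nat_lit 0) (nat_lit 41684859749) (nat_lit 152) (nat_lit 18176279155) (nat_lit 0) (nat_lit 37291669672) (nat_lit 4) (nat_lit 5) (nat_lit 6) (nat_lit 4) (nat_lit 4) (nat_lit 4) (nat_lit 334) (nat_lit 294) (nat_lit 272)))) (XT.nd (nat_lit 156) (nat_lit 0) (nat_lit 0) (XT.nd (nat_lit 78) (nat_lit 0) (nat_lit 0) (XT.lf (nat_lit 0) (nat_lit 7339813035) (nat_lit 76) (nat_lit 53845459065) (nat_lit 76) (nat_lit 49424512542) (nat_lit 3) (nat_lit 4) (nat_lit 4) (nat_lit 5) (nat_lit 4) (nat_lit 4) (nat_lit 335) (nat_lit 294) (nat_lit 271)) (XT.lf (nat_lit 0) (nat_lit 37479713828) (nat_lit 76) (nat_lit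 46510176614) (nat_lit 76) (nat_lit 42065094049) (nat_lit 3) (nat_lit 4) (nat_lit 4) (nat_lit 5) (nat_lit 4) (nat_lit 4) (nat_lit 336) (nat_lit 294) (nat_lit 270))) (XT.nd (nat_lit 78) (nat_lit 0) (nat_lit 0) (XT.lf (nat_lit 0) (nat_lit 71875986286) (nat_lit 76) (nat_lit 38208746838) (nat_lit 76) (nat_lit 33742676411) (nat_lit 3) (nat_lit 4) (nat_lit 4) (nat_lit 5) (nat_lit 4) (nat_lit 4) (nat_lit 337) (nat_lit 294) (nat_lit 269)) (XT.lf (nat_lit 0) (nat_lit 111201600955) (nat_lit 76) (nat_lit 28778750458) (nat_lit 76) (nat_lit 24294429717) (nat_lit 3) (nat_lit 4) (nat_lit 4) (nat_lit 5) (nat_lit 4) (nat_lit 4) (nat_lit 338) (nat_lit 294) (nat_lit 268)))))) (XT.nd (nat_lit 624) (nat_lit 0) (nat_lit 0) (XT.nd (nat_lit 312) (nat_lit 0) (nat_lit 0) (XT.nd (nat_lit 156) (nat_lit 152) (nat_lit 0) (XT.nd (nat_lit 78) (nat_lit 0) (nat_lit 0) (XT.lf (nat_lit 0) (nat_lit 156225972038) (nat_lit 76)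 (nat_lit 18035687546) (nat_lit 76) (nat_lit 13535496967) (nat_lit 3) (nat_lit 4) (nat_lit 4) (nat_lit 5) (nat_lit 4) (nat_lit 4) (nat_lit 339) (nat_lit 294) (nat_lit 267)) (XT.lf (nat_lit 0) (nat_lit 207830011140) (nat_lit 76) (nat_lit 5769367741) (nat_lit 76) (nat_lit 1255377302) (nat_lit 3) (nat_lit 4) (nat_lit 4) (nat_lit 5) (nat_lit 4) (nat_lit 4) (nat_lit 340) (nat_lit 294) (nat_lit 266))) (XT.nd (nat_lit 78) (nat_lit 0) (nat_lit 0) (XT.lf (nat_lit 0) (nat_lit 12891893017) (nat_lit 152) (nat_lit 224299687516) (nat_lit 0) (nat_lit 8701161242) (nat_lit 1) (nat_lit 5) (nat_lit 3) (nat_lit 4) (nat_lit 1) (nat_lit 4) (nat_lit 341) (nat_lit 294) (nat_lit 265)) (XT.lf (nat_lit 0) (nat_lit 29386721113) (nat_lit 152) (nat_lit 226986787514) (nat_lit 0) (nat_lit 25186327600) (nat_lit 1) (nat_lit 5) (nat_lit 3) (nat_lit 4) (nat_lit 1) (nat_lit 4) (nat_lit 342) (nat_lit 294) (nat_lit 264)))) (XT.nd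 (nat_lit 156) (nat_lit 0) (nat_lit 0) (XT.nd (nat_lit 78) (nat_lit 0) (nat_lit 0) (XT.lf (nat_lit 0) (nat_lit 48293416596) (nat_lit 152) (nat_lit 230203948326) (nat_lit 0) (nat_lit 44084621572) (nat_lit 1) (nat_lit 5) (nat_lit 3) (nat_lit 4) (nat_lit 1) (nat_lit 4) (nat_lit 343) (nat_lit 294) (nat_lit 263)) (XT.lf (nat_lit 0) (nat_lit 69981893074) (nat_lit 152) (nat_lit 234014114401) (nat_lit 0) (nat_lit 65765792388) (nat_lit 1) (nat_lit 5) (nat_lit 3) (nat_lit 4) (nat_lit 1) (nat_lit 4) (nat_lit 344) (nat_lit 294) (nat_lit 262))) (XT.nd (nat_lit 78) (nat_lit 0) (nat_lit 0) (XT.lf (nat_lit 0) (nat_lit 94876490303) (nat_lit 152) (nat_lit 238491832468) (nat_lit 0) (nat_lit 90654036868) (nat_lit 1) (nat_lit 5) (nat_lit 3) (nat_lit 4) (nat_lit 1) (nat_lit 4) (nat_lit 345) (nat_lit 294) (nat_lit 261)) (XT.lf (nat_lit 0) (nat_lit 123464276490) (nat_lit 152) (nat_lit 243724710052) (nat_lit 0)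 (nat_lit 119236298925) (nat_lit 1) (nat_lit 5) (nat_lit 3) (nat_lit 4) (nat_lit 1) (nat_lit 4) (nat_lit 346) (nat_lit 294) (nat_lit 260))))) (XT.nd (nat_lit 312) (nat_lit 0) (nat_lit 0) (XT.nd (nat_lit 156) (nat_lit 0) (nat_lit 0) (XT.nd (nat_lit 78) (nat_lit 0) (nat_lit 0) (XT.lf (nat_lit 0) (nat_lit 156304577888) (nat_lit 152) (nat_lit 249815129543) (nat_lit 0) (nat_lit 152071796732) (nat_lit 1) (nat_lit 5) (nat_lit 3) (nat_lit 4) (nat_lit 1) (nat_lit 4) (nat_lit 347) (nat_lit 294) (nat_lit 259)) (XT.lf (nat_lit 0) (nat_lit 194039922131) (nat_lit 152) (nat_lit 256882251322) (nat_lit 0) (nat_lit 189802963939) (nat_lit 1) (nat_lit 5) (nat_lit 3) (nat_lit 4) (nat_lit 1) (nat_lit 4) (nat_lit 348) (nat_lit 294) (nat_lit 258))) (XT.nd (nat_lit 78) (nat_lit 0) (nat_lit 0) (XT.lf (nat_lit 0) (nat_lit 237408609433) (nat_lit 152) (nat_lit 265064345161) (nat_lit 0) (nat_lit 233168019036) (nat_lit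 1) (nat_lit 5) (nat_lit 3) (nat_lit 4) (nat_lit 1) (nat_lit 4) (nat_lit 349) (nat_lit 294) (nat_lit 257)) (XT.lf (nat_lit 0) (nat_lit 287259157589) (nat_lit 152) (nat_lit 274521495506) (nat_lit 0) (nat_lit 283015408753) (nat_lit 1) (nat_lit 5) (nat_lit 3) (nat_lit 4) (nat_lit 1) (nat_lit 4) (nat_lit 350) (nat_lit 294) (nat_lit 256)))) (XT.nd (nat_lit 156) (nat_lit 0) (nat_lit 0) (XT.nd (nat_lit 78) (nat_lit 0) (nat_lit 0) (XT.lf (nat_lit 0) (nat_lit 344566903412) (nat_lit 152) (nat_lit 285438733560) (nat_lit 0) (nat_lit 340320408107) (nat_lit 1) (nat_lit 5) (nat_lit 3) (nat_lit 4) (nat_lit 1) (nat_lit 4) (nat_lit 351) (nat_lit 294) (nat_lit 255)) (XT.lf (nat_lit 0) (nat_lit 410453085406) (nat_lit 152) (nat_lit 298029657458) (nat_lit 0) (nat_lit 406204201867) (nat_lit 1) (nat_lit 5) (nat_lit 3) (nat_lit 4) (nat_lit 1) (nat_lit 4) (nat_lit 352) (nat_lit 294) (nat_lit 254))) (XT.nd (nat_lit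 78) (nat_lit 0) (nat_lit 0) (XT.lf (nat_lit 0) (nat_lit 486206781044) (nat_lit 152) (nat_lit 312540611364) (nat_lit 0) (nat_lit 481955820781) (nat_lit 1) (nat_lit 5) (nat_lit 3) (nat_lit 4) (nat_lit 1) (nat_lit 4) (nat_lit 353) (nat_lit 294) (nat_lit 253)) (XT.lf (nat_lit 0) (nat_lit 573310127852) (nat_lit 152) (nat_lit 329255505245) (nat_lit 0) (nat_lit 569057361740) (nat_lit 1) (nat_lit 5) (nat_lit 3) (nat_lit 4) (nat_lit 1) (nat_lit 4) (nat_lit 354) (nat_lit 294) (nat_lit 252))))))))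
noncomputable def xc17 : XT := (XT.nd (nat_lit 44148) (nat_lit 0) (nat_lit 0) (XT.nd (nat_lit 1170) (nat_lit 0) (nat_lit 0) (XT.nd (nat_lit 546) (nat_lit 0) (nat_lit 0) (XT.nd (nat_lit 234) (nat_lit 0) (nat_lit 0) (XT.nd (nat_lit 78) (nat_lit 0) (nat_lit 0) (XT.lf (nat_lit 0) (nat_lit 673467321743) (nat_lit 152) (nat_lit 348501369633) (nat_lit 0) (nat_lit 669212985329) (nat_lit 1) (nat_lit 5) (nat_lit 3) (nat_lit 4) (nat_lit 1) (nat_lit 4) (nat_lit 355) (nat_lit 294) (nat_lit 251)) (XT.nd (nat_lit 78) (nat_lit 0) (nat_lit 0) (XT.lf (nat_lit 0) (nat_lit 788637959991) (nat_lit 152) (nat_lit 370654754049) (nat_lit 0) (nat_lit 784382258096) (nat_lit 1) (nat_lit 5) (nat_lit 3) (nat_lit 4) (nat_lit 1) (nat_lit 4) (nat_lit 356) (nat_lit 294) (nat_lit 250)) (XT.lf (nat_lit 0) (nat_lit 921075381169) (nat_lit 152) (nat_lit 396149094276) (nat_lit 0) (nat_lit 916818491900) (nat_lit 1) (nat_lit 5) (nat_lit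 3) (nat_lit 4) (nat_lit 1) (nat_lit 4) (nat_lit 357) (nat_lit 294) (nat_lit 249)))) (XT.nd (nat_lit 156) (nat_lit 0) (nat_lit 0) (XT.nd (nat_lit 78) (nat_lit 0) (nat_lit 0) (XT.lf (nat_lit 0) (nat_lit 1073370752213) (nat_lit 152) (nat_lit 425483192622) (nat_lit 0) (nat_lit 1069112830445) (nat_lit 1) (nat_lit 5) (nat_lit 3) (nat_lit 4) (nat_lit 1) (nat_lit 4) (nat_lit 358) (nat_lit 294) (nat_lit 248)) (XT.lf (nat_lit 0) (nat_lit 1248503765166) (nat_lit 152) (nat_lit 459230977098) (nat_lit 0) (nat_lit 1244244945573) (nat_lit 1) (nat_lit 5) (nat_lit 3) (nat_lit 4) (nat_lit 1) (nat_lit 4) (nat_lit 359) (nat_lit 294) (nat_lit 247))) (XT.nd (nat_lit 78) (nat_lit 0) (nat_lit 0) (XT.lf (nat_lit 0) (nat_lit 1449900935499) (nat_lit 152) (nat_lit 498052730444) (nat_lit 0) (nat_lit 1445641335187) (nat_lit 1) (nat_lit 5) (nat_lit 3) (nat_lit 4) (nat_lit 1) (nat_lit 4) (nat_lit 360) (nat_lit 294) (nat_lit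 246)) (XT.lf (nat_lit 0) (nat_lit 1681502642631) (nat_lit 152) (nat_lit 542708008704) (nat_lit 0) (nat_lit 1677242363434) (nat_lit 1) (nat_lit 5) (nat_lit 3) (nat_lit 4) (nat_lit 1) (nat_lit 4) (nat_lit 361) (nat_lit 294) (nat_lit 245))))) (XT.nd (nat_lit 312) (nat_lit 0) (nat_lit 0) (XT.nd (nat_lit 156) (nat_lit 0) (nat_lit 0) (XT.nd (nat_lit 78) (nat_lit 0) (nat_lit 0) (XT.lf (nat_lit 0) (nat_lit 1947840224310) (nat_lit 152) (nat_lit 594070502104) (nat_lit 0) (nat_lit 1943579354778) (nat_lit 1) (nat_lit 5) (nat_lit 3) (nat_lit 4) (nat_lit 1) (nat_lit 4) (nat_lit 362) (nat_lit 294) (nat_lit 244)) (XT.lf (nat_lit 0) (nat_lit 2254124633221) (nat_lit 152) (nat_lit 653145128994) (nat_lit 0) (nat_lit 2249863250355) (nat_lit 1) (nat_lit 5) (nat_lit 3) (nat_lit 4) (nat_lit 1) (nat_lit 4) (nat_lit 363) (nat_lit 294) (nat_lit 243))) (XT.nd (nat_lit 78) (nat_lit 0) (nat_lit 0) (XT.lf (nat_lit 0)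 (nat_lit 2606348390408) (nat_lit 152) (nat_lit 721087697291) (nat_lit 0) (nat_lit 2602086561164) (nat_lit 1) (nat_lit 5) (nat_lit 3) (nat_lit 4) (nat_lit 1) (nat_lit 4) (nat_lit 364) (nat_lit 294) (nat_lit 242)) (XT.lf (nat_lit 0) (nat_lit 3011402830252) (nat_lit 152) (nat_lit 799227518114) (nat_lit 0) (nat_lit 3007140612853) (nat_lit 1) (nat_lit 5) (nat_lit 3) (nat_lit 4) (nat_lit 1) (nat_lit 4) (nat_lit 365) (nat_lit 294) (nat_lit 241)))) (XT.nd (nat_lit 156) (nat_lit 0) (nat_lit 0) (XT.nd (nat_lit 78) (nat_lit 0) (nat_lit 0) (XT.lf (nat_lit 0) (nat_lit 3477212930922) (nat_lit 152) (nat_lit 889093414044) (nat_lit 0) (nat_lit 3472950375998) (nat_lit 1) (nat_lit 5) (nat_lit 3) (nat_lit 4) (nat_lit 1) (nat_lit 4) (nat_lit 366) (nat_lit 294) (nat_lit 240)) (XT.lf (nat_lit 0) (nat_lit 4012892368302) (nat_lit 152) (nat_lit 992443630871) (nat_lit 0) (nat_lit 4008629519877) (nat_lit 1) (nat_lit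 5) (nat_lit 3) (nat_lit 4) (nat_lit 1) (nat_lit 4) (nat_lit 367) (nat_lit 294) (nat_lit 239))) (XT.nd (nat_lit 78) (nat_lit 0) (nat_lit 0) (XT.lf (nat_lit 0) (nat_lit 4628921827036) (nat_lit 152) (nat_lit 1111300238056) (nat_lit 0) (nat_lit 4624658723392) (nat_lit 1) (nat_lit 5) (nat_lit 3) (nat_lit 4) (nat_lit 1) (nat_lit 4) (nat_lit 368) (nat_lit 294) (nat_lit 238)) (XT.lf (nat_lit 0) (nat_lit 5337354057403) (nat_lit 152) (nat_lit 1247988690954) (nat_lit 0) (nat_lit 5333090731831) (nat_lit 1) (nat_lit 5) (nat_lit 3) (nat_lit 4) (nat_lit 1) (nat_lit 4) (nat_lit 369) (nat_lit 294) (nat_lit 237)))))) (XT.nd (nat_lit 42354) (nat_lit 0) (nat_lit 1368) (XT.nd (nat_lit 312) (nat_lit 0) (nat_lit 0) (XT.nd (nat_lit 156) (nat_lit 0) (nat_lit 0) (XT.nd (nat_lit 78) (nat_lit 0) (nat_lit 0) (XT.lf (nat_lit 0) (nat_lit 6152049689998) (nat_lit 152) (nat_lit 1405183328864) (nat_lit 0) (nat_lit 6147786171444)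 (nat_lit 1) (nat_lit 5) (nat_lit 3) (nat_lit 4) (nat_lit 1) (nat_lit 4) (nat_lit 370) (nat_lit 294) (nat_lit 236)) (XT.lf (nat_lit 0) (nat_lit 7088948421980) (nat_lit 152) (nat_lit 1585959699047) (nat_lit 0) (nat_lit 7084684735616) (nat_lit 1) (nat_lit 5) (nat_lit 3) (nat_lit 4) (nat_lit 1) (nat_lit 4) (nat_lit 371) (nat_lit 294) (nat_lit 235))) (XT.nd (nat_lit 78) (nat_lit 0) (nat_lit 0) (XT.lf (nat_lit 0) (nat_lit 8166380880713) (nat_lit 152) (nat_lit 1793854730487) (nat_lit 0) (nat_lit 8162117048428) (nat_lit 1) (nat_lit 5) (nat_lit 3) (nat_lit 4) (nat_lit 1) (nat_lit 4) (nat_lit 372) (nat_lit 294) (nat_lit 234)) (XT.lf (nat_lit 0) (nat_lit 9405427266479) (nat_lit 152) (nat_lit 2032935934667) (nat_lit 0) (nat_lit 9401163307305) (nat_lit 1) (nat_lit 5) (nat_lit 3) (nat_lit 4) (nat_lit 1) (nat_lit 4) (nat_lit 373) (nat_lit 294) (nat_lit 233)))) (XT.nd (nat_lit 41886) (nat_lit 0) (nat_lit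 2736) (XT.nd (nat_lit 78) (nat_lit 0) (nat_lit 0) (XT.lf (nat_lit 0) (nat_lit 10830329791171) (nat_lit 152) (nat_lit 2307880987322) (nat_lit 0) (nat_lit 10826065721659) (nat_lit 1) (nat_lit 5) (nat_lit 3) (nat_lit 4) (nat_lit 1) (nat_lit 4) (nat_lit 374) (nat_lit 294) (nat_lit 232)) (XT.lf (nat_lit 0) (nat_lit 12468966982447) (nat_lit 152) (nat_lit 2624069248177) (nat_lit 0) (nat_lit 12464702816990) (nat_lit 1) (nat_lit 5) (nat_lit 3) (nat_lit 4) (nat_lit 1) (nat_lit 4) (nat_lit 375) (nat_lit 294) (nat_lit 231))) (XT.nd (nat_lit 78) (nat_lit 380) (nat_lit 0) (XT.lf (nat_lit 0) (nat_lit 1538926239) (nat_lit 228) (nat_lit 1384513453) (nat_lit 0) (nat_lit 1538926239) (nat_lit 42) (nat_lit 5) (nat_lit 45) (nat_lit 4) (nat_lit 42) (nat_lit 4) (nat_lit 310) (nat_lit 295) (nat_lit 295)) (XT.lf (nat_lit 0) (nat_lit 1682836422) (nat_lit 228) (nat_lit 7613814059) (nat_lit 0) (nat_lit 191238541) (nat_lit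 37) (nat_lit 5) (nat_lit 40) (nat_lit 4) (nat_lit 37) (nat_lit 4) (nat_lit 311) (nat_lit 295) (nat_lit 294))))) (XT.nd (nat_lit 312) (nat_lit 532) (nat_lit 0) (XT.nd (nat_lit 156) (nat_lit 380) (nat_lit 0) (XT.nd (nat_lit 78) (nat_lit 304) (nat_lit 0) (XT.lf (nat_lit 0) (nat_lit 6855401479) (nat_lit 152) (nat_lit 3032845953) (nat_lit 152) (nat_lit 244206434) (nat_lit 35) (nat_lit 4) (nat_lit 37) (nat_lit 5) (nat_lit 37) (nat_lit 4) (nat_lit 312) (nat_lit 295) (nat_lit 293)) (XT.lf (nat_lit 0) (nat_lit 1230949297) (nat_lit 152) (nat_lit 6633190757) (nat_lit 152) (nat_lit 3006800192) (nat_lit 31) (nat_lit 4) (nat_lit 33) (nat_lit 5) (nat_lit 33) (nat_lit 4) (nat_lit 313) (nat_lit 295) (nat_lit 292))) (XT.nd (nat_lit 78) (nat_lit 228) (nat_lit 0) (XT.lf (nat_lit 0) (nat_lit 5135307953) (nat_lit 152) (nat_lit 5641209213) (nat_lit 0) (nat_lit 936704018) (nat_lit 29) (nat_lit 5) (nat_lit 31)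 (nat_lit 4) (nat_lit 29) (nat_lit 4) (nat_lit 314) (nat_lit 295) (nat_lit 291)) (XT.lf (nat_lit 0) (nat_lit 1558856349) (nat_lit 228) (nat_lit 1687343505) (nat_lit 76) (nat_lit 9426797029) (nat_lit 26) (nat_lit 5) (nat_lit 29) (nat_lit 5) (nat_lit 27) (nat_lit 4) (nat_lit 315) (nat_lit 295) (nat_lit 290)))) (XT.nd (nat_lit 156) (nat_lit 228) (nat_lit 0) (XT.nd (nat_lit 78) (nat_lit 152) (nat_lit 0) (XT.lf (nat_lit 0) (nat_lit 2265106763) (nat_lit 76) (nat_lit 8323268323) (nat_lit 76) (nat_lit 3169975090) (nat_lit 24) (nat_lit 4) (nat_lit 25) (nat_lit 5) (nat_lit 25) (nat_lit 4) (nat_lit 316) (nat_lit 295) (nat_lit 289)) (XT.lf (nat_lit 0) (nat_lit 5710101117) (nat_lit 152) (nat_lit 8817141622) (nat_lit 0) (nat_lit 464542747) (nat_lit 22) (nat_lit 5) (nat_lit 24) (nat_lit 4) (nat_lit 22) (nat_lit 4) (nat_lit 317) (nat_lit 295) (nat_lit 288))) (XT.nd (nat_lit 78) (nat_lit 152) (nat_lit 0)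 (XT.lf (nat_lit 0) (nat_lit 9765067723) (nat_lit 76) (nat_lit 6141351636) (nat_lit 76) (nat_lit 483627560) (nat_lit 21) (nat_lit 4) (nat_lit 22) (nat_lit 5) (nat_lit 22) (nat_lit 4) (nat_lit 318) (nat_lit 295) (nat_lit 287)) (XT.lf (nat_lit 0) (nat_lit 9220049619) (nat_lit 152) (nat_lit 5104596483) (nat_lit 0) (nat_lit 3649559769) (nat_lit 19) (nat_lit 5) (nat_lit 21) (nat_lit 4) (nat_lit 19) (nat_lit 4) (nat_lit 319) (nat_lit 295) (nat_lit 286))))))) (XT.nd (nat_lit 1170) (nat_lit 228) (nat_lit 0) (XT.nd (nat_lit 546) (nat_lit 456) (nat_lit 0) (XT.nd (nat_lit 234) (nat_lit 380) (nat_lit 0) (XT.nd (nat_lit 78) (nat_lit 152) (nat_lit 0) (XT.lf (nat_lit 0) (nat_lit 713687265) (nat_lit 152) (nat_lit 4374591160) (nat_lit 76) (nat_lit 14690868789) (nat_lit 17) (nat_lit 5) (nat_lit 19) (nat_lit 5) (nat_lit 18) (nat_lit 4) (nat_lit 320) (nat_lit 295) (nat_lit 285)) (XT.nd (nat_lit 78) (nat_lit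 76) (nat_lit 0) (XT.lf (nat_lit 0) (nat_lit 11280898764) (nat_lit 152) (nat_lit 4916524518) (nat_lit 0) (nat_lit 5623498928) (nat_lit 16) (nat_lit 5) (nat_lit 18) (nat_lit 4) (nat_lit 16) (nat_lit 4) (nat_lit 321) (nat_lit 295) (nat_lit 284)) (XT.lf (nat_lit 0) (nat_lit 17252537955) (nat_lit 76) (nat_lit 6379995271) (nat_lit 76) (nat_lit 520557473) (nat_lit 15) (nat_lit 4) (nat_lit 16) (nat_lit 5) (nat_lit 16) (nat_lit 4) (nat_lit 322) (nat_lit 295) (nat_lit 283)))) (XT.nd (nat_lit 156) (nat_lit 152) (nat_lit 0) (XT.nd (nat_lit 78) (nat_lit 76) (nat_lit 0) (XT.lf (nat_lit 0) (nat_lit 10651889441) (nat_lit 152) (nat_lit 11082241529) (nat_lit 0) (nat_lit 5063812605) (nat_lit 13) (nat_lit 5) (nat_lit 15) (nat_lit 4) (nat_lit 13) (nat_lit 4) (nat_lit 323) (nat_lit 295) (nat_lit 282)) (XT.lf (nat_lit 0) (nat_lit 11876964446) (nat_lit 76) (nat_lit 11835795204) (nat_lit 76) (nat_lit 6106264917)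 (nat_lit 12) (nat_lit 4) (nat_lit 13) (nat_lit 5) (nat_lit 13) (nat_lit 4) (nat_lit 324) (nat_lit 295) (nat_lit 281))) (XT.nd (nat_lit 78) (nat_lit 0) (nat_lit 0) (XT.lf (nat_lit 0) (nat_lit 5005006281) (nat_lit 76) (nat_lit 214964664) (nat_lit 152) (nat_lit 28058666491) (nat_lit 10) (nat_lit 5) (nat_lit 11) (nat_lit 5) (nat_lit 12) (nat_lit 4) (nat_lit 325) (nat_lit 295) (nat_lit 280)) (XT.lf (nat_lit 0) (nat_lit 18373214708) (nat_lit 152) (nat_lit 5976989028) (nat_lit 0) (nat_lit 12855166173) (nat_lit 10) (nat_lit 5) (nat_lit 12) (nat_lit 4) (nat_lit 10) (nat_lit 4) (nat_lit 326) (nat_lit 295) (nat_lit 279))))) (XT.nd (nat_lit 312) (nat_lit 152) (nat_lit 0) (XT.nd (nat_lit 156) (nat_lit 76) (nat_lit 0) (XT.nd (nat_lit 78) (nat_lit 152) (nat_lit 0) (XT.lf (nat_lit 0) (nat_lit 20012758406) (nat_lit 76) (nat_lit 13649753629) (nat_lit 76) (nat_lit 8045586631) (nat_lit 9) (nat_lit 4) (nat_lit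 10) (nat_lit 5) (nat_lit 10) (nat_lit 4) (nat_lit 327) (nat_lit 295) (nat_lit 278)) (XT.lf (nat_lit 0) (nat_lit 2814160971) (nat_lit 76) (nat_lit 1269114792) (nat_lit 152) (nat_lit 42799210957) (nat_lit 7) (nat_lit 5) (nat_lit 8) (nat_lit 5) (nat_lit 9) (nat_lit 4) (nat_lit 328) (nat_lit 295) (nat_lit 277))) (XT.nd (nat_lit 78) (nat_lit 76) (nat_lit 0) (XT.lf (nat_lit 0) (nat_lit 18244255566) (nat_lit 152) (nat_lit 21591368300) (nat_lit 0) (nat_lit 12925579133) (nat_lit 7) (nat_lit 5) (nat_lit 9) (nat_lit 4) (nat_lit 7) (nat_lit 4) (nat_lit 329) (nat_lit 295) (nat_lit 276)) (XT.lf (nat_lit 0) (nat_lit 3920833619) (nat_lit 76) (nat_lit 30490722439) (nat_lit 76) (nat_lit 25119616110) (nat_lit 6) (nat_lit 4) (nat_lit 7) (nat_lit 5) (nat_lit 7) (nat_lit 4) (nat_lit 330) (nat_lit 295) (nat_lit 275)))) (XT.nd (nat_lit 156) (nat_lit 152) (nat_lit 0) (XT.nd (nat_lit 78) (nat_lit 0) (nat_lit 0)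 (XT.lf (nat_lit 0) (nat_lit 34112135843) (nat_lit 76) (nat_lit 19294500237) (nat_lit 76) (nat_lit 13877802695) (nat_lit 6) (nat_lit 4) (nat_lit 7) (nat_lit 5) (nat_lit 7) (nat_lit 4) (nat_lit 331) (nat_lit 295) (nat_lit 274)) (XT.lf (nat_lit 0) (nat_lit 68436274573) (nat_lit 76) (nat_lit 6618247012) (nat_lit 76) (nat_lit 1161904937) (nat_lit 6) (nat_lit 4) (nat_lit 7) (nat_lit 5) (nat_lit 7) (nat_lit 4) (nat_lit 332) (nat_lit 295) (nat_lit 273))) (XT.nd (nat_lit 78) (nat_lit 0) (nat_lit 0) (XT.lf (nat_lit 0) (nat_lit 13347047308) (nat_lit 152) (nat_lit 64807593382) (nat_lit 0) (nat_lit 8262958806) (nat_lit 4) (nat_lit 5) (nat_lit 6) (nat_lit 4) (nat_lit 4) (nat_lit 4) (nat_lit 333) (nat_lit 295) (nat_lit 272)) (XT.lf (nat_lit 0) (nat_lit 30216811083) (nat_lit 152) (nat_lit 42804505779) (nat_lit 0) (nat_lit 25104966133) (nat_lit 4) (nat_lit 5) (nat_lit 6) (nat_lit 4) (nat_lit 4) (nat_lit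 4) (nat_lit 334) (nat_lit 295) (nat_lit 271)))))) (XT.nd (nat_lit 624) (nat_lit 0) (nat_lit 0) (XT.nd (nat_lit 312) (nat_lit 152) (nat_lit 0) (XT.nd (nat_lit 156) (nat_lit 0) (nat_lit 0) (XT.nd (nat_lit 78) (nat_lit 76) (nat_lit 0) (XT.lf (nat_lit 0) (nat_lit 49474319303) (nat_lit 152) (nat_lit 17790037916) (nat_lit 0) (nat_lit 44338338313) (nat_lit 4) (nat_lit 5) (nat_lit 6) (nat_lit 4) (nat_lit 4) (nat_lit 4) (nat_lit 335) (nat_lit 295) (nat_lit 270)) (XT.lf (nat_lit 0) (nat_lit 11289994981) (nat_lit 76) (nat_lit 60477878975) (nat_lit 76) (nat_lit 55320910123) (nat_lit 3) (nat_lit 4) (nat_lit 4) (nat_lit 5) (nat_lit 4) (nat_lit 4) (nat_lit 336) (nat_lit 295) (nat_lit 269))) (XT.nd (nat_lit 78) (nat_lit 0) (nat_lit 0) (XT.lf (nat_lit 0) (nat_lit 45579244807) (nat_lit 76) (nat_lit 52230704019) (nat_lit 76) (nat_lit 47055484852) (nat_lit 3) (nat_lit 4) (nat_lit 4) (nat_lit 5) (nat_lit 4)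 (nat_lit 4) (nat_lit 337) (nat_lit 295) (nat_lit 268)) (XT.lf (nat_lit 0) (nat_lit 84811796320) (nat_lit 76) (nat_lit 42847885744) (nat_lit 76) (nat_lit 37656796738) (nat_lit 3) (nat_lit 4) (nat_lit 4) (nat_lit 5) (nat_lit 4) (nat_lit 4) (nat_lit 338) (nat_lit 295) (nat_lit 267)))) (XT.nd (nat_lit 156) (nat_lit 152) (nat_lit 0) (XT.nd (nat_lit 78) (nat_lit 0) (nat_lit 0) (XT.lf (nat_lit 0) (nat_lit 129755242917) (nat_lit 76) (nat_lit 32145847271) (nat_lit 76) (nat_lit 26940958405) (nat_lit 3) (nat_lit 4) (nat_lit 4) (nat_lit 5) (nat_lit 4) (nat_lit 4) (nat_lit 339) (nat_lit 295) (nat_lit 266)) (XT.lf (nat_lit 0) (nat_lit 181288912903) (nat_lit 76) (nat_lit 19915200891) (nat_lit 76) (nat_lit 14698312147) (nat_lit 3) (nat_lit 4) (nat_lit 4) (nat_lit 5) (nat_lit 4) (nat_lit 4) (nat_lit 340) (nat_lit 295) (nat_lit 265))) (XT.nd (nat_lit 78) (nat_lit 152) (nat_lit 0) (XT.lf (nat_lit 0) (nat_lit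 240421073732) (nat_lit 76) (nat_lit 5916651348) (nat_lit 76) (nat_lit 689327928) (nat_lit 3) (nat_lit 4) (nat_lit 4) (nat_lit 5) (nat_lit 4) (nat_lit 4) (nat_lit 341) (nat_lit 295) (nat_lit 264)) (XT.lf (nat_lit 0) (nat_lit 15497100482) (nat_lit 152) (nat_lit 256577220609) (nat_lit 0) (nat_lit 10648584693) (nat_lit 1) (nat_lit 5) (nat_lit 3) (nat_lit 4) (nat_lit 1) (nat_lit 4) (nat_lit 342) (nat_lit 295) (nat_lit 263))))) (XT.nd (nat_lit 312) (nat_lit 0) (nat_lit 0) (XT.nd (nat_lit 156) (nat_lit 0) (nat_lit 0) (XT.nd (nat_lit 78) (nat_lit 0) (nat_lit 0) (XT.lf (nat_lit 0) (nat_lit 34378575812) (nat_lit 152) (nat_lit 259845744743) (nat_lit 0) (nat_lit 29522754362) (nat_lit 1) (nat_lit 5) (nat_lit 3) (nat_lit 4) (nat_lit 1) (nat_lit 4) (nat_lit 343) (nat_lit 295) (nat_lit 262)) (XT.lf (nat_lit 0) (nat_lit 56045121722) (nat_lit 152) (nat_lit 263700574576) (nat_lit 0) (nat_lit 51182947523)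 (nat_lit 1) (nat_lit 5) (nat_lit 3) (nat_lit 4) (nat_lit 1) (nat_lit 4) (nat_lit 344) (nat_lit 295) (nat_lit 261))) (XT.nd (nat_lit 78) (nat_lit 0) (nat_lit 0) (XT.lf (nat_lit 0) (nat_lit 80920648893) (nat_lit 152) (nat_lit 268217130693) (nat_lit 0) (nat_lit 76052950563) (nat_lit 1) (nat_lit 5) (nat_lit 3) (nat_lit 4) (nat_lit 1) (nat_lit 4) (nat_lit 345) (nat_lit 295) (nat_lit 260)) (XT.lf (nat_lit 0) (nat_lit 109491852421) (nat_lit 152) (nat_lit 273483780496) (nat_lit 0) (nat_lit 104619350500) (nat_lit 1) (nat_lit 5) (nat_lit 3) (nat_lit 4) (nat_lit 1) (nat_lit 4) (nat_lit 346) (nat_lit 295) (nat_lit 259)))) (XT.nd (nat_lit 156) (nat_lit 0) (nat_lit 0) (XT.nd (nat_lit 78) (nat_lit 0) (nat_lit 0) (XT.lf (nat_lit 0) (nat_lit 142317734114) (nat_lit 152) (nat_lit 279603567132) (nat_lit 0) (nat_lit 137441055157) (nat_lit 1) (nat_lit 5) (nat_lit 3) (nat_lit 4) (nat_lit 1) (nat_lit 4) (nat_lit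 347) (nat_lit 295) (nat_lit 258)) (XT.lf (nat_lit 0) (nat_lit 180040539483) (nat_lit 152) (nat_lit 286696225559) (nat_lit 0) (nat_lit 175160228322) (nat_lit 1) (nat_lit 5) (nat_lit 3) (nat_lit 4) (nat_lit 1) (nat_lit 4) (nat_lit 348) (nat_lit 295) (nat_lit 257))) (XT.nd (nat_lit 78) (nat_lit 0) (nat_lit 0) (XT.lf (nat_lit 0) (nat_lit 223398323418) (nat_lit 152) (nat_lit 294900525180) (nat_lit 0) (nat_lit 218514853817) (nat_lit 1) (nat_lit 5) (nat_lit 3) (nat_lit 4) (nat_lit 1) (nat_lit 4) (nat_lit 349) (nat_lit 295) (nat_lit 256)) (XT.lf (nat_lit 0) (nat_lit 273239390385) (nat_lit 152) (nat_lit 304376984901) (nat_lit 0) (nat_lit 268353174315) (nat_lit 1) (nat_lit 5) (nat_lit 3) (nat_lit 4) (nat_lit 1) (nat_lit 4) (nat_lit 350) (nat_lit 295) (nat_lit 255))))))))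
noncomputable def xc18 : XT := (XT.nd (nat_lit 43914) (nat_lit 0) (nat_lit 0) (XT.nd (nat_lit 1170) (nat_lit 0) (nat_lit 0) (XT.nd (nat_lit 546) (nat_lit 0) (nat_lit 0) (XT.nd (nat_lit 234) (nat_lit 0) (nat_lit 0) (XT.nd (nat_lit 78) (nat_lit 0) (nat_lit 0) (XT.lf (nat_lit 0) (nat_lit 330538891695) (nat_lit 152) (nat_lit 315311013715) (nat_lit 0) (nat_lit 325650287391) (nat_lit 1) (nat_lit 5) (nat_lit 3) (nat_lit 4) (nat_lit 1) (nat_lit 4) (nat_lit 351) (nat_lit 295) (nat_lit 254)) (XT.nd (nat_lit 78) (nat_lit 0) (nat_lit 0) (XT.lf (nat_lit 0) (nat_lit 396417904547) (nat_lit 152) (nat_lit 327916538275) (nat_lit 0) (nat_lit 391527223519) (nat_lit 1) (nat_lit 5) (nat_lit 3) (nat_lit 4) (nat_lit 1) (nat_lit 4) (nat_lit 352) (nat_lit 295) (nat_lit 253)) (XT.lf (nat_lit 0) (nat_lit 472165366150) (nat_lit 152) (nat_lit 342440188408) (nat_lit 0) (nat_lit 467272879274) (nat_lit 1) (nat_lit 5) (nat_lit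 3) (nat_lit 4) (nat_lit 1) (nat_lit 4) (nat_lit 353) (nat_lit 295) (nat_lit 252)))) (XT.nd (nat_lit 156) (nat_lit 0) (nat_lit 0) (XT.nd (nat_lit 78) (nat_lit 0) (nat_lit 0) (XT.lf (nat_lit 0) (nat_lit 559263292056) (nat_lit 152) (nat_lit 359166122487) (nat_lit 0) (nat_lit 554369234878) (nat_lit 1) (nat_lit 5) (nat_lit 3) (nat_lit 4) (nat_lit 1) (nat_lit 4) (nat_lit 354) (nat_lit 295) (nat_lit 251)) (XT.lf (nat_lit 0) (nat_lit 659415772121) (nat_lit 152) (nat_lit 378421587047) (nat_lit 0) (nat_lit 654520349462) (nat_lit 1) (nat_lit 5) (nat_lit 3) (nat_lit 4) (nat_lit 1) (nat_lit 4) (nat_lit 355) (nat_lit 295) (nat_lit 250))) (XT.nd (nat_lit 78) (nat_lit 0) (nat_lit 0) (XT.lf (nat_lit 0) (nat_lit 774582311389) (nat_lit 152) (nat_lit 400583319440) (nat_lit 0) (nat_lit 769685701355) (nat_lit 1) (nat_lit 5) (nat_lit 3) (nat_lit 4) (nat_lit 1) (nat_lit 4) (nat_lit 356) (nat_lit 295) (nat_lit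 249)) (XT.lf (nat_lit 0) (nat_lit 907016168236) (nat_lit 152) (nat_lit 426084918776) (nat_lit 0) (nat_lit 902118525704) (nat_lit 1) (nat_lit 5) (nat_lit 3) (nat_lit 4) (nat_lit 1) (nat_lit 4) (nat_lit 357) (nat_lit 295) (nat_lit 248))))) (XT.nd (nat_lit 312) (nat_lit 0) (nat_lit 0) (XT.nd (nat_lit 156) (nat_lit 0) (nat_lit 0) (XT.nd (nat_lit 78) (nat_lit 0) (nat_lit 0) (XT.lf (nat_lit 0) (nat_lit 1059308439863) (nat_lit 152) (nat_lit 455425329391) (nat_lit 0) (nat_lit 1054409899505) (nat_lit 1) (nat_lit 5) (nat_lit 3) (nat_lit 4) (nat_lit 1) (nat_lit 4) (nat_lit 358) (nat_lit 295) (nat_lit 247)) (XT.lf (nat_lit 0) (nat_lit 1234438757670) (nat_lit 152) (nat_lit 489178602796) (nat_lit 0) (nat_lit 1229539436594) (nat_lit 1) (nat_lit 5) (nat_lit 3) (nat_lit 4) (nat_lit 1) (nat_lit 4) (nat_lit 359) (nat_lit 295) (nat_lit 246))) (XT.nd (nat_lit 78) (nat_lit 0) (nat_lit 0) (XT.lf (nat_lit 0) (nat_lit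 1435833584398) (nat_lit 152) (nat_lit 528005129125) (nat_lit 0) (nat_lit 1430933584437) (nat_lit 1) (nat_lit 5) (nat_lit 3) (nat_lit 4) (nat_lit 1) (nat_lit 4) (nat_lit 360) (nat_lit 295) (nat_lit 245)) (XT.lf (nat_lit 0) (nat_lit 1667433253612) (nat_lit 152) (nat_lit 572664557804) (nat_lit 0) (nat_lit 1662532663316) (nat_lit 1) (nat_lit 5) (nat_lit 3) (nat_lit 4) (nat_lit 1) (nat_lit 4) (nat_lit 361) (nat_lit 295) (nat_lit 244)))) (XT.nd (nat_lit 156) (nat_lit 0) (nat_lit 0) (XT.nd (nat_lit 78) (nat_lit 0) (nat_lit 0) (XT.lf (nat_lit 0) (nat_lit 1933769063189) (nat_lit 152) (nat_lit 624030660264) (nat_lit 0) (nat_lit 1928867959559) (nat_lit 1) (nat_lit 5) (nat_lit 3) (nat_lit 4) (nat_lit 1) (nat_lit 4) (nat_lit 362) (nat_lit 295) (nat_lit 243)) (XT.lf (nat_lit 0) (nat_lit 2240051931142) (nat_lit 152) (nat_lit 683108425467) (nat_lit 0) (nat_lit 2235150381133) (nat_lit 1) (nat_lit 5) (nat_lit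 3) (nat_lit 4) (nat_lit 1) (nat_lit 4) (nat_lit 363) (nat_lit 295) (nat_lit 242))) (XT.nd (nat_lit 78) (nat_lit 0) (nat_lit 0) (XT.lf (nat_lit 0) (nat_lit 2592274348366) (nat_lit 152) (nat_lit 751053722732) (nat_lit 0) (nat_lit 2587372410202) (nat_lit 1) (nat_lit 5) (nat_lit 3) (nat_lit 4) (nat_lit 1) (nat_lit 4) (nat_lit 364) (nat_lit 295) (nat_lit 241)) (XT.lf (nat_lit 0) (nat_lit 2997327623023) (nat_lit 152) (nat_lit 829195916571) (nat_lit 0) (nat_lit 2992425347334) (nat_lit 1) (nat_lit 5) (nat_lit 3) (nat_lit 4) (nat_lit 1) (nat_lit 4) (nat_lit 365) (nat_lit 295) (nat_lit 240)))))) (XT.nd (nat_lit 546) (nat_lit 0) (nat_lit 0) (XT.nd (nat_lit 234) (nat_lit 0) (nat_lit 0) (XT.nd (nat_lit 78) (nat_lit 0) (nat_lit 0) (XT.lf (nat_lit 0) (nat_lit 3463136710488) (nat_lit 152) (nat_lit 919063875993) (nat_lit 0) (nat_lit 3458234141299) (nat_lit 1) (nat_lit 5) (nat_lit 3) (nat_lit 4) (nat_lit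 1) (nat_lit 4) (nat_lit 366) (nat_lit 295) (nat_lit 239)) (XT.nd (nat_lit 78) (nat_lit 0) (nat_lit 0) (XT.lf (nat_lit 0) (nat_lit 3998815266820) (nat_lit 152) (nat_lit 1022415887161) (nat_lit 0) (nat_lit 3993912442412) (nat_lit 1) (nat_lit 5) (nat_lit 3) (nat_lit 4) (nat_lit 1) (nat_lit 4) (nat_lit 367) (nat_lit 295) (nat_lit 238)) (XT.lf (nat_lit 0) (nat_lit 4614843959425) (nat_lit 152) (nat_lit 1141274054642) (nat_lit 0) (nat_lit 4609940913089) (nat_lit 1) (nat_lit 5) (nat_lit 3) (nat_lit 4) (nat_lit 1) (nat_lit 4) (nat_lit 368) (nat_lit 295) (nat_lit 237)))) (XT.nd (nat_lit 156) (nat_lit 0) (nat_lit 0) (XT.nd (nat_lit 78) (nat_lit 0) (nat_lit 0) (XT.lf (nat_lit 0) (nat_lit 5323275523594) (nat_lit 152) (nat_lit 1277963864320) (nat_lit 0) (nat_lit 5318372284276) (nat_lit 1) (nat_lit 5) (nat_lit 3) (nat_lit 4) (nat_lit 1) (nat_lit 4) (nat_lit 369) (nat_lit 295) (nat_lit 236)) (XT.lf (nat_lit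 0) (nat_lit 6137970576885) (nat_lit 152) (nat_lit 1435159682038) (nat_lit 0) (nat_lit 6133067169757) (nat_lit 1) (nat_lit 5) (nat_lit 3) (nat_lit 4) (nat_lit 1) (nat_lit 4) (nat_lit 370) (nat_lit 295) (nat_lit 235))) (XT.nd (nat_lit 78) (nat_lit 0) (nat_lit 0) (XT.lf (nat_lit 0) (nat_lit 7074868805125) (nat_lit 152) (nat_lit 1615937078141) (nat_lit 0) (nat_lit 7069965252075) (nat_lit 1) (nat_lit 5) (nat_lit 3) (nat_lit 4) (nat_lit 1) (nat_lit 4) (nat_lit 371) (nat_lit 295) (nat_lit 234)) (XT.lf (nat_lit 0) (nat_lit 8152300825822) (nat_lit 152) (nat_lit 1823833001685) (nat_lit 0) (nat_lit 8147397145884) (nat_lit 1) (nat_lit 5) (nat_lit 3) (nat_lit 4) (nat_lit 1) (nat_lit 4) (nat_lit 372) (nat_lit 295) (nat_lit 233))))) (XT.nd (nat_lit 41886) (nat_lit 0) (nat_lit 2508) (XT.nd (nat_lit 156) (nat_lit 0) (nat_lit 0) (XT.nd (nat_lit 78) (nat_lit 0) (nat_lit 0) (XT.lf (nat_lit 0) (nat_lit 9391346830686)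 (nat_lit 152) (nat_lit 2062914981609) (nat_lit 0) (nat_lit 9386443040410) (nat_lit 1) (nat_lit 5) (nat_lit 3) (nat_lit 4) (nat_lit 1) (nat_lit 4) (nat_lit 373) (nat_lit 295) (nat_lit 232)) (XT.lf (nat_lit 0) (nat_lit 10816249024160) (nat_lit 152) (nat_lit 2337860708822) (nat_lit 0) (nat_lit 10811345137938) (nat_lit 1) (nat_lit 5) (nat_lit 3) (nat_lit 4) (nat_lit 1) (nat_lit 4) (nat_lit 374) (nat_lit 295) (nat_lit 231))) (XT.nd (nat_lit 41652) (nat_lit 0) (nat_lit 3800) (XT.lf (nat_lit 0) (nat_lit 12454885927420) (nat_lit 152) (nat_lit 2654049556251) (nat_lit 0) (nat_lit 12449981957767) (nat_lit 1) (nat_lit 5) (nat_lit 3) (nat_lit 4) (nat_lit 1) (nat_lit 4) (nat_lit 375) (nat_lit 295) (nat_lit 230)) (XT.lf (nat_lit 0) (nat_lit 2838024117) (nat_lit 228) (nat_lit 582985933) (nat_lit 228) (nat_lit 582985933) (nat_lit 51) (nat_lit 4) (nat_lit 54) (nat_lit 5) (nat_lit 54) (nat_lit 4) (nat_lit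 308) (nat_lit 296) (nat_lit 296)))) (XT.nd (nat_lit 156) (nat_lit 608) (nat_lit 0) (XT.nd (nat_lit 78) (nat_lit 228) (nat_lit 0) (XT.lf (nat_lit 0) (nat_lit 1387335225) (nat_lit 228) (nat_lit 4529178193) (nat_lit 228) (nat_lit 2528408458) (nat_lit 45) (nat_lit 4) (nat_lit 48) (nat_lit 5) (nat_lit 48) (nat_lit 4) (nat_lit 309) (nat_lit 296) (nat_lit 295)) (XT.lf (nat_lit 0) (nat_lit 4509747917) (nat_lit 228) (nat_lit 3402656283) (nat_lit 0) (nat_lit 1046257636) (nat_lit 42) (nat_lit 5) (nat_lit 45) (nat_lit 4) (nat_lit 42) (nat_lit 4) (nat_lit 310) (nat_lit 296) (nat_lit 294))) (XT.nd (nat_lit 78) (nat_lit 228) (nat_lit 0) (XT.lf (nat_lit 0) (nat_lit 472784402) (nat_lit 152) (nat_lit 2093119276) (nat_lit 228) (nat_lit 6989045509) (nat_lit 37) (nat_lit 5) (nat_lit 39) (nat_lit 5) (nat_lit 40) (nat_lit 4) (nat_lit 311) (nat_lit 296) (nat_lit 293)) (XT.lf (nat_lit 0) (nat_lit 73395421) (nat_lit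 228) (nat_lit 5479176897) (nat_lit 76) (nat_lit 4683604892) (nat_lit 34) (nat_lit 5) (nat_lit 37) (nat_lit 5) (nat_lit 35) (nat_lit 4) (nat_lit 312) (nat_lit 296) (nat_lit 292))))))) (XT.nd (nat_lit 1170) (nat_lit 684) (nat_lit 0) (XT.nd (nat_lit 546) (nat_lit 684) (nat_lit 0) (XT.nd (nat_lit 234) (nat_lit 532) (nat_lit 0) (XT.nd (nat_lit 78) (nat_lit 532) (nat_lit 0) (XT.lf (nat_lit 0) (nat_lit 7671371059) (nat_lit 152) (nat_lit 1794227598) (nat_lit 0) (nat_lit 1548603286) (nat_lit 33) (nat_lit 5) (nat_lit 35) (nat_lit 4) (nat_lit 33) (nat_lit 4) (nat_lit 313) (nat_lit 296) (nat_lit 291)) (XT.nd (nat_lit 78) (nat_lit 228) (nat_lit 0) (XT.lf (nat_lit 0) (nat_lit 2078703345) (nat_lit 76) (nat_lit 2243952787) (nat_lit 152) (nat_lit 7574073202) (nat_lit 29) (nat_lit 5) (nat_lit 30) (nat_lit 5) (nat_lit 31) (nat_lit 4) (nat_lit 314) (nat_lit 296) (nat_lit 290)) (XT.lf (nat_lit 0) (nat_lit 126893819)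 (nat_lit 228) (nat_lit 6772243031) (nat_lit 76) (nat_lit 5998236580) (nat_lit 26) (nat_lit 5) (nat_lit 29) (nat_lit 5) (nat_lit 27) (nat_lit 4) (nat_lit 315) (nat_lit 296) (nat_lit 289)))) (XT.nd (nat_lit 156) (nat_lit 304) (nat_lit 0) (XT.nd (nat_lit 78) (nat_lit 152) (nat_lit 0) (XT.lf (nat_lit 0) (nat_lit 8582649707) (nat_lit 152) (nat_lit 3890309485) (nat_lit 0) (nat_lit 1555756404) (nat_lit 25) (nat_lit 5) (nat_lit 27) (nat_lit 4) (nat_lit 25) (nat_lit 4) (nat_lit 316) (nat_lit 296) (nat_lit 288)) (XT.lf (nat_lit 0) (nat_lit 3006779352) (nat_lit 152) (nat_lit 1217931212) (nat_lit 76) (nat_lit 11085177496) (nat_lit 23) (nat_lit 5) (nat_lit 25) (nat_lit 5) (nat_lit 24) (nat_lit 4) (nat_lit 317) (nat_lit 296) (nat_lit 287))) (XT.nd (nat_lit 78) (nat_lit 152) (nat_lit 0) (XT.lf (nat_lit 0) (nat_lit 1174260441) (nat_lit 76) (nat_lit 11429428309) (nat_lit 76) (nat_lit 4152474954) (nat_lit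 21) (nat_lit 4) (nat_lit 22) (nat_lit 5) (nat_lit 22) (nat_lit 4) (nat_lit 318) (nat_lit 296) (nat_lit 286)) (XT.lf (nat_lit 0) (nat_lit 3151729035) (nat_lit 76) (nat_lit 2011895425) (nat_lit 152) (nat_lit 13229495254) (nat_lit 19) (nat_lit 5) (nat_lit 20) (nat_lit 5) (nat_lit 21) (nat_lit 4) (nat_lit 319) (nat_lit 296) (nat_lit 285))))) (XT.nd (nat_lit 312) (nat_lit 228) (nat_lit 0) (XT.nd (nat_lit 156) (nat_lit 228) (nat_lit 0) (XT.nd (nat_lit 78) (nat_lit 152) (nat_lit 0) (XT.lf (nat_lit 0) (nat_lit 4349606857) (nat_lit 76) (nat_lit 11585303270) (nat_lit 76) (nat_lit 4307881524) (nat_lit 18) (nat_lit 4) (nat_lit 19) (nat_lit 5) (nat_lit 19) (nat_lit 4) (nat_lit 320) (nat_lit 296) (nat_lit 284)) (XT.lf (nat_lit 0) (nat_lit 4614007293) (nat_lit 76) (nat_lit 1207930225) (nat_lit 152) (nat_lit 16523183384) (nat_lit 16) (nat_lit 5) (nat_lit 17) (nat_lit 5) (nat_lit 18) (nat_lit 4) (nat_lit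 321) (nat_lit 296) (nat_lit 283))) (XT.nd (nat_lit 78) (nat_lit 152) (nat_lit 0) (XT.lf (nat_lit 0) (nat_lit 3390196742) (nat_lit 76) (nat_lit 14223975688) (nat_lit 76) (nat_lit 7107899072) (nat_lit 15) (nat_lit 4) (nat_lit 16) (nat_lit 5) (nat_lit 16) (nat_lit 4) (nat_lit 322) (nat_lit 296) (nat_lit 282)) (XT.lf (nat_lit 0) (nat_lit 450045342) (nat_lit 76) (nat_lit 3260960275) (nat_lit 152) (nat_lit 23723262511) (nat_lit 13) (nat_lit 5) (nat_lit 14) (nat_lit 5) (nat_lit 15) (nat_lit 4) (nat_lit 323) (nat_lit 296) (nat_lit 281)))) (XT.nd (nat_lit 156) (nat_lit 152) (nat_lit 0) (XT.nd (nat_lit 78) (nat_lit 76) (nat_lit 0) (XT.lf (nat_lit 0) (nat_lit 16235628848) (nat_lit 152) (nat_lit 4880428571) (nat_lit 0) (nat_lit 9382212568) (nat_lit 13) (nat_lit 5) (nat_lit 15) (nat_lit 4) (nat_lit 13) (nat_lit 4) (nat_lit 324) (nat_lit 296) (nat_lit 280)) (XT.lf (nat_lit 0) (nat_lit 20856997241) (nat_lit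 76) (nat_lit 10051848857) (nat_lit 76) (nat_lit 3091473446) (nat_lit 12) (nat_lit 4) (nat_lit 13) (nat_lit 5) (nat_lit 13) (nat_lit 4) (nat_lit 325) (nat_lit 296) (nat_lit 279))) (XT.nd (nat_lit 78) (nat_lit 0) (nat_lit 0) (XT.lf (nat_lit 0) (nat_lit 9487671990) (nat_lit 152) (nat_lit 25546881034) (nat_lit 0) (nat_lit 2956761480) (nat_lit 10) (nat_lit 5) (nat_lit 12) (nat_lit 4) (nat_lit 10) (nat_lit 4) (nat_lit 326) (nat_lit 296) (nat_lit 278)) (XT.lf (nat_lit 0) (nat_lit 24164545430) (nat_lit 152) (nat_lit 819755292) (nat_lit 0) (nat_lit 17558749300) (nat_lit 10) (nat_lit 5) (nat_lit 12) (nat_lit 4) (nat_lit 10) (nat_lit 4) (nat_lit 327) (nat_lit 296) (nat_lit 277)))))) (XT.nd (nat_lit 624) (nat_lit 228) (nat_lit 0) (XT.nd (nat_lit 312) (nat_lit 152) (nat_lit 0) (XT.nd (nat_lit 156) (nat_lit 76) (nat_lit 0) (XT.nd (nat_lit 78) (nat_lit 152) (nat_lit 0) (XT.lf (nat_lit 0) (nat_lit 28556031756)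 (nat_lit 76) (nat_lit 12928560408) (nat_lit 76) (nat_lit 6257646348) (nat_lit 9) (nat_lit 4) (nat_lit 10) (nat_lit 5) (nat_lit 10) (nat_lit 4) (nat_lit 328) (nat_lit 296) (nat_lit 276)) (XT.lf (nat_lit 0) (nat_lit 7322625845) (nat_lit 152) (nat_lit 45288453230) (nat_lit 0) (nat_lit 1093423671) (nat_lit 7) (nat_lit 5) (nat_lit 9) (nat_lit 4) (nat_lit 7) (nat_lit 4) (nat_lit 329) (nat_lit 296) (nat_lit 275))) (XT.nd (nat_lit 78) (nat_lit 76) (nat_lit 0) (XT.lf (nat_lit 0) (nat_lit 23295641113) (nat_lit 152) (nat_lit 20173533716) (nat_lit 0) (nat_lit 17020847726) (nat_lit 7) (nat_lit 5) (nat_lit 9) (nat_lit 4) (nat_lit 7) (nat_lit 4) (nat_lit 330) (nat_lit 296) (nat_lit 274)) (XT.lf (nat_lit 0) (nat_lit 8771345587) (nat_lit 76) (nat_lit 32917278050) (nat_lit 76) (nat_lit 26602840129) (nat_lit 6) (nat_lit 4) (nat_lit 7) (nat_lit 5) (nat_lit 7) (nat_lit 4) (nat_lit 331) (nat_lit 296) (nat_lit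 273)))) (XT.nd (nat_lit 156) (nat_lit 76) (nat_lit 0) (XT.nd (nat_lit 78) (nat_lit 76) (nat_lit 0) (XT.lf (nat_lit 0) (nat_lit 42935379634) (nat_lit 76) (nat_lit 20321672877) (nat_lit 76) (nat_lit 13972761449) (nat_lit 6) (nat_lit 4) (nat_lit 7) (nat_lit 5) (nat_lit 7) (nat_lit 4) (nat_lit 332) (nat_lit 296) (nat_lit 272)) (XT.lf (nat_lit 0) (nat_lit 371806023) (nat_lit 152) (nat_lit 5605531861) (nat_lit 76) (nat_lit 81542720781) (nat_lit 5) (nat_lit 5) (nat_lit 7) (nat_lit 5) (nat_lit 6) (nat_lit 4) (nat_lit 333) (nat_lit 296) (nat_lit 271))) (XT.nd (nat_lit 78) (nat_lit 0) (nat_lit 0) (XT.lf (nat_lit 0) (nat_lit 16885834996) (nat_lit 152) (nat_lit 71416049277) (nat_lit 0) (nat_lit 10955320816) (nat_lit 4) (nat_lit 5) (nat_lit 6) (nat_lit 4) (nat_lit 4) (nat_lit 4) (nat_lit 334) (nat_lit 296) (nat_lit 270)) (XT.lf (nat_lit 0) (nat_lit 36085620216) (nat_lit 152) (nat_lit 46518500678) (nat_lit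 0) (nat_lit 30134118174) (nat_lit 4) (nat_lit 5) (nat_lit 6) (nat_lit 4) (nat_lit 4) (nat_lit 4) (nat_lit 335) (nat_lit 296) (nat_lit 269))))) (XT.nd (nat_lit 312) (nat_lit 152) (nat_lit 0) (XT.nd (nat_lit 156) (nat_lit 0) (nat_lit 0) (XT.nd (nat_lit 78) (nat_lit 76) (nat_lit 0) (XT.lf (nat_lit 0) (nat_lit 58057456305) (nat_lit 152) (nat_lit 18104907980) (nat_lit 0) (nat_lit 52087703948) (nat_lit 4) (nat_lit 5) (nat_lit 6) (nat_lit 4) (nat_lit 4) (nat_lit 4) (nat_lit 336) (nat_lit 296) (nat_lit 268)) (XT.lf (nat_lit 0) (nat_lit 15137906319) (nat_lit 76) (nat_lit 68457387702) (nat_lit 76) (nat_lit 62471765507) (nat_lit 3) (nat_lit 4) (nat_lit 4) (nat_lit 5) (nat_lit 4) (nat_lit 4) (nat_lit 337) (nat_lit 296) (nat_lit 267))) (XT.nd (nat_lit 78) (nat_lit 0) (nat_lit 0) (XT.lf (nat_lit 0) (nat_lit 54289533347) (nat_lit 76) (nat_lit 59115593866) (nat_lit 76) (nat_lit 53116171811) (nat_lit 3)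 (nat_lit 4) (nat_lit 4) (nat_lit 5) (nat_lit 4) (nat_lit 4) (nat_lit 338) (nat_lit 296) (nat_lit 266)) (XT.lf (nat_lit 0) (nat_lit 99162610828) (nat_lit 76) (nat_lit 48449228818) (nat_lit 76) (nat_lit 42437806885) (nat_lit 3) (nat_lit 4) (nat_lit 4) (nat_lit 5) (nat_lit 4) (nat_lit 4) (nat_lit 339) (nat_lit 296) (nat_lit 265)))) (XT.nd (nat_lit 156) (nat_lit 152) (nat_lit 0) (XT.nd (nat_lit 78) (nat_lit 0) (nat_lit 0) (XT.lf (nat_lit 0) (nat_lit 150635090276) (nat_lit 76) (nat_lit 36249602807) (nat_lit 76) (nat_lit 30227746197) (nat_lit 3) (nat_lit 4) (nat_lit 4) (nat_lit 5) (nat_lit 4) (nat_lit 4) (nat_lit 340) (nat_lit 296) (nat_lit 264)) (XT.lf (nat_lit 0) (nat_lit 209714041944) (nat_lit 76) (nat_lit 22278027499) (nat_lit 76) (nat_lit 16247097257) (nat_lit 3) (nat_lit 4) (nat_lit 4) (nat_lit 5) (nat_lit 4) (nat_lit 4) (nat_lit 341) (nat_lit 296) (nat_lit 263))) (XT.nd (nat_lit 78) (nat_lit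 152) (nat_lit 0) (XT.lf (nat_lit 0) (nat_lit 277555358362) (nat_lit 76) (nat_lit 6261145984) (nat_lit 76) (nat_lit 222325628) (nat_lit 3) (nat_lit 4) (nat_lit 4) (nat_lit 5) (nat_lit 4) (nat_lit 4) (nat_lit 342) (nat_lit 296) (nat_lit 262)) (XT.lf (nat_lit 0) (nat_lit 18329358191) (nat_lit 152) (nat_lit 294029837702) (nat_lit 0) (nat_lit 12731505112) (nat_lit 1) (nat_lit 5) (nat_lit 3) (nat_lit 4) (nat_lit 1) (nat_lit 4) (nat_lit 343) (nat_lit 296) (nat_lit 261))))))))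
noncomputable def xc19 : XT := (XT.nd (nat_lit 43914) (nat_lit 0) (nat_lit 228) (XT.nd (nat_lit 1170) (nat_lit 0) (nat_lit 0) (XT.nd (nat_lit 546) (nat_lit 0) (nat_lit 0) (XT.nd (nat_lit 234) (nat_lit 0) (nat_lit 0) (XT.nd (nat_lit 78) (nat_lit 0) (nat_lit 0) (XT.lf (nat_lit 0) (nat_lit 39976834042) (nat_lit 152) (nat_lit 297923505586) (nat_lit 0) (nat_lit 34373456833) (nat_lit 1) (nat_lit 5) (nat_lit 3) (nat_lit 4) (nat_lit 1) (nat_lit 4) (nat_lit 344) (nat_lit 296) (nat_lit 260)) (XT.nd (nat_lit 78) (nat_lit 0) (nat_lit 0) (XT.lf (nat_lit 0) (nat_lit 64835778553) (nat_lit 152) (nat_lit 302473833920) (nat_lit 0) (nat_lit 59227597753) (nat_lit 1) (nat_lit 5) (nat_lit 3) (nat_lit 4) (nat_lit 1) (nat_lit 4) (nat_lit 345) (nat_lit 296) (nat_lit 259)) (XT.lf (nat_lit 0) (nat_lit 93392562376) (nat_lit 152) (nat_lit 307769850869) (nat_lit 0) (nat_lit 87780204541) (nat_lit 1) (nat_lit 5) (nat_lit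 3) (nat_lit 4) (nat_lit 1) (nat_lit 4) (nat_lit 346) (nat_lit 296) (nat_lit 258)))) (XT.nd (nat_lit 156) (nat_lit 0) (nat_lit 0) (XT.nd (nat_lit 78) (nat_lit 0) (nat_lit 0) (XT.lf (nat_lit 0) (nat_lit 126205905196) (nat_lit 152) (nat_lit 313915174154) (nat_lit 0) (nat_lit 120589915156) (nat_lit 1) (nat_lit 5) (nat_lit 3) (nat_lit 4) (nat_lit 1) (nat_lit 4) (nat_lit 347) (nat_lit 296) (nat_lit 257)) (XT.lf (nat_lit 0) (nat_lit 163917807198) (nat_lit 152) (nat_lit 321030038362) (nat_lit 0) (nat_lit 158298658718) (nat_lit 1) (nat_lit 5) (nat_lit 3) (nat_lit 4) (nat_lit 1) (nat_lit 4) (nat_lit 348) (nat_lit 296) (nat_lit 256))) (XT.nd (nat_lit 78) (nat_lit 0) (nat_lit 0) (XT.lf (nat_lit 0) (nat_lit 207266109943) (nat_lit 152) (nat_lit 329253647358) (nat_lit 0) (nat_lit 201644214994) (nat_lit 1) (nat_lit 5) (nat_lit 3) (nat_lit 4) (nat_lit 1) (nat_lit 4) (nat_lit 349) (nat_lit 296) (nat_lit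 255)) (XT.lf (nat_lit 0) (nat_lit 257098932397) (nat_lit 152) (nat_lit 338746897840) (nat_lit 0) (nat_lit 251474649215) (nat_lit 1) (nat_lit 5) (nat_lit 3) (nat_lit 4) (nat_lit 1) (nat_lit 4) (nat_lit 350) (nat_lit 296) (nat_lit 254))))) (XT.nd (nat_lit 312) (nat_lit 0) (nat_lit 0) (XT.nd (nat_lit 156) (nat_lit 0) (nat_lit 0) (XT.nd (nat_lit 78) (nat_lit 0) (nat_lit 0) (XT.lf (nat_lit 0) (nat_lit 314391264566) (nat_lit 152) (nat_lit 349695527317) (nat_lit 0) (nat_lit 308764904658) (nat_lit 1) (nat_lit 5) (nat_lit 3) (nat_lit 4) (nat_lit 1) (nat_lit 4) (nat_lit 351) (nat_lit 296) (nat_lit 253)) (XT.lf (nat_lit 0) (nat_lit 380264043382) (nat_lit 152) (nat_lit 362313748104) (nat_lit 0) (nat_lit 374635877627) (nat_lit 1) (nat_lit 5) (nat_lit 3) (nat_lit 4) (nat_lit 1) (nat_lit 4) (nat_lit 352) (nat_lit 296) (nat_lit 252))) (XT.nd (nat_lit 78) (nat_lit 0) (nat_lit 0) (XT.lf (nat_lit 0) (nat_lit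 456006084084) (nat_lit 152) (nat_lit 376848438435) (nat_lit 0) (nat_lit 450376348027) (nat_lit 1) (nat_lit 5) (nat_lit 3) (nat_lit 4) (nat_lit 1) (nat_lit 4) (nat_lit 353) (nat_lit 296) (nat_lit 251)) (XT.lf (nat_lit 0) (nat_lit 543099296164) (nat_lit 152) (nat_lit 393583972686) (nat_lit 0) (nat_lit 537468194626) (nat_lit 1) (nat_lit 5) (nat_lit 3) (nat_lit 4) (nat_lit 1) (nat_lit 4) (nat_lit 354) (nat_lit 296) (nat_lit 250)))) (XT.nd (nat_lit 156) (nat_lit 0) (nat_lit 0) (XT.nd (nat_lit 78) (nat_lit 0) (nat_lit 0) (XT.lf (nat_lit 0) (nat_lit 643247677249) (nat_lit 152) (nat_lit 412847785222) (nat_lit 0) (nat_lit 637615388336) (nat_lit 1) (nat_lit 5) (nat_lit 3) (nat_lit 4) (nat_lit 1) (nat_lit 4) (nat_lit 355) (nat_lit 296) (nat_lit 249)) (XT.lf (nat_lit 0) (nat_lit 758410652186) (nat_lit 152) (nat_lit 435016776723) (nat_lit 0) (nat_lit 752777330774) (nat_lit 1) (nat_lit 5) (nat_lit 3)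 (nat_lit 4) (nat_lit 1) (nat_lit 4) (nat_lit 356) (nat_lit 296) (nat_lit 248))) (XT.nd (nat_lit 78) (nat_lit 0) (nat_lit 0) (XT.lf (nat_lit 0) (nat_lit 890841409616) (nat_lit 152) (nat_lit 460524688329) (nat_lit 0) (nat_lit 885207190379) (nat_lit 1) (nat_lit 5) (nat_lit 3) (nat_lit 4) (nat_lit 1) (nat_lit 4) (nat_lit 357) (nat_lit 296) (nat_lit 247)) (XT.lf (nat_lit 0) (nat_lit 1043130986097) (nat_lit 152) (nat_lit 489870587873) (nat_lit 0) (nat_lit 1037495986142) (nat_lit 1) (nat_lit 5) (nat_lit 3) (nat_lit 4) (nat_lit 1) (nat_lit 4) (nat_lit 358) (nat_lit 296) (nat_lit 246)))))) (XT.nd (nat_lit 624) (nat_lit 0) (nat_lit 0) (XT.nd (nat_lit 312) (nat_lit 0) (nat_lit 0) (XT.nd (nat_lit 156) (nat_lit 0) (nat_lit 0) (XT.nd (nat_lit 78) (nat_lit 0) (nat_lit 0) (XT.lf (nat_lit 0) (nat_lit 1218258960299) (nat_lit 152) (nat_lit 523628634261) (nat_lit 0) (nat_lit 1212623281459) (nat_lit 1) (nat_lit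 5) (nat_lit 3) (nat_lit 4) (nat_lit 1) (nat_lit 4) (nat_lit 359) (nat_lit 296) (nat_lit 245)) (XT.lf (nat_lit 0) (nat_lit 1419651749109) (nat_lit 152) (nat_lit 562459311009) (nat_lit 0) (nat_lit 1414015479934) (nat_lit 1) (nat_lit 5) (nat_lit 3) (nat_lit 4) (nat_lit 1) (nat_lit 4) (nat_lit 360) (nat_lit 296) (nat_lit 244))) (XT.nd (nat_lit 78) (nat_lit 0) (nat_lit 0) (XT.lf (nat_lit 0) (nat_lit 1651249646222) (nat_lit 152) (nat_lit 607122348748) (nat_lit 0) (nat_lit 1645612863712) (nat_lit 1) (nat_lit 5) (nat_lit 3) (nat_lit 4) (nat_lit 1) (nat_lit 4) (nat_lit 361) (nat_lit 296) (nat_lit 243)) (XT.lf (nat_lit 0) (nat_lit 1917583914840) (nat_lit 152) (nat_lit 658491589522) (nat_lit 0) (nat_lit 1911946685952) (nat_lit 1) (nat_lit 5) (nat_lit 3) (nat_lit 4) (nat_lit 1) (nat_lit 4) (nat_lit 362) (nat_lit 296) (nat_lit 242)))) (XT.nd (nat_lit 156) (nat_lit 0) (nat_lit 0) (XT.nd (nat_lit 78)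 (nat_lit 0) (nat_lit 0) (XT.lf (nat_lit 0) (nat_lit 2223865442829) (nat_lit 152) (nat_lit 717572083693) (nat_lit 0) (nat_lit 2218227825787) (nat_lit 1) (nat_lit 5) (nat_lit 3) (nat_lit 4) (nat_lit 1) (nat_lit 4) (nat_lit 363) (nat_lit 296) (nat_lit 241)) (XT.lf (nat_lit 0) (nat_lit 2576086694867) (nat_lit 152) (nat_lit 785519753974) (nat_lit 0) (nat_lit 2570448740299) (nat_lit 1) (nat_lit 5) (nat_lit 3) (nat_lit 4) (nat_lit 1) (nat_lit 4) (nat_lit 364) (nat_lit 296) (nat_lit 240))) (XT.nd (nat_lit 78) (nat_lit 0) (nat_lit 0) (XT.lf (nat_lit 0) (nat_lit 2981138956319) (nat_lit 152) (nat_lit 863664011304) (nat_lit 0) (nat_lit 2975500708250) (nat_lit 1) (nat_lit 5) (nat_lit 3) (nat_lit 4) (nat_lit 1) (nat_lit 4) (nat_lit 365) (nat_lit 296) (nat_lit 239)) (XT.lf (nat_lit 0) (nat_lit 3446947162737) (nat_lit 152) (nat_lit 953533765067) (nat_lit 0) (nat_lit 3441308659450) (nat_lit 1) (nat_lit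 5) (nat_lit 3) (nat_lit 4) (nat_lit 1) (nat_lit 4) (nat_lit 366) (nat_lit 296) (nat_lit 238))))) (XT.nd (nat_lit 312) (nat_lit 0) (nat_lit 0) (XT.nd (nat_lit 156) (nat_lit 0) (nat_lit 0) (XT.nd (nat_lit 78) (nat_lit 0) (nat_lit 0) (XT.lf (nat_lit 0) (nat_lit 3982624952940) (nat_lit 152) (nat_lit 1056887336532) (nat_lit 0) (nat_lit 3976986227724) (nat_lit 1) (nat_lit 5) (nat_lit 3) (nat_lit 4) (nat_lit 1) (nat_lit 4) (nat_lit 367) (nat_lit 296) (nat_lit 237)) (XT.lf (nat_lit 0) (nat_lit 4598652979346) (nat_lit 152) (nat_lit 1175746860791) (nat_lit 0) (nat_lit 4593014061149) (nat_lit 1) (nat_lit 5) (nat_lit 3) (nat_lit 4) (nat_lit 1) (nat_lit 4) (nat_lit 368) (nat_lit 296) (nat_lit 236))) (XT.nd (nat_lit 78) (nat_lit 0) (nat_lit 0) (XT.lf (nat_lit 0) (nat_lit 5307083964211) (nat_lit 152) (nat_lit 1312437850278) (nat_lit 0) (nat_lit 5301444878204) (nat_lit 1) (nat_lit 5) (nat_lit 3) (nat_lit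 4) (nat_lit 1) (nat_lit 4) (nat_lit 369) (nat_lit 296) (nat_lit 235)) (XT.lf (nat_lit 0) (nat_lit 6121778513761) (nat_lit 152) (nat_lit 1469634693916) (nat_lit 0) (nat_lit 6116139281832) (nat_lit 1) (nat_lit 5) (nat_lit 3) (nat_lit 4) (nat_lit 1) (nat_lit 4) (nat_lit 370) (nat_lit 296) (nat_lit 234)))) (XT.nd (nat_lit 156) (nat_lit 0) (nat_lit 0) (XT.nd (nat_lit 78) (nat_lit 0) (nat_lit 0) (XT.lf (nat_lit 0) (nat_lit 7058676303964) (nat_lit 152) (nat_lit 1650412982124) (nat_lit 0) (nat_lit 7053036945146) (nat_lit 1) (nat_lit 5) (nat_lit 3) (nat_lit 4) (nat_lit 1) (nat_lit 4) (nat_lit 371) (nat_lit 296) (nat_lit 233)) (XT.lf (nat_lit 0) (nat_lit 8136107943760) (nat_lit 152) (nat_lit 1858309681411) (nat_lit 0) (nat_lit 8130468474605) (nat_lit 1) (nat_lit 5) (nat_lit 3) (nat_lit 4) (nat_lit 1) (nat_lit 4) (nat_lit 372) (nat_lit 296) (nat_lit 232))) (XT.nd (nat_lit 78) (nat_lit 0) (nat_lit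 0) (XT.lf (nat_lit 0) (nat_lit 9375153617405) (nat_lit 152) (nat_lit 2097392335893) (nat_lit 0) (nat_lit 9369514052304) (nat_lit 1) (nat_lit 5) (nat_lit 3) (nat_lit 4) (nat_lit 1) (nat_lit 4) (nat_lit 373) (nat_lit 296) (nat_lit 231)) (XT.lf (nat_lit 0) (nat_lit 10800055522863) (nat_lit 152) (nat_lit 2372338649680) (nat_lit 0) (nat_lit 10794415874330) (nat_lit 1) (nat_lit 5) (nat_lit 3) (nat_lit 4) (nat_lit 1) (nat_lit 4) (nat_lit 374) (nat_lit 296) (nat_lit 230))))))) (XT.nd (nat_lit 1170) (nat_lit 1140) (nat_lit 0) (XT.nd (nat_lit 546) (nat_lit 1216) (nat_lit 0) (XT.nd (nat_lit 234) (nat_lit 1140) (nat_lit 0) (XT.nd (nat_lit 78) (nat_lit 988) (nat_lit 0) (XT.lf (nat_lit 0) (nat_lit 1590993295) (nat_lit 532) (nat_lit 473966985) (nat_lit 0) (nat_lit 1590993295) (nat_lit 63) (nat_lit 5) (nat_lit 70) (nat_lit 4) (nat_lit 63) (nat_lit 4) (nat_lit 306) (nat_lit 297) (nat_lit 297)) (XT.nd (nat_lit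 78) (nat_lit 304) (nat_lit 0) (XT.lf (nat_lit 0) (nat_lit 1916781883) (nat_lit 228) (nat_lit 295013488) (nat_lit 304) (nat_lit 5430148813) (nat_lit 54) (nat_lit 5) (nat_lit 57) (nat_lit 5) (nat_lit 58) (nat_lit 4) (nat_lit 307) (nat_lit 297) (nat_lit 296)) (XT.lf (nat_lit 0) (nat_lit 835644747) (nat_lit 304) (nat_lit 2907646250) (nat_lit 76) (nat_lit 4295895259) (nat_lit 50) (nat_lit 5) (nat_lit 54) (nat_lit 5) (nat_lit 51) (nat_lit 4) (nat_lit 308) (nat_lit 297) (nat_lit 295)))) (XT.nd (nat_lit 156) (nat_lit 532) (nat_lit 0) (XT.nd (nat_lit 78) (nat_lit 228) (nat_lit 0) (XT.lf (nat_lit 0) (nat_lit 198543543) (nat_lit 228) (nat_lit 7177876602) (nat_lit 228) (nat_lit 1136421903) (nat_lit 45) (nat_lit 4) (nat_lit 48) (nat_lit 5) (nat_lit 48) (nat_lit 4) (nat_lit 309) (nat_lit 297) (nat_lit 294)) (XT.lf (nat_lit 0) (nat_lit 3700749581) (nat_lit 152) (nat_lit 1710343517) (nat_lit 228) (nat_lit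 3646731795) (nat_lit 42) (nat_lit 5) (nat_lit 44) (nat_lit 5) (nat_lit 45) (nat_lit 4) (nat_lit 310) (nat_lit 297) (nat_lit 293))) (XT.nd (nat_lit 78) (nat_lit 304) (nat_lit 0) (XT.lf (nat_lit 0) (nat_lit 2885697599) (nat_lit 228) (nat_lit 2210584772) (nat_lit 76) (nat_lit 4591860803) (nat_lit 39) (nat_lit 5) (nat_lit 42) (nat_lit 5) (nat_lit 40) (nat_lit 4) (nat_lit 311) (nat_lit 297) (nat_lit 292)) (XT.lf (nat_lit 0) (nat_lit 1219472140) (nat_lit 152) (nat_lit 8888728863) (nat_lit 152) (nat_lit 303501469) (nat_lit 35) (nat_lit 4) (nat_lit 37) (nat_lit 5) (nat_lit 37) (nat_lit 4) (nat_lit 312) (nat_lit 297) (nat_lit 291))))) (XT.nd (nat_lit 312) (nat_lit 456) (nat_lit 0) (XT.nd (nat_lit 156) (nat_lit 380) (nat_lit 0) (XT.nd (nat_lit 78) (nat_lit 228) (nat_lit 0) (XT.lf (nat_lit 0) (nat_lit 4864765721) (nat_lit 76) (nat_lit 2011589588) (nat_lit 152) (nat_lit 4348755439) (nat_lit 33) (nat_lit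 5) (nat_lit 34) (nat_lit 5) (nat_lit 35) (nat_lit 4) (nat_lit 313) (nat_lit 297) (nat_lit 290)) (XT.lf (nat_lit 0) (nat_lit 2866203133) (nat_lit 228) (nat_lit 3463891083) (nat_lit 76) (nat_lit 5819656337) (nat_lit 30) (nat_lit 5) (nat_lit 33) (nat_lit 5) (nat_lit 31) (nat_lit 4) (nat_lit 314) (nat_lit 297) (nat_lit 289))) (XT.nd (nat_lit 78) (nat_lit 304) (nat_lit 0) (XT.lf (nat_lit 0) (nat_lit 10977000308) (nat_lit 152) (nat_lit 524830215) (nat_lit 0) (nat_lit 1696736235) (nat_lit 29) (nat_lit 5) (nat_lit 31) (nat_lit 4) (nat_lit 29) (nat_lit 4) (nat_lit 315) (nat_lit 297) (nat_lit 288)) (XT.lf (nat_lit 0) (nat_lit 2431004204) (nat_lit 76) (nat_lit 3430543082) (nat_lit 152) (nat_lit 8511414237) (nat_lit 25) (nat_lit 5) (nat_lit 26) (nat_lit 5) (nat_lit 27) (nat_lit 4) (nat_lit 316) (nat_lit 297) (nat_lit 287)))) (XT.nd (nat_lit 156) (nat_lit 228) (nat_lit 0) (XT.nd (nat_lit 78) (nat_lit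 152) (nat_lit 0) (XT.lf (nat_lit 0) (nat_lit 5350815069) (nat_lit 76) (nat_lit 9888106802) (nat_lit 76) (nat_lit 463053376) (nat_lit 24) (nat_lit 4) (nat_lit 25) (nat_lit 5) (nat_lit 25) (nat_lit 4) (nat_lit 317) (nat_lit 297) (nat_lit 286)) (XT.lf (nat_lit 0) (nat_lit 8006812117) (nat_lit 76) (nat_lit 535714108) (nat_lit 152) (nat_lit 8655828551) (nat_lit 22) (nat_lit 5) (nat_lit 23) (nat_lit 5) (nat_lit 24) (nat_lit 4) (nat_lit 318) (nat_lit 297) (nat_lit 285))) (XT.nd (nat_lit 78) (nat_lit 76) (nat_lit 0) (XT.lf (nat_lit 0) (nat_lit 347166425) (nat_lit 152) (nat_lit 8587457285) (nat_lit 76) (nat_lit 9952465032) (nat_lit 20) (nat_lit 5) (nat_lit 22) (nat_lit 5) (nat_lit 21) (nat_lit 4) (nat_lit 319) (nat_lit 297) (nat_lit 284)) (XT.lf (nat_lit 0) (nat_lit 10427954438) (nat_lit 152) (nat_lit 8774296217) (nat_lit 0) (nat_lit 1589787280) (nat_lit 19) (nat_lit 5) (nat_lit 21) (nat_lit 4)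 (nat_lit 19) (nat_lit 4) (nat_lit 320) (nat_lit 297) (nat_lit 283)))))) (XT.nd (nat_lit 624) (nat_lit 380) (nat_lit 0) (XT.nd (nat_lit 312) (nat_lit 304) (nat_lit 0) (XT.nd (nat_lit 156) (nat_lit 228) (nat_lit 0) (XT.nd (nat_lit 78) (nat_lit 152) (nat_lit 0) (XT.lf (nat_lit 0) (nat_lit 12963493381) (nat_lit 76) (nat_lit 9505674361) (nat_lit 76) (nat_lit 477767203) (nat_lit 18) (nat_lit 4) (nat_lit 19) (nat_lit 5) (nat_lit 19) (nat_lit 4) (nat_lit 321) (nat_lit 297) (nat_lit 282)) (XT.lf (nat_lit 0) (nat_lit 10626693295) (nat_lit 152) (nat_lit 12640321359) (nat_lit 0) (nat_lit 2114750275) (nat_lit 16) (nat_lit 5) (nat_lit 18) (nat_lit 4) (nat_lit 16) (nat_lit 4) (nat_lit 322) (nat_lit 297) (nat_lit 281))) (XT.nd (nat_lit 78) (nat_lit 152) (nat_lit 0) (XT.lf (nat_lit 0) (nat_lit 10962567258) (nat_lit 76) (nat_lit 12911332682) (nat_lit 76) (nat_lit 4266546421) (nat_lit 15) (nat_lit 4) (nat_lit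 16) (nat_lit 5) (nat_lit 16) (nat_lit 4) (nat_lit 323) (nat_lit 297) (nat_lit 280)) (XT.lf (nat_lit 0) (nat_lit 7162846691) (nat_lit 76) (nat_lit 492513315) (nat_lit 152) (nat_lit 23622607150) (nat_lit 13) (nat_lit 5) (nat_lit 14) (nat_lit 5) (nat_lit 15) (nat_lit 4) (nat_lit 324) (nat_lit 297) (nat_lit 279)))) (XT.nd (nat_lit 156) (nat_lit 228) (nat_lit 0) (XT.nd (nat_lit 78) (nat_lit 0) (nat_lit 0) (XT.lf (nat_lit 0) (nat_lit 351518109) (nat_lit 76) (nat_lit 21341864466) (nat_lit 76) (nat_lit 13137465673) (nat_lit 12) (nat_lit 4) (nat_lit 13) (nat_lit 5) (nat_lit 13) (nat_lit 4) (nat_lit 325) (nat_lit 297) (nat_lit 278)) (XT.lf (nat_lit 0) (nat_lit 29428638039) (nat_lit 76) (nat_lit 8868272214) (nat_lit 76) (nat_lit 582996951) (nat_lit 12) (nat_lit 4) (nat_lit 13) (nat_lit 5) (nat_lit 13) (nat_lit 4) (nat_lit 326) (nat_lit 297) (nat_lit 277))) (XT.nd (nat_lit 78) (nat_lit 76) (nat_lit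 0) (XT.lf (nat_lit 0) (nat_lit 13550256280) (nat_lit 152) (nat_lit 24114754850) (nat_lit 0) (nat_lit 5813587181) (nat_lit 10) (nat_lit 5) (nat_lit 12) (nat_lit 4) (nat_lit 10) (nat_lit 4) (nat_lit 327) (nat_lit 297) (nat_lit 276)) (XT.lf (nat_lit 0) (nat_lit 3826213078) (nat_lit 76) (nat_lit 26350194241) (nat_lit 76) (nat_lit 18556900855) (nat_lit 9) (nat_lit 4) (nat_lit 10) (nat_lit 5) (nat_lit 10) (nat_lit 4) (nat_lit 328) (nat_lit 297) (nat_lit 275))))) (XT.nd (nat_lit 312) (nat_lit 152) (nat_lit 0) (XT.nd (nat_lit 156) (nat_lit 76) (nat_lit 0) (XT.nd (nat_lit 78) (nat_lit 152) (nat_lit 0) (XT.lf (nat_lit 0) (nat_lit 37029500481) (nat_lit 76) (nat_lit 12774342567) (nat_lit 76) (nat_lit 4931810670) (nat_lit 9) (nat_lit 4) (nat_lit 10) (nat_lit 5) (nat_lit 10) (nat_lit 4) (nat_lit 329) (nat_lit 297) (nat_lit 274)) (XT.lf (nat_lit 0) (nat_lit 10433843384) (nat_lit 152) (nat_lit 48032556146)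 (nat_lit 0) (nat_lit 3132595243) (nat_lit 7) (nat_lit 5) (nat_lit 9) (nat_lit 4) (nat_lit 7) (nat_lit 4) (nat_lit 330) (nat_lit 297) (nat_lit 273))) (XT.nd (nat_lit 78) (nat_lit 76) (nat_lit 0) (XT.lf (nat_lit 0) (nat_lit 28540268726) (nat_lit 152) (nat_lit 19678550670) (nat_lit 0) (nat_lit 21204547077) (nat_lit 7) (nat_lit 5) (nat_lit 9) (nat_lit 4) (nat_lit 7) (nat_lit 4) (nat_lit 331) (nat_lit 297) (nat_lit 272)) (XT.lf (nat_lit 0) (nat_lit 13310024307) (nat_lit 76) (nat_lit 36231389413) (nat_lit 76) (nat_lit 28865690801) (nat_lit 6) (nat_lit 4) (nat_lit 7) (nat_lit 5) (nat_lit 7) (nat_lit 4) (nat_lit 332) (nat_lit 297) (nat_lit 271)))) (XT.nd (nat_lit 156) (nat_lit 76) (nat_lit 0) (XT.nd (nat_lit 78) (nat_lit 76) (nat_lit 0) (XT.lf (nat_lit 0) (nat_lit 52178275171) (nat_lit 76) (nat_lit 21958201770) (nat_lit 76) (nat_lit 14566436234) (nat_lit 6) (nat_lit 4) (nat_lit 7) (nat_lit 5) (nat_lit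 7) (nat_lit 4) (nat_lit 333) (nat_lit 297) (nat_lit 270)) (XT.lf (nat_lit 0) (nat_lit 1668525911) (nat_lit 152) (nat_lit 3943898530) (nat_lit 76) (nat_lit 94936283728) (nat_lit 5) (nat_lit 5) (nat_lit 7) (nat_lit 5) (nat_lit 6) (nat_lit 4) (nat_lit 334) (nat_lit 297) (nat_lit 269))) (XT.nd (nat_lit 78) (nat_lit 0) (nat_lit 0) (XT.lf (nat_lit 0) (nat_lit 20580699352) (nat_lit 152) (nat_lit 79774821044) (nat_lit 0) (nat_lit 13697233827) (nat_lit 4) (nat_lit 5) (nat_lit 6) (nat_lit 4) (nat_lit 4) (nat_lit 4) (nat_lit 335) (nat_lit 297) (nat_lit 268)) (XT.lf (nat_lit 0) (nat_lit 42508888558) (nat_lit 152) (nat_lit 51449636107) (nat_lit 0) (nat_lit 35609553195) (nat_lit 4) (nat_lit 5) (nat_lit 6) (nat_lit 4) (nat_lit 4) (nat_lit 4) (nat_lit 336) (nat_lit 297) (nat_lit 267))))))))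
noncomputable def xc20 : XT := (XT.nd (nat_lit 2340) (nat_lit 0) (nat_lit 0) (XT.nd (nat_lit 1170) (nat_lit 0) (nat_lit 0) (XT.nd (nat_lit 546) (nat_lit 76) (nat_lit 0) (XT.nd (nat_lit 234) (nat_lit 76) (nat_lit 0) (XT.nd (nat_lit 78) (nat_lit 76) (nat_lit 0) (XT.lf (nat_lit 0) (nat_lit 67644705454) (nat_lit 152) (nat_lit 19040957504) (nat_lit 0) (nat_lit 60731570231) (nat_lit 4) (nat_lit 5) (nat_lit 6) (nat_lit 4) (nat_lit 4) (nat_lit 4) (nat_lit 337) (nat_lit 297) (nat_lit 266)) (XT.nd (nat_lit 78) (nat_lit 0) (nat_lit 0) (XT.lf (nat_lit 0) (nat_lit 19037637327) (nat_lit 76) (nat_lit 77900156069) (nat_lit 76) (nat_lit 70975020968) (nat_lit 3) (nat_lit 4) (nat_lit 4) (nat_lit 5) (nat_lit 4) (nat_lit 4) (nat_lit 338) (nat_lit 297) (nat_lit 265)) (XT.lf (nat_lit 0) (nat_lit 63849524271) (nat_lit 76) (nat_lit 67264811391) (nat_lit 76) (nat_lit 60329241613) (nat_lit 3) (nat_lit 4) (nat_lit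 4) (nat_lit 5) (nat_lit 4) (nat_lit 4) (nat_lit 339) (nat_lit 297) (nat_lit 264)))) (XT.nd (nat_lit 156) (nat_lit 76) (nat_lit 0) (XT.nd (nat_lit 78) (nat_lit 0) (nat_lit 0) (XT.lf (nat_lit 0) (nat_lit 115268794557) (nat_lit 76) (nat_lit 55092159614) (nat_lit 76) (nat_lit 48147516205) (nat_lit 3) (nat_lit 4) (nat_lit 4) (nat_lit 5) (nat_lit 4) (nat_lit 4) (nat_lit 340) (nat_lit 297) (nat_lit 263)) (XT.lf (nat_lit 0) (nat_lit 174301477388) (nat_lit 76) (nat_lit 41144040162) (nat_lit 76) (nat_lit 34191506638) (nat_lit 3) (nat_lit 4) (nat_lit 4) (nat_lit 5) (nat_lit 4) (nat_lit 4) (nat_lit 341) (nat_lit 297) (nat_lit 262))) (XT.nd (nat_lit 78) (nat_lit 76) (nat_lit 0) (XT.lf (nat_lit 0) (nat_lit 242102560036) (nat_lit 76) (nat_lit 25147555044) (nat_lit 76) (nat_lit 18188160551) (nat_lit 3) (nat_lit 4) (nat_lit 4) (nat_lit 5) (nat_lit 4) (nat_lit 4) (nat_lit 342) (nat_lit 297) (nat_lit 261))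 (XT.lf (nat_lit 0) (nat_lit 166845226) (nat_lit 152) (nat_lit 6618322482) (nat_lit 76) (nat_lit 319827178350) (nat_lit 2) (nat_lit 5) (nat_lit 4) (nat_lit 5) (nat_lit 3) (nat_lit 4) (nat_lit 343) (nat_lit 297) (nat_lit 260))))) (XT.nd (nat_lit 312) (nat_lit 0) (nat_lit 0) (XT.nd (nat_lit 156) (nat_lit 0) (nat_lit 0) (XT.nd (nat_lit 78) (nat_lit 0) (nat_lit 0) (XT.lf (nat_lit 0) (nat_lit 21462650491) (nat_lit 152) (nat_lit 337352486515) (nat_lit 0) (nat_lit 15008438980) (nat_lit 1) (nat_lit 5) (nat_lit 3) (nat_lit 4) (nat_lit 1) (nat_lit 4) (nat_lit 344) (nat_lit 297) (nat_lit 259)) (XT.lf (nat_lit 0) (nat_lit 46307175298) (nat_lit 152) (nat_lit 341932181995) (nat_lit 0) (nat_lit 39848786751) (nat_lit 1) (nat_lit 5) (nat_lit 3) (nat_lit 4) (nat_lit 1) (nat_lit 4) (nat_lit 345) (nat_lit 297) (nat_lit 258))) (XT.nd (nat_lit 78) (nat_lit 0) (nat_lit 0) (XT.lf (nat_lit 0) (nat_lit 74851420248)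 (nat_lit 152) (nat_lit 347253735593) (nat_lit 0) (nat_lit 68389399497) (nat_lit 1) (nat_lit 5) (nat_lit 3) (nat_lit 4) (nat_lit 1) (nat_lit 4) (nat_lit 346) (nat_lit 297) (nat_lit 257)) (XT.lf (nat_lit 0) (nat_lit 107653859700) (nat_lit 152) (nat_lit 353421264659) (nat_lit 0) (nat_lit 101188680509) (nat_lit 1) (nat_lit 5) (nat_lit 3) (nat_lit 4) (nat_lit 1) (nat_lit 4) (nat_lit 347) (nat_lit 297) (nat_lit 256)))) (XT.nd (nat_lit 156) (nat_lit 0) (nat_lit 0) (XT.nd (nat_lit 78) (nat_lit 0) (nat_lit 0) (XT.lf (nat_lit 0) (nat_lit 145356280513) (nat_lit 152) (nat_lit 360555438243) (nat_lit 0) (nat_lit 138888354853) (nat_lit 1) (nat_lit 5) (nat_lit 3) (nat_lit 4) (nat_lit 1) (nat_lit 4) (nat_lit 348) (nat_lit 297) (nat_lit 255)) (XT.lf (nat_lit 0) (nat_lit 188696338745) (nat_lit 152) (nat_lit 368795838000) (nat_lit 0) (nat_lit 182226024851) (nat_lit 1) (nat_lit 5) (nat_lit 3) (nat_lit 4) (nat_lit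 1) (nat_lit 4) (nat_lit 349) (nat_lit 297) (nat_lit 254))) (XT.nd (nat_lit 78) (nat_lit 0) (nat_lit 0) (XT.lf (nat_lit 0) (nat_lit 238521992058) (nat_lit 152) (nat_lit 378303689143) (nat_lit 0) (nat_lit 232049601439) (nat_lit 1) (nat_lit 5) (nat_lit 3) (nat_lit 4) (nat_lit 1) (nat_lit 4) (nat_lit 350) (nat_lit 297) (nat_lit 253)) (XT.lf (nat_lit 0) (nat_lit 295808090191) (nat_lit 152) (nat_lit 389265014847) (nat_lit 0) (nat_lit 289333893724) (nat_lit 1) (nat_lit 5) (nat_lit 3) (nat_lit 4) (nat_lit 1) (nat_lit 4) (nat_lit 351) (nat_lit 297) (nat_lit 252)))))) (XT.nd (nat_lit 546) (nat_lit 0) (nat_lit 0) (XT.nd (nat_lit 234) (nat_lit 0) (nat_lit 0) (XT.nd (nat_lit 78) (nat_lit 0) (nat_lit 0) (XT.lf (nat_lit 0) (nat_lit 361675448106) (nat_lit 152) (nat_lit 401894275833) (nat_lit 0) (nat_lit 355199681337) (nat_lit 1) (nat_lit 5) (nat_lit 3) (nat_lit 4) (nat_lit 1) (nat_lit 4) (nat_lit 352)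 (nat_lit 297) (nat_lit 251)) (XT.nd (nat_lit 78) (nat_lit 0) (nat_lit 0) (XT.lf (nat_lit 0) (nat_lit 437412774981) (nat_lit 152) (nat_lit 416438566336) (nat_lit 0) (nat_lit 430935642732) (nat_lit 1) (nat_lit 5) (nat_lit 3) (nat_lit 4) (nat_lit 1) (nat_lit 4) (nat_lit 353) (nat_lit 297) (nat_lit 250)) (XT.lf (nat_lit 0) (nat_lit 524501888081) (nat_lit 152) (nat_lit 433182448562) (nat_lit 0) (nat_lit 518023568457) (nat_lit 1) (nat_lit 5) (nat_lit 3) (nat_lit 4) (nat_lit 1) (nat_lit 4) (nat_lit 354) (nat_lit 297) (nat_lit 249)))) (XT.nd (nat_lit 156) (nat_lit 0) (nat_lit 0) (XT.nd (nat_lit 78) (nat_lit 0) (nat_lit 0) (XT.lf (nat_lit 0) (nat_lit 624646704835) (nat_lit 152) (nat_lit 452453520208) (nat_lit 0) (nat_lit 618167352712) (nat_lit 1) (nat_lit 5) (nat_lit 3) (nat_lit 4) (nat_lit 1) (nat_lit 4) (nat_lit 355) (nat_lit 297) (nat_lit 248)) (XT.lf (nat_lit 0) (nat_lit 739806580355) (nat_lit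 152) (nat_lit 474628823978) (nat_lit 0) (nat_lit 733326330407) (nat_lit 1) (nat_lit 5) (nat_lit 3) (nat_lit 4) (nat_lit 1) (nat_lit 4) (nat_lit 356) (nat_lit 297) (nat_lit 247))) (XT.nd (nat_lit 78) (nat_lit 0) (nat_lit 0) (XT.lf (nat_lit 0) (nat_lit 872234642639) (nat_lit 152) (nat_lit 500142224513) (nat_lit 0) (nat_lit 865753611973) (nat_lit 1) (nat_lit 5) (nat_lit 3) (nat_lit 4) (nat_lit 1) (nat_lit 4) (nat_lit 357) (nat_lit 297) (nat_lit 246)) (XT.lf (nat_lit 0) (nat_lit 1024521875515) (nat_lit 152) (nat_lit 529492897039) (nat_lit 0) (nat_lit 1018040165964) (nat_lit 1) (nat_lit 5) (nat_lit 3) (nat_lit 4) (nat_lit 1) (nat_lit 4) (nat_lit 358) (nat_lit 297) (nat_lit 245))))) (XT.nd (nat_lit 312) (nat_lit 0) (nat_lit 0) (XT.nd (nat_lit 156) (nat_lit 0) (nat_lit 0) (XT.nd (nat_lit 78) (nat_lit 0) (nat_lit 0) (XT.lf (nat_lit 0) (nat_lit 1199647811800) (nat_lit 152) (nat_lit 563255093847)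 (nat_lit 0) (nat_lit 1193165511914) (nat_lit 1) (nat_lit 5) (nat_lit 3) (nat_lit 4) (nat_lit 1) (nat_lit 4) (nat_lit 359) (nat_lit 297) (nat_lit 244)) (XT.lf (nat_lit 0) (nat_lit 1401038828508) (nat_lit 152) (nat_lit 602089379655) (nat_lit 0) (nat_lit 1394556015287) (nat_lit 1) (nat_lit 5) (nat_lit 3) (nat_lit 4) (nat_lit 1) (nat_lit 4) (nat_lit 360) (nat_lit 297) (nat_lit 243))) (XT.nd (nat_lit 78) (nat_lit 0) (nat_lit 0) (XT.lf (nat_lit 0) (nat_lit 1632635184662) (nat_lit 152) (nat_lit 646755555707) (nat_lit 0) (nat_lit 1626151925063) (nat_lit 1) (nat_lit 5) (nat_lit 3) (nat_lit 4) (nat_lit 1) (nat_lit 4) (nat_lit 361) (nat_lit 297) (nat_lit 242)) (XT.lf (nat_lit 0) (nat_lit 1898968113317) (nat_lit 152) (nat_lit 698127525449) (nat_lit 0) (nat_lit 1892484465563) (nat_lit 1) (nat_lit 5) (nat_lit 3) (nat_lit 4) (nat_lit 1) (nat_lit 4) (nat_lit 362) (nat_lit 297) (nat_lit 241)))) (XT.nd (nat_lit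 156) (nat_lit 0) (nat_lit 0) (XT.nd (nat_lit 78) (nat_lit 0) (nat_lit 0) (XT.lf (nat_lit 0) (nat_lit 2205248476120) (nat_lit 152) (nat_lit 757210392636) (nat_lit 0) (nat_lit 2198764490840) (nat_lit 1) (nat_lit 5) (nat_lit 3) (nat_lit 4) (nat_lit 1) (nat_lit 4) (nat_lit 363) (nat_lit 297) (nat_lit 240)) (XT.lf (nat_lit 0) (nat_lit 2557468714952) (nat_lit 152) (nat_lit 825160126409) (nat_lit 0) (nat_lit 2550984436172) (nat_lit 1) (nat_lit 5) (nat_lit 3) (nat_lit 4) (nat_lit 1) (nat_lit 4) (nat_lit 364) (nat_lit 297) (nat_lit 239))) (XT.nd (nat_lit 78) (nat_lit 0) (nat_lit 0) (XT.lf (nat_lit 0) (nat_lit 2962520095357) (nat_lit 152) (nat_lit 903306178080) (nat_lit 0) (nat_lit 2956035561359) (nat_lit 1) (nat_lit 5) (nat_lit 3) (nat_lit 4) (nat_lit 1) (nat_lit 4) (nat_lit 365) (nat_lit 297) (nat_lit 238)) (XT.lf (nat_lit 0) (nat_lit 3428327535646) (nat_lit 152) (nat_lit 993177492139) (nat_lit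 0) (nat_lit 3421842779719) (nat_lit 1) (nat_lit 5) (nat_lit 3) (nat_lit 4) (nat_lit 1) (nat_lit 4) (nat_lit 366) (nat_lit 297) (nat_lit 237))))))) (XT.nd (nat_lit 42510) (nat_lit 0) (nat_lit 836) (XT.nd (nat_lit 546) (nat_lit 0) (nat_lit 0) (XT.nd (nat_lit 234) (nat_lit 0) (nat_lit 0) (XT.nd (nat_lit 78) (nat_lit 0) (nat_lit 0) (XT.lf (nat_lit 0) (nat_lit 3964004659650) (nat_lit 152) (nat_lit 1096532420383) (nat_lit 0) (nat_lit 3957519710741) (nat_lit 1) (nat_lit 5) (nat_lit 3) (nat_lit 4) (nat_lit 1) (nat_lit 4) (nat_lit 367) (nat_lit 297) (nat_lit 236)) (XT.nd (nat_lit 78) (nat_lit 0) (nat_lit 0) (XT.lf (nat_lit 0) (nat_lit 4580032106753) (nat_lit 152) (nat_lit 1215393124451) (nat_lit 0) (nat_lit 4573546990034) (nat_lit 1) (nat_lit 5) (nat_lit 3) (nat_lit 4) (nat_lit 1) (nat_lit 4) (nat_lit 368) (nat_lit 297) (nat_lit 235)) (XT.lf (nat_lit 0) (nat_lit 5288462587876) (nat_lit 152) (nat_lit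 1352085139858) (nat_lit 0) (nat_lit 5281977325236) (nat_lit 1) (nat_lit 5) (nat_lit 3) (nat_lit 4) (nat_lit 1) (nat_lit 4) (nat_lit 369) (nat_lit 297) (nat_lit 234)))) (XT.nd (nat_lit 156) (nat_lit 0) (nat_lit 0) (XT.nd (nat_lit 78) (nat_lit 0) (nat_lit 0) (XT.lf (nat_lit 0) (nat_lit 6103156699389) (nat_lit 152) (nat_lit 1509282875600) (nat_lit 0) (nat_lit 6096671309860) (nat_lit 1) (nat_lit 5) (nat_lit 3) (nat_lit 4) (nat_lit 1) (nat_lit 4) (nat_lit 370) (nat_lit 297) (nat_lit 233)) (XT.lf (nat_lit 0) (nat_lit 7040054108691) (nat_lit 152) (nat_lit 1690061939552) (nat_lit 0) (nat_lit 7033568608824) (nat_lit 1) (nat_lit 5) (nat_lit 3) (nat_lit 4) (nat_lit 1) (nat_lit 4) (nat_lit 371) (nat_lit 297) (nat_lit 232))) (XT.nd (nat_lit 78) (nat_lit 0) (nat_lit 0) (XT.lf (nat_lit 0) (nat_lit 8117485417268) (nat_lit 152) (nat_lit 1897959313398) (nat_lit 0) (nat_lit 8110999821456) (nat_lit 1) (nat_lit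 5) (nat_lit 3) (nat_lit 4) (nat_lit 1) (nat_lit 4) (nat_lit 372) (nat_lit 297) (nat_lit 231)) (XT.lf (nat_lit 0) (nat_lit 9356530802898) (nat_lit 152) (nat_lit 2137042554453) (nat_lit 0) (nat_lit 9350045123654) (nat_lit 1) (nat_lit 5) (nat_lit 3) (nat_lit 4) (nat_lit 1) (nat_lit 4) (nat_lit 373) (nat_lit 297) (nat_lit 230))))) (XT.nd (nat_lit 41652) (nat_lit 0) (nat_lit 3116) (XT.nd (nat_lit 41496) (nat_lit 0) (nat_lit 4712) (XT.nd (nat_lit 41418) (nat_lit 0) (nat_lit 5624) (XT.lf (nat_lit 0) (nat_lit 10781432457906) (nat_lit 152) (nat_lit 2411989378304) (nat_lit 0) (nat_lit 10774946706114) (nat_lit 1) (nat_lit 5) (nat_lit 3) (nat_lit 4) (nat_lit 1) (nat_lit 4) (nat_lit 374) (nat_lit 297) (nat_lit 229)) (XT.lf (nat_lit 0) (nat_lit 461992387) (nat_lit 380) (nat_lit 2488672210) (nat_lit 0) (nat_lit 461992387) (nat_lit 75) (nat_lit 5) (nat_lit 80) (nat_lit 4) (nat_lit 75) (nat_lit 4) (nat_lit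 304) (nat_lit 298) (nat_lit 298))) (XT.nd (nat_lit 78) (nat_lit 532) (nat_lit 0) (XT.lf (nat_lit 0) (nat_lit 3700614522) (nat_lit 380) (nat_lit 3342035788) (nat_lit 380) (nat_lit 8815193) (nat_lit 70) (nat_lit 4) (nat_lit 75) (nat_lit 5) (nat_lit 75) (nat_lit 4) (nat_lit 305) (nat_lit 298) (nat_lit 297)) (XT.lf (nat_lit 0) (nat_lit 5853406809) (nat_lit 532) (nat_lit 1408813543) (nat_lit 0) (nat_lit 83338952) (nat_lit 63) (nat_lit 5) (nat_lit 70) (nat_lit 4) (nat_lit 63) (nat_lit 4) (nat_lit 306) (nat_lit 298) (nat_lit 296)))) (XT.nd (nat_lit 156) (nat_lit 608) (nat_lit 0) (XT.nd (nat_lit 78) (nat_lit 304) (nat_lit 0) (XT.lf (nat_lit 0) (nat_lit 837629954) (nat_lit 228) (nat_lit 3461117944) (nat_lit 304) (nat_lit 3405653272) (nat_lit 54) (nat_lit 5) (nat_lit 57) (nat_lit 5) (nat_lit 58) (nat_lit 4) (nat_lit 307) (nat_lit 298) (nat_lit 295)) (XT.lf (nat_lit 0) (nat_lit 2290149346) (nat_lit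 304) (nat_lit 4618959845) (nat_lit 76) (nat_lit 1226434869) (nat_lit 50) (nat_lit 5) (nat_lit 54) (nat_lit 5) (nat_lit 51) (nat_lit 4) (nat_lit 308) (nat_lit 298) (nat_lit 294))) (XT.nd (nat_lit 78) (nat_lit 456) (nat_lit 0) (XT.lf (nat_lit 0) (nat_lit 6503789552) (nat_lit 152) (nat_lit 1919363790) (nat_lit 228) (nat_lit 218927838) (nat_lit 48) (nat_lit 5) (nat_lit 50) (nat_lit 5) (nat_lit 51) (nat_lit 4) (nat_lit 309) (nat_lit 298) (nat_lit 293)) (XT.lf (nat_lit 0) (nat_lit 551413191) (nat_lit 152) (nat_lit 5250170370) (nat_lit 228) (nat_lit 3422412780) (nat_lit 42) (nat_lit 5) (nat_lit 44) (nat_lit 5) (nat_lit 45) (nat_lit 4) (nat_lit 310) (nat_lit 298) (nat_lit 292)))))) (XT.nd (nat_lit 624) (nat_lit 836) (nat_lit 0) (XT.nd (nat_lit 312) (nat_lit 532) (nat_lit 0) (XT.nd (nat_lit 156) (nat_lit 532) (nat_lit 0) (XT.nd (nat_lit 78) (nat_lit 152) (nat_lit 0) (XT.lf (nat_lit 0) (nat_lit 2632770135)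 (nat_lit 228) (nat_lit 6245900346) (nat_lit 76) (nat_lit 1012662861) (nat_lit 39) (nat_lit 5) (nat_lit 42) (nat_lit 5) (nat_lit 40) (nat_lit 4) (nat_lit 311) (nat_lit 298) (nat_lit 291)) (XT.lf (nat_lit 0) (nat_lit 6949747988) (nat_lit 152) (nat_lit 2469897309) (nat_lit 228) (nat_lit 1230243950) (nat_lit 37) (nat_lit 5) (nat_lit 39) (nat_lit 5) (nat_lit 40) (nat_lit 4) (nat_lit 312) (nat_lit 298) (nat_lit 290))) (XT.nd (nat_lit 78) (nat_lit 304) (nat_lit 0) (XT.lf (nat_lit 0) (nat_lit 5472739857) (nat_lit 228) (nat_lit 1064876113) (nat_lit 76) (nat_lit 4969441031) (nat_lit 34) (nat_lit 5) (nat_lit 37) (nat_lit 5) (nat_lit 35) (nat_lit 4) (nat_lit 313) (nat_lit 298) (nat_lit 289)) (XT.lf (nat_lit 0) (nat_lit 718047842) (nat_lit 228) (nat_lit 10629640065) (nat_lit 76) (nat_lit 1131099773) (nat_lit 30) (nat_lit 5) (nat_lit 33) (nat_lit 5) (nat_lit 31) (nat_lit 4) (nat_lit 314) (nat_lit 298)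 (nat_lit 288)))) (XT.nd (nat_lit 156) (nat_lit 228) (nat_lit 0) (XT.nd (nat_lit 78) (nat_lit 228) (nat_lit 0) (XT.lf (nat_lit 0) (nat_lit 4789040334) (nat_lit 76) (nat_lit 3591454856) (nat_lit 152) (nat_lit 5183059180) (nat_lit 29) (nat_lit 5) (nat_lit 30) (nat_lit 5) (nat_lit 31) (nat_lit 4) (nat_lit 315) (nat_lit 298) (nat_lit 287)) (XT.lf (nat_lit 0) (nat_lit 2476587422) (nat_lit 228) (nat_lit 6972658062) (nat_lit 76) (nat_lit 5340197031) (nat_lit 26) (nat_lit 5) (nat_lit 29) (nat_lit 5) (nat_lit 27) (nat_lit 4) (nat_lit 316) (nat_lit 298) (nat_lit 286))) (XT.nd (nat_lit 78) (nat_lit 152) (nat_lit 0) (XT.lf (nat_lit 0) (nat_lit 10832849658) (nat_lit 76) (nat_lit 378845383) (nat_lit 152) (nat_lit 4958200315) (nat_lit 25) (nat_lit 5) (nat_lit 26) (nat_lit 5) (nat_lit 27) (nat_lit 4) (nat_lit 317) (nat_lit 298) (nat_lit 285)) (XT.lf (nat_lit 0) (nat_lit 3748184337) (nat_lit 152) (nat_lit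 4058940475) (nat_lit 76) (nat_lit 9909770083) (nat_lit 23) (nat_lit 5) (nat_lit 25) (nat_lit 5) (nat_lit 24) (nat_lit 4) (nat_lit 318) (nat_lit 298) (nat_lit 284))))) (XT.nd (nat_lit 312) (nat_lit 380) (nat_lit 0) (XT.nd (nat_lit 156) (nat_lit 228) (nat_lit 0) (XT.nd (nat_lit 78) (nat_lit 152) (nat_lit 0) (XT.lf (nat_lit 0) (nat_lit 13759992863) (nat_lit 152) (nat_lit 3154959763) (nat_lit 0) (nat_lit 2547332173) (nat_lit 22) (nat_lit 5) (nat_lit 24) (nat_lit 4) (nat_lit 22) (nat_lit 4) (nat_lit 319) (nat_lit 298) (nat_lit 283)) (XT.lf (nat_lit 0) (nat_lit 4091967639) (nat_lit 152) (nat_lit 2906287199) (nat_lit 76) (nat_lit 14425725350) (nat_lit 20) (nat_lit 5) (nat_lit 22) (nat_lit 5) (nat_lit 21) (nat_lit 4) (nat_lit 320) (nat_lit 298) (nat_lit 282))) (XT.nd (nat_lit 78) (nat_lit 152) (nat_lit 0) (XT.lf (nat_lit 0) (nat_lit 15429145987) (nat_lit 152) (nat_lit 3513760869) (nat_lit 0) (nat_lit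 4692321451) (nat_lit 19) (nat_lit 5) (nat_lit 21) (nat_lit 4) (nat_lit 19) (nat_lit 4) (nat_lit 321) (nat_lit 298) (nat_lit 281)) (XT.lf (nat_lit 0) (nat_lit 2693458265) (nat_lit 152) (nat_lit 5277902042) (nat_lit 76) (nat_lit 18160911795) (nat_lit 17) (nat_lit 5) (nat_lit 19) (nat_lit 5) (nat_lit 18) (nat_lit 4) (nat_lit 322) (nat_lit 298) (nat_lit 280)))) (XT.nd (nat_lit 156) (nat_lit 228) (nat_lit 0) (XT.nd (nat_lit 78) (nat_lit 76) (nat_lit 0) (XT.lf (nat_lit 0) (nat_lit 15218711288) (nat_lit 152) (nat_lit 8701170373) (nat_lit 0) (nat_lit 5028847986) (nat_lit 16) (nat_lit 5) (nat_lit 18) (nat_lit 4) (nat_lit 16) (nat_lit 4) (nat_lit 323) (nat_lit 298) (nat_lit 279)) (XT.lf (nat_lit 0) (nat_lit 17948230989) (nat_lit 76) (nat_lit 12242180516) (nat_lit 76) (nat_lit 1951868640) (nat_lit 15) (nat_lit 4) (nat_lit 16) (nat_lit 5) (nat_lit 16) (nat_lit 4) (nat_lit 324) (nat_lit 298) (nat_lit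 278))) (XT.nd (nat_lit 78) (nat_lit 76) (nat_lit 0) (XT.lf (nat_lit 0) (nat_lit 11410873072) (nat_lit 152) (nat_lit 22547961090) (nat_lit 0) (nat_lit 1801930051) (nat_lit 13) (nat_lit 5) (nat_lit 15) (nat_lit 4) (nat_lit 13) (nat_lit 4) (nat_lit 325) (nat_lit 298) (nat_lit 277)) (XT.lf (nat_lit 0) (nat_lit 5137368619) (nat_lit 76) (nat_lit 22202836334) (nat_lit 76) (nat_lit 12523565948) (nat_lit 12) (nat_lit 4) (nat_lit 13) (nat_lit 5) (nat_lit 13) (nat_lit 4) (nat_lit 326) (nat_lit 298) (nat_lit 276))))))))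
noncomputable def xc21 : XT := (XT.nd (nat_lit 2418) (nat_lit 0) (nat_lit 0) (XT.nd (nat_lit 1170) (nat_lit 152) (nat_lit 0) (XT.nd (nat_lit 546) (nat_lit 228) (nat_lit 0) (XT.nd (nat_lit 234) (nat_lit 228) (nat_lit 0) (XT.nd (nat_lit 78) (nat_lit 152) (nat_lit 0) (XT.lf (nat_lit 0) (nat_lit 1498075814) (nat_lit 152) (nat_lit 6624426922) (nat_lit 76) (nat_lit 36419656834) (nat_lit 11) (nat_lit 5) (nat_lit 13) (nat_lit 5) (nat_lit 12) (nat_lit 4) (nat_lit 327) (nat_lit 298) (nat_lit 275)) (XT.nd (nat_lit 78) (nat_lit 76) (nat_lit 0) (XT.lf (nat_lit 0) (nat_lit 17578585642) (nat_lit 152) (nat_lit 23751508086) (nat_lit 0) (nat_lit 8510435450) (nat_lit 10) (nat_lit 5) (nat_lit 12) (nat_lit 4) (nat_lit 10) (nat_lit 4) (nat_lit 328) (nat_lit 298) (nat_lit 274)) (XT.lf (nat_lit 0) (nat_lit 8043678919) (nat_lit 76) (nat_lit 28482286940) (nat_lit 76) (nat_lit 19371320652) (nat_lit 9) (nat_lit 4)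 (nat_lit 10) (nat_lit 5) (nat_lit 10) (nat_lit 4) (nat_lit 329) (nat_lit 298) (nat_lit 273)))) (XT.nd (nat_lit 156) (nat_lit 76) (nat_lit 0) (XT.nd (nat_lit 78) (nat_lit 152) (nat_lit 0) (XT.lf (nat_lit 0) (nat_lit 45752215883) (nat_lit 76) (nat_lit 13107505747) (nat_lit 76) (nat_lit 3959308071) (nat_lit 9) (nat_lit 4) (nat_lit 10) (nat_lit 5) (nat_lit 10) (nat_lit 4) (nat_lit 330) (nat_lit 298) (nat_lit 272)) (XT.lf (nat_lit 0) (nat_lit 13520903758) (nat_lit 152) (nat_lit 52175689043) (nat_lit 0) (nat_lit 5020373391) (nat_lit 7) (nat_lit 5) (nat_lit 9) (nat_lit 4) (nat_lit 7) (nat_lit 4) (nat_lit 331) (nat_lit 298) (nat_lit 271))) (XT.nd (nat_lit 78) (nat_lit 76) (nat_lit 0) (XT.lf (nat_lit 0) (nat_lit 34144773266) (nat_lit 152) (nat_lit 19967941510) (nat_lit 0) (nat_lit 25618175975) (nat_lit 7) (nat_lit 5) (nat_lit 9) (nat_lit 4) (nat_lit 7) (nat_lit 4) (nat_lit 332) (nat_lit 298) (nat_lit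 270)) (XT.lf (nat_lit 0) (nat_lit 17743561512) (nat_lit 76) (nat_lit 40438513444) (nat_lit 76) (nat_lit 31889249263) (nat_lit 6) (nat_lit 4) (nat_lit 7) (nat_lit 5) (nat_lit 7) (nat_lit 4) (nat_lit 333) (nat_lit 298) (nat_lit 269))))) (XT.nd (nat_lit 312) (nat_lit 76) (nat_lit 0) (XT.nd (nat_lit 156) (nat_lit 76) (nat_lit 0) (XT.nd (nat_lit 78) (nat_lit 76) (nat_lit 0) (XT.lf (nat_lit 0) (nat_lit 62124176063) (nat_lit 76) (nat_lit 24184467356) (nat_lit 76) (nat_lit 15615492835) (nat_lit 6) (nat_lit 4) (nat_lit 7) (nat_lit 5) (nat_lit 7) (nat_lit 4) (nat_lit 334) (nat_lit 298) (nat_lit 268)) (XT.lf (nat_lit 0) (nat_lit 2857140514) (nat_lit 152) (nat_lit 2643261676) (nat_lit 76) (nat_lit 110055482303) (nat_lit 5) (nat_lit 5) (nat_lit 7) (nat_lit 5) (nat_lit 6) (nat_lit 4) (nat_lit 335) (nat_lit 298) (nat_lit 267))) (XT.nd (nat_lit 78) (nat_lit 0) (nat_lit 0) (XT.lf (nat_lit 0) (nat_lit 24546434958)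 (nat_lit 152) (nat_lit 89961357529) (nat_lit 0) (nat_lit 16582529592) (nat_lit 4) (nat_lit 5) (nat_lit 6) (nat_lit 4) (nat_lit 4) (nat_lit 4) (nat_lit 336) (nat_lit 298) (nat_lit 266)) (XT.lf (nat_lit 0) (nat_lit 49649248541) (nat_lit 152) (nat_lit 57619527895) (nat_lit 0) (nat_lit 41673343296) (nat_lit 4) (nat_lit 5) (nat_lit 6) (nat_lit 4) (nat_lit 4) (nat_lit 4) (nat_lit 337) (nat_lit 298) (nat_lit 265)))) (XT.nd (nat_lit 156) (nat_lit 0) (nat_lit 0) (XT.nd (nat_lit 78) (nat_lit 76) (nat_lit 0) (XT.lf (nat_lit 0) (nat_lit 78455782315) (nat_lit 152) (nat_lit 20551402323) (nat_lit 0) (nat_lit 70469442394) (nat_lit 4) (nat_lit 5) (nat_lit 6) (nat_lit 4) (nat_lit 4) (nat_lit 4) (nat_lit 338) (nat_lit 298) (nat_lit 264)) (XT.lf (nat_lit 0) (nat_lit 23125075031) (nat_lit 76) (nat_lit 88960725954) (nat_lit 76) (nat_lit 80965312401) (nat_lit 3) (nat_lit 4) (nat_lit 4) (nat_lit 5) (nat_lit 4)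 (nat_lit 4) (nat_lit 339) (nat_lit 298) (nat_lit 263))) (XT.nd (nat_lit 78) (nat_lit 0) (nat_lit 0) (XT.lf (nat_lit 0) (nat_lit 74498076481) (nat_lit 76) (nat_lit 76811530034) (nat_lit 76) (nat_lit 68808226366) (nat_lit 3) (nat_lit 4) (nat_lit 4) (nat_lit 5) (nat_lit 4) (nat_lit 4) (nat_lit 340) (nat_lit 298) (nat_lit 262)) (XT.lf (nat_lit 0) (nat_lit 133490525541) (nat_lit 76) (nat_lit 62883806978) (nat_lit 76) (nat_lit 54873642341) (nat_lit 3) (nat_lit 4) (nat_lit 4) (nat_lit 5) (nat_lit 4) (nat_lit 4) (nat_lit 341) (nat_lit 298) (nat_lit 261)))))) (XT.nd (nat_lit 624) (nat_lit 0) (nat_lit 0) (XT.nd (nat_lit 312) (nat_lit 0) (nat_lit 0) (XT.nd (nat_lit 156) (nat_lit 152) (nat_lit 0) (XT.nd (nat_lit 78) (nat_lit 0) (nat_lit 0) (XT.lf (nat_lit 0) (nat_lit 201256622301) (nat_lit 76) (nat_lit 46905057857) (nat_lit 76) (nat_lit 38888927160) (nat_lit 3) (nat_lit 4) (nat_lit 4) (nat_lit 5) (nat_lit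 4) (nat_lit 4) (nat_lit 342) (nat_lit 298) (nat_lit 260)) (XT.lf (nat_lit 0) (nat_lit 279122225175) (nat_lit 76) (nat_lit 28562654971) (nat_lit 76) (nat_lit 20541336396) (nat_lit 3) (nat_lit 4) (nat_lit 4) (nat_lit 5) (nat_lit 4) (nat_lit 4) (nat_lit 343) (nat_lit 298) (nat_lit 259))) (XT.nd (nat_lit 78) (nat_lit 76) (nat_lit 0) (XT.lf (nat_lit 0) (nat_lit 501686624) (nat_lit 152) (nat_lit 6982321594) (nat_lit 76) (nat_lit 368095387986) (nat_lit 2) (nat_lit 5) (nat_lit 4) (nat_lit 5) (nat_lit 3) (nat_lit 4) (nat_lit 344) (nat_lit 298) (nat_lit 258)) (XT.lf (nat_lit 0) (nat_lit 24972322978) (nat_lit 152) (nat_lit 387364186076) (nat_lit 0) (nat_lit 17537366908) (nat_lit 1) (nat_lit 5) (nat_lit 3) (nat_lit 4) (nat_lit 1) (nat_lit 4) (nat_lit 345) (nat_lit 298) (nat_lit 257)))) (XT.nd (nat_lit 156) (nat_lit 0) (nat_lit 0) (XT.nd (nat_lit 78) (nat_lit 0) (nat_lit 0) (XT.lf (nat_lit 0) (nat_lit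 53505664560) (nat_lit 152) (nat_lit 392707945455) (nat_lit 0) (nat_lit 46067550051) (nat_lit 1) (nat_lit 5) (nat_lit 3) (nat_lit 4) (nat_lit 1) (nat_lit 4) (nat_lit 346) (nat_lit 298) (nat_lit 256)) (XT.lf (nat_lit 0) (nat_lit 86298622823) (nat_lit 152) (nat_lit 398894783897) (nat_lit 0) (nat_lit 78857761845) (nat_lit 1) (nat_lit 5) (nat_lit 3) (nat_lit 4) (nat_lit 1) (nat_lit 4) (nat_lit 347) (nat_lit 298) (nat_lit 255))) (XT.nd (nat_lit 78) (nat_lit 0) (nat_lit 0) (XT.lf (nat_lit 0) (nat_lit 123992799123) (nat_lit 152) (nat_lit 406045748241) (nat_lit 0) (nat_lit 116549549911) (nat_lit 1) (nat_lit 5) (nat_lit 3) (nat_lit 4) (nat_lit 1) (nat_lit 4) (nat_lit 348) (nat_lit 298) (nat_lit 254)) (XT.lf (nat_lit 0) (nat_lit 167325688213) (nat_lit 152) (nat_lit 414300748660) (nat_lit 0) (nat_lit 159880362277) (nat_lit 1) (nat_lit 5) (nat_lit 3) (nat_lit 4) (nat_lit 1) (nat_lit 4) (nat_lit 349)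 (nat_lit 298) (nat_lit 253))))) (XT.nd (nat_lit 312) (nat_lit 0) (nat_lit 0) (XT.nd (nat_lit 156) (nat_lit 0) (nat_lit 0) (XT.nd (nat_lit 78) (nat_lit 0) (nat_lit 0) (XT.lf (nat_lit 0) (nat_lit 217145107490) (nat_lit 152) (nat_lit 423821296031) (nat_lit 0) (nat_lit 209697975706) (nat_lit 1) (nat_lit 5) (nat_lit 3) (nat_lit 4) (nat_lit 1) (nat_lit 4) (nat_lit 350) (nat_lit 298) (nat_lit 252)) (XT.lf (nat_lit 0) (nat_lit 274425784722) (nat_lit 152) (nat_lit 434793661933) (nat_lit 0) (nat_lit 266977082635) (nat_lit 1) (nat_lit 5) (nat_lit 3) (nat_lit 4) (nat_lit 1) (nat_lit 4) (nat_lit 351) (nat_lit 298) (nat_lit 251))) (XT.nd (nat_lit 78) (nat_lit 0) (nat_lit 0) (XT.lf (nat_lit 0) (nat_lit 340288428811) (nat_lit 152) (nat_lit 447432523090) (nat_lit 0) (nat_lit 332838361244) (nat_lit 1) (nat_lit 5) (nat_lit 3) (nat_lit 4) (nat_lit 1) (nat_lit 4) (nat_lit 352) (nat_lit 298) (nat_lit 250)) (XT.lf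 (nat_lit 0) (nat_lit 416021656706) (nat_lit 152) (nat_lit 461985161569) (nat_lit 0) (nat_lit 408570401765) (nat_lit 1) (nat_lit 5) (nat_lit 3) (nat_lit 4) (nat_lit 1) (nat_lit 4) (nat_lit 353) (nat_lit 298) (nat_lit 249)))) (XT.nd (nat_lit 156) (nat_lit 0) (nat_lit 0) (XT.nd (nat_lit 78) (nat_lit 0) (nat_lit 0) (XT.lf (nat_lit 0) (nat_lit 503107205475) (nat_lit 152) (nat_lit 478736302905) (nat_lit 0) (nat_lit 495654918035) (nat_lit 1) (nat_lit 5) (nat_lit 3) (nat_lit 4) (nat_lit 1) (nat_lit 4) (nat_lit 354) (nat_lit 298) (nat_lit 248)) (XT.lf (nat_lit 0) (nat_lit 603248922812) (nat_lit 152) (nat_lit 498013686819) (nat_lit 0) (nat_lit 595795737546) (nat_lit 1) (nat_lit 5) (nat_lit 3) (nat_lit 4) (nat_lit 1) (nat_lit 4) (nat_lit 355) (nat_lit 298) (nat_lit 247))) (XT.nd (nat_lit 78) (nat_lit 0) (nat_lit 0) (XT.lf (nat_lit 0) (nat_lit 718406103186) (nat_lit 152) (nat_lit 520194479520) (nat_lit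 0) (nat_lit 710952137202) (nat_lit 1) (nat_lit 5) (nat_lit 3) (nat_lit 4) (nat_lit 1) (nat_lit 4) (nat_lit 356) (nat_lit 298) (nat_lit 246)) (XT.lf (nat_lit 0) (nat_lit 850831821865) (nat_lit 152) (nat_lit 545712653037) (nat_lit 0) (nat_lit 843377176996) (nat_lit 1) (nat_lit 5) (nat_lit 3) (nat_lit 4) (nat_lit 1) (nat_lit 4) (nat_lit 357) (nat_lit 298) (nat_lit 245))))))) (XT.nd (nat_lit 1170) (nat_lit 0) (nat_lit 0) (XT.nd (nat_lit 546) (nat_lit 0) (nat_lit 0) (XT.nd (nat_lit 234) (nat_lit 0) (nat_lit 0) (XT.nd (nat_lit 78) (nat_lit 0) (nat_lit 0) (XT.lf (nat_lit 0) (nat_lit 1003117016824) (nat_lit 152) (nat_lit 575067475983) (nat_lit 0) (nat_lit 995661781620) (nat_lit 1) (nat_lit 5) (nat_lit 3) (nat_lit 4) (nat_lit 1) (nat_lit 4) (nat_lit 358) (nat_lit 298) (nat_lit 244)) (XT.nd (nat_lit 78) (nat_lit 0) (nat_lit 0) (XT.lf (nat_lit 0) (nat_lit 1178241181006) (nat_lit 152) (nat_lit 608833281850)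 (nat_lit 0) (nat_lit 1170785432468) (nat_lit 1) (nat_lit 5) (nat_lit 3) (nat_lit 4) (nat_lit 1) (nat_lit 4) (nat_lit 359) (nat_lit 298) (nat_lit 243)) (XT.lf (nat_lit 0) (nat_lit 1379630656756) (nat_lit 152) (nat_lit 647670705971) (nat_lit 0) (nat_lit 1372174461839) (nat_lit 1) (nat_lit 5) (nat_lit 3) (nat_lit 4) (nat_lit 1) (nat_lit 4) (nat_lit 360) (nat_lit 298) (nat_lit 242)))) (XT.nd (nat_lit 156) (nat_lit 0) (nat_lit 0) (XT.nd (nat_lit 78) (nat_lit 0) (nat_lit 0) (XT.lf (nat_lit 0) (nat_lit 1611225672946) (nat_lit 152) (nat_lit 692339610992) (nat_lit 0) (nat_lit 1603769089875) (nat_lit 1) (nat_lit 5) (nat_lit 3) (nat_lit 4) (nat_lit 1) (nat_lit 4) (nat_lit 361) (nat_lit 298) (nat_lit 241)) (XT.lf (nat_lit 0) (nat_lit 1877557436415) (nat_lit 152) (nat_lit 743713953750) (nat_lit 0) (nat_lit 1870100515818) (nat_lit 1) (nat_lit 5) (nat_lit 3) (nat_lit 4) (nat_lit 1) (nat_lit 4) (nat_lit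 362) (nat_lit 298) (nat_lit 240))) (XT.nd (nat_lit 78) (nat_lit 0) (nat_lit 0) (XT.lf (nat_lit 0) (nat_lit 2183836786013) (nat_lit 152) (nat_lit 802798884428) (nat_lit 0) (nat_lit 2176379571915) (nat_lit 1) (nat_lit 5) (nat_lit 3) (nat_lit 4) (nat_lit 1) (nat_lit 4) (nat_lit 363) (nat_lit 298) (nat_lit 239)) (XT.lf (nat_lit 0) (nat_lit 2536056143798) (nat_lit 152) (nat_lit 870750412542) (nat_lit 0) (nat_lit 2528598674482) (nat_lit 1) (nat_lit 5) (nat_lit 3) (nat_lit 4) (nat_lit 1) (nat_lit 4) (nat_lit 364) (nat_lit 298) (nat_lit 238))))) (XT.nd (nat_lit 312) (nat_lit 0) (nat_lit 0) (XT.nd (nat_lit 156) (nat_lit 0) (nat_lit 0) (XT.nd (nat_lit 78) (nat_lit 0) (nat_lit 0) (XT.lf (nat_lit 0) (nat_lit 2941106758074) (nat_lit 152) (nat_lit 948898024510) (nat_lit 0) (nat_lit 2933649066829) (nat_lit 1) (nat_lit 5) (nat_lit 3) (nat_lit 4) (nat_lit 1) (nat_lit 4) (nat_lit 365) (nat_lit 298) (nat_lit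 237)) (XT.lf (nat_lit 0) (nat_lit 3406913532163) (nat_lit 152) (nat_lit 1038770695348) (nat_lit 0) (nat_lit 3399455647937) (nat_lit 1) (nat_lit 5) (nat_lit 3) (nat_lit 4) (nat_lit 1) (nat_lit 4) (nat_lit 366) (nat_lit 298) (nat_lit 236))) (XT.nd (nat_lit 78) (nat_lit 0) (nat_lit 0) (XT.lf (nat_lit 0) (nat_lit 3942590076864) (nat_lit 152) (nat_lit 1142126803400) (nat_lit 0) (nat_lit 3935132024828) (nat_lit 1) (nat_lit 5) (nat_lit 3) (nat_lit 4) (nat_lit 1) (nat_lit 4) (nat_lit 367) (nat_lit 298) (nat_lit 235)) (XT.lf (nat_lit 0) (nat_lit 4558617020225) (nat_lit 152) (nat_lit 1260988533389) (nat_lit 0) (nat_lit 4551158822267) (nat_lit 1) (nat_lit 5) (nat_lit 3) (nat_lit 4) (nat_lit 1) (nat_lit 4) (nat_lit 368) (nat_lit 298) (nat_lit 234)))) (XT.nd (nat_lit 156) (nat_lit 0) (nat_lit 0) (XT.nd (nat_lit 78) (nat_lit 0) (nat_lit 0) (XT.lf (nat_lit 0) (nat_lit 5267047063312) (nat_lit 152) (nat_lit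 1397681440900) (nat_lit 0) (nat_lit 5259588738465) (nat_lit 1) (nat_lit 5) (nat_lit 3) (nat_lit 4) (nat_lit 1) (nat_lit 4) (nat_lit 369) (nat_lit 298) (nat_lit 233)) (XT.lf (nat_lit 0) (nat_lit 6081740793923) (nat_lit 152) (nat_lit 1554879952385) (nat_lit 0) (nat_lit 6074282358739) (nat_lit 1) (nat_lit 5) (nat_lit 3) (nat_lit 4) (nat_lit 1) (nat_lit 4) (nat_lit 370) (nat_lit 298) (nat_lit 232))) (XT.nd (nat_lit 78) (nat_lit 0) (nat_lit 0) (XT.lf (nat_lit 0) (nat_lit 7018637872007) (nat_lit 152) (nat_lit 1735659690896) (nat_lit 0) (nat_lit 7011179340877) (nat_lit 1) (nat_lit 5) (nat_lit 3) (nat_lit 4) (nat_lit 1) (nat_lit 4) (nat_lit 371) (nat_lit 298) (nat_lit 231)) (XT.lf (nat_lit 0) (nat_lit 8096068892568) (nat_lit 152) (nat_lit 1943557651315) (nat_lit 0) (nat_lit 8088610278007) (nat_lit 1) (nat_lit 5) (nat_lit 3) (nat_lit 4) (nat_lit 1) (nat_lit 4) (nat_lit 372) (nat_lit 298) (nat_lit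 230)))))) (XT.nd (nat_lit 41808) (nat_lit 0) (nat_lit 2204) (XT.nd (nat_lit 41496) (nat_lit 0) (nat_lit 4256) (XT.nd (nat_lit 41340) (nat_lit 0) (nat_lit 6004) (XT.nd (nat_lit 78) (nat_lit 0) (nat_lit 0) (XT.lf (nat_lit 0) (nat_lit 9335114027749) (nat_lit 152) (nat_lit 2182641402434) (nat_lit 0) (nat_lit 9327655340638) (nat_lit 1) (nat_lit 5) (nat_lit 3) (nat_lit 4) (nat_lit 1) (nat_lit 4) (nat_lit 373) (nat_lit 298) (nat_lit 229)) (XT.lf (nat_lit 0) (nat_lit 10760015464976) (nat_lit 152) (nat_lit 2457588669819) (nat_lit 0) (nat_lit 10752556714779) (nat_lit 1) (nat_lit 5) (nat_lit 3) (nat_lit 4) (nat_lit 1) (nat_lit 4) (nat_lit 374) (nat_lit 298) (nat_lit 228))) (XT.nd (nat_lit 78) (nat_lit 456) (nat_lit 0) (XT.lf (nat_lit 0) (nat_lit 3142880701) (nat_lit 76) (nat_lit 63053116) (nat_lit 76) (nat_lit 63053116) (nat_lit 86) (nat_lit 4) (nat_lit 87) (nat_lit 5) (nat_lit 87) (nat_lit 4) (nat_lit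 302) (nat_lit 299) (nat_lit 299)) (XT.lf (nat_lit 0) (nat_lit 370006894) (nat_lit 228) (nat_lit 5217155694) (nat_lit 228) (nat_lit 1077295716) (nat_lit 80) (nat_lit 4) (nat_lit 83) (nat_lit 5) (nat_lit 83) (nat_lit 4) (nat_lit 303) (nat_lit 299) (nat_lit 298)))) (XT.nd (nat_lit 156) (nat_lit 912) (nat_lit 0) (XT.nd (nat_lit 78) (nat_lit 456) (nat_lit 0) (XT.lf (nat_lit 0) (nat_lit 1385969769) (nat_lit 304) (nat_lit 3001389841) (nat_lit 380) (nat_lit 2468112663) (nat_lit 75) (nat_lit 5) (nat_lit 79) (nat_lit 5) (nat_lit 80) (nat_lit 4) (nat_lit 304) (nat_lit 299) (nat_lit 297)) (XT.lf (nat_lit 0) (nat_lit 2763832093) (nat_lit 456) (nat_lit 4316106214) (nat_lit 76) (nat_lit 34698830) (nat_lit 69) (nat_lit 5) (nat_lit 75) (nat_lit 5) (nat_lit 70) (nat_lit 4) (nat_lit 305) (nat_lit 299) (nat_lit 296))) (XT.nd (nat_lit 78) (nat_lit 380) (nat_lit 0) (XT.lf (nat_lit 0) (nat_lit 758532048) (nat_lit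 532) (nat_lit 2908360453) (nat_lit 76) (nat_lit 3771650397) (nat_lit 62) (nat_lit 5) (nat_lit 69) (nat_lit 5) (nat_lit 63) (nat_lit 5) (nat_lit 306) (nat_lit 299) (nat_lit 295)) (XT.lf (nat_lit 0) (nat_lit 5996254336) (nat_lit 456) (nat_lit 1210121776) (nat_lit 76) (nat_lit 626742956) (nat_lit 57) (nat_lit 5) (nat_lit 63) (nat_lit 5) (nat_lit 58) (nat_lit 4) (nat_lit 307) (nat_lit 299) (nat_lit 294))))) (XT.nd (nat_lit 312) (nat_lit 836) (nat_lit 0) (XT.nd (nat_lit 156) (nat_lit 456) (nat_lit 0) (XT.nd (nat_lit 78) (nat_lit 228) (nat_lit 0) (XT.lf (nat_lit 0) (nat_lit 762759673) (nat_lit 228) (nat_lit 2583704754) (nat_lit 304) (nat_lit 4949758497) (nat_lit 50) (nat_lit 5) (nat_lit 53) (nat_lit 5) (nat_lit 54) (nat_lit 5) (nat_lit 308) (nat_lit 299) (nat_lit 293)) (XT.lf (nat_lit 0) (nat_lit 213964626) (nat_lit 228) (nat_lit 5717115696) (nat_lit 76) (nat_lit 2904898127) (nat_lit 47) (nat_lit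 5) (nat_lit 50) (nat_lit 5) (nat_lit 48) (nat_lit 5) (nat_lit 309) (nat_lit 299) (nat_lit 292))) (XT.nd (nat_lit 78) (nat_lit 228) (nat_lit 0) (XT.lf (nat_lit 0) (nat_lit 5725492845) (nat_lit 228) (nat_lit 32046364) (nat_lit 304) (nat_lit 3697393760) (nat_lit 44) (nat_lit 5) (nat_lit 47) (nat_lit 5) (nat_lit 48) (nat_lit 5) (nat_lit 310) (nat_lit 299) (nat_lit 291)) (XT.lf (nat_lit 0) (nat_lit 1915672239) (nat_lit 228) (nat_lit 1575203295) (nat_lit 76) (nat_lit 6668539654) (nat_lit 41) (nat_lit 5) (nat_lit 44) (nat_lit 5) (nat_lit 42) (nat_lit 5) (nat_lit 311) (nat_lit 299) (nat_lit 290)))) (XT.nd (nat_lit 156) (nat_lit 304) (nat_lit 0) (XT.nd (nat_lit 78) (nat_lit 228) (nat_lit 0) (XT.lf (nat_lit 0) (nat_lit 809231220) (nat_lit 152) (nat_lit 7397874249) (nat_lit 228) (nat_lit 2750628238) (nat_lit 37) (nat_lit 5) (nat_lit 39) (nat_lit 5) (nat_lit 40) (nat_lit 4) (nat_lit 312) (nat_lit 299)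 (nat_lit 289)) (XT.lf (nat_lit 0) (nat_lit 3486096958) (nat_lit 152) (nat_lit 39227337) (nat_lit 228) (nat_lit 8332851816) (nat_lit 34) (nat_lit 5) (nat_lit 36) (nat_lit 5) (nat_lit 37) (nat_lit 5) (nat_lit 313) (nat_lit 299) (nat_lit 288))) (XT.nd (nat_lit 78) (nat_lit 228) (nat_lit 0) (XT.lf (nat_lit 0) (nat_lit 6270779552) (nat_lit 76) (nat_lit 4562573527) (nat_lit 152) (nat_lit 2034523666) (nat_lit 33) (nat_lit 5) (nat_lit 34) (nat_lit 5) (nat_lit 35) (nat_lit 4) (nat_lit 314) (nat_lit 299) (nat_lit 287)) (XT.lf (nat_lit 0) (nat_lit 5146785499) (nat_lit 228) (nat_lit 4804131390) (nat_lit 76) (nat_lit 4052345775) (nat_lit 30) (nat_lit 5) (nat_lit 33) (nat_lit 5) (nat_lit 31) (nat_lit 4) (nat_lit 315) (nat_lit 299) (nat_lit 286))))))))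
noncomputable def xc22 : XT := (XT.nd (nat_lit 2340) (nat_lit 76) (nat_lit 0) (XT.nd (nat_lit 1170) (nat_lit 532) (nat_lit 0) (XT.nd (nat_lit 546) (nat_lit 684) (nat_lit 0) (XT.nd (nat_lit 234) (nat_lit 456) (nat_lit 0) (XT.nd (nat_lit 78) (nat_lit 380) (nat_lit 0) (XT.lf (nat_lit 0) (nat_lit 12299288862) (nat_lit 76) (nat_lit 1259043594) (nat_lit 152) (nat_lit 1724649917) (nat_lit 29) (nat_lit 5) (nat_lit 30) (nat_lit 5) (nat_lit 31) (nat_lit 4) (nat_lit 316) (nat_lit 299) (nat_lit 285)) (XT.nd (nat_lit 78) (nat_lit 152) (nat_lit 0) (XT.lf (nat_lit 0) (nat_lit 6567745913) (nat_lit 228) (nat_lit 1379303043) (nat_lit 76) (nat_lit 8762073575) (nat_lit 26) (nat_lit 5) (nat_lit 29) (nat_lit 5) (nat_lit 27) (nat_lit 4) (nat_lit 317) (nat_lit 299) (nat_lit 284)) (XT.lf (nat_lit 0) (nat_lit 165013668) (nat_lit 76) (nat_lit 16167434613) (nat_lit 76) (nat_lit 1986800390) (nat_lit 24) (nat_lit 4)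 (nat_lit 25) (nat_lit 5) (nat_lit 25) (nat_lit 4) (nat_lit 318) (nat_lit 299) (nat_lit 283)))) (XT.nd (nat_lit 156) (nat_lit 228) (nat_lit 0) (XT.nd (nat_lit 78) (nat_lit 76) (nat_lit 0) (XT.lf (nat_lit 0) (nat_lit 1320455851) (nat_lit 76) (nat_lit 6238391653) (nat_lit 152) (nat_lit 12554892717) (nat_lit 22) (nat_lit 5) (nat_lit 23) (nat_lit 5) (nat_lit 24) (nat_lit 4) (nat_lit 319) (nat_lit 299) (nat_lit 282)) (XT.lf (nat_lit 0) (nat_lit 2071248008) (nat_lit 76) (nat_lit 16790008563) (nat_lit 76) (nat_lit 3276681881) (nat_lit 21) (nat_lit 4) (nat_lit 22) (nat_lit 5) (nat_lit 22) (nat_lit 4) (nat_lit 320) (nat_lit 299) (nat_lit 281))) (XT.nd (nat_lit 78) (nat_lit 76) (nat_lit 0) (XT.lf (nat_lit 0) (nat_lit 2029054757) (nat_lit 76) (nat_lit 5517738413) (nat_lit 152) (nat_lit 16862931660) (nat_lit 19) (nat_lit 5) (nat_lit 20) (nat_lit 5) (nat_lit 21) (nat_lit 4) (nat_lit 321) (nat_lit 299)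 (nat_lit 280)) (XT.lf (nat_lit 0) (nat_lit 981171964) (nat_lit 76) (nat_lit 19384807692) (nat_lit 76) (nat_lit 6604240342) (nat_lit 18) (nat_lit 4) (nat_lit 19) (nat_lit 5) (nat_lit 19) (nat_lit 4) (nat_lit 322) (nat_lit 299) (nat_lit 279))))) (XT.nd (nat_lit 312) (nat_lit 304) (nat_lit 0) (XT.nd (nat_lit 156) (nat_lit 228) (nat_lit 0) (XT.nd (nat_lit 78) (nat_lit 76) (nat_lit 0) (XT.lf (nat_lit 0) (nat_lit 5528785680) (nat_lit 152) (nat_lit 1389177595) (nat_lit 76) (nat_lit 22939245904) (nat_lit 17) (nat_lit 5) (nat_lit 19) (nat_lit 5) (nat_lit 18) (nat_lit 4) (nat_lit 323) (nat_lit 299) (nat_lit 278)) (XT.lf (nat_lit 0) (nat_lit 19768447280) (nat_lit 152) (nat_lit 5594097014) (nat_lit 0) (nat_lit 7746793461) (nat_lit 16) (nat_lit 5) (nat_lit 18) (nat_lit 4) (nat_lit 16) (nat_lit 4) (nat_lit 324) (nat_lit 299) (nat_lit 277))) (XT.nd (nat_lit 78) (nat_lit 152) (nat_lit 0) (XT.lf (nat_lit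 0) (nat_lit 24679239657) (nat_lit 76) (nat_lit 12108109054) (nat_lit 76) (nat_lit 10501681) (nat_lit 15) (nat_lit 4) (nat_lit 16) (nat_lit 5) (nat_lit 16) (nat_lit 4) (nat_lit 325) (nat_lit 299) (nat_lit 276)) (XT.lf (nat_lit 0) (nat_lit 15104228619) (nat_lit 152) (nat_lit 22020283234) (nat_lit 0) (nat_lit 3841586081) (nat_lit 13) (nat_lit 5) (nat_lit 15) (nat_lit 4) (nat_lit 13) (nat_lit 4) (nat_lit 326) (nat_lit 299) (nat_lit 275)))) (XT.nd (nat_lit 156) (nat_lit 152) (nat_lit 0) (XT.nd (nat_lit 78) (nat_lit 76) (nat_lit 0) (XT.lf (nat_lit 0) (nat_lit 9486894738) (nat_lit 76) (nat_lit 23763652861) (nat_lit 76) (nat_lit 12447832731) (nat_lit 12) (nat_lit 4) (nat_lit 13) (nat_lit 5) (nat_lit 13) (nat_lit 4) (nat_lit 327) (nat_lit 299) (nat_lit 274)) (XT.lf (nat_lit 0) (nat_lit 3337141711) (nat_lit 152) (nat_lit 4420806753) (nat_lit 76) (nat_lit 43336216587) (nat_lit 11) (nat_lit 5) (nat_lit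 13) (nat_lit 5) (nat_lit 12) (nat_lit 4) (nat_lit 328) (nat_lit 299) (nat_lit 273))) (XT.nd (nat_lit 78) (nat_lit 76) (nat_lit 0) (XT.lf (nat_lit 0) (nat_lit 21724478154) (nat_lit 152) (nat_lit 24304434683) (nat_lit 0) (nat_lit 11166819439) (nat_lit 10) (nat_lit 5) (nat_lit 12) (nat_lit 4) (nat_lit 10) (nat_lit 4) (nat_lit 329) (nat_lit 299) (nat_lit 272)) (XT.lf (nat_lit 0) (nat_lit 12005265826) (nat_lit 76) (nat_lit 31378118498) (nat_lit 76) (nat_lit 20788084663) (nat_lit 9) (nat_lit 4) (nat_lit 10) (nat_lit 5) (nat_lit 10) (nat_lit 4) (nat_lit 330) (nat_lit 299) (nat_lit 271)))))) (XT.nd (nat_lit 546) (nat_lit 152) (nat_lit 0) (XT.nd (nat_lit 234) (nat_lit 228) (nat_lit 0) (XT.nd (nat_lit 78) (nat_lit 152) (nat_lit 0) (XT.lf (nat_lit 0) (nat_lit 55010730934) (nat_lit 76) (nat_lit 13876665101) (nat_lit 76) (nat_lit 3258478988) (nat_lit 9) (nat_lit 4) (nat_lit 10) (nat_lit 5) (nat_lit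 10) (nat_lit 4) (nat_lit 331) (nat_lit 299) (nat_lit 270)) (XT.nd (nat_lit 78) (nat_lit 0) (nat_lit 0) (XT.lf (nat_lit 0) (nat_lit 16699877784) (nat_lit 152) (nat_lit 57686919129) (nat_lit 0) (nat_lit 6845557084) (nat_lit 7) (nat_lit 5) (nat_lit 9) (nat_lit 4) (nat_lit 7) (nat_lit 4) (nat_lit 332) (nat_lit 299) (nat_lit 269)) (XT.lf (nat_lit 0) (nat_lit 40267218354) (nat_lit 152) (nat_lit 20949982067) (nat_lit 0) (nat_lit 30393187315) (nat_lit 7) (nat_lit 5) (nat_lit 9) (nat_lit 4) (nat_lit 7) (nat_lit 4) (nat_lit 333) (nat_lit 299) (nat_lit 268)))) (XT.nd (nat_lit 156) (nat_lit 152) (nat_lit 0) (XT.nd (nat_lit 78) (nat_lit 0) (nat_lit 0) (XT.lf (nat_lit 0) (nat_lit 22247843231) (nat_lit 76) (nat_lit 45576060305) (nat_lit 76) (nat_lit 35684889840) (nat_lit 6) (nat_lit 4) (nat_lit 7) (nat_lit 5) (nat_lit 7) (nat_lit 4) (nat_lit 334) (nat_lit 299) (nat_lit 267)) (XT.lf (nat_lit 0) (nat_lit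 73045191597) (nat_lit 76) (nat_lit 27004980803) (nat_lit 76) (nat_lit 17098906489) (nat_lit 6) (nat_lit 4) (nat_lit 7) (nat_lit 5) (nat_lit 7) (nat_lit 4) (nat_lit 335) (nat_lit 299) (nat_lit 266))) (XT.nd (nat_lit 78) (nat_lit 76) (nat_lit 0) (XT.lf (nat_lit 0) (nat_lit 3995228201) (nat_lit 152) (nat_lit 1608959522) (nat_lit 76) (nat_lit 127228270444) (nat_lit 5) (nat_lit 5) (nat_lit 7) (nat_lit 5) (nat_lit 6) (nat_lit 4) (nat_lit 336) (nat_lit 299) (nat_lit 265)) (XT.lf (nat_lit 0) (nat_lit 28892771244) (nat_lit 152) (nat_lit 102109862351) (nat_lit 0) (nat_lit 19698045659) (nat_lit 4) (nat_lit 5) (nat_lit 6) (nat_lit 4) (nat_lit 4) (nat_lit 4) (nat_lit 337) (nat_lit 299) (nat_lit 264))))) (XT.nd (nat_lit 312) (nat_lit 76) (nat_lit 0) (XT.nd (nat_lit 156) (nat_lit 76) (nat_lit 0) (XT.nd (nat_lit 78) (nat_lit 0) (nat_lit 0) (XT.lf (nat_lit 0) (nat_lit 57674349772) (nat_lit 152) (nat_lit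 65092284204) (nat_lit 0) (nat_lit 48470550555) (nat_lit 4) (nat_lit 5) (nat_lit 6) (nat_lit 4) (nat_lit 4) (nat_lit 4) (nat_lit 338) (nat_lit 299) (nat_lit 263)) (XT.lf (nat_lit 0) (nat_lit 90726509618) (nat_lit 152) (nat_lit 22616571041) (nat_lit 0) (nat_lit 81514820286) (nat_lit 4) (nat_lit 5) (nat_lit 6) (nat_lit 4) (nat_lit 4) (nat_lit 4) (nat_lit 339) (nat_lit 299) (nat_lit 262))) (XT.nd (nat_lit 78) (nat_lit 0) (nat_lit 0) (XT.lf (nat_lit 0) (nat_lit 27525248086) (nat_lit 76) (nat_lit 101832658268) (nat_lit 76) (nat_lit 92614107967) (nat_lit 3) (nat_lit 4) (nat_lit 4) (nat_lit 5) (nat_lit 4) (nat_lit 4) (nat_lit 340) (nat_lit 299) (nat_lit 261)) (XT.lf (nat_lit 0) (nat_lit 86482711258) (nat_lit 76) (nat_lit 87922671209) (nat_lit 76) (nat_lit 78698154848) (nat_lit 3) (nat_lit 4) (nat_lit 4) (nat_lit 5) (nat_lit 4) (nat_lit 4) (nat_lit 341) (nat_lit 299) (nat_lit 260)))) (XT.nd (nat_lit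 156) (nat_lit 76) (nat_lit 0) (XT.nd (nat_lit 78) (nat_lit 0) (nat_lit 0) (XT.lf (nat_lit 0) (nat_lit 154218385506) (nat_lit 76) (nat_lit 71959344694) (nat_lit 76) (nat_lit 62729640454) (nat_lit 3) (nat_lit 4) (nat_lit 4) (nat_lit 5) (nat_lit 4) (nat_lit 4) (nat_lit 342) (nat_lit 299) (nat_lit 259)) (XT.lf (nat_lit 0) (nat_lit 232057534023) (nat_lit 76) (nat_lit 53630352770) (nat_lit 76) (nat_lit 44396137332) (nat_lit 3) (nat_lit 4) (nat_lit 4) (nat_lit 5) (nat_lit 4) (nat_lit 4) (nat_lit 343) (nat_lit 299) (nat_lit 258))) (XT.nd (nat_lit 78) (nat_lit 76) (nat_lit 0) (XT.lf (nat_lit 0) (nat_lit 321523096671) (nat_lit 76) (nat_lit 32577084725) (nat_lit 76) (nat_lit 23338946505) (nat_lit 3) (nat_lit 4) (nat_lit 4) (nat_lit 5) (nat_lit 4) (nat_lit 4) (nat_lit 344) (nat_lit 299) (nat_lit 257)) (XT.lf (nat_lit 0) (nat_lit 811203976) (nat_lit 152) (nat_lit 7554245062) (nat_lit 76) (nat_lit 423532102901)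 (nat_lit 2) (nat_lit 5) (nat_lit 4) (nat_lit 5) (nat_lit 3) (nat_lit 4) (nat_lit 345) (nat_lit 299) (nat_lit 256))))))) (XT.nd (nat_lit 1170) (nat_lit 0) (nat_lit 0) (XT.nd (nat_lit 546) (nat_lit 0) (nat_lit 0) (XT.nd (nat_lit 234) (nat_lit 0) (nat_lit 0) (XT.nd (nat_lit 78) (nat_lit 0) (nat_lit 0) (XT.lf (nat_lit 0) (nat_lit 28937660961) (nat_lit 152) (nat_lit 445021801953) (nat_lit 0) (nat_lit 20377924368) (nat_lit 1) (nat_lit 5) (nat_lit 3) (nat_lit 4) (nat_lit 1) (nat_lit 4) (nat_lit 346) (nat_lit 299) (nat_lit 255)) (XT.nd (nat_lit 78) (nat_lit 0) (nat_lit 0) (XT.lf (nat_lit 0) (nat_lit 61722374711) (nat_lit 152) (nat_lit 451225431156) (nat_lit 0) (nat_lit 53160249884) (nat_lit 1) (nat_lit 5) (nat_lit 3) (nat_lit 4) (nat_lit 1) (nat_lit 4) (nat_lit 347) (nat_lit 299) (nat_lit 254)) (XT.lf (nat_lit 0) (nat_lit 99409381870) (nat_lit 152) (nat_lit 458390996162) (nat_lit 0) (nat_lit 90845180318)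 (nat_lit 1) (nat_lit 5) (nat_lit 3) (nat_lit 4) (nat_lit 1) (nat_lit 4) (nat_lit 348) (nat_lit 299) (nat_lit 253)))) (XT.nd (nat_lit 156) (nat_lit 0) (nat_lit 0) (XT.nd (nat_lit 78) (nat_lit 0) (nat_lit 0) (XT.lf (nat_lit 0) (nat_lit 142736036924) (nat_lit 152) (nat_lit 466658692809) (nat_lit 0) (nat_lit 134170029525) (nat_lit 1) (nat_lit 5) (nat_lit 3) (nat_lit 4) (nat_lit 1) (nat_lit 4) (nat_lit 349) (nat_lit 299) (nat_lit 252)) (XT.lf (nat_lit 0) (nat_lit 192550035300) (nat_lit 152) (nat_lit 476190280378) (nat_lit 0) (nat_lit 183982457598) (nat_lit 1) (nat_lit 5) (nat_lit 3) (nat_lit 4) (nat_lit 1) (nat_lit 4) (nat_lit 350) (nat_lit 299) (nat_lit 251))) (XT.nd (nat_lit 78) (nat_lit 0) (nat_lit 0) (XT.lf (nat_lit 0) (nat_lit 249825998705) (nat_lit 152) (nat_lit 487172246452) (nat_lit 0) (nat_lit 241257055523) (nat_lit 1) (nat_lit 5) (nat_lit 3) (nat_lit 4) (nat_lit 1) (nat_lit 4) (nat_lit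 351) (nat_lit 299) (nat_lit 250)) (XT.lf (nat_lit 0) (nat_lit 315684543814) (nat_lit 152) (nat_lit 499819455585) (nat_lit 0) (nat_lit 307114413257) (nat_lit 1) (nat_lit 5) (nat_lit 3) (nat_lit 4) (nat_lit 1) (nat_lit 4) (nat_lit 352) (nat_lit 299) (nat_lit 249))))) (XT.nd (nat_lit 312) (nat_lit 0) (nat_lit 0) (XT.nd (nat_lit 156) (nat_lit 0) (nat_lit 0) (XT.nd (nat_lit 78) (nat_lit 0) (nat_lit 0) (XT.lf (nat_lit 0) (nat_lit 391414207379) (nat_lit 152) (nat_lit 514379353173) (nat_lit 0) (nat_lit 382843044323) (nat_lit 1) (nat_lit 5) (nat_lit 3) (nat_lit 4) (nat_lit 1) (nat_lit 4) (nat_lit 353) (nat_lit 299) (nat_lit 248)) (XT.lf (nat_lit 0) (nat_lit 478496656731) (nat_lit 152) (nat_lit 531136806778) (nat_lit 0) (nat_lit 469924595849) (nat_lit 1) (nat_lit 5) (nat_lit 3) (nat_lit 4) (nat_lit 1) (nat_lit 4) (nat_lit 354) (nat_lit 299) (nat_lit 247))) (XT.nd (nat_lit 78) (nat_lit 0) (nat_lit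 0) (XT.lf (nat_lit 0) (nat_lit 578635678922) (nat_lit 152) (nat_lit 550419679622) (nat_lit 0) (nat_lit 570062837322) (nat_lit 1) (nat_lit 5) (nat_lit 3) (nat_lit 4) (nat_lit 1) (nat_lit 4) (nat_lit 355) (nat_lit 299) (nat_lit 246)) (XT.lf (nat_lit 0) (nat_lit 693790515691) (nat_lit 152) (nat_lit 572605245304) (nat_lit 0) (nat_lit 685216995206) (nat_lit 1) (nat_lit 5) (nat_lit 3) (nat_lit 4) (nat_lit 1) (nat_lit 4) (nat_lit 356) (nat_lit 299) (nat_lit 245)))) (XT.nd (nat_lit 156) (nat_lit 0) (nat_lit 0) (XT.nd (nat_lit 78) (nat_lit 0) (nat_lit 0) (XT.lf (nat_lit 0) (nat_lit 826214196452) (nat_lit 152) (nat_lit 598127569240) (nat_lit 0) (nat_lit 817640085633) (nat_lit 1) (nat_lit 5) (nat_lit 3) (nat_lit 4) (nat_lit 1) (nat_lit 4) (nat_lit 357) (nat_lit 299) (nat_lit 244)) (XT.lf (nat_lit 0) (nat_lit 978497619309) (nat_lit 152) (nat_lit 627486001247) (nat_lit 0) (nat_lit 969922995155) (nat_lit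 1) (nat_lit 5) (nat_lit 3) (nat_lit 4) (nat_lit 1) (nat_lit 4) (nat_lit 358) (nat_lit 299) (nat_lit 243))) (XT.nd (nat_lit 78) (nat_lit 0) (nat_lit 0) (XT.lf (nat_lit 0) (nat_lit 1153620242533) (nat_lit 152) (nat_lit 661254945427) (nat_lit 0) (nat_lit 1145045172001) (nat_lit 1) (nat_lit 5) (nat_lit 3) (nat_lit 4) (nat_lit 1) (nat_lit 4) (nat_lit 359) (nat_lit 299) (nat_lit 242)) (XT.lf (nat_lit 0) (nat_lit 1355008378319) (nat_lit 152) (nat_lit 700095098517) (nat_lit 0) (nat_lit 1346432919632) (nat_lit 1) (nat_lit 5) (nat_lit 3) (nat_lit 4) (nat_lit 1) (nat_lit 4) (nat_lit 360) (nat_lit 299) (nat_lit 241)))))) (XT.nd (nat_lit 624) (nat_lit 0) (nat_lit 0) (XT.nd (nat_lit 312) (nat_lit 0) (nat_lit 0) (XT.nd (nat_lit 156) (nat_lit 0) (nat_lit 0) (XT.nd (nat_lit 78) (nat_lit 0) (nat_lit 0) (XT.lf (nat_lit 0) (nat_lit 1586602229323) (nat_lit 152) (nat_lit 744766376553) (nat_lit 0) (nat_lit 1578026433110)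 (nat_lit 1) (nat_lit 5) (nat_lit 3) (nat_lit 4) (nat_lit 1) (nat_lit 4) (nat_lit 361) (nat_lit 299) (nat_lit 240)) (XT.lf (nat_lit 0) (nat_lit 1852932979587) (nat_lit 152) (nat_lit 796142782803) (nat_lit 0) (nat_lit 1844356889873) (nat_lit 1) (nat_lit 5) (nat_lit 3) (nat_lit 4) (nat_lit 1) (nat_lit 4) (nat_lit 362) (nat_lit 299) (nat_lit 239))) (XT.nd (nat_lit 78) (nat_lit 0) (nat_lit 0) (XT.lf (nat_lit 0) (nat_lit 2159211448137) (nat_lit 152) (nat_lit 855229507822) (nat_lit 0) (nat_lit 2150635103205) (nat_lit 1) (nat_lit 5) (nat_lit 3) (nat_lit 4) (nat_lit 1) (nat_lit 4) (nat_lit 363) (nat_lit 299) (nat_lit 238)) (XT.lf (nat_lit 0) (nat_lit 2511430039793) (nat_lit 152) (nat_lit 923182596232) (nat_lit 0) (nat_lit 2502853472933) (nat_lit 1) (nat_lit 5) (nat_lit 3) (nat_lit 4) (nat_lit 1) (nat_lit 4) (nat_lit 364) (nat_lit 299) (nat_lit 237)))) (XT.nd (nat_lit 156) (nat_lit 0) (nat_lit 0)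 (XT.nd (nat_lit 78) (nat_lit 0) (nat_lit 0) (XT.lf (nat_lit 0) (nat_lit 2916479987870) (nat_lit 152) (nat_lit 1001331564979) (nat_lit 0) (nat_lit 2907903228028) (nat_lit 1) (nat_lit 5) (nat_lit 3) (nat_lit 4) (nat_lit 1) (nat_lit 4) (nat_lit 365) (nat_lit 299) (nat_lit 236)) (XT.lf (nat_lit 0) (nat_lit 3382286182657) (nat_lit 152) (nat_lit 1091205415626) (nat_lit 0) (nat_lit 3373709255005) (nat_lit 1) (nat_lit 5) (nat_lit 3) (nat_lit 4) (nat_lit 1) (nat_lit 4) (nat_lit 366) (nat_lit 299) (nat_lit 235))) (XT.nd (nat_lit 78) (nat_lit 0) (nat_lit 0) (XT.lf (nat_lit 0) (nat_lit 3917962223616) (nat_lit 152) (nat_lit 1194562549598) (nat_lit 0) (nat_lit 3909385150042) (nat_lit 1) (nat_lit 5) (nat_lit 3) (nat_lit 4) (nat_lit 1) (nat_lit 4) (nat_lit 367) (nat_lit 299) (nat_lit 234)) (XT.lf (nat_lit 0) (nat_lit 4533988728940) (nat_lit 152) (nat_lit 1313425171691) (nat_lit 0) (nat_lit 4525411528478)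 (nat_lit 1) (nat_lit 5) (nat_lit 3) (nat_lit 4) (nat_lit 1) (nat_lit 4) (nat_lit 368) (nat_lit 299) (nat_lit 233))))) (XT.nd (nat_lit 312) (nat_lit 0) (nat_lit 0) (XT.nd (nat_lit 156) (nat_lit 0) (nat_lit 0) (XT.nd (nat_lit 78) (nat_lit 0) (nat_lit 0) (XT.lf (nat_lit 0) (nat_lit 5242418391125) (nat_lit 152) (nat_lit 1450118854945) (nat_lit 0) (nat_lit 5233841080325) (nat_lit 1) (nat_lit 5) (nat_lit 3) (nat_lit 4) (nat_lit 1) (nat_lit 4) (nat_lit 369) (nat_lit 299) (nat_lit 232)) (XT.lf (nat_lit 0) (nat_lit 6057111790518) (nat_lit 152) (nat_lit 1607318040990) (nat_lit 0) (nat_lit 6048534383772) (nat_lit 1) (nat_lit 5) (nat_lit 3) (nat_lit 4) (nat_lit 1) (nat_lit 4) (nat_lit 370) (nat_lit 299) (nat_lit 231))) (XT.nd (nat_lit 78) (nat_lit 0) (nat_lit 0) (XT.lf (nat_lit 0) (nat_lit 6994008580586) (nat_lit 152) (nat_lit 1788098366074) (nat_lit 0) (nat_lit 6985431090409) (nat_lit 1) (nat_lit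 5) (nat_lit 3) (nat_lit 4) (nat_lit 1) (nat_lit 4) (nat_lit 371) (nat_lit 299) (nat_lit 230)) (XT.lf (nat_lit 0) (nat_lit 8071439350698) (nat_lit 152) (nat_lit 1995996836557) (nat_lit 0) (nat_lit 8062861787972) (nat_lit 1) (nat_lit 5) (nat_lit 3) (nat_lit 4) (nat_lit 1) (nat_lit 4) (nat_lit 372) (nat_lit 299) (nat_lit 229)))) (XT.nd (nat_lit 41184) (nat_lit 0) (nat_lit 6536) (XT.nd (nat_lit 78) (nat_lit 0) (nat_lit 0) (XT.lf (nat_lit 0) (nat_lit 9310484268097) (nat_lit 152) (nat_lit 2235081031210) (nat_lit 0) (nat_lit 9301906642285) (nat_lit 1) (nat_lit 5) (nat_lit 3) (nat_lit 4) (nat_lit 1) (nat_lit 4) (nat_lit 373) (nat_lit 299) (nat_lit 228)) (XT.lf (nat_lit 0) (nat_lit 10735385515949) (nat_lit 152) (nat_lit 2510028684275) (nat_lit 0) (nat_lit 10726807835280) (nat_lit 1) (nat_lit 5) (nat_lit 3) (nat_lit 4) (nat_lit 1) (nat_lit 4) (nat_lit 374) (nat_lit 299) (nat_lit 227))) (XT.nd (nat_lit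 78) (nat_lit 76) (nat_lit 0) (XT.lf (nat_lit 0) (nat_lit 1073741823) (nat_lit 0) (nat_lit 0) (nat_lit 0) (nat_lit 0) (nat_lit 88) (nat_lit 0) (nat_lit 1) (nat_lit 0) (nat_lit 1) (nat_lit 0) (nat_lit 300) (nat_lit 300) (nat_lit 300)) (XT.lf (nat_lit 0) (nat_lit 5545697286) (nat_lit 76) (nat_lit 523025978) (nat_lit 0) (nat_lit 403991193) (nat_lit 87) (nat_lit 5) (nat_lit 88) (nat_lit 0) (nat_lit 87) (nat_lit 4) (nat_lit 301) (nat_lit 300) (nat_lit 299))))))))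
noncomputable def xc23 : XT := (XT.nd (nat_lit 2418) (nat_lit 608) (nat_lit 0) (XT.nd (nat_lit 1170) (nat_lit 1520) (nat_lit 0) (XT.nd (nat_lit 546) (nat_lit 1824) (nat_lit 0) (XT.nd (nat_lit 234) (nat_lit 1596) (nat_lit 0) (XT.nd (nat_lit 78) (nat_lit 836) (nat_lit 0) (XT.lf (nat_lit 0) (nat_lit 4292225766) (nat_lit 152) (nat_lit 684925274) (nat_lit 76) (nat_lit 1589681096) (nat_lit 85) (nat_lit 5) (nat_lit 87) (nat_lit 5) (nat_lit 86) (nat_lit 4) (nat_lit 302) (nat_lit 300) (nat_lit 298)) (XT.nd (nat_lit 78) (nat_lit 608) (nat_lit 0) (XT.lf (nat_lit 0) (nat_lit 2653764621) (nat_lit 228) (nat_lit 487166359) (nat_lit 76) (nat_lit 3585310996) (nat_lit 82) (nat_lit 5) (nat_lit 85) (nat_lit 5) (nat_lit 83) (nat_lit 5) (nat_lit 303) (nat_lit 300) (nat_lit 297)) (XT.lf (nat_lit 0) (nat_lit 81353525) (nat_lit 304) (nat_lit 512963194) (nat_lit 380) (nat_lit 6358918452) (nat_lit 74) (nat_lit 5)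 (nat_lit 78) (nat_lit 5) (nat_lit 79) (nat_lit 5) (nat_lit 304) (nat_lit 300) (nat_lit 296)))) (XT.nd (nat_lit 156) (nat_lit 684) (nat_lit 0) (XT.nd (nat_lit 78) (nat_lit 532) (nat_lit 0) (XT.lf (nat_lit 0) (nat_lit 949820677) (nat_lit 380) (nat_lit 4350820810) (nat_lit 456) (nat_lit 1939582766) (nat_lit 69) (nat_lit 5) (nat_lit 74) (nat_lit 5) (nat_lit 75) (nat_lit 5) (nat_lit 305) (nat_lit 300) (nat_lit 295)) (XT.lf (nat_lit 0) (nat_lit 2178759953) (nat_lit 456) (nat_lit 402172197) (nat_lit 532) (nat_lit 5016337353) (nat_lit 62) (nat_lit 5) (nat_lit 68) (nat_lit 5) (nat_lit 69) (nat_lit 5) (nat_lit 306) (nat_lit 300) (nat_lit 294))) (XT.nd (nat_lit 78) (nat_lit 304) (nat_lit 0) (XT.lf (nat_lit 0) (nat_lit 3696237704) (nat_lit 380) (nat_lit 3746113741) (nat_lit 456) (nat_lit 579878852) (nat_lit 57) (nat_lit 5) (nat_lit 62) (nat_lit 5) (nat_lit 63) (nat_lit 5) (nat_lit 307) (nat_lit 300)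 (nat_lit 293)) (XT.lf (nat_lit 0) (nat_lit 4086435716) (nat_lit 304) (nat_lit 3009153504) (nat_lit 76) (nat_lit 1423883046) (nat_lit 53) (nat_lit 5) (nat_lit 57) (nat_lit 5) (nat_lit 54) (nat_lit 5) (nat_lit 308) (nat_lit 300) (nat_lit 292))))) (XT.nd (nat_lit 312) (nat_lit 760) (nat_lit 0) (XT.nd (nat_lit 156) (nat_lit 380) (nat_lit 0) (XT.nd (nat_lit 78) (nat_lit 380) (nat_lit 0) (XT.lf (nat_lit 0) (nat_lit 232586460) (nat_lit 304) (nat_lit 1438065183) (nat_lit 76) (nat_lit 7425543865) (nat_lit 49) (nat_lit 5) (nat_lit 53) (nat_lit 5) (nat_lit 50) (nat_lit 5) (nat_lit 309) (nat_lit 300) (nat_lit 291)) (XT.lf (nat_lit 0) (nat_lit 303143022) (nat_lit 228) (nat_lit 5045001310) (nat_lit 304) (nat_lit 4401405089) (nat_lit 44) (nat_lit 5) (nat_lit 47) (nat_lit 5) (nat_lit 48) (nat_lit 5) (nat_lit 310) (nat_lit 300) (nat_lit 290))) (XT.nd (nat_lit 78) (nat_lit 152) (nat_lit 0) (XT.lf (nat_lit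 0) (nat_lit 765426174) (nat_lit 228) (nat_lit 8070059550) (nat_lit 76) (nat_lit 1658543874) (nat_lit 41) (nat_lit 5) (nat_lit 44) (nat_lit 5) (nat_lit 42) (nat_lit 5) (nat_lit 311) (nat_lit 300) (nat_lit 289)) (XT.lf (nat_lit 0) (nat_lit 4702476654) (nat_lit 152) (nat_lit 1889303515) (nat_lit 228) (nat_lit 4737884947) (nat_lit 39) (nat_lit 5) (nat_lit 41) (nat_lit 5) (nat_lit 42) (nat_lit 5) (nat_lit 312) (nat_lit 300) (nat_lit 288)))) (XT.nd (nat_lit 156) (nat_lit 380) (nat_lit 0) (XT.nd (nat_lit 78) (nat_lit 152) (nat_lit 0) (XT.lf (nat_lit 0) (nat_lit 1156311308) (nat_lit 228) (nat_lit 5044402099) (nat_lit 76) (nat_lit 6071800050) (nat_lit 36) (nat_lit 5) (nat_lit 39) (nat_lit 5) (nat_lit 37) (nat_lit 5) (nat_lit 313) (nat_lit 300) (nat_lit 287)) (XT.lf (nat_lit 0) (nat_lit 7869463960) (nat_lit 228) (nat_lit 3381851929) (nat_lit 76) (nat_lit 2078565769) (nat_lit 34) (nat_lit 5) (nat_lit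 37) (nat_lit 5) (nat_lit 35) (nat_lit 4) (nat_lit 314) (nat_lit 300) (nat_lit 286))) (XT.nd (nat_lit 78) (nat_lit 228) (nat_lit 0) (XT.lf (nat_lit 0) (nat_lit 1324699482) (nat_lit 152) (nat_lit 1625800156) (nat_lit 76) (nat_lit 11566827272) (nat_lit 32) (nat_lit 5) (nat_lit 34) (nat_lit 5) (nat_lit 33) (nat_lit 5) (nat_lit 315) (nat_lit 300) (nat_lit 285)) (XT.lf (nat_lit 0) (nat_lit 90318757) (nat_lit 76) (nat_lit 9097976569) (nat_lit 152) (nat_lit 6652641627) (nat_lit 29) (nat_lit 5) (nat_lit 30) (nat_lit 5) (nat_lit 31) (nat_lit 4) (nat_lit 316) (nat_lit 300) (nat_lit 284)))))) (XT.nd (nat_lit 624) (nat_lit 532) (nat_lit 0) (XT.nd (nat_lit 312) (nat_lit 456) (nat_lit 0) (XT.nd (nat_lit 156) (nat_lit 228) (nat_lit 0) (XT.nd (nat_lit 78) (nat_lit 76) (nat_lit 0) (XT.lf (nat_lit 0) (nat_lit 1226418298) (nat_lit 228) (nat_lit 15336268062) (nat_lit 76) (nat_lit 766704211) (nat_lit 26) (nat_lit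 5) (nat_lit 29) (nat_lit 5) (nat_lit 27) (nat_lit 4) (nat_lit 317) (nat_lit 300) (nat_lit 283)) (XT.lf (nat_lit 0) (nat_lit 3614861157) (nat_lit 76) (nat_lit 6837589340) (nat_lit 152) (nat_lit 8530197805) (nat_lit 25) (nat_lit 5) (nat_lit 26) (nat_lit 5) (nat_lit 27) (nat_lit 4) (nat_lit 318) (nat_lit 300) (nat_lit 282))) (XT.nd (nat_lit 78) (nat_lit 76) (nat_lit 0) (XT.lf (nat_lit 0) (nat_lit 626587281) (nat_lit 152) (nat_lit 15672696050) (nat_lit 76) (nat_lit 4547771813) (nat_lit 23) (nat_lit 5) (nat_lit 25) (nat_lit 5) (nat_lit 24) (nat_lit 4) (nat_lit 319) (nat_lit 300) (nat_lit 281)) (XT.lf (nat_lit 0) (nat_lit 6232349940) (nat_lit 76) (nat_lit 5005963406) (nat_lit 152) (nat_lit 11688221260) (nat_lit 22) (nat_lit 5) (nat_lit 23) (nat_lit 5) (nat_lit 24) (nat_lit 4) (nat_lit 320) (nat_lit 300) (nat_lit 280)))) (XT.nd (nat_lit 156) (nat_lit 228) (nat_lit 0) (XT.nd (nat_lit 78) (nat_lit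 152) (nat_lit 0) (XT.lf (nat_lit 0) (nat_lit 6836004408) (nat_lit 76) (nat_lit 17220503438) (nat_lit 76) (nat_lit 1212301089) (nat_lit 21) (nat_lit 4) (nat_lit 22) (nat_lit 5) (nat_lit 22) (nat_lit 4) (nat_lit 321) (nat_lit 300) (nat_lit 279)) (XT.lf (nat_lit 0) (nat_lit 6527954339) (nat_lit 76) (nat_lit 4363064846) (nat_lit 152) (nat_lit 17002756839) (nat_lit 19) (nat_lit 5) (nat_lit 20) (nat_lit 5) (nat_lit 21) (nat_lit 4) (nat_lit 322) (nat_lit 300) (nat_lit 278))) (XT.nd (nat_lit 78) (nat_lit 152) (nat_lit 0) (XT.lf (nat_lit 0) (nat_lit 5086593239) (nat_lit 76) (nat_lit 20394594246) (nat_lit 76) (nat_lit 5369365889) (nat_lit 18) (nat_lit 4) (nat_lit 19) (nat_lit 5) (nat_lit 19) (nat_lit 4) (nat_lit 323) (nat_lit 300) (nat_lit 277)) (XT.lf (nat_lit 0) (nat_lit 2043744328) (nat_lit 76) (nat_lit 6201929961) (nat_lit 152) (nat_lit 25938808872) (nat_lit 16) (nat_lit 5) (nat_lit 17) (nat_lit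 5) (nat_lit 18) (nat_lit 4) (nat_lit 324) (nat_lit 300) (nat_lit 276))))) (XT.nd (nat_lit 312) (nat_lit 228) (nat_lit 0) (XT.nd (nat_lit 156) (nat_lit 152) (nat_lit 0) (XT.nd (nat_lit 78) (nat_lit 152) (nat_lit 0) (XT.lf (nat_lit 0) (nat_lit 24447838606) (nat_lit 152) (nat_lit 3096917491) (nat_lit 0) (nat_lit 10393590005) (nat_lit 16) (nat_lit 5) (nat_lit 18) (nat_lit 4) (nat_lit 16) (nat_lit 4) (nat_lit 325) (nat_lit 300) (nat_lit 275)) (XT.lf (nat_lit 0) (nat_lit 1593356058) (nat_lit 152) (nat_lit 10797499798) (nat_lit 76) (nat_lit 29798097769) (nat_lit 14) (nat_lit 5) (nat_lit 16) (nat_lit 5) (nat_lit 15) (nat_lit 4) (nat_lit 326) (nat_lit 300) (nat_lit 274))) (XT.nd (nat_lit 78) (nat_lit 76) (nat_lit 0) (XT.lf (nat_lit 0) (nat_lit 18868331409) (nat_lit 152) (nat_lit 22366900752) (nat_lit 0) (nat_lit 5755719284) (nat_lit 13) (nat_lit 5) (nat_lit 15) (nat_lit 4) (nat_lit 13) (nat_lit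 4) (nat_lit 327) (nat_lit 300) (nat_lit 273)) (XT.lf (nat_lit 0) (nat_lit 13616107268) (nat_lit 76) (nat_lit 25990122209) (nat_lit 76) (nat_lit 12837300185) (nat_lit 12) (nat_lit 4) (nat_lit 13) (nat_lit 5) (nat_lit 13) (nat_lit 4) (nat_lit 328) (nat_lit 300) (nat_lit 272)))) (XT.nd (nat_lit 156) (nat_lit 76) (nat_lit 0) (XT.nd (nat_lit 78) (nat_lit 76) (nat_lit 0) (XT.lf (nat_lit 0) (nat_lit 5058396919) (nat_lit 152) (nat_lit 2666321560) (nat_lit 76) (nat_lit 50935788000) (nat_lit 11) (nat_lit 5) (nat_lit 13) (nat_lit 5) (nat_lit 12) (nat_lit 4) (nat_lit 329) (nat_lit 300) (nat_lit 271)) (XT.lf (nat_lit 0) (nat_lit 26124249813) (nat_lit 152) (nat_lit 25674258966) (nat_lit 0) (nat_lit 13885183505) (nat_lit 10) (nat_lit 5) (nat_lit 12) (nat_lit 4) (nat_lit 10) (nat_lit 4) (nat_lit 330) (nat_lit 300) (nat_lit 270))) (XT.nd (nat_lit 78) (nat_lit 0) (nat_lit 0) (XT.lf (nat_lit 0) (nat_lit 15889258021)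 (nat_lit 76) (nat_lit 35043995832) (nat_lit 76) (nat_lit 22780449282) (nat_lit 9) (nat_lit 4) (nat_lit 10) (nat_lit 5) (nat_lit 10) (nat_lit 4) (nat_lit 331) (nat_lit 300) (nat_lit 269)) (XT.lf (nat_lit 0) (nat_lit 65073820853) (nat_lit 76) (nat_lit 15053086222) (nat_lit 76) (nat_lit 2768252505) (nat_lit 9) (nat_lit 4) (nat_lit 10) (nat_lit 5) (nat_lit 10) (nat_lit 4) (nat_lit 332) (nat_lit 300) (nat_lit 268))))))) (XT.nd (nat_lit 1170) (nat_lit 0) (nat_lit 0) (XT.nd (nat_lit 546) (nat_lit 228) (nat_lit 0) (XT.nd (nat_lit 234) (nat_lit 152) (nat_lit 0) (XT.nd (nat_lit 78) (nat_lit 76) (nat_lit 0) (XT.lf (nat_lit 0) (nat_lit 20075058666) (nat_lit 152) (nat_lit 64589391199) (nat_lit 0) (nat_lit 8683073206) (nat_lit 7) (nat_lit 5) (nat_lit 9) (nat_lit 4) (nat_lit 7) (nat_lit 4) (nat_lit 333) (nat_lit 300) (nat_lit 267)) (XT.nd (nat_lit 78) (nat_lit 76) (nat_lit 0) (XT.lf (nat_lit 0) (nat_lit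 47063996076) (nat_lit 152) (nat_lit 22570248247) (nat_lit 0) (nat_lit 35657106767) (nat_lit 7) (nat_lit 5) (nat_lit 9) (nat_lit 4) (nat_lit 7) (nat_lit 4) (nat_lit 334) (nat_lit 300) (nat_lit 266)) (XT.lf (nat_lit 0) (nat_lit 26978401562) (nat_lit 76) (nat_lit 51710593997) (nat_lit 76) (nat_lit 40290744819) (nat_lit 6) (nat_lit 4) (nat_lit 7) (nat_lit 5) (nat_lit 7) (nat_lit 4) (nat_lit 335) (nat_lit 300) (nat_lit 265)))) (XT.nd (nat_lit 156) (nat_lit 76) (nat_lit 0) (XT.nd (nat_lit 78) (nat_lit 76) (nat_lit 0) (XT.lf (nat_lit 0) (nat_lit 85213606725) (nat_lit 76) (nat_lit 30445401528) (nat_lit 76) (nat_lit 19014282900) (nat_lit 6) (nat_lit 4) (nat_lit 7) (nat_lit 5) (nat_lit 7) (nat_lit 4) (nat_lit 336) (nat_lit 300) (nat_lit 264)) (XT.lf (nat_lit 0) (nat_lit 5131008922) (nat_lit 152) (nat_lit 768419591) (nat_lit 76) (nat_lit 146814942614) (nat_lit 5) (nat_lit 5) (nat_lit 7) (nat_lit 5)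 (nat_lit 6) (nat_lit 4) (nat_lit 337) (nat_lit 300) (nat_lit 263))) (XT.nd (nat_lit 78) (nat_lit 0) (nat_lit 0) (XT.lf (nat_lit 0) (nat_lit 33729046888) (nat_lit 152) (nat_lit 116408800073) (nat_lit 0) (nat_lit 23127714041) (nat_lit 4) (nat_lit 5) (nat_lit 6) (nat_lit 4) (nat_lit 4) (nat_lit 4) (nat_lit 338) (nat_lit 300) (nat_lit 262)) (XT.lf (nat_lit 0) (nat_lit 66762336983) (nat_lit 152) (nat_lit 73971308025) (nat_lit 0) (nat_lit 56154143167) (nat_lit 4) (nat_lit 5) (nat_lit 6) (nat_lit 4) (nat_lit 4) (nat_lit 4) (nat_lit 339) (nat_lit 300) (nat_lit 261))))) (XT.nd (nat_lit 312) (nat_lit 152) (nat_lit 0) (XT.nd (nat_lit 156) (nat_lit 0) (nat_lit 0) (XT.nd (nat_lit 78) (nat_lit 76) (nat_lit 0) (XT.lf (nat_lit 0) (nat_lit 104715342361) (nat_lit 152) (nat_lit 25239649036) (nat_lit 0) (nat_lit 94101182485) (nat_lit 4) (nat_lit 5) (nat_lit 6) (nat_lit 4) (nat_lit 4) (nat_lit 4) (nat_lit 340)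 (nat_lit 300) (nat_lit 260)) (XT.lf (nat_lit 0) (nat_lit 32358316433) (nat_lit 76) (nat_lit 116750523678) (nat_lit 76) (nat_lit 106131175924) (nat_lit 3) (nat_lit 4) (nat_lit 4) (nat_lit 5) (nat_lit 4) (nat_lit 4) (nat_lit 341) (nat_lit 300) (nat_lit 259))) (XT.nd (nat_lit 78) (nat_lit 0) (nat_lit 0) (XT.lf (nat_lit 0) (nat_lit 100067536324) (nat_lit 76) (nat_lit 100800608125) (nat_lit 76) (nat_lit 90176749172) (nat_lit 3) (nat_lit 4) (nat_lit 4) (nat_lit 5) (nat_lit 4) (nat_lit 4) (nat_lit 342) (nat_lit 300) (nat_lit 258)) (XT.lf (nat_lit 0) (nat_lit 177883681052) (nat_lit 76) (nat_lit 82483277907) (nat_lit 76) (nat_lit 71855496173) (nat_lit 3) (nat_lit 4) (nat_lit 4) (nat_lit 5) (nat_lit 4) (nat_lit 4) (nat_lit 343) (nat_lit 300) (nat_lit 257)))) (XT.nd (nat_lit 156) (nat_lit 152) (nat_lit 0) (XT.nd (nat_lit 78) (nat_lit 0) (nat_lit 0) (XT.lf (nat_lit 0) (nat_lit 267329240405) (nat_lit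 76) (nat_lit 61440150476) (nat_lit 76) (nat_lit 50808957627) (nat_lit 3) (nat_lit 4) (nat_lit 4) (nat_lit 5) (nat_lit 4) (nat_lit 4) (nat_lit 344) (nat_lit 300) (nat_lit 256)) (XT.lf (nat_lit 0) (nat_lit 370154236196) (nat_lit 76) (nat_lit 37259512469) (nat_lit 76) (nat_lit 26625353434) (nat_lit 3) (nat_lit 4) (nat_lit 4) (nat_lit 5) (nat_lit 4) (nat_lit 4) (nat_lit 345) (nat_lit 300) (nat_lit 255))) (XT.nd (nat_lit 78) (nat_lit 76) (nat_lit 0) (XT.lf (nat_lit 0) (nat_lit 1110022084) (nat_lit 152) (nat_lit 8327892391) (nat_lit 76) (nat_lit 487230089767) (nat_lit 2) (nat_lit 5) (nat_lit 4) (nat_lit 5) (nat_lit 3) (nat_lit 4) (nat_lit 346) (nat_lit 300) (nat_lit 254)) (XT.lf (nat_lit 0) (nat_lit 33444275729) (nat_lit 152) (nat_lit 511437066927) (nat_lit 0) (nat_lit 23593367219) (nat_lit 1) (nat_lit 5) (nat_lit 3) (nat_lit 4) (nat_lit 1) (nat_lit 4) (nat_lit 347) (nat_lit 300) (nat_lit 253))))))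 (XT.nd (nat_lit 624) (nat_lit 0) (nat_lit 0) (XT.nd (nat_lit 312) (nat_lit 0) (nat_lit 0) (XT.nd (nat_lit 156) (nat_lit 0) (nat_lit 0) (XT.nd (nat_lit 78) (nat_lit 0) (nat_lit 0) (XT.lf (nat_lit 0) (nat_lit 71125048851) (nat_lit 152) (nat_lit 518615328161) (nat_lit 0) (nat_lit 61272334494) (nat_lit 1) (nat_lit 5) (nat_lit 3) (nat_lit 4) (nat_lit 1) (nat_lit 4) (nat_lit 348) (nat_lit 300) (nat_lit 252)) (XT.lf (nat_lit 0) (nat_lit 114446283005) (nat_lit 152) (nat_lit 526894065005) (nat_lit 0) (nat_lit 104591998345) (nat_lit 1) (nat_lit 5) (nat_lit 3) (nat_lit 4) (nat_lit 1) (nat_lit 4) (nat_lit 349) (nat_lit 300) (nat_lit 251))) (XT.nd (nat_lit 78) (nat_lit 0) (nat_lit 0) (XT.lf (nat_lit 0) (nat_lit 164255567555) (nat_lit 152) (nat_lit 536435252746) (nat_lit 0) (nat_lit 154399917414) (nat_lit 1) (nat_lit 5) (nat_lit 3) (nat_lit 4) (nat_lit 1) (nat_lit 4) (nat_lit 350) (nat_lit 300) (nat_lit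 250)) (XT.lf (nat_lit 0) (nat_lit 221527431979) (nat_lit 152) (nat_lit 547425566796) (nat_lit 0) (nat_lit 211670594465) (nat_lit 1) (nat_lit 5) (nat_lit 3) (nat_lit 4) (nat_lit 1) (nat_lit 4) (nat_lit 351) (nat_lit 300) (nat_lit 249)))) (XT.nd (nat_lit 156) (nat_lit 0) (nat_lit 0) (XT.nd (nat_lit 78) (nat_lit 0) (nat_lit 0) (XT.lf (nat_lit 0) (nat_lit 287382412758) (nat_lit 152) (nat_lit 560080035038) (nat_lit 0) (nat_lit 277524542744) (nat_lit 1) (nat_lit 5) (nat_lit 3) (nat_lit 4) (nat_lit 1) (nat_lit 4) (nat_lit 352) (nat_lit 300) (nat_lit 248)) (XT.lf (nat_lit 0) (nat_lit 363108976905) (nat_lit 152) (nat_lit 574646244896) (nat_lit 0) (nat_lit 353250209066) (nat_lit 1) (nat_lit 5) (nat_lit 3) (nat_lit 4) (nat_lit 1) (nat_lit 4) (nat_lit 353) (nat_lit 300) (nat_lit 247))) (XT.nd (nat_lit 78) (nat_lit 0) (nat_lit 0) (XT.lf (nat_lit 0) (nat_lit 450188731111) (nat_lit 152) (nat_lit 591409187430)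 (nat_lit 0) (nat_lit 440329182554) (nat_lit 1) (nat_lit 5) (nat_lit 3) (nat_lit 4) (nat_lit 1) (nat_lit 4) (nat_lit 354) (nat_lit 300) (nat_lit 246)) (XT.lf (nat_lit 0) (nat_lit 550325409697) (nat_lit 152) (nat_lit 610696833256) (nat_lit 0) (nat_lit 540465182255) (nat_lit 1) (nat_lit 5) (nat_lit 3) (nat_lit 4) (nat_lit 1) (nat_lit 4) (nat_lit 355) (nat_lit 300) (nat_lit 245))))) (XT.nd (nat_lit 312) (nat_lit 0) (nat_lit 0) (XT.nd (nat_lit 156) (nat_lit 0) (nat_lit 0) (XT.nd (nat_lit 78) (nat_lit 0) (nat_lit 0) (XT.lf (nat_lit 0) (nat_lit 665478208549) (nat_lit 152) (nat_lit 632886549358) (nat_lit 0) (nat_lit 655617390771) (nat_lit 1) (nat_lit 5) (nat_lit 3) (nat_lit 4) (nat_lit 1) (nat_lit 4) (nat_lit 356) (nat_lit 300) (nat_lit 244)) (XT.lf (nat_lit 0) (nat_lit 797900117208) (nat_lit 152) (nat_lit 658412482354) (nat_lit 0) (nat_lit 788038786096) (nat_lit 1) (nat_lit 5) (nat_lit 3) (nat_lit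 4) (nat_lit 1) (nat_lit 4) (nat_lit 357) (nat_lit 300) (nat_lit 243))) (XT.nd (nat_lit 78) (nat_lit 0) (nat_lit 0) (XT.lf (nat_lit 0) (nat_lit 950181999106) (nat_lit 152) (nat_lit 687774052674) (nat_lit 0) (nat_lit 940320221616) (nat_lit 1) (nat_lit 5) (nat_lit 3) (nat_lit 4) (nat_lit 1) (nat_lit 4) (nat_lit 358) (nat_lit 300) (nat_lit 242)) (XT.lf (nat_lit 0) (nat_lit 1125303282367) (nat_lit 152) (nat_lit 721545725823) (nat_lit 0) (nat_lit 1115441116722) (nat_lit 1) (nat_lit 5) (nat_lit 3) (nat_lit 4) (nat_lit 1) (nat_lit 4) (nat_lit 359) (nat_lit 300) (nat_lit 241)))) (XT.nd (nat_lit 156) (nat_lit 0) (nat_lit 0) (XT.nd (nat_lit 78) (nat_lit 0) (nat_lit 0) (XT.lf (nat_lit 0) (nat_lit 1326690252967) (nat_lit 152) (nat_lit 760388251928) (nat_lit 0) (nat_lit 1316827749796) (nat_lit 1) (nat_lit 5) (nat_lit 3) (nat_lit 4) (nat_lit 1) (nat_lit 4) (nat_lit 360) (nat_lit 300) (nat_lit 240)) (XT.lf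 (nat_lit 0) (nat_lit 1558283090766) (nat_lit 152) (nat_lit 805061593456) (nat_lit 0) (nat_lit 1548420294095) (nat_lit 1) (nat_lit 5) (nat_lit 3) (nat_lit 4) (nat_lit 1) (nat_lit 4) (nat_lit 361) (nat_lit 300) (nat_lit 239))) (XT.nd (nat_lit 78) (nat_lit 0) (nat_lit 0) (XT.lf (nat_lit 0) (nat_lit 1824612959982) (nat_lit 152) (nat_lit 856439794046) (nat_lit 0) (nat_lit 1814749908092) (nat_lit 1) (nat_lit 5) (nat_lit 3) (nat_lit 4) (nat_lit 1) (nat_lit 4) (nat_lit 362) (nat_lit 300) (nat_lit 238)) (XT.lf (nat_lit 0) (nat_lit 2130890662403) (nat_lit 152) (nat_lit 915528079363) (nat_lit 0) (nat_lit 2121027388585) (nat_lit 1) (nat_lit 5) (nat_lit 3) (nat_lit 4) (nat_lit 1) (nat_lit 4) (nat_lit 363) (nat_lit 300) (nat_lit 237))))))))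
noncomputable def xc24 : XT := (XT.nd (nat_lit 43446) (nat_lit 0) (nat_lit 0) (XT.nd (nat_lit 42276) (nat_lit 0) (nat_lit 1824) (XT.nd (nat_lit 546) (nat_lit 0) (nat_lit 0) (XT.nd (nat_lit 234) (nat_lit 0) (nat_lit 0) (XT.nd (nat_lit 78) (nat_lit 0) (nat_lit 0) (XT.lf (nat_lit 0) (nat_lit 2483108587860) (nat_lit 152) (nat_lit 983482524552) (nat_lit 0) (nat_lit 2473245121061) (nat_lit 1) (nat_lit 5) (nat_lit 3) (nat_lit 4) (nat_lit 1) (nat_lit 4) (nat_lit 364) (nat_lit 300) (nat_lit 236)) (XT.nd (nat_lit 78) (nat_lit 0) (nat_lit 0) (XT.lf (nat_lit 0) (nat_lit 2888157956634) (nat_lit 152) (nat_lit 1061632673107) (nat_lit 0) (nat_lit 2878294322024) (nat_lit 1) (nat_lit 5) (nat_lit 3) (nat_lit 4) (nat_lit 1) (nat_lit 4) (nat_lit 365) (nat_lit 300) (nat_lit 235)) (XT.lf (nat_lit 0) (nat_lit 3353963647678) (nat_lit 152) (nat_lit 1151507549674) (nat_lit 0) (nat_lit 3344099867147) (nat_lit 1) (nat_lit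 5) (nat_lit 3) (nat_lit 4) (nat_lit 1) (nat_lit 4) (nat_lit 366) (nat_lit 300) (nat_lit 234)))) (XT.nd (nat_lit 156) (nat_lit 0) (nat_lit 0) (XT.nd (nat_lit 78) (nat_lit 0) (nat_lit 0) (XT.lf (nat_lit 0) (nat_lit 3889639250601) (nat_lit 152) (nat_lit 1254865575751) (nat_lit 0) (nat_lit 3879775343181) (nat_lit 1) (nat_lit 5) (nat_lit 3) (nat_lit 4) (nat_lit 1) (nat_lit 4) (nat_lit 367) (nat_lit 300) (nat_lit 233)) (XT.lf (nat_lit 0) (nat_lit 4505665375024) (nat_lit 152) (nat_lit 1373728973587) (nat_lit 0) (nat_lit 4495801357266) (nat_lit 1) (nat_lit 5) (nat_lit 3) (nat_lit 4) (nat_lit 1) (nat_lit 4) (nat_lit 368) (nat_lit 300) (nat_lit 232))) (XT.nd (nat_lit 78) (nat_lit 0) (nat_lit 0) (XT.lf (nat_lit 0) (nat_lit 5214094705991) (nat_lit 152) (nat_lit 1510423331400) (nat_lit 0) (nat_lit 5204230592287) (nat_lit 1) (nat_lit 5) (nat_lit 3) (nat_lit 4) (nat_lit 1) (nat_lit 4) (nat_lit 369) (nat_lit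 300) (nat_lit 231)) (XT.lf (nat_lit 0) (nat_lit 6028787817368) (nat_lit 152) (nat_lit 1667623104018) (nat_lit 0) (nat_lit 6018923620233) (nat_lit 1) (nat_lit 5) (nat_lit 3) (nat_lit 4) (nat_lit 1) (nat_lit 4) (nat_lit 370) (nat_lit 300) (nat_lit 230))))) (XT.nd (nat_lit 41418) (nat_lit 0) (nat_lit 5852) (XT.nd (nat_lit 156) (nat_lit 0) (nat_lit 0) (XT.nd (nat_lit 78) (nat_lit 0) (nat_lit 0) (XT.lf (nat_lit 0) (nat_lit 6965684356986) (nat_lit 152) (nat_lit 1848403939165) (nat_lit 0) (nat_lit 6955820087302) (nat_lit 1) (nat_lit 5) (nat_lit 3) (nat_lit 4) (nat_lit 1) (nat_lit 4) (nat_lit 371) (nat_lit 300) (nat_lit 229)) (XT.lf (nat_lit 0) (nat_lit 8043114909317) (nat_lit 152) (nat_lit 2056302853182) (nat_lit 0) (nat_lit 8033250576547) (nat_lit 1) (nat_lit 5) (nat_lit 3) (nat_lit 4) (nat_lit 1) (nat_lit 4) (nat_lit 372) (nat_lit 300) (nat_lit 228))) (XT.nd (nat_lit 78) (nat_lit 0) (nat_lit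 0) (XT.lf (nat_lit 0) (nat_lit 9282159637341) (nat_lit 152) (nat_lit 2295387433516) (nat_lit 0) (nat_lit 9272295249714) (nat_lit 1) (nat_lit 5) (nat_lit 3) (nat_lit 4) (nat_lit 1) (nat_lit 4) (nat_lit 373) (nat_lit 300) (nat_lit 227)) (XT.lf (nat_lit 0) (nat_lit 10707060720518) (nat_lit 152) (nat_lit 2570335421957) (nat_lit 0) (nat_lit 10697196285189) (nat_lit 1) (nat_lit 5) (nat_lit 3) (nat_lit 4) (nat_lit 1) (nat_lit 4) (nat_lit 374) (nat_lit 300) (nat_lit 226)))) (XT.nd (nat_lit 156) (nat_lit 228) (nat_lit 0) (XT.nd (nat_lit 78) (nat_lit 228) (nat_lit 0) (XT.lf (nat_lit 0) (nat_lit 1933419445) (nat_lit 228) (nat_lit 666846273) (nat_lit 228) (nat_lit 666846273) (nat_lit 84) (nat_lit 3) (nat_lit 87) (nat_lit 3) (nat_lit 87) (nat_lit 5) (nat_lit 301) (nat_lit 301) (nat_lit 298)) (XT.lf (nat_lit 0) (nat_lit 1813405592) (nat_lit 228) (nat_lit 1906055314) (nat_lit 304) (nat_lit 2941348617)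 (nat_lit 81) (nat_lit 5) (nat_lit 84) (nat_lit 3) (nat_lit 85) (nat_lit 5) (nat_lit 302) (nat_lit 301) (nat_lit 297))) (XT.nd (nat_lit 78) (nat_lit 228) (nat_lit 0) (XT.lf (nat_lit 76) (nat_lit 4716106342) (nat_lit 0) (nat_lit 1452469372) (nat_lit 304) (nat_lit 684517955) (nat_lit 82) (nat_lit 5) (nat_lit 81) (nat_lit 5) (nat_lit 85) (nat_lit 5) (nat_lit 303) (nat_lit 301) (nat_lit 296)) (XT.lf (nat_lit 0) (nat_lit 3393648813) (nat_lit 304) (nat_lit 2099169167) (nat_lit 76) (nat_lit 1614682743) (nat_lit 78) (nat_lit 5) (nat_lit 82) (nat_lit 5) (nat_lit 79) (nat_lit 5) (nat_lit 304) (nat_lit 301) (nat_lit 295)))))) (XT.nd (nat_lit 546) (nat_lit 1444) (nat_lit 0) (XT.nd (nat_lit 234) (nat_lit 1292) (nat_lit 0) (XT.nd (nat_lit 78) (nat_lit 912) (nat_lit 0) (XT.lf (nat_lit 0) (nat_lit 208678014) (nat_lit 380) (nat_lit 1746151562) (nat_lit 76) (nat_lit 5475546486) (nat_lit 73) (nat_lit 5) (nat_lit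 78) (nat_lit 5) (nat_lit 74) (nat_lit 5) (nat_lit 305) (nat_lit 301) (nat_lit 294)) (XT.nd (nat_lit 78) (nat_lit 532) (nat_lit 0) (XT.lf (nat_lit 0) (nat_lit 4213845175) (nat_lit 456) (nat_lit 1169952454) (nat_lit 76) (nat_lit 2433638063) (nat_lit 68) (nat_lit 5) (nat_lit 74) (nat_lit 5) (nat_lit 69) (nat_lit 5) (nat_lit 306) (nat_lit 301) (nat_lit 293)) (XT.lf (nat_lit 0) (nat_lit 310706055) (nat_lit 532) (nat_lit 280761071) (nat_lit 76) (nat_lit 7687992550) (nat_lit 61) (nat_lit 5) (nat_lit 68) (nat_lit 5) (nat_lit 62) (nat_lit 5) (nat_lit 307) (nat_lit 301) (nat_lit 292)))) (XT.nd (nat_lit 156) (nat_lit 456) (nat_lit 0) (XT.nd (nat_lit 78) (nat_lit 228) (nat_lit 0) (XT.lf (nat_lit 0) (nat_lit 815662573) (nat_lit 228) (nat_lit 3737733612) (nat_lit 304) (nat_lit 4253955403) (nat_lit 53) (nat_lit 5) (nat_lit 56) (nat_lit 5) (nat_lit 57) (nat_lit 5) (nat_lit 308) (nat_lit 301) (nat_lit 291))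 (XT.lf (nat_lit 0) (nat_lit 2259262212) (nat_lit 228) (nat_lit 7129110186) (nat_lit 304) (nat_lit 29951289) (nat_lit 50) (nat_lit 5) (nat_lit 53) (nat_lit 5) (nat_lit 54) (nat_lit 5) (nat_lit 309) (nat_lit 301) (nat_lit 290))) (XT.nd (nat_lit 78) (nat_lit 228) (nat_lit 0) (XT.lf (nat_lit 0) (nat_lit 3901324185) (nat_lit 152) (nat_lit 724673381) (nat_lit 228) (nat_lit 5482763683) (nat_lit 47) (nat_lit 5) (nat_lit 49) (nat_lit 5) (nat_lit 50) (nat_lit 5) (nat_lit 310) (nat_lit 301) (nat_lit 289)) (XT.lf (nat_lit 0) (nat_lit 5811024480) (nat_lit 228) (nat_lit 4323109127) (nat_lit 304) (nat_lit 756380091) (nat_lit 44) (nat_lit 5) (nat_lit 47) (nat_lit 5) (nat_lit 48) (nat_lit 5) (nat_lit 311) (nat_lit 301) (nat_lit 288))))) (XT.nd (nat_lit 312) (nat_lit 608) (nat_lit 0) (XT.nd (nat_lit 156) (nat_lit 456) (nat_lit 0) (XT.nd (nat_lit 78) (nat_lit 152) (nat_lit 0) (XT.lf (nat_lit 0) (nat_lit 4598207419)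 (nat_lit 228) (nat_lit 3820808903) (nat_lit 76) (nat_lit 3349452693) (nat_lit 41) (nat_lit 5) (nat_lit 44) (nat_lit 5) (nat_lit 42) (nat_lit 5) (nat_lit 312) (nat_lit 301) (nat_lit 287)) (XT.lf (nat_lit 0) (nat_lit 10405466278) (nat_lit 152) (nat_lit 528288813) (nat_lit 228) (nat_lit 1825166085) (nat_lit 39) (nat_lit 5) (nat_lit 41) (nat_lit 5) (nat_lit 42) (nat_lit 5) (nat_lit 313) (nat_lit 301) (nat_lit 286))) (XT.nd (nat_lit 78) (nat_lit 228) (nat_lit 0) (XT.lf (nat_lit 0) (nat_lit 4476296063) (nat_lit 228) (nat_lit 848094410) (nat_lit 76) (nat_lit 8535717315) (nat_lit 36) (nat_lit 5) (nat_lit 39) (nat_lit 5) (nat_lit 37) (nat_lit 5) (nat_lit 314) (nat_lit 301) (nat_lit 285)) (XT.lf (nat_lit 0) (nat_lit 876814647) (nat_lit 76) (nat_lit 11079922635) (nat_lit 152) (nat_lit 3138722115) (nat_lit 33) (nat_lit 5) (nat_lit 34) (nat_lit 5) (nat_lit 35) (nat_lit 4) (nat_lit 315) (nat_lit 301)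 (nat_lit 284)))) (XT.nd (nat_lit 156) (nat_lit 304) (nat_lit 0) (XT.nd (nat_lit 78) (nat_lit 76) (nat_lit 0) (XT.lf (nat_lit 0) (nat_lit 2731700165) (nat_lit 152) (nat_lit 1539715734) (nat_lit 228) (nat_lit 12202577171) (nat_lit 30) (nat_lit 5) (nat_lit 32) (nat_lit 5) (nat_lit 33) (nat_lit 5) (nat_lit 316) (nat_lit 301) (nat_lit 283)) (XT.lf (nat_lit 0) (nat_lit 4569646124) (nat_lit 76) (nat_lit 8574858808) (nat_lit 152) (nat_lit 4865385811) (nat_lit 29) (nat_lit 5) (nat_lit 30) (nat_lit 5) (nat_lit 31) (nat_lit 4) (nat_lit 317) (nat_lit 301) (nat_lit 282))) (XT.nd (nat_lit 78) (nat_lit 76) (nat_lit 0) (XT.lf (nat_lit 0) (nat_lit 3856124695) (nat_lit 228) (nat_lit 13271291174) (nat_lit 76) (nat_lit 2604959281) (nat_lit 26) (nat_lit 5) (nat_lit 29) (nat_lit 5) (nat_lit 27) (nat_lit 4) (nat_lit 318) (nat_lit 301) (nat_lit 281)) (XT.lf (nat_lit 0) (nat_lit 8152996614) (nat_lit 76) (nat_lit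 6090156711) (nat_lit 152) (nat_lit 7408400607) (nat_lit 25) (nat_lit 5) (nat_lit 26) (nat_lit 5) (nat_lit 27) (nat_lit 4) (nat_lit 319) (nat_lit 301) (nat_lit 280))))))) (XT.nd (nat_lit 1170) (nat_lit 456) (nat_lit 0) (XT.nd (nat_lit 546) (nat_lit 684) (nat_lit 0) (XT.nd (nat_lit 234) (nat_lit 304) (nat_lit 0) (XT.nd (nat_lit 78) (nat_lit 228) (nat_lit 0) (XT.lf (nat_lit 0) (nat_lit 2835593716) (nat_lit 152) (nat_lit 14129669103) (nat_lit 76) (nat_lit 6839113868) (nat_lit 23) (nat_lit 5) (nat_lit 25) (nat_lit 5) (nat_lit 24) (nat_lit 4) (nat_lit 320) (nat_lit 301) (nat_lit 279)) (XT.nd (nat_lit 78) (nat_lit 152) (nat_lit 0) (XT.lf (nat_lit 0) (nat_lit 10731531892) (nat_lit 76) (nat_lit 4117397050) (nat_lit 152) (nat_lit 11362130922) (nat_lit 22) (nat_lit 5) (nat_lit 23) (nat_lit 5) (nat_lit 24) (nat_lit 4) (nat_lit 321) (nat_lit 301) (nat_lit 278)) (XT.lf (nat_lit 0) (nat_lit 511532170)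 (nat_lit 152) (nat_lit 17699227763) (nat_lit 76) (nat_lit 10703802921) (nat_lit 20) (nat_lit 5) (nat_lit 22) (nat_lit 5) (nat_lit 21) (nat_lit 4) (nat_lit 322) (nat_lit 301) (nat_lit 277)))) (XT.nd (nat_lit 156) (nat_lit 152) (nat_lit 0) (XT.nd (nat_lit 78) (nat_lit 76) (nat_lit 0) (XT.lf (nat_lit 0) (nat_lit 10678823383) (nat_lit 76) (nat_lit 3518595023) (nat_lit 152) (nat_lit 17746278439) (nat_lit 19) (nat_lit 5) (nat_lit 20) (nat_lit 5) (nat_lit 21) (nat_lit 4) (nat_lit 323) (nat_lit 301) (nat_lit 276)) (XT.lf (nat_lit 0) (nat_lit 8842584478) (nat_lit 76) (nat_lit 22018672154) (nat_lit 76) (nat_lit 4491965097) (nat_lit 18) (nat_lit 4) (nat_lit 19) (nat_lit 5) (nat_lit 19) (nat_lit 4) (nat_lit 324) (nat_lit 301) (nat_lit 275))) (XT.nd (nat_lit 78) (nat_lit 0) (nat_lit 0) (XT.lf (nat_lit 0) (nat_lit 5167260940) (nat_lit 76) (nat_lit 5773120953) (nat_lit 152) (nat_lit 28254917071) (nat_lit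 16) (nat_lit 5) (nat_lit 17) (nat_lit 5) (nat_lit 18) (nat_lit 4) (nat_lit 325) (nat_lit 301) (nat_lit 274)) (XT.lf (nat_lit 0) (nat_lit 29411138581) (nat_lit 152) (nat_lit 1038737477) (nat_lit 0) (nat_lit 13075333628) (nat_lit 16) (nat_lit 5) (nat_lit 18) (nat_lit 4) (nat_lit 16) (nat_lit 4) (nat_lit 326) (nat_lit 301) (nat_lit 273))))) (XT.nd (nat_lit 312) (nat_lit 304) (nat_lit 0) (XT.nd (nat_lit 156) (nat_lit 152) (nat_lit 0) (XT.nd (nat_lit 78) (nat_lit 76) (nat_lit 0) (XT.lf (nat_lit 0) (nat_lit 3045840642) (nat_lit 152) (nat_lit 10043883107) (nat_lit 76) (nat_lit 35330334687) (nat_lit 14) (nat_lit 5) (nat_lit 16) (nat_lit 5) (nat_lit 15) (nat_lit 4) (nat_lit 327) (nat_lit 301) (nat_lit 272)) (XT.lf (nat_lit 0) (nat_lit 22831638584) (nat_lit 152) (nat_lit 23486453849) (nat_lit 0) (nat_lit 7630718229) (nat_lit 13) (nat_lit 5) (nat_lit 15) (nat_lit 4) (nat_lit 13) (nat_lit 4) (nat_lit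 328) (nat_lit 301) (nat_lit 271))) (XT.nd (nat_lit 78) (nat_lit 76) (nat_lit 0) (XT.lf (nat_lit 0) (nat_lit 17704782956) (nat_lit 76) (nat_lit 28876860894) (nat_lit 76) (nat_lit 13645536079) (nat_lit 12) (nat_lit 4) (nat_lit 13) (nat_lit 5) (nat_lit 13) (nat_lit 4) (nat_lit 329) (nat_lit 301) (nat_lit 270)) (XT.lf (nat_lit 0) (nat_lit 6740168896) (nat_lit 152) (nat_lit 1238212172) (nat_lit 76) (nat_lit 59407263137) (nat_lit 11) (nat_lit 5) (nat_lit 13) (nat_lit 5) (nat_lit 12) (nat_lit 4) (nat_lit 330) (nat_lit 301) (nat_lit 269)))) (XT.nd (nat_lit 156) (nat_lit 152) (nat_lit 0) (XT.nd (nat_lit 78) (nat_lit 76) (nat_lit 0) (XT.lf (nat_lit 0) (nat_lit 30905722776) (nat_lit 152) (nat_lit 27804535112) (nat_lit 0) (nat_lit 16756876834) (nat_lit 10) (nat_lit 5) (nat_lit 12) (nat_lit 4) (nat_lit 10) (nat_lit 4) (nat_lit 331) (nat_lit 301) (nat_lit 268)) (XT.lf (nat_lit 0) (nat_lit 19847846967)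 (nat_lit 76) (nat_lit 39513570299) (nat_lit 76) (nat_lit 25346213777) (nat_lit 9) (nat_lit 4) (nat_lit 10) (nat_lit 5) (nat_lit 10) (nat_lit 4) (nat_lit 332) (nat_lit 301) (nat_lit 267))) (XT.nd (nat_lit 78) (nat_lit 152) (nat_lit 0) (XT.lf (nat_lit 0) (nat_lit 76204633323) (nat_lit 76) (nat_lit 16626679670) (nat_lit 76) (nat_lit 2443226992) (nat_lit 9) (nat_lit 4) (nat_lit 10) (nat_lit 5) (nat_lit 10) (nat_lit 4) (nat_lit 333) (nat_lit 301) (nat_lit 266)) (XT.lf (nat_lit 0) (nat_lit 23744313092) (nat_lit 152) (nat_lit 72954120636) (nat_lit 0) (nat_lit 10598526670) (nat_lit 7) (nat_lit 5) (nat_lit 9) (nat_lit 4) (nat_lit 7) (nat_lit 4) (nat_lit 334) (nat_lit 301) (nat_lit 265)))))) (XT.nd (nat_lit 624) (nat_lit 152) (nat_lit 0) (XT.nd (nat_lit 312) (nat_lit 152) (nat_lit 0) (XT.nd (nat_lit 156) (nat_lit 76) (nat_lit 0) (XT.nd (nat_lit 78) (nat_lit 76) (nat_lit 0) (XT.lf (nat_lit 0) (nat_lit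 54695765597) (nat_lit 152) (nat_lit 24804760055) (nat_lit 0) (nat_lit 41538709724) (nat_lit 7) (nat_lit 5) (nat_lit 9) (nat_lit 4) (nat_lit 7) (nat_lit 4) (nat_lit 335) (nat_lit 301) (nat_lit 264)) (XT.lf (nat_lit 0) (nat_lit 32078758656) (nat_lit 76) (nat_lit 58936464492) (nat_lit 76) (nat_lit 45769609097) (nat_lit 6) (nat_lit 4) (nat_lit 7) (nat_lit 5) (nat_lit 7) (nat_lit 4) (nat_lit 336) (nat_lit 301) (nat_lit 263))) (XT.nd (nat_lit 78) (nat_lit 76) (nat_lit 0) (XT.lf (nat_lit 0) (nat_lit 98911818916) (nat_lit 76) (nat_lit 34550717319) (nat_lit 76) (nat_lit 21375340600) (nat_lit 6) (nat_lit 4) (nat_lit 7) (nat_lit 5) (nat_lit 7) (nat_lit 4) (nat_lit 337) (nat_lit 301) (nat_lit 262)) (XT.lf (nat_lit 0) (nat_lit 6306328685) (nat_lit 152) (nat_lit 65622900) (nat_lit 76) (nat_lit 169217094482) (nat_lit 5) (nat_lit 5) (nat_lit 7) (nat_lit 5) (nat_lit 6) (nat_lit 4) (nat_lit 338) (nat_lit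 301) (nat_lit 261)))) (XT.nd (nat_lit 156) (nat_lit 76) (nat_lit 0) (XT.nd (nat_lit 78) (nat_lit 0) (nat_lit 0) (XT.lf (nat_lit 0) (nat_lit 39168260221) (nat_lit 152) (nat_lit 133100712424) (nat_lit 0) (nat_lit 26956010303) (nat_lit 4) (nat_lit 5) (nat_lit 6) (nat_lit 4) (nat_lit 4) (nat_lit 4) (nat_lit 339) (nat_lit 301) (nat_lit 260)) (XT.lf (nat_lit 0) (nat_lit 77106997356) (nat_lit 152) (nat_lit 84397954089) (nat_lit 0) (nat_lit 64889559560) (nat_lit 4) (nat_lit 5) (nat_lit 6) (nat_lit 4) (nat_lit 4) (nat_lit 4) (nat_lit 340) (nat_lit 301) (nat_lit 259))) (XT.nd (nat_lit 78) (nat_lit 76) (nat_lit 0) (XT.lf (nat_lit 0) (nat_lit 120709869651) (nat_lit 152) (nat_lit 28443813662) (nat_lit 0) (nat_lit 108487920656) (nat_lit 4) (nat_lit 5) (nat_lit 6) (nat_lit 4) (nat_lit 4) (nat_lit 4) (nat_lit 341) (nat_lit 301) (nat_lit 258)) (XT.lf (nat_lit 0) (nat_lit 37744601618) (nat_lit 76) (nat_lit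 133993133738) (nat_lit 76) (nat_lit 121767261962) (nat_lit 3) (nat_lit 4) (nat_lit 4) (nat_lit 5) (nat_lit 4) (nat_lit 4) (nat_lit 342) (nat_lit 301) (nat_lit 257))))) (XT.nd (nat_lit 312) (nat_lit 152) (nat_lit 0) (XT.nd (nat_lit 156) (nat_lit 0) (nat_lit 0) (XT.nd (nat_lit 78) (nat_lit 0) (nat_lit 0) (XT.lf (nat_lit 0) (nat_lit 115540743051) (nat_lit 76) (nat_lit 115685944134) (nat_lit 76) (nat_lit 103456661244) (nat_lit 3) (nat_lit 4) (nat_lit 4) (nat_lit 5) (nat_lit 4) (nat_lit 4) (nat_lit 343) (nat_lit 301) (nat_lit 256)) (XT.lf (nat_lit 0) (nat_lit 204968908234) (nat_lit 76) (nat_lit 94651634628) (nat_lit 76) (nat_lit 82419385551) (nat_lit 3) (nat_lit 4) (nat_lit 4) (nat_lit 5) (nat_lit 4) (nat_lit 4) (nat_lit 344) (nat_lit 301) (nat_lit 255))) (XT.nd (nat_lit 78) (nat_lit 0) (nat_lit 0) (XT.lf (nat_lit 0) (nat_lit 307778778661) (nat_lit 76) (nat_lit 70478664382) (nat_lit 76) (nat_lit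 58243836013) (nat_lit 3) (nat_lit 4) (nat_lit 4) (nat_lit 5) (nat_lit 4) (nat_lit 4) (nat_lit 345) (nat_lit 301) (nat_lit 254)) (XT.lf (nat_lit 0) (nat_lit 425981851795) (nat_lit 76) (nat_lit 42694083978) (nat_lit 76) (nat_lit 30457012746) (nat_lit 3) (nat_lit 4) (nat_lit 4) (nat_lit 5) (nat_lit 4) (nat_lit 4) (nat_lit 346) (nat_lit 301) (nat_lit 253)))) (XT.nd (nat_lit 156) (nat_lit 0) (nat_lit 0) (XT.nd (nat_lit 78) (nat_lit 76) (nat_lit 0) (XT.lf (nat_lit 0) (nat_lit 1410466804) (nat_lit 152) (nat_lit 9305250594) (nat_lit 76) (nat_lit 560441764994) (nat_lit 2) (nat_lit 5) (nat_lit 4) (nat_lit 5) (nat_lit 3) (nat_lit 4) (nat_lit 347) (nat_lit 301) (nat_lit 252)) (XT.lf (nat_lit 0) (nat_lit 38586410944) (nat_lit 152) (nat_lit 587897046385) (nat_lit 0) (nat_lit 27252413282) (nat_lit 1) (nat_lit 5) (nat_lit 3) (nat_lit 4) (nat_lit 1) (nat_lit 4) (nat_lit 348) (nat_lit 301) (nat_lit 251)))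 (XT.nd (nat_lit 78) (nat_lit 0) (nat_lit 0) (XT.lf (nat_lit 0) (nat_lit 81902931271) (nat_lit 152) (nat_lit 596185383401) (nat_lit 0) (nat_lit 70567568129) (nat_lit 1) (nat_lit 5) (nat_lit 3) (nat_lit 4) (nat_lit 1) (nat_lit 4) (nat_lit 349) (nat_lit 301) (nat_lit 250)) (XT.lf (nat_lit 0) (nat_lit 131708116840) (nat_lit 152) (nat_lit 605734919118) (nat_lit 0) (nat_lit 120371566324) (nat_lit 1) (nat_lit 5) (nat_lit 3) (nat_lit 4) (nat_lit 1) (nat_lit 4) (nat_lit 350) (nat_lit 301) (nat_lit 249))))))))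
noncomputable def xc25 : XT := (XT.nd (nat_lit 43602) (nat_lit 0) (nat_lit 228) (XT.nd (nat_lit 1170) (nat_lit 0) (nat_lit 0) (XT.nd (nat_lit 546) (nat_lit 0) (nat_lit 0) (XT.nd (nat_lit 234) (nat_lit 0) (nat_lit 0) (XT.nd (nat_lit 78) (nat_lit 0) (nat_lit 0) (XT.lf (nat_lit 0) (nat_lit 188976416935) (nat_lit 152) (nat_lit 616732492277) (nat_lit 0) (nat_lit 177638833919) (nat_lit 1) (nat_lit 5) (nat_lit 3) (nat_lit 4) (nat_lit 1) (nat_lit 4) (nat_lit 351) (nat_lit 301) (nat_lit 248)) (XT.nd (nat_lit 78) (nat_lit 0) (nat_lit 0) (XT.lf (nat_lit 0) (nat_lit 254828298295) (nat_lit 152) (nat_lit 629393272788) (nat_lit 0) (nat_lit 243489817455) (nat_lit 1) (nat_lit 5) (nat_lit 3) (nat_lit 4) (nat_lit 1) (nat_lit 4) (nat_lit 352) (nat_lit 301) (nat_lit 247)) (XT.lf (nat_lit 0) (nat_lit 330552167297) (nat_lit 152) (nat_lit 643964971575) (nat_lit 0) (nat_lit 319212905738) (nat_lit 1) (nat_lit 5)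 (nat_lit 3) (nat_lit 4) (nat_lit 1) (nat_lit 4) (nat_lit 353) (nat_lit 301) (nat_lit 246)))) (XT.nd (nat_lit 156) (nat_lit 0) (nat_lit 0) (XT.nd (nat_lit 78) (nat_lit 0) (nat_lit 0) (XT.lf (nat_lit 0) (nat_lit 417629577898) (nat_lit 152) (nat_lit 660732687092) (nat_lit 0) (nat_lit 406289637454) (nat_lit 1) (nat_lit 5) (nat_lit 3) (nat_lit 4) (nat_lit 1) (nat_lit 4) (nat_lit 354) (nat_lit 301) (nat_lit 245)) (XT.lf (nat_lit 0) (nat_lit 517764218566) (nat_lit 152) (nat_lit 680024483337) (nat_lit 0) (nat_lit 506423687788) (nat_lit 1) (nat_lit 5) (nat_lit 3) (nat_lit 4) (nat_lit 1) (nat_lit 4) (nat_lit 355) (nat_lit 301) (nat_lit 244))) (XT.nd (nat_lit 78) (nat_lit 0) (nat_lit 0) (XT.lf (nat_lit 0) (nat_lit 632915245316) (nat_lit 152) (nat_lit 702217808499) (nat_lit 0) (nat_lit 621574201202) (nat_lit 1) (nat_lit 5) (nat_lit 3) (nat_lit 4) (nat_lit 1) (nat_lit 4) (nat_lit 356) (nat_lit 301)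 (nat_lit 243)) (XT.lf (nat_lit 0) (nat_lit 765335613017) (nat_lit 152) (nat_lit 727746879809) (nat_lit 0) (nat_lit 753994122526) (nat_lit 1) (nat_lit 5) (nat_lit 3) (nat_lit 4) (nat_lit 1) (nat_lit 4) (nat_lit 357) (nat_lit 301) (nat_lit 242))))) (XT.nd (nat_lit 312) (nat_lit 0) (nat_lit 0) (XT.nd (nat_lit 156) (nat_lit 0) (nat_lit 0) (XT.nd (nat_lit 78) (nat_lit 0) (nat_lit 0) (XT.lf (nat_lit 0) (nat_lit 917616154951) (nat_lit 152) (nat_lit 757111179097) (nat_lit 0) (nat_lit 906274276305) (nat_lit 1) (nat_lit 5) (nat_lit 3) (nat_lit 4) (nat_lit 1) (nat_lit 4) (nat_lit 358) (nat_lit 301) (nat_lit 241)) (XT.lf (nat_lit 0) (nat_lit 1092736273026) (nat_lit 152) (nat_lit 790885225261) (nat_lit 0) (nat_lit 1081394056854) (nat_lit 1) (nat_lit 5) (nat_lit 3) (nat_lit 4) (nat_lit 1) (nat_lit 4) (nat_lit 359) (nat_lit 301) (nat_lit 240))) (XT.nd (nat_lit 78) (nat_lit 0) (nat_lit 0) (XT.lf (nat_lit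 0) (nat_lit 1294122230421) (nat_lit 152) (nat_lit 829729814858) (nat_lit 0) (nat_lit 1282779720748) (nat_lit 1) (nat_lit 5) (nat_lit 3) (nat_lit 4) (nat_lit 1) (nat_lit 4) (nat_lit 360) (nat_lit 301) (nat_lit 239)) (XT.lf (nat_lit 0) (nat_lit 1525714187172) (nat_lit 152) (nat_lit 874404950727) (nat_lit 0) (nat_lit 1514371422281) (nat_lit 1) (nat_lit 5) (nat_lit 3) (nat_lit 4) (nat_lit 1) (nat_lit 4) (nat_lit 361) (nat_lit 301) (nat_lit 238)))) (XT.nd (nat_lit 156) (nat_lit 0) (nat_lit 0) (XT.nd (nat_lit 78) (nat_lit 0) (nat_lit 0) (XT.lf (nat_lit 0) (nat_lit 1792043290259) (nat_lit 152) (nat_lit 925784711614) (nat_lit 0) (nat_lit 1780700303439) (nat_lit 1) (nat_lit 5) (nat_lit 3) (nat_lit 4) (nat_lit 1) (nat_lit 4) (nat_lit 362) (nat_lit 301) (nat_lit 237)) (XT.lf (nat_lit 0) (nat_lit 2098320326482) (nat_lit 152) (nat_lit 984874353709) (nat_lit 0) (nat_lit 2086977146681) (nat_lit 1) (nat_lit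 5) (nat_lit 3) (nat_lit 4) (nat_lit 1) (nat_lit 4) (nat_lit 363) (nat_lit 301) (nat_lit 236))) (XT.nd (nat_lit 78) (nat_lit 0) (nat_lit 0) (XT.lf (nat_lit 0) (nat_lit 2450537672635) (nat_lit 152) (nat_lit 1052829978707) (nat_lit 0) (nat_lit 2439194325024) (nat_lit 1) (nat_lit 5) (nat_lit 3) (nat_lit 4) (nat_lit 1) (nat_lit 4) (nat_lit 364) (nat_lit 301) (nat_lit 235)) (XT.lf (nat_lit 0) (nat_lit 2855586537667) (nat_lit 152) (nat_lit 1130981153182) (nat_lit 0) (nat_lit 2844243044134) (nat_lit 1) (nat_lit 5) (nat_lit 3) (nat_lit 4) (nat_lit 1) (nat_lit 4) (nat_lit 365) (nat_lit 301) (nat_lit 234)))))) (XT.nd (nat_lit 624) (nat_lit 0) (nat_lit 0) (XT.nd (nat_lit 312) (nat_lit 0) (nat_lit 0) (XT.nd (nat_lit 156) (nat_lit 0) (nat_lit 0) (XT.nd (nat_lit 78) (nat_lit 0) (nat_lit 0) (XT.lf (nat_lit 0) (nat_lit 3321391790675) (nat_lit 152) (nat_lit 1220856921854) (nat_lit 0) (nat_lit 3310048170254)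 (nat_lit 1) (nat_lit 5) (nat_lit 3) (nat_lit 4) (nat_lit 1) (nat_lit 4) (nat_lit 366) (nat_lit 301) (nat_lit 233)) (XT.lf (nat_lit 0) (nat_lit 3857067012696) (nat_lit 152) (nat_lit 1324215723674) (nat_lit 0) (nat_lit 3845723281937) (nat_lit 1) (nat_lit 5) (nat_lit 3) (nat_lit 4) (nat_lit 1) (nat_lit 4) (nat_lit 367) (nat_lit 301) (nat_lit 232))) (XT.nd (nat_lit 78) (nat_lit 0) (nat_lit 0) (XT.lf (nat_lit 0) (nat_lit 4473092805901) (nat_lit 152) (nat_lit 1443079796069) (nat_lit 0) (nat_lit 4461748979196) (nat_lit 1) (nat_lit 5) (nat_lit 3) (nat_lit 4) (nat_lit 1) (nat_lit 4) (nat_lit 368) (nat_lit 301) (nat_lit 231)) (XT.lf (nat_lit 0) (nat_lit 5181521848851) (nat_lit 152) (nat_lit 1579774740455) (nat_lit 0) (nat_lit 5170177938715) (nat_lit 1) (nat_lit 5) (nat_lit 3) (nat_lit 4) (nat_lit 1) (nat_lit 4) (nat_lit 369) (nat_lit 301) (nat_lit 230)))) (XT.nd (nat_lit 156) (nat_lit 0) (nat_lit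 0) (XT.nd (nat_lit 78) (nat_lit 0) (nat_lit 0) (XT.lf (nat_lit 0) (nat_lit 5996214709779) (nat_lit 152) (nat_lit 1736975023137) (nat_lit 0) (nat_lit 5984870727094) (nat_lit 1) (nat_lit 5) (nat_lit 3) (nat_lit 4) (nat_lit 1) (nat_lit 4) (nat_lit 370) (nat_lit 301) (nat_lit 229)) (XT.lf (nat_lit 0) (nat_lit 6933111031616) (nat_lit 152) (nat_lit 1917756301818) (nat_lit 0) (nat_lit 6921766985845) (nat_lit 1) (nat_lit 5) (nat_lit 3) (nat_lit 4) (nat_lit 1) (nat_lit 4) (nat_lit 371) (nat_lit 301) (nat_lit 228))) (XT.nd (nat_lit 78) (nat_lit 0) (nat_lit 0) (XT.lf (nat_lit 0) (nat_lit 8010541394572) (nat_lit 152) (nat_lit 2125655601516) (nat_lit 0) (nat_lit 7999197293943) (nat_lit 1) (nat_lit 5) (nat_lit 3) (nat_lit 4) (nat_lit 1) (nat_lit 4) (nat_lit 372) (nat_lit 301) (nat_lit 227)) (XT.lf (nat_lit 0) (nat_lit 9249585957921) (nat_lit 152) (nat_lit 2364740517225) (nat_lit 0) (nat_lit 9238241809591)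 (nat_lit 1) (nat_lit 5) (nat_lit 3) (nat_lit 4) (nat_lit 1) (nat_lit 4) (nat_lit 373) (nat_lit 301) (nat_lit 226))))) (XT.nd (nat_lit 41496) (nat_lit 0) (nat_lit 4180) (XT.nd (nat_lit 41340) (nat_lit 0) (nat_lit 5700) (XT.nd (nat_lit 41262) (nat_lit 0) (nat_lit 6080) (XT.lf (nat_lit 0) (nat_lit 10674486897904) (nat_lit 152) (nat_lit 2639688797296) (nat_lit 0) (nat_lit 10663142708094) (nat_lit 1) (nat_lit 5) (nat_lit 3) (nat_lit 4) (nat_lit 1) (nat_lit 4) (nat_lit 374) (nat_lit 301) (nat_lit 225)) (XT.lf (nat_lit 0) (nat_lit 1425567405) (nat_lit 0) (nat_lit 1425567405) (nat_lit 228) (nat_lit 558585115) (nat_lit 81) (nat_lit 5) (nat_lit 81) (nat_lit 3) (nat_lit 84) (nat_lit 3) (nat_lit 302) (nat_lit 302) (nat_lit 296))) (XT.nd (nat_lit 78) (nat_lit 0) (nat_lit 76) (XT.lf (nat_lit 76) (nat_lit 2344540397) (nat_lit 0) (nat_lit 92516876) (nat_lit 380) (nat_lit 4605711189) (nat_lit 77) (nat_lit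 5) (nat_lit 76) (nat_lit 3) (nat_lit 81) (nat_lit 5) (nat_lit 303) (nat_lit 302) (nat_lit 295)) (XT.lf (nat_lit 76) (nat_lit 2138135077) (nat_lit 0) (nat_lit 3937140700) (nat_lit 380) (nat_lit 1253387433) (nat_lit 78) (nat_lit 5) (nat_lit 77) (nat_lit 5) (nat_lit 82) (nat_lit 5) (nat_lit 304) (nat_lit 302) (nat_lit 294)))) (XT.nd (nat_lit 156) (nat_lit 912) (nat_lit 0) (XT.nd (nat_lit 78) (nat_lit 380) (nat_lit 0) (XT.lf (nat_lit 0) (nat_lit 2102295788) (nat_lit 380) (nat_lit 5414818679) (nat_lit 76) (nat_lit 165471671) (nat_lit 73) (nat_lit 5) (nat_lit 78) (nat_lit 5) (nat_lit 74) (nat_lit 5) (nat_lit 305) (nat_lit 302) (nat_lit 293)) (XT.lf (nat_lit 0) (nat_lit 2646539678) (nat_lit 380) (nat_lit 3067766548) (nat_lit 456) (nat_lit 2387035892) (nat_lit 68) (nat_lit 5) (nat_lit 73) (nat_lit 5) (nat_lit 74) (nat_lit 5) (nat_lit 306) (nat_lit 302) (nat_lit 292))) (XT.nd (nat_lit 78) (nat_lit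 380) (nat_lit 0) (XT.lf (nat_lit 0) (nat_lit 1063809415) (nat_lit 532) (nat_lit 5254792505) (nat_lit 76) (nat_lit 2274827377) (nat_lit 61) (nat_lit 5) (nat_lit 68) (nat_lit 5) (nat_lit 62) (nat_lit 5) (nat_lit 307) (nat_lit 302) (nat_lit 291)) (XT.lf (nat_lit 0) (nat_lit 4286076411) (nat_lit 380) (nat_lit 553080159) (nat_lit 456) (nat_lit 4319722775) (nat_lit 56) (nat_lit 5) (nat_lit 61) (nat_lit 5) (nat_lit 62) (nat_lit 5) (nat_lit 308) (nat_lit 302) (nat_lit 290))))))) (XT.nd (nat_lit 1170) (nat_lit 1216) (nat_lit 0) (XT.nd (nat_lit 546) (nat_lit 1064) (nat_lit 0) (XT.nd (nat_lit 234) (nat_lit 988) (nat_lit 0) (XT.nd (nat_lit 78) (nat_lit 456) (nat_lit 0) (XT.lf (nat_lit 0) (nat_lit 5501823284) (nat_lit 228) (nat_lit 3751548975) (nat_lit 304) (nat_lit 550288463) (nat_lit 53) (nat_lit 5) (nat_lit 56) (nat_lit 5) (nat_lit 57) (nat_lit 5) (nat_lit 309) (nat_lit 302) (nat_lit 289)) (XT.nd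 (nat_lit 78) (nat_lit 152) (nat_lit 0) (XT.lf (nat_lit 0) (nat_lit 3675710520) (nat_lit 304) (nat_lit 3571275701) (nat_lit 76) (nat_lit 3284711046) (nat_lit 49) (nat_lit 5) (nat_lit 53) (nat_lit 5) (nat_lit 50) (nat_lit 5) (nat_lit 310) (nat_lit 302) (nat_lit 288)) (XT.lf (nat_lit 0) (nat_lit 8649764557) (nat_lit 228) (nat_lit 2606198530) (nat_lit 76) (nat_lit 100317113) (nat_lit 47) (nat_lit 5) (nat_lit 50) (nat_lit 5) (nat_lit 48) (nat_lit 5) (nat_lit 311) (nat_lit 302) (nat_lit 287)))) (XT.nd (nat_lit 156) (nat_lit 532) (nat_lit 0) (XT.nd (nat_lit 78) (nat_lit 152) (nat_lit 0) (XT.lf (nat_lit 0) (nat_lit 2266205296) (nat_lit 304) (nat_lit 1525342060) (nat_lit 76) (nat_lit 8484877520) (nat_lit 43) (nat_lit 5) (nat_lit 47) (nat_lit 5) (nat_lit 44) (nat_lit 5) (nat_lit 312) (nat_lit 302) (nat_lit 286)) (XT.lf (nat_lit 0) (nat_lit 8099255976) (nat_lit 228) (nat_lit 265567607) (nat_lit 76)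 (nat_lit 4942325975) (nat_lit 41) (nat_lit 5) (nat_lit 44) (nat_lit 5) (nat_lit 42) (nat_lit 5) (nat_lit 313) (nat_lit 302) (nat_lit 285))) (XT.nd (nat_lit 78) (nat_lit 152) (nat_lit 0) (XT.lf (nat_lit 0) (nat_lit 657267416) (nat_lit 228) (nat_lit 13153432893) (nat_lit 76) (nat_lit 652644329) (nat_lit 36) (nat_lit 5) (nat_lit 39) (nat_lit 5) (nat_lit 37) (nat_lit 5) (nat_lit 314) (nat_lit 302) (nat_lit 284)) (XT.lf (nat_lit 0) (nat_lit 2915702042) (nat_lit 152) (nat_lit 4681395961) (nat_lit 228) (nat_lit 8144898037) (nat_lit 34) (nat_lit 5) (nat_lit 36) (nat_lit 5) (nat_lit 37) (nat_lit 5) (nat_lit 315) (nat_lit 302) (nat_lit 283))))) (XT.nd (nat_lit 312) (nat_lit 456) (nat_lit 0) (XT.nd (nat_lit 156) (nat_lit 304) (nat_lit 0) (XT.nd (nat_lit 78) (nat_lit 228) (nat_lit 0) (XT.lf (nat_lit 0) (nat_lit 4766929695) (nat_lit 76) (nat_lit 11255766353) (nat_lit 152) (nat_lit 1154260916) (nat_lit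 33) (nat_lit 5) (nat_lit 34) (nat_lit 5) (nat_lit 35) (nat_lit 4) (nat_lit 316) (nat_lit 302) (nat_lit 282)) (XT.lf (nat_lit 0) (nat_lit 6695197241) (nat_lit 152) (nat_lit 330613400) (nat_lit 228) (nat_lit 11749361124) (nat_lit 30) (nat_lit 5) (nat_lit 32) (nat_lit 5) (nat_lit 33) (nat_lit 5) (nat_lit 317) (nat_lit 302) (nat_lit 281))) (XT.nd (nat_lit 78) (nat_lit 228) (nat_lit 0) (XT.lf (nat_lit 0) (nat_lit 8631863971) (nat_lit 76) (nat_lit 8433628843) (nat_lit 152) (nat_lit 3489218590) (nat_lit 29) (nat_lit 5) (nat_lit 30) (nat_lit 5) (nat_lit 31) (nat_lit 4) (nat_lit 318) (nat_lit 302) (nat_lit 280)) (XT.lf (nat_lit 0) (nat_lit 6283876974) (nat_lit 228) (nat_lit 11961102356) (nat_lit 76) (nat_lit 4298727323) (nat_lit 26) (nat_lit 5) (nat_lit 29) (nat_lit 5) (nat_lit 27) (nat_lit 4) (nat_lit 319) (nat_lit 302) (nat_lit 279)))) (XT.nd (nat_lit 156) (nat_lit 228) (nat_lit 0) (XT.nd (nat_lit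 78) (nat_lit 152) (nat_lit 0) (XT.lf (nat_lit 0) (nat_lit 12397425337) (nat_lit 76) (nat_lit 5662983786) (nat_lit 152) (nat_lit 6703912593) (nat_lit 25) (nat_lit 5) (nat_lit 26) (nat_lit 5) (nat_lit 27) (nat_lit 4) (nat_lit 320) (nat_lit 302) (nat_lit 278)) (XT.lf (nat_lit 0) (nat_lit 4860190500) (nat_lit 152) (nat_lit 13304747933) (nat_lit 76) (nat_lit 9081749404) (nat_lit 23) (nat_lit 5) (nat_lit 25) (nat_lit 5) (nat_lit 24) (nat_lit 4) (nat_lit 321) (nat_lit 302) (nat_lit 277))) (XT.nd (nat_lit 78) (nat_lit 152) (nat_lit 0) (XT.lf (nat_lit 0) (nat_lit 15036406825) (nat_lit 76) (nat_lit 3495338656) (nat_lit 152) (nat_lit 11494183243) (nat_lit 22) (nat_lit 5) (nat_lit 23) (nat_lit 5) (nat_lit 24) (nat_lit 4) (nat_lit 322) (nat_lit 302) (nat_lit 276)) (XT.lf (nat_lit 0) (nat_lit 1976494571) (nat_lit 152) (nat_lit 17734098171) (nat_lit 76) (nat_lit 13429812565) (nat_lit 20) (nat_lit 5) (nat_lit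 22) (nat_lit 5) (nat_lit 21) (nat_lit 4) (nat_lit 323) (nat_lit 302) (nat_lit 275)))))) (XT.nd (nat_lit 624) (nat_lit 532) (nat_lit 0) (XT.nd (nat_lit 312) (nat_lit 304) (nat_lit 0) (XT.nd (nat_lit 156) (nat_lit 228) (nat_lit 0) (XT.nd (nat_lit 78) (nat_lit 76) (nat_lit 0) (XT.lf (nat_lit 0) (nat_lit 14678889532) (nat_lit 76) (nat_lit 2912978190) (nat_lit 152) (nat_lit 19041950319) (nat_lit 19) (nat_lit 5) (nat_lit 20) (nat_lit 5) (nat_lit 21) (nat_lit 4) (nat_lit 324) (nat_lit 302) (nat_lit 274)) (XT.lf (nat_lit 0) (nat_lit 12432111850) (nat_lit 76) (nat_lit 24236322709) (nat_lit 76) (nat_lit 3893317008) (nat_lit 18) (nat_lit 4) (nat_lit 19) (nat_lit 5) (nat_lit 19) (nat_lit 4) (nat_lit 325) (nat_lit 302) (nat_lit 273))) (XT.nd (nat_lit 78) (nat_lit 76) (nat_lit 0) (XT.lf (nat_lit 0) (nat_lit 8072372737) (nat_lit 76) (nat_lit 5611415370) (nat_lit 152) (nat_lit 31302445269) (nat_lit 16)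 (nat_lit 5) (nat_lit 17) (nat_lit 5) (nat_lit 18) (nat_lit 4) (nat_lit 326) (nat_lit 302) (nat_lit 272)) (XT.lf (nat_lit 0) (nat_lit 750533596) (nat_lit 76) (nat_lit 34070382217) (nat_lit 76) (nat_lit 15153076796) (nat_lit 15) (nat_lit 4) (nat_lit 16) (nat_lit 5) (nat_lit 16) (nat_lit 4) (nat_lit 327) (nat_lit 302) (nat_lit 271)))) (XT.nd (nat_lit 156) (nat_lit 152) (nat_lit 0) (XT.nd (nat_lit 78) (nat_lit 76) (nat_lit 0) (XT.lf (nat_lit 0) (nat_lit 4420282845) (nat_lit 152) (nat_lit 9755953919) (nat_lit 76) (nat_lit 41433304363) (nat_lit 14) (nat_lit 5) (nat_lit 16) (nat_lit 5) (nat_lit 15) (nat_lit 4) (nat_lit 328) (nat_lit 302) (nat_lit 270)) (XT.lf (nat_lit 0) (nat_lit 27113138598) (nat_lit 152) (nat_lit 25319076356) (nat_lit 0) (nat_lit 9540271939) (nat_lit 13) (nat_lit 5) (nat_lit 15) (nat_lit 4) (nat_lit 13) (nat_lit 4) (nat_lit 329) (nat_lit 302) (nat_lit 269))) (XT.nd (nat_lit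 78) (nat_lit 76) (nat_lit 0) (XT.lf (nat_lit 0) (nat_lit 21907766637) (nat_lit 76) (nat_lit 32443339257) (nat_lit 76) (nat_lit 14847482457) (nat_lit 12) (nat_lit 4) (nat_lit 13) (nat_lit 5) (nat_lit 13) (nat_lit 4) (nat_lit 330) (nat_lit 302) (nat_lit 268)) (XT.lf (nat_lit 0) (nat_lit 8449124241) (nat_lit 152) (nat_lit 41669803) (nat_lit 76) (nat_lit 68946788855) (nat_lit 11) (nat_lit 5) (nat_lit 13) (nat_lit 5) (nat_lit 12) (nat_lit 4) (nat_lit 331) (nat_lit 302) (nat_lit 267))))) (XT.nd (nat_lit 312) (nat_lit 228) (nat_lit 0) (XT.nd (nat_lit 156) (nat_lit 152) (nat_lit 0) (XT.nd (nat_lit 78) (nat_lit 76) (nat_lit 0) (XT.lf (nat_lit 0) (nat_lit 36194008784) (nat_lit 152) (nat_lit 30673995947) (nat_lit 0) (nat_lit 19866942048) (nat_lit 10) (nat_lit 5) (nat_lit 12) (nat_lit 4) (nat_lit 10) (nat_lit 4) (nat_lit 332) (nat_lit 302) (nat_lit 266)) (XT.lf (nat_lit 0) (nat_lit 24016101700) (nat_lit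 76) (nat_lit 44845501943) (nat_lit 76) (nat_lit 28504438549) (nat_lit 9) (nat_lit 4) (nat_lit 10) (nat_lit 5) (nat_lit 10) (nat_lit 4) (nat_lit 333) (nat_lit 302) (nat_lit 265))) (XT.nd (nat_lit 78) (nat_lit 152) (nat_lit 0) (XT.lf (nat_lit 0) (nat_lit 88671048050) (nat_lit 76) (nat_lit 18603199969) (nat_lit 76) (nat_lit 2249965568) (nat_lit 9) (nat_lit 4) (nat_lit 10) (nat_lit 5) (nat_lit 10) (nat_lit 4) (nat_lit 334) (nat_lit 302) (nat_lit 264)) (XT.lf (nat_lit 0) (nat_lit 27803499281) (nat_lit 152) (nat_lit 82896347053) (nat_lit 0) (nat_lit 12651816055) (nat_lit 7) (nat_lit 5) (nat_lit 9) (nat_lit 4) (nat_lit 7) (nat_lit 4) (nat_lit 335) (nat_lit 302) (nat_lit 263)))) (XT.nd (nat_lit 156) (nat_lit 152) (nat_lit 0) (XT.nd (nat_lit 78) (nat_lit 76) (nat_lit 0) (XT.lf (nat_lit 0) (nat_lit 63332773242) (nat_lit 152) (nat_lit 27655133474) (nat_lit 0) (nat_lit 48172568691) (nat_lit 7) (nat_lit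 5) (nat_lit 9) (nat_lit 4) (nat_lit 7) (nat_lit 4) (nat_lit 336) (nat_lit 302) (nat_lit 262)) (XT.lf (nat_lit 0) (nat_lit 37687243048) (nat_lit 76) (nat_lit 67375634654) (nat_lit 76) (nat_lit 52208020257) (nat_lit 6) (nat_lit 4) (nat_lit 7) (nat_lit 5) (nat_lit 7) (nat_lit 4) (nat_lit 337) (nat_lit 302) (nat_lit 261))) (XT.nd (nat_lit 78) (nat_lit 152) (nat_lit 0) (XT.lf (nat_lit 0) (nat_lit 114441348791) (nat_lit 76) (nat_lit 39384368820) (nat_lit 76) (nat_lit 24210311077) (nat_lit 6) (nat_lit 4) (nat_lit 7) (nat_lit 5) (nat_lit 7) (nat_lit 4) (nat_lit 338) (nat_lit 302) (nat_lit 260)) (XT.lf (nat_lit 0) (nat_lit 571703181) (nat_lit 76) (nat_lit 7001067891) (nat_lit 152) (nat_lit 194328971848) (nat_lit 4) (nat_lit 5) (nat_lit 5) (nat_lit 5) (nat_lit 6) (nat_lit 4) (nat_lit 339) (nat_lit 302) (nat_lit 259))))))))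
noncomputable def xc26 : XT := (XT.nd (nat_lit 2340) (nat_lit 0) (nat_lit 0) (XT.nd (nat_lit 1170) (nat_lit 0) (nat_lit 0) (XT.nd (nat_lit 546) (nat_lit 152) (nat_lit 0) (XT.nd (nat_lit 234) (nat_lit 76) (nat_lit 0) (XT.nd (nat_lit 78) (nat_lit 0) (nat_lit 0) (XT.lf (nat_lit 0) (nat_lit 45330725189) (nat_lit 152) (nat_lit 152484036557) (nat_lit 0) (nat_lit 31270972647) (nat_lit 4) (nat_lit 5) (nat_lit 6) (nat_lit 4) (nat_lit 4) (nat_lit 4) (nat_lit 340) (nat_lit 302) (nat_lit 258)) (XT.nd (nat_lit 78) (nat_lit 0) (nat_lit 0) (XT.lf (nat_lit 0) (nat_lit 88922808642) (nat_lit 152) (nat_lit 96551749177) (nat_lit 0) (nat_lit 74859133319) (nat_lit 4) (nat_lit 5) (nat_lit 6) (nat_lit 4) (nat_lit 4) (nat_lit 4) (nat_lit 341) (nat_lit 302) (nat_lit 257)) (XT.lf (nat_lit 0) (nat_lit 139033534171) (nat_lit 152) (nat_lit 32270474384) (nat_lit 0) (nat_lit 124966447733) (nat_lit 4) (nat_lit 5) (nat_lit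 6) (nat_lit 4) (nat_lit 4) (nat_lit 4) (nat_lit 342) (nat_lit 302) (nat_lit 256)))) (XT.nd (nat_lit 156) (nat_lit 0) (nat_lit 0) (XT.nd (nat_lit 78) (nat_lit 0) (nat_lit 0) (XT.lf (nat_lit 0) (nat_lit 43808966885) (nat_lit 76) (nat_lit 153887968834) (nat_lit 76) (nat_lit 139817916210) (nat_lit 3) (nat_lit 4) (nat_lit 4) (nat_lit 5) (nat_lit 4) (nat_lit 4) (nat_lit 343) (nat_lit 302) (nat_lit 255)) (XT.lf (nat_lit 0) (nat_lit 133222006704) (nat_lit 76) (nat_lit 132861327089) (nat_lit 76) (nat_lit 118788695172) (nat_lit 3) (nat_lit 4) (nat_lit 4) (nat_lit 5) (nat_lit 4) (nat_lit 4) (nat_lit 344) (nat_lit 302) (nat_lit 254))) (XT.nd (nat_lit 78) (nat_lit 0) (nat_lit 0) (XT.lf (nat_lit 0) (nat_lit 236018724639) (nat_lit 76) (nat_lit 108695024461) (nat_lit 76) (nat_lit 94620149681) (nat_lit 3) (nat_lit 4) (nat_lit 4) (nat_lit 5) (nat_lit 4) (nat_lit 4) (nat_lit 345) (nat_lit 302) (nat_lit 253))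 (XT.lf (nat_lit 0) (nat_lit 354210360825) (nat_lit 76) (nat_lit 80916241986) (nat_lit 76) (nat_lit 66839416890) (nat_lit 3) (nat_lit 4) (nat_lit 4) (nat_lit 5) (nat_lit 4) (nat_lit 4) (nat_lit 346) (nat_lit 302) (nat_lit 252))))) (XT.nd (nat_lit 312) (nat_lit 0) (nat_lit 0) (XT.nd (nat_lit 156) (nat_lit 76) (nat_lit 0) (XT.nd (nat_lit 78) (nat_lit 76) (nat_lit 0) (XT.lf (nat_lit 0) (nat_lit 490109360317) (nat_lit 76) (nat_lit 48981481746) (nat_lit 76) (nat_lit 34902960724) (nat_lit 3) (nat_lit 4) (nat_lit 4) (nat_lit 5) (nat_lit 4) (nat_lit 4) (nat_lit 347) (nat_lit 302) (nat_lit 251)) (XT.lf (nat_lit 0) (nat_lit 1723315771) (nat_lit 152) (nat_lit 10495498935) (nat_lit 76) (nat_lit 644604182304) (nat_lit 2) (nat_lit 5) (nat_lit 4) (nat_lit 5) (nat_lit 3) (nat_lit 4) (nat_lit 348) (nat_lit 302) (nat_lit 250))) (XT.nd (nat_lit 78) (nat_lit 0) (nat_lit 0) (XT.lf (nat_lit 0) (nat_lit 44469263969)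 (nat_lit 152) (nat_lit 675888347704) (nat_lit 0) (nat_lit 31431043501) (nat_lit 1) (nat_lit 5) (nat_lit 3) (nat_lit 4) (nat_lit 1) (nat_lit 4) (nat_lit 349) (nat_lit 302) (nat_lit 249)) (XT.lf (nat_lit 0) (nat_lit 94270885208) (nat_lit 152) (nat_lit 685445142530) (nat_lit 0) (nat_lit 81231632241) (nat_lit 1) (nat_lit 5) (nat_lit 3) (nat_lit 4) (nat_lit 1) (nat_lit 4) (nat_lit 350) (nat_lit 302) (nat_lit 248)))) (XT.nd (nat_lit 156) (nat_lit 0) (nat_lit 0) (XT.nd (nat_lit 78) (nat_lit 0) (nat_lit 0) (XT.lf (nat_lit 0) (nat_lit 151536085885) (nat_lit 152) (nat_lit 696449027958) (nat_lit 0) (nat_lit 138495935093) (nat_lit 1) (nat_lit 5) (nat_lit 3) (nat_lit 4) (nat_lit 1) (nat_lit 4) (nat_lit 351) (nat_lit 302) (nat_lit 247)) (XT.lf (nat_lit 0) (nat_lit 217385272100) (nat_lit 152) (nat_lit 709115297399) (nat_lit 0) (nat_lit 204344340590) (nat_lit 1) (nat_lit 5) (nat_lit 3) (nat_lit 4) (nat_lit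 1) (nat_lit 4) (nat_lit 352) (nat_lit 302) (nat_lit 246))) (XT.nd (nat_lit 78) (nat_lit 0) (nat_lit 0) (XT.lf (nat_lit 0) (nat_lit 293106797497) (nat_lit 152) (nat_lit 723691769168) (nat_lit 0) (nat_lit 280065187101) (nat_lit 1) (nat_lit 5) (nat_lit 3) (nat_lit 4) (nat_lit 1) (nat_lit 4) (nat_lit 353) (nat_lit 302) (nat_lit 245)) (XT.lf (nat_lit 0) (nat_lit 380182170180) (nat_lit 152) (nat_lit 740463635104) (nat_lit 0) (nat_lit 367139969450) (nat_lit 1) (nat_lit 5) (nat_lit 3) (nat_lit 4) (nat_lit 1) (nat_lit 4) (nat_lit 354) (nat_lit 302) (nat_lit 244)))))) (XT.nd (nat_lit 546) (nat_lit 0) (nat_lit 0) (XT.nd (nat_lit 234) (nat_lit 0) (nat_lit 0) (XT.nd (nat_lit 78) (nat_lit 0) (nat_lit 0) (XT.lf (nat_lit 0) (nat_lit 480315038746) (nat_lit 152) (nat_lit 759759040410) (nat_lit 0) (nat_lit 467272324681) (nat_lit 1) (nat_lit 5) (nat_lit 3) (nat_lit 4) (nat_lit 1) (nat_lit 4) (nat_lit 355)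 (nat_lit 302) (nat_lit 243)) (XT.nd (nat_lit 78) (nat_lit 0) (nat_lit 0) (XT.lf (nat_lit 0) (nat_lit 595464524537) (nat_lit 152) (nat_lit 781955503885) (nat_lit 0) (nat_lit 582421364094) (nat_lit 1) (nat_lit 5) (nat_lit 3) (nat_lit 4) (nat_lit 1) (nat_lit 4) (nat_lit 356) (nat_lit 302) (nat_lit 242)) (XT.lf (nat_lit 0) (nat_lit 727883552275) (nat_lit 152) (nat_lit 807487304163) (nat_lit 0) (nat_lit 714840003677) (nat_lit 1) (nat_lit 5) (nat_lit 3) (nat_lit 4) (nat_lit 1) (nat_lit 4) (nat_lit 357) (nat_lit 302) (nat_lit 241)))) (XT.nd (nat_lit 156) (nat_lit 0) (nat_lit 0) (XT.nd (nat_lit 78) (nat_lit 0) (nat_lit 0) (XT.lf (nat_lit 0) (nat_lit 880162929023) (nat_lit 152) (nat_lit 836853976466) (nat_lit 0) (nat_lit 867119042900) (nat_lit 1) (nat_lit 5) (nat_lit 3) (nat_lit 4) (nat_lit 1) (nat_lit 4) (nat_lit 358) (nat_lit 302) (nat_lit 240)) (XT.lf (nat_lit 0) (nat_lit 1055282033893) (nat_lit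 152) (nat_lit 870630086123) (nat_lit 0) (nat_lit 1042237854268) (nat_lit 1) (nat_lit 5) (nat_lit 3) (nat_lit 4) (nat_lit 1) (nat_lit 4) (nat_lit 359) (nat_lit 302) (nat_lit 239))) (XT.nd (nat_lit 78) (nat_lit 0) (nat_lit 0) (XT.lf (nat_lit 0) (nat_lit 1256667110240) (nat_lit 152) (nat_lit 909476470061) (nat_lit 0) (nat_lit 1243622675397) (nat_lit 1) (nat_lit 5) (nat_lit 3) (nat_lit 4) (nat_lit 1) (nat_lit 4) (nat_lit 360) (nat_lit 302) (nat_lit 238)) (XT.lf (nat_lit 0) (nat_lit 1488258300862) (nat_lit 152) (nat_lit 954153166226) (nat_lit 0) (nat_lit 1475213644091) (nat_lit 1) (nat_lit 5) (nat_lit 3) (nat_lit 4) (nat_lit 1) (nat_lit 4) (nat_lit 361) (nat_lit 302) (nat_lit 237))))) (XT.nd (nat_lit 312) (nat_lit 0) (nat_lit 0) (XT.nd (nat_lit 156) (nat_lit 0) (nat_lit 0) (XT.nd (nat_lit 78) (nat_lit 0) (nat_lit 0) (XT.lf (nat_lit 0) (nat_lit 1754586737750) (nat_lit 152) (nat_lit 1005534283892)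 (nat_lit 0) (nat_lit 1741541887998) (nat_lit 1) (nat_lit 5) (nat_lit 3) (nat_lit 4) (nat_lit 1) (nat_lit 4) (nat_lit 362) (nat_lit 302) (nat_lit 236)) (XT.lf (nat_lit 0) (nat_lit 2060863194670) (nat_lit 152) (nat_lit 1064625105796) (nat_lit 0) (nat_lit 2047818177107) (nat_lit 1) (nat_lit 5) (nat_lit 3) (nat_lit 4) (nat_lit 1) (nat_lit 4) (nat_lit 363) (nat_lit 302) (nat_lit 235))) (XT.nd (nat_lit 78) (nat_lit 0) (nat_lit 0) (XT.lf (nat_lit 0) (nat_lit 2413080037082) (nat_lit 152) (nat_lit 1132581756714) (nat_lit 0) (nat_lit 2400034873597) (nat_lit 1) (nat_lit 5) (nat_lit 3) (nat_lit 4) (nat_lit 1) (nat_lit 4) (nat_lit 364) (nat_lit 302) (nat_lit 234)) (XT.lf (nat_lit 0) (nat_lit 2818128464077) (nat_lit 152) (nat_lit 1210733823294) (nat_lit 0) (nat_lit 2805083173704) (nat_lit 1) (nat_lit 5) (nat_lit 3) (nat_lit 4) (nat_lit 1) (nat_lit 4) (nat_lit 365) (nat_lit 302) (nat_lit 233)))) (XT.nd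 (nat_lit 156) (nat_lit 0) (nat_lit 0) (XT.nd (nat_lit 78) (nat_lit 0) (nat_lit 0) (XT.lf (nat_lit 0) (nat_lit 3283933336183) (nat_lit 152) (nat_lit 1300610367708) (nat_lit 0) (nat_lit 3270887935473) (nat_lit 1) (nat_lit 5) (nat_lit 3) (nat_lit 4) (nat_lit 1) (nat_lit 4) (nat_lit 366) (nat_lit 302) (nat_lit 232)) (XT.lf (nat_lit 0) (nat_lit 3819608226986) (nat_lit 152) (nat_lit 1403969844087) (nat_lit 0) (nat_lit 3806562730329) (nat_lit 1) (nat_lit 5) (nat_lit 3) (nat_lit 4) (nat_lit 1) (nat_lit 4) (nat_lit 367) (nat_lit 302) (nat_lit 231))) (XT.nd (nat_lit 78) (nat_lit 0) (nat_lit 0) (XT.lf (nat_lit 0) (nat_lit 4435633732174) (nat_lit 152) (nat_lit 1522834503056) (nat_lit 0) (nat_lit 4422588152086) (nat_lit 1) (nat_lit 5) (nat_lit 3) (nat_lit 4) (nat_lit 1) (nat_lit 4) (nat_lit 368) (nat_lit 302) (nat_lit 230)) (XT.lf (nat_lit 0) (nat_lit 5144062524676) (nat_lit 152) (nat_lit 1659529957506)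 (nat_lit 0) (nat_lit 5131016872039) (nat_lit 1) (nat_lit 5) (nat_lit 3) (nat_lit 4) (nat_lit 1) (nat_lit 4) (nat_lit 369) (nat_lit 302) (nat_lit 229))))))) (XT.nd (nat_lit 42432) (nat_lit 0) (nat_lit 1064) (XT.nd (nat_lit 41808) (nat_lit 0) (nat_lit 3268) (XT.nd (nat_lit 234) (nat_lit 0) (nat_lit 0) (XT.nd (nat_lit 78) (nat_lit 0) (nat_lit 0) (XT.lf (nat_lit 0) (nat_lit 5958755167823) (nat_lit 152) (nat_lit 1816730683721) (nat_lit 0) (nat_lit 5945709452100) (nat_lit 1) (nat_lit 5) (nat_lit 3) (nat_lit 4) (nat_lit 1) (nat_lit 4) (nat_lit 370) (nat_lit 302) (nat_lit 228)) (XT.nd (nat_lit 78) (nat_lit 0) (nat_lit 0) (XT.lf (nat_lit 0) (nat_lit 6895651300284) (nat_lit 152) (nat_lit 1997512348083) (nat_lit 0) (nat_lit 6882605529704) (nat_lit 1) (nat_lit 5) (nat_lit 3) (nat_lit 4) (nat_lit 1) (nat_lit 4) (nat_lit 371) (nat_lit 302) (nat_lit 227)) (XT.lf (nat_lit 0) (nat_lit 7973081498566) (nat_lit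 152) (nat_lit 2205411983156) (nat_lit 0) (nat_lit 7960035680283) (nat_lit 1) (nat_lit 5) (nat_lit 3) (nat_lit 4) (nat_lit 1) (nat_lit 4) (nat_lit 372) (nat_lit 302) (nat_lit 226)))) (XT.nd (nat_lit 41418) (nat_lit 0) (nat_lit 5320) (XT.nd (nat_lit 78) (nat_lit 0) (nat_lit 0) (XT.lf (nat_lit 0) (nat_lit 9212125918720) (nat_lit 152) (nat_lit 2444497190496) (nat_lit 0) (nat_lit 9199080058958) (nat_lit 1) (nat_lit 5) (nat_lit 3) (nat_lit 4) (nat_lit 1) (nat_lit 4) (nat_lit 373) (nat_lit 302) (nat_lit 225)) (XT.lf (nat_lit 0) (nat_lit 10637026734186) (nat_lit 152) (nat_lit 2719445724159) (nat_lit 0) (nat_lit 10623980838354) (nat_lit 1) (nat_lit 5) (nat_lit 3) (nat_lit 4) (nat_lit 1) (nat_lit 4) (nat_lit 374) (nat_lit 302) (nat_lit 224))) (XT.nd (nat_lit 78) (nat_lit 380) (nat_lit 0) (XT.lf (nat_lit 0) (nat_lit 2765493478) (nat_lit 380) (nat_lit 441415477) (nat_lit 380) (nat_lit 441415477) (nat_lit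 76) (nat_lit 3) (nat_lit 81) (nat_lit 3) (nat_lit 81) (nat_lit 5) (nat_lit 303) (nat_lit 303) (nat_lit 294)) (XT.lf (nat_lit 0) (nat_lit 1080810685) (nat_lit 380) (nat_lit 1606337020) (nat_lit 456) (nat_lit 4926741943) (nat_lit 71) (nat_lit 5) (nat_lit 76) (nat_lit 3) (nat_lit 77) (nat_lit 5) (nat_lit 304) (nat_lit 303) (nat_lit 293))))) (XT.nd (nat_lit 312) (nat_lit 1292) (nat_lit 0) (XT.nd (nat_lit 156) (nat_lit 836) (nat_lit 0) (XT.nd (nat_lit 78) (nat_lit 0) (nat_lit 0) (XT.lf (nat_lit 0) (nat_lit 3977638669) (nat_lit 380) (nat_lit 2089467573) (nat_lit 456) (nat_lit 1930231083) (nat_lit 72) (nat_lit 5) (nat_lit 77) (nat_lit 5) (nat_lit 78) (nat_lit 5) (nat_lit 305) (nat_lit 303) (nat_lit 292)) (XT.lf (nat_lit 76) (nat_lit 6132651779) (nat_lit 0) (nat_lit 1014319450) (nat_lit 456) (nat_lit 1304748315) (nat_lit 73) (nat_lit 5) (nat_lit 72) (nat_lit 5) (nat_lit 78) (nat_lit 5) (nat_lit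 306) (nat_lit 303) (nat_lit 291))) (XT.nd (nat_lit 78) (nat_lit 456) (nat_lit 0) (XT.lf (nat_lit 0) (nat_lit 1682616049) (nat_lit 456) (nat_lit 2377614672) (nat_lit 76) (nat_lit 4914411622) (nat_lit 67) (nat_lit 5) (nat_lit 73) (nat_lit 5) (nat_lit 68) (nat_lit 5) (nat_lit 307) (nat_lit 303) (nat_lit 290)) (XT.lf (nat_lit 0) (nat_lit 5031002016) (nat_lit 532) (nat_lit 2221668125) (nat_lit 76) (nat_lit 2321727582) (nat_lit 61) (nat_lit 5) (nat_lit 68) (nat_lit 5) (nat_lit 62) (nat_lit 5) (nat_lit 308) (nat_lit 303) (nat_lit 289)))) (XT.nd (nat_lit 156) (nat_lit 608) (nat_lit 0) (XT.nd (nat_lit 78) (nat_lit 304) (nat_lit 0) (XT.lf (nat_lit 0) (nat_lit 8426873455) (nat_lit 380) (nat_lit 533255781) (nat_lit 456) (nat_lit 1297986015) (nat_lit 56) (nat_lit 5) (nat_lit 61) (nat_lit 5) (nat_lit 62) (nat_lit 5) (nat_lit 309) (nat_lit 303) (nat_lit 288)) (XT.lf (nat_lit 0) (nat_lit 2517590909) (nat_lit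 304) (nat_lit 1314361874) (nat_lit 76) (nat_lit 7191567502) (nat_lit 52) (nat_lit 5) (nat_lit 56) (nat_lit 5) (nat_lit 53) (nat_lit 5) (nat_lit 310) (nat_lit 303) (nat_lit 287))) (XT.nd (nat_lit 78) (nat_lit 380) (nat_lit 0) (XT.lf (nat_lit 0) (nat_lit 7031174075) (nat_lit 304) (nat_lit 582720086) (nat_lit 76) (nat_lit 4271137097) (nat_lit 49) (nat_lit 5) (nat_lit 53) (nat_lit 5) (nat_lit 50) (nat_lit 5) (nat_lit 311) (nat_lit 303) (nat_lit 286)) (XT.lf (nat_lit 0) (nat_lit 436671470) (nat_lit 228) (nat_lit 12054072984) (nat_lit 304) (nat_lit 363677393) (nat_lit 44) (nat_lit 5) (nat_lit 47) (nat_lit 5) (nat_lit 48) (nat_lit 5) (nat_lit 312) (nat_lit 303) (nat_lit 285)))))) (XT.nd (nat_lit 624) (nat_lit 836) (nat_lit 0) (XT.nd (nat_lit 312) (nat_lit 608) (nat_lit 0) (XT.nd (nat_lit 156) (nat_lit 380) (nat_lit 0) (XT.nd (nat_lit 78) (nat_lit 152) (nat_lit 0) (XT.lf (nat_lit 0) (nat_lit 1572258552)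 (nat_lit 152) (nat_lit 3410087087) (nat_lit 228) (nat_lit 8943981497) (nat_lit 41) (nat_lit 5) (nat_lit 43) (nat_lit 5) (nat_lit 44) (nat_lit 5) (nat_lit 313) (nat_lit 303) (nat_lit 284)) (XT.lf (nat_lit 0) (nat_lit 2964530325) (nat_lit 152) (nat_lit 8546670955) (nat_lit 228) (nat_lit 3614982501) (nat_lit 39) (nat_lit 5) (nat_lit 41) (nat_lit 5) (nat_lit 42) (nat_lit 5) (nat_lit 314) (nat_lit 303) (nat_lit 283))) (XT.nd (nat_lit 78) (nat_lit 152) (nat_lit 0) (XT.lf (nat_lit 0) (nat_lit 2824757379) (nat_lit 228) (nat_lit 11869790965) (nat_lit 76) (nat_lit 1771760512) (nat_lit 36) (nat_lit 5) (nat_lit 39) (nat_lit 5) (nat_lit 37) (nat_lit 5) (nat_lit 315) (nat_lit 303) (nat_lit 282)) (XT.lf (nat_lit 0) (nat_lit 6334054427) (nat_lit 152) (nat_lit 4273344676) (nat_lit 228) (nat_lit 7345345701) (nat_lit 34) (nat_lit 5) (nat_lit 36) (nat_lit 5) (nat_lit 37) (nat_lit 5) (nat_lit 316) (nat_lit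 303) (nat_lit 281)))) (XT.nd (nat_lit 156) (nat_lit 304) (nat_lit 0) (XT.nd (nat_lit 78) (nat_lit 152) (nat_lit 0) (XT.lf (nat_lit 0) (nat_lit 502666895) (nat_lit 152) (nat_lit 11303981720) (nat_lit 76) (nat_lit 7807594632) (nat_lit 32) (nat_lit 5) (nat_lit 34) (nat_lit 5) (nat_lit 33) (nat_lit 5) (nat_lit 317) (nat_lit 303) (nat_lit 280)) (XT.lf (nat_lit 0) (nat_lit 9694973697) (nat_lit 228) (nat_lit 11093390954) (nat_lit 76) (nat_lit 673235233) (nat_lit 30) (nat_lit 5) (nat_lit 33) (nat_lit 5) (nat_lit 31) (nat_lit 4) (nat_lit 318) (nat_lit 303) (nat_lit 279))) (XT.nd (nat_lit 78) (nat_lit 228) (nat_lit 0) (XT.lf (nat_lit 0) (nat_lit 12479967520) (nat_lit 76) (nat_lit 8619309247) (nat_lit 152) (nat_lit 2420181649) (nat_lit 29) (nat_lit 5) (nat_lit 30) (nat_lit 5) (nat_lit 31) (nat_lit 4) (nat_lit 319) (nat_lit 303) (nat_lit 278)) (XT.lf (nat_lit 0) (nat_lit 8624820391) (nat_lit 228) (nat_lit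 11259326316) (nat_lit 76) (nat_lit 5928809881) (nat_lit 26) (nat_lit 5) (nat_lit 29) (nat_lit 5) (nat_lit 27) (nat_lit 4) (nat_lit 320) (nat_lit 303) (nat_lit 277))))) (XT.nd (nat_lit 312) (nat_lit 380) (nat_lit 0) (XT.nd (nat_lit 156) (nat_lit 228) (nat_lit 0) (XT.nd (nat_lit 78) (nat_lit 152) (nat_lit 0) (XT.lf (nat_lit 0) (nat_lit 16541711525) (nat_lit 76) (nat_lit 5498672238) (nat_lit 152) (nat_lit 6336533051) (nat_lit 25) (nat_lit 5) (nat_lit 26) (nat_lit 5) (nat_lit 27) (nat_lit 4) (nat_lit 321) (nat_lit 303) (nat_lit 276)) (XT.lf (nat_lit 0) (nat_lit 6798487677) (nat_lit 152) (nat_lit 13074092233) (nat_lit 76) (nat_lit 11364063577) (nat_lit 23) (nat_lit 5) (nat_lit 25) (nat_lit 5) (nat_lit 24) (nat_lit 4) (nat_lit 322) (nat_lit 303) (nat_lit 275))) (XT.nd (nat_lit 78) (nat_lit 152) (nat_lit 0) (XT.lf (nat_lit 0) (nat_lit 19329784786) (nat_lit 76) (nat_lit 3082272383) (nat_lit 152)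 (nat_lit 12029450754) (nat_lit 22) (nat_lit 5) (nat_lit 23) (nat_lit 5) (nat_lit 24) (nat_lit 4) (nat_lit 323) (nat_lit 303) (nat_lit 274)) (XT.lf (nat_lit 0) (nat_lit 3322672028) (nat_lit 152) (nat_lit 18413106087) (nat_lit 76) (nat_lit 16291497460) (nat_lit 20) (nat_lit 5) (nat_lit 22) (nat_lit 5) (nat_lit 21) (nat_lit 4) (nat_lit 324) (nat_lit 303) (nat_lit 273)))) (XT.nd (nat_lit 156) (nat_lit 228) (nat_lit 0) (XT.nd (nat_lit 78) (nat_lit 76) (nat_lit 0) (XT.lf (nat_lit 0) (nat_lit 18694138948) (nat_lit 76) (nat_lit 2492907084) (nat_lit 152) (nat_lit 20865146544) (nat_lit 19) (nat_lit 5) (nat_lit 20) (nat_lit 5) (nat_lit 21) (nat_lit 4) (nat_lit 325) (nat_lit 303) (nat_lit 272)) (XT.lf (nat_lit 0) (nat_lit 16008187380) (nat_lit 76) (nat_lit 27051241613) (nat_lit 76) (nat_lit 3515164953) (nat_lit 18) (nat_lit 4) (nat_lit 19) (nat_lit 5) (nat_lit 19) (nat_lit 4) (nat_lit 326) (nat_lit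 303) (nat_lit 271))) (XT.nd (nat_lit 78) (nat_lit 76) (nat_lit 0) (XT.lf (nat_lit 0) (nat_lit 10893831790) (nat_lit 76) (nat_lit 5676058696) (nat_lit 152) (nat_lit 35097464715) (nat_lit 16) (nat_lit 5) (nat_lit 17) (nat_lit 5) (nat_lit 18) (nat_lit 4) (nat_lit 327) (nat_lit 303) (nat_lit 270)) (XT.lf (nat_lit 0) (nat_lit 2381438386) (nat_lit 76) (nat_lit 38440193755) (nat_lit 76) (nat_lit 16586139609) (nat_lit 15) (nat_lit 4) (nat_lit 16) (nat_lit 5) (nat_lit 16) (nat_lit 4) (nat_lit 328) (nat_lit 303) (nat_lit 269))))))))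
noncomputable def xc27 : XT := (XT.nd (nat_lit 2418) (nat_lit 0) (nat_lit 0) (XT.nd (nat_lit 1170) (nat_lit 228) (nat_lit 0) (XT.nd (nat_lit 546) (nat_lit 380) (nat_lit 0) (XT.nd (nat_lit 234) (nat_lit 228) (nat_lit 0) (XT.nd (nat_lit 78) (nat_lit 152) (nat_lit 0) (XT.lf (nat_lit 0) (nat_lit 5777137072) (nat_lit 152) (nat_lit 9862438385) (nat_lit 76) (nat_lit 48255800564) (nat_lit 14) (nat_lit 5) (nat_lit 16) (nat_lit 5) (nat_lit 15) (nat_lit 4) (nat_lit 329) (nat_lit 303) (nat_lit 268)) (XT.nd (nat_lit 78) (nat_lit 76) (nat_lit 0) (XT.lf (nat_lit 0) (nat_lit 31827938671) (nat_lit 152) (nat_lit 27838793711) (nat_lit 0) (nat_lit 11549721784) (nat_lit 13) (nat_lit 5) (nat_lit 15) (nat_lit 4) (nat_lit 13) (nat_lit 4) (nat_lit 330) (nat_lit 303) (nat_lit 267)) (XT.lf (nat_lit 0) (nat_lit 26363887199) (nat_lit 76) (nat_lit 36731351849) (nat_lit 76) (nat_lit 16435751114) (nat_lit 12) (nat_lit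 4) (nat_lit 13) (nat_lit 5) (nat_lit 13) (nat_lit 4) (nat_lit 331) (nat_lit 303) (nat_lit 266)))) (XT.nd (nat_lit 156) (nat_lit 76) (nat_lit 0) (XT.nd (nat_lit 78) (nat_lit 0) (nat_lit 0) (XT.lf (nat_lit 0) (nat_lit 1049792476) (nat_lit 76) (nat_lit 9219683294) (nat_lit 152) (nat_lit 78739450330) (nat_lit 10) (nat_lit 5) (nat_lit 11) (nat_lit 5) (nat_lit 12) (nat_lit 4) (nat_lit 332) (nat_lit 303) (nat_lit 265)) (XT.lf (nat_lit 0) (nat_lit 42116439094) (nat_lit 152) (nat_lit 34291186506) (nat_lit 0) (nat_lit 23298048526) (nat_lit 10) (nat_lit 5) (nat_lit 12) (nat_lit 4) (nat_lit 10) (nat_lit 4) (nat_lit 333) (nat_lit 303) (nat_lit 264))) (XT.nd (nat_lit 78) (nat_lit 0) (nat_lit 0) (XT.lf (nat_lit 0) (nat_lit 28519142807) (nat_lit 76) (nat_lit 51122343189) (nat_lit 76) (nat_lit 32293369137) (nat_lit 9) (nat_lit 4) (nat_lit 10) (nat_lit 5) (nat_lit 10) (nat_lit 4) (nat_lit 334) (nat_lit 303)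 (nat_lit 263)) (XT.lf (nat_lit 0) (nat_lit 102754858172) (nat_lit 76) (nat_lit 21002389490) (nat_lit 76) (nat_lit 2164212408) (nat_lit 9) (nat_lit 4) (nat_lit 10) (nat_lit 5) (nat_lit 10) (nat_lit 4) (nat_lit 335) (nat_lit 303) (nat_lit 262))))) (XT.nd (nat_lit 312) (nat_lit 152) (nat_lit 0) (XT.nd (nat_lit 156) (nat_lit 76) (nat_lit 0) (XT.nd (nat_lit 78) (nat_lit 0) (nat_lit 0) (XT.lf (nat_lit 0) (nat_lit 32350235308) (nat_lit 152) (nat_lit 94573981208) (nat_lit 0) (nat_lit 14900068905) (nat_lit 7) (nat_lit 5) (nat_lit 9) (nat_lit 4) (nat_lit 7) (nat_lit 4) (nat_lit 336) (nat_lit 303) (nat_lit 261)) (XT.lf (nat_lit 0) (nat_lit 73159829345) (nat_lit 152) (nat_lit 31145300971) (nat_lit 0) (nat_lit 55703219596) (nat_lit 7) (nat_lit 5) (nat_lit 9) (nat_lit 4) (nat_lit 7) (nat_lit 4) (nat_lit 337) (nat_lit 303) (nat_lit 260))) (XT.nd (nat_lit 78) (nat_lit 0) (nat_lit 0) (XT.lf (nat_lit 0)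 (nat_lit 43942726929) (nat_lit 76) (nat_lit 77178539768) (nat_lit 76) (nat_lit 59716327110) (nat_lit 6) (nat_lit 4) (nat_lit 7) (nat_lit 5) (nat_lit 7) (nat_lit 4) (nat_lit 338) (nat_lit 303) (nat_lit 259)) (XT.lf (nat_lit 0) (nat_lit 132131374957) (nat_lit 76) (nat_lit 45028163200) (nat_lit 76) (nat_lit 27561078448) (nat_lit 6) (nat_lit 4) (nat_lit 7) (nat_lit 5) (nat_lit 7) (nat_lit 4) (nat_lit 339) (nat_lit 303) (nat_lit 258)))) (XT.nd (nat_lit 156) (nat_lit 0) (nat_lit 0) (XT.nd (nat_lit 78) (nat_lit 0) (nat_lit 0) (XT.lf (nat_lit 0) (nat_lit 1149816648) (nat_lit 76) (nat_lit 7802653546) (nat_lit 152) (nat_lit 223215015905) (nat_lit 4) (nat_lit 5) (nat_lit 5) (nat_lit 5) (nat_lit 6) (nat_lit 4) (nat_lit 340) (nat_lit 303) (nat_lit 257)) (XT.lf (nat_lit 0) (nat_lit 52347518040) (nat_lit 152) (nat_lit 174916730714) (nat_lit 0) (nat_lit 36166957522) (nat_lit 4) (nat_lit 5) (nat_lit 6)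 (nat_lit 4) (nat_lit 4) (nat_lit 4) (nat_lit 341) (nat_lit 303) (nat_lit 256))) (XT.nd (nat_lit 78) (nat_lit 0) (nat_lit 0) (XT.lf (nat_lit 0) (nat_lit 102450085654) (nat_lit 152) (nat_lit 110651979964) (nat_lit 0) (nat_lit 86266558950) (nat_lit 4) (nat_lit 5) (nat_lit 6) (nat_lit 4) (nat_lit 4) (nat_lit 4) (nat_lit 342) (nat_lit 303) (nat_lit 255)) (XT.lf (nat_lit 0) (nat_lit 160052786657) (nat_lit 152) (nat_lit 36778409378) (nat_lit 0) (nat_lit 143866680661) (nat_lit 4) (nat_lit 5) (nat_lit 6) (nat_lit 4) (nat_lit 4) (nat_lit 4) (nat_lit 343) (nat_lit 303) (nat_lit 254)))))) (XT.nd (nat_lit 624) (nat_lit 0) (nat_lit 0) (XT.nd (nat_lit 312) (nat_lit 152) (nat_lit 0) (XT.nd (nat_lit 156) (nat_lit 0) (nat_lit 0) (XT.nd (nat_lit 78) (nat_lit 0) (nat_lit 0) (XT.lf (nat_lit 0) (nat_lit 50684792088) (nat_lit 76) (nat_lit 176816808798) (nat_lit 76) (nat_lit 160628459938) (nat_lit 3) (nat_lit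 4) (nat_lit 4) (nat_lit 5) (nat_lit 4) (nat_lit 4) (nat_lit 344) (nat_lit 303) (nat_lit 253)) (XT.lf (nat_lit 0) (nat_lit 153470073074) (nat_lit 76) (nat_lit 152656304099) (nat_lit 76) (nat_lit 136466004923) (nat_lit 3) (nat_lit 4) (nat_lit 4) (nat_lit 5) (nat_lit 4) (nat_lit 4) (nat_lit 345) (nat_lit 303) (nat_lit 252))) (XT.nd (nat_lit 78) (nat_lit 0) (nat_lit 0) (XT.lf (nat_lit 0) (nat_lit 271651764087) (nat_lit 76) (nat_lit 124882563301) (nat_lit 76) (nat_lit 108690568199) (nat_lit 3) (nat_lit 4) (nat_lit 4) (nat_lit 5) (nat_lit 4) (nat_lit 4) (nat_lit 346) (nat_lit 303) (nat_lit 251)) (XT.lf (nat_lit 0) (nat_lit 407542115603) (nat_lit 76) (nat_lit 92952187128) (nat_lit 76) (nat_lit 76758717307) (nat_lit 3) (nat_lit 4) (nat_lit 4) (nat_lit 5) (nat_lit 4) (nat_lit 4) (nat_lit 347) (nat_lit 303) (nat_lit 250)))) (XT.nd (nat_lit 156) (nat_lit 76) (nat_lit 0) (XT.nd (nat_lit 78) (nat_lit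 76) (nat_lit 0) (XT.lf (nat_lit 0) (nat_lit 563799851890) (nat_lit 76) (nat_lit 56240450829) (nat_lit 76) (nat_lit 40045698644) (nat_lit 3) (nat_lit 4) (nat_lit 4) (nat_lit 5) (nat_lit 4) (nat_lit 4) (nat_lit 348) (nat_lit 303) (nat_lit 249)) (XT.lf (nat_lit 0) (nat_lit 2058394571) (nat_lit 152) (nat_lit 11914406574) (nat_lit 76) (nat_lit 741367514800) (nat_lit 2) (nat_lit 5) (nat_lit 4) (nat_lit 5) (nat_lit 3) (nat_lit 4) (nat_lit 349) (nat_lit 303) (nat_lit 248))) (XT.nd (nat_lit 78) (nat_lit 0) (nat_lit 0) (XT.lf (nat_lit 0) (nat_lit 51211405083) (nat_lit 152) (nat_lit 777125470833) (nat_lit 0) (nat_lit 36214333846) (nat_lit 1) (nat_lit 5) (nat_lit 3) (nat_lit 4) (nat_lit 1) (nat_lit 4) (nat_lit 350) (nat_lit 303) (nat_lit 247)) (XT.lf (nat_lit 0) (nat_lit 108473910615) (nat_lit 152) (nat_lit 788134845191) (nat_lit 0) (nat_lit 93476058660) (nat_lit 1) (nat_lit 5) (nat_lit 3) (nat_lit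 4) (nat_lit 1) (nat_lit 4) (nat_lit 351) (nat_lit 303) (nat_lit 246))))) (XT.nd (nat_lit 312) (nat_lit 0) (nat_lit 0) (XT.nd (nat_lit 156) (nat_lit 0) (nat_lit 0) (XT.nd (nat_lit 78) (nat_lit 0) (nat_lit 0) (XT.lf (nat_lit 0) (nat_lit 174320753225) (nat_lit 152) (nat_lit 800805887614) (nat_lit 0) (nat_lit 159322222385) (nat_lit 1) (nat_lit 5) (nat_lit 3) (nat_lit 4) (nat_lit 1) (nat_lit 4) (nat_lit 352) (nat_lit 303) (nat_lit 245)) (XT.lf (nat_lit 0) (nat_lit 250040240704) (nat_lit 152) (nat_lit 815386509802) (nat_lit 0) (nat_lit 235041119529) (nat_lit 1) (nat_lit 5) (nat_lit 3) (nat_lit 4) (nat_lit 1) (nat_lit 4) (nat_lit 353) (nat_lit 303) (nat_lit 244))) (XT.nd (nat_lit 78) (nat_lit 0) (nat_lit 0) (XT.lf (nat_lit 0) (nat_lit 337113841285) (nat_lit 152) (nat_lit 832161984798) (nat_lit 0) (nat_lit 322114206776) (nat_lit 1) (nat_lit 5) (nat_lit 3) (nat_lit 4) (nat_lit 1) (nat_lit 4) (nat_lit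 354) (nat_lit 303) (nat_lit 243)) (XT.lf (nat_lit 0) (nat_lit 437245168893) (nat_lit 152) (nat_lit 851460528417) (nat_lit 0) (nat_lit 422245088006) (nat_lit 1) (nat_lit 5) (nat_lit 3) (nat_lit 4) (nat_lit 1) (nat_lit 4) (nat_lit 355) (nat_lit 303) (nat_lit 242)))) (XT.nd (nat_lit 156) (nat_lit 0) (nat_lit 0) (XT.nd (nat_lit 78) (nat_lit 0) (nat_lit 0) (XT.lf (nat_lit 0) (nat_lit 552393314720) (nat_lit 152) (nat_lit 873659720861) (nat_lit 0) (nat_lit 537392845678) (nat_lit 1) (nat_lit 5) (nat_lit 3) (nat_lit 4) (nat_lit 1) (nat_lit 4) (nat_lit 356) (nat_lit 303) (nat_lit 241)) (XT.lf (nat_lit 0) (nat_lit 684811177272) (nat_lit 152) (nat_lit 899193894154) (nat_lit 0) (nat_lit 669810370704) (nat_lit 1) (nat_lit 5) (nat_lit 3) (nat_lit 4) (nat_lit 1) (nat_lit 4) (nat_lit 357) (nat_lit 303) (nat_lit 240))) (XT.nd (nat_lit 78) (nat_lit 0) (nat_lit 0) (XT.lf (nat_lit 0) (nat_lit 837089540815)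 (nat_lit 152) (nat_lit 928562629949) (nat_lit 0) (nat_lit 822088440746) (nat_lit 1) (nat_lit 5) (nat_lit 3) (nat_lit 4) (nat_lit 1) (nat_lit 4) (nat_lit 358) (nat_lit 303) (nat_lit 239)) (XT.lf (nat_lit 0) (nat_lit 1012207764637) (nat_lit 152) (nat_lit 962340533947) (nat_lit 0) (nat_lit 997206409350) (nat_lit 1) (nat_lit 5) (nat_lit 3) (nat_lit 4) (nat_lit 1) (nat_lit 4) (nat_lit 359) (nat_lit 303) (nat_lit 238))))))) (XT.nd (nat_lit 42510) (nat_lit 0) (nat_lit 2204) (XT.nd (nat_lit 546) (nat_lit 0) (nat_lit 0) (XT.nd (nat_lit 234) (nat_lit 0) (nat_lit 0) (XT.nd (nat_lit 78) (nat_lit 0) (nat_lit 0) (XT.lf (nat_lit 0) (nat_lit 1213592074855) (nat_lit 152) (nat_lit 1001188478181) (nat_lit 0) (nat_lit 1198590497639) (nat_lit 1) (nat_lit 5) (nat_lit 3) (nat_lit 4) (nat_lit 1) (nat_lit 4) (nat_lit 360) (nat_lit 303) (nat_lit 237)) (XT.nd (nat_lit 78) (nat_lit 0) (nat_lit 0) (XT.lf (nat_lit 0)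 (nat_lit 1445182599278) (nat_lit 152) (nat_lit 1045866531126) (nat_lit 0) (nat_lit 1430180829081) (nat_lit 1) (nat_lit 5) (nat_lit 3) (nat_lit 4) (nat_lit 1) (nat_lit 4) (nat_lit 361) (nat_lit 303) (nat_lit 236)) (XT.lf (nat_lit 0) (nat_lit 1711510456863) (nat_lit 152) (nat_lit 1097248828600) (nat_lit 0) (nat_lit 1696508518856) (nat_lit 1) (nat_lit 5) (nat_lit 3) (nat_lit 4) (nat_lit 1) (nat_lit 4) (nat_lit 362) (nat_lit 303) (nat_lit 235)))) (XT.nd (nat_lit 156) (nat_lit 0) (nat_lit 0) (XT.nd (nat_lit 78) (nat_lit 0) (nat_lit 0) (XT.lf (nat_lit 0) (nat_lit 2017786410041) (nat_lit 152) (nat_lit 1156340676424) (nat_lit 0) (nat_lit 2002784326112) (nat_lit 1) (nat_lit 5) (nat_lit 3) (nat_lit 4) (nat_lit 1) (nat_lit 4) (nat_lit 363) (nat_lit 303) (nat_lit 234)) (XT.lf (nat_lit 0) (nat_lit 2370002814416) (nat_lit 152) (nat_lit 1224298219446) (nat_lit 0) (nat_lit 2355000603599) (nat_lit 1) (nat_lit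 5) (nat_lit 3) (nat_lit 4) (nat_lit 1) (nat_lit 4) (nat_lit 364) (nat_lit 303) (nat_lit 233))) (XT.nd (nat_lit 78) (nat_lit 0) (nat_lit 0) (XT.lf (nat_lit 0) (nat_lit 2775050860510) (nat_lit 152) (nat_lit 1302451061769) (nat_lit 0) (nat_lit 2760048539355) (nat_lit 1) (nat_lit 5) (nat_lit 3) (nat_lit 4) (nat_lit 1) (nat_lit 4) (nat_lit 365) (nat_lit 303) (nat_lit 232)) (XT.lf (nat_lit 0) (nat_lit 3240855401398) (nat_lit 152) (nat_lit 1392328280743) (nat_lit 0) (nat_lit 3225852984297) (nat_lit 1) (nat_lit 5) (nat_lit 3) (nat_lit 4) (nat_lit 1) (nat_lit 4) (nat_lit 366) (nat_lit 303) (nat_lit 231))))) (XT.nd (nat_lit 312) (nat_lit 0) (nat_lit 0) (XT.nd (nat_lit 156) (nat_lit 0) (nat_lit 0) (XT.nd (nat_lit 78) (nat_lit 0) (nat_lit 0) (XT.lf (nat_lit 0) (nat_lit 3776530004184) (nat_lit 152) (nat_lit 1495688343695) (nat_lit 0) (nat_lit 3761527503652) (nat_lit 1) (nat_lit 5) (nat_lit 3) (nat_lit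 4) (nat_lit 1) (nat_lit 4) (nat_lit 367) (nat_lit 303) (nat_lit 230)) (XT.lf (nat_lit 0) (nat_lit 4392555258924) (nat_lit 152) (nat_lit 1614553512727) (nat_lit 0) (nat_lit 4377552685843) (nat_lit 1) (nat_lit 5) (nat_lit 3) (nat_lit 4) (nat_lit 1) (nat_lit 4) (nat_lit 368) (nat_lit 303) (nat_lit 229))) (XT.nd (nat_lit 78) (nat_lit 0) (nat_lit 0) (XT.lf (nat_lit 0) (nat_lit 5100983833644) (nat_lit 152) (nat_lit 1751249410711) (nat_lit 0) (nat_lit 5085981197477) (nat_lit 1) (nat_lit 5) (nat_lit 3) (nat_lit 4) (nat_lit 1) (nat_lit 4) (nat_lit 369) (nat_lit 303) (nat_lit 228)) (XT.lf (nat_lit 0) (nat_lit 5915676287415) (nat_lit 152) (nat_lit 1908450522607) (nat_lit 0) (nat_lit 5900673596391) (nat_lit 1) (nat_lit 5) (nat_lit 3) (nat_lit 4) (nat_lit 1) (nat_lit 4) (nat_lit 370) (nat_lit 303) (nat_lit 227)))) (XT.nd (nat_lit 156) (nat_lit 0) (nat_lit 0) (XT.nd (nat_lit 78) (nat_lit 0) (nat_lit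 0) (XT.lf (nat_lit 0) (nat_lit 6852572255203) (nat_lit 152) (nat_lit 2089232522345) (nat_lit 0) (nat_lit 6837569516476) (nat_lit 1) (nat_lit 5) (nat_lit 3) (nat_lit 4) (nat_lit 1) (nat_lit 4) (nat_lit 371) (nat_lit 303) (nat_lit 226)) (XT.lf (nat_lit 0) (nat_lit 7930002310289) (nat_lit 152) (nat_lit 2297132449049) (nat_lit 0) (nat_lit 7914999530083) (nat_lit 1) (nat_lit 5) (nat_lit 3) (nat_lit 4) (nat_lit 1) (nat_lit 4) (nat_lit 372) (nat_lit 303) (nat_lit 225))) (XT.nd (nat_lit 78) (nat_lit 0) (nat_lit 0) (XT.lf (nat_lit 0) (nat_lit 9169046605927) (nat_lit 152) (nat_lit 2536217909980) (nat_lit 0) (nat_lit 9154043789650) (nat_lit 1) (nat_lit 5) (nat_lit 3) (nat_lit 4) (nat_lit 1) (nat_lit 4) (nat_lit 373) (nat_lit 303) (nat_lit 224)) (XT.lf (nat_lit 0) (nat_lit 10593947313116) (nat_lit 152) (nat_lit 2811166664158) (nat_lit 0) (nat_lit 10578944465475) (nat_lit 1) (nat_lit 5) (nat_lit 3)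 (nat_lit 4) (nat_lit 1) (nat_lit 4) (nat_lit 374) (nat_lit 303) (nat_lit 223)))))) (XT.nd (nat_lit 624) (nat_lit 1444) (nat_lit 0) (XT.nd (nat_lit 312) (nat_lit 1292) (nat_lit 0) (XT.nd (nat_lit 156) (nat_lit 380) (nat_lit 0) (XT.nd (nat_lit 78) (nat_lit 0) (nat_lit 0) (XT.lf (nat_lit 0) (nat_lit 850184267) (nat_lit 0) (nat_lit 850184267) (nat_lit 380) (nat_lit 2281148845) (nat_lit 71) (nat_lit 5) (nat_lit 71) (nat_lit 3) (nat_lit 76) (nat_lit 3) (nat_lit 304) (nat_lit 304) (nat_lit 292)) (XT.lf (nat_lit 76) (nat_lit 976011062) (nat_lit 0) (nat_lit 4912264090) (nat_lit 456) (nat_lit 2491162485) (nat_lit 72) (nat_lit 5) (nat_lit 71) (nat_lit 5) (nat_lit 77) (nat_lit 5) (nat_lit 305) (nat_lit 304) (nat_lit 291))) (XT.nd (nat_lit 78) (nat_lit 456) (nat_lit 0) (XT.lf (nat_lit 76) (nat_lit 531029411) (nat_lit 0) (nat_lit 8099073417) (nat_lit 456) (nat_lit 238101776) (nat_lit 73) (nat_lit 5)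 (nat_lit 72) (nat_lit 5) (nat_lit 78) (nat_lit 5) (nat_lit 306) (nat_lit 304) (nat_lit 290)) (XT.lf (nat_lit 76) (nat_lit 239413040) (nat_lit 0) (nat_lit 2017144542) (nat_lit 532) (nat_lit 7167813787) (nat_lit 67) (nat_lit 5) (nat_lit 66) (nat_lit 5) (nat_lit 73) (nat_lit 5) (nat_lit 307) (nat_lit 304) (nat_lit 289)))) (XT.nd (nat_lit 156) (nat_lit 532) (nat_lit 0) (XT.nd (nat_lit 78) (nat_lit 380) (nat_lit 0) (XT.lf (nat_lit 0) (nat_lit 169805440) (nat_lit 456) (nat_lit 5013435607) (nat_lit 532) (nat_lit 4874750977) (nat_lit 61) (nat_lit 5) (nat_lit 67) (nat_lit 5) (nat_lit 68) (nat_lit 5) (nat_lit 308) (nat_lit 304) (nat_lit 288)) (XT.lf (nat_lit 0) (nat_lit 352183819) (nat_lit 380) (nat_lit 8321047177) (nat_lit 456) (nat_lit 2103721775) (nat_lit 56) (nat_lit 5) (nat_lit 61) (nat_lit 5) (nat_lit 62) (nat_lit 5) (nat_lit 309) (nat_lit 304) (nat_lit 287))) (XT.nd (nat_lit 78) (nat_lit 228)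 (nat_lit 0) (XT.lf (nat_lit 0) (nat_lit 753466089) (nat_lit 228) (nat_lit 482650161) (nat_lit 304) (nat_lit 10349165768) (nat_lit 52) (nat_lit 5) (nat_lit 55) (nat_lit 5) (nat_lit 56) (nat_lit 5) (nat_lit 310) (nat_lit 304) (nat_lit 286)) (XT.lf (nat_lit 0) (nat_lit 1288303589) (nat_lit 228) (nat_lit 3996144725) (nat_lit 304) (nat_lit 7199643346) (nat_lit 49) (nat_lit 5) (nat_lit 52) (nat_lit 5) (nat_lit 53) (nat_lit 5) (nat_lit 311) (nat_lit 304) (nat_lit 285))))) (XT.nd (nat_lit 312) (nat_lit 684) (nat_lit 0) (XT.nd (nat_lit 156) (nat_lit 304) (nat_lit 0) (XT.nd (nat_lit 78) (nat_lit 304) (nat_lit 0) (XT.lf (nat_lit 0) (nat_lit 2099746766) (nat_lit 152) (nat_lit 8156910112) (nat_lit 228) (nat_lit 3235882648) (nat_lit 47) (nat_lit 5) (nat_lit 49) (nat_lit 5) (nat_lit 50) (nat_lit 5) (nat_lit 312) (nat_lit 304) (nat_lit 284)) (XT.lf (nat_lit 0) (nat_lit 1636080935) (nat_lit 304) (nat_lit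 11446223054) (nat_lit 76) (nat_lit 1537141076) (nat_lit 43) (nat_lit 5) (nat_lit 47) (nat_lit 5) (nat_lit 44) (nat_lit 5) (nat_lit 313) (nat_lit 304) (nat_lit 283))) (XT.nd (nat_lit 78) (nat_lit 152) (nat_lit 0) (XT.lf (nat_lit 0) (nat_lit 4393180136) (nat_lit 152) (nat_lit 3166852504) (nat_lit 228) (nat_lit 8307709225) (nat_lit 41) (nat_lit 5) (nat_lit 43) (nat_lit 5) (nat_lit 44) (nat_lit 5) (nat_lit 314) (nat_lit 304) (nat_lit 282)) (XT.lf (nat_lit 0) (nat_lit 5893909337) (nat_lit 152) (nat_lit 9011109090) (nat_lit 228) (nat_lit 2355758896) (nat_lit 39) (nat_lit 5) (nat_lit 41) (nat_lit 5) (nat_lit 42) (nat_lit 5) (nat_lit 315) (nat_lit 304) (nat_lit 281)))) (XT.nd (nat_lit 156) (nat_lit 304) (nat_lit 0) (XT.nd (nat_lit 78) (nat_lit 152) (nat_lit 0) (XT.lf (nat_lit 0) (nat_lit 4812856505) (nat_lit 228) (nat_lit 11187759148) (nat_lit 76) (nat_lit 2809713272) (nat_lit 36) (nat_lit 5) (nat_lit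 39) (nat_lit 5) (nat_lit 37) (nat_lit 5) (nat_lit 316) (nat_lit 304) (nat_lit 280)) (XT.lf (nat_lit 0) (nat_lit 9538224655) (nat_lit 152) (nat_lit 4074829796) (nat_lit 228) (nat_lit 6918764159) (nat_lit 34) (nat_lit 5) (nat_lit 36) (nat_lit 5) (nat_lit 37) (nat_lit 5) (nat_lit 317) (nat_lit 304) (nat_lit 279))) (XT.nd (nat_lit 78) (nat_lit 152) (nat_lit 0) (XT.lf (nat_lit 0) (nat_lit 1911651067) (nat_lit 152) (nat_lit 10779824244) (nat_lit 76) (nat_lit 9757674797) (nat_lit 32) (nat_lit 5) (nat_lit 34) (nat_lit 5) (nat_lit 33) (nat_lit 5) (nat_lit 318) (nat_lit 304) (nat_lit 278)) (XT.lf (nat_lit 0) (nat_lit 12377526299) (nat_lit 228) (nat_lit 10648185381) (nat_lit 76) (nat_lit 1556391580) (nat_lit 30) (nat_lit 5) (nat_lit 33) (nat_lit 5) (nat_lit 31) (nat_lit 4) (nat_lit 319) (nat_lit 304) (nat_lit 277))))))))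
noncomputable def xc28 : XT := (XT.nd (nat_lit 2340) (nat_lit 152) (nat_lit 0) (XT.nd (nat_lit 1170) (nat_lit 532) (nat_lit 0) (XT.nd (nat_lit 546) (nat_lit 684) (nat_lit 0) (XT.nd (nat_lit 234) (nat_lit 456) (nat_lit 0) (XT.nd (nat_lit 78) (nat_lit 304) (nat_lit 0) (XT.lf (nat_lit 0) (nat_lit 16282642386) (nat_lit 76) (nat_lit 9096051440) (nat_lit 152) (nat_lit 1579110803) (nat_lit 29) (nat_lit 5) (nat_lit 30) (nat_lit 5) (nat_lit 31) (nat_lit 4) (nat_lit 320) (nat_lit 304) (nat_lit 276)) (XT.nd (nat_lit 78) (nat_lit 76) (nat_lit 0) (XT.lf (nat_lit 0) (nat_lit 10975905924) (nat_lit 228) (nat_lit 11060934984) (nat_lit 76) (nat_lit 7563139649) (nat_lit 26) (nat_lit 5) (nat_lit 29) (nat_lit 5) (nat_lit 27) (nat_lit 4) (nat_lit 321) (nat_lit 304) (nat_lit 275)) (XT.lf (nat_lit 0) (nat_lit 20750508810) (nat_lit 76) (nat_lit 5556925537) (nat_lit 152) (nat_lit 6248853137) (nat_lit 25) (nat_lit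 5) (nat_lit 26) (nat_lit 5) (nat_lit 27) (nat_lit 4) (nat_lit 322) (nat_lit 304) (nat_lit 274)))) (XT.nd (nat_lit 156) (nat_lit 228) (nat_lit 0) (XT.nd (nat_lit 78) (nat_lit 76) (nat_lit 0) (XT.lf (nat_lit 0) (nat_lit 8732641623) (nat_lit 152) (nat_lit 13351752087) (nat_lit 76) (nat_lit 13764364427) (nat_lit 23) (nat_lit 5) (nat_lit 25) (nat_lit 5) (nat_lit 24) (nat_lit 4) (nat_lit 323) (nat_lit 304) (nat_lit 273)) (XT.lf (nat_lit 0) (nat_lit 23770210491) (nat_lit 76) (nat_lit 2835829066) (nat_lit 152) (nat_lit 12934919426) (nat_lit 22) (nat_lit 5) (nat_lit 23) (nat_lit 5) (nat_lit 24) (nat_lit 4) (nat_lit 324) (nat_lit 304) (nat_lit 272))) (XT.nd (nat_lit 78) (nat_lit 76) (nat_lit 0) (XT.lf (nat_lit 0) (nat_lit 4614799313) (nat_lit 152) (nat_lit 19677070632) (nat_lit 76) (nat_lit 19375836832) (nat_lit 20) (nat_lit 5) (nat_lit 22) (nat_lit 5) (nat_lit 21) (nat_lit 4) (nat_lit 325) (nat_lit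 304) (nat_lit 271)) (XT.lf (nat_lit 0) (nat_lit 22869462805) (nat_lit 76) (nat_lit 2218814538) (nat_lit 152) (nat_lit 23213749284) (nat_lit 19) (nat_lit 5) (nat_lit 20) (nat_lit 5) (nat_lit 21) (nat_lit 4) (nat_lit 326) (nat_lit 304) (nat_lit 270))))) (XT.nd (nat_lit 312) (nat_lit 304) (nat_lit 0) (XT.nd (nat_lit 156) (nat_lit 152) (nat_lit 0) (XT.nd (nat_lit 78) (nat_lit 152) (nat_lit 0) (XT.lf (nat_lit 0) (nat_lit 19703372955) (nat_lit 76) (nat_lit 30488489667) (nat_lit 76) (nat_lit 3314916364) (nat_lit 18) (nat_lit 4) (nat_lit 19) (nat_lit 5) (nat_lit 19) (nat_lit 4) (nat_lit 327) (nat_lit 304) (nat_lit 269)) (XT.lf (nat_lit 0) (nat_lit 13745753926) (nat_lit 76) (nat_lit 5939891712) (nat_lit 152) (nat_lit 39681292479) (nat_lit 16) (nat_lit 5) (nat_lit 17) (nat_lit 5) (nat_lit 18) (nat_lit 4) (nat_lit 328) (nat_lit 304) (nat_lit 268))) (XT.nd (nat_lit 78) (nat_lit 76) (nat_lit 0) (XT.lf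 (nat_lit 0) (nat_lit 3886725789) (nat_lit 76) (nat_lit 43646112577) (nat_lit 76) (nat_lit 18438976463) (nat_lit 15) (nat_lit 4) (nat_lit 16) (nat_lit 5) (nat_lit 16) (nat_lit 4) (nat_lit 329) (nat_lit 304) (nat_lit 267)) (XT.lf (nat_lit 0) (nat_lit 7168329033) (nat_lit 152) (nat_lit 10315786281) (nat_lit 76) (nat_lit 55953528340) (nat_lit 14) (nat_lit 5) (nat_lit 16) (nat_lit 5) (nat_lit 15) (nat_lit 4) (nat_lit 330) (nat_lit 304) (nat_lit 266)))) (XT.nd (nat_lit 156) (nat_lit 152) (nat_lit 0) (XT.nd (nat_lit 78) (nat_lit 76) (nat_lit 0) (XT.lf (nat_lit 0) (nat_lit 37091981481) (nat_lit 152) (nat_lit 31048152201) (nat_lit 0) (nat_lit 13719540396) (nat_lit 13) (nat_lit 5) (nat_lit 15) (nat_lit 4) (nat_lit 13) (nat_lit 4) (nat_lit 331) (nat_lit 304) (nat_lit 265)) (XT.lf (nat_lit 0) (nat_lit 31203124771) (nat_lit 76) (nat_lit 41803634365) (nat_lit 76) (nat_lit 18418048593) (nat_lit 12) (nat_lit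 4) (nat_lit 13) (nat_lit 5) (nat_lit 13) (nat_lit 4) (nat_lit 332) (nat_lit 304) (nat_lit 264))) (XT.nd (nat_lit 78) (nat_lit 0) (nat_lit 0) (XT.lf (nat_lit 0) (nat_lit 2039197942) (nat_lit 76) (nat_lit 10189751037) (nat_lit 152) (nat_lit 90097749844) (nat_lit 10) (nat_lit 5) (nat_lit 11) (nat_lit 5) (nat_lit 12) (nat_lit 4) (nat_lit 333) (nat_lit 304) (nat_lit 263)) (XT.lf (nat_lit 0) (nat_lit 48806932551) (nat_lit 152) (nat_lit 38690888048) (nat_lit 0) (nat_lit 27133825878) (nat_lit 10) (nat_lit 5) (nat_lit 12) (nat_lit 4) (nat_lit 10) (nat_lit 4) (nat_lit 334) (nat_lit 304) (nat_lit 262)))))) (XT.nd (nat_lit 546) (nat_lit 76) (nat_lit 0) (XT.nd (nat_lit 234) (nat_lit 228) (nat_lit 0) (XT.nd (nat_lit 78) (nat_lit 152) (nat_lit 0) (XT.lf (nat_lit 0) (nat_lit 33478016762) (nat_lit 76) (nat_lit 58450442081) (nat_lit 76) (nat_lit 36769332773) (nat_lit 9) (nat_lit 4) (nat_lit 10) (nat_lit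 5) (nat_lit 10) (nat_lit 4) (nat_lit 335) (nat_lit 304) (nat_lit 261)) (XT.nd (nat_lit 78) (nat_lit 152) (nat_lit 0) (XT.lf (nat_lit 0) (nat_lit 118760263014) (nat_lit 76) (nat_lit 23856876099) (nat_lit 76) (nat_lit 2168807978) (nat_lit 9) (nat_lit 4) (nat_lit 10) (nat_lit 5) (nat_lit 10) (nat_lit 4) (nat_lit 336) (nat_lit 304) (nat_lit 260)) (XT.lf (nat_lit 0) (nat_lit 37487240272) (nat_lit 152) (nat_lit 108187815324) (nat_lit 0) (nat_lit 17400092807) (nat_lit 7) (nat_lit 5) (nat_lit 9) (nat_lit 4) (nat_lit 7) (nat_lit 4) (nat_lit 337) (nat_lit 304) (nat_lit 259)))) (XT.nd (nat_lit 156) (nat_lit 152) (nat_lit 0) (XT.nd (nat_lit 78) (nat_lit 76) (nat_lit 0) (XT.lf (nat_lit 0) (nat_lit 84381168675) (nat_lit 152) (nat_lit 35319476060) (nat_lit 0) (nat_lit 64289149115) (nat_lit 7) (nat_lit 5) (nat_lit 9) (nat_lit 4) (nat_lit 7) (nat_lit 4) (nat_lit 338) (nat_lit 304) (nat_lit 258)) (XT.lf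 (nat_lit 0) (nat_lit 50989634966) (nat_lit 76) (nat_lit 88525876435) (nat_lit 76) (nat_lit 68429620271) (nat_lit 6) (nat_lit 4) (nat_lit 7) (nat_lit 5) (nat_lit 7) (nat_lit 4) (nat_lit 339) (nat_lit 304) (nat_lit 257))) (XT.nd (nat_lit 78) (nat_lit 152) (nat_lit 0) (XT.lf (nat_lit 0) (nat_lit 152347167285) (nat_lit 76) (nat_lit 51582870899) (nat_lit 76) (nat_lit 31482930732) (nat_lit 6) (nat_lit 4) (nat_lit 7) (nat_lit 5) (nat_lit 7) (nat_lit 4) (nat_lit 340) (nat_lit 304) (nat_lit 256)) (XT.lf (nat_lit 0) (nat_lit 1694582520) (nat_lit 76) (nat_lit 8785093521) (nat_lit 152) (nat_lit 256498174363) (nat_lit 4) (nat_lit 5) (nat_lit 5) (nat_lit 5) (nat_lit 6) (nat_lit 4) (nat_lit 341) (nat_lit 304) (nat_lit 255))))) (XT.nd (nat_lit 312) (nat_lit 0) (nat_lit 0) (XT.nd (nat_lit 156) (nat_lit 76) (nat_lit 0) (XT.nd (nat_lit 78) (nat_lit 0) (nat_lit 0) (XT.lf (nat_lit 0) (nat_lit 60363868107) (nat_lit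 152) (nat_lit 200821604157) (nat_lit 0) (nat_lit 41747266918) (nat_lit 4) (nat_lit 5) (nat_lit 6) (nat_lit 4) (nat_lit 4) (nat_lit 4) (nat_lit 342) (nat_lit 304) (nat_lit 254)) (XT.lf (nat_lit 0) (nat_lit 117960400555) (nat_lit 152) (nat_lit 126960528121) (nat_lit 0) (nat_lit 99341556503) (nat_lit 4) (nat_lit 5) (nat_lit 6) (nat_lit 4) (nat_lit 4) (nat_lit 4) (nat_lit 343) (nat_lit 304) (nat_lit 253))) (XT.nd (nat_lit 78) (nat_lit 76) (nat_lit 0) (XT.lf (nat_lit 0) (nat_lit 184184880354) (nat_lit 152) (nat_lit 42043650055) (nat_lit 0) (nat_lit 165564085987) (nat_lit 4) (nat_lit 5) (nat_lit 6) (nat_lit 4) (nat_lit 4) (nat_lit 4) (nat_lit 344) (nat_lit 304) (nat_lit 252)) (XT.lf (nat_lit 0) (nat_lit 58517741653) (nat_lit 76) (nat_lit 203222615289) (nat_lit 76) (nat_lit 184600124995) (nat_lit 3) (nat_lit 4) (nat_lit 4) (nat_lit 5) (nat_lit 4) (nat_lit 4) (nat_lit 345) (nat_lit 304) (nat_lit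 251)))) (XT.nd (nat_lit 156) (nat_lit 0) (nat_lit 0) (XT.nd (nat_lit 78) (nat_lit 0) (nat_lit 0) (XT.lf (nat_lit 0) (nat_lit 176690784689) (nat_lit 76) (nat_lit 175453258558) (nat_lit 76) (nat_lit 156829293545) (nat_lit 3) (nat_lit 4) (nat_lit 4) (nat_lit 5) (nat_lit 4) (nat_lit 4) (nat_lit 346) (nat_lit 304) (nat_lit 250)) (XT.lf (nat_lit 0) (nat_lit 312573616225) (nat_lit 76) (nat_lit 143526694617) (nat_lit 76) (nat_lit 124901447240) (nat_lit 3) (nat_lit 4) (nat_lit 4) (nat_lit 5) (nat_lit 4) (nat_lit 4) (nat_lit 347) (nat_lit 304) (nat_lit 249))) (XT.nd (nat_lit 78) (nat_lit 0) (nat_lit 0) (XT.lf (nat_lit 0) (nat_lit 468824813400) (nat_lit 76) (nat_lit 106818273303) (nat_lit 76) (nat_lit 88191910826) (nat_lit 3) (nat_lit 4) (nat_lit 4) (nat_lit 5) (nat_lit 4) (nat_lit 4) (nat_lit 348) (nat_lit 304) (nat_lit 248)) (XT.lf (nat_lit 0) (nat_lit 648501464853) (nat_lit 76) (nat_lit 64609786371)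 (nat_lit 76) (nat_lit 45982454243) (nat_lit 3) (nat_lit 4) (nat_lit 4) (nat_lit 5) (nat_lit 4) (nat_lit 4) (nat_lit 349) (nat_lit 304) (nat_lit 247))))))) (XT.nd (nat_lit 1170) (nat_lit 0) (nat_lit 0) (XT.nd (nat_lit 546) (nat_lit 0) (nat_lit 0) (XT.nd (nat_lit 234) (nat_lit 0) (nat_lit 0) (XT.nd (nat_lit 78) (nat_lit 76) (nat_lit 0) (XT.lf (nat_lit 0) (nat_lit 2425060324) (nat_lit 152) (nat_lit 13584049828) (nat_lit 76) (nat_lit 852627617559) (nat_lit 2) (nat_lit 5) (nat_lit 4) (nat_lit 5) (nat_lit 3) (nat_lit 4) (nat_lit 350) (nat_lit 304) (nat_lit 246)) (XT.nd (nat_lit 78) (nat_lit 0) (nat_lit 0) (XT.lf (nat_lit 0) (nat_lit 58947370303) (nat_lit 152) (nat_lit 893583796919) (nat_lit 0) (nat_lit 41698380952) (nat_lit 1) (nat_lit 5) (nat_lit 3) (nat_lit 4) (nat_lit 1) (nat_lit 4) (nat_lit 351) (nat_lit 304) (nat_lit 245)) (XT.lf (nat_lit 0) (nat_lit 124792174995) (nat_lit 152) (nat_lit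 906258989762) (nat_lit 0) (nat_lit 107542595309) (nat_lit 1) (nat_lit 5) (nat_lit 3) (nat_lit 4) (nat_lit 1) (nat_lit 4) (nat_lit 352) (nat_lit 304) (nat_lit 244)))) (XT.nd (nat_lit 156) (nat_lit 0) (nat_lit 0) (XT.nd (nat_lit 78) (nat_lit 0) (nat_lit 0) (XT.lf (nat_lit 0) (nat_lit 200509890372) (nat_lit 152) (nat_lit 920843221010) (nat_lit 0) (nat_lit 183259797352) (nat_lit 1) (nat_lit 5) (nat_lit 3) (nat_lit 4) (nat_lit 1) (nat_lit 4) (nat_lit 353) (nat_lit 304) (nat_lit 243)) (XT.lf (nat_lit 0) (nat_lit 287581949995) (nat_lit 152) (nat_lit 937621834320) (nat_lit 0) (nat_lit 270331410597) (nat_lit 1) (nat_lit 5) (nat_lit 3) (nat_lit 4) (nat_lit 1) (nat_lit 4) (nat_lit 354) (nat_lit 304) (nat_lit 242))) (XT.nd (nat_lit 78) (nat_lit 0) (nat_lit 0) (XT.lf (nat_lit 0) (nat_lit 387711937639) (nat_lit 152) (nat_lit 956923106907) (nat_lit 0) (nat_lit 370461010086) (nat_lit 1) (nat_lit 5) (nat_lit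 3) (nat_lit 4) (nat_lit 1) (nat_lit 4) (nat_lit 355) (nat_lit 304) (nat_lit 241)) (XT.lf (nat_lit 0) (nat_lit 502858918281) (nat_lit 152) (nat_lit 979124672366) (nat_lit 0) (nat_lit 485607653202) (nat_lit 1) (nat_lit 5) (nat_lit 3) (nat_lit 4) (nat_lit 1) (nat_lit 4) (nat_lit 356) (nat_lit 304) (nat_lit 240))))) (XT.nd (nat_lit 312) (nat_lit 0) (nat_lit 0) (XT.nd (nat_lit 156) (nat_lit 0) (nat_lit 0) (XT.nd (nat_lit 78) (nat_lit 0) (nat_lit 0) (XT.lf (nat_lit 0) (nat_lit 635275767627) (nat_lit 152) (nat_lit 1004660909152) (nat_lit 0) (nat_lit 618024209047) (nat_lit 1) (nat_lit 5) (nat_lit 3) (nat_lit 4) (nat_lit 1) (nat_lit 4) (nat_lit 357) (nat_lit 304) (nat_lit 239)) (XT.lf (nat_lit 0) (nat_lit 787553250122) (nat_lit 152) (nat_lit 1034031439288) (nat_lit 0) (nat_lit 770301436324) (nat_lit 1) (nat_lit 5) (nat_lit 3) (nat_lit 4) (nat_lit 1) (nat_lit 4) (nat_lit 358) (nat_lit 304) (nat_lit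 238))) (XT.nd (nat_lit 78) (nat_lit 0) (nat_lit 0) (XT.lf (nat_lit 0) (nat_lit 962670707815) (nat_lit 152) (nat_lit 1067810903581) (nat_lit 0) (nat_lit 945418672089) (nat_lit 1) (nat_lit 5) (nat_lit 3) (nat_lit 4) (nat_lit 1) (nat_lit 4) (nat_lit 359) (nat_lit 304) (nat_lit 237)) (XT.lf (nat_lit 0) (nat_lit 1164054351835) (nat_lit 152) (nat_lit 1106660204595) (nat_lit 0) (nat_lit 1146802123127) (nat_lit 1) (nat_lit 5) (nat_lit 3) (nat_lit 4) (nat_lit 1) (nat_lit 4) (nat_lit 360) (nat_lit 304) (nat_lit 236)))) (XT.nd (nat_lit 156) (nat_lit 0) (nat_lit 0) (XT.nd (nat_lit 78) (nat_lit 0) (nat_lit 0) (XT.lf (nat_lit 0) (nat_lit 1395644296955) (nat_lit 152) (nat_lit 1151339437348) (nat_lit 0) (nat_lit 1378391900437) (nat_lit 1) (nat_lit 5) (nat_lit 3) (nat_lit 4) (nat_lit 1) (nat_lit 4) (nat_lit 361) (nat_lit 304) (nat_lit 235)) (XT.lf (nat_lit 0) (nat_lit 1661971650798) (nat_lit 152) (nat_lit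 1202722760743) (nat_lit 0) (nat_lit 1644719108358) (nat_lit 1) (nat_lit 5) (nat_lit 3) (nat_lit 4) (nat_lit 1) (nat_lit 4) (nat_lit 362) (nat_lit 304) (nat_lit 234))) (XT.nd (nat_lit 78) (nat_lit 0) (nat_lit 0) (XT.lf (nat_lit 0) (nat_lit 1968247165939) (nat_lit 152) (nat_lit 1261815500671) (nat_lit 0) (nat_lit 1950994496610) (nat_lit 1) (nat_lit 5) (nat_lit 3) (nat_lit 4) (nat_lit 1) (nat_lit 4) (nat_lit 363) (nat_lit 304) (nat_lit 233)) (XT.lf (nat_lit 0) (nat_lit 2320463189413) (nat_lit 152) (nat_lit 1329773819436) (nat_lit 0) (nat_lit 2303210409747) (nat_lit 1) (nat_lit 5) (nat_lit 3) (nat_lit 4) (nat_lit 1) (nat_lit 4) (nat_lit 364) (nat_lit 304) (nat_lit 232)))))) (XT.nd (nat_lit 624) (nat_lit 0) (nat_lit 0) (XT.nd (nat_lit 312) (nat_lit 0) (nat_lit 0) (XT.nd (nat_lit 156) (nat_lit 0) (nat_lit 0) (XT.nd (nat_lit 78) (nat_lit 0) (nat_lit 0) (XT.lf (nat_lit 0) (nat_lit 2725510904288)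 (nat_lit 152) (nat_lit 1407927336318) (nat_lit 0) (nat_lit 2708258028676) (nat_lit 1) (nat_lit 5) (nat_lit 3) (nat_lit 4) (nat_lit 1) (nat_lit 4) (nat_lit 365) (nat_lit 304) (nat_lit 231)) (XT.lf (nat_lit 0) (nat_lit 3191315157160) (nat_lit 152) (nat_lit 1497805141865) (nat_lit 0) (nat_lit 3174062198117) (nat_lit 1) (nat_lit 5) (nat_lit 3) (nat_lit 4) (nat_lit 1) (nat_lit 4) (nat_lit 366) (nat_lit 304) (nat_lit 230))) (XT.nd (nat_lit 78) (nat_lit 0) (nat_lit 0) (XT.lf (nat_lit 0) (nat_lit 3726989509498) (nat_lit 152) (nat_lit 1601165714881) (nat_lit 0) (nat_lit 3709736477905) (nat_lit 1) (nat_lit 5) (nat_lit 3) (nat_lit 4) (nat_lit 1) (nat_lit 4) (nat_lit 367) (nat_lit 304) (nat_lit 229)) (XT.lf (nat_lit 0) (nat_lit 4343014546456) (nat_lit 152) (nat_lit 1720031327447) (nat_lit 0) (nat_lit 4325761451777) (nat_lit 1) (nat_lit 5) (nat_lit 3) (nat_lit 4) (nat_lit 1) (nat_lit 4) (nat_lit 368)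 (nat_lit 304) (nat_lit 228)))) (XT.nd (nat_lit 156) (nat_lit 0) (nat_lit 0) (XT.nd (nat_lit 78) (nat_lit 0) (nat_lit 0) (XT.lf (nat_lit 0) (nat_lit 5051442931800) (nat_lit 152) (nat_lit 1856727611112) (nat_lit 0) (nat_lit 5034189782265) (nat_lit 1) (nat_lit 5) (nat_lit 3) (nat_lit 4) (nat_lit 1) (nat_lit 4) (nat_lit 369) (nat_lit 304) (nat_lit 227)) (XT.lf (nat_lit 0) (nat_lit 5866135220898) (nat_lit 152) (nat_lit 2013929058384) (nat_lit 0) (nat_lit 5848882023660) (nat_lit 1) (nat_lit 5) (nat_lit 3) (nat_lit 4) (nat_lit 1) (nat_lit 4) (nat_lit 370) (nat_lit 304) (nat_lit 226))) (XT.nd (nat_lit 78) (nat_lit 0) (nat_lit 0) (XT.lf (nat_lit 0) (nat_lit 6803031045490) (nat_lit 152) (nat_lit 2194711349752) (nat_lit 0) (nat_lit 6785777806772) (nat_lit 1) (nat_lit 5) (nat_lit 3) (nat_lit 4) (nat_lit 1) (nat_lit 4) (nat_lit 371) (nat_lit 304) (nat_lit 225)) (XT.lf (nat_lit 0) (nat_lit 7880460976059)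 (nat_lit 152) (nat_lit 2402611530047) (nat_lit 0) (nat_lit 7863207701272) (nat_lit 1) (nat_lit 5) (nat_lit 3) (nat_lit 4) (nat_lit 1) (nat_lit 4) (nat_lit 372) (nat_lit 304) (nat_lit 224))))) (XT.nd (nat_lit 41730) (nat_lit 0) (nat_lit 4180) (XT.nd (nat_lit 41574) (nat_lit 0) (nat_lit 4864) (XT.nd (nat_lit 78) (nat_lit 0) (nat_lit 0) (XT.lf (nat_lit 0) (nat_lit 9119505163421) (nat_lit 152) (nat_lit 2641697211493) (nat_lit 0) (nat_lit 9102251857268) (nat_lit 1) (nat_lit 5) (nat_lit 3) (nat_lit 4) (nat_lit 1) (nat_lit 4) (nat_lit 373) (nat_lit 304) (nat_lit 223)) (XT.lf (nat_lit 0) (nat_lit 10544405776457) (nat_lit 152) (nat_lit 2916646157423) (nat_lit 0) (nat_lit 10527152443031) (nat_lit 1) (nat_lit 5) (nat_lit 3) (nat_lit 4) (nat_lit 1) (nat_lit 4) (nat_lit 374) (nat_lit 304) (nat_lit 222))) (XT.nd (nat_lit 78) (nat_lit 456) (nat_lit 0) (XT.lf (nat_lit 0) (nat_lit 1994695445) (nat_lit 0)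 (nat_lit 1994695445) (nat_lit 380) (nat_lit 424502804) (nat_lit 71) (nat_lit 5) (nat_lit 71) (nat_lit 3) (nat_lit 76) (nat_lit 3) (nat_lit 305) (nat_lit 305) (nat_lit 290)) (XT.lf (nat_lit 0) (nat_lit 922061880) (nat_lit 456) (nat_lit 6041366831) (nat_lit 532) (nat_lit 2383513211) (nat_lit 65) (nat_lit 5) (nat_lit 71) (nat_lit 5) (nat_lit 72) (nat_lit 5) (nat_lit 306) (nat_lit 305) (nat_lit 289)))) (XT.nd (nat_lit 156) (nat_lit 684) (nat_lit 0) (XT.nd (nat_lit 78) (nat_lit 0) (nat_lit 76) (XT.lf (nat_lit 76) (nat_lit 2842014996) (nat_lit 0) (nat_lit 96892305) (nat_lit 532) (nat_lit 7001144602) (nat_lit 66) (nat_lit 5) (nat_lit 65) (nat_lit 5) (nat_lit 72) (nat_lit 5) (nat_lit 307) (nat_lit 305) (nat_lit 288)) (XT.lf (nat_lit 76) (nat_lit 2550402748) (nat_lit 0) (nat_lit 2879090360) (nat_lit 532) (nat_lit 5179179500) (nat_lit 67) (nat_lit 5) (nat_lit 66) (nat_lit 5) (nat_lit 73) (nat_lit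 5) (nat_lit 308) (nat_lit 305) (nat_lit 287))) (XT.nd (nat_lit 78) (nat_lit 380) (nat_lit 0) (XT.lf (nat_lit 0) (nat_lit 2500034997) (nat_lit 456) (nat_lit 5969164256) (nat_lit 532) (nat_lit 2894554406) (nat_lit 61) (nat_lit 5) (nat_lit 67) (nat_lit 5) (nat_lit 68) (nat_lit 5) (nat_lit 309) (nat_lit 305) (nat_lit 286)) (XT.lf (nat_lit 0) (nat_lit 2704927941) (nat_lit 380) (nat_lit 9501620526) (nat_lit 456) (nat_lit 6395895) (nat_lit 56) (nat_lit 5) (nat_lit 61) (nat_lit 5) (nat_lit 62) (nat_lit 5) (nat_lit 310) (nat_lit 305) (nat_lit 285))))))))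
noncomputable def xc29 : XT := (XT.nd (nat_lit 2418) (nat_lit 380) (nat_lit 0) (XT.nd (nat_lit 1170) (nat_lit 1216) (nat_lit 0) (XT.nd (nat_lit 546) (nat_lit 1064) (nat_lit 0) (XT.nd (nat_lit 234) (nat_lit 836) (nat_lit 0) (XT.nd (nat_lit 78) (nat_lit 380) (nat_lit 0) (XT.lf (nat_lit 0) (nat_lit 3083876648) (nat_lit 228) (nat_lit 384186998) (nat_lit 304) (nat_lit 9689706393) (nat_lit 52) (nat_lit 5) (nat_lit 55) (nat_lit 5) (nat_lit 56) (nat_lit 5) (nat_lit 311) (nat_lit 305) (nat_lit 284)) (XT.nd (nat_lit 78) (nat_lit 152) (nat_lit 0) (XT.lf (nat_lit 0) (nat_lit 3658799416) (nat_lit 228) (nat_lit 4253843556) (nat_lit 304) (nat_lit 6295844692) (nat_lit 49) (nat_lit 5) (nat_lit 52) (nat_lit 5) (nat_lit 53) (nat_lit 5) (nat_lit 312) (nat_lit 305) (nat_lit 283)) (XT.lf (nat_lit 0) (nat_lit 4535814735) (nat_lit 152) (nat_lit 8913610589) (nat_lit 228) (nat_lit 1933457407) (nat_lit 47) (nat_lit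 5) (nat_lit 49) (nat_lit 5) (nat_lit 50) (nat_lit 5) (nat_lit 313) (nat_lit 305) (nat_lit 282)))) (XT.nd (nat_lit 156) (nat_lit 380) (nat_lit 0) (XT.nd (nat_lit 78) (nat_lit 152) (nat_lit 0) (XT.lf (nat_lit 0) (nat_lit 3419026859) (nat_lit 304) (nat_lit 11027707391) (nat_lit 76) (nat_lit 2241661803) (nat_lit 43) (nat_lit 5) (nat_lit 47) (nat_lit 5) (nat_lit 44) (nat_lit 5) (nat_lit 314) (nat_lit 305) (nat_lit 281)) (XT.lf (nat_lit 0) (nat_lit 7006851146) (nat_lit 152) (nat_lit 3071182726) (nat_lit 228) (nat_lit 8058312115) (nat_lit 41) (nat_lit 5) (nat_lit 43) (nat_lit 5) (nat_lit 44) (nat_lit 5) (nat_lit 315) (nat_lit 305) (nat_lit 280))) (XT.nd (nat_lit 78) (nat_lit 228) (nat_lit 0) (XT.lf (nat_lit 0) (nat_lit 8656785503) (nat_lit 152) (nat_lit 9744580739) (nat_lit 228) (nat_lit 1346951856) (nat_lit 39) (nat_lit 5) (nat_lit 41) (nat_lit 5) (nat_lit 42) (nat_lit 5) (nat_lit 316) (nat_lit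 305) (nat_lit 279)) (XT.lf (nat_lit 0) (nat_lit 6717685185) (nat_lit 228) (nat_lit 11003918890) (nat_lit 76) (nat_lit 3815055845) (nat_lit 36) (nat_lit 5) (nat_lit 39) (nat_lit 5) (nat_lit 37) (nat_lit 5) (nat_lit 317) (nat_lit 305) (nat_lit 278))))) (XT.nd (nat_lit 312) (nat_lit 532) (nat_lit 0) (XT.nd (nat_lit 156) (nat_lit 228) (nat_lit 0) (XT.nd (nat_lit 78) (nat_lit 152) (nat_lit 0) (XT.lf (nat_lit 0) (nat_lit 12673353108) (nat_lit 152) (nat_lit 4051259118) (nat_lit 228) (nat_lit 6800901357) (nat_lit 34) (nat_lit 5) (nat_lit 36) (nat_lit 5) (nat_lit 37) (nat_lit 5) (nat_lit 318) (nat_lit 305) (nat_lit 277)) (XT.lf (nat_lit 0) (nat_lit 3206779928) (nat_lit 152) (nat_lit 10718344396) (nat_lit 76) (nat_lit 11810317298) (nat_lit 32) (nat_lit 5) (nat_lit 34) (nat_lit 5) (nat_lit 33) (nat_lit 5) (nat_lit 319) (nat_lit 305) (nat_lit 276))) (XT.nd (nat_lit 78) (nat_lit 76) (nat_lit 0) (XT.lf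 (nat_lit 0) (nat_lit 15162931461) (nat_lit 228) (nat_lit 10650544216) (nat_lit 76) (nat_lit 2381284012) (nat_lit 30) (nat_lit 5) (nat_lit 33) (nat_lit 5) (nat_lit 31) (nat_lit 4) (nat_lit 320) (nat_lit 305) (nat_lit 275)) (XT.lf (nat_lit 0) (nat_lit 20184910002) (nat_lit 76) (nat_lit 9843329330) (nat_lit 152) (nat_lit 905506274) (nat_lit 29) (nat_lit 5) (nat_lit 30) (nat_lit 5) (nat_lit 31) (nat_lit 4) (nat_lit 321) (nat_lit 305) (nat_lit 274)))) (XT.nd (nat_lit 156) (nat_lit 228) (nat_lit 0) (XT.nd (nat_lit 78) (nat_lit 76) (nat_lit 0) (XT.lf (nat_lit 0) (nat_lit 13421809750) (nat_lit 228) (nat_lit 11293012639) (nat_lit 76) (nat_lit 9260943895) (nat_lit 26) (nat_lit 5) (nat_lit 29) (nat_lit 5) (nat_lit 27) (nat_lit 4) (nat_lit 322) (nat_lit 305) (nat_lit 273)) (XT.lf (nat_lit 0) (nat_lit 25169353984) (nat_lit 76) (nat_lit 5810844303) (nat_lit 152) (nat_lit 6401183094) (nat_lit 25) (nat_lit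 5) (nat_lit 26) (nat_lit 5) (nat_lit 27) (nat_lit 4) (nat_lit 323) (nat_lit 305) (nat_lit 272))) (XT.nd (nat_lit 78) (nat_lit 76) (nat_lit 0) (XT.lf (nat_lit 0) (nat_lit 10733941115) (nat_lit 152) (nat_lit 14081581832) (nat_lit 76) (nat_lit 16355061672) (nat_lit 23) (nat_lit 5) (nat_lit 25) (nat_lit 5) (nat_lit 24) (nat_lit 4) (nat_lit 324) (nat_lit 305) (nat_lit 271)) (XT.lf (nat_lit 0) (nat_lit 28500927688) (nat_lit 76) (nat_lit 2725260760) (nat_lit 152) (nat_lit 14195422790) (nat_lit 22) (nat_lit 5) (nat_lit 23) (nat_lit 5) (nat_lit 24) (nat_lit 4) (nat_lit 325) (nat_lit 305) (nat_lit 270)))))) (XT.nd (nat_lit 624) (nat_lit 456) (nat_lit 0) (XT.nd (nat_lit 312) (nat_lit 304) (nat_lit 0) (XT.nd (nat_lit 156) (nat_lit 228) (nat_lit 0) (XT.nd (nat_lit 78) (nat_lit 76) (nat_lit 0) (XT.lf (nat_lit 0) (nat_lit 5907190462) (nat_lit 152) (nat_lit 21495926978) (nat_lit 76) (nat_lit 22766609145)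 (nat_lit 20) (nat_lit 5) (nat_lit 22) (nat_lit 5) (nat_lit 21) (nat_lit 4) (nat_lit 326) (nat_lit 305) (nat_lit 269)) (XT.lf (nat_lit 0) (nat_lit 27336708701) (nat_lit 76) (nat_lit 2061633990) (nat_lit 152) (nat_lit 26105135501) (nat_lit 19) (nat_lit 5) (nat_lit 20) (nat_lit 5) (nat_lit 21) (nat_lit 4) (nat_lit 327) (nat_lit 305) (nat_lit 268))) (XT.nd (nat_lit 78) (nat_lit 152) (nat_lit 0) (XT.lf (nat_lit 0) (nat_lit 23637296645) (nat_lit 76) (nat_lit 34592622711) (nat_lit 76) (nat_lit 3262041658) (nat_lit 18) (nat_lit 4) (nat_lit 19) (nat_lit 5) (nat_lit 19) (nat_lit 4) (nat_lit 328) (nat_lit 305) (nat_lit 267)) (XT.lf (nat_lit 0) (nat_lit 16728484589) (nat_lit 76) (nat_lit 6386583758) (nat_lit 152) (nat_lit 45118709835) (nat_lit 16) (nat_lit 5) (nat_lit 17) (nat_lit 5) (nat_lit 18) (nat_lit 4) (nat_lit 329) (nat_lit 305) (nat_lit 266)))) (XT.nd (nat_lit 156) (nat_lit 152) (nat_lit 0)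 (XT.nd (nat_lit 78) (nat_lit 76) (nat_lit 0) (XT.lf (nat_lit 0) (nat_lit 5337841761) (nat_lit 76) (nat_lit 49769505651) (nat_lit 76) (nat_lit 20724608122) (nat_lit 15) (nat_lit 4) (nat_lit 16) (nat_lit 5) (nat_lit 16) (nat_lit 4) (nat_lit 330) (nat_lit 305) (nat_lit 265)) (XT.lf (nat_lit 0) (nat_lit 8640267537) (nat_lit 152) (nat_lit 11087337314) (nat_lit 76) (nat_lit 64693898000) (nat_lit 14) (nat_lit 5) (nat_lit 16) (nat_lit 5) (nat_lit 15) (nat_lit 4) (nat_lit 331) (nat_lit 305) (nat_lit 264))) (XT.nd (nat_lit 78) (nat_lit 76) (nat_lit 0) (XT.lf (nat_lit 0) (nat_lit 43026177198) (nat_lit 152) (nat_lit 34974591995) (nat_lit 0) (nat_lit 16108178710) (nat_lit 13) (nat_lit 5) (nat_lit 15) (nat_lit 4) (nat_lit 13) (nat_lit 4) (nat_lit 332) (nat_lit 305) (nat_lit 263)) (XT.lf (nat_lit 0) (nat_lit 36552519380) (nat_lit 76) (nat_lit 47743426959) (nat_lit 76) (nat_lit 20815489199) (nat_lit 12)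 (nat_lit 4) (nat_lit 13) (nat_lit 5) (nat_lit 13) (nat_lit 4) (nat_lit 333) (nat_lit 305) (nat_lit 262))))) (XT.nd (nat_lit 312) (nat_lit 228) (nat_lit 0) (XT.nd (nat_lit 156) (nat_lit 76) (nat_lit 0) (XT.nd (nat_lit 78) (nat_lit 0) (nat_lit 0) (XT.lf (nat_lit 0) (nat_lit 2974141221) (nat_lit 76) (nat_lit 11406013502) (nat_lit 152) (nat_lit 103270168060) (nat_lit 10) (nat_lit 5) (nat_lit 11) (nat_lit 5) (nat_lit 12) (nat_lit 4) (nat_lit 334) (nat_lit 305) (nat_lit 261)) (XT.lf (nat_lit 0) (nat_lit 56410034886) (nat_lit 152) (nat_lit 43931968187) (nat_lit 0) (nat_lit 31461797735) (nat_lit 10) (nat_lit 5) (nat_lit 12) (nat_lit 4) (nat_lit 10) (nat_lit 4) (nat_lit 335) (nat_lit 305) (nat_lit 260))) (XT.nd (nat_lit 78) (nat_lit 0) (nat_lit 0) (XT.lf (nat_lit 0) (nat_lit 39014655029) (nat_lit 76) (nat_lit 66960728555) (nat_lit 76) (nat_lit 42006440262) (nat_lit 9) (nat_lit 4) (nat_lit 10) (nat_lit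 5) (nat_lit 10) (nat_lit 4) (nat_lit 336) (nat_lit 305) (nat_lit 259)) (XT.lf (nat_lit 0) (nat_lit 137022072687) (nat_lit 76) (nat_lit 27211685915) (nat_lit 76) (nat_lit 2252135760) (nat_lit 9) (nat_lit 4) (nat_lit 10) (nat_lit 5) (nat_lit 10) (nat_lit 4) (nat_lit 337) (nat_lit 305) (nat_lit 258)))) (XT.nd (nat_lit 156) (nat_lit 76) (nat_lit 0) (XT.nd (nat_lit 78) (nat_lit 0) (nat_lit 0) (XT.lf (nat_lit 0) (nat_lit 43325426250) (nat_lit 152) (nat_lit 123983274530) (nat_lit 0) (nat_lit 20210495058) (nat_lit 7) (nat_lit 5) (nat_lit 9) (nat_lit 4) (nat_lit 7) (nat_lit 4) (nat_lit 338) (nat_lit 305) (nat_lit 257)) (XT.lf (nat_lit 0) (nat_lit 97225387400) (nat_lit 152) (nat_lit 40241125214) (nat_lit 0) (nat_lit 74106772205) (nat_lit 7) (nat_lit 5) (nat_lit 9) (nat_lit 4) (nat_lit 7) (nat_lit 4) (nat_lit 339) (nat_lit 305) (nat_lit 256))) (XT.nd (nat_lit 78) (nat_lit 0) (nat_lit 0) (XT.lf (nat_lit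 0) (nat_lit 58982502894) (nat_lit 76) (nat_lit 101631265047) (nat_lit 76) (nat_lit 78509446371) (nat_lit 6) (nat_lit 4) (nat_lit 7) (nat_lit 5) (nat_lit 7) (nat_lit 4) (nat_lit 340) (nat_lit 305) (nat_lit 255)) (XT.lf (nat_lit 0) (nat_lit 175498740363) (nat_lit 76) (nat_lit 59169438183) (nat_lit 76) (nat_lit 36044833871) (nat_lit 6) (nat_lit 4) (nat_lit 7) (nat_lit 5) (nat_lit 7) (nat_lit 4) (nat_lit 341) (nat_lit 305) (nat_lit 254))))))) (XT.nd (nat_lit 1170) (nat_lit 0) (nat_lit 0) (XT.nd (nat_lit 546) (nat_lit 152) (nat_lit 0) (XT.nd (nat_lit 234) (nat_lit 76) (nat_lit 0) (XT.nd (nat_lit 78) (nat_lit 0) (nat_lit 0) (XT.lf (nat_lit 0) (nat_lit 2230277177) (nat_lit 76) (nat_lit 9960734256) (nat_lit 152) (nat_lit 294822356904) (nat_lit 4) (nat_lit 5) (nat_lit 5) (nat_lit 5) (nat_lit 6) (nat_lit 4) (nat_lit 342) (nat_lit 305) (nat_lit 253)) (XT.nd (nat_lit 78) (nat_lit 0) (nat_lit 0) (XT.lf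 (nat_lit 0) (nat_lit 69542624021) (nat_lit 152) (nat_lit 230693324052) (nat_lit 0) (nat_lit 48126760183) (nat_lit 4) (nat_lit 5) (nat_lit 6) (nat_lit 4) (nat_lit 4) (nat_lit 4) (nat_lit 343) (nat_lit 305) (nat_lit 252)) (XT.lf (nat_lit 0) (nat_lit 135762439506) (nat_lit 152) (nat_lit 145785893661) (nat_lit 0) (nat_lit 114344879742) (nat_lit 4) (nat_lit 5) (nat_lit 6) (nat_lit 4) (nat_lit 4) (nat_lit 4) (nat_lit 344) (nat_lit 305) (nat_lit 251)))) (XT.nd (nat_lit 156) (nat_lit 0) (nat_lit 0) (XT.nd (nat_lit 78) (nat_lit 76) (nat_lit 0) (XT.lf (nat_lit 0) (nat_lit 211906507075) (nat_lit 152) (nat_lit 48160011757) (nat_lit 0) (nat_lit 190487472592) (nat_lit 4) (nat_lit 5) (nat_lit 6) (nat_lit 4) (nat_lit 4) (nat_lit 4) (nat_lit 345) (nat_lit 305) (nat_lit 250)) (XT.lf (nat_lit 0) (nat_lit 67469490426) (nat_lit 76) (nat_lit 233617754403) (nat_lit 76) (nat_lit 212197437555) (nat_lit 3) (nat_lit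 4) (nat_lit 4) (nat_lit 5) (nat_lit 4) (nat_lit 4) (nat_lit 346) (nat_lit 305) (nat_lit 249))) (XT.nd (nat_lit 78) (nat_lit 0) (nat_lit 0) (XT.lf (nat_lit 0) (nat_lit 203345782850) (nat_lit 76) (nat_lit 201694505447) (nat_lit 76) (nat_lit 180273073500) (nat_lit 3) (nat_lit 4) (nat_lit 4) (nat_lit 5) (nat_lit 4) (nat_lit 4) (nat_lit 347) (nat_lit 305) (nat_lit 248)) (XT.lf (nat_lit 0) (nat_lit 359591293839) (nat_lit 76) (nat_lit 164988966728) (nat_lit 76) (nat_lit 143566565129) (nat_lit 3) (nat_lit 4) (nat_lit 4) (nat_lit 5) (nat_lit 4) (nat_lit 4) (nat_lit 348) (nat_lit 305) (nat_lit 247))))) (XT.nd (nat_lit 312) (nat_lit 0) (nat_lit 0) (XT.nd (nat_lit 156) (nat_lit 152) (nat_lit 0) (XT.nd (nat_lit 78) (nat_lit 0) (nat_lit 0) (XT.lf (nat_lit 0) (nat_lit 539263000784) (nat_lit 76) (nat_lit 122782986401) (nat_lit 76) (nat_lit 101359741627) (nat_lit 3) (nat_lit 4) (nat_lit 4) (nat_lit 5) (nat_lit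 4) (nat_lit 4) (nat_lit 349) (nat_lit 305) (nat_lit 246)) (XT.lf (nat_lit 0) (nat_lit 745876219688) (nat_lit 76) (nat_lit 74250795285) (nat_lit 76) (nat_lit 52826817315) (nat_lit 3) (nat_lit 4) (nat_lit 4) (nat_lit 5) (nat_lit 4) (nat_lit 4) (nat_lit 350) (nat_lit 305) (nat_lit 245))) (XT.nd (nat_lit 78) (nat_lit 76) (nat_lit 0) (XT.lf (nat_lit 0) (nat_lit 2832605056) (nat_lit 152) (nat_lit 15532797013) (nat_lit 76) (nat_lit 980563329599) (nat_lit 2) (nat_lit 5) (nat_lit 4) (nat_lit 5) (nat_lit 3) (nat_lit 4) (nat_lit 351) (nat_lit 305) (nat_lit 244)) (XT.lf (nat_lit 0) (nat_lit 67830500012) (nat_lit 152) (nat_lit 1027537816712) (nat_lit 0) (nat_lit 47992379704) (nat_lit 1) (nat_lit 5) (nat_lit 3) (nat_lit 4) (nat_lit 1) (nat_lit 4) (nat_lit 352) (nat_lit 305) (nat_lit 243)))) (XT.nd (nat_lit 156) (nat_lit 0) (nat_lit 0) (XT.nd (nat_lit 78) (nat_lit 0) (nat_lit 0) (XT.lf (nat_lit 0) (nat_lit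 143546674431) (nat_lit 152) (nat_lit 1042125186274) (nat_lit 0) (nat_lit 123708107744) (nat_lit 1) (nat_lit 5) (nat_lit 3) (nat_lit 4) (nat_lit 1) (nat_lit 4) (nat_lit 353) (nat_lit 305) (nat_lit 242)) (XT.lf (nat_lit 0) (nat_lit 230617394090) (nat_lit 152) (nat_lit 1058906528551) (nat_lit 0) (nat_lit 210778439249) (nat_lit 1) (nat_lit 5) (nat_lit 3) (nat_lit 4) (nat_lit 1) (nat_lit 4) (nat_lit 354) (nat_lit 305) (nat_lit 241))) (XT.nd (nat_lit 78) (nat_lit 0) (nat_lit 0) (XT.lf (nat_lit 0) (nat_lit 330746216548) (nat_lit 152) (nat_lit 1078210174154) (nat_lit 0) (nat_lit 310906924181) (nat_lit 1) (nat_lit 5) (nat_lit 3) (nat_lit 4) (nat_lit 1) (nat_lit 4) (nat_lit 355) (nat_lit 305) (nat_lit 240)) (XT.lf (nat_lit 0) (nat_lit 445892183984) (nat_lit 152) (nat_lit 1100413803105) (nat_lit 0) (nat_lit 426052598117) (nat_lit 1) (nat_lit 5) (nat_lit 3) (nat_lit 4) (nat_lit 1) (nat_lit 4) (nat_lit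 356) (nat_lit 305) (nat_lit 239)))))) (XT.nd (nat_lit 624) (nat_lit 0) (nat_lit 0) (XT.nd (nat_lit 312) (nat_lit 0) (nat_lit 0) (XT.nd (nat_lit 156) (nat_lit 0) (nat_lit 0) (XT.nd (nat_lit 78) (nat_lit 0) (nat_lit 0) (XT.lf (nat_lit 0) (nat_lit 578308152283) (nat_lit 152) (nat_lit 1125951834231) (nat_lit 0) (nat_lit 558468311197) (nat_lit 1) (nat_lit 5) (nat_lit 3) (nat_lit 4) (nat_lit 1) (nat_lit 4) (nat_lit 357) (nat_lit 305) (nat_lit 238)) (XT.lf (nat_lit 0) (nat_lit 730584868649) (nat_lit 152) (nat_lit 1155323924664) (nat_lit 0) (nat_lit 710744805635) (nat_lit 1) (nat_lit 5) (nat_lit 3) (nat_lit 4) (nat_lit 1) (nat_lit 4) (nat_lit 358) (nat_lit 305) (nat_lit 237))) (XT.nd (nat_lit 78) (nat_lit 0) (nat_lit 0) (XT.lf (nat_lit 0) (nat_lit 905701660144) (nat_lit 152) (nat_lit 1189104745737) (nat_lit 0) (nat_lit 885861404148) (nat_lit 1) (nat_lit 5) (nat_lit 3) (nat_lit 4) (nat_lit 1) (nat_lit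 4) (nat_lit 359) (nat_lit 305) (nat_lit 236)) (XT.lf (nat_lit 0) (nat_lit 1107084724860) (nat_lit 152) (nat_lit 1227955226559) (nat_lit 0) (nat_lit 1087244301054) (nat_lit 1) (nat_lit 5) (nat_lit 3) (nat_lit 4) (nat_lit 1) (nat_lit 4) (nat_lit 360) (nat_lit 305) (nat_lit 235)))) (XT.nd (nat_lit 156) (nat_lit 0) (nat_lit 0) (XT.nd (nat_lit 78) (nat_lit 0) (nat_lit 0) (XT.lf (nat_lit 0) (nat_lit 1338674166238) (nat_lit 152) (nat_lit 1272635485232) (nat_lit 0) (nat_lit 1318833596510) (nat_lit 1) (nat_lit 5) (nat_lit 3) (nat_lit 4) (nat_lit 1) (nat_lit 4) (nat_lit 361) (nat_lit 305) (nat_lit 234)) (XT.lf (nat_lit 0) (nat_lit 1605001082044) (nat_lit 152) (nat_lit 1324019700731) (nat_lit 0) (nat_lit 1585160385428) (nat_lit 1) (nat_lit 5) (nat_lit 3) (nat_lit 4) (nat_lit 1) (nat_lit 4) (nat_lit 362) (nat_lit 305) (nat_lit 233))) (XT.nd (nat_lit 78) (nat_lit 0) (nat_lit 0) (XT.lf (nat_lit 0) (nat_lit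 1911276216284) (nat_lit 152) (nat_lit 1383113216402) (nat_lit 0) (nat_lit 1891435409330) (nat_lit 1) (nat_lit 5) (nat_lit 3) (nat_lit 4) (nat_lit 1) (nat_lit 4) (nat_lit 363) (nat_lit 305) (nat_lit 232)) (XT.lf (nat_lit 0) (nat_lit 2263491908539) (nat_lit 152) (nat_lit 1451072209727) (nat_lit 0) (nat_lit 2243651005639) (nat_lit 1) (nat_lit 5) (nat_lit 3) (nat_lit 4) (nat_lit 1) (nat_lit 4) (nat_lit 364) (nat_lit 305) (nat_lit 231))))) (XT.nd (nat_lit 312) (nat_lit 0) (nat_lit 0) (XT.nd (nat_lit 156) (nat_lit 0) (nat_lit 0) (XT.nd (nat_lit 78) (nat_lit 0) (nat_lit 0) (XT.lf (nat_lit 0) (nat_lit 2668539335398) (nat_lit 152) (nat_lit 1529226313182) (nat_lit 0) (nat_lit 2648698349067) (nat_lit 1) (nat_lit 5) (nat_lit 3) (nat_lit 4) (nat_lit 1) (nat_lit 4) (nat_lit 365) (nat_lit 305) (nat_lit 230)) (XT.lf (nat_lit 0) (nat_lit 3134343337821) (nat_lit 152) (nat_lit 1619104628793) (nat_lit 0) (nat_lit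 3114502278941) (nat_lit 1) (nat_lit 5) (nat_lit 3) (nat_lit 4) (nat_lit 1) (nat_lit 4) (nat_lit 366) (nat_lit 305) (nat_lit 229))) (XT.nd (nat_lit 78) (nat_lit 0) (nat_lit 0) (XT.lf (nat_lit 0) (nat_lit 3670017472378) (nat_lit 152) (nat_lit 1722465645342) (nat_lit 0) (nat_lit 3650176350412) (nat_lit 1) (nat_lit 5) (nat_lit 3) (nat_lit 4) (nat_lit 1) (nat_lit 4) (nat_lit 367) (nat_lit 305) (nat_lit 228)) (XT.lf (nat_lit 0) (nat_lit 4286042319960) (nat_lit 152) (nat_lit 1841331643589) (nat_lit 0) (nat_lit 4266201143137) (nat_lit 1) (nat_lit 5) (nat_lit 3) (nat_lit 4) (nat_lit 1) (nat_lit 4) (nat_lit 368) (nat_lit 305) (nat_lit 227)))) (XT.nd (nat_lit 156) (nat_lit 0) (nat_lit 0) (XT.nd (nat_lit 78) (nat_lit 0) (nat_lit 0) (XT.lf (nat_lit 0) (nat_lit 4994470540631) (nat_lit 152) (nat_lit 1978028262630) (nat_lit 0) (nat_lit 4974629316105) (nat_lit 1) (nat_lit 5) (nat_lit 3) (nat_lit 4) (nat_lit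 1) (nat_lit 4) (nat_lit 369) (nat_lit 305) (nat_lit 226)) (XT.lf (nat_lit 0) (nat_lit 5809162686533) (nat_lit 152) (nat_lit 2135230001532) (nat_lit 0) (nat_lit 5789321420527) (nat_lit 1) (nat_lit 5) (nat_lit 3) (nat_lit 4) (nat_lit 1) (nat_lit 4) (nat_lit 370) (nat_lit 305) (nat_lit 225))) (XT.nd (nat_lit 78) (nat_lit 0) (nat_lit 0) (XT.lf (nat_lit 0) (nat_lit 6746058386608) (nat_lit 152) (nat_lit 2316012546491) (nat_lit 0) (nat_lit 6726217084533) (nat_lit 1) (nat_lit 5) (nat_lit 3) (nat_lit 4) (nat_lit 1) (nat_lit 4) (nat_lit 371) (nat_lit 305) (nat_lit 224)) (XT.lf (nat_lit 0) (nat_lit 7823488208902) (nat_lit 152) (nat_lit 2523912947302) (nat_lit 0) (nat_lit 7803646875461) (nat_lit 1) (nat_lit 5) (nat_lit 3) (nat_lit 4) (nat_lit 1) (nat_lit 4) (nat_lit 372) (nat_lit 305) (nat_lit 223))))))))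
noncomputable def xc30 : XT := (XT.nd (nat_lit 43836) (nat_lit 0) (nat_lit 0) (XT.nd (nat_lit 42666) (nat_lit 0) (nat_lit 912) (XT.nd (nat_lit 42042) (nat_lit 0) (nat_lit 2660) (XT.nd (nat_lit 41730) (nat_lit 0) (nat_lit 4560) (XT.nd (nat_lit 78) (nat_lit 0) (nat_lit 0) (XT.lf (nat_lit 0) (nat_lit 9062532302110) (nat_lit 152) (nat_lit 2762998820500) (nat_lit 0) (nat_lit 9042690941396) (nat_lit 1) (nat_lit 5) (nat_lit 3) (nat_lit 4) (nat_lit 1) (nat_lit 4) (nat_lit 373) (nat_lit 305) (nat_lit 222)) (XT.nd (nat_lit 41574) (nat_lit 0) (nat_lit 4788) (XT.lf (nat_lit 0) (nat_lit 10487432833274) (nat_lit 152) (nat_lit 3037947933170) (nat_lit 0) (nat_lit 10467591448844) (nat_lit 1) (nat_lit 5) (nat_lit 3) (nat_lit 4) (nat_lit 1) (nat_lit 4) (nat_lit 374) (nat_lit 305) (nat_lit 221)) (XT.lf (nat_lit 0) (nat_lit 1115693895) (nat_lit 532) (nat_lit 1916686480) (nat_lit 532) (nat_lit 1916686480) (nat_lit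 64) (nat_lit 3) (nat_lit 71) (nat_lit 3) (nat_lit 71) (nat_lit 5) (nat_lit 306) (nat_lit 306) (nat_lit 288)))) (XT.nd (nat_lit 156) (nat_lit 304) (nat_lit 0) (XT.nd (nat_lit 78) (nat_lit 0) (nat_lit 0) (XT.lf (nat_lit 0) (nat_lit 3815447151) (nat_lit 456) (nat_lit 5130048729) (nat_lit 532) (nat_lit 1580482935) (nat_lit 65) (nat_lit 5) (nat_lit 71) (nat_lit 5) (nat_lit 72) (nat_lit 5) (nat_lit 307) (nat_lit 306) (nat_lit 287)) (XT.lf (nat_lit 76) (nat_lit 4931996093) (nat_lit 0) (nat_lit 883477072) (nat_lit 532) (nat_lit 5418468737) (nat_lit 66) (nat_lit 5) (nat_lit 65) (nat_lit 5) (nat_lit 72) (nat_lit 5) (nat_lit 308) (nat_lit 306) (nat_lit 286))) (XT.nd (nat_lit 78) (nat_lit 380) (nat_lit 0) (XT.lf (nat_lit 76) (nat_lit 4653248795) (nat_lit 0) (nat_lit 3733921125) (nat_lit 532) (nat_lit 3639378651) (nat_lit 67) (nat_lit 5) (nat_lit 66) (nat_lit 5) (nat_lit 73) (nat_lit 5) (nat_lit 309)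 (nat_lit 306) (nat_lit 285)) (XT.lf (nat_lit 0) (nat_lit 4617768973) (nat_lit 456) (nat_lit 7018575422) (nat_lit 532) (nat_lit 1278522658) (nat_lit 61) (nat_lit 5) (nat_lit 67) (nat_lit 5) (nat_lit 68) (nat_lit 5) (nat_lit 310) (nat_lit 306) (nat_lit 284))))) (XT.nd (nat_lit 312) (nat_lit 836) (nat_lit 0) (XT.nd (nat_lit 156) (nat_lit 380) (nat_lit 0) (XT.nd (nat_lit 78) (nat_lit 228) (nat_lit 0) (XT.lf (nat_lit 0) (nat_lit 1726231496) (nat_lit 456) (nat_lit 9102330872) (nat_lit 76) (nat_lit 3076304741) (nat_lit 55) (nat_lit 5) (nat_lit 61) (nat_lit 5) (nat_lit 56) (nat_lit 5) (nat_lit 311) (nat_lit 306) (nat_lit 283)) (XT.lf (nat_lit 0) (nat_lit 5223124041) (nat_lit 228) (nat_lit 312619821) (nat_lit 304) (nat_lit 9470697899) (nat_lit 52) (nat_lit 5) (nat_lit 55) (nat_lit 5) (nat_lit 56) (nat_lit 5) (nat_lit 312) (nat_lit 306) (nat_lit 282))) (XT.nd (nat_lit 78) (nat_lit 152) (nat_lit 0)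 (XT.lf (nat_lit 0) (nat_lit 5853933347) (nat_lit 228) (nat_lit 4633528499) (nat_lit 304) (nat_lit 5740225059) (nat_lit 49) (nat_lit 5) (nat_lit 52) (nat_lit 5) (nat_lit 53) (nat_lit 5) (nat_lit 313) (nat_lit 306) (nat_lit 281)) (XT.lf (nat_lit 0) (nat_lit 6820047780) (nat_lit 152) (nat_lit 9897657062) (nat_lit 228) (nat_lit 871636594) (nat_lit 47) (nat_lit 5) (nat_lit 49) (nat_lit 5) (nat_lit 50) (nat_lit 5) (nat_lit 314) (nat_lit 306) (nat_lit 280)))) (XT.nd (nat_lit 156) (nat_lit 380) (nat_lit 0) (XT.nd (nat_lit 78) (nat_lit 152) (nat_lit 0) (XT.lf (nat_lit 0) (nat_lit 5094477321) (nat_lit 304) (nat_lit 11067157170) (nat_lit 76) (nat_lit 2936285037) (nat_lit 43) (nat_lit 5) (nat_lit 47) (nat_lit 5) (nat_lit 44) (nat_lit 5) (nat_lit 315) (nat_lit 306) (nat_lit 279)) (XT.lf (nat_lit 0) (nat_lit 9535908300) (nat_lit 152) (nat_lit 3100330719) (nat_lit 228) (nat_lit 8136205628) (nat_lit 41)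 (nat_lit 5) (nat_lit 43) (nat_lit 5) (nat_lit 44) (nat_lit 5) (nat_lit 316) (nat_lit 306) (nat_lit 278))) (XT.nd (nat_lit 78) (nat_lit 228) (nat_lit 0) (XT.lf (nat_lit 0) (nat_lit 11375938311) (nat_lit 152) (nat_lit 10738823832) (nat_lit 228) (nat_lit 518997755) (nat_lit 39) (nat_lit 5) (nat_lit 41) (nat_lit 5) (nat_lit 42) (nat_lit 5) (nat_lit 317) (nat_lit 306) (nat_lit 277)) (XT.lf (nat_lit 0) (nat_lit 8619780461) (nat_lit 228) (nat_lit 11246564092) (nat_lit 76) (nat_lit 4828815608) (nat_lit 36) (nat_lit 5) (nat_lit 39) (nat_lit 5) (nat_lit 37) (nat_lit 5) (nat_lit 318) (nat_lit 306) (nat_lit 276)))))) (XT.nd (nat_lit 546) (nat_lit 760) (nat_lit 0) (XT.nd (nat_lit 234) (nat_lit 532) (nat_lit 0) (XT.nd (nat_lit 78) (nat_lit 304) (nat_lit 0) (XT.lf (nat_lit 0) (nat_lit 15863123375) (nat_lit 152) (nat_lit 4178951656) (nat_lit 228) (nat_lit 6947178393) (nat_lit 34) (nat_lit 5) (nat_lit 36)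 (nat_lit 5) (nat_lit 37) (nat_lit 5) (nat_lit 319) (nat_lit 306) (nat_lit 275)) (XT.nd (nat_lit 78) (nat_lit 152) (nat_lit 0) (XT.lf (nat_lit 0) (nat_lit 4450277976) (nat_lit 152) (nat_lit 11056944082) (nat_lit 76) (nat_lit 14027226920) (nat_lit 32) (nat_lit 5) (nat_lit 34) (nat_lit 5) (nat_lit 33) (nat_lit 5) (nat_lit 320) (nat_lit 306) (nat_lit 274)) (XT.lf (nat_lit 0) (nat_lit 18139659435) (nat_lit 228) (nat_lit 11042175775) (nat_lit 76) (nat_lit 3185685457) (nat_lit 30) (nat_lit 5) (nat_lit 33) (nat_lit 5) (nat_lit 31) (nat_lit 4) (nat_lit 321) (nat_lit 306) (nat_lit 273)))) (XT.nd (nat_lit 156) (nat_lit 228) (nat_lit 0) (XT.nd (nat_lit 78) (nat_lit 228) (nat_lit 0) (XT.lf (nat_lit 0) (nat_lit 24316518909) (nat_lit 76) (nat_lit 10853189920) (nat_lit 152) (nat_lit 352885222) (nat_lit 29) (nat_lit 5) (nat_lit 30) (nat_lit 5) (nat_lit 31) (nat_lit 4) (nat_lit 322) (nat_lit 306) (nat_lit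 272)) (XT.lf (nat_lit 0) (nat_lit 16039631639) (nat_lit 228) (nat_lit 11907900193) (nat_lit 76) (nat_lit 11076046385) (nat_lit 26) (nat_lit 5) (nat_lit 29) (nat_lit 5) (nat_lit 27) (nat_lit 4) (nat_lit 323) (nat_lit 306) (nat_lit 271))) (XT.nd (nat_lit 78) (nat_lit 152) (nat_lit 0) (XT.lf (nat_lit 0) (nat_lit 29932484002) (nat_lit 76) (nat_lit 6244194907) (nat_lit 152) (nat_lit 6767789282) (nat_lit 25) (nat_lit 5) (nat_lit 26) (nat_lit 5) (nat_lit 27) (nat_lit 4) (nat_lit 324) (nat_lit 306) (nat_lit 270)) (XT.lf (nat_lit 0) (nat_lit 12866832470) (nat_lit 152) (nat_lit 15231298830) (nat_lit 76) (nat_lit 19206084690) (nat_lit 23) (nat_lit 5) (nat_lit 25) (nat_lit 5) (nat_lit 24) (nat_lit 4) (nat_lit 325) (nat_lit 306) (nat_lit 269))))) (XT.nd (nat_lit 312) (nat_lit 380) (nat_lit 0) (XT.nd (nat_lit 156) (nat_lit 152) (nat_lit 0) (XT.nd (nat_lit 78) (nat_lit 152) (nat_lit 0) (XT.lf (nat_lit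 0) (nat_lit 33657114572) (nat_lit 76) (nat_lit 2728800222) (nat_lit 152) (nat_lit 15810759234) (nat_lit 22) (nat_lit 5) (nat_lit 23) (nat_lit 5) (nat_lit 24) (nat_lit 4) (nat_lit 326) (nat_lit 306) (nat_lit 268)) (XT.lf (nat_lit 0) (nat_lit 7247084723) (nat_lit 152) (nat_lit 23863828881) (nat_lit 76) (nat_lit 26547874081) (nat_lit 20) (nat_lit 5) (nat_lit 22) (nat_lit 5) (nat_lit 21) (nat_lit 4) (nat_lit 327) (nat_lit 306) (nat_lit 267))) (XT.nd (nat_lit 78) (nat_lit 76) (nat_lit 0) (XT.lf (nat_lit 0) (nat_lit 32221204780) (nat_lit 76) (nat_lit 2000366628) (nat_lit 152) (nat_lit 29574269777) (nat_lit 19) (nat_lit 5) (nat_lit 20) (nat_lit 5) (nat_lit 21) (nat_lit 4) (nat_lit 328) (nat_lit 306) (nat_lit 266)) (XT.lf (nat_lit 0) (nat_lit 27922715524) (nat_lit 76) (nat_lit 39426778570) (nat_lit 76) (nat_lit 3335384081) (nat_lit 18) (nat_lit 4) (nat_lit 19) (nat_lit 5) (nat_lit 19) (nat_lit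 4) (nat_lit 329) (nat_lit 306) (nat_lit 265)))) (XT.nd (nat_lit 156) (nat_lit 152) (nat_lit 0) (XT.nd (nat_lit 78) (nat_lit 76) (nat_lit 0) (XT.lf (nat_lit 0) (nat_lit 19934065462) (nat_lit 76) (nat_lit 7008622958) (nat_lit 152) (nat_lit 51497271308) (nat_lit 16) (nat_lit 5) (nat_lit 17) (nat_lit 5) (nat_lit 18) (nat_lit 4) (nat_lit 330) (nat_lit 306) (nat_lit 264)) (XT.lf (nat_lit 0) (nat_lit 6794931714) (nat_lit 76) (nat_lit 56914686650) (nat_lit 76) (nat_lit 23470187952) (nat_lit 15) (nat_lit 4) (nat_lit 16) (nat_lit 5) (nat_lit 16) (nat_lit 4) (nat_lit 331) (nat_lit 306) (nat_lit 263))) (XT.nd (nat_lit 78) (nat_lit 76) (nat_lit 0) (XT.lf (nat_lit 0) (nat_lit 10236261655) (nat_lit 152) (nat_lit 12163808868) (nat_lit 76) (nat_lit 74660621951) (nat_lit 14) (nat_lit 5) (nat_lit 16) (nat_lit 5) (nat_lit 15) (nat_lit 4) (nat_lit 332) (nat_lit 306) (nat_lit 262)) (XT.lf (nat_lit 0) (nat_lit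 49760178254) (nat_lit 152) (nat_lit 39668203829) (nat_lit 0) (nat_lit 18774467712) (nat_lit 13) (nat_lit 5) (nat_lit 15) (nat_lit 4) (nat_lit 13) (nat_lit 4) (nat_lit 333) (nat_lit 306) (nat_lit 261))))))) (XT.nd (nat_lit 1170) (nat_lit 152) (nat_lit 0) (XT.nd (nat_lit 546) (nat_lit 304) (nat_lit 0) (XT.nd (nat_lit 234) (nat_lit 228) (nat_lit 0) (XT.nd (nat_lit 78) (nat_lit 152) (nat_lit 0) (XT.lf (nat_lit 0) (nat_lit 42541201364) (nat_lit 76) (nat_lit 54654844549) (nat_lit 76) (nat_lit 23661618489) (nat_lit 12) (nat_lit 4) (nat_lit 13) (nat_lit 5) (nat_lit 13) (nat_lit 4) (nat_lit 334) (nat_lit 306) (nat_lit 260)) (XT.nd (nat_lit 78) (nat_lit 0) (nat_lit 0) (XT.lf (nat_lit 0) (nat_lit 3895924853) (nat_lit 76) (nat_lit 12880847331) (nat_lit 152) (nat_lit 118501907438) (nat_lit 10) (nat_lit 5) (nat_lit 11) (nat_lit 5) (nat_lit 12) (nat_lit 4) (nat_lit 335) (nat_lit 306) (nat_lit 259)) (XT.lf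 (nat_lit 0) (nat_lit 65084819856) (nat_lit 152) (nat_lit 50096392474) (nat_lit 0) (nat_lit 36376075316) (nat_lit 10) (nat_lit 5) (nat_lit 12) (nat_lit 4) (nat_lit 10) (nat_lit 4) (nat_lit 336) (nat_lit 306) (nat_lit 258)))) (XT.nd (nat_lit 156) (nat_lit 152) (nat_lit 0) (XT.nd (nat_lit 78) (nat_lit 0) (nat_lit 0) (XT.lf (nat_lit 0) (nat_lit 45256218693) (nat_lit 76) (nat_lit 76810297318) (nat_lit 76) (nat_lit 48096977245) (nat_lit 9) (nat_lit 4) (nat_lit 10) (nat_lit 5) (nat_lit 10) (nat_lit 4) (nat_lit 337) (nat_lit 306) (nat_lit 257)) (XT.lf (nat_lit 0) (nat_lit 157913962207) (nat_lit 76) (nat_lit 31124273132) (nat_lit 76) (nat_lit 2406974336) (nat_lit 9) (nat_lit 4) (nat_lit 10) (nat_lit 5) (nat_lit 10) (nat_lit 4) (nat_lit 338) (nat_lit 306) (nat_lit 256))) (XT.nd (nat_lit 78) (nat_lit 0) (nat_lit 0) (XT.lf (nat_lit 0) (nat_lit 49986886643) (nat_lit 152) (nat_lit 142253572445) (nat_lit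 0) (nat_lit 23393591684) (nat_lit 7) (nat_lit 5) (nat_lit 9) (nat_lit 4) (nat_lit 7) (nat_lit 4) (nat_lit 339) (nat_lit 306) (nat_lit 255)) (XT.lf (nat_lit 0) (nat_lit 111950627210) (nat_lit 152) (nat_lit 45992778114) (nat_lit 0) (nat_lit 85354546615) (nat_lit 7) (nat_lit 5) (nat_lit 9) (nat_lit 4) (nat_lit 7) (nat_lit 4) (nat_lit 340) (nat_lit 306) (nat_lit 254))))) (XT.nd (nat_lit 312) (nat_lit 76) (nat_lit 0) (XT.nd (nat_lit 156) (nat_lit 152) (nat_lit 0) (XT.nd (nat_lit 78) (nat_lit 0) (nat_lit 0) (XT.lf (nat_lit 0) (nat_lit 68090311358) (nat_lit 76) (nat_lit 116744769282) (nat_lit 76) (nat_lit 90146266395) (nat_lit 6) (nat_lit 4) (nat_lit 7) (nat_lit 5) (nat_lit 7) (nat_lit 4) (nat_lit 341) (nat_lit 306) (nat_lit 253)) (XT.lf (nat_lit 0) (nat_lit 202050014922) (nat_lit 76) (nat_lit 67930779543) (nat_lit 76) (nat_lit 41330170315) (nat_lit 6) (nat_lit 4) (nat_lit 7) (nat_lit 5) (nat_lit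 7) (nat_lit 4) (nat_lit 342) (nat_lit 306) (nat_lit 252))) (XT.nd (nat_lit 78) (nat_lit 0) (nat_lit 0) (XT.lf (nat_lit 0) (nat_lit 2777678699) (nat_lit 76) (nat_lit 11347378766) (nat_lit 152) (nat_lit 338931877840) (nat_lit 4) (nat_lit 5) (nat_lit 5) (nat_lit 5) (nat_lit 6) (nat_lit 4) (nat_lit 343) (nat_lit 306) (nat_lit 251)) (XT.lf (nat_lit 0) (nat_lit 80067912292) (nat_lit 152) (nat_lit 265107136853) (nat_lit 0) (nat_lit 55434547918) (nat_lit 4) (nat_lit 5) (nat_lit 6) (nat_lit 4) (nat_lit 4) (nat_lit 4) (nat_lit 344) (nat_lit 306) (nat_lit 250)))) (XT.nd (nat_lit 156) (nat_lit 76) (nat_lit 0) (XT.nd (nat_lit 78) (nat_lit 0) (nat_lit 0) (XT.lf (nat_lit 0) (nat_lit 156208452970) (nat_lit 152) (nat_lit 167488398749) (nat_lit 0) (nat_lit 131573806231) (nat_lit 4) (nat_lit 5) (nat_lit 6) (nat_lit 4) (nat_lit 4) (nat_lit 4) (nat_lit 345) (nat_lit 306) (nat_lit 249)) (XT.lf (nat_lit 0) (nat_lit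 243763480995) (nat_lit 152) (nat_lit 55240205728) (nat_lit 0) (nat_lit 219127719156) (nat_lit 4) (nat_lit 5) (nat_lit 6) (nat_lit 4) (nat_lit 4) (nat_lit 4) (nat_lit 346) (nat_lit 306) (nat_lit 248))) (XT.nd (nat_lit 78) (nat_lit 0) (nat_lit 0) (XT.lf (nat_lit 0) (nat_lit 77721549170) (nat_lit 76) (nat_lit 268593685481) (nat_lit 76) (nat_lit 243956953991) (nat_lit 3) (nat_lit 4) (nat_lit 4) (nat_lit 5) (nat_lit 4) (nat_lit 4) (nat_lit 347) (nat_lit 306) (nat_lit 247)) (XT.lf (nat_lit 0) (nat_lit 233962115651) (nat_lit 76) (nat_lit 231890653367) (nat_lit 76) (nat_lit 207253078701) (nat_lit 3) (nat_lit 4) (nat_lit 4) (nat_lit 5) (nat_lit 4) (nat_lit 4) (nat_lit 348) (nat_lit 306) (nat_lit 246)))))) (XT.nd (nat_lit 624) (nat_lit 0) (nat_lit 0) (XT.nd (nat_lit 312) (nat_lit 76) (nat_lit 0) (XT.nd (nat_lit 156) (nat_lit 76) (nat_lit 0) (XT.nd (nat_lit 78) (nat_lit 0) (nat_lit 0) (XT.lf (nat_lit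 0) (nat_lit 413629523023) (nat_lit 76) (nat_lit 189686852696) (nat_lit 76) (nat_lit 165048544834) (nat_lit 3) (nat_lit 4) (nat_lit 4) (nat_lit 5) (nat_lit 4) (nat_lit 4) (nat_lit 349) (nat_lit 306) (nat_lit 245)) (XT.lf (nat_lit 0) (nat_lit 620239003169) (nat_lit 76) (nat_lit 141156556933) (nat_lit 76) (nat_lit 116517611511) (nat_lit 3) (nat_lit 4) (nat_lit 4) (nat_lit 5) (nat_lit 4) (nat_lit 4) (nat_lit 350) (nat_lit 306) (nat_lit 244))) (XT.nd (nat_lit 78) (nat_lit 76) (nat_lit 0) (XT.lf (nat_lit 0) (nat_lit 857832915483) (nat_lit 76) (nat_lit 85350260293) (nat_lit 76) (nat_lit 60710760469) (nat_lit 3) (nat_lit 4) (nat_lit 4) (nat_lit 5) (nat_lit 4) (nat_lit 4) (nat_lit 351) (nat_lit 306) (nat_lit 243)) (XT.lf (nat_lit 0) (nat_lit 3290604082) (nat_lit 152) (nat_lit 17795525420) (nat_lit 76) (nat_lit 1127679261481) (nat_lit 2) (nat_lit 5) (nat_lit 4) (nat_lit 5) (nat_lit 3) (nat_lit 4)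 (nat_lit 352) (nat_lit 306) (nat_lit 242)))) (XT.nd (nat_lit 156) (nat_lit 0) (nat_lit 0) (XT.nd (nat_lit 78) (nat_lit 0) (nat_lit 0) (XT.lf (nat_lit 0) (nat_lit 78036095176) (nat_lit 152) (nat_lit 1181605313608) (nat_lit 0) (nat_lit 55220908954) (nat_lit 1) (nat_lit 5) (nat_lit 3) (nat_lit 4) (nat_lit 1) (nat_lit 4) (nat_lit 353) (nat_lit 306) (nat_lit 241)) (XT.lf (nat_lit 0) (nat_lit 165105649649) (nat_lit 152) (nat_lit 1198389028901) (nat_lit 0) (nat_lit 142290125901) (nat_lit 1) (nat_lit 5) (nat_lit 3) (nat_lit 4) (nat_lit 1) (nat_lit 4) (nat_lit 354) (nat_lit 306) (nat_lit 240))) (XT.nd (nat_lit 78) (nat_lit 0) (nat_lit 0) (XT.lf (nat_lit 0) (nat_lit 265233458902) (nat_lit 152) (nat_lit 1217694737996) (nat_lit 0) (nat_lit 242417641654) (nat_lit 1) (nat_lit 5) (nat_lit 3) (nat_lit 4) (nat_lit 1) (nat_lit 4) (nat_lit 355) (nat_lit 306) (nat_lit 239)) (XT.lf (nat_lit 0) (nat_lit 380378545290)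 (nat_lit 152) (nat_lit 1239900161288) (nat_lit 0) (nat_lit 357562472824) (nat_lit 1) (nat_lit 5) (nat_lit 3) (nat_lit 4) (nat_lit 1) (nat_lit 4) (nat_lit 356) (nat_lit 306) (nat_lit 238))))) (XT.nd (nat_lit 312) (nat_lit 0) (nat_lit 0) (XT.nd (nat_lit 156) (nat_lit 0) (nat_lit 0) (XT.nd (nat_lit 78) (nat_lit 0) (nat_lit 0) (XT.lf (nat_lit 0) (nat_lit 512793747460) (nat_lit 152) (nat_lit 1265439752710) (nat_lit 0) (nat_lit 489977453065) (nat_lit 1) (nat_lit 5) (nat_lit 3) (nat_lit 4) (nat_lit 1) (nat_lit 4) (nat_lit 357) (nat_lit 306) (nat_lit 237)) (XT.lf (nat_lit 0) (nat_lit 665069797628) (nat_lit 152) (nat_lit 1294813199922) (nat_lit 0) (nat_lit 642253310251) (nat_lit 1) (nat_lit 5) (nat_lit 3) (nat_lit 4) (nat_lit 1) (nat_lit 4) (nat_lit 358) (nat_lit 306) (nat_lit 236))) (XT.nd (nat_lit 78) (nat_lit 0) (nat_lit 0) (XT.lf (nat_lit 0) (nat_lit 840186009819) (nat_lit 152) (nat_lit 1328595200803)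 (nat_lit 0) (nat_lit 817369354632) (nat_lit 1) (nat_lit 5) (nat_lit 3) (nat_lit 4) (nat_lit 1) (nat_lit 4) (nat_lit 359) (nat_lit 306) (nat_lit 235)) (XT.lf (nat_lit 0) (nat_lit 1041568570793) (nat_lit 152) (nat_lit 1367446707545) (nat_lit 0) (nat_lit 1018751769684) (nat_lit 1) (nat_lit 5) (nat_lit 3) (nat_lit 4) (nat_lit 1) (nat_lit 4) (nat_lit 360) (nat_lit 306) (nat_lit 234)))) (XT.nd (nat_lit 156) (nat_lit 0) (nat_lit 0) (XT.nd (nat_lit 78) (nat_lit 0) (nat_lit 0) (XT.lf (nat_lit 0) (nat_lit 1273157574135) (nat_lit 152) (nat_lit 1412127858323) (nat_lit 0) (nat_lit 1250340646138) (nat_lit 1) (nat_lit 5) (nat_lit 3) (nat_lit 4) (nat_lit 1) (nat_lit 4) (nat_lit 361) (nat_lit 306) (nat_lit 233)) (XT.lf (nat_lit 0) (nat_lit 1539484109040) (nat_lit 152) (nat_lit 1463512849565) (nat_lit 0) (nat_lit 1516667070705) (nat_lit 1) (nat_lit 5) (nat_lit 3) (nat_lit 4) (nat_lit 1) (nat_lit 4) (nat_lit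 362) (nat_lit 306) (nat_lit 232))) (XT.nd (nat_lit 78) (nat_lit 0) (nat_lit 0) (XT.lf (nat_lit 0) (nat_lit 1845758912061) (nat_lit 152) (nat_lit 1522607039796) (nat_lit 0) (nat_lit 1822941777780) (nat_lit 1) (nat_lit 5) (nat_lit 3) (nat_lit 4) (nat_lit 1) (nat_lit 4) (nat_lit 363) (nat_lit 306) (nat_lit 231)) (XT.lf (nat_lit 0) (nat_lit 2197974316300) (nat_lit 152) (nat_lit 1590566619694) (nat_lit 0) (nat_lit 2175157098588) (nat_lit 1) (nat_lit 5) (nat_lit 3) (nat_lit 4) (nat_lit 1) (nat_lit 4) (nat_lit 364) (nat_lit 306) (nat_lit 230))))))))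
noncomputable def xc31 : XT := (XT.nd (nat_lit 43992) (nat_lit 0) (nat_lit 0) (XT.nd (nat_lit 42744) (nat_lit 0) (nat_lit 1596) (XT.nd (nat_lit 546) (nat_lit 0) (nat_lit 0) (XT.nd (nat_lit 234) (nat_lit 0) (nat_lit 0) (XT.nd (nat_lit 78) (nat_lit 0) (nat_lit 0) (XT.lf (nat_lit 0) (nat_lit 2603021492710) (nat_lit 152) (nat_lit 1668721233213) (nat_lit 0) (nat_lit 2580204202449) (nat_lit 1) (nat_lit 5) (nat_lit 3) (nat_lit 4) (nat_lit 1) (nat_lit 4) (nat_lit 365) (nat_lit 306) (nat_lit 229)) (XT.nd (nat_lit 78) (nat_lit 0) (nat_lit 0) (XT.lf (nat_lit 0) (nat_lit 3068825277352) (nat_lit 152) (nat_lit 1758599992357) (nat_lit 0) (nat_lit 3046007924005) (nat_lit 1) (nat_lit 5) (nat_lit 3) (nat_lit 4) (nat_lit 1) (nat_lit 4) (nat_lit 366) (nat_lit 306) (nat_lit 228)) (XT.lf (nat_lit 0) (nat_lit 3604499222533) (nat_lit 152) (nat_lit 1861961394588) (nat_lit 0) (nat_lit 3581681814328) (nat_lit 1)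 (nat_lit 5) (nat_lit 3) (nat_lit 4) (nat_lit 1) (nat_lit 4) (nat_lit 367) (nat_lit 306) (nat_lit 227)))) (XT.nd (nat_lit 156) (nat_lit 0) (nat_lit 0) (XT.nd (nat_lit 78) (nat_lit 0) (nat_lit 0) (XT.lf (nat_lit 0) (nat_lit 4220523905441) (nat_lit 152) (nat_lit 1980827728210) (nat_lit 0) (nat_lit 4197706449535) (nat_lit 1) (nat_lit 5) (nat_lit 3) (nat_lit 4) (nat_lit 1) (nat_lit 4) (nat_lit 368) (nat_lit 306) (nat_lit 226)) (XT.lf (nat_lit 0) (nat_lit 4928951982917) (nat_lit 152) (nat_lit 2117524638881) (nat_lit 0) (nat_lit 4906134485530) (nat_lit 1) (nat_lit 5) (nat_lit 3) (nat_lit 4) (nat_lit 1) (nat_lit 4) (nat_lit 369) (nat_lit 306) (nat_lit 225))) (XT.nd (nat_lit 78) (nat_lit 0) (nat_lit 0) (XT.lf (nat_lit 0) (nat_lit 5743644004302) (nat_lit 152) (nat_lit 2274726631374) (nat_lit 0) (nat_lit 5720826470846) (nat_lit 1) (nat_lit 5) (nat_lit 3) (nat_lit 4) (nat_lit 1) (nat_lit 4) (nat_lit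 370) (nat_lit 306) (nat_lit 224)) (XT.lf (nat_lit 0) (nat_lit 6680539596101) (nat_lit 152) (nat_lit 2455509396849) (nat_lit 0) (nat_lit 6657722031280) (nat_lit 1) (nat_lit 5) (nat_lit 3) (nat_lit 4) (nat_lit 1) (nat_lit 4) (nat_lit 371) (nat_lit 306) (nat_lit 223))))) (XT.nd (nat_lit 41886) (nat_lit 0) (nat_lit 4484) (XT.nd (nat_lit 156) (nat_lit 0) (nat_lit 0) (XT.nd (nat_lit 78) (nat_lit 0) (nat_lit 0) (XT.lf (nat_lit 0) (nat_lit 7757969324241) (nat_lit 152) (nat_lit 2663409989411) (nat_lit 0) (nat_lit 7735151732146) (nat_lit 1) (nat_lit 5) (nat_lit 3) (nat_lit 4) (nat_lit 1) (nat_lit 4) (nat_lit 372) (nat_lit 306) (nat_lit 222)) (XT.lf (nat_lit 0) (nat_lit 8997013335577) (nat_lit 152) (nat_lit 2902496029349) (nat_lit 0) (nat_lit 8974195719766) (nat_lit 1) (nat_lit 5) (nat_lit 3) (nat_lit 4) (nat_lit 1) (nat_lit 4) (nat_lit 373) (nat_lit 306) (nat_lit 221))) (XT.nd (nat_lit 41652) (nat_lit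 0) (nat_lit 4788) (XT.lf (nat_lit 0) (nat_lit 10421913795549) (nat_lit 152) (nat_lit 3177445287012) (nat_lit 0) (nat_lit 10399096159115) (nat_lit 1) (nat_lit 5) (nat_lit 3) (nat_lit 4) (nat_lit 1) (nat_lit 4) (nat_lit 374) (nat_lit 306) (nat_lit 220)) (XT.lf (nat_lit 0) (nat_lit 2477340206) (nat_lit 532) (nat_lit 1558706798) (nat_lit 532) (nat_lit 1558706798) (nat_lit 64) (nat_lit 3) (nat_lit 71) (nat_lit 3) (nat_lit 71) (nat_lit 5) (nat_lit 307) (nat_lit 307) (nat_lit 286)))) (XT.nd (nat_lit 156) (nat_lit 380) (nat_lit 0) (XT.nd (nat_lit 78) (nat_lit 0) (nat_lit 0) (XT.lf (nat_lit 0) (nat_lit 6470997487) (nat_lit 456) (nat_lit 4525247435) (nat_lit 532) (nat_lit 940007355) (nat_lit 65) (nat_lit 5) (nat_lit 71) (nat_lit 5) (nat_lit 72) (nat_lit 5) (nat_lit 308) (nat_lit 307) (nat_lit 285)) (XT.lf (nat_lit 76) (nat_lit 6929775732) (nat_lit 0) (nat_lit 1599780048) (nat_lit 532) (nat_lit 4240428042)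 (nat_lit 66) (nat_lit 5) (nat_lit 65) (nat_lit 5) (nat_lit 72) (nat_lit 5) (nat_lit 309) (nat_lit 307) (nat_lit 284))) (XT.nd (nat_lit 78) (nat_lit 456) (nat_lit 0) (XT.lf (nat_lit 76) (nat_lit 6652019203) (nat_lit 0) (nat_lit 4613833272) (nat_lit 532) (nat_lit 2433544222) (nat_lit 67) (nat_lit 5) (nat_lit 66) (nat_lit 5) (nat_lit 73) (nat_lit 5) (nat_lit 310) (nat_lit 307) (nat_lit 283)) (XT.lf (nat_lit 0) (nat_lit 75956242) (nat_lit 532) (nat_lit 8109802459) (nat_lit 76) (nat_lit 6550154589) (nat_lit 60) (nat_lit 5) (nat_lit 67) (nat_lit 5) (nat_lit 61) (nat_lit 5) (nat_lit 311) (nat_lit 307) (nat_lit 282)))))) (XT.nd (nat_lit 624) (nat_lit 1064) (nat_lit 0) (XT.nd (nat_lit 312) (nat_lit 760) (nat_lit 0) (XT.nd (nat_lit 156) (nat_lit 456) (nat_lit 0) (XT.nd (nat_lit 78) (nat_lit 228) (nat_lit 0) (XT.lf (nat_lit 0) (nat_lit 3295728667) (nat_lit 456) (nat_lit 9082643741) (nat_lit 76) (nat_lit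 3506339658) (nat_lit 55) (nat_lit 5) (nat_lit 61) (nat_lit 5) (nat_lit 56) (nat_lit 5) (nat_lit 312) (nat_lit 307) (nat_lit 281)) (XT.lf (nat_lit 0) (nat_lit 7274392945) (nat_lit 228) (nat_lit 261822641) (nat_lit 304) (nat_lit 9626679178) (nat_lit 52) (nat_lit 5) (nat_lit 55) (nat_lit 5) (nat_lit 56) (nat_lit 5) (nat_lit 313) (nat_lit 307) (nat_lit 280))) (XT.nd (nat_lit 78) (nat_lit 228) (nat_lit 0) (XT.lf (nat_lit 0) (nat_lit 7976873268) (nat_lit 228) (nat_lit 5133176609) (nat_lit 304) (nat_lit 5467046087) (nat_lit 49) (nat_lit 5) (nat_lit 52) (nat_lit 5) (nat_lit 53) (nat_lit 5) (nat_lit 314) (nat_lit 307) (nat_lit 279)) (XT.lf (nat_lit 0) (nat_lit 18812123) (nat_lit 228) (nat_lit 11096064121) (nat_lit 76) (nat_lit 9036477680) (nat_lit 46) (nat_lit 5) (nat_lit 49) (nat_lit 5) (nat_lit 47) (nat_lit 5) (nat_lit 315) (nat_lit 307) (nat_lit 278)))) (XT.nd (nat_lit 156) (nat_lit 380) (nat_lit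 0) (XT.nd (nat_lit 78) (nat_lit 152) (nat_lit 0) (XT.lf (nat_lit 0) (nat_lit 6737738851) (nat_lit 304) (nat_lit 11506280779) (nat_lit 76) (nat_lit 3647709995) (nat_lit 43) (nat_lit 5) (nat_lit 47) (nat_lit 5) (nat_lit 44) (nat_lit 5) (nat_lit 316) (nat_lit 307) (nat_lit 277)) (XT.lf (nat_lit 0) (nat_lit 12083897177) (nat_lit 152) (nat_lit 3239082092) (nat_lit 228) (nat_lit 8501548907) (nat_lit 41) (nat_lit 5) (nat_lit 43) (nat_lit 5) (nat_lit 44) (nat_lit 5) (nat_lit 317) (nat_lit 307) (nat_lit 276))) (XT.nd (nat_lit 78) (nat_lit 152) (nat_lit 0) (XT.lf (nat_lit 0) (nat_lit 172874912) (nat_lit 228) (nat_lit 11818590954) (nat_lit 76) (nat_lit 13978931585) (nat_lit 38) (nat_lit 5) (nat_lit 41) (nat_lit 5) (nat_lit 39) (nat_lit 5) (nat_lit 318) (nat_lit 307) (nat_lit 275)) (XT.lf (nat_lit 0) (nat_lit 10589074561) (nat_lit 228) (nat_lit 11868941801) (nat_lit 76) (nat_lit 5886976426) (nat_lit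 36) (nat_lit 5) (nat_lit 39) (nat_lit 5) (nat_lit 37) (nat_lit 5) (nat_lit 319) (nat_lit 307) (nat_lit 274))))) (XT.nd (nat_lit 312) (nat_lit 456) (nat_lit 0) (XT.nd (nat_lit 156) (nat_lit 304) (nat_lit 0) (XT.nd (nat_lit 78) (nat_lit 152) (nat_lit 0) (XT.lf (nat_lit 0) (nat_lit 19217085114) (nat_lit 152) (nat_lit 4442848219) (nat_lit 228) (nat_lit 7328492833) (nat_lit 34) (nat_lit 5) (nat_lit 36) (nat_lit 5) (nat_lit 37) (nat_lit 5) (nat_lit 320) (nat_lit 307) (nat_lit 273)) (XT.lf (nat_lit 0) (nat_lit 5694364897) (nat_lit 152) (nat_lit 11755824466) (nat_lit 76) (nat_lit 16468068635) (nat_lit 32) (nat_lit 5) (nat_lit 34) (nat_lit 5) (nat_lit 33) (nat_lit 5) (nat_lit 321) (nat_lit 307) (nat_lit 272))) (XT.nd (nat_lit 78) (nat_lit 152) (nat_lit 0) (XT.lf (nat_lit 0) (nat_lit 21391639167) (nat_lit 228) (nat_lit 11786630630) (nat_lit 76) (nat_lit 4001692411) (nat_lit 30) (nat_lit 5) (nat_lit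 33) (nat_lit 5) (nat_lit 31) (nat_lit 4) (nat_lit 322) (nat_lit 307) (nat_lit 271)) (XT.lf (nat_lit 0) (nat_lit 109006727) (nat_lit 152) (nat_lit 12016335263) (nat_lit 76) (nat_lit 28686695710) (nat_lit 28) (nat_lit 5) (nat_lit 30) (nat_lit 5) (nat_lit 29) (nat_lit 5) (nat_lit 323) (nat_lit 307) (nat_lit 270)))) (XT.nd (nat_lit 156) (nat_lit 228) (nat_lit 0) (XT.nd (nat_lit 78) (nat_lit 76) (nat_lit 0) (XT.lf (nat_lit 0) (nat_lit 18902703361) (nat_lit 228) (nat_lit 12878157552) (nat_lit 76) (nat_lit 13059540985) (nat_lit 26) (nat_lit 5) (nat_lit 29) (nat_lit 5) (nat_lit 27) (nat_lit 4) (nat_lit 324) (nat_lit 307) (nat_lit 269)) (XT.lf (nat_lit 0) (nat_lit 35169220059) (nat_lit 76) (nat_lit 6849424490) (nat_lit 152) (nat_lit 7334132512) (nat_lit 25) (nat_lit 5) (nat_lit 26) (nat_lit 5) (nat_lit 27) (nat_lit 4) (nat_lit 325) (nat_lit 307) (nat_lit 268))) (XT.nd (nat_lit 78) (nat_lit 76) (nat_lit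 0) (XT.lf (nat_lit 0) (nat_lit 15192169391) (nat_lit 152) (nat_lit 16788190042) (nat_lit 76) (nat_lit 22387763947) (nat_lit 23) (nat_lit 5) (nat_lit 25) (nat_lit 5) (nat_lit 24) (nat_lit 4) (nat_lit 326) (nat_lit 307) (nat_lit 267)) (XT.lf (nat_lit 0) (nat_lit 39371880419) (nat_lit 76) (nat_lit 2831693297) (nat_lit 152) (nat_lit 17793732684) (nat_lit 22) (nat_lit 5) (nat_lit 23) (nat_lit 5) (nat_lit 24) (nat_lit 4) (nat_lit 327) (nat_lit 307) (nat_lit 266))))))) (XT.nd (nat_lit 1170) (nat_lit 380) (nat_lit 0) (XT.nd (nat_lit 546) (nat_lit 532) (nat_lit 0) (XT.nd (nat_lit 234) (nat_lit 380) (nat_lit 0) (XT.nd (nat_lit 78) (nat_lit 152) (nat_lit 0) (XT.lf (nat_lit 0) (nat_lit 8677297293) (nat_lit 152) (nat_lit 26795775882) (nat_lit 76) (nat_lit 30807010629) (nat_lit 20) (nat_lit 5) (nat_lit 22) (nat_lit 5) (nat_lit 21) (nat_lit 4) (nat_lit 328) (nat_lit 307) (nat_lit 265)) (XT.nd (nat_lit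 78) (nat_lit 76) (nat_lit 0) (XT.lf (nat_lit 0) (nat_lit 37647194399) (nat_lit 76) (nat_lit 2020260972) (nat_lit 152) (nat_lit 33672689223) (nat_lit 19) (nat_lit 5) (nat_lit 20) (nat_lit 5) (nat_lit 21) (nat_lit 4) (nat_lit 329) (nat_lit 307) (nat_lit 264)) (XT.lf (nat_lit 0) (nat_lit 32670536374) (nat_lit 76) (nat_lit 45072562806) (nat_lit 76) (nat_lit 3521163280) (nat_lit 18) (nat_lit 4) (nat_lit 19) (nat_lit 5) (nat_lit 19) (nat_lit 4) (nat_lit 330) (nat_lit 307) (nat_lit 263)))) (XT.nd (nat_lit 156) (nat_lit 152) (nat_lit 0) (XT.nd (nat_lit 78) (nat_lit 76) (nat_lit 0) (XT.lf (nat_lit 0) (nat_lit 23450684305) (nat_lit 76) (nat_lit 7805891174) (nat_lit 152) (nat_lit 58927536860) (nat_lit 16) (nat_lit 5) (nat_lit 17) (nat_lit 5) (nat_lit 18) (nat_lit 4) (nat_lit 331) (nat_lit 307) (nat_lit 262)) (XT.lf (nat_lit 0) (nat_lit 8310514526) (nat_lit 76) (nat_lit 65209738534) (nat_lit 76) (nat_lit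 26716151768) (nat_lit 15) (nat_lit 4) (nat_lit 16) (nat_lit 5) (nat_lit 16) (nat_lit 4) (nat_lit 332) (nat_lit 307) (nat_lit 261))) (XT.nd (nat_lit 78) (nat_lit 76) (nat_lit 0) (XT.lf (nat_lit 0) (nat_lit 11998509212) (nat_lit 152) (nat_lit 13544804363) (nat_lit 76) (nat_lit 86058308250) (nat_lit 14) (nat_lit 5) (nat_lit 16) (nat_lit 5) (nat_lit 15) (nat_lit 4) (nat_lit 333) (nat_lit 307) (nat_lit 260)) (XT.lf (nat_lit 0) (nat_lit 57435981534) (nat_lit 152) (nat_lit 45200606830) (nat_lit 0) (nat_lit 21779720815) (nat_lit 13) (nat_lit 5) (nat_lit 15) (nat_lit 4) (nat_lit 13) (nat_lit 4) (nat_lit 334) (nat_lit 307) (nat_lit 259))))) (XT.nd (nat_lit 312) (nat_lit 228) (nat_lit 0) (XT.nd (nat_lit 156) (nat_lit 76) (nat_lit 0) (XT.nd (nat_lit 78) (nat_lit 152) (nat_lit 0) (XT.lf (nat_lit 0) (nat_lit 49304842119) (nat_lit 76) (nat_lit 62663962381) (nat_lit 76) (nat_lit 27002018851) (nat_lit 12)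 (nat_lit 4) (nat_lit 13) (nat_lit 5) (nat_lit 13) (nat_lit 4) (nat_lit 335) (nat_lit 307) (nat_lit 258)) (XT.lf (nat_lit 0) (nat_lit 4839982729) (nat_lit 76) (nat_lit 14634472959) (nat_lit 152) (nat_lit 136081514286) (nat_lit 10) (nat_lit 5) (nat_lit 11) (nat_lit 5) (nat_lit 12) (nat_lit 4) (nat_lit 336) (nat_lit 307) (nat_lit 257))) (XT.nd (nat_lit 78) (nat_lit 76) (nat_lit 0) (XT.lf (nat_lit 0) (nat_lit 75008812957) (nat_lit 152) (nat_lit 57289209802) (nat_lit 0) (nat_lit 41979940618) (nat_lit 10) (nat_lit 5) (nat_lit 12) (nat_lit 4) (nat_lit 10) (nat_lit 4) (nat_lit 337) (nat_lit 307) (nat_lit 256)) (XT.lf (nat_lit 0) (nat_lit 52339067685) (nat_lit 76) (nat_lit 88184741333) (nat_lit 76) (nat_lit 55152409234) (nat_lit 9) (nat_lit 4) (nat_lit 10) (nat_lit 5) (nat_lit 10) (nat_lit 4) (nat_lit 338) (nat_lit 307) (nat_lit 255)))) (XT.nd (nat_lit 156) (nat_lit 76) (nat_lit 0) (XT.nd (nat_lit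 78) (nat_lit 152) (nat_lit 0) (XT.lf (nat_lit 0) (nat_lit 181857070615) (nat_lit 76) (nat_lit 35665000552) (nat_lit 76) (nat_lit 2629659966) (nat_lit 9) (nat_lit 4) (nat_lit 10) (nat_lit 5) (nat_lit 10) (nat_lit 4) (nat_lit 339) (nat_lit 307) (nat_lit 254)) (XT.lf (nat_lit 0) (nat_lit 57607903726) (nat_lit 152) (nat_lit 163344203196) (nat_lit 0) (nat_lit 27017203114) (nat_lit 7) (nat_lit 5) (nat_lit 9) (nat_lit 4) (nat_lit 7) (nat_lit 4) (nat_lit 340) (nat_lit 307) (nat_lit 253))) (XT.nd (nat_lit 78) (nat_lit 76) (nat_lit 0) (XT.lf (nat_lit 0) (nat_lit 128850163976) (nat_lit 152) (nat_lit 52676559948) (nat_lit 0) (nat_lit 98257357023) (nat_lit 7) (nat_lit 5) (nat_lit 9) (nat_lit 4) (nat_lit 7) (nat_lit 4) (nat_lit 341) (nat_lit 307) (nat_lit 252)) (XT.lf (nat_lit 0) (nat_lit 78500782848) (nat_lit 76) (nat_lit 134157289572) (nat_lit 76) (nat_lit 103562651018) (nat_lit 6) (nat_lit 4) (nat_lit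 7) (nat_lit 5) (nat_lit 7) (nat_lit 4) (nat_lit 342) (nat_lit 307) (nat_lit 251)))))) (XT.nd (nat_lit 624) (nat_lit 152) (nat_lit 0) (XT.nd (nat_lit 312) (nat_lit 76) (nat_lit 0) (XT.nd (nat_lit 156) (nat_lit 0) (nat_lit 0) (XT.nd (nat_lit 78) (nat_lit 152) (nat_lit 0) (XT.lf (nat_lit 0) (nat_lit 232528756105) (nat_lit 76) (nat_lit 78034139864) (nat_lit 76) (nat_lit 47437908614) (nat_lit 6) (nat_lit 4) (nat_lit 7) (nat_lit 5) (nat_lit 7) (nat_lit 4) (nat_lit 343) (nat_lit 307) (nat_lit 250)) (XT.lf (nat_lit 0) (nat_lit 3355283204) (nat_lit 76) (nat_lit 12968226126) (nat_lit 152) (nat_lit 389685585716) (nat_lit 4) (nat_lit 5) (nat_lit 5) (nat_lit 5) (nat_lit 6) (nat_lit 4) (nat_lit 344) (nat_lit 307) (nat_lit 249))) (XT.nd (nat_lit 78) (nat_lit 0) (nat_lit 0) (XT.lf (nat_lit 0) (nat_lit 92149096995) (nat_lit 152) (nat_lit 304729399588) (nat_lit 0) (nat_lit 63816855781) (nat_lit 4) (nat_lit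 5) (nat_lit 6) (nat_lit 4) (nat_lit 4) (nat_lit 4) (nat_lit 345) (nat_lit 307) (nat_lit 248)) (XT.lf (nat_lit 0) (nat_lit 179701458183) (nat_lit 152) (nat_lit 192486608306) (nat_lit 0) (nat_lit 151368247318) (nat_lit 4) (nat_lit 5) (nat_lit 6) (nat_lit 4) (nat_lit 4) (nat_lit 4) (nat_lit 346) (nat_lit 307) (nat_lit 247)))) (XT.nd (nat_lit 156) (nat_lit 0) (nat_lit 0) (XT.nd (nat_lit 78) (nat_lit 76) (nat_lit 0) (XT.lf (nat_lit 0) (nat_lit 280381687725) (nat_lit 152) (nat_lit 63417497235) (nat_lit 0) (nat_lit 252047633685) (nat_lit 4) (nat_lit 5) (nat_lit 6) (nat_lit 4) (nat_lit 4) (nat_lit 4) (nat_lit 347) (nat_lit 307) (nat_lit 246)) (XT.lf (nat_lit 0) (nat_lit 89479316653) (nat_lit 76) (nat_lit 308832279262) (nat_lit 76) (nat_lit 280497492026) (nat_lit 3) (nat_lit 4) (nat_lit 4) (nat_lit 5) (nat_lit 4) (nat_lit 4) (nat_lit 348) (nat_lit 307) (nat_lit 245))) (XT.nd (nat_lit 78) (nat_lit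 0) (nat_lit 0) (XT.lf (nat_lit 0) (nat_lit 269142985266) (nat_lit 76) (nat_lit 266630373944) (nat_lit 76) (nat_lit 238294949147) (nat_lit 3) (nat_lit 4) (nat_lit 4) (nat_lit 5) (nat_lit 4) (nat_lit 4) (nat_lit 349) (nat_lit 307) (nat_lit 244)) (XT.lf (nat_lit 0) (nat_lit 475749214317) (nat_lit 76) (nat_lit 218101726316) (nat_lit 76) (nat_lit 189765747116) (nat_lit 3) (nat_lit 4) (nat_lit 4) (nat_lit 5) (nat_lit 4) (nat_lit 4) (nat_lit 350) (nat_lit 307) (nat_lit 243))))) (XT.nd (nat_lit 312) (nat_lit 0) (nat_lit 0) (XT.nd (nat_lit 156) (nat_lit 152) (nat_lit 0) (XT.nd (nat_lit 78) (nat_lit 0) (nat_lit 0) (XT.lf (nat_lit 0) (nat_lit 713340299593) (nat_lit 76) (nat_lit 162296862835) (nat_lit 76) (nat_lit 133960401547) (nat_lit 3) (nat_lit 4) (nat_lit 4) (nat_lit 5) (nat_lit 4) (nat_lit 4) (nat_lit 351) (nat_lit 307) (nat_lit 242)) (XT.lf (nat_lit 0) (nat_lit 986564762326) (nat_lit 76) (nat_lit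 98123949217) (nat_lit 76) (nat_lit 69787068722) (nat_lit 3) (nat_lit 4) (nat_lit 4) (nat_lit 5) (nat_lit 4) (nat_lit 4) (nat_lit 352) (nat_lit 307) (nat_lit 241))) (XT.nd (nat_lit 78) (nat_lit 76) (nat_lit 0) (XT.lf (nat_lit 0) (nat_lit 3809229301) (nat_lit 152) (nat_lit 20414048075) (nat_lit 76) (nat_lit 1296854918146) (nat_lit 2) (nat_lit 5) (nat_lit 4) (nat_lit 5) (nat_lit 3) (nat_lit 4) (nat_lit 353) (nat_lit 307) (nat_lit 240)) (XT.lf (nat_lit 0) (nat_lit 89764965151) (nat_lit 152) (nat_lit 1358798340811) (nat_lit 0) (nat_lit 63526481814) (nat_lit 1) (nat_lit 5) (nat_lit 3) (nat_lit 4) (nat_lit 1) (nat_lit 4) (nat_lit 354) (nat_lit 307) (nat_lit 239)))) (XT.nd (nat_lit 156) (nat_lit 0) (nat_lit 0) (XT.nd (nat_lit 78) (nat_lit 0) (nat_lit 0) (XT.lf (nat_lit 0) (nat_lit 189891893356) (nat_lit 152) (nat_lit 1378105844246) (nat_lit 0) (nat_lit 163653154802) (nat_lit 1) (nat_lit 5) (nat_lit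 3) (nat_lit 4) (nat_lit 1) (nat_lit 4) (nat_lit 355) (nat_lit 307) (nat_lit 238)) (XT.lf (nat_lit 0) (nat_lit 305036213616) (nat_lit 152) (nat_lit 1400312827835) (nat_lit 0) (nat_lit 278797253132) (nat_lit 1) (nat_lit 5) (nat_lit 3) (nat_lit 4) (nat_lit 1) (nat_lit 4) (nat_lit 356) (nat_lit 307) (nat_lit 237))) (XT.nd (nat_lit 78) (nat_lit 0) (nat_lit 0) (XT.lf (nat_lit 0) (nat_lit 437450749587) (nat_lit 152) (nat_lit 1425853776037) (nat_lit 0) (nat_lit 411211596122) (nat_lit 1) (nat_lit 5) (nat_lit 3) (nat_lit 4) (nat_lit 1) (nat_lit 4) (nat_lit 357) (nat_lit 307) (nat_lit 236)) (XT.lf (nat_lit 0) (nat_lit 589726220451) (nat_lit 152) (nat_lit 1455228403057) (nat_lit 0) (nat_lit 563486899176) (nat_lit 1) (nat_lit 5) (nat_lit 3) (nat_lit 4) (nat_lit 1) (nat_lit 4) (nat_lit 358) (nat_lit 307) (nat_lit 235))))))))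
noncomputable def xc32 : XT := (XT.nd (nat_lit 43992) (nat_lit 0) (nat_lit 152) (XT.nd (nat_lit 1170) (nat_lit 0) (nat_lit 0) (XT.nd (nat_lit 546) (nat_lit 0) (nat_lit 0) (XT.nd (nat_lit 234) (nat_lit 0) (nat_lit 0) (XT.nd (nat_lit 78) (nat_lit 0) (nat_lit 0) (XT.lf (nat_lit 0) (nat_lit 764841928900) (nat_lit 152) (nat_lit 1489011429858) (nat_lit 0) (nat_lit 738602461703) (nat_lit 1) (nat_lit 5) (nat_lit 3) (nat_lit 4) (nat_lit 1) (nat_lit 4) (nat_lit 359) (nat_lit 307) (nat_lit 234)) (XT.nd (nat_lit 78) (nat_lit 0) (nat_lit 0) (XT.lf (nat_lit 0) (nat_lit 966224051838) (nat_lit 152) (nat_lit 1527863828705) (nat_lit 0) (nat_lit 939984457753) (nat_lit 1) (nat_lit 5) (nat_lit 3) (nat_lit 4) (nat_lit 1) (nat_lit 4) (nat_lit 360) (nat_lit 307) (nat_lit 233)) (XT.lf (nat_lit 0) (nat_lit 1197812674278) (nat_lit 152) (nat_lit 1572545755226) (nat_lit 0) (nat_lit 1171572969855) (nat_lit 1) (nat_lit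 5) (nat_lit 3) (nat_lit 4) (nat_lit 1) (nat_lit 4) (nat_lit 361) (nat_lit 307) (nat_lit 232)))) (XT.nd (nat_lit 156) (nat_lit 0) (nat_lit 0) (XT.nd (nat_lit 78) (nat_lit 0) (nat_lit 0) (XT.lf (nat_lit 0) (nat_lit 1464138877964) (nat_lit 152) (nat_lit 1623931421027) (nat_lit 0) (nat_lit 1437899077596) (nat_lit 1) (nat_lit 5) (nat_lit 3) (nat_lit 4) (nat_lit 1) (nat_lit 4) (nat_lit 362) (nat_lit 307) (nat_lit 231)) (XT.lf (nat_lit 0) (nat_lit 1770413392969) (nat_lit 152) (nat_lit 1683026197831) (nat_lit 0) (nat_lit 1744173509169) (nat_lit 1) (nat_lit 5) (nat_lit 3) (nat_lit 4) (nat_lit 1) (nat_lit 4) (nat_lit 363) (nat_lit 307) (nat_lit 230))) (XT.nd (nat_lit 78) (nat_lit 0) (nat_lit 0) (XT.lf (nat_lit 0) (nat_lit 2122628546760) (nat_lit 152) (nat_lit 1750986287792) (nat_lit 0) (nat_lit 2096388590411) (nat_lit 1) (nat_lit 5) (nat_lit 3) (nat_lit 4) (nat_lit 1) (nat_lit 4) (nat_lit 364) (nat_lit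 307) (nat_lit 229)) (XT.lf (nat_lit 0) (nat_lit 2527675505388) (nat_lit 152) (nat_lit 1829141344845) (nat_lit 0) (nat_lit 2501435485954) (nat_lit 1) (nat_lit 5) (nat_lit 3) (nat_lit 4) (nat_lit 1) (nat_lit 4) (nat_lit 365) (nat_lit 307) (nat_lit 228))))) (XT.nd (nat_lit 312) (nat_lit 0) (nat_lit 0) (XT.nd (nat_lit 156) (nat_lit 0) (nat_lit 0) (XT.nd (nat_lit 78) (nat_lit 0) (nat_lit 0) (XT.lf (nat_lit 0) (nat_lit 2993479100655) (nat_lit 152) (nat_lit 1919020489670) (nat_lit 0) (nat_lit 2967239026362) (nat_lit 1) (nat_lit 5) (nat_lit 3) (nat_lit 4) (nat_lit 1) (nat_lit 4) (nat_lit 366) (nat_lit 307) (nat_lit 227)) (XT.lf (nat_lit 0) (nat_lit 3529152881161) (nat_lit 152) (nat_lit 2022382227276) (nat_lit 0) (nat_lit 3502912759167) (nat_lit 1) (nat_lit 5) (nat_lit 3) (nat_lit 4) (nat_lit 1) (nat_lit 4) (nat_lit 367) (nat_lit 307) (nat_lit 226))) (XT.nd (nat_lit 78) (nat_lit 0) (nat_lit 0) (XT.lf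 (nat_lit 0) (nat_lit 4145177420875) (nat_lit 152) (nat_lit 2141248852529) (nat_lit 0) (nat_lit 4118937257401) (nat_lit 1) (nat_lit 5) (nat_lit 3) (nat_lit 4) (nat_lit 1) (nat_lit 4) (nat_lit 368) (nat_lit 307) (nat_lit 225)) (XT.lf (nat_lit 0) (nat_lit 4853605373833) (nat_lit 152) (nat_lit 2277946016791) (nat_lit 0) (nat_lit 4827365174289) (nat_lit 1) (nat_lit 5) (nat_lit 3) (nat_lit 4) (nat_lit 1) (nat_lit 4) (nat_lit 369) (nat_lit 307) (nat_lit 224)))) (XT.nd (nat_lit 156) (nat_lit 0) (nat_lit 0) (XT.nd (nat_lit 78) (nat_lit 0) (nat_lit 0) (XT.lf (nat_lit 0) (nat_lit 5668297286942) (nat_lit 152) (nat_lit 2435148229800) (nat_lit 0) (nat_lit 5642057056033) (nat_lit 1) (nat_lit 5) (nat_lit 3) (nat_lit 4) (nat_lit 1) (nat_lit 4) (nat_lit 370) (nat_lit 307) (nat_lit 223)) (XT.lf (nat_lit 0) (nat_lit 6605192784589) (nat_lit 152) (nat_lit 2615931187026) (nat_lit 0) (nat_lit 6578952526406) (nat_lit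 1) (nat_lit 5) (nat_lit 3) (nat_lit 4) (nat_lit 1) (nat_lit 4) (nat_lit 371) (nat_lit 307) (nat_lit 222))) (XT.nd (nat_lit 78) (nat_lit 0) (nat_lit 0) (XT.lf (nat_lit 0) (nat_lit 7682622430857) (nat_lit 152) (nat_lit 2823831946329) (nat_lit 0) (nat_lit 7656382148958) (nat_lit 1) (nat_lit 5) (nat_lit 3) (nat_lit 4) (nat_lit 1) (nat_lit 4) (nat_lit 372) (nat_lit 307) (nat_lit 221)) (XT.lf (nat_lit 0) (nat_lit 8921666371000) (nat_lit 152) (nat_lit 3062918131259) (nat_lit 0) (nat_lit 8895426068478) (nat_lit 1) (nat_lit 5) (nat_lit 3) (nat_lit 4) (nat_lit 1) (nat_lit 4) (nat_lit 373) (nat_lit 307) (nat_lit 220)))))) (XT.nd (nat_lit 42198) (nat_lit 0) (nat_lit 2508) (XT.nd (nat_lit 41886) (nat_lit 0) (nat_lit 4104) (XT.nd (nat_lit 41730) (nat_lit 0) (nat_lit 4788) (XT.lf (nat_lit 0) (nat_lit 10346566769064) (nat_lit 152) (nat_lit 3337867515001) (nat_lit 0) (nat_lit 10320326448609) (nat_lit 1)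 (nat_lit 5) (nat_lit 3) (nat_lit 4) (nat_lit 1) (nat_lit 4) (nat_lit 374) (nat_lit 307) (nat_lit 219)) (XT.nd (nat_lit 78) (nat_lit 0) (nat_lit 76) (XT.lf (nat_lit 0) (nat_lit 3751997740) (nat_lit 532) (nat_lit 1304435198) (nat_lit 532) (nat_lit 1304435198) (nat_lit 64) (nat_lit 3) (nat_lit 71) (nat_lit 3) (nat_lit 71) (nat_lit 5) (nat_lit 308) (nat_lit 308) (nat_lit 284)) (XT.lf (nat_lit 0) (nat_lit 9016870749) (nat_lit 456) (nat_lit 4164859804) (nat_lit 532) (nat_lit 417456079) (nat_lit 65) (nat_lit 5) (nat_lit 71) (nat_lit 5) (nat_lit 72) (nat_lit 5) (nat_lit 309) (nat_lit 308) (nat_lit 283)))) (XT.nd (nat_lit 156) (nat_lit 760) (nat_lit 0) (XT.nd (nat_lit 78) (nat_lit 0) (nat_lit 76) (XT.lf (nat_lit 76) (nat_lit 8920455872) (nat_lit 0) (nat_lit 2281169675) (nat_lit 532) (nat_lit 3371153114) (nat_lit 66) (nat_lit 5) (nat_lit 65) (nat_lit 5) (nat_lit 72) (nat_lit 5) (nat_lit 310) (nat_lit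 308) (nat_lit 282)) (XT.lf (nat_lit 76) (nat_lit 8633400979) (nat_lit 0) (nat_lit 5547741139) (nat_lit 532) (nat_lit 1474007819) (nat_lit 67) (nat_lit 5) (nat_lit 66) (nat_lit 5) (nat_lit 73) (nat_lit 5) (nat_lit 311) (nat_lit 308) (nat_lit 281))) (XT.nd (nat_lit 78) (nat_lit 380) (nat_lit 0) (XT.lf (nat_lit 0) (nat_lit 1200927663) (nat_lit 532) (nat_lit 8270318532) (nat_lit 76) (nat_lit 7385063402) (nat_lit 60) (nat_lit 5) (nat_lit 67) (nat_lit 5) (nat_lit 61) (nat_lit 5) (nat_lit 312) (nat_lit 308) (nat_lit 280)) (XT.lf (nat_lit 0) (nat_lit 4781061461) (nat_lit 456) (nat_lit 9397753525) (nat_lit 76) (nat_lit 4008539534) (nat_lit 55) (nat_lit 5) (nat_lit 61) (nat_lit 5) (nat_lit 56) (nat_lit 5) (nat_lit 313) (nat_lit 308) (nat_lit 279))))) (XT.nd (nat_lit 312) (nat_lit 684) (nat_lit 0) (XT.nd (nat_lit 156) (nat_lit 456) (nat_lit 0) (XT.nd (nat_lit 78) (nat_lit 228) (nat_lit 0) (XT.lf (nat_lit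 0) (nat_lit 9324191055) (nat_lit 228) (nat_lit 227228247) (nat_lit 304) (nat_lit 10114444076) (nat_lit 52) (nat_lit 5) (nat_lit 55) (nat_lit 5) (nat_lit 56) (nat_lit 5) (nat_lit 314) (nat_lit 308) (nat_lit 278)) (XT.lf (nat_lit 0) (nat_lit 10114689642) (nat_lit 228) (nat_lit 5755416870) (nat_lit 304) (nat_lit 5429475227) (nat_lit 49) (nat_lit 5) (nat_lit 52) (nat_lit 5) (nat_lit 53) (nat_lit 5) (nat_lit 315) (nat_lit 308) (nat_lit 277))) (XT.nd (nat_lit 78) (nat_lit 228) (nat_lit 0) (XT.lf (nat_lit 0) (nat_lit 755888002) (nat_lit 228) (nat_lit 11804317768) (nat_lit 76) (nat_lit 10554632102) (nat_lit 46) (nat_lit 5) (nat_lit 49) (nat_lit 5) (nat_lit 47) (nat_lit 5) (nat_lit 316) (nat_lit 308) (nat_lit 276)) (XT.lf (nat_lit 0) (nat_lit 8413117963) (nat_lit 304) (nat_lit 12309009311) (nat_lit 76) (nat_lit 4399767971) (nat_lit 43) (nat_lit 5) (nat_lit 47) (nat_lit 5) (nat_lit 44) (nat_lit 5)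 (nat_lit 317) (nat_lit 308) (nat_lit 275)))) (XT.nd (nat_lit 156) (nat_lit 304) (nat_lit 0) (XT.nd (nat_lit 78) (nat_lit 228) (nat_lit 0) (XT.lf (nat_lit 0) (nat_lit 14741549907) (nat_lit 152) (nat_lit 3478216062) (nat_lit 228) (nat_lit 9130212197) (nat_lit 41) (nat_lit 5) (nat_lit 43) (nat_lit 5) (nat_lit 44) (nat_lit 5) (nat_lit 318) (nat_lit 308) (nat_lit 274)) (XT.lf (nat_lit 0) (nat_lit 758250842) (nat_lit 228) (nat_lit 12749376061) (nat_lit 76) (nat_lit 16313283082) (nat_lit 38) (nat_lit 5) (nat_lit 41) (nat_lit 5) (nat_lit 39) (nat_lit 5) (nat_lit 319) (nat_lit 308) (nat_lit 273))) (XT.nd (nat_lit 78) (nat_lit 152) (nat_lit 0) (XT.lf (nat_lit 0) (nat_lit 12688836147) (nat_lit 228) (nat_lit 12844287302) (nat_lit 76) (nat_lit 7022452740) (nat_lit 36) (nat_lit 5) (nat_lit 39) (nat_lit 5) (nat_lit 37) (nat_lit 5) (nat_lit 320) (nat_lit 308) (nat_lit 272)) (XT.lf (nat_lit 0) (nat_lit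 22836504768) (nat_lit 152) (nat_lit 4834835992) (nat_lit 228) (nat_lit 7928135515) (nat_lit 34) (nat_lit 5) (nat_lit 36) (nat_lit 5) (nat_lit 37) (nat_lit 5) (nat_lit 321) (nat_lit 308) (nat_lit 271))))))) (XT.nd (nat_lit 1170) (nat_lit 684) (nat_lit 0) (XT.nd (nat_lit 546) (nat_lit 760) (nat_lit 0) (XT.nd (nat_lit 234) (nat_lit 456) (nat_lit 0) (XT.nd (nat_lit 78) (nat_lit 304) (nat_lit 0) (XT.lf (nat_lit 0) (nat_lit 6984470651) (nat_lit 152) (nat_lit 12793556376) (nat_lit 76) (nat_lit 19192916115) (nat_lit 32) (nat_lit 5) (nat_lit 34) (nat_lit 5) (nat_lit 33) (nat_lit 5) (nat_lit 322) (nat_lit 308) (nat_lit 270)) (XT.nd (nat_lit 78) (nat_lit 152) (nat_lit 0) (XT.lf (nat_lit 0) (nat_lit 25001920631) (nat_lit 228) (nat_lit 12865119356) (nat_lit 76) (nat_lit 4857639380) (nat_lit 30) (nat_lit 5) (nat_lit 33) (nat_lit 5) (nat_lit 31) (nat_lit 4) (nat_lit 323) (nat_lit 308) (nat_lit 269)) (XT.lf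 (nat_lit 0) (nat_lit 499288982) (nat_lit 152) (nat_lit 13167828110) (nat_lit 76) (nat_lit 33236687509) (nat_lit 28) (nat_lit 5) (nat_lit 30) (nat_lit 5) (nat_lit 29) (nat_lit 5) (nat_lit 324) (nat_lit 308) (nat_lit 268)))) (XT.nd (nat_lit 156) (nat_lit 228) (nat_lit 0) (XT.nd (nat_lit 78) (nat_lit 76) (nat_lit 0) (XT.lf (nat_lit 0) (nat_lit 22083762533) (nat_lit 228) (nat_lit 14192922645) (nat_lit 76) (nat_lit 15262016663) (nat_lit 26) (nat_lit 5) (nat_lit 29) (nat_lit 5) (nat_lit 27) (nat_lit 4) (nat_lit 325) (nat_lit 308) (nat_lit 267)) (XT.lf (nat_lit 0) (nat_lit 41009339140) (nat_lit 76) (nat_lit 7626252414) (nat_lit 152) (nat_lit 8094876086) (nat_lit 25) (nat_lit 5) (nat_lit 26) (nat_lit 5) (nat_lit 27) (nat_lit 4) (nat_lit 326) (nat_lit 308) (nat_lit 266))) (XT.nd (nat_lit 78) (nat_lit 76) (nat_lit 0) (XT.lf (nat_lit 0) (nat_lit 17769907504) (nat_lit 152) (nat_lit 18756094455) (nat_lit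 76) (nat_lit 25973351263) (nat_lit 23) (nat_lit 5) (nat_lit 25) (nat_lit 5) (nat_lit 24) (nat_lit 4) (nat_lit 327) (nat_lit 308) (nat_lit 265)) (XT.lf (nat_lit 0) (nat_lit 45781404381) (nat_lit 76) (nat_lit 3024744487) (nat_lit 152) (nat_lit 20168924583) (nat_lit 22) (nat_lit 5) (nat_lit 23) (nat_lit 5) (nat_lit 24) (nat_lit 4) (nat_lit 328) (nat_lit 308) (nat_lit 264))))) (XT.nd (nat_lit 312) (nat_lit 304) (nat_lit 0) (XT.nd (nat_lit 156) (nat_lit 228) (nat_lit 0) (XT.nd (nat_lit 78) (nat_lit 76) (nat_lit 0) (XT.lf (nat_lit 0) (nat_lit 10238362482) (nat_lit 152) (nat_lit 30325442960) (nat_lit 76) (nat_lit 35637480322) (nat_lit 20) (nat_lit 5) (nat_lit 22) (nat_lit 5) (nat_lit 21) (nat_lit 4) (nat_lit 329) (nat_lit 308) (nat_lit 263)) (XT.lf (nat_lit 0) (nat_lit 43742522257) (nat_lit 76) (nat_lit 2111458416) (nat_lit 152) (nat_lit 38468226996) (nat_lit 19) (nat_lit 5) (nat_lit 20) (nat_lit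 5) (nat_lit 21) (nat_lit 4) (nat_lit 330) (nat_lit 308) (nat_lit 262))) (XT.nd (nat_lit 78) (nat_lit 152) (nat_lit 0) (XT.lf (nat_lit 0) (nat_lit 37994113822) (nat_lit 76) (nat_lit 51630624883) (nat_lit 76) (nat_lit 3811509105) (nat_lit 18) (nat_lit 4) (nat_lit 19) (nat_lit 5) (nat_lit 19) (nat_lit 4) (nat_lit 331) (nat_lit 308) (nat_lit 261)) (XT.lf (nat_lit 0) (nat_lit 27366403416) (nat_lit 76) (nat_lit 8784695282) (nat_lit 152) (nat_lit 67544115296) (nat_lit 16) (nat_lit 5) (nat_lit 17) (nat_lit 5) (nat_lit 18) (nat_lit 4) (nat_lit 332) (nat_lit 308) (nat_lit 260)))) (XT.nd (nat_lit 156) (nat_lit 152) (nat_lit 0) (XT.nd (nat_lit 78) (nat_lit 76) (nat_lit 0) (XT.lf (nat_lit 0) (nat_lit 9932398362) (nat_lit 76) (nat_lit 74808098283) (nat_lit 76) (nat_lit 30515964419) (nat_lit 15) (nat_lit 4) (nat_lit 16) (nat_lit 5) (nat_lit 16) (nat_lit 4) (nat_lit 333) (nat_lit 308) (nat_lit 259)) (XT.lf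 (nat_lit 0) (nat_lit 13969785259) (nat_lit 152) (nat_lit 15241117959) (nat_lit 76) (nat_lit 99117219331) (nat_lit 14) (nat_lit 5) (nat_lit 16) (nat_lit 5) (nat_lit 15) (nat_lit 4) (nat_lit 334) (nat_lit 308) (nat_lit 258))) (XT.nd (nat_lit 78) (nat_lit 76) (nat_lit 0) (XT.lf (nat_lit 0) (nat_lit 66211512255) (nat_lit 152) (nat_lit 51664760182) (nat_lit 0) (nat_lit 25189652810) (nat_lit 13) (nat_lit 5) (nat_lit 15) (nat_lit 4) (nat_lit 13) (nat_lit 4) (nat_lit 335) (nat_lit 308) (nat_lit 257)) (XT.lf (nat_lit 0) (nat_lit 56989763560) (nat_lit 76) (nat_lit 71920563279) (nat_lit 76) (nat_lit 30894406812) (nat_lit 12) (nat_lit 4) (nat_lit 13) (nat_lit 5) (nat_lit 13) (nat_lit 4) (nat_lit 336) (nat_lit 308) (nat_lit 256)))))) (XT.nd (nat_lit 624) (nat_lit 228) (nat_lit 0) (XT.nd (nat_lit 312) (nat_lit 228) (nat_lit 0) (XT.nd (nat_lit 156) (nat_lit 76) (nat_lit 0) (XT.nd (nat_lit 78) (nat_lit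 0) (nat_lit 0) (XT.lf (nat_lit 0) (nat_lit 5837941687) (nat_lit 76) (nat_lit 16694671146) (nat_lit 152) (nat_lit 156345779790) (nat_lit 10) (nat_lit 5) (nat_lit 11) (nat_lit 5) (nat_lit 12) (nat_lit 4) (nat_lit 337) (nat_lit 308) (nat_lit 255)) (XT.lf (nat_lit 0) (nat_lit 86382078283) (nat_lit 152) (nat_lit 65639384057) (nat_lit 0) (nat_lit 48388428123) (nat_lit 10) (nat_lit 5) (nat_lit 12) (nat_lit 4) (nat_lit 10) (nat_lit 4) (nat_lit 338) (nat_lit 308) (nat_lit 254))) (XT.nd (nat_lit 78) (nat_lit 0) (nat_lit 0) (XT.lf (nat_lit 0) (nat_lit 60412548775) (nat_lit 76) (nat_lit 101301223359) (nat_lit 76) (nat_lit 63304957123) (nat_lit 9) (nat_lit 4) (nat_lit 10) (nat_lit 5) (nat_lit 10) (nat_lit 4) (nat_lit 339) (nat_lit 308) (nat_lit 253)) (XT.lf (nat_lit 0) (nat_lit 209329214630) (nat_lit 76) (nat_lit 40918029614) (nat_lit 76) (nat_lit 2919488530) (nat_lit 9) (nat_lit 4) (nat_lit 10) (nat_lit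 5) (nat_lit 10) (nat_lit 4) (nat_lit 340) (nat_lit 308) (nat_lit 252)))) (XT.nd (nat_lit 156) (nat_lit 76) (nat_lit 0) (XT.nd (nat_lit 78) (nat_lit 0) (nat_lit 0) (XT.lf (nat_lit 0) (nat_lit 66342082924) (nat_lit 152) (nat_lit 187658759865) (nat_lit 0) (nat_lit 31156416987) (nat_lit 7) (nat_lit 5) (nat_lit 9) (nat_lit 4) (nat_lit 7) (nat_lit 4) (nat_lit 341) (nat_lit 308) (nat_lit 251)) (XT.lf (nat_lit 0) (nat_lit 148258552606) (nat_lit 152) (nat_lit 60415371062) (nat_lit 0) (nat_lit 113071293973) (nat_lit 7) (nat_lit 5) (nat_lit 9) (nat_lit 4) (nat_lit 7) (nat_lit 4) (nat_lit 342) (nat_lit 308) (nat_lit 250))) (XT.nd (nat_lit 78) (nat_lit 0) (nat_lit 0) (XT.lf (nat_lit 0) (nat_lit 90424803706) (nat_lit 76) (nat_lit 154205877260) (nat_lit 76) (nat_lit 119017233673) (nat_lit 6) (nat_lit 4) (nat_lit 7) (nat_lit 5) (nat_lit 7) (nat_lit 4) (nat_lit 343) (nat_lit 308) (nat_lit 249)) (XT.lf (nat_lit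 0) (nat_lit 267537550765) (nat_lit 76) (nat_lit 89674038455) (nat_lit 76) (nat_lit 54484190560) (nat_lit 6) (nat_lit 4) (nat_lit 7) (nat_lit 5) (nat_lit 7) (nat_lit 4) (nat_lit 344) (nat_lit 308) (nat_lit 248))))) (XT.nd (nat_lit 312) (nat_lit 76) (nat_lit 0) (XT.nd (nat_lit 156) (nat_lit 0) (nat_lit 0) (XT.nd (nat_lit 78) (nat_lit 0) (nat_lit 0) (XT.lf (nat_lit 0) (nat_lit 3980279049) (nat_lit 76) (nat_lit 14852016223) (nat_lit 152) (nat_lit 448073339416) (nat_lit 4) (nat_lit 5) (nat_lit 5) (nat_lit 5) (nat_lit 6) (nat_lit 4) (nat_lit 345) (nat_lit 308) (nat_lit 247)) (XT.lf (nat_lit 0) (nat_lit 106025146125) (nat_lit 152) (nat_lit 350330070174) (nat_lit 0) (nat_lit 73440140804) (nat_lit 4) (nat_lit 5) (nat_lit 6) (nat_lit 4) (nat_lit 4) (nat_lit 4) (nat_lit 346) (nat_lit 308) (nat_lit 246))) (XT.nd (nat_lit 78) (nat_lit 0) (nat_lit 0) (XT.lf (nat_lit 0) (nat_lit 206703359155) (nat_lit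 152) (nat_lit 221265043594) (nat_lit 0) (nat_lit 174117620638) (nat_lit 4) (nat_lit 5) (nat_lit 6) (nat_lit 4) (nat_lit 4) (nat_lit 4) (nat_lit 347) (nat_lit 308) (nat_lit 245)) (XT.lf (nat_lit 0) (nat_lit 322479534140) (nat_lit 152) (nat_lit 72847899248) (nat_lit 0) (nat_lit 289893158061) (nat_lit 4) (nat_lit 5) (nat_lit 6) (nat_lit 4) (nat_lit 4) (nat_lit 4) (nat_lit 348) (nat_lit 308) (nat_lit 244)))) (XT.nd (nat_lit 156) (nat_lit 0) (nat_lit 0) (XT.nd (nat_lit 78) (nat_lit 0) (nat_lit 0) (XT.lf (nat_lit 0) (nat_lit 102976476992) (nat_lit 76) (nat_lit 355118966867) (nat_lit 76) (nat_lit 322532036386) (nat_lit 3) (nat_lit 4) (nat_lit 4) (nat_lit 5) (nat_lit 4) (nat_lit 4) (nat_lit 349) (nat_lit 308) (nat_lit 243)) (XT.lf (nat_lit 0) (nat_lit 309579879005) (nat_lit 76) (nat_lit 306591752397) (nat_lit 76) (nat_lit 274004339829) (nat_lit 3) (nat_lit 4) (nat_lit 4) (nat_lit 5) (nat_lit 4)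 (nat_lit 4) (nat_lit 350) (nat_lit 308) (nat_lit 242))) (XT.nd (nat_lit 78) (nat_lit 0) (nat_lit 0) (XT.lf (nat_lit 0) (nat_lit 547168505986) (nat_lit 76) (nat_lit 250788135142) (nat_lit 76) (nat_lit 218200303366) (nat_lit 3) (nat_lit 4) (nat_lit 4) (nat_lit 5) (nat_lit 4) (nat_lit 4) (nat_lit 351) (nat_lit 308) (nat_lit 241)) (XT.lf (nat_lit 0) (nat_lit 820390831072) (nat_lit 76) (nat_lit 186616305199) (nat_lit 76) (nat_lit 154028108895) (nat_lit 3) (nat_lit 4) (nat_lit 4) (nat_lit 5) (nat_lit 4) (nat_lit 4) (nat_lit 352) (nat_lit 308) (nat_lit 240))))))))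
noncomputable def xc33 : XT := (XT.nd (nat_lit 44148) (nat_lit 0) (nat_lit 228) (XT.nd (nat_lit 1170) (nat_lit 0) (nat_lit 0) (XT.nd (nat_lit 546) (nat_lit 0) (nat_lit 0) (XT.nd (nat_lit 234) (nat_lit 0) (nat_lit 0) (XT.nd (nat_lit 78) (nat_lit 152) (nat_lit 0) (XT.lf (nat_lit 0) (nat_lit 1134592508449) (nat_lit 76) (nat_lit 112820726763) (nat_lit 76) (nat_lit 80232213479) (nat_lit 3) (nat_lit 4) (nat_lit 4) (nat_lit 5) (nat_lit 4) (nat_lit 4) (nat_lit 353) (nat_lit 308) (nat_lit 239)) (XT.nd (nat_lit 78) (nat_lit 76) (nat_lit 0) (XT.lf (nat_lit 0) (nat_lit 4399543456) (nat_lit 152) (nat_lit 23437738531) (nat_lit 76) (nat_lit 1491401127469) (nat_lit 2) (nat_lit 5) (nat_lit 4) (nat_lit 5) (nat_lit 3) (nat_lit 4) (nat_lit 354) (nat_lit 308) (nat_lit 238)) (XT.lf (nat_lit 0) (nat_lit 103247445802) (nat_lit 152) (nat_lit 1562581971072) (nat_lit 0) (nat_lit 73072419317) (nat_lit 1) (nat_lit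 5) (nat_lit 3) (nat_lit 4) (nat_lit 1) (nat_lit 4) (nat_lit 355) (nat_lit 308) (nat_lit 237)))) (XT.nd (nat_lit 156) (nat_lit 0) (nat_lit 0) (XT.nd (nat_lit 78) (nat_lit 0) (nat_lit 0) (XT.lf (nat_lit 0) (nat_lit 218391099862) (nat_lit 152) (nat_lit 1584790311440) (nat_lit 0) (nat_lit 188215880396) (nat_lit 1) (nat_lit 5) (nat_lit 3) (nat_lit 4) (nat_lit 1) (nat_lit 4) (nat_lit 356) (nat_lit 308) (nat_lit 236)) (XT.lf (nat_lit 0) (nat_lit 350805056530) (nat_lit 152) (nat_lit 1610332439450) (nat_lit 0) (nat_lit 320629669254) (nat_lit 1) (nat_lit 5) (nat_lit 3) (nat_lit 4) (nat_lit 1) (nat_lit 4) (nat_lit 357) (nat_lit 308) (nat_lit 235))) (XT.nd (nat_lit 78) (nat_lit 0) (nat_lit 0) (XT.lf (nat_lit 0) (nat_lit 503080023653) (nat_lit 152) (nat_lit 1639708092390) (nat_lit 0) (nat_lit 472904490455) (nat_lit 1) (nat_lit 5) (nat_lit 3) (nat_lit 4) (nat_lit 1) (nat_lit 4) (nat_lit 358) (nat_lit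 308) (nat_lit 234)) (XT.lf (nat_lit 0) (nat_lit 678195294065) (nat_lit 152) (nat_lit 1673492011296) (nat_lit 0) (nat_lit 648019633979) (nat_lit 1) (nat_lit 5) (nat_lit 3) (nat_lit 4) (nat_lit 1) (nat_lit 4) (nat_lit 359) (nat_lit 308) (nat_lit 233))))) (XT.nd (nat_lit 312) (nat_lit 0) (nat_lit 0) (XT.nd (nat_lit 156) (nat_lit 0) (nat_lit 0) (XT.nd (nat_lit 78) (nat_lit 0) (nat_lit 0) (XT.lf (nat_lit 0) (nat_lit 879577036101) (nat_lit 152) (nat_lit 1712345185886) (nat_lit 0) (nat_lit 849401265677) (nat_lit 1) (nat_lit 5) (nat_lit 3) (nat_lit 4) (nat_lit 1) (nat_lit 4) (nat_lit 360) (nat_lit 308) (nat_lit 232)) (XT.lf (nat_lit 0) (nat_lit 1111165327323) (nat_lit 152) (nat_lit 1757027786966) (nat_lit 0) (nat_lit 1080989460953) (nat_lit 1) (nat_lit 5) (nat_lit 3) (nat_lit 4) (nat_lit 1) (nat_lit 4) (nat_lit 361) (nat_lit 308) (nat_lit 231))) (XT.nd (nat_lit 78) (nat_lit 0) (nat_lit 0) (XT.lf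 (nat_lit 0) (nat_lit 1377491242993) (nat_lit 152) (nat_lit 1808414039340) (nat_lit 0) (nat_lit 1347315293192) (nat_lit 1) (nat_lit 5) (nat_lit 3) (nat_lit 4) (nat_lit 1) (nat_lit 4) (nat_lit 362) (nat_lit 308) (nat_lit 230)) (XT.lf (nat_lit 0) (nat_lit 1683765507549) (nat_lit 152) (nat_lit 1867509326208) (nat_lit 0) (nat_lit 1653589485199) (nat_lit 1) (nat_lit 5) (nat_lit 3) (nat_lit 4) (nat_lit 1) (nat_lit 4) (nat_lit 363) (nat_lit 308) (nat_lit 229)))) (XT.nd (nat_lit 156) (nat_lit 0) (nat_lit 0) (XT.nd (nat_lit 78) (nat_lit 0) (nat_lit 0) (XT.lf (nat_lit 0) (nat_lit 2035980443558) (nat_lit 152) (nat_lit 1935469859702) (nat_lit 0) (nat_lit 2005804358122) (nat_lit 1) (nat_lit 5) (nat_lit 3) (nat_lit 4) (nat_lit 1) (nat_lit 4) (nat_lit 364) (nat_lit 308) (nat_lit 228)) (XT.lf (nat_lit 0) (nat_lit 2441027212812) (nat_lit 152) (nat_lit 2013625302437) (nat_lit 0) (nat_lit 2410851072518) (nat_lit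 1) (nat_lit 5) (nat_lit 3) (nat_lit 4) (nat_lit 1) (nat_lit 4) (nat_lit 365) (nat_lit 308) (nat_lit 227))) (XT.nd (nat_lit 78) (nat_lit 0) (nat_lit 0) (XT.lf (nat_lit 0) (nat_lit 2906830643404) (nat_lit 152) (nat_lit 2103504782637) (nat_lit 0) (nat_lit 2876654455408) (nat_lit 1) (nat_lit 5) (nat_lit 3) (nat_lit 4) (nat_lit 1) (nat_lit 4) (nat_lit 366) (nat_lit 308) (nat_lit 226)) (XT.lf (nat_lit 0) (nat_lit 3442504280715) (nat_lit 152) (nat_lit 2206866811874) (nat_lit 0) (nat_lit 3412328051240) (nat_lit 1) (nat_lit 5) (nat_lit 3) (nat_lit 4) (nat_lit 1) (nat_lit 4) (nat_lit 367) (nat_lit 308) (nat_lit 225)))))) (XT.nd (nat_lit 42354) (nat_lit 0) (nat_lit 3420) (XT.nd (nat_lit 312) (nat_lit 0) (nat_lit 0) (XT.nd (nat_lit 156) (nat_lit 0) (nat_lit 0) (XT.nd (nat_lit 78) (nat_lit 0) (nat_lit 0) (XT.lf (nat_lit 0) (nat_lit 4058528695912) (nat_lit 152) (nat_lit 2325733690718) (nat_lit 0) (nat_lit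 4028352430366) (nat_lit 1) (nat_lit 5) (nat_lit 3) (nat_lit 4) (nat_lit 1) (nat_lit 4) (nat_lit 368) (nat_lit 308) (nat_lit 224)) (XT.lf (nat_lit 0) (nat_lit 4766956540594) (nat_lit 152) (nat_lit 2462431075495) (nat_lit 0) (nat_lit 4736780243684) (nat_lit 1) (nat_lit 5) (nat_lit 3) (nat_lit 4) (nat_lit 1) (nat_lit 4) (nat_lit 369) (nat_lit 308) (nat_lit 223))) (XT.nd (nat_lit 78) (nat_lit 0) (nat_lit 0) (XT.lf (nat_lit 0) (nat_lit 5581648359550) (nat_lit 152) (nat_lit 2619633480256) (nat_lit 0) (nat_lit 5551472035366) (nat_lit 1) (nat_lit 5) (nat_lit 3) (nat_lit 4) (nat_lit 1) (nat_lit 4) (nat_lit 370) (nat_lit 308) (nat_lit 222)) (XT.lf (nat_lit 0) (nat_lit 6518543775324) (nat_lit 152) (nat_lit 2800416604223) (nat_lit 0) (nat_lit 6488367427424) (nat_lit 1) (nat_lit 5) (nat_lit 3) (nat_lit 4) (nat_lit 1) (nat_lit 4) (nat_lit 371) (nat_lit 308) (nat_lit 221)))) (XT.nd (nat_lit 156) (nat_lit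 0) (nat_lit 0) (XT.nd (nat_lit 78) (nat_lit 0) (nat_lit 0) (XT.lf (nat_lit 0) (nat_lit 7595973350399) (nat_lit 152) (nat_lit 3008317508517) (nat_lit 0) (nat_lit 7565796981876) (nat_lit 1) (nat_lit 5) (nat_lit 3) (nat_lit 4) (nat_lit 1) (nat_lit 4) (nat_lit 372) (nat_lit 308) (nat_lit 220)) (XT.lf (nat_lit 0) (nat_lit 8835017228635) (nat_lit 152) (nat_lit 3247403819528) (nat_lit 0) (nat_lit 8804840842179) (nat_lit 1) (nat_lit 5) (nat_lit 3) (nat_lit 4) (nat_lit 1) (nat_lit 4) (nat_lit 373) (nat_lit 308) (nat_lit 219))) (XT.nd (nat_lit 41808) (nat_lit 0) (nat_lit 4788) (XT.lf (nat_lit 0) (nat_lit 10259917572867) (nat_lit 152) (nat_lit 3522353312904) (nat_lit 0) (nat_lit 10229741170817) (nat_lit 1) (nat_lit 5) (nat_lit 3) (nat_lit 4) (nat_lit 1) (nat_lit 4) (nat_lit 374) (nat_lit 308) (nat_lit 218)) (XT.lf (nat_lit 0) (nat_lit 4997637858) (nat_lit 532) (nat_lit 1131043675) (nat_lit 532) (nat_lit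 1131043675) (nat_lit 64) (nat_lit 3) (nat_lit 71) (nat_lit 3) (nat_lit 71) (nat_lit 5) (nat_lit 309) (nat_lit 309) (nat_lit 282))))) (XT.nd (nat_lit 312) (nat_lit 1064) (nat_lit 0) (XT.nd (nat_lit 156) (nat_lit 304) (nat_lit 0) (XT.nd (nat_lit 78) (nat_lit 0) (nat_lit 76) (XT.lf (nat_lit 76) (nat_lit 11538237904) (nat_lit 0) (nat_lit 22807353) (nat_lit 532) (nat_lit 3981564534) (nat_lit 65) (nat_lit 5) (nat_lit 64) (nat_lit 3) (nat_lit 71) (nat_lit 5) (nat_lit 310) (nat_lit 309) (nat_lit 281)) (XT.lf (nat_lit 76) (nat_lit 10977778529) (nat_lit 0) (nat_lit 2957124045) (nat_lit 532) (nat_lit 2738573427) (nat_lit 66) (nat_lit 5) (nat_lit 65) (nat_lit 5) (nat_lit 72) (nat_lit 5) (nat_lit 311) (nat_lit 309) (nat_lit 280))) (XT.nd (nat_lit 78) (nat_lit 456) (nat_lit 0) (XT.lf (nat_lit 76) (nat_lit 10672138079) (nat_lit 0) (nat_lit 6562762707) (nat_lit 532) (nat_lit 693545259) (nat_lit 67) (nat_lit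 5) (nat_lit 66) (nat_lit 5) (nat_lit 73) (nat_lit 5) (nat_lit 312) (nat_lit 309) (nat_lit 279)) (XT.lf (nat_lit 0) (nat_lit 2223091755) (nat_lit 532) (nat_lit 8712413157) (nat_lit 76) (nat_lit 8381205238) (nat_lit 60) (nat_lit 5) (nat_lit 67) (nat_lit 5) (nat_lit 61) (nat_lit 5) (nat_lit 313) (nat_lit 309) (nat_lit 278)))) (XT.nd (nat_lit 156) (nat_lit 456) (nat_lit 0) (XT.nd (nat_lit 78) (nat_lit 228) (nat_lit 0) (XT.lf (nat_lit 0) (nat_lit 6247539012) (nat_lit 456) (nat_lit 10015517290) (nat_lit 76) (nat_lit 4591861240) (nat_lit 55) (nat_lit 5) (nat_lit 61) (nat_lit 5) (nat_lit 56) (nat_lit 5) (nat_lit 314) (nat_lit 309) (nat_lit 277)) (XT.lf (nat_lit 0) (nat_lit 11447688648) (nat_lit 228) (nat_lit 205457823) (nat_lit 304) (nat_lit 10908558151) (nat_lit 52) (nat_lit 5) (nat_lit 55) (nat_lit 5) (nat_lit 56) (nat_lit 5) (nat_lit 315) (nat_lit 309) (nat_lit 276))) (XT.nd (nat_lit 78) (nat_lit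 228) (nat_lit 0) (XT.lf (nat_lit 0) (nat_lit 12343640070) (nat_lit 228) (nat_lit 6507019586) (nat_lit 304) (nat_lit 5595406701) (nat_lit 49) (nat_lit 5) (nat_lit 52) (nat_lit 5) (nat_lit 53) (nat_lit 5) (nat_lit 316) (nat_lit 309) (nat_lit 275)) (XT.lf (nat_lit 0) (nat_lit 1424472761) (nat_lit 228) (nat_lit 12851974151) (nat_lit 76) (nat_lit 12260838463) (nat_lit 46) (nat_lit 5) (nat_lit 49) (nat_lit 5) (nat_lit 47) (nat_lit 5) (nat_lit 317) (nat_lit 309) (nat_lit 274))))))) (XT.nd (nat_lit 1170) (nat_lit 1064) (nat_lit 0) (XT.nd (nat_lit 546) (nat_lit 912) (nat_lit 0) (XT.nd (nat_lit 234) (nat_lit 608) (nat_lit 0) (XT.nd (nat_lit 78) (nat_lit 380) (nat_lit 0) (XT.lf (nat_lit 0) (nat_lit 10177708179) (nat_lit 304) (nat_lit 13457278603) (nat_lit 76) (nat_lit 5214668120) (nat_lit 43) (nat_lit 5) (nat_lit 47) (nat_lit 5) (nat_lit 44) (nat_lit 5) (nat_lit 318) (nat_lit 309) (nat_lit 273)) (XT.nd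 (nat_lit 78) (nat_lit 228) (nat_lit 0) (XT.lf (nat_lit 0) (nat_lit 17591775326) (nat_lit 152) (nat_lit 3813386396) (nat_lit 228) (nat_lit 10010844936) (nat_lit 41) (nat_lit 5) (nat_lit 43) (nat_lit 5) (nat_lit 44) (nat_lit 5) (nat_lit 319) (nat_lit 309) (nat_lit 272)) (XT.lf (nat_lit 0) (nat_lit 1295009030) (nat_lit 228) (nat_lit 14025106828) (nat_lit 76) (nat_lit 18939868558) (nat_lit 38) (nat_lit 5) (nat_lit 41) (nat_lit 5) (nat_lit 39) (nat_lit 5) (nat_lit 320) (nat_lit 309) (nat_lit 271)))) (XT.nd (nat_lit 156) (nat_lit 304) (nat_lit 0) (XT.nd (nat_lit 78) (nat_lit 152) (nat_lit 0) (XT.lf (nat_lit 0) (nat_lit 14978853744) (nat_lit 228) (nat_lit 14162237944) (nat_lit 76) (nat_lit 8266693884) (nat_lit 36) (nat_lit 5) (nat_lit 39) (nat_lit 5) (nat_lit 37) (nat_lit 5) (nat_lit 321) (nat_lit 309) (nat_lit 270)) (XT.lf (nat_lit 0) (nat_lit 26819150151) (nat_lit 152) (nat_lit 5352545731) (nat_lit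 228) (nat_lit 8739562841) (nat_lit 34) (nat_lit 5) (nat_lit 36) (nat_lit 5) (nat_lit 37) (nat_lit 5) (nat_lit 322) (nat_lit 309) (nat_lit 269))) (XT.nd (nat_lit 78) (nat_lit 152) (nat_lit 0) (XT.lf (nat_lit 0) (nat_lit 8361782852) (nat_lit 152) (nat_lit 14163900411) (nat_lit 76) (nat_lit 22264395827) (nat_lit 32) (nat_lit 5) (nat_lit 34) (nat_lit 5) (nat_lit 33) (nat_lit 5) (nat_lit 323) (nat_lit 309) (nat_lit 268)) (XT.lf (nat_lit 0) (nat_lit 29055827318) (nat_lit 228) (nat_lit 14273521764) (nat_lit 76) (nat_lit 5779626011) (nat_lit 30) (nat_lit 5) (nat_lit 33) (nat_lit 5) (nat_lit 31) (nat_lit 4) (nat_lit 324) (nat_lit 309) (nat_lit 267))))) (XT.nd (nat_lit 312) (nat_lit 380) (nat_lit 0) (XT.nd (nat_lit 156) (nat_lit 228) (nat_lit 0) (XT.nd (nat_lit 78) (nat_lit 152) (nat_lit 0) (XT.lf (nat_lit 0) (nat_lit 856928073) (nat_lit 152) (nat_lit 14650784978) (nat_lit 76) (nat_lit 38408948625)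 (nat_lit 28) (nat_lit 5) (nat_lit 30) (nat_lit 5) (nat_lit 29) (nat_lit 5) (nat_lit 325) (nat_lit 309) (nat_lit 266)) (XT.lf (nat_lit 0) (nat_lit 25657690746) (nat_lit 228) (nat_lit 15855351749) (nat_lit 76) (nat_lit 17735473817) (nat_lit 26) (nat_lit 5) (nat_lit 29) (nat_lit 5) (nat_lit 27) (nat_lit 4) (nat_lit 326) (nat_lit 309) (nat_lit 265))) (XT.nd (nat_lit 78) (nat_lit 152) (nat_lit 0) (XT.lf (nat_lit 0) (nat_lit 47587761616) (nat_lit 76) (nat_lit 8580711449) (nat_lit 152) (nat_lit 9052490256) (nat_lit 25) (nat_lit 5) (nat_lit 26) (nat_lit 5) (nat_lit 27) (nat_lit 4) (nat_lit 327) (nat_lit 309) (nat_lit 264)) (XT.lf (nat_lit 0) (nat_lit 20661414578) (nat_lit 152) (nat_lit 21153384546) (nat_lit 76) (nat_lit 30041318206) (nat_lit 23) (nat_lit 5) (nat_lit 25) (nat_lit 5) (nat_lit 24) (nat_lit 4) (nat_lit 328) (nat_lit 309) (nat_lit 263)))) (XT.nd (nat_lit 156) (nat_lit 152) (nat_lit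 0) (XT.nd (nat_lit 78) (nat_lit 152) (nat_lit 0) (XT.lf (nat_lit 0) (nat_lit 53029516286) (nat_lit 76) (nat_lit 3303255553) (nat_lit 152) (nat_lit 22972056841) (nat_lit 22) (nat_lit 5) (nat_lit 23) (nat_lit 5) (nat_lit 24) (nat_lit 4) (nat_lit 329) (nat_lit 309) (nat_lit 262)) (XT.lf (nat_lit 0) (nat_lit 11970313901) (nat_lit 152) (nat_lit 34503976376) (nat_lit 76) (nat_lit 41141452540) (nat_lit 20) (nat_lit 5) (nat_lit 22) (nat_lit 5) (nat_lit 21) (nat_lit 4) (nat_lit 330) (nat_lit 309) (nat_lit 261))) (XT.nd (nat_lit 78) (nat_lit 76) (nat_lit 0) (XT.lf (nat_lit 0) (nat_lit 50642841009) (nat_lit 76) (nat_lit 2267994417) (nat_lit 152) (nat_lit 44045367956) (nat_lit 19) (nat_lit 5) (nat_lit 20) (nat_lit 5) (nat_lit 21) (nat_lit 4) (nat_lit 331) (nat_lit 309) (nat_lit 260)) (XT.lf (nat_lit 0) (nat_lit 44013077392) (nat_lit 76) (nat_lit 59221855784) (nat_lit 76) (nat_lit 4203402830) (nat_lit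 18) (nat_lit 4) (nat_lit 19) (nat_lit 5) (nat_lit 19) (nat_lit 4) (nat_lit 332) (nat_lit 309) (nat_lit 259)))))) (XT.nd (nat_lit 624) (nat_lit 380) (nat_lit 0) (XT.nd (nat_lit 312) (nat_lit 304) (nat_lit 0) (XT.nd (nat_lit 156) (nat_lit 152) (nat_lit 0) (XT.nd (nat_lit 78) (nat_lit 76) (nat_lit 0) (XT.lf (nat_lit 0) (nat_lit 31772397172) (nat_lit 76) (nat_lit 9957159826) (nat_lit 152) (nat_lit 77507451234) (nat_lit 16) (nat_lit 5) (nat_lit 17) (nat_lit 5) (nat_lit 18) (nat_lit 4) (nat_lit 333) (nat_lit 309) (nat_lit 258)) (XT.lf (nat_lit 0) (nat_lit 11706043868) (nat_lit 76) (nat_lit 85890862340) (nat_lit 76) (nat_lit 34936376008) (nat_lit 15) (nat_lit 4) (nat_lit 16) (nat_lit 5) (nat_lit 16) (nat_lit 4) (nat_lit 334) (nat_lit 309) (nat_lit 257))) (XT.nd (nat_lit 78) (nat_lit 76) (nat_lit 0) (XT.lf (nat_lit 0) (nat_lit 16194931435) (nat_lit 152) (nat_lit 17273669729) (nat_lit 76) (nat_lit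 114098348427) (nat_lit 14) (nat_lit 5) (nat_lit 16) (nat_lit 5) (nat_lit 15) (nat_lit 4) (nat_lit 335) (nat_lit 309) (nat_lit 256)) (XT.lf (nat_lit 0) (nat_lit 76264323018) (nat_lit 152) (nat_lit 59175579938) (nat_lit 0) (nat_lit 29076209520) (nat_lit 13) (nat_lit 5) (nat_lit 15) (nat_lit 4) (nat_lit 13) (nat_lit 4) (nat_lit 336) (nat_lit 309) (nat_lit 255)))) (XT.nd (nat_lit 156) (nat_lit 76) (nat_lit 0) (XT.nd (nat_lit 78) (nat_lit 152) (nat_lit 0) (XT.lf (nat_lit 0) (nat_lit 65756901154) (nat_lit 76) (nat_lit 82600524172) (nat_lit 76) (nat_lit 35409161507) (nat_lit 12) (nat_lit 4) (nat_lit 13) (nat_lit 5) (nat_lit 13) (nat_lit 4) (nat_lit 337) (nat_lit 309) (nat_lit 254)) (XT.lf (nat_lit 0) (nat_lit 6919274943) (nat_lit 76) (nat_lit 19096813022) (nat_lit 152) (nat_lit 179685766503) (nat_lit 10) (nat_lit 5) (nat_lit 11) (nat_lit 5) (nat_lit 12) (nat_lit 4) (nat_lit 338) (nat_lit 309)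 (nat_lit 253))) (XT.nd (nat_lit 78) (nat_lit 76) (nat_lit 0) (XT.lf (nat_lit 0) (nat_lit 99431596741) (nat_lit 152) (nat_lit 75301392069) (nat_lit 0) (nat_lit 55730999647) (nat_lit 10) (nat_lit 5) (nat_lit 12) (nat_lit 4) (nat_lit 10) (nat_lit 4) (nat_lit 339) (nat_lit 309) (nat_lit 252)) (XT.lf (nat_lit 0) (nat_lit 69642764502) (nat_lit 76) (nat_lit 116412301627) (nat_lit 76) (nat_lit 72709726404) (nat_lit 9) (nat_lit 4) (nat_lit 10) (nat_lit 5) (nat_lit 10) (nat_lit 4) (nat_lit 340) (nat_lit 309) (nat_lit 251))))) (XT.nd (nat_lit 312) (nat_lit 152) (nat_lit 0) (XT.nd (nat_lit 156) (nat_lit 76) (nat_lit 0) (XT.nd (nat_lit 78) (nat_lit 152) (nat_lit 0) (XT.lf (nat_lit 0) (nat_lit 240874973704) (nat_lit 76) (nat_lit 46982599068) (nat_lit 76) (nat_lit 3278303733) (nat_lit 9) (nat_lit 4) (nat_lit 10) (nat_lit 5) (nat_lit 10) (nat_lit 4) (nat_lit 341) (nat_lit 309) (nat_lit 250)) (XT.lf (nat_lit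 0) (nat_lit 76363711914) (nat_lit 152) (nat_lit 215666119167) (nat_lit 0) (nat_lit 35895386835) (nat_lit 7) (nat_lit 5) (nat_lit 9) (nat_lit 4) (nat_lit 7) (nat_lit 4) (nat_lit 342) (nat_lit 309) (nat_lit 249))) (XT.nd (nat_lit 78) (nat_lit 76) (nat_lit 0) (XT.lf (nat_lit 0) (nat_lit 170558480324) (nat_lit 152) (nat_lit 69354672653) (nat_lit 0) (nat_lit 130088950939) (nat_lit 7) (nat_lit 5) (nat_lit 9) (nat_lit 4) (nat_lit 7) (nat_lit 4) (nat_lit 343) (nat_lit 309) (nat_lit 248)) (XT.lf (nat_lit 0) (nat_lit 104101116647) (nat_lit 76) (nat_lit 177280043728) (nat_lit 76) (nat_lit 136809467118) (nat_lit 6) (nat_lit 4) (nat_lit 7) (nat_lit 5) (nat_lit 7) (nat_lit 4) (nat_lit 344) (nat_lit 309) (nat_lit 247)))) (XT.nd (nat_lit 156) (nat_lit 0) (nat_lit 0) (XT.nd (nat_lit 78) (nat_lit 152) (nat_lit 0) (XT.lf (nat_lit 0) (nat_lit 307766089802) (nat_lit 76) (nat_lit 103075826726) (nat_lit 76) (nat_lit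 62604339487) (nat_lit 6) (nat_lit 4) (nat_lit 7) (nat_lit 5) (nat_lit 7) (nat_lit 4) (nat_lit 345) (nat_lit 309) (nat_lit 246)) (XT.lf (nat_lit 0) (nat_lit 4669346135) (nat_lit 76) (nat_lit 17033358299) (nat_lit 152) (nat_lit 515235127354) (nat_lit 4) (nat_lit 5) (nat_lit 5) (nat_lit 5) (nat_lit 6) (nat_lit 4) (nat_lit 346) (nat_lit 309) (nat_lit 245))) (XT.nd (nat_lit 78) (nat_lit 0) (nat_lit 0) (XT.lf (nat_lit 0) (nat_lit 121969511300) (nat_lit 152) (nat_lit 402797358128) (nat_lit 0) (nat_lit 84494541247) (nat_lit 4) (nat_lit 5) (nat_lit 6) (nat_lit 4) (nat_lit 4) (nat_lit 4) (nat_lit 347) (nat_lit 309) (nat_lit 244)) (XT.lf (nat_lit 0) (nat_lit 237744161512) (nat_lit 152) (nat_lit 254383302244) (nat_lit 0) (nat_lit 200268637058) (nat_lit 4) (nat_lit 5) (nat_lit 6) (nat_lit 4) (nat_lit 4) (nat_lit 4) (nat_lit 348) (nat_lit 309) (nat_lit 243))))))))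
noncomputable def xc34 : XT := (XT.nd (nat_lit 44226) (nat_lit 0) (nat_lit 380) (XT.nd (nat_lit 1170) (nat_lit 0) (nat_lit 0) (XT.nd (nat_lit 546) (nat_lit 76) (nat_lit 0) (XT.nd (nat_lit 234) (nat_lit 76) (nat_lit 0) (XT.nd (nat_lit 78) (nat_lit 76) (nat_lit 0) (XT.lf (nat_lit 0) (nat_lit 370882158595) (nat_lit 152) (nat_lit 83712912058) (nat_lit 0) (nat_lit 333406152052) (nat_lit 4) (nat_lit 5) (nat_lit 6) (nat_lit 4) (nat_lit 4) (nat_lit 4) (nat_lit 349) (nat_lit 309) (nat_lit 242)) (XT.nd (nat_lit 78) (nat_lit 0) (nat_lit 0) (XT.lf (nat_lit 0) (nat_lit 118479858062) (nat_lit 76) (nat_lit 408357961776) (nat_lit 76) (nat_lit 370881536027) (nat_lit 3) (nat_lit 4) (nat_lit 4) (nat_lit 5) (nat_lit 4) (nat_lit 4) (nat_lit 350) (nat_lit 309) (nat_lit 241)) (XT.lf (nat_lit 0) (nat_lit 356066347396) (nat_lit 76) (nat_lit 352555428196) (nat_lit 76) (nat_lit 315078637918) (nat_lit 3) (nat_lit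 4) (nat_lit 4) (nat_lit 5) (nat_lit 4) (nat_lit 4) (nat_lit 351) (nat_lit 309) (nat_lit 240)))) (XT.nd (nat_lit 156) (nat_lit 76) (nat_lit 0) (XT.nd (nat_lit 78) (nat_lit 0) (nat_lit 0) (XT.lf (nat_lit 0) (nat_lit 629286813657) (nat_lit 76) (nat_lit 288384540578) (nat_lit 76) (nat_lit 250907433319) (nat_lit 3) (nat_lit 4) (nat_lit 4) (nat_lit 5) (nat_lit 4) (nat_lit 4) (nat_lit 352) (nat_lit 309) (nat_lit 239)) (XT.lf (nat_lit 0) (nat_lit 943486874666) (nat_lit 76) (nat_lit 214589781556) (nat_lit 76) (nat_lit 177112398662) (nat_lit 3) (nat_lit 4) (nat_lit 4) (nat_lit 5) (nat_lit 4) (nat_lit 4) (nat_lit 353) (nat_lit 309) (nat_lit 238))) (XT.nd (nat_lit 78) (nat_lit 76) (nat_lit 0) (XT.lf (nat_lit 0) (nat_lit 1304813922920) (nat_lit 76) (nat_lit 129727340628) (nat_lit 76) (nat_lit 92249718051) (nat_lit 3) (nat_lit 4) (nat_lit 4) (nat_lit 5) (nat_lit 4) (nat_lit 4) (nat_lit 354) (nat_lit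 309) (nat_lit 237)) (XT.lf (nat_lit 0) (nat_lit 5073788592) (nat_lit 152) (nat_lit 26924350724) (nat_lit 76) (nat_lit 1715124885702) (nat_lit 2) (nat_lit 5) (nat_lit 4) (nat_lit 5) (nat_lit 3) (nat_lit 4) (nat_lit 355) (nat_lit 309) (nat_lit 236))))) (XT.nd (nat_lit 312) (nat_lit 0) (nat_lit 0) (XT.nd (nat_lit 156) (nat_lit 0) (nat_lit 0) (XT.nd (nat_lit 78) (nat_lit 0) (nat_lit 0) (XT.lf (nat_lit 0) (nat_lit 118747973544) (nat_lit 152) (nat_lit 1796941954173) (nat_lit 0) (nat_lit 84046110366) (nat_lit 1) (nat_lit 5) (nat_lit 3) (nat_lit 4) (nat_lit 1) (nat_lit 4) (nat_lit 356) (nat_lit 309) (nat_lit 235)) (XT.lf (nat_lit 0) (nat_lit 251161426470) (nat_lit 152) (nat_lit 1822485108103) (nat_lit 0) (nat_lit 216459417370) (nat_lit 1) (nat_lit 5) (nat_lit 3) (nat_lit 4) (nat_lit 1) (nat_lit 4) (nat_lit 357) (nat_lit 309) (nat_lit 234))) (XT.nd (nat_lit 78) (nat_lit 0) (nat_lit 0) (XT.lf (nat_lit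 0) (nat_lit 403435955556) (nat_lit 152) (nat_lit 1851861653148) (nat_lit 0) (nat_lit 368733819568) (nat_lit 1) (nat_lit 5) (nat_lit 3) (nat_lit 4) (nat_lit 1) (nat_lit 4) (nat_lit 358) (nat_lit 309) (nat_lit 233)) (XT.lf (nat_lit 0) (nat_lit 578550845066) (nat_lit 152) (nat_lit 1885646347797) (nat_lit 0) (nat_lit 543848598741) (nat_lit 1) (nat_lit 5) (nat_lit 3) (nat_lit 4) (nat_lit 1) (nat_lit 4) (nat_lit 359) (nat_lit 309) (nat_lit 232)))) (XT.nd (nat_lit 156) (nat_lit 0) (nat_lit 0) (XT.nd (nat_lit 78) (nat_lit 0) (nat_lit 0) (XT.lf (nat_lit 0) (nat_lit 779932255884) (nat_lit 152) (nat_lit 1924500196946) (nat_lit 0) (nat_lit 745229913613) (nat_lit 1) (nat_lit 5) (nat_lit 3) (nat_lit 4) (nat_lit 1) (nat_lit 4) (nat_lit 360) (nat_lit 309) (nat_lit 231)) (XT.lf (nat_lit 0) (nat_lit 1011520259090) (nat_lit 152) (nat_lit 1969183384599) (nat_lit 0) (nat_lit 976817833387) (nat_lit 1) (nat_lit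 5) (nat_lit 3) (nat_lit 4) (nat_lit 1) (nat_lit 4) (nat_lit 361) (nat_lit 309) (nat_lit 230))) (XT.nd (nat_lit 78) (nat_lit 0) (nat_lit 0) (XT.lf (nat_lit 0) (nat_lit 1277845924311) (nat_lit 152) (nat_lit 2020570147037) (nat_lit 0) (nat_lit 1243143426060) (nat_lit 1) (nat_lit 5) (nat_lit 3) (nat_lit 4) (nat_lit 1) (nat_lit 4) (nat_lit 362) (nat_lit 309) (nat_lit 229)) (XT.lf (nat_lit 0) (nat_lit 1584119971086) (nat_lit 152) (nat_lit 2079665877438) (nat_lit 0) (nat_lit 1549417409748) (nat_lit 1) (nat_lit 5) (nat_lit 3) (nat_lit 4) (nat_lit 1) (nat_lit 4) (nat_lit 363) (nat_lit 309) (nat_lit 228)))))) (XT.nd (nat_lit 546) (nat_lit 0) (nat_lit 0) (XT.nd (nat_lit 234) (nat_lit 0) (nat_lit 0) (XT.nd (nat_lit 78) (nat_lit 0) (nat_lit 0) (XT.lf (nat_lit 0) (nat_lit 1936334717719) (nat_lit 152) (nat_lit 2147626796615) (nat_lit 0) (nat_lit 1901632101524) (nat_lit 1) (nat_lit 5) (nat_lit 3) (nat_lit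 4) (nat_lit 1) (nat_lit 4) (nat_lit 364) (nat_lit 309) (nat_lit 227)) (XT.nd (nat_lit 78) (nat_lit 0) (nat_lit 0) (XT.lf (nat_lit 0) (nat_lit 2341381322299) (nat_lit 152) (nat_lit 2225782574724) (nat_lit 0) (nat_lit 2306678658402) (nat_lit 1) (nat_lit 5) (nat_lit 3) (nat_lit 4) (nat_lit 1) (nat_lit 4) (nat_lit 365) (nat_lit 309) (nat_lit 226)) (XT.lf (nat_lit 0) (nat_lit 2807184609696) (nat_lit 152) (nat_lit 2315662346555) (nat_lit 0) (nat_lit 2772481904319) (nat_lit 1) (nat_lit 5) (nat_lit 3) (nat_lit 4) (nat_lit 1) (nat_lit 4) (nat_lit 366) (nat_lit 309) (nat_lit 225)))) (XT.nd (nat_lit 156) (nat_lit 0) (nat_lit 0) (XT.nd (nat_lit 78) (nat_lit 0) (nat_lit 0) (XT.lf (nat_lit 0) (nat_lit 3342858122490) (nat_lit 152) (nat_lit 2419024629383) (nat_lit 0) (nat_lit 3308155381044) (nat_lit 1) (nat_lit 5) (nat_lit 3) (nat_lit 4) (nat_lit 1) (nat_lit 4) (nat_lit 367) (nat_lit 309) (nat_lit 224))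 (XT.lf (nat_lit 0) (nat_lit 3958882429411) (nat_lit 152) (nat_lit 2537891728742) (nat_lit 0) (nat_lit 3924179656599) (nat_lit 1) (nat_lit 5) (nat_lit 3) (nat_lit 4) (nat_lit 1) (nat_lit 4) (nat_lit 368) (nat_lit 309) (nat_lit 223))) (XT.nd (nat_lit 78) (nat_lit 0) (nat_lit 0) (XT.lf (nat_lit 0) (nat_lit 4667310179940) (nat_lit 152) (nat_lit 2674589305271) (nat_lit 0) (nat_lit 4632607379855) (nat_lit 1) (nat_lit 5) (nat_lit 3) (nat_lit 4) (nat_lit 1) (nat_lit 4) (nat_lit 369) (nat_lit 309) (nat_lit 222)) (XT.lf (nat_lit 0) (nat_lit 5482001917024) (nat_lit 152) (nat_lit 2831791876772) (nat_lit 0) (nat_lit 5447299093222) (nat_lit 1) (nat_lit 5) (nat_lit 3) (nat_lit 4) (nat_lit 1) (nat_lit 4) (nat_lit 370) (nat_lit 309) (nat_lit 221))))) (XT.nd (nat_lit 42198) (nat_lit 0) (nat_lit 4484) (XT.nd (nat_lit 156) (nat_lit 0) (nat_lit 0) (XT.nd (nat_lit 78) (nat_lit 0) (nat_lit 0) (XT.lf (nat_lit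 0) (nat_lit 6418897261605) (nat_lit 152) (nat_lit 3012575145731) (nat_lit 0) (nat_lit 6384194417180) (nat_lit 1) (nat_lit 5) (nat_lit 3) (nat_lit 4) (nat_lit 1) (nat_lit 4) (nat_lit 371) (nat_lit 309) (nat_lit 220)) (XT.lf (nat_lit 0) (nat_lit 7496326774773) (nat_lit 152) (nat_lit 3220476176106) (nat_lit 0) (nat_lit 7461623912415) (nat_lit 1) (nat_lit 5) (nat_lit 3) (nat_lit 4) (nat_lit 1) (nat_lit 4) (nat_lit 372) (nat_lit 309) (nat_lit 219))) (XT.nd (nat_lit 41964) (nat_lit 0) (nat_lit 4788) (XT.lf (nat_lit 0) (nat_lit 8735370599176) (nat_lit 152) (nat_lit 3459562596751) (nat_lit 0) (nat_lit 8700667721225) (nat_lit 1) (nat_lit 5) (nat_lit 3) (nat_lit 4) (nat_lit 1) (nat_lit 4) (nat_lit 373) (nat_lit 309) (nat_lit 218)) (XT.lf (nat_lit 0) (nat_lit 6263609024) (nat_lit 532) (nat_lit 1021640263) (nat_lit 532) (nat_lit 1021640263) (nat_lit 64) (nat_lit 3) (nat_lit 71) (nat_lit 3) (nat_lit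 71) (nat_lit 5) (nat_lit 310) (nat_lit 310) (nat_lit 280)))) (XT.nd (nat_lit 156) (nat_lit 304) (nat_lit 0) (XT.nd (nat_lit 78) (nat_lit 0) (nat_lit 76) (XT.lf (nat_lit 76) (nat_lit 13779851446) (nat_lit 0) (nat_lit 425594594) (nat_lit 532) (nat_lit 3594886307) (nat_lit 65) (nat_lit 5) (nat_lit 64) (nat_lit 3) (nat_lit 71) (nat_lit 5) (nat_lit 311) (nat_lit 310) (nat_lit 279)) (XT.lf (nat_lit 76) (nat_lit 13168304875) (nat_lit 0) (nat_lit 3653077468) (nat_lit 532) (nat_lit 2288676905) (nat_lit 66) (nat_lit 5) (nat_lit 65) (nat_lit 5) (nat_lit 72) (nat_lit 5) (nat_lit 312) (nat_lit 310) (nat_lit 278))) (XT.nd (nat_lit 78) (nat_lit 456) (nat_lit 0) (XT.lf (nat_lit 76) (nat_lit 12835323216) (nat_lit 0) (nat_lit 7685445845) (nat_lit 532) (nat_lit 40250975) (nat_lit 67) (nat_lit 5) (nat_lit 66) (nat_lit 5) (nat_lit 73) (nat_lit 5) (nat_lit 313) (nat_lit 310) (nat_lit 277)) (XT.lf (nat_lit 0)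 (nat_lit 3193247345) (nat_lit 532) (nat_lit 9415529835) (nat_lit 76) (nat_lit 9553987025) (nat_lit 60) (nat_lit 5) (nat_lit 67) (nat_lit 5) (nat_lit 61) (nat_lit 5) (nat_lit 314) (nat_lit 310) (nat_lit 276))))))) (XT.nd (nat_lit 1170) (nat_lit 1292) (nat_lit 0) (XT.nd (nat_lit 546) (nat_lit 1140) (nat_lit 0) (XT.nd (nat_lit 234) (nat_lit 836) (nat_lit 0) (XT.nd (nat_lit 78) (nat_lit 456) (nat_lit 0) (XT.lf (nat_lit 0) (nat_lit 7751262176) (nat_lit 456) (nat_lit 10919055270) (nat_lit 76) (nat_lit 5267060673) (nat_lit 55) (nat_lit 5) (nat_lit 61) (nat_lit 5) (nat_lit 56) (nat_lit 5) (nat_lit 315) (nat_lit 310) (nat_lit 275)) (XT.nd (nat_lit 78) (nat_lit 228) (nat_lit 0) (XT.lf (nat_lit 0) (nat_lit 13712947001) (nat_lit 228) (nat_lit 194042347) (nat_lit 304) (nat_lit 11998110277) (nat_lit 52) (nat_lit 5) (nat_lit 55) (nat_lit 5) (nat_lit 56) (nat_lit 5) (nat_lit 316) (nat_lit 310) (nat_lit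 274)) (XT.lf (nat_lit 0) (nat_lit 14733369053) (nat_lit 228) (nat_lit 7398603855) (nat_lit 304) (nat_lit 5944366243) (nat_lit 49) (nat_lit 5) (nat_lit 52) (nat_lit 5) (nat_lit 53) (nat_lit 5) (nat_lit 317) (nat_lit 310) (nat_lit 273)))) (XT.nd (nat_lit 156) (nat_lit 380) (nat_lit 0) (XT.nd (nat_lit 78) (nat_lit 228) (nat_lit 0) (XT.lf (nat_lit 0) (nat_lit 2057955817) (nat_lit 228) (nat_lit 14233084994) (nat_lit 76) (nat_lit 14192978634) (nat_lit 46) (nat_lit 5) (nat_lit 49) (nat_lit 5) (nat_lit 47) (nat_lit 5) (nat_lit 318) (nat_lit 310) (nat_lit 272)) (XT.lf (nat_lit 0) (nat_lit 12084419242) (nat_lit 304) (nat_lit 14948020030) (nat_lit 76) (nat_lit 6114021422) (nat_lit 43) (nat_lit 5) (nat_lit 47) (nat_lit 5) (nat_lit 44) (nat_lit 5) (nat_lit 319) (nat_lit 310) (nat_lit 271))) (XT.nd (nat_lit 78) (nat_lit 228) (nat_lit 0) (XT.lf (nat_lit 0) (nat_lit 20713712084) (nat_lit 152) (nat_lit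 4244326624) (nat_lit 228) (nat_lit 11142793725) (nat_lit 41) (nat_lit 5) (nat_lit 43) (nat_lit 5) (nat_lit 44) (nat_lit 5) (nat_lit 320) (nat_lit 310) (nat_lit 270)) (XT.lf (nat_lit 0) (nat_lit 1809124703) (nat_lit 228) (nat_lit 15647454597) (nat_lit 76) (nat_lit 21916646961) (nat_lit 38) (nat_lit 5) (nat_lit 41) (nat_lit 5) (nat_lit 39) (nat_lit 5) (nat_lit 321) (nat_lit 310) (nat_lit 269))))) (XT.nd (nat_lit 312) (nat_lit 532) (nat_lit 0) (XT.nd (nat_lit 156) (nat_lit 304) (nat_lit 0) (XT.nd (nat_lit 78) (nat_lit 152) (nat_lit 0) (XT.lf (nat_lit 0) (nat_lit 17518076645) (nat_lit 228) (nat_lit 15826314692) (nat_lit 76) (nat_lit 9651025553) (nat_lit 36) (nat_lit 5) (nat_lit 39) (nat_lit 5) (nat_lit 37) (nat_lit 5) (nat_lit 322) (nat_lit 310) (nat_lit 268)) (XT.lf (nat_lit 0) (nat_lit 31263322991) (nat_lit 152) (nat_lit 5998515939) (nat_lit 228) (nat_lit 9764831483) (nat_lit 34) (nat_lit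 5) (nat_lit 36) (nat_lit 5) (nat_lit 37) (nat_lit 5) (nat_lit 323) (nat_lit 310) (nat_lit 267))) (XT.nd (nat_lit 78) (nat_lit 152) (nat_lit 0) (XT.lf (nat_lit 0) (nat_lit 9865306691) (nat_lit 152) (nat_lit 15873597441) (nat_lit 76) (nat_lit 25749644838) (nat_lit 32) (nat_lit 5) (nat_lit 34) (nat_lit 5) (nat_lit 33) (nat_lit 5) (nat_lit 324) (nat_lit 310) (nat_lit 266)) (XT.lf (nat_lit 0) (nat_lit 33643780692) (nat_lit 228) (nat_lit 16020322810) (nat_lit 76) (nat_lit 6792763277) (nat_lit 30) (nat_lit 5) (nat_lit 33) (nat_lit 5) (nat_lit 31) (nat_lit 4) (nat_lit 325) (nat_lit 310) (nat_lit 265)))) (XT.nd (nat_lit 156) (nat_lit 228) (nat_lit 0) (XT.nd (nat_lit 78) (nat_lit 152) (nat_lit 0) (XT.lf (nat_lit 0) (nat_lit 1199263688) (nat_lit 152) (nat_lit 16476215694) (nat_lit 76) (nat_lit 44311506791) (nat_lit 28) (nat_lit 5) (nat_lit 30) (nat_lit 5) (nat_lit 29) (nat_lit 5) (nat_lit 326) (nat_lit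 310) (nat_lit 264)) (XT.lf (nat_lit 0) (nat_lit 29703972964) (nat_lit 228) (nat_lit 17880906464) (nat_lit 76) (nat_lit 20535042265) (nat_lit 26) (nat_lit 5) (nat_lit 29) (nat_lit 5) (nat_lit 27) (nat_lit 4) (nat_lit 327) (nat_lit 310) (nat_lit 263))) (XT.nd (nat_lit 78) (nat_lit 152) (nat_lit 0) (XT.lf (nat_lit 0) (nat_lit 55048815541) (nat_lit 76) (nat_lit 9724544951) (nat_lit 152) (nat_lit 10216324291) (nat_lit 25) (nat_lit 5) (nat_lit 26) (nat_lit 5) (nat_lit 27) (nat_lit 4) (nat_lit 328) (nat_lit 310) (nat_lit 262)) (XT.lf (nat_lit 0) (nat_lit 23931531073) (nat_lit 152) (nat_lit 24011742642) (nat_lit 76) (nat_lit 34677545617) (nat_lit 23) (nat_lit 5) (nat_lit 25) (nat_lit 5) (nat_lit 24) (nat_lit 4) (nat_lit 329) (nat_lit 310) (nat_lit 261)))))) (XT.nd (nat_lit 624) (nat_lit 532) (nat_lit 0) (XT.nd (nat_lit 312) (nat_lit 380) (nat_lit 0) (XT.nd (nat_lit 156) (nat_lit 152) (nat_lit 0)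 (XT.nd (nat_lit 78) (nat_lit 152) (nat_lit 0) (XT.lf (nat_lit 0) (nat_lit 61271959794) (nat_lit 76) (nat_lit 3666267055) (nat_lit 152) (nat_lit 26249845382) (nat_lit 22) (nat_lit 5) (nat_lit 23) (nat_lit 5) (nat_lit 24) (nat_lit 4) (nat_lit 330) (nat_lit 310) (nat_lit 260)) (XT.lf (nat_lit 0) (nat_lit 13914214141) (nat_lit 152) (nat_lit 39399585666) (nat_lit 76) (nat_lit 47432405899) (nat_lit 20) (nat_lit 5) (nat_lit 22) (nat_lit 5) (nat_lit 21) (nat_lit 4) (nat_lit 331) (nat_lit 310) (nat_lit 259))) (XT.nd (nat_lit 78) (nat_lit 76) (nat_lit 0) (XT.lf (nat_lit 0) (nat_lit 58495554808) (nat_lit 76) (nat_lit 2487072400) (nat_lit 152) (nat_lit 50506167033) (nat_lit 19) (nat_lit 5) (nat_lit 20) (nat_lit 5) (nat_lit 21) (nat_lit 4) (nat_lit 332) (nat_lit 310) (nat_lit 258)) (XT.lf (nat_lit 0) (nat_lit 50856888904) (nat_lit 76) (nat_lit 67989169818) (nat_lit 76) (nat_lit 4697933941) (nat_lit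 18) (nat_lit 4) (nat_lit 19) (nat_lit 5) (nat_lit 19) (nat_lit 4) (nat_lit 333) (nat_lit 310) (nat_lit 257)))) (XT.nd (nat_lit 156) (nat_lit 152) (nat_lit 0) (XT.nd (nat_lit 78) (nat_lit 76) (nat_lit 0) (XT.lf (nat_lit 0) (nat_lit 36765881128) (nat_lit 76) (nat_lit 11340911684) (nat_lit 152) (nat_lit 89006324037) (nat_lit 16) (nat_lit 5) (nat_lit 17) (nat_lit 5) (nat_lit 18) (nat_lit 4) (nat_lit 334) (nat_lit 310) (nat_lit 256)) (XT.lf (nat_lit 0) (nat_lit 13676533248) (nat_lit 76) (nat_lit 98669803082) (nat_lit 76) (nat_lit 40058130653) (nat_lit 15) (nat_lit 4) (nat_lit 16) (nat_lit 5) (nat_lit 16) (nat_lit 4) (nat_lit 335) (nat_lit 310) (nat_lit 255))) (XT.nd (nat_lit 78) (nat_lit 76) (nat_lit 0) (XT.lf (nat_lit 0) (nat_lit 18722226641) (nat_lit 152) (nat_lit 19672950114) (nat_lit 76) (nat_lit 131298957928) (nat_lit 14) (nat_lit 5) (nat_lit 16) (nat_lit 5) (nat_lit 15) (nat_lit 4) (nat_lit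 336) (nat_lit 310) (nat_lit 254)) (XT.lf (nat_lit 0) (nat_lit 87795528314) (nat_lit 152) (nat_lit 67871278539) (nat_lit 0) (nat_lit 33519386723) (nat_lit 13) (nat_lit 5) (nat_lit 15) (nat_lit 4) (nat_lit 13) (nat_lit 4) (nat_lit 337) (nat_lit 310) (nat_lit 253))))) (XT.nd (nat_lit 312) (nat_lit 228) (nat_lit 0) (XT.nd (nat_lit 156) (nat_lit 76) (nat_lit 0) (XT.nd (nat_lit 78) (nat_lit 152) (nat_lit 0) (XT.lf (nat_lit 0) (nat_lit 75785784578) (nat_lit 76) (nat_lit 94908845823) (nat_lit 76) (nat_lit 40630247396) (nat_lit 12) (nat_lit 4) (nat_lit 13) (nat_lit 5) (nat_lit 13) (nat_lit 4) (nat_lit 338) (nat_lit 310) (nat_lit 252)) (XT.lf (nat_lit 0) (nat_lit 8112661083) (nat_lit 76) (nat_lit 21884163863) (nat_lit 152) (nat_lit 206554033931) (nat_lit 10) (nat_lit 5) (nat_lit 11) (nat_lit 5) (nat_lit 12) (nat_lit 4) (nat_lit 339) (nat_lit 310) (nat_lit 251))) (XT.nd (nat_lit 78) (nat_lit 76) (nat_lit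 0) (XT.lf (nat_lit 0) (nat_lit 114416057777) (nat_lit 152) (nat_lit 86457546365) (nat_lit 0) (nat_lit 64154398029) (nat_lit 10) (nat_lit 5) (nat_lit 12) (nat_lit 4) (nat_lit 10) (nat_lit 4) (nat_lit 340) (nat_lit 310) (nat_lit 250)) (XT.lf (nat_lit 0) (nat_lit 80216463420) (nat_lit 76) (nat_lit 133810551230) (nat_lit 76) (nat_lit 83547395732) (nat_lit 9) (nat_lit 4) (nat_lit 10) (nat_lit 5) (nat_lit 10) (nat_lit 4) (nat_lit 341) (nat_lit 310) (nat_lit 249)))) (XT.nd (nat_lit 156) (nat_lit 76) (nat_lit 0) (XT.nd (nat_lit 78) (nat_lit 152) (nat_lit 0) (XT.lf (nat_lit 0) (nat_lit 277116901710) (nat_lit 76) (nat_lit 53974688371) (nat_lit 76) (nat_lit 3710232222) (nat_lit 9) (nat_lit 4) (nat_lit 10) (nat_lit 5) (nat_lit 10) (nat_lit 4) (nat_lit 342) (nat_lit 310) (nat_lit 248)) (XT.lf (nat_lit 0) (nat_lit 87871438116) (nat_lit 152) (nat_lit 247909076983) (nat_lit 0) (nat_lit 41329227791) (nat_lit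 7) (nat_lit 5) (nat_lit 9) (nat_lit 4) (nat_lit 7) (nat_lit 4) (nat_lit 343) (nat_lit 310) (nat_lit 247))) (XT.nd (nat_lit 78) (nat_lit 76) (nat_lit 0) (XT.lf (nat_lit 0) (nat_lit 196188486647) (nat_lit 152) (nat_lit 79664864805) (nat_lit 0) (nat_lit 149645365693) (nat_lit 7) (nat_lit 5) (nat_lit 9) (nat_lit 4) (nat_lit 7) (nat_lit 4) (nat_lit 344) (nat_lit 310) (nat_lit 246)) (XT.lf (nat_lit 0) (nat_lit 119801420164) (nat_lit 76) (nat_lit 203829165507) (nat_lit 76) (nat_lit 157285252701) (nat_lit 6) (nat_lit 4) (nat_lit 7) (nat_lit 5) (nat_lit 7) (nat_lit 4) (nat_lit 345) (nat_lit 310) (nat_lit 245))))))))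
noncomputable def xc35 : XT := (XT.nd (nat_lit 44382) (nat_lit 0) (nat_lit 456) (XT.nd (nat_lit 1170) (nat_lit 0) (nat_lit 0) (XT.nd (nat_lit 546) (nat_lit 152) (nat_lit 0) (XT.nd (nat_lit 234) (nat_lit 76) (nat_lit 0) (XT.nd (nat_lit 78) (nat_lit 152) (nat_lit 0) (XT.lf (nat_lit 0) (nat_lit 354005034593) (nat_lit 76) (nat_lit 118499909622) (nat_lit 76) (nat_lit 71955308250) (nat_lit 6) (nat_lit 4) (nat_lit 7) (nat_lit 5) (nat_lit 7) (nat_lit 4) (nat_lit 346) (nat_lit 310) (nat_lit 244)) (XT.nd (nat_lit 78) (nat_lit 0) (nat_lit 0) (XT.lf (nat_lit 0) (nat_lit 5439332349) (nat_lit 76) (nat_lit 19553231340) (nat_lit 152) (nat_lit 592483184378) (nat_lit 4) (nat_lit 5) (nat_lit 5) (nat_lit 5) (nat_lit 6) (nat_lit 4) (nat_lit 347) (nat_lit 310) (nat_lit 243)) (XT.lf (nat_lit 0) (nat_lit 140295632329) (nat_lit 152) (nat_lit 463154789770) (nat_lit 0) (nat_lit 97197742717) (nat_lit 4) (nat_lit 5)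 (nat_lit 6) (nat_lit 4) (nat_lit 4) (nat_lit 4) (nat_lit 348) (nat_lit 310) (nat_lit 242)))) (XT.nd (nat_lit 156) (nat_lit 76) (nat_lit 0) (XT.nd (nat_lit 78) (nat_lit 0) (nat_lit 0) (XT.lf (nat_lit 0) (nat_lit 273432476464) (nat_lit 152) (nat_lit 292486734904) (nat_lit 0) (nat_lit 230334167645) (nat_lit 4) (nat_lit 5) (nat_lit 6) (nat_lit 4) (nat_lit 4) (nat_lit 4) (nat_lit 349) (nat_lit 310) (nat_lit 241)) (XT.lf (nat_lit 0) (nat_lit 426537691710) (nat_lit 152) (nat_lit 96222837844) (nat_lit 0) (nat_lit 383439018363) (nat_lit 4) (nat_lit 5) (nat_lit 6) (nat_lit 4) (nat_lit 4) (nat_lit 4) (nat_lit 350) (nat_lit 310) (nat_lit 240))) (XT.nd (nat_lit 78) (nat_lit 0) (nat_lit 0) (XT.lf (nat_lit 0) (nat_lit 136294868545) (nat_lit 76) (nat_lit 469589841207) (nat_lit 76) (nat_lit 426490850879) (nat_lit 3) (nat_lit 4) (nat_lit 4) (nat_lit 5) (nat_lit 4) (nat_lit 4) (nat_lit 351) (nat_lit 310)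 (nat_lit 239)) (XT.lf (nat_lit 0) (nat_lit 409513718439) (nat_lit 76) (nat_lit 405419773002) (nat_lit 76) (nat_lit 362320507039) (nat_lit 3) (nat_lit 4) (nat_lit 4) (nat_lit 5) (nat_lit 4) (nat_lit 4) (nat_lit 352) (nat_lit 310) (nat_lit 238))))) (XT.nd (nat_lit 312) (nat_lit 76) (nat_lit 0) (XT.nd (nat_lit 156) (nat_lit 76) (nat_lit 0) (XT.nd (nat_lit 78) (nat_lit 0) (nat_lit 0) (XT.lf (nat_lit 0) (nat_lit 723712373909) (nat_lit 76) (nat_lit 331625726514) (nat_lit 76) (nat_lit 288526220868) (nat_lit 3) (nat_lit 4) (nat_lit 4) (nat_lit 5) (nat_lit 4) (nat_lit 4) (nat_lit 353) (nat_lit 310) (nat_lit 237)) (XT.lf (nat_lit 0) (nat_lit 1085038199956) (nat_lit 76) (nat_lit 246763905180) (nat_lit 76) (nat_lit 203664191114) (nat_lit 3) (nat_lit 4) (nat_lit 4) (nat_lit 5) (nat_lit 4) (nat_lit 4) (nat_lit 354) (nat_lit 310) (nat_lit 236))) (XT.nd (nat_lit 78) (nat_lit 76) (nat_lit 0) (XT.lf (nat_lit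 0) (nat_lit 1500560614914) (nat_lit 76) (nat_lit 149173969019) (nat_lit 76) (nat_lit 106074073717) (nat_lit 3) (nat_lit 4) (nat_lit 4) (nat_lit 5) (nat_lit 4) (nat_lit 4) (nat_lit 355) (nat_lit 310) (nat_lit 235)) (XT.lf (nat_lit 0) (nat_lit 5845680032) (nat_lit 152) (nat_lit 30941038429) (nat_lit 76) (nat_lit 1972403893879) (nat_lit 2) (nat_lit 5) (nat_lit 4) (nat_lit 5) (nat_lit 3) (nat_lit 4) (nat_lit 356) (nat_lit 310) (nat_lit 234)))) (XT.nd (nat_lit 156) (nat_lit 0) (nat_lit 0) (XT.nd (nat_lit 78) (nat_lit 0) (nat_lit 0) (XT.lf (nat_lit 0) (nat_lit 136570310122) (nat_lit 152) (nat_lit 2066462595080) (nat_lit 0) (nat_lit 96662726847) (nat_lit 1) (nat_lit 5) (nat_lit 3) (nat_lit 4) (nat_lit 1) (nat_lit 4) (nat_lit 357) (nat_lit 310) (nat_lit 233)) (XT.lf (nat_lit 0) (nat_lit 288844458306) (nat_lit 152) (nat_lit 2095839915867) (nat_lit 0) (nat_lit 248936764694) (nat_lit 1) (nat_lit 5)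 (nat_lit 3) (nat_lit 4) (nat_lit 1) (nat_lit 4) (nat_lit 358) (nat_lit 310) (nat_lit 232))) (XT.nd (nat_lit 78) (nat_lit 0) (nat_lit 0) (XT.lf (nat_lit 0) (nat_lit 463959016599) (nat_lit 152) (nat_lit 2129625285076) (nat_lit 0) (nat_lit 424051227040) (nat_lit 1) (nat_lit 5) (nat_lit 3) (nat_lit 4) (nat_lit 1) (nat_lit 4) (nat_lit 359) (nat_lit 310) (nat_lit 231)) (XT.lf (nat_lit 0) (nat_lit 665340139400) (nat_lit 152) (nat_lit 2168479720797) (nat_lit 0) (nat_lit 625432266411) (nat_lit 1) (nat_lit 5) (nat_lit 3) (nat_lit 4) (nat_lit 1) (nat_lit 4) (nat_lit 360) (nat_lit 310) (nat_lit 230)))))) (XT.nd (nat_lit 624) (nat_lit 0) (nat_lit 0) (XT.nd (nat_lit 312) (nat_lit 0) (nat_lit 0) (XT.nd (nat_lit 156) (nat_lit 0) (nat_lit 0) (XT.nd (nat_lit 78) (nat_lit 0) (nat_lit 0) (XT.lf (nat_lit 0) (nat_lit 896927892157) (nat_lit 152) (nat_lit 2213163418514) (nat_lit 0) (nat_lit 857019946619) (nat_lit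 1) (nat_lit 5) (nat_lit 3) (nat_lit 4) (nat_lit 1) (nat_lit 4) (nat_lit 361) (nat_lit 310) (nat_lit 229)) (XT.lf (nat_lit 0) (nat_lit 1163253339597) (nat_lit 152) (nat_lit 2264550624486) (nat_lit 0) (nat_lit 1123345330973) (nat_lit 1) (nat_lit 5) (nat_lit 3) (nat_lit 4) (nat_lit 1) (nat_lit 4) (nat_lit 362) (nat_lit 310) (nat_lit 228))) (XT.nd (nat_lit 78) (nat_lit 0) (nat_lit 0) (XT.lf (nat_lit 0) (nat_lit 1469527196996) (nat_lit 152) (nat_lit 2323646740569) (nat_lit 0) (nat_lit 1429619133514) (nat_lit 1) (nat_lit 5) (nat_lit 3) (nat_lit 4) (nat_lit 1) (nat_lit 4) (nat_lit 363) (nat_lit 310) (nat_lit 227)) (XT.lf (nat_lit 0) (nat_lit 1821741778956) (nat_lit 152) (nat_lit 2391607995120) (nat_lit 0) (nat_lit 1781833667772) (nat_lit 1) (nat_lit 5) (nat_lit 3) (nat_lit 4) (nat_lit 1) (nat_lit 4) (nat_lit 364) (nat_lit 310) (nat_lit 226)))) (XT.nd (nat_lit 156) (nat_lit 0) (nat_lit 0) (XT.nd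 (nat_lit 78) (nat_lit 0) (nat_lit 0) (XT.lf (nat_lit 0) (nat_lit 2226788240340) (nat_lit 152) (nat_lit 2469764064860) (nat_lit 0) (nat_lit 2186880087676) (nat_lit 1) (nat_lit 5) (nat_lit 3) (nat_lit 4) (nat_lit 1) (nat_lit 4) (nat_lit 365) (nat_lit 310) (nat_lit 225)) (XT.lf (nat_lit 0) (nat_lit 2692591403220) (nat_lit 152) (nat_lit 2559644090283) (nat_lit 0) (nat_lit 2652683214486) (nat_lit 1) (nat_lit 5) (nat_lit 3) (nat_lit 4) (nat_lit 1) (nat_lit 4) (nat_lit 366) (nat_lit 310) (nat_lit 224))) (XT.nd (nat_lit 78) (nat_lit 0) (nat_lit 0) (XT.lf (nat_lit 0) (nat_lit 3228264807738) (nat_lit 152) (nat_lit 2663006593626) (nat_lit 0) (nat_lit 3188356587640) (nat_lit 1) (nat_lit 5) (nat_lit 3) (nat_lit 4) (nat_lit 1) (nat_lit 4) (nat_lit 367) (nat_lit 310) (nat_lit 223)) (XT.lf (nat_lit 0) (nat_lit 3844289020506) (nat_lit 152) (nat_lit 2781873884736) (nat_lit 0) (nat_lit 3804380773133) (nat_lit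 1) (nat_lit 5) (nat_lit 3) (nat_lit 4) (nat_lit 1) (nat_lit 4) (nat_lit 368) (nat_lit 310) (nat_lit 222))))) (XT.nd (nat_lit 312) (nat_lit 0) (nat_lit 0) (XT.nd (nat_lit 156) (nat_lit 0) (nat_lit 0) (XT.nd (nat_lit 78) (nat_lit 0) (nat_lit 0) (XT.lf (nat_lit 0) (nat_lit 4552716689163) (nat_lit 152) (nat_lit 2918571628006) (nat_lit 0) (nat_lit 4512808418074) (nat_lit 1) (nat_lit 5) (nat_lit 3) (nat_lit 4) (nat_lit 1) (nat_lit 4) (nat_lit 369) (nat_lit 310) (nat_lit 221)) (XT.lf (nat_lit 0) (nat_lit 5367408355053) (nat_lit 152) (nat_lit 3075774344499) (nat_lit 0) (nat_lit 5327500063342) (nat_lit 1) (nat_lit 5) (nat_lit 3) (nat_lit 4) (nat_lit 1) (nat_lit 4) (nat_lit 370) (nat_lit 310) (nat_lit 220))) (XT.nd (nat_lit 78) (nat_lit 0) (nat_lit 0) (XT.lf (nat_lit 0) (nat_lit 6304303637727) (nat_lit 152) (nat_lit 3256557739538) (nat_lit 0) (nat_lit 6264395328083) (nat_lit 1) (nat_lit 5) (nat_lit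 3) (nat_lit 4) (nat_lit 1) (nat_lit 4) (nat_lit 371) (nat_lit 310) (nat_lit 219)) (XT.lf (nat_lit 0) (nat_lit 7381733097063) (nat_lit 152) (nat_lit 3464458879547) (nat_lit 0) (nat_lit 7341824771825) (nat_lit 1) (nat_lit 5) (nat_lit 3) (nat_lit 4) (nat_lit 1) (nat_lit 4) (nat_lit 372) (nat_lit 310) (nat_lit 218)))) (XT.nd (nat_lit 42120) (nat_lit 0) (nat_lit 4788) (XT.nd (nat_lit 42042) (nat_lit 0) (nat_lit 4788) (XT.lf (nat_lit 0) (nat_lit 8620776874656) (nat_lit 152) (nat_lit 3703545395527) (nat_lit 0) (nat_lit 8580868535858) (nat_lit 1) (nat_lit 5) (nat_lit 3) (nat_lit 4) (nat_lit 1) (nat_lit 4) (nat_lit 373) (nat_lit 310) (nat_lit 217)) (XT.lf (nat_lit 0) (nat_lit 7593566624) (nat_lit 532) (nat_lit 963876878) (nat_lit 532) (nat_lit 963876878) (nat_lit 64) (nat_lit 3) (nat_lit 71) (nat_lit 3) (nat_lit 71) (nat_lit 5) (nat_lit 311) (nat_lit 311) (nat_lit 278))) (XT.nd (nat_lit 78) (nat_lit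 0) (nat_lit 76) (XT.lf (nat_lit 76) (nat_lit 16233126218) (nat_lit 0) (nat_lit 791411959) (nat_lit 532) (nat_lit 3390139740) (nat_lit 65) (nat_lit 5) (nat_lit 64) (nat_lit 3) (nat_lit 71) (nat_lit 5) (nat_lit 312) (nat_lit 311) (nat_lit 277)) (XT.lf (nat_lit 76) (nat_lit 15554786573) (nat_lit 0) (nat_lit 4391878268) (nat_lit 532) (nat_lit 1981178792) (nat_lit 66) (nat_lit 5) (nat_lit 65) (nat_lit 5) (nat_lit 72) (nat_lit 5) (nat_lit 313) (nat_lit 311) (nat_lit 276))))))) (XT.nd (nat_lit 1170) (nat_lit 1444) (nat_lit 0) (XT.nd (nat_lit 546) (nat_lit 1292) (nat_lit 0) (XT.nd (nat_lit 234) (nat_lit 912) (nat_lit 0) (XT.nd (nat_lit 78) (nat_lit 304) (nat_lit 0) (XT.lf (nat_lit 0) (nat_lit 500028099) (nat_lit 532) (nat_lit 8429113994) (nat_lit 608) (nat_lit 14672150244) (nat_lit 59) (nat_lit 5) (nat_lit 66) (nat_lit 5) (nat_lit 67) (nat_lit 5) (nat_lit 314) (nat_lit 311) (nat_lit 275)) (XT.nd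 (nat_lit 78) (nat_lit 380) (nat_lit 0) (XT.lf (nat_lit 0) (nat_lit 4153664940) (nat_lit 532) (nat_lit 10371341128) (nat_lit 76) (nat_lit 10923267311) (nat_lit 60) (nat_lit 5) (nat_lit 67) (nat_lit 5) (nat_lit 61) (nat_lit 5) (nat_lit 315) (nat_lit 311) (nat_lit 274)) (XT.lf (nat_lit 0) (nat_lit 9342376691) (nat_lit 456) (nat_lit 12104142586) (nat_lit 76) (nat_lit 6046851530) (nat_lit 55) (nat_lit 5) (nat_lit 61) (nat_lit 5) (nat_lit 56) (nat_lit 5) (nat_lit 316) (nat_lit 311) (nat_lit 273)))) (XT.nd (nat_lit 156) (nat_lit 456) (nat_lit 0) (XT.nd (nat_lit 78) (nat_lit 228) (nat_lit 0) (XT.lf (nat_lit 0) (nat_lit 16184335218) (nat_lit 228) (nat_lit 191213615) (nat_lit 304) (nat_lit 13384419184) (nat_lit 52) (nat_lit 5) (nat_lit 55) (nat_lit 5) (nat_lit 56) (nat_lit 5) (nat_lit 317) (nat_lit 311) (nat_lit 272)) (XT.lf (nat_lit 0) (nat_lit 17350318058) (nat_lit 228) (nat_lit 8444523984) (nat_lit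 304) (nat_lit 6465245026) (nat_lit 49) (nat_lit 5) (nat_lit 52) (nat_lit 5) (nat_lit 53) (nat_lit 5) (nat_lit 318) (nat_lit 311) (nat_lit 271))) (XT.nd (nat_lit 78) (nat_lit 228) (nat_lit 0) (XT.lf (nat_lit 0) (nat_lit 2684087483) (nat_lit 228) (nat_lit 15954675131) (nat_lit 76) (nat_lit 16392257680) (nat_lit 46) (nat_lit 5) (nat_lit 49) (nat_lit 5) (nat_lit 47) (nat_lit 5) (nat_lit 319) (nat_lit 311) (nat_lit 270)) (XT.lf (nat_lit 0) (nat_lit 14184458186) (nat_lit 304) (nat_lit 16791092324) (nat_lit 76) (nat_lit 7119709198) (nat_lit 43) (nat_lit 5) (nat_lit 47) (nat_lit 5) (nat_lit 44) (nat_lit 5) (nat_lit 320) (nat_lit 311) (nat_lit 269))))) (XT.nd (nat_lit 312) (nat_lit 608) (nat_lit 0) (XT.nd (nat_lit 156) (nat_lit 304) (nat_lit 0) (XT.nd (nat_lit 78) (nat_lit 228) (nat_lit 0) (XT.lf (nat_lit 0) (nat_lit 24186115179) (nat_lit 152) (nat_lit 4774308145) (nat_lit 228) (nat_lit 12534683143)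 (nat_lit 41) (nat_lit 5) (nat_lit 43) (nat_lit 5) (nat_lit 44) (nat_lit 5) (nat_lit 321) (nat_lit 311) (nat_lit 268)) (XT.lf (nat_lit 0) (nat_lit 2322356788) (nat_lit 228) (nat_lit 17630551422) (nat_lit 76) (nat_lit 25306826894) (nat_lit 38) (nat_lit 5) (nat_lit 41) (nat_lit 5) (nat_lit 39) (nat_lit 5) (nat_lit 322) (nat_lit 311) (nat_lit 267))) (XT.nd (nat_lit 78) (nat_lit 152) (nat_lit 0) (XT.lf (nat_lit 0) (nat_lit 20366880648) (nat_lit 228) (nat_lit 17852240010) (nat_lit 76) (nat_lit 11207811776) (nat_lit 36) (nat_lit 5) (nat_lit 39) (nat_lit 5) (nat_lit 37) (nat_lit 5) (nat_lit 323) (nat_lit 311) (nat_lit 266)) (XT.lf (nat_lit 0) (nat_lit 36271385006) (nat_lit 152) (nat_lit 6779645578) (nat_lit 228) (nat_lit 11013551831) (nat_lit 34) (nat_lit 5) (nat_lit 36) (nat_lit 5) (nat_lit 37) (nat_lit 5) (nat_lit 324) (nat_lit 311) (nat_lit 265)))) (XT.nd (nat_lit 156) (nat_lit 304) (nat_lit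 0) (XT.nd (nat_lit 78) (nat_lit 152) (nat_lit 0) (XT.lf (nat_lit 0) (nat_lit 11533576351) (nat_lit 152) (nat_lit 17940922100) (nat_lit 76) (nat_lit 29722178246) (nat_lit 32) (nat_lit 5) (nat_lit 34) (nat_lit 5) (nat_lit 33) (nat_lit 5) (nat_lit 325) (nat_lit 311) (nat_lit 264)) (XT.lf (nat_lit 0) (nat_lit 38863942712) (nat_lit 228) (nat_lit 18125278817) (nat_lit 76) (nat_lit 7922220955) (nat_lit 30) (nat_lit 5) (nat_lit 33) (nat_lit 5) (nat_lit 31) (nat_lit 4) (nat_lit 326) (nat_lit 311) (nat_lit 263))) (XT.nd (nat_lit 78) (nat_lit 152) (nat_lit 0) (XT.lf (nat_lit 0) (nat_lit 1540814038) (nat_lit 152) (nat_lit 18666221182) (nat_lit 76) (nat_lit 51065012296) (nat_lit 28) (nat_lit 5) (nat_lit 30) (nat_lit 5) (nat_lit 29) (nat_lit 5) (nat_lit 327) (nat_lit 311) (nat_lit 262)) (XT.lf (nat_lit 0) (nat_lit 34309004528) (nat_lit 228) (nat_lit 20296314232) (nat_lit 76) (nat_lit 23720589626) (nat_lit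 26) (nat_lit 5) (nat_lit 29) (nat_lit 5) (nat_lit 27) (nat_lit 4) (nat_lit 328) (nat_lit 311) (nat_lit 261)))))) (XT.nd (nat_lit 624) (nat_lit 608) (nat_lit 0) (XT.nd (nat_lit 312) (nat_lit 380) (nat_lit 0) (XT.nd (nat_lit 156) (nat_lit 228) (nat_lit 0) (XT.nd (nat_lit 78) (nat_lit 152) (nat_lit 0) (XT.lf (nat_lit 0) (nat_lit 63550288860) (nat_lit 76) (nat_lit 11074891559) (nat_lit 152) (nat_lit 11602051193) (nat_lit 25) (nat_lit 5) (nat_lit 26) (nat_lit 5) (nat_lit 27) (nat_lit 4) (nat_lit 329) (nat_lit 311) (nat_lit 260)) (XT.lf (nat_lit 0) (nat_lit 27650488945) (nat_lit 152) (nat_lit 27375583746) (nat_lit 76) (nat_lit 39977498580) (nat_lit 23) (nat_lit 5) (nat_lit 25) (nat_lit 5) (nat_lit 24) (nat_lit 4) (nat_lit 330) (nat_lit 311) (nat_lit 259))) (XT.nd (nat_lit 78) (nat_lit 152) (nat_lit 0) (XT.lf (nat_lit 0) (nat_lit 70680535288) (nat_lit 76) (nat_lit 4116035598) (nat_lit 152) (nat_lit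 30060274942) (nat_lit 22) (nat_lit 5) (nat_lit 23) (nat_lit 5) (nat_lit 24) (nat_lit 4) (nat_lit 331) (nat_lit 311) (nat_lit 258)) (XT.lf (nat_lit 0) (nat_lit 16113522560) (nat_lit 152) (nat_lit 45097812993) (nat_lit 76) (nat_lit 54637804007) (nat_lit 20) (nat_lit 5) (nat_lit 22) (nat_lit 5) (nat_lit 21) (nat_lit 4) (nat_lit 332) (nat_lit 311) (nat_lit 257)))) (XT.nd (nat_lit 156) (nat_lit 228) (nat_lit 0) (XT.nd (nat_lit 78) (nat_lit 76) (nat_lit 0) (XT.lf (nat_lit 0) (nat_lit 67463678311) (nat_lit 76) (nat_lit 2768548246) (nat_lit 152) (nat_lit 57971690487) (nat_lit 19) (nat_lit 5) (nat_lit 20) (nat_lit 5) (nat_lit 21) (nat_lit 4) (nat_lit 333) (nat_lit 311) (nat_lit 256)) (XT.lf (nat_lit 0) (nat_lit 58668295512) (nat_lit 76) (nat_lit 78099859595) (nat_lit 76) (nat_lit 5299804137) (nat_lit 18) (nat_lit 4) (nat_lit 19) (nat_lit 5) (nat_lit 19) (nat_lit 4) (nat_lit 334) (nat_lit 311) (nat_lit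 255))) (XT.nd (nat_lit 78) (nat_lit 76) (nat_lit 0) (XT.lf (nat_lit 0) (nat_lit 42452880032) (nat_lit 76) (nat_lit 12959007139) (nat_lit 152) (nat_lit 102261057231) (nat_lit 16) (nat_lit 5) (nat_lit 17) (nat_lit 5) (nat_lit 18) (nat_lit 4) (nat_lit 335) (nat_lit 311) (nat_lit 254)) (XT.lf (nat_lit 0) (nat_lit 15890268660) (nat_lit 76) (nat_lit 113391113915) (nat_lit 76) (nat_lit 45977094669) (nat_lit 15) (nat_lit 4) (nat_lit 16) (nat_lit 5) (nat_lit 16) (nat_lit 4) (nat_lit 336) (nat_lit 311) (nat_lit 253))))) (XT.nd (nat_lit 312) (nat_lit 228) (nat_lit 0) (XT.nd (nat_lit 156) (nat_lit 228) (nat_lit 0) (XT.nd (nat_lit 78) (nat_lit 76) (nat_lit 0) (XT.lf (nat_lit 0) (nat_lit 21604704675) (nat_lit 152) (nat_lit 22478886903) (nat_lit 76) (nat_lit 151058722024) (nat_lit 14) (nat_lit 5) (nat_lit 16) (nat_lit 5) (nat_lit 15) (nat_lit 4) (nat_lit 337) (nat_lit 311) (nat_lit 252)) (XT.lf (nat_lit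 0) (nat_lit 101034087689) (nat_lit 152) (nat_lit 77915381745) (nat_lit 0) (nat_lit 38609106282) (nat_lit 13) (nat_lit 5) (nat_lit 15) (nat_lit 4) (nat_lit 13) (nat_lit 4) (nat_lit 338) (nat_lit 311) (nat_lit 251))) (XT.nd (nat_lit 78) (nat_lit 152) (nat_lit 0) (XT.lf (nat_lit 0) (nat_lit 87278679297) (nat_lit 76) (nat_lit 109083352678) (nat_lit 76) (nat_lit 46656513550) (nat_lit 12) (nat_lit 4) (nat_lit 13) (nat_lit 5) (nat_lit 13) (nat_lit 4) (nat_lit 339) (nat_lit 311) (nat_lit 250)) (XT.lf (nat_lit 0) (nat_lit 9447136728) (nat_lit 76) (nat_lit 25108435995) (nat_lit 152) (nat_lit 237473171121) (nat_lit 10) (nat_lit 5) (nat_lit 11) (nat_lit 5) (nat_lit 12) (nat_lit 4) (nat_lit 340) (nat_lit 311) (nat_lit 249)))) (XT.nd (nat_lit 156) (nat_lit 152) (nat_lit 0) (XT.nd (nat_lit 78) (nat_lit 76) (nat_lit 0) (XT.lf (nat_lit 0) (nat_lit 131631185933) (nat_lit 152) (nat_lit 99321033129) (nat_lit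 0) (nat_lit 73825760710) (nat_lit 10) (nat_lit 5) (nat_lit 12) (nat_lit 4) (nat_lit 10) (nat_lit 4) (nat_lit 341) (nat_lit 311) (nat_lit 248)) (XT.lf (nat_lit 0) (nat_lit 92345178108) (nat_lit 76) (nat_lit 153834046473) (nat_lit 76) (nat_lit 96027490248) (nat_lit 9) (nat_lit 4) (nat_lit 10) (nat_lit 5) (nat_lit 10) (nat_lit 4) (nat_lit 342) (nat_lit 311) (nat_lit 247))) (XT.nd (nat_lit 78) (nat_lit 152) (nat_lit 0) (XT.lf (nat_lit 0) (nat_lit 318768128422) (nat_lit 76) (nat_lit 62029076460) (nat_lit 76) (nat_lit 4221536756) (nat_lit 9) (nat_lit 4) (nat_lit 10) (nat_lit 5) (nat_lit 10) (nat_lit 4) (nat_lit 343) (nat_lit 311) (nat_lit 246)) (XT.lf (nat_lit 0) (nat_lit 101092357549) (nat_lit 152) (nat_lit 285014561360) (nat_lit 0) (nat_lit 47566065971) (nat_lit 7) (nat_lit 5) (nat_lit 9) (nat_lit 4) (nat_lit 7) (nat_lit 4) (nat_lit 344) (nat_lit 311) (nat_lit 245))))))))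
noncomputable def xc36 : XT := (XT.nd (nat_lit 44382) (nat_lit 0) (nat_lit 608) (XT.nd (nat_lit 1170) (nat_lit 0) (nat_lit 0) (XT.nd (nat_lit 546) (nat_lit 228) (nat_lit 0) (XT.nd (nat_lit 234) (nat_lit 152) (nat_lit 0) (XT.nd (nat_lit 78) (nat_lit 76) (nat_lit 0) (XT.lf (nat_lit 0) (nat_lit 225651719397) (nat_lit 152) (nat_lit 91544266551) (nat_lit 0) (nat_lit 172124739253) (nat_lit 7) (nat_lit 5) (nat_lit 9) (nat_lit 4) (nat_lit 7) (nat_lit 4) (nat_lit 345) (nat_lit 311) (nat_lit 244)) (XT.nd (nat_lit 78) (nat_lit 0) (nat_lit 0) (XT.lf (nat_lit 0) (nat_lit 137836008251) (nat_lit 76) (nat_lit 234371113278) (nat_lit 76) (nat_lit 180843534380) (nat_lit 6) (nat_lit 4) (nat_lit 7) (nat_lit 5) (nat_lit 7) (nat_lit 4) (nat_lit 346) (nat_lit 311) (nat_lit 243)) (XT.lf (nat_lit 0) (nat_lit 407161768097) (nat_lit 76) (nat_lit 136246698626) (nat_lit 76) (nat_lit 82718599073) (nat_lit 6) (nat_lit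 4) (nat_lit 7) (nat_lit 5) (nat_lit 7) (nat_lit 4) (nat_lit 347) (nat_lit 311) (nat_lit 242)))) (XT.nd (nat_lit 156) (nat_lit 0) (nat_lit 0) (XT.nd (nat_lit 78) (nat_lit 0) (nat_lit 0) (XT.lf (nat_lit 0) (nat_lit 6307847925) (nat_lit 76) (nat_lit 22459652181) (nat_lit 152) (nat_lit 681327524357) (nat_lit 4) (nat_lit 5) (nat_lit 5) (nat_lit 5) (nat_lit 6) (nat_lit 4) (nat_lit 348) (nat_lit 311) (nat_lit 241)) (XT.lf (nat_lit 0) (nat_lit 161363186504) (nat_lit 152) (nat_lit 532580997212) (nat_lit 0) (nat_lit 111799347627) (nat_lit 4) (nat_lit 5) (nat_lit 6) (nat_lit 4) (nat_lit 4) (nat_lit 4) (nat_lit 349) (nat_lit 311) (nat_lit 240))) (XT.nd (nat_lit 78) (nat_lit 0) (nat_lit 0) (XT.lf (nat_lit 0) (nat_lit 314467529956) (nat_lit 152) (nat_lit 336318865990) (nat_lit 0) (nat_lit 264903374098) (nat_lit 4) (nat_lit 5) (nat_lit 6) (nat_lit 4) (nat_lit 4) (nat_lit 4) (nat_lit 350) (nat_lit 311)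 (nat_lit 239)) (XT.lf (nat_lit 0) (nat_lit 490535895051) (nat_lit 152) (nat_lit 110620716433) (nat_lit 0) (nat_lit 440971463558) (nat_lit 4) (nat_lit 5) (nat_lit 6) (nat_lit 4) (nat_lit 4) (nat_lit 4) (nat_lit 351) (nat_lit 311) (nat_lit 238))))) (XT.nd (nat_lit 312) (nat_lit 152) (nat_lit 0) (XT.nd (nat_lit 156) (nat_lit 0) (nat_lit 0) (XT.nd (nat_lit 78) (nat_lit 0) (nat_lit 0) (XT.lf (nat_lit 0) (nat_lit 156771637030) (nat_lit 76) (nat_lit 540011822238) (nat_lit 76) (nat_lit 490447151062) (nat_lit 3) (nat_lit 4) (nat_lit 4) (nat_lit 5) (nat_lit 4) (nat_lit 4) (nat_lit 352) (nat_lit 311) (nat_lit 237)) (XT.lf (nat_lit 0) (nat_lit 470969070294) (nat_lit 76) (nat_lit 466218395344) (nat_lit 76) (nat_lit 416653515748) (nat_lit 3) (nat_lit 4) (nat_lit 4) (nat_lit 5) (nat_lit 4) (nat_lit 4) (nat_lit 353) (nat_lit 311) (nat_lit 236))) (XT.nd (nat_lit 78) (nat_lit 0) (nat_lit 0) (XT.lf (nat_lit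 0) (nat_lit 832293833552) (nat_lit 76) (nat_lit 381357112788) (nat_lit 76) (nat_lit 331792051957) (nat_lit 3) (nat_lit 4) (nat_lit 4) (nat_lit 5) (nat_lit 4) (nat_lit 4) (nat_lit 354) (nat_lit 311) (nat_lit 235)) (XT.lf (nat_lit 0) (nat_lit 1247815324346) (nat_lit 76) (nat_lit 283767645129) (nat_lit 76) (nat_lit 234202426702) (nat_lit 3) (nat_lit 4) (nat_lit 4) (nat_lit 5) (nat_lit 4) (nat_lit 4) (nat_lit 355) (nat_lit 311) (nat_lit 234)))) (XT.nd (nat_lit 156) (nat_lit 76) (nat_lit 0) (XT.nd (nat_lit 78) (nat_lit 76) (nat_lit 0) (XT.lf (nat_lit 0) (nat_lit 1725663310974) (nat_lit 76) (nat_lit 171540633216) (nat_lit 76) (nat_lit 121975277750) (nat_lit 3) (nat_lit 4) (nat_lit 4) (nat_lit 5) (nat_lit 4) (nat_lit 4) (nat_lit 356) (nat_lit 311) (nat_lit 233)) (XT.lf (nat_lit 0) (nat_lit 6730715894) (nat_lit 152) (nat_lit 35565585570) (nat_lit 76) (nat_lit 2268272247580) (nat_lit 2) (nat_lit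 5) (nat_lit 4) (nat_lit 5) (nat_lit 3) (nat_lit 4) (nat_lit 357) (nat_lit 311) (nat_lit 232))) (XT.nd (nat_lit 78) (nat_lit 0) (nat_lit 0) (XT.lf (nat_lit 0) (nat_lit 157063524349) (nat_lit 152) (nat_lit 2376416368297) (nat_lit 0) (nat_lit 111169470412) (nat_lit 1) (nat_lit 5) (nat_lit 3) (nat_lit 4) (nat_lit 1) (nat_lit 4) (nat_lit 358) (nat_lit 311) (nat_lit 231)) (XT.lf (nat_lit 0) (nat_lit 332177794626) (nat_lit 152) (nat_lit 2410202324078) (nat_lit 0) (nat_lit 286283657257) (nat_lit 1) (nat_lit 5) (nat_lit 3) (nat_lit 4) (nat_lit 1) (nat_lit 4) (nat_lit 359) (nat_lit 311) (nat_lit 230)))))) (XT.nd (nat_lit 546) (nat_lit 0) (nat_lit 0) (XT.nd (nat_lit 234) (nat_lit 0) (nat_lit 0) (XT.nd (nat_lit 78) (nat_lit 0) (nat_lit 0) (XT.lf (nat_lit 0) (nat_lit 533558666978) (nat_lit 152) (nat_lit 2449057269864) (nat_lit 0) (nat_lit 487664457061) (nat_lit 1) (nat_lit 5) (nat_lit 3) (nat_lit 4)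 (nat_lit 1) (nat_lit 4) (nat_lit 360) (nat_lit 311) (nat_lit 229)) (XT.nd (nat_lit 78) (nat_lit 0) (nat_lit 0) (XT.lf (nat_lit 0) (nat_lit 765146201954) (nat_lit 152) (nat_lit 2493741411114) (nat_lit 0) (nat_lit 719251928950) (nat_lit 1) (nat_lit 5) (nat_lit 3) (nat_lit 4) (nat_lit 1) (nat_lit 4) (nat_lit 361) (nat_lit 311) (nat_lit 228)) (XT.lf (nat_lit 0) (nat_lit 1031471460018) (nat_lit 152) (nat_lit 2545129002767) (nat_lit 0) (nat_lit 985577132157) (nat_lit 1) (nat_lit 5) (nat_lit 3) (nat_lit 4) (nat_lit 1) (nat_lit 4) (nat_lit 362) (nat_lit 311) (nat_lit 227)))) (XT.nd (nat_lit 156) (nat_lit 0) (nat_lit 0) (XT.nd (nat_lit 78) (nat_lit 0) (nat_lit 0) (XT.lf (nat_lit 0) (nat_lit 1337745152743) (nat_lit 152) (nat_lit 2604225454225) (nat_lit 0) (nat_lit 1291850777180) (nat_lit 1) (nat_lit 5) (nat_lit 3) (nat_lit 4) (nat_lit 1) (nat_lit 4) (nat_lit 363) (nat_lit 311) (nat_lit 226)) (XT.lf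 (nat_lit 0) (nat_lit 1689959591508) (nat_lit 152) (nat_lit 2672187000407) (nat_lit 0) (nat_lit 1644065174465) (nat_lit 1) (nat_lit 5) (nat_lit 3) (nat_lit 4) (nat_lit 1) (nat_lit 4) (nat_lit 364) (nat_lit 311) (nat_lit 225))) (XT.nd (nat_lit 78) (nat_lit 0) (nat_lit 0) (XT.lf (nat_lit 0) (nat_lit 2095005928375) (nat_lit 152) (nat_lit 2750343323738) (nat_lit 0) (nat_lit 2049111475262) (nat_lit 1) (nat_lit 5) (nat_lit 3) (nat_lit 4) (nat_lit 1) (nat_lit 4) (nat_lit 365) (nat_lit 311) (nat_lit 224)) (XT.lf (nat_lit 0) (nat_lit 2560808982979) (nat_lit 152) (nat_lit 2840223569676) (nat_lit 0) (nat_lit 2514914498501) (nat_lit 1) (nat_lit 5) (nat_lit 3) (nat_lit 4) (nat_lit 1) (nat_lit 4) (nat_lit 366) (nat_lit 311) (nat_lit 223))))) (XT.nd (nat_lit 312) (nat_lit 0) (nat_lit 0) (XT.nd (nat_lit 156) (nat_lit 0) (nat_lit 0) (XT.nd (nat_lit 78) (nat_lit 0) (nat_lit 0) (XT.lf (nat_lit 0) (nat_lit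 3096482293344) (nat_lit 152) (nat_lit 2943586264771) (nat_lit 0) (nat_lit 3050587781593) (nat_lit 1) (nat_lit 5) (nat_lit 3) (nat_lit 4) (nat_lit 1) (nat_lit 4) (nat_lit 367) (nat_lit 311) (nat_lit 222)) (XT.lf (nat_lit 0) (nat_lit 3712506424240) (nat_lit 152) (nat_lit 3062453722622) (nat_lit 0) (nat_lit 3666611888771) (nat_lit 1) (nat_lit 5) (nat_lit 3) (nat_lit 4) (nat_lit 1) (nat_lit 4) (nat_lit 368) (nat_lit 311) (nat_lit 221))) (XT.nd (nat_lit 78) (nat_lit 0) (nat_lit 0) (XT.lf (nat_lit 0) (nat_lit 4420934021704) (nat_lit 152) (nat_lit 3199151610884) (nat_lit 0) (nat_lit 4375039465613) (nat_lit 1) (nat_lit 5) (nat_lit 3) (nat_lit 4) (nat_lit 1) (nat_lit 4) (nat_lit 369) (nat_lit 311) (nat_lit 220)) (XT.lf (nat_lit 0) (nat_lit 5235625625687) (nat_lit 152) (nat_lit 3356354453457) (nat_lit 0) (nat_lit 5189731051663) (nat_lit 1) (nat_lit 5) (nat_lit 3) (nat_lit 4) (nat_lit 1) (nat_lit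 4) (nat_lit 370) (nat_lit 311) (nat_lit 219)))) (XT.nd (nat_lit 156) (nat_lit 0) (nat_lit 0) (XT.nd (nat_lit 78) (nat_lit 0) (nat_lit 0) (XT.lf (nat_lit 0) (nat_lit 6172520854529) (nat_lit 152) (nat_lit 3537137958130) (nat_lit 0) (nat_lit 6126626264911) (nat_lit 1) (nat_lit 5) (nat_lit 3) (nat_lit 4) (nat_lit 1) (nat_lit 4) (nat_lit 371) (nat_lit 311) (nat_lit 218)) (XT.lf (nat_lit 0) (nat_lit 7249950267054) (nat_lit 152) (nat_lit 3745039193474) (nat_lit 0) (nat_lit 7204055663876) (nat_lit 1) (nat_lit 5) (nat_lit 3) (nat_lit 4) (nat_lit 1) (nat_lit 4) (nat_lit 372) (nat_lit 311) (nat_lit 217))) (XT.nd (nat_lit 42120) (nat_lit 0) (nat_lit 4788) (XT.lf (nat_lit 0) (nat_lit 8488994003942) (nat_lit 152) (nat_lit 3984125792353) (nat_lit 0) (nat_lit 8443099388973) (nat_lit 1) (nat_lit 5) (nat_lit 3) (nat_lit 4) (nat_lit 1) (nat_lit 4) (nat_lit 373) (nat_lit 311) (nat_lit 216)) (XT.lf (nat_lit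 0) (nat_lit 9027812391) (nat_lit 532) (nat_lit 948904970) (nat_lit 532) (nat_lit 948904970) (nat_lit 64) (nat_lit 3) (nat_lit 71) (nat_lit 3) (nat_lit 71) (nat_lit 5) (nat_lit 312) (nat_lit 312) (nat_lit 276))))))) (XT.nd (nat_lit 1170) (nat_lit 1596) (nat_lit 0) (XT.nd (nat_lit 546) (nat_lit 1444) (nat_lit 0) (XT.nd (nat_lit 234) (nat_lit 760) (nat_lit 0) (XT.nd (nat_lit 78) (nat_lit 380) (nat_lit 0) (XT.lf (nat_lit 76) (nat_lit 18960191222) (nat_lit 0) (nat_lit 1138462639) (nat_lit 532) (nat_lit 3336105303) (nat_lit 65) (nat_lit 5) (nat_lit 64) (nat_lit 3) (nat_lit 71) (nat_lit 5) (nat_lit 313) (nat_lit 312) (nat_lit 275)) (XT.nd (nat_lit 78) (nat_lit 456) (nat_lit 0) (XT.lf (nat_lit 76) (nat_lit 18198958032) (nat_lit 0) (nat_lit 5194961846) (nat_lit 532) (nat_lit 1786257578) (nat_lit 66) (nat_lit 5) (nat_lit 65) (nat_lit 5) (nat_lit 72) (nat_lit 5) (nat_lit 314) (nat_lit 312) (nat_lit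 274)) (XT.lf (nat_lit 0) (nat_lit 986375359) (nat_lit 532) (nat_lit 9349946796) (nat_lit 608) (nat_lit 16771916573) (nat_lit 59) (nat_lit 5) (nat_lit 66) (nat_lit 5) (nat_lit 67) (nat_lit 5) (nat_lit 315) (nat_lit 312) (nat_lit 273)))) (XT.nd (nat_lit 156) (nat_lit 456) (nat_lit 0) (XT.nd (nat_lit 78) (nat_lit 380) (nat_lit 0) (XT.lf (nat_lit 0) (nat_lit 5140745300) (nat_lit 532) (nat_lit 11581848965) (nat_lit 76) (nat_lit 12513502007) (nat_lit 60) (nat_lit 5) (nat_lit 67) (nat_lit 5) (nat_lit 61) (nat_lit 5) (nat_lit 316) (nat_lit 312) (nat_lit 272)) (XT.lf (nat_lit 0) (nat_lit 11067684188) (nat_lit 456) (nat_lit 13577404069) (nat_lit 76) (nat_lit 6946114991) (nat_lit 55) (nat_lit 5) (nat_lit 61) (nat_lit 5) (nat_lit 56) (nat_lit 5) (nat_lit 317) (nat_lit 312) (nat_lit 271))) (XT.nd (nat_lit 78) (nat_lit 228) (nat_lit 0) (XT.lf (nat_lit 0) (nat_lit 18925366345) (nat_lit 228) (nat_lit 195748146)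 (nat_lit 304) (nat_lit 15079486497) (nat_lit 52) (nat_lit 5) (nat_lit 55) (nat_lit 5) (nat_lit 56) (nat_lit 5) (nat_lit 318) (nat_lit 312) (nat_lit 270)) (XT.lf (nat_lit 0) (nat_lit 20260573628) (nat_lit 228) (nat_lit 9662907346) (nat_lit 304) (nat_lit 7154671739) (nat_lit 49) (nat_lit 5) (nat_lit 52) (nat_lit 5) (nat_lit 53) (nat_lit 5) (nat_lit 319) (nat_lit 312) (nat_lit 269))))) (XT.nd (nat_lit 312) (nat_lit 608) (nat_lit 0) (XT.nd (nat_lit 156) (nat_lit 380) (nat_lit 0) (XT.nd (nat_lit 78) (nat_lit 228) (nat_lit 0) (XT.lf (nat_lit 0) (nat_lit 3326729560) (nat_lit 228) (nat_lit 18035307318) (nat_lit 76) (nat_lit 18904277618) (nat_lit 46) (nat_lit 5) (nat_lit 49) (nat_lit 5) (nat_lit 47) (nat_lit 5) (nat_lit 320) (nat_lit 312) (nat_lit 268)) (XT.lf (nat_lit 0) (nat_lit 16529424501) (nat_lit 304) (nat_lit 19007956015) (nat_lit 76) (nat_lit 8254648234) (nat_lit 43) (nat_lit 5) (nat_lit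 47) (nat_lit 5) (nat_lit 44) (nat_lit 5) (nat_lit 321) (nat_lit 312) (nat_lit 267))) (XT.nd (nat_lit 78) (nat_lit 228) (nat_lit 0) (XT.lf (nat_lit 0) (nat_lit 28090286735) (nat_lit 152) (nat_lit 5409798434) (nat_lit 228) (nat_lit 14203521046) (nat_lit 41) (nat_lit 5) (nat_lit 43) (nat_lit 5) (nat_lit 44) (nat_lit 5) (nat_lit 322) (nat_lit 312) (nat_lit 266)) (XT.lf (nat_lit 0) (nat_lit 2853593769) (nat_lit 228) (nat_lit 19999881686) (nat_lit 76) (nat_lit 29180493944) (nat_lit 38) (nat_lit 5) (nat_lit 41) (nat_lit 5) (nat_lit 39) (nat_lit 5) (nat_lit 323) (nat_lit 312) (nat_lit 265)))) (XT.nd (nat_lit 156) (nat_lit 304) (nat_lit 0) (XT.nd (nat_lit 78) (nat_lit 152) (nat_lit 0) (XT.lf (nat_lit 0) (nat_lit 23589090444) (nat_lit 228) (nat_lit 20266921467) (nat_lit 76) (nat_lit 12971503308) (nat_lit 36) (nat_lit 5) (nat_lit 39) (nat_lit 5) (nat_lit 37) (nat_lit 5) (nat_lit 324) (nat_lit 312)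 (nat_lit 264)) (XT.lf (nat_lit 0) (nat_lit 41952972580) (nat_lit 152) (nat_lit 7706877669) (nat_lit 228) (nat_lit 12502254266) (nat_lit 34) (nat_lit 5) (nat_lit 36) (nat_lit 5) (nat_lit 37) (nat_lit 5) (nat_lit 325) (nat_lit 312) (nat_lit 263))) (XT.nd (nat_lit 78) (nat_lit 152) (nat_lit 0) (XT.lf (nat_lit 0) (nat_lit 13406125966) (nat_lit 152) (nat_lit 20394846836) (nat_lit 76) (nat_lit 34263746330) (nat_lit 32) (nat_lit 5) (nat_lit 34) (nat_lit 5) (nat_lit 33) (nat_lit 5) (nat_lit 326) (nat_lit 312) (nat_lit 262)) (XT.lf (nat_lit 0) (nat_lit 44824796815) (nat_lit 228) (nat_lit 20618669948) (nat_lit 76) (nat_lit 9194140629) (nat_lit 30) (nat_lit 5) (nat_lit 33) (nat_lit 5) (nat_lit 31) (nat_lit 4) (nat_lit 327) (nat_lit 312) (nat_lit 261)))))) (XT.nd (nat_lit 624) (nat_lit 684) (nat_lit 0) (XT.nd (nat_lit 312) (nat_lit 380) (nat_lit 0) (XT.nd (nat_lit 156) (nat_lit 228) (nat_lit 0) (XT.nd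 (nat_lit 78) (nat_lit 152) (nat_lit 0) (XT.lf (nat_lit 0) (nat_lit 1894174931) (nat_lit 152) (nat_lit 21253355217) (nat_lit 76) (nat_lit 58805504774) (nat_lit 28) (nat_lit 5) (nat_lit 30) (nat_lit 5) (nat_lit 29) (nat_lit 5) (nat_lit 328) (nat_lit 312) (nat_lit 260)) (XT.lf (nat_lit 0) (nat_lit 39568350005) (nat_lit 228) (nat_lit 23139076525) (nat_lit 76) (nat_lit 27358293209) (nat_lit 26) (nat_lit 5) (nat_lit 29) (nat_lit 5) (nat_lit 27) (nat_lit 4) (nat_lit 329) (nat_lit 312) (nat_lit 259))) (XT.nd (nat_lit 78) (nat_lit 152) (nat_lit 0) (XT.lf (nat_lit 0) (nat_lit 73267445413) (nat_lit 76) (nat_lit 12654208367) (nat_lit 152) (nat_lit 13231416156) (nat_lit 25) (nat_lit 5) (nat_lit 26) (nat_lit 5) (nat_lit 27) (nat_lit 4) (nat_lit 330) (nat_lit 312) (nat_lit 258)) (XT.lf (nat_lit 0) (nat_lit 31895777380) (nat_lit 152) (nat_lit 31302019386) (nat_lit 76) (nat_lit 46048468259) (nat_lit 23)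 (nat_lit 5) (nat_lit 25) (nat_lit 5) (nat_lit 24) (nat_lit 4) (nat_lit 331) (nat_lit 312) (nat_lit 257)))) (XT.nd (nat_lit 156) (nat_lit 152) (nat_lit 0) (XT.nd (nat_lit 78) (nat_lit 152) (nat_lit 0) (XT.lf (nat_lit 0) (nat_lit 81447289702) (nat_lit 76) (nat_lit 4657696880) (nat_lit 152) (nat_lit 34473250212) (nat_lit 22) (nat_lit 5) (nat_lit 23) (nat_lit 5) (nat_lit 24) (nat_lit 4) (nat_lit 332) (nat_lit 312) (nat_lit 256)) (XT.lf (nat_lit 0) (nat_lit 18615372342) (nat_lit 152) (nat_lit 51702401370) (nat_lit 76) (nat_lit 62901933756) (nat_lit 20) (nat_lit 5) (nat_lit 22) (nat_lit 5) (nat_lit 21) (nat_lit 4) (nat_lit 333) (nat_lit 312) (nat_lit 255))) (XT.nd (nat_lit 78) (nat_lit 76) (nat_lit 0) (XT.lf (nat_lit 0) (nat_lit 77729763353) (nat_lit 76) (nat_lit 3114579055) (nat_lit 152) (nat_lit 66583964589) (nat_lit 19) (nat_lit 5) (nat_lit 20) (nat_lit 5) (nat_lit 21) (nat_lit 4) (nat_lit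 334) (nat_lit 312) (nat_lit 254)) (XT.lf (nat_lit 0) (nat_lit 67606818306) (nat_lit 76) (nat_lit 89748535550) (nat_lit 76) (nat_lit 6017028144) (nat_lit 18) (nat_lit 4) (nat_lit 19) (nat_lit 5) (nat_lit 19) (nat_lit 4) (nat_lit 335) (nat_lit 312) (nat_lit 253))))) (XT.nd (nat_lit 312) (nat_lit 304) (nat_lit 0) (XT.nd (nat_lit 156) (nat_lit 152) (nat_lit 0) (XT.nd (nat_lit 78) (nat_lit 76) (nat_lit 0) (XT.lf (nat_lit 0) (nat_lit 48950957015) (nat_lit 76) (nat_lit 14840067059) (nat_lit 152) (nat_lit 117527463141) (nat_lit 16) (nat_lit 5) (nat_lit 17) (nat_lit 5) (nat_lit 18) (nat_lit 4) (nat_lit 336) (nat_lit 312) (nat_lit 252)) (XT.lf (nat_lit 0) (nat_lit 18396497371) (nat_lit 76) (nat_lit 130339924951) (nat_lit 76) (nat_lit 52805790754) (nat_lit 15) (nat_lit 4) (nat_lit 16) (nat_lit 5) (nat_lit 16) (nat_lit 4) (nat_lit 337) (nat_lit 312) (nat_lit 251))) (XT.nd (nat_lit 78) (nat_lit 76)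 (nat_lit 0) (XT.lf (nat_lit 0) (nat_lit 24901473922) (nat_lit 152) (nat_lit 25741074776) (nat_lit 76) (nat_lit 173766619481) (nat_lit 14) (nat_lit 5) (nat_lit 16) (nat_lit 5) (nat_lit 15) (nat_lit 4) (nat_lit 338) (nat_lit 312) (nat_lit 250)) (XT.lf (nat_lit 0) (nat_lit 116241548764) (nat_lit 152) (nat_lit 89499408421) (nat_lit 0) (nat_lit 44447210637) (nat_lit 13) (nat_lit 5) (nat_lit 15) (nat_lit 4) (nat_lit 13) (nat_lit 4) (nat_lit 339) (nat_lit 312) (nat_lit 249)))) (XT.nd (nat_lit 156) (nat_lit 76) (nat_lit 0) (XT.nd (nat_lit 78) (nat_lit 152) (nat_lit 0) (XT.lf (nat_lit 0) (nat_lit 100465019590) (nat_lit 76) (nat_lit 125399110764) (nat_lit 76) (nat_lit 53603367933) (nat_lit 12) (nat_lit 4) (nat_lit 13) (nat_lit 5) (nat_lit 13) (nat_lit 4) (nat_lit 340) (nat_lit 312) (nat_lit 248)) (XT.lf (nat_lit 0) (nat_lit 10953111949) (nat_lit 76) (nat_lit 28830578561) (nat_lit 152) (nat_lit 273045777867)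 (nat_lit 10) (nat_lit 5) (nat_lit 11) (nat_lit 5) (nat_lit 12) (nat_lit 4) (nat_lit 341) (nat_lit 312) (nat_lit 247))) (XT.nd (nat_lit 78) (nat_lit 76) (nat_lit 0) (XT.lf (nat_lit 0) (nat_lit 151415727331) (nat_lit 152) (nat_lit 114139683228) (nat_lit 0) (nat_lit 84936073191) (nat_lit 10) (nat_lit 5) (nat_lit 12) (nat_lit 4) (nat_lit 10) (nat_lit 4) (nat_lit 342) (nat_lit 312) (nat_lit 246)) (XT.lf (nat_lit 0) (nat_lit 106269730003) (nat_lit 76) (nat_lit 176872792429) (nat_lit 76) (nat_lit 110392283090) (nat_lit 9) (nat_lit 4) (nat_lit 10) (nat_lit 5) (nat_lit 10) (nat_lit 4) (nat_lit 343) (nat_lit 312) (nat_lit 245))))))))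
noncomputable def xc37 : XT := (XT.nd (nat_lit 44538) (nat_lit 0) (nat_lit 608) (XT.nd (nat_lit 1170) (nat_lit 76) (nat_lit 0) (XT.nd (nat_lit 546) (nat_lit 152) (nat_lit 0) (XT.nd (nat_lit 234) (nat_lit 228) (nat_lit 0) (XT.nd (nat_lit 78) (nat_lit 152) (nat_lit 0) (XT.lf (nat_lit 0) (nat_lit 366646630450) (nat_lit 76) (nat_lit 71301819656) (nat_lit 76) (nat_lit 4820566665) (nat_lit 9) (nat_lit 4) (nat_lit 10) (nat_lit 5) (nat_lit 10) (nat_lit 4) (nat_lit 344) (nat_lit 312) (nat_lit 244)) (XT.nd (nat_lit 78) (nat_lit 0) (nat_lit 0) (XT.lf (nat_lit 0) (nat_lit 116286610967) (nat_lit 152) (nat_lit 327705590803) (nat_lit 0) (nat_lit 54729296481) (nat_lit 7) (nat_lit 5) (nat_lit 9) (nat_lit 4) (nat_lit 7) (nat_lit 4) (nat_lit 345) (nat_lit 312) (nat_lit 243)) (XT.lf (nat_lit 0) (nat_lit 259525911903) (nat_lit 152) (nat_lit 105222728481) (nat_lit 0) (nat_lit 197968076761) (nat_lit 7) (nat_lit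 5) (nat_lit 9) (nat_lit 4) (nat_lit 7) (nat_lit 4) (nat_lit 346) (nat_lit 312) (nat_lit 242)))) (XT.nd (nat_lit 156) (nat_lit 152) (nat_lit 0) (XT.nd (nat_lit 78) (nat_lit 0) (nat_lit 0) (XT.lf (nat_lit 0) (nat_lit 158560086284) (nat_lit 76) (nat_lit 269502260758) (nat_lit 76) (nat_lit 207943972873) (nat_lit 6) (nat_lit 4) (nat_lit 7) (nat_lit 5) (nat_lit 7) (nat_lit 4) (nat_lit 347) (nat_lit 312) (nat_lit 241)) (XT.lf (nat_lit 0) (nat_lit 468278360960) (nat_lit 76) (nat_lit 156662382106) (nat_lit 76) (nat_lit 95103700530) (nat_lit 6) (nat_lit 4) (nat_lit 7) (nat_lit 5) (nat_lit 7) (nat_lit 4) (nat_lit 348) (nat_lit 312) (nat_lit 240))) (XT.nd (nat_lit 78) (nat_lit 0) (nat_lit 0) (XT.lf (nat_lit 0) (nat_lit 7293810160) (nat_lit 76) (nat_lit 25808513914) (nat_lit 152) (nat_lit 783505376884) (nat_lit 4) (nat_lit 5) (nat_lit 5) (nat_lit 5) (nat_lit 6) (nat_lit 4) (nat_lit 349) (nat_lit 312)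 (nat_lit 239)) (XT.lf (nat_lit 0) (nat_lit 185585214064) (nat_lit 152) (nat_lit 612432599707) (nat_lit 0) (nat_lit 128585842212) (nat_lit 4) (nat_lit 5) (nat_lit 6) (nat_lit 4) (nat_lit 4) (nat_lit 4) (nat_lit 350) (nat_lit 312) (nat_lit 238))))) (XT.nd (nat_lit 312) (nat_lit 76) (nat_lit 0) (XT.nd (nat_lit 156) (nat_lit 76) (nat_lit 0) (XT.nd (nat_lit 78) (nat_lit 0) (nat_lit 0) (XT.lf (nat_lit 0) (nat_lit 361652919958) (nat_lit 152) (nat_lit 386735785378) (nat_lit 0) (nat_lit 304653308422) (nat_lit 4) (nat_lit 5) (nat_lit 6) (nat_lit 4) (nat_lit 4) (nat_lit 4) (nat_lit 351) (nat_lit 312) (nat_lit 237)) (XT.lf (nat_lit 0) (nat_lit 564129549316) (nat_lit 152) (nat_lit 127186945194) (nat_lit 0) (nat_lit 507129729360) (nat_lit 4) (nat_lit 5) (nat_lit 6) (nat_lit 4) (nat_lit 4) (nat_lit 4) (nat_lit 352) (nat_lit 312) (nat_lit 236))) (XT.nd (nat_lit 78) (nat_lit 0) (nat_lit 0) (XT.lf (nat_lit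 0) (nat_lit 180311986141) (nat_lit 76) (nat_lit 621001122870) (nat_lit 76) (nat_lit 564001121680) (nat_lit 3) (nat_lit 4) (nat_lit 4) (nat_lit 5) (nat_lit 4) (nat_lit 4) (nat_lit 353) (nat_lit 312) (nat_lit 235)) (XT.lf (nat_lit 0) (nat_lit 541635825235) (nat_lit 76) (nat_lit 536140308817) (nat_lit 76) (nat_lit 479140150030) (nat_lit 3) (nat_lit 4) (nat_lit 4) (nat_lit 5) (nat_lit 4) (nat_lit 4) (nat_lit 354) (nat_lit 312) (nat_lit 234)))) (XT.nd (nat_lit 156) (nat_lit 76) (nat_lit 0) (XT.nd (nat_lit 78) (nat_lit 0) (nat_lit 0) (XT.lf (nat_lit 0) (nat_lit 957156512408) (nat_lit 76) (nat_lit 438551248551) (nat_lit 76) (nat_lit 381550952725) (nat_lit 3) (nat_lit 4) (nat_lit 4) (nat_lit 5) (nat_lit 4) (nat_lit 4) (nat_lit 355) (nat_lit 312) (nat_lit 233)) (XT.lf (nat_lit 0) (nat_lit 1435003800236) (nat_lit 76) (nat_lit 326324590893) (nat_lit 76) (nat_lit 269324175902) (nat_lit 3) (nat_lit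 4) (nat_lit 4) (nat_lit 5) (nat_lit 4) (nat_lit 4) (nat_lit 356) (nat_lit 312) (nat_lit 232))) (XT.nd (nat_lit 78) (nat_lit 76) (nat_lit 0) (XT.lf (nat_lit 0) (nat_lit 1984526874784) (nat_lit 76) (nat_lit 197264596890) (nat_lit 76) (nat_lit 140264078278) (nat_lit 3) (nat_lit 4) (nat_lit 4) (nat_lit 5) (nat_lit 4) (nat_lit 4) (nat_lit 357) (nat_lit 312) (nat_lit 231)) (XT.lf (nat_lit 0) (nat_lit 7746511450) (nat_lit 152) (nat_lit 40887864900) (nat_lit 76) (nat_lit 2608518959665) (nat_lit 2) (nat_lit 5) (nat_lit 4) (nat_lit 5) (nat_lit 3) (nat_lit 4) (nat_lit 358) (nat_lit 312) (nat_lit 230)))))) (XT.nd (nat_lit 624) (nat_lit 0) (nat_lit 0) (XT.nd (nat_lit 312) (nat_lit 0) (nat_lit 0) (XT.nd (nat_lit 156) (nat_lit 0) (nat_lit 0) (XT.nd (nat_lit 78) (nat_lit 0) (nat_lit 0) (XT.lf (nat_lit 0) (nat_lit 180628850892) (nat_lit 152) (nat_lit 2732867015568) (nat_lit 0) (nat_lit 127850436937) (nat_lit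 1) (nat_lit 5) (nat_lit 3) (nat_lit 4) (nat_lit 1) (nat_lit 4) (nat_lit 359) (nat_lit 312) (nat_lit 229)) (XT.lf (nat_lit 0) (nat_lit 382009505463) (nat_lit 152) (nat_lit 2771722404887) (nat_lit 0) (nat_lit 329231028423) (nat_lit 1) (nat_lit 5) (nat_lit 3) (nat_lit 4) (nat_lit 1) (nat_lit 4) (nat_lit 360) (nat_lit 312) (nat_lit 228))) (XT.nd (nat_lit 78) (nat_lit 0) (nat_lit 0) (XT.lf (nat_lit 0) (nat_lit 613596851063) (nat_lit 152) (nat_lit 2816406931819) (nat_lit 0) (nat_lit 560818319165) (nat_lit 1) (nat_lit 5) (nat_lit 3) (nat_lit 4) (nat_lit 1) (nat_lit 4) (nat_lit 361) (nat_lit 312) (nat_lit 227)) (XT.lf (nat_lit 0) (nat_lit 879921944454) (nat_lit 152) (nat_lit 2867794858847) (nat_lit 0) (nat_lit 827143364854) (nat_lit 1) (nat_lit 5) (nat_lit 3) (nat_lit 4) (nat_lit 1) (nat_lit 4) (nat_lit 362) (nat_lit 312) (nat_lit 226)))) (XT.nd (nat_lit 156) (nat_lit 0) (nat_lit 0) (XT.nd (nat_lit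 78) (nat_lit 0) (nat_lit 0) (XT.lf (nat_lit 0) (nat_lit 1186195493984) (nat_lit 152) (nat_lit 2926891601935) (nat_lit 0) (nat_lit 1133416872904) (nat_lit 1) (nat_lit 5) (nat_lit 3) (nat_lit 4) (nat_lit 1) (nat_lit 4) (nat_lit 363) (nat_lit 312) (nat_lit 225)) (XT.lf (nat_lit 0) (nat_lit 1538409808231) (nat_lit 152) (nat_lit 2994853401709) (nat_lit 0) (nat_lit 1485631151081) (nat_lit 1) (nat_lit 5) (nat_lit 3) (nat_lit 4) (nat_lit 1) (nat_lit 4) (nat_lit 364) (nat_lit 312) (nat_lit 224))) (XT.nd (nat_lit 78) (nat_lit 0) (nat_lit 0) (XT.lf (nat_lit 0) (nat_lit 1943456036822) (nat_lit 152) (nat_lit 3073009945555) (nat_lit 0) (nat_lit 1890677348308) (nat_lit 1) (nat_lit 5) (nat_lit 3) (nat_lit 4) (nat_lit 1) (nat_lit 4) (nat_lit 365) (nat_lit 312) (nat_lit 223)) (XT.lf (nat_lit 0) (nat_lit 2409258997273) (nat_lit 152) (nat_lit 3162890383245) (nat_lit 0) (nat_lit 2356480281485) (nat_lit 1) (nat_lit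 5) (nat_lit 3) (nat_lit 4) (nat_lit 1) (nat_lit 4) (nat_lit 366) (nat_lit 312) (nat_lit 222))))) (XT.nd (nat_lit 312) (nat_lit 0) (nat_lit 0) (XT.nd (nat_lit 156) (nat_lit 0) (nat_lit 0) (XT.nd (nat_lit 78) (nat_lit 0) (nat_lit 0) (XT.lf (nat_lit 0) (nat_lit 2944932225766) (nat_lit 152) (nat_lit 3266253245080) (nat_lit 0) (nat_lit 2892153486262) (nat_lit 1) (nat_lit 5) (nat_lit 3) (nat_lit 4) (nat_lit 1) (nat_lit 4) (nat_lit 367) (nat_lit 312) (nat_lit 221)) (XT.lf (nat_lit 0) (nat_lit 3560956285468) (nat_lit 152) (nat_lit 3385120847923) (nat_lit 0) (nat_lit 3508177525341) (nat_lit 1) (nat_lit 5) (nat_lit 3) (nat_lit 4) (nat_lit 1) (nat_lit 4) (nat_lit 368) (nat_lit 312) (nat_lit 220))) (XT.nd (nat_lit 78) (nat_lit 0) (nat_lit 0) (XT.lf (nat_lit 0) (nat_lit 4269383821025) (nat_lit 152) (nat_lit 3521818862265) (nat_lit 0) (nat_lit 4216605042965) (nat_lit 1) (nat_lit 5) (nat_lit 3) (nat_lit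 4) (nat_lit 1) (nat_lit 4) (nat_lit 369) (nat_lit 312) (nat_lit 219)) (XT.lf (nat_lit 0) (nat_lit 5084075371176) (nat_lit 152) (nat_lit 3679021814473) (nat_lit 0) (nat_lit 5031296577522) (nat_lit 1) (nat_lit 5) (nat_lit 3) (nat_lit 4) (nat_lit 1) (nat_lit 4) (nat_lit 370) (nat_lit 312) (nat_lit 218)))) (XT.nd (nat_lit 156) (nat_lit 0) (nat_lit 0) (XT.nd (nat_lit 78) (nat_lit 0) (nat_lit 0) (XT.lf (nat_lit 0) (nat_lit 6020970553207) (nat_lit 152) (nat_lit 3859805414481) (nat_lit 0) (nat_lit 5968191745993) (nat_lit 1) (nat_lit 5) (nat_lit 3) (nat_lit 4) (nat_lit 1) (nat_lit 4) (nat_lit 371) (nat_lit 312) (nat_lit 217)) (XT.lf (nat_lit 0) (nat_lit 7098399925027) (nat_lit 152) (nat_lit 4067706732724) (nat_lit 0) (nat_lit 7045621106022) (nat_lit 1) (nat_lit 5) (nat_lit 3) (nat_lit 4) (nat_lit 1) (nat_lit 4) (nat_lit 372) (nat_lit 312) (nat_lit 216))) (XT.nd (nat_lit 42198) (nat_lit 0) (nat_lit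 4788) (XT.lf (nat_lit 0) (nat_lit 8337443626520) (nat_lit 152) (nat_lit 4306793403690) (nat_lit 0) (nat_lit 8284664797261) (nat_lit 1) (nat_lit 5) (nat_lit 3) (nat_lit 4) (nat_lit 1) (nat_lit 4) (nat_lit 373) (nat_lit 312) (nat_lit 215)) (XT.lf (nat_lit 0) (nat_lit 10605206006) (nat_lit 532) (nat_lit 970595392) (nat_lit 532) (nat_lit 970595392) (nat_lit 64) (nat_lit 3) (nat_lit 71) (nat_lit 3) (nat_lit 71) (nat_lit 5) (nat_lit 313) (nat_lit 313) (nat_lit 274))))))) (XT.nd (nat_lit 1170) (nat_lit 1596) (nat_lit 0) (XT.nd (nat_lit 546) (nat_lit 1444) (nat_lit 0) (XT.nd (nat_lit 234) (nat_lit 760) (nat_lit 0) (XT.nd (nat_lit 78) (nat_lit 380) (nat_lit 0) (XT.lf (nat_lit 76) (nat_lit 22025086501) (nat_lit 0) (nat_lit 1481889037) (nat_lit 532) (nat_lit 3411148397) (nat_lit 65) (nat_lit 5) (nat_lit 64) (nat_lit 3) (nat_lit 71) (nat_lit 5) (nat_lit 314) (nat_lit 313) (nat_lit 273)) (XT.nd (nat_lit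 78) (nat_lit 456) (nat_lit 0) (XT.lf (nat_lit 76) (nat_lit 21163927235) (nat_lit 0) (nat_lit 6083319043) (nat_lit 532) (nat_lit 1682099403) (nat_lit 66) (nat_lit 5) (nat_lit 65) (nat_lit 5) (nat_lit 72) (nat_lit 5) (nat_lit 315) (nat_lit 313) (nat_lit 272)) (XT.lf (nat_lit 0) (nat_lit 1445366101) (nat_lit 532) (nat_lit 10492677533) (nat_lit 608) (nat_lit 19211291048) (nat_lit 59) (nat_lit 5) (nat_lit 66) (nat_lit 5) (nat_lit 67) (nat_lit 5) (nat_lit 316) (nat_lit 313) (nat_lit 271)))) (XT.nd (nat_lit 156) (nat_lit 456) (nat_lit 0) (XT.nd (nat_lit 78) (nat_lit 380) (nat_lit 0) (XT.lf (nat_lit 0) (nat_lit 6187116542) (nat_lit 532) (nat_lit 13058110557) (nat_lit 76) (nat_lit 14354039292) (nat_lit 60) (nat_lit 5) (nat_lit 67) (nat_lit 5) (nat_lit 61) (nat_lit 5) (nat_lit 317) (nat_lit 313) (nat_lit 270)) (XT.lf (nat_lit 0) (nat_lit 12972790308) (nat_lit 456) (nat_lit 15355141406) (nat_lit 76)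 (nat_lit 7982161338) (nat_lit 55) (nat_lit 5) (nat_lit 61) (nat_lit 5) (nat_lit 56) (nat_lit 5) (nat_lit 318) (nat_lit 313) (nat_lit 269))) (XT.nd (nat_lit 78) (nat_lit 228) (nat_lit 0) (XT.lf (nat_lit 0) (nat_lit 22001132237) (nat_lit 228) (nat_lit 206851380) (nat_lit 304) (nat_lit 17105042315) (nat_lit 52) (nat_lit 5) (nat_lit 55) (nat_lit 5) (nat_lit 56) (nat_lit 5) (nat_lit 319) (nat_lit 313) (nat_lit 268)) (XT.lf (nat_lit 0) (nat_lit 23532331023) (nat_lit 228) (nat_lit 11075825311) (nat_lit 304) (nat_lit 8015880031) (nat_lit 49) (nat_lit 5) (nat_lit 52) (nat_lit 5) (nat_lit 53) (nat_lit 5) (nat_lit 320) (nat_lit 313) (nat_lit 267))))) (XT.nd (nat_lit 312) (nat_lit 608) (nat_lit 0) (XT.nd (nat_lit 156) (nat_lit 380) (nat_lit 0) (XT.nd (nat_lit 78) (nat_lit 228) (nat_lit 0) (XT.lf (nat_lit 0) (nat_lit 4007235368) (nat_lit 228) (nat_lit 20504256283) (nat_lit 76) (nat_lit 21780131953)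 (nat_lit 46) (nat_lit 5) (nat_lit 49) (nat_lit 5) (nat_lit 47) (nat_lit 5) (nat_lit 321) (nat_lit 313) (nat_lit 266)) (XT.lf (nat_lit 0) (nat_lit 19173146370) (nat_lit 304) (nat_lit 21630945138) (nat_lit 76) (nat_lit 9543493981) (nat_lit 43) (nat_lit 5) (nat_lit 47) (nat_lit 5) (nat_lit 44) (nat_lit 5) (nat_lit 322) (nat_lit 313) (nat_lit 265))) (XT.nd (nat_lit 78) (nat_lit 228) (nat_lit 0) (XT.lf (nat_lit 0) (nat_lit 32512717668) (nat_lit 152) (nat_lit 6160280726) (nat_lit 228) (nat_lit 16174227223) (nat_lit 41) (nat_lit 5) (nat_lit 43) (nat_lit 5) (nat_lit 44) (nat_lit 5) (nat_lit 323) (nat_lit 313) (nat_lit 264)) (XT.lf (nat_lit 0) (nat_lit 3419919006) (nat_lit 228) (nat_lit 22791733542) (nat_lit 76) (nat_lit 33616277310) (nat_lit 38) (nat_lit 5) (nat_lit 41) (nat_lit 5) (nat_lit 39) (nat_lit 5) (nat_lit 324) (nat_lit 313) (nat_lit 263)))) (XT.nd (nat_lit 156) (nat_lit 304) (nat_lit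 0) (XT.nd (nat_lit 78) (nat_lit 152) (nat_lit 0) (XT.lf (nat_lit 0) (nat_lit 27253864368) (nat_lit 228) (nat_lit 23107977045) (nat_lit 76) (nat_lit 14979625603) (nat_lit 36) (nat_lit 5) (nat_lit 39) (nat_lit 5) (nat_lit 37) (nat_lit 5) (nat_lit 325) (nat_lit 313) (nat_lit 262)) (XT.lf (nat_lit 0) (nat_lit 48428058220) (nat_lit 152) (nat_lit 8795072082) (nat_lit 228) (nat_lit 14254091204) (nat_lit 34) (nat_lit 5) (nat_lit 36) (nat_lit 5) (nat_lit 37) (nat_lit 5) (nat_lit 326) (nat_lit 313) (nat_lit 261))) (XT.nd (nat_lit 78) (nat_lit 152) (nat_lit 0) (XT.lf (nat_lit 0) (nat_lit 15524805285) (nat_lit 152) (nat_lit 23274706316) (nat_lit 76) (nat_lit 39466250697) (nat_lit 32) (nat_lit 5) (nat_lit 34) (nat_lit 5) (nat_lit 33) (nat_lit 5) (nat_lit 327) (nat_lit 313) (nat_lit 260)) (XT.lf (nat_lit 0) (nat_lit 51647769794) (nat_lit 228) (nat_lit 23541035135) (nat_lit 76) (nat_lit 10636465149) (nat_lit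 30) (nat_lit 5) (nat_lit 33) (nat_lit 5) (nat_lit 31) (nat_lit 4) (nat_lit 328) (nat_lit 313) (nat_lit 259)))))) (XT.nd (nat_lit 624) (nat_lit 684) (nat_lit 0) (XT.nd (nat_lit 312) (nat_lit 380) (nat_lit 0) (XT.nd (nat_lit 156) (nat_lit 228) (nat_lit 0) (XT.nd (nat_lit 78) (nat_lit 152) (nat_lit 0) (XT.lf (nat_lit 0) (nat_lit 2270731256) (nat_lit 152) (nat_lit 24280451775) (nat_lit 76) (nat_lit 67687382008) (nat_lit 28) (nat_lit 5) (nat_lit 30) (nat_lit 5) (nat_lit 29) (nat_lit 5) (nat_lit 329) (nat_lit 313) (nat_lit 258)) (XT.lf (nat_lit 0) (nat_lit 45589042806) (nat_lit 228) (nat_lit 26457435289) (nat_lit 76) (nat_lit 31522237674) (nat_lit 26) (nat_lit 5) (nat_lit 29) (nat_lit 5) (nat_lit 27) (nat_lit 4) (nat_lit 330) (nat_lit 313) (nat_lit 257))) (XT.nd (nat_lit 78) (nat_lit 152) (nat_lit 0) (XT.lf (nat_lit 0) (nat_lit 84397156345) (nat_lit 76) (nat_lit 14490398657) (nat_lit 152) (nat_lit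 15132239948) (nat_lit 25) (nat_lit 5) (nat_lit 26) (nat_lit 5) (nat_lit 27) (nat_lit 4) (nat_lit 331) (nat_lit 313) (nat_lit 256)) (XT.lf (nat_lit 0) (nat_lit 36754030636) (nat_lit 152) (nat_lit 35861290595) (nat_lit 76) (nat_lit 53011953917) (nat_lit 23) (nat_lit 5) (nat_lit 25) (nat_lit 5) (nat_lit 24) (nat_lit 4) (nat_lit 332) (nat_lit 313) (nat_lit 255)))) (XT.nd (nat_lit 156) (nat_lit 152) (nat_lit 0) (XT.nd (nat_lit 78) (nat_lit 152) (nat_lit 0) (XT.lf (nat_lit 0) (nat_lit 93788900450) (nat_lit 76) (nat_lit 5299078022) (nat_lit 152) (nat_lit 39571598068) (nat_lit 22) (nat_lit 5) (nat_lit 23) (nat_lit 5) (nat_lit 24) (nat_lit 4) (nat_lit 333) (nat_lit 313) (nat_lit 254)) (XT.lf (nat_lit 0) (nat_lit 21471815356) (nat_lit 152) (nat_lit 59336715397) (nat_lit 76) (nat_lit 72388988770) (nat_lit 20) (nat_lit 5) (nat_lit 22) (nat_lit 5) (nat_lit 21) (nat_lit 4) (nat_lit 334) (nat_lit 313)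 (nat_lit 253))) (XT.nd (nat_lit 78) (nat_lit 76) (nat_lit 0) (XT.lf (nat_lit 0) (nat_lit 89500028078) (nat_lit 76) (nat_lit 3529401885) (nat_lit 152) (nat_lit 76508436804) (nat_lit 19) (nat_lit 5) (nat_lit 20) (nat_lit 5) (nat_lit 21) (nat_lit 4) (nat_lit 335) (nat_lit 313) (nat_lit 252)) (XT.lf (nat_lit 0) (nat_lit 77852399439) (nat_lit 76) (nat_lit 103160681301) (nat_lit 76) (nat_lit 6860794756) (nat_lit 18) (nat_lit 4) (nat_lit 19) (nat_lit 5) (nat_lit 19) (nat_lit 4) (nat_lit 336) (nat_lit 313) (nat_lit 251))))) (XT.nd (nat_lit 312) (nat_lit 304) (nat_lit 0) (XT.nd (nat_lit 156) (nat_lit 152) (nat_lit 0) (XT.nd (nat_lit 78) (nat_lit 76) (nat_lit 0) (XT.lf (nat_lit 0) (nat_lit 56392008868) (nat_lit 76) (nat_lit 17018597986) (nat_lit 152) (nat_lit 135101571139) (nat_lit 16) (nat_lit 5) (nat_lit 17) (nat_lit 5) (nat_lit 18) (nat_lit 4) (nat_lit 337) (nat_lit 313) (nat_lit 250)) (XT.lf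 (nat_lit 0) (nat_lit 21248742042) (nat_lit 76) (nat_lit 149845653919) (nat_lit 76) (nat_lit 60675341322) (nat_lit 15) (nat_lit 4) (nat_lit 16) (nat_lit 5) (nat_lit 16) (nat_lit 4) (nat_lit 338) (nat_lit 313) (nat_lit 249))) (XT.nd (nat_lit 78) (nat_lit 76) (nat_lit 0) (XT.lf (nat_lit 0) (nat_lit 28679087105) (nat_lit 152) (nat_lit 29519328497) (nat_lit 76) (nat_lit 199868730856) (nat_lit 14) (nat_lit 5) (nat_lit 16) (nat_lit 5) (nat_lit 15) (nat_lit 4) (nat_lit 339) (nat_lit 313) (nat_lit 248)) (XT.lf (nat_lit 0) (nat_lit 133717363629) (nat_lit 152) (nat_lit 102846224723) (nat_lit 0) (nat_lit 51149633187) (nat_lit 13) (nat_lit 5) (nat_lit 15) (nat_lit 4) (nat_lit 13) (nat_lit 4) (nat_lit 340) (nat_lit 313) (nat_lit 247)))) (XT.nd (nat_lit 156) (nat_lit 76) (nat_lit 0) (XT.nd (nat_lit 78) (nat_lit 152) (nat_lit 0) (XT.lf (nat_lit 0) (nat_lit 115606257140) (nat_lit 76) (nat_lit 144173631583)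 (nat_lit 76) (nat_lit 61604838983) (nat_lit 12) (nat_lit 4) (nat_lit 13) (nat_lit 5) (nat_lit 13) (nat_lit 4) (nat_lit 341) (nat_lit 313) (nat_lit 246)) (XT.lf (nat_lit 0) (nat_lit 12663303477) (nat_lit 76) (nat_lit 33121802143) (nat_lit 152) (nat_lit 313966070693) (nat_lit 10) (nat_lit 5) (nat_lit 11) (nat_lit 5) (nat_lit 12) (nat_lit 4) (nat_lit 342) (nat_lit 313) (nat_lit 245))) (XT.nd (nat_lit 78) (nat_lit 76) (nat_lit 0) (XT.lf (nat_lit 0) (nat_lit 174158228969) (nat_lit 152) (nat_lit 131200518608) (nat_lit 0) (nat_lit 97704044377) (nat_lit 10) (nat_lit 5) (nat_lit 12) (nat_lit 4) (nat_lit 10) (nat_lit 4) (nat_lit 343) (nat_lit 313) (nat_lit 244)) (XT.lf (nat_lit 0) (nat_lit 122265217994) (nat_lit 76) (nat_lit 203376217143) (nat_lit 76) (nat_lit 126921385897) (nat_lit 9) (nat_lit 4) (nat_lit 10) (nat_lit 5) (nat_lit 10) (nat_lit 4) (nat_lit 344) (nat_lit 313) (nat_lit 243))))))))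
noncomputable def xc38 : XT := (XT.nd (nat_lit 44538) (nat_lit 0) (nat_lit 608) (XT.nd (nat_lit 1170) (nat_lit 76) (nat_lit 0) (XT.nd (nat_lit 546) (nat_lit 152) (nat_lit 0) (XT.nd (nat_lit 234) (nat_lit 228) (nat_lit 0) (XT.nd (nat_lit 78) (nat_lit 152) (nat_lit 0) (XT.lf (nat_lit 0) (nat_lit 421691475879) (nat_lit 76) (nat_lit 81973184648) (nat_lit 76) (nat_lit 5517791094) (nat_lit 9) (nat_lit 4) (nat_lit 10) (nat_lit 5) (nat_lit 10) (nat_lit 4) (nat_lit 345) (nat_lit 313) (nat_lit 242)) (XT.nd (nat_lit 78) (nat_lit 0) (nat_lit 0) (XT.lf (nat_lit 0) (nat_lit 133752589218) (nat_lit 152) (nat_lit 376815187639) (nat_lit 0) (nat_lit 62960105406) (nat_lit 7) (nat_lit 5) (nat_lit 9) (nat_lit 4) (nat_lit 7) (nat_lit 4) (nat_lit 346) (nat_lit 313) (nat_lit 241)) (XT.lf (nat_lit 0) (nat_lit 298474787041) (nat_lit 152) (nat_lit 120965927505) (nat_lit 0) (nat_lit 227681909539) (nat_lit 7) (nat_lit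 5) (nat_lit 9) (nat_lit 4) (nat_lit 7) (nat_lit 4) (nat_lit 347) (nat_lit 313) (nat_lit 240)))) (XT.nd (nat_lit 156) (nat_lit 152) (nat_lit 0) (XT.nd (nat_lit 78) (nat_lit 0) (nat_lit 0) (XT.lf (nat_lit 0) (nat_lit 182380905877) (nat_lit 76) (nat_lit 309909059598) (nat_lit 76) (nat_lit 239115839757) (nat_lit 6) (nat_lit 4) (nat_lit 7) (nat_lit 5) (nat_lit 7) (nat_lit 4) (nat_lit 348) (nat_lit 313) (nat_lit 239)) (XT.lf (nat_lit 0) (nat_lit 538552120887) (nat_lit 76) (nat_lit 180145617444) (nat_lit 76) (nat_lit 109352099917) (nat_lit 6) (nat_lit 4) (nat_lit 7) (nat_lit 5) (nat_lit 7) (nat_lit 4) (nat_lit 349) (nat_lit 313) (nat_lit 238))) (XT.nd (nat_lit 78) (nat_lit 0) (nat_lit 0) (XT.lf (nat_lit 0) (nat_lit 8417964894) (nat_lit 76) (nat_lit 29664603028) (nat_lit 152) (nat_lit 901015095609) (nat_lit 4) (nat_lit 5) (nat_lit 5) (nat_lit 5) (nat_lit 6) (nat_lit 4) (nat_lit 350) (nat_lit 313)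 (nat_lit 237)) (XT.lf (nat_lit 0) (nat_lit 213436266182) (nat_lit 152) (nat_lit 704270610959) (nat_lit 0) (nat_lit 147886264812) (nat_lit 4) (nat_lit 5) (nat_lit 6) (nat_lit 4) (nat_lit 4) (nat_lit 4) (nat_lit 351) (nat_lit 313) (nat_lit 236))))) (XT.nd (nat_lit 312) (nat_lit 76) (nat_lit 0) (XT.nd (nat_lit 156) (nat_lit 76) (nat_lit 0) (XT.nd (nat_lit 78) (nat_lit 0) (nat_lit 0) (XT.lf (nat_lit 0) (nat_lit 415912397089) (nat_lit 152) (nat_lit 444722780398) (nat_lit 0) (nat_lit 350362214485) (nat_lit 4) (nat_lit 5) (nat_lit 6) (nat_lit 4) (nat_lit 4) (nat_lit 4) (nat_lit 352) (nat_lit 313) (nat_lit 235)) (XT.lf (nat_lit 0) (nat_lit 648759015746) (nat_lit 152) (nat_lit 146244662810) (nat_lit 0) (nat_lit 583208675546) (nat_lit 4) (nat_lit 5) (nat_lit 6) (nat_lit 4) (nat_lit 4) (nat_lit 4) (nat_lit 353) (nat_lit 313) (nat_lit 234))) (XT.nd (nat_lit 78) (nat_lit 0) (nat_lit 0) (XT.lf (nat_lit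 0) (nat_lit 207377387886) (nat_lit 76) (nat_lit 714141860145) (nat_lit 76) (nat_lit 648591382906) (nat_lit 3) (nat_lit 4) (nat_lit 4) (nat_lit 5) (nat_lit 4) (nat_lit 4) (nat_lit 354) (nat_lit 313) (nat_lit 233)) (XT.lf (nat_lit 0) (nat_lit 622897376258) (nat_lit 76) (nat_lit 616553154134) (nat_lit 76) (nat_lit 551002557730) (nat_lit 3) (nat_lit 4) (nat_lit 4) (nat_lit 5) (nat_lit 4) (nat_lit 4) (nat_lit 355) (nat_lit 313) (nat_lit 232)))) (XT.nd (nat_lit 156) (nat_lit 76) (nat_lit 0) (XT.nd (nat_lit 78) (nat_lit 0) (nat_lit 0) (XT.lf (nat_lit 0) (nat_lit 1100744056433) (nat_lit 76) (nat_lit 504326804525) (nat_lit 76) (nat_lit 438776104499) (nat_lit 3) (nat_lit 4) (nat_lit 4) (nat_lit 5) (nat_lit 4) (nat_lit 4) (nat_lit 356) (nat_lit 313) (nat_lit 231)) (XT.lf (nat_lit 0) (nat_lit 1650266602587) (nat_lit 76) (nat_lit 375267078389) (nat_lit 76) (nat_lit 309716288258) (nat_lit 3) (nat_lit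 4) (nat_lit 4) (nat_lit 5) (nat_lit 4) (nat_lit 4) (nat_lit 357) (nat_lit 313) (nat_lit 230))) (XT.nd (nat_lit 78) (nat_lit 76) (nat_lit 0) (XT.lf (nat_lit 0) (nat_lit 2282216542798) (nat_lit 76) (nat_lit 226848894129) (nat_lit 76) (nat_lit 161298025645) (nat_lit 3) (nat_lit 4) (nat_lit 4) (nat_lit 5) (nat_lit 4) (nat_lit 4) (nat_lit 358) (nat_lit 313) (nat_lit 229)) (XT.lf (nat_lit 0) (nat_lit 8913167315) (nat_lit 152) (nat_lit 47011548600) (nat_lit 76) (nat_lit 2999801245920) (nat_lit 2) (nat_lit 5) (nat_lit 4) (nat_lit 5) (nat_lit 3) (nat_lit 4) (nat_lit 359) (nat_lit 313) (nat_lit 228)))))) (XT.nd (nat_lit 546) (nat_lit 0) (nat_lit 0) (XT.nd (nat_lit 234) (nat_lit 0) (nat_lit 0) (XT.nd (nat_lit 78) (nat_lit 0) (nat_lit 0) (XT.lf (nat_lit 0) (nat_lit 207727562564) (nat_lit 152) (nat_lit 3142788139379) (nat_lit 0) (nat_lit 147032196024) (nat_lit 1) (nat_lit 5) (nat_lit 3) (nat_lit 4)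 (nat_lit 1) (nat_lit 4) (nat_lit 360) (nat_lit 313) (nat_lit 227)) (XT.nd (nat_lit 78) (nat_lit 0) (nat_lit 0) (XT.lf (nat_lit 0) (nat_lit 439314743489) (nat_lit 152) (nat_lit 3187473001686) (nat_lit 0) (nat_lit 378619329247) (nat_lit 1) (nat_lit 5) (nat_lit 3) (nat_lit 4) (nat_lit 1) (nat_lit 4) (nat_lit 361) (nat_lit 313) (nat_lit 226)) (XT.lf (nat_lit 0) (nat_lit 705639693685) (nat_lit 152) (nat_lit 3238861220345) (nat_lit 0) (nat_lit 644944237963) (nat_lit 1) (nat_lit 5) (nat_lit 3) (nat_lit 4) (nat_lit 1) (nat_lit 4) (nat_lit 362) (nat_lit 313) (nat_lit 225)))) (XT.nd (nat_lit 156) (nat_lit 0) (nat_lit 0) (XT.nd (nat_lit 78) (nat_lit 0) (nat_lit 0) (XT.lf (nat_lit 0) (nat_lit 1011913118698) (nat_lit 152) (nat_lit 3297958217025) (nat_lit 0) (nat_lit 951217626906) (nat_lit 1) (nat_lit 5) (nat_lit 3) (nat_lit 4) (nat_lit 1) (nat_lit 4) (nat_lit 363) (nat_lit 313) (nat_lit 224)) (XT.lf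 (nat_lit 0) (nat_lit 1364127324669) (nat_lit 152) (nat_lit 3365920237313) (nat_lit 0) (nat_lit 1303431801513) (nat_lit 1) (nat_lit 5) (nat_lit 3) (nat_lit 4) (nat_lit 1) (nat_lit 4) (nat_lit 364) (nat_lit 313) (nat_lit 223))) (XT.nd (nat_lit 78) (nat_lit 0) (nat_lit 0) (XT.lf (nat_lit 0) (nat_lit 1769173459107) (nat_lit 152) (nat_lit 3444076972911) (nat_lit 0) (nat_lit 1708477908677) (nat_lit 1) (nat_lit 5) (nat_lit 3) (nat_lit 4) (nat_lit 1) (nat_lit 4) (nat_lit 365) (nat_lit 313) (nat_lit 222)) (XT.lf (nat_lit 0) (nat_lit 2234976337686) (nat_lit 152) (nat_lit 3533957577341) (nat_lit 0) (nat_lit 2174280763539) (nat_lit 1) (nat_lit 5) (nat_lit 3) (nat_lit 4) (nat_lit 1) (nat_lit 4) (nat_lit 366) (nat_lit 313) (nat_lit 221))))) (XT.nd (nat_lit 312) (nat_lit 0) (nat_lit 0) (XT.nd (nat_lit 156) (nat_lit 0) (nat_lit 0) (XT.nd (nat_lit 78) (nat_lit 0) (nat_lit 0) (XT.lf (nat_lit 0) (nat_lit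 2770649494986) (nat_lit 152) (nat_lit 3637320584168) (nat_lit 0) (nat_lit 2709953900216) (nat_lit 1) (nat_lit 5) (nat_lit 3) (nat_lit 4) (nat_lit 1) (nat_lit 4) (nat_lit 367) (nat_lit 313) (nat_lit 220)) (XT.lf (nat_lit 0) (nat_lit 3386673492781) (nat_lit 152) (nat_lit 3756188313092) (nat_lit 0) (nat_lit 3325977880078) (nat_lit 1) (nat_lit 5) (nat_lit 3) (nat_lit 4) (nat_lit 1) (nat_lit 4) (nat_lit 368) (nat_lit 313) (nat_lit 219))) (XT.nd (nat_lit 78) (nat_lit 0) (nat_lit 0) (XT.lf (nat_lit 0) (nat_lit 4095100974506) (nat_lit 152) (nat_lit 3892886437068) (nat_lit 0) (nat_lit 4034405346209) (nat_lit 1) (nat_lit 5) (nat_lit 3) (nat_lit 4) (nat_lit 1) (nat_lit 4) (nat_lit 369) (nat_lit 313) (nat_lit 218)) (XT.lf (nat_lit 0) (nat_lit 4909792477846) (nat_lit 152) (nat_lit 4050089484610) (nat_lit 0) (nat_lit 4849096835990) (nat_lit 1) (nat_lit 5) (nat_lit 3) (nat_lit 4) (nat_lit 1) (nat_lit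 4) (nat_lit 370) (nat_lit 313) (nat_lit 217)))) (XT.nd (nat_lit 156) (nat_lit 0) (nat_lit 0) (XT.nd (nat_lit 78) (nat_lit 0) (nat_lit 0) (XT.lf (nat_lit 0) (nat_lit 5846687619172) (nat_lit 152) (nat_lit 4230873167518) (nat_lit 0) (nat_lit 5785991965525) (nat_lit 1) (nat_lit 5) (nat_lit 3) (nat_lit 4) (nat_lit 1) (nat_lit 4) (nat_lit 371) (nat_lit 313) (nat_lit 216)) (XT.lf (nat_lit 0) (nat_lit 6924116955597) (nat_lit 152) (nat_lit 4438774557848) (nat_lit 0) (nat_lit 6863421291696) (nat_lit 1) (nat_lit 5) (nat_lit 3) (nat_lit 4) (nat_lit 1) (nat_lit 4) (nat_lit 372) (nat_lit 313) (nat_lit 215))) (XT.nd (nat_lit 42276) (nat_lit 0) (nat_lit 4788) (XT.lf (nat_lit 0) (nat_lit 8163160626310) (nat_lit 152) (nat_lit 4677861291498) (nat_lit 0) (nat_lit 8102464953493) (nat_lit 1) (nat_lit 5) (nat_lit 3) (nat_lit 4) (nat_lit 1) (nat_lit 4) (nat_lit 373) (nat_lit 313) (nat_lit 214)) (XT.lf (nat_lit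 0) (nat_lit 12364774625) (nat_lit 532) (nat_lit 1024959503) (nat_lit 532) (nat_lit 1024959503) (nat_lit 64) (nat_lit 3) (nat_lit 71) (nat_lit 3) (nat_lit 71) (nat_lit 5) (nat_lit 314) (nat_lit 314) (nat_lit 272))))))) (XT.nd (nat_lit 1170) (nat_lit 1596) (nat_lit 0) (XT.nd (nat_lit 546) (nat_lit 1444) (nat_lit 0) (XT.nd (nat_lit 234) (nat_lit 760) (nat_lit 0) (XT.nd (nat_lit 78) (nat_lit 380) (nat_lit 0) (XT.lf (nat_lit 76) (nat_lit 25495856353) (nat_lit 0) (nat_lit 1834725891) (nat_lit 532) (nat_lit 3601177782) (nat_lit 65) (nat_lit 5) (nat_lit 64) (nat_lit 3) (nat_lit 71) (nat_lit 5) (nat_lit 315) (nat_lit 314) (nat_lit 271)) (XT.nd (nat_lit 78) (nat_lit 456) (nat_lit 0) (XT.lf (nat_lit 76) (nat_lit 24516304978) (nat_lit 0) (nat_lit 7078321944) (nat_lit 532) (nat_lit 1653055665) (nat_lit 66) (nat_lit 5) (nat_lit 65) (nat_lit 5) (nat_lit 72) (nat_lit 5) (nat_lit 316) (nat_lit 314) (nat_lit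 270)) (XT.lf (nat_lit 0) (nat_lit 1897357737) (nat_lit 532) (nat_lit 11870162314) (nat_lit 608) (nat_lit 22035205491) (nat_lit 59) (nat_lit 5) (nat_lit 66) (nat_lit 5) (nat_lit 67) (nat_lit 5) (nat_lit 317) (nat_lit 314) (nat_lit 269)))) (XT.nd (nat_lit 156) (nat_lit 456) (nat_lit 0) (XT.nd (nat_lit 78) (nat_lit 380) (nat_lit 0) (XT.lf (nat_lit 0) (nat_lit 7323319711) (nat_lit 532) (nat_lit 14819461733) (nat_lit 76) (nat_lit 16479555004) (nat_lit 60) (nat_lit 5) (nat_lit 67) (nat_lit 5) (nat_lit 61) (nat_lit 5) (nat_lit 318) (nat_lit 314) (nat_lit 268)) (XT.lf (nat_lit 0) (nat_lit 15103928886) (nat_lit 456) (nat_lit 17462667230) (nat_lit 76) (nat_lit 9175046293) (nat_lit 55) (nat_lit 5) (nat_lit 61) (nat_lit 5) (nat_lit 56) (nat_lit 5) (nat_lit 319) (nat_lit 314) (nat_lit 267))) (XT.nd (nat_lit 78) (nat_lit 228) (nat_lit 0) (XT.lf (nat_lit 0) (nat_lit 25480478588) (nat_lit 228) (nat_lit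 224072669) (nat_lit 304) (nat_lit 19492071134) (nat_lit 52) (nat_lit 5) (nat_lit 55) (nat_lit 5) (nat_lit 56) (nat_lit 5) (nat_lit 320) (nat_lit 314) (nat_lit 266)) (XT.lf (nat_lit 0) (nat_lit 27238113645) (nat_lit 228) (nat_lit 12709586150) (nat_lit 304) (nat_lit 9057965272) (nat_lit 49) (nat_lit 5) (nat_lit 52) (nat_lit 5) (nat_lit 53) (nat_lit 5) (nat_lit 321) (nat_lit 314) (nat_lit 265))))) (XT.nd (nat_lit 312) (nat_lit 608) (nat_lit 0) (XT.nd (nat_lit 156) (nat_lit 380) (nat_lit 0) (XT.nd (nat_lit 78) (nat_lit 228) (nat_lit 0) (XT.lf (nat_lit 0) (nat_lit 4745558008) (nat_lit 228) (nat_lit 23401182338) (nat_lit 76) (nat_lit 25077558319) (nat_lit 46) (nat_lit 5) (nat_lit 49) (nat_lit 5) (nat_lit 47) (nat_lit 5) (nat_lit 322) (nat_lit 314) (nat_lit 264)) (XT.lf (nat_lit 0) (nat_lit 22173358925) (nat_lit 304) (nat_lit 24703031689) (nat_lit 76) (nat_lit 11013315629) (nat_lit 43) (nat_lit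 5) (nat_lit 47) (nat_lit 5) (nat_lit 44) (nat_lit 5) (nat_lit 323) (nat_lit 314) (nat_lit 263))) (XT.nd (nat_lit 78) (nat_lit 228) (nat_lit 0) (XT.lf (nat_lit 0) (nat_lit 37547574599) (nat_lit 152) (nat_lit 7038207543) (nat_lit 228) (nat_lit 18479512928) (nat_lit 41) (nat_lit 5) (nat_lit 43) (nat_lit 5) (nat_lit 44) (nat_lit 5) (nat_lit 324) (nat_lit 314) (nat_lit 262)) (XT.lf (nat_lit 0) (nat_lit 4037471070) (nat_lit 228) (nat_lit 26053117092) (nat_lit 76) (nat_lit 38703111553) (nat_lit 38) (nat_lit 5) (nat_lit 41) (nat_lit 5) (nat_lit 39) (nat_lit 5) (nat_lit 325) (nat_lit 314) (nat_lit 261)))) (XT.nd (nat_lit 156) (nat_lit 304) (nat_lit 0) (XT.nd (nat_lit 78) (nat_lit 152) (nat_lit 0) (XT.lf (nat_lit 0) (nat_lit 31437528415) (nat_lit 228) (nat_lit 26423714136) (nat_lit 76) (nat_lit 17273750387) (nat_lit 36) (nat_lit 5) (nat_lit 39) (nat_lit 5) (nat_lit 37) (nat_lit 5) (nat_lit 326) (nat_lit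 314) (nat_lit 260)) (XT.lf (nat_lit 0) (nat_lit 55829990774) (nat_lit 152) (nat_lit 10063038197) (nat_lit 228) (nat_lit 16298820232) (nat_lit 34) (nat_lit 5) (nat_lit 36) (nat_lit 5) (nat_lit 37) (nat_lit 5) (nat_lit 327) (nat_lit 314) (nat_lit 259))) (XT.nd (nat_lit 78) (nat_lit 152) (nat_lit 0) (XT.lf (nat_lit 0) (nat_lit 17935008441) (nat_lit 152) (nat_lit 26630284630) (nat_lit 76) (nat_lit 45433781813) (nat_lit 32) (nat_lit 5) (nat_lit 34) (nat_lit 5) (nat_lit 33) (nat_lit 5) (nat_lit 328) (nat_lit 314) (nat_lit 258)) (XT.lf (nat_lit 0) (nat_lit 59469985136) (nat_lit 228) (nat_lit 26943316828) (nat_lit 76) (nat_lit 12279725792) (nat_lit 30) (nat_lit 5) (nat_lit 33) (nat_lit 5) (nat_lit 31) (nat_lit 4) (nat_lit 329) (nat_lit 314) (nat_lit 257)))))) (XT.nd (nat_lit 624) (nat_lit 684) (nat_lit 0) (XT.nd (nat_lit 312) (nat_lit 380) (nat_lit 0) (XT.nd (nat_lit 156) (nat_lit 228) (nat_lit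 0) (XT.nd (nat_lit 78) (nat_lit 152) (nat_lit 0) (XT.lf (nat_lit 0) (nat_lit 2681231368) (nat_lit 152) (nat_lit 27800850941) (nat_lit 76) (nat_lit 77886653029) (nat_lit 28) (nat_lit 5) (nat_lit 30) (nat_lit 5) (nat_lit 29) (nat_lit 5) (nat_lit 330) (nat_lit 314) (nat_lit 256)) (XT.lf (nat_lit 0) (nat_lit 52492004369) (nat_lit 228) (nat_lit 30310736620) (nat_lit 76) (nat_lit 36296093539) (nat_lit 26) (nat_lit 5) (nat_lit 29) (nat_lit 5) (nat_lit 27) (nat_lit 4) (nat_lit 331) (nat_lit 314) (nat_lit 255))) (XT.nd (nat_lit 78) (nat_lit 152) (nat_lit 0) (XT.lf (nat_lit 0) (nat_lit 97162283007) (nat_lit 76) (nat_lit 16617122188) (nat_lit 152) (nat_lit 17338644082) (nat_lit 25) (nat_lit 5) (nat_lit 26) (nat_lit 5) (nat_lit 27) (nat_lit 4) (nat_lit 332) (nat_lit 314) (nat_lit 254)) (XT.lf (nat_lit 0) (nat_lit 42323004153) (nat_lit 152) (nat_lit 41137624677) (nat_lit 76) (nat_lit 61006253938) (nat_lit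 23) (nat_lit 5) (nat_lit 25) (nat_lit 5) (nat_lit 24) (nat_lit 4) (nat_lit 333) (nat_lit 314) (nat_lit 253)))) (XT.nd (nat_lit 156) (nat_lit 152) (nat_lit 0) (XT.nd (nat_lit 78) (nat_lit 152) (nat_lit 0) (XT.lf (nat_lit 0) (nat_lit 107951388481) (nat_lit 76) (nat_lit 6050632815) (nat_lit 152) (nat_lit 45452411747) (nat_lit 22) (nat_lit 5) (nat_lit 23) (nat_lit 5) (nat_lit 24) (nat_lit 4) (nat_lit 334) (nat_lit 314) (nat_lit 252)) (XT.lf (nat_lit 0) (nat_lit 24741084569) (nat_lit 152) (nat_lit 68145694406) (nat_lit 76) (nat_lit 83286478826) (nat_lit 20) (nat_lit 5) (nat_lit 22) (nat_lit 5) (nat_lit 21) (nat_lit 4) (nat_lit 335) (nat_lit 314) (nat_lit 251))) (XT.nd (nat_lit 78) (nat_lit 76) (nat_lit 0) (XT.lf (nat_lit 0) (nat_lit 103008813177) (nat_lit 76) (nat_lit 4019217439) (nat_lit 152) (nat_lit 87936972666) (nat_lit 19) (nat_lit 5) (nat_lit 20) (nat_lit 5) (nat_lit 21) (nat_lit 4) (nat_lit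 336) (nat_lit 314) (nat_lit 250)) (XT.lf (nat_lit 0) (nat_lit 89609320517) (nat_lit 76) (nat_lit 118596874550) (nat_lit 76) (nat_lit 7845462091) (nat_lit 18) (nat_lit 4) (nat_lit 19) (nat_lit 5) (nat_lit 19) (nat_lit 4) (nat_lit 337) (nat_lit 314) (nat_lit 249))))) (XT.nd (nat_lit 312) (nat_lit 304) (nat_lit 0) (XT.nd (nat_lit 156) (nat_lit 152) (nat_lit 0) (XT.nd (nat_lit 78) (nat_lit 76) (nat_lit 0) (XT.lf (nat_lit 0) (nat_lit 64925221013) (nat_lit 76) (nat_lit 19535486639) (nat_lit 152) (nat_lit 155325210232) (nat_lit 16) (nat_lit 5) (nat_lit 17) (nat_lit 5) (nat_lit 18) (nat_lit 4) (nat_lit 338) (nat_lit 314) (nat_lit 248)) (XT.lf (nat_lit 0) (nat_lit 24506200846) (nat_lit 76) (nat_lit 172288279115) (nat_lit 76) (nat_lit 69737838706) (nat_lit 15) (nat_lit 4) (nat_lit 16) (nat_lit 5) (nat_lit 16) (nat_lit 4) (nat_lit 339) (nat_lit 314) (nat_lit 247))) (XT.nd (nat_lit 78) (nat_lit 76)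 (nat_lit 0) (XT.lf (nat_lit 0) (nat_lit 33013004684) (nat_lit 152) (nat_lit 33884537794) (nat_lit 76) (nat_lit 229877107368) (nat_lit 14) (nat_lit 5) (nat_lit 16) (nat_lit 5) (nat_lit 15) (nat_lit 4) (nat_lit 340) (nat_lit 314) (nat_lit 246)) (XT.lf (nat_lit 0) (nat_lit 153804898267) (nat_lit 152) (nat_lit 118214107421) (nat_lit 0) (nat_lit 58848801004) (nat_lit 13) (nat_lit 5) (nat_lit 15) (nat_lit 4) (nat_lit 13) (nat_lit 4) (nat_lit 341) (nat_lit 314) (nat_lit 245)))) (XT.nd (nat_lit 156) (nat_lit 76) (nat_lit 0) (XT.nd (nat_lit 78) (nat_lit 152) (nat_lit 0) (XT.lf (nat_lit 0) (nat_lit 133001248348) (nat_lit 76) (nat_lit 165772949820) (nat_lit 76) (nat_lit 70816049413) (nat_lit 12) (nat_lit 4) (nat_lit 13) (nat_lit 5) (nat_lit 13) (nat_lit 4) (nat_lit 342) (nat_lit 314) (nat_lit 244)) (XT.lf (nat_lit 0) (nat_lit 14613630557) (nat_lit 76) (nat_lit 38064845091) (nat_lit 152) (nat_lit 361033326209)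 (nat_lit 10) (nat_lit 5) (nat_lit 11) (nat_lit 5) (nat_lit 12) (nat_lit 4) (nat_lit 343) (nat_lit 314) (nat_lit 243))) (XT.nd (nat_lit 78) (nat_lit 76) (nat_lit 0) (XT.lf (nat_lit 0) (nat_lit 200304755405) (nat_lit 152) (nat_lit 150835139232) (nat_lit 0) (nat_lit 112380490511) (nat_lit 10) (nat_lit 5) (nat_lit 12) (nat_lit 4) (nat_lit 10) (nat_lit 4) (nat_lit 344) (nat_lit 314) (nat_lit 242)) (XT.lf (nat_lit 0) (nat_lit 140646610138) (nat_lit 76) (nat_lit 233861860187) (nat_lit 76) (nat_lit 145937106329) (nat_lit 9) (nat_lit 4) (nat_lit 10) (nat_lit 5) (nat_lit 10) (nat_lit 4) (nat_lit 345) (nat_lit 314) (nat_lit 241))))))))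
noncomputable def xc39 : XT := (XT.nd (nat_lit 44694) (nat_lit 0) (nat_lit 456) (XT.nd (nat_lit 1170) (nat_lit 76) (nat_lit 0) (XT.nd (nat_lit 546) (nat_lit 152) (nat_lit 0) (XT.nd (nat_lit 234) (nat_lit 228) (nat_lit 0) (XT.nd (nat_lit 78) (nat_lit 152) (nat_lit 0) (XT.lf (nat_lit 0) (nat_lit 484981379386) (nat_lit 76) (nat_lit 94251084494) (nat_lit 76) (nat_lit 6325905452) (nat_lit 9) (nat_lit 4) (nat_lit 10) (nat_lit 5) (nat_lit 10) (nat_lit 4) (nat_lit 346) (nat_lit 314) (nat_lit 240)) (XT.nd (nat_lit 78) (nat_lit 0) (nat_lit 0) (XT.lf (nat_lit 0) (nat_lit 153832858777) (nat_lit 152) (nat_lit 433302500352) (nat_lit 0) (nat_lit 72420313620) (nat_lit 7) (nat_lit 5) (nat_lit 9) (nat_lit 4) (nat_lit 7) (nat_lit 4) (nat_lit 347) (nat_lit 314) (nat_lit 239)) (XT.lf (nat_lit 0) (nat_lit 343261119163) (nat_lit 152) (nat_lit 139080411907) (nat_lit 0) (nat_lit 261848276320) (nat_lit 7) (nat_lit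 5) (nat_lit 9) (nat_lit 4) (nat_lit 7) (nat_lit 4) (nat_lit 348) (nat_lit 314) (nat_lit 238)))) (XT.nd (nat_lit 156) (nat_lit 152) (nat_lit 0) (XT.nd (nat_lit 78) (nat_lit 0) (nat_lit 0) (XT.lf (nat_lit 0) (nat_lit 209765872875) (nat_lit 76) (nat_lit 356381399427) (nat_lit 76) (nat_lit 274968297726) (nat_lit 6) (nat_lit 4) (nat_lit 7) (nat_lit 5) (nat_lit 7) (nat_lit 4) (nat_lit 349) (nat_lit 314) (nat_lit 237)) (XT.lf (nat_lit 0) (nat_lit 619359139991) (nat_lit 76) (nat_lit 207155269530) (nat_lit 76) (nat_lit 125741942736) (nat_lit 6) (nat_lit 4) (nat_lit 7) (nat_lit 5) (nat_lit 7) (nat_lit 4) (nat_lit 350) (nat_lit 314) (nat_lit 236))) (XT.nd (nat_lit 78) (nat_lit 0) (nat_lit 0) (XT.lf (nat_lit 0) (nat_lit 9703406857) (nat_lit 76) (nat_lit 34102809193) (nat_lit 152) (nat_lit 1036155195255) (nat_lit 4) (nat_lit 5) (nat_lit 5) (nat_lit 5) (nat_lit 6) (nat_lit 4) (nat_lit 351) (nat_lit 314)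 (nat_lit 235)) (XT.lf (nat_lit 0) (nat_lit 245461740141) (nat_lit 152) (nat_lit 809890878440) (nat_lit 0) (nat_lit 170078691316) (nat_lit 4) (nat_lit 5) (nat_lit 6) (nat_lit 4) (nat_lit 4) (nat_lit 4) (nat_lit 352) (nat_lit 314) (nat_lit 234))))) (XT.nd (nat_lit 312) (nat_lit 76) (nat_lit 0) (XT.nd (nat_lit 156) (nat_lit 76) (nat_lit 0) (XT.nd (nat_lit 78) (nat_lit 0) (nat_lit 0) (XT.lf (nat_lit 0) (nat_lit 478307981898) (nat_lit 152) (nat_lit 511413524273) (nat_lit 0) (nat_lit 402924796033) (nat_lit 4) (nat_lit 5) (nat_lit 6) (nat_lit 4) (nat_lit 4) (nat_lit 4) (nat_lit 353) (nat_lit 314) (nat_lit 233)) (XT.lf (nat_lit 0) (nat_lit 746080455278) (nat_lit 152) (nat_lit 168165994245) (nat_lit 0) (nat_lit 670697150248) (nat_lit 4) (nat_lit 5) (nat_lit 6) (nat_lit 4) (nat_lit 4) (nat_lit 4) (nat_lit 354) (nat_lit 314) (nat_lit 232))) (XT.nd (nat_lit 78) (nat_lit 0) (nat_lit 0) (XT.lf (nat_lit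 0) (nat_lit 238498063232) (nat_lit 76) (nat_lit 821256007859) (nat_lit 76) (nat_lit 745872599208) (nat_lit 3) (nat_lit 4) (nat_lit 4) (nat_lit 5) (nat_lit 4) (nat_lit 4) (nat_lit 355) (nat_lit 314) (nat_lit 231)) (XT.lf (nat_lit 0) (nat_lit 716344215013) (nat_lit 76) (nat_lit 709029926117) (nat_lit 76) (nat_lit 633646427360) (nat_lit 3) (nat_lit 4) (nat_lit 4) (nat_lit 5) (nat_lit 4) (nat_lit 4) (nat_lit 356) (nat_lit 314) (nat_lit 230)))) (XT.nd (nat_lit 156) (nat_lit 76) (nat_lit 0) (XT.nd (nat_lit 78) (nat_lit 0) (nat_lit 0) (XT.lf (nat_lit 0) (nat_lit 1265866301694) (nat_lit 76) (nat_lit 579970432910) (nat_lit 76) (nat_lit 504586855800) (nat_lit 3) (nat_lit 4) (nat_lit 4) (nat_lit 5) (nat_lit 4) (nat_lit 4) (nat_lit 357) (nat_lit 314) (nat_lit 229)) (XT.lf (nat_lit 0) (nat_lit 1897815842363) (nat_lit 76) (nat_lit 431552451196) (nat_lit 76) (nat_lit 356168805954) (nat_lit 3) (nat_lit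 4) (nat_lit 4) (nat_lit 5) (nat_lit 4) (nat_lit 4) (nat_lit 358) (nat_lit 314) (nat_lit 228))) (XT.nd (nat_lit 78) (nat_lit 76) (nat_lit 0) (XT.lf (nat_lit 0) (nat_lit 2624557067164) (nat_lit 76) (nat_lit 260872150900) (nat_lit 76) (nat_lit 185488446412) (nat_lit 3) (nat_lit 4) (nat_lit 4) (nat_lit 5) (nat_lit 4) (nat_lit 4) (nat_lit 359) (nat_lit 314) (nat_lit 227)) (XT.lf (nat_lit 0) (nat_lit 10253680520) (nat_lit 152) (nat_lit 54056100524) (nat_lit 76) (nat_lit 3449774791829) (nat_lit 2) (nat_lit 5) (nat_lit 4) (nat_lit 5) (nat_lit 3) (nat_lit 4) (nat_lit 360) (nat_lit 314) (nat_lit 226)))))) (XT.nd (nat_lit 624) (nat_lit 0) (nat_lit 0) (XT.nd (nat_lit 312) (nat_lit 0) (nat_lit 0) (XT.nd (nat_lit 156) (nat_lit 0) (nat_lit 0) (XT.nd (nat_lit 78) (nat_lit 0) (nat_lit 0) (XT.lf (nat_lit 0) (nat_lit 238890011911) (nat_lit 152) (nat_lit 3614199609039) (nat_lit 0) (nat_lit 169090196350) (nat_lit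 1) (nat_lit 5) (nat_lit 3) (nat_lit 4) (nat_lit 1) (nat_lit 4) (nat_lit 361) (nat_lit 314) (nat_lit 225)) (XT.lf (nat_lit 0) (nat_lit 505214837589) (nat_lit 152) (nat_lit 3665588081289) (nat_lit 0) (nat_lit 435414985959) (nat_lit 1) (nat_lit 5) (nat_lit 3) (nat_lit 4) (nat_lit 1) (nat_lit 4) (nat_lit 362) (nat_lit 314) (nat_lit 224))) (XT.nd (nat_lit 78) (nat_lit 0) (nat_lit 0) (XT.lf (nat_lit 0) (nat_lit 811488154326) (nat_lit 152) (nat_lit 3724685298484) (nat_lit 0) (nat_lit 741688271331) (nat_lit 1) (nat_lit 5) (nat_lit 3) (nat_lit 4) (nat_lit 1) (nat_lit 4) (nat_lit 363) (nat_lit 314) (nat_lit 223)) (XT.lf (nat_lit 0) (nat_lit 1163702266144) (nat_lit 152) (nat_lit 3792647510524) (nat_lit 0) (nat_lit 1093902355875) (nat_lit 1) (nat_lit 5) (nat_lit 3) (nat_lit 4) (nat_lit 1) (nat_lit 4) (nat_lit 364) (nat_lit 314) (nat_lit 222)))) (XT.nd (nat_lit 156) (nat_lit 0) (nat_lit 0) (XT.nd (nat_lit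 78) (nat_lit 0) (nat_lit 0) (XT.lf (nat_lit 0) (nat_lit 1568748318710) (nat_lit 152) (nat_lit 3870804412862) (nat_lit 0) (nat_lit 1498948384725) (nat_lit 1) (nat_lit 5) (nat_lit 3) (nat_lit 4) (nat_lit 1) (nat_lit 4) (nat_lit 365) (nat_lit 314) (nat_lit 221)) (XT.lf (nat_lit 0) (nat_lit 2034551126096) (nat_lit 152) (nat_lit 3960685162285) (nat_lit 0) (nat_lit 1964751171488) (nat_lit 1) (nat_lit 5) (nat_lit 3) (nat_lit 4) (nat_lit 1) (nat_lit 4) (nat_lit 366) (nat_lit 314) (nat_lit 220))) (XT.nd (nat_lit 78) (nat_lit 0) (nat_lit 0) (XT.lf (nat_lit 0) (nat_lit 2570224221489) (nat_lit 152) (nat_lit 4064048295192) (nat_lit 0) (nat_lit 2500424248948) (nat_lit 1) (nat_lit 5) (nat_lit 3) (nat_lit 4) (nat_lit 1) (nat_lit 4) (nat_lit 367) (nat_lit 314) (nat_lit 219)) (XT.lf (nat_lit 0) (nat_lit 3186248165451) (nat_lit 152) (nat_lit 4182916133750) (nat_lit 0) (nat_lit 3116448177316) (nat_lit 1) (nat_lit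 5) (nat_lit 3) (nat_lit 4) (nat_lit 1) (nat_lit 4) (nat_lit 368) (nat_lit 314) (nat_lit 218))))) (XT.nd (nat_lit 312) (nat_lit 0) (nat_lit 0) (XT.nd (nat_lit 156) (nat_lit 0) (nat_lit 0) (XT.nd (nat_lit 78) (nat_lit 0) (nat_lit 0) (XT.lf (nat_lit 0) (nat_lit 3894675600365) (nat_lit 152) (nat_lit 4319614353061) (nat_lit 0) (nat_lit 3824875598671) (nat_lit 1) (nat_lit 5) (nat_lit 3) (nat_lit 4) (nat_lit 1) (nat_lit 4) (nat_lit 369) (nat_lit 314) (nat_lit 217)) (XT.lf (nat_lit 0) (nat_lit 4709367063001) (nat_lit 152) (nat_lit 4476817483502) (nat_lit 0) (nat_lit 4639567049515) (nat_lit 1) (nat_lit 5) (nat_lit 3) (nat_lit 4) (nat_lit 1) (nat_lit 4) (nat_lit 370) (nat_lit 314) (nat_lit 216))) (XT.nd (nat_lit 78) (nat_lit 0) (nat_lit 0) (XT.lf (nat_lit 0) (nat_lit 5646262168931) (nat_lit 152) (nat_lit 4657601238497) (nat_lit 0) (nat_lit 5576462145192) (nat_lit 1) (nat_lit 5) (nat_lit 3) (nat_lit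 4) (nat_lit 1) (nat_lit 4) (nat_lit 371) (nat_lit 314) (nat_lit 215)) (XT.lf (nat_lit 0) (nat_lit 6723691474577) (nat_lit 152) (nat_lit 4865502691511) (nat_lit 0) (nat_lit 6653891441922) (nat_lit 1) (nat_lit 5) (nat_lit 3) (nat_lit 4) (nat_lit 1) (nat_lit 4) (nat_lit 372) (nat_lit 314) (nat_lit 214)))) (XT.nd (nat_lit 42432) (nat_lit 0) (nat_lit 4788) (XT.nd (nat_lit 42354) (nat_lit 0) (nat_lit 4788) (XT.lf (nat_lit 0) (nat_lit 7962735118526) (nat_lit 152) (nat_lit 5104589479669) (nat_lit 0) (nat_lit 7892935078118) (nat_lit 1) (nat_lit 5) (nat_lit 3) (nat_lit 4) (nat_lit 1) (nat_lit 4) (nat_lit 373) (nat_lit 314) (nat_lit 213)) (XT.lf (nat_lit 0) (nat_lit 14347118583) (nat_lit 532) (nat_lit 1109724074) (nat_lit 532) (nat_lit 1109724074) (nat_lit 64) (nat_lit 3) (nat_lit 71) (nat_lit 3) (nat_lit 71) (nat_lit 5) (nat_lit 315) (nat_lit 315) (nat_lit 270))) (XT.nd (nat_lit 78) (nat_lit 0) (nat_lit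 76) (XT.lf (nat_lit 76) (nat_lit 29446515999) (nat_lit 0) (nat_lit 2208651976) (nat_lit 532) (nat_lit 3898146226) (nat_lit 65) (nat_lit 5) (nat_lit 64) (nat_lit 3) (nat_lit 71) (nat_lit 5) (nat_lit 316) (nat_lit 315) (nat_lit 269)) (XT.lf (nat_lit 76) (nat_lit 28328184491) (nat_lit 0) (nat_lit 8202455902) (nat_lit 532) (nat_lit 1688266456) (nat_lit 66) (nat_lit 5) (nat_lit 65) (nat_lit 5) (nat_lit 72) (nat_lit 5) (nat_lit 317) (nat_lit 315) (nat_lit 268))))))) (XT.nd (nat_lit 1170) (nat_lit 1444) (nat_lit 0) (XT.nd (nat_lit 546) (nat_lit 1292) (nat_lit 0) (XT.nd (nat_lit 234) (nat_lit 912) (nat_lit 0) (XT.nd (nat_lit 78) (nat_lit 304) (nat_lit 0) (XT.lf (nat_lit 0) (nat_lit 2359796347) (nat_lit 532) (nat_lit 13502167304) (nat_lit 608) (nat_lit 25296796928) (nat_lit 59) (nat_lit 5) (nat_lit 66) (nat_lit 5) (nat_lit 67) (nat_lit 5) (nat_lit 318) (nat_lit 315) (nat_lit 267)) (XT.nd (nat_lit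 78) (nat_lit 380) (nat_lit 0) (XT.lf (nat_lit 0) (nat_lit 8579198150) (nat_lit 532) (nat_lit 16893144389) (nat_lit 76) (nat_lit 18930626113) (nat_lit 60) (nat_lit 5) (nat_lit 67) (nat_lit 5) (nat_lit 61) (nat_lit 5) (nat_lit 319) (nat_lit 315) (nat_lit 266)) (XT.lf (nat_lit 0) (nat_lit 17509571173) (nat_lit 456) (nat_lit 19934055680) (nat_lit 76) (nat_lit 10547946530) (nat_lit 55) (nat_lit 5) (nat_lit 61) (nat_lit 5) (nat_lit 56) (nat_lit 5) (nat_lit 320) (nat_lit 315) (nat_lit 265)))) (XT.nd (nat_lit 156) (nat_lit 456) (nat_lit 0) (XT.nd (nat_lit 78) (nat_lit 228) (nat_lit 0) (XT.lf (nat_lit 0) (nat_lit 29438033563) (nat_lit 228) (nat_lit 247243934) (nat_lit 304) (nat_lit 22280738115) (nat_lit 52) (nat_lit 5) (nat_lit 55) (nat_lit 5) (nat_lit 56) (nat_lit 5) (nat_lit 321) (nat_lit 315) (nat_lit 264)) (XT.lf (nat_lit 0) (nat_lit 31456861292) (nat_lit 228) (nat_lit 14595144709) (nat_lit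 304) (nat_lit 10295452681) (nat_lit 49) (nat_lit 5) (nat_lit 52) (nat_lit 5) (nat_lit 53) (nat_lit 5) (nat_lit 322) (nat_lit 315) (nat_lit 263))) (XT.nd (nat_lit 78) (nat_lit 228) (nat_lit 0) (XT.lf (nat_lit 0) (nat_lit 5561162850) (nat_lit 228) (nat_lit 26776227449) (nat_lit 76) (nat_lit 28862183805) (nat_lit 46) (nat_lit 5) (nat_lit 49) (nat_lit 5) (nat_lit 47) (nat_lit 5) (nat_lit 323) (nat_lit 315) (nat_lit 262)) (XT.lf (nat_lit 0) (nat_lit 25593306507) (nat_lit 304) (nat_lit 28278009905) (nat_lit 76) (nat_lit 12694271424) (nat_lit 43) (nat_lit 5) (nat_lit 47) (nat_lit 5) (nat_lit 44) (nat_lit 5) (nat_lit 324) (nat_lit 315) (nat_lit 261))))) (XT.nd (nat_lit 312) (nat_lit 608) (nat_lit 0) (XT.nd (nat_lit 156) (nat_lit 304) (nat_lit 0) (XT.nd (nat_lit 78) (nat_lit 228) (nat_lit 0) (XT.lf (nat_lit 0) (nat_lit 43299143137) (nat_lit 152) (nat_lit 8059068888) (nat_lit 228) (nat_lit 21160061132)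 (nat_lit 41) (nat_lit 5) (nat_lit 43) (nat_lit 5) (nat_lit 44) (nat_lit 5) (nat_lit 325) (nat_lit 315) (nat_lit 260)) (XT.lf (nat_lit 0) (nat_lit 4722157299) (nat_lit 228) (nat_lit 29842085426) (nat_lit 76) (nat_lit 44542145504) (nat_lit 38) (nat_lit 5) (nat_lit 41) (nat_lit 5) (nat_lit 39) (nat_lit 5) (nat_lit 326) (nat_lit 315) (nat_lit 259))) (XT.nd (nat_lit 78) (nat_lit 152) (nat_lit 0) (XT.lf (nat_lit 0) (nat_lit 36225433210) (nat_lit 228) (nat_lit 30273502285) (nat_lit 76) (nat_lit 19900488517) (nat_lit 36) (nat_lit 5) (nat_lit 39) (nat_lit 5) (nat_lit 37) (nat_lit 5) (nat_lit 327) (nat_lit 315) (nat_lit 258)) (XT.lf (nat_lit 0) (nat_lit 64308628386) (nat_lit 152) (nat_lit 11533707766) (nat_lit 228) (nat_lit 18673031054) (nat_lit 34) (nat_lit 5) (nat_lit 36) (nat_lit 5) (nat_lit 37) (nat_lit 5) (nat_lit 328) (nat_lit 315) (nat_lit 257)))) (XT.nd (nat_lit 156) (nat_lit 304) (nat_lit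 0) (XT.nd (nat_lit 78) (nat_lit 152) (nat_lit 0) (XT.lf (nat_lit 0) (nat_lit 20686872080) (nat_lit 152) (nat_lit 30522273349) (nat_lit 76) (nat_lit 52284836616) (nat_lit 32) (nat_lit 5) (nat_lit 34) (nat_lit 5) (nat_lit 33) (nat_lit 5) (nat_lit 329) (nat_lit 315) (nat_lit 256)) (XT.lf (nat_lit 0) (nat_lit 68447231392) (nat_lit 228) (nat_lit 30887367414) (nat_lit 76) (nat_lit 14157821424) (nat_lit 30) (nat_lit 5) (nat_lit 33) (nat_lit 5) (nat_lit 31) (nat_lit 4) (nat_lit 330) (nat_lit 315) (nat_lit 255))) (XT.nd (nat_lit 78) (nat_lit 152) (nat_lit 0) (XT.lf (nat_lit 0) (nat_lit 3136263275) (nat_lit 152) (nat_lit 31878979641) (nat_lit 76) (nat_lit 89604557387) (nat_lit 28) (nat_lit 5) (nat_lit 30) (nat_lit 5) (nat_lit 29) (nat_lit 5) (nat_lit 331) (nat_lit 315) (nat_lit 254)) (XT.lf (nat_lit 0) (nat_lit 60414655794) (nat_lit 228) (nat_lit 34770153190) (nat_lit 76) (nat_lit 41774927392) (nat_lit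 26) (nat_lit 5) (nat_lit 29) (nat_lit 5) (nat_lit 27) (nat_lit 4) (nat_lit 332) (nat_lit 315) (nat_lit 253)))))) (XT.nd (nat_lit 624) (nat_lit 608) (nat_lit 0) (XT.nd (nat_lit 312) (nat_lit 380) (nat_lit 0) (XT.nd (nat_lit 156) (nat_lit 228) (nat_lit 0) (XT.nd (nat_lit 78) (nat_lit 152) (nat_lit 0) (XT.lf (nat_lit 0) (nat_lit 111816438850) (nat_lit 76) (nat_lit 19074275568) (nat_lit 152) (nat_lit 19891477097) (nat_lit 25) (nat_lit 5) (nat_lit 26) (nat_lit 5) (nat_lit 27) (nat_lit 4) (nat_lit 333) (nat_lit 315) (nat_lit 252)) (XT.lf (nat_lit 0) (nat_lit 48713699708) (nat_lit 152) (nat_lit 47230491813) (nat_lit 76) (nat_lit 70189333377) (nat_lit 23) (nat_lit 5) (nat_lit 25) (nat_lit 5) (nat_lit 24) (nat_lit 4) (nat_lit 334) (nat_lit 315) (nat_lit 251))) (XT.nd (nat_lit 78) (nat_lit 152) (nat_lit 0) (XT.lf (nat_lit 0) (nat_lit 124215289919) (nat_lit 76) (nat_lit 6925481491) (nat_lit 152) (nat_lit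 52228741539) (nat_lit 22) (nat_lit 5) (nat_lit 23) (nat_lit 5) (nat_lit 24) (nat_lit 4) (nat_lit 335) (nat_lit 315) (nat_lit 250)) (XT.lf (nat_lit 0) (nat_lit 28488917886) (nat_lit 152) (nat_lit 78298340021) (nat_lit 76) (nat_lit 95809047429) (nat_lit 20) (nat_lit 5) (nat_lit 22) (nat_lit 5) (nat_lit 21) (nat_lit 4) (nat_lit 336) (nat_lit 315) (nat_lit 249)))) (XT.nd (nat_lit 156) (nat_lit 228) (nat_lit 0) (XT.nd (nat_lit 78) (nat_lit 76) (nat_lit 0) (XT.lf (nat_lit 0) (nat_lit 118523485540) (nat_lit 76) (nat_lit 4592160751) (nat_lit 152) (nat_lit 101091428087) (nat_lit 19) (nat_lit 5) (nat_lit 20) (nat_lit 5) (nat_lit 21) (nat_lit 4) (nat_lit 337) (nat_lit 315) (nat_lit 248)) (XT.lf (nat_lit 0) (nat_lit 103110500192) (nat_lit 76) (nat_lit 136357741122) (nat_lit 76) (nat_lit 8988669398) (nat_lit 18) (nat_lit 4) (nat_lit 19) (nat_lit 5) (nat_lit 19) (nat_lit 4) (nat_lit 338) (nat_lit 315)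 (nat_lit 247))) (XT.nd (nat_lit 78) (nat_lit 76) (nat_lit 0) (XT.lf (nat_lit 0) (nat_lit 74720269430) (nat_lit 76) (nat_lit 22438663288) (nat_lit 152) (nat_lit 178592538778) (nat_lit 16) (nat_lit 5) (nat_lit 17) (nat_lit 5) (nat_lit 18) (nat_lit 4) (nat_lit 339) (nat_lit 315) (nat_lit 246)) (XT.lf (nat_lit 0) (nat_lit 28235172559) (nat_lit 76) (nat_lit 198105643559) (nat_lit 76) (nat_lit 80169173253) (nat_lit 15) (nat_lit 4) (nat_lit 16) (nat_lit 5) (nat_lit 16) (nat_lit 4) (nat_lit 340) (nat_lit 315) (nat_lit 245))))) (XT.nd (nat_lit 312) (nat_lit 228) (nat_lit 0) (XT.nd (nat_lit 156) (nat_lit 228) (nat_lit 0) (XT.nd (nat_lit 78) (nat_lit 76) (nat_lit 0) (XT.lf (nat_lit 0) (nat_lit 37989193205) (nat_lit 152) (nat_lit 38919815834) (nat_lit 76) (nat_lit 264379896069) (nat_lit 14) (nat_lit 5) (nat_lit 16) (nat_lit 5) (nat_lit 15) (nat_lit 4) (nat_lit 341) (nat_lit 315) (nat_lit 244)) (XT.lf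 (nat_lit 0) (nat_lit 176898264459) (nat_lit 152) (nat_lit 135901572487) (nat_lit 0) (nat_lit 67696327460) (nat_lit 13) (nat_lit 5) (nat_lit 15) (nat_lit 4) (nat_lit 13) (nat_lit 4) (nat_lit 342) (nat_lit 315) (nat_lit 243))) (XT.nd (nat_lit 78) (nat_lit 152) (nat_lit 0) (XT.lf (nat_lit 0) (nat_lit 152992307158) (nat_lit 76) (nat_lit 190618683219) (nat_lit 76) (nat_lit 81416138928) (nat_lit 12) (nat_lit 4) (nat_lit 13) (nat_lit 5) (nat_lit 13) (nat_lit 4) (nat_lit 343) (nat_lit 315) (nat_lit 242)) (XT.lf (nat_lit 0) (nat_lit 16844111102) (nat_lit 76) (nat_lit 43755496337) (nat_lit 152) (nat_lit 415167413921) (nat_lit 10) (nat_lit 5) (nat_lit 11) (nat_lit 5) (nat_lit 12) (nat_lit 4) (nat_lit 344) (nat_lit 315) (nat_lit 241)))) (XT.nd (nat_lit 156) (nat_lit 152) (nat_lit 0) (XT.nd (nat_lit 78) (nat_lit 76) (nat_lit 0) (XT.lf (nat_lit 0) (nat_lit 230367702810) (nat_lit 152) (nat_lit 173426037967)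 (nat_lit 0) (nat_lit 129253321726) (nat_lit 10) (nat_lit 5) (nat_lit 12) (nat_lit 4) (nat_lit 10) (nat_lit 4) (nat_lit 345) (nat_lit 315) (nat_lit 240)) (XT.lf (nat_lit 0) (nat_lit 161775064377) (nat_lit 76) (nat_lit 268925419345) (nat_lit 76) (nat_lit 167810668534) (nat_lit 9) (nat_lit 4) (nat_lit 10) (nat_lit 5) (nat_lit 10) (nat_lit 4) (nat_lit 346) (nat_lit 315) (nat_lit 239))) (XT.nd (nat_lit 78) (nat_lit 152) (nat_lit 0) (XT.lf (nat_lit 0) (nat_lit 557755945180) (nat_lit 76) (nat_lit 108375077717) (nat_lit 76) (nat_lit 7260005404) (nat_lit 9) (nat_lit 4) (nat_lit 10) (nat_lit 5) (nat_lit 10) (nat_lit 4) (nat_lit 347) (nat_lit 315) (nat_lit 238)) (XT.lf (nat_lit 0) (nat_lit 176920930259) (nat_lit 152) (nat_lit 498271436514) (nat_lit 0) (nat_lit 83295604446) (nat_lit 7) (nat_lit 5) (nat_lit 9) (nat_lit 4) (nat_lit 7) (nat_lit 4) (nat_lit 348) (nat_lit 315) (nat_lit 237))))))))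
noncomputable def xc40 : XT := (XT.nd (nat_lit 44694) (nat_lit 0) (nat_lit 380) (XT.nd (nat_lit 1170) (nat_lit 0) (nat_lit 0) (XT.nd (nat_lit 546) (nat_lit 228) (nat_lit 0) (XT.nd (nat_lit 234) (nat_lit 152) (nat_lit 0) (XT.nd (nat_lit 78) (nat_lit 76) (nat_lit 0) (XT.lf (nat_lit 0) (nat_lit 394761715443) (nat_lit 152) (nat_lit 159919483353) (nat_lit 0) (nat_lit 301136164536) (nat_lit 7) (nat_lit 5) (nat_lit 9) (nat_lit 4) (nat_lit 7) (nat_lit 4) (nat_lit 349) (nat_lit 315) (nat_lit 236)) (XT.nd (nat_lit 78) (nat_lit 0) (nat_lit 0) (XT.lf (nat_lit 0) (nat_lit 241251798128) (nat_lit 76) (nat_lit 409828008879) (nat_lit 76) (nat_lit 316202262239) (nat_lit 6) (nat_lit 4) (nat_lit 7) (nat_lit 5) (nat_lit 7) (nat_lit 4) (nat_lit 350) (nat_lit 315) (nat_lit 235)) (XT.lf (nat_lit 0) (nat_lit 712281310400) (nat_lit 76) (nat_lit 238219342167) (nat_lit 76) (nat_lit 144593425323) (nat_lit 6) (nat_lit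 4) (nat_lit 7) (nat_lit 5) (nat_lit 7) (nat_lit 4) (nat_lit 351) (nat_lit 315) (nat_lit 234)))) (XT.nd (nat_lit 156) (nat_lit 0) (nat_lit 0) (XT.nd (nat_lit 78) (nat_lit 0) (nat_lit 0) (XT.lf (nat_lit 0) (nat_lit 11176118059) (nat_lit 76) (nat_lit 39209546799) (nat_lit 152) (nat_lit 1191569276287) (nat_lit 4) (nat_lit 5) (nat_lit 5) (nat_lit 5) (nat_lit 6) (nat_lit 4) (nat_lit 352) (nat_lit 315) (nat_lit 233)) (XT.lf (nat_lit 0) (nat_lit 282288588332) (nat_lit 152) (nat_lit 931359142219) (nat_lit 0) (nat_lit 195597668383) (nat_lit 4) (nat_lit 5) (nat_lit 6) (nat_lit 4) (nat_lit 4) (nat_lit 4) (nat_lit 353) (nat_lit 315) (nat_lit 232))) (XT.nd (nat_lit 78) (nat_lit 0) (nat_lit 0) (XT.lf (nat_lit 0) (nat_lit 550060776721) (nat_lit 152) (nat_lit 588112189447) (nat_lit 0) (nat_lit 463369753151) (nat_lit 4) (nat_lit 5) (nat_lit 6) (nat_lit 4) (nat_lit 4) (nat_lit 4) (nat_lit 354) (nat_lit 315)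 (nat_lit 231)) (XT.lf (nat_lit 0) (nat_lit 857998260560) (nat_lit 152) (nat_lit 193379272976) (nat_lit 0) (nat_lit 771307146884) (nat_lit 4) (nat_lit 5) (nat_lit 6) (nat_lit 4) (nat_lit 4) (nat_lit 4) (nat_lit 355) (nat_lit 315) (nat_lit 230))))) (XT.nd (nat_lit 312) (nat_lit 152) (nat_lit 0) (XT.nd (nat_lit 156) (nat_lit 0) (nat_lit 0) (XT.nd (nat_lit 78) (nat_lit 0) (nat_lit 0) (XT.lf (nat_lit 0) (nat_lit 274283409513) (nat_lit 76) (nat_lit 944439016744) (nat_lit 76) (nat_lit 857747824715) (nat_lit 3) (nat_lit 4) (nat_lit 4) (nat_lit 5) (nat_lit 4) (nat_lit 4) (nat_lit 356) (nat_lit 315) (nat_lit 229)) (XT.lf (nat_lit 0) (nat_lit 823805096653) (nat_lit 76) (nat_lit 815379726083) (nat_lit 76) (nat_lit 728688465921) (nat_lit 3) (nat_lit 4) (nat_lit 4) (nat_lit 5) (nat_lit 4) (nat_lit 4) (nat_lit 357) (nat_lit 315) (nat_lit 228))) (XT.nd (nat_lit 78) (nat_lit 0) (nat_lit 0) (XT.lf (nat_lit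 0) (nat_lit 1455754289895) (nat_lit 76) (nat_lit 666961920497) (nat_lit 76) (nat_lit 580270601090) (nat_lit 3) (nat_lit 4) (nat_lit 4) (nat_lit 5) (nat_lit 4) (nat_lit 4) (nat_lit 358) (nat_lit 315) (nat_lit 227)) (XT.lf (nat_lit 0) (nat_lit 2182495212584) (nat_lit 76) (nat_lit 496281773355) (nat_lit 76) (nat_lit 409590402429) (nat_lit 3) (nat_lit 4) (nat_lit 4) (nat_lit 5) (nat_lit 4) (nat_lit 4) (nat_lit 359) (nat_lit 315) (nat_lit 226)))) (XT.nd (nat_lit 156) (nat_lit 76) (nat_lit 0) (XT.nd (nat_lit 78) (nat_lit 76) (nat_lit 0) (XT.lf (nat_lit 0) (nat_lit 3018246708861) (nat_lit 76) (nat_lit 299999890474) (nat_lit 76) (nat_lit 213308474749) (nat_lit 3) (nat_lit 4) (nat_lit 4) (nat_lit 5) (nat_lit 4) (nat_lit 4) (nat_lit 360) (nat_lit 315) (nat_lit 225)) (XT.lf (nat_lit 0) (nat_lit 11794407915) (nat_lit 152) (nat_lit 62159086215) (nat_lit 76) (nat_lit 3967243550506) (nat_lit 2) (nat_lit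 5) (nat_lit 4) (nat_lit 5) (nat_lit 3) (nat_lit 4) (nat_lit 361) (nat_lit 315) (nat_lit 224))) (XT.nd (nat_lit 78) (nat_lit 0) (nat_lit 0) (XT.lf (nat_lit 0) (nat_lit 274726020285) (nat_lit 152) (nat_lit 4156324445482) (nat_lit 0) (nat_lit 194456123476) (nat_lit 1) (nat_lit 5) (nat_lit 3) (nat_lit 4) (nat_lit 1) (nat_lit 4) (nat_lit 362) (nat_lit 315) (nat_lit 223)) (XT.lf (nat_lit 0) (nat_lit 580999242869) (nat_lit 152) (nat_lit 4215421854428) (nat_lit 0) (nat_lit 500729318786) (nat_lit 1) (nat_lit 5) (nat_lit 3) (nat_lit 4) (nat_lit 1) (nat_lit 4) (nat_lit 363) (nat_lit 315) (nat_lit 222)))))) (XT.nd (nat_lit 546) (nat_lit 0) (nat_lit 0) (XT.nd (nat_lit 234) (nat_lit 0) (nat_lit 0) (XT.nd (nat_lit 78) (nat_lit 0) (nat_lit 0) (XT.lf (nat_lit 0) (nat_lit 933213272815) (nat_lit 152) (nat_lit 4283384233209) (nat_lit 0) (nat_lit 852943325016) (nat_lit 1) (nat_lit 5) (nat_lit 3) (nat_lit 4)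 (nat_lit 1) (nat_lit 4) (nat_lit 364) (nat_lit 315) (nat_lit 221)) (XT.nd (nat_lit 78) (nat_lit 0) (nat_lit 0) (XT.lf (nat_lit 0) (nat_lit 1338259254188) (nat_lit 152) (nat_lit 4361541280539) (nat_lit 0) (nat_lit 1257989285766) (nat_lit 1) (nat_lit 5) (nat_lit 3) (nat_lit 4) (nat_lit 1) (nat_lit 4) (nat_lit 365) (nat_lit 315) (nat_lit 220)) (XT.lf (nat_lit 0) (nat_lit 1804061999666) (nat_lit 152) (nat_lit 4451422156041) (nat_lit 0) (nat_lit 1723792013311) (nat_lit 1) (nat_lit 5) (nat_lit 3) (nat_lit 4) (nat_lit 1) (nat_lit 4) (nat_lit 366) (nat_lit 315) (nat_lit 219)))) (XT.nd (nat_lit 156) (nat_lit 0) (nat_lit 0) (XT.nd (nat_lit 78) (nat_lit 0) (nat_lit 0) (XT.lf (nat_lit 0) (nat_lit 2339735041227) (nat_lit 152) (nat_lit 4554785398583) (nat_lit 0) (nat_lit 2259465039278) (nat_lit 1) (nat_lit 5) (nat_lit 3) (nat_lit 4) (nat_lit 1) (nat_lit 4) (nat_lit 367) (nat_lit 315) (nat_lit 218)) (XT.lf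 (nat_lit 0) (nat_lit 2955758938379) (nat_lit 152) (nat_lit 4673653332476) (nat_lit 0) (nat_lit 2875488922870) (nat_lit 1) (nat_lit 5) (nat_lit 3) (nat_lit 4) (nat_lit 1) (nat_lit 4) (nat_lit 368) (nat_lit 315) (nat_lit 217))) (XT.nd (nat_lit 78) (nat_lit 0) (nat_lit 0) (XT.lf (nat_lit 0) (nat_lit 3664186332588) (nat_lit 152) (nat_lit 4810351634687) (nat_lit 0) (nat_lit 3583916305288) (nat_lit 1) (nat_lit 5) (nat_lit 3) (nat_lit 4) (nat_lit 1) (nat_lit 4) (nat_lit 369) (nat_lit 315) (nat_lit 216)) (XT.lf (nat_lit 0) (nat_lit 4478877759828) (nat_lit 152) (nat_lit 4967554837215) (nat_lit 0) (nat_lit 4398607722275) (nat_lit 1) (nat_lit 5) (nat_lit 3) (nat_lit 4) (nat_lit 1) (nat_lit 4) (nat_lit 370) (nat_lit 315) (nat_lit 215))))) (XT.nd (nat_lit 42666) (nat_lit 0) (nat_lit 4408) (XT.nd (nat_lit 156) (nat_lit 0) (nat_lit 0) (XT.nd (nat_lit 78) (nat_lit 0) (nat_lit 0) (XT.lf (nat_lit 0) (nat_lit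 5415772834980) (nat_lit 152) (nat_lit 5148338654893) (nat_lit 0) (nat_lit 5335502788511) (nat_lit 1) (nat_lit 5) (nat_lit 3) (nat_lit 4) (nat_lit 1) (nat_lit 4) (nat_lit 371) (nat_lit 315) (nat_lit 214)) (XT.lf (nat_lit 0) (nat_lit 6493202113861) (nat_lit 152) (nat_lit 5356240162415) (nat_lit 0) (nat_lit 6412932059639) (nat_lit 1) (nat_lit 5) (nat_lit 3) (nat_lit 4) (nat_lit 1) (nat_lit 4) (nat_lit 372) (nat_lit 315) (nat_lit 213))) (XT.nd (nat_lit 42432) (nat_lit 0) (nat_lit 4788) (XT.lf (nat_lit 0) (nat_lit 7732245734537) (nat_lit 152) (nat_lit 5595326997971) (nat_lit 0) (nat_lit 7651975673574) (nat_lit 1) (nat_lit 5) (nat_lit 3) (nat_lit 4) (nat_lit 1) (nat_lit 4) (nat_lit 373) (nat_lit 315) (nat_lit 212)) (XT.lf (nat_lit 0) (nat_lit 16595691295) (nat_lit 532) (nat_lit 1224024383) (nat_lit 532) (nat_lit 1224024383) (nat_lit 64) (nat_lit 3) (nat_lit 71) (nat_lit 3) (nat_lit 71) (nat_lit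 5) (nat_lit 316) (nat_lit 316) (nat_lit 268)))) (XT.nd (nat_lit 156) (nat_lit 380) (nat_lit 0) (XT.nd (nat_lit 78) (nat_lit 0) (nat_lit 76) (XT.lf (nat_lit 76) (nat_lit 33958980123) (nat_lit 0) (nat_lit 2614594159) (nat_lit 532) (nat_lit 4298967803) (nat_lit 65) (nat_lit 5) (nat_lit 64) (nat_lit 3) (nat_lit 71) (nat_lit 5) (nat_lit 317) (nat_lit 316) (nat_lit 267)) (XT.lf (nat_lit 76) (nat_lit 32679063407) (nat_lit 0) (nat_lit 9479996814) (nat_lit 532) (nat_lit 1780638704) (nat_lit 66) (nat_lit 5) (nat_lit 65) (nat_lit 5) (nat_lit 72) (nat_lit 5) (nat_lit 318) (nat_lit 316) (nat_lit 266))) (XT.nd (nat_lit 78) (nat_lit 0) (nat_lit 76) (XT.lf (nat_lit 0) (nat_lit 2848234571) (nat_lit 532) (nat_lit 15415190429) (nat_lit 608) (nat_lit 29058281013) (nat_lit 59) (nat_lit 5) (nat_lit 66) (nat_lit 5) (nat_lit 67) (nat_lit 5) (nat_lit 319) (nat_lit 316) (nat_lit 265)) (XT.lf (nat_lit 0) (nat_lit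 9985080128) (nat_lit 532) (nat_lit 19314271735) (nat_lit 76) (nat_lit 21754445254) (nat_lit 60) (nat_lit 5) (nat_lit 67) (nat_lit 5) (nat_lit 61) (nat_lit 5) (nat_lit 320) (nat_lit 316) (nat_lit 264))))))) (XT.nd (nat_lit 1170) (nat_lit 1292) (nat_lit 0) (XT.nd (nat_lit 546) (nat_lit 1140) (nat_lit 0) (XT.nd (nat_lit 234) (nat_lit 836) (nat_lit 0) (XT.nd (nat_lit 78) (nat_lit 456) (nat_lit 0) (XT.lf (nat_lit 0) (nat_lit 20241907003) (nat_lit 456) (nat_lit 22812245972) (nat_lit 76) (nat_lit 12127600356) (nat_lit 55) (nat_lit 5) (nat_lit 61) (nat_lit 5) (nat_lit 56) (nat_lit 5) (nat_lit 321) (nat_lit 316) (nat_lit 263)) (XT.nd (nat_lit 78) (nat_lit 228) (nat_lit 0) (XT.lf (nat_lit 0) (nat_lit 33956183351) (nat_lit 228) (nat_lit 276436660) (nat_lit 304) (nat_lit 25520660787) (nat_lit 52) (nat_lit 5) (nat_lit 55) (nat_lit 5) (nat_lit 56) (nat_lit 5) (nat_lit 322) (nat_lit 316) (nat_lit 262))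 (XT.lf (nat_lit 0) (nat_lit 36275980731) (nat_lit 228) (nat_lit 16768628617) (nat_lit 304) (nat_lit 11748120388) (nat_lit 49) (nat_lit 5) (nat_lit 52) (nat_lit 5) (nat_lit 53) (nat_lit 5) (nat_lit 323) (nat_lit 316) (nat_lit 261)))) (XT.nd (nat_lit 156) (nat_lit 380) (nat_lit 0) (XT.nd (nat_lit 78) (nat_lit 228) (nat_lit 0) (XT.lf (nat_lit 0) (nat_lit 6473803168) (nat_lit 228) (nat_lit 30690482179) (nat_lit 76) (nat_lit 33208896432) (nat_lit 46) (nat_lit 5) (nat_lit 49) (nat_lit 5) (nat_lit 47) (nat_lit 5) (nat_lit 324) (nat_lit 316) (nat_lit 260)) (XT.lf (nat_lit 0) (nat_lit 29503337450) (nat_lit 304) (nat_lit 32421052384) (nat_lit 76) (nat_lit 14620308887) (nat_lit 43) (nat_lit 5) (nat_lit 47) (nat_lit 5) (nat_lit 44) (nat_lit 5) (nat_lit 325) (nat_lit 316) (nat_lit 259))) (XT.nd (nat_lit 78) (nat_lit 228) (nat_lit 0) (XT.lf (nat_lit 0) (nat_lit 49884322621) (nat_lit 152) (nat_lit 9241562654)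 (nat_lit 228) (nat_lit 24264974850) (nat_lit 41) (nat_lit 5) (nat_lit 43) (nat_lit 5) (nat_lit 44) (nat_lit 5) (nat_lit 326) (nat_lit 316) (nat_lit 258)) (XT.lf (nat_lit 0) (nat_lit 5490265822) (nat_lit 228) (nat_lit 34228417726) (nat_lit 76) (nat_lit 51248848969) (nat_lit 38) (nat_lit 5) (nat_lit 41) (nat_lit 5) (nat_lit 39) (nat_lit 5) (nat_lit 327) (nat_lit 316) (nat_lit 257))))) (XT.nd (nat_lit 312) (nat_lit 532) (nat_lit 0) (XT.nd (nat_lit 156) (nat_lit 304) (nat_lit 0) (XT.nd (nat_lit 78) (nat_lit 152) (nat_lit 0) (XT.lf (nat_lit 0) (nat_lit 41713898878) (nat_lit 228) (nat_lit 34728501940) (nat_lit 76) (nat_lit 22912537653) (nat_lit 36) (nat_lit 5) (nat_lit 39) (nat_lit 5) (nat_lit 37) (nat_lit 5) (nat_lit 328) (nat_lit 316) (nat_lit 256)) (XT.lf (nat_lit 0) (nat_lit 74033666685) (nat_lit 152) (nat_lit 13234436021) (nat_lit 228) (nat_lit 21420592735) (nat_lit 34) (nat_lit 5) (nat_lit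 36) (nat_lit 5) (nat_lit 37) (nat_lit 5) (nat_lit 329) (nat_lit 316) (nat_lit 255))) (XT.nd (nat_lit 78) (nat_lit 152) (nat_lit 0) (XT.lf (nat_lit 0) (nat_lit 23836490697) (nat_lit 152) (nat_lit 35023068812) (nat_lit 76) (nat_lit 60154773853) (nat_lit 32) (nat_lit 5) (nat_lit 34) (nat_lit 5) (nat_lit 33) (nat_lit 5) (nat_lit 330) (nat_lit 316) (nat_lit 254)) (XT.lf (nat_lit 0) (nat_lit 78757226109) (nat_lit 228) (nat_lit 35446788640) (nat_lit 76) (nat_lit 16308819223) (nat_lit 30) (nat_lit 5) (nat_lit 33) (nat_lit 5) (nat_lit 31) (nat_lit 4) (nat_lit 331) (nat_lit 316) (nat_lit 253)))) (XT.nd (nat_lit 156) (nat_lit 228) (nat_lit 0) (XT.nd (nat_lit 78) (nat_lit 152) (nat_lit 0) (XT.lf (nat_lit 0) (nat_lit 3646662843) (nat_lit 152) (nat_lit 36591262170) (nat_lit 76) (nat_lit 103071635251) (nat_lit 28) (nat_lit 5) (nat_lit 30) (nat_lit 5) (nat_lit 29) (nat_lit 5) (nat_lit 332) (nat_lit 316)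 (nat_lit 252)) (XT.lf (nat_lit 0) (nat_lit 69513792363) (nat_lit 228) (nat_lit 39919745036) (nat_lit 76) (nat_lit 48067192831) (nat_lit 26) (nat_lit 5) (nat_lit 29) (nat_lit 5) (nat_lit 27) (nat_lit 4) (nat_lit 333) (nat_lit 316) (nat_lit 251))) (XT.nd (nat_lit 78) (nat_lit 152) (nat_lit 0) (XT.lf (nat_lit 0) (nat_lit 128649255067) (nat_lit 76) (nat_lit 21908638115) (nat_lit 152) (nat_lit 22838931291) (nat_lit 25) (nat_lit 5) (nat_lit 26) (nat_lit 5) (nat_lit 27) (nat_lit 4) (nat_lit 334) (nat_lit 316) (nat_lit 250)) (XT.lf (nat_lit 0) (nat_lit 56052697901) (nat_lit 152) (nat_lit 54256255328) (nat_lit 76) (nat_lit 80742036861) (nat_lit 23) (nat_lit 5) (nat_lit 25) (nat_lit 5) (nat_lit 24) (nat_lit 4) (nat_lit 335) (nat_lit 316) (nat_lit 249)))))) (XT.nd (nat_lit 624) (nat_lit 532) (nat_lit 0) (XT.nd (nat_lit 312) (nat_lit 380) (nat_lit 0) (XT.nd (nat_lit 156) (nat_lit 152) (nat_lit 0) (XT.nd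 (nat_lit 78) (nat_lit 152) (nat_lit 0) (XT.lf (nat_lit 0) (nat_lit 142901415670) (nat_lit 76) (nat_lit 7939542848) (nat_lit 152) (nat_lit 60031648633) (nat_lit 22) (nat_lit 5) (nat_lit 23) (nat_lit 5) (nat_lit 24) (nat_lit 4) (nat_lit 336) (nat_lit 316) (nat_lit 248)) (XT.lf (nat_lit 0) (nat_lit 32789983834) (nat_lit 152) (nat_lit 89990759421) (nat_lit 76) (nat_lit 110202783960) (nat_lit 20) (nat_lit 5) (nat_lit 22) (nat_lit 5) (nat_lit 21) (nat_lit 4) (nat_lit 337) (nat_lit 316) (nat_lit 247))) (XT.nd (nat_lit 78) (nat_lit 76) (nat_lit 0) (XT.lf (nat_lit 0) (nat_lit 136349910365) (nat_lit 76) (nat_lit 5258346449) (nat_lit 152) (nat_lit 116227852712) (nat_lit 19) (nat_lit 5) (nat_lit 20) (nat_lit 5) (nat_lit 21) (nat_lit 4) (nat_lit 338) (nat_lit 316) (nat_lit 246)) (XT.lf (nat_lit 0) (nat_lit 118622278697) (nat_lit 76) (nat_lit 156789727728) (nat_lit 76) (nat_lit 10311554302) (nat_lit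 18) (nat_lit 4) (nat_lit 19) (nat_lit 5) (nat_lit 19) (nat_lit 4) (nat_lit 339) (nat_lit 316) (nat_lit 245)))) (XT.nd (nat_lit 156) (nat_lit 152) (nat_lit 0) (XT.nd (nat_lit 78) (nat_lit 76) (nat_lit 0) (XT.lf (nat_lit 0) (nat_lit 85970854469) (nat_lit 76) (nat_lit 25783936242) (nat_lit 152) (nat_lit 205357636617) (nat_lit 16) (nat_lit 5) (nat_lit 17) (nat_lit 5) (nat_lit 18) (nat_lit 4) (nat_lit 340) (nat_lit 316) (nat_lit 244)) (XT.lf (nat_lit 0) (nat_lit 32510555503) (nat_lit 76) (nat_lit 227801923043) (nat_lit 76) (nat_lit 92172363034) (nat_lit 15) (nat_lit 4) (nat_lit 16) (nat_lit 5) (nat_lit 16) (nat_lit 4) (nat_lit 341) (nat_lit 316) (nat_lit 243))) (XT.nd (nat_lit 78) (nat_lit 76) (nat_lit 0) (XT.lf (nat_lit 0) (nat_lit 43705899458) (nat_lit 152) (nat_lit 44721945011) (nat_lit 76) (nat_lit 304052927811) (nat_lit 14) (nat_lit 5) (nat_lit 16) (nat_lit 5) (nat_lit 15) (nat_lit 4) (nat_lit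 342) (nat_lit 316) (nat_lit 242)) (XT.lf (nat_lit 0) (nat_lit 203450116757) (nat_lit 152) (nat_lit 156253045754) (nat_lit 0) (nat_lit 77866055449) (nat_lit 13) (nat_lit 5) (nat_lit 15) (nat_lit 4) (nat_lit 13) (nat_lit 4) (nat_lit 343) (nat_lit 316) (nat_lit 241))))) (XT.nd (nat_lit 312) (nat_lit 228) (nat_lit 0) (XT.nd (nat_lit 156) (nat_lit 76) (nat_lit 0) (XT.nd (nat_lit 78) (nat_lit 152) (nat_lit 0) (XT.lf (nat_lit 0) (nat_lit 175972058002) (nat_lit 76) (nat_lit 219196204739) (nat_lit 76) (nat_lit 93611684232) (nat_lit 12) (nat_lit 4) (nat_lit 13) (nat_lit 5) (nat_lit 13) (nat_lit 4) (nat_lit 344) (nat_lit 316) (nat_lit 240)) (XT.lf (nat_lit 0) (nat_lit 19399790875) (nat_lit 76) (nat_lit 50304396954) (nat_lit 152) (nat_lit 477426714123) (nat_lit 10) (nat_lit 5) (nat_lit 11) (nat_lit 5) (nat_lit 12) (nat_lit 4) (nat_lit 345) (nat_lit 316) (nat_lit 239))) (XT.nd (nat_lit 78) (nat_lit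 76) (nat_lit 0) (XT.lf (nat_lit 0) (nat_lit 264935889683) (nat_lit 152) (nat_lit 199413953379) (nat_lit 0) (nat_lit 148653235023) (nat_lit 10) (nat_lit 5) (nat_lit 12) (nat_lit 4) (nat_lit 10) (nat_lit 4) (nat_lit 346) (nat_lit 316) (nat_lit 238)) (XT.lf (nat_lit 0) (nat_lit 186065114369) (nat_lit 76) (nat_lit 309252345767) (nat_lit 76) (nat_lit 192969411540) (nat_lit 9) (nat_lit 4) (nat_lit 10) (nat_lit 5) (nat_lit 10) (nat_lit 4) (nat_lit 347) (nat_lit 316) (nat_lit 237)))) (XT.nd (nat_lit 156) (nat_lit 76) (nat_lit 0) (XT.nd (nat_lit 78) (nat_lit 152) (nat_lit 0) (XT.lf (nat_lit 0) (nat_lit 641440024205) (nat_lit 76) (nat_lit 124621003305) (nat_lit 76) (nat_lit 8337825977) (nat_lit 9) (nat_lit 4) (nat_lit 10) (nat_lit 5) (nat_lit 10) (nat_lit 4) (nat_lit 348) (nat_lit 316) (nat_lit 236)) (XT.lf (nat_lit 0) (nat_lit 203469007542) (nat_lit 152) (nat_lit 572992160392) (nat_lit 0) (nat_lit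 95799203171) (nat_lit 7) (nat_lit 5) (nat_lit 9) (nat_lit 4) (nat_lit 7) (nat_lit 4) (nat_lit 349) (nat_lit 316) (nat_lit 235))) (XT.nd (nat_lit 78) (nat_lit 76) (nat_lit 0) (XT.lf (nat_lit 0) (nat_lit 453984614276) (nat_lit 152) (nat_lit 183890021856) (nat_lit 0) (nat_lit 346314639702) (nat_lit 7) (nat_lit 5) (nat_lit 9) (nat_lit 4) (nat_lit 7) (nat_lit 4) (nat_lit 350) (nat_lit 316) (nat_lit 234)) (XT.lf (nat_lit 0) (nat_lit 277455480378) (nat_lit 76) (nat_lit 471294194739) (nat_lit 76) (nat_lit 363624072163) (nat_lit 6) (nat_lit 4) (nat_lit 7) (nat_lit 5) (nat_lit 7) (nat_lit 4) (nat_lit 351) (nat_lit 316) (nat_lit 233))))))))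
noncomputable def xc41 : XT := (XT.nd (nat_lit 44850) (nat_lit 0) (nat_lit 228) (XT.nd (nat_lit 1170) (nat_lit 0) (nat_lit 0) (XT.nd (nat_lit 546) (nat_lit 152) (nat_lit 0) (XT.nd (nat_lit 234) (nat_lit 76) (nat_lit 0) (XT.nd (nat_lit 78) (nat_lit 152) (nat_lit 0) (XT.lf (nat_lit 0) (nat_lit 819137343943) (nat_lit 76) (nat_lit 273945273516) (nat_lit 76) (nat_lit 166275022242) (nat_lit 6) (nat_lit 4) (nat_lit 7) (nat_lit 5) (nat_lit 7) (nat_lit 4) (nat_lit 352) (nat_lit 316) (nat_lit 232)) (XT.nd (nat_lit 78) (nat_lit 0) (nat_lit 0) (XT.lf (nat_lit 0) (nat_lit 12865541570) (nat_lit 76) (nat_lit 45084412639) (nat_lit 152) (nat_lit 1370297712527) (nat_lit 4) (nat_lit 5) (nat_lit 5) (nat_lit 5) (nat_lit 6) (nat_lit 4) (nat_lit 353) (nat_lit 316) (nat_lit 231)) (XT.lf (nat_lit 0) (nat_lit 324637613572) (nat_lit 152) (nat_lit 1071051393147) (nat_lit 0) (nat_lit 224942742739) (nat_lit 4) (nat_lit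 5) (nat_lit 6) (nat_lit 4) (nat_lit 4) (nat_lit 4) (nat_lit 354) (nat_lit 316) (nat_lit 230)))) (XT.nd (nat_lit 156) (nat_lit 76) (nat_lit 0) (XT.nd (nat_lit 78) (nat_lit 0) (nat_lit 0) (XT.lf (nat_lit 0) (nat_lit 632574881917) (nat_lit 152) (nat_lit 676318913164) (nat_lit 0) (nat_lit 532879932731) (nat_lit 4) (nat_lit 5) (nat_lit 6) (nat_lit 4) (nat_lit 4) (nat_lit 4) (nat_lit 355) (nat_lit 316) (nat_lit 229)) (XT.lf (nat_lit 0) (nat_lit 986702337633) (nat_lit 152) (nat_lit 222377377226) (nat_lit 0) (nat_lit 887007320314) (nat_lit 4) (nat_lit 5) (nat_lit 6) (nat_lit 4) (nat_lit 4) (nat_lit 4) (nat_lit 356) (nat_lit 316) (nat_lit 228))) (XT.nd (nat_lit 78) (nat_lit 0) (nat_lit 0) (XT.lf (nat_lit 0) (nat_lit 315433963887) (nat_lit 76) (nat_lit 1086100791907) (nat_lit 76) (nat_lit 986405715342) (nat_lit 3) (nat_lit 4) (nat_lit 4) (nat_lit 5) (nat_lit 4) (nat_lit 4) (nat_lit 357) (nat_lit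 316) (nat_lit 227)) (XT.lf (nat_lit 0) (nat_lit 947382855017) (nat_lit 76) (nat_lit 937683139475) (nat_lit 76) (nat_lit 837988011392) (nat_lit 3) (nat_lit 4) (nat_lit 4) (nat_lit 5) (nat_lit 4) (nat_lit 4) (nat_lit 358) (nat_lit 316) (nat_lit 226))))) (XT.nd (nat_lit 312) (nat_lit 76) (nat_lit 0) (XT.nd (nat_lit 156) (nat_lit 76) (nat_lit 0) (XT.nd (nat_lit 78) (nat_lit 0) (nat_lit 0) (XT.lf (nat_lit 0) (nat_lit 1674123515002) (nat_lit 76) (nat_lit 767003125511) (nat_lit 76) (nat_lit 667307952629) (nat_lit 3) (nat_lit 4) (nat_lit 4) (nat_lit 5) (nat_lit 4) (nat_lit 4) (nat_lit 359) (nat_lit 316) (nat_lit 225)) (XT.lf (nat_lit 0) (nat_lit 2509874782839) (nat_lit 76) (nat_lit 570721358436) (nat_lit 76) (nat_lit 471026146599) (nat_lit 3) (nat_lit 4) (nat_lit 4) (nat_lit 5) (nat_lit 4) (nat_lit 4) (nat_lit 360) (nat_lit 316) (nat_lit 224))) (XT.nd (nat_lit 78) (nat_lit 76) (nat_lit 0) (XT.lf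 (nat_lit 0) (nat_lit 3470988313771) (nat_lit 76) (nat_lit 344997542807) (nat_lit 76) (nat_lit 245302297097) (nat_lit 3) (nat_lit 4) (nat_lit 4) (nat_lit 5) (nat_lit 4) (nat_lit 4) (nat_lit 361) (nat_lit 316) (nat_lit 223)) (XT.lf (nat_lit 0) (nat_lit 13565592027) (nat_lit 152) (nat_lit 71478843749) (nat_lit 76) (nat_lit 4562332003613) (nat_lit 2) (nat_lit 5) (nat_lit 4) (nat_lit 5) (nat_lit 3) (nat_lit 4) (nat_lit 362) (nat_lit 316) (nat_lit 222)))) (XT.nd (nat_lit 156) (nat_lit 0) (nat_lit 0) (XT.nd (nat_lit 78) (nat_lit 0) (nat_lit 0) (XT.lf (nat_lit 0) (nat_lit 315936818669) (nat_lit 152) (nat_lit 4779769252257) (nat_lit 0) (nat_lit 223626354983) (nat_lit 1) (nat_lit 5) (nat_lit 3) (nat_lit 4) (nat_lit 1) (nat_lit 4) (nat_lit 363) (nat_lit 316) (nat_lit 221)) (XT.lf (nat_lit 0) (nat_lit 668150777422) (nat_lit 152) (nat_lit 4847731776029) (nat_lit 0) (nat_lit 575840293113) (nat_lit 1)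 (nat_lit 5) (nat_lit 3) (nat_lit 4) (nat_lit 1) (nat_lit 4) (nat_lit 364) (nat_lit 316) (nat_lit 220))) (XT.nd (nat_lit 78) (nat_lit 0) (nat_lit 0) (XT.lf (nat_lit 0) (nat_lit 1073196696887) (nat_lit 152) (nat_lit 4925888949440) (nat_lit 0) (nat_lit 980886194646) (nat_lit 1) (nat_lit 5) (nat_lit 3) (nat_lit 4) (nat_lit 1) (nat_lit 4) (nat_lit 365) (nat_lit 316) (nat_lit 219)) (XT.lf (nat_lit 0) (nat_lit 1538999388533) (nat_lit 152) (nat_lit 5015769934577) (nat_lit 0) (nat_lit 1446688870698) (nat_lit 1) (nat_lit 5) (nat_lit 3) (nat_lit 4) (nat_lit 1) (nat_lit 4) (nat_lit 366) (nat_lit 316) (nat_lit 218)))))) (XT.nd (nat_lit 43056) (nat_lit 0) (nat_lit 3420) (XT.nd (nat_lit 312) (nat_lit 0) (nat_lit 0) (XT.nd (nat_lit 156) (nat_lit 0) (nat_lit 0) (XT.nd (nat_lit 78) (nat_lit 0) (nat_lit 0) (XT.lf (nat_lit 0) (nat_lit 2074672383284) (nat_lit 152) (nat_lit 5119133272453) (nat_lit 0) (nat_lit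 1982361851888) (nat_lit 1) (nat_lit 5) (nat_lit 3) (nat_lit 4) (nat_lit 1) (nat_lit 4) (nat_lit 367) (nat_lit 316) (nat_lit 217)) (XT.lf (nat_lit 0) (nat_lit 2690696239731) (nat_lit 152) (nat_lit 5238001289245) (nat_lit 0) (nat_lit 2598385696544) (nat_lit 1) (nat_lit 5) (nat_lit 3) (nat_lit 4) (nat_lit 1) (nat_lit 4) (nat_lit 368) (nat_lit 316) (nat_lit 216))) (XT.nd (nat_lit 78) (nat_lit 0) (nat_lit 0) (XT.lf (nat_lit 0) (nat_lit 3399123598544) (nat_lit 152) (nat_lit 5374699663542) (nat_lit 0) (nat_lit 3306813045104) (nat_lit 1) (nat_lit 5) (nat_lit 3) (nat_lit 4) (nat_lit 1) (nat_lit 4) (nat_lit 369) (nat_lit 316) (nat_lit 215)) (XT.lf (nat_lit 0) (nat_lit 4213814995005) (nat_lit 152) (nat_lit 5531902928755) (nat_lit 0) (nat_lit 4121504432650) (nat_lit 1) (nat_lit 5) (nat_lit 3) (nat_lit 4) (nat_lit 1) (nat_lit 4) (nat_lit 370) (nat_lit 316) (nat_lit 214)))) (XT.nd (nat_lit 156) (nat_lit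 0) (nat_lit 0) (XT.nd (nat_lit 78) (nat_lit 0) (nat_lit 0) (XT.lf (nat_lit 0) (nat_lit 5150710043393) (nat_lit 152) (nat_lit 5712686800941) (nat_lit 0) (nat_lit 5058399473284) (nat_lit 1) (nat_lit 5) (nat_lit 3) (nat_lit 4) (nat_lit 1) (nat_lit 4) (nat_lit 371) (nat_lit 316) (nat_lit 213)) (XT.lf (nat_lit 0) (nat_lit 6228139299001) (nat_lit 152) (nat_lit 5920588355861) (nat_lit 0) (nat_lit 6135828722151) (nat_lit 1) (nat_lit 5) (nat_lit 3) (nat_lit 4) (nat_lit 1) (nat_lit 4) (nat_lit 372) (nat_lit 316) (nat_lit 212))) (XT.nd (nat_lit 42510) (nat_lit 0) (nat_lit 4788) (XT.lf (nat_lit 0) (nat_lit 7467182899440) (nat_lit 152) (nat_lit 6159675232633) (nat_lit 0) (nat_lit 7374872316727) (nat_lit 1) (nat_lit 5) (nat_lit 3) (nat_lit 4) (nat_lit 1) (nat_lit 4) (nat_lit 373) (nat_lit 316) (nat_lit 211)) (XT.lf (nat_lit 0) (nat_lit 19158016578) (nat_lit 532) (nat_lit 1368188870) (nat_lit 532) (nat_lit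 1368188870) (nat_lit 64) (nat_lit 3) (nat_lit 71) (nat_lit 3) (nat_lit 71) (nat_lit 5) (nat_lit 317) (nat_lit 317) (nat_lit 266))))) (XT.nd (nat_lit 312) (nat_lit 988) (nat_lit 0) (XT.nd (nat_lit 156) (nat_lit 380) (nat_lit 0) (XT.nd (nat_lit 78) (nat_lit 0) (nat_lit 76) (XT.lf (nat_lit 76) (nat_lit 39125028823) (nat_lit 0) (nat_lit 3063225164) (nat_lit 532) (nat_lit 4804757883) (nat_lit 65) (nat_lit 5) (nat_lit 64) (nat_lit 3) (nat_lit 71) (nat_lit 5) (nat_lit 318) (nat_lit 317) (nat_lit 265)) (XT.lf (nat_lit 76) (nat_lit 37657785860) (nat_lit 0) (nat_lit 10937665543) (nat_lit 532) (nat_lit 1926095402) (nat_lit 66) (nat_lit 5) (nat_lit 65) (nat_lit 5) (nat_lit 72) (nat_lit 5) (nat_lit 319) (nat_lit 317) (nat_lit 264))) (XT.nd (nat_lit 78) (nat_lit 0) (nat_lit 76) (XT.lf (nat_lit 0) (nat_lit 3377147466) (nat_lit 532) (nat_lit 17642552570) (nat_lit 608) (nat_lit 33392043617) (nat_lit 59)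 (nat_lit 5) (nat_lit 66) (nat_lit 5) (nat_lit 67) (nat_lit 5) (nat_lit 320) (nat_lit 317) (nat_lit 263)) (XT.lf (nat_lit 0) (nat_lit 11572824948) (nat_lit 532) (nat_lit 22126085982) (nat_lit 76) (nat_lit 25005684045) (nat_lit 60) (nat_lit 5) (nat_lit 67) (nat_lit 5) (nat_lit 61) (nat_lit 5) (nat_lit 321) (nat_lit 317) (nat_lit 262)))) (XT.nd (nat_lit 156) (nat_lit 456) (nat_lit 0) (XT.nd (nat_lit 78) (nat_lit 228) (nat_lit 0) (XT.lf (nat_lit 0) (nat_lit 23358268785) (nat_lit 456) (nat_lit 26149456735) (nat_lit 76) (nat_lit 13944821201) (nat_lit 55) (nat_lit 5) (nat_lit 61) (nat_lit 5) (nat_lit 56) (nat_lit 5) (nat_lit 322) (nat_lit 317) (nat_lit 261)) (XT.lf (nat_lit 0) (nat_lit 39127073806) (nat_lit 228) (nat_lit 311933263) (nat_lit 304) (nat_lit 29271491063) (nat_lit 52) (nat_lit 5) (nat_lit 55) (nat_lit 5) (nat_lit 56) (nat_lit 5) (nat_lit 323) (nat_lit 317) (nat_lit 260))) (XT.nd (nat_lit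 78) (nat_lit 228) (nat_lit 0) (XT.lf (nat_lit 0) (nat_lit 41793438519) (nat_lit 228) (nat_lit 19271985066) (nat_lit 304) (nat_lit 13441037732) (nat_lit 49) (nat_lit 5) (nat_lit 52) (nat_lit 5) (nat_lit 53) (nat_lit 5) (nat_lit 324) (nat_lit 317) (nat_lit 259)) (XT.lf (nat_lit 0) (nat_lit 7504205130) (nat_lit 228) (nat_lit 35216792209) (nat_lit 76) (nat_lit 38203376498) (nat_lit 46) (nat_lit 5) (nat_lit 49) (nat_lit 5) (nat_lit 47) (nat_lit 5) (nat_lit 325) (nat_lit 317) (nat_lit 258))))))) (XT.nd (nat_lit 1170) (nat_lit 1064) (nat_lit 0) (XT.nd (nat_lit 546) (nat_lit 912) (nat_lit 0) (XT.nd (nat_lit 234) (nat_lit 608) (nat_lit 0) (XT.nd (nat_lit 78) (nat_lit 380) (nat_lit 0) (XT.lf (nat_lit 0) (nat_lit 33982550708) (nat_lit 304) (nat_lit 37209609858) (nat_lit 76) (nat_lit 16829912308) (nat_lit 43) (nat_lit 5) (nat_lit 47) (nat_lit 5) (nat_lit 44) (nat_lit 5) (nat_lit 326) (nat_lit 317)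 (nat_lit 257)) (XT.nd (nat_lit 78) (nat_lit 228) (nat_lit 0) (XT.lf (nat_lit 0) (nat_lit 57435256846) (nat_lit 152) (nat_lit 10607860139) (nat_lit 228) (nat_lit 27852474988) (nat_lit 41) (nat_lit 5) (nat_lit 43) (nat_lit 5) (nat_lit 44) (nat_lit 5) (nat_lit 327) (nat_lit 317) (nat_lit 256)) (XT.lf (nat_lit 0) (nat_lit 6359011690) (nat_lit 228) (nat_lit 39294642189) (nat_lit 76) (nat_lit 58955368481) (nat_lit 38) (nat_lit 5) (nat_lit 41) (nat_lit 5) (nat_lit 39) (nat_lit 5) (nat_lit 328) (nat_lit 317) (nat_lit 255)))) (XT.nd (nat_lit 156) (nat_lit 304) (nat_lit 0) (XT.nd (nat_lit 78) (nat_lit 152) (nat_lit 0) (XT.lf (nat_lit 0) (nat_lit 48012307480) (nat_lit 228) (nat_lit 39872729453) (nat_lit 76) (nat_lit 26369815925) (nat_lit 36) (nat_lit 5) (nat_lit 39) (nat_lit 5) (nat_lit 37) (nat_lit 5) (nat_lit 329) (nat_lit 317) (nat_lit 254)) (XT.lf (nat_lit 0) (nat_lit 85198258496) (nat_lit 152)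 (nat_lit 15197425311) (nat_lit 228) (nat_lit 24593308883) (nat_lit 34) (nat_lit 5) (nat_lit 36) (nat_lit 5) (nat_lit 37) (nat_lit 5) (nat_lit 330) (nat_lit 317) (nat_lit 253))) (XT.nd (nat_lit 78) (nat_lit 152) (nat_lit 0) (XT.lf (nat_lit 0) (nat_lit 27447191376) (nat_lit 152) (nat_lit 40217893565) (nat_lit 76) (nat_lit 69198565919) (nat_lit 32) (nat_lit 5) (nat_lit 34) (nat_lit 5) (nat_lit 33) (nat_lit 5) (nat_lit 331) (nat_lit 317) (nat_lit 252)) (XT.lf (nat_lit 0) (nat_lit 90603256157) (nat_lit 228) (nat_lit 40708091332) (nat_lit 76) (nat_lit 18775803419) (nat_lit 30) (nat_lit 5) (nat_lit 33) (nat_lit 5) (nat_lit 31) (nat_lit 4) (nat_lit 332) (nat_lit 317) (nat_lit 251))))) (XT.nd (nat_lit 312) (nat_lit 380) (nat_lit 0) (XT.nd (nat_lit 156) (nat_lit 228) (nat_lit 0) (XT.nd (nat_lit 78) (nat_lit 152) (nat_lit 0) (XT.lf (nat_lit 0) (nat_lit 4223877828) (nat_lit 152) (nat_lit 42027350802)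 (nat_lit 76) (nat_lit 118552338388) (nat_lit 28) (nat_lit 5) (nat_lit 30) (nat_lit 5) (nat_lit 29) (nat_lit 5) (nat_lit 333) (nat_lit 317) (nat_lit 250)) (XT.lf (nat_lit 0) (nat_lit 79968791803) (nat_lit 228) (nat_lit 45857853384) (nat_lit 76) (nat_lit 55296951400) (nat_lit 26) (nat_lit 5) (nat_lit 29) (nat_lit 5) (nat_lit 27) (nat_lit 4) (nat_lit 334) (nat_lit 317) (nat_lit 249))) (XT.nd (nat_lit 78) (nat_lit 152) (nat_lit 0) (XT.lf (nat_lit 0) (nat_lit 147992276893) (nat_lit 76) (nat_lit 25174685221) (nat_lit 152) (nat_lit 26237347642) (nat_lit 25) (nat_lit 5) (nat_lit 26) (nat_lit 5) (nat_lit 27) (nat_lit 4) (nat_lit 335) (nat_lit 317) (nat_lit 248)) (XT.lf (nat_lit 0) (nat_lit 64484756263) (nat_lit 152) (nat_lit 62350224623) (nat_lit 76) (nat_lit 92871719311) (nat_lit 23) (nat_lit 5) (nat_lit 25) (nat_lit 5) (nat_lit 24) (nat_lit 4) (nat_lit 336) (nat_lit 317) (nat_lit 247)))) (XT.nd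 (nat_lit 156) (nat_lit 152) (nat_lit 0) (XT.nd (nat_lit 78) (nat_lit 152) (nat_lit 0) (XT.lf (nat_lit 0) (nat_lit 164377332944) (nat_lit 76) (nat_lit 9111751502) (nat_lit 152) (nat_lit 69012649889) (nat_lit 22) (nat_lit 5) (nat_lit 23) (nat_lit 5) (nat_lit 24) (nat_lit 4) (nat_lit 337) (nat_lit 317) (nat_lit 246)) (XT.lf (nat_lit 0) (nat_lit 37729447961) (nat_lit 152) (nat_lit 103449803123) (nat_lit 76) (nat_lit 126750123609) (nat_lit 20) (nat_lit 5) (nat_lit 22) (nat_lit 5) (nat_lit 21) (nat_lit 4) (nat_lit 338) (nat_lit 317) (nat_lit 245))) (XT.nd (nat_lit 78) (nat_lit 76) (nat_lit 0) (XT.lf (nat_lit 0) (nat_lit 156838617709) (nat_lit 76) (nat_lit 6029980523) (nat_lit 152) (nat_lit 133641395771) (nat_lit 19) (nat_lit 5) (nat_lit 20) (nat_lit 5) (nat_lit 21) (nat_lit 4) (nat_lit 339) (nat_lit 317) (nat_lit 244)) (XT.lf (nat_lit 0) (nat_lit 136449800824) (nat_lit 76) (nat_lit 180291797803)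 (nat_lit 76) (nat_lit 11839069674) (nat_lit 18) (nat_lit 4) (nat_lit 19) (nat_lit 5) (nat_lit 19) (nat_lit 4) (nat_lit 340) (nat_lit 317) (nat_lit 243)))))) (XT.nd (nat_lit 624) (nat_lit 380) (nat_lit 0) (XT.nd (nat_lit 312) (nat_lit 304) (nat_lit 0) (XT.nd (nat_lit 156) (nat_lit 152) (nat_lit 0) (XT.nd (nat_lit 78) (nat_lit 76) (nat_lit 0) (XT.lf (nat_lit 0) (nat_lit 98898652488) (nat_lit 76) (nat_lit 29636005667) (nat_lit 152) (nat_lit 236143298761) (nat_lit 16) (nat_lit 5) (nat_lit 17) (nat_lit 5) (nat_lit 18) (nat_lit 4) (nat_lit 341) (nat_lit 317) (nat_lit 242)) (XT.lf (nat_lit 0) (nat_lit 37417465527) (nat_lit 76) (nat_lit 261957415999) (nat_lit 76) (nat_lit 105981441529) (nat_lit 15) (nat_lit 4) (nat_lit 16) (nat_lit 5) (nat_lit 16) (nat_lit 4) (nat_lit 342) (nat_lit 317) (nat_lit 241))) (XT.nd (nat_lit 78) (nat_lit 76) (nat_lit 0) (XT.lf (nat_lit 0) (nat_lit 50275642428) (nat_lit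 152) (nat_lit 51403134156) (nat_lit 76) (nat_lit 349673001070) (nat_lit 14) (nat_lit 5) (nat_lit 16) (nat_lit 5) (nat_lit 15) (nat_lit 4) (nat_lit 343) (nat_lit 317) (nat_lit 240)) (XT.lf (nat_lit 0) (nat_lit 233980573876) (nat_lit 152) (nat_lit 179665473236) (nat_lit 0) (nat_lit 89557516788) (nat_lit 13) (nat_lit 5) (nat_lit 15) (nat_lit 4) (nat_lit 13) (nat_lit 4) (nat_lit 344) (nat_lit 317) (nat_lit 239)))) (XT.nd (nat_lit 156) (nat_lit 76) (nat_lit 0) (XT.nd (nat_lit 78) (nat_lit 152) (nat_lit 0) (XT.lf (nat_lit 0) (nat_lit 202391235149) (nat_lit 76) (nat_lit 252064080847) (nat_lit 76) (nat_lit 107640676537) (nat_lit 12) (nat_lit 4) (nat_lit 13) (nat_lit 5) (nat_lit 13) (nat_lit 4) (nat_lit 345) (nat_lit 317) (nat_lit 238)) (XT.lf (nat_lit 0) (nat_lit 22331735392) (nat_lit 76) (nat_lit 57839150008) (nat_lit 152) (nat_lit 549028765183) (nat_lit 10) (nat_lit 5) (nat_lit 11) (nat_lit 5)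 (nat_lit 12) (nat_lit 4) (nat_lit 346) (nat_lit 317) (nat_lit 237))) (XT.nd (nat_lit 78) (nat_lit 76) (nat_lit 0) (XT.lf (nat_lit 0) (nat_lit 304686126785) (nat_lit 152) (nat_lit 229306393998) (nat_lit 0) (nat_lit 170960229757) (nat_lit 10) (nat_lit 5) (nat_lit 12) (nat_lit 4) (nat_lit 10) (nat_lit 4) (nat_lit 347) (nat_lit 317) (nat_lit 236)) (XT.lf (nat_lit 0) (nat_lit 213992870436) (nat_lit 76) (nat_lit 355631209745) (nat_lit 76) (nat_lit 221905101325) (nat_lit 9) (nat_lit 4) (nat_lit 10) (nat_lit 5) (nat_lit 10) (nat_lit 4) (nat_lit 348) (nat_lit 317) (nat_lit 235))))) (XT.nd (nat_lit 312) (nat_lit 152) (nat_lit 0) (XT.nd (nat_lit 156) (nat_lit 76) (nat_lit 0) (XT.nd (nat_lit 78) (nat_lit 152) (nat_lit 0) (XT.lf (nat_lit 0) (nat_lit 737671670367) (nat_lit 76) (nat_lit 143306338247) (nat_lit 76) (nat_lit 9580046007) (nat_lit 9) (nat_lit 4) (nat_lit 10) (nat_lit 5) (nat_lit 10) (nat_lit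 4) (nat_lit 349) (nat_lit 317) (nat_lit 234)) (XT.lf (nat_lit 0) (nat_lit 233996873035) (nat_lit 152) (nat_lit 658925867929) (nat_lit 0) (nat_lit 110176084070) (nat_lit 7) (nat_lit 5) (nat_lit 9) (nat_lit 4) (nat_lit 7) (nat_lit 4) (nat_lit 350) (nat_lit 317) (nat_lit 233))) (XT.nd (nat_lit 78) (nat_lit 76) (nat_lit 0) (XT.lf (nat_lit 0) (nat_lit 522088840645) (nat_lit 152) (nat_lit 211460380333) (nat_lit 0) (nat_lit 398267922982) (nat_lit 7) (nat_lit 5) (nat_lit 9) (nat_lit 4) (nat_lit 7) (nat_lit 4) (nat_lit 351) (nat_lit 317) (nat_lit 232)) (XT.lf (nat_lit 0) (nat_lit 319085834594) (nat_lit 76) (nat_lit 541982263102) (nat_lit 76) (nat_lit 418161233527) (nat_lit 6) (nat_lit 4) (nat_lit 7) (nat_lit 5) (nat_lit 7) (nat_lit 4) (nat_lit 352) (nat_lit 317) (nat_lit 231)))) (XT.nd (nat_lit 156) (nat_lit 0) (nat_lit 0) (XT.nd (nat_lit 78) (nat_lit 152) (nat_lit 0) (XT.lf (nat_lit 0) (nat_lit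 942018408282) (nat_lit 76) (nat_lit 315031794241) (nat_lit 76) (nat_lit 191210667352) (nat_lit 6) (nat_lit 4) (nat_lit 7) (nat_lit 5) (nat_lit 7) (nat_lit 4) (nat_lit 353) (nat_lit 317) (nat_lit 230)) (XT.lf (nat_lit 0) (nat_lit 14805207061) (nat_lit 76) (nat_lit 51842109559) (nat_lit 152) (nat_lit 1575837110272) (nat_lit 4) (nat_lit 5) (nat_lit 5) (nat_lit 5) (nat_lit 6) (nat_lit 4) (nat_lit 354) (nat_lit 317) (nat_lit 229))) (XT.nd (nat_lit 78) (nat_lit 0) (nat_lit 0) (XT.lf (nat_lit 0) (nat_lit 373337593597) (nat_lit 152) (nat_lit 1231700315422) (nat_lit 0) (nat_lit 258688255547) (nat_lit 4) (nat_lit 5) (nat_lit 6) (nat_lit 4) (nat_lit 4) (nat_lit 4) (nat_lit 355) (nat_lit 317) (nat_lit 228)) (XT.lf (nat_lit 0) (nat_lit 727464886369) (nat_lit 152) (nat_lit 777759109533) (nat_lit 0) (nat_lit 612815489073) (nat_lit 4) (nat_lit 5) (nat_lit 6) (nat_lit 4) (nat_lit 4) (nat_lit 4) (nat_lit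 356) (nat_lit 317) (nat_lit 227))))))))
noncomputable def xc42 : XT := (XT.nd (nat_lit 44850) (nat_lit 0) (nat_lit 152) (XT.nd (nat_lit 1170) (nat_lit 0) (nat_lit 0) (XT.nd (nat_lit 546) (nat_lit 76) (nat_lit 0) (XT.nd (nat_lit 234) (nat_lit 76) (nat_lit 0) (XT.nd (nat_lit 78) (nat_lit 76) (nat_lit 0) (XT.lf (nat_lit 0) (nat_lit 1134710968421) (nat_lit 152) (nat_lit 255727339806) (nat_lit 0) (nat_lit 1020061519607) (nat_lit 4) (nat_lit 5) (nat_lit 6) (nat_lit 4) (nat_lit 4) (nat_lit 4) (nat_lit 357) (nat_lit 317) (nat_lit 226)) (XT.nd (nat_lit 78) (nat_lit 0) (nat_lit 0) (XT.lf (nat_lit 0) (nat_lit 362755140092) (nat_lit 76) (nat_lit 1249012827631) (nat_lit 76) (nat_lit 1134363334019) (nat_lit 3) (nat_lit 4) (nat_lit 4) (nat_lit 5) (nat_lit 4) (nat_lit 4) (nat_lit 358) (nat_lit 317) (nat_lit 225)) (XT.lf (nat_lit 0) (nat_lit 1089495571638) (nat_lit 76) (nat_lit 1078332929473) (nat_lit 76)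 (nat_lit 963683396906) (nat_lit 3) (nat_lit 4) (nat_lit 4) (nat_lit 5) (nat_lit 4) (nat_lit 4) (nat_lit 359) (nat_lit 317) (nat_lit 224)))) (XT.nd (nat_lit 156) (nat_lit 76) (nat_lit 0) (XT.nd (nat_lit 78) (nat_lit 0) (nat_lit 0) (XT.lf (nat_lit 0) (nat_lit 1925246640833) (nat_lit 76) (nat_lit 882051263100) (nat_lit 76) (nat_lit 767401696658) (nat_lit 3) (nat_lit 4) (nat_lit 4) (nat_lit 5) (nat_lit 4) (nat_lit 4) (nat_lit 360) (nat_lit 317) (nat_lit 223)) (XT.lf (nat_lit 0) (nat_lit 2886359999031) (nat_lit 76) (nat_lit 656327535038) (nat_lit 76) (nat_lit 541677939141) (nat_lit 3) (nat_lit 4) (nat_lit 4) (nat_lit 5) (nat_lit 4) (nat_lit 4) (nat_lit 361) (nat_lit 317) (nat_lit 222))) (XT.nd (nat_lit 78) (nat_lit 76) (nat_lit 0) (XT.lf (nat_lit 0) (nat_lit 3991640038024) (nat_lit 76) (nat_lit 396745411478) (nat_lit 76) (nat_lit 282095789967) (nat_lit 3) (nat_lit 4) (nat_lit 4) (nat_lit 5)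 (nat_lit 4) (nat_lit 4) (nat_lit 362) (nat_lit 317) (nat_lit 221)) (XT.lf (nat_lit 0) (nat_lit 15601960452) (nat_lit 152) (nat_lit 82197566041) (nat_lit 76) (nat_lit 5246683256352) (nat_lit 2) (nat_lit 5) (nat_lit 4) (nat_lit 5) (nat_lit 3) (nat_lit 4) (nat_lit 363) (nat_lit 317) (nat_lit 220))))) (XT.nd (nat_lit 312) (nat_lit 0) (nat_lit 0) (XT.nd (nat_lit 156) (nat_lit 0) (nat_lit 0) (XT.nd (nat_lit 78) (nat_lit 0) (nat_lit 0) (XT.lf (nat_lit 0) (nat_lit 363328774619) (nat_lit 152) (nat_lit 5496731721345) (nat_lit 0) (nat_lit 257171679108) (nat_lit 1) (nat_lit 5) (nat_lit 3) (nat_lit 4) (nat_lit 1) (nat_lit 4) (nat_lit 364) (nat_lit 317) (nat_lit 219)) (XT.lf (nat_lit 0) (nat_lit 768374640252) (nat_lit 152) (nat_lit 5574889004390) (nat_lit 0) (nat_lit 662217529148) (nat_lit 1) (nat_lit 5) (nat_lit 3) (nat_lit 4) (nat_lit 1) (nat_lit 4) (nat_lit 365) (nat_lit 317) (nat_lit 218))) (XT.nd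 (nat_lit 78) (nat_lit 0) (nat_lit 0) (XT.lf (nat_lit 0) (nat_lit 1234177285088) (nat_lit 152) (nat_lit 5664770084861) (nat_lit 0) (nat_lit 1128020160423) (nat_lit 1) (nat_lit 5) (nat_lit 3) (nat_lit 4) (nat_lit 1) (nat_lit 4) (nat_lit 366) (nat_lit 317) (nat_lit 217)) (XT.lf (nat_lit 0) (nat_lit 1769850239133) (nat_lit 152) (nat_lit 5768133505637) (nat_lit 0) (nat_lit 1663693102677) (nat_lit 1) (nat_lit 5) (nat_lit 3) (nat_lit 4) (nat_lit 1) (nat_lit 4) (nat_lit 367) (nat_lit 317) (nat_lit 216)))) (XT.nd (nat_lit 156) (nat_lit 0) (nat_lit 0) (XT.nd (nat_lit 78) (nat_lit 0) (nat_lit 0) (XT.lf (nat_lit 0) (nat_lit 2385874060184) (nat_lit 152) (nat_lit 5887001594516) (nat_lit 0) (nat_lit 2279716913475) (nat_lit 1) (nat_lit 5) (nat_lit 3) (nat_lit 4) (nat_lit 1) (nat_lit 4) (nat_lit 368) (nat_lit 317) (nat_lit 215)) (XT.lf (nat_lit 0) (nat_lit 3094301388219) (nat_lit 152) (nat_lit 6023700031497)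 (nat_lit 0) (nat_lit 2988144232594) (nat_lit 1) (nat_lit 5) (nat_lit 3) (nat_lit 4) (nat_lit 1) (nat_lit 4) (nat_lit 369) (nat_lit 317) (nat_lit 214))) (XT.nd (nat_lit 78) (nat_lit 0) (nat_lit 0) (XT.lf (nat_lit 0) (nat_lit 3908992757916) (nat_lit 152) (nat_lit 6180903351217) (nat_lit 0) (nat_lit 3802835594538) (nat_lit 1) (nat_lit 5) (nat_lit 3) (nat_lit 4) (nat_lit 1) (nat_lit 4) (nat_lit 370) (nat_lit 317) (nat_lit 213)) (XT.lf (nat_lit 0) (nat_lit 4845887783030) (nat_lit 152) (nat_lit 6361687270802) (nat_lit 0) (nat_lit 4739730612911) (nat_lit 1) (nat_lit 5) (nat_lit 3) (nat_lit 4) (nat_lit 1) (nat_lit 4) (nat_lit 371) (nat_lit 317) (nat_lit 212)))))) (XT.nd (nat_lit 43056) (nat_lit 0) (nat_lit 2660) (XT.nd (nat_lit 42744) (nat_lit 0) (nat_lit 4408) (XT.nd (nat_lit 78) (nat_lit 0) (nat_lit 0) (XT.lf (nat_lit 0) (nat_lit 5923317018401) (nat_lit 152) (nat_lit 6569588866937) (nat_lit 0)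 (nat_lit 5817159842419) (nat_lit 1) (nat_lit 5) (nat_lit 3) (nat_lit 4) (nat_lit 1) (nat_lit 4) (nat_lit 372) (nat_lit 317) (nat_lit 211)) (XT.nd (nat_lit 42588) (nat_lit 0) (nat_lit 4788) (XT.lf (nat_lit 0) (nat_lit 7162360601242) (nat_lit 152) (nat_lit 6808675779549) (nat_lit 0) (nat_lit 7056203420162) (nat_lit 1) (nat_lit 5) (nat_lit 3) (nat_lit 4) (nat_lit 1) (nat_lit 4) (nat_lit 373) (nat_lit 317) (nat_lit 210)) (XT.lf (nat_lit 0) (nat_lit 22086896069) (nat_lit 532) (nat_lit 1543595522) (nat_lit 532) (nat_lit 1543595522) (nat_lit 64) (nat_lit 3) (nat_lit 71) (nat_lit 3) (nat_lit 71) (nat_lit 5) (nat_lit 318) (nat_lit 318) (nat_lit 264)))) (XT.nd (nat_lit 156) (nat_lit 380) (nat_lit 0) (XT.nd (nat_lit 78) (nat_lit 0) (nat_lit 76) (XT.lf (nat_lit 76) (nat_lit 45048377991) (nat_lit 0) (nat_lit 3565387109) (nat_lit 532) (nat_lit 5420325939) (nat_lit 65) (nat_lit 5) (nat_lit 64) (nat_lit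 3) (nat_lit 71) (nat_lit 5) (nat_lit 319) (nat_lit 318) (nat_lit 263)) (XT.lf (nat_lit 76) (nat_lit 43364573167) (nat_lit 0) (nat_lit 12605286420) (nat_lit 532) (nat_lit 2123033071) (nat_lit 66) (nat_lit 5) (nat_lit 65) (nat_lit 5) (nat_lit 72) (nat_lit 5) (nat_lit 320) (nat_lit 318) (nat_lit 262))) (XT.nd (nat_lit 78) (nat_lit 0) (nat_lit 76) (XT.lf (nat_lit 0) (nat_lit 3960602542) (nat_lit 532) (nat_lit 20224726439) (nat_lit 608) (nat_lit 38381962032) (nat_lit 59) (nat_lit 5) (nat_lit 66) (nat_lit 5) (nat_lit 67) (nat_lit 5) (nat_lit 321) (nat_lit 318) (nat_lit 261)) (XT.lf (nat_lit 0) (nat_lit 13376788616) (nat_lit 532) (nat_lit 25380479778) (nat_lit 76) (nat_lit 28747517372) (nat_lit 60) (nat_lit 5) (nat_lit 67) (nat_lit 5) (nat_lit 61) (nat_lit 5) (nat_lit 322) (nat_lit 318) (nat_lit 260))))) (XT.nd (nat_lit 312) (nat_lit 760) (nat_lit 0) (XT.nd (nat_lit 156) (nat_lit 456) (nat_lit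 0) (XT.nd (nat_lit 78) (nat_lit 228) (nat_lit 0) (XT.lf (nat_lit 0) (nat_lit 26922557860) (nat_lit 456) (nat_lit 30007885731) (nat_lit 76) (nat_lit 16035093185) (nat_lit 55) (nat_lit 5) (nat_lit 61) (nat_lit 5) (nat_lit 56) (nat_lit 5) (nat_lit 323) (nat_lit 318) (nat_lit 259)) (XT.lf (nat_lit 0) (nat_lit 45054707997) (nat_lit 228) (nat_lit 354209910) (nat_lit 304) (nat_lit 33603788376) (nat_lit 52) (nat_lit 5) (nat_lit 55) (nat_lit 5) (nat_lit 56) (nat_lit 5) (nat_lit 324) (nat_lit 318) (nat_lit 258))) (XT.nd (nat_lit 78) (nat_lit 228) (nat_lit 0) (XT.lf (nat_lit 0) (nat_lit 48119967096) (nat_lit 228) (nat_lit 22153756101) (nat_lit 304) (nat_lit 15404792096) (nat_lit 49) (nat_lit 5) (nat_lit 52) (nat_lit 5) (nat_lit 53) (nat_lit 5) (nat_lit 325) (nat_lit 318) (nat_lit 257)) (XT.lf (nat_lit 0) (nat_lit 8674699028) (nat_lit 228) (nat_lit 40440889644) (nat_lit 76) (nat_lit 43943822935) (nat_lit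 46) (nat_lit 5) (nat_lit 49) (nat_lit 5) (nat_lit 47) (nat_lit 5) (nat_lit 326) (nat_lit 318) (nat_lit 256)))) (XT.nd (nat_lit 156) (nat_lit 380) (nat_lit 0) (XT.nd (nat_lit 78) (nat_lit 152) (nat_lit 0) (XT.lf (nat_lit 0) (nat_lit 39120547786) (nat_lit 304) (nat_lit 42734642729) (nat_lit 76) (nat_lit 19366918692) (nat_lit 43) (nat_lit 5) (nat_lit 47) (nat_lit 5) (nat_lit 44) (nat_lit 5) (nat_lit 327) (nat_lit 318) (nat_lit 255)) (XT.lf (nat_lit 0) (nat_lit 66102179273) (nat_lit 152) (nat_lit 12183963989) (nat_lit 228) (nat_lit 31990840688) (nat_lit 41) (nat_lit 5) (nat_lit 43) (nat_lit 5) (nat_lit 44) (nat_lit 5) (nat_lit 328) (nat_lit 318) (nat_lit 254))) (XT.nd (nat_lit 78) (nat_lit 152) (nat_lit 0) (XT.lf (nat_lit 0) (nat_lit 7347045670) (nat_lit 228) (nat_lit 45137391866) (nat_lit 76) (nat_lit 67813185788) (nat_lit 38) (nat_lit 5) (nat_lit 41) (nat_lit 5) (nat_lit 39) (nat_lit 5) (nat_lit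 329) (nat_lit 318) (nat_lit 253)) (XT.lf (nat_lit 0) (nat_lit 55245400309) (nat_lit 228) (nat_lit 45804453405) (nat_lit 76) (nat_lit 30340711848) (nat_lit 36) (nat_lit 5) (nat_lit 39) (nat_lit 5) (nat_lit 37) (nat_lit 5) (nat_lit 330) (nat_lit 318) (nat_lit 252))))))) (XT.nd (nat_lit 1170) (nat_lit 760) (nat_lit 0) (XT.nd (nat_lit 546) (nat_lit 760) (nat_lit 0) (XT.nd (nat_lit 234) (nat_lit 532) (nat_lit 0) (XT.nd (nat_lit 78) (nat_lit 304) (nat_lit 0) (XT.lf (nat_lit 0) (nat_lit 98023019432) (nat_lit 152) (nat_lit 17460270780) (nat_lit 228) (nat_lit 28251777607) (nat_lit 34) (nat_lit 5) (nat_lit 36) (nat_lit 5) (nat_lit 37) (nat_lit 5) (nat_lit 331) (nat_lit 318) (nat_lit 251)) (XT.nd (nat_lit 78) (nat_lit 152) (nat_lit 0) (XT.lf (nat_lit 0) (nat_lit 31590906811) (nat_lit 152) (nat_lit 46206240686) (nat_lit 76) (nat_lit 79593909210) (nat_lit 32) (nat_lit 5) (nat_lit 34) (nat_lit 5) (nat_lit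 33) (nat_lit 5) (nat_lit 332) (nat_lit 318) (nat_lit 250)) (XT.lf (nat_lit 0) (nat_lit 104218278517) (nat_lit 228) (nat_lit 46772176031) (nat_lit 76) (nat_lit 21607796852) (nat_lit 30) (nat_lit 5) (nat_lit 33) (nat_lit 5) (nat_lit 31) (nat_lit 4) (nat_lit 333) (nat_lit 318) (nat_lit 249)))) (XT.nd (nat_lit 156) (nat_lit 228) (nat_lit 0) (XT.nd (nat_lit 78) (nat_lit 152) (nat_lit 0) (XT.lf (nat_lit 0) (nat_lit 4880306806) (nat_lit 152) (nat_lit 48291679740) (nat_lit 76) (nat_lit 136350280148) (nat_lit 28) (nat_lit 5) (nat_lit 30) (nat_lit 5) (nat_lit 29) (nat_lit 5) (nat_lit 334) (nat_lit 318) (nat_lit 248)) (XT.lf (nat_lit 0) (nat_lit 91985230109) (nat_lit 228) (nat_lit 52698835052) (nat_lit 76) (nat_lit 63606374749) (nat_lit 26) (nat_lit 5) (nat_lit 29) (nat_lit 5) (nat_lit 27) (nat_lit 4) (nat_lit 335) (nat_lit 318) (nat_lit 247))) (XT.nd (nat_lit 78) (nat_lit 152) (nat_lit 0) (XT.lf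 (nat_lit 0) (nat_lit 170225623959) (nat_lit 76) (nat_lit 28935577145) (nat_lit 152) (nat_lit 30152213802) (nat_lit 25) (nat_lit 5) (nat_lit 26) (nat_lit 5) (nat_lit 27) (nat_lit 4) (nat_lit 336) (nat_lit 318) (nat_lit 246)) (XT.lf (nat_lit 0) (nat_lit 74175733352) (nat_lit 152) (nat_lit 71669133361) (nat_lit 76) (nat_lit 106816372799) (nat_lit 23) (nat_lit 5) (nat_lit 25) (nat_lit 5) (nat_lit 24) (nat_lit 4) (nat_lit 337) (nat_lit 318) (nat_lit 245))))) (XT.nd (nat_lit 312) (nat_lit 380) (nat_lit 0) (XT.nd (nat_lit 156) (nat_lit 152) (nat_lit 0) (XT.nd (nat_lit 78) (nat_lit 152) (nat_lit 0) (XT.lf (nat_lit 0) (nat_lit 189064711656) (nat_lit 76) (nat_lit 10464357122) (nat_lit 152) (nat_lit 79346591955) (nat_lit 22) (nat_lit 5) (nat_lit 23) (nat_lit 5) (nat_lit 24) (nat_lit 4) (nat_lit 338) (nat_lit 318) (nat_lit 244)) (XT.lf (nat_lit 0) (nat_lit 43404718881) (nat_lit 152) (nat_lit 118937352828)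 (nat_lit 76) (nat_lit 145775437655) (nat_lit 20) (nat_lit 5) (nat_lit 22) (nat_lit 5) (nat_lit 21) (nat_lit 4) (nat_lit 339) (nat_lit 318) (nat_lit 243))) (XT.nd (nat_lit 78) (nat_lit 76) (nat_lit 0) (XT.lf (nat_lit 0) (nat_lit 180391798486) (nat_lit 76) (nat_lit 6921534014) (nat_lit 152) (nat_lit 153672002226) (nat_lit 19) (nat_lit 5) (nat_lit 20) (nat_lit 5) (nat_lit 21) (nat_lit 4) (nat_lit 340) (nat_lit 318) (nat_lit 242)) (XT.lf (nat_lit 0) (nat_lit 156943116182) (nat_lit 76) (nat_lit 207323174972) (nat_lit 76) (nat_lit 13600398727) (nat_lit 18) (nat_lit 4) (nat_lit 19) (nat_lit 5) (nat_lit 19) (nat_lit 4) (nat_lit 341) (nat_lit 318) (nat_lit 241)))) (XT.nd (nat_lit 156) (nat_lit 152) (nat_lit 0) (XT.nd (nat_lit 78) (nat_lit 76) (nat_lit 0) (XT.lf (nat_lit 0) (nat_lit 113757775388) (nat_lit 76) (nat_lit 34069670402) (nat_lit 152) (nat_lit 271551195580) (nat_lit 16) (nat_lit 5) (nat_lit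 17) (nat_lit 5) (nat_lit 18) (nat_lit 4) (nat_lit 342) (nat_lit 318) (nat_lit 240)) (XT.lf (nat_lit 0) (nat_lit 43053016698) (nat_lit 76) (nat_lit 301239840875) (nat_lit 76) (nat_lit 121865972722) (nat_lit 15) (nat_lit 4) (nat_lit 16) (nat_lit 5) (nat_lit 16) (nat_lit 4) (nat_lit 343) (nat_lit 318) (nat_lit 239))) (XT.nd (nat_lit 78) (nat_lit 76) (nat_lit 0) (XT.lf (nat_lit 0) (nat_lit 57827467469) (nat_lit 152) (nat_lit 59093110814) (nat_lit 76) (nat_lit 402133126345) (nat_lit 14) (nat_lit 5) (nat_lit 16) (nat_lit 5) (nat_lit 15) (nat_lit 4) (nat_lit 344) (nat_lit 318) (nat_lit 238)) (XT.lf (nat_lit 0) (nat_lit 269087444158) (nat_lit 152) (nat_lit 206595990341) (nat_lit 0) (nat_lit 102999880049) (nat_lit 13) (nat_lit 5) (nat_lit 15) (nat_lit 4) (nat_lit 13) (nat_lit 4) (nat_lit 345) (nat_lit 318) (nat_lit 237)))))) (XT.nd (nat_lit 624) (nat_lit 228) (nat_lit 0) (XT.nd (nat_lit 312) (nat_lit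 228) (nat_lit 0) (XT.nd (nat_lit 156) (nat_lit 76) (nat_lit 0) (XT.nd (nat_lit 78) (nat_lit 152) (nat_lit 0) (XT.lf (nat_lit 0) (nat_lit 232767590324) (nat_lit 76) (nat_lit 289864956034) (nat_lit 76) (nat_lit 123777129375) (nat_lit 12) (nat_lit 4) (nat_lit 13) (nat_lit 5) (nat_lit 13) (nat_lit 4) (nat_lit 346) (nat_lit 318) (nat_lit 236)) (XT.lf (nat_lit 0) (nat_lit 25698112627) (nat_lit 76) (nat_lit 66506775636) (nat_lit 152) (nat_lit 631374039463) (nat_lit 10) (nat_lit 5) (nat_lit 11) (nat_lit 5) (nat_lit 12) (nat_lit 4) (nat_lit 347) (nat_lit 318) (nat_lit 235))) (XT.nd (nat_lit 78) (nat_lit 76) (nat_lit 0) (XT.lf (nat_lit 0) (nat_lit 350396496578) (nat_lit 152) (nat_lit 263687493069) (nat_lit 0) (nat_lit 196611076683) (nat_lit 10) (nat_lit 5) (nat_lit 12) (nat_lit 4) (nat_lit 10) (nat_lit 4) (nat_lit 348) (nat_lit 318) (nat_lit 234)) (XT.lf (nat_lit 0) (nat_lit 246105403202) (nat_lit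 76) (nat_lit 408969095073) (nat_lit 76) (nat_lit 255183515335) (nat_lit 9) (nat_lit 4) (nat_lit 10) (nat_lit 5) (nat_lit 10) (nat_lit 4) (nat_lit 349) (nat_lit 318) (nat_lit 233)))) (XT.nd (nat_lit 156) (nat_lit 76) (nat_lit 0) (XT.nd (nat_lit 78) (nat_lit 152) (nat_lit 0) (XT.lf (nat_lit 0) (nat_lit 848334248923) (nat_lit 76) (nat_lit 164796379303) (nat_lit 76) (nat_lit 11010660570) (nat_lit 9) (nat_lit 4) (nat_lit 10) (nat_lit 5) (nat_lit 10) (nat_lit 4) (nat_lit 350) (nat_lit 318) (nat_lit 232)) (XT.lf (nat_lit 0) (nat_lit 269102085928) (nat_lit 152) (nat_lit 757753317856) (nat_lit 0) (nat_lit 126707790006) (nat_lit 7) (nat_lit 5) (nat_lit 9) (nat_lit 4) (nat_lit 7) (nat_lit 4) (nat_lit 351) (nat_lit 318) (nat_lit 231))) (XT.nd (nat_lit 78) (nat_lit 76) (nat_lit 0) (XT.lf (nat_lit 0) (nat_lit 600407107557) (nat_lit 152) (nat_lit 243169498025) (nat_lit 0) (nat_lit 458012714321) (nat_lit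 7) (nat_lit 5) (nat_lit 9) (nat_lit 4) (nat_lit 7) (nat_lit 4) (nat_lit 352) (nat_lit 318) (nat_lit 230)) (XT.lf (nat_lit 0) (nat_lit 366957807825) (nat_lit 76) (nat_lit 623275019695) (nat_lit 76) (nat_lit 480880541837) (nat_lit 6) (nat_lit 4) (nat_lit 7) (nat_lit 5) (nat_lit 7) (nat_lit 4) (nat_lit 353) (nat_lit 318) (nat_lit 229))))) (XT.nd (nat_lit 312) (nat_lit 76) (nat_lit 0) (XT.nd (nat_lit 156) (nat_lit 0) (nat_lit 0) (XT.nd (nat_lit 78) (nat_lit 152) (nat_lit 0) (XT.lf (nat_lit 0) (nat_lit 1083329080865) (nat_lit 76) (nat_lit 362282578271) (nat_lit 76) (nat_lit 219888026829) (nat_lit 6) (nat_lit 4) (nat_lit 7) (nat_lit 5) (nat_lit 7) (nat_lit 4) (nat_lit 354) (nat_lit 318) (nat_lit 228)) (XT.lf (nat_lit 0) (nat_lit 17033424230) (nat_lit 76) (nat_lit 59614671758) (nat_lit 152) (nat_lit 1812208700153) (nat_lit 4) (nat_lit 5) (nat_lit 5) (nat_lit 5) (nat_lit 6) (nat_lit 4) (nat_lit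 355) (nat_lit 318) (nat_lit 227))) (XT.nd (nat_lit 78) (nat_lit 0) (nat_lit 0) (XT.lf (nat_lit 0) (nat_lit 429341512780) (nat_lit 152) (nat_lit 1416448718731) (nat_lit 0) (nat_lit 297494595125) (nat_lit 4) (nat_lit 5) (nat_lit 6) (nat_lit 4) (nat_lit 4) (nat_lit 4) (nat_lit 356) (nat_lit 318) (nat_lit 226)) (XT.lf (nat_lit 0) (nat_lit 836587471622) (nat_lit 152) (nat_lit 894417198567) (nat_lit 0) (nat_lit 704740509170) (nat_lit 4) (nat_lit 5) (nat_lit 6) (nat_lit 4) (nat_lit 4) (nat_lit 4) (nat_lit 357) (nat_lit 318) (nat_lit 225)))) (XT.nd (nat_lit 156) (nat_lit 0) (nat_lit 0) (XT.nd (nat_lit 78) (nat_lit 76) (nat_lit 0) (XT.lf (nat_lit 0) (nat_lit 1304920093943) (nat_lit 152) (nat_lit 294081416954) (nat_lit 0) (nat_lit 1173073092535) (nat_lit 4) (nat_lit 5) (nat_lit 6) (nat_lit 4) (nat_lit 4) (nat_lit 4) (nat_lit 358) (nat_lit 318) (nat_lit 224)) (XT.lf (nat_lit 0) (nat_lit 417173009687)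 (nat_lit 76) (nat_lit 1436362420538) (nat_lit 76) (nat_lit 1304515385256) (nat_lit 3) (nat_lit 4) (nat_lit 4) (nat_lit 5) (nat_lit 4) (nat_lit 4) (nat_lit 359) (nat_lit 318) (nat_lit 223))) (XT.nd (nat_lit 78) (nat_lit 0) (nat_lit 0) (XT.lf (nat_lit 0) (nat_lit 1252923906149) (nat_lit 76) (nat_lit 1240080841731) (nat_lit 76) (nat_lit 1108233776994) (nat_lit 3) (nat_lit 4) (nat_lit 4) (nat_lit 5) (nat_lit 4) (nat_lit 4) (nat_lit 360) (nat_lit 318) (nat_lit 222)) (XT.lf (nat_lit 0) (nat_lit 2214037114145) (nat_lit 76) (nat_lit 1014357189814) (nat_lit 76) (nat_lit 882510099463) (nat_lit 3) (nat_lit 4) (nat_lit 4) (nat_lit 5) (nat_lit 4) (nat_lit 4) (nat_lit 361) (nat_lit 318) (nat_lit 221))))))))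
noncomputable def xc43 : XT := (XT.nd (nat_lit 45006) (nat_lit 0) (nat_lit 0) (XT.nd (nat_lit 43758) (nat_lit 0) (nat_lit 1824) (XT.nd (nat_lit 546) (nat_lit 0) (nat_lit 0) (XT.nd (nat_lit 234) (nat_lit 76) (nat_lit 0) (XT.nd (nat_lit 78) (nat_lit 76) (nat_lit 0) (XT.lf (nat_lit 0) (nat_lit 3319317022527) (nat_lit 76) (nat_lit 754775132467) (nat_lit 76) (nat_lit 622928019843) (nat_lit 3) (nat_lit 4) (nat_lit 4) (nat_lit 5) (nat_lit 4) (nat_lit 4) (nat_lit 362) (nat_lit 318) (nat_lit 220)) (XT.nd (nat_lit 78) (nat_lit 76) (nat_lit 0) (XT.lf (nat_lit 0) (nat_lit 4590388672981) (nat_lit 76) (nat_lit 456255890307) (nat_lit 76) (nat_lit 324408758316) (nat_lit 3) (nat_lit 4) (nat_lit 4) (nat_lit 5) (nat_lit 4) (nat_lit 4) (nat_lit 363) (nat_lit 318) (nat_lit 219)) (XT.lf (nat_lit 0) (nat_lit 17943411134) (nat_lit 152) (nat_lit 94524853673) (nat_lit 76) (nat_lit 6033686842875) (nat_lit 2) (nat_lit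 5) (nat_lit 4) (nat_lit 5) (nat_lit 3) (nat_lit 4) (nat_lit 364) (nat_lit 318) (nat_lit 218)))) (XT.nd (nat_lit 156) (nat_lit 0) (nat_lit 0) (XT.nd (nat_lit 78) (nat_lit 0) (nat_lit 0) (XT.lf (nat_lit 0) (nat_lit 417829174479) (nat_lit 152) (nat_lit 6321239272552) (nat_lit 0) (nat_lit 295748467555) (nat_lit 1) (nat_lit 5) (nat_lit 3) (nat_lit 4) (nat_lit 1) (nat_lit 4) (nat_lit 365) (nat_lit 318) (nat_lit 217)) (XT.lf (nat_lit 0) (nat_lit 883631778609) (nat_lit 152) (nat_lit 6411120435923) (nat_lit 0) (nat_lit 761551059894) (nat_lit 1) (nat_lit 5) (nat_lit 3) (nat_lit 4) (nat_lit 1) (nat_lit 4) (nat_lit 366) (nat_lit 318) (nat_lit 216))) (XT.nd (nat_lit 78) (nat_lit 0) (nat_lit 0) (XT.lf (nat_lit 0) (nat_lit 1419304697259) (nat_lit 152) (nat_lit 6514483928785) (nat_lit 0) (nat_lit 1297223968290) (nat_lit 1) (nat_lit 5) (nat_lit 3) (nat_lit 4) (nat_lit 1) (nat_lit 4) (nat_lit 367) (nat_lit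 318) (nat_lit 215)) (XT.lf (nat_lit 0) (nat_lit 2035328487531) (nat_lit 152) (nat_lit 6633352080348) (nat_lit 0) (nat_lit 1913247749647) (nat_lit 1) (nat_lit 5) (nat_lit 3) (nat_lit 4) (nat_lit 1) (nat_lit 4) (nat_lit 368) (nat_lit 318) (nat_lit 214))))) (XT.nd (nat_lit 312) (nat_lit 0) (nat_lit 0) (XT.nd (nat_lit 156) (nat_lit 0) (nat_lit 0) (XT.nd (nat_lit 78) (nat_lit 0) (nat_lit 0) (XT.lf (nat_lit 0) (nat_lit 2743755788802) (nat_lit 152) (nat_lit 6770050571837) (nat_lit 0) (nat_lit 2621675043165) (nat_lit 1) (nat_lit 5) (nat_lit 3) (nat_lit 4) (nat_lit 1) (nat_lit 4) (nat_lit 369) (nat_lit 318) (nat_lit 213)) (XT.lf (nat_lit 0) (nat_lit 3558447135226) (nat_lit 152) (nat_lit 6927253938956) (nat_lit 0) (nat_lit 3436366382847) (nat_lit 1) (nat_lit 5) (nat_lit 3) (nat_lit 4) (nat_lit 1) (nat_lit 4) (nat_lit 370) (nat_lit 318) (nat_lit 212))) (XT.nd (nat_lit 78) (nat_lit 0) (nat_lit 0) (XT.lf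 (nat_lit 0) (nat_lit 4495342140103) (nat_lit 152) (nat_lit 7108037899755) (nat_lit 0) (nat_lit 4373261381861) (nat_lit 1) (nat_lit 5) (nat_lit 3) (nat_lit 4) (nat_lit 1) (nat_lit 4) (nat_lit 371) (nat_lit 318) (nat_lit 211)) (XT.lf (nat_lit 0) (nat_lit 5572771357875) (nat_lit 152) (nat_lit 7315939531731) (nat_lit 0) (nat_lit 5450690594537) (nat_lit 1) (nat_lit 5) (nat_lit 3) (nat_lit 4) (nat_lit 1) (nat_lit 4) (nat_lit 372) (nat_lit 318) (nat_lit 210)))) (XT.nd (nat_lit 42744) (nat_lit 0) (nat_lit 4788) (XT.nd (nat_lit 42666) (nat_lit 0) (nat_lit 4788) (XT.lf (nat_lit 0) (nat_lit 6811814925414) (nat_lit 152) (nat_lit 7555026475508) (nat_lit 0) (nat_lit 6689734157642) (nat_lit 1) (nat_lit 5) (nat_lit 3) (nat_lit 4) (nat_lit 1) (nat_lit 4) (nat_lit 373) (nat_lit 318) (nat_lit 209)) (XT.lf (nat_lit 0) (nat_lit 25441652222) (nat_lit 532) (nat_lit 1752585376) (nat_lit 532) (nat_lit 1752585376)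 (nat_lit 64) (nat_lit 3) (nat_lit 71) (nat_lit 3) (nat_lit 71) (nat_lit 5) (nat_lit 319) (nat_lit 319) (nat_lit 262))) (XT.nd (nat_lit 78) (nat_lit 0) (nat_lit 76) (XT.lf (nat_lit 76) (nat_lit 51846916236) (nat_lit 0) (nat_lit 4132466003) (nat_lit 532) (nat_lit 6153869630) (nat_lit 65) (nat_lit 5) (nat_lit 64) (nat_lit 3) (nat_lit 71) (nat_lit 5) (nat_lit 320) (nat_lit 319) (nat_lit 261)) (XT.lf (nat_lit 76) (nat_lit 49913205779) (nat_lit 0) (nat_lit 14516473368) (nat_lit 532) (nat_lit 2371940477) (nat_lit 66) (nat_lit 5) (nat_lit 65) (nat_lit 5) (nat_lit 72) (nat_lit 5) (nat_lit 321) (nat_lit 319) (nat_lit 260)))))) (XT.nd (nat_lit 624) (nat_lit 1216) (nat_lit 0) (XT.nd (nat_lit 312) (nat_lit 836) (nat_lit 0) (XT.nd (nat_lit 156) (nat_lit 532) (nat_lit 0) (XT.nd (nat_lit 78) (nat_lit 0) (nat_lit 76) (XT.lf (nat_lit 0) (nat_lit 4612827484) (nat_lit 532) (nat_lit 23209884163) (nat_lit 608)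 (nat_lit 44124974198) (nat_lit 59) (nat_lit 5) (nat_lit 66) (nat_lit 5) (nat_lit 67) (nat_lit 5) (nat_lit 322) (nat_lit 319) (nat_lit 259)) (XT.lf (nat_lit 0) (nat_lit 15434754868) (nat_lit 532) (nat_lit 29138766034) (nat_lit 76) (nat_lit 33052825107) (nat_lit 60) (nat_lit 5) (nat_lit 67) (nat_lit 5) (nat_lit 61) (nat_lit 5) (nat_lit 323) (nat_lit 319) (nat_lit 258))) (XT.nd (nat_lit 78) (nat_lit 228) (nat_lit 0) (XT.lf (nat_lit 0) (nat_lit 31006725098) (nat_lit 456) (nat_lit 34460683325) (nat_lit 76) (nat_lit 18439259849) (nat_lit 55) (nat_lit 5) (nat_lit 61) (nat_lit 5) (nat_lit 56) (nat_lit 5) (nat_lit 324) (nat_lit 319) (nat_lit 257)) (XT.lf (nat_lit 0) (nat_lit 51857203891) (nat_lit 228) (nat_lit 403928661) (nat_lit 304) (nat_lit 38600177921) (nat_lit 52) (nat_lit 5) (nat_lit 55) (nat_lit 5) (nat_lit 56) (nat_lit 5) (nat_lit 325) (nat_lit 319) (nat_lit 256)))) (XT.nd (nat_lit 156)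 (nat_lit 380) (nat_lit 0) (XT.nd (nat_lit 78) (nat_lit 228) (nat_lit 0) (XT.lf (nat_lit 0) (nat_lit 55381450099) (nat_lit 228) (nat_lit 25469994016) (nat_lit 304) (nat_lit 17675888002) (nat_lit 49) (nat_lit 5) (nat_lit 52) (nat_lit 5) (nat_lit 53) (nat_lit 5) (nat_lit 326) (nat_lit 319) (nat_lit 255)) (XT.lf (nat_lit 0) (nat_lit 10009826852) (nat_lit 228) (nat_lit 46462848121) (nat_lit 76) (nat_lit 50542912415) (nat_lit 46) (nat_lit 5) (nat_lit 49) (nat_lit 5) (nat_lit 47) (nat_lit 5) (nat_lit 327) (nat_lit 319) (nat_lit 254))) (XT.nd (nat_lit 78) (nat_lit 152) (nat_lit 0) (XT.lf (nat_lit 0) (nat_lit 45019340331) (nat_lit 304) (nat_lit 49102186128) (nat_lit 76) (nat_lit 22281423064) (nat_lit 43) (nat_lit 5) (nat_lit 47) (nat_lit 5) (nat_lit 44) (nat_lit 5) (nat_lit 328) (nat_lit 319) (nat_lit 253)) (XT.lf (nat_lit 0) (nat_lit 76056548811) (nat_lit 152) (nat_lit 14000159593) (nat_lit 228)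 (nat_lit 36759594920) (nat_lit 41) (nat_lit 5) (nat_lit 43) (nat_lit 5) (nat_lit 44) (nat_lit 5) (nat_lit 329) (nat_lit 319) (nat_lit 252))))) (XT.nd (nat_lit 312) (nat_lit 532) (nat_lit 0) (XT.nd (nat_lit 156) (nat_lit 304) (nat_lit 0) (XT.nd (nat_lit 78) (nat_lit 152) (nat_lit 0) (XT.lf (nat_lit 0) (nat_lit 8474949195) (nat_lit 228) (nat_lit 51869099587) (nat_lit 76) (nat_lit 77996136839) (nat_lit 38) (nat_lit 5) (nat_lit 41) (nat_lit 5) (nat_lit 39) (nat_lit 5) (nat_lit 330) (nat_lit 319) (nat_lit 251)) (XT.lf (nat_lit 0) (nat_lit 63555837355) (nat_lit 228) (nat_lit 52637930137) (nat_lit 76) (nat_lit 34903481033) (nat_lit 36) (nat_lit 5) (nat_lit 39) (nat_lit 5) (nat_lit 37) (nat_lit 5) (nat_lit 331) (nat_lit 319) (nat_lit 250))) (XT.nd (nat_lit 78) (nat_lit 152) (nat_lit 0) (XT.lf (nat_lit 0) (nat_lit 112760515569) (nat_lit 152) (nat_lit 20066632133) (nat_lit 228) (nat_lit 32466460990)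 (nat_lit 34) (nat_lit 5) (nat_lit 36) (nat_lit 5) (nat_lit 37) (nat_lit 5) (nat_lit 332) (nat_lit 319) (nat_lit 249)) (XT.lf (nat_lit 0) (nat_lit 36349684027) (nat_lit 152) (nat_lit 53103651712) (nat_lit 76) (nat_lit 91544759979) (nat_lit 32) (nat_lit 5) (nat_lit 34) (nat_lit 5) (nat_lit 33) (nat_lit 5) (nat_lit 333) (nat_lit 319) (nat_lit 248)))) (XT.nd (nat_lit 156) (nat_lit 228) (nat_lit 0) (XT.nd (nat_lit 78) (nat_lit 152) (nat_lit 0) (XT.lf (nat_lit 0) (nat_lit 119869571475) (nat_lit 228) (nat_lit 53756146859) (nat_lit 76) (nat_lit 24860779552) (nat_lit 30) (nat_lit 5) (nat_lit 33) (nat_lit 5) (nat_lit 31) (nat_lit 4) (nat_lit 334) (nat_lit 319) (nat_lit 247)) (XT.lf (nat_lit 0) (nat_lit 5629628670) (nat_lit 152) (nat_lit 55505357084) (nat_lit 76) (nat_lit 156814233136) (nat_lit 28) (nat_lit 5) (nat_lit 30) (nat_lit 5) (nat_lit 29) (nat_lit 5) (nat_lit 335) (nat_lit 319) (nat_lit 246)))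 (XT.nd (nat_lit 78) (nat_lit 76) (nat_lit 0) (XT.lf (nat_lit 0) (nat_lit 105798984028) (nat_lit 228) (nat_lit 60575156462) (nat_lit 76) (nat_lit 73158582862) (nat_lit 26) (nat_lit 5) (nat_lit 29) (nat_lit 5) (nat_lit 27) (nat_lit 4) (nat_lit 336) (nat_lit 319) (nat_lit 245)) (XT.lf (nat_lit 0) (nat_lit 195785558692) (nat_lit 76) (nat_lit 33264336508) (nat_lit 152) (nat_lit 34659366487) (nat_lit 25) (nat_lit 5) (nat_lit 26) (nat_lit 5) (nat_lit 27) (nat_lit 4) (nat_lit 337) (nat_lit 319) (nat_lit 244))))))) (XT.nd (nat_lit 1170) (nat_lit 456) (nat_lit 0) (XT.nd (nat_lit 546) (nat_lit 608) (nat_lit 0) (XT.nd (nat_lit 234) (nat_lit 380) (nat_lit 0) (XT.nd (nat_lit 78) (nat_lit 228) (nat_lit 0) (XT.lf (nat_lit 0) (nat_lit 85315903298) (nat_lit 152) (nat_lit 82394078068) (nat_lit 76) (nat_lit 122849335783) (nat_lit 23) (nat_lit 5) (nat_lit 25) (nat_lit 5) (nat_lit 24) (nat_lit 4) (nat_lit 338)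 (nat_lit 319) (nat_lit 243)) (XT.nd (nat_lit 78) (nat_lit 152) (nat_lit 0) (XT.lf (nat_lit 0) (nat_lit 217447691577) (nat_lit 76) (nat_lit 12023305884) (nat_lit 152) (nat_lit 91235003874) (nat_lit 22) (nat_lit 5) (nat_lit 23) (nat_lit 5) (nat_lit 24) (nat_lit 4) (nat_lit 339) (nat_lit 319) (nat_lit 242)) (XT.lf (nat_lit 0) (nat_lit 49927414408) (nat_lit 152) (nat_lit 136755331356) (nat_lit 76) (nat_lit 167651428542) (nat_lit 20) (nat_lit 5) (nat_lit 22) (nat_lit 5) (nat_lit 21) (nat_lit 4) (nat_lit 340) (nat_lit 319) (nat_lit 241)))) (XT.nd (nat_lit 156) (nat_lit 228) (nat_lit 0) (XT.nd (nat_lit 78) (nat_lit 76) (nat_lit 0) (XT.lf (nat_lit 0) (nat_lit 207471277613) (nat_lit 76) (nat_lit 7949976905) (nat_lit 152) (nat_lit 176711004519) (nat_lit 19) (nat_lit 5) (nat_lit 20) (nat_lit 5) (nat_lit 21) (nat_lit 4) (nat_lit 341) (nat_lit 319) (nat_lit 240)) (XT.lf (nat_lit 0) (nat_lit 180504126319)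 (nat_lit 76) (nat_lit 238412280706) (nat_lit 76) (nat_lit 15629470712) (nat_lit 18) (nat_lit 4) (nat_lit 19) (nat_lit 5) (nat_lit 19) (nat_lit 4) (nat_lit 342) (nat_lit 319) (nat_lit 239))) (XT.nd (nat_lit 78) (nat_lit 76) (nat_lit 0) (XT.lf (nat_lit 0) (nat_lit 130839834912) (nat_lit 76) (nat_lit 39171246773) (nat_lit 152) (nat_lit 312273592880) (nat_lit 16) (nat_lit 5) (nat_lit 17) (nat_lit 5) (nat_lit 18) (nat_lit 4) (nat_lit 343) (nat_lit 319) (nat_lit 238)) (XT.lf (nat_lit 0) (nat_lit 49528308592) (nat_lit 76) (nat_lit 346417357631) (nat_lit 76) (nat_lit 140136276921) (nat_lit 15) (nat_lit 4) (nat_lit 16) (nat_lit 5) (nat_lit 16) (nat_lit 4) (nat_lit 344) (nat_lit 319) (nat_lit 237))))) (XT.nd (nat_lit 312) (nat_lit 228) (nat_lit 0) (XT.nd (nat_lit 156) (nat_lit 228) (nat_lit 0) (XT.nd (nat_lit 78) (nat_lit 76) (nat_lit 0) (XT.lf (nat_lit 0) (nat_lit 66509510975) (nat_lit 152) (nat_lit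 67941581433) (nat_lit 76) (nat_lit 462460033001) (nat_lit 14) (nat_lit 5) (nat_lit 16) (nat_lit 5) (nat_lit 15) (nat_lit 4) (nat_lit 345) (nat_lit 319) (nat_lit 236)) (XT.lf (nat_lit 0) (nat_lit 309457959044) (nat_lit 152) (nat_lit 237570792386) (nat_lit 0) (nat_lit 118456467534) (nat_lit 13) (nat_lit 5) (nat_lit 15) (nat_lit 4) (nat_lit 13) (nat_lit 4) (nat_lit 346) (nat_lit 319) (nat_lit 235))) (XT.nd (nat_lit 78) (nat_lit 152) (nat_lit 0) (XT.lf (nat_lit 0) (nat_lit 267696089858) (nat_lit 76) (nat_lit 333338093057) (nat_lit 76) (nat_lit 142336403022) (nat_lit 12) (nat_lit 4) (nat_lit 13) (nat_lit 5) (nat_lit 13) (nat_lit 4) (nat_lit 347) (nat_lit 319) (nat_lit 234)) (XT.lf (nat_lit 0) (nat_lit 29565394305) (nat_lit 76) (nat_lit 76476556161) (nat_lit 152) (nat_lit 726073309468) (nat_lit 10) (nat_lit 5) (nat_lit 11) (nat_lit 5) (nat_lit 12) (nat_lit 4) (nat_lit 348) (nat_lit 319) (nat_lit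 233)))) (XT.nd (nat_lit 156) (nat_lit 152) (nat_lit 0) (XT.nd (nat_lit 78) (nat_lit 76) (nat_lit 0) (XT.lf (nat_lit 0) (nat_lit 402961604921) (nat_lit 152) (nat_lit 303229380713) (nat_lit 0) (nat_lit 226107889385) (nat_lit 10) (nat_lit 5) (nat_lit 12) (nat_lit 4) (nat_lit 10) (nat_lit 4) (nat_lit 349) (nat_lit 319) (nat_lit 232)) (XT.lf (nat_lit 0) (nat_lit 283031498901) (nat_lit 76) (nat_lit 470309320481) (nat_lit 76) (nat_lit 293455484081) (nat_lit 9) (nat_lit 4) (nat_lit 10) (nat_lit 5) (nat_lit 10) (nat_lit 4) (nat_lit 350) (nat_lit 319) (nat_lit 231))) (XT.nd (nat_lit 78) (nat_lit 152) (nat_lit 0) (XT.lf (nat_lit 0) (nat_lit 975593329930) (nat_lit 76) (nat_lit 189511367630) (nat_lit 76) (nat_lit 12657426131) (nat_lit 9) (nat_lit 4) (nat_lit 10) (nat_lit 5) (nat_lit 10) (nat_lit 4) (nat_lit 351) (nat_lit 319) (nat_lit 230)) (XT.lf (nat_lit 0) (nat_lit 309471695178) (nat_lit 152) (nat_lit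 871407672614) (nat_lit 0) (nat_lit 145717961021) (nat_lit 7) (nat_lit 5) (nat_lit 9) (nat_lit 4) (nat_lit 7) (nat_lit 4) (nat_lit 352) (nat_lit 319) (nat_lit 229)))))) (XT.nd (nat_lit 624) (nat_lit 152) (nat_lit 0) (XT.nd (nat_lit 312) (nat_lit 76) (nat_lit 0) (XT.nd (nat_lit 156) (nat_lit 152) (nat_lit 0) (XT.nd (nat_lit 78) (nat_lit 76) (nat_lit 0) (XT.lf (nat_lit 0) (nat_lit 690471909657) (nat_lit 152) (nat_lit 279637407146) (nat_lit 0) (nat_lit 526718101916) (nat_lit 7) (nat_lit 5) (nat_lit 9) (nat_lit 4) (nat_lit 7) (nat_lit 4) (nat_lit 353) (nat_lit 319) (nat_lit 228)) (XT.lf (nat_lit 0) (nat_lit 422008358425) (nat_lit 76) (nat_lit 716762807340) (nat_lit 76) (nat_lit 553008935613) (nat_lit 6) (nat_lit 4) (nat_lit 7) (nat_lit 5) (nat_lit 7) (nat_lit 4) (nat_lit 354) (nat_lit 319) (nat_lit 227))) (XT.nd (nat_lit 78) (nat_lit 152) (nat_lit 0) (XT.lf (nat_lit 0) (nat_lit 1245834425104)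 (nat_lit 76) (nat_lit 416621951698) (nat_lit 76) (nat_lit 252868024332) (nat_lit 6) (nat_lit 4) (nat_lit 7) (nat_lit 5) (nat_lit 7) (nat_lit 4) (nat_lit 355) (nat_lit 319) (nat_lit 226)) (XT.lf (nat_lit 0) (nat_lit 19594060631) (nat_lit 76) (nat_lit 68554033781) (nat_lit 152) (nat_lit 2084036998250) (nat_lit 4) (nat_lit 5) (nat_lit 5) (nat_lit 5) (nat_lit 6) (nat_lit 4) (nat_lit 356) (nat_lit 319) (nat_lit 225)))) (XT.nd (nat_lit 156) (nat_lit 76) (nat_lit 0) (XT.nd (nat_lit 78) (nat_lit 0) (nat_lit 0) (XT.lf (nat_lit 0) (nat_lit 493745219956) (nat_lit 152) (nat_lit 1628911002719) (nat_lit 0) (nat_lit 342121129382) (nat_lit 4) (nat_lit 5) (nat_lit 6) (nat_lit 4) (nat_lit 4) (nat_lit 4) (nat_lit 357) (nat_lit 319) (nat_lit 224)) (XT.lf (nat_lit 0) (nat_lit 962077749113) (nat_lit 152) (nat_lit 1028575409812) (nat_lit 0) (nat_lit 810453624665) (nat_lit 4) (nat_lit 5) (nat_lit 6) (nat_lit 4)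 (nat_lit 4) (nat_lit 4) (nat_lit 358) (nat_lit 319) (nat_lit 223))) (XT.nd (nat_lit 78) (nat_lit 76) (nat_lit 0) (XT.lf (nat_lit 0) (nat_lit 1500659983467) (nat_lit 152) (nat_lit 338189830766) (nat_lit 0) (nat_lit 1349035829563) (nat_lit 4) (nat_lit 5) (nat_lit 6) (nat_lit 4) (nat_lit 4) (nat_lit 4) (nat_lit 359) (nat_lit 319) (nat_lit 222)) (XT.lf (nat_lit 0) (nat_lit 479752438328) (nat_lit 76) (nat_lit 1651815020869) (nat_lit 76) (nat_lit 1500190841351) (nat_lit 3) (nat_lit 4) (nat_lit 4) (nat_lit 5) (nat_lit 4) (nat_lit 4) (nat_lit 360) (nat_lit 319) (nat_lit 221))))) (XT.nd (nat_lit 312) (nat_lit 152) (nat_lit 0) (XT.nd (nat_lit 156) (nat_lit 0) (nat_lit 0) (XT.nd (nat_lit 78) (nat_lit 0) (nat_lit 0) (XT.lf (nat_lit 0) (nat_lit 1440865515713) (nat_lit 76) (nat_lit 1426091435165) (nat_lit 76) (nat_lit 1274467233374) (nat_lit 3) (nat_lit 4) (nat_lit 4) (nat_lit 5) (nat_lit 4) (nat_lit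 4) (nat_lit 361) (nat_lit 319) (nat_lit 220)) (XT.lf (nat_lit 0) (nat_lit 2546145310520) (nat_lit 76) (nat_lit 1166509435394) (nat_lit 76) (nat_lit 1014885214236) (nat_lit 3) (nat_lit 4) (nat_lit 4) (nat_lit 5) (nat_lit 4) (nat_lit 4) (nat_lit 362) (nat_lit 319) (nat_lit 219))) (XT.nd (nat_lit 78) (nat_lit 0) (nat_lit 0) (XT.lf (nat_lit 0) (nat_lit 3817216862214) (nat_lit 76) (nat_lit 867990243301) (nat_lit 76) (nat_lit 716366005301) (nat_lit 3) (nat_lit 4) (nat_lit 4) (nat_lit 5) (nat_lit 4) (nat_lit 4) (nat_lit 363) (nat_lit 319) (nat_lit 218)) (XT.lf (nat_lit 0) (nat_lit 5278948962022) (nat_lit 76) (nat_lit 524693265995) (nat_lit 76) (nat_lit 373069013351) (nat_lit 3) (nat_lit 4) (nat_lit 4) (nat_lit 5) (nat_lit 4) (nat_lit 4) (nat_lit 364) (nat_lit 319) (nat_lit 217)))) (XT.nd (nat_lit 156) (nat_lit 0) (nat_lit 0) (XT.nd (nat_lit 78) (nat_lit 76) (nat_lit 0) (XT.lf (nat_lit 0) (nat_lit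 20635797370) (nat_lit 152) (nat_lit 108701806847) (nat_lit 76) (nat_lit 6938740699605) (nat_lit 2) (nat_lit 5) (nat_lit 4) (nat_lit 5) (nat_lit 3) (nat_lit 4) (nat_lit 365) (nat_lit 319) (nat_lit 216)) (XT.lf (nat_lit 0) (nat_lit 480504370059) (nat_lit 152) (nat_lit 7269423494630) (nat_lit 0) (nat_lit 340111521492) (nat_lit 1) (nat_lit 5) (nat_lit 3) (nat_lit 4) (nat_lit 1) (nat_lit 4) (nat_lit 366) (nat_lit 319) (nat_lit 215))) (XT.nd (nat_lit 78) (nat_lit 0) (nat_lit 0) (XT.lf (nat_lit 0) (nat_lit 1016177257929) (nat_lit 152) (nat_lit 7372787050176) (nat_lit 0) (nat_lit 875784400447) (nat_lit 1) (nat_lit 5) (nat_lit 3) (nat_lit 4) (nat_lit 1) (nat_lit 4) (nat_lit 367) (nat_lit 319) (nat_lit 214)) (XT.lf (nat_lit 0) (nat_lit 1632201021438) (nat_lit 152) (nat_lit 7491655256247) (nat_lit 0) (nat_lit 1491808156202) (nat_lit 1) (nat_lit 5) (nat_lit 3) (nat_lit 4) (nat_lit 1) (nat_lit 4) (nat_lit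 368) (nat_lit 319) (nat_lit 213))))))))
noncomputable def xc44 : XT := (XT.nd (nat_lit 45084) (nat_lit 0) (nat_lit 0) (XT.nd (nat_lit 43914) (nat_lit 0) (nat_lit 1064) (XT.nd (nat_lit 43290) (nat_lit 0) (nat_lit 3040) (XT.nd (nat_lit 234) (nat_lit 0) (nat_lit 0) (XT.nd (nat_lit 78) (nat_lit 0) (nat_lit 0) (XT.lf (nat_lit 0) (nat_lit 2340628299435) (nat_lit 152) (nat_lit 7628353795134) (nat_lit 0) (nat_lit 2200235427458) (nat_lit 1) (nat_lit 5) (nat_lit 3) (nat_lit 4) (nat_lit 1) (nat_lit 4) (nat_lit 369) (nat_lit 319) (nat_lit 212)) (XT.nd (nat_lit 78) (nat_lit 0) (nat_lit 0) (XT.lf (nat_lit 0) (nat_lit 3155319625622) (nat_lit 152) (nat_lit 7785557203468) (nat_lit 0) (nat_lit 3014926747782) (nat_lit 1) (nat_lit 5) (nat_lit 3) (nat_lit 4) (nat_lit 1) (nat_lit 4) (nat_lit 370) (nat_lit 319) (nat_lit 211)) (XT.lf (nat_lit 0) (nat_lit 4092214612900) (nat_lit 152) (nat_lit 7966341200108) (nat_lit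 0) (nat_lit 3951821729963) (nat_lit 1) (nat_lit 5) (nat_lit 3) (nat_lit 4) (nat_lit 1) (nat_lit 4) (nat_lit 371) (nat_lit 319) (nat_lit 210)))) (XT.nd (nat_lit 42900) (nat_lit 0) (nat_lit 4788) (XT.nd (nat_lit 42822) (nat_lit 0) (nat_lit 4788) (XT.lf (nat_lit 0) (nat_lit 5169643815371) (nat_lit 152) (nat_lit 8174242863248) (nat_lit 0) (nat_lit 5029250928001) (nat_lit 1) (nat_lit 5) (nat_lit 3) (nat_lit 4) (nat_lit 1) (nat_lit 4) (nat_lit 372) (nat_lit 319) (nat_lit 209)) (XT.lf (nat_lit 0) (nat_lit 29289447686) (nat_lit 532) (nat_lit 1998422541) (nat_lit 532) (nat_lit 1998422541) (nat_lit 64) (nat_lit 3) (nat_lit 71) (nat_lit 3) (nat_lit 71) (nat_lit 5) (nat_lit 320) (nat_lit 320) (nat_lit 260))) (XT.nd (nat_lit 78) (nat_lit 0) (nat_lit 76) (XT.lf (nat_lit 76) (nat_lit 59655168451) (nat_lit 0) (nat_lit 4776737286) (nat_lit 532) (nat_lit 7016832722) (nat_lit 65) (nat_lit 5) (nat_lit 64)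 (nat_lit 3) (nat_lit 71) (nat_lit 5) (nat_lit 321) (nat_lit 320) (nat_lit 259)) (XT.lf (nat_lit 76) (nat_lit 57433416617) (nat_lit 0) (nat_lit 16709365156) (nat_lit 532) (nat_lit 2675143606) (nat_lit 66) (nat_lit 5) (nat_lit 65) (nat_lit 5) (nat_lit 72) (nat_lit 5) (nat_lit 322) (nat_lit 320) (nat_lit 258))))) (XT.nd (nat_lit 312) (nat_lit 836) (nat_lit 0) (XT.nd (nat_lit 156) (nat_lit 532) (nat_lit 0) (XT.nd (nat_lit 78) (nat_lit 0) (nat_lit 76) (XT.lf (nat_lit 0) (nat_lit 5348709687) (nat_lit 532) (nat_lit 26654655074) (nat_lit 608) (nat_lit 50732920980) (nat_lit 59) (nat_lit 5) (nat_lit 66) (nat_lit 5) (nat_lit 67) (nat_lit 5) (nat_lit 323) (nat_lit 320) (nat_lit 257)) (XT.lf (nat_lit 0) (nat_lit 17788870146) (nat_lit 532) (nat_lit 33472691933) (nat_lit 76) (nat_lit 38005592071) (nat_lit 60) (nat_lit 5) (nat_lit 67) (nat_lit 5) (nat_lit 61) (nat_lit 5) (nat_lit 324) (nat_lit 320) (nat_lit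 256))) (XT.nd (nat_lit 78) (nat_lit 228) (nat_lit 0) (XT.lf (nat_lit 0) (nat_lit 35692352811) (nat_lit 456) (nat_lit 39593199612) (nat_lit 76) (nat_lit 21204319099) (nat_lit 55) (nat_lit 5) (nat_lit 61) (nat_lit 5) (nat_lit 56) (nat_lit 5) (nat_lit 325) (nat_lit 320) (nat_lit 255)) (XT.lf (nat_lit 0) (nat_lit 59669273846) (nat_lit 228) (nat_lit 461937443) (nat_lit 304) (nat_lit 44356799156) (nat_lit 52) (nat_lit 5) (nat_lit 55) (nat_lit 5) (nat_lit 56) (nat_lit 5) (nat_lit 326) (nat_lit 320) (nat_lit 254)))) (XT.nd (nat_lit 156) (nat_lit 380) (nat_lit 0) (XT.nd (nat_lit 78) (nat_lit 228) (nat_lit 0) (XT.lf (nat_lit 0) (nat_lit 63721550744) (nat_lit 228) (nat_lit 29285332059) (nat_lit 304) (nat_lit 20297310591) (nat_lit 49) (nat_lit 5) (nat_lit 52) (nat_lit 5) (nat_lit 53) (nat_lit 5) (nat_lit 327) (nat_lit 320) (nat_lit 253)) (XT.lf (nat_lit 0) (nat_lit 11536951519) (nat_lit 228) (nat_lit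 53398872716) (nat_lit 76) (nat_lit 58130032484) (nat_lit 46) (nat_lit 5) (nat_lit 49) (nat_lit 5) (nat_lit 47) (nat_lit 5) (nat_lit 328) (nat_lit 320) (nat_lit 252))) (XT.nd (nat_lit 78) (nat_lit 152) (nat_lit 0) (XT.lf (nat_lit 0) (nat_lit 51795462837) (nat_lit 304) (nat_lit 56435262242) (nat_lit 76) (nat_lit 25630794610) (nat_lit 43) (nat_lit 5) (nat_lit 47) (nat_lit 5) (nat_lit 44) (nat_lit 5) (nat_lit 329) (nat_lit 320) (nat_lit 251)) (XT.lf (nat_lit 0) (nat_lit 87494552982) (nat_lit 152) (nat_lit 16091564254) (nat_lit 228) (nat_lit 42250946732) (nat_lit 41) (nat_lit 5) (nat_lit 43) (nat_lit 5) (nat_lit 44) (nat_lit 5) (nat_lit 330) (nat_lit 320) (nat_lit 250)))))) (XT.nd (nat_lit 546) (nat_lit 836) (nat_lit 0) (XT.nd (nat_lit 234) (nat_lit 608) (nat_lit 0) (XT.nd (nat_lit 78) (nat_lit 304) (nat_lit 0) (XT.lf (nat_lit 0) (nat_lit 9765735374) (nat_lit 228) (nat_lit 59620049735) (nat_lit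 76) (nat_lit 89703854668) (nat_lit 38) (nat_lit 5) (nat_lit 41) (nat_lit 5) (nat_lit 39) (nat_lit 5) (nat_lit 331) (nat_lit 320) (nat_lit 249)) (XT.nd (nat_lit 78) (nat_lit 152) (nat_lit 0) (XT.lf (nat_lit 0) (nat_lit 73107078365) (nat_lit 228) (nat_lit 60505497707) (nat_lit 76) (nat_lit 40147821644) (nat_lit 36) (nat_lit 5) (nat_lit 39) (nat_lit 5) (nat_lit 37) (nat_lit 5) (nat_lit 332) (nat_lit 320) (nat_lit 248)) (XT.lf (nat_lit 0) (nat_lit 129700334471) (nat_lit 152) (nat_lit 23067039607) (nat_lit 228) (nat_lit 37318975880) (nat_lit 34) (nat_lit 5) (nat_lit 36) (nat_lit 5) (nat_lit 37) (nat_lit 5) (nat_lit 333) (nat_lit 320) (nat_lit 247)))) (XT.nd (nat_lit 156) (nat_lit 304) (nat_lit 0) (XT.nd (nat_lit 78) (nat_lit 152) (nat_lit 0) (XT.lf (nat_lit 0) (nat_lit 41817366267) (nat_lit 152) (nat_lit 61043849694) (nat_lit 76) (nat_lit 105285369543) (nat_lit 32) (nat_lit 5) (nat_lit 34) (nat_lit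 5) (nat_lit 33) (nat_lit 5) (nat_lit 334) (nat_lit 320) (nat_lit 246)) (XT.lf (nat_lit 0) (nat_lit 137864034555) (nat_lit 228) (nat_lit 61795481495) (nat_lit 76) (nat_lit 28598828940) (nat_lit 30) (nat_lit 5) (nat_lit 33) (nat_lit 5) (nat_lit 31) (nat_lit 4) (nat_lit 335) (nat_lit 320) (nat_lit 245))) (XT.nd (nat_lit 78) (nat_lit 152) (nat_lit 0) (XT.lf (nat_lit 0) (nat_lit 6487135991) (nat_lit 152) (nat_lit 63808419916) (nat_lit 76) (nat_lit 180344996435) (nat_lit 28) (nat_lit 5) (nat_lit 30) (nat_lit 5) (nat_lit 29) (nat_lit 5) (nat_lit 336) (nat_lit 320) (nat_lit 244)) (XT.lf (nat_lit 0) (nat_lit 121680906796) (nat_lit 228) (nat_lit 69639876928) (nat_lit 76) (nat_lit 84140878345) (nat_lit 26) (nat_lit 5) (nat_lit 29) (nat_lit 5) (nat_lit 27) (nat_lit 4) (nat_lit 337) (nat_lit 320) (nat_lit 243))))) (XT.nd (nat_lit 312) (nat_lit 380) (nat_lit 0) (XT.nd (nat_lit 156) (nat_lit 228) (nat_lit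 0) (XT.nd (nat_lit 78) (nat_lit 152) (nat_lit 0) (XT.lf (nat_lit 0) (nat_lit 225173121145) (nat_lit 76) (nat_lit 38245232951) (nat_lit 152) (nat_lit 39846415593) (nat_lit 25) (nat_lit 5) (nat_lit 26) (nat_lit 5) (nat_lit 27) (nat_lit 4) (nat_lit 338) (nat_lit 320) (nat_lit 242)) (XT.lf (nat_lit 0) (nat_lit 98123731094) (nat_lit 152) (nat_lit 94733964601) (nat_lit 76) (nat_lit 141284681000) (nat_lit 23) (nat_lit 5) (nat_lit 25) (nat_lit 5) (nat_lit 24) (nat_lit 4) (nat_lit 339) (nat_lit 320) (nat_lit 241))) (XT.nd (nat_lit 78) (nat_lit 152) (nat_lit 0) (XT.lf (nat_lit 0) (nat_lit 250082443176) (nat_lit 76) (nat_lit 13818707395) (nat_lit 152) (nat_lit 104909988387) (nat_lit 22) (nat_lit 5) (nat_lit 23) (nat_lit 5) (nat_lit 24) (nat_lit 4) (nat_lit 340) (nat_lit 320) (nat_lit 240)) (XT.lf (nat_lit 0) (nat_lit 57425590988) (nat_lit 152) (nat_lit 157251523765) (nat_lit 76) (nat_lit 192806458695)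 (nat_lit 20) (nat_lit 5) (nat_lit 22) (nat_lit 5) (nat_lit 21) (nat_lit 4) (nat_lit 341) (nat_lit 320) (nat_lit 239)))) (XT.nd (nat_lit 156) (nat_lit 228) (nat_lit 0) (XT.nd (nat_lit 78) (nat_lit 76) (nat_lit 0) (XT.lf (nat_lit 0) (nat_lit 238607628501) (nat_lit 76) (nat_lit 9135072903) (nat_lit 152) (nat_lit 203208734182) (nat_lit 19) (nat_lit 5) (nat_lit 20) (nat_lit 5) (nat_lit 21) (nat_lit 4) (nat_lit 342) (nat_lit 320) (nat_lit 238)) (XT.lf (nat_lit 0) (nat_lit 207594522364) (nat_lit 76) (nat_lit 274167037359) (nat_lit 76) (nat_lit 17965582945) (nat_lit 18) (nat_lit 4) (nat_lit 19) (nat_lit 5) (nat_lit 19) (nat_lit 4) (nat_lit 343) (nat_lit 320) (nat_lit 237))) (XT.nd (nat_lit 78) (nat_lit 76) (nat_lit 0) (XT.lf (nat_lit 0) (nat_lit 150479718062) (nat_lit 76) (nat_lit 45040223627) (nat_lit 152) (nat_lit 359106857114) (nat_lit 16) (nat_lit 5) (nat_lit 17) (nat_lit 5) (nat_lit 18) (nat_lit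 4) (nat_lit 344) (nat_lit 320) (nat_lit 236)) (XT.lf (nat_lit 0) (nat_lit 56970665949) (nat_lit 76) (nat_lit 398373564772) (nat_lit 76) (nat_lit 161149465749) (nat_lit 15) (nat_lit 4) (nat_lit 16) (nat_lit 5) (nat_lit 16) (nat_lit 4) (nat_lit 345) (nat_lit 320) (nat_lit 235))))))) (XT.nd (nat_lit 1170) (nat_lit 228) (nat_lit 0) (XT.nd (nat_lit 546) (nat_lit 380) (nat_lit 0) (XT.nd (nat_lit 234) (nat_lit 228) (nat_lit 0) (XT.nd (nat_lit 78) (nat_lit 152) (nat_lit 0) (XT.lf (nat_lit 0) (nat_lit 76491928839) (nat_lit 152) (nat_lit 78121101443) (nat_lit 76) (nat_lit 531834283852) (nat_lit 14) (nat_lit 5) (nat_lit 16) (nat_lit 5) (nat_lit 15) (nat_lit 4) (nat_lit 346) (nat_lit 320) (nat_lit 234)) (XT.nd (nat_lit 78) (nat_lit 76) (nat_lit 0) (XT.lf (nat_lit 0) (nat_lit 355882247049) (nat_lit 152) (nat_lit 273195374187) (nat_lit 0) (nat_lit 136229932354) (nat_lit 13) (nat_lit 5) (nat_lit 15) (nat_lit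 4) (nat_lit 13) (nat_lit 4) (nat_lit 347) (nat_lit 320) (nat_lit 233)) (XT.lf (nat_lit 0) (nat_lit 307860606161) (nat_lit 76) (nat_lit 383333811641) (nat_lit 76) (nat_lit 163681346833) (nat_lit 12) (nat_lit 4) (nat_lit 13) (nat_lit 5) (nat_lit 13) (nat_lit 4) (nat_lit 348) (nat_lit 320) (nat_lit 232)))) (XT.nd (nat_lit 156) (nat_lit 76) (nat_lit 0) (XT.nd (nat_lit 78) (nat_lit 0) (nat_lit 0) (XT.lf (nat_lit 0) (nat_lit 34009704232) (nat_lit 76) (nat_lit 87943324408) (nat_lit 152) (nat_lit 834979136955) (nat_lit 10) (nat_lit 5) (nat_lit 11) (nat_lit 5) (nat_lit 12) (nat_lit 4) (nat_lit 349) (nat_lit 320) (nat_lit 231)) (XT.lf (nat_lit 0) (nat_lit 463410105663) (nat_lit 152) (nat_lit 348705291550) (nat_lit 0) (nat_lit 260027967840) (nat_lit 10) (nat_lit 5) (nat_lit 12) (nat_lit 4) (nat_lit 10) (nat_lit 4) (nat_lit 350) (nat_lit 320) (nat_lit 230))) (XT.nd (nat_lit 78) (nat_lit 0) (nat_lit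 0) (XT.lf (nat_lit 0) (nat_lit 325494000839) (nat_lit 76) (nat_lit 540851832842) (nat_lit 76) (nat_lit 337469603628) (nat_lit 9) (nat_lit 4) (nat_lit 10) (nat_lit 5) (nat_lit 10) (nat_lit 4) (nat_lit 351) (nat_lit 320) (nat_lit 229)) (XT.lf (nat_lit 0) (nat_lit 1121939092118) (nat_lit 76) (nat_lit 217934693895) (nat_lit 76) (nat_lit 14552385210) (nat_lit 9) (nat_lit 4) (nat_lit 10) (nat_lit 5) (nat_lit 10) (nat_lit 4) (nat_lit 352) (nat_lit 320) (nat_lit 228))))) (XT.nd (nat_lit 312) (nat_lit 152) (nat_lit 0) (XT.nd (nat_lit 156) (nat_lit 76) (nat_lit 0) (XT.nd (nat_lit 78) (nat_lit 0) (nat_lit 0) (XT.lf (nat_lit 0) (nat_lit 355895698121) (nat_lit 152) (nat_lit 1002112288217) (nat_lit 0) (nat_lit 167578681650) (nat_lit 7) (nat_lit 5) (nat_lit 9) (nat_lit 4) (nat_lit 7) (nat_lit 4) (nat_lit 353) (nat_lit 320) (nat_lit 227)) (XT.lf (nat_lit 0) (nat_lit 794045521033) (nat_lit 152) (nat_lit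 321577335358) (nat_lit 0) (nat_lit 605728448922) (nat_lit 7) (nat_lit 5) (nat_lit 9) (nat_lit 4) (nat_lit 7) (nat_lit 4) (nat_lit 354) (nat_lit 320) (nat_lit 226))) (XT.nd (nat_lit 78) (nat_lit 0) (nat_lit 0) (XT.lf (nat_lit 0) (nat_lit 485314814023) (nat_lit 76) (nat_lit 824274608169) (nat_lit 76) (nat_lit 635957487676) (nat_lit 6) (nat_lit 4) (nat_lit 7) (nat_lit 5) (nat_lit 7) (nat_lit 4) (nat_lit 355) (nat_lit 320) (nat_lit 225)) (XT.lf (nat_lit 0) (nat_lit 1432714112204) (nat_lit 76) (nat_lit 479112965956) (nat_lit 76) (nat_lit 290795803391) (nat_lit 6) (nat_lit 4) (nat_lit 7) (nat_lit 5) (nat_lit 7) (nat_lit 4) (nat_lit 356) (nat_lit 320) (nat_lit 224)))) (XT.nd (nat_lit 156) (nat_lit 0) (nat_lit 0) (XT.nd (nat_lit 78) (nat_lit 0) (nat_lit 0) (XT.lf (nat_lit 0) (nat_lit 22537421346) (nat_lit 76) (nat_lit 78834992353) (nat_lit 152) (nat_lit 2396640274319) (nat_lit 4) (nat_lit 5) (nat_lit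 5) (nat_lit 5) (nat_lit 6) (nat_lit 4) (nat_lit 357) (nat_lit 320) (nat_lit 223)) (XT.lf (nat_lit 0) (nat_lit 567808878382) (nat_lit 152) (nat_lit 1873243854395) (nat_lit 0) (nat_lit 393441071936) (nat_lit 4) (nat_lit 5) (nat_lit 6) (nat_lit 4) (nat_lit 4) (nat_lit 4) (nat_lit 358) (nat_lit 320) (nat_lit 222))) (XT.nd (nat_lit 78) (nat_lit 0) (nat_lit 0) (XT.lf (nat_lit 0) (nat_lit 1106391042291) (nat_lit 152) (nat_lit 1182858418039) (nat_lit 0) (nat_lit 932023210232) (nat_lit 4) (nat_lit 5) (nat_lit 6) (nat_lit 4) (nat_lit 4) (nat_lit 4) (nat_lit 359) (nat_lit 320) (nat_lit 221)) (XT.lf (nat_lit 0) (nat_lit 1725760399084) (nat_lit 152) (nat_lit 388915432995) (nat_lit 0) (nat_lit 1551392544752) (nat_lit 4) (nat_lit 5) (nat_lit 6) (nat_lit 4) (nat_lit 4) (nat_lit 4) (nat_lit 360) (nat_lit 320) (nat_lit 220)))))) (XT.nd (nat_lit 624) (nat_lit 0) (nat_lit 0) (XT.nd (nat_lit 312) (nat_lit 152)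 (nat_lit 0) (XT.nd (nat_lit 156) (nat_lit 0) (nat_lit 0) (XT.nd (nat_lit 78) (nat_lit 0) (nat_lit 0) (XT.lf (nat_lit 0) (nat_lit 551717933330) (nat_lit 76) (nat_lit 1899585941107) (nat_lit 76) (nat_lit 1725218067407) (nat_lit 3) (nat_lit 4) (nat_lit 4) (nat_lit 5) (nat_lit 4) (nat_lit 4) (nat_lit 361) (nat_lit 320) (nat_lit 219)) (XT.lf (nat_lit 0) (nat_lit 1656997629377) (nat_lit 76) (nat_lit 1640003991402) (nat_lit 76) (nat_lit 1465636100862) (nat_lit 3) (nat_lit 4) (nat_lit 4) (nat_lit 5) (nat_lit 4) (nat_lit 4) (nat_lit 362) (nat_lit 320) (nat_lit 218))) (XT.nd (nat_lit 78) (nat_lit 0) (nat_lit 0) (XT.lf (nat_lit 0) (nat_lit 2928069095192) (nat_lit 76) (nat_lit 1341484842845) (nat_lit 76) (nat_lit 1167116937659) (nat_lit 3) (nat_lit 4) (nat_lit 4) (nat_lit 5) (nat_lit 4) (nat_lit 4) (nat_lit 363) (nat_lit 320) (nat_lit 217)) (XT.lf (nat_lit 0) (nat_lit 4389801120323) (nat_lit 76) (nat_lit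 998187903397) (nat_lit 76) (nat_lit 823819985477) (nat_lit 3) (nat_lit 4) (nat_lit 4) (nat_lit 5) (nat_lit 4) (nat_lit 4) (nat_lit 364) (nat_lit 320) (nat_lit 216)))) (XT.nd (nat_lit 156) (nat_lit 76) (nat_lit 0) (XT.nd (nat_lit 78) (nat_lit 76) (nat_lit 0) (XT.lf (nat_lit 0) (nat_lit 6070792809609) (nat_lit 76) (nat_lit 603396493809) (nat_lit 76) (nat_lit 429028564816) (nat_lit 3) (nat_lit 4) (nat_lit 4) (nat_lit 5) (nat_lit 4) (nat_lit 4) (nat_lit 365) (nat_lit 320) (nat_lit 215)) (XT.lf (nat_lit 0) (nat_lit 23731828273) (nat_lit 152) (nat_lit 125005735813) (nat_lit 76) (nat_lit 7979552432370) (nat_lit 2) (nat_lit 5) (nat_lit 4) (nat_lit 5) (nat_lit 3) (nat_lit 4) (nat_lit 366) (nat_lit 320) (nat_lit 214))) (XT.nd (nat_lit 78) (nat_lit 0) (nat_lit 0) (XT.lf (nat_lit 0) (nat_lit 552580645158) (nat_lit 152) (nat_lit 8359835756968) (nat_lit 0) (nat_lit 391128842384) (nat_lit 1) (nat_lit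 5) (nat_lit 3) (nat_lit 4) (nat_lit 1) (nat_lit 4) (nat_lit 367) (nat_lit 320) (nat_lit 213)) (XT.lf (nat_lit 0) (nat_lit 1168604385393) (nat_lit 152) (nat_lit 8478704010437) (nat_lit 0) (nat_lit 1007152575877) (nat_lit 1) (nat_lit 5) (nat_lit 3) (nat_lit 4) (nat_lit 1) (nat_lit 4) (nat_lit 368) (nat_lit 320) (nat_lit 212))))) (XT.nd (nat_lit 43134) (nat_lit 0) (nat_lit 4408) (XT.nd (nat_lit 156) (nat_lit 0) (nat_lit 0) (XT.nd (nat_lit 78) (nat_lit 0) (nat_lit 0) (XT.lf (nat_lit 0) (nat_lit 1877031643153) (nat_lit 152) (nat_lit 8615402590539) (nat_lit 0) (nat_lit 1715579827775) (nat_lit 1) (nat_lit 5) (nat_lit 3) (nat_lit 4) (nat_lit 1) (nat_lit 4) (nat_lit 369) (nat_lit 320) (nat_lit 211)) (XT.lf (nat_lit 0) (nat_lit 2691722951741) (nat_lit 152) (nat_lit 8772606034713) (nat_lit 0) (nat_lit 2530271131266) (nat_lit 1) (nat_lit 5) (nat_lit 3) (nat_lit 4) (nat_lit 1) (nat_lit 4) (nat_lit 370)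 (nat_lit 320) (nat_lit 210))) (XT.nd (nat_lit 78) (nat_lit 0) (nat_lit 0) (XT.lf (nat_lit 0) (nat_lit 3628617923718) (nat_lit 152) (nat_lit 8953390062518) (nat_lit 0) (nat_lit 3467166098809) (nat_lit 1) (nat_lit 5) (nat_lit 3) (nat_lit 4) (nat_lit 1) (nat_lit 4) (nat_lit 371) (nat_lit 320) (nat_lit 209)) (XT.lf (nat_lit 0) (nat_lit 4706047112881) (nat_lit 152) (nat_lit 9161291752759) (nat_lit 0) (nat_lit 4544595284118) (nat_lit 1) (nat_lit 5) (nat_lit 3) (nat_lit 4) (nat_lit 1) (nat_lit 4) (nat_lit 372) (nat_lit 320) (nat_lit 208)))) (XT.nd (nat_lit 156) (nat_lit 380) (nat_lit 0) (XT.nd (nat_lit 78) (nat_lit 0) (nat_lit 0) (XT.lf (nat_lit 0) (nat_lit 33706719381) (nat_lit 532) (nat_lit 2285293188) (nat_lit 532) (nat_lit 2285293188) (nat_lit 64) (nat_lit 3) (nat_lit 71) (nat_lit 3) (nat_lit 71) (nat_lit 5) (nat_lit 321) (nat_lit 321) (nat_lit 258)) (XT.lf (nat_lit 76) (nat_lit 68627046576)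 (nat_lit 0) (nat_lit 5511698830) (nat_lit 532) (nat_lit 8023900274) (nat_lit 65) (nat_lit 5) (nat_lit 64) (nat_lit 3) (nat_lit 71) (nat_lit 5) (nat_lit 322) (nat_lit 321) (nat_lit 257))) (XT.nd (nat_lit 78) (nat_lit 456) (nat_lit 0) (XT.lf (nat_lit 76) (nat_lit 66073555742) (nat_lit 0) (nat_lit 19227430256) (nat_lit 532) (nat_lit 3036651107) (nat_lit 66) (nat_lit 5) (nat_lit 65) (nat_lit 5) (nat_lit 72) (nat_lit 5) (nat_lit 323) (nat_lit 321) (nat_lit 256)) (XT.lf (nat_lit 0) (nat_lit 6184254763) (nat_lit 532) (nat_lit 30625094006) (nat_lit 608) (nat_lit 58334693268) (nat_lit 59) (nat_lit 5) (nat_lit 66) (nat_lit 5) (nat_lit 67) (nat_lit 5) (nat_lit 324) (nat_lit 321) (nat_lit 255))))))))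
noncomputable def xc45 : XT := (XT.nd (nat_lit 2418) (nat_lit 456) (nat_lit 0) (XT.nd (nat_lit 1170) (nat_lit 1368) (nat_lit 0) (XT.nd (nat_lit 546) (nat_lit 1216) (nat_lit 0) (XT.nd (nat_lit 234) (nat_lit 836) (nat_lit 0) (XT.nd (nat_lit 78) (nat_lit 608) (nat_lit 0) (XT.lf (nat_lit 0) (nat_lit 20486616205) (nat_lit 532) (nat_lit 38465702335) (nat_lit 76) (nat_lit 43702531598) (nat_lit 60) (nat_lit 5) (nat_lit 67) (nat_lit 5) (nat_lit 61) (nat_lit 5) (nat_lit 325) (nat_lit 321) (nat_lit 254)) (XT.nd (nat_lit 78) (nat_lit 228) (nat_lit 0) (XT.lf (nat_lit 0) (nat_lit 41072382631) (nat_lit 456) (nat_lit 45504515120) (nat_lit 76) (nat_lit 24384339572) (nat_lit 55) (nat_lit 5) (nat_lit 61) (nat_lit 5) (nat_lit 56) (nat_lit 5) (nat_lit 326) (nat_lit 321) (nat_lit 253)) (XT.lf (nat_lit 0) (nat_lit 68644987700) (nat_lit 228) (nat_lit 529276816) (nat_lit 304) (nat_lit 50985059707) (nat_lit 52)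 (nat_lit 5) (nat_lit 55) (nat_lit 5) (nat_lit 56) (nat_lit 5) (nat_lit 327) (nat_lit 321) (nat_lit 252)))) (XT.nd (nat_lit 156) (nat_lit 380) (nat_lit 0) (XT.nd (nat_lit 78) (nat_lit 228) (nat_lit 0) (XT.lf (nat_lit 0) (nat_lit 73304647726) (nat_lit 228) (nat_lit 33674229366) (nat_lit 304) (nat_lit 23319252654) (nat_lit 49) (nat_lit 5) (nat_lit 52) (nat_lit 5) (nat_lit 53) (nat_lit 5) (nat_lit 328) (nat_lit 321) (nat_lit 251)) (XT.lf (nat_lit 0) (nat_lit 13286889816) (nat_lit 228) (nat_lit 61383446442) (nat_lit 76) (nat_lit 66853834676) (nat_lit 46) (nat_lit 5) (nat_lit 49) (nat_lit 5) (nat_lit 47) (nat_lit 5) (nat_lit 329) (nat_lit 321) (nat_lit 250))) (XT.nd (nat_lit 78) (nat_lit 152) (nat_lit 0) (XT.lf (nat_lit 0) (nat_lit 59582341020) (nat_lit 304) (nat_lit 64876164581) (nat_lit 76) (nat_lit 29480826343) (nat_lit 43) (nat_lit 5) (nat_lit 47) (nat_lit 5) (nat_lit 44) (nat_lit 5) (nat_lit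 330) (nat_lit 321) (nat_lit 249)) (XT.lf (nat_lit 0) (nat_lit 100641058690) (nat_lit 152) (nat_lit 18498781480) (nat_lit 228) (nat_lit 48571509403) (nat_lit 41) (nat_lit 5) (nat_lit 43) (nat_lit 5) (nat_lit 44) (nat_lit 5) (nat_lit 331) (nat_lit 321) (nat_lit 248))))) (XT.nd (nat_lit 312) (nat_lit 532) (nat_lit 0) (XT.nd (nat_lit 156) (nat_lit 304) (nat_lit 0) (XT.nd (nat_lit 78) (nat_lit 152) (nat_lit 0) (XT.lf (nat_lit 0) (nat_lit 11245373600) (nat_lit 228) (nat_lit 68540815388) (nat_lit 76) (nat_lit 103165706822) (nat_lit 38) (nat_lit 5) (nat_lit 41) (nat_lit 5) (nat_lit 39) (nat_lit 5) (nat_lit 332) (nat_lit 321) (nat_lit 247)) (XT.lf (nat_lit 0) (nat_lit 84086648933) (nat_lit 228) (nat_lit 69560058129) (nat_lit 76) (nat_lit 46176662910) (nat_lit 36) (nat_lit 5) (nat_lit 39) (nat_lit 5) (nat_lit 37) (nat_lit 5) (nat_lit 333) (nat_lit 321) (nat_lit 246))) (XT.nd (nat_lit 78) (nat_lit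 152) (nat_lit 0) (XT.lf (nat_lit 0) (nat_lit 149174848965) (nat_lit 152) (nat_lit 26519846137) (nat_lit 228) (nat_lit 42903624334) (nat_lit 34) (nat_lit 5) (nat_lit 36) (nat_lit 5) (nat_lit 37) (nat_lit 5) (nat_lit 334) (nat_lit 321) (nat_lit 245)) (XT.lf (nat_lit 0) (nat_lit 48101487001) (nat_lit 152) (nat_lit 70181259077) (nat_lit 76) (nat_lit 121084901302) (nat_lit 32) (nat_lit 5) (nat_lit 34) (nat_lit 5) (nat_lit 33) (nat_lit 5) (nat_lit 335) (nat_lit 321) (nat_lit 244)))) (XT.nd (nat_lit 156) (nat_lit 228) (nat_lit 0) (XT.nd (nat_lit 78) (nat_lit 152) (nat_lit 0) (XT.lf (nat_lit 0) (nat_lit 158554246436) (nat_lit 228) (nat_lit 71046590189) (nat_lit 76) (nat_lit 32895407501) (nat_lit 30) (nat_lit 5) (nat_lit 33) (nat_lit 5) (nat_lit 31) (nat_lit 4) (nat_lit 336) (nat_lit 321) (nat_lit 243)) (XT.lf (nat_lit 0) (nat_lit 7470083909) (nat_lit 152) (nat_lit 73362487643) (nat_lit 76) (nat_lit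 207403270157) (nat_lit 28) (nat_lit 5) (nat_lit 30) (nat_lit 5) (nat_lit 29) (nat_lit 5) (nat_lit 337) (nat_lit 321) (nat_lit 242))) (XT.nd (nat_lit 78) (nat_lit 76) (nat_lit 0) (XT.lf (nat_lit 0) (nat_lit 139942173373) (nat_lit 228) (nat_lit 80069561300) (nat_lit 76) (nat_lit 96768443407) (nat_lit 26) (nat_lit 5) (nat_lit 29) (nat_lit 5) (nat_lit 27) (nat_lit 4) (nat_lit 338) (nat_lit 321) (nat_lit 241)) (XT.lf (nat_lit 0) (nat_lit 258964007011) (nat_lit 76) (nat_lit 43975398587) (nat_lit 152) (nat_lit 45814413192) (nat_lit 25) (nat_lit 5) (nat_lit 26) (nat_lit 5) (nat_lit 27) (nat_lit 4) (nat_lit 339) (nat_lit 321) (nat_lit 240)))))) (XT.nd (nat_lit 624) (nat_lit 532) (nat_lit 0) (XT.nd (nat_lit 312) (nat_lit 380) (nat_lit 0) (XT.nd (nat_lit 156) (nat_lit 228) (nat_lit 0) (XT.nd (nat_lit 78) (nat_lit 76) (nat_lit 0) (XT.lf (nat_lit 0) (nat_lit 112850186638) (nat_lit 152) (nat_lit 108929522295)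 (nat_lit 76) (nat_lit 162483390598) (nat_lit 23) (nat_lit 5) (nat_lit 25) (nat_lit 5) (nat_lit 24) (nat_lit 4) (nat_lit 340) (nat_lit 321) (nat_lit 239)) (XT.lf (nat_lit 0) (nat_lit 287608116164) (nat_lit 76) (nat_lit 15885392997) (nat_lit 152) (nat_lit 120638724023) (nat_lit 22) (nat_lit 5) (nat_lit 23) (nat_lit 5) (nat_lit 24) (nat_lit 4) (nat_lit 341) (nat_lit 321) (nat_lit 238))) (XT.nd (nat_lit 78) (nat_lit 76) (nat_lit 0) (XT.lf (nat_lit 0) (nat_lit 66046283639) (nat_lit 152) (nat_lit 180826316758) (nat_lit 76) (nat_lit 221732959349) (nat_lit 20) (nat_lit 5) (nat_lit 22) (nat_lit 5) (nat_lit 21) (nat_lit 4) (nat_lit 342) (nat_lit 321) (nat_lit 237)) (XT.lf (nat_lit 0) (nat_lit 274410613417) (nat_lit 76) (nat_lit 10499737968) (nat_lit 152) (nat_lit 233683298741) (nat_lit 19) (nat_lit 5) (nat_lit 20) (nat_lit 5) (nat_lit 21) (nat_lit 4) (nat_lit 343) (nat_lit 321) (nat_lit 236)))) (XT.nd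 (nat_lit 156) (nat_lit 152) (nat_lit 0) (XT.nd (nat_lit 78) (nat_lit 152) (nat_lit 0) (XT.lf (nat_lit 0) (nat_lit 238744874327) (nat_lit 76) (nat_lit 315286735343) (nat_lit 76) (nat_lit 20654138062) (nat_lit 18) (nat_lit 4) (nat_lit 19) (nat_lit 5) (nat_lit 19) (nat_lit 4) (nat_lit 344) (nat_lit 321) (nat_lit 235)) (XT.lf (nat_lit 0) (nat_lit 173062192151) (nat_lit 76) (nat_lit 51791183324) (nat_lit 152) (nat_lit 412967006893) (nat_lit 16) (nat_lit 5) (nat_lit 17) (nat_lit 5) (nat_lit 18) (nat_lit 4) (nat_lit 345) (nat_lit 321) (nat_lit 234))) (XT.nd (nat_lit 78) (nat_lit 76) (nat_lit 0) (XT.lf (nat_lit 0) (nat_lit 65526179693) (nat_lit 76) (nat_lit 458124762813) (nat_lit 76) (nat_lit 185316401520) (nat_lit 15) (nat_lit 4) (nat_lit 16) (nat_lit 5) (nat_lit 16) (nat_lit 4) (nat_lit 346) (nat_lit 321) (nat_lit 233)) (XT.lf (nat_lit 0) (nat_lit 87970248387) (nat_lit 152) (nat_lit 89830406769)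 (nat_lit 76) (nat_lit 611613393085) (nat_lit 14) (nat_lit 5) (nat_lit 16) (nat_lit 5) (nat_lit 15) (nat_lit 4) (nat_lit 347) (nat_lit 321) (nat_lit 232))))) (XT.nd (nat_lit 312) (nat_lit 228) (nat_lit 0) (XT.nd (nat_lit 156) (nat_lit 152) (nat_lit 0) (XT.nd (nat_lit 78) (nat_lit 76) (nat_lit 0) (XT.lf (nat_lit 0) (nat_lit 409268814087) (nat_lit 152) (nat_lit 314166334716) (nat_lit 0) (nat_lit 156668198910) (nat_lit 13) (nat_lit 5) (nat_lit 15) (nat_lit 4) (nat_lit 13) (nat_lit 4) (nat_lit 348) (nat_lit 321) (nat_lit 231)) (XT.lf (nat_lit 0) (nat_lit 354047336272) (nat_lit 76) (nat_lit 440830106167) (nat_lit 76) (nat_lit 188229377483) (nat_lit 12) (nat_lit 4) (nat_lit 13) (nat_lit 5) (nat_lit 13) (nat_lit 4) (nat_lit 349) (nat_lit 321) (nat_lit 230))) (XT.nd (nat_lit 78) (nat_lit 0) (nat_lit 0) (XT.lf (nat_lit 0) (nat_lit 39118343823) (nat_lit 76) (nat_lit 101131257719) (nat_lit 152) (nat_lit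 960222099042) (nat_lit 10) (nat_lit 5) (nat_lit 11) (nat_lit 5) (nat_lit 12) (nat_lit 4) (nat_lit 350) (nat_lit 321) (nat_lit 229)) (XT.lf (nat_lit 0) (nat_lit 532924842688) (nat_lit 152) (nat_lit 401004660883) (nat_lit 0) (nat_lit 299035108231) (nat_lit 10) (nat_lit 5) (nat_lit 12) (nat_lit 4) (nat_lit 10) (nat_lit 4) (nat_lit 351) (nat_lit 321) (nat_lit 228)))) (XT.nd (nat_lit 156) (nat_lit 152) (nat_lit 0) (XT.nd (nat_lit 78) (nat_lit 0) (nat_lit 0) (XT.lf (nat_lit 0) (nat_lit 374323981572) (nat_lit 76) (nat_lit 621976669612) (nat_lit 76) (nat_lit 388086866051) (nat_lit 9) (nat_lit 4) (nat_lit 10) (nat_lit 5) (nat_lit 10) (nat_lit 4) (nat_lit 352) (nat_lit 321) (nat_lit 227)) (XT.lf (nat_lit 0) (nat_lit 1290235069507) (nat_lit 76) (nat_lit 250622343061) (nat_lit 76) (nat_lit 16732479408) (nat_lit 9) (nat_lit 4) (nat_lit 10) (nat_lit 5) (nat_lit 10) (nat_lit 4) (nat_lit 353) (nat_lit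 321) (nat_lit 226))) (XT.nd (nat_lit 78) (nat_lit 0) (nat_lit 0) (XT.lf (nat_lit 0) (nat_lit 409282509298) (nat_lit 152) (nat_lit 1152424189832) (nat_lit 0) (nat_lit 192717772348) (nat_lit 7) (nat_lit 5) (nat_lit 9) (nat_lit 4) (nat_lit 7) (nat_lit 4) (nat_lit 354) (nat_lit 321) (nat_lit 225)) (XT.lf (nat_lit 0) (nat_lit 913154485238) (nat_lit 152) (nat_lit 369809638603) (nat_lit 0) (nat_lit 696589706217) (nat_lit 7) (nat_lit 5) (nat_lit 9) (nat_lit 4) (nat_lit 7) (nat_lit 4) (nat_lit 355) (nat_lit 321) (nat_lit 224))))))) (XT.nd (nat_lit 1170) (nat_lit 0) (nat_lit 0) (XT.nd (nat_lit 546) (nat_lit 152) (nat_lit 0) (XT.nd (nat_lit 234) (nat_lit 76) (nat_lit 0) (XT.nd (nat_lit 78) (nat_lit 152) (nat_lit 0) (XT.lf (nat_lit 0) (nat_lit 558115969461) (nat_lit 76) (nat_lit 947913818092) (nat_lit 76) (nat_lit 731349002487) (nat_lit 6) (nat_lit 4) (nat_lit 7) (nat_lit 5) (nat_lit 7) (nat_lit 4)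 (nat_lit 356) (nat_lit 321) (nat_lit 223)) (XT.nd (nat_lit 78) (nat_lit 152) (nat_lit 0) (XT.lf (nat_lit 0) (nat_lit 1647624649325) (nat_lit 76) (nat_lit 550978187978) (nat_lit 76) (nat_lit 334413340561) (nat_lit 6) (nat_lit 4) (nat_lit 7) (nat_lit 5) (nat_lit 7) (nat_lit 4) (nat_lit 357) (nat_lit 321) (nat_lit 222)) (XT.lf (nat_lit 0) (nat_lit 25921249383) (nat_lit 76) (nat_lit 90658618147) (nat_lit 152) (nat_lit 2756134596247) (nat_lit 4) (nat_lit 5) (nat_lit 5) (nat_lit 5) (nat_lit 6) (nat_lit 4) (nat_lit 358) (nat_lit 321) (nat_lit 221)))) (XT.nd (nat_lit 156) (nat_lit 76) (nat_lit 0) (XT.nd (nat_lit 78) (nat_lit 0) (nat_lit 0) (XT.lf (nat_lit 0) (nat_lit 652981628235) (nat_lit 152) (nat_lit 2154227560168) (nat_lit 0) (nat_lit 452458573481) (nat_lit 4) (nat_lit 5) (nat_lit 6) (nat_lit 4) (nat_lit 4) (nat_lit 4) (nat_lit 359) (nat_lit 321) (nat_lit 220)) (XT.lf (nat_lit 0) (nat_lit 1272350931762)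 (nat_lit 152) (nat_lit 1360284683017) (nat_lit 0) (nat_lit 1071827857640) (nat_lit 4) (nat_lit 5) (nat_lit 6) (nat_lit 4) (nat_lit 4) (nat_lit 4) (nat_lit 360) (nat_lit 321) (nat_lit 219))) (XT.nd (nat_lit 78) (nat_lit 76) (nat_lit 0) (XT.lf (nat_lit 0) (nat_lit 1984625531231) (nat_lit 152) (nat_lit 447250576007) (nat_lit 0) (nat_lit 1784102440268) (nat_lit 4) (nat_lit 5) (nat_lit 6) (nat_lit 4) (nat_lit 4) (nat_lit 4) (nat_lit 361) (nat_lit 321) (nat_lit 218)) (XT.lf (nat_lit 0) (nat_lit 634477611423) (nat_lit 76) (nat_lit 2184522824414) (nat_lit 76) (nat_lit 1983999718806) (nat_lit 3) (nat_lit 4) (nat_lit 4) (nat_lit 5) (nat_lit 4) (nat_lit 4) (nat_lit 362) (nat_lit 321) (nat_lit 217))))) (XT.nd (nat_lit 312) (nat_lit 152) (nat_lit 0) (XT.nd (nat_lit 156) (nat_lit 0) (nat_lit 0) (XT.nd (nat_lit 78) (nat_lit 0) (nat_lit 0) (XT.lf (nat_lit 0) (nat_lit 1905549002561) (nat_lit 76) (nat_lit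 1886003713714) (nat_lit 76) (nat_lit 1685480595372) (nat_lit 3) (nat_lit 4) (nat_lit 4) (nat_lit 5) (nat_lit 4) (nat_lit 4) (nat_lit 363) (nat_lit 321) (nat_lit 216)) (XT.lf (nat_lit 0) (nat_lit 3367280962755) (nat_lit 76) (nat_lit 1542706807186) (nat_lit 76) (nat_lit 1342183677770) (nat_lit 3) (nat_lit 4) (nat_lit 4) (nat_lit 5) (nat_lit 4) (nat_lit 4) (nat_lit 364) (nat_lit 321) (nat_lit 215))) (XT.nd (nat_lit 78) (nat_lit 0) (nat_lit 0) (XT.lf (nat_lit 0) (nat_lit 5048272595575) (nat_lit 76) (nat_lit 1147915426224) (nat_lit 76) (nat_lit 947392287178) (nat_lit 3) (nat_lit 4) (nat_lit 4) (nat_lit 5) (nat_lit 4) (nat_lit 4) (nat_lit 365) (nat_lit 321) (nat_lit 214)) (XT.lf (nat_lit 0) (nat_lit 6981412867750) (nat_lit 76) (nat_lit 693905391634) (nat_lit 76) (nat_lit 493382244216) (nat_lit 3) (nat_lit 4) (nat_lit 4) (nat_lit 5) (nat_lit 4) (nat_lit 4) (nat_lit 366) (nat_lit 321) (nat_lit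 213)))) (XT.nd (nat_lit 156) (nat_lit 0) (nat_lit 0) (XT.nd (nat_lit 78) (nat_lit 76) (nat_lit 0) (XT.lf (nat_lit 0) (nat_lit 27292102550) (nat_lit 152) (nat_lit 143755581393) (nat_lit 76) (nat_lit 9176485771952) (nat_lit 2) (nat_lit 5) (nat_lit 4) (nat_lit 5) (nat_lit 3) (nat_lit 4) (nat_lit 367) (nat_lit 321) (nat_lit 212)) (XT.lf (nat_lit 0) (nat_lit 635468210431) (nat_lit 152) (nat_lit 9613810166368) (nat_lit 0) (nat_lit 449798616884) (nat_lit 1) (nat_lit 5) (nat_lit 3) (nat_lit 4) (nat_lit 1) (nat_lit 4) (nat_lit 368) (nat_lit 321) (nat_lit 211))) (XT.nd (nat_lit 78) (nat_lit 0) (nat_lit 0) (XT.lf (nat_lit 0) (nat_lit 1343895450593) (nat_lit 152) (nat_lit 9750508782311) (nat_lit 0) (nat_lit 1158225851948) (nat_lit 1) (nat_lit 5) (nat_lit 3) (nat_lit 4) (nat_lit 1) (nat_lit 4) (nat_lit 369) (nat_lit 321) (nat_lit 210)) (XT.lf (nat_lit 0) (nat_lit 2158586743878) (nat_lit 152) (nat_lit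 9907712257650) (nat_lit 0) (nat_lit 1972917140801) (nat_lit 1) (nat_lit 5) (nat_lit 3) (nat_lit 4) (nat_lit 1) (nat_lit 4) (nat_lit 370) (nat_lit 321) (nat_lit 209)))))) (XT.nd (nat_lit 43524) (nat_lit 0) (nat_lit 2508) (XT.nd (nat_lit 43212) (nat_lit 0) (nat_lit 4104) (XT.nd (nat_lit 43056) (nat_lit 0) (nat_lit 4788) (XT.nd (nat_lit 78) (nat_lit 0) (nat_lit 0) (XT.lf (nat_lit 0) (nat_lit 3095481702548) (nat_lit 152) (nat_lit 10088496312555) (nat_lit 0) (nat_lit 2909812095616) (nat_lit 1) (nat_lit 5) (nat_lit 3) (nat_lit 4) (nat_lit 1) (nat_lit 4) (nat_lit 371) (nat_lit 321) (nat_lit 208)) (XT.lf (nat_lit 0) (nat_lit 4172910880141) (nat_lit 152) (nat_lit 10296398026361) (nat_lit 0) (nat_lit 3987241269857) (nat_lit 1) (nat_lit 5) (nat_lit 3) (nat_lit 4) (nat_lit 1) (nat_lit 4) (nat_lit 372) (nat_lit 321) (nat_lit 207))) (XT.nd (nat_lit 78) (nat_lit 0) (nat_lit 0) (XT.lf (nat_lit 0) (nat_lit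 38780764749) (nat_lit 532) (nat_lit 2618338406) (nat_lit 532) (nat_lit 2618338406) (nat_lit 64) (nat_lit 3) (nat_lit 71) (nat_lit 3) (nat_lit 71) (nat_lit 5) (nat_lit 322) (nat_lit 322) (nat_lit 256)) (XT.lf (nat_lit 76) (nat_lit 78938950714) (nat_lit 0) (nat_lit 6352405224) (nat_lit 532) (nat_lit 9193113024) (nat_lit 65) (nat_lit 5) (nat_lit 64) (nat_lit 3) (nat_lit 71) (nat_lit 5) (nat_lit 323) (nat_lit 322) (nat_lit 255)))) (XT.nd (nat_lit 156) (nat_lit 304) (nat_lit 0) (XT.nd (nat_lit 78) (nat_lit 456) (nat_lit 0) (XT.lf (nat_lit 76) (nat_lit 76003588447) (nat_lit 0) (nat_lit 22120361677) (nat_lit 532) (nat_lit 3462081446) (nat_lit 66) (nat_lit 5) (nat_lit 65) (nat_lit 5) (nat_lit 72) (nat_lit 5) (nat_lit 324) (nat_lit 322) (nat_lit 254)) (XT.lf (nat_lit 0) (nat_lit 7137026153) (nat_lit 532) (nat_lit 35197868066) (nat_lit 608) (nat_lit 67078722696) (nat_lit 59) (nat_lit 5) (nat_lit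 66) (nat_lit 5) (nat_lit 67) (nat_lit 5) (nat_lit 325) (nat_lit 322) (nat_lit 253))) (XT.nd (nat_lit 78) (nat_lit 380) (nat_lit 0) (XT.lf (nat_lit 0) (nat_lit 23581851009) (nat_lit 532) (nat_lit 44214466276) (nat_lit 76) (nat_lit 50254962920) (nat_lit 60) (nat_lit 5) (nat_lit 67) (nat_lit 5) (nat_lit 61) (nat_lit 5) (nat_lit 326) (nat_lit 322) (nat_lit 252)) (XT.lf (nat_lit 0) (nat_lit 47253033522) (nat_lit 456) (nat_lit 52309274103) (nat_lit 76) (nat_lit 28041516109) (nat_lit 55) (nat_lit 5) (nat_lit 61) (nat_lit 5) (nat_lit 56) (nat_lit 5) (nat_lit 327) (nat_lit 322) (nat_lit 251))))) (XT.nd (nat_lit 312) (nat_lit 684) (nat_lit 0) (XT.nd (nat_lit 156) (nat_lit 456) (nat_lit 0) (XT.nd (nat_lit 78) (nat_lit 228) (nat_lit 0) (XT.lf (nat_lit 0) (nat_lit 78960883512) (nat_lit 228) (nat_lit 607192919) (nat_lit 304) (nat_lit 58613718987) (nat_lit 52) (nat_lit 5) (nat_lit 55) (nat_lit 5) (nat_lit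 56) (nat_lit 5) (nat_lit 328) (nat_lit 322) (nat_lit 250)) (XT.lf (nat_lit 0) (nat_lit 84319145921) (nat_lit 228) (nat_lit 38722412918) (nat_lit 304) (nat_lit 26800010475) (nat_lit 49) (nat_lit 5) (nat_lit 52) (nat_lit 5) (nat_lit 53) (nat_lit 5) (nat_lit 329) (nat_lit 322) (nat_lit 249))) (XT.nd (nat_lit 78) (nat_lit 228) (nat_lit 0) (XT.lf (nat_lit 0) (nat_lit 15294589124) (nat_lit 228) (nat_lit 70571865350) (nat_lit 76) (nat_lit 76885159269) (nat_lit 46) (nat_lit 5) (nat_lit 49) (nat_lit 5) (nat_lit 47) (nat_lit 5) (nat_lit 330) (nat_lit 322) (nat_lit 248)) (XT.lf (nat_lit 0) (nat_lit 68532969116) (nat_lit 304) (nat_lit 74589149194) (nat_lit 76) (nat_lit 33907042954) (nat_lit 43) (nat_lit 5) (nat_lit 47) (nat_lit 5) (nat_lit 44) (nat_lit 5) (nat_lit 331) (nat_lit 322) (nat_lit 247)))) (XT.nd (nat_lit 156) (nat_lit 304) (nat_lit 0) (XT.nd (nat_lit 78) (nat_lit 228) (nat_lit 0) (XT.lf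 (nat_lit 0) (nat_lit 115754096707) (nat_lit 152) (nat_lit 21268670602) (nat_lit 228) (nat_lit 55844321379) (nat_lit 41) (nat_lit 5) (nat_lit 43) (nat_lit 5) (nat_lit 44) (nat_lit 5) (nat_lit 332) (nat_lit 322) (nat_lit 246)) (XT.lf (nat_lit 0) (nat_lit 12943353870) (nat_lit 228) (nat_lit 78805119695) (nat_lit 76) (nat_lit 118645306855) (nat_lit 38) (nat_lit 5) (nat_lit 41) (nat_lit 5) (nat_lit 39) (nat_lit 5) (nat_lit 333) (nat_lit 322) (nat_lit 245))) (XT.nd (nat_lit 78) (nat_lit 152) (nat_lit 0) (XT.lf (nat_lit 0) (nat_lit 96709860877) (nat_lit 228) (nat_lit 79977988033) (nat_lit 76) (nat_lit 53108204327) (nat_lit 36) (nat_lit 5) (nat_lit 39) (nat_lit 5) (nat_lit 37) (nat_lit 5) (nat_lit 334) (nat_lit 322) (nat_lit 244)) (XT.lf (nat_lit 0) (nat_lit 171565794134) (nat_lit 152) (nat_lit 30492341462) (nat_lit 228) (nat_lit 49329188455) (nat_lit 34) (nat_lit 5) (nat_lit 36) (nat_lit 5) (nat_lit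 37) (nat_lit 5) (nat_lit 335) (nat_lit 322) (nat_lit 243))))))))
noncomputable def xc46 : XT := (XT.nd (nat_lit 2340) (nat_lit 152) (nat_lit 0) (XT.nd (nat_lit 1170) (nat_lit 684) (nat_lit 0) (XT.nd (nat_lit 546) (nat_lit 760) (nat_lit 0) (XT.nd (nat_lit 234) (nat_lit 456) (nat_lit 0) (XT.nd (nat_lit 78) (nat_lit 304) (nat_lit 0) (XT.lf (nat_lit 0) (nat_lit 55325417645) (nat_lit 152) (nat_lit 80693954123) (nat_lit 76) (nat_lit 139252722567) (nat_lit 32) (nat_lit 5) (nat_lit 34) (nat_lit 5) (nat_lit 33) (nat_lit 5) (nat_lit 336) (nat_lit 322) (nat_lit 242)) (XT.nd (nat_lit 78) (nat_lit 152) (nat_lit 0) (XT.lf (nat_lit 0) (nat_lit 182345403588) (nat_lit 228) (nat_lit 81689806673) (nat_lit 76) (nat_lit 37834825786) (nat_lit 30) (nat_lit 5) (nat_lit 33) (nat_lit 5) (nat_lit 31) (nat_lit 4) (nat_lit 337) (nat_lit 322) (nat_lit 241)) (XT.lf (nat_lit 0) (nat_lit 8598065320) (nat_lit 152) (nat_lit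 84353858703) (nat_lit 76) (nat_lit 238518693956) (nat_lit 28) (nat_lit 5) (nat_lit 30) (nat_lit 5) (nat_lit 29) (nat_lit 5) (nat_lit 338) (nat_lit 322) (nat_lit 240)))) (XT.nd (nat_lit 156) (nat_lit 228) (nat_lit 0) (XT.nd (nat_lit 78) (nat_lit 76) (nat_lit 0) (XT.lf (nat_lit 0) (nat_lit 160940403393) (nat_lit 228) (nat_lit 92067672494) (nat_lit 76) (nat_lit 111288574426) (nat_lit 26) (nat_lit 5) (nat_lit 29) (nat_lit 5) (nat_lit 27) (nat_lit 4) (nat_lit 339) (nat_lit 322) (nat_lit 239)) (XT.lf (nat_lit 0) (nat_lit 297819887982) (nat_lit 76) (nat_lit 50566703228) (nat_lit 152) (nat_lit 52679796541) (nat_lit 25) (nat_lit 5) (nat_lit 26) (nat_lit 5) (nat_lit 27) (nat_lit 4) (nat_lit 340) (nat_lit 322) (nat_lit 238))) (XT.nd (nat_lit 78) (nat_lit 76) (nat_lit 0) (XT.lf (nat_lit 0) (nat_lit 129783685053) (nat_lit 152) (nat_lit 125257958581) (nat_lit 76) (nat_lit 186860441682) (nat_lit 23) (nat_lit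 5) (nat_lit 25) (nat_lit 5) (nat_lit 24) (nat_lit 4) (nat_lit 341) (nat_lit 322) (nat_lit 237)) (XT.lf (nat_lit 0) (nat_lit 330759395224) (nat_lit 76) (nat_lit 18263573964) (nat_lit 152) (nat_lit 138728662969) (nat_lit 22) (nat_lit 5) (nat_lit 23) (nat_lit 5) (nat_lit 24) (nat_lit 4) (nat_lit 342) (nat_lit 322) (nat_lit 236))))) (XT.nd (nat_lit 312) (nat_lit 304) (nat_lit 0) (XT.nd (nat_lit 156) (nat_lit 228) (nat_lit 0) (XT.nd (nat_lit 78) (nat_lit 76) (nat_lit 0) (XT.lf (nat_lit 0) (nat_lit 75958408796) (nat_lit 152) (nat_lit 207940483121) (nat_lit 76) (nat_lit 254997086124) (nat_lit 20) (nat_lit 5) (nat_lit 22) (nat_lit 5) (nat_lit 21) (nat_lit 4) (nat_lit 343) (nat_lit 322) (nat_lit 235)) (XT.lf (nat_lit 0) (nat_lit 315581158655) (nat_lit 76) (nat_lit 12070467382) (nat_lit 152) (nat_lit 268730692933) (nat_lit 19) (nat_lit 5) (nat_lit 20) (nat_lit 5) (nat_lit 21) (nat_lit 4) (nat_lit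 344) (nat_lit 322) (nat_lit 234))) (XT.nd (nat_lit 78) (nat_lit 152) (nat_lit 0) (XT.lf (nat_lit 0) (nat_lit 274565054329) (nat_lit 76) (nat_lit 362575694513) (nat_lit 76) (nat_lit 23747508432) (nat_lit 18) (nat_lit 4) (nat_lit 19) (nat_lit 5) (nat_lit 19) (nat_lit 4) (nat_lit 345) (nat_lit 322) (nat_lit 233)) (XT.lf (nat_lit 0) (nat_lit 199029472869) (nat_lit 76) (nat_lit 59556024266) (nat_lit 152) (nat_lit 474907612718) (nat_lit 16) (nat_lit 5) (nat_lit 17) (nat_lit 5) (nat_lit 18) (nat_lit 4) (nat_lit 346) (nat_lit 322) (nat_lit 232)))) (XT.nd (nat_lit 156) (nat_lit 152) (nat_lit 0) (XT.nd (nat_lit 78) (nat_lit 76) (nat_lit 0) (XT.lf (nat_lit 0) (nat_lit 75362602944) (nat_lit 76) (nat_lit 526839820013) (nat_lit 76) (nat_lit 213109714988) (nat_lit 15) (nat_lit 4) (nat_lit 16) (nat_lit 5) (nat_lit 16) (nat_lit 4) (nat_lit 347) (nat_lit 322) (nat_lit 231)) (XT.lf (nat_lit 0) (nat_lit 101169211143)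 (nat_lit 152) (nat_lit 103298268434) (nat_lit 76) (nat_lit 703358401409) (nat_lit 14) (nat_lit 5) (nat_lit 16) (nat_lit 5) (nat_lit 15) (nat_lit 4) (nat_lit 348) (nat_lit 322) (nat_lit 230))) (XT.nd (nat_lit 78) (nat_lit 76) (nat_lit 0) (XT.lf (nat_lit 0) (nat_lit 470662334672) (nat_lit 152) (nat_lit 361284974450) (nat_lit 0) (nat_lit 180171284476) (nat_lit 13) (nat_lit 5) (nat_lit 15) (nat_lit 4) (nat_lit 13) (nat_lit 4) (nat_lit 349) (nat_lit 322) (nat_lit 229)) (XT.lf (nat_lit 0) (nat_lit 407160213035) (nat_lit 76) (nat_lit 506951765971) (nat_lit 76) (nat_lit 216460629947) (nat_lit 12) (nat_lit 4) (nat_lit 13) (nat_lit 5) (nat_lit 13) (nat_lit 4) (nat_lit 350) (nat_lit 322) (nat_lit 228)))))) (XT.nd (nat_lit 546) (nat_lit 228) (nat_lit 0) (XT.nd (nat_lit 234) (nat_lit 228) (nat_lit 0) (XT.nd (nat_lit 78) (nat_lit 76) (nat_lit 0) (XT.lf (nat_lit 0) (nat_lit 44991527499) (nat_lit 76) (nat_lit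 116298250459) (nat_lit 152) (nat_lit 1104252458543) (nat_lit 10) (nat_lit 5) (nat_lit 11) (nat_lit 5) (nat_lit 12) (nat_lit 4) (nat_lit 351) (nat_lit 322) (nat_lit 227)) (XT.nd (nat_lit 78) (nat_lit 76) (nat_lit 0) (XT.lf (nat_lit 0) (nat_lit 612866004763) (nat_lit 152) (nat_lit 461150502245) (nat_lit 0) (nat_lit 343892601472) (nat_lit 10) (nat_lit 5) (nat_lit 12) (nat_lit 4) (nat_lit 10) (nat_lit 4) (nat_lit 352) (nat_lit 322) (nat_lit 226)) (XT.lf (nat_lit 0) (nat_lit 430477025392) (nat_lit 76) (nat_lit 715270948386) (nat_lit 76) (nat_lit 446297492842) (nat_lit 9) (nat_lit 4) (nat_lit 10) (nat_lit 5) (nat_lit 10) (nat_lit 4) (nat_lit 353) (nat_lit 322) (nat_lit 225)))) (XT.nd (nat_lit 156) (nat_lit 76) (nat_lit 0) (XT.nd (nat_lit 78) (nat_lit 152) (nat_lit 0) (XT.lf (nat_lit 0) (nat_lit 1483774196527) (nat_lit 76) (nat_lit 288213762635) (nat_lit 76) (nat_lit 19240261653) (nat_lit 9) (nat_lit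 4) (nat_lit 10) (nat_lit 5) (nat_lit 10) (nat_lit 4) (nat_lit 354) (nat_lit 322) (nat_lit 224)) (XT.lf (nat_lit 0) (nat_lit 470676743128) (nat_lit 152) (nat_lit 1325284081734) (nat_lit 0) (nat_lit 221627168598) (nat_lit 7) (nat_lit 5) (nat_lit 9) (nat_lit 4) (nat_lit 7) (nat_lit 4) (nat_lit 355) (nat_lit 322) (nat_lit 223))) (XT.nd (nat_lit 78) (nat_lit 76) (nat_lit 0) (XT.lf (nat_lit 0) (nat_lit 1050129273185) (nat_lit 152) (nat_lit 425277835199) (nat_lit 0) (nat_lit 801079666843) (nat_lit 7) (nat_lit 5) (nat_lit 9) (nat_lit 4) (nat_lit 7) (nat_lit 4) (nat_lit 356) (nat_lit 322) (nat_lit 222)) (XT.lf (nat_lit 0) (nat_lit 641836339046) (nat_lit 76) (nat_lit 1090099392657) (nat_lit 76) (nat_lit 841049758652) (nat_lit 6) (nat_lit 4) (nat_lit 7) (nat_lit 5) (nat_lit 7) (nat_lit 4) (nat_lit 357) (nat_lit 322) (nat_lit 221))))) (XT.nd (nat_lit 312) (nat_lit 76) (nat_lit 0) (XT.nd (nat_lit 156)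 (nat_lit 0) (nat_lit 0) (XT.nd (nat_lit 78) (nat_lit 152) (nat_lit 0) (XT.lf (nat_lit 0) (nat_lit 1894770932955) (nat_lit 76) (nat_lit 633623613437) (nat_lit 76) (nat_lit 384573955377) (nat_lit 6) (nat_lit 4) (nat_lit 7) (nat_lit 5) (nat_lit 7) (nat_lit 4) (nat_lit 358) (nat_lit 322) (nat_lit 220)) (XT.lf (nat_lit 0) (nat_lit 29811867668) (nat_lit 76) (nat_lit 104256183603) (nat_lit 152) (nat_lit 3169553485707) (nat_lit 4) (nat_lit 5) (nat_lit 5) (nat_lit 5) (nat_lit 6) (nat_lit 4) (nat_lit 359) (nat_lit 322) (nat_lit 219))) (XT.nd (nat_lit 78) (nat_lit 0) (nat_lit 0) (XT.lf (nat_lit 0) (nat_lit 750929944755) (nat_lit 152) (nat_lit 2477359522256) (nat_lit 0) (nat_lit 520328373306) (nat_lit 4) (nat_lit 5) (nat_lit 6) (nat_lit 4) (nat_lit 4) (nat_lit 4) (nat_lit 360) (nat_lit 322) (nat_lit 218)) (XT.lf (nat_lit 0) (nat_lit 1463204503947) (nat_lit 152) (nat_lit 1564325496829) (nat_lit 0) (nat_lit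 1232602917853) (nat_lit 4) (nat_lit 5) (nat_lit 6) (nat_lit 4) (nat_lit 4) (nat_lit 4) (nat_lit 361) (nat_lit 322) (nat_lit 217)))) (XT.nd (nat_lit 156) (nat_lit 0) (nat_lit 0) (XT.nd (nat_lit 78) (nat_lit 76) (nat_lit 0) (XT.lf (nat_lit 0) (nat_lit 2282320171717) (nat_lit 152) (nat_lit 514336520112) (nat_lit 0) (nat_lit 2051718572888) (nat_lit 4) (nat_lit 5) (nat_lit 6) (nat_lit 4) (nat_lit 4) (nat_lit 4) (nat_lit 362) (nat_lit 322) (nat_lit 216)) (XT.lf (nat_lit 0) (nat_lit 729650756421) (nat_lit 76) (nat_lit 2512200485991) (nat_lit 76) (nat_lit 2281598876089) (nat_lit 3) (nat_lit 4) (nat_lit 4) (nat_lit 5) (nat_lit 4) (nat_lit 4) (nat_lit 363) (nat_lit 322) (nat_lit 215))) (XT.nd (nat_lit 78) (nat_lit 0) (nat_lit 0) (XT.lf (nat_lit 0) (nat_lit 2191382660148) (nat_lit 76) (nat_lit 2168903608088) (nat_lit 76) (nat_lit 1938301988557) (nat_lit 3) (nat_lit 4) (nat_lit 4) (nat_lit 5) (nat_lit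 4) (nat_lit 4) (nat_lit 364) (nat_lit 322) (nat_lit 214)) (XT.lf (nat_lit 0) (nat_lit 3872374243867) (nat_lit 76) (nat_lit 1774112252018) (nat_lit 76) (nat_lit 1543510624113) (nat_lit 3) (nat_lit 4) (nat_lit 4) (nat_lit 5) (nat_lit 4) (nat_lit 4) (nat_lit 365) (nat_lit 322) (nat_lit 213))))))) (XT.nd (nat_lit 44148) (nat_lit 0) (nat_lit 1292) (XT.nd (nat_lit 43524) (nat_lit 0) (nat_lit 3648) (XT.nd (nat_lit 234) (nat_lit 76) (nat_lit 0) (XT.nd (nat_lit 78) (nat_lit 76) (nat_lit 0) (XT.lf (nat_lit 0) (nat_lit 5805514473345) (nat_lit 76) (nat_lit 1320102239074) (nat_lit 76) (nat_lit 1089500603888) (nat_lit 3) (nat_lit 4) (nat_lit 4) (nat_lit 5) (nat_lit 4) (nat_lit 4) (nat_lit 366) (nat_lit 322) (nat_lit 212)) (XT.nd (nat_lit 78) (nat_lit 76) (nat_lit 0) (XT.lf (nat_lit 0) (nat_lit 8028625657420) (nat_lit 76) (nat_lit 797990764655) (nat_lit 76) (nat_lit 567389123138) (nat_lit 3) (nat_lit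 4) (nat_lit 4) (nat_lit 5) (nat_lit 4) (nat_lit 4) (nat_lit 367) (nat_lit 322) (nat_lit 211)) (XT.lf (nat_lit 0) (nat_lit 31386296032) (nat_lit 152) (nat_lit 165318151274) (nat_lit 76) (nat_lit 10552958996706) (nat_lit 2) (nat_lit 5) (nat_lit 4) (nat_lit 5) (nat_lit 3) (nat_lit 4) (nat_lit 368) (nat_lit 322) (nat_lit 210)))) (XT.nd (nat_lit 156) (nat_lit 0) (nat_lit 0) (XT.nd (nat_lit 78) (nat_lit 0) (nat_lit 0) (XT.lf (nat_lit 0) (nat_lit 730788796248) (nat_lit 152) (nat_lit 11055880969853) (nat_lit 0) (nat_lit 517268748276) (nat_lit 1) (nat_lit 5) (nat_lit 3) (nat_lit 4) (nat_lit 1) (nat_lit 4) (nat_lit 369) (nat_lit 322) (nat_lit 209)) (XT.lf (nat_lit 0) (nat_lit 1545480076227) (nat_lit 152) (nat_lit 11213084472292) (nat_lit 0) (nat_lit 1331960024401) (nat_lit 1) (nat_lit 5) (nat_lit 3) (nat_lit 4) (nat_lit 1) (nat_lit 4) (nat_lit 370) (nat_lit 322) (nat_lit 208))) (XT.nd (nat_lit 78)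 (nat_lit 0) (nat_lit 0) (XT.lf (nat_lit 0) (nat_lit 2482375023326) (nat_lit 152) (nat_lit 11393868550762) (nat_lit 0) (nat_lit 2268854968148) (nat_lit 1) (nat_lit 5) (nat_lit 3) (nat_lit 4) (nat_lit 1) (nat_lit 4) (nat_lit 371) (nat_lit 322) (nat_lit 207)) (XT.lf (nat_lit 0) (nat_lit 3559804190858) (nat_lit 152) (nat_lit 11601770285060) (nat_lit 0) (nat_lit 3346284132765) (nat_lit 1) (nat_lit 5) (nat_lit 3) (nat_lit 4) (nat_lit 1) (nat_lit 4) (nat_lit 372) (nat_lit 322) (nat_lit 206))))) (XT.nd (nat_lit 312) (nat_lit 760) (nat_lit 0) (XT.nd (nat_lit 156) (nat_lit 380) (nat_lit 0) (XT.nd (nat_lit 78) (nat_lit 0) (nat_lit 0) (XT.lf (nat_lit 0) (nat_lit 44611518373) (nat_lit 532) (nat_lit 3003717705) (nat_lit 532) (nat_lit 3003717705) (nat_lit 64) (nat_lit 3) (nat_lit 71) (nat_lit 3) (nat_lit 71) (nat_lit 5) (nat_lit 323) (nat_lit 323) (nat_lit 254)) (XT.lf (nat_lit 76) (nat_lit 90793288332)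 (nat_lit 0) (nat_lit 7315815399) (nat_lit 532) (nat_lit 10546089587) (nat_lit 65) (nat_lit 5) (nat_lit 64) (nat_lit 3) (nat_lit 71) (nat_lit 5) (nat_lit 324) (nat_lit 323) (nat_lit 253))) (XT.nd (nat_lit 78) (nat_lit 456) (nat_lit 0) (XT.lf (nat_lit 76) (nat_lit 87418492948) (nat_lit 0) (nat_lit 25445082759) (nat_lit 532) (nat_lit 3958658444) (nat_lit 66) (nat_lit 5) (nat_lit 65) (nat_lit 5) (nat_lit 72) (nat_lit 5) (nat_lit 325) (nat_lit 323) (nat_lit 252)) (XT.lf (nat_lit 0) (nat_lit 8226584367) (nat_lit 532) (nat_lit 40461676789) (nat_lit 608) (nat_lit 77135862244) (nat_lit 59) (nat_lit 5) (nat_lit 66) (nat_lit 5) (nat_lit 67) (nat_lit 5) (nat_lit 326) (nat_lit 323) (nat_lit 251)))) (XT.nd (nat_lit 156) (nat_lit 456) (nat_lit 0) (XT.nd (nat_lit 78) (nat_lit 380) (nat_lit 0) (XT.lf (nat_lit 0) (nat_lit 27135947089) (nat_lit 532) (nat_lit 50830688083) (nat_lit 76) (nat_lit 57790977930)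 (nat_lit 60) (nat_lit 5) (nat_lit 67) (nat_lit 5) (nat_lit 61) (nat_lit 5) (nat_lit 327) (nat_lit 323) (nat_lit 250)) (XT.lf (nat_lit 0) (nat_lit 54355955277) (nat_lit 456) (nat_lit 60139847989) (nat_lit 76) (nat_lit 32247384811) (nat_lit 55) (nat_lit 5) (nat_lit 61) (nat_lit 5) (nat_lit 56) (nat_lit 5) (nat_lit 328) (nat_lit 323) (nat_lit 249))) (XT.nd (nat_lit 78) (nat_lit 228) (nat_lit 0) (XT.lf (nat_lit 0) (nat_lit 90819494418) (nat_lit 228) (nat_lit 697156228) (nat_lit 304) (nat_lit 67391334736) (nat_lit 52) (nat_lit 5) (nat_lit 55) (nat_lit 5) (nat_lit 56) (nat_lit 5) (nat_lit 329) (nat_lit 323) (nat_lit 248)) (XT.lf (nat_lit 0) (nat_lit 96981234094) (nat_lit 228) (nat_lit 44528543588) (nat_lit 304) (nat_lit 30807059247) (nat_lit 49) (nat_lit 5) (nat_lit 52) (nat_lit 5) (nat_lit 53) (nat_lit 5) (nat_lit 330) (nat_lit 323) (nat_lit 247)))))) (XT.nd (nat_lit 624) (nat_lit 912) (nat_lit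 0) (XT.nd (nat_lit 312) (nat_lit 608) (nat_lit 0) (XT.nd (nat_lit 156) (nat_lit 380) (nat_lit 0) (XT.nd (nat_lit 78) (nat_lit 228) (nat_lit 0) (XT.lf (nat_lit 0) (nat_lit 17599866972) (nat_lit 228) (nat_lit 81143204277) (nat_lit 76) (nat_lit 88420390166) (nat_lit 46) (nat_lit 5) (nat_lit 49) (nat_lit 5) (nat_lit 47) (nat_lit 5) (nat_lit 331) (nat_lit 323) (nat_lit 246)) (XT.lf (nat_lit 0) (nat_lit 78822953760) (nat_lit 304) (nat_lit 85763578229) (nat_lit 76) (nat_lit 38996194035) (nat_lit 43) (nat_lit 5) (nat_lit 47) (nat_lit 5) (nat_lit 44) (nat_lit 5) (nat_lit 332) (nat_lit 323) (nat_lit 245))) (XT.nd (nat_lit 78) (nat_lit 228) (nat_lit 0) (XT.lf (nat_lit 0) (nat_lit 133129974323) (nat_lit 152) (nat_lit 24455244841) (nat_lit 228) (nat_lit 64211204419) (nat_lit 41) (nat_lit 5) (nat_lit 43) (nat_lit 5) (nat_lit 44) (nat_lit 5) (nat_lit 333) (nat_lit 323) (nat_lit 244)) (XT.lf (nat_lit 0)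 (nat_lit 14893306275) (nat_lit 228) (nat_lit 90613170824) (nat_lit 76) (nat_lit 136445690036) (nat_lit 38) (nat_lit 5) (nat_lit 41) (nat_lit 5) (nat_lit 39) (nat_lit 5) (nat_lit 334) (nat_lit 323) (nat_lit 243)))) (XT.nd (nat_lit 156) (nat_lit 304) (nat_lit 0) (XT.nd (nat_lit 78) (nat_lit 152) (nat_lit 0) (XT.lf (nat_lit 0) (nat_lit 111224063717) (nat_lit 228) (nat_lit 91962528343) (nat_lit 76) (nat_lit 61078247438) (nat_lit 36) (nat_lit 5) (nat_lit 39) (nat_lit 5) (nat_lit 37) (nat_lit 5) (nat_lit 335) (nat_lit 323) (nat_lit 242)) (XT.lf (nat_lit 0) (nat_lit 197311792044) (nat_lit 152) (nat_lit 35062047807) (nat_lit 228) (nat_lit 56721020766) (nat_lit 34) (nat_lit 5) (nat_lit 36) (nat_lit 5) (nat_lit 37) (nat_lit 5) (nat_lit 336) (nat_lit 323) (nat_lit 241))) (XT.nd (nat_lit 78) (nat_lit 152) (nat_lit 0) (XT.lf (nat_lit 0) (nat_lit 63630814483) (nat_lit 152) (nat_lit 92787087835) (nat_lit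 76) (nat_lit 160144476751) (nat_lit 32) (nat_lit 5) (nat_lit 34) (nat_lit 5) (nat_lit 33) (nat_lit 5) (nat_lit 337) (nat_lit 323) (nat_lit 240)) (XT.lf (nat_lit 0) (nat_lit 209703278541) (nat_lit 228) (nat_lit 93932864029) (nat_lit 76) (nat_lit 43513911401) (nat_lit 30) (nat_lit 5) (nat_lit 33) (nat_lit 5) (nat_lit 31) (nat_lit 4) (nat_lit 338) (nat_lit 323) (nat_lit 239))))) (XT.nd (nat_lit 312) (nat_lit 380) (nat_lit 0) (XT.nd (nat_lit 156) (nat_lit 228) (nat_lit 0) (XT.nd (nat_lit 78) (nat_lit 152) (nat_lit 0) (XT.lf (nat_lit 0) (nat_lit 9893422622) (nat_lit 152) (nat_lit 96997106062) (nat_lit 76) (nat_lit 274300228314) (nat_lit 28) (nat_lit 5) (nat_lit 30) (nat_lit 5) (nat_lit 29) (nat_lit 5) (nat_lit 339) (nat_lit 323) (nat_lit 238)) (XT.lf (nat_lit 0) (nat_lit 185086684328) (nat_lit 228) (nat_lit 105868505410) (nat_lit 76) (nat_lit 127985538856) (nat_lit 26) (nat_lit 5) (nat_lit 29)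 (nat_lit 5) (nat_lit 27) (nat_lit 4) (nat_lit 340) (nat_lit 323) (nat_lit 237))) (XT.nd (nat_lit 78) (nat_lit 152) (nat_lit 0) (XT.lf (nat_lit 0) (nat_lit 342501400419) (nat_lit 76) (nat_lit 58147924102) (nat_lit 152) (nat_lit 60576640403) (nat_lit 25) (nat_lit 5) (nat_lit 26) (nat_lit 5) (nat_lit 27) (nat_lit 4) (nat_lit 341) (nat_lit 323) (nat_lit 236)) (XT.lf (nat_lit 0) (nat_lit 149255752306) (nat_lit 152) (nat_lit 144038340794) (nat_lit 76) (nat_lit 214892942712) (nat_lit 23) (nat_lit 5) (nat_lit 25) (nat_lit 5) (nat_lit 24) (nat_lit 4) (nat_lit 342) (nat_lit 323) (nat_lit 235)))) (XT.nd (nat_lit 156) (nat_lit 152) (nat_lit 0) (XT.nd (nat_lit 78) (nat_lit 152) (nat_lit 0) (XT.lf (nat_lit 0) (nat_lit 380380912549) (nat_lit 76) (nat_lit 20999610638) (nat_lit 152) (nat_lit 159533524110) (nat_lit 22) (nat_lit 5) (nat_lit 23) (nat_lit 5) (nat_lit 24) (nat_lit 4) (nat_lit 343) (nat_lit 323)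 (nat_lit 234)) (XT.lf (nat_lit 0) (nat_lit 87356088915) (nat_lit 152) (nat_lit 239124159634) (nat_lit 76) (nat_lit 293249811896) (nat_lit 20) (nat_lit 5) (nat_lit 22) (nat_lit 5) (nat_lit 21) (nat_lit 4) (nat_lit 344) (nat_lit 323) (nat_lit 233))) (XT.nd (nat_lit 78) (nat_lit 76) (nat_lit 0) (XT.lf (nat_lit 0) (nat_lit 362925102378) (nat_lit 76) (nat_lit 13877838033) (nat_lit 152) (nat_lit 309036440073) (nat_lit 19) (nat_lit 5) (nat_lit 20) (nat_lit 5) (nat_lit 21) (nat_lit 4) (nat_lit 345) (nat_lit 323) (nat_lit 232)) (XT.lf (nat_lit 0) (nat_lit 315756201025) (nat_lit 76) (nat_lit 416958985454) (nat_lit 76) (nat_lit 27306042758) (nat_lit 18) (nat_lit 4) (nat_lit 19) (nat_lit 5) (nat_lit 19) (nat_lit 4) (nat_lit 346) (nat_lit 323) (nat_lit 231))))))))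
noncomputable def xc47 : XT := (XT.nd (nat_lit 45474) (nat_lit 0) (nat_lit 380) (XT.nd (nat_lit 1170) (nat_lit 228) (nat_lit 0) (XT.nd (nat_lit 546) (nat_lit 456) (nat_lit 0) (XT.nd (nat_lit 234) (nat_lit 304) (nat_lit 0) (XT.nd (nat_lit 78) (nat_lit 152) (nat_lit 0) (XT.lf (nat_lit 0) (nat_lit 228889906574) (nat_lit 76) (nat_lit 68486526918) (nat_lit 152) (nat_lit 546140393409) (nat_lit 16) (nat_lit 5) (nat_lit 17) (nat_lit 5) (nat_lit 18) (nat_lit 4) (nat_lit 347) (nat_lit 323) (nat_lit 230)) (XT.nd (nat_lit 78) (nat_lit 76) (nat_lit 0) (XT.lf (nat_lit 0) (nat_lit 86672661662) (nat_lit 76) (nat_lit 605863027631) (nat_lit 76) (nat_lit 245073036689) (nat_lit 15) (nat_lit 4) (nat_lit 16) (nat_lit 5) (nat_lit 16) (nat_lit 4) (nat_lit 348) (nat_lit 323) (nat_lit 229)) (XT.lf (nat_lit 0) (nat_lit 116347182984) (nat_lit 152) (nat_lit 118787943028) (nat_lit 76) (nat_lit 808864429568) (nat_lit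 14) (nat_lit 5) (nat_lit 16) (nat_lit 5) (nat_lit 15) (nat_lit 4) (nat_lit 349) (nat_lit 323) (nat_lit 228)))) (XT.nd (nat_lit 156) (nat_lit 152) (nat_lit 0) (XT.nd (nat_lit 78) (nat_lit 76) (nat_lit 0) (XT.lf (nat_lit 0) (nat_lit 541264103378) (nat_lit 152) (nat_lit 415472948994) (nat_lit 0) (nat_lit 207199136490) (nat_lit 13) (nat_lit 5) (nat_lit 15) (nat_lit 4) (nat_lit 13) (nat_lit 4) (nat_lit 350) (nat_lit 323) (nat_lit 227)) (XT.lf (nat_lit 0) (nat_lit 468238612720) (nat_lit 76) (nat_lit 582992371229) (nat_lit 76) (nat_lit 248927339443) (nat_lit 12) (nat_lit 4) (nat_lit 13) (nat_lit 5) (nat_lit 13) (nat_lit 4) (nat_lit 351) (nat_lit 323) (nat_lit 226))) (XT.nd (nat_lit 78) (nat_lit 0) (nat_lit 0) (XT.lf (nat_lit 0) (nat_lit 51744364074) (nat_lit 76) (nat_lit 133740949528) (nat_lit 152) (nat_lit 1269888092652) (nat_lit 10) (nat_lit 5) (nat_lit 11) (nat_lit 5) (nat_lit 12) (nat_lit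 4) (nat_lit 352) (nat_lit 323) (nat_lit 225)) (XT.lf (nat_lit 0) (nat_lit 704797747195) (nat_lit 152) (nat_lit 530319404410) (nat_lit 0) (nat_lit 395478175629) (nat_lit 10) (nat_lit 5) (nat_lit 12) (nat_lit 4) (nat_lit 10) (nat_lit 4) (nat_lit 353) (nat_lit 323) (nat_lit 224))))) (XT.nd (nat_lit 312) (nat_lit 228) (nat_lit 0) (XT.nd (nat_lit 156) (nat_lit 152) (nat_lit 0) (XT.nd (nat_lit 78) (nat_lit 0) (nat_lit 0) (XT.lf (nat_lit 0) (nat_lit 495051941457) (nat_lit 76) (nat_lit 822559910744) (nat_lit 76) (nat_lit 513240299667) (nat_lit 9) (nat_lit 4) (nat_lit 10) (nat_lit 5) (nat_lit 10) (nat_lit 4) (nat_lit 354) (nat_lit 323) (nat_lit 223)) (XT.lf (nat_lit 0) (nat_lit 1706343249707) (nat_lit 76) (nat_lit 331444366247) (nat_lit 76) (nat_lit 22124720813) (nat_lit 9) (nat_lit 4) (nat_lit 10) (nat_lit 5) (nat_lit 10) (nat_lit 4) (nat_lit 355) (nat_lit 323) (nat_lit 222))) (XT.nd (nat_lit 78)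 (nat_lit 0) (nat_lit 0) (XT.lf (nat_lit 0) (nat_lit 541279659085) (nat_lit 152) (nat_lit 1524073868608) (nat_lit 0) (nat_lit 254872552316) (nat_lit 7) (nat_lit 5) (nat_lit 9) (nat_lit 4) (nat_lit 7) (nat_lit 4) (nat_lit 356) (nat_lit 323) (nat_lit 221)) (XT.lf (nat_lit 0) (nat_lit 1207649885457) (nat_lit 152) (nat_lit 489067053622) (nat_lit 0) (nat_lit 921242754634) (nat_lit 7) (nat_lit 5) (nat_lit 9) (nat_lit 4) (nat_lit 7) (nat_lit 4) (nat_lit 357) (nat_lit 323) (nat_lit 220)))) (XT.nd (nat_lit 156) (nat_lit 152) (nat_lit 0) (XT.nd (nat_lit 78) (nat_lit 0) (nat_lit 0) (XT.lf (nat_lit 0) (nat_lit 738114038800) (nat_lit 76) (nat_lit 1253613168740) (nat_lit 76) (nat_lit 967206017000) (nat_lit 6) (nat_lit 4) (nat_lit 7) (nat_lit 5) (nat_lit 7) (nat_lit 4) (nat_lit 358) (nat_lit 323) (nat_lit 219)) (XT.lf (nat_lit 0) (nat_lit 2178988528461) (nat_lit 76) (nat_lit 728666170395) (nat_lit 76)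 (nat_lit 442259000466) (nat_lit 6) (nat_lit 4) (nat_lit 7) (nat_lit 5) (nat_lit 7) (nat_lit 4) (nat_lit 359) (nat_lit 323) (nat_lit 218))) (XT.nd (nat_lit 78) (nat_lit 0) (nat_lit 0) (XT.lf (nat_lit 0) (nat_lit 34285485911) (nat_lit 76) (nat_lit 119893683154) (nat_lit 152) (nat_lit 3644985525593) (nat_lit 4) (nat_lit 5) (nat_lit 5) (nat_lit 5) (nat_lit 6) (nat_lit 4) (nat_lit 360) (nat_lit 323) (nat_lit 217)) (XT.lf (nat_lit 0) (nat_lit 863570247270) (nat_lit 152) (nat_lit 2848961808298) (nat_lit 0) (nat_lit 598378395883) (nat_lit 4) (nat_lit 5) (nat_lit 6) (nat_lit 4) (nat_lit 4) (nat_lit 4) (nat_lit 361) (nat_lit 323) (nat_lit 216)))))) (XT.nd (nat_lit 624) (nat_lit 76) (nat_lit 0) (XT.nd (nat_lit 312) (nat_lit 76) (nat_lit 0) (XT.nd (nat_lit 156) (nat_lit 76) (nat_lit 0) (XT.nd (nat_lit 78) (nat_lit 0) (nat_lit 0) (XT.lf (nat_lit 0) (nat_lit 1682685884584) (nat_lit 152) (nat_lit 1798972893270)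 (nat_lit 0) (nat_lit 1417494022123) (nat_lit 4) (nat_lit 5) (nat_lit 6) (nat_lit 4) (nat_lit 4) (nat_lit 4) (nat_lit 362) (nat_lit 323) (nat_lit 215)) (XT.lf (nat_lit 0) (nat_lit 2624668810557) (nat_lit 152) (nat_lit 591485756317) (nat_lit 0) (nat_lit 2359476938467) (nat_lit 4) (nat_lit 5) (nat_lit 6) (nat_lit 4) (nat_lit 4) (nat_lit 4) (nat_lit 363) (nat_lit 323) (nat_lit 214))) (XT.nd (nat_lit 78) (nat_lit 0) (nat_lit 0) (XT.lf (nat_lit 0) (nat_lit 839099506583) (nat_lit 76) (nat_lit 2889029982644) (nat_lit 76) (nat_lit 2623838102180) (nat_lit 3) (nat_lit 4) (nat_lit 4) (nat_lit 5) (nat_lit 4) (nat_lit 4) (nat_lit 364) (nat_lit 323) (nat_lit 213)) (XT.lf (nat_lit 0) (nat_lit 2520091047605) (nat_lit 76) (nat_lit 2494238648218) (nat_lit 76) (nat_lit 2229046760474) (nat_lit 3) (nat_lit 4) (nat_lit 4) (nat_lit 5) (nat_lit 4) (nat_lit 4) (nat_lit 365) (nat_lit 323) (nat_lit 212)))) (XT.nd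 (nat_lit 156) (nat_lit 76) (nat_lit 0) (XT.nd (nat_lit 78) (nat_lit 0) (nat_lit 0) (XT.lf (nat_lit 0) (nat_lit 4453231239955) (nat_lit 76) (nat_lit 2040228654096) (nat_lit 76) (nat_lit 1775036760020) (nat_lit 3) (nat_lit 4) (nat_lit 4) (nat_lit 5) (nat_lit 4) (nat_lit 4) (nat_lit 366) (nat_lit 323) (nat_lit 211)) (XT.lf (nat_lit 0) (nat_lit 6676342391745) (nat_lit 76) (nat_lit 1518117196043) (nat_lit 76) (nat_lit 1252925296462) (nat_lit 3) (nat_lit 4) (nat_lit 4) (nat_lit 5) (nat_lit 4) (nat_lit 4) (nat_lit 367) (nat_lit 323) (nat_lit 210))) (XT.nd (nat_lit 78) (nat_lit 76) (nat_lit 0) (XT.lf (nat_lit 0) (nat_lit 9232920155944) (nat_lit 76) (nat_lit 917689049882) (nat_lit 76) (nat_lit 652497145514) (nat_lit 3) (nat_lit 4) (nat_lit 4) (nat_lit 5) (nat_lit 4) (nat_lit 4) (nat_lit 368) (nat_lit 323) (nat_lit 209)) (XT.lf (nat_lit 0) (nat_lit 36094526334) (nat_lit 152) (nat_lit 190115293755)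 (nat_lit 76) (nat_lit 12135903117638) (nat_lit 2) (nat_lit 5) (nat_lit 4) (nat_lit 5) (nat_lit 3) (nat_lit 4) (nat_lit 369) (nat_lit 323) (nat_lit 208))))) (XT.nd (nat_lit 43368) (nat_lit 0) (nat_lit 4408) (XT.nd (nat_lit 156) (nat_lit 0) (nat_lit 0) (XT.nd (nat_lit 78) (nat_lit 0) (nat_lit 0) (XT.lf (nat_lit 0) (nat_lit 840407383551) (nat_lit 152) (nat_lit 12714262569796) (nat_lit 0) (nat_lit 594859316744) (nat_lit 1) (nat_lit 5) (nat_lit 3) (nat_lit 4) (nat_lit 1) (nat_lit 4) (nat_lit 370) (nat_lit 323) (nat_lit 207)) (XT.lf (nat_lit 0) (nat_lit 1777302320588) (nat_lit 152) (nat_lit 12895046668758) (nat_lit 0) (nat_lit 1531754250867) (nat_lit 1) (nat_lit 5) (nat_lit 3) (nat_lit 4) (nat_lit 1) (nat_lit 4) (nat_lit 371) (nat_lit 323) (nat_lit 206))) (XT.nd (nat_lit 43134) (nat_lit 0) (nat_lit 4788) (XT.lf (nat_lit 0) (nat_lit 2854731479370) (nat_lit 152) (nat_lit 13102948420874) (nat_lit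 0) (nat_lit 2609183407115) (nat_lit 1) (nat_lit 5) (nat_lit 3) (nat_lit 4) (nat_lit 1) (nat_lit 4) (nat_lit 372) (nat_lit 323) (nat_lit 205)) (XT.lf (nat_lit 0) (nat_lit 51313559105) (nat_lit 532) (nat_lit 3448701475) (nat_lit 532) (nat_lit 3448701475) (nat_lit 64) (nat_lit 3) (nat_lit 71) (nat_lit 3) (nat_lit 71) (nat_lit 5) (nat_lit 324) (nat_lit 324) (nat_lit 252)))) (XT.nd (nat_lit 156) (nat_lit 380) (nat_lit 0) (XT.nd (nat_lit 78) (nat_lit 0) (nat_lit 76) (XT.lf (nat_lit 76) (nat_lit 104422485749) (nat_lit 0) (nat_lit 8421164564) (nat_lit 532) (nat_lit 12108350555) (nat_lit 65) (nat_lit 5) (nat_lit 64) (nat_lit 3) (nat_lit 71) (nat_lit 5) (nat_lit 325) (nat_lit 324) (nat_lit 251)) (XT.lf (nat_lit 76) (nat_lit 100542129827) (nat_lit 0) (nat_lit 29266886254) (nat_lit 532) (nat_lit 4535266118) (nat_lit 66) (nat_lit 5) (nat_lit 65) (nat_lit 5) (nat_lit 72) (nat_lit 5) (nat_lit 326) (nat_lit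 324) (nat_lit 250))) (XT.nd (nat_lit 78) (nat_lit 0) (nat_lit 76) (XT.lf (nat_lit 0) (nat_lit 9474941996) (nat_lit 532) (nat_lit 46518927183) (nat_lit 608) (nat_lit 88702711255) (nat_lit 59) (nat_lit 5) (nat_lit 66) (nat_lit 5) (nat_lit 67) (nat_lit 5) (nat_lit 327) (nat_lit 324) (nat_lit 249)) (XT.lf (nat_lit 0) (nat_lit 31219056301) (nat_lit 532) (nat_lit 58443232214) (nat_lit 76) (nat_lit 66457938852) (nat_lit 60) (nat_lit 5) (nat_lit 67) (nat_lit 5) (nat_lit 61) (nat_lit 5) (nat_lit 328) (nat_lit 324) (nat_lit 248))))))) (XT.nd (nat_lit 1170) (nat_lit 1292) (nat_lit 0) (XT.nd (nat_lit 546) (nat_lit 1140) (nat_lit 0) (XT.nd (nat_lit 234) (nat_lit 836) (nat_lit 0) (XT.nd (nat_lit 78) (nat_lit 456) (nat_lit 0) (XT.lf (nat_lit 0) (nat_lit 62520665564) (nat_lit 456) (nat_lit 69148865090) (nat_lit 76) (nat_lit 37084221294) (nat_lit 55) (nat_lit 5) (nat_lit 61) (nat_lit 5) (nat_lit 56) (nat_lit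 5) (nat_lit 329) (nat_lit 324) (nat_lit 247)) (XT.nd (nat_lit 78) (nat_lit 228) (nat_lit 0) (XT.lf (nat_lit 0) (nat_lit 104453366316) (nat_lit 228) (nat_lit 800886086) (nat_lit 304) (nat_lit 77489114645) (nat_lit 52) (nat_lit 5) (nat_lit 55) (nat_lit 5) (nat_lit 56) (nat_lit 5) (nat_lit 330) (nat_lit 324) (nat_lit 246)) (XT.lf (nat_lit 0) (nat_lit 111539168762) (nat_lit 228) (nat_lit 51206137967) (nat_lit 304) (nat_lit 35418323958) (nat_lit 49) (nat_lit 5) (nat_lit 52) (nat_lit 5) (nat_lit 53) (nat_lit 5) (nat_lit 331) (nat_lit 324) (nat_lit 245)))) (XT.nd (nat_lit 156) (nat_lit 380) (nat_lit 0) (XT.nd (nat_lit 78) (nat_lit 228) (nat_lit 0) (XT.lf (nat_lit 0) (nat_lit 20248232257) (nat_lit 228) (nat_lit 93303765542) (nat_lit 76) (nat_lit 101685306542) (nat_lit 46) (nat_lit 5) (nat_lit 49) (nat_lit 5) (nat_lit 47) (nat_lit 5) (nat_lit 332) (nat_lit 324) (nat_lit 244)) (XT.lf (nat_lit 0)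 (nat_lit 90653987959) (nat_lit 304) (nat_lit 98617571791) (nat_lit 76) (nat_lit 44847963132) (nat_lit 43) (nat_lit 5) (nat_lit 47) (nat_lit 5) (nat_lit 44) (nat_lit 5) (nat_lit 333) (nat_lit 324) (nat_lit 243))) (XT.nd (nat_lit 78) (nat_lit 228) (nat_lit 0) (XT.lf (nat_lit 0) (nat_lit 153109121217) (nat_lit 152) (nat_lit 28120713910) (nat_lit 228) (nat_lit 73835501212) (nat_lit 41) (nat_lit 5) (nat_lit 43) (nat_lit 5) (nat_lit 44) (nat_lit 5) (nat_lit 334) (nat_lit 324) (nat_lit 242)) (XT.lf (nat_lit 0) (nat_lit 17133691119) (nat_lit 228) (nat_lit 104195530701) (nat_lit 76) (nat_lit 156915255945) (nat_lit 38) (nat_lit 5) (nat_lit 41) (nat_lit 5) (nat_lit 39) (nat_lit 5) (nat_lit 335) (nat_lit 324) (nat_lit 241))))) (XT.nd (nat_lit 312) (nat_lit 532) (nat_lit 0) (XT.nd (nat_lit 156) (nat_lit 304) (nat_lit 0) (XT.nd (nat_lit 78) (nat_lit 152) (nat_lit 0) (XT.lf (nat_lit 0) (nat_lit 127913513508)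 (nat_lit 228) (nat_lit 105747714479) (nat_lit 76) (nat_lit 70242867322) (nat_lit 36) (nat_lit 5) (nat_lit 39) (nat_lit 5) (nat_lit 37) (nat_lit 5) (nat_lit 336) (nat_lit 324) (nat_lit 240)) (XT.lf (nat_lit 0) (nat_lit 226916975815) (nat_lit 152) (nat_lit 40318220858) (nat_lit 228) (nat_lit 65223468052) (nat_lit 34) (nat_lit 5) (nat_lit 36) (nat_lit 5) (nat_lit 37) (nat_lit 5) (nat_lit 337) (nat_lit 324) (nat_lit 239))) (XT.nd (nat_lit 78) (nat_lit 152) (nat_lit 0) (XT.lf (nat_lit 0) (nat_lit 73180415251) (nat_lit 152) (nat_lit 106696864124) (nat_lit 76) (nat_lit 184169056241) (nat_lit 32) (nat_lit 5) (nat_lit 34) (nat_lit 5) (nat_lit 33) (nat_lit 5) (nat_lit 338) (nat_lit 324) (nat_lit 238)) (XT.lf (nat_lit 0) (nat_lit 241163355890) (nat_lit 228) (nat_lit 108014919422) (nat_lit 76) (nat_lit 50043918147) (nat_lit 30) (nat_lit 5) (nat_lit 33) (nat_lit 5) (nat_lit 31) (nat_lit 4) (nat_lit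 339) (nat_lit 324) (nat_lit 237)))) (XT.nd (nat_lit 156) (nat_lit 228) (nat_lit 0) (XT.nd (nat_lit 78) (nat_lit 152) (nat_lit 0) (XT.lf (nat_lit 0) (nat_lit 11381706340) (nat_lit 152) (nat_lit 111539237986) (nat_lit 76) (nat_lit 315448083177) (nat_lit 28) (nat_lit 5) (nat_lit 30) (nat_lit 5) (nat_lit 29) (nat_lit 5) (nat_lit 340) (nat_lit 324) (nat_lit 236)) (XT.lf (nat_lit 0) (nat_lit 212853634370) (nat_lit 228) (nat_lit 121741735507) (nat_lit 76) (nat_lit 147186150982) (nat_lit 26) (nat_lit 5) (nat_lit 29) (nat_lit 5) (nat_lit 27) (nat_lit 4) (nat_lit 341) (nat_lit 324) (nat_lit 235))) (XT.nd (nat_lit 78) (nat_lit 152) (nat_lit 0) (XT.lf (nat_lit 0) (nat_lit 393883059812) (nat_lit 76) (nat_lit 66867251008) (nat_lit 152) (nat_lit 69659260759) (nat_lit 25) (nat_lit 5) (nat_lit 26) (nat_lit 5) (nat_lit 27) (nat_lit 4) (nat_lit 342) (nat_lit 324) (nat_lit 234)) (XT.lf (nat_lit 0) (nat_lit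 171647528758) (nat_lit 152) (nat_lit 165637807169) (nat_lit 76) (nat_lit 247129481304) (nat_lit 23) (nat_lit 5) (nat_lit 25) (nat_lit 5) (nat_lit 24) (nat_lit 4) (nat_lit 343) (nat_lit 324) (nat_lit 233)))))) (XT.nd (nat_lit 624) (nat_lit 532) (nat_lit 0) (XT.nd (nat_lit 312) (nat_lit 380) (nat_lit 0) (XT.nd (nat_lit 156) (nat_lit 152) (nat_lit 0) (XT.nd (nat_lit 78) (nat_lit 152) (nat_lit 0) (XT.lf (nat_lit 0) (nat_lit 437443802203) (nat_lit 76) (nat_lit 24146906170) (nat_lit 152) (nat_lit 183460196731) (nat_lit 22) (nat_lit 5) (nat_lit 23) (nat_lit 5) (nat_lit 24) (nat_lit 4) (nat_lit 344) (nat_lit 324) (nat_lit 232)) (XT.lf (nat_lit 0) (nat_lit 100462465426) (nat_lit 152) (nat_lit 274987191174) (nat_lit 76) (nat_lit 337239675251) (nat_lit 20) (nat_lit 5) (nat_lit 22) (nat_lit 5) (nat_lit 21) (nat_lit 4) (nat_lit 345) (nat_lit 324) (nat_lit 231))) (XT.nd (nat_lit 78) (nat_lit 76) (nat_lit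 0) (XT.lf (nat_lit 0) (nat_lit 417368986770) (nat_lit 76) (nat_lit 15957094489) (nat_lit 152) (nat_lit 355388989788) (nat_lit 19) (nat_lit 5) (nat_lit 20) (nat_lit 5) (nat_lit 21) (nat_lit 4) (nat_lit 346) (nat_lit 324) (nat_lit 230)) (XT.lf (nat_lit 0) (nat_lit 363124461837) (nat_lit 76) (nat_lit 479500517024) (nat_lit 76) (nat_lit 31399233149) (nat_lit 18) (nat_lit 4) (nat_lit 19) (nat_lit 5) (nat_lit 19) (nat_lit 4) (nat_lit 347) (nat_lit 324) (nat_lit 229)))) (XT.nd (nat_lit 156) (nat_lit 152) (nat_lit 0) (XT.nd (nat_lit 78) (nat_lit 76) (nat_lit 0) (XT.lf (nat_lit 0) (nat_lit 263227939081) (nat_lit 76) (nat_lit 78757312392) (nat_lit 152) (nat_lit 628058910858) (nat_lit 16) (nat_lit 5) (nat_lit 17) (nat_lit 5) (nat_lit 18) (nat_lit 4) (nat_lit 348) (nat_lit 324) (nat_lit 228)) (XT.lf (nat_lit 0) (nat_lit 99677846943) (nat_lit 76) (nat_lit 696740390747) (nat_lit 76) (nat_lit 281831621269)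 (nat_lit 15) (nat_lit 4) (nat_lit 16) (nat_lit 5) (nat_lit 16) (nat_lit 4) (nat_lit 349) (nat_lit 324) (nat_lit 227))) (XT.nd (nat_lit 78) (nat_lit 76) (nat_lit 0) (XT.lf (nat_lit 0) (nat_lit 133801218971) (nat_lit 152) (nat_lit 136602304107) (nat_lit 76) (nat_lit 930195808898) (nat_lit 14) (nat_lit 5) (nat_lit 16) (nat_lit 5) (nat_lit 15) (nat_lit 4) (nat_lit 350) (nat_lit 324) (nat_lit 226)) (XT.lf (nat_lit 0) (nat_lit 622455547622) (nat_lit 152) (nat_lit 477790283310) (nat_lit 0) (nat_lit 238280639737) (nat_lit 13) (nat_lit 5) (nat_lit 15) (nat_lit 4) (nat_lit 13) (nat_lit 4) (nat_lit 351) (nat_lit 324) (nat_lit 225))))) (XT.nd (nat_lit 312) (nat_lit 228) (nat_lit 0) (XT.nd (nat_lit 156) (nat_lit 76) (nat_lit 0) (XT.nd (nat_lit 78) (nat_lit 152) (nat_lit 0) (XT.lf (nat_lit 0) (nat_lit 538477707259) (nat_lit 76) (nat_lit 670439593917) (nat_lit 76) (nat_lit 286264636959) (nat_lit 12) (nat_lit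 4) (nat_lit 13) (nat_lit 5) (nat_lit 13) (nat_lit 4) (nat_lit 352) (nat_lit 324) (nat_lit 224)) (XT.lf (nat_lit 0) (nat_lit 59509124508) (nat_lit 76) (nat_lit 153800550557) (nat_lit 152) (nat_lit 1460369616816) (nat_lit 10) (nat_lit 5) (nat_lit 11) (nat_lit 5) (nat_lit 12) (nat_lit 4) (nat_lit 353) (nat_lit 324) (nat_lit 223))) (XT.nd (nat_lit 78) (nat_lit 76) (nat_lit 0) (XT.lf (nat_lit 0) (nat_lit 810518801878) (nat_lit 152) (nat_lit 609864537626) (nat_lit 0) (nat_lit 454801175271) (nat_lit 10) (nat_lit 5) (nat_lit 12) (nat_lit 4) (nat_lit 10) (nat_lit 4) (nat_lit 354) (nat_lit 324) (nat_lit 222)) (XT.lf (nat_lit 0) (nat_lit 569312275024) (nat_lit 76) (nat_lit 945942627110) (nat_lit 76) (nat_lit 590224970627) (nat_lit 9) (nat_lit 4) (nat_lit 10) (nat_lit 5) (nat_lit 10) (nat_lit 4) (nat_lit 355) (nat_lit 324) (nat_lit 221)))) (XT.nd (nat_lit 156) (nat_lit 76) (nat_lit 0) (XT.nd (nat_lit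 78) (nat_lit 152) (nat_lit 0) (XT.lf (nat_lit 0) (nat_lit 1962296947902) (nat_lit 76) (nat_lit 381159916623) (nat_lit 76) (nat_lit 25442234161) (nat_lit 9) (nat_lit 4) (nat_lit 10) (nat_lit 5) (nat_lit 10) (nat_lit 4) (nat_lit 356) (nat_lit 324) (nat_lit 220)) (XT.lf (nat_lit 0) (nat_lit 622472669942) (nat_lit 152) (nat_lit 1752682812502) (nat_lit 0) (nat_lit 293104424524) (nat_lit 7) (nat_lit 5) (nat_lit 9) (nat_lit 4) (nat_lit 7) (nat_lit 4) (nat_lit 357) (nat_lit 324) (nat_lit 219))) (XT.nd (nat_lit 78) (nat_lit 76) (nat_lit 0) (XT.lf (nat_lit 0) (nat_lit 1388798291749) (nat_lit 152) (nat_lit 562425253928) (nat_lit 0) (nat_lit 1059430028143) (nat_lit 7) (nat_lit 5) (nat_lit 9) (nat_lit 4) (nat_lit 7) (nat_lit 4) (nat_lit 358) (nat_lit 324) (nat_lit 218)) (XT.lf (nat_lit 0) (nat_lit 848832845108) (nat_lit 76) (nat_lit 1441654287479) (nat_lit 76) (nat_lit 1112286008056) (nat_lit 6) (nat_lit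 4) (nat_lit 7) (nat_lit 5) (nat_lit 7) (nat_lit 4) (nat_lit 359) (nat_lit 324) (nat_lit 217))))))))
noncomputable def xc48 : XT := (XT.nd (nat_lit 45474) (nat_lit 0) (nat_lit 76) (XT.nd (nat_lit 44304) (nat_lit 0) (nat_lit 2052) (XT.nd (nat_lit 546) (nat_lit 152) (nat_lit 0) (XT.nd (nat_lit 234) (nat_lit 76) (nat_lit 0) (XT.nd (nat_lit 78) (nat_lit 152) (nat_lit 0) (XT.lf (nat_lit 0) (nat_lit 2505838286416) (nat_lit 76) (nat_lit 837965351109) (nat_lit 76) (nat_lit 508597057933) (nat_lit 6) (nat_lit 4) (nat_lit 7) (nat_lit 5) (nat_lit 7) (nat_lit 4) (nat_lit 360) (nat_lit 324) (nat_lit 216)) (XT.nd (nat_lit 78) (nat_lit 0) (nat_lit 0) (XT.lf (nat_lit 0) (nat_lit 39429698660) (nat_lit 76) (nat_lit 137877033934) (nat_lit 152) (nat_lit 4191732611166) (nat_lit 4) (nat_lit 5) (nat_lit 5) (nat_lit 5) (nat_lit 6) (nat_lit 4) (nat_lit 361) (nat_lit 324) (nat_lit 215)) (XT.lf (nat_lit 0) (nat_lit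 993106397443) (nat_lit 152) (nat_lit 3276304837731) (nat_lit 0) (nat_lit 688135734910) (nat_lit 4) (nat_lit 5) (nat_lit 6) (nat_lit 4) (nat_lit 4) (nat_lit 4) (nat_lit 362) (nat_lit 324) (nat_lit 214)))) (XT.nd (nat_lit 156) (nat_lit 76) (nat_lit 0) (XT.nd (nat_lit 78) (nat_lit 0) (nat_lit 0) (XT.lf (nat_lit 0) (nat_lit 1935089300387) (nat_lit 152) (nat_lit 2068817747424) (nat_lit 0) (nat_lit 1630118629481) (nat_lit 4) (nat_lit 5) (nat_lit 6) (nat_lit 4) (nat_lit 4) (nat_lit 4) (nat_lit 363) (nat_lit 324) (nat_lit 213)) (XT.lf (nat_lit 0) (nat_lit 3018369595718) (nat_lit 152) (nat_lit 680207680776) (nat_lit 0) (nat_lit 2713398917532) (nat_lit 4) (nat_lit 5) (nat_lit 6) (nat_lit 4) (nat_lit 4) (nat_lit 4) (nat_lit 364) (nat_lit 324) (nat_lit 212))) (XT.nd (nat_lit 78) (nat_lit 0) (nat_lit 0) (XT.lf (nat_lit 0) (nat_lit 964965292078) (nat_lit 76) (nat_lit 3322384044315) (nat_lit 76) (nat_lit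 3017413359797) (nat_lit 3) (nat_lit 4) (nat_lit 4) (nat_lit 5) (nat_lit 4) (nat_lit 4) (nat_lit 365) (nat_lit 324) (nat_lit 211)) (XT.lf (nat_lit 0) (nat_lit 2898105452143) (nat_lit 76) (nat_lit 2868374066560) (nat_lit 76) (nat_lit 2563403376536) (nat_lit 3) (nat_lit 4) (nat_lit 4) (nat_lit 5) (nat_lit 4) (nat_lit 4) (nat_lit 366) (nat_lit 324) (nat_lit 210))))) (XT.nd (nat_lit 312) (nat_lit 76) (nat_lit 0) (XT.nd (nat_lit 156) (nat_lit 76) (nat_lit 0) (XT.nd (nat_lit 78) (nat_lit 0) (nat_lit 0) (XT.lf (nat_lit 0) (nat_lit 5121216575859) (nat_lit 76) (nat_lit 2346262622739) (nat_lit 76) (nat_lit 2041291927928) (nat_lit 3) (nat_lit 4) (nat_lit 4) (nat_lit 5) (nat_lit 4) (nat_lit 4) (nat_lit 367) (nat_lit 324) (nat_lit 209)) (XT.lf (nat_lit 0) (nat_lit 7677794315647) (nat_lit 76) (nat_lit 1745834488954) (nat_lit 76) (nat_lit 1440863789980) (nat_lit 3) (nat_lit 4) (nat_lit 4) (nat_lit 5) (nat_lit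 4) (nat_lit 4) (nat_lit 368) (nat_lit 324) (nat_lit 208))) (XT.nd (nat_lit 78) (nat_lit 76) (nat_lit 0) (XT.lf (nat_lit 0) (nat_lit 10617858670762) (nat_lit 76) (nat_lit 1055342158237) (nat_lit 76) (nat_lit 750371455644) (nat_lit 3) (nat_lit 4) (nat_lit 4) (nat_lit 5) (nat_lit 4) (nat_lit 4) (nat_lit 369) (nat_lit 324) (nat_lit 207)) (XT.lf (nat_lit 0) (nat_lit 41508921464) (nat_lit 152) (nat_lit 218632149096) (nat_lit 76) (nat_lit 13956288790521) (nat_lit 2) (nat_lit 5) (nat_lit 4) (nat_lit 5) (nat_lit 3) (nat_lit 4) (nat_lit 370) (nat_lit 324) (nat_lit 206)))) (XT.nd (nat_lit 43290) (nat_lit 0) (nat_lit 4788) (XT.nd (nat_lit 78) (nat_lit 0) (nat_lit 0) (XT.lf (nat_lit 0) (nat_lit 966468693629) (nat_lit 152) (nat_lit 14621401542763) (nat_lit 0) (nat_lit 684088408000) (nat_lit 1) (nat_lit 5) (nat_lit 3) (nat_lit 4) (nat_lit 1) (nat_lit 4) (nat_lit 371) (nat_lit 324) (nat_lit 205)) (XT.lf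 (nat_lit 0) (nat_lit 2043897844803) (nat_lit 152) (nat_lit 14829303310373) (nat_lit 0) (nat_lit 1761517556971) (nat_lit 1) (nat_lit 5) (nat_lit 3) (nat_lit 4) (nat_lit 1) (nat_lit 4) (nat_lit 372) (nat_lit 324) (nat_lit 204))) (XT.nd (nat_lit 78) (nat_lit 0) (nat_lit 0) (XT.lf (nat_lit 0) (nat_lit 59018391063) (nat_lit 532) (nat_lit 3961792039) (nat_lit 532) (nat_lit 3961792039) (nat_lit 64) (nat_lit 3) (nat_lit 71) (nat_lit 3) (nat_lit 71) (nat_lit 5) (nat_lit 325) (nat_lit 325) (nat_lit 250)) (XT.lf (nat_lit 76) (nat_lit 120093574427) (nat_lit 0) (nat_lit 9690370897) (nat_lit 532) (nat_lit 13909743049) (nat_lit 65) (nat_lit 5) (nat_lit 64) (nat_lit 3) (nat_lit 71) (nat_lit 5) (nat_lit 326) (nat_lit 325) (nat_lit 249)))))) (XT.nd (nat_lit 546) (nat_lit 1368) (nat_lit 0) (XT.nd (nat_lit 234) (nat_lit 988) (nat_lit 0) (XT.nd (nat_lit 78) (nat_lit 456) (nat_lit 0) (XT.lf (nat_lit 76) (nat_lit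 115631663241) (nat_lit 0) (nat_lit 33660730973) (nat_lit 532) (nat_lit 5202557101) (nat_lit 66) (nat_lit 5) (nat_lit 65) (nat_lit 5) (nat_lit 72) (nat_lit 5) (nat_lit 327) (nat_lit 325) (nat_lit 248)) (XT.nd (nat_lit 78) (nat_lit 0) (nat_lit 76) (XT.lf (nat_lit 0) (nat_lit 10907049060) (nat_lit 532) (nat_lit 53487691686) (nat_lit 608) (nat_lit 102005448509) (nat_lit 59) (nat_lit 5) (nat_lit 66) (nat_lit 5) (nat_lit 67) (nat_lit 5) (nat_lit 328) (nat_lit 325) (nat_lit 247)) (XT.lf (nat_lit 0) (nat_lit 35911530738) (nat_lit 532) (nat_lit 67200598648) (nat_lit 76) (nat_lit 76425354997) (nat_lit 60) (nat_lit 5) (nat_lit 67) (nat_lit 5) (nat_lit 61) (nat_lit 5) (nat_lit 329) (nat_lit 325) (nat_lit 246)))) (XT.nd (nat_lit 156) (nat_lit 456) (nat_lit 0) (XT.nd (nat_lit 78) (nat_lit 228) (nat_lit 0) (XT.lf (nat_lit 0) (nat_lit 71907322673) (nat_lit 456) (nat_lit 79512151301) (nat_lit 76) (nat_lit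 42646649392) (nat_lit 55) (nat_lit 5) (nat_lit 61) (nat_lit 5) (nat_lit 56) (nat_lit 5) (nat_lit 330) (nat_lit 325) (nat_lit 245)) (XT.lf (nat_lit 0) (nat_lit 120129649324) (nat_lit 228) (nat_lit 920381135) (nat_lit 304) (nat_lit 89104224525) (nat_lit 52) (nat_lit 5) (nat_lit 55) (nat_lit 5) (nat_lit 56) (nat_lit 5) (nat_lit 331) (nat_lit 325) (nat_lit 244))) (XT.nd (nat_lit 78) (nat_lit 228) (nat_lit 0) (XT.lf (nat_lit 0) (nat_lit 128278172283) (nat_lit 228) (nat_lit 58885782927) (nat_lit 304) (nat_lit 40723666746) (nat_lit 49) (nat_lit 5) (nat_lit 52) (nat_lit 5) (nat_lit 53) (nat_lit 5) (nat_lit 332) (nat_lit 325) (nat_lit 243)) (XT.lf (nat_lit 0) (nat_lit 23291807541) (nat_lit 228) (nat_lit 107291073756) (nat_lit 76) (nat_lit 116939507324) (nat_lit 46) (nat_lit 5) (nat_lit 49) (nat_lit 5) (nat_lit 47) (nat_lit 5) (nat_lit 333) (nat_lit 325) (nat_lit 242))))) (XT.nd (nat_lit 312) (nat_lit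 608) (nat_lit 0) (XT.nd (nat_lit 156) (nat_lit 380) (nat_lit 0) (XT.nd (nat_lit 78) (nat_lit 152) (nat_lit 0) (XT.lf (nat_lit 0) (nat_lit 104257826142) (nat_lit 304) (nat_lit 113402235407) (nat_lit 76) (nat_lit 51576926971) (nat_lit 43) (nat_lit 5) (nat_lit 47) (nat_lit 5) (nat_lit 44) (nat_lit 5) (nat_lit 334) (nat_lit 325) (nat_lit 241)) (XT.lf (nat_lit 0) (nat_lit 176082786749) (nat_lit 152) (nat_lit 32336690443) (nat_lit 228) (nat_lit 84905243128) (nat_lit 41) (nat_lit 5) (nat_lit 43) (nat_lit 5) (nat_lit 44) (nat_lit 5) (nat_lit 335) (nat_lit 325) (nat_lit 240))) (XT.nd (nat_lit 78) (nat_lit 152) (nat_lit 0) (XT.lf (nat_lit 0) (nat_lit 19708575715) (nat_lit 228) (nat_lit 119817589420) (nat_lit 76) (nat_lit 180454595303) (nat_lit 38) (nat_lit 5) (nat_lit 41) (nat_lit 5) (nat_lit 39) (nat_lit 5) (nat_lit 336) (nat_lit 325) (nat_lit 239)) (XT.lf (nat_lit 0) (nat_lit 147104956589) (nat_lit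 228) (nat_lit 121602920335) (nat_lit 76) (nat_lit 80781477208) (nat_lit 36) (nat_lit 5) (nat_lit 39) (nat_lit 5) (nat_lit 37) (nat_lit 5) (nat_lit 337) (nat_lit 325) (nat_lit 238)))) (XT.nd (nat_lit 156) (nat_lit 304) (nat_lit 0) (XT.nd (nat_lit 78) (nat_lit 152) (nat_lit 0) (XT.lf (nat_lit 0) (nat_lit 260960885109) (nat_lit 152) (nat_lit 46363584142) (nat_lit 228) (nat_lit 75002673834) (nat_lit 34) (nat_lit 5) (nat_lit 36) (nat_lit 5) (nat_lit 37) (nat_lit 5) (nat_lit 338) (nat_lit 325) (nat_lit 237)) (XT.lf (nat_lit 0) (nat_lit 84161242072) (nat_lit 152) (nat_lit 122695127666) (nat_lit 76) (nat_lit 211796613525) (nat_lit 32) (nat_lit 5) (nat_lit 34) (nat_lit 5) (nat_lit 33) (nat_lit 5) (nat_lit 339) (nat_lit 325) (nat_lit 236))) (XT.nd (nat_lit 78) (nat_lit 152) (nat_lit 0) (XT.lf (nat_lit 0) (nat_lit 277341326622) (nat_lit 228) (nat_lit 124211203300) (nat_lit 76) (nat_lit 57552713835)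 (nat_lit 30) (nat_lit 5) (nat_lit 33) (nat_lit 5) (nat_lit 31) (nat_lit 4) (nat_lit 340) (nat_lit 325) (nat_lit 235)) (XT.lf (nat_lit 0) (nat_lit 13092191269) (nat_lit 152) (nat_lit 128264502523) (nat_lit 76) (nat_lit 362767428445) (nat_lit 28) (nat_lit 5) (nat_lit 30) (nat_lit 5) (nat_lit 29) (nat_lit 5) (nat_lit 341) (nat_lit 325) (nat_lit 234))))))) (XT.nd (nat_lit 1170) (nat_lit 532) (nat_lit 0) (XT.nd (nat_lit 546) (nat_lit 684) (nat_lit 0) (XT.nd (nat_lit 234) (nat_lit 380) (nat_lit 0) (XT.nd (nat_lit 78) (nat_lit 228) (nat_lit 0) (XT.lf (nat_lit 0) (nat_lit 244784664321) (nat_lit 228) (nat_lit 139997668260) (nat_lit 76) (nat_lit 169266176691) (nat_lit 26) (nat_lit 5) (nat_lit 29) (nat_lit 5) (nat_lit 27) (nat_lit 4) (nat_lit 342) (nat_lit 325) (nat_lit 233)) (XT.nd (nat_lit 78) (nat_lit 152) (nat_lit 0) (XT.lf (nat_lit 0) (nat_lit 452970395405) (nat_lit 76) (nat_lit 76895174796)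 (nat_lit 152) (nat_lit 80105219284) (nat_lit 25) (nat_lit 5) (nat_lit 26) (nat_lit 5) (nat_lit 27) (nat_lit 4) (nat_lit 343) (nat_lit 325) (nat_lit 232)) (XT.lf (nat_lit 0) (nat_lit 197397239249) (nat_lit 152) (nat_lit 190478726074) (nat_lit 76) (nat_lit 284200867345) (nat_lit 23) (nat_lit 5) (nat_lit 25) (nat_lit 5) (nat_lit 24) (nat_lit 4) (nat_lit 344) (nat_lit 325) (nat_lit 231)))) (XT.nd (nat_lit 156) (nat_lit 152) (nat_lit 0) (XT.nd (nat_lit 78) (nat_lit 152) (nat_lit 0) (XT.lf (nat_lit 0) (nat_lit 503064722456) (nat_lit 76) (nat_lit 27766941291) (nat_lit 152) (nat_lit 210976688625) (nat_lit 22) (nat_lit 5) (nat_lit 23) (nat_lit 5) (nat_lit 24) (nat_lit 4) (nat_lit 345) (nat_lit 325) (nat_lit 230)) (XT.lf (nat_lit 0) (nat_lit 115534075826) (nat_lit 152) (nat_lit 316231041189) (nat_lit 76) (nat_lit 387827434911) (nat_lit 20) (nat_lit 5) (nat_lit 22) (nat_lit 5) (nat_lit 21) (nat_lit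 4) (nat_lit 346) (nat_lit 325) (nat_lit 229))) (XT.nd (nat_lit 78) (nat_lit 76) (nat_lit 0) (XT.lf (nat_lit 0) (nat_lit 479978205512) (nat_lit 76) (nat_lit 18348829362) (nat_lit 152) (nat_lit 408695133118) (nat_lit 19) (nat_lit 5) (nat_lit 20) (nat_lit 5) (nat_lit 21) (nat_lit 4) (nat_lit 347) (nat_lit 325) (nat_lit 228)) (XT.lf (nat_lit 0) (nat_lit 417596783785) (nat_lit 76) (nat_lit 551423843162) (nat_lit 76) (nat_lit 36107064419) (nat_lit 18) (nat_lit 4) (nat_lit 19) (nat_lit 5) (nat_lit 19) (nat_lit 4) (nat_lit 348) (nat_lit 325) (nat_lit 227))))) (XT.nd (nat_lit 312) (nat_lit 304) (nat_lit 0) (XT.nd (nat_lit 156) (nat_lit 152) (nat_lit 0) (XT.nd (nat_lit 78) (nat_lit 76) (nat_lit 0) (XT.lf (nat_lit 0) (nat_lit 302715567767) (nat_lit 76) (nat_lit 90569250602) (nat_lit 152) (nat_lit 722265825701) (nat_lit 16) (nat_lit 5) (nat_lit 17) (nat_lit 5) (nat_lit 18) (nat_lit 4) (nat_lit 349)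 (nat_lit 325) (nat_lit 226)) (XT.lf (nat_lit 0) (nat_lit 114632764841) (nat_lit 76) (nat_lit 801249868241) (nat_lit 76) (nat_lit 324104571700) (nat_lit 15) (nat_lit 4) (nat_lit 16) (nat_lit 5) (nat_lit 16) (nat_lit 4) (nat_lit 350) (nat_lit 325) (nat_lit 225))) (XT.nd (nat_lit 78) (nat_lit 76) (nat_lit 0) (XT.lf (nat_lit 0) (nat_lit 153872882754) (nat_lit 152) (nat_lit 157089753410) (nat_lit 76) (nat_lit 1069726476939) (nat_lit 14) (nat_lit 5) (nat_lit 16) (nat_lit 5) (nat_lit 15) (nat_lit 4) (nat_lit 351) (nat_lit 325) (nat_lit 224)) (XT.lf (nat_lit 0) (nat_lit 715825262553) (nat_lit 152) (nat_lit 549456097615) (nat_lit 0) (nat_lit 274023970308) (nat_lit 13) (nat_lit 5) (nat_lit 15) (nat_lit 4) (nat_lit 13) (nat_lit 4) (nat_lit 352) (nat_lit 325) (nat_lit 223)))) (XT.nd (nat_lit 156) (nat_lit 76) (nat_lit 0) (XT.nd (nat_lit 78) (nat_lit 152) (nat_lit 0) (XT.lf (nat_lit 0) (nat_lit 619251860612)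 (nat_lit 76) (nat_lit 771004298224) (nat_lit 76) (nat_lit 329202968873) (nat_lit 12) (nat_lit 4) (nat_lit 13) (nat_lit 5) (nat_lit 13) (nat_lit 4) (nat_lit 353) (nat_lit 325) (nat_lit 222)) (XT.lf (nat_lit 0) (nat_lit 68437841632) (nat_lit 76) (nat_lit 176869467621) (nat_lit 152) (nat_lit 1679423781658) (nat_lit 10) (nat_lit 5) (nat_lit 11) (nat_lit 5) (nat_lit 12) (nat_lit 4) (nat_lit 354) (nat_lit 325) (nat_lit 221))) (XT.nd (nat_lit 78) (nat_lit 76) (nat_lit 0) (XT.lf (nat_lit 0) (nat_lit 932097675168) (nat_lit 152) (nat_lit 701342118122) (nat_lit 0) (nat_lit 523022314358) (nat_lit 10) (nat_lit 5) (nat_lit 12) (nat_lit 4) (nat_lit 10) (nat_lit 4) (nat_lit 355) (nat_lit 325) (nat_lit 220)) (XT.lf (nat_lit 0) (nat_lit 654711038658) (nat_lit 76) (nat_lit 1087833060688) (nat_lit 76) (nat_lit 678757677288) (nat_lit 9) (nat_lit 4) (nat_lit 10) (nat_lit 5) (nat_lit 10) (nat_lit 4) (nat_lit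 356) (nat_lit 325) (nat_lit 219)))))) (XT.nd (nat_lit 624) (nat_lit 152) (nat_lit 0) (XT.nd (nat_lit 312) (nat_lit 152) (nat_lit 0) (XT.nd (nat_lit 156) (nat_lit 76) (nat_lit 0) (XT.nd (nat_lit 78) (nat_lit 152) (nat_lit 0) (XT.lf (nat_lit 0) (nat_lit 2256643161722) (nat_lit 76) (nat_lit 438333068909) (nat_lit 76) (nat_lit 29257665865) (nat_lit 9) (nat_lit 4) (nat_lit 10) (nat_lit 5) (nat_lit 10) (nat_lit 4) (nat_lit 357) (nat_lit 325) (nat_lit 218)) (XT.lf (nat_lit 0) (nat_lit 715844373454) (nat_lit 152) (nat_lit 2015583618954) (nat_lit 0) (nat_lit 337070836302) (nat_lit 7) (nat_lit 5) (nat_lit 9) (nat_lit 4) (nat_lit 7) (nat_lit 4) (nat_lit 358) (nat_lit 325) (nat_lit 217))) (XT.nd (nat_lit 78) (nat_lit 76) (nat_lit 0) (XT.lf (nat_lit 0) (nat_lit 1597118733791) (nat_lit 152) (nat_lit 646787637301) (nat_lit 0) (nat_lit 1218345182885) (nat_lit 7) (nat_lit 5) (nat_lit 9) (nat_lit 4) (nat_lit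 7) (nat_lit 4) (nat_lit 359) (nat_lit 325) (nat_lit 216)) (XT.lf (nat_lit 0) (nat_lit 976159057689) (nat_lit 76) (nat_lit 1657901782910) (nat_lit 76) (nat_lit 1279128220044) (nat_lit 6) (nat_lit 4) (nat_lit 7) (nat_lit 5) (nat_lit 7) (nat_lit 4) (nat_lit 360) (nat_lit 325) (nat_lit 215)))) (XT.nd (nat_lit 156) (nat_lit 0) (nat_lit 0) (XT.nd (nat_lit 78) (nat_lit 152) (nat_lit 0) (XT.lf (nat_lit 0) (nat_lit 2881715147478) (nat_lit 76) (nat_lit 963659590566) (nat_lit 76) (nat_lit 584886017301) (nat_lit 6) (nat_lit 4) (nat_lit 7) (nat_lit 5) (nat_lit 7) (nat_lit 4) (nat_lit 361) (nat_lit 325) (nat_lit 214)) (XT.lf (nat_lit 0) (nat_lit 45345204394) (nat_lit 76) (nat_lit 158558058443) (nat_lit 152) (nat_lit 4820491940825) (nat_lit 4) (nat_lit 5) (nat_lit 5) (nat_lit 5) (nat_lit 6) (nat_lit 4) (nat_lit 362) (nat_lit 325) (nat_lit 213))) (XT.nd (nat_lit 78) (nat_lit 0) (nat_lit 0) (XT.lf (nat_lit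 0) (nat_lit 1142072820637) (nat_lit 152) (nat_lit 3767749624403) (nat_lit 0) (nat_lit 791356533441) (nat_lit 4) (nat_lit 5) (nat_lit 6) (nat_lit 4) (nat_lit 4) (nat_lit 4) (nat_lit 363) (nat_lit 325) (nat_lit 212)) (XT.lf (nat_lit 0) (nat_lit 2225353098556) (nat_lit 152) (nat_lit 2379139593026) (nat_lit 0) (nat_lit 1874636805029) (nat_lit 4) (nat_lit 5) (nat_lit 6) (nat_lit 4) (nat_lit 4) (nat_lit 4) (nat_lit 364) (nat_lit 325) (nat_lit 211))))) (XT.nd (nat_lit 312) (nat_lit 76) (nat_lit 0) (XT.nd (nat_lit 156) (nat_lit 0) (nat_lit 0) (XT.nd (nat_lit 78) (nat_lit 76) (nat_lit 0) (XT.lf (nat_lit 0) (nat_lit 3471125385608) (nat_lit 152) (nat_lit 782238122883) (nat_lit 0) (nat_lit 3120409086575) (nat_lit 4) (nat_lit 5) (nat_lit 6) (nat_lit 4) (nat_lit 4) (nat_lit 4) (nat_lit 365) (nat_lit 325) (nat_lit 210)) (XT.lf (nat_lit 0) (nat_lit 1109710735801) (nat_lit 76) (nat_lit 3820741321492) (nat_lit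 76) (nat_lit 3470025017672) (nat_lit 3) (nat_lit 4) (nat_lit 4) (nat_lit 5) (nat_lit 4) (nat_lit 4) (nat_lit 366) (nat_lit 325) (nat_lit 209))) (XT.nd (nat_lit 78) (nat_lit 0) (nat_lit 0) (XT.lf (nat_lit 0) (nat_lit 3332821835105) (nat_lit 76) (nat_lit 3298629890047) (nat_lit 76) (nat_lit 2947913582064) (nat_lit 3) (nat_lit 4) (nat_lit 4) (nat_lit 5) (nat_lit 4) (nat_lit 4) (nat_lit 367) (nat_lit 325) (nat_lit 208)) (XT.lf (nat_lit 0) (nat_lit 5889399553664) (nat_lit 76) (nat_lit 2698201767023) (nat_lit 76) (nat_lit 2347485455420) (nat_lit 3) (nat_lit 4) (nat_lit 4) (nat_lit 5) (nat_lit 4) (nat_lit 4) (nat_lit 368) (nat_lit 325) (nat_lit 207)))) (XT.nd (nat_lit 156) (nat_lit 76) (nat_lit 0) (XT.nd (nat_lit 78) (nat_lit 0) (nat_lit 0) (XT.lf (nat_lit 0) (nat_lit 8829463890321) (nat_lit 76) (nat_lit 2007709445665) (nat_lit 76) (nat_lit 1656993130914) (nat_lit 3) (nat_lit 4) (nat_lit 4) (nat_lit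 5) (nat_lit 4) (nat_lit 4) (nat_lit 369) (nat_lit 325) (nat_lit 206)) (XT.lf (nat_lit 0) (nat_lit 12210537842965) (nat_lit 76) (nat_lit 1213643293597) (nat_lit 76) (nat_lit 862926976109) (nat_lit 3) (nat_lit 4) (nat_lit 4) (nat_lit 5) (nat_lit 4) (nat_lit 4) (nat_lit 370) (nat_lit 325) (nat_lit 205))) (XT.nd (nat_lit 43368) (nat_lit 0) (nat_lit 4712) (XT.lf (nat_lit 0) (nat_lit 47735423146) (nat_lit 152) (nat_lit 251426639723) (nat_lit 76) (nat_lit 16049732264288) (nat_lit 2) (nat_lit 5) (nat_lit 4) (nat_lit 5) (nat_lit 3) (nat_lit 4) (nat_lit 371) (nat_lit 325) (nat_lit 204)) (XT.lf (nat_lit 0) (nat_lit 67877046201) (nat_lit 532) (nat_lit 4552873958) (nat_lit 532) (nat_lit 4552873958) (nat_lit 64) (nat_lit 3) (nat_lit 71) (nat_lit 3) (nat_lit 71) (nat_lit 5) (nat_lit 326) (nat_lit 326) (nat_lit 248))))))))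
noncomputable def xc49 : XT := (XT.nd (nat_lit 2418) (nat_lit 456) (nat_lit 0) (XT.nd (nat_lit 1170) (nat_lit 1596) (nat_lit 0) (XT.nd (nat_lit 546) (nat_lit 1444) (nat_lit 0) (XT.nd (nat_lit 234) (nat_lit 760) (nat_lit 0) (XT.nd (nat_lit 78) (nat_lit 380) (nat_lit 0) (XT.lf (nat_lit 76) (nat_lit 138113444857) (nat_lit 0) (nat_lit 11148487325) (nat_lit 532) (nat_lit 15984968143) (nat_lit 65) (nat_lit 5) (nat_lit 64) (nat_lit 3) (nat_lit 71) (nat_lit 5) (nat_lit 327) (nat_lit 326) (nat_lit 247)) (XT.nd (nat_lit 78) (nat_lit 456) (nat_lit 0) (XT.lf (nat_lit 76) (nat_lit 132982623647) (nat_lit 0) (nat_lit 38712722874) (nat_lit 532) (nat_lit 5973111604) (nat_lit 66) (nat_lit 5) (nat_lit 65) (nat_lit 5) (nat_lit 72) (nat_lit 5) (nat_lit 328) (nat_lit 326) (nat_lit 246)) (XT.lf (nat_lit 0) (nat_lit 12551322499) (nat_lit 532) (nat_lit 61503983758) (nat_lit 608) (nat_lit 117304247310) (nat_lit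 59) (nat_lit 5) (nat_lit 66) (nat_lit 5) (nat_lit 67) (nat_lit 5) (nat_lit 329) (nat_lit 326) (nat_lit 245)))) (XT.nd (nat_lit 156) (nat_lit 456) (nat_lit 0) (XT.nd (nat_lit 78) (nat_lit 380) (nat_lit 0) (XT.lf (nat_lit 0) (nat_lit 41305531419) (nat_lit 532) (nat_lit 77273793626) (nat_lit 76) (nat_lit 87888194403) (nat_lit 60) (nat_lit 5) (nat_lit 67) (nat_lit 5) (nat_lit 61) (nat_lit 5) (nat_lit 330) (nat_lit 326) (nat_lit 244)) (XT.lf (nat_lit 0) (nat_lit 82699891603) (nat_lit 456) (nat_lit 91432135772) (nat_lit 76) (nat_lit 49043491720) (nat_lit 55) (nat_lit 5) (nat_lit 61) (nat_lit 5) (nat_lit 56) (nat_lit 5) (nat_lit 331) (nat_lit 326) (nat_lit 243))) (XT.nd (nat_lit 78) (nat_lit 228) (nat_lit 0) (XT.lf (nat_lit 0) (nat_lit 138155356126) (nat_lit 228) (nat_lit 1057955988) (nat_lit 304) (nat_lit 102463614486) (nat_lit 52) (nat_lit 5) (nat_lit 55) (nat_lit 5) (nat_lit 56) (nat_lit 5)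 (nat_lit 332) (nat_lit 326) (nat_lit 242)) (XT.lf (nat_lit 0) (nat_lit 147526044217) (nat_lit 228) (nat_lit 67717685727) (nat_lit 304) (nat_lit 46826616906) (nat_lit 49) (nat_lit 5) (nat_lit 52) (nat_lit 5) (nat_lit 53) (nat_lit 5) (nat_lit 333) (nat_lit 326) (nat_lit 241))))) (XT.nd (nat_lit 312) (nat_lit 608) (nat_lit 0) (XT.nd (nat_lit 156) (nat_lit 380) (nat_lit 0) (XT.nd (nat_lit 78) (nat_lit 228) (nat_lit 0) (XT.lf (nat_lit 0) (nat_lit 26790372960) (nat_lit 228) (nat_lit 123378491630) (nat_lit 76) (nat_lit 134481495655) (nat_lit 46) (nat_lit 5) (nat_lit 49) (nat_lit 5) (nat_lit 47) (nat_lit 5) (nat_lit 334) (nat_lit 326) (nat_lit 240)) (XT.lf (nat_lit 0) (nat_lit 119900840320) (nat_lit 304) (nat_lit 130406542625) (nat_lit 76) (nat_lit 59314803914) (nat_lit 43) (nat_lit 5) (nat_lit 47) (nat_lit 5) (nat_lit 44) (nat_lit 5) (nat_lit 335) (nat_lit 326) (nat_lit 239))) (XT.nd (nat_lit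 78) (nat_lit 228) (nat_lit 0) (XT.lf (nat_lit 0) (nat_lit 202500722606) (nat_lit 152) (nat_lit 37185583005) (nat_lit 228) (nat_lit 97636807846) (nat_lit 41) (nat_lit 5) (nat_lit 43) (nat_lit 5) (nat_lit 44) (nat_lit 5) (nat_lit 336) (nat_lit 326) (nat_lit 238)) (XT.lf (nat_lit 0) (nat_lit 22668514948) (nat_lit 228) (nat_lit 137784729999) (nat_lit 76) (nat_lit 207524335424) (nat_lit 38) (nat_lit 5) (nat_lit 41) (nat_lit 5) (nat_lit 39) (nat_lit 5) (nat_lit 337) (nat_lit 326) (nat_lit 237)))) (XT.nd (nat_lit 156) (nat_lit 304) (nat_lit 0) (XT.nd (nat_lit 78) (nat_lit 152) (nat_lit 0) (XT.lf (nat_lit 0) (nat_lit 169174039250) (nat_lit 228) (nat_lit 139838102191) (nat_lit 76) (nat_lit 92900347022) (nat_lit 36) (nat_lit 5) (nat_lit 39) (nat_lit 5) (nat_lit 37) (nat_lit 5) (nat_lit 338) (nat_lit 326) (nat_lit 236)) (XT.lf (nat_lit 0) (nat_lit 300109829158) (nat_lit 152) (nat_lit 53316329820)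 (nat_lit 228) (nat_lit 86249812584) (nat_lit 34) (nat_lit 5) (nat_lit 36) (nat_lit 5) (nat_lit 37) (nat_lit 5) (nat_lit 339) (nat_lit 326) (nat_lit 235))) (XT.nd (nat_lit 78) (nat_lit 152) (nat_lit 0) (XT.lf (nat_lit 0) (nat_lit 96788274911) (nat_lit 152) (nat_lit 141094658762) (nat_lit 76) (nat_lit 243567768199) (nat_lit 32) (nat_lit 5) (nat_lit 34) (nat_lit 5) (nat_lit 33) (nat_lit 5) (nat_lit 340) (nat_lit 326) (nat_lit 234)) (XT.lf (nat_lit 0) (nat_lit 318945147429) (nat_lit 228) (nat_lit 142838381689) (nat_lit 76) (nat_lit 66187290450) (nat_lit 30) (nat_lit 5) (nat_lit 33) (nat_lit 5) (nat_lit 31) (nat_lit 4) (nat_lit 341) (nat_lit 326) (nat_lit 233)))))) (XT.nd (nat_lit 624) (nat_lit 684) (nat_lit 0) (XT.nd (nat_lit 312) (nat_lit 380) (nat_lit 0) (XT.nd (nat_lit 156) (nat_lit 228) (nat_lit 0) (XT.nd (nat_lit 78) (nat_lit 152) (nat_lit 0) (XT.lf (nat_lit 0) (nat_lit 15058461532) (nat_lit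 152) (nat_lit 147499927497) (nat_lit 76) (nat_lit 417184155408) (nat_lit 28) (nat_lit 5) (nat_lit 30) (nat_lit 5) (nat_lit 29) (nat_lit 5) (nat_lit 342) (nat_lit 326) (nat_lit 232)) (XT.lf (nat_lit 0) (nat_lit 281504620903) (nat_lit 228) (nat_lit 160993290088) (nat_lit 76) (nat_lit 194657693410) (nat_lit 26) (nat_lit 5) (nat_lit 29) (nat_lit 5) (nat_lit 27) (nat_lit 4) (nat_lit 343) (nat_lit 326) (nat_lit 231))) (XT.nd (nat_lit 78) (nat_lit 152) (nat_lit 0) (XT.lf (nat_lit 0) (nat_lit 520919642141) (nat_lit 76) (nat_lit 88427814824) (nat_lit 152) (nat_lit 92118786230) (nat_lit 25) (nat_lit 5) (nat_lit 26) (nat_lit 5) (nat_lit 27) (nat_lit 4) (nat_lit 344) (nat_lit 326) (nat_lit 230)) (XT.lf (nat_lit 0) (nat_lit 227008776877) (nat_lit 152) (nat_lit 219046941662) (nat_lit 76) (nat_lit 326832482396) (nat_lit 23) (nat_lit 5) (nat_lit 25) (nat_lit 5) (nat_lit 24) (nat_lit 4) (nat_lit 345) (nat_lit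 326) (nat_lit 229)))) (XT.nd (nat_lit 156) (nat_lit 152) (nat_lit 0) (XT.nd (nat_lit 78) (nat_lit 152) (nat_lit 0) (XT.lf (nat_lit 0) (nat_lit 578527719991) (nat_lit 76) (nat_lit 31930469588) (nat_lit 152) (nat_lit 242621273118) (nat_lit 22) (nat_lit 5) (nat_lit 23) (nat_lit 5) (nat_lit 24) (nat_lit 4) (nat_lit 346) (nat_lit 326) (nat_lit 228)) (XT.lf (nat_lit 0) (nat_lit 132865881405) (nat_lit 152) (nat_lit 363662499892) (nat_lit 76) (nat_lit 446002917536) (nat_lit 20) (nat_lit 5) (nat_lit 22) (nat_lit 5) (nat_lit 21) (nat_lit 4) (nat_lit 347) (nat_lit 326) (nat_lit 227))) (XT.nd (nat_lit 78) (nat_lit 76) (nat_lit 0) (XT.lf (nat_lit 0) (nat_lit 551977863164) (nat_lit 76) (nat_lit 21099770553) (nat_lit 152) (nat_lit 469997735685) (nat_lit 19) (nat_lit 5) (nat_lit 20) (nat_lit 5) (nat_lit 21) (nat_lit 4) (nat_lit 348) (nat_lit 326) (nat_lit 226)) (XT.lf (nat_lit 0) (nat_lit 480239063298)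 (nat_lit 76) (nat_lit 634136095315) (nat_lit 76) (nat_lit 41521571187) (nat_lit 18) (nat_lit 4) (nat_lit 19) (nat_lit 5) (nat_lit 19) (nat_lit 4) (nat_lit 349) (nat_lit 326) (nat_lit 225))))) (XT.nd (nat_lit 312) (nat_lit 304) (nat_lit 0) (XT.nd (nat_lit 156) (nat_lit 152) (nat_lit 0) (XT.nd (nat_lit 78) (nat_lit 76) (nat_lit 0) (XT.lf (nat_lit 0) (nat_lit 348125502420) (nat_lit 76) (nat_lit 104153384015) (nat_lit 152) (nat_lit 830604246410) (nat_lit 16) (nat_lit 5) (nat_lit 17) (nat_lit 5) (nat_lit 18) (nat_lit 4) (nat_lit 350) (nat_lit 326) (nat_lit 224)) (XT.lf (nat_lit 0) (nat_lit 131830130119) (nat_lit 76) (nat_lit 921436152925) (nat_lit 76) (nat_lit 372718901872) (nat_lit 15) (nat_lit 4) (nat_lit 16) (nat_lit 5) (nat_lit 16) (nat_lit 4) (nat_lit 351) (nat_lit 326) (nat_lit 223))) (XT.nd (nat_lit 78) (nat_lit 76) (nat_lit 0) (XT.lf (nat_lit 0) (nat_lit 176954934969) (nat_lit 152) (nat_lit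 180651026392) (nat_lit 76) (nat_lit 1230186428977) (nat_lit 14) (nat_lit 5) (nat_lit 16) (nat_lit 5) (nat_lit 15) (nat_lit 4) (nat_lit 352) (nat_lit 326) (nat_lit 222)) (XT.lf (nat_lit 0) (nat_lit 823200097523) (nat_lit 152) (nat_lit 631872449353) (nat_lit 0) (nat_lit 315128499398) (nat_lit 13) (nat_lit 5) (nat_lit 15) (nat_lit 4) (nat_lit 13) (nat_lit 4) (nat_lit 353) (nat_lit 326) (nat_lit 221)))) (XT.nd (nat_lit 156) (nat_lit 76) (nat_lit 0) (XT.nd (nat_lit 78) (nat_lit 152) (nat_lit 0) (XT.lf (nat_lit 0) (nat_lit 712141527994) (nat_lit 76) (nat_lit 886654009287) (nat_lit 76) (nat_lit 378582383104) (nat_lit 12) (nat_lit 4) (nat_lit 13) (nat_lit 5) (nat_lit 13) (nat_lit 4) (nat_lit 354) (nat_lit 326) (nat_lit 220)) (XT.lf (nat_lit 0) (nat_lit 78705293641) (nat_lit 76) (nat_lit 203399006464) (nat_lit 152) (nat_lit 1931336382796) (nat_lit 10) (nat_lit 5) (nat_lit 11) (nat_lit 5) (nat_lit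 12) (nat_lit 4) (nat_lit 355) (nat_lit 326) (nat_lit 219))) (XT.nd (nat_lit 78) (nat_lit 76) (nat_lit 0) (XT.lf (nat_lit 0) (nat_lit 1071913122668) (nat_lit 152) (nat_lit 806541847827) (nat_lit 0) (nat_lit 601476389524) (nat_lit 10) (nat_lit 5) (nat_lit 12) (nat_lit 4) (nat_lit 10) (nat_lit 4) (nat_lit 356) (nat_lit 326) (nat_lit 218)) (XT.lf (nat_lit 0) (nat_lit 752919148053) (nat_lit 76) (nat_lit 1251007293524) (nat_lit 76) (nat_lit 780570543298) (nat_lit 9) (nat_lit 4) (nat_lit 10) (nat_lit 5) (nat_lit 10) (nat_lit 4) (nat_lit 357) (nat_lit 326) (nat_lit 217))))))) (XT.nd (nat_lit 44538) (nat_lit 0) (nat_lit 1900) (XT.nd (nat_lit 546) (nat_lit 76) (nat_lit 0) (XT.nd (nat_lit 234) (nat_lit 228) (nat_lit 0) (XT.nd (nat_lit 78) (nat_lit 152) (nat_lit 0) (XT.lf (nat_lit 0) (nat_lit 2595140899977) (nat_lit 76) (nat_lit 504082397708) (nat_lit 76) (nat_lit 33645632629) (nat_lit 9) (nat_lit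 4) (nat_lit 10) (nat_lit 5) (nat_lit 10) (nat_lit 4) (nat_lit 358) (nat_lit 326) (nat_lit 216)) (XT.nd (nat_lit 78) (nat_lit 0) (nat_lit 0) (XT.lf (nat_lit 0) (nat_lit 823221636672) (nat_lit 152) (nat_lit 2317919940305) (nat_lit 0) (nat_lit 387632027417) (nat_lit 7) (nat_lit 5) (nat_lit 9) (nat_lit 4) (nat_lit 7) (nat_lit 4) (nat_lit 359) (nat_lit 326) (nat_lit 215)) (XT.lf (nat_lit 0) (nat_lit 1836687071858) (nat_lit 152) (nat_lit 743804720729) (nat_lit 0) (nat_lit 1401097452204) (nat_lit 7) (nat_lit 5) (nat_lit 9) (nat_lit 4) (nat_lit 7) (nat_lit 4) (nat_lit 360) (nat_lit 326) (nat_lit 214)))) (XT.nd (nat_lit 156) (nat_lit 152) (nat_lit 0) (XT.nd (nat_lit 78) (nat_lit 0) (nat_lit 0) (XT.lf (nat_lit 0) (nat_lit 1122583888602) (nat_lit 76) (nat_lit 1906586560599) (nat_lit 76) (nat_lit 1470996931902) (nat_lit 6) (nat_lit 4) (nat_lit 7) (nat_lit 5) (nat_lit 7) (nat_lit 4) (nat_lit 361) (nat_lit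 326) (nat_lit 213)) (XT.lf (nat_lit 0) (nat_lit 3313973265043) (nat_lit 76) (nat_lit 1108208103283) (nat_lit 76) (nat_lit 672618466723) (nat_lit 6) (nat_lit 4) (nat_lit 7) (nat_lit 5) (nat_lit 7) (nat_lit 4) (nat_lit 362) (nat_lit 326) (nat_lit 212))) (XT.nd (nat_lit 78) (nat_lit 0) (nat_lit 0) (XT.lf (nat_lit 0) (nat_lit 52147779711) (nat_lit 76) (nat_lit 182341366014) (nat_lit 152) (nat_lit 5543565306984) (nat_lit 4) (nat_lit 5) (nat_lit 5) (nat_lit 5) (nat_lit 6) (nat_lit 4) (nat_lit 363) (nat_lit 326) (nat_lit 211)) (XT.lf (nat_lit 0) (nat_lit 1313384094265) (nat_lit 152) (nat_lit 4332911358053) (nat_lit 0) (nat_lit 910060344872) (nat_lit 4) (nat_lit 5) (nat_lit 6) (nat_lit 4) (nat_lit 4) (nat_lit 4) (nat_lit 364) (nat_lit 326) (nat_lit 210))))) (XT.nd (nat_lit 312) (nat_lit 0) (nat_lit 0) (XT.nd (nat_lit 156) (nat_lit 76) (nat_lit 0) (XT.nd (nat_lit 78) (nat_lit 0) (nat_lit 0) (XT.lf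 (nat_lit 0) (nat_lit 2559156368150) (nat_lit 152) (nat_lit 2736009914580) (nat_lit 0) (nat_lit 2155832613969) (nat_lit 4) (nat_lit 5) (nat_lit 6) (nat_lit 4) (nat_lit 4) (nat_lit 4) (nat_lit 365) (nat_lit 326) (nat_lit 209)) (XT.lf (nat_lit 0) (nat_lit 3991794458501) (nat_lit 152) (nat_lit 899573304446) (nat_lit 0) (nat_lit 3588470700158) (nat_lit 4) (nat_lit 5) (nat_lit 6) (nat_lit 4) (nat_lit 4) (nat_lit 4) (nat_lit 366) (nat_lit 326) (nat_lit 208))) (XT.nd (nat_lit 78) (nat_lit 0) (nat_lit 0) (XT.lf (nat_lit 0) (nat_lit 1276167837598) (nat_lit 76) (nat_lit 4393852270589) (nat_lit 76) (nat_lit 3990528508625) (nat_lit 3) (nat_lit 4) (nat_lit 4) (nat_lit 5) (nat_lit 4) (nat_lit 4) (nat_lit 367) (nat_lit 326) (nat_lit 207)) (XT.lf (nat_lit 0) (nat_lit 3832745537698) (nat_lit 76) (nat_lit 3793424156922) (nat_lit 76) (nat_lit 3390100391811) (nat_lit 3) (nat_lit 4) (nat_lit 4) (nat_lit 5) (nat_lit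 4) (nat_lit 4) (nat_lit 368) (nat_lit 326) (nat_lit 206)))) (XT.nd (nat_lit 156) (nat_lit 0) (nat_lit 0) (XT.nd (nat_lit 78) (nat_lit 0) (nat_lit 0) (XT.lf (nat_lit 0) (nat_lit 6772809858303) (nat_lit 76) (nat_lit 3102931843701) (nat_lit 76) (nat_lit 2699608075853) (nat_lit 3) (nat_lit 4) (nat_lit 4) (nat_lit 5) (nat_lit 4) (nat_lit 4) (nat_lit 369) (nat_lit 326) (nat_lit 205)) (XT.lf (nat_lit 0) (nat_lit 10153883796990) (nat_lit 76) (nat_lit 2308865698709) (nat_lit 76) (nat_lit 1905541928481) (nat_lit 3) (nat_lit 4) (nat_lit 4) (nat_lit 5) (nat_lit 4) (nat_lit 4) (nat_lit 370) (nat_lit 326) (nat_lit 204))) (XT.nd (nat_lit 43446) (nat_lit 0) (nat_lit 4636) (XT.lf (nat_lit 0) (nat_lit 14042118800385) (nat_lit 76) (nat_lit 1395689645198) (nat_lit 76) (nat_lit 992365872900) (nat_lit 3) (nat_lit 4) (nat_lit 4) (nat_lit 5) (nat_lit 4) (nat_lit 4) (nat_lit 371) (nat_lit 326) (nat_lit 203)) (XT.lf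 (nat_lit 0) (nat_lit 78063061715) (nat_lit 532) (nat_lit 5233395307) (nat_lit 532) (nat_lit 5233395307) (nat_lit 64) (nat_lit 3) (nat_lit 71) (nat_lit 3) (nat_lit 71) (nat_lit 5) (nat_lit 327) (nat_lit 327) (nat_lit 246)))))) (XT.nd (nat_lit 624) (nat_lit 1368) (nat_lit 0) (XT.nd (nat_lit 312) (nat_lit 988) (nat_lit 0) (XT.nd (nat_lit 156) (nat_lit 380) (nat_lit 0) (XT.nd (nat_lit 78) (nat_lit 0) (nat_lit 76) (XT.lf (nat_lit 76) (nat_lit 158834873129) (nat_lit 0) (nat_lit 12824209038) (nat_lit 532) (nat_lit 18374217059) (nat_lit 65) (nat_lit 5) (nat_lit 64) (nat_lit 3) (nat_lit 71) (nat_lit 5) (nat_lit 328) (nat_lit 327) (nat_lit 245)) (XT.lf (nat_lit 76) (nat_lit 152934713541) (nat_lit 0) (nat_lit 44521810704) (nat_lit 532) (nat_lit 6861646161) (nat_lit 66) (nat_lit 5) (nat_lit 65) (nat_lit 5) (nat_lit 72) (nat_lit 5) (nat_lit 329) (nat_lit 327) (nat_lit 244))) (XT.nd (nat_lit 78) (nat_lit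 0) (nat_lit 76) (XT.lf (nat_lit 0) (nat_lit 14440233410) (nat_lit 532) (nat_lit 70724392904) (nat_lit 608) (nat_lit 134898358149) (nat_lit 59) (nat_lit 5) (nat_lit 66) (nat_lit 5) (nat_lit 67) (nat_lit 5) (nat_lit 330) (nat_lit 327) (nat_lit 243)) (XT.lf (nat_lit 0) (nat_lit 47506859106) (nat_lit 532) (nat_lit 88859649196) (nat_lit 76) (nat_lit 101070694760) (nat_lit 60) (nat_lit 5) (nat_lit 67) (nat_lit 5) (nat_lit 61) (nat_lit 5) (nat_lit 331) (nat_lit 327) (nat_lit 242)))) (XT.nd (nat_lit 156) (nat_lit 456) (nat_lit 0) (XT.nd (nat_lit 78) (nat_lit 228) (nat_lit 0) (XT.lf (nat_lit 0) (nat_lit 95109767994) (nat_lit 456) (nat_lit 105141785457) (nat_lit 76) (nat_lit 56399898213) (nat_lit 55) (nat_lit 5) (nat_lit 61) (nat_lit 5) (nat_lit 56) (nat_lit 5) (nat_lit 332) (nat_lit 327) (nat_lit 241)) (XT.lf (nat_lit 0) (nat_lit 158883392553) (nat_lit 228) (nat_lit 1216284685) (nat_lit 304) (nat_lit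 117828435511) (nat_lit 52) (nat_lit 5) (nat_lit 55) (nat_lit 5) (nat_lit 56) (nat_lit 5) (nat_lit 333) (nat_lit 327) (nat_lit 240))) (XT.nd (nat_lit 78) (nat_lit 228) (nat_lit 0) (XT.lf (nat_lit 0) (nat_lit 169659598179) (nat_lit 228) (nat_lit 77874609181) (nat_lit 304) (nat_lit 53846375149) (nat_lit 49) (nat_lit 5) (nat_lit 52) (nat_lit 5) (nat_lit 53) (nat_lit 5) (nat_lit 334) (nat_lit 327) (nat_lit 239)) (XT.lf (nat_lit 0) (nat_lit 30812554075) (nat_lit 228) (nat_lit 141880544627) (nat_lit 76) (nat_lit 154654523203) (nat_lit 46) (nat_lit 5) (nat_lit 49) (nat_lit 5) (nat_lit 47) (nat_lit 5) (nat_lit 335) (nat_lit 327) (nat_lit 238))))) (XT.nd (nat_lit 312) (nat_lit 608) (nat_lit 0) (XT.nd (nat_lit 156) (nat_lit 380) (nat_lit 0) (XT.nd (nat_lit 78) (nat_lit 152) (nat_lit 0) (XT.lf (nat_lit 0) (nat_lit 137889248225) (nat_lit 304) (nat_lit 149962965915) (nat_lit 76) (nat_lit 68213036144)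 (nat_lit 43) (nat_lit 5) (nat_lit 47) (nat_lit 5) (nat_lit 44) (nat_lit 5) (nat_lit 336) (nat_lit 327) (nat_lit 237)) (XT.lf (nat_lit 0) (nat_lit 232880003281) (nat_lit 152) (nat_lit 42762202305) (nat_lit 228) (nat_lit 112279136772) (nat_lit 41) (nat_lit 5) (nat_lit 43) (nat_lit 5) (nat_lit 44) (nat_lit 5) (nat_lit 337) (nat_lit 327) (nat_lit 236))) (XT.nd (nat_lit 78) (nat_lit 152) (nat_lit 0) (XT.lf (nat_lit 0) (nat_lit 26071554289) (nat_lit 228) (nat_lit 158448282346) (nat_lit 76) (nat_lit 238654158384) (nat_lit 38) (nat_lit 5) (nat_lit 41) (nat_lit 5) (nat_lit 39) (nat_lit 5) (nat_lit 338) (nat_lit 327) (nat_lit 235)) (XT.lf (nat_lit 0) (nat_lit 194552670031) (nat_lit 228) (nat_lit 160809843083) (nat_lit 76) (nat_lit 106836645376) (nat_lit 36) (nat_lit 5) (nat_lit 39) (nat_lit 5) (nat_lit 37) (nat_lit 5) (nat_lit 339) (nat_lit 327) (nat_lit 234)))) (XT.nd (nat_lit 156) (nat_lit 304)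 (nat_lit 0) (XT.nd (nat_lit 78) (nat_lit 152) (nat_lit 0) (XT.lf (nat_lit 0) (nat_lit 345129941553) (nat_lit 152) (nat_lit 61312424326) (nat_lit 228) (nat_lit 99184817684) (nat_lit 34) (nat_lit 5) (nat_lit 36) (nat_lit 5) (nat_lit 37) (nat_lit 5) (nat_lit 340) (nat_lit 327) (nat_lit 233)) (XT.lf (nat_lit 0) (nat_lit 111308668531) (nat_lit 152) (nat_lit 162255274926) (nat_lit 76) (nat_lit 280104190627) (nat_lit 32) (nat_lit 5) (nat_lit 34) (nat_lit 5) (nat_lit 33) (nat_lit 5) (nat_lit 341) (nat_lit 327) (nat_lit 232))) (XT.nd (nat_lit 78) (nat_lit 152) (nat_lit 0) (XT.lf (nat_lit 0) (nat_lit 366788902011) (nat_lit 228) (nat_lit 164260734704) (nat_lit 76) (nat_lit 76116646430) (nat_lit 30) (nat_lit 5) (nat_lit 33) (nat_lit 5) (nat_lit 31) (nat_lit 4) (nat_lit 342) (nat_lit 327) (nat_lit 231)) (XT.lf (nat_lit 0) (nat_lit 17319076941) (nat_lit 152) (nat_lit 169621702704) (nat_lit 76) (nat_lit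 479762998150) (nat_lit 28) (nat_lit 5) (nat_lit 30) (nat_lit 5) (nat_lit 29) (nat_lit 5) (nat_lit 343) (nat_lit 327) (nat_lit 230))))))))
noncomputable def xc50 : XT := (XT.nd (nat_lit 45786) (nat_lit 0) (nat_lit 456) (XT.nd (nat_lit 1170) (nat_lit 456) (nat_lit 0) (XT.nd (nat_lit 546) (nat_lit 684) (nat_lit 0) (XT.nd (nat_lit 234) (nat_lit 380) (nat_lit 0) (XT.nd (nat_lit 78) (nat_lit 228) (nat_lit 0) (XT.lf (nat_lit 0) (nat_lit 323732020605) (nat_lit 228) (nat_lit 185139237544) (nat_lit 76) (nat_lit 223857549854) (nat_lit 26) (nat_lit 5) (nat_lit 29) (nat_lit 5) (nat_lit 27) (nat_lit 4) (nat_lit 344) (nat_lit 327) (nat_lit 229)) (XT.nd (nat_lit 78) (nat_lit 152) (nat_lit 0) (XT.lf (nat_lit 0) (nat_lit 599060376686) (nat_lit 76) (nat_lit 101690749852) (nat_lit 152) (nat_lit 105934928591) (nat_lit 25) (nat_lit 5) (nat_lit 26) (nat_lit 5) (nat_lit 27) (nat_lit 4) (nat_lit 345) (nat_lit 327)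 (nat_lit 228)) (XT.lf (nat_lit 0) (nat_lit 261061569205) (nat_lit 152) (nat_lit 251901265843) (nat_lit 76) (nat_lit 375858477591) (nat_lit 23) (nat_lit 5) (nat_lit 25) (nat_lit 5) (nat_lit 24) (nat_lit 4) (nat_lit 346) (nat_lit 327) (nat_lit 227)))) (XT.nd (nat_lit 156) (nat_lit 152) (nat_lit 0) (XT.nd (nat_lit 78) (nat_lit 152) (nat_lit 0) (XT.lf (nat_lit 0) (nat_lit 665309365072) (nat_lit 76) (nat_lit 36718896060) (nat_lit 152) (nat_lit 279013013196) (nat_lit 22) (nat_lit 5) (nat_lit 23) (nat_lit 5) (nat_lit 24) (nat_lit 4) (nat_lit 347) (nat_lit 327) (nat_lit 226)) (XT.lf (nat_lit 0) (nat_lit 152797044678) (nat_lit 152) (nat_lit 418209457125) (nat_lit 76) (nat_lit 512904389109) (nat_lit 20) (nat_lit 5) (nat_lit 22) (nat_lit 5) (nat_lit 21) (nat_lit 4) (nat_lit 348) (nat_lit 327) (nat_lit 225))) (XT.nd (nat_lit 78) (nat_lit 76) (nat_lit 0) (XT.lf (nat_lit 0) (nat_lit 634776755739) (nat_lit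 76) (nat_lit 24263690228) (nat_lit 152) (nat_lit 540496135242) (nat_lit 19) (nat_lit 5) (nat_lit 20) (nat_lit 5) (nat_lit 21) (nat_lit 4) (nat_lit 349) (nat_lit 327) (nat_lit 224)) (XT.lf (nat_lit 0) (nat_lit 552277011220) (nat_lit 76) (nat_lit 729255508235) (nat_lit 76) (nat_lit 47748632654) (nat_lit 18) (nat_lit 4) (nat_lit 19) (nat_lit 5) (nat_lit 19) (nat_lit 4) (nat_lit 350) (nat_lit 327) (nat_lit 223))))) (XT.nd (nat_lit 312) (nat_lit 304) (nat_lit 0) (XT.nd (nat_lit 156) (nat_lit 152) (nat_lit 0) (XT.nd (nat_lit 78) (nat_lit 76) (nat_lit 0) (XT.lf (nat_lit 0) (nat_lit 400346293370) (nat_lit 76) (nat_lit 119775443279) (nat_lit 152) (nat_lit 955193784583) (nat_lit 16) (nat_lit 5) (nat_lit 17) (nat_lit 5) (nat_lit 18) (nat_lit 4) (nat_lit 351) (nat_lit 327) (nat_lit 222)) (XT.lf (nat_lit 0) (nat_lit 151606502607) (nat_lit 76) (nat_lit 1059650671855) (nat_lit 76) (nat_lit 428625712137)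 (nat_lit 15) (nat_lit 4) (nat_lit 16) (nat_lit 5) (nat_lit 16) (nat_lit 4) (nat_lit 352) (nat_lit 327) (nat_lit 221))) (XT.nd (nat_lit 78) (nat_lit 76) (nat_lit 0) (XT.lf (nat_lit 0) (nat_lit 203499021945) (nat_lit 152) (nat_lit 207747024374) (nat_lit 76) (nat_lit 1414715134719) (nat_lit 14) (nat_lit 5) (nat_lit 16) (nat_lit 5) (nat_lit 15) (nat_lit 4) (nat_lit 353) (nat_lit 327) (nat_lit 220)) (XT.lf (nat_lit 0) (nat_lit 946680902765) (nat_lit 152) (nat_lit 726651756904) (nat_lit 0) (nat_lit 362398480200) (nat_lit 13) (nat_lit 5) (nat_lit 15) (nat_lit 4) (nat_lit 13) (nat_lit 4) (nat_lit 354) (nat_lit 327) (nat_lit 219)))) (XT.nd (nat_lit 156) (nat_lit 76) (nat_lit 0) (XT.nd (nat_lit 78) (nat_lit 152) (nat_lit 0) (XT.lf (nat_lit 0) (nat_lit 818964185012) (nat_lit 76) (nat_lit 1019651404690) (nat_lit 76) (nat_lit 435368960910) (nat_lit 12) (nat_lit 4) (nat_lit 13) (nat_lit 5) (nat_lit 13)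 (nat_lit 4) (nat_lit 355) (nat_lit 327) (nat_lit 218)) (XT.lf (nat_lit 0) (nat_lit 90512430420) (nat_lit 76) (nat_lit 233908191045) (nat_lit 152) (nat_lit 2221036109697) (nat_lit 10) (nat_lit 5) (nat_lit 11) (nat_lit 5) (nat_lit 12) (nat_lit 4) (nat_lit 356) (nat_lit 327) (nat_lit 217))) (XT.nd (nat_lit 78) (nat_lit 76) (nat_lit 0) (XT.lf (nat_lit 0) (nat_lit 1232700693129) (nat_lit 152) (nat_lit 927521924235) (nat_lit 0) (nat_lit 691698398435) (nat_lit 10) (nat_lit 5) (nat_lit 12) (nat_lit 4) (nat_lit 10) (nat_lit 4) (nat_lit 357) (nat_lit 327) (nat_lit 216)) (XT.lf (nat_lit 0) (nat_lit 865858119389) (nat_lit 76) (nat_lit 1438657838390) (nat_lit 76) (nat_lit 897655530779) (nat_lit 9) (nat_lit 4) (nat_lit 10) (nat_lit 5) (nat_lit 10) (nat_lit 4) (nat_lit 358) (nat_lit 327) (nat_lit 215)))))) (XT.nd (nat_lit 546) (nat_lit 76) (nat_lit 0) (XT.nd (nat_lit 234) (nat_lit 228) (nat_lit 0) (XT.nd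 (nat_lit 78) (nat_lit 152) (nat_lit 0) (XT.lf (nat_lit 0) (nat_lit 2984412990737) (nat_lit 76) (nat_lit 579694279832) (nat_lit 76) (nat_lit 38691960990) (nat_lit 9) (nat_lit 4) (nat_lit 10) (nat_lit 5) (nat_lit 10) (nat_lit 4) (nat_lit 359) (nat_lit 327) (nat_lit 214)) (XT.nd (nat_lit 78) (nat_lit 0) (nat_lit 0) (XT.lf (nat_lit 0) (nat_lit 946705341302) (nat_lit 152) (nat_lit 2665607007727) (nat_lit 0) (nat_lit 445777259257) (nat_lit 7) (nat_lit 5) (nat_lit 9) (nat_lit 4) (nat_lit 7) (nat_lit 4) (nat_lit 360) (nat_lit 327) (nat_lit 213)) (XT.lf (nat_lit 0) (nat_lit 2112190531880) (nat_lit 152) (nat_lit 855374625687) (nat_lit 0) (nat_lit 1611262441972) (nat_lit 7) (nat_lit 5) (nat_lit 9) (nat_lit 4) (nat_lit 7) (nat_lit 4) (nat_lit 361) (nat_lit 327) (nat_lit 212)))) (XT.nd (nat_lit 156) (nat_lit 152) (nat_lit 0) (XT.nd (nat_lit 78) (nat_lit 0) (nat_lit 0) (XT.lf (nat_lit 0) (nat_lit 1290972207061)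 (nat_lit 76) (nat_lit 2192574174369) (nat_lit 76) (nat_lit 1691646077623) (nat_lit 6) (nat_lit 4) (nat_lit 7) (nat_lit 5) (nat_lit 7) (nat_lit 4) (nat_lit 362) (nat_lit 327) (nat_lit 211)) (XT.lf (nat_lit 0) (nat_lit 3811069894077) (nat_lit 76) (nat_lit 1274438996759) (nat_lit 76) (nat_lit 773510894067) (nat_lit 6) (nat_lit 4) (nat_lit 7) (nat_lit 5) (nat_lit 7) (nat_lit 4) (nat_lit 363) (nat_lit 327) (nat_lit 210))) (XT.nd (nat_lit 78) (nat_lit 0) (nat_lit 0) (XT.lf (nat_lit 0) (nat_lit 59970547544) (nat_lit 76) (nat_lit 209692267555) (nat_lit 152) (nat_lit 6375099781697) (nat_lit 4) (nat_lit 5) (nat_lit 5) (nat_lit 5) (nat_lit 6) (nat_lit 4) (nat_lit 364) (nat_lit 327) (nat_lit 209)) (XT.lf (nat_lit 0) (nat_lit 1510391973457) (nat_lit 152) (nat_lit 4982847524892) (nat_lit 0) (nat_lit 1046569647199) (nat_lit 4) (nat_lit 5) (nat_lit 6) (nat_lit 4) (nat_lit 4) (nat_lit 4) (nat_lit 365) (nat_lit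 327) (nat_lit 208))))) (XT.nd (nat_lit 312) (nat_lit 0) (nat_lit 0) (XT.nd (nat_lit 156) (nat_lit 76) (nat_lit 0) (XT.nd (nat_lit 78) (nat_lit 0) (nat_lit 0) (XT.lf (nat_lit 0) (nat_lit 2943030053852) (nat_lit 152) (nat_lit 3146410934924) (nat_lit 0) (nat_lit 2479207723975) (nat_lit 4) (nat_lit 5) (nat_lit 6) (nat_lit 4) (nat_lit 4) (nat_lit 4) (nat_lit 366) (nat_lit 327) (nat_lit 207)) (XT.lf (nat_lit 0) (nat_lit 4590563827694) (nat_lit 152) (nat_lit 1034508894162) (nat_lit 0) (nat_lit 4126741494669) (nat_lit 4) (nat_lit 5) (nat_lit 6) (nat_lit 4) (nat_lit 4) (nat_lit 4) (nat_lit 367) (nat_lit 327) (nat_lit 206))) (XT.nd (nat_lit 78) (nat_lit 0) (nat_lit 0) (XT.lf (nat_lit 0) (nat_lit 1467593384826) (nat_lit 76) (nat_lit 5052929922801) (nat_lit 76) (nat_lit 4589107587038) (nat_lit 3) (nat_lit 4) (nat_lit 4) (nat_lit 5) (nat_lit 4) (nat_lit 4) (nat_lit 368) (nat_lit 327) (nat_lit 205))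 (XT.lf (nat_lit 0) (nat_lit 4407657691474) (nat_lit 76) (nat_lit 4362437616655) (nat_lit 76) (nat_lit 3898615278513) (nat_lit 3) (nat_lit 4) (nat_lit 4) (nat_lit 5) (nat_lit 4) (nat_lit 4) (nat_lit 369) (nat_lit 327) (nat_lit 204)))) (XT.nd (nat_lit 43602) (nat_lit 0) (nat_lit 4636) (XT.nd (nat_lit 78) (nat_lit 0) (nat_lit 0) (XT.lf (nat_lit 0) (nat_lit 7788731618023) (nat_lit 76) (nat_lit 3568371477817) (nat_lit 76) (nat_lit 3104549137604) (nat_lit 3) (nat_lit 4) (nat_lit 4) (nat_lit 5) (nat_lit 4) (nat_lit 4) (nat_lit 370) (nat_lit 327) (nat_lit 203)) (XT.lf (nat_lit 0) (nat_lit 11676966610864) (nat_lit 76) (nat_lit 2655195429655) (nat_lit 76) (nat_lit 2191373087643) (nat_lit 3) (nat_lit 4) (nat_lit 4) (nat_lit 5) (nat_lit 4) (nat_lit 4) (nat_lit 371) (nat_lit 327) (nat_lit 202))) (XT.nd (nat_lit 78) (nat_lit 0) (nat_lit 0) (XT.lf (nat_lit 0) (nat_lit 89775892303) (nat_lit 532) (nat_lit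 6016582491) (nat_lit 532) (nat_lit 6016582491) (nat_lit 64) (nat_lit 3) (nat_lit 71) (nat_lit 3) (nat_lit 71) (nat_lit 5) (nat_lit 328) (nat_lit 328) (nat_lit 244)) (XT.lf (nat_lit 76) (nat_lit 182663439858) (nat_lit 0) (nat_lit 14750448042) (nat_lit 532) (nat_lit 21123925191) (nat_lit 65) (nat_lit 5) (nat_lit 64) (nat_lit 3) (nat_lit 71) (nat_lit 5) (nat_lit 329) (nat_lit 328) (nat_lit 243))))))) (XT.nd (nat_lit 1170) (nat_lit 1444) (nat_lit 0) (XT.nd (nat_lit 546) (nat_lit 1368) (nat_lit 0) (XT.nd (nat_lit 234) (nat_lit 988) (nat_lit 0) (XT.nd (nat_lit 78) (nat_lit 456) (nat_lit 0) (XT.lf (nat_lit 76) (nat_lit 175878471686) (nat_lit 0) (nat_lit 51201730248) (nat_lit 532) (nat_lit 7885273287) (nat_lit 66) (nat_lit 5) (nat_lit 65) (nat_lit 5) (nat_lit 72) (nat_lit 5) (nat_lit 330) (nat_lit 328) (nat_lit 242)) (XT.nd (nat_lit 78) (nat_lit 0) (nat_lit 76) (XT.lf (nat_lit 0) (nat_lit 16610965992)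 (nat_lit 532) (nat_lit 81329128651) (nat_lit 608) (nat_lit 155131957802) (nat_lit 59) (nat_lit 5) (nat_lit 66) (nat_lit 5) (nat_lit 67) (nat_lit 5) (nat_lit 331) (nat_lit 328) (nat_lit 241)) (XT.lf (nat_lit 0) (nat_lit 54637045231) (nat_lit 532) (nat_lit 102184654440) (nat_lit 76) (nat_lit 116230747893) (nat_lit 60) (nat_lit 5) (nat_lit 67) (nat_lit 5) (nat_lit 61) (nat_lit 5) (nat_lit 332) (nat_lit 328) (nat_lit 240)))) (XT.nd (nat_lit 156) (nat_lit 456) (nat_lit 0) (XT.nd (nat_lit 78) (nat_lit 228) (nat_lit 0) (XT.lf (nat_lit 0) (nat_lit 109379932739) (nat_lit 456) (nat_lit 120909143499) (nat_lit 76) (nat_lit 64859794277) (nat_lit 55) (nat_lit 5) (nat_lit 61) (nat_lit 5) (nat_lit 56) (nat_lit 5) (nat_lit 333) (nat_lit 328) (nat_lit 239)) (XT.lf (nat_lit 0) (nat_lit 182719480270) (nat_lit 228) (nat_lit 1398451621) (nat_lit 304) (nat_lit 135499130971) (nat_lit 52) (nat_lit 5) (nat_lit 55)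 (nat_lit 5) (nat_lit 56) (nat_lit 5) (nat_lit 334) (nat_lit 328) (nat_lit 238))) (XT.nd (nat_lit 78) (nat_lit 228) (nat_lit 0) (XT.lf (nat_lit 0) (nat_lit 195112051954) (nat_lit 228) (nat_lit 89555249022) (nat_lit 304) (nat_lit 61920129688) (nat_lit 49) (nat_lit 5) (nat_lit 52) (nat_lit 5) (nat_lit 53) (nat_lit 5) (nat_lit 335) (nat_lit 328) (nat_lit 237)) (XT.lf (nat_lit 0) (nat_lit 35437178336) (nat_lit 228) (nat_lit 163159056757) (nat_lit 76) (nat_lit 177853309018) (nat_lit 46) (nat_lit 5) (nat_lit 49) (nat_lit 5) (nat_lit 47) (nat_lit 5) (nat_lit 336) (nat_lit 328) (nat_lit 236))))) (XT.nd (nat_lit 312) (nat_lit 608) (nat_lit 0) (XT.nd (nat_lit 156) (nat_lit 380) (nat_lit 0) (XT.nd (nat_lit 78) (nat_lit 152) (nat_lit 0) (XT.lf (nat_lit 0) (nat_lit 158575117014) (nat_lit 304) (nat_lit 172453964220) (nat_lit 76) (nat_lit 78445756513) (nat_lit 43) (nat_lit 5) (nat_lit 47) (nat_lit 5) (nat_lit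 44) (nat_lit 5) (nat_lit 337) (nat_lit 328) (nat_lit 235)) (XT.lf (nat_lit 0) (nat_lit 267815158619) (nat_lit 152) (nat_lit 49175611554) (nat_lit 228) (nat_lit 129118593488) (nat_lit 41) (nat_lit 5) (nat_lit 43) (nat_lit 5) (nat_lit 44) (nat_lit 5) (nat_lit 338) (nat_lit 328) (nat_lit 234))) (XT.nd (nat_lit 78) (nat_lit 152) (nat_lit 0) (XT.lf (nat_lit 0) (nat_lit 29984375976) (nat_lit 228) (nat_lit 182212381293) (nat_lit 76) (nat_lit 274453168831) (nat_lit 38) (nat_lit 5) (nat_lit 41) (nat_lit 5) (nat_lit 39) (nat_lit 5) (nat_lit 339) (nat_lit 328) (nat_lit 233)) (XT.lf (nat_lit 0) (nat_lit 223737479719) (nat_lit 228) (nat_lit 184928314300) (nat_lit 76) (nat_lit 122863084565) (nat_lit 36) (nat_lit 5) (nat_lit 39) (nat_lit 5) (nat_lit 37) (nat_lit 5) (nat_lit 340) (nat_lit 328) (nat_lit 232)))) (XT.nd (nat_lit 156) (nat_lit 304) (nat_lit 0) (XT.nd (nat_lit 78) (nat_lit 152) (nat_lit 0)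 (XT.lf (nat_lit 0) (nat_lit 396902183652) (nat_lit 152) (nat_lit 70508263426) (nat_lit 228) (nat_lit 114060675092) (nat_lit 34) (nat_lit 5) (nat_lit 36) (nat_lit 5) (nat_lit 37) (nat_lit 5) (nat_lit 341) (nat_lit 328) (nat_lit 231)) (XT.lf (nat_lit 0) (nat_lit 128006596323) (nat_lit 152) (nat_lit 186590857167) (nat_lit 76) (nat_lit 322120769844) (nat_lit 32) (nat_lit 5) (nat_lit 34) (nat_lit 5) (nat_lit 33) (nat_lit 5) (nat_lit 342) (nat_lit 328) (nat_lit 230))) (XT.nd (nat_lit 78) (nat_lit 152) (nat_lit 0) (XT.lf (nat_lit 0) (nat_lit 421808736343) (nat_lit 228) (nat_lit 188897270816) (nat_lit 76) (nat_lit 87535097959) (nat_lit 30) (nat_lit 5) (nat_lit 33) (nat_lit 5) (nat_lit 31) (nat_lit 4) (nat_lit 343) (nat_lit 328) (nat_lit 229)) (XT.lf (nat_lit 0) (nat_lit 19918334458) (nat_lit 152) (nat_lit 195062527927) (nat_lit 76) (nat_lit 551728369937) (nat_lit 28) (nat_lit 5) (nat_lit 30) (nat_lit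 5) (nat_lit 29) (nat_lit 5) (nat_lit 344) (nat_lit 328) (nat_lit 228)))))) (XT.nd (nat_lit 624) (nat_lit 532) (nat_lit 0) (XT.nd (nat_lit 312) (nat_lit 456) (nat_lit 0) (XT.nd (nat_lit 156) (nat_lit 228) (nat_lit 0) (XT.nd (nat_lit 78) (nat_lit 76) (nat_lit 0) (XT.lf (nat_lit 0) (nat_lit 372293114106) (nat_lit 228) (nat_lit 212907819919) (nat_lit 76) (nat_lit 257437091543) (nat_lit 26) (nat_lit 5) (nat_lit 29) (nat_lit 5) (nat_lit 27) (nat_lit 4) (nat_lit 345) (nat_lit 328) (nat_lit 227)) (XT.lf (nat_lit 0) (nat_lit 688921541487) (nat_lit 76) (nat_lit 116943426832) (nat_lit 152) (nat_lit 121823900905) (nat_lit 25) (nat_lit 5) (nat_lit 26) (nat_lit 5) (nat_lit 27) (nat_lit 4) (nat_lit 346) (nat_lit 328) (nat_lit 226))) (XT.nd (nat_lit 78) (nat_lit 76) (nat_lit 0) (XT.lf (nat_lit 0) (nat_lit 300221920500) (nat_lit 152) (nat_lit 289684401225) (nat_lit 76) (nat_lit 432238098254) (nat_lit 23)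 (nat_lit 5) (nat_lit 25) (nat_lit 5) (nat_lit 24) (nat_lit 4) (nat_lit 347) (nat_lit 328) (nat_lit 225)) (XT.lf (nat_lit 0) (nat_lit 765107650424) (nat_lit 76) (nat_lit 42225865466) (nat_lit 152) (nat_lit 320863868094) (nat_lit 22) (nat_lit 5) (nat_lit 23) (nat_lit 5) (nat_lit 24) (nat_lit 4) (nat_lit 348) (nat_lit 328) (nat_lit 224)))) (XT.nd (nat_lit 156) (nat_lit 228) (nat_lit 0) (XT.nd (nat_lit 78) (nat_lit 76) (nat_lit 0) (XT.lf (nat_lit 0) (nat_lit 175717570047) (nat_lit 152) (nat_lit 480939047526) (nat_lit 76) (nat_lit 589840829284) (nat_lit 20) (nat_lit 5) (nat_lit 22) (nat_lit 5) (nat_lit 21) (nat_lit 4) (nat_lit 349) (nat_lit 328) (nat_lit 223)) (XT.lf (nat_lit 0) (nat_lit 729994942521) (nat_lit 76) (nat_lit 27902452906) (nat_lit 152) (nat_lit 621569602187) (nat_lit 19) (nat_lit 5) (nat_lit 20) (nat_lit 5) (nat_lit 21) (nat_lit 4) (nat_lit 350) (nat_lit 328) (nat_lit 222))) (XT.nd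 (nat_lit 78) (nat_lit 152) (nat_lit 0) (XT.lf (nat_lit 0) (nat_lit 635120142054) (nat_lit 76) (nat_lit 838643077285) (nat_lit 76) (nat_lit 54910039680) (nat_lit 18) (nat_lit 4) (nat_lit 19) (nat_lit 5) (nat_lit 19) (nat_lit 4) (nat_lit 351) (nat_lit 328) (nat_lit 221)) (XT.lf (nat_lit 0) (nat_lit 460399723642) (nat_lit 76) (nat_lit 137741042691) (nat_lit 152) (nat_lit 1098472021430) (nat_lit 16) (nat_lit 5) (nat_lit 17) (nat_lit 5) (nat_lit 18) (nat_lit 4) (nat_lit 352) (nat_lit 328) (nat_lit 220))))) (XT.nd (nat_lit 312) (nat_lit 228) (nat_lit 0) (XT.nd (nat_lit 156) (nat_lit 152) (nat_lit 0) (XT.nd (nat_lit 78) (nat_lit 76) (nat_lit 0) (XT.lf (nat_lit 0) (nat_lit 174348879109) (nat_lit 76) (nat_lit 1218597589073) (nat_lit 76) (nat_lit 492918793898) (nat_lit 15) (nat_lit 4) (nat_lit 16) (nat_lit 5) (nat_lit 16) (nat_lit 4) (nat_lit 353) (nat_lit 328) (nat_lit 219)) (XT.lf (nat_lit 0) (nat_lit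 234024515487) (nat_lit 152) (nat_lit 238907825873) (nat_lit 76) (nat_lit 1626922965529) (nat_lit 14) (nat_lit 5) (nat_lit 16) (nat_lit 5) (nat_lit 15) (nat_lit 4) (nat_lit 354) (nat_lit 328) (nat_lit 218))) (XT.nd (nat_lit 78) (nat_lit 76) (nat_lit 0) (XT.lf (nat_lit 0) (nat_lit 1088683635997) (nat_lit 152) (nat_lit 835648340967) (nat_lit 0) (nat_lit 416758785987) (nat_lit 13) (nat_lit 5) (nat_lit 15) (nat_lit 4) (nat_lit 13) (nat_lit 4) (nat_lit 355) (nat_lit 328) (nat_lit 217)) (XT.lf (nat_lit 0) (nat_lit 941809892400) (nat_lit 76) (nat_lit 1172598581564) (nat_lit 76) (nat_lit 500673715512) (nat_lit 12) (nat_lit 4) (nat_lit 13) (nat_lit 5) (nat_lit 13) (nat_lit 4) (nat_lit 356) (nat_lit 328) (nat_lit 216)))) (XT.nd (nat_lit 156) (nat_lit 76) (nat_lit 0) (XT.nd (nat_lit 78) (nat_lit 0) (nat_lit 0) (XT.lf (nat_lit 0) (nat_lit 104090310282) (nat_lit 76) (nat_lit 268993915815) (nat_lit 152)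 (nat_lit 2554190973774) (nat_lit 10) (nat_lit 5) (nat_lit 11) (nat_lit 5) (nat_lit 12) (nat_lit 4) (nat_lit 357) (nat_lit 328) (nat_lit 215)) (XT.lf (nat_lit 0) (nat_lit 1417606252343) (nat_lit 152) (nat_lit 1066649304919) (nat_lit 0) (nat_lit 795453574443) (nat_lit 10) (nat_lit 5) (nat_lit 12) (nat_lit 4) (nat_lit 10) (nat_lit 4) (nat_lit 358) (nat_lit 328) (nat_lit 214))) (XT.nd (nat_lit 78) (nat_lit 0) (nat_lit 0) (XT.lf (nat_lit 0) (nat_lit 995737668396) (nat_lit 76) (nat_lit 1654456098903) (nat_lit 76) (nat_lit 1032303411237) (nat_lit 9) (nat_lit 4) (nat_lit 10) (nat_lit 5) (nat_lit 10) (nat_lit 4) (nat_lit 359) (nat_lit 328) (nat_lit 213)) (XT.lf (nat_lit 0) (nat_lit 3432075662042) (nat_lit 76) (nat_lit 666648060724) (nat_lit 76) (nat_lit 44495364565) (nat_lit 9) (nat_lit 4) (nat_lit 10) (nat_lit 5) (nat_lit 10) (nat_lit 4) (nat_lit 360) (nat_lit 328) (nat_lit 212))))))))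
noncomputable def xc51 : XT := (XT.nd (nat_lit 45942) (nat_lit 0) (nat_lit 0) (XT.nd (nat_lit 44694) (nat_lit 0) (nat_lit 1520) (XT.nd (nat_lit 546) (nat_lit 76) (nat_lit 0) (XT.nd (nat_lit 234) (nat_lit 152) (nat_lit 0) (XT.nd (nat_lit 78) (nat_lit 76) (nat_lit 0) (XT.lf (nat_lit 0) (nat_lit 1088711489665) (nat_lit 152) (nat_lit 3065447360494) (nat_lit 0) (nat_lit 512644171570) (nat_lit 7) (nat_lit 5) (nat_lit 9) (nat_lit 4) (nat_lit 7) (nat_lit 4) (nat_lit 361) (nat_lit 328) (nat_lit 211)) (XT.nd (nat_lit 78) (nat_lit 76) (nat_lit 0) (XT.lf (nat_lit 0) (nat_lit 2429019413548) (nat_lit 152) (nat_lit 983680212243) (nat_lit 0) (nat_lit 1852952089506) (nat_lit 7) (nat_lit 5) (nat_lit 9) (nat_lit 4) (nat_lit 7) (nat_lit 4) (nat_lit 362) (nat_lit 328) (nat_lit 210)) (XT.lf (nat_lit 0) (nat_lit 1484618594013) (nat_lit 76) (nat_lit 2521460020510) (nat_lit 76) (nat_lit 1945392691298) (nat_lit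 6) (nat_lit 4) (nat_lit 7) (nat_lit 5) (nat_lit 7) (nat_lit 4) (nat_lit 363) (nat_lit 328) (nat_lit 209)))) (XT.nd (nat_lit 156) (nat_lit 0) (nat_lit 0) (XT.nd (nat_lit 78) (nat_lit 152) (nat_lit 0) (XT.lf (nat_lit 0) (nat_lit 4382730861573) (nat_lit 76) (nat_lit 1465604602782) (nat_lit 76) (nat_lit 889537269074) (nat_lit 6) (nat_lit 4) (nat_lit 7) (nat_lit 5) (nat_lit 7) (nat_lit 4) (nat_lit 364) (nat_lit 328) (nat_lit 208)) (XT.lf (nat_lit 0) (nat_lit 68966584024) (nat_lit 76) (nat_lit 241145878303) (nat_lit 152) (nat_lit 7331364505977) (nat_lit 4) (nat_lit 5) (nat_lit 5) (nat_lit 5) (nat_lit 6) (nat_lit 4) (nat_lit 365) (nat_lit 328) (nat_lit 207))) (XT.nd (nat_lit 78) (nat_lit 0) (nat_lit 0) (XT.lf (nat_lit 0) (nat_lit 1736950969893) (nat_lit 152) (nat_lit 5730274247675) (nat_lit 0) (nat_lit 1203555283766) (nat_lit 4) (nat_lit 5) (nat_lit 6) (nat_lit 4) (nat_lit 4) (nat_lit 4) (nat_lit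 366) (nat_lit 328) (nat_lit 206)) (XT.lf (nat_lit 0) (nat_lit 3384484736207) (nat_lit 152) (nat_lit 3618372222162) (nat_lit 0) (nat_lit 2851089047342) (nat_lit 4) (nat_lit 5) (nat_lit 6) (nat_lit 4) (nat_lit 4) (nat_lit 4) (nat_lit 367) (nat_lit 328) (nat_lit 205))))) (XT.nd (nat_lit 43836) (nat_lit 0) (nat_lit 4256) (XT.nd (nat_lit 156) (nat_lit 0) (nat_lit 0) (XT.nd (nat_lit 78) (nat_lit 76) (nat_lit 0) (XT.lf (nat_lit 0) (nat_lit 5279148553393) (nat_lit 152) (nat_lit 1189684921330) (nat_lit 0) (nat_lit 4745752862149) (nat_lit 4) (nat_lit 5) (nat_lit 6) (nat_lit 4) (nat_lit 4) (nat_lit 4) (nat_lit 368) (nat_lit 328) (nat_lit 204)) (XT.lf (nat_lit 0) (nat_lit 1687732673525) (nat_lit 76) (nat_lit 5810869268782) (nat_lit 76) (nat_lit 5277473575468) (nat_lit 3) (nat_lit 4) (nat_lit 4) (nat_lit 5) (nat_lit 4) (nat_lit 4) (nat_lit 369) (nat_lit 328) (nat_lit 203))) (XT.nd (nat_lit 78) (nat_lit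 0) (nat_lit 0) (XT.lf (nat_lit 0) (nat_lit 5068806589520) (nat_lit 76) (nat_lit 5016803135294) (nat_lit 76) (nat_lit 4483407440180) (nat_lit 3) (nat_lit 4) (nat_lit 4) (nat_lit 5) (nat_lit 4) (nat_lit 4) (nat_lit 370) (nat_lit 328) (nat_lit 202)) (XT.lf (nat_lit 0) (nat_lit 8957041573184) (nat_lit 76) (nat_lit 4103627091785) (nat_lit 76) (nat_lit 3570231395106) (nat_lit 3) (nat_lit 4) (nat_lit 4) (nat_lit 5) (nat_lit 4) (nat_lit 4) (nat_lit 371) (nat_lit 328) (nat_lit 201)))) (XT.nd (nat_lit 156) (nat_lit 380) (nat_lit 0) (XT.nd (nat_lit 78) (nat_lit 0) (nat_lit 0) (XT.lf (nat_lit 0) (nat_lit 103244825359) (nat_lit 532) (nat_lit 6917692085) (nat_lit 532) (nat_lit 6917692085) (nat_lit 64) (nat_lit 3) (nat_lit 71) (nat_lit 3) (nat_lit 71) (nat_lit 5) (nat_lit 329) (nat_lit 329) (nat_lit 242)) (XT.lf (nat_lit 76) (nat_lit 210065478151) (nat_lit 0) (nat_lit 16964987005) (nat_lit 532) (nat_lit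 24287656180) (nat_lit 65) (nat_lit 5) (nat_lit 64) (nat_lit 3) (nat_lit 71) (nat_lit 5) (nat_lit 330) (nat_lit 329) (nat_lit 241))) (XT.nd (nat_lit 78) (nat_lit 456) (nat_lit 0) (XT.lf (nat_lit 76) (nat_lit 202262927590) (nat_lit 0) (nat_lit 58883235863) (nat_lit 532) (nat_lit 9063814905) (nat_lit 66) (nat_lit 5) (nat_lit 65) (nat_lit 5) (nat_lit 72) (nat_lit 5) (nat_lit 331) (nat_lit 329) (nat_lit 240)) (XT.lf (nat_lit 0) (nat_lit 19106162929) (nat_lit 532) (nat_lit 93525531454) (nat_lit 608) (nat_lit 178400878830) (nat_lit 59) (nat_lit 5) (nat_lit 66) (nat_lit 5) (nat_lit 67) (nat_lit 5) (nat_lit 332) (nat_lit 329) (nat_lit 239)))))) (XT.nd (nat_lit 624) (nat_lit 1140) (nat_lit 0) (XT.nd (nat_lit 312) (nat_lit 836) (nat_lit 0) (XT.nd (nat_lit 156) (nat_lit 456) (nat_lit 0) (XT.nd (nat_lit 78) (nat_lit 380) (nat_lit 0) (XT.lf (nat_lit 0) (nat_lit 62835745500) (nat_lit 532) (nat_lit 117509371786)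 (nat_lit 76) (nat_lit 133664943381) (nat_lit 60) (nat_lit 5) (nat_lit 67) (nat_lit 5) (nat_lit 61) (nat_lit 5) (nat_lit 333) (nat_lit 329) (nat_lit 238)) (XT.lf (nat_lit 0) (nat_lit 125789720038) (nat_lit 456) (nat_lit 139042558671) (nat_lit 76) (nat_lit 74588696372) (nat_lit 55) (nat_lit 5) (nat_lit 61) (nat_lit 5) (nat_lit 56) (nat_lit 5) (nat_lit 334) (nat_lit 329) (nat_lit 237))) (XT.nd (nat_lit 78) (nat_lit 228) (nat_lit 0) (XT.lf (nat_lit 0) (nat_lit 210130108423) (nat_lit 228) (nat_lit 1608010845) (nat_lit 304) (nat_lit 155821301286) (nat_lit 52) (nat_lit 5) (nat_lit 55) (nat_lit 5) (nat_lit 56) (nat_lit 5) (nat_lit 335) (nat_lit 329) (nat_lit 236)) (XT.lf (nat_lit 0) (nat_lit 224381516872) (nat_lit 228) (nat_lit 102988119336) (nat_lit 304) (nat_lit 71205728170) (nat_lit 49) (nat_lit 5) (nat_lit 52) (nat_lit 5) (nat_lit 53) (nat_lit 5) (nat_lit 336) (nat_lit 329) (nat_lit 235))))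 (XT.nd (nat_lit 156) (nat_lit 380) (nat_lit 0) (XT.nd (nat_lit 78) (nat_lit 228) (nat_lit 0) (XT.lf (nat_lit 0) (nat_lit 40754827789) (nat_lit 228) (nat_lit 187630216168) (nat_lit 76) (nat_lit 204531764603) (nat_lit 46) (nat_lit 5) (nat_lit 49) (nat_lit 5) (nat_lit 47) (nat_lit 5) (nat_lit 337) (nat_lit 329) (nat_lit 234)) (XT.lf (nat_lit 0) (nat_lit 182363260979) (nat_lit 304) (nat_lit 198319452742) (nat_lit 76) (nat_lit 90213198400) (nat_lit 43) (nat_lit 5) (nat_lit 47) (nat_lit 5) (nat_lit 44) (nat_lit 5) (nat_lit 338) (nat_lit 329) (nat_lit 233))) (XT.nd (nat_lit 78) (nat_lit 228) (nat_lit 0) (XT.lf (nat_lit 0) (nat_lit 307989817928) (nat_lit 152) (nat_lit 56551256805) (nat_lit 228) (nat_lit 148484557331) (nat_lit 41) (nat_lit 5) (nat_lit 43) (nat_lit 5) (nat_lit 44) (nat_lit 5) (nat_lit 339) (nat_lit 329) (nat_lit 232)) (XT.lf (nat_lit 0) (nat_lit 34483611612) (nat_lit 228) (nat_lit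 209541861622) (nat_lit 76) (nat_lit 315621814621) (nat_lit 38) (nat_lit 5) (nat_lit 41) (nat_lit 5) (nat_lit 39) (nat_lit 5) (nat_lit 340) (nat_lit 329) (nat_lit 231))))) (XT.nd (nat_lit 312) (nat_lit 532) (nat_lit 0) (XT.nd (nat_lit 156) (nat_lit 304) (nat_lit 0) (XT.nd (nat_lit 78) (nat_lit 152) (nat_lit 0) (XT.lf (nat_lit 0) (nat_lit 257299545293) (nat_lit 228) (nat_lit 212665289047) (nat_lit 76) (nat_lit 141293259826) (nat_lit 36) (nat_lit 5) (nat_lit 39) (nat_lit 5) (nat_lit 37) (nat_lit 5) (nat_lit 341) (nat_lit 329) (nat_lit 230)) (XT.lf (nat_lit 0) (nat_lit 456439591251) (nat_lit 152) (nat_lit 81083728233) (nat_lit 228) (nat_lit 131168365962) (nat_lit 34) (nat_lit 5) (nat_lit 36) (nat_lit 5) (nat_lit 37) (nat_lit 5) (nat_lit 342) (nat_lit 329) (nat_lit 229))) (XT.nd (nat_lit 78) (nat_lit 152) (nat_lit 0) (XT.lf (nat_lit 0) (nat_lit 147208816404) (nat_lit 152) (nat_lit 214577437351)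 (nat_lit 76) (nat_lit 370439604129) (nat_lit 32) (nat_lit 5) (nat_lit 34) (nat_lit 5) (nat_lit 33) (nat_lit 5) (nat_lit 343) (nat_lit 329) (nat_lit 228)) (XT.lf (nat_lit 0) (nat_lit 485081180277) (nat_lit 228) (nat_lit 217229915054) (nat_lit 76) (nat_lit 100666084441) (nat_lit 30) (nat_lit 5) (nat_lit 33) (nat_lit 5) (nat_lit 31) (nat_lit 4) (nat_lit 344) (nat_lit 329) (nat_lit 227)))) (XT.nd (nat_lit 156) (nat_lit 228) (nat_lit 0) (XT.nd (nat_lit 78) (nat_lit 152) (nat_lit 0) (XT.lf (nat_lit 0) (nat_lit 22907140186) (nat_lit 152) (nat_lit 224320069549) (nat_lit 76) (nat_lit 634488322641) (nat_lit 28) (nat_lit 5) (nat_lit 30) (nat_lit 5) (nat_lit 29) (nat_lit 5) (nat_lit 345) (nat_lit 329) (nat_lit 226)) (XT.lf (nat_lit 0) (nat_lit 428138056957) (nat_lit 228) (nat_lit 244842251314) (nat_lit 76) (nat_lit 296053342769) (nat_lit 26) (nat_lit 5) (nat_lit 29) (nat_lit 5) (nat_lit 27) (nat_lit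 4) (nat_lit 346) (nat_lit 329) (nat_lit 225))) (XT.nd (nat_lit 78) (nat_lit 152) (nat_lit 0) (XT.lf (nat_lit 0) (nat_lit 792261366886) (nat_lit 76) (nat_lit 134484233486) (nat_lit 152) (nat_lit 140096528026) (nat_lit 25) (nat_lit 5) (nat_lit 26) (nat_lit 5) (nat_lit 27) (nat_lit 4) (nat_lit 347) (nat_lit 329) (nat_lit 224)) (XT.lf (nat_lit 0) (nat_lit 345256052367) (nat_lit 152) (nat_lit 333135507916) (nat_lit 76) (nat_lit 497074454977) (nat_lit 23) (nat_lit 5) (nat_lit 25) (nat_lit 5) (nat_lit 24) (nat_lit 4) (nat_lit 348) (nat_lit 329) (nat_lit 223))))))) (XT.nd (nat_lit 1170) (nat_lit 304) (nat_lit 0) (XT.nd (nat_lit 546) (nat_lit 532) (nat_lit 0) (XT.nd (nat_lit 234) (nat_lit 380) (nat_lit 0) (XT.nd (nat_lit 78) (nat_lit 228) (nat_lit 0) (XT.lf (nat_lit 0) (nat_lit 879875219986) (nat_lit 76) (nat_lit 48559091219) (nat_lit 152) (nat_lit 368992618758) (nat_lit 22) (nat_lit 5) (nat_lit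 23) (nat_lit 5) (nat_lit 24) (nat_lit 4) (nat_lit 349) (nat_lit 329) (nat_lit 222)) (XT.nd (nat_lit 78) (nat_lit 76) (nat_lit 0) (XT.lf (nat_lit 0) (nat_lit 202075938005) (nat_lit 152) (nat_lit 553078522299) (nat_lit 76) (nat_lit 678317544836) (nat_lit 20) (nat_lit 5) (nat_lit 22) (nat_lit 5) (nat_lit 21) (nat_lit 4) (nat_lit 350) (nat_lit 329) (nat_lit 221)) (XT.lf (nat_lit 0) (nat_lit 839495449247) (nat_lit 76) (nat_lit 32087222840) (nat_lit 152) (nat_lit 714804321651) (nat_lit 19) (nat_lit 5) (nat_lit 20) (nat_lit 5) (nat_lit 21) (nat_lit 4) (nat_lit 351) (nat_lit 329) (nat_lit 220)))) (XT.nd (nat_lit 156) (nat_lit 152) (nat_lit 0) (XT.nd (nat_lit 78) (nat_lit 152) (nat_lit 0) (XT.lf (nat_lit 0) (nat_lit 730389357428) (nat_lit 76) (nat_lit 964438966337) (nat_lit 76) (nat_lit 63145874272) (nat_lit 18) (nat_lit 4) (nat_lit 19) (nat_lit 5) (nat_lit 19) (nat_lit 4) (nat_lit 352) (nat_lit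 329) (nat_lit 219)) (XT.lf (nat_lit 0) (nat_lit 529460806019) (nat_lit 76) (nat_lit 158401656879) (nat_lit 152) (nat_lit 1263242196409) (nat_lit 16) (nat_lit 5) (nat_lit 17) (nat_lit 5) (nat_lit 18) (nat_lit 4) (nat_lit 353) (nat_lit 329) (nat_lit 218))) (XT.nd (nat_lit 78) (nat_lit 76) (nat_lit 0) (XT.lf (nat_lit 0) (nat_lit 200502270417) (nat_lit 76) (nat_lit 1401386710563) (nat_lit 76) (nat_lit 566856026927) (nat_lit 15) (nat_lit 4) (nat_lit 16) (nat_lit 5) (nat_lit 16) (nat_lit 4) (nat_lit 354) (nat_lit 329) (nat_lit 217)) (XT.lf (nat_lit 0) (nat_lit 269128676931) (nat_lit 152) (nat_lit 274743052944) (nat_lit 76) (nat_lit 1870961834254) (nat_lit 14) (nat_lit 5) (nat_lit 16) (nat_lit 5) (nat_lit 15) (nat_lit 4) (nat_lit 355) (nat_lit 329) (nat_lit 216))))) (XT.nd (nat_lit 312) (nat_lit 228) (nat_lit 0) (XT.nd (nat_lit 156) (nat_lit 152) (nat_lit 0) (XT.nd (nat_lit 78) (nat_lit 76) (nat_lit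 0) (XT.lf (nat_lit 0) (nat_lit 1251986633432) (nat_lit 152) (nat_lit 960994700262) (nat_lit 0) (nat_lit 479273007481) (nat_lit 13) (nat_lit 5) (nat_lit 15) (nat_lit 4) (nat_lit 13) (nat_lit 4) (nat_lit 356) (nat_lit 329) (nat_lit 215)) (XT.lf (nat_lit 0) (nat_lit 1083082192620) (nat_lit 76) (nat_lit 1348487965147) (nat_lit 76) (nat_lit 575774327066) (nat_lit 12) (nat_lit 4) (nat_lit 13) (nat_lit 5) (nat_lit 13) (nat_lit 4) (nat_lit 357) (nat_lit 329) (nat_lit 214))) (XT.nd (nat_lit 78) (nat_lit 0) (nat_lit 0) (XT.lf (nat_lit 0) (nat_lit 119704624536) (nat_lit 76) (nat_lit 309342622177) (nat_lit 152) (nat_lit 2937319202164) (nat_lit 10) (nat_lit 5) (nat_lit 11) (nat_lit 5) (nat_lit 12) (nat_lit 4) (nat_lit 358) (nat_lit 329) (nat_lit 213)) (XT.lf (nat_lit 0) (nat_lit 1630247534425) (nat_lit 152) (nat_lit 1226646014114) (nat_lit 0) (nat_lit 914771925350) (nat_lit 10) (nat_lit 5) (nat_lit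 12) (nat_lit 4) (nat_lit 10) (nat_lit 4) (nat_lit 359) (nat_lit 329) (nat_lit 212)))) (XT.nd (nat_lit 156) (nat_lit 152) (nat_lit 0) (XT.nd (nat_lit 78) (nat_lit 0) (nat_lit 0) (XT.lf (nat_lit 0) (nat_lit 1145098947085) (nat_lit 76) (nat_lit 1902624199753) (nat_lit 76) (nat_lit 1187148583293) (nat_lit 9) (nat_lit 4) (nat_lit 10) (nat_lit 5) (nat_lit 10) (nat_lit 4) (nat_lit 360) (nat_lit 329) (nat_lit 211)) (XT.lf (nat_lit 0) (nat_lit 3946887557809) (nat_lit 76) (nat_lit 766644996802) (nat_lit 76) (nat_lit 51169373920) (nat_lit 9) (nat_lit 4) (nat_lit 10) (nat_lit 5) (nat_lit 10) (nat_lit 4) (nat_lit 361) (nat_lit 329) (nat_lit 210))) (XT.nd (nat_lit 78) (nat_lit 0) (nat_lit 0) (XT.lf (nat_lit 0) (nat_lit 1252018475624) (nat_lit 152) (nat_lit 3525263936483) (nat_lit 0) (nat_lit 589541041860) (nat_lit 7) (nat_lit 5) (nat_lit 9) (nat_lit 4) (nat_lit 7) (nat_lit 4) (nat_lit 362) (nat_lit 329)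 (nat_lit 209)) (XT.lf (nat_lit 0) (nat_lit 2793372553848) (nat_lit 152) (nat_lit 1131231784875) (nat_lit 0) (nat_lit 2130895115588) (nat_lit 7) (nat_lit 5) (nat_lit 9) (nat_lit 4) (nat_lit 7) (nat_lit 4) (nat_lit 363) (nat_lit 329) (nat_lit 208)))))) (XT.nd (nat_lit 44226) (nat_lit 0) (nat_lit 3496) (XT.nd (nat_lit 312) (nat_lit 76) (nat_lit 0) (XT.nd (nat_lit 156) (nat_lit 152) (nat_lit 0) (XT.nd (nat_lit 78) (nat_lit 0) (nat_lit 0) (XT.lf (nat_lit 0) (nat_lit 1707311803450) (nat_lit 76) (nat_lit 2899678811855) (nat_lit 76) (nat_lit 2237201369686) (nat_lit 6) (nat_lit 4) (nat_lit 7) (nat_lit 5) (nat_lit 7) (nat_lit 4) (nat_lit 364) (nat_lit 329) (nat_lit 207)) (XT.lf (nat_lit 0) (nat_lit 5040140856318) (nat_lit 76) (nat_lit 1685445109085) (nat_lit 76) (nat_lit 1022967663516) (nat_lit 6) (nat_lit 4) (nat_lit 7) (nat_lit 5) (nat_lit 7) (nat_lit 4) (nat_lit 365) (nat_lit 329) (nat_lit 206)))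 (XT.nd (nat_lit 78) (nat_lit 0) (nat_lit 0) (XT.lf (nat_lit 0) (nat_lit 79311915180) (nat_lit 76) (nat_lit 277317586601) (nat_lit 152) (nat_lit 8431068998149) (nat_lit 4) (nat_lit 5) (nat_lit 5) (nat_lit 5) (nat_lit 6) (nat_lit 4) (nat_lit 366) (nat_lit 329) (nat_lit 205)) (XT.lf (nat_lit 0) (nat_lit 1997493766921) (nat_lit 152) (nat_lit 6589815077869) (nat_lit 0) (nat_lit 1384088719610) (nat_lit 4) (nat_lit 5) (nat_lit 6) (nat_lit 4) (nat_lit 4) (nat_lit 4) (nat_lit 367) (nat_lit 329) (nat_lit 204)))) (XT.nd (nat_lit 156) (nat_lit 76) (nat_lit 0) (XT.nd (nat_lit 78) (nat_lit 0) (nat_lit 0) (XT.lf (nat_lit 0) (nat_lit 3892157578416) (nat_lit 152) (nat_lit 4161127788567) (nat_lit 0) (nat_lit 3278752529035) (nat_lit 4) (nat_lit 5) (nat_lit 6) (nat_lit 4) (nat_lit 4) (nat_lit 4) (nat_lit 368) (nat_lit 329) (nat_lit 203)) (XT.lf (nat_lit 0) (nat_lit 6071020950992) (nat_lit 152) (nat_lit 1368137427426)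 (nat_lit 0) (nat_lit 5457615899811) (nat_lit 4) (nat_lit 5) (nat_lit 6) (nat_lit 4) (nat_lit 4) (nat_lit 4) (nat_lit 369) (nat_lit 329) (nat_lit 202))) (XT.nd (nat_lit 78) (nat_lit 0) (nat_lit 0) (XT.lf (nat_lit 0) (nat_lit 1940892787011) (nat_lit 76) (nat_lit 6682499551395) (nat_lit 76) (nat_lit 6069094498649) (nat_lit 3) (nat_lit 4) (nat_lit 4) (nat_lit 5) (nat_lit 4) (nat_lit 4) (nat_lit 370) (nat_lit 329) (nat_lit 201)) (XT.lf (nat_lit 0) (nat_lit 5829127762694) (nat_lit 76) (nat_lit 5769323511932) (nat_lit 76) (nat_lit 5155918457825) (nat_lit 3) (nat_lit 4) (nat_lit 4) (nat_lit 5) (nat_lit 4) (nat_lit 4) (nat_lit 371) (nat_lit 329) (nat_lit 200))))) (XT.nd (nat_lit 312) (nat_lit 760) (nat_lit 0) (XT.nd (nat_lit 156) (nat_lit 380) (nat_lit 0) (XT.nd (nat_lit 78) (nat_lit 0) (nat_lit 0) (XT.lf (nat_lit 0) (nat_lit 118733476732) (nat_lit 532) (nat_lit 7954304099) (nat_lit 532) (nat_lit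 7954304099) (nat_lit 64) (nat_lit 3) (nat_lit 71) (nat_lit 3) (nat_lit 71) (nat_lit 5) (nat_lit 330) (nat_lit 330) (nat_lit 240)) (XT.lf (nat_lit 76) (nat_lit 241577207105) (nat_lit 0) (nat_lit 19511225987) (nat_lit 532) (nat_lit 27927131420) (nat_lit 65) (nat_lit 5) (nat_lit 64) (nat_lit 3) (nat_lit 71) (nat_lit 5) (nat_lit 331) (nat_lit 330) (nat_lit 239))) (XT.nd (nat_lit 78) (nat_lit 456) (nat_lit 0) (XT.lf (nat_lit 76) (nat_lit 232604397089) (nat_lit 0) (nat_lit 67716663457) (nat_lit 532) (nat_lit 10420174003) (nat_lit 66) (nat_lit 5) (nat_lit 65) (nat_lit 5) (nat_lit 72) (nat_lit 5) (nat_lit 332) (nat_lit 330) (nat_lit 238)) (XT.lf (nat_lit 0) (nat_lit 21974773219) (nat_lit 532) (nat_lit 107552118077) (nat_lit 608) (nat_lit 205160350811) (nat_lit 59) (nat_lit 5) (nat_lit 66) (nat_lit 5) (nat_lit 67) (nat_lit 5) (nat_lit 333) (nat_lit 330) (nat_lit 237)))) (XT.nd (nat_lit 156) (nat_lit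 456) (nat_lit 0) (XT.nd (nat_lit 78) (nat_lit 380) (nat_lit 0) (XT.lf (nat_lit 0) (nat_lit 72263484251) (nat_lit 532) (nat_lit 135133523625) (nat_lit 76) (nat_lit 153714369807) (nat_lit 60) (nat_lit 5) (nat_lit 67) (nat_lit 5) (nat_lit 61) (nat_lit 5) (nat_lit 334) (nat_lit 330) (nat_lit 236)) (XT.lf (nat_lit 0) (nat_lit 144660293271) (nat_lit 456) (nat_lit 159896707044) (nat_lit 76) (nat_lit 85776950132) (nat_lit 55) (nat_lit 5) (nat_lit 61) (nat_lit 5) (nat_lit 56) (nat_lit 5) (nat_lit 335) (nat_lit 330) (nat_lit 235))) (XT.nd (nat_lit 78) (nat_lit 228) (nat_lit 0) (XT.lf (nat_lit 0) (nat_lit 241651670897) (nat_lit 228) (nat_lit 1849054801) (nat_lit 304) (nat_lit 179192455396) (nat_lit 52) (nat_lit 5) (nat_lit 55) (nat_lit 5) (nat_lit 56) (nat_lit 5) (nat_lit 336) (nat_lit 330) (nat_lit 234)) (XT.lf (nat_lit 0) (nat_lit 258040753571) (nat_lit 228) (nat_lit 118436021894) (nat_lit 304)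 (nat_lit 81884756794) (nat_lit 49) (nat_lit 5) (nat_lit 52) (nat_lit 5) (nat_lit 53) (nat_lit 5) (nat_lit 337) (nat_lit 330) (nat_lit 233))))))))
noncomputable def xc52 : XT := (XT.nd (nat_lit 2340) (nat_lit 76) (nat_lit 0) (XT.nd (nat_lit 1170) (nat_lit 1140) (nat_lit 0) (XT.nd (nat_lit 546) (nat_lit 988) (nat_lit 0) (XT.nd (nat_lit 234) (nat_lit 684) (nat_lit 0) (XT.nd (nat_lit 78) (nat_lit 380) (nat_lit 0) (XT.lf (nat_lit 0) (nat_lit 46869619219) (nat_lit 228) (nat_lit 215772707684) (nat_lit 76) (nat_lit 235211876539) (nat_lit 46) (nat_lit 5) (nat_lit 49) (nat_lit 5) (nat_lit 47) (nat_lit 5) (nat_lit 338) (nat_lit 330) (nat_lit 232)) (XT.nd (nat_lit 78) (nat_lit 152) (nat_lit 0) (XT.lf (nat_lit 0) (nat_lit 209719168964) (nat_lit 304) (nat_lit 228065400060) (nat_lit 76) (nat_lit 103745615521) (nat_lit 43) (nat_lit 5) (nat_lit 47) (nat_lit 5) (nat_lit 44) (nat_lit 5) (nat_lit 339) (nat_lit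 330) (nat_lit 231)) (XT.lf (nat_lit 0) (nat_lit 354190094411) (nat_lit 152) (nat_lit 65033418686) (nat_lit 228) (nat_lit 170755860833) (nat_lit 41) (nat_lit 5) (nat_lit 43) (nat_lit 5) (nat_lit 44) (nat_lit 5) (nat_lit 340) (nat_lit 330) (nat_lit 230)))) (XT.nd (nat_lit 156) (nat_lit 304) (nat_lit 0) (XT.nd (nat_lit 78) (nat_lit 152) (nat_lit 0) (XT.lf (nat_lit 0) (nat_lit 39657347485) (nat_lit 228) (nat_lit 240971343613) (nat_lit 76) (nat_lit 362965593782) (nat_lit 38) (nat_lit 5) (nat_lit 41) (nat_lit 5) (nat_lit 39) (nat_lit 5) (nat_lit 341) (nat_lit 330) (nat_lit 229)) (XT.lf (nat_lit 0) (nat_lit 295895568668) (nat_lit 228) (nat_lit 244563364145) (nat_lit 76) (nat_lit 162487787610) (nat_lit 36) (nat_lit 5) (nat_lit 39) (nat_lit 5) (nat_lit 37) (nat_lit 5) (nat_lit 342) (nat_lit 330) (nat_lit 228))) (XT.nd (nat_lit 78) (nat_lit 152) (nat_lit 0) (XT.lf (nat_lit 0) (nat_lit 524907102755)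 (nat_lit 152) (nat_lit 93245701678) (nat_lit 228) (nat_lit 150842554396) (nat_lit 34) (nat_lit 5) (nat_lit 36) (nat_lit 5) (nat_lit 37) (nat_lit 5) (nat_lit 343) (nat_lit 330) (nat_lit 227)) (XT.lf (nat_lit 0) (nat_lit 169291069400) (nat_lit 152) (nat_lit 246762504076) (nat_lit 76) (nat_lit 426006088270) (nat_lit 32) (nat_lit 5) (nat_lit 34) (nat_lit 5) (nat_lit 33) (nat_lit 5) (nat_lit 344) (nat_lit 330) (nat_lit 226))))) (XT.nd (nat_lit 312) (nat_lit 456) (nat_lit 0) (XT.nd (nat_lit 156) (nat_lit 228) (nat_lit 0) (XT.nd (nat_lit 78) (nat_lit 152) (nat_lit 0) (XT.lf (nat_lit 0) (nat_lit 557844214394) (nat_lit 228) (nat_lit 249812930565) (nat_lit 76) (nat_lit 115766542883) (nat_lit 30) (nat_lit 5) (nat_lit 33) (nat_lit 5) (nat_lit 31) (nat_lit 4) (nat_lit 345) (nat_lit 330) (nat_lit 225)) (XT.lf (nat_lit 0) (nat_lit 26344009368) (nat_lit 152) (nat_lit 257966690516) (nat_lit 76) (nat_lit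 729662098230) (nat_lit 28) (nat_lit 5) (nat_lit 30) (nat_lit 5) (nat_lit 29) (nat_lit 5) (nat_lit 346) (nat_lit 330) (nat_lit 224))) (XT.nd (nat_lit 78) (nat_lit 76) (nat_lit 0) (XT.lf (nat_lit 0) (nat_lit 492359503296) (nat_lit 228) (nat_lit 281567272117) (nat_lit 76) (nat_lit 340461864028) (nat_lit 26) (nat_lit 5) (nat_lit 29) (nat_lit 5) (nat_lit 27) (nat_lit 4) (nat_lit 347) (nat_lit 330) (nat_lit 223)) (XT.lf (nat_lit 0) (nat_lit 911101777345) (nat_lit 76) (nat_lit 154656333635) (nat_lit 152) (nat_lit 161110282833) (nat_lit 25) (nat_lit 5) (nat_lit 26) (nat_lit 5) (nat_lit 27) (nat_lit 4) (nat_lit 348) (nat_lit 330) (nat_lit 222)))) (XT.nd (nat_lit 156) (nat_lit 228) (nat_lit 0) (XT.nd (nat_lit 78) (nat_lit 76) (nat_lit 0) (XT.lf (nat_lit 0) (nat_lit 397045098249) (nat_lit 152) (nat_lit 383104659440) (nat_lit 76) (nat_lit 571636108656) (nat_lit 23) (nat_lit 5) (nat_lit 25) (nat_lit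 5) (nat_lit 24) (nat_lit 4) (nat_lit 349) (nat_lit 330) (nat_lit 221)) (XT.lf (nat_lit 0) (nat_lit 1011857578218) (nat_lit 76) (nat_lit 55842460334) (nat_lit 152) (nat_lit 424340884312) (nat_lit 22) (nat_lit 5) (nat_lit 23) (nat_lit 5) (nat_lit 24) (nat_lit 4) (nat_lit 350) (nat_lit 330) (nat_lit 220))) (XT.nd (nat_lit 78) (nat_lit 76) (nat_lit 0) (XT.lf (nat_lit 0) (nat_lit 232387882545) (nat_lit 152) (nat_lit 636039255383) (nat_lit 76) (nat_lit 780065623564) (nat_lit 20) (nat_lit 5) (nat_lit 22) (nat_lit 5) (nat_lit 21) (nat_lit 4) (nat_lit 351) (nat_lit 330) (nat_lit 219)) (XT.lf (nat_lit 0) (nat_lit 965420723418) (nat_lit 76) (nat_lit 36899854091) (nat_lit 152) (nat_lit 822024424822) (nat_lit 19) (nat_lit 5) (nat_lit 20) (nat_lit 5) (nat_lit 21) (nat_lit 4) (nat_lit 352) (nat_lit 330) (nat_lit 218)))))) (XT.nd (nat_lit 546) (nat_lit 456) (nat_lit 0) (XT.nd (nat_lit 234) (nat_lit 380)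 (nat_lit 0) (XT.nd (nat_lit 78) (nat_lit 228) (nat_lit 0) (XT.lf (nat_lit 0) (nat_lit 839948663927) (nat_lit 76) (nat_lit 1109104378364) (nat_lit 76) (nat_lit 72617247769) (nat_lit 18) (nat_lit 4) (nat_lit 19) (nat_lit 5) (nat_lit 19) (nat_lit 4) (nat_lit 353) (nat_lit 330) (nat_lit 217)) (XT.nd (nat_lit 78) (nat_lit 76) (nat_lit 0) (XT.lf (nat_lit 0) (nat_lit 608880776699) (nat_lit 76) (nat_lit 182161495418) (nat_lit 152) (nat_lit 1452728050834) (nat_lit 16) (nat_lit 5) (nat_lit 17) (nat_lit 5) (nat_lit 18) (nat_lit 4) (nat_lit 354) (nat_lit 330) (nat_lit 216)) (XT.lf (nat_lit 0) (nat_lit 230578412070) (nat_lit 76) (nat_lit 1611594326320) (nat_lit 76) (nat_lit 651883987823) (nat_lit 15) (nat_lit 4) (nat_lit 16) (nat_lit 5) (nat_lit 16) (nat_lit 4) (nat_lit 355) (nat_lit 330) (nat_lit 215)))) (XT.nd (nat_lit 156) (nat_lit 228) (nat_lit 0) (XT.nd (nat_lit 78) (nat_lit 76) (nat_lit 0) (XT.lf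 (nat_lit 0) (nat_lit 309498344536) (nat_lit 152) (nat_lit 315953794961) (nat_lit 76) (nat_lit 2151606429919) (nat_lit 14) (nat_lit 5) (nat_lit 16) (nat_lit 5) (nat_lit 15) (nat_lit 4) (nat_lit 356) (nat_lit 330) (nat_lit 214)) (XT.lf (nat_lit 0) (nat_lit 1439784970251) (nat_lit 152) (nat_lit 1105143230934) (nat_lit 0) (nat_lit 551164263780) (nat_lit 13) (nat_lit 5) (nat_lit 15) (nat_lit 4) (nat_lit 13) (nat_lit 4) (nat_lit 357) (nat_lit 330) (nat_lit 213))) (XT.nd (nat_lit 78) (nat_lit 152) (nat_lit 0) (XT.lf (nat_lit 0) (nat_lit 1245545138798) (nat_lit 76) (nat_lit 1550760854701) (nat_lit 76) (nat_lit 662140139058) (nat_lit 12) (nat_lit 4) (nat_lit 13) (nat_lit 5) (nat_lit 13) (nat_lit 4) (nat_lit 358) (nat_lit 330) (nat_lit 212)) (XT.lf (nat_lit 0) (nat_lit 137660898717) (nat_lit 76) (nat_lit 355743727405) (nat_lit 152) (nat_lit 3377916766666) (nat_lit 10) (nat_lit 5) (nat_lit 11) (nat_lit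 5) (nat_lit 12) (nat_lit 4) (nat_lit 359) (nat_lit 330) (nat_lit 211))))) (XT.nd (nat_lit 312) (nat_lit 228) (nat_lit 0) (XT.nd (nat_lit 156) (nat_lit 152) (nat_lit 0) (XT.nd (nat_lit 78) (nat_lit 76) (nat_lit 0) (XT.lf (nat_lit 0) (nat_lit 1874784924876) (nat_lit 152) (nat_lit 1410642397107) (nat_lit 0) (nat_lit 1051987952141) (nat_lit 10) (nat_lit 5) (nat_lit 12) (nat_lit 4) (nat_lit 10) (nat_lit 4) (nat_lit 360) (nat_lit 330) (nat_lit 210)) (XT.lf (nat_lit 0) (nat_lit 1316864264331) (nat_lit 76) (nat_lit 2188017592298) (nat_lit 76) (nat_lit 1365220613979) (nat_lit 9) (nat_lit 4) (nat_lit 10) (nat_lit 5) (nat_lit 10) (nat_lit 4) (nat_lit 361) (nat_lit 330) (nat_lit 209))) (XT.nd (nat_lit 78) (nat_lit 152) (nat_lit 0) (XT.lf (nat_lit 0) (nat_lit 4538921104683) (nat_lit 76) (nat_lit 881641539872) (nat_lit 76) (nat_lit 58844556697) (nat_lit 9) (nat_lit 4) (nat_lit 10) (nat_lit 5) (nat_lit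 10) (nat_lit 4) (nat_lit 362) (nat_lit 330) (nat_lit 208)) (XT.lf (nat_lit 0) (nat_lit 1439821445462) (nat_lit 152) (nat_lit 4054053127647) (nat_lit 0) (nat_lit 677972383057) (nat_lit 7) (nat_lit 5) (nat_lit 9) (nat_lit 4) (nat_lit 7) (nat_lit 4) (nat_lit 363) (nat_lit 330) (nat_lit 207)))) (XT.nd (nat_lit 156) (nat_lit 152) (nat_lit 0) (XT.nd (nat_lit 78) (nat_lit 76) (nat_lit 0) (XT.lf (nat_lit 0) (nat_lit 3212378609530) (nat_lit 152) (nat_lit 1300916205382) (nat_lit 0) (nat_lit 2450529543725) (nat_lit 7) (nat_lit 5) (nat_lit 9) (nat_lit 4) (nat_lit 7) (nat_lit 4) (nat_lit 364) (nat_lit 330) (nat_lit 206)) (XT.lf (nat_lit 0) (nat_lit 1963408891801) (nat_lit 76) (nat_lit 3334630473534) (nat_lit 76) (nat_lit 2572781404774) (nat_lit 6) (nat_lit 4) (nat_lit 7) (nat_lit 5) (nat_lit 7) (nat_lit 4) (nat_lit 365) (nat_lit 330) (nat_lit 205))) (XT.nd (nat_lit 78) (nat_lit 152) (nat_lit 0) (XT.lf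 (nat_lit 0) (nat_lit 5796162261143) (nat_lit 76) (nat_lit 1938261736231) (nat_lit 76) (nat_lit 1176412664900) (nat_lit 6) (nat_lit 4) (nat_lit 7) (nat_lit 5) (nat_lit 7) (nat_lit 4) (nat_lit 366) (nat_lit 330) (nat_lit 204)) (XT.lf (nat_lit 0) (nat_lit 91208962232) (nat_lit 76) (nat_lit 318915093439) (nat_lit 152) (nat_lit 9695729208950) (nat_lit 4) (nat_lit 5) (nat_lit 5) (nat_lit 5) (nat_lit 6) (nat_lit 4) (nat_lit 367) (nat_lit 330) (nat_lit 203))))))) (XT.nd (nat_lit 44850) (nat_lit 0) (nat_lit 836) (XT.nd (nat_lit 44226) (nat_lit 0) (nat_lit 2888) (XT.nd (nat_lit 234) (nat_lit 76) (nat_lit 0) (XT.nd (nat_lit 78) (nat_lit 0) (nat_lit 0) (XT.lf (nat_lit 0) (nat_lit 2297117946549) (nat_lit 152) (nat_lit 7578287107446) (nat_lit 0) (nat_lit 1591702135892) (nat_lit 4) (nat_lit 5) (nat_lit 6) (nat_lit 4) (nat_lit 4) (nat_lit 4) (nat_lit 368) (nat_lit 330) (nat_lit 202)) (XT.nd (nat_lit 78)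 (nat_lit 0) (nat_lit 0) (XT.lf (nat_lit 0) (nat_lit 4475981314821) (nat_lit 152) (nat_lit 4785296755023) (nat_lit 0) (nat_lit 3770565502598) (nat_lit 4) (nat_lit 5) (nat_lit 6) (nat_lit 4) (nat_lit 4) (nat_lit 4) (nat_lit 369) (nat_lit 330) (nat_lit 201)) (XT.lf (nat_lit 0) (nat_lit 6981674180287) (nat_lit 152) (nat_lit 1573357866036) (nat_lit 0) (nat_lit 6276258366703) (nat_lit 4) (nat_lit 5) (nat_lit 6) (nat_lit 4) (nat_lit 4) (nat_lit 4) (nat_lit 370) (nat_lit 330) (nat_lit 200)))) (XT.nd (nat_lit 43836) (nat_lit 0) (nat_lit 4636) (XT.nd (nat_lit 43758) (nat_lit 0) (nat_lit 4636) (XT.lf (nat_lit 0) (nat_lit 2232026865710) (nat_lit 76) (nat_lit 7684874402664) (nat_lit 76) (nat_lit 6979458587897) (nat_lit 3) (nat_lit 4) (nat_lit 4) (nat_lit 5) (nat_lit 4) (nat_lit 4) (nat_lit 371) (nat_lit 330) (nat_lit 199)) (XT.lf (nat_lit 0) (nat_lit 136544955761) (nat_lit 532) (nat_lit 9146661964)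 (nat_lit 532) (nat_lit 9146661964) (nat_lit 64) (nat_lit 3) (nat_lit 71) (nat_lit 3) (nat_lit 71) (nat_lit 5) (nat_lit 331) (nat_lit 331) (nat_lit 238))) (XT.nd (nat_lit 78) (nat_lit 0) (nat_lit 76) (XT.lf (nat_lit 76) (nat_lit 277815230312) (nat_lit 0) (nat_lit 22439037244) (nat_lit 532) (nat_lit 32113423676) (nat_lit 65) (nat_lit 5) (nat_lit 64) (nat_lit 3) (nat_lit 71) (nat_lit 5) (nat_lit 332) (nat_lit 331) (nat_lit 237)) (XT.lf (nat_lit 76) (nat_lit 267496591897) (nat_lit 0) (nat_lit 77874875425) (nat_lit 532) (nat_lit 11980770509) (nat_lit 66) (nat_lit 5) (nat_lit 65) (nat_lit 5) (nat_lit 72) (nat_lit 5) (nat_lit 333) (nat_lit 331) (nat_lit 236))))) (XT.nd (nat_lit 312) (nat_lit 836) (nat_lit 0) (XT.nd (nat_lit 156) (nat_lit 532) (nat_lit 0) (XT.nd (nat_lit 78) (nat_lit 0) (nat_lit 76) (XT.lf (nat_lit 0) (nat_lit 25273020091) (nat_lit 532) (nat_lit 123683239685) (nat_lit 608) (nat_lit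 235933904497) (nat_lit 59) (nat_lit 5) (nat_lit 66) (nat_lit 5) (nat_lit 67) (nat_lit 5) (nat_lit 334) (nat_lit 331) (nat_lit 235)) (XT.lf (nat_lit 0) (nat_lit 83104804187) (nat_lit 532) (nat_lit 155401847875) (nat_lit 76) (nat_lit 176771287030) (nat_lit 60) (nat_lit 5) (nat_lit 67) (nat_lit 5) (nat_lit 61) (nat_lit 5) (nat_lit 335) (nat_lit 331) (nat_lit 234))) (XT.nd (nat_lit 78) (nat_lit 228) (nat_lit 0) (XT.lf (nat_lit 0) (nat_lit 166360936677) (nat_lit 456) (nat_lit 183879522796) (nat_lit 76) (nat_lit 98643454318) (nat_lit 55) (nat_lit 5) (nat_lit 61) (nat_lit 5) (nat_lit 56) (nat_lit 5) (nat_lit 336) (nat_lit 331) (nat_lit 233)) (XT.lf (nat_lit 0) (nat_lit 277900968760) (nat_lit 228) (nat_lit 2126293800) (nat_lit 304) (nat_lit 206069780354) (nat_lit 52) (nat_lit 5) (nat_lit 55) (nat_lit 5) (nat_lit 56) (nat_lit 5) (nat_lit 337) (nat_lit 331) (nat_lit 232)))) (XT.nd (nat_lit 156) (nat_lit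 380) (nat_lit 0) (XT.nd (nat_lit 78) (nat_lit 228) (nat_lit 0) (XT.lf (nat_lit 0) (nat_lit 296748385827) (nat_lit 228) (nat_lit 136201186734) (nat_lit 304) (nat_lit 94166086115) (nat_lit 49) (nat_lit 5) (nat_lit 52) (nat_lit 5) (nat_lit 53) (nat_lit 5) (nat_lit 338) (nat_lit 331) (nat_lit 231)) (XT.lf (nat_lit 0) (nat_lit 53901247176) (nat_lit 228) (nat_lit 248137070615) (nat_lit 76) (nat_lit 270493920588) (nat_lit 46) (nat_lit 5) (nat_lit 49) (nat_lit 5) (nat_lit 47) (nat_lit 5) (nat_lit 339) (nat_lit 331) (nat_lit 230))) (XT.nd (nat_lit 78) (nat_lit 152) (nat_lit 0) (XT.lf (nat_lit 0) (nat_lit 241178117153) (nat_lit 304) (nat_lit 262273720016) (nat_lit 76) (nat_lit 119307788557) (nat_lit 43) (nat_lit 5) (nat_lit 47) (nat_lit 5) (nat_lit 44) (nat_lit 5) (nat_lit 340) (nat_lit 331) (nat_lit 229)) (XT.lf (nat_lit 0) (nat_lit 407319972499) (nat_lit 152) (nat_lit 74788033273) (nat_lit 228)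 (nat_lit 196368196406) (nat_lit 41) (nat_lit 5) (nat_lit 43) (nat_lit 5) (nat_lit 44) (nat_lit 5) (nat_lit 341) (nat_lit 331) (nat_lit 228)))))) (XT.nd (nat_lit 624) (nat_lit 836) (nat_lit 0) (XT.nd (nat_lit 312) (nat_lit 532) (nat_lit 0) (XT.nd (nat_lit 156) (nat_lit 304) (nat_lit 0) (XT.nd (nat_lit 78) (nat_lit 152) (nat_lit 0) (XT.lf (nat_lit 0) (nat_lit 45606852543) (nat_lit 228) (nat_lit 277115686175) (nat_lit 76) (nat_lit 417410816189) (nat_lit 38) (nat_lit 5) (nat_lit 41) (nat_lit 5) (nat_lit 39) (nat_lit 5) (nat_lit 342) (nat_lit 331) (nat_lit 227)) (XT.lf (nat_lit 0) (nat_lit 340280729361) (nat_lit 228) (nat_lit 281246569516) (nat_lit 76) (nat_lit 186861363169) (nat_lit 36) (nat_lit 5) (nat_lit 39) (nat_lit 5) (nat_lit 37) (nat_lit 5) (nat_lit 343) (nat_lit 331) (nat_lit 226))) (XT.nd (nat_lit 78) (nat_lit 152) (nat_lit 0) (XT.lf (nat_lit 0) (nat_lit 603644357444) (nat_lit 152)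 (nat_lit 107232113989) (nat_lit 228) (nat_lit 173468131159) (nat_lit 34) (nat_lit 5) (nat_lit 36) (nat_lit 5) (nat_lit 37) (nat_lit 5) (nat_lit 344) (nat_lit 331) (nat_lit 225)) (XT.lf (nat_lit 0) (nat_lit 194685433428) (nat_lit 152) (nat_lit 283775708512) (nat_lit 76) (nat_lit 489907412491) (nat_lit 32) (nat_lit 5) (nat_lit 34) (nat_lit 5) (nat_lit 33) (nat_lit 5) (nat_lit 345) (nat_lit 331) (nat_lit 224)))) (XT.nd (nat_lit 156) (nat_lit 228) (nat_lit 0) (XT.nd (nat_lit 78) (nat_lit 152) (nat_lit 0) (XT.lf (nat_lit 0) (nat_lit 641521494625) (nat_lit 228) (nat_lit 287283757299) (nat_lit 76) (nat_lit 133131937001) (nat_lit 30) (nat_lit 5) (nat_lit 33) (nat_lit 5) (nat_lit 31) (nat_lit 4) (nat_lit 346) (nat_lit 331) (nat_lit 223)) (XT.lf (nat_lit 0) (nat_lit 30296214293) (nat_lit 152) (nat_lit 296660643458) (nat_lit 76) (nat_lit 839111811599) (nat_lit 28) (nat_lit 5) (nat_lit 30) (nat_lit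 5) (nat_lit 29) (nat_lit 5) (nat_lit 347) (nat_lit 331) (nat_lit 222))) (XT.nd (nat_lit 78) (nat_lit 76) (nat_lit 0) (XT.lf (nat_lit 0) (nat_lit 566213986670) (nat_lit 228) (nat_lit 323801367173) (nat_lit 76) (nat_lit 391531536710) (nat_lit 26) (nat_lit 5) (nat_lit 29) (nat_lit 5) (nat_lit 27) (nat_lit 4) (nat_lit 348) (nat_lit 331) (nat_lit 221)) (XT.lf (nat_lit 0) (nat_lit 1047767955422) (nat_lit 76) (nat_lit 177854379239) (nat_lit 152) (nat_lit 185276277510) (nat_lit 25) (nat_lit 5) (nat_lit 26) (nat_lit 5) (nat_lit 27) (nat_lit 4) (nat_lit 349) (nat_lit 331) (nat_lit 220))))) (XT.nd (nat_lit 312) (nat_lit 380) (nat_lit 0) (XT.nd (nat_lit 156) (nat_lit 228) (nat_lit 0) (XT.nd (nat_lit 78) (nat_lit 76) (nat_lit 0) (XT.lf (nat_lit 0) (nat_lit 456602345427) (nat_lit 152) (nat_lit 440569470142) (nat_lit 76) (nat_lit 657381892011) (nat_lit 23) (nat_lit 5) (nat_lit 25) (nat_lit 5) (nat_lit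 24) (nat_lit 4) (nat_lit 350) (nat_lit 331) (nat_lit 219)) (XT.lf (nat_lit 0) (nat_lit 1163637027982) (nat_lit 76) (nat_lit 64218455419) (nat_lit 152) (nat_lit 487991542660) (nat_lit 22) (nat_lit 5) (nat_lit 23) (nat_lit 5) (nat_lit 24) (nat_lit 4) (nat_lit 351) (nat_lit 331) (nat_lit 218))) (XT.nd (nat_lit 78) (nat_lit 76) (nat_lit 0) (XT.lf (nat_lit 0) (nat_lit 267246483708) (nat_lit 152) (nat_lit 731444353323) (nat_lit 76) (nat_lit 897075805096) (nat_lit 20) (nat_lit 5) (nat_lit 22) (nat_lit 5) (nat_lit 21) (nat_lit 4) (nat_lit 352) (nat_lit 331) (nat_lit 217)) (XT.lf (nat_lit 0) (nat_lit 1110234555398) (nat_lit 76) (nat_lit 42434490296) (nat_lit 152) (nat_lit 945327676390) (nat_lit 19) (nat_lit 5) (nat_lit 20) (nat_lit 5) (nat_lit 21) (nat_lit 4) (nat_lit 353) (nat_lit 331) (nat_lit 216)))) (XT.nd (nat_lit 156) (nat_lit 152) (nat_lit 0) (XT.nd (nat_lit 78) (nat_lit 152) (nat_lit 0)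 (XT.lf (nat_lit 0) (nat_lit 965941646226) (nat_lit 76) (nat_lit 1275469707767) (nat_lit 76) (nat_lit 83509451083) (nat_lit 18) (nat_lit 4) (nat_lit 19) (nat_lit 5) (nat_lit 19) (nat_lit 4) (nat_lit 354) (nat_lit 331) (nat_lit 215)) (XT.lf (nat_lit 0) (nat_lit 700213535758) (nat_lit 76) (nat_lit 209485409717) (nat_lit 152) (nat_lit 1670636899264) (nat_lit 16) (nat_lit 5) (nat_lit 17) (nat_lit 5) (nat_lit 18) (nat_lit 4) (nat_lit 355) (nat_lit 331) (nat_lit 214))) (XT.nd (nat_lit 78) (nat_lit 76) (nat_lit 0) (XT.lf (nat_lit 0) (nat_lit 265165779620) (nat_lit 76) (nat_lit 1853333179746) (nat_lit 76) (nat_lit 749666250917) (nat_lit 15) (nat_lit 4) (nat_lit 16) (nat_lit 5) (nat_lit 16) (nat_lit 4) (nat_lit 356) (nat_lit 331) (nat_lit 213)) (XT.lf (nat_lit 0) (nat_lit 355923373014) (nat_lit 152) (nat_lit 363346322864) (nat_lit 76) (nat_lit 2474347636770) (nat_lit 14) (nat_lit 5) (nat_lit 16)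 (nat_lit 5) (nat_lit 15) (nat_lit 4) (nat_lit 357) (nat_lit 331) (nat_lit 212))))))))
noncomputable def xc53 : XT := (XT.nd (nat_lit 46176) (nat_lit 0) (nat_lit 0) (XT.nd (nat_lit 44928) (nat_lit 0) (nat_lit 1824) (XT.nd (nat_lit 546) (nat_lit 228) (nat_lit 0) (XT.nd (nat_lit 234) (nat_lit 228) (nat_lit 0) (XT.nd (nat_lit 78) (nat_lit 228) (nat_lit 0) (XT.lf (nat_lit 0) (nat_lit 1655752974242) (nat_lit 152) (nat_lit 1270914205655) (nat_lit 0) (nat_lit 633839134105) (nat_lit 13) (nat_lit 5) (nat_lit 15) (nat_lit 4) (nat_lit 13) (nat_lit 4) (nat_lit 358) (nat_lit 331) (nat_lit 211)) (XT.nd (nat_lit 78) (nat_lit 152) (nat_lit 0) (XT.lf (nat_lit 0) (nat_lit 1432377376374) (nat_lit 76) (nat_lit 1783374752117) (nat_lit 76) (nat_lit 761460905044) (nat_lit 12) (nat_lit 4) (nat_lit 13) (nat_lit 5) (nat_lit 13) (nat_lit 4) (nat_lit 359) (nat_lit 331) (nat_lit 210)) (XT.lf (nat_lit 0) (nat_lit 158310472467)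 (nat_lit 76) (nat_lit 409105068672) (nat_lit 152) (nat_lit 3884604042858) (nat_lit 10) (nat_lit 5) (nat_lit 11) (nat_lit 5) (nat_lit 12) (nat_lit 4) (nat_lit 360) (nat_lit 331) (nat_lit 209)))) (XT.nd (nat_lit 156) (nat_lit 152) (nat_lit 0) (XT.nd (nat_lit 78) (nat_lit 76) (nat_lit 0) (XT.lf (nat_lit 0) (nat_lit 2156002860422) (nat_lit 152) (nat_lit 1622238364141) (nat_lit 0) (nat_lit 1209786324915) (nat_lit 10) (nat_lit 5) (nat_lit 12) (nat_lit 4) (nat_lit 10) (nat_lit 4) (nat_lit 361) (nat_lit 331) (nat_lit 208)) (XT.lf (nat_lit 0) (nat_lit 1514394263287) (nat_lit 76) (nat_lit 2516220051620) (nat_lit 76) (nat_lit 1570003511891) (nat_lit 9) (nat_lit 4) (nat_lit 10) (nat_lit 5) (nat_lit 10) (nat_lit 4) (nat_lit 362) (nat_lit 331) (nat_lit 207))) (XT.nd (nat_lit 78) (nat_lit 152) (nat_lit 0) (XT.lf (nat_lit 0) (nat_lit 5219759582826) (nat_lit 76) (nat_lit 1013887614746) (nat_lit 76) (nat_lit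 67671071346) (nat_lit 9) (nat_lit 4) (nat_lit 10) (nat_lit 5) (nat_lit 10) (nat_lit 4) (nat_lit 363) (nat_lit 331) (nat_lit 206)) (XT.lf (nat_lit 0) (nat_lit 1655794812372) (nat_lit 152) (nat_lit 4662160794860) (nat_lit 0) (nat_lit 779668380341) (nat_lit 7) (nat_lit 5) (nat_lit 9) (nat_lit 4) (nat_lit 7) (nat_lit 4) (nat_lit 364) (nat_lit 331) (nat_lit 205))))) (XT.nd (nat_lit 312) (nat_lit 0) (nat_lit 0) (XT.nd (nat_lit 156) (nat_lit 152) (nat_lit 0) (XT.nd (nat_lit 78) (nat_lit 76) (nat_lit 0) (XT.lf (nat_lit 0) (nat_lit 3694235531472) (nat_lit 152) (nat_lit 1496053373638) (nat_lit 0) (nat_lit 2818109096871) (nat_lit 7) (nat_lit 5) (nat_lit 9) (nat_lit 4) (nat_lit 7) (nat_lit 4) (nat_lit 365) (nat_lit 331) (nat_lit 204)) (XT.lf (nat_lit 0) (nat_lit 2257920465899) (nat_lit 76) (nat_lit 3834824923506) (nat_lit 76) (nat_lit 2958698486670) (nat_lit 6) (nat_lit 4) (nat_lit 7) (nat_lit 5) (nat_lit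 7) (nat_lit 4) (nat_lit 366) (nat_lit 331) (nat_lit 203))) (XT.nd (nat_lit 78) (nat_lit 152) (nat_lit 0) (XT.lf (nat_lit 0) (nat_lit 6665586809295) (nat_lit 76) (nat_lit 2229000891398) (nat_lit 76) (nat_lit 1352874452617) (nat_lit 6) (nat_lit 4) (nat_lit 7) (nat_lit 5) (nat_lit 7) (nat_lit 4) (nat_lit 367) (nat_lit 331) (nat_lit 202)) (XT.lf (nat_lit 0) (nat_lit 104890502994) (nat_lit 76) (nat_lit 366752258286) (nat_lit 152) (nat_lit 11150088485247) (nat_lit 4) (nat_lit 5) (nat_lit 5) (nat_lit 5) (nat_lit 6) (nat_lit 4) (nat_lit 368) (nat_lit 331) (nat_lit 201)))) (XT.nd (nat_lit 156) (nat_lit 0) (nat_lit 0) (XT.nd (nat_lit 78) (nat_lit 0) (nat_lit 0) (XT.lf (nat_lit 0) (nat_lit 2641685725178) (nat_lit 152) (nat_lit 8715029998060) (nat_lit 0) (nat_lit 1830457538196) (nat_lit 4) (nat_lit 5) (nat_lit 6) (nat_lit 4) (nat_lit 4) (nat_lit 4) (nat_lit 369) (nat_lit 331) (nat_lit 200)) (XT.lf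 (nat_lit 0) (nat_lit 5147378587389) (nat_lit 152) (nat_lit 5503091115665) (nat_lit 0) (nat_lit 4336150399223) (nat_lit 4) (nat_lit 5) (nat_lit 6) (nat_lit 4) (nat_lit 4) (nat_lit 4) (nat_lit 370) (nat_lit 331) (nat_lit 199))) (XT.nd (nat_lit 43836) (nat_lit 0) (nat_lit 4560) (XT.lf (nat_lit 0) (nat_lit 8028925372846) (nat_lit 152) (nat_lit 1809361413235) (nat_lit 0) (nat_lit 7217697183652) (nat_lit 4) (nat_lit 5) (nat_lit 6) (nat_lit 4) (nat_lit 4) (nat_lit 4) (nat_lit 371) (nat_lit 331) (nat_lit 198)) (XT.lf (nat_lit 0) (nat_lit 157027801219) (nat_lit 532) (nat_lit 10518065607) (nat_lit 532) (nat_lit 10518065607) (nat_lit 64) (nat_lit 3) (nat_lit 71) (nat_lit 3) (nat_lit 71) (nat_lit 5) (nat_lit 332) (nat_lit 332) (nat_lit 236)))))) (XT.nd (nat_lit 624) (nat_lit 1368) (nat_lit 0) (XT.nd (nat_lit 312) (nat_lit 988) (nat_lit 0) (XT.nd (nat_lit 156) (nat_lit 380) (nat_lit 0) (XT.nd (nat_lit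 78) (nat_lit 0) (nat_lit 76) (XT.lf (nat_lit 76) (nat_lit 319488605325) (nat_lit 0) (nat_lit 25805745275) (nat_lit 532) (nat_lit 36928337071) (nat_lit 65) (nat_lit 5) (nat_lit 64) (nat_lit 3) (nat_lit 71) (nat_lit 5) (nat_lit 333) (nat_lit 332) (nat_lit 235)) (XT.lf (nat_lit 76) (nat_lit 307622241547) (nat_lit 0) (nat_lit 89556645452) (nat_lit 532) (nat_lit 13776048963) (nat_lit 66) (nat_lit 5) (nat_lit 65) (nat_lit 5) (nat_lit 72) (nat_lit 5) (nat_lit 334) (nat_lit 332) (nat_lit 234))) (XT.nd (nat_lit 78) (nat_lit 0) (nat_lit 76) (XT.lf (nat_lit 0) (nat_lit 29065508749) (nat_lit 532) (nat_lit 142234443141) (nat_lit 608) (nat_lit 271323612904) (nat_lit 59) (nat_lit 5) (nat_lit 66) (nat_lit 5) (nat_lit 67) (nat_lit 5) (nat_lit 335) (nat_lit 332) (nat_lit 233)) (XT.lf (nat_lit 0) (nat_lit 95571883830) (nat_lit 532) (nat_lit 178710836366) (nat_lit 76) (nat_lit 203286799936) (nat_lit 60) (nat_lit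 5) (nat_lit 67) (nat_lit 5) (nat_lit 61) (nat_lit 5) (nat_lit 336) (nat_lit 332) (nat_lit 232)))) (XT.nd (nat_lit 156) (nat_lit 456) (nat_lit 0) (XT.nd (nat_lit 78) (nat_lit 228) (nat_lit 0) (XT.lf (nat_lit 0) (nat_lit 191316286567) (nat_lit 456) (nat_lit 211460173102) (nat_lit 76) (nat_lit 113439943480) (nat_lit 55) (nat_lit 5) (nat_lit 61) (nat_lit 5) (nat_lit 56) (nat_lit 5) (nat_lit 337) (nat_lit 332) (nat_lit 231)) (XT.lf (nat_lit 0) (nat_lit 319587284001) (nat_lit 228) (nat_lit 2445147722) (nat_lit 304) (nat_lit 236979080411) (nat_lit 52) (nat_lit 5) (nat_lit 55) (nat_lit 5) (nat_lit 56) (nat_lit 5) (nat_lit 338) (nat_lit 332) (nat_lit 230))) (XT.nd (nat_lit 78) (nat_lit 228) (nat_lit 0) (XT.lf (nat_lit 0) (nat_lit 341261792449) (nat_lit 228) (nat_lit 156631184447) (nat_lit 304) (nat_lit 108289952380) (nat_lit 49) (nat_lit 5) (nat_lit 52) (nat_lit 5) (nat_lit 53) (nat_lit 5) (nat_lit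 339) (nat_lit 332) (nat_lit 229)) (XT.lf (nat_lit 0) (nat_lit 61987330340) (nat_lit 228) (nat_lit 285356464311) (nat_lit 76) (nat_lit 311068207215) (nat_lit 46) (nat_lit 5) (nat_lit 49) (nat_lit 5) (nat_lit 47) (nat_lit 5) (nat_lit 340) (nat_lit 332) (nat_lit 228))))) (XT.nd (nat_lit 312) (nat_lit 608) (nat_lit 0) (XT.nd (nat_lit 156) (nat_lit 380) (nat_lit 0) (XT.nd (nat_lit 78) (nat_lit 152) (nat_lit 0) (XT.lf (nat_lit 0) (nat_lit 277355645951) (nat_lit 304) (nat_lit 301613651325) (nat_lit 76) (nat_lit 137204206903) (nat_lit 43) (nat_lit 5) (nat_lit 47) (nat_lit 5) (nat_lit 44) (nat_lit 5) (nat_lit 341) (nat_lit 332) (nat_lit 227)) (XT.lf (nat_lit 0) (nat_lit 468418999699) (nat_lit 152) (nat_lit 86005937156) (nat_lit 228) (nat_lit 225822636791) (nat_lit 41) (nat_lit 5) (nat_lit 43) (nat_lit 5) (nat_lit 44) (nat_lit 5) (nat_lit 342) (nat_lit 332) (nat_lit 226))) (XT.nd (nat_lit 78) (nat_lit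 152) (nat_lit 0) (XT.lf (nat_lit 0) (nat_lit 52448563173) (nat_lit 228) (nat_lit 318682011516) (nat_lit 76) (nat_lit 480022728478) (nat_lit 38) (nat_lit 5) (nat_lit 41) (nat_lit 5) (nat_lit 39) (nat_lit 5) (nat_lit 343) (nat_lit 332) (nat_lit 225)) (XT.lf (nat_lit 0) (nat_lit 391323462880) (nat_lit 228) (nat_lit 323432572524) (nat_lit 76) (nat_lit 214890875711) (nat_lit 36) (nat_lit 5) (nat_lit 39) (nat_lit 5) (nat_lit 37) (nat_lit 5) (nat_lit 344) (nat_lit 332) (nat_lit 224)))) (XT.nd (nat_lit 156) (nat_lit 304) (nat_lit 0) (XT.nd (nat_lit 78) (nat_lit 152) (nat_lit 0) (XT.lf (nat_lit 0) (nat_lit 694191910324) (nat_lit 152) (nat_lit 123316596160) (nat_lit 228) (nat_lit 199487741081) (nat_lit 34) (nat_lit 5) (nat_lit 36) (nat_lit 5) (nat_lit 37) (nat_lit 5) (nat_lit 345) (nat_lit 332) (nat_lit 223)) (XT.lf (nat_lit 0) (nat_lit 223888780478) (nat_lit 152) (nat_lit 326341179213) (nat_lit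 76) (nat_lit 563393835124) (nat_lit 32) (nat_lit 5) (nat_lit 34) (nat_lit 5) (nat_lit 33) (nat_lit 5) (nat_lit 346) (nat_lit 332) (nat_lit 222))) (XT.nd (nat_lit 78) (nat_lit 152) (nat_lit 0) (XT.lf (nat_lit 0) (nat_lit 737750208855) (nat_lit 228) (nat_lit 330375479418) (nat_lit 76) (nat_lit 153102039600) (nat_lit 30) (nat_lit 5) (nat_lit 33) (nat_lit 5) (nat_lit 31) (nat_lit 4) (nat_lit 347) (nat_lit 332) (nat_lit 221)) (XT.lf (nat_lit 0) (nat_lit 34841102784) (nat_lit 152) (nat_lit 341158945546) (nat_lit 76) (nat_lit 964978884763) (nat_lit 28) (nat_lit 5) (nat_lit 30) (nat_lit 5) (nat_lit 29) (nat_lit 5) (nat_lit 348) (nat_lit 332) (nat_lit 220))))))) (XT.nd (nat_lit 1170) (nat_lit 380) (nat_lit 0) (XT.nd (nat_lit 546) (nat_lit 684) (nat_lit 0) (XT.nd (nat_lit 234) (nat_lit 380) (nat_lit 0) (XT.nd (nat_lit 78) (nat_lit 228) (nat_lit 0) (XT.lf (nat_lit 0) (nat_lit 651146506508) (nat_lit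 228) (nat_lit 372370819310) (nat_lit 76) (nat_lit 450261564439) (nat_lit 26) (nat_lit 5) (nat_lit 29) (nat_lit 5) (nat_lit 27) (nat_lit 4) (nat_lit 349) (nat_lit 332) (nat_lit 219)) (XT.nd (nat_lit 78) (nat_lit 152) (nat_lit 0) (XT.lf (nat_lit 0) (nat_lit 1204933837941) (nat_lit 76) (nat_lit 204532230309) (nat_lit 152) (nat_lit 213067304960) (nat_lit 25) (nat_lit 5) (nat_lit 26) (nat_lit 5) (nat_lit 27) (nat_lit 4) (nat_lit 350) (nat_lit 332) (nat_lit 218)) (XT.lf (nat_lit 0) (nat_lit 525093062035) (nat_lit 152) (nat_lit 506654219045) (nat_lit 76) (nat_lit 755989453360) (nat_lit 23) (nat_lit 5) (nat_lit 25) (nat_lit 5) (nat_lit 24) (nat_lit 4) (nat_lit 351) (nat_lit 332) (nat_lit 217)))) (XT.nd (nat_lit 156) (nat_lit 152) (nat_lit 0) (XT.nd (nat_lit 78) (nat_lit 152) (nat_lit 0) (XT.lf (nat_lit 0) (nat_lit 1338183196948) (nat_lit 76) (nat_lit 73850940961) (nat_lit 152) (nat_lit 561189915422)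 (nat_lit 22) (nat_lit 5) (nat_lit 23) (nat_lit 5) (nat_lit 24) (nat_lit 4) (nat_lit 352) (nat_lit 332) (nat_lit 216)) (XT.lf (nat_lit 0) (nat_lit 307333772924) (nat_lit 152) (nat_lit 841160408691) (nat_lit 76) (nat_lit 1031637431435) (nat_lit 20) (nat_lit 5) (nat_lit 22) (nat_lit 5) (nat_lit 21) (nat_lit 4) (nat_lit 353) (nat_lit 332) (nat_lit 215))) (XT.nd (nat_lit 78) (nat_lit 76) (nat_lit 0) (XT.lf (nat_lit 0) (nat_lit 1276770285752) (nat_lit 76) (nat_lit 48799405308) (nat_lit 152) (nat_lit 1087126516199) (nat_lit 19) (nat_lit 5) (nat_lit 20) (nat_lit 5) (nat_lit 21) (nat_lit 4) (nat_lit 354) (nat_lit 332) (nat_lit 214)) (XT.lf (nat_lit 0) (nat_lit 1110833409388) (nat_lit 76) (nat_lit 1466789916407) (nat_lit 76) (nat_lit 96035578499) (nat_lit 18) (nat_lit 4) (nat_lit 19) (nat_lit 5) (nat_lit 19) (nat_lit 4) (nat_lit 355) (nat_lit 332) (nat_lit 213))))) (XT.nd (nat_lit 312) (nat_lit 304)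 (nat_lit 0) (XT.nd (nat_lit 156) (nat_lit 152) (nat_lit 0) (XT.nd (nat_lit 78) (nat_lit 76) (nat_lit 0) (XT.lf (nat_lit 0) (nat_lit 805246051984) (nat_lit 76) (nat_lit 240907986760) (nat_lit 152) (nat_lit 1921232162550) (nat_lit 16) (nat_lit 5) (nat_lit 17) (nat_lit 5) (nat_lit 18) (nat_lit 4) (nat_lit 356) (nat_lit 332) (nat_lit 212)) (XT.lf (nat_lit 0) (nat_lit 304941104588) (nat_lit 76) (nat_lit 2131332933250) (nat_lit 76) (nat_lit 862115935186) (nat_lit 15) (nat_lit 4) (nat_lit 16) (nat_lit 5) (nat_lit 16) (nat_lit 4) (nat_lit 357) (nat_lit 332) (nat_lit 211))) (XT.nd (nat_lit 78) (nat_lit 76) (nat_lit 0) (XT.lf (nat_lit 0) (nat_lit 409312088265) (nat_lit 152) (nat_lit 417847861961) (nat_lit 76) (nat_lit 2845499965548) (nat_lit 14) (nat_lit 5) (nat_lit 16) (nat_lit 5) (nat_lit 15) (nat_lit 4) (nat_lit 358) (nat_lit 332) (nat_lit 210)) (XT.lf (nat_lit 0) (nat_lit 1904116115806) (nat_lit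 152) (nat_lit 1461550950932) (nat_lit 0) (nat_lit 728915178707) (nat_lit 13) (nat_lit 5) (nat_lit 15) (nat_lit 4) (nat_lit 13) (nat_lit 4) (nat_lit 359) (nat_lit 332) (nat_lit 209)))) (XT.nd (nat_lit 156) (nat_lit 76) (nat_lit 0) (XT.nd (nat_lit 78) (nat_lit 152) (nat_lit 0) (XT.lf (nat_lit 0) (nat_lit 1647234335765) (nat_lit 76) (nat_lit 2050880790424) (nat_lit 76) (nat_lit 875679848081) (nat_lit 12) (nat_lit 4) (nat_lit 13) (nat_lit 5) (nat_lit 13) (nat_lit 4) (nat_lit 360) (nat_lit 332) (nat_lit 208)) (XT.lf (nat_lit 0) (nat_lit 182057375240) (nat_lit 76) (nat_lit 470470664251) (nat_lit 152) (nat_lit 4467294468713) (nat_lit 10) (nat_lit 5) (nat_lit 11) (nat_lit 5) (nat_lit 12) (nat_lit 4) (nat_lit 361) (nat_lit 332) (nat_lit 207))) (XT.nd (nat_lit 78) (nat_lit 76) (nat_lit 0) (XT.lf (nat_lit 0) (nat_lit 2479403438306) (nat_lit 152) (nat_lit 1865573821951) (nat_lit 0) (nat_lit 1391254409723)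 (nat_lit 10) (nat_lit 5) (nat_lit 12) (nat_lit 4) (nat_lit 10) (nat_lit 4) (nat_lit 362) (nat_lit 332) (nat_lit 206)) (XT.lf (nat_lit 0) (nat_lit 1741553674468) (nat_lit 76) (nat_lit 2893652923619) (nat_lit 76) (nat_lit 1805503891844) (nat_lit 9) (nat_lit 4) (nat_lit 10) (nat_lit 5) (nat_lit 10) (nat_lit 4) (nat_lit 363) (nat_lit 332) (nat_lit 205)))))) (XT.nd (nat_lit 44538) (nat_lit 0) (nat_lit 3192) (XT.nd (nat_lit 312) (nat_lit 152) (nat_lit 0) (XT.nd (nat_lit 156) (nat_lit 76) (nat_lit 0) (XT.nd (nat_lit 78) (nat_lit 152) (nat_lit 0) (XT.lf (nat_lit 0) (nat_lit 6002723756500) (nat_lit 76) (nat_lit 1165970638920) (nat_lit 76) (nat_lit 77821604368) (nat_lit 9) (nat_lit 4) (nat_lit 10) (nat_lit 5) (nat_lit 10) (nat_lit 4) (nat_lit 364) (nat_lit 332) (nat_lit 204)) (XT.lf (nat_lit 0) (nat_lit 1904164147718) (nat_lit 152) (nat_lit 5361484685784) (nat_lit 0) (nat_lit 896618743120) (nat_lit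 7) (nat_lit 5) (nat_lit 9) (nat_lit 4) (nat_lit 7) (nat_lit 4) (nat_lit 365) (nat_lit 332) (nat_lit 203))) (XT.nd (nat_lit 78) (nat_lit 76) (nat_lit 0) (XT.lf (nat_lit 0) (nat_lit 4248370959880) (nat_lit 152) (nat_lit 1720461181158) (nat_lit 0) (nat_lit 3240825553339) (nat_lit 7) (nat_lit 5) (nat_lit 9) (nat_lit 4) (nat_lit 7) (nat_lit 4) (nat_lit 366) (nat_lit 332) (nat_lit 202)) (XT.lf (nat_lit 0) (nat_lit 2596608717506) (nat_lit 76) (nat_lit 4410048570495) (nat_lit 76) (nat_lit 3402503162264) (nat_lit 6) (nat_lit 4) (nat_lit 7) (nat_lit 5) (nat_lit 7) (nat_lit 4) (nat_lit 367) (nat_lit 332) (nat_lit 201)))) (XT.nd (nat_lit 156) (nat_lit 0) (nat_lit 0) (XT.nd (nat_lit 78) (nat_lit 152) (nat_lit 0) (XT.lf (nat_lit 0) (nat_lit 7665424988709) (nat_lit 76) (nat_lit 2563350945510) (nat_lit 76) (nat_lit 1555805535809) (nat_lit 6) (nat_lit 4) (nat_lit 7) (nat_lit 5) (nat_lit 7) (nat_lit 4) (nat_lit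 368) (nat_lit 332) (nat_lit 200)) (XT.lf (nat_lit 0) (nat_lit 120624226971) (nat_lit 76) (nat_lit 421765022043) (nat_lit 152) (nat_lit 12822601678606) (nat_lit 4) (nat_lit 5) (nat_lit 5) (nat_lit 5) (nat_lit 6) (nat_lit 4) (nat_lit 369) (nat_lit 332) (nat_lit 199))) (XT.nd (nat_lit 43992) (nat_lit 0) (nat_lit 4560) (XT.lf (nat_lit 0) (nat_lit 3037938649471) (nat_lit 152) (nat_lit 10022284365063) (nat_lit 0) (nat_lit 2105026230869) (nat_lit 4) (nat_lit 5) (nat_lit 6) (nat_lit 4) (nat_lit 4) (nat_lit 4) (nat_lit 370) (nat_lit 332) (nat_lit 198)) (XT.lf (nat_lit 0) (nat_lit 180582804743) (nat_lit 532) (nat_lit 12095325050) (nat_lit 532) (nat_lit 12095325050) (nat_lit 64) (nat_lit 3) (nat_lit 71) (nat_lit 3) (nat_lit 71) (nat_lit 5) (nat_lit 333) (nat_lit 333) (nat_lit 234))))) (XT.nd (nat_lit 312) (nat_lit 988) (nat_lit 0) (XT.nd (nat_lit 156) (nat_lit 380) (nat_lit 0) (XT.nd (nat_lit 78)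 (nat_lit 0) (nat_lit 76) (XT.lf (nat_lit 76) (nat_lit 367412720673) (nat_lit 0) (nat_lit 29677251637) (nat_lit 532) (nat_lit 42465999612) (nat_lit 65) (nat_lit 5) (nat_lit 64) (nat_lit 3) (nat_lit 71) (nat_lit 5) (nat_lit 334) (nat_lit 333) (nat_lit 233)) (XT.lf (nat_lit 76) (nat_lit 353766455560) (nat_lit 0) (nat_lit 102990549615) (nat_lit 532) (nat_lit 15841067180) (nat_lit 66) (nat_lit 5) (nat_lit 65) (nat_lit 5) (nat_lit 72) (nat_lit 5) (nat_lit 335) (nat_lit 333) (nat_lit 232))) (XT.nd (nat_lit 78) (nat_lit 0) (nat_lit 76) (XT.lf (nat_lit 0) (nat_lit 33426496229) (nat_lit 532) (nat_lit 163568639860) (nat_lit 608) (nat_lit 312021869571) (nat_lit 59) (nat_lit 5) (nat_lit 66) (nat_lit 5) (nat_lit 67) (nat_lit 5) (nat_lit 336) (nat_lit 333) (nat_lit 231)) (XT.lf (nat_lit 0) (nat_lit 109908694015) (nat_lit 532) (nat_lit 205516487385) (nat_lit 76) (nat_lit 233779683708) (nat_lit 60) (nat_lit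 5) (nat_lit 67) (nat_lit 5) (nat_lit 61) (nat_lit 5) (nat_lit 337) (nat_lit 333) (nat_lit 230)))) (XT.nd (nat_lit 156) (nat_lit 456) (nat_lit 0) (XT.nd (nat_lit 78) (nat_lit 228) (nat_lit 0) (XT.lf (nat_lit 0) (nat_lit 220014644023) (nat_lit 456) (nat_lit 243178232630) (nat_lit 76) (nat_lit 130455913084) (nat_lit 55) (nat_lit 5) (nat_lit 61) (nat_lit 5) (nat_lit 56) (nat_lit 5) (nat_lit 338) (nat_lit 333) (nat_lit 229)) (XT.lf (nat_lit 0) (nat_lit 367526261235) (nat_lit 228) (nat_lit 2811851715) (nat_lit 304) (nat_lit 272525060057) (nat_lit 52) (nat_lit 5) (nat_lit 55) (nat_lit 5) (nat_lit 56) (nat_lit 5) (nat_lit 339) (nat_lit 333) (nat_lit 228))) (XT.nd (nat_lit 78) (nat_lit 228) (nat_lit 0) (XT.lf (nat_lit 0) (nat_lit 392451929936) (nat_lit 228) (nat_lit 180125725783) (nat_lit 304) (nat_lit 124532653818) (nat_lit 49) (nat_lit 5) (nat_lit 52) (nat_lit 5) (nat_lit 53) (nat_lit 5) (nat_lit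 340) (nat_lit 333) (nat_lit 227)) (XT.lf (nat_lit 0) (nat_lit 71286107461) (nat_lit 228) (nat_lit 328159051616) (nat_lit 76) (nat_lit 357728588421) (nat_lit 46) (nat_lit 5) (nat_lit 49) (nat_lit 5) (nat_lit 47) (nat_lit 5) (nat_lit 341) (nat_lit 333) (nat_lit 226))))))))
noncomputable def xc54 : XT := (XT.nd (nat_lit 46332) (nat_lit 0) (nat_lit 380) (XT.nd (nat_lit 1170) (nat_lit 1064) (nat_lit 0) (XT.nd (nat_lit 546) (nat_lit 912) (nat_lit 0) (XT.nd (nat_lit 234) (nat_lit 608) (nat_lit 0) (XT.nd (nat_lit 78) (nat_lit 380) (nat_lit 0) (XT.lf (nat_lit 0) (nat_lit 318959606247) (nat_lit 304) (nat_lit 346854847082) (nat_lit 76) (nat_lit 157785027022) (nat_lit 43) (nat_lit 5) (nat_lit 47) (nat_lit 5) (nat_lit 44) (nat_lit 5) (nat_lit 342) (nat_lit 333) (nat_lit 225)) (XT.nd (nat_lit 78) (nat_lit 228) (nat_lit 0) (XT.lf (nat_lit 0) (nat_lit 538682629483) (nat_lit 152) (nat_lit 98906600048) (nat_lit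 228) (nat_lit 259695435655) (nat_lit 41) (nat_lit 5) (nat_lit 43) (nat_lit 5) (nat_lit 44) (nat_lit 5) (nat_lit 343) (nat_lit 333) (nat_lit 224)) (XT.lf (nat_lit 0) (nat_lit 60316363905) (nat_lit 228) (nat_lit 366483536242) (nat_lit 76) (nat_lit 552026356926) (nat_lit 38) (nat_lit 5) (nat_lit 41) (nat_lit 5) (nat_lit 39) (nat_lit 5) (nat_lit 344) (nat_lit 333) (nat_lit 223)))) (XT.nd (nat_lit 156) (nat_lit 304) (nat_lit 0) (XT.nd (nat_lit 78) (nat_lit 152) (nat_lit 0) (XT.lf (nat_lit 0) (nat_lit 450022454233) (nat_lit 228) (nat_lit 371946715552) (nat_lit 76) (nat_lit 247124740010) (nat_lit 36) (nat_lit 5) (nat_lit 39) (nat_lit 5) (nat_lit 37) (nat_lit 5) (nat_lit 345) (nat_lit 333) (nat_lit 222)) (XT.lf (nat_lit 0) (nat_lit 798321376845) (nat_lit 152) (nat_lit 141813832332) (nat_lit 228) (nat_lit 229410441183) (nat_lit 34) (nat_lit 5) (nat_lit 36) (nat_lit 5) (nat_lit 37) (nat_lit 5) (nat_lit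 346) (nat_lit 333) (nat_lit 221))) (XT.nd (nat_lit 78) (nat_lit 152) (nat_lit 0) (XT.lf (nat_lit 0) (nat_lit 257472499846) (nat_lit 152) (nat_lit 375291686472) (nat_lit 76) (nat_lit 647903145373) (nat_lit 32) (nat_lit 5) (nat_lit 34) (nat_lit 5) (nat_lit 33) (nat_lit 5) (nat_lit 347) (nat_lit 333) (nat_lit 220)) (XT.lf (nat_lit 0) (nat_lit 848413110720) (nat_lit 228) (nat_lit 379931165054) (nat_lit 76) (nat_lit 176067581493) (nat_lit 30) (nat_lit 5) (nat_lit 33) (nat_lit 5) (nat_lit 31) (nat_lit 4) (nat_lit 348) (nat_lit 333) (nat_lit 219))))) (XT.nd (nat_lit 312) (nat_lit 380) (nat_lit 0) (XT.nd (nat_lit 156) (nat_lit 228) (nat_lit 0) (XT.nd (nat_lit 78) (nat_lit 152) (nat_lit 0) (XT.lf (nat_lit 0) (nat_lit 40067613266) (nat_lit 152) (nat_lit 392332186674) (nat_lit 76) (nat_lit 1109725945398) (nat_lit 28) (nat_lit 5) (nat_lit 30) (nat_lit 5) (nat_lit 29) (nat_lit 5) (nat_lit 349) (nat_lit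 333) (nat_lit 218)) (XT.lf (nat_lit 0) (nat_lit 748818801454) (nat_lit 228) (nat_lit 428225872877) (nat_lit 76) (nat_lit 517801023848) (nat_lit 26) (nat_lit 5) (nat_lit 29) (nat_lit 5) (nat_lit 27) (nat_lit 4) (nat_lit 350) (nat_lit 333) (nat_lit 217))) (XT.nd (nat_lit 78) (nat_lit 152) (nat_lit 0) (XT.lf (nat_lit 0) (nat_lit 1385674434771) (nat_lit 76) (nat_lit 235211833615) (nat_lit 152) (nat_lit 245027087528) (nat_lit 25) (nat_lit 5) (nat_lit 26) (nat_lit 5) (nat_lit 27) (nat_lit 4) (nat_lit 351) (nat_lit 333) (nat_lit 216)) (XT.lf (nat_lit 0) (nat_lit 603857297178) (nat_lit 152) (nat_lit 582651844063) (nat_lit 76) (nat_lit 869388081230) (nat_lit 23) (nat_lit 5) (nat_lit 25) (nat_lit 5) (nat_lit 24) (nat_lit 4) (nat_lit 352) (nat_lit 333) (nat_lit 215)))) (XT.nd (nat_lit 156) (nat_lit 152) (nat_lit 0) (XT.nd (nat_lit 78) (nat_lit 152) (nat_lit 0) (XT.lf (nat_lit 0) (nat_lit 1538911141344)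 (nat_lit 76) (nat_lit 84928368290) (nat_lit 152) (nat_lit 645368131553) (nat_lit 22) (nat_lit 5) (nat_lit 23) (nat_lit 5) (nat_lit 24) (nat_lit 4) (nat_lit 353) (nat_lit 333) (nat_lit 214)) (XT.lf (nat_lit 0) (nat_lit 353434078302) (nat_lit 152) (nat_lit 967334018100) (nat_lit 76) (nat_lit 1186383239402) (nat_lit 20) (nat_lit 5) (nat_lit 22) (nat_lit 5) (nat_lit 21) (nat_lit 4) (nat_lit 354) (nat_lit 333) (nat_lit 213))) (XT.nd (nat_lit 78) (nat_lit 76) (nat_lit 0) (XT.lf (nat_lit 0) (nat_lit 1468286242259) (nat_lit 76) (nat_lit 56119120616) (nat_lit 152) (nat_lit 1250195257977) (nat_lit 19) (nat_lit 5) (nat_lit 20) (nat_lit 5) (nat_lit 21) (nat_lit 4) (nat_lit 355) (nat_lit 333) (nat_lit 212)) (XT.lf (nat_lit 0) (nat_lit 1277458811138) (nat_lit 76) (nat_lit 1686808216703) (nat_lit 76) (nat_lit 110440695805) (nat_lit 18) (nat_lit 4) (nat_lit 19) (nat_lit 5) (nat_lit 19) (nat_lit 4) (nat_lit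 356) (nat_lit 333) (nat_lit 211)))))) (XT.nd (nat_lit 546) (nat_lit 456) (nat_lit 0) (XT.nd (nat_lit 234) (nat_lit 304) (nat_lit 0) (XT.nd (nat_lit 78) (nat_lit 152) (nat_lit 0) (XT.lf (nat_lit 0) (nat_lit 926033327164) (nat_lit 76) (nat_lit 277044007523) (nat_lit 152) (nat_lit 2209416781561) (nat_lit 16) (nat_lit 5) (nat_lit 17) (nat_lit 5) (nat_lit 18) (nat_lit 4) (nat_lit 357) (nat_lit 333) (nat_lit 210)) (XT.nd (nat_lit 78) (nat_lit 76) (nat_lit 0) (XT.lf (nat_lit 0) (nat_lit 350682616610) (nat_lit 76) (nat_lit 2451032704272) (nat_lit 76) (nat_lit 991433133882) (nat_lit 15) (nat_lit 4) (nat_lit 16) (nat_lit 5) (nat_lit 16) (nat_lit 4) (nat_lit 358) (nat_lit 333) (nat_lit 209)) (XT.lf (nat_lit 0) (nat_lit 470709059765) (nat_lit 152) (nat_lit 480524731742) (nat_lit 76) (nat_lit 3272325098952) (nat_lit 14) (nat_lit 5) (nat_lit 16) (nat_lit 5) (nat_lit 15) (nat_lit 4) (nat_lit 359) (nat_lit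 333) (nat_lit 208)))) (XT.nd (nat_lit 156) (nat_lit 152) (nat_lit 0) (XT.nd (nat_lit 78) (nat_lit 76) (nat_lit 0) (XT.lf (nat_lit 0) (nat_lit 2189733680948) (nat_lit 152) (nat_lit 1680783302024) (nat_lit 0) (nat_lit 838252587449) (nat_lit 13) (nat_lit 5) (nat_lit 15) (nat_lit 4) (nat_lit 13) (nat_lit 4) (nat_lit 360) (nat_lit 333) (nat_lit 207)) (XT.lf (nat_lit 0) (nat_lit 1894319753000) (nat_lit 76) (nat_lit 2358512777034) (nat_lit 76) (nat_lit 1007031679569) (nat_lit 12) (nat_lit 4) (nat_lit 13) (nat_lit 5) (nat_lit 13) (nat_lit 4) (nat_lit 361) (nat_lit 333) (nat_lit 206))) (XT.nd (nat_lit 78) (nat_lit 0) (nat_lit 0) (XT.lf (nat_lit 0) (nat_lit 209366232492) (nat_lit 76) (nat_lit 541041139336) (nat_lit 152) (nat_lit 5137388502481) (nat_lit 10) (nat_lit 5) (nat_lit 11) (nat_lit 5) (nat_lit 12) (nat_lit 4) (nat_lit 362) (nat_lit 333) (nat_lit 205)) (XT.lf (nat_lit 0) (nat_lit 2851314066581)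 (nat_lit 152) (nat_lit 2145409670811) (nat_lit 0) (nat_lit 1599942674071) (nat_lit 10) (nat_lit 5) (nat_lit 12) (nat_lit 4) (nat_lit 10) (nat_lit 4) (nat_lit 363) (nat_lit 333) (nat_lit 204))))) (XT.nd (nat_lit 312) (nat_lit 228) (nat_lit 0) (XT.nd (nat_lit 156) (nat_lit 152) (nat_lit 0) (XT.nd (nat_lit 78) (nat_lit 0) (nat_lit 0) (XT.lf (nat_lit 0) (nat_lit 2002786931073) (nat_lit 76) (nat_lit 3327700759519) (nat_lit 76) (nat_lit 2076329364595) (nat_lit 9) (nat_lit 4) (nat_lit 10) (nat_lit 5) (nat_lit 10) (nat_lit 4) (nat_lit 364) (nat_lit 333) (nat_lit 203)) (XT.lf (nat_lit 0) (nat_lit 6903132498615) (nat_lit 76) (nat_lit 1340866145503) (nat_lit 76) (nat_lit 89494748480) (nat_lit 9) (nat_lit 4) (nat_lit 10) (nat_lit 5) (nat_lit 10) (nat_lit 4) (nat_lit 365) (nat_lit 333) (nat_lit 202))) (XT.nd (nat_lit 78) (nat_lit 0) (nat_lit 0) (XT.lf (nat_lit 0) (nat_lit 2189788855690) (nat_lit 152)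 (nat_lit 6165707216020) (nat_lit 0) (nat_lit 1031111634534) (nat_lit 7) (nat_lit 5) (nat_lit 9) (nat_lit 4) (nat_lit 7) (nat_lit 4) (nat_lit 366) (nat_lit 333) (nat_lit 201)) (XT.lf (nat_lit 0) (nat_lit 4885626678484) (nat_lit 152) (nat_lit 1978530208217) (nat_lit 0) (nat_lit 3726949455858) (nat_lit 7) (nat_lit 5) (nat_lit 9) (nat_lit 4) (nat_lit 7) (nat_lit 4) (nat_lit 367) (nat_lit 333) (nat_lit 200)))) (XT.nd (nat_lit 156) (nat_lit 152) (nat_lit 0) (XT.nd (nat_lit 78) (nat_lit 0) (nat_lit 0) (XT.lf (nat_lit 0) (nat_lit 2986100162541) (nat_lit 76) (nat_lit 5071555786854) (nat_lit 76) (nat_lit 3912878562950) (nat_lit 6) (nat_lit 4) (nat_lit 7) (nat_lit 5) (nat_lit 7) (nat_lit 4) (nat_lit 368) (nat_lit 333) (nat_lit 199)) (XT.lf (nat_lit 0) (nat_lit 8815238856501) (nat_lit 76) (nat_lit 2947853527149) (nat_lit 76) (nat_lit 1789176302134) (nat_lit 6) (nat_lit 4) (nat_lit 7) (nat_lit 5) (nat_lit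 7) (nat_lit 4) (nat_lit 369) (nat_lit 333) (nat_lit 198))) (XT.nd (nat_lit 44070) (nat_lit 0) (nat_lit 4560) (XT.lf (nat_lit 0) (nat_lit 138717973325) (nat_lit 76) (nat_lit 485029718649) (nat_lit 152) (nat_lit 14745991870337) (nat_lit 4) (nat_lit 5) (nat_lit 5) (nat_lit 5) (nat_lit 6) (nat_lit 4) (nat_lit 370) (nat_lit 333) (nat_lit 197)) (XT.lf (nat_lit 0) (nat_lit 207670855580) (nat_lit 532) (nat_lit 13909283242) (nat_lit 532) (nat_lit 13909283242) (nat_lit 64) (nat_lit 3) (nat_lit 71) (nat_lit 3) (nat_lit 71) (nat_lit 5) (nat_lit 334) (nat_lit 334) (nat_lit 232))))))) (XT.nd (nat_lit 1170) (nat_lit 1596) (nat_lit 0) (XT.nd (nat_lit 546) (nat_lit 1444) (nat_lit 0) (XT.nd (nat_lit 234) (nat_lit 760) (nat_lit 0) (XT.nd (nat_lit 78) (nat_lit 380) (nat_lit 0) (XT.lf (nat_lit 76) (nat_lit 422525252252) (nat_lit 0) (nat_lit 34129326771) (nat_lit 532) (nat_lit 48834698782) (nat_lit 65) (nat_lit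 5) (nat_lit 64) (nat_lit 3) (nat_lit 71) (nat_lit 5) (nat_lit 335) (nat_lit 334) (nat_lit 231)) (XT.nd (nat_lit 78) (nat_lit 456) (nat_lit 0) (XT.lf (nat_lit 76) (nat_lit 406832087622) (nat_lit 0) (nat_lit 118439440069) (nat_lit 532) (nat_lit 18216176876) (nat_lit 66) (nat_lit 5) (nat_lit 65) (nat_lit 5) (nat_lit 72) (nat_lit 5) (nat_lit 336) (nat_lit 334) (nat_lit 230)) (XT.lf (nat_lit 0) (nat_lit 38441348673) (nat_lit 532) (nat_lit 188103202567) (nat_lit 608) (nat_lit 358824934303) (nat_lit 59) (nat_lit 5) (nat_lit 66) (nat_lit 5) (nat_lit 67) (nat_lit 5) (nat_lit 337) (nat_lit 334) (nat_lit 229)))) (XT.nd (nat_lit 156) (nat_lit 456) (nat_lit 0) (XT.nd (nat_lit 78) (nat_lit 380) (nat_lit 0) (XT.lf (nat_lit 0) (nat_lit 126395775139) (nat_lit 532) (nat_lit 236343223680) (nat_lit 76) (nat_lit 268846533263) (nat_lit 60) (nat_lit 5) (nat_lit 67) (nat_lit 5) (nat_lit 61) (nat_lit 5) (nat_lit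 338) (nat_lit 334) (nat_lit 228)) (XT.lf (nat_lit 0) (nat_lit 253017532099) (nat_lit 456) (nat_lit 279654236759) (nat_lit 76) (nat_lit 150024283474) (nat_lit 55) (nat_lit 5) (nat_lit 61) (nat_lit 5) (nat_lit 56) (nat_lit 5) (nat_lit 339) (nat_lit 334) (nat_lit 227))) (XT.nd (nat_lit 78) (nat_lit 228) (nat_lit 0) (XT.lf (nat_lit 0) (nat_lit 422655869330) (nat_lit 228) (nat_lit 3233577929) (nat_lit 304) (nat_lit 313403151832) (nat_lit 52) (nat_lit 5) (nat_lit 55) (nat_lit 5) (nat_lit 56) (nat_lit 5) (nat_lit 340) (nat_lit 334) (nat_lit 226)) (XT.lf (nat_lit 0) (nat_lit 451320376227) (nat_lit 228) (nat_lit 207144481564) (nat_lit 304) (nat_lit 143211953464) (nat_lit 49) (nat_lit 5) (nat_lit 52) (nat_lit 5) (nat_lit 53) (nat_lit 5) (nat_lit 341) (nat_lit 334) (nat_lit 225))))) (XT.nd (nat_lit 312) (nat_lit 608) (nat_lit 0) (XT.nd (nat_lit 156) (nat_lit 380) (nat_lit 0) (XT.nd (nat_lit 78) (nat_lit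 228) (nat_lit 0) (XT.lf (nat_lit 0) (nat_lit 81979535921) (nat_lit 228) (nat_lit 377382242182) (nat_lit 76) (nat_lit 411387990199) (nat_lit 46) (nat_lit 5) (nat_lit 49) (nat_lit 5) (nat_lit 47) (nat_lit 5) (nat_lit 342) (nat_lit 334) (nat_lit 224)) (XT.lf (nat_lit 0) (nat_lit 366804011004) (nat_lit 304) (nat_lit 398882429953) (nat_lit 76) (nat_lit 181452924049) (nat_lit 43) (nat_lit 5) (nat_lit 47) (nat_lit 5) (nat_lit 44) (nat_lit 5) (nat_lit 343) (nat_lit 334) (nat_lit 223))) (XT.nd (nat_lit 78) (nat_lit 228) (nat_lit 0) (XT.lf (nat_lit 0) (nat_lit 619485613569) (nat_lit 152) (nat_lit 113742417896) (nat_lit 228) (nat_lit 298649299847) (nat_lit 41) (nat_lit 5) (nat_lit 43) (nat_lit 5) (nat_lit 44) (nat_lit 5) (nat_lit 344) (nat_lit 334) (nat_lit 222)) (XT.lf (nat_lit 0) (nat_lit 69364208855) (nat_lit 228) (nat_lit 421455479154) (nat_lit 76) (nat_lit 634830476193) (nat_lit 38) (nat_lit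 5) (nat_lit 41) (nat_lit 5) (nat_lit 39) (nat_lit 5) (nat_lit 345) (nat_lit 334) (nat_lit 221)))) (XT.nd (nat_lit 156) (nat_lit 304) (nat_lit 0) (XT.nd (nat_lit 78) (nat_lit 152) (nat_lit 0) (XT.lf (nat_lit 0) (nat_lit 517526179208) (nat_lit 228) (nat_lit 427738161183) (nat_lit 76) (nat_lit 284193627150) (nat_lit 36) (nat_lit 5) (nat_lit 39) (nat_lit 5) (nat_lit 37) (nat_lit 5) (nat_lit 346) (nat_lit 334) (nat_lit 220)) (XT.lf (nat_lit 0) (nat_lit 918070097528) (nat_lit 152) (nat_lit 163085715686) (nat_lit 228) (nat_lit 263821658733) (nat_lit 34) (nat_lit 5) (nat_lit 36) (nat_lit 5) (nat_lit 37) (nat_lit 5) (nat_lit 347) (nat_lit 334) (nat_lit 219))) (XT.nd (nat_lit 78) (nat_lit 152) (nat_lit 0) (XT.lf (nat_lit 0) (nat_lit 296093679017) (nat_lit 152) (nat_lit 431584933112) (nat_lit 76) (nat_lit 745088794857) (nat_lit 32) (nat_lit 5) (nat_lit 34) (nat_lit 5) (nat_lit 33) (nat_lit 5) (nat_lit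 348) (nat_lit 334) (nat_lit 218)) (XT.lf (nat_lit 0) (nat_lit 975675357508) (nat_lit 228) (nat_lit 436920358695) (nat_lit 76) (nat_lit 202477897133) (nat_lit 30) (nat_lit 5) (nat_lit 33) (nat_lit 5) (nat_lit 31) (nat_lit 4) (nat_lit 349) (nat_lit 334) (nat_lit 217)))))) (XT.nd (nat_lit 624) (nat_lit 684) (nat_lit 0) (XT.nd (nat_lit 312) (nat_lit 380) (nat_lit 0) (XT.nd (nat_lit 156) (nat_lit 228) (nat_lit 0) (XT.nd (nat_lit 78) (nat_lit 152) (nat_lit 0) (XT.lf (nat_lit 0) (nat_lit 46078016174) (nat_lit 152) (nat_lit 451181560456) (nat_lit 76) (nat_lit 1276185009548) (nat_lit 28) (nat_lit 5) (nat_lit 30) (nat_lit 5) (nat_lit 29) (nat_lit 5) (nat_lit 350) (nat_lit 334) (nat_lit 216)) (XT.lf (nat_lit 0) (nat_lit 861141862859) (nat_lit 228) (nat_lit 492459323313) (nat_lit 76) (nat_lit 595471347364) (nat_lit 26) (nat_lit 5) (nat_lit 29) (nat_lit 5) (nat_lit 27) (nat_lit 4) (nat_lit 351) (nat_lit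 334) (nat_lit 215))) (XT.nd (nat_lit 78) (nat_lit 152) (nat_lit 0) (XT.lf (nat_lit 0) (nat_lit 1593525994043) (nat_lit 76) (nat_lit 270493433806) (nat_lit 152) (nat_lit 281780913850) (nat_lit 25) (nat_lit 5) (nat_lit 26) (nat_lit 5) (nat_lit 27) (nat_lit 4) (nat_lit 352) (nat_lit 334) (nat_lit 214)) (XT.lf (nat_lit 0) (nat_lit 694436100327) (nat_lit 152) (nat_lit 670049236673) (nat_lit 76) (nat_lit 999796452104) (nat_lit 23) (nat_lit 5) (nat_lit 25) (nat_lit 5) (nat_lit 24) (nat_lit 4) (nat_lit 353) (nat_lit 334) (nat_lit 213)))) (XT.nd (nat_lit 156) (nat_lit 152) (nat_lit 0) (XT.nd (nat_lit 78) (nat_lit 152) (nat_lit 0) (XT.lf (nat_lit 0) (nat_lit 1769748164041) (nat_lit 76) (nat_lit 97667461858) (nat_lit 152) (nat_lit 742173146234) (nat_lit 22) (nat_lit 5) (nat_lit 23) (nat_lit 5) (nat_lit 24) (nat_lit 4) (nat_lit 354) (nat_lit 334) (nat_lit 212)) (XT.lf (nat_lit 0) (nat_lit 406449371098)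 (nat_lit 152) (nat_lit 1112433779117) (nat_lit 76) (nat_lit 1364340871438) (nat_lit 20) (nat_lit 5) (nat_lit 22) (nat_lit 5) (nat_lit 21) (nat_lit 4) (nat_lit 355) (nat_lit 334) (nat_lit 211))) (XT.nd (nat_lit 78) (nat_lit 76) (nat_lit 0) (XT.lf (nat_lit 0) (nat_lit 1688529491372) (nat_lit 76) (nat_lit 64536840892) (nat_lit 152) (nat_lit 1437724368487) (nat_lit 19) (nat_lit 5) (nat_lit 20) (nat_lit 5) (nat_lit 21) (nat_lit 4) (nat_lit 356) (nat_lit 334) (nat_lit 210)) (XT.lf (nat_lit 0) (nat_lit 1469077927963) (nat_lit 76) (nat_lit 1939829307685) (nat_lit 76) (nat_lit 127006634226) (nat_lit 18) (nat_lit 4) (nat_lit 19) (nat_lit 5) (nat_lit 19) (nat_lit 4) (nat_lit 357) (nat_lit 334) (nat_lit 209))))) (XT.nd (nat_lit 312) (nat_lit 304) (nat_lit 0) (XT.nd (nat_lit 156) (nat_lit 152) (nat_lit 0) (XT.nd (nat_lit 78) (nat_lit 76) (nat_lit 0) (XT.lf (nat_lit 0) (nat_lit 1064938604033) (nat_lit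 76) (nat_lit 318600474625) (nat_lit 152) (nat_lit 2540829143505) (nat_lit 16) (nat_lit 5) (nat_lit 17) (nat_lit 5) (nat_lit 18) (nat_lit 4) (nat_lit 358) (nat_lit 334) (nat_lit 208)) (XT.lf (nat_lit 0) (nat_lit 403285270979) (nat_lit 76) (nat_lit 2818687482151) (nat_lit 76) (nat_lit 1140147959100) (nat_lit 15) (nat_lit 4) (nat_lit 16) (nat_lit 5) (nat_lit 16) (nat_lit 4) (nat_lit 359) (nat_lit 334) (nat_lit 207))) (XT.nd (nat_lit 78) (nat_lit 76) (nat_lit 0) (XT.lf (nat_lit 0) (nat_lit 541315538397) (nat_lit 152) (nat_lit 552603207466) (nat_lit 76) (nat_lit 3763173968576) (nat_lit 14) (nat_lit 5) (nat_lit 16) (nat_lit 5) (nat_lit 15) (nat_lit 4) (nat_lit 360) (nat_lit 334) (nat_lit 206)) (XT.lf (nat_lit 0) (nat_lit 2518193844827) (nat_lit 152) (nat_lit 1932900576876) (nat_lit 0) (nat_lit 963990575330) (nat_lit 13) (nat_lit 5) (nat_lit 15) (nat_lit 4) (nat_lit 13) (nat_lit 4) (nat_lit 361)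 (nat_lit 334) (nat_lit 205)))) (XT.nd (nat_lit 156) (nat_lit 76) (nat_lit 0) (XT.nd (nat_lit 78) (nat_lit 152) (nat_lit 0) (XT.lf (nat_lit 0) (nat_lit 2178467917741) (nat_lit 76) (nat_lit 2712289593812) (nat_lit 76) (nat_lit 1158086321317) (nat_lit 12) (nat_lit 4) (nat_lit 13) (nat_lit 5) (nat_lit 13) (nat_lit 4) (nat_lit 362) (nat_lit 334) (nat_lit 204)) (XT.lf (nat_lit 0) (nat_lit 240771357133) (nat_lit 76) (nat_lit 622197216057) (nat_lit 152) (nat_lit 5907996674611) (nat_lit 10) (nat_lit 5) (nat_lit 11) (nat_lit 5) (nat_lit 12) (nat_lit 4) (nat_lit 363) (nat_lit 334) (nat_lit 203))) (XT.nd (nat_lit 78) (nat_lit 76) (nat_lit 0) (XT.lf (nat_lit 0) (nat_lit 3279011261657) (nat_lit 152) (nat_lit 2467220951731) (nat_lit 0) (nat_lit 1839934152981) (nat_lit 10) (nat_lit 5) (nat_lit 12) (nat_lit 4) (nat_lit 10) (nat_lit 4) (nat_lit 364) (nat_lit 334) (nat_lit 202)) (XT.lf (nat_lit 0) (nat_lit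 2303205126072) (nat_lit 76) (nat_lit 3826855795835) (nat_lit 76) (nat_lit 2387778685333) (nat_lit 9) (nat_lit 4) (nat_lit 10) (nat_lit 5) (nat_lit 10) (nat_lit 4) (nat_lit 365) (nat_lit 334) (nat_lit 201))))))))
noncomputable def xc55 : XT := (XT.nd (nat_lit 46488) (nat_lit 0) (nat_lit 0) (XT.nd (nat_lit 45240) (nat_lit 0) (nat_lit 684) (XT.nd (nat_lit 44616) (nat_lit 0) (nat_lit 2812) (XT.nd (nat_lit 234) (nat_lit 76) (nat_lit 0) (XT.nd (nat_lit 78) (nat_lit 152) (nat_lit 0) (XT.lf (nat_lit 0) (nat_lit 7938602508483) (nat_lit 76) (nat_lit 1541995999840) (nat_lit 76) (nat_lit 102918887751) (nat_lit 9) (nat_lit 4) (nat_lit 10) (nat_lit 5) (nat_lit 10) (nat_lit 4) (nat_lit 366) (nat_lit 334) (nat_lit 200)) (XT.nd (nat_lit 78) (nat_lit 0) (nat_lit 0) (XT.lf (nat_lit 0) (nat_lit 2518257248932) (nat_lit 152) (nat_lit 7090563167888) (nat_lit 0) (nat_lit 1185778440164) (nat_lit 7) (nat_lit 5)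 (nat_lit 9) (nat_lit 4) (nat_lit 7) (nat_lit 4) (nat_lit 367) (nat_lit 334) (nat_lit 199)) (XT.lf (nat_lit 0) (nat_lit 5618470736681) (nat_lit 152) (nat_lit 2275309625941) (nat_lit 0) (nat_lit 4285991926802) (nat_lit 7) (nat_lit 5) (nat_lit 9) (nat_lit 4) (nat_lit 7) (nat_lit 4) (nat_lit 368) (nat_lit 334) (nat_lit 198)))) (XT.nd (nat_lit 44226) (nat_lit 0) (nat_lit 4408) (XT.nd (nat_lit 78) (nat_lit 0) (nat_lit 0) (XT.lf (nat_lit 0) (nat_lit 3434015290822) (nat_lit 76) (nat_lit 5832289102546) (nat_lit 76) (nat_lit 4499810291700) (nat_lit 6) (nat_lit 4) (nat_lit 7) (nat_lit 5) (nat_lit 7) (nat_lit 4) (nat_lit 369) (nat_lit 334) (nat_lit 197)) (XT.lf (nat_lit 0) (nat_lit 10137524775324) (nat_lit 76) (nat_lit 3390031510711) (nat_lit 76) (nat_lit 2057552699026) (nat_lit 6) (nat_lit 4) (nat_lit 7) (nat_lit 5) (nat_lit 7) (nat_lit 4) (nat_lit 370) (nat_lit 334) (nat_lit 196))) (XT.nd (nat_lit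 78) (nat_lit 0) (nat_lit 0) (XT.lf (nat_lit 0) (nat_lit 238821960383) (nat_lit 532) (nat_lit 15995418211) (nat_lit 532) (nat_lit 15995418211) (nat_lit 64) (nat_lit 3) (nat_lit 71) (nat_lit 3) (nat_lit 71) (nat_lit 5) (nat_lit 335) (nat_lit 335) (nat_lit 230)) (XT.lf (nat_lit 76) (nat_lit 485904511528) (nat_lit 0) (nat_lit 39249094322) (nat_lit 532) (nat_lit 56158995644) (nat_lit 65) (nat_lit 5) (nat_lit 64) (nat_lit 3) (nat_lit 71) (nat_lit 5) (nat_lit 336) (nat_lit 335) (nat_lit 229))))) (XT.nd (nat_lit 312) (nat_lit 912) (nat_lit 0) (XT.nd (nat_lit 156) (nat_lit 304) (nat_lit 0) (XT.nd (nat_lit 78) (nat_lit 456) (nat_lit 0) (XT.lf (nat_lit 76) (nat_lit 467857402640) (nat_lit 0) (nat_lit 136205588981) (nat_lit 532) (nat_lit 20947809169) (nat_lit 66) (nat_lit 5) (nat_lit 65) (nat_lit 5) (nat_lit 72) (nat_lit 5) (nat_lit 337) (nat_lit 335) (nat_lit 228)) (XT.lf (nat_lit 0) (nat_lit 44208214875)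 (nat_lit 532) (nat_lit 216318128493) (nat_lit 608) (nat_lit 412648511345) (nat_lit 59) (nat_lit 5) (nat_lit 66) (nat_lit 5) (nat_lit 67) (nat_lit 5) (nat_lit 338) (nat_lit 335) (nat_lit 227))) (XT.nd (nat_lit 78) (nat_lit 380) (nat_lit 0) (XT.lf (nat_lit 0) (nat_lit 145355728950) (nat_lit 532) (nat_lit 271794150095) (nat_lit 76) (nat_lit 309173435369) (nat_lit 60) (nat_lit 5) (nat_lit 67) (nat_lit 5) (nat_lit 61) (nat_lit 5) (nat_lit 339) (nat_lit 335) (nat_lit 226)) (XT.lf (nat_lit 0) (nat_lit 290970684765) (nat_lit 456) (nat_lit 321601819710) (nat_lit 76) (nat_lit 172527913464) (nat_lit 55) (nat_lit 5) (nat_lit 61) (nat_lit 5) (nat_lit 56) (nat_lit 5) (nat_lit 340) (nat_lit 335) (nat_lit 225)))) (XT.nd (nat_lit 156) (nat_lit 456) (nat_lit 0) (XT.nd (nat_lit 78) (nat_lit 228) (nat_lit 0) (XT.lf (nat_lit 0) (nat_lit 486054755521) (nat_lit 228) (nat_lit 3718575645) (nat_lit 304) (nat_lit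 360413120083) (nat_lit 52) (nat_lit 5) (nat_lit 55) (nat_lit 5) (nat_lit 56) (nat_lit 5) (nat_lit 341) (nat_lit 335) (nat_lit 224)) (XT.lf (nat_lit 0) (nat_lit 519018929297) (nat_lit 228) (nat_lit 238216075851) (nat_lit 304) (nat_lit 164693293987) (nat_lit 49) (nat_lit 5) (nat_lit 52) (nat_lit 5) (nat_lit 53) (nat_lit 5) (nat_lit 342) (nat_lit 335) (nat_lit 223))) (XT.nd (nat_lit 78) (nat_lit 228) (nat_lit 0) (XT.lf (nat_lit 0) (nat_lit 94276853712) (nat_lit 228) (nat_lit 433989074028) (nat_lit 76) (nat_lit 473096274563) (nat_lit 46) (nat_lit 5) (nat_lit 49) (nat_lit 5) (nat_lit 47) (nat_lit 5) (nat_lit 343) (nat_lit 335) (nat_lit 222)) (XT.lf (nat_lit 0) (nat_lit 421824963370) (nat_lit 304) (nat_lit 458714307346) (nat_lit 76) (nat_lit 208670970766) (nat_lit 43) (nat_lit 5) (nat_lit 47) (nat_lit 5) (nat_lit 44) (nat_lit 5) (nat_lit 344) (nat_lit 335) (nat_lit 221)))))) (XT.nd (nat_lit 624)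 (nat_lit 836) (nat_lit 0) (XT.nd (nat_lit 312) (nat_lit 608) (nat_lit 0) (XT.nd (nat_lit 156) (nat_lit 304) (nat_lit 0) (XT.nd (nat_lit 78) (nat_lit 228) (nat_lit 0) (XT.lf (nat_lit 0) (nat_lit 712408901474) (nat_lit 152) (nat_lit 130803650403) (nat_lit 228) (nat_lit 343446353685) (nat_lit 41) (nat_lit 5) (nat_lit 43) (nat_lit 5) (nat_lit 44) (nat_lit 5) (nat_lit 345) (nat_lit 335) (nat_lit 220)) (XT.lf (nat_lit 0) (nat_lit 79769135354) (nat_lit 228) (nat_lit 484673356774) (nat_lit 76) (nat_lit 730055172937) (nat_lit 38) (nat_lit 5) (nat_lit 41) (nat_lit 5) (nat_lit 39) (nat_lit 5) (nat_lit 346) (nat_lit 335) (nat_lit 219))) (XT.nd (nat_lit 78) (nat_lit 152) (nat_lit 0) (XT.lf (nat_lit 0) (nat_lit 595155375912) (nat_lit 228) (nat_lit 491898460633) (nat_lit 76) (nat_lit 326822804408) (nat_lit 36) (nat_lit 5) (nat_lit 39) (nat_lit 5) (nat_lit 37) (nat_lit 5) (nat_lit 347) (nat_lit 335) (nat_lit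 218)) (XT.lf (nat_lit 0) (nat_lit 1055781000934) (nat_lit 152) (nat_lit 187548428241) (nat_lit 228) (nat_lit 303394643930) (nat_lit 34) (nat_lit 5) (nat_lit 36) (nat_lit 5) (nat_lit 37) (nat_lit 5) (nat_lit 348) (nat_lit 335) (nat_lit 217)))) (XT.nd (nat_lit 156) (nat_lit 304) (nat_lit 0) (XT.nd (nat_lit 78) (nat_lit 152) (nat_lit 0) (XT.lf (nat_lit 0) (nat_lit 340507960883) (nat_lit 152) (nat_lit 496322290220) (nat_lit 76) (nat_lit 856852248436) (nat_lit 32) (nat_lit 5) (nat_lit 34) (nat_lit 5) (nat_lit 33) (nat_lit 5) (nat_lit 349) (nat_lit 335) (nat_lit 216)) (XT.lf (nat_lit 0) (nat_lit 1122026872990) (nat_lit 228) (nat_lit 502458048707) (nat_lit 76) (nat_lit 232849716610) (nat_lit 30) (nat_lit 5) (nat_lit 33) (nat_lit 5) (nat_lit 31) (nat_lit 4) (nat_lit 350) (nat_lit 335) (nat_lit 215))) (XT.nd (nat_lit 78) (nat_lit 152) (nat_lit 0) (XT.lf (nat_lit 0) (nat_lit 52989915891) (nat_lit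 152) (nat_lit 518858451070) (nat_lit 76) (nat_lit 1467612891294) (nat_lit 28) (nat_lit 5) (nat_lit 30) (nat_lit 5) (nat_lit 29) (nat_lit 5) (nat_lit 351) (nat_lit 335) (nat_lit 214)) (XT.lf (nat_lit 0) (nat_lit 990313324660) (nat_lit 228) (nat_lit 566327896294) (nat_lit 76) (nat_lit 684792177966) (nat_lit 26) (nat_lit 5) (nat_lit 29) (nat_lit 5) (nat_lit 27) (nat_lit 4) (nat_lit 352) (nat_lit 335) (nat_lit 213))))) (XT.nd (nat_lit 312) (nat_lit 380) (nat_lit 0) (XT.nd (nat_lit 156) (nat_lit 228) (nat_lit 0) (XT.nd (nat_lit 78) (nat_lit 152) (nat_lit 0) (XT.lf (nat_lit 0) (nat_lit 1832555191113) (nat_lit 76) (nat_lit 311067316664) (nat_lit 152) (nat_lit 324047871868) (nat_lit 25) (nat_lit 5) (nat_lit 26) (nat_lit 5) (nat_lit 27) (nat_lit 4) (nat_lit 353) (nat_lit 335) (nat_lit 212)) (XT.lf (nat_lit 0) (nat_lit 798601673086) (nat_lit 152) (nat_lit 770556331815) (nat_lit 76) (nat_lit 1149766039911)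 (nat_lit 23) (nat_lit 5) (nat_lit 25) (nat_lit 5) (nat_lit 24) (nat_lit 4) (nat_lit 354) (nat_lit 335) (nat_lit 211))) (XT.nd (nat_lit 78) (nat_lit 152) (nat_lit 0) (XT.lf (nat_lit 0) (nat_lit 2035210654429) (nat_lit 76) (nat_lit 112317458888) (nat_lit 152) (nat_lit 853498963120) (nat_lit 22) (nat_lit 5) (nat_lit 23) (nat_lit 5) (nat_lit 24) (nat_lit 4) (nat_lit 355) (nat_lit 335) (nat_lit 210)) (XT.lf (nat_lit 0) (nat_lit 467416913663) (nat_lit 152) (nat_lit 1279298587613) (nat_lit 76) (nat_lit 1568992112645) (nat_lit 20) (nat_lit 5) (nat_lit 22) (nat_lit 5) (nat_lit 21) (nat_lit 4) (nat_lit 356) (nat_lit 335) (nat_lit 209)))) (XT.nd (nat_lit 156) (nat_lit 228) (nat_lit 0) (XT.nd (nat_lit 78) (nat_lit 76) (nat_lit 0) (XT.lf (nat_lit 0) (nat_lit 1941809151581) (nat_lit 76) (nat_lit 74217255255) (nat_lit 152) (nat_lit 1653382889026) (nat_lit 19) (nat_lit 5) (nat_lit 20) (nat_lit 5) (nat_lit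 21) (nat_lit 4) (nat_lit 357) (nat_lit 335) (nat_lit 208)) (XT.lf (nat_lit 0) (nat_lit 1689439840337) (nat_lit 76) (nat_lit 2230803596826) (nat_lit 76) (nat_lit 146057503878) (nat_lit 18) (nat_lit 4) (nat_lit 19) (nat_lit 5) (nat_lit 19) (nat_lit 4) (nat_lit 358) (nat_lit 335) (nat_lit 207))) (XT.nd (nat_lit 78) (nat_lit 76) (nat_lit 0) (XT.lf (nat_lit 0) (nat_lit 1224679604690) (nat_lit 76) (nat_lit 366390444474) (nat_lit 152) (nat_lit 2921953397609) (nat_lit 16) (nat_lit 5) (nat_lit 17) (nat_lit 5) (nat_lit 18) (nat_lit 4) (nat_lit 359) (nat_lit 335) (nat_lit 206)) (XT.lf (nat_lit 0) (nat_lit 463778259644) (nat_lit 76) (nat_lit 3241490507867) (nat_lit 76) (nat_lit 1311170043427) (nat_lit 15) (nat_lit 4) (nat_lit 16) (nat_lit 5) (nat_lit 16) (nat_lit 4) (nat_lit 360) (nat_lit 335) (nat_lit 205))))))) (XT.nd (nat_lit 45318) (nat_lit 0) (nat_lit 1216) (XT.nd (nat_lit 546) (nat_lit 228) (nat_lit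 0) (XT.nd (nat_lit 234) (nat_lit 228) (nat_lit 0) (XT.nd (nat_lit 78) (nat_lit 152) (nat_lit 0) (XT.lf (nat_lit 0) (nat_lit 622512959642) (nat_lit 152) (nat_lit 635493511621) (nat_lit 76) (nat_lit 4327650143091) (nat_lit 14) (nat_lit 5) (nat_lit 16) (nat_lit 5) (nat_lit 15) (nat_lit 4) (nat_lit 361) (nat_lit 335) (nat_lit 204)) (XT.nd (nat_lit 78) (nat_lit 76) (nat_lit 0) (XT.lf (nat_lit 0) (nat_lit 2895923006040) (nat_lit 152) (nat_lit 2222835496714) (nat_lit 0) (nat_lit 1108589237064) (nat_lit 13) (nat_lit 5) (nat_lit 15) (nat_lit 4) (nat_lit 13) (nat_lit 4) (nat_lit 362) (nat_lit 335) (nat_lit 203)) (XT.lf (nat_lit 0) (nat_lit 2505238257986) (nat_lit 76) (nat_lit 3119132957439) (nat_lit 76) (nat_lit 1331799186196) (nat_lit 12) (nat_lit 4) (nat_lit 13) (nat_lit 5) (nat_lit 13) (nat_lit 4) (nat_lit 363) (nat_lit 335) (nat_lit 202)))) (XT.nd (nat_lit 156) (nat_lit 76) (nat_lit 0) (XT.nd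 (nat_lit 78) (nat_lit 0) (nat_lit 0) (XT.lf (nat_lit 0) (nat_lit 276887204193) (nat_lit 76) (nat_lit 715526727252) (nat_lit 152) (nat_lit 6794196097735) (nat_lit 10) (nat_lit 5) (nat_lit 11) (nat_lit 5) (nat_lit 12) (nat_lit 4) (nat_lit 364) (nat_lit 335) (nat_lit 201)) (XT.lf (nat_lit 0) (nat_lit 3770863015244) (nat_lit 152) (nat_lit 2837303966171) (nat_lit 0) (nat_lit 2115924334755) (nat_lit 10) (nat_lit 5) (nat_lit 12) (nat_lit 4) (nat_lit 10) (nat_lit 4) (nat_lit 365) (nat_lit 335) (nat_lit 200))) (XT.nd (nat_lit 78) (nat_lit 0) (nat_lit 0) (XT.lf (nat_lit 0) (nat_lit 2648686012441) (nat_lit 76) (nat_lit 4400884106524) (nat_lit 76) (nat_lit 2745945424654) (nat_lit 9) (nat_lit 4) (nat_lit 10) (nat_lit 5) (nat_lit 10) (nat_lit 4) (nat_lit 366) (nat_lit 335) (nat_lit 199)) (XT.lf (nat_lit 0) (nat_lit 9129392986893) (nat_lit 76) (nat_lit 1773295348785) (nat_lit 76) (nat_lit 118356665715)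 (nat_lit 9) (nat_lit 4) (nat_lit 10) (nat_lit 5) (nat_lit 10) (nat_lit 4) (nat_lit 367) (nat_lit 335) (nat_lit 198))))) (XT.nd (nat_lit 44460) (nat_lit 0) (nat_lit 4028) (XT.nd (nat_lit 156) (nat_lit 76) (nat_lit 0) (XT.nd (nat_lit 78) (nat_lit 0) (nat_lit 0) (XT.lf (nat_lit 0) (nat_lit 2895995885336) (nat_lit 152) (nat_lit 8154147544369) (nat_lit 0) (nat_lit 1363645251898) (nat_lit 7) (nat_lit 5) (nat_lit 9) (nat_lit 4) (nat_lit 7) (nat_lit 4) (nat_lit 368) (nat_lit 335) (nat_lit 197)) (XT.lf (nat_lit 0) (nat_lit 6461241389848) (nat_lit 152) (nat_lit 2616605984004) (nat_lit 0) (nat_lit 4928890755569) (nat_lit 7) (nat_lit 5) (nat_lit 9) (nat_lit 4) (nat_lit 7) (nat_lit 4) (nat_lit 369) (nat_lit 335) (nat_lit 196))) (XT.nd (nat_lit 44226) (nat_lit 0) (nat_lit 4408) (XT.lf (nat_lit 0) (nat_lit 3949117663009) (nat_lit 76) (nat_lit 6707132428353) (nat_lit 76) (nat_lit 5174781793344) (nat_lit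 6) (nat_lit 4) (nat_lit 7) (nat_lit 5) (nat_lit 7) (nat_lit 4) (nat_lit 370) (nat_lit 335) (nat_lit 195)) (XT.lf (nat_lit 0) (nat_lit 274645614717) (nat_lit 532) (nat_lit 18394536223) (nat_lit 532) (nat_lit 18394536223) (nat_lit 64) (nat_lit 3) (nat_lit 71) (nat_lit 3) (nat_lit 71) (nat_lit 5) (nat_lit 336) (nat_lit 336) (nat_lit 228)))) (XT.nd (nat_lit 156) (nat_lit 380) (nat_lit 0) (XT.nd (nat_lit 78) (nat_lit 0) (nat_lit 76) (XT.lf (nat_lit 76) (nat_lit 558790544732) (nat_lit 0) (nat_lit 45136737137) (nat_lit 532) (nat_lit 64582158446) (nat_lit 65) (nat_lit 5) (nat_lit 64) (nat_lit 3) (nat_lit 71) (nat_lit 5) (nat_lit 337) (nat_lit 336) (nat_lit 227)) (XT.lf (nat_lit 76) (nat_lit 538036392525) (nat_lit 0) (nat_lit 156636603434) (nat_lit 532) (nat_lit 24089379986) (nat_lit 66) (nat_lit 5) (nat_lit 65) (nat_lit 5) (nat_lit 72) (nat_lit 5) (nat_lit 338) (nat_lit 336) (nat_lit 226))) (XT.nd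 (nat_lit 78) (nat_lit 0) (nat_lit 76) (XT.lf (nat_lit 0) (nat_lit 50839949111) (nat_lit 532) (nat_lit 248765428516) (nat_lit 608) (nat_lit 474545664717) (nat_lit 59) (nat_lit 5) (nat_lit 66) (nat_lit 5) (nat_lit 67) (nat_lit 5) (nat_lit 339) (nat_lit 336) (nat_lit 225)) (XT.lf (nat_lit 0) (nat_lit 167159532557) (nat_lit 532) (nat_lit 312562851334) (nat_lit 76) (nat_lit 355549391783) (nat_lit 60) (nat_lit 5) (nat_lit 67) (nat_lit 5) (nat_lit 61) (nat_lit 5) (nat_lit 340) (nat_lit 336) (nat_lit 224)))))) (XT.nd (nat_lit 624) (nat_lit 1064) (nat_lit 0) (XT.nd (nat_lit 312) (nat_lit 760) (nat_lit 0) (XT.nd (nat_lit 156) (nat_lit 456) (nat_lit 0) (XT.nd (nat_lit 78) (nat_lit 228) (nat_lit 0) (XT.lf (nat_lit 0) (nat_lit 334616682831) (nat_lit 456) (nat_lit 369841674849) (nat_lit 76) (nat_lit 198407091008) (nat_lit 55) (nat_lit 5) (nat_lit 61) (nat_lit 5) (nat_lit 56) (nat_lit 5) (nat_lit 341)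 (nat_lit 336) (nat_lit 223)) (XT.lf (nat_lit 0) (nat_lit 558963351301) (nat_lit 228) (nat_lit 4276332522) (nat_lit 304) (nat_lit 414474706602) (nat_lit 52) (nat_lit 5) (nat_lit 55) (nat_lit 5) (nat_lit 56) (nat_lit 5) (nat_lit 342) (nat_lit 336) (nat_lit 222))) (XT.nd (nat_lit 78) (nat_lit 228) (nat_lit 0) (XT.lf (nat_lit 0) (nat_lit 596872144220) (nat_lit 228) (nat_lit 273948428289) (nat_lit 304) (nat_lit 189396945932) (nat_lit 49) (nat_lit 5) (nat_lit 52) (nat_lit 5) (nat_lit 53) (nat_lit 5) (nat_lit 343) (nat_lit 336) (nat_lit 221)) (XT.lf (nat_lit 0) (nat_lit 108418674701) (nat_lit 228) (nat_lit 499087053671) (nat_lit 76) (nat_lit 544060780650) (nat_lit 46) (nat_lit 5) (nat_lit 49) (nat_lit 5) (nat_lit 47) (nat_lit 5) (nat_lit 344) (nat_lit 336) (nat_lit 220)))) (XT.nd (nat_lit 156) (nat_lit 380) (nat_lit 0) (XT.nd (nat_lit 78) (nat_lit 152) (nat_lit 0) (XT.lf (nat_lit 0) (nat_lit 485098973066)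 (nat_lit 304) (nat_lit 527521085129) (nat_lit 76) (nat_lit 239971698126) (nat_lit 43) (nat_lit 5) (nat_lit 47) (nat_lit 5) (nat_lit 44) (nat_lit 5) (nat_lit 345) (nat_lit 336) (nat_lit 219)) (XT.lf (nat_lit 0) (nat_lit 819270573837) (nat_lit 152) (nat_lit 150424099530) (nat_lit 228) (nat_lit 394963048788) (nat_lit 41) (nat_lit 5) (nat_lit 43) (nat_lit 5) (nat_lit 44) (nat_lit 5) (nat_lit 346) (nat_lit 336) (nat_lit 218))) (XT.nd (nat_lit 78) (nat_lit 152) (nat_lit 0) (XT.lf (nat_lit 0) (nat_lit 91734728849) (nat_lit 228) (nat_lit 557374024371) (nat_lit 76) (nat_lit 839563543633) (nat_lit 38) (nat_lit 5) (nat_lit 41) (nat_lit 5) (nat_lit 39) (nat_lit 5) (nat_lit 347) (nat_lit 336) (nat_lit 217)) (XT.lf (nat_lit 0) (nat_lit 684428886323) (nat_lit 228) (nat_lit 565682908573) (nat_lit 76) (nat_lit 375846325777) (nat_lit 36) (nat_lit 5) (nat_lit 39) (nat_lit 5) (nat_lit 37) (nat_lit 5) (nat_lit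 348) (nat_lit 336) (nat_lit 216))))) (XT.nd (nat_lit 312) (nat_lit 456) (nat_lit 0) (XT.nd (nat_lit 156) (nat_lit 304) (nat_lit 0) (XT.nd (nat_lit 78) (nat_lit 152) (nat_lit 0) (XT.lf (nat_lit 0) (nat_lit 1214148445045) (nat_lit 152) (nat_lit 215680582989) (nat_lit 228) (nat_lit 348903641191) (nat_lit 34) (nat_lit 5) (nat_lit 36) (nat_lit 5) (nat_lit 37) (nat_lit 5) (nat_lit 349) (nat_lit 336) (nat_lit 215)) (XT.lf (nat_lit 0) (nat_lit 391584328940) (nat_lit 152) (nat_lit 570770344257) (nat_lit 76) (nat_lit 985380187289) (nat_lit 32) (nat_lit 5) (nat_lit 34) (nat_lit 5) (nat_lit 33) (nat_lit 5) (nat_lit 350) (nat_lit 336) (nat_lit 214))) (XT.nd (nat_lit 78) (nat_lit 152) (nat_lit 0) (XT.lf (nat_lit 0) (nat_lit 1290331064132) (nat_lit 228) (nat_lit 577826480933) (nat_lit 76) (nat_lit 267777276111) (nat_lit 30) (nat_lit 5) (nat_lit 33) (nat_lit 5) (nat_lit 31) (nat_lit 4) (nat_lit 351) (nat_lit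 336) (nat_lit 213)) (XT.lf (nat_lit 0) (nat_lit 60938552456) (nat_lit 152) (nat_lit 596686959030) (nat_lit 76) (nat_lit 1687754923525) (nat_lit 28) (nat_lit 5) (nat_lit 30) (nat_lit 5) (nat_lit 29) (nat_lit 5) (nat_lit 352) (nat_lit 336) (nat_lit 212)))) (XT.nd (nat_lit 156) (nat_lit 228) (nat_lit 0) (XT.nd (nat_lit 78) (nat_lit 76) (nat_lit 0) (XT.lf (nat_lit 0) (nat_lit 1138860461258) (nat_lit 228) (nat_lit 651276834601) (nat_lit 76) (nat_lit 787511101823) (nat_lit 26) (nat_lit 5) (nat_lit 29) (nat_lit 5) (nat_lit 27) (nat_lit 4) (nat_lit 353) (nat_lit 336) (nat_lit 211)) (XT.lf (nat_lit 0) (nat_lit 2107438695082) (nat_lit 76) (nat_lit 357727314192) (nat_lit 152) (nat_lit 372654917254) (nat_lit 25) (nat_lit 5) (nat_lit 26) (nat_lit 5) (nat_lit 27) (nat_lit 4) (nat_lit 354) (nat_lit 336) (nat_lit 210))) (XT.nd (nat_lit 78) (nat_lit 76) (nat_lit 0) (XT.lf (nat_lit 0) (nat_lit 918392043301)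 (nat_lit 152) (nat_lit 886139562034) (nat_lit 76) (nat_lit 1322231036628) (nat_lit 23) (nat_lit 5) (nat_lit 25) (nat_lit 5) (nat_lit 24) (nat_lit 4) (nat_lit 355) (nat_lit 336) (nat_lit 209)) (XT.lf (nat_lit 0) (nat_lit 2340492453563) (nat_lit 76) (nat_lit 129164985282) (nat_lit 152) (nat_lit 981523690349) (nat_lit 22) (nat_lit 5) (nat_lit 23) (nat_lit 5) (nat_lit 24) (nat_lit 4) (nat_lit 356) (nat_lit 336) (nat_lit 208))))))))
noncomputable def xc56 : XT := (XT.nd (nat_lit 46566) (nat_lit 0) (nat_lit 0) (XT.nd (nat_lit 45396) (nat_lit 0) (nat_lit 1748) (XT.nd (nat_lit 546) (nat_lit 456) (nat_lit 0) (XT.nd (nat_lit 234) (nat_lit 380) (nat_lit 0) (XT.nd (nat_lit 78) (nat_lit 152) (nat_lit 0) (XT.lf (nat_lit 0) (nat_lit 537529554229) (nat_lit 152) (nat_lit 1471193180388) (nat_lit 76) (nat_lit 1804341013090) (nat_lit 20) (nat_lit 5) (nat_lit 22) (nat_lit 5) (nat_lit 21) (nat_lit 4) (nat_lit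 357) (nat_lit 336) (nat_lit 207)) (XT.nd (nat_lit 78) (nat_lit 76) (nat_lit 0) (XT.lf (nat_lit 0) (nat_lit 2233080703148) (nat_lit 76) (nat_lit 85349759029) (nat_lit 152) (nat_lit 1901390220501) (nat_lit 19) (nat_lit 5) (nat_lit 20) (nat_lit 5) (nat_lit 21) (nat_lit 4) (nat_lit 358) (nat_lit 336) (nat_lit 206)) (XT.lf (nat_lit 0) (nat_lit 1942855985143) (nat_lit 76) (nat_lit 2565424055434) (nat_lit 76) (nat_lit 167966034578) (nat_lit 18) (nat_lit 4) (nat_lit 19) (nat_lit 5) (nat_lit 19) (nat_lit 4) (nat_lit 359) (nat_lit 336) (nat_lit 205)))) (XT.nd (nat_lit 156) (nat_lit 152) (nat_lit 0) (XT.nd (nat_lit 78) (nat_lit 76) (nat_lit 0) (XT.lf (nat_lit 0) (nat_lit 1408381704223) (nat_lit 76) (nat_lit 421348934515) (nat_lit 152) (nat_lit 3360246318463) (nat_lit 16) (nat_lit 5) (nat_lit 17) (nat_lit 5) (nat_lit 18) (nat_lit 4) (nat_lit 360) (nat_lit 336) (nat_lit 204)) (XT.lf (nat_lit 0) (nat_lit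 533345148320) (nat_lit 76) (nat_lit 3727714010998) (nat_lit 76) (nat_lit 1507845467114) (nat_lit 15) (nat_lit 4) (nat_lit 16) (nat_lit 5) (nat_lit 16) (nat_lit 4) (nat_lit 361) (nat_lit 336) (nat_lit 203))) (XT.nd (nat_lit 78) (nat_lit 76) (nat_lit 0) (XT.lf (nat_lit 0) (nat_lit 715889972009) (nat_lit 152) (nat_lit 730817404552) (nat_lit 76) (nat_lit 4976797724464) (nat_lit 14) (nat_lit 5) (nat_lit 16) (nat_lit 5) (nat_lit 15) (nat_lit 4) (nat_lit 362) (nat_lit 336) (nat_lit 202)) (XT.lf (nat_lit 0) (nat_lit 3330311520832) (nat_lit 152) (nat_lit 2556260695178) (nat_lit 0) (nat_lit 1274877679664) (nat_lit 13) (nat_lit 5) (nat_lit 15) (nat_lit 4) (nat_lit 13) (nat_lit 4) (nat_lit 363) (nat_lit 336) (nat_lit 201))))) (XT.nd (nat_lit 312) (nat_lit 152) (nat_lit 0) (XT.nd (nat_lit 156) (nat_lit 76) (nat_lit 0) (XT.nd (nat_lit 78) (nat_lit 152) (nat_lit 0) (XT.lf (nat_lit 0) (nat_lit 2881024112059)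 (nat_lit 76) (nat_lit 3587002844007) (nat_lit 76) (nat_lit 1531569001125) (nat_lit 12) (nat_lit 4) (nat_lit 13) (nat_lit 5) (nat_lit 13) (nat_lit 4) (nat_lit 364) (nat_lit 336) (nat_lit 200)) (XT.lf (nat_lit 0) (nat_lit 318420393322) (nat_lit 76) (nat_lit 822855682492) (nat_lit 152) (nat_lit 7813325453366) (nat_lit 10) (nat_lit 5) (nat_lit 11) (nat_lit 5) (nat_lit 12) (nat_lit 4) (nat_lit 365) (nat_lit 336) (nat_lit 199))) (XT.nd (nat_lit 78) (nat_lit 76) (nat_lit 0) (XT.lf (nat_lit 0) (nat_lit 4336492516181) (nat_lit 152) (nat_lit 3262899464068) (nat_lit 0) (nat_lit 2433313029450) (nat_lit 10) (nat_lit 5) (nat_lit 12) (nat_lit 4) (nat_lit 10) (nat_lit 4) (nat_lit 366) (nat_lit 336) (nat_lit 198)) (XT.lf (nat_lit 0) (nat_lit 3045989003122) (nat_lit 76) (nat_lit 5061016678128) (nat_lit 76) (nat_lit 3157837190353) (nat_lit 9) (nat_lit 4) (nat_lit 10) (nat_lit 5) (nat_lit 10) (nat_lit 4) (nat_lit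 367) (nat_lit 336) (nat_lit 197)))) (XT.nd (nat_lit 156) (nat_lit 0) (nat_lit 0) (XT.nd (nat_lit 78) (nat_lit 152) (nat_lit 0) (XT.lf (nat_lit 0) (nat_lit 10498802012158) (nat_lit 76) (nat_lit 2039289612515) (nat_lit 76) (nat_lit 136110123833) (nat_lit 9) (nat_lit 4) (nat_lit 10) (nat_lit 5) (nat_lit 10) (nat_lit 4) (nat_lit 368) (nat_lit 336) (nat_lit 196)) (XT.lf (nat_lit 0) (nat_lit 3330395305237) (nat_lit 152) (nat_lit 9377269601390) (nat_lit 0) (nat_lit 1568192074245) (nat_lit 7) (nat_lit 5) (nat_lit 9) (nat_lit 4) (nat_lit 7) (nat_lit 4) (nat_lit 369) (nat_lit 336) (nat_lit 195))) (XT.nd (nat_lit 44304) (nat_lit 0) (nat_lit 4332) (XT.lf (nat_lit 0) (nat_lit 7430427630586) (nat_lit 152) (nat_lit 3009096816705) (nat_lit 0) (nat_lit 5668224398959) (nat_lit 7) (nat_lit 5) (nat_lit 9) (nat_lit 4) (nat_lit 7) (nat_lit 4) (nat_lit 370) (nat_lit 336) (nat_lit 194)) (XT.lf (nat_lit 0) (nat_lit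 315842729345) (nat_lit 532) (nat_lit 21153569421) (nat_lit 532) (nat_lit 21153569421) (nat_lit 64) (nat_lit 3) (nat_lit 71) (nat_lit 3) (nat_lit 71) (nat_lit 5) (nat_lit 337) (nat_lit 337) (nat_lit 226)))))) (XT.nd (nat_lit 546) (nat_lit 1444) (nat_lit 0) (XT.nd (nat_lit 234) (nat_lit 760) (nat_lit 0) (XT.nd (nat_lit 78) (nat_lit 380) (nat_lit 0) (XT.lf (nat_lit 76) (nat_lit 642609395989) (nat_lit 0) (nat_lit 51907458418) (nat_lit 532) (nat_lit 74268963086) (nat_lit 65) (nat_lit 5) (nat_lit 64) (nat_lit 3) (nat_lit 71) (nat_lit 5) (nat_lit 338) (nat_lit 337) (nat_lit 225)) (XT.nd (nat_lit 78) (nat_lit 456) (nat_lit 0) (XT.lf (nat_lit 76) (nat_lit 618742138352) (nat_lit 0) (nat_lit 180132227112) (nat_lit 532) (nat_lit 27702332876) (nat_lit 66) (nat_lit 5) (nat_lit 65) (nat_lit 5) (nat_lit 72) (nat_lit 5) (nat_lit 339) (nat_lit 337) (nat_lit 224)) (XT.lf (nat_lit 0) (nat_lit 58466321065)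 (nat_lit 532) (nat_lit 286079925780) (nat_lit 608) (nat_lit 545727421170) (nat_lit 59) (nat_lit 5) (nat_lit 66) (nat_lit 5) (nat_lit 67) (nat_lit 5) (nat_lit 340) (nat_lit 337) (nat_lit 223)))) (XT.nd (nat_lit 156) (nat_lit 456) (nat_lit 0) (XT.nd (nat_lit 78) (nat_lit 380) (nat_lit 0) (XT.lf (nat_lit 0) (nat_lit 192233798368) (nat_lit 532) (nat_lit 359446960490) (nat_lit 76) (nat_lit 408881756021) (nat_lit 60) (nat_lit 5) (nat_lit 67) (nat_lit 5) (nat_lit 61) (nat_lit 5) (nat_lit 341) (nat_lit 337) (nat_lit 222)) (XT.lf (nat_lit 0) (nat_lit 384809484198) (nat_lit 456) (nat_lit 425317610146) (nat_lit 76) (nat_lit 228168147494) (nat_lit 55) (nat_lit 5) (nat_lit 61) (nat_lit 5) (nat_lit 56) (nat_lit 5) (nat_lit 342) (nat_lit 337) (nat_lit 221))) (XT.nd (nat_lit 78) (nat_lit 228) (nat_lit 0) (XT.lf (nat_lit 0) (nat_lit 642808143184) (nat_lit 228) (nat_lit 4917760117) (nat_lit 304) (nat_lit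 476645624129) (nat_lit 52) (nat_lit 5) (nat_lit 55) (nat_lit 5) (nat_lit 56) (nat_lit 5) (nat_lit 343) (nat_lit 337) (nat_lit 220)) (XT.lf (nat_lit 0) (nat_lit 686403249806) (nat_lit 228) (nat_lit 315040647966) (nat_lit 304) (nat_lit 217806229105) (nat_lit 49) (nat_lit 5) (nat_lit 52) (nat_lit 5) (nat_lit 53) (nat_lit 5) (nat_lit 344) (nat_lit 337) (nat_lit 219))))) (XT.nd (nat_lit 312) (nat_lit 608) (nat_lit 0) (XT.nd (nat_lit 156) (nat_lit 380) (nat_lit 0) (XT.nd (nat_lit 78) (nat_lit 228) (nat_lit 0) (XT.lf (nat_lit 0) (nat_lit 124681697405) (nat_lit 228) (nat_lit 573949823283) (nat_lit 76) (nat_lit 625669946823) (nat_lit 46) (nat_lit 5) (nat_lit 49) (nat_lit 5) (nat_lit 47) (nat_lit 5) (nat_lit 345) (nat_lit 337) (nat_lit 218)) (XT.lf (nat_lit 0) (nat_lit 557864019549) (nat_lit 304) (nat_lit 606648969397) (nat_lit 76) (nat_lit 275967514657) (nat_lit 43) (nat_lit 5) (nat_lit 47) (nat_lit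 5) (nat_lit 44) (nat_lit 5) (nat_lit 346) (nat_lit 337) (nat_lit 217))) (XT.nd (nat_lit 78) (nat_lit 228) (nat_lit 0) (XT.lf (nat_lit 0) (nat_lit 942161414841) (nat_lit 152) (nat_lit 172987640031) (nat_lit 228) (nat_lit 454207311059) (nat_lit 41) (nat_lit 5) (nat_lit 43) (nat_lit 5) (nat_lit 44) (nat_lit 5) (nat_lit 347) (nat_lit 337) (nat_lit 216)) (XT.lf (nat_lit 0) (nat_lit 105495106941) (nat_lit 228) (nat_lit 640979874023) (nat_lit 76) (nat_lit 965498146827) (nat_lit 38) (nat_lit 5) (nat_lit 41) (nat_lit 5) (nat_lit 39) (nat_lit 5) (nat_lit 348) (nat_lit 337) (nat_lit 215)))) (XT.nd (nat_lit 156) (nat_lit 304) (nat_lit 0) (XT.nd (nat_lit 78) (nat_lit 152) (nat_lit 0) (XT.lf (nat_lit 0) (nat_lit 787093373543) (nat_lit 228) (nat_lit 650535102020) (nat_lit 76) (nat_lit 432223350793) (nat_lit 36) (nat_lit 5) (nat_lit 39) (nat_lit 5) (nat_lit 37) (nat_lit 5) (nat_lit 349) (nat_lit 337) (nat_lit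 214)) (XT.lf (nat_lit 0) (nat_lit 1396270934085) (nat_lit 152) (nat_lit 248032587648) (nat_lit 228) (nat_lit 401239036648) (nat_lit 34) (nat_lit 5) (nat_lit 36) (nat_lit 5) (nat_lit 37) (nat_lit 5) (nat_lit 350) (nat_lit 337) (nat_lit 213))) (XT.nd (nat_lit 78) (nat_lit 152) (nat_lit 0) (XT.lf (nat_lit 0) (nat_lit 450322109792) (nat_lit 152) (nat_lit 656385676995) (nat_lit 76) (nat_lit 1133187292198) (nat_lit 32) (nat_lit 5) (nat_lit 34) (nat_lit 5) (nat_lit 33) (nat_lit 5) (nat_lit 351) (nat_lit 337) (nat_lit 212)) (XT.lf (nat_lit 0) (nat_lit 1483880844882) (nat_lit 228) (nat_lit 664500245073) (nat_lit 76) (nat_lit 307943944661) (nat_lit 30) (nat_lit 5) (nat_lit 33) (nat_lit 5) (nat_lit 31) (nat_lit 4) (nat_lit 352) (nat_lit 337) (nat_lit 211))))))) (XT.nd (nat_lit 1170) (nat_lit 228) (nat_lit 0) (XT.nd (nat_lit 546) (nat_lit 684) (nat_lit 0) (XT.nd (nat_lit 234) (nat_lit 456) (nat_lit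 0) (XT.nd (nat_lit 78) (nat_lit 228) (nat_lit 0) (XT.lf (nat_lit 0) (nat_lit 70079448126) (nat_lit 152) (nat_lit 686189806513) (nat_lit 76) (nat_lit 1940918236561) (nat_lit 28) (nat_lit 5) (nat_lit 30) (nat_lit 5) (nat_lit 29) (nat_lit 5) (nat_lit 353) (nat_lit 337) (nat_lit 210)) (XT.nd (nat_lit 78) (nat_lit 76) (nat_lit 0) (XT.lf (nat_lit 0) (nat_lit 1309689634718) (nat_lit 228) (nat_lit 748968173677) (nat_lit 76) (nat_lit 905637840566) (nat_lit 26) (nat_lit 5) (nat_lit 29) (nat_lit 5) (nat_lit 27) (nat_lit 4) (nat_lit 354) (nat_lit 337) (nat_lit 209)) (XT.lf (nat_lit 0) (nat_lit 2423554669706) (nat_lit 76) (nat_lit 411386335728) (nat_lit 152) (nat_lit 428553052464) (nat_lit 25) (nat_lit 5) (nat_lit 26) (nat_lit 5) (nat_lit 27) (nat_lit 4) (nat_lit 355) (nat_lit 337) (nat_lit 208)))) (XT.nd (nat_lit 156) (nat_lit 228) (nat_lit 0) (XT.nd (nat_lit 78) (nat_lit 76) (nat_lit 0) (XT.lf (nat_lit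 0) (nat_lit 1056150939968) (nat_lit 152) (nat_lit 1019060330325) (nat_lit 76) (nat_lit 1520565760728) (nat_lit 23) (nat_lit 5) (nat_lit 25) (nat_lit 5) (nat_lit 24) (nat_lit 4) (nat_lit 356) (nat_lit 337) (nat_lit 207)) (XT.lf (nat_lit 0) (nat_lit 2691566473559) (nat_lit 76) (nat_lit 148539663178) (nat_lit 152) (nat_lit 1128752155252) (nat_lit 22) (nat_lit 5) (nat_lit 23) (nat_lit 5) (nat_lit 24) (nat_lit 4) (nat_lit 357) (nat_lit 337) (nat_lit 206))) (XT.nd (nat_lit 78) (nat_lit 76) (nat_lit 0) (XT.lf (nat_lit 0) (nat_lit 618159065637) (nat_lit 152) (nat_lit 1691872009721) (nat_lit 76) (nat_lit 2074992228228) (nat_lit 20) (nat_lit 5) (nat_lit 22) (nat_lit 5) (nat_lit 21) (nat_lit 4) (nat_lit 358) (nat_lit 337) (nat_lit 205)) (XT.lf (nat_lit 0) (nat_lit 2568042943841) (nat_lit 76) (nat_lit 98152158978) (nat_lit 152) (nat_lit 2186598676542) (nat_lit 19) (nat_lit 5) (nat_lit 20) (nat_lit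 5) (nat_lit 21) (nat_lit 4) (nat_lit 359) (nat_lit 337) (nat_lit 204))))) (XT.nd (nat_lit 312) (nat_lit 304) (nat_lit 0) (XT.nd (nat_lit 156) (nat_lit 152) (nat_lit 0) (XT.nd (nat_lit 78) (nat_lit 152) (nat_lit 0) (XT.lf (nat_lit 0) (nat_lit 2234284510518) (nat_lit 76) (nat_lit 2950237602564) (nat_lit 76) (nat_lit 193160868020) (nat_lit 18) (nat_lit 4) (nat_lit 19) (nat_lit 5) (nat_lit 19) (nat_lit 4) (nat_lit 360) (nat_lit 337) (nat_lit 203)) (XT.lf (nat_lit 0) (nat_lit 1619639079954) (nat_lit 76) (nat_lit 484551216749) (nat_lit 152) (nat_lit 3864283199096) (nat_lit 16) (nat_lit 5) (nat_lit 17) (nat_lit 5) (nat_lit 18) (nat_lit 4) (nat_lit 361) (nat_lit 337) (nat_lit 202))) (XT.nd (nat_lit 78) (nat_lit 76) (nat_lit 0) (XT.lf (nat_lit 0) (nat_lit 613347033785) (nat_lit 76) (nat_lit 4286871057413) (nat_lit 76) (nat_lit 1734022224553) (nat_lit 15) (nat_lit 4) (nat_lit 16) (nat_lit 5) (nat_lit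 16) (nat_lit 4) (nat_lit 362) (nat_lit 337) (nat_lit 201)) (XT.lf (nat_lit 0) (nat_lit 823273519546) (nat_lit 152) (nat_lit 840439914055) (nat_lit 76) (nat_lit 5723317428433) (nat_lit 14) (nat_lit 5) (nat_lit 16) (nat_lit 5) (nat_lit 15) (nat_lit 4) (nat_lit 363) (nat_lit 337) (nat_lit 200)))) (XT.nd (nat_lit 156) (nat_lit 152) (nat_lit 0) (XT.nd (nat_lit 78) (nat_lit 76) (nat_lit 0) (XT.lf (nat_lit 0) (nat_lit 3829858297263) (nat_lit 152) (nat_lit 2939699704147) (nat_lit 0) (nat_lit 1466109374743) (nat_lit 13) (nat_lit 5) (nat_lit 15) (nat_lit 4) (nat_lit 13) (nat_lit 4) (nat_lit 364) (nat_lit 337) (nat_lit 199)) (XT.lf (nat_lit 0) (nat_lit 3313177816108) (nat_lit 76) (nat_lit 4125053227472) (nat_lit 76) (nat_lit 1761304303656) (nat_lit 12) (nat_lit 4) (nat_lit 13) (nat_lit 5) (nat_lit 13) (nat_lit 4) (nat_lit 365) (nat_lit 337) (nat_lit 198))) (XT.nd (nat_lit 78) (nat_lit 0) (nat_lit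 0) (XT.lf (nat_lit 0) (nat_lit 366183534362) (nat_lit 76) (nat_lit 946283994149) (nat_lit 152) (nat_lit 8985324226736) (nat_lit 10) (nat_lit 5) (nat_lit 11) (nat_lit 5) (nat_lit 12) (nat_lit 4) (nat_lit 366) (nat_lit 337) (nat_lit 197)) (XT.lf (nat_lit 0) (nat_lit 4986966430394) (nat_lit 152) (nat_lit 3752334310311) (nat_lit 0) (nat_lit 2798310017502) (nat_lit 10) (nat_lit 5) (nat_lit 12) (nat_lit 4) (nat_lit 10) (nat_lit 4) (nat_lit 367) (nat_lit 337) (nat_lit 196)))))) (XT.nd (nat_lit 44928) (nat_lit 0) (nat_lit 2204) (XT.nd (nat_lit 44616) (nat_lit 0) (nat_lit 3952) (XT.nd (nat_lit 156) (nat_lit 152) (nat_lit 0) (XT.nd (nat_lit 78) (nat_lit 0) (nat_lit 0) (XT.lf (nat_lit 0) (nat_lit 3502887420748) (nat_lit 76) (nat_lit 5820169146293) (nat_lit 76) (nat_lit 3631512732612) (nat_lit 9) (nat_lit 4) (nat_lit 10) (nat_lit 5) (nat_lit 10) (nat_lit 4) (nat_lit 368) (nat_lit 337) (nat_lit 195))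 (XT.lf (nat_lit 0) (nat_lit 12073622372379) (nat_lit 76) (nat_lit 2345183025215) (nat_lit 76) (nat_lit 156526610848) (nat_lit 9) (nat_lit 4) (nat_lit 10) (nat_lit 5) (nat_lit 10) (nat_lit 4) (nat_lit 369) (nat_lit 337) (nat_lit 194))) (XT.nd (nat_lit 44382) (nat_lit 0) (nat_lit 4332) (XT.lf (nat_lit 0) (nat_lit 3829954629075) (nat_lit 152) (nat_lit 10783859985165) (nat_lit 0) (nat_lit 1803420911516) (nat_lit 7) (nat_lit 5) (nat_lit 9) (nat_lit 4) (nat_lit 7) (nat_lit 4) (nat_lit 370) (nat_lit 337) (nat_lit 193)) (XT.lf (nat_lit 0) (nat_lit 363219344736) (nat_lit 532) (nat_lit 24326493502) (nat_lit 532) (nat_lit 24326493502) (nat_lit 64) (nat_lit 3) (nat_lit 71) (nat_lit 3) (nat_lit 71) (nat_lit 5) (nat_lit 338) (nat_lit 338) (nat_lit 224)))) (XT.nd (nat_lit 156) (nat_lit 380) (nat_lit 0) (XT.nd (nat_lit 78) (nat_lit 0) (nat_lit 76) (XT.lf (nat_lit 76) (nat_lit 739001009203) (nat_lit 0)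 (nat_lit 59693736509) (nat_lit 532) (nat_lit 85408915015) (nat_lit 65) (nat_lit 5) (nat_lit 64) (nat_lit 3) (nat_lit 71) (nat_lit 5) (nat_lit 339) (nat_lit 338) (nat_lit 223)) (XT.lf (nat_lit 76) (nat_lit 711553676079) (nat_lit 0) (nat_lit 207152161868) (nat_lit 532) (nat_lit 31857339436) (nat_lit 66) (nat_lit 5) (nat_lit 65) (nat_lit 5) (nat_lit 72) (nat_lit 5) (nat_lit 340) (nat_lit 338) (nat_lit 222))) (XT.nd (nat_lit 78) (nat_lit 0) (nat_lit 76) (XT.lf (nat_lit 0) (nat_lit 67236556248) (nat_lit 532) (nat_lit 328991674939) (nat_lit 608) (nat_lit 627586463832) (nat_lit 59) (nat_lit 5) (nat_lit 66) (nat_lit 5) (nat_lit 67) (nat_lit 5) (nat_lit 341) (nat_lit 338) (nat_lit 221)) (XT.lf (nat_lit 0) (nat_lit 221069122133) (nat_lit 532) (nat_lit 413363763698) (nat_lit 76) (nat_lit 470213985753) (nat_lit 60) (nat_lit 5) (nat_lit 67) (nat_lit 5) (nat_lit 61) (nat_lit 5) (nat_lit 342) (nat_lit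 338) (nat_lit 220))))) (XT.nd (nat_lit 312) (nat_lit 760) (nat_lit 0) (XT.nd (nat_lit 156) (nat_lit 456) (nat_lit 0) (XT.nd (nat_lit 78) (nat_lit 228) (nat_lit 0) (XT.lf (nat_lit 0) (nat_lit 442531132871) (nat_lit 456) (nat_lit 489115012780) (nat_lit 76) (nat_lit 262393364201) (nat_lit 55) (nat_lit 5) (nat_lit 61) (nat_lit 5) (nat_lit 56) (nat_lit 5) (nat_lit 343) (nat_lit 338) (nat_lit 219)) (XT.lf (nat_lit 0) (nat_lit 739229583329) (nat_lit 228) (nat_lit 5655407286) (nat_lit 304) (nat_lit 548142249629) (nat_lit 52) (nat_lit 5) (nat_lit 55) (nat_lit 5) (nat_lit 56) (nat_lit 5) (nat_lit 344) (nat_lit 338) (nat_lit 218))) (XT.nd (nat_lit 78) (nat_lit 228) (nat_lit 0) (XT.lf (nat_lit 0) (nat_lit 789363951986) (nat_lit 228) (nat_lit 362296711462) (nat_lit 304) (nat_lit 250476967845) (nat_lit 49) (nat_lit 5) (nat_lit 52) (nat_lit 5) (nat_lit 53) (nat_lit 5) (nat_lit 345) (nat_lit 338) (nat_lit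 217)) (XT.lf (nat_lit 0) (nat_lit 143384119501) (nat_lit 228) (nat_lit 660042078674) (nat_lit 76) (nat_lit 719520475955) (nat_lit 46) (nat_lit 5) (nat_lit 49) (nat_lit 5) (nat_lit 47) (nat_lit 5) (nat_lit 346) (nat_lit 338) (nat_lit 216)))) (XT.nd (nat_lit 156) (nat_lit 380) (nat_lit 0) (XT.nd (nat_lit 78) (nat_lit 152) (nat_lit 0) (XT.lf (nat_lit 0) (nat_lit 641543774105) (nat_lit 304) (nat_lit 697646104220) (nat_lit 76) (nat_lit 317362688594) (nat_lit 43) (nat_lit 5) (nat_lit 47) (nat_lit 5) (nat_lit 44) (nat_lit 5) (nat_lit 347) (nat_lit 338) (nat_lit 215)) (XT.lf (nat_lit 0) (nat_lit 1083485819829) (nat_lit 152) (nat_lit 198935729756) (nat_lit 228) (nat_lit 522338260234) (nat_lit 41) (nat_lit 5) (nat_lit 43) (nat_lit 5) (nat_lit 44) (nat_lit 5) (nat_lit 348) (nat_lit 338) (nat_lit 214))) (XT.nd (nat_lit 78) (nat_lit 152) (nat_lit 0) (XT.lf (nat_lit 0) (nat_lit 121319500593) (nat_lit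 228) (nat_lit 737126663064) (nat_lit 76) (nat_lit 1110322923029) (nat_lit 38) (nat_lit 5) (nat_lit 41) (nat_lit 5) (nat_lit 39) (nat_lit 5) (nat_lit 349) (nat_lit 338) (nat_lit 213)) (XT.lf (nat_lit 0) (nat_lit 905157496226) (nat_lit 228) (nat_lit 748115183701) (nat_lit 76) (nat_lit 497056910991) (nat_lit 36) (nat_lit 5) (nat_lit 39) (nat_lit 5) (nat_lit 37) (nat_lit 5) (nat_lit 350) (nat_lit 338) (nat_lit 212))))))))
noncomputable def xc57 : XT := (XT.nd (nat_lit 46800) (nat_lit 0) (nat_lit 0) (XT.nd (nat_lit 1170) (nat_lit 304) (nat_lit 0) (XT.nd (nat_lit 546) (nat_lit 760) (nat_lit 0) (XT.nd (nat_lit 234) (nat_lit 532) (nat_lit 0) (XT.nd (nat_lit 78) (nat_lit 304) (nat_lit 0) (XT.lf (nat_lit 0) (nat_lit 1605711742277) (nat_lit 152) (nat_lit 285237413195) (nat_lit 228) (nat_lit 461424778178) (nat_lit 34) (nat_lit 5) (nat_lit 36) (nat_lit 5) (nat_lit 37) (nat_lit 5) (nat_lit 351) (nat_lit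 338) (nat_lit 211)) (XT.nd (nat_lit 78) (nat_lit 152) (nat_lit 0) (XT.lf (nat_lit 0) (nat_lit 517870525702) (nat_lit 152) (nat_lit 754843363023) (nat_lit 76) (nat_lit 1303165444111) (nat_lit 32) (nat_lit 5) (nat_lit 34) (nat_lit 5) (nat_lit 33) (nat_lit 5) (nat_lit 352) (nat_lit 338) (nat_lit 210)) (XT.lf (nat_lit 0) (nat_lit 1706463063205) (nat_lit 228) (nat_lit 764175124556) (nat_lit 76) (nat_lit 354135594685) (nat_lit 30) (nat_lit 5) (nat_lit 33) (nat_lit 5) (nat_lit 31) (nat_lit 4) (nat_lit 353) (nat_lit 338) (nat_lit 209)))) (XT.nd (nat_lit 156) (nat_lit 228) (nat_lit 0) (XT.nd (nat_lit 78) (nat_lit 152) (nat_lit 0) (XT.lf (nat_lit 0) (nat_lit 80591450640) (nat_lit 152) (nat_lit 789118129005) (nat_lit 76) (nat_lit 2232056028383) (nat_lit 28) (nat_lit 5) (nat_lit 30) (nat_lit 5) (nat_lit 29) (nat_lit 5) (nat_lit 354) (nat_lit 338) (nat_lit 208)) (XT.lf (nat_lit 0) (nat_lit 1506143158770)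 (nat_lit 228) (nat_lit 861313258998) (nat_lit 76) (nat_lit 1041483572204) (nat_lit 26) (nat_lit 5) (nat_lit 29) (nat_lit 5) (nat_lit 27) (nat_lit 4) (nat_lit 355) (nat_lit 338) (nat_lit 207))) (XT.nd (nat_lit 78) (nat_lit 152) (nat_lit 0) (XT.lf (nat_lit 0) (nat_lit 2787087998979) (nat_lit 76) (nat_lit 473094228928) (nat_lit 152) (nat_lit 492835932921) (nat_lit 25) (nat_lit 5) (nat_lit 26) (nat_lit 5) (nat_lit 27) (nat_lit 4) (nat_lit 356) (nat_lit 338) (nat_lit 206)) (XT.lf (nat_lit 0) (nat_lit 1214573649146) (nat_lit 152) (nat_lit 1171919254344) (nat_lit 76) (nat_lit 1748650676713) (nat_lit 23) (nat_lit 5) (nat_lit 25) (nat_lit 5) (nat_lit 24) (nat_lit 4) (nat_lit 357) (nat_lit 338) (nat_lit 205))))) (XT.nd (nat_lit 312) (nat_lit 380) (nat_lit 0) (XT.nd (nat_lit 156) (nat_lit 152) (nat_lit 0) (XT.nd (nat_lit 78) (nat_lit 152) (nat_lit 0) (XT.lf (nat_lit 0) (nat_lit 3095301559497) (nat_lit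 76) (nat_lit 170820559803) (nat_lit 152) (nat_lit 1298064911507) (nat_lit 22) (nat_lit 5) (nat_lit 23) (nat_lit 5) (nat_lit 24) (nat_lit 4) (nat_lit 358) (nat_lit 338) (nat_lit 204)) (XT.lf (nat_lit 0) (nat_lit 710882984668) (nat_lit 152) (nat_lit 1945652699478) (nat_lit 76) (nat_lit 2386241110231) (nat_lit 20) (nat_lit 5) (nat_lit 22) (nat_lit 5) (nat_lit 21) (nat_lit 4) (nat_lit 359) (nat_lit 338) (nat_lit 203))) (XT.nd (nat_lit 78) (nat_lit 76) (nat_lit 0) (XT.lf (nat_lit 0) (nat_lit 2953249487664) (nat_lit 76) (nat_lit 112874934503) (nat_lit 152) (nat_lit 2514588419773) (nat_lit 19) (nat_lit 5) (nat_lit 20) (nat_lit 5) (nat_lit 21) (nat_lit 4) (nat_lit 360) (nat_lit 338) (nat_lit 202)) (XT.lf (nat_lit 0) (nat_lit 2569427283583) (nat_lit 76) (nat_lit 3392773196685) (nat_lit 76) (nat_lit 222134943974) (nat_lit 18) (nat_lit 4) (nat_lit 19) (nat_lit 5) (nat_lit 19) (nat_lit 4) (nat_lit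 361) (nat_lit 338) (nat_lit 201)))) (XT.nd (nat_lit 156) (nat_lit 152) (nat_lit 0) (XT.nd (nat_lit 78) (nat_lit 76) (nat_lit 0) (XT.lf (nat_lit 0) (nat_lit 1862585032758) (nat_lit 76) (nat_lit 557233855447) (nat_lit 152) (nat_lit 4443925628196) (nat_lit 16) (nat_lit 5) (nat_lit 17) (nat_lit 5) (nat_lit 18) (nat_lit 4) (nat_lit 362) (nat_lit 338) (nat_lit 200)) (XT.lf (nat_lit 0) (nat_lit 705349174461) (nat_lit 76) (nat_lit 4929901674259) (nat_lit 76) (nat_lit 1994125510880) (nat_lit 15) (nat_lit 4) (nat_lit 16) (nat_lit 5) (nat_lit 16) (nat_lit 4) (nat_lit 363) (nat_lit 338) (nat_lit 199))) (XT.nd (nat_lit 78) (nat_lit 76) (nat_lit 0) (XT.lf (nat_lit 0) (nat_lit 946764586597) (nat_lit 152) (nat_lit 966505824656) (nat_lit 76) (nat_lit 6581815076951) (nat_lit 14) (nat_lit 5) (nat_lit 16) (nat_lit 5) (nat_lit 15) (nat_lit 4) (nat_lit 364) (nat_lit 338) (nat_lit 198)) (XT.lf (nat_lit 0) (nat_lit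 4404337078379) (nat_lit 152) (nat_lit 3380654587703) (nat_lit 0) (nat_lit 1686025813568) (nat_lit 13) (nat_lit 5) (nat_lit 15) (nat_lit 4) (nat_lit 13) (nat_lit 4) (nat_lit 365) (nat_lit 338) (nat_lit 197)))))) (XT.nd (nat_lit 45006) (nat_lit 0) (nat_lit 2432) (XT.nd (nat_lit 312) (nat_lit 0) (nat_lit 0) (XT.nd (nat_lit 156) (nat_lit 76) (nat_lit 0) (XT.nd (nat_lit 78) (nat_lit 152) (nat_lit 0) (XT.lf (nat_lit 0) (nat_lit 3810154554491) (nat_lit 76) (nat_lit 4743811178976) (nat_lit 76) (nat_lit 2025499913184) (nat_lit 12) (nat_lit 4) (nat_lit 13) (nat_lit 5) (nat_lit 13) (nat_lit 4) (nat_lit 366) (nat_lit 338) (nat_lit 196)) (XT.lf (nat_lit 0) (nat_lit 421111126551) (nat_lit 76) (nat_lit 1088226562484) (nat_lit 152) (nat_lit 10333122826997) (nat_lit 10) (nat_lit 5) (nat_lit 11) (nat_lit 5) (nat_lit 12) (nat_lit 4) (nat_lit 367) (nat_lit 338) (nat_lit 195))) (XT.nd (nat_lit 78) (nat_lit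 76) (nat_lit 0) (XT.lf (nat_lit 0) (nat_lit 5735011422769) (nat_lit 152) (nat_lit 4315184401382) (nat_lit 0) (nat_lit 3218056545560) (nat_lit 10) (nat_lit 5) (nat_lit 12) (nat_lit 4) (nat_lit 10) (nat_lit 4) (nat_lit 368) (nat_lit 338) (nat_lit 194)) (XT.lf (nat_lit 0) (nat_lit 4028320584640) (nat_lit 76) (nat_lit 6693194492865) (nat_lit 76) (nat_lit 4176239615060) (nat_lit 9) (nat_lit 4) (nat_lit 10) (nat_lit 5) (nat_lit 10) (nat_lit 4) (nat_lit 369) (nat_lit 338) (nat_lit 193)))) (XT.nd (nat_lit 44538) (nat_lit 0) (nat_lit 4180) (XT.nd (nat_lit 44460) (nat_lit 0) (nat_lit 4180) (XT.lf (nat_lit 0) (nat_lit 13884665772393) (nat_lit 76) (nat_lit 2696960456935) (nat_lit 76) (nat_lit 180005578611) (nat_lit 9) (nat_lit 4) (nat_lit 10) (nat_lit 5) (nat_lit 10) (nat_lit 4) (nat_lit 370) (nat_lit 338) (nat_lit 192)) (XT.lf (nat_lit 0) (nat_lit 417702402204) (nat_lit 532) (nat_lit 27975383345)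 (nat_lit 532) (nat_lit 27975383345) (nat_lit 64) (nat_lit 3) (nat_lit 71) (nat_lit 3) (nat_lit 71) (nat_lit 5) (nat_lit 339) (nat_lit 339) (nat_lit 222))) (XT.nd (nat_lit 78) (nat_lit 0) (nat_lit 76) (XT.lf (nat_lit 76) (nat_lit 849851314698) (nat_lit 0) (nat_lit 68647917461) (nat_lit 532) (nat_lit 98219955455) (nat_lit 65) (nat_lit 5) (nat_lit 64) (nat_lit 3) (nat_lit 71) (nat_lit 5) (nat_lit 340) (nat_lit 339) (nat_lit 221)) (XT.lf (nat_lit 76) (nat_lit 818286891554) (nat_lit 0) (nat_lit 238225062284) (nat_lit 532) (nat_lit 36635680713) (nat_lit 66) (nat_lit 5) (nat_lit 65) (nat_lit 5) (nat_lit 72) (nat_lit 5) (nat_lit 341) (nat_lit 339) (nat_lit 220))))) (XT.nd (nat_lit 312) (nat_lit 836) (nat_lit 0) (XT.nd (nat_lit 156) (nat_lit 532) (nat_lit 0) (XT.nd (nat_lit 78) (nat_lit 0) (nat_lit 76) (XT.lf (nat_lit 0) (nat_lit 77322256716) (nat_lit 532) (nat_lit 378340244926) (nat_lit 608) (nat_lit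 721724380088) (nat_lit 59) (nat_lit 5) (nat_lit 66) (nat_lit 5) (nat_lit 67) (nat_lit 5) (nat_lit 342) (nat_lit 339) (nat_lit 219)) (XT.lf (nat_lit 0) (nat_lit 254229682520) (nat_lit 532) (nat_lit 475368146124) (nat_lit 76) (nat_lit 540746058156) (nat_lit 60) (nat_lit 5) (nat_lit 67) (nat_lit 5) (nat_lit 61) (nat_lit 5) (nat_lit 343) (nat_lit 339) (nat_lit 218))) (XT.nd (nat_lit 78) (nat_lit 228) (nat_lit 0) (XT.lf (nat_lit 0) (nat_lit 508910973723) (nat_lit 456) (nat_lit 562482084063) (nat_lit 76) (nat_lit 301752364734) (nat_lit 55) (nat_lit 5) (nat_lit 61) (nat_lit 5) (nat_lit 56) (nat_lit 5) (nat_lit 344) (nat_lit 339) (nat_lit 217)) (XT.lf (nat_lit 0) (nat_lit 850114186173) (nat_lit 228) (nat_lit 6503705638) (nat_lit 304) (nat_lit 630363422143) (nat_lit 52) (nat_lit 5) (nat_lit 55) (nat_lit 5) (nat_lit 56) (nat_lit 5) (nat_lit 345) (nat_lit 339) (nat_lit 216)))) (XT.nd (nat_lit 156)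 (nat_lit 380) (nat_lit 0) (XT.nd (nat_lit 78) (nat_lit 228) (nat_lit 0) (XT.lf (nat_lit 0) (nat_lit 907768707135) (nat_lit 228) (nat_lit 416641192700) (nat_lit 304) (nat_lit 288048365099) (nat_lit 49) (nat_lit 5) (nat_lit 52) (nat_lit 5) (nat_lit 53) (nat_lit 5) (nat_lit 346) (nat_lit 339) (nat_lit 215)) (XT.lf (nat_lit 0) (nat_lit 164891864069) (nat_lit 228) (nat_lit 759048225559) (nat_lit 76) (nat_lit 827448575408) (nat_lit 46) (nat_lit 5) (nat_lit 49) (nat_lit 5) (nat_lit 47) (nat_lit 5) (nat_lit 347) (nat_lit 339) (nat_lit 214))) (XT.nd (nat_lit 78) (nat_lit 152) (nat_lit 0) (XT.lf (nat_lit 0) (nat_lit 737775454870) (nat_lit 304) (nat_lit 802292860619) (nat_lit 76) (nat_lit 364967127225) (nat_lit 43) (nat_lit 5) (nat_lit 47) (nat_lit 5) (nat_lit 44) (nat_lit 5) (nat_lit 348) (nat_lit 339) (nat_lit 213)) (XT.lf (nat_lit 0) (nat_lit 1246008838559) (nat_lit 152) (nat_lit 228776046664)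 (nat_lit 228) (nat_lit 600688887750) (nat_lit 41) (nat_lit 5) (nat_lit 43) (nat_lit 5) (nat_lit 44) (nat_lit 5) (nat_lit 349) (nat_lit 339) (nat_lit 212))))))) (XT.nd (nat_lit 1170) (nat_lit 456) (nat_lit 0) (XT.nd (nat_lit 546) (nat_lit 836) (nat_lit 0) (XT.nd (nat_lit 234) (nat_lit 608) (nat_lit 0) (XT.nd (nat_lit 78) (nat_lit 304) (nat_lit 0) (XT.lf (nat_lit 0) (nat_lit 139517522174) (nat_lit 228) (nat_lit 847695517296) (nat_lit 76) (nat_lit 1276871402449) (nat_lit 38) (nat_lit 5) (nat_lit 41) (nat_lit 5) (nat_lit 39) (nat_lit 5) (nat_lit 350) (nat_lit 339) (nat_lit 211)) (XT.nd (nat_lit 78) (nat_lit 152) (nat_lit 0) (XT.lf (nat_lit 0) (nat_lit 1040931208865) (nat_lit 228) (nat_lit 860332322412) (nat_lit 76) (nat_lit 571615491179) (nat_lit 36) (nat_lit 5) (nat_lit 39) (nat_lit 5) (nat_lit 37) (nat_lit 5) (nat_lit 351) (nat_lit 339) (nat_lit 210)) (XT.lf (nat_lit 0) (nat_lit 1846568630710)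 (nat_lit 152) (nat_lit 328022977840) (nat_lit 228) (nat_lit 530638408729) (nat_lit 34) (nat_lit 5) (nat_lit 36) (nat_lit 5) (nat_lit 37) (nat_lit 5) (nat_lit 352) (nat_lit 339) (nat_lit 209)))) (XT.nd (nat_lit 156) (nat_lit 304) (nat_lit 0) (XT.nd (nat_lit 78) (nat_lit 152) (nat_lit 0) (XT.lf (nat_lit 0) (nat_lit 595551179749) (nat_lit 152) (nat_lit 868069742320) (nat_lit 76) (nat_lit 1498640304647) (nat_lit 32) (nat_lit 5) (nat_lit 34) (nat_lit 5) (nat_lit 33) (nat_lit 5) (nat_lit 353) (nat_lit 339) (nat_lit 208)) (XT.lf (nat_lit 0) (nat_lit 1962432591942) (nat_lit 228) (nat_lit 878801274315) (nat_lit 76) (nat_lit 407255977989) (nat_lit 30) (nat_lit 5) (nat_lit 33) (nat_lit 5) (nat_lit 31) (nat_lit 4) (nat_lit 354) (nat_lit 339) (nat_lit 207))) (XT.nd (nat_lit 78) (nat_lit 152) (nat_lit 0) (XT.lf (nat_lit 0) (nat_lit 92680232731) (nat_lit 152) (nat_lit 907485736080) (nat_lit 76) (nat_lit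 2566864475241) (nat_lit 28) (nat_lit 5) (nat_lit 30) (nat_lit 5) (nat_lit 29) (nat_lit 5) (nat_lit 355) (nat_lit 339) (nat_lit 206)) (XT.lf (nat_lit 0) (nat_lit 1732064692204) (nat_lit 228) (nat_lit 990510141436) (nat_lit 76) (nat_lit 1197706150041) (nat_lit 26) (nat_lit 5) (nat_lit 29) (nat_lit 5) (nat_lit 27) (nat_lit 4) (nat_lit 356) (nat_lit 339) (nat_lit 205))))) (XT.nd (nat_lit 312) (nat_lit 380) (nat_lit 0) (XT.nd (nat_lit 156) (nat_lit 228) (nat_lit 0) (XT.nd (nat_lit 78) (nat_lit 152) (nat_lit 0) (XT.lf (nat_lit 0) (nat_lit 3205151296231) (nat_lit 76) (nat_lit 544058320046) (nat_lit 152) (nat_lit 566761264324) (nat_lit 25) (nat_lit 5) (nat_lit 26) (nat_lit 5) (nat_lit 27) (nat_lit 4) (nat_lit 357) (nat_lit 339) (nat_lit 204)) (XT.lf (nat_lit 0) (nat_lit 1396759748074) (nat_lit 152) (nat_lit 1347707047577) (nat_lit 76) (nat_lit 2010948317446) (nat_lit 23) (nat_lit 5) (nat_lit 25)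 (nat_lit 5) (nat_lit 24) (nat_lit 4) (nat_lit 358) (nat_lit 339) (nat_lit 203))) (XT.nd (nat_lit 78) (nat_lit 152) (nat_lit 0) (XT.lf (nat_lit 0) (nat_lit 3559596880306) (nat_lit 76) (nat_lit 196443603810) (nat_lit 152) (nat_lit 1492774597548) (nat_lit 22) (nat_lit 5) (nat_lit 23) (nat_lit 5) (nat_lit 24) (nat_lit 4) (nat_lit 359) (nat_lit 339) (nat_lit 202)) (XT.lf (nat_lit 0) (nat_lit 817515477121) (nat_lit 152) (nat_lit 2237500519937) (nat_lit 76) (nat_lit 2744177312885) (nat_lit 20) (nat_lit 5) (nat_lit 22) (nat_lit 5) (nat_lit 21) (nat_lit 4) (nat_lit 360) (nat_lit 339) (nat_lit 201)))) (XT.nd (nat_lit 156) (nat_lit 228) (nat_lit 0) (XT.nd (nat_lit 78) (nat_lit 76) (nat_lit 0) (XT.lf (nat_lit 0) (nat_lit 3396236988126) (nat_lit 76) (nat_lit 129806138141) (nat_lit 152) (nat_lit 2891776638694) (nat_lit 19) (nat_lit 5) (nat_lit 20) (nat_lit 5) (nat_lit 21) (nat_lit 4) (nat_lit 361) (nat_lit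 339) (nat_lit 200)) (XT.lf (nat_lit 0) (nat_lit 2954841449078) (nat_lit 76) (nat_lit 3901689141205) (nat_lit 76) (nat_lit 255455144549) (nat_lit 18) (nat_lit 4) (nat_lit 19) (nat_lit 5) (nat_lit 19) (nat_lit 4) (nat_lit 362) (nat_lit 339) (nat_lit 199))) (XT.nd (nat_lit 78) (nat_lit 76) (nat_lit 0) (XT.lf (nat_lit 0) (nat_lit 2141972856338) (nat_lit 76) (nat_lit 640818900635) (nat_lit 152) (nat_lit 5110514434040) (nat_lit 16) (nat_lit 5) (nat_lit 17) (nat_lit 5) (nat_lit 18) (nat_lit 4) (nat_lit 363) (nat_lit 339) (nat_lit 198)) (XT.lf (nat_lit 0) (nat_lit 811151615362) (nat_lit 76) (nat_lit 5669386893817) (nat_lit 76) (nat_lit 2293244301703) (nat_lit 15) (nat_lit 4) (nat_lit 16) (nat_lit 5) (nat_lit 16) (nat_lit 4) (nat_lit 364) (nat_lit 339) (nat_lit 197)))))) (XT.nd (nat_lit 45084) (nat_lit 0) (nat_lit 2584) (XT.nd (nat_lit 312) (nat_lit 76) (nat_lit 0) (XT.nd (nat_lit 156) (nat_lit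 228) (nat_lit 0) (XT.nd (nat_lit 78) (nat_lit 76) (nat_lit 0) (XT.lf (nat_lit 0) (nat_lit 1088779304167) (nat_lit 152) (nat_lit 1111481640504) (nat_lit 76) (nat_lit 7569087364394) (nat_lit 14) (nat_lit 5) (nat_lit 16) (nat_lit 5) (nat_lit 15) (nat_lit 4) (nat_lit 365) (nat_lit 339) (nat_lit 196)) (XT.lf (nat_lit 0) (nat_lit 5064987667756) (nat_lit 152) (nat_lit 3887752721366) (nat_lit 0) (nat_lit 1938929710263) (nat_lit 13) (nat_lit 5) (nat_lit 15) (nat_lit 4) (nat_lit 13) (nat_lit 4) (nat_lit 366) (nat_lit 339) (nat_lit 195))) (XT.nd (nat_lit 78) (nat_lit 152) (nat_lit 0) (XT.lf (nat_lit 0) (nat_lit 4381677787544) (nat_lit 76) (nat_lit 5455382831159) (nat_lit 76) (nat_lit 2329324872925) (nat_lit 12) (nat_lit 4) (nat_lit 13) (nat_lit 5) (nat_lit 13) (nat_lit 4) (nat_lit 367) (nat_lit 339) (nat_lit 194)) (XT.lf (nat_lit 0) (nat_lit 484277842442) (nat_lit 76) (nat_lit 1251460523577) (nat_lit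 152) (nat_lit 11883091225526) (nat_lit 10) (nat_lit 5) (nat_lit 11) (nat_lit 5) (nat_lit 12) (nat_lit 4) (nat_lit 368) (nat_lit 339) (nat_lit 193)))) (XT.nd (nat_lit 44616) (nat_lit 0) (nat_lit 4180) (XT.nd (nat_lit 78) (nat_lit 76) (nat_lit 0) (XT.lf (nat_lit 0) (nat_lit 6595263157217) (nat_lit 152) (nat_lit 4962462019641) (nat_lit 0) (nat_lit 3700765046625) (nat_lit 10) (nat_lit 5) (nat_lit 12) (nat_lit 4) (nat_lit 10) (nat_lit 4) (nat_lit 369) (nat_lit 339) (nat_lit 192)) (XT.lf (nat_lit 0) (nat_lit 4632568710734) (nat_lit 76) (nat_lit 7697173647611) (nat_lit 76) (nat_lit 4802675536568) (nat_lit 9) (nat_lit 4) (nat_lit 10) (nat_lit 5) (nat_lit 10) (nat_lit 4) (nat_lit 370) (nat_lit 339) (nat_lit 191))) (XT.nd (nat_lit 78) (nat_lit 0) (nat_lit 0) (XT.lf (nat_lit 0) (nat_lit 480357880310) (nat_lit 532) (nat_lit 32171627193) (nat_lit 532) (nat_lit 32171627193) (nat_lit 64) (nat_lit 3) (nat_lit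 71) (nat_lit 3) (nat_lit 71) (nat_lit 5) (nat_lit 340) (nat_lit 340) (nat_lit 220)) (XT.lf (nat_lit 76) (nat_lit 977329128435) (nat_lit 0) (nat_lit 78945196176) (nat_lit 532) (nat_lit 112952724341) (nat_lit 65) (nat_lit 5) (nat_lit 64) (nat_lit 3) (nat_lit 71) (nat_lit 5) (nat_lit 341) (nat_lit 340) (nat_lit 219))))) (XT.nd (nat_lit 312) (nat_lit 912) (nat_lit 0) (XT.nd (nat_lit 156) (nat_lit 304) (nat_lit 0) (XT.nd (nat_lit 78) (nat_lit 456) (nat_lit 0) (XT.lf (nat_lit 76) (nat_lit 941030049343) (nat_lit 0) (nat_lit 273958879196) (nat_lit 532) (nat_lit 42130836497) (nat_lit 66) (nat_lit 5) (nat_lit 65) (nat_lit 5) (nat_lit 72) (nat_lit 5) (nat_lit 342) (nat_lit 340) (nat_lit 218)) (XT.lf (nat_lit 0) (nat_lit 88920759329) (nat_lit 532) (nat_lit 435091144612) (nat_lit 608) (nat_lit 829982996785) (nat_lit 59) (nat_lit 5) (nat_lit 66) (nat_lit 5) (nat_lit 67) (nat_lit 5) (nat_lit 343) (nat_lit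 340) (nat_lit 217))) (XT.nd (nat_lit 78) (nat_lit 380) (nat_lit 0) (XT.lf (nat_lit 0) (nat_lit 292364280129) (nat_lit 532) (nat_lit 546673230327) (nat_lit 76) (nat_lit 621857947628) (nat_lit 60) (nat_lit 5) (nat_lit 67) (nat_lit 5) (nat_lit 61) (nat_lit 5) (nat_lit 344) (nat_lit 340) (nat_lit 216)) (XT.lf (nat_lit 0) (nat_lit 585247749023) (nat_lit 456) (nat_lit 646854260087) (nat_lit 76) (nat_lit 347015216347) (nat_lit 55) (nat_lit 5) (nat_lit 61) (nat_lit 5) (nat_lit 56) (nat_lit 5) (nat_lit 345) (nat_lit 340) (nat_lit 215)))) (XT.nd (nat_lit 156) (nat_lit 456) (nat_lit 0) (XT.nd (nat_lit 78) (nat_lit 228) (nat_lit 0) (XT.lf (nat_lit 0) (nat_lit 977631439123) (nat_lit 228) (nat_lit 7479251850) (nat_lit 304) (nat_lit 724917810754) (nat_lit 52) (nat_lit 5) (nat_lit 55) (nat_lit 5) (nat_lit 56) (nat_lit 5) (nat_lit 346) (nat_lit 340) (nat_lit 214)) (XT.lf (nat_lit 0) (nat_lit 1043934135966)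 (nat_lit 228) (nat_lit 479137352338) (nat_lit 304) (nat_lit 331255508014) (nat_lit 49) (nat_lit 5) (nat_lit 52) (nat_lit 5) (nat_lit 53) (nat_lit 5) (nat_lit 347) (nat_lit 340) (nat_lit 213))) (XT.nd (nat_lit 78) (nat_lit 228) (nat_lit 0) (XT.lf (nat_lit 0) (nat_lit 189625739440) (nat_lit 228) (nat_lit 872905334693) (nat_lit 76) (nat_lit 951565882936) (nat_lit 46) (nat_lit 5) (nat_lit 49) (nat_lit 5) (nat_lit 47) (nat_lit 5) (nat_lit 348) (nat_lit 340) (nat_lit 212)) (XT.lf (nat_lit 0) (nat_lit 848441859792) (nat_lit 304) (nat_lit 922636669308) (nat_lit 76) (nat_lit 419712223031) (nat_lit 43) (nat_lit 5) (nat_lit 47) (nat_lit 5) (nat_lit 44) (nat_lit 5) (nat_lit 349) (nat_lit 340) (nat_lit 211))))))))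
noncomputable def xc58 : XT := (XT.nd (nat_lit 46956) (nat_lit 0) (nat_lit 152) (XT.nd (nat_lit 1170) (nat_lit 456) (nat_lit 0) (XT.nd (nat_lit 546) (nat_lit 912) (nat_lit 0) (XT.nd (nat_lit 234) (nat_lit 608) (nat_lit 0) (XT.nd (nat_lit 78) (nat_lit 380) (nat_lit 0) (XT.lf (nat_lit 0) (nat_lit 1432910274555) (nat_lit 152) (nat_lit 263092421486) (nat_lit 228) (nat_lit 690792136588) (nat_lit 41) (nat_lit 5) (nat_lit 43) (nat_lit 5) (nat_lit 44) (nat_lit 5) (nat_lit 350) (nat_lit 340) (nat_lit 210)) (XT.nd (nat_lit 78) (nat_lit 152) (nat_lit 0) (XT.lf (nat_lit 0) (nat_lit 160445223462) (nat_lit 228) (nat_lit 974849735078) (nat_lit 76) (nat_lit 1468402143792) (nat_lit 38) (nat_lit 5) (nat_lit 41) (nat_lit 5) (nat_lit 39) (nat_lit 5) (nat_lit 351) (nat_lit 340) (nat_lit 209)) (XT.lf (nat_lit 0) (nat_lit 1197070956891) (nat_lit 228) (nat_lit 989382065788) (nat_lit 76) (nat_lit 657357847777)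 (nat_lit 36) (nat_lit 5) (nat_lit 39) (nat_lit 5) (nat_lit 37) (nat_lit 5) (nat_lit 352) (nat_lit 340) (nat_lit 208)))) (XT.nd (nat_lit 156) (nat_lit 304) (nat_lit 0) (XT.nd (nat_lit 78) (nat_lit 152) (nat_lit 0) (XT.lf (nat_lit 0) (nat_lit 2123554021416) (nat_lit 152) (nat_lit 377226388724) (nat_lit 228) (nat_lit 610234104878) (nat_lit 34) (nat_lit 5) (nat_lit 36) (nat_lit 5) (nat_lit 37) (nat_lit 5) (nat_lit 353) (nat_lit 340) (nat_lit 207)) (XT.lf (nat_lit 0) (nat_lit 684883913568) (nat_lit 152) (nat_lit 998280109031) (nat_lit 76) (nat_lit 1723436383553) (nat_lit 32) (nat_lit 5) (nat_lit 34) (nat_lit 5) (nat_lit 33) (nat_lit 5) (nat_lit 354) (nat_lit 340) (nat_lit 206))) (XT.nd (nat_lit 78) (nat_lit 152) (nat_lit 0) (XT.lf (nat_lit 0) (nat_lit 2256797533101) (nat_lit 228) (nat_lit 1010621375538) (nat_lit 76) (nat_lit 468344408034) (nat_lit 30) (nat_lit 5) (nat_lit 33) (nat_lit 5) (nat_lit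 31) (nat_lit 4) (nat_lit 355) (nat_lit 340) (nat_lit 205)) (XT.lf (nat_lit 0) (nat_lit 106582316408) (nat_lit 152) (nat_lit 1043608511596) (nat_lit 76) (nat_lit 2951894178739) (nat_lit 28) (nat_lit 5) (nat_lit 30) (nat_lit 5) (nat_lit 29) (nat_lit 5) (nat_lit 356) (nat_lit 340) (nat_lit 204))))) (XT.nd (nat_lit 312) (nat_lit 456) (nat_lit 0) (XT.nd (nat_lit 156) (nat_lit 228) (nat_lit 0) (XT.nd (nat_lit 78) (nat_lit 76) (nat_lit 0) (XT.lf (nat_lit 0) (nat_lit 1991874441114) (nat_lit 228) (nat_lit 1139086582189) (nat_lit 76) (nat_lit 1377362104310) (nat_lit 26) (nat_lit 5) (nat_lit 29) (nat_lit 5) (nat_lit 27) (nat_lit 4) (nat_lit 357) (nat_lit 340) (nat_lit 203)) (XT.lf (nat_lit 0) (nat_lit 3685924064318) (nat_lit 76) (nat_lit 625667035372) (nat_lit 152) (nat_lit 651775409712) (nat_lit 25) (nat_lit 5) (nat_lit 26) (nat_lit 5) (nat_lit 27) (nat_lit 4) (nat_lit 358) (nat_lit 340) (nat_lit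 202))) (XT.nd (nat_lit 78) (nat_lit 76) (nat_lit 0) (XT.lf (nat_lit 0) (nat_lit 1606273749269) (nat_lit 152) (nat_lit 1549863032941) (nat_lit 76) (nat_lit 2312590594723) (nat_lit 23) (nat_lit 5) (nat_lit 25) (nat_lit 5) (nat_lit 24) (nat_lit 4) (nat_lit 359) (nat_lit 340) (nat_lit 201)) (XT.lf (nat_lit 0) (nat_lit 4093536478049) (nat_lit 76) (nat_lit 225910114163) (nat_lit 152) (nat_lit 1716690748854) (nat_lit 22) (nat_lit 5) (nat_lit 23) (nat_lit 5) (nat_lit 24) (nat_lit 4) (nat_lit 360) (nat_lit 340) (nat_lit 200)))) (XT.nd (nat_lit 156) (nat_lit 228) (nat_lit 0) (XT.nd (nat_lit 78) (nat_lit 76) (nat_lit 0) (XT.lf (nat_lit 0) (nat_lit 940142832529) (nat_lit 152) (nat_lit 2573125534062) (nat_lit 76) (nat_lit 3155803937130) (nat_lit 20) (nat_lit 5) (nat_lit 22) (nat_lit 5) (nat_lit 21) (nat_lit 4) (nat_lit 361) (nat_lit 340) (nat_lit 199)) (XT.lf (nat_lit 0) (nat_lit 3905672594805) (nat_lit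 76) (nat_lit 149277031234) (nat_lit 152) (nat_lit 3325543101194) (nat_lit 19) (nat_lit 5) (nat_lit 20) (nat_lit 5) (nat_lit 21) (nat_lit 4) (nat_lit 362) (nat_lit 340) (nat_lit 198))) (XT.nd (nat_lit 78) (nat_lit 152) (nat_lit 0) (XT.lf (nat_lit 0) (nat_lit 3398067721606) (nat_lit 76) (nat_lit 4486942485935) (nat_lit 76) (nat_lit 293773385215) (nat_lit 18) (nat_lit 4) (nat_lit 19) (nat_lit 5) (nat_lit 19) (nat_lit 4) (nat_lit 363) (nat_lit 340) (nat_lit 197)) (XT.lf (nat_lit 0) (nat_lit 2463268836711) (nat_lit 76) (nat_lit 736941710680) (nat_lit 152) (nat_lit 5877091570122) (nat_lit 16) (nat_lit 5) (nat_lit 17) (nat_lit 5) (nat_lit 18) (nat_lit 4) (nat_lit 364) (nat_lit 340) (nat_lit 196)))))) (XT.nd (nat_lit 45162) (nat_lit 0) (nat_lit 2508) (XT.nd (nat_lit 234) (nat_lit 228) (nat_lit 0) (XT.nd (nat_lit 78) (nat_lit 152) (nat_lit 0) (XT.lf (nat_lit 0) (nat_lit 932824406613) (nat_lit 76)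 (nat_lit 6519794904010) (nat_lit 76) (nat_lit 2637230919883) (nat_lit 15) (nat_lit 4) (nat_lit 16) (nat_lit 5) (nat_lit 16) (nat_lit 4) (nat_lit 365) (nat_lit 340) (nat_lit 195)) (XT.nd (nat_lit 78) (nat_lit 76) (nat_lit 0) (XT.lf (nat_lit 0) (nat_lit 1252096222158) (nat_lit 152) (nat_lit 1278203842836) (nat_lit 76) (nat_lit 8704450488637) (nat_lit 14) (nat_lit 5) (nat_lit 16) (nat_lit 5) (nat_lit 15) (nat_lit 4) (nat_lit 366) (nat_lit 340) (nat_lit 194)) (XT.lf (nat_lit 0) (nat_lit 5824735838804) (nat_lit 152) (nat_lit 4470915588367) (nat_lit 0) (nat_lit 2229769185449) (nat_lit 13) (nat_lit 5) (nat_lit 15) (nat_lit 4) (nat_lit 13) (nat_lit 4) (nat_lit 367) (nat_lit 340) (nat_lit 193)))) (XT.nd (nat_lit 44772) (nat_lit 0) (nat_lit 4104) (XT.nd (nat_lit 78) (nat_lit 152) (nat_lit 0) (XT.lf (nat_lit 0) (nat_lit 5038929493392) (nat_lit 76) (nat_lit 6273690237184) (nat_lit 76) (nat_lit 2678723583269)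 (nat_lit 12) (nat_lit 4) (nat_lit 13) (nat_lit 5) (nat_lit 13) (nat_lit 4) (nat_lit 368) (nat_lit 340) (nat_lit 192)) (XT.lf (nat_lit 0) (nat_lit 556919554277) (nat_lit 76) (nat_lit 1439179584511) (nat_lit 152) (nat_lit 13665554890058) (nat_lit 10) (nat_lit 5) (nat_lit 11) (nat_lit 5) (nat_lit 12) (nat_lit 4) (nat_lit 369) (nat_lit 340) (nat_lit 191))) (XT.nd (nat_lit 78) (nat_lit 0) (nat_lit 0) (XT.lf (nat_lit 0) (nat_lit 552411651411) (nat_lit 532) (nat_lit 36997323140) (nat_lit 532) (nat_lit 36997323140) (nat_lit 64) (nat_lit 3) (nat_lit 71) (nat_lit 3) (nat_lit 71) (nat_lit 5) (nat_lit 341) (nat_lit 341) (nat_lit 218)) (XT.lf (nat_lit 76) (nat_lit 1123928585815) (nat_lit 0) (nat_lit 90787044485) (nat_lit 532) (nat_lit 129895463289) (nat_lit 65) (nat_lit 5) (nat_lit 64) (nat_lit 3) (nat_lit 71) (nat_lit 5) (nat_lit 342) (nat_lit 341) (nat_lit 217))))) (XT.nd (nat_lit 312) (nat_lit 912)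 (nat_lit 0) (XT.nd (nat_lit 156) (nat_lit 304) (nat_lit 0) (XT.nd (nat_lit 78) (nat_lit 456) (nat_lit 0) (XT.lf (nat_lit 76) (nat_lit 1082184650548) (nat_lit 0) (nat_lit 315052754606) (nat_lit 532) (nat_lit 48450313523) (nat_lit 66) (nat_lit 5) (nat_lit 65) (nat_lit 5) (nat_lit 72) (nat_lit 5) (nat_lit 343) (nat_lit 341) (nat_lit 216)) (XT.lf (nat_lit 0) (nat_lit 102258997317) (nat_lit 532) (nat_lit 500354712671) (nat_lit 608) (nat_lit 954480415817) (nat_lit 59) (nat_lit 5) (nat_lit 66) (nat_lit 5) (nat_lit 67) (nat_lit 5) (nat_lit 344) (nat_lit 341) (nat_lit 215))) (XT.nd (nat_lit 78) (nat_lit 380) (nat_lit 0) (XT.lf (nat_lit 0) (nat_lit 336219031964) (nat_lit 532) (nat_lit 628674110743) (nat_lit 76) (nat_lit 715136625215) (nat_lit 60) (nat_lit 5) (nat_lit 67) (nat_lit 5) (nat_lit 61) (nat_lit 5) (nat_lit 345) (nat_lit 341) (nat_lit 214)) (XT.lf (nat_lit 0) (nat_lit 673035009101) (nat_lit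 456) (nat_lit 743882295822) (nat_lit 76) (nat_lit 399067496457) (nat_lit 55) (nat_lit 5) (nat_lit 61) (nat_lit 5) (nat_lit 56) (nat_lit 5) (nat_lit 346) (nat_lit 341) (nat_lit 213)))) (XT.nd (nat_lit 156) (nat_lit 456) (nat_lit 0) (XT.nd (nat_lit 78) (nat_lit 228) (nat_lit 0) (XT.lf (nat_lit 0) (nat_lit 1124276249528) (nat_lit 228) (nat_lit 8601132343) (nat_lit 304) (nat_lit 833655388068) (nat_lit 52) (nat_lit 5) (nat_lit 55) (nat_lit 5) (nat_lit 56) (nat_lit 5) (nat_lit 347) (nat_lit 341) (nat_lit 212)) (XT.lf (nat_lit 0) (nat_lit 1200524349186) (nat_lit 228) (nat_lit 551007940619) (nat_lit 304) (nat_lit 380943749641) (nat_lit 49) (nat_lit 5) (nat_lit 52) (nat_lit 5) (nat_lit 53) (nat_lit 5) (nat_lit 348) (nat_lit 341) (nat_lit 211))) (XT.nd (nat_lit 78) (nat_lit 228) (nat_lit 0) (XT.lf (nat_lit 0) (nat_lit 218069672764) (nat_lit 228) (nat_lit 1003841040606) (nat_lit 76) (nat_lit 1094300781419)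 (nat_lit 46) (nat_lit 5) (nat_lit 49) (nat_lit 5) (nat_lit 47) (nat_lit 5) (nat_lit 349) (nat_lit 341) (nat_lit 210)) (XT.lf (nat_lit 0) (nat_lit 975708204312) (nat_lit 304) (nat_lit 1061032078662) (nat_lit 76) (nat_lit 482669076692) (nat_lit 43) (nat_lit 5) (nat_lit 47) (nat_lit 5) (nat_lit 44) (nat_lit 5) (nat_lit 350) (nat_lit 341) (nat_lit 209))))))) (XT.nd (nat_lit 1170) (nat_lit 304) (nat_lit 0) (XT.nd (nat_lit 546) (nat_lit 912) (nat_lit 0) (XT.nd (nat_lit 234) (nat_lit 608) (nat_lit 0) (XT.nd (nat_lit 78) (nat_lit 380) (nat_lit 0) (XT.lf (nat_lit 0) (nat_lit 1647846899075) (nat_lit 152) (nat_lit 302556260378) (nat_lit 228) (nat_lit 794410893315) (nat_lit 41) (nat_lit 5) (nat_lit 43) (nat_lit 5) (nat_lit 44) (nat_lit 5) (nat_lit 351) (nat_lit 341) (nat_lit 208)) (XT.nd (nat_lit 78) (nat_lit 152) (nat_lit 0) (XT.lf (nat_lit 0) (nat_lit 184512062151) (nat_lit 228) (nat_lit 1121077112306)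 (nat_lit 76) (nat_lit 1688662488783) (nat_lit 38) (nat_lit 5) (nat_lit 41) (nat_lit 5) (nat_lit 39) (nat_lit 5) (nat_lit 352) (nat_lit 341) (nat_lit 207)) (XT.lf (nat_lit 0) (nat_lit 1376631650857) (nat_lit 228) (nat_lit 1137789296272) (nat_lit 76) (nat_lit 755961549837) (nat_lit 36) (nat_lit 5) (nat_lit 39) (nat_lit 5) (nat_lit 37) (nat_lit 5) (nat_lit 353) (nat_lit 341) (nat_lit 206)))) (XT.nd (nat_lit 156) (nat_lit 304) (nat_lit 0) (XT.nd (nat_lit 78) (nat_lit 152) (nat_lit 0) (XT.lf (nat_lit 0) (nat_lit 2442087197294) (nat_lit 152) (nat_lit 433810319969) (nat_lit 228) (nat_lit 701769171339) (nat_lit 34) (nat_lit 5) (nat_lit 36) (nat_lit 5) (nat_lit 37) (nat_lit 5) (nat_lit 354) (nat_lit 341) (nat_lit 205)) (XT.lf (nat_lit 0) (nat_lit 787616543594) (nat_lit 152) (nat_lit 1148022053826) (nat_lit 76) (nat_lit 1981951866197) (nat_lit 32) (nat_lit 5) (nat_lit 34) (nat_lit 5) (nat_lit 33)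 (nat_lit 5) (nat_lit 355) (nat_lit 341) (nat_lit 204))) (XT.nd (nat_lit 78) (nat_lit 152) (nat_lit 0) (XT.lf (nat_lit 0) (nat_lit 2595317202663) (nat_lit 228) (nat_lit 1162214513873) (nat_lit 76) (nat_lit 538596094455) (nat_lit 30) (nat_lit 5) (nat_lit 33) (nat_lit 5) (nat_lit 31) (nat_lit 4) (nat_lit 356) (nat_lit 341) (nat_lit 203)) (XT.lf (nat_lit 0) (nat_lit 122569700745) (nat_lit 152) (nat_lit 1200149724141) (nat_lit 76) (nat_lit 3394678329906) (nat_lit 28) (nat_lit 5) (nat_lit 30) (nat_lit 5) (nat_lit 29) (nat_lit 5) (nat_lit 357) (nat_lit 341) (nat_lit 202))))) (XT.nd (nat_lit 312) (nat_lit 456) (nat_lit 0) (XT.nd (nat_lit 156) (nat_lit 228) (nat_lit 0) (XT.nd (nat_lit 78) (nat_lit 76) (nat_lit 0) (XT.lf (nat_lit 0) (nat_lit 2290655641368) (nat_lit 228) (nat_lit 1309949508677) (nat_lit 76) (nat_lit 1583966443973) (nat_lit 26) (nat_lit 5) (nat_lit 29) (nat_lit 5) (nat_lit 27) (nat_lit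 4) (nat_lit 358) (nat_lit 341) (nat_lit 201)) (XT.lf (nat_lit 0) (nat_lit 4238812729657) (nat_lit 76) (nat_lit 719517065967) (nat_lit 152) (nat_lit 749541687701) (nat_lit 25) (nat_lit 5) (nat_lit 26) (nat_lit 5) (nat_lit 27) (nat_lit 4) (nat_lit 359) (nat_lit 341) (nat_lit 200))) (XT.nd (nat_lit 78) (nat_lit 76) (nat_lit 0) (XT.lf (nat_lit 0) (nat_lit 1847214841137) (nat_lit 152) (nat_lit 1782342433612) (nat_lit 76) (nat_lit 2659479206358) (nat_lit 23) (nat_lit 5) (nat_lit 25) (nat_lit 5) (nat_lit 24) (nat_lit 4) (nat_lit 360) (nat_lit 341) (nat_lit 199)) (XT.lf (nat_lit 0) (nat_lit 4707566999433) (nat_lit 76) (nat_lit 259796608439) (nat_lit 152) (nat_lit 1974194332203) (nat_lit 22) (nat_lit 5) (nat_lit 23) (nat_lit 5) (nat_lit 24) (nat_lit 4) (nat_lit 361) (nat_lit 341) (nat_lit 198)))) (XT.nd (nat_lit 156) (nat_lit 228) (nat_lit 0) (XT.nd (nat_lit 78) (nat_lit 76) (nat_lit 0) (XT.lf (nat_lit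 0) (nat_lit 1081164282997) (nat_lit 152) (nat_lit 2959094315879) (nat_lit 76) (nat_lit 3629174548352) (nat_lit 20) (nat_lit 5) (nat_lit 22) (nat_lit 5) (nat_lit 21) (nat_lit 4) (nat_lit 362) (nat_lit 341) (nat_lit 197)) (XT.lf (nat_lit 0) (nat_lit 4491523528230) (nat_lit 76) (nat_lit 171668565028) (nat_lit 152) (nat_lit 3824374541191) (nat_lit 19) (nat_lit 5) (nat_lit 20) (nat_lit 5) (nat_lit 21) (nat_lit 4) (nat_lit 363) (nat_lit 341) (nat_lit 196))) (XT.nd (nat_lit 78) (nat_lit 152) (nat_lit 0) (XT.lf (nat_lit 0) (nat_lit 3907777921561) (nat_lit 76) (nat_lit 5159983838823) (nat_lit 76) (nat_lit 337839369544) (nat_lit 18) (nat_lit 4) (nat_lit 19) (nat_lit 5) (nat_lit 19) (nat_lit 4) (nat_lit 364) (nat_lit 341) (nat_lit 195)) (XT.lf (nat_lit 0) (nat_lit 2832759201478) (nat_lit 76) (nat_lit 847482948340) (nat_lit 152) (nat_lit 6758655283693) (nat_lit 16) (nat_lit 5) (nat_lit 17) (nat_lit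 5) (nat_lit 18) (nat_lit 4) (nat_lit 365) (nat_lit 341) (nat_lit 194)))))) (XT.nd (nat_lit 45318) (nat_lit 0) (nat_lit 1976) (XT.nd (nat_lit 45006) (nat_lit 0) (nat_lit 3572) (XT.nd (nat_lit 156) (nat_lit 152) (nat_lit 0) (XT.nd (nat_lit 78) (nat_lit 76) (nat_lit 0) (XT.lf (nat_lit 0) (nat_lit 1072748104616) (nat_lit 76) (nat_lit 7497764121555) (nat_lit 76) (nat_lit 3032815537392) (nat_lit 15) (nat_lit 4) (nat_lit 16) (nat_lit 5) (nat_lit 16) (nat_lit 4) (nat_lit 366) (nat_lit 341) (nat_lit 193)) (XT.lf (nat_lit 0) (nat_lit 1439910672395) (nat_lit 152) (nat_lit 1469934386186) (nat_lit 76) (nat_lit 10010118076741) (nat_lit 14) (nat_lit 5) (nat_lit 16) (nat_lit 5) (nat_lit 15) (nat_lit 4) (nat_lit 367) (nat_lit 341) (nat_lit 192))) (XT.nd (nat_lit 78) (nat_lit 76) (nat_lit 0) (XT.lf (nat_lit 0) (nat_lit 6698446230416) (nat_lit 152) (nat_lit 5141552895466) (nat_lit 0) (nat_lit 2564234577365)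 (nat_lit 13) (nat_lit 5) (nat_lit 15) (nat_lit 4) (nat_lit 13) (nat_lit 4) (nat_lit 368) (nat_lit 341) (nat_lit 191)) (XT.lf (nat_lit 0) (nat_lit 5794768945920) (nat_lit 76) (nat_lit 7214743758661) (nat_lit 76) (nat_lit 3080532105186) (nat_lit 12) (nat_lit 4) (nat_lit 13) (nat_lit 5) (nat_lit 13) (nat_lit 4) (nat_lit 369) (nat_lit 341) (nat_lit 190)))) (XT.nd (nat_lit 156) (nat_lit 380) (nat_lit 0) (XT.nd (nat_lit 78) (nat_lit 0) (nat_lit 0) (XT.lf (nat_lit 0) (nat_lit 635273466461) (nat_lit 532) (nat_lit 42546885216) (nat_lit 532) (nat_lit 42546885216) (nat_lit 64) (nat_lit 3) (nat_lit 71) (nat_lit 3) (nat_lit 71) (nat_lit 5) (nat_lit 342) (nat_lit 342) (nat_lit 216)) (XT.lf (nat_lit 76) (nat_lit 1292517940316) (nat_lit 0) (nat_lit 104405153242) (nat_lit 532) (nat_lit 149379654462) (nat_lit 65) (nat_lit 5) (nat_lit 64) (nat_lit 3) (nat_lit 71) (nat_lit 5) (nat_lit 343) (nat_lit 342) (nat_lit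 215))) (XT.nd (nat_lit 78) (nat_lit 456) (nat_lit 0) (XT.lf (nat_lit 76) (nat_lit 1244512419060) (nat_lit 0) (nat_lit 362310700713) (nat_lit 532) (nat_lit 55717748302) (nat_lit 66) (nat_lit 5) (nat_lit 65) (nat_lit 5) (nat_lit 72) (nat_lit 5) (nat_lit 344) (nat_lit 342) (nat_lit 214)) (XT.lf (nat_lit 0) (nat_lit 117597940743) (nat_lit 532) (nat_lit 575407841211) (nat_lit 608) (nat_lit 1097652455139) (nat_lit 59) (nat_lit 5) (nat_lit 66) (nat_lit 5) (nat_lit 67) (nat_lit 5) (nat_lit 345) (nat_lit 342) (nat_lit 213))))) (XT.nd (nat_lit 312) (nat_lit 836) (nat_lit 0) (XT.nd (nat_lit 156) (nat_lit 456) (nat_lit 0) (XT.nd (nat_lit 78) (nat_lit 380) (nat_lit 0) (XT.lf (nat_lit 0) (nat_lit 386651969795) (nat_lit 532) (nat_lit 722975148615) (nat_lit 76) (nat_lit 822407107990) (nat_lit 60) (nat_lit 5) (nat_lit 67) (nat_lit 5) (nat_lit 61) (nat_lit 5) (nat_lit 346) (nat_lit 342) (nat_lit 212)) (XT.lf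 (nat_lit 0) (nat_lit 773990334360) (nat_lit 456) (nat_lit 855464562103) (nat_lit 76) (nat_lit 458927619154) (nat_lit 55) (nat_lit 5) (nat_lit 61) (nat_lit 5) (nat_lit 56) (nat_lit 5) (nat_lit 347) (nat_lit 342) (nat_lit 211))) (XT.nd (nat_lit 78) (nat_lit 228) (nat_lit 0) (XT.lf (nat_lit 0) (nat_lit 1292917758440) (nat_lit 228) (nat_lit 9891296687) (nat_lit 304) (nat_lit 958703624974) (nat_lit 52) (nat_lit 5) (nat_lit 55) (nat_lit 5) (nat_lit 56) (nat_lit 5) (nat_lit 348) (nat_lit 342) (nat_lit 210)) (XT.lf (nat_lit 0) (nat_lit 1380603071752) (nat_lit 228) (nat_lit 633659120696) (nat_lit 304) (nat_lit 438085248137) (nat_lit 49) (nat_lit 5) (nat_lit 52) (nat_lit 5) (nat_lit 53) (nat_lit 5) (nat_lit 349) (nat_lit 342) (nat_lit 209)))) (XT.nd (nat_lit 156) (nat_lit 380) (nat_lit 0) (XT.nd (nat_lit 78) (nat_lit 228) (nat_lit 0) (XT.lf (nat_lit 0) (nat_lit 250780178430) (nat_lit 228) (nat_lit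 1154417125399) (nat_lit 76) (nat_lit 1258445910763) (nat_lit 46) (nat_lit 5) (nat_lit 49) (nat_lit 5) (nat_lit 47) (nat_lit 5) (nat_lit 350) (nat_lit 342) (nat_lit 208)) (XT.lf (nat_lit 0) (nat_lit 1122064484525) (nat_lit 304) (nat_lit 1220186821620) (nat_lit 76) (nat_lit 555069453475) (nat_lit 43) (nat_lit 5) (nat_lit 47) (nat_lit 5) (nat_lit 44) (nat_lit 5) (nat_lit 351) (nat_lit 342) (nat_lit 207))) (XT.nd (nat_lit 78) (nat_lit 228) (nat_lit 0) (XT.lf (nat_lit 0) (nat_lit 1895023996951) (nat_lit 152) (nat_lit 347939681037) (nat_lit 228) (nat_lit 913572479100) (nat_lit 41) (nat_lit 5) (nat_lit 43) (nat_lit 5) (nat_lit 44) (nat_lit 5) (nat_lit 352) (nat_lit 342) (nat_lit 206)) (XT.lf (nat_lit 0) (nat_lit 212188913190) (nat_lit 228) (nat_lit 1289238616366) (nat_lit 76) (nat_lit 1941961879811) (nat_lit 38) (nat_lit 5) (nat_lit 41) (nat_lit 5) (nat_lit 39) (nat_lit 5) (nat_lit 353) (nat_lit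 342) (nat_lit 205))))))))
noncomputable def xc59 : XT := (XT.nd (nat_lit 47190) (nat_lit 0) (nat_lit 76) (XT.nd (nat_lit 1170) (nat_lit 76) (nat_lit 0) (XT.nd (nat_lit 546) (nat_lit 836) (nat_lit 0) (XT.nd (nat_lit 234) (nat_lit 532) (nat_lit 0) (XT.nd (nat_lit 78) (nat_lit 304) (nat_lit 0) (XT.lf (nat_lit 0) (nat_lit 1583126436619) (nat_lit 228) (nat_lit 1308457630687) (nat_lit 76) (nat_lit 869355801136) (nat_lit 36) (nat_lit 5) (nat_lit 39) (nat_lit 5) (nat_lit 37) (nat_lit 5) (nat_lit 354) (nat_lit 342) (nat_lit 204)) (XT.nd (nat_lit 78) (nat_lit 152) (nat_lit 0) (XT.lf (nat_lit 0) (nat_lit 2808400331833) (nat_lit 152) (nat_lit 498881847500) (nat_lit 228) (nat_lit 807034509783) (nat_lit 34) (nat_lit 5) (nat_lit 36) (nat_lit 5) (nat_lit 37) (nat_lit 5) (nat_lit 355) (nat_lit 342) (nat_lit 203)) (XT.lf (nat_lit 0) (nat_lit 905759057641) (nat_lit 152) (nat_lit 1320225307791) (nat_lit 76)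 (nat_lit 2279244665114) (nat_lit 32) (nat_lit 5) (nat_lit 34) (nat_lit 5) (nat_lit 33) (nat_lit 5) (nat_lit 356) (nat_lit 342) (nat_lit 202)))) (XT.nd (nat_lit 156) (nat_lit 228) (nat_lit 0) (XT.nd (nat_lit 78) (nat_lit 152) (nat_lit 0) (XT.lf (nat_lit 0) (nat_lit 2984614813004) (nat_lit 228) (nat_lit 1336546639540) (nat_lit 76) (nat_lit 619385527689) (nat_lit 30) (nat_lit 5) (nat_lit 33) (nat_lit 5) (nat_lit 31) (nat_lit 4) (nat_lit 357) (nat_lit 342) (nat_lit 201)) (XT.lf (nat_lit 0) (nat_lit 140955183739) (nat_lit 152) (nat_lit 1380172134222) (nat_lit 76) (nat_lit 3903880097809) (nat_lit 28) (nat_lit 5) (nat_lit 30) (nat_lit 5) (nat_lit 29) (nat_lit 5) (nat_lit 358) (nat_lit 342) (nat_lit 200))) (XT.nd (nat_lit 78) (nat_lit 76) (nat_lit 0) (XT.lf (nat_lit 0) (nat_lit 2634254013347) (nat_lit 228) (nat_lit 1506441888973) (nat_lit 76) (nat_lit 1821561428730) (nat_lit 26) (nat_lit 5) (nat_lit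 29) (nat_lit 5) (nat_lit 27) (nat_lit 4) (nat_lit 359) (nat_lit 342) (nat_lit 199)) (XT.lf (nat_lit 0) (nat_lit 4874634681216) (nat_lit 76) (nat_lit 827444607177) (nat_lit 152) (nat_lit 861972915550) (nat_lit 25) (nat_lit 5) (nat_lit 26) (nat_lit 5) (nat_lit 27) (nat_lit 4) (nat_lit 360) (nat_lit 342) (nat_lit 198))))) (XT.nd (nat_lit 312) (nat_lit 380) (nat_lit 0) (XT.nd (nat_lit 156) (nat_lit 228) (nat_lit 0) (XT.nd (nat_lit 78) (nat_lit 76) (nat_lit 0) (XT.lf (nat_lit 0) (nat_lit 2124297089596) (nat_lit 152) (nat_lit 2049693757618) (nat_lit 76) (nat_lit 3058401104270) (nat_lit 23) (nat_lit 5) (nat_lit 25) (nat_lit 5) (nat_lit 24) (nat_lit 4) (nat_lit 361) (nat_lit 342) (nat_lit 197)) (XT.lf (nat_lit 0) (nat_lit 5413702086911) (nat_lit 76) (nat_lit 298766082427) (nat_lit 152) (nat_lit 2270323460120) (nat_lit 22) (nat_lit 5) (nat_lit 23) (nat_lit 5) (nat_lit 24) (nat_lit 4) (nat_lit 362)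 (nat_lit 342) (nat_lit 196))) (XT.nd (nat_lit 78) (nat_lit 76) (nat_lit 0) (XT.lf (nat_lit 0) (nat_lit 1243338944794) (nat_lit 152) (nat_lit 3402958426746) (nat_lit 76) (nat_lit 4173550746220) (nat_lit 20) (nat_lit 5) (nat_lit 22) (nat_lit 5) (nat_lit 21) (nat_lit 4) (nat_lit 363) (nat_lit 342) (nat_lit 195)) (XT.lf (nat_lit 0) (nat_lit 5165252090889) (nat_lit 76) (nat_lit 197418833986) (nat_lit 152) (nat_lit 4398030703328) (nat_lit 19) (nat_lit 5) (nat_lit 20) (nat_lit 5) (nat_lit 21) (nat_lit 4) (nat_lit 364) (nat_lit 342) (nat_lit 194)))) (XT.nd (nat_lit 156) (nat_lit 152) (nat_lit 0) (XT.nd (nat_lit 78) (nat_lit 152) (nat_lit 0) (XT.lf (nat_lit 0) (nat_lit 4493944641337) (nat_lit 76) (nat_lit 5933981399523) (nat_lit 76) (nat_lit 388515257241) (nat_lit 18) (nat_lit 4) (nat_lit 19) (nat_lit 5) (nat_lit 19) (nat_lit 4) (nat_lit 365) (nat_lit 342) (nat_lit 193)) (XT.lf (nat_lit 0) (nat_lit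 3257673111386) (nat_lit 76) (nat_lit 974605376268) (nat_lit 152) (nat_lit 7772453559652) (nat_lit 16) (nat_lit 5) (nat_lit 17) (nat_lit 5) (nat_lit 18) (nat_lit 4) (nat_lit 366) (nat_lit 342) (nat_lit 192))) (XT.nd (nat_lit 78) (nat_lit 76) (nat_lit 0) (XT.lf (nat_lit 0) (nat_lit 1233660348294) (nat_lit 76) (nat_lit 8622428726135) (nat_lit 76) (nat_lit 3487737852520) (nat_lit 15) (nat_lit 4) (nat_lit 16) (nat_lit 5) (nat_lit 16) (nat_lit 4) (nat_lit 367) (nat_lit 342) (nat_lit 191)) (XT.lf (nat_lit 0) (nat_lit 1655897286042) (nat_lit 152) (nat_lit 1690424519103) (nat_lit 76) (nat_lit 11511635799450) (nat_lit 14) (nat_lit 5) (nat_lit 16) (nat_lit 5) (nat_lit 15) (nat_lit 4) (nat_lit 368) (nat_lit 342) (nat_lit 190)))))) (XT.nd (nat_lit 45396) (nat_lit 0) (nat_lit 1444) (XT.nd (nat_lit 45084) (nat_lit 0) (nat_lit 2964) (XT.nd (nat_lit 44928) (nat_lit 0) (nat_lit 3876) (XT.nd (nat_lit 44850)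 (nat_lit 0) (nat_lit 3876) (XT.lf (nat_lit 0) (nat_lit 7703213176919) (nat_lit 152) (nat_lit 5912785806228) (nat_lit 0) (nat_lit 2948869774631) (nat_lit 13) (nat_lit 5) (nat_lit 15) (nat_lit 4) (nat_lit 13) (nat_lit 4) (nat_lit 369) (nat_lit 342) (nat_lit 189)) (XT.lf (nat_lit 0) (nat_lit 730564537347) (nat_lit 532) (nat_lit 48928890479) (nat_lit 532) (nat_lit 48928890479) (nat_lit 64) (nat_lit 3) (nat_lit 71) (nat_lit 3) (nat_lit 71) (nat_lit 5) (nat_lit 343) (nat_lit 343) (nat_lit 214))) (XT.nd (nat_lit 78) (nat_lit 0) (nat_lit 76) (XT.lf (nat_lit 76) (nat_lit 1486395681743) (nat_lit 0) (nat_lit 120065965612) (nat_lit 532) (nat_lit 171786505603) (nat_lit 65) (nat_lit 5) (nat_lit 64) (nat_lit 3) (nat_lit 71) (nat_lit 5) (nat_lit 344) (nat_lit 343) (nat_lit 213)) (XT.lf (nat_lit 76) (nat_lit 1431189335551) (nat_lit 0) (nat_lit 416657330709) (nat_lit 532) (nat_lit 64075325672) (nat_lit 66)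 (nat_lit 5) (nat_lit 65) (nat_lit 5) (nat_lit 72) (nat_lit 5) (nat_lit 345) (nat_lit 343) (nat_lit 212)))) (XT.nd (nat_lit 156) (nat_lit 532) (nat_lit 0) (XT.nd (nat_lit 78) (nat_lit 0) (nat_lit 76) (XT.lf (nat_lit 0) (nat_lit 135237702802) (nat_lit 532) (nat_lit 661718958141) (nat_lit 608) (nat_lit 1262300305980) (nat_lit 59) (nat_lit 5) (nat_lit 66) (nat_lit 5) (nat_lit 67) (nat_lit 5) (nat_lit 346) (nat_lit 343) (nat_lit 211)) (XT.lf (nat_lit 0) (nat_lit 444649828052) (nat_lit 532) (nat_lit 831421361369) (nat_lit 76) (nat_lit 945768165865) (nat_lit 60) (nat_lit 5) (nat_lit 67) (nat_lit 5) (nat_lit 61) (nat_lit 5) (nat_lit 347) (nat_lit 343) (nat_lit 210))) (XT.nd (nat_lit 78) (nat_lit 228) (nat_lit 0) (XT.lf (nat_lit 0) (nat_lit 890088940389) (nat_lit 456) (nat_lit 983784187369) (nat_lit 76) (nat_lit 527766760688) (nat_lit 55) (nat_lit 5) (nat_lit 61) (nat_lit 5) (nat_lit 56) (nat_lit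 5) (nat_lit 348) (nat_lit 343) (nat_lit 209)) (XT.lf (nat_lit 0) (nat_lit 1486855476257) (nat_lit 228) (nat_lit 11374987025) (nat_lit 304) (nat_lit 1102509114805) (nat_lit 52) (nat_lit 5) (nat_lit 55) (nat_lit 5) (nat_lit 56) (nat_lit 5) (nat_lit 349) (nat_lit 343) (nat_lit 208))))) (XT.nd (nat_lit 312) (nat_lit 684) (nat_lit 0) (XT.nd (nat_lit 156) (nat_lit 380) (nat_lit 0) (XT.nd (nat_lit 78) (nat_lit 228) (nat_lit 0) (XT.lf (nat_lit 0) (nat_lit 1587693585588) (nat_lit 228) (nat_lit 728707980471) (nat_lit 304) (nat_lit 503797987001) (nat_lit 49) (nat_lit 5) (nat_lit 52) (nat_lit 5) (nat_lit 53) (nat_lit 5) (nat_lit 350) (nat_lit 343) (nat_lit 207)) (XT.lf (nat_lit 0) (nat_lit 288397246594) (nat_lit 228) (nat_lit 1327579640298) (nat_lit 76) (nat_lit 1447212806550) (nat_lit 46) (nat_lit 5) (nat_lit 49) (nat_lit 5) (nat_lit 47) (nat_lit 5) (nat_lit 351) (nat_lit 343) (nat_lit 206))) (XT.nd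 (nat_lit 78) (nat_lit 152) (nat_lit 0) (XT.lf (nat_lit 0) (nat_lit 1290374194683) (nat_lit 304) (nat_lit 1403214792809) (nat_lit 76) (nat_lit 638329883049) (nat_lit 43) (nat_lit 5) (nat_lit 47) (nat_lit 5) (nat_lit 44) (nat_lit 5) (nat_lit 352) (nat_lit 343) (nat_lit 205)) (XT.lf (nat_lit 0) (nat_lit 2179277644141) (nat_lit 152) (nat_lit 400130619281) (nat_lit 228) (nat_lit 1050608314509) (nat_lit 41) (nat_lit 5) (nat_lit 43) (nat_lit 5) (nat_lit 44) (nat_lit 5) (nat_lit 353) (nat_lit 343) (nat_lit 204)))) (XT.nd (nat_lit 156) (nat_lit 304) (nat_lit 0) (XT.nd (nat_lit 78) (nat_lit 152) (nat_lit 0) (XT.lf (nat_lit 0) (nat_lit 244017281712) (nat_lit 228) (nat_lit 1482624361346) (nat_lit 76) (nat_lit 2233256175174) (nat_lit 38) (nat_lit 5) (nat_lit 41) (nat_lit 5) (nat_lit 39) (nat_lit 5) (nat_lit 354) (nat_lit 343) (nat_lit 203)) (XT.lf (nat_lit 0) (nat_lit 1820595430946) (nat_lit 228) (nat_lit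 1504726229902) (nat_lit 76) (nat_lit 999759185539) (nat_lit 36) (nat_lit 5) (nat_lit 39) (nat_lit 5) (nat_lit 37) (nat_lit 5) (nat_lit 355) (nat_lit 343) (nat_lit 202))) (XT.nd (nat_lit 78) (nat_lit 152) (nat_lit 0) (XT.lf (nat_lit 0) (nat_lit 3229660423155) (nat_lit 152) (nat_lit 573714109151) (nat_lit 228) (nat_lit 928089658080) (nat_lit 34) (nat_lit 5) (nat_lit 36) (nat_lit 5) (nat_lit 37) (nat_lit 5) (nat_lit 356) (nat_lit 343) (nat_lit 201)) (XT.lf (nat_lit 0) (nat_lit 1041622940868) (nat_lit 152) (nat_lit 1518259063046) (nat_lit 76) (nat_lit 2621131379239) (nat_lit 32) (nat_lit 5) (nat_lit 34) (nat_lit 5) (nat_lit 33) (nat_lit 5) (nat_lit 357) (nat_lit 343) (nat_lit 200))))))) (XT.nd (nat_lit 46020) (nat_lit 0) (nat_lit 836) (XT.nd (nat_lit 546) (nat_lit 456) (nat_lit 0) (XT.nd (nat_lit 234) (nat_lit 456) (nat_lit 0) (XT.nd (nat_lit 78) (nat_lit 304) (nat_lit 0) (XT.lf (nat_lit 0)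 (nat_lit 3432307057595) (nat_lit 228) (nat_lit 1537028596594) (nat_lit 76) (nat_lit 712293371260) (nat_lit 30) (nat_lit 5) (nat_lit 33) (nat_lit 5) (nat_lit 31) (nat_lit 4) (nat_lit 358) (nat_lit 343) (nat_lit 199)) (XT.nd (nat_lit 78) (nat_lit 152) (nat_lit 0) (XT.lf (nat_lit 0) (nat_lit 162098482384) (nat_lit 152) (nat_lit 1587197917652) (nat_lit 76) (nat_lit 4489462126407) (nat_lit 28) (nat_lit 5) (nat_lit 30) (nat_lit 5) (nat_lit 29) (nat_lit 5) (nat_lit 359) (nat_lit 343) (nat_lit 198)) (XT.lf (nat_lit 0) (nat_lit 3029392134839) (nat_lit 228) (nat_lit 1732408137533) (nat_lit 76) (nat_lit 2094795656771) (nat_lit 26) (nat_lit 5) (nat_lit 29) (nat_lit 5) (nat_lit 27) (nat_lit 4) (nat_lit 360) (nat_lit 343) (nat_lit 197)))) (XT.nd (nat_lit 156) (nat_lit 228) (nat_lit 0) (XT.nd (nat_lit 78) (nat_lit 152) (nat_lit 0) (XT.lf (nat_lit 0) (nat_lit 5605829915240) (nat_lit 76) (nat_lit 951561284124)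 (nat_lit 152) (nat_lit 991268833747) (nat_lit 25) (nat_lit 5) (nat_lit 26) (nat_lit 5) (nat_lit 27) (nat_lit 4) (nat_lit 361) (nat_lit 343) (nat_lit 196)) (XT.lf (nat_lit 0) (nat_lit 2442941669889) (nat_lit 152) (nat_lit 2357147790232) (nat_lit 76) (nat_lit 3517161282734) (nat_lit 23) (nat_lit 5) (nat_lit 25) (nat_lit 5) (nat_lit 24) (nat_lit 4) (nat_lit 362) (nat_lit 343) (nat_lit 195))) (XT.nd (nat_lit 78) (nat_lit 152) (nat_lit 0) (XT.lf (nat_lit 0) (nat_lit 6225757428350) (nat_lit 76) (nat_lit 343580981727) (nat_lit 152) (nat_lit 2610871962569) (nat_lit 22) (nat_lit 5) (nat_lit 23) (nat_lit 5) (nat_lit 24) (nat_lit 4) (nat_lit 363) (nat_lit 343) (nat_lit 194)) (XT.lf (nat_lit 0) (nat_lit 1429839801143) (nat_lit 152) (nat_lit 3913402163147) (nat_lit 76) (nat_lit 4799583369961) (nat_lit 20) (nat_lit 5) (nat_lit 22) (nat_lit 5) (nat_lit 21) (nat_lit 4) (nat_lit 364) (nat_lit 343) (nat_lit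 193))))) (XT.nd (nat_lit 312) (nat_lit 76) (nat_lit 0) (XT.nd (nat_lit 156) (nat_lit 228) (nat_lit 0) (XT.nd (nat_lit 78) (nat_lit 76) (nat_lit 0) (XT.lf (nat_lit 0) (nat_lit 5940039929797) (nat_lit 76) (nat_lit 227031647140) (nat_lit 152) (nat_lit 5057735294428) (nat_lit 19) (nat_lit 5) (nat_lit 20) (nat_lit 5) (nat_lit 21) (nat_lit 4) (nat_lit 365) (nat_lit 343) (nat_lit 192)) (XT.lf (nat_lit 0) (nat_lit 5168036361388) (nat_lit 76) (nat_lit 6824078598016) (nat_lit 76) (nat_lit 446792532418) (nat_lit 18) (nat_lit 4) (nat_lit 19) (nat_lit 5) (nat_lit 19) (nat_lit 4) (nat_lit 366) (nat_lit 343) (nat_lit 191))) (XT.nd (nat_lit 78) (nat_lit 76) (nat_lit 0) (XT.lf (nat_lit 0) (nat_lit 3746324100541) (nat_lit 76) (nat_lit 1120796171878) (nat_lit 152) (nat_lit 8938321581052) (nat_lit 16) (nat_lit 5) (nat_lit 17) (nat_lit 5) (nat_lit 18) (nat_lit 4) (nat_lit 367) (nat_lit 343) (nat_lit 190)) (XT.lf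 (nat_lit 0) (nat_lit 1418709421700) (nat_lit 76) (nat_lit 9915793024731) (nat_lit 76) (nat_lit 4010898518692) (nat_lit 15) (nat_lit 4) (nat_lit 16) (nat_lit 5) (nat_lit 16) (nat_lit 4) (nat_lit 368) (nat_lit 343) (nat_lit 189)))) (XT.nd (nat_lit 45006) (nat_lit 0) (nat_lit 3800) (XT.nd (nat_lit 44928) (nat_lit 0) (nat_lit 3800) (XT.lf (nat_lit 0) (nat_lit 1904281888618) (nat_lit 152) (nat_lit 1943988178058) (nat_lit 76) (nat_lit 13238381177834) (nat_lit 14) (nat_lit 5) (nat_lit 16) (nat_lit 5) (nat_lit 15) (nat_lit 4) (nat_lit 369) (nat_lit 343) (nat_lit 188)) (XT.lf (nat_lit 0) (nat_lit 840149256451) (nat_lit 532) (nat_lit 56268203243) (nat_lit 532) (nat_lit 56268203243) (nat_lit 64) (nat_lit 3) (nat_lit 71) (nat_lit 3) (nat_lit 71) (nat_lit 5) (nat_lit 344) (nat_lit 344) (nat_lit 212))) (XT.nd (nat_lit 78) (nat_lit 0) (nat_lit 76) (XT.lf (nat_lit 76) (nat_lit 1709355072099) (nat_lit 0)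 (nat_lit 138075890233) (nat_lit 532) (nat_lit 197554408076) (nat_lit 65) (nat_lit 5) (nat_lit 64) (nat_lit 3) (nat_lit 71) (nat_lit 5) (nat_lit 345) (nat_lit 344) (nat_lit 211)) (XT.lf (nat_lit 76) (nat_lit 1645867776438) (nat_lit 0) (nat_lit 479155949135) (nat_lit 532) (nat_lit 73686560344) (nat_lit 66) (nat_lit 5) (nat_lit 65) (nat_lit 5) (nat_lit 72) (nat_lit 5) (nat_lit 346) (nat_lit 344) (nat_lit 210)))))) (XT.nd (nat_lit 624) (nat_lit 1216) (nat_lit 0) (XT.nd (nat_lit 312) (nat_lit 836) (nat_lit 0) (XT.nd (nat_lit 156) (nat_lit 532) (nat_lit 0) (XT.nd (nat_lit 78) (nat_lit 0) (nat_lit 76) (XT.lf (nat_lit 0) (nat_lit 155523411869) (nat_lit 532) (nat_lit 760976757059) (nat_lit 608) (nat_lit 1451645338697) (nat_lit 59) (nat_lit 5) (nat_lit 66) (nat_lit 5) (nat_lit 67) (nat_lit 5) (nat_lit 347) (nat_lit 344) (nat_lit 209)) (XT.lf (nat_lit 0) (nat_lit 511347349736) (nat_lit 532) (nat_lit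 956134520555) (nat_lit 76) (nat_lit 1087633384452) (nat_lit 60) (nat_lit 5) (nat_lit 67) (nat_lit 5) (nat_lit 61) (nat_lit 5) (nat_lit 348) (nat_lit 344) (nat_lit 208))) (XT.nd (nat_lit 78) (nat_lit 228) (nat_lit 0) (XT.lf (nat_lit 0) (nat_lit 1023602323697) (nat_lit 456) (nat_lit 1131351770824) (nat_lit 76) (nat_lit 606931773779) (nat_lit 55) (nat_lit 5) (nat_lit 61) (nat_lit 5) (nat_lit 56) (nat_lit 5) (nat_lit 349) (nat_lit 344) (nat_lit 207)) (XT.lf (nat_lit 0) (nat_lit 1709883838566) (nat_lit 228) (nat_lit 13081231929) (nat_lit 304) (nat_lit 1267885441257) (nat_lit 52) (nat_lit 5) (nat_lit 55) (nat_lit 5) (nat_lit 56) (nat_lit 5) (nat_lit 350) (nat_lit 344) (nat_lit 206)))) (XT.nd (nat_lit 156) (nat_lit 380) (nat_lit 0) (XT.nd (nat_lit 78) (nat_lit 228) (nat_lit 0) (XT.lf (nat_lit 0) (nat_lit 1825847663557) (nat_lit 228) (nat_lit 838014171243) (nat_lit 304) (nat_lit 579367648488) (nat_lit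 49) (nat_lit 5) (nat_lit 52) (nat_lit 5) (nat_lit 53) (nat_lit 5) (nat_lit 351) (nat_lit 344) (nat_lit 205)) (XT.lf (nat_lit 0) (nat_lit 331656864887) (nat_lit 228) (nat_lit 1526716545578) (nat_lit 76) (nat_lit 1664294734468) (nat_lit 46) (nat_lit 5) (nat_lit 49) (nat_lit 5) (nat_lit 47) (nat_lit 5) (nat_lit 352) (nat_lit 344) (nat_lit 204))) (XT.nd (nat_lit 78) (nat_lit 152) (nat_lit 0) (XT.lf (nat_lit 0) (nat_lit 1483930352225) (nat_lit 304) (nat_lit 1613696972370) (nat_lit 76) (nat_lit 734079374243) (nat_lit 43) (nat_lit 5) (nat_lit 47) (nat_lit 5) (nat_lit 44) (nat_lit 5) (nat_lit 353) (nat_lit 344) (nat_lit 203)) (XT.lf (nat_lit 0) (nat_lit 2506169326791) (nat_lit 152) (nat_lit 460150201655) (nat_lit 228) (nat_lit 1208199534120) (nat_lit 41) (nat_lit 5) (nat_lit 43) (nat_lit 5) (nat_lit 44) (nat_lit 5) (nat_lit 354) (nat_lit 344) (nat_lit 202))))) (XT.nd (nat_lit 312) (nat_lit 532)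 (nat_lit 0) (XT.nd (nat_lit 156) (nat_lit 304) (nat_lit 0) (XT.nd (nat_lit 78) (nat_lit 152) (nat_lit 0) (XT.lf (nat_lit 0) (nat_lit 280619897820) (nat_lit 228) (nat_lit 1705017979650) (nat_lit 76) (nat_lit 2568244611577) (nat_lit 38) (nat_lit 5) (nat_lit 41) (nat_lit 5) (nat_lit 39) (nat_lit 5) (nat_lit 355) (nat_lit 344) (nat_lit 201)) (XT.lf (nat_lit 0) (nat_lit 2093684767391) (nat_lit 228) (nat_lit 1730435130067) (nat_lit 76) (nat_lit 1149723074132) (nat_lit 36) (nat_lit 5) (nat_lit 39) (nat_lit 5) (nat_lit 37) (nat_lit 5) (nat_lit 356) (nat_lit 344) (nat_lit 200))) (XT.nd (nat_lit 78) (nat_lit 152) (nat_lit 0) (XT.lf (nat_lit 0) (nat_lit 3714109518043) (nat_lit 152) (nat_lit 659771213823) (nat_lit 228) (nat_lit 1067303085491) (nat_lit 34) (nat_lit 5) (nat_lit 36) (nat_lit 5) (nat_lit 37) (nat_lit 5) (nat_lit 357) (nat_lit 344) (nat_lit 199)) (XT.lf (nat_lit 0) (nat_lit 1197866400584)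 (nat_lit 152) (nat_lit 1745997891566) (nat_lit 76) (nat_lit 3014301096981) (nat_lit 32) (nat_lit 5) (nat_lit 34) (nat_lit 5) (nat_lit 33) (nat_lit 5) (nat_lit 358) (nat_lit 344) (nat_lit 198)))) (XT.nd (nat_lit 156) (nat_lit 228) (nat_lit 0) (XT.nd (nat_lit 78) (nat_lit 152) (nat_lit 0) (XT.lf (nat_lit 0) (nat_lit 3947153133353) (nat_lit 228) (nat_lit 1767582856687) (nat_lit 76) (nat_lit 819137387850) (nat_lit 30) (nat_lit 5) (nat_lit 33) (nat_lit 5) (nat_lit 31) (nat_lit 4) (nat_lit 359) (nat_lit 344) (nat_lit 197)) (XT.lf (nat_lit 0) (nat_lit 186413270684) (nat_lit 152) (nat_lit 1825277577547) (nat_lit 76) (nat_lit 5162881455898) (nat_lit 28) (nat_lit 5) (nat_lit 30) (nat_lit 5) (nat_lit 29) (nat_lit 5) (nat_lit 360) (nat_lit 344) (nat_lit 196))) (XT.nd (nat_lit 78) (nat_lit 76) (nat_lit 0) (XT.lf (nat_lit 0) (nat_lit 3483800969801) (nat_lit 228) (nat_lit 1992269331860) (nat_lit 76) (nat_lit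 2409015015670) (nat_lit 26) (nat_lit 5) (nat_lit 29) (nat_lit 5) (nat_lit 27) (nat_lit 4) (nat_lit 361) (nat_lit 344) (nat_lit 195)) (XT.lf (nat_lit 0) (nat_lit 6446704426603) (nat_lit 76) (nat_lit 1094295466059) (nat_lit 152) (nat_lit 1139959144341) (nat_lit 25) (nat_lit 5) (nat_lit 26) (nat_lit 5) (nat_lit 27) (nat_lit 4) (nat_lit 362) (nat_lit 344) (nat_lit 194))))))))
noncomputable def xc60 : XT := (XT.nd (nat_lit 92430) (nat_lit 0) (nat_lit 304) (XT.nd (nat_lit 46176) (nat_lit 0) (nat_lit 152) (XT.nd (nat_lit 45552) (nat_lit 0) (nat_lit 2280) (XT.nd (nat_lit 234) (nat_lit 304) (nat_lit 0) (XT.nd (nat_lit 78) (nat_lit 228) (nat_lit 0) (XT.lf (nat_lit 0) (nat_lit 2809382933117) (nat_lit 152) (nat_lit 2710719935304) (nat_lit 76) (nat_lit 4044735484840) (nat_lit 23) (nat_lit 5) (nat_lit 25) (nat_lit 5) (nat_lit 24) (nat_lit 4) (nat_lit 363) (nat_lit 344) (nat_lit 193)) (XT.nd (nat_lit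 78) (nat_lit 152) (nat_lit 0) (XT.lf (nat_lit 0) (nat_lit 7159621064079) (nat_lit 76) (nat_lit 395118119108) (nat_lit 152) (nat_lit 3002502744426) (nat_lit 22) (nat_lit 5) (nat_lit 23) (nat_lit 5) (nat_lit 24) (nat_lit 4) (nat_lit 364) (nat_lit 344) (nat_lit 192)) (XT.lf (nat_lit 0) (nat_lit 1644315782377) (nat_lit 152) (nat_lit 4500412466741) (nat_lit 76) (nat_lit 5519520884383) (nat_lit 20) (nat_lit 5) (nat_lit 22) (nat_lit 5) (nat_lit 21) (nat_lit 4) (nat_lit 365) (nat_lit 344) (nat_lit 191)))) (XT.nd (nat_lit 156) (nat_lit 152) (nat_lit 0) (XT.nd (nat_lit 78) (nat_lit 76) (nat_lit 0) (XT.lf (nat_lit 0) (nat_lit 6831045938377) (nat_lit 76) (nat_lit 261086385179) (nat_lit 152) (nat_lit 5816395577706) (nat_lit 19) (nat_lit 5) (nat_lit 20) (nat_lit 5) (nat_lit 21) (nat_lit 4) (nat_lit 366) (nat_lit 344) (nat_lit 190)) (XT.lf (nat_lit 0) (nat_lit 5943241833630) (nat_lit 76) (nat_lit 7847690379071)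 (nat_lit 76) (nat_lit 513811402141) (nat_lit 18) (nat_lit 4) (nat_lit 19) (nat_lit 5) (nat_lit 19) (nat_lit 4) (nat_lit 367) (nat_lit 344) (nat_lit 189))) (XT.nd (nat_lit 45084) (nat_lit 0) (nat_lit 3648) (XT.lf (nat_lit 0) (nat_lit 4308272732596) (nat_lit 76) (nat_lit 1288915589471) (nat_lit 152) (nat_lit 10279069808721) (nat_lit 16) (nat_lit 5) (nat_lit 17) (nat_lit 5) (nat_lit 18) (nat_lit 4) (nat_lit 368) (nat_lit 344) (nat_lit 188)) (XT.lf (nat_lit 0) (nat_lit 966171674030) (nat_lit 532) (nat_lit 64708417995) (nat_lit 532) (nat_lit 64708417995) (nat_lit 64) (nat_lit 3) (nat_lit 71) (nat_lit 3) (nat_lit 71) (nat_lit 5) (nat_lit 345) (nat_lit 345) (nat_lit 210))))) (XT.nd (nat_lit 312) (nat_lit 988) (nat_lit 0) (XT.nd (nat_lit 156) (nat_lit 380) (nat_lit 0) (XT.nd (nat_lit 78) (nat_lit 0) (nat_lit 76) (XT.lf (nat_lit 76) (nat_lit 1965758361719) (nat_lit 0) (nat_lit 158787296286) (nat_lit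 532) (nat_lit 227187513811) (nat_lit 65) (nat_lit 5) (nat_lit 64) (nat_lit 3) (nat_lit 71) (nat_lit 5) (nat_lit 346) (nat_lit 345) (nat_lit 209)) (XT.lf (nat_lit 76) (nat_lit 1892747973568) (nat_lit 0) (nat_lit 551029355736) (nat_lit 532) (nat_lit 84739495867) (nat_lit 66) (nat_lit 5) (nat_lit 65) (nat_lit 5) (nat_lit 72) (nat_lit 5) (nat_lit 347) (nat_lit 345) (nat_lit 208))) (XT.nd (nat_lit 78) (nat_lit 0) (nat_lit 76) (XT.lf (nat_lit 0) (nat_lit 178851964214) (nat_lit 532) (nat_lit 875123236740) (nat_lit 608) (nat_lit 1669392129536) (nat_lit 59) (nat_lit 5) (nat_lit 66) (nat_lit 5) (nat_lit 67) (nat_lit 5) (nat_lit 348) (nat_lit 345) (nat_lit 207)) (XT.lf (nat_lit 0) (nat_lit 588049488095) (nat_lit 532) (nat_lit 1099554664597) (nat_lit 76) (nat_lit 1250778387361) (nat_lit 60) (nat_lit 5) (nat_lit 67) (nat_lit 5) (nat_lit 61) (nat_lit 5) (nat_lit 349) (nat_lit 345) (nat_lit 206)))) (XT.nd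 (nat_lit 156) (nat_lit 456) (nat_lit 0) (XT.nd (nat_lit 78) (nat_lit 228) (nat_lit 0) (XT.lf (nat_lit 0) (nat_lit 1177142704197) (nat_lit 456) (nat_lit 1301054502686) (nat_lit 76) (nat_lit 697971539080) (nat_lit 55) (nat_lit 5) (nat_lit 61) (nat_lit 5) (nat_lit 56) (nat_lit 5) (nat_lit 350) (nat_lit 345) (nat_lit 205)) (XT.lf (nat_lit 0) (nat_lit 1966366445255) (nat_lit 228) (nat_lit 15043414338) (nat_lit 304) (nat_lit 1458068226619) (nat_lit 52) (nat_lit 5) (nat_lit 55) (nat_lit 5) (nat_lit 56) (nat_lit 5) (nat_lit 351) (nat_lit 345) (nat_lit 204))) (XT.nd (nat_lit 78) (nat_lit 228) (nat_lit 0) (XT.lf (nat_lit 0) (nat_lit 2099724843435) (nat_lit 228) (nat_lit 963716292167) (nat_lit 304) (nat_lit 666272768113) (nat_lit 49) (nat_lit 5) (nat_lit 52) (nat_lit 5) (nat_lit 53) (nat_lit 5) (nat_lit 352) (nat_lit 345) (nat_lit 203)) (XT.lf (nat_lit 0) (nat_lit 381405418291) (nat_lit 228) (nat_lit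 1755723996591) (nat_lit 76) (nat_lit 1913938949883) (nat_lit 46) (nat_lit 5) (nat_lit 49) (nat_lit 5) (nat_lit 47) (nat_lit 5) (nat_lit 353) (nat_lit 345) (nat_lit 202)))))) (XT.nd (nat_lit 546) (nat_lit 912) (nat_lit 0) (XT.nd (nat_lit 234) (nat_lit 608) (nat_lit 0) (XT.nd (nat_lit 78) (nat_lit 380) (nat_lit 0) (XT.lf (nat_lit 0) (nat_lit 1706519926487) (nat_lit 304) (nat_lit 1855751488464) (nat_lit 76) (nat_lit 844191286985) (nat_lit 43) (nat_lit 5) (nat_lit 47) (nat_lit 5) (nat_lit 44) (nat_lit 5) (nat_lit 354) (nat_lit 345) (nat_lit 201)) (XT.nd (nat_lit 78) (nat_lit 228) (nat_lit 0) (XT.lf (nat_lit 0) (nat_lit 2882094753052) (nat_lit 152) (nat_lit 529172723949) (nat_lit 228) (nat_lit 1389429443395) (nat_lit 41) (nat_lit 5) (nat_lit 43) (nat_lit 5) (nat_lit 44) (nat_lit 5) (nat_lit 355) (nat_lit 345) (nat_lit 200)) (XT.lf (nat_lit 0) (nat_lit 322712900528) (nat_lit 228) (nat_lit 1960770649454)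 (nat_lit 76) (nat_lit 2953481310970) (nat_lit 38) (nat_lit 5) (nat_lit 41) (nat_lit 5) (nat_lit 39) (nat_lit 5) (nat_lit 356) (nat_lit 345) (nat_lit 199)))) (XT.nd (nat_lit 156) (nat_lit 304) (nat_lit 0) (XT.nd (nat_lit 78) (nat_lit 152) (nat_lit 0) (XT.lf (nat_lit 0) (nat_lit 2407737498986) (nat_lit 228) (nat_lit 1990000373626) (nat_lit 76) (nat_lit 1322181543390) (nat_lit 36) (nat_lit 5) (nat_lit 39) (nat_lit 5) (nat_lit 37) (nat_lit 5) (nat_lit 357) (nat_lit 345) (nat_lit 198)) (XT.lf (nat_lit 0) (nat_lit 4271225969504) (nat_lit 152) (nat_lit 758736887050) (nat_lit 228) (nat_lit 1227398532208) (nat_lit 34) (nat_lit 5) (nat_lit 36) (nat_lit 5) (nat_lit 37) (nat_lit 5) (nat_lit 358) (nat_lit 345) (nat_lit 197))) (XT.nd (nat_lit 78) (nat_lit 152) (nat_lit 0) (XT.lf (nat_lit 0) (nat_lit 1377546374726) (nat_lit 152) (nat_lit 2007897551908) (nat_lit 76) (nat_lit 3466446269737) (nat_lit 32)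 (nat_lit 5) (nat_lit 34) (nat_lit 5) (nat_lit 33) (nat_lit 5) (nat_lit 359) (nat_lit 345) (nat_lit 196)) (XT.lf (nat_lit 0) (nat_lit 4539226116301) (nat_lit 228) (nat_lit 2032720262963) (nat_lit 76) (nat_lit 942008004270) (nat_lit 30) (nat_lit 5) (nat_lit 33) (nat_lit 5) (nat_lit 31) (nat_lit 4) (nat_lit 360) (nat_lit 345) (nat_lit 195))))) (XT.nd (nat_lit 312) (nat_lit 380) (nat_lit 0) (XT.nd (nat_lit 156) (nat_lit 228) (nat_lit 0) (XT.nd (nat_lit 78) (nat_lit 152) (nat_lit 0) (XT.lf (nat_lit 0) (nat_lit 214375273341) (nat_lit 152) (nat_lit 2099069193195) (nat_lit 76) (nat_lit 5937313682245) (nat_lit 28) (nat_lit 5) (nat_lit 30) (nat_lit 5) (nat_lit 29) (nat_lit 5) (nat_lit 361) (nat_lit 345) (nat_lit 194)) (XT.lf (nat_lit 0) (nat_lit 4006371126414) (nat_lit 228) (nat_lit 2291109711750) (nat_lit 76) (nat_lit 2770367275872) (nat_lit 26) (nat_lit 5) (nat_lit 29) (nat_lit 5) (nat_lit 27)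 (nat_lit 4) (nat_lit 362) (nat_lit 345) (nat_lit 193))) (XT.nd (nat_lit 78) (nat_lit 152) (nat_lit 0) (XT.lf (nat_lit 0) (nat_lit 7413710108799) (nat_lit 76) (nat_lit 1258439777890) (nat_lit 152) (nat_lit 1310953005051) (nat_lit 25) (nat_lit 5) (nat_lit 26) (nat_lit 5) (nat_lit 27) (nat_lit 4) (nat_lit 363) (nat_lit 345) (nat_lit 192)) (XT.lf (nat_lit 0) (nat_lit 3230790382720) (nat_lit 152) (nat_lit 3117327907859) (nat_lit 76) (nat_lit 4651445814898) (nat_lit 23) (nat_lit 5) (nat_lit 25) (nat_lit 5) (nat_lit 24) (nat_lit 4) (nat_lit 364) (nat_lit 345) (nat_lit 191)))) (XT.nd (nat_lit 156) (nat_lit 152) (nat_lit 0) (XT.nd (nat_lit 78) (nat_lit 152) (nat_lit 0) (XT.lf (nat_lit 0) (nat_lit 8233564239931) (nat_lit 76) (nat_lit 454385829504) (nat_lit 152) (nat_lit 3452878146616) (nat_lit 22) (nat_lit 5) (nat_lit 23) (nat_lit 5) (nat_lit 24) (nat_lit 4) (nat_lit 365) (nat_lit 345) (nat_lit 190))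 (XT.lf (nat_lit 0) (nat_lit 1890963158098) (nat_lit 152) (nat_lit 5175474320966) (nat_lit 76) (nat_lit 6347449023792) (nat_lit 20) (nat_lit 5) (nat_lit 22) (nat_lit 5) (nat_lit 21) (nat_lit 4) (nat_lit 366) (nat_lit 345) (nat_lit 189))) (XT.nd (nat_lit 78) (nat_lit 76) (nat_lit 0) (XT.lf (nat_lit 0) (nat_lit 7855702843584) (nat_lit 76) (nat_lit 300249336127) (nat_lit 152) (nat_lit 6688854906129) (nat_lit 19) (nat_lit 5) (nat_lit 20) (nat_lit 5) (nat_lit 21) (nat_lit 4) (nat_lit 367) (nat_lit 345) (nat_lit 188)) (XT.lf (nat_lit 0) (nat_lit 6834728122311) (nat_lit 76) (nat_lit 9024843929394) (nat_lit 76) (nat_lit 590883104795) (nat_lit 18) (nat_lit 4) (nat_lit 19) (nat_lit 5) (nat_lit 19) (nat_lit 4) (nat_lit 368) (nat_lit 345) (nat_lit 187))))))) (XT.nd (nat_lit 1170) (nat_lit 912) (nat_lit 0) (XT.nd (nat_lit 546) (nat_lit 1520) (nat_lit 0) (XT.nd (nat_lit 234) (nat_lit 912) (nat_lit 0)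 (XT.nd (nat_lit 78) (nat_lit 0) (nat_lit 0) (XT.lf (nat_lit 0) (nat_lit 1111097447148) (nat_lit 532) (nat_lit 74414668797) (nat_lit 532) (nat_lit 74414668797) (nat_lit 64) (nat_lit 3) (nat_lit 71) (nat_lit 3) (nat_lit 71) (nat_lit 5) (nat_lit 346) (nat_lit 346) (nat_lit 208)) (XT.nd (nat_lit 78) (nat_lit 0) (nat_lit 76) (XT.lf (nat_lit 76) (nat_lit 2260622137758) (nat_lit 0) (nat_lit 182605407755) (nat_lit 532) (nat_lit 261265598934) (nat_lit 65) (nat_lit 5) (nat_lit 64) (nat_lit 3) (nat_lit 71) (nat_lit 5) (nat_lit 347) (nat_lit 346) (nat_lit 207)) (XT.lf (nat_lit 76) (nat_lit 2176660192791) (nat_lit 0) (nat_lit 633683769856) (nat_lit 532) (nat_lit 97450383553) (nat_lit 66) (nat_lit 5) (nat_lit 65) (nat_lit 5) (nat_lit 72) (nat_lit 5) (nat_lit 348) (nat_lit 346) (nat_lit 206)))) (XT.nd (nat_lit 156) (nat_lit 532) (nat_lit 0) (XT.nd (nat_lit 78) (nat_lit 0) (nat_lit 76) (XT.lf (nat_lit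 0) (nat_lit 205679789518) (nat_lit 532) (nat_lit 1006391696635) (nat_lit 608) (nat_lit 1919800941431) (nat_lit 59) (nat_lit 5) (nat_lit 66) (nat_lit 5) (nat_lit 67) (nat_lit 5) (nat_lit 349) (nat_lit 346) (nat_lit 205)) (XT.lf (nat_lit 0) (nat_lit 676256938454) (nat_lit 532) (nat_lit 1264487838547) (nat_lit 76) (nat_lit 1438395141867) (nat_lit 60) (nat_lit 5) (nat_lit 67) (nat_lit 5) (nat_lit 61) (nat_lit 5) (nat_lit 350) (nat_lit 346) (nat_lit 204))) (XT.nd (nat_lit 78) (nat_lit 228) (nat_lit 0) (XT.lf (nat_lit 0) (nat_lit 1353714133983) (nat_lit 456) (nat_lit 1496212652560) (nat_lit 76) (nat_lit 802667269364) (nat_lit 55) (nat_lit 5) (nat_lit 61) (nat_lit 5) (nat_lit 56) (nat_lit 5) (nat_lit 351) (nat_lit 346) (nat_lit 203)) (XT.lf (nat_lit 0) (nat_lit 2261321435411) (nat_lit 228) (nat_lit 17299924688) (nat_lit 304) (nat_lit 1676778437303) (nat_lit 52) (nat_lit 5) (nat_lit 55) (nat_lit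 5) (nat_lit 56) (nat_lit 5) (nat_lit 352) (nat_lit 346) (nat_lit 202))))) (XT.nd (nat_lit 312) (nat_lit 684) (nat_lit 0) (XT.nd (nat_lit 156) (nat_lit 380) (nat_lit 0) (XT.nd (nat_lit 78) (nat_lit 228) (nat_lit 0) (XT.lf (nat_lit 0) (nat_lit 2414683592896) (nat_lit 228) (nat_lit 1108273732390) (nat_lit 304) (nat_lit 766213662425) (nat_lit 49) (nat_lit 5) (nat_lit 52) (nat_lit 5) (nat_lit 53) (nat_lit 5) (nat_lit 353) (nat_lit 346) (nat_lit 201)) (XT.lf (nat_lit 0) (nat_lit 438616248933) (nat_lit 228) (nat_lit 2019082572772) (nat_lit 76) (nat_lit 2201029796331) (nat_lit 46) (nat_lit 5) (nat_lit 49) (nat_lit 5) (nat_lit 47) (nat_lit 5) (nat_lit 354) (nat_lit 346) (nat_lit 200))) (XT.nd (nat_lit 78) (nat_lit 152) (nat_lit 0) (XT.lf (nat_lit 0) (nat_lit 1962497931664) (nat_lit 304) (nat_lit 2134114189229) (nat_lit 76) (nat_lit 970819985027) (nat_lit 43) (nat_lit 5) (nat_lit 47) (nat_lit 5)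 (nat_lit 44) (nat_lit 5) (nat_lit 355) (nat_lit 346) (nat_lit 199)) (XT.lf (nat_lit 0) (nat_lit 3314408986610) (nat_lit 152) (nat_lit 608548626527) (nat_lit 228) (nat_lit 1597843844143) (nat_lit 41) (nat_lit 5) (nat_lit 43) (nat_lit 5) (nat_lit 44) (nat_lit 5) (nat_lit 356) (nat_lit 346) (nat_lit 198)))) (XT.nd (nat_lit 156) (nat_lit 304) (nat_lit 0) (XT.nd (nat_lit 78) (nat_lit 152) (nat_lit 0) (XT.lf (nat_lit 0) (nat_lit 371119849245) (nat_lit 228) (nat_lit 2254886226347) (nat_lit 76) (nat_lit 3396503513405) (nat_lit 38) (nat_lit 5) (nat_lit 41) (nat_lit 5) (nat_lit 39) (nat_lit 5) (nat_lit 357) (nat_lit 346) (nat_lit 197)) (XT.lf (nat_lit 0) (nat_lit 2768898136300) (nat_lit 228) (nat_lit 2288500410047) (nat_lit 76) (nat_lit 1520508781051) (nat_lit 36) (nat_lit 5) (nat_lit 39) (nat_lit 5) (nat_lit 37) (nat_lit 5) (nat_lit 358) (nat_lit 346) (nat_lit 196))) (XT.nd (nat_lit 78) (nat_lit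 152) (nat_lit 0) (XT.lf (nat_lit 0) (nat_lit 4911909882892) (nat_lit 152) (nat_lit 872547413417) (nat_lit 228) (nat_lit 1411508299860) (nat_lit 34) (nat_lit 5) (nat_lit 36) (nat_lit 5) (nat_lit 37) (nat_lit 5) (nat_lit 359) (nat_lit 346) (nat_lit 195)) (XT.lf (nat_lit 0) (nat_lit 1584178341562) (nat_lit 152) (nat_lit 2309082167006) (nat_lit 76) (nat_lit 3986413216405) (nat_lit 32) (nat_lit 5) (nat_lit 34) (nat_lit 5) (nat_lit 33) (nat_lit 5) (nat_lit 360) (nat_lit 346) (nat_lit 194)))))) (XT.nd (nat_lit 45864) (nat_lit 0) (nat_lit 1976) (XT.nd (nat_lit 312) (nat_lit 380) (nat_lit 0) (XT.nd (nat_lit 156) (nat_lit 228) (nat_lit 0) (XT.nd (nat_lit 78) (nat_lit 152) (nat_lit 0) (XT.lf (nat_lit 0) (nat_lit 5220110043534) (nat_lit 228) (nat_lit 2337628285599) (nat_lit 76) (nat_lit 1083309211144) (nat_lit 30) (nat_lit 5) (nat_lit 33) (nat_lit 5) (nat_lit 31) (nat_lit 4) (nat_lit 361) (nat_lit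 346) (nat_lit 193)) (XT.lf (nat_lit 0) (nat_lit 246531573457) (nat_lit 152) (nat_lit 2413929556306) (nat_lit 76) (nat_lit 6827910740603) (nat_lit 28) (nat_lit 5) (nat_lit 30) (nat_lit 5) (nat_lit 29) (nat_lit 5) (nat_lit 362) (nat_lit 346) (nat_lit 192))) (XT.nd (nat_lit 78) (nat_lit 76) (nat_lit 0) (XT.lf (nat_lit 0) (nat_lit 4607326803802) (nat_lit 228) (nat_lit 2634776153473) (nat_lit 76) (nat_lit 3185922373189) (nat_lit 26) (nat_lit 5) (nat_lit 29) (nat_lit 5) (nat_lit 27) (nat_lit 4) (nat_lit 363) (nat_lit 346) (nat_lit 191)) (XT.lf (nat_lit 0) (nat_lit 8525766638885) (nat_lit 76) (nat_lit 1447205738466) (nat_lit 152) (nat_lit 1507595947536) (nat_lit 25) (nat_lit 5) (nat_lit 26) (nat_lit 5) (nat_lit 27) (nat_lit 4) (nat_lit 364) (nat_lit 346) (nat_lit 190)))) (XT.nd (nat_lit 156) (nat_lit 152) (nat_lit 0) (XT.nd (nat_lit 78) (nat_lit 76) (nat_lit 0) (XT.lf (nat_lit 0) (nat_lit 3715408947415)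 (nat_lit 152) (nat_lit 3584927080623) (nat_lit 76) (nat_lit 5349162692676) (nat_lit 23) (nat_lit 5) (nat_lit 25) (nat_lit 5) (nat_lit 24) (nat_lit 4) (nat_lit 365) (nat_lit 346) (nat_lit 189)) (XT.lf (nat_lit 0) (nat_lit 9468598888199) (nat_lit 76) (nat_lit 522543698282) (nat_lit 152) (nat_lit 3970809861446) (nat_lit 22) (nat_lit 5) (nat_lit 23) (nat_lit 5) (nat_lit 24) (nat_lit 4) (nat_lit 366) (nat_lit 346) (nat_lit 188))) (XT.nd (nat_lit 45318) (nat_lit 0) (nat_lit 3344) (XT.lf (nat_lit 0) (nat_lit 2174607638138) (nat_lit 152) (nat_lit 5951795457174) (nat_lit 76) (nat_lit 7299566382466) (nat_lit 20) (nat_lit 5) (nat_lit 22) (nat_lit 5) (nat_lit 21) (nat_lit 4) (nat_lit 367) (nat_lit 346) (nat_lit 187)) (XT.lf (nat_lit 0) (nat_lit 1277762080865) (nat_lit 532) (nat_lit 85576860120) (nat_lit 532) (nat_lit 85576860120) (nat_lit 64) (nat_lit 3) (nat_lit 71) (nat_lit 3) (nat_lit 71) (nat_lit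 5) (nat_lit 347) (nat_lit 347) (nat_lit 206))))) (XT.nd (nat_lit 312) (nat_lit 988) (nat_lit 0) (XT.nd (nat_lit 156) (nat_lit 380) (nat_lit 0) (XT.nd (nat_lit 78) (nat_lit 0) (nat_lit 76) (XT.lf (nat_lit 76) (nat_lit 2599715474891) (nat_lit 0) (nat_lit 209996231793) (nat_lit 532) (nat_lit 300455407056) (nat_lit 65) (nat_lit 5) (nat_lit 64) (nat_lit 3) (nat_lit 71) (nat_lit 5) (nat_lit 348) (nat_lit 347) (nat_lit 205)) (XT.lf (nat_lit 76) (nat_lit 2503159239242) (nat_lit 0) (nat_lit 728736343471) (nat_lit 532) (nat_lit 112067913340) (nat_lit 66) (nat_lit 5) (nat_lit 65) (nat_lit 5) (nat_lit 72) (nat_lit 5) (nat_lit 349) (nat_lit 347) (nat_lit 204))) (XT.nd (nat_lit 78) (nat_lit 0) (nat_lit 76) (XT.lf (nat_lit 0) (nat_lit 236531781139) (nat_lit 532) (nat_lit 1157350431760) (nat_lit 608) (nat_lit 2207771076948) (nat_lit 59) (nat_lit 5) (nat_lit 66) (nat_lit 5) (nat_lit 67) (nat_lit 5) (nat_lit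 350) (nat_lit 347) (nat_lit 203)) (XT.lf (nat_lit 0) (nat_lit 777695499748) (nat_lit 532) (nat_lit 1454160994866) (nat_lit 76) (nat_lit 1654154410426) (nat_lit 60) (nat_lit 5) (nat_lit 67) (nat_lit 5) (nat_lit 61) (nat_lit 5) (nat_lit 351) (nat_lit 347) (nat_lit 202)))) (XT.nd (nat_lit 156) (nat_lit 456) (nat_lit 0) (XT.nd (nat_lit 78) (nat_lit 228) (nat_lit 0) (XT.lf (nat_lit 0) (nat_lit 1556771272346) (nat_lit 456) (nat_lit 1720644531141) (nat_lit 76) (nat_lit 923067359330) (nat_lit 55) (nat_lit 5) (nat_lit 61) (nat_lit 5) (nat_lit 56) (nat_lit 5) (nat_lit 352) (nat_lit 347) (nat_lit 201)) (XT.lf (nat_lit 0) (nat_lit 2600519668393) (nat_lit 228) (nat_lit 19894912030) (nat_lit 304) (nat_lit 1928295185273) (nat_lit 52) (nat_lit 5) (nat_lit 55) (nat_lit 5) (nat_lit 56) (nat_lit 5) (nat_lit 353) (nat_lit 347) (nat_lit 200))) (XT.nd (nat_lit 78) (nat_lit 228) (nat_lit 0) (XT.lf (nat_lit 0)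 (nat_lit 2776886149180) (nat_lit 228) (nat_lit 1274514789526) (nat_lit 304) (nat_lit 881145695981) (nat_lit 49) (nat_lit 5) (nat_lit 52) (nat_lit 5) (nat_lit 53) (nat_lit 5) (nat_lit 354) (nat_lit 347) (nat_lit 199)) (XT.lf (nat_lit 0) (nat_lit 504408699807) (nat_lit 228) (nat_lit 2321944941065) (nat_lit 76) (nat_lit 2531184268779) (nat_lit 46) (nat_lit 5) (nat_lit 49) (nat_lit 5) (nat_lit 47) (nat_lit 5) (nat_lit 355) (nat_lit 347) (nat_lit 198))))))))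
noncomputable def xc61 : XT := (XT.nd (nat_lit 47736) (nat_lit 0) (nat_lit 76) (XT.nd (nat_lit 46488) (nat_lit 0) (nat_lit 228) (XT.nd (nat_lit 546) (nat_lit 608) (nat_lit 0) (XT.nd (nat_lit 234) (nat_lit 608) (nat_lit 0) (XT.nd (nat_lit 78) (nat_lit 380) (nat_lit 0) (XT.lf (nat_lit 0) (nat_lit 2256872633665) (nat_lit 304) (nat_lit 2454231300597) (nat_lit 76) (nat_lit 1116442986558) (nat_lit 43) (nat_lit 5) (nat_lit 47) (nat_lit 5) (nat_lit 44) (nat_lit 5) (nat_lit 356) (nat_lit 347) (nat_lit 197)) (XT.nd (nat_lit 78) (nat_lit 228) (nat_lit 0) (XT.lf (nat_lit 0) (nat_lit 3811570350178) (nat_lit 152) (nat_lit 699830915959) (nat_lit 228) (nat_lit 1837520408847) (nat_lit 41) (nat_lit 5) (nat_lit 43) (nat_lit 5) (nat_lit 44) (nat_lit 5) (nat_lit 357) (nat_lit 347) (nat_lit 196)) (XT.lf (nat_lit 0) (nat_lit 426787836943) (nat_lit 228) (nat_lit 2593119144779) (nat_lit 76) (nat_lit 3905979044794)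 (nat_lit 38) (nat_lit 5) (nat_lit 41) (nat_lit 5) (nat_lit 39) (nat_lit 5) (nat_lit 358) (nat_lit 347) (nat_lit 195)))) (XT.nd (nat_lit 156) (nat_lit 304) (nat_lit 0) (XT.nd (nat_lit 78) (nat_lit 152) (nat_lit 0) (XT.lf (nat_lit 0) (nat_lit 3184232866171) (nat_lit 228) (nat_lit 2631775456717) (nat_lit 76) (nat_lit 1748585102862) (nat_lit 36) (nat_lit 5) (nat_lit 39) (nat_lit 5) (nat_lit 37) (nat_lit 5) (nat_lit 359) (nat_lit 347) (nat_lit 194)) (XT.lf (nat_lit 0) (nat_lit 5648696378907) (nat_lit 152) (nat_lit 1003429520372) (nat_lit 228) (nat_lit 1623234535630) (nat_lit 34) (nat_lit 5) (nat_lit 36) (nat_lit 5) (nat_lit 37) (nat_lit 5) (nat_lit 360) (nat_lit 347) (nat_lit 193))) (XT.nd (nat_lit 78) (nat_lit 152) (nat_lit 0) (XT.lf (nat_lit 0) (nat_lit 1821805100832) (nat_lit 152) (nat_lit 2655444478682) (nat_lit 76) (nat_lit 4584375203559) (nat_lit 32) (nat_lit 5) (nat_lit 34) (nat_lit 5)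 (nat_lit 33) (nat_lit 5) (nat_lit 361) (nat_lit 347) (nat_lit 192)) (XT.lf (nat_lit 0) (nat_lit 6003126557465) (nat_lit 228) (nat_lit 2688272515731) (nat_lit 76) (nat_lit 1245805597528) (nat_lit 30) (nat_lit 5) (nat_lit 33) (nat_lit 5) (nat_lit 31) (nat_lit 4) (nat_lit 362) (nat_lit 347) (nat_lit 191))))) (XT.nd (nat_lit 312) (nat_lit 76) (nat_lit 0) (XT.nd (nat_lit 156) (nat_lit 228) (nat_lit 0) (XT.nd (nat_lit 78) (nat_lit 152) (nat_lit 0) (XT.lf (nat_lit 0) (nat_lit 283511316368) (nat_lit 152) (nat_lit 2776018977754) (nat_lit 76) (nat_lit 7852097356245) (nat_lit 28) (nat_lit 5) (nat_lit 30) (nat_lit 5) (nat_lit 29) (nat_lit 5) (nat_lit 363) (nat_lit 347) (nat_lit 190)) (XT.lf (nat_lit 0) (nat_lit 5298425830744) (nat_lit 228) (nat_lit 3029992565123) (nat_lit 76) (nat_lit 3663810733657) (nat_lit 26) (nat_lit 5) (nat_lit 29) (nat_lit 5) (nat_lit 27) (nat_lit 4) (nat_lit 364) (nat_lit 347)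 (nat_lit 189))) (XT.nd (nat_lit 78) (nat_lit 152) (nat_lit 0) (XT.lf (nat_lit 0) (nat_lit 9804631645127) (nat_lit 76) (nat_lit 1664286594617) (nat_lit 152) (nat_lit 1733735333412) (nat_lit 25) (nat_lit 5) (nat_lit 26) (nat_lit 5) (nat_lit 27) (nat_lit 4) (nat_lit 365) (nat_lit 347) (nat_lit 188)) (XT.lf (nat_lit 0) (nat_lit 4272720295037) (nat_lit 152) (nat_lit 4122666132573) (nat_lit 76) (nat_lit 6151537100769) (nat_lit 23) (nat_lit 5) (nat_lit 25) (nat_lit 5) (nat_lit 24) (nat_lit 4) (nat_lit 366) (nat_lit 347) (nat_lit 187)))) (XT.nd (nat_lit 45474) (nat_lit 0) (nat_lit 3192) (XT.nd (nat_lit 45396) (nat_lit 0) (nat_lit 3192) (XT.lf (nat_lit 0) (nat_lit 10888888730714) (nat_lit 76) (nat_lit 600925248754) (nat_lit 152) (nat_lit 4566431335246) (nat_lit 22) (nat_lit 5) (nat_lit 23) (nat_lit 5) (nat_lit 24) (nat_lit 4) (nat_lit 367) (nat_lit 347) (nat_lit 186)) (XT.lf (nat_lit 0) (nat_lit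 1469426405581) (nat_lit 532) (nat_lit 98413382336) (nat_lit 532) (nat_lit 98413382336) (nat_lit 64) (nat_lit 3) (nat_lit 71) (nat_lit 3) (nat_lit 71) (nat_lit 5) (nat_lit 348) (nat_lit 348) (nat_lit 204))) (XT.nd (nat_lit 78) (nat_lit 0) (nat_lit 76) (XT.lf (nat_lit 76) (nat_lit 2989672808578) (nat_lit 0) (nat_lit 241495676297) (nat_lit 532) (nat_lit 345523694130) (nat_lit 65) (nat_lit 5) (nat_lit 64) (nat_lit 3) (nat_lit 71) (nat_lit 5) (nat_lit 349) (nat_lit 348) (nat_lit 203)) (XT.lf (nat_lit 76) (nat_lit 2878633138385) (nat_lit 0) (nat_lit 838046801144) (nat_lit 532) (nat_lit 128878079361) (nat_lit 66) (nat_lit 5) (nat_lit 65) (nat_lit 5) (nat_lit 72) (nat_lit 5) (nat_lit 350) (nat_lit 348) (nat_lit 202)))))) (XT.nd (nat_lit 624) (nat_lit 1216) (nat_lit 0) (XT.nd (nat_lit 312) (nat_lit 836) (nat_lit 0) (XT.nd (nat_lit 156) (nat_lit 532) (nat_lit 0) (XT.nd (nat_lit 78) (nat_lit 0) (nat_lit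 76) (XT.lf (nat_lit 0) (nat_lit 272011565847) (nat_lit 532) (nat_lit 1330952981878) (nat_lit 608) (nat_lit 2538936734182) (nat_lit 59) (nat_lit 5) (nat_lit 66) (nat_lit 5) (nat_lit 67) (nat_lit 5) (nat_lit 351) (nat_lit 348) (nat_lit 201)) (XT.lf (nat_lit 0) (nat_lit 894349840230) (nat_lit 532) (nat_lit 1672285129379) (nat_lit 76) (nat_lit 1902277569933) (nat_lit 60) (nat_lit 5) (nat_lit 67) (nat_lit 5) (nat_lit 61) (nat_lit 5) (nat_lit 352) (nat_lit 348) (nat_lit 200))) (XT.nd (nat_lit 78) (nat_lit 228) (nat_lit 0) (XT.lf (nat_lit 0) (nat_lit 1790286977010) (nat_lit 456) (nat_lit 1978741196216) (nat_lit 76) (nat_lit 1061527462899) (nat_lit 55) (nat_lit 5) (nat_lit 61) (nat_lit 5) (nat_lit 56) (nat_lit 5) (nat_lit 353) (nat_lit 348) (nat_lit 199)) (XT.lf (nat_lit 0) (nat_lit 2990597632012) (nat_lit 228) (nat_lit 22879147805) (nat_lit 304) (nat_lit 2217539449737) (nat_lit 52) (nat_lit 5)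 (nat_lit 55) (nat_lit 5) (nat_lit 56) (nat_lit 5) (nat_lit 354) (nat_lit 348) (nat_lit 198)))) (XT.nd (nat_lit 156) (nat_lit 380) (nat_lit 0) (XT.nd (nat_lit 78) (nat_lit 228) (nat_lit 0) (XT.lf (nat_lit 0) (nat_lit 3193419084676) (nat_lit 228) (nat_lit 1465692005896) (nat_lit 304) (nat_lit 1013317538425) (nat_lit 49) (nat_lit 5) (nat_lit 52) (nat_lit 5) (nat_lit 53) (nat_lit 5) (nat_lit 355) (nat_lit 348) (nat_lit 197)) (XT.lf (nat_lit 0) (nat_lit 580070015011) (nat_lit 228) (nat_lit 2670236668898) (nat_lit 76) (nat_lit 2910861911363) (nat_lit 46) (nat_lit 5) (nat_lit 49) (nat_lit 5) (nat_lit 47) (nat_lit 5) (nat_lit 356) (nat_lit 348) (nat_lit 196))) (XT.nd (nat_lit 78) (nat_lit 152) (nat_lit 0) (XT.lf (nat_lit 0) (nat_lit 2595403537979) (nat_lit 304) (nat_lit 2822365982819) (nat_lit 76) (nat_lit 1283909437398) (nat_lit 43) (nat_lit 5) (nat_lit 47) (nat_lit 5) (nat_lit 44) (nat_lit 5)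 (nat_lit 357) (nat_lit 348) (nat_lit 195)) (XT.lf (nat_lit 0) (nat_lit 4383305914482) (nat_lit 152) (nat_lit 804805549914) (nat_lit 228) (nat_lit 2113148461163) (nat_lit 41) (nat_lit 5) (nat_lit 43) (nat_lit 5) (nat_lit 44) (nat_lit 5) (nat_lit 358) (nat_lit 348) (nat_lit 194))))) (XT.nd (nat_lit 312) (nat_lit 532) (nat_lit 0) (XT.nd (nat_lit 156) (nat_lit 304) (nat_lit 0) (XT.nd (nat_lit 78) (nat_lit 152) (nat_lit 0) (XT.lf (nat_lit 0) (nat_lit 490806020282) (nat_lit 228) (nat_lit 2982087004761) (nat_lit 76) (nat_lit 4491875904823) (nat_lit 38) (nat_lit 5) (nat_lit 41) (nat_lit 5) (nat_lit 39) (nat_lit 5) (nat_lit 359) (nat_lit 348) (nat_lit 193)) (XT.lf (nat_lit 0) (nat_lit 3661867803224) (nat_lit 228) (nat_lit 3026541764005) (nat_lit 76) (nat_lit 2010872871809) (nat_lit 36) (nat_lit 5) (nat_lit 39) (nat_lit 5) (nat_lit 37) (nat_lit 5) (nat_lit 360) (nat_lit 348) (nat_lit 192))) (XT.nd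 (nat_lit 78) (nat_lit 152) (nat_lit 0) (XT.lf (nat_lit 0) (nat_lit 6496000846013) (nat_lit 152) (nat_lit 1153943944603) (nat_lit 228) (nat_lit 1866719709011) (nat_lit 34) (nat_lit 5) (nat_lit 36) (nat_lit 5) (nat_lit 37) (nat_lit 5) (nat_lit 361) (nat_lit 348) (nat_lit 191)) (XT.lf (nat_lit 0) (nat_lit 2095075872032) (nat_lit 152) (nat_lit 3053761140371) (nat_lit 76) (nat_lit 5272031487642) (nat_lit 32) (nat_lit 5) (nat_lit 34) (nat_lit 5) (nat_lit 33) (nat_lit 5) (nat_lit 362) (nat_lit 348) (nat_lit 190)))) (XT.nd (nat_lit 156) (nat_lit 228) (nat_lit 0) (XT.nd (nat_lit 78) (nat_lit 152) (nat_lit 0) (XT.lf (nat_lit 0) (nat_lit 6903595546681) (nat_lit 228) (nat_lit 3091513383481) (nat_lit 76) (nat_lit 1432676440721) (nat_lit 30) (nat_lit 5) (nat_lit 33) (nat_lit 5) (nat_lit 31) (nat_lit 4) (nat_lit 363) (nat_lit 348) (nat_lit 189)) (XT.lf (nat_lit 0) (nat_lit 326038019035) (nat_lit 152)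 (nat_lit 3192421815344) (nat_lit 76) (nat_lit 9029911963125) (nat_lit 28) (nat_lit 5) (nat_lit 30) (nat_lit 5) (nat_lit 29) (nat_lit 5) (nat_lit 364) (nat_lit 348) (nat_lit 188))) (XT.nd (nat_lit 78) (nat_lit 76) (nat_lit 0) (XT.lf (nat_lit 0) (nat_lit 6093189710173) (nat_lit 228) (nat_lit 3484491441293) (nat_lit 76) (nat_lit 4213382347100) (nat_lit 26) (nat_lit 5) (nat_lit 29) (nat_lit 5) (nat_lit 27) (nat_lit 4) (nat_lit 365) (nat_lit 348) (nat_lit 187)) (XT.lf (nat_lit 0) (nat_lit 11275326399767) (nat_lit 76) (nat_lit 1913929580317) (nat_lit 152) (nat_lit 1993795628694) (nat_lit 25) (nat_lit 5) (nat_lit 26) (nat_lit 5) (nat_lit 27) (nat_lit 4) (nat_lit 366) (nat_lit 348) (nat_lit 186))))))) (XT.nd (nat_lit 46566) (nat_lit 0) (nat_lit 228) (XT.nd (nat_lit 45942) (nat_lit 0) (nat_lit 836) (XT.nd (nat_lit 45630) (nat_lit 0) (nat_lit 2432) (XT.nd (nat_lit 45474) (nat_lit 0) (nat_lit 3116)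 (XT.lf (nat_lit 0) (nat_lit 4913628343458) (nat_lit 152) (nat_lit 4741066044789) (nat_lit 76) (nat_lit 7074267669054) (nat_lit 23) (nat_lit 5) (nat_lit 25) (nat_lit 5) (nat_lit 24) (nat_lit 4) (nat_lit 367) (nat_lit 348) (nat_lit 185)) (XT.nd (nat_lit 78) (nat_lit 0) (nat_lit 0) (XT.lf (nat_lit 0) (nat_lit 1689840375935) (nat_lit 532) (nat_lit 113175384543) (nat_lit 532) (nat_lit 113175384543) (nat_lit 64) (nat_lit 3) (nat_lit 71) (nat_lit 3) (nat_lit 71) (nat_lit 5) (nat_lit 349) (nat_lit 349) (nat_lit 202)) (XT.lf (nat_lit 76) (nat_lit 3438123739282) (nat_lit 0) (nat_lit 277720035103) (nat_lit 532) (nat_lit 397352230115) (nat_lit 65) (nat_lit 5) (nat_lit 64) (nat_lit 3) (nat_lit 71) (nat_lit 5) (nat_lit 350) (nat_lit 349) (nat_lit 201)))) (XT.nd (nat_lit 156) (nat_lit 304) (nat_lit 0) (XT.nd (nat_lit 78) (nat_lit 456) (nat_lit 0) (XT.lf (nat_lit 76) (nat_lit 3310428119167) (nat_lit 0)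 (nat_lit 963753825967) (nat_lit 532) (nat_lit 148209775401) (nat_lit 66) (nat_lit 5) (nat_lit 65) (nat_lit 5) (nat_lit 72) (nat_lit 5) (nat_lit 351) (nat_lit 349) (nat_lit 200)) (XT.lf (nat_lit 0) (nat_lit 312813313985) (nat_lit 532) (nat_lit 1530595918085) (nat_lit 608) (nat_lit 2919777241052) (nat_lit 59) (nat_lit 5) (nat_lit 66) (nat_lit 5) (nat_lit 67) (nat_lit 5) (nat_lit 352) (nat_lit 349) (nat_lit 199))) (XT.nd (nat_lit 78) (nat_lit 380) (nat_lit 0) (XT.lf (nat_lit 0) (nat_lit 1028502328000) (nat_lit 532) (nat_lit 1923127887658) (nat_lit 76) (nat_lit 2187619203868) (nat_lit 60) (nat_lit 5) (nat_lit 67) (nat_lit 5) (nat_lit 61) (nat_lit 5) (nat_lit 353) (nat_lit 349) (nat_lit 198)) (XT.lf (nat_lit 0) (nat_lit 2058830034004) (nat_lit 456) (nat_lit 2275552364612) (nat_lit 76) (nat_lit 1220756582084) (nat_lit 55) (nat_lit 5) (nat_lit 61) (nat_lit 5) (nat_lit 56) (nat_lit 5) (nat_lit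 354) (nat_lit 349) (nat_lit 197))))) (XT.nd (nat_lit 312) (nat_lit 684) (nat_lit 0) (XT.nd (nat_lit 156) (nat_lit 456) (nat_lit 0) (XT.nd (nat_lit 78) (nat_lit 228) (nat_lit 0) (XT.lf (nat_lit 0) (nat_lit 3439187286917) (nat_lit 228) (nat_lit 26311019197) (nat_lit 304) (nat_lit 2550170357121) (nat_lit 52) (nat_lit 5) (nat_lit 55) (nat_lit 5) (nat_lit 56) (nat_lit 5) (nat_lit 355) (nat_lit 349) (nat_lit 196)) (XT.lf (nat_lit 0) (nat_lit 3672431957297) (nat_lit 228) (nat_lit 1685545805223) (nat_lit 304) (nat_lit 1165315160151) (nat_lit 49) (nat_lit 5) (nat_lit 52) (nat_lit 5) (nat_lit 53) (nat_lit 5) (nat_lit 356) (nat_lit 349) (nat_lit 195))) (XT.nd (nat_lit 78) (nat_lit 228) (nat_lit 0) (XT.lf (nat_lit 0) (nat_lit 667080525001) (nat_lit 228) (nat_lit 3070772159157) (nat_lit 76) (nat_lit 3347491199782) (nat_lit 46) (nat_lit 5) (nat_lit 49) (nat_lit 5) (nat_lit 47) (nat_lit 5) (nat_lit 357)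 (nat_lit 349) (nat_lit 194)) (XT.lf (nat_lit 0) (nat_lit 2984714075681) (nat_lit 304) (nat_lit 3245720870513) (nat_lit 76) (nat_lit 1476495855167) (nat_lit 43) (nat_lit 5) (nat_lit 47) (nat_lit 5) (nat_lit 44) (nat_lit 5) (nat_lit 358) (nat_lit 349) (nat_lit 193)))) (XT.nd (nat_lit 156) (nat_lit 304) (nat_lit 0) (XT.nd (nat_lit 78) (nat_lit 228) (nat_lit 0) (XT.lf (nat_lit 0) (nat_lit 5040801810560) (nat_lit 152) (nat_lit 925526379801) (nat_lit 228) (nat_lit 2430120723524) (nat_lit 41) (nat_lit 5) (nat_lit 43) (nat_lit 5) (nat_lit 44) (nat_lit 5) (nat_lit 359) (nat_lit 349) (nat_lit 192)) (XT.lf (nat_lit 0) (nat_lit 564426929220) (nat_lit 228) (nat_lit 3429400046602) (nat_lit 76) (nat_lit 5165657293050) (nat_lit 38) (nat_lit 5) (nat_lit 41) (nat_lit 5) (nat_lit 39) (nat_lit 5) (nat_lit 360) (nat_lit 349) (nat_lit 191))) (XT.nd (nat_lit 78) (nat_lit 152) (nat_lit 0) (XT.lf (nat_lit 0) (nat_lit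 4211147979097) (nat_lit 228) (nat_lit 3480523020122) (nat_lit 76) (nat_lit 2312503805241) (nat_lit 36) (nat_lit 5) (nat_lit 39) (nat_lit 5) (nat_lit 37) (nat_lit 5) (nat_lit 361) (nat_lit 349) (nat_lit 190)) (XT.lf (nat_lit 0) (nat_lit 7470400980680) (nat_lit 152) (nat_lit 1327035533401) (nat_lit 228) (nat_lit 2146727660097) (nat_lit 34) (nat_lit 5) (nat_lit 36) (nat_lit 5) (nat_lit 37) (nat_lit 5) (nat_lit 362) (nat_lit 349) (nat_lit 189)))))) (XT.nd (nat_lit 46176) (nat_lit 0) (nat_lit 912) (XT.nd (nat_lit 45864) (nat_lit 0) (nat_lit 2508) (XT.nd (nat_lit 156) (nat_lit 304) (nat_lit 0) (XT.nd (nat_lit 78) (nat_lit 152) (nat_lit 0) (XT.lf (nat_lit 0) (nat_lit 2409337257431) (nat_lit 152) (nat_lit 3511825303780) (nat_lit 76) (nat_lit 6062836213472) (nat_lit 32) (nat_lit 5) (nat_lit 34) (nat_lit 5) (nat_lit 33) (nat_lit 5) (nat_lit 363) (nat_lit 349) (nat_lit 188)) (XT.lf (nat_lit 0) (nat_lit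 7939134882915) (nat_lit 228) (nat_lit 3555240383736) (nat_lit 76) (nat_lit 1647577909524) (nat_lit 30) (nat_lit 5) (nat_lit 33) (nat_lit 5) (nat_lit 31) (nat_lit 4) (nat_lit 364) (nat_lit 349) (nat_lit 187))) (XT.nd (nat_lit 78) (nat_lit 152) (nat_lit 0) (XT.lf (nat_lit 0) (nat_lit 374943725830) (nat_lit 152) (nat_lit 3671285080786) (nat_lit 76) (nat_lit 10384398760196) (nat_lit 28) (nat_lit 5) (nat_lit 30) (nat_lit 5) (nat_lit 29) (nat_lit 5) (nat_lit 365) (nat_lit 349) (nat_lit 186)) (XT.lf (nat_lit 0) (nat_lit 7007168170341) (nat_lit 228) (nat_lit 4007165150985) (nat_lit 76) (nat_lit 4845389701731) (nat_lit 26) (nat_lit 5) (nat_lit 29) (nat_lit 5) (nat_lit 27) (nat_lit 4) (nat_lit 366) (nat_lit 349) (nat_lit 185)))) (XT.nd (nat_lit 156) (nat_lit 380) (nat_lit 0) (XT.nd (nat_lit 78) (nat_lit 0) (nat_lit 0) (XT.lf (nat_lit 0) (nat_lit 1943316439522) (nat_lit 532) (nat_lit 130151688335)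 (nat_lit 532) (nat_lit 130151688335) (nat_lit 64) (nat_lit 3) (nat_lit 71) (nat_lit 3) (nat_lit 71) (nat_lit 5) (nat_lit 350) (nat_lit 350) (nat_lit 200)) (XT.lf (nat_lit 76) (nat_lit 3953842307294) (nat_lit 0) (nat_lit 319378045934) (nat_lit 532) (nat_lit 456955050919) (nat_lit 65) (nat_lit 5) (nat_lit 64) (nat_lit 3) (nat_lit 71) (nat_lit 5) (nat_lit 351) (nat_lit 350) (nat_lit 199))) (XT.nd (nat_lit 78) (nat_lit 456) (nat_lit 0) (XT.lf (nat_lit 76) (nat_lit 3806992344623) (nat_lit 0) (nat_lit 1108316903380) (nat_lit 532) (nat_lit 170441229716) (nat_lit 66) (nat_lit 5) (nat_lit 65) (nat_lit 5) (nat_lit 72) (nat_lit 5) (nat_lit 352) (nat_lit 350) (nat_lit 198)) (XT.lf (nat_lit 0) (nat_lit 359735321110) (nat_lit 532) (nat_lit 1760185297424) (nat_lit 608) (nat_lit 3357743824746) (nat_lit 59) (nat_lit 5) (nat_lit 66) (nat_lit 5) (nat_lit 67) (nat_lit 5) (nat_lit 353) (nat_lit 350) (nat_lit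 197))))) (XT.nd (nat_lit 312) (nat_lit 836) (nat_lit 0) (XT.nd (nat_lit 156) (nat_lit 456) (nat_lit 0) (XT.nd (nat_lit 78) (nat_lit 380) (nat_lit 0) (XT.lf (nat_lit 0) (nat_lit 1182777686074) (nat_lit 532) (nat_lit 2211597062392) (nat_lit 76) (nat_lit 2515762083271) (nat_lit 60) (nat_lit 5) (nat_lit 67) (nat_lit 5) (nat_lit 61) (nat_lit 5) (nat_lit 354) (nat_lit 350) (nat_lit 196)) (XT.lf (nat_lit 0) (nat_lit 2367654547002) (nat_lit 456) (nat_lit 2616885210958) (nat_lit 76) (nat_lit 1403870069207) (nat_lit 55) (nat_lit 5) (nat_lit 61) (nat_lit 5) (nat_lit 56) (nat_lit 5) (nat_lit 355) (nat_lit 350) (nat_lit 195))) (XT.nd (nat_lit 78) (nat_lit 228) (nat_lit 0) (XT.lf (nat_lit 0) (nat_lit 3955065387593) (nat_lit 228) (nat_lit 30257671488) (nat_lit 304) (nat_lit 2932695903069) (nat_lit 52) (nat_lit 5) (nat_lit 55) (nat_lit 5) (nat_lit 56) (nat_lit 5) (nat_lit 356) (nat_lit 350) (nat_lit 194))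 (XT.lf (nat_lit 0) (nat_lit 4223296758392) (nat_lit 228) (nat_lit 1938377674830) (nat_lit 304) (nat_lit 1340112427340) (nat_lit 49) (nat_lit 5) (nat_lit 52) (nat_lit 5) (nat_lit 53) (nat_lit 5) (nat_lit 357) (nat_lit 350) (nat_lit 193)))) (XT.nd (nat_lit 156) (nat_lit 380) (nat_lit 0) (XT.nd (nat_lit 78) (nat_lit 228) (nat_lit 0) (XT.lf (nat_lit 0) (nat_lit 767142609602) (nat_lit 228) (nat_lit 3531387975411) (nat_lit 76) (nat_lit 3849614881046) (nat_lit 46) (nat_lit 5) (nat_lit 49) (nat_lit 5) (nat_lit 47) (nat_lit 5) (nat_lit 358) (nat_lit 350) (nat_lit 192)) (XT.lf (nat_lit 0) (nat_lit 3432421192331) (nat_lit 304) (nat_lit 3732578993734) (nat_lit 76) (nat_lit 1697970235074) (nat_lit 43) (nat_lit 5) (nat_lit 47) (nat_lit 5) (nat_lit 44) (nat_lit 5) (nat_lit 359) (nat_lit 350) (nat_lit 191))) (XT.nd (nat_lit 78) (nat_lit 228) (nat_lit 0) (XT.lf (nat_lit 0) (nat_lit 5796922088878) (nat_lit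 152) (nat_lit 1064355334805) (nat_lit 228) (nat_lit 2794638826900) (nat_lit 41) (nat_lit 5) (nat_lit 43) (nat_lit 5) (nat_lit 44) (nat_lit 5) (nat_lit 360) (nat_lit 350) (nat_lit 190)) (XT.lf (nat_lit 0) (nat_lit 649090973061) (nat_lit 228) (nat_lit 3943810046883) (nat_lit 76) (nat_lit 5940505888900) (nat_lit 38) (nat_lit 5) (nat_lit 41) (nat_lit 5) (nat_lit 39) (nat_lit 5) (nat_lit 361) (nat_lit 350) (nat_lit 189))))))))
noncomputable def xc62 : XT := (XT.nd (nat_lit 93678) (nat_lit 0) (nat_lit 304) (XT.nd (nat_lit 46800) (nat_lit 0) (nat_lit 152) (XT.nd (nat_lit 46176) (nat_lit 0) (nat_lit 1140) (XT.nd (nat_lit 234) (nat_lit 304) (nat_lit 0) (XT.nd (nat_lit 78) (nat_lit 304) (nat_lit 0) (XT.lf (nat_lit 0) (nat_lit 4842820180037) (nat_lit 228) (nat_lit 4002601466726) (nat_lit 76) (nat_lit 2659379378039) (nat_lit 36) (nat_lit 5) (nat_lit 39) (nat_lit 5) (nat_lit 37) (nat_lit 5) (nat_lit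 362) (nat_lit 350) (nat_lit 188)) (XT.nd (nat_lit 78) (nat_lit 152) (nat_lit 0) (XT.lf (nat_lit 0) (nat_lit 8590961133654) (nat_lit 152) (nat_lit 1526090861224) (nat_lit 228) (nat_lit 2468736805131) (nat_lit 34) (nat_lit 5) (nat_lit 36) (nat_lit 5) (nat_lit 37) (nat_lit 5) (nat_lit 363) (nat_lit 350) (nat_lit 187)) (XT.lf (nat_lit 0) (nat_lit 2770737849520) (nat_lit 152) (nat_lit 4038599093564) (nat_lit 76) (nat_lit 6972261647522) (nat_lit 32) (nat_lit 5) (nat_lit 34) (nat_lit 5) (nat_lit 33) (nat_lit 5) (nat_lit 364) (nat_lit 350) (nat_lit 186)))) (XT.nd (nat_lit 45786) (nat_lit 0) (nat_lit 2736) (XT.nd (nat_lit 78) (nat_lit 152) (nat_lit 0) (XT.lf (nat_lit 0) (nat_lit 9130005118552) (nat_lit 228) (nat_lit 4088526435802) (nat_lit 76) (nat_lit 1894714597990) (nat_lit 30) (nat_lit 5) (nat_lit 33) (nat_lit 5) (nat_lit 31) (nat_lit 4) (nat_lit 365) (nat_lit 350) (nat_lit 185)) (XT.lf (nat_lit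 0) (nat_lit 431185287685) (nat_lit 152) (nat_lit 4221977837717) (nat_lit 76) (nat_lit 11942058576194) (nat_lit 28) (nat_lit 5) (nat_lit 30) (nat_lit 5) (nat_lit 29) (nat_lit 5) (nat_lit 366) (nat_lit 350) (nat_lit 184))) (XT.nd (nat_lit 78) (nat_lit 0) (nat_lit 0) (XT.lf (nat_lit 0) (nat_lit 2234813910891) (nat_lit 532) (nat_lit 149674438644) (nat_lit 532) (nat_lit 149674438644) (nat_lit 64) (nat_lit 3) (nat_lit 71) (nat_lit 3) (nat_lit 71) (nat_lit 5) (nat_lit 351) (nat_lit 351) (nat_lit 198)) (XT.lf (nat_lit 76) (nat_lit 4546918658772) (nat_lit 0) (nat_lit 367284757033) (nat_lit 532) (nat_lit 525498298188) (nat_lit 65) (nat_lit 5) (nat_lit 64) (nat_lit 3) (nat_lit 71) (nat_lit 5) (nat_lit 352) (nat_lit 351) (nat_lit 197))))) (XT.nd (nat_lit 312) (nat_lit 912) (nat_lit 0) (XT.nd (nat_lit 156) (nat_lit 304) (nat_lit 0) (XT.nd (nat_lit 78) (nat_lit 456) (nat_lit 0) (XT.lf (nat_lit 76) (nat_lit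 4378041202047) (nat_lit 0) (nat_lit 1274564441547) (nat_lit 532) (nat_lit 196007405103) (nat_lit 66) (nat_lit 5) (nat_lit 65) (nat_lit 5) (nat_lit 72) (nat_lit 5) (nat_lit 353) (nat_lit 351) (nat_lit 196)) (XT.lf (nat_lit 0) (nat_lit 413695626858) (nat_lit 532) (nat_lit 2024213085706) (nat_lit 608) (nat_lit 3861405396595) (nat_lit 59) (nat_lit 5) (nat_lit 66) (nat_lit 5) (nat_lit 67) (nat_lit 5) (nat_lit 354) (nat_lit 351) (nat_lit 195))) (XT.nd (nat_lit 78) (nat_lit 380) (nat_lit 0) (XT.lf (nat_lit 0) (nat_lit 1360194345695) (nat_lit 532) (nat_lit 2543336615388) (nat_lit 76) (nat_lit 2893126394873) (nat_lit 60) (nat_lit 5) (nat_lit 67) (nat_lit 5) (nat_lit 61) (nat_lit 5) (nat_lit 355) (nat_lit 351) (nat_lit 194)) (XT.lf (nat_lit 0) (nat_lit 2722802735023) (nat_lit 456) (nat_lit 3009417986292) (nat_lit 76) (nat_lit 1614450579445) (nat_lit 55) (nat_lit 5) (nat_lit 61) (nat_lit 5) (nat_lit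 56) (nat_lit 5) (nat_lit 356) (nat_lit 351) (nat_lit 193)))) (XT.nd (nat_lit 156) (nat_lit 456) (nat_lit 0) (XT.nd (nat_lit 78) (nat_lit 228) (nat_lit 0) (XT.lf (nat_lit 0) (nat_lit 4548325201509) (nat_lit 228) (nat_lit 34796321766) (nat_lit 304) (nat_lit 3372600282768) (nat_lit 52) (nat_lit 5) (nat_lit 55) (nat_lit 5) (nat_lit 56) (nat_lit 5) (nat_lit 357) (nat_lit 351) (nat_lit 192)) (XT.lf (nat_lit 0) (nat_lit 4856791277822) (nat_lit 228) (nat_lit 2229134325164) (nat_lit 304) (nat_lit 1541129286273) (nat_lit 49) (nat_lit 5) (nat_lit 52) (nat_lit 5) (nat_lit 53) (nat_lit 5) (nat_lit 358) (nat_lit 351) (nat_lit 191))) (XT.nd (nat_lit 78) (nat_lit 228) (nat_lit 0) (XT.lf (nat_lit 0) (nat_lit 882214005466) (nat_lit 228) (nat_lit 4061096165962) (nat_lit 76) (nat_lit 4427057114183) (nat_lit 46) (nat_lit 5) (nat_lit 49) (nat_lit 5) (nat_lit 47) (nat_lit 5) (nat_lit 359) (nat_lit 351) (nat_lit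 190)) (XT.lf (nat_lit 0) (nat_lit 3947284375185) (nat_lit 304) (nat_lit 4292465837231) (nat_lit 76) (nat_lit 1952665771570) (nat_lit 43) (nat_lit 5) (nat_lit 47) (nat_lit 5) (nat_lit 44) (nat_lit 5) (nat_lit 360) (nat_lit 351) (nat_lit 189)))))) (XT.nd (nat_lit 46254) (nat_lit 0) (nat_lit 1216) (XT.nd (nat_lit 234) (nat_lit 456) (nat_lit 0) (XT.nd (nat_lit 78) (nat_lit 380) (nat_lit 0) (XT.lf (nat_lit 0) (nat_lit 6666460407302) (nat_lit 152) (nat_lit 1224008633539) (nat_lit 228) (nat_lit 3213834647039) (nat_lit 41) (nat_lit 5) (nat_lit 43) (nat_lit 5) (nat_lit 44) (nat_lit 5) (nat_lit 361) (nat_lit 351) (nat_lit 188)) (XT.nd (nat_lit 78) (nat_lit 152) (nat_lit 0) (XT.lf (nat_lit 0) (nat_lit 746454622391) (nat_lit 228) (nat_lit 4535381548842) (nat_lit 76) (nat_lit 6831581773666) (nat_lit 38) (nat_lit 5) (nat_lit 41) (nat_lit 5) (nat_lit 39) (nat_lit 5) (nat_lit 362) (nat_lit 351) (nat_lit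 187)) (XT.lf (nat_lit 0) (nat_lit 5569243210124) (nat_lit 228) (nat_lit 4602991681885) (nat_lit 76) (nat_lit 3058286286266) (nat_lit 36) (nat_lit 5) (nat_lit 39) (nat_lit 5) (nat_lit 37) (nat_lit 5) (nat_lit 363) (nat_lit 351) (nat_lit 186)))) (XT.nd (nat_lit 156) (nat_lit 152) (nat_lit 0) (XT.nd (nat_lit 78) (nat_lit 152) (nat_lit 0) (XT.lf (nat_lit 0) (nat_lit 9879605308142) (nat_lit 152) (nat_lit 1755004488754) (nat_lit 228) (nat_lit 2839047322890) (nat_lit 34) (nat_lit 5) (nat_lit 36) (nat_lit 5) (nat_lit 37) (nat_lit 5) (nat_lit 364) (nat_lit 351) (nat_lit 185)) (XT.lf (nat_lit 0) (nat_lit 3186348529575) (nat_lit 152) (nat_lit 4644388953227) (nat_lit 76) (nat_lit 8018100896184) (nat_lit 32) (nat_lit 5) (nat_lit 34) (nat_lit 5) (nat_lit 33) (nat_lit 5) (nat_lit 365) (nat_lit 351) (nat_lit 184))) (XT.nd (nat_lit 45786) (nat_lit 0) (nat_lit 2584) (XT.lf (nat_lit 0) (nat_lit 10499505888754)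 (nat_lit 228) (nat_lit 4701805397018) (nat_lit 76) (nat_lit 2178921789229) (nat_lit 30) (nat_lit 5) (nat_lit 33) (nat_lit 5) (nat_lit 31) (nat_lit 4) (nat_lit 366) (nat_lit 351) (nat_lit 183)) (XT.lf (nat_lit 0) (nat_lit 2570036001639) (nat_lit 532) (nat_lit 172125602217) (nat_lit 532) (nat_lit 172125602217) (nat_lit 64) (nat_lit 3) (nat_lit 71) (nat_lit 3) (nat_lit 71) (nat_lit 5) (nat_lit 352) (nat_lit 352) (nat_lit 196))))) (XT.nd (nat_lit 312) (nat_lit 988) (nat_lit 0) (XT.nd (nat_lit 156) (nat_lit 380) (nat_lit 0) (XT.nd (nat_lit 78) (nat_lit 0) (nat_lit 76) (XT.lf (nat_lit 76) (nat_lit 5228956461659) (nat_lit 0) (nat_lit 422377473771) (nat_lit 532) (nat_lit 604323035076) (nat_lit 65) (nat_lit 5) (nat_lit 64) (nat_lit 3) (nat_lit 71) (nat_lit 5) (nat_lit 353) (nat_lit 352) (nat_lit 195)) (XT.lf (nat_lit 76) (nat_lit 5034747386688) (nat_lit 0) (nat_lit 1465749109790) (nat_lit 532) (nat_lit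 225408509011) (nat_lit 66) (nat_lit 5) (nat_lit 65) (nat_lit 5) (nat_lit 72) (nat_lit 5) (nat_lit 354) (nat_lit 352) (nat_lit 194))) (XT.nd (nat_lit 78) (nat_lit 0) (nat_lit 76) (XT.lf (nat_lit 0) (nat_lit 475749976620) (nat_lit 532) (nat_lit 2327845043774) (nat_lit 608) (nat_lit 4440616204676) (nat_lit 59) (nat_lit 5) (nat_lit 66) (nat_lit 5) (nat_lit 67) (nat_lit 5) (nat_lit 355) (nat_lit 352) (nat_lit 193)) (XT.lf (nat_lit 0) (nat_lit 1564223502623) (nat_lit 532) (nat_lit 2924837102886) (nat_lit 76) (nat_lit 3327095353431) (nat_lit 60) (nat_lit 5) (nat_lit 67) (nat_lit 5) (nat_lit 61) (nat_lit 5) (nat_lit 356) (nat_lit 352) (nat_lit 192)))) (XT.nd (nat_lit 156) (nat_lit 456) (nat_lit 0) (XT.nd (nat_lit 78) (nat_lit 228) (nat_lit 0) (XT.lf (nat_lit 0) (nat_lit 3131223149792) (nat_lit 456) (nat_lit 3460830679464) (nat_lit 76) (nat_lit 1856618166254) (nat_lit 55) (nat_lit 5) (nat_lit 61)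 (nat_lit 5) (nat_lit 56) (nat_lit 5) (nat_lit 357) (nat_lit 352) (nat_lit 191)) (XT.lf (nat_lit 0) (nat_lit 5230573986103) (nat_lit 228) (nat_lit 40015769694) (nat_lit 304) (nat_lit 3878490320826) (nat_lit 52) (nat_lit 5) (nat_lit 55) (nat_lit 5) (nat_lit 56) (nat_lit 5) (nat_lit 358) (nat_lit 352) (nat_lit 190))) (XT.nd (nat_lit 78) (nat_lit 228) (nat_lit 0) (XT.lf (nat_lit 0) (nat_lit 5585309973784) (nat_lit 228) (nat_lit 2563504473266) (nat_lit 304) (nat_lit 1772298675307) (nat_lit 49) (nat_lit 5) (nat_lit 52) (nat_lit 5) (nat_lit 53) (nat_lit 5) (nat_lit 359) (nat_lit 352) (nat_lit 189)) (XT.lf (nat_lit 0) (nat_lit 1014546109631) (nat_lit 228) (nat_lit 4670260586500) (nat_lit 76) (nat_lit 5091115682052) (nat_lit 46) (nat_lit 5) (nat_lit 49) (nat_lit 5) (nat_lit 47) (nat_lit 5) (nat_lit 360) (nat_lit 352) (nat_lit 188))))))) (XT.nd (nat_lit 46956) (nat_lit 0) (nat_lit 152) (XT.nd (nat_lit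 46332) (nat_lit 0) (nat_lit 1064) (XT.nd (nat_lit 234) (nat_lit 456) (nat_lit 0) (XT.nd (nat_lit 78) (nat_lit 380) (nat_lit 0) (XT.lf (nat_lit 0) (nat_lit 4539377034492) (nat_lit 304) (nat_lit 4936335708609) (nat_lit 76) (nat_lit 2245565638239) (nat_lit 43) (nat_lit 5) (nat_lit 47) (nat_lit 5) (nat_lit 44) (nat_lit 5) (nat_lit 361) (nat_lit 352) (nat_lit 187)) (XT.nd (nat_lit 78) (nat_lit 228) (nat_lit 0) (XT.lf (nat_lit 0) (nat_lit 7666429472248) (nat_lit 152) (nat_lit 1407609927446) (nat_lit 228) (nat_lit 3695909841149) (nat_lit 41) (nat_lit 5) (nat_lit 43) (nat_lit 5) (nat_lit 44) (nat_lit 5) (nat_lit 362) (nat_lit 352) (nat_lit 186)) (XT.lf (nat_lit 0) (nat_lit 858422818298) (nat_lit 228) (nat_lit 5215688777332) (nat_lit 76) (nat_lit 7856319040798) (nat_lit 38) (nat_lit 5) (nat_lit 41) (nat_lit 5) (nat_lit 39) (nat_lit 5) (nat_lit 363) (nat_lit 352) (nat_lit 185)))) (XT.nd (nat_lit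 156) (nat_lit 152) (nat_lit 0) (XT.nd (nat_lit 78) (nat_lit 152) (nat_lit 0) (XT.lf (nat_lit 0) (nat_lit 6404629693973) (nat_lit 228) (nat_lit 5293440430500) (nat_lit 76) (nat_lit 3517029230356) (nat_lit 36) (nat_lit 5) (nat_lit 39) (nat_lit 5) (nat_lit 37) (nat_lit 5) (nat_lit 364) (nat_lit 352) (nat_lit 184)) (XT.lf (nat_lit 0) (nat_lit 11361546107721) (nat_lit 152) (nat_lit 2018255160817) (nat_lit 228) (nat_lit 3264904419047) (nat_lit 34) (nat_lit 5) (nat_lit 36) (nat_lit 5) (nat_lit 37) (nat_lit 5) (nat_lit 365) (nat_lit 352) (nat_lit 183))) (XT.nd (nat_lit 45864) (nat_lit 0) (nat_lit 2432) (XT.lf (nat_lit 0) (nat_lit 3664300810998) (nat_lit 152) (nat_lit 5341047292905) (nat_lit 76) (nat_lit 9220816031772) (nat_lit 32) (nat_lit 5) (nat_lit 34) (nat_lit 5) (nat_lit 33) (nat_lit 5) (nat_lit 366) (nat_lit 352) (nat_lit 182)) (XT.lf (nat_lit 0) (nat_lit 2955541404996) (nat_lit 532) (nat_lit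 197944440869) (nat_lit 532) (nat_lit 197944440869) (nat_lit 64) (nat_lit 3) (nat_lit 71) (nat_lit 3) (nat_lit 71) (nat_lit 5) (nat_lit 353) (nat_lit 353) (nat_lit 194))))) (XT.nd (nat_lit 312) (nat_lit 988) (nat_lit 0) (XT.nd (nat_lit 156) (nat_lit 380) (nat_lit 0) (XT.nd (nat_lit 78) (nat_lit 0) (nat_lit 76) (XT.lf (nat_lit 76) (nat_lit 6013299933986) (nat_lit 0) (nat_lit 485734097243) (nat_lit 532) (nat_lit 694971484409) (nat_lit 65) (nat_lit 5) (nat_lit 64) (nat_lit 3) (nat_lit 71) (nat_lit 5) (nat_lit 354) (nat_lit 353) (nat_lit 193)) (XT.lf (nat_lit 76) (nat_lit 5789959497969) (nat_lit 0) (nat_lit 1685611477780) (nat_lit 532) (nat_lit 259219780176) (nat_lit 66) (nat_lit 5) (nat_lit 65) (nat_lit 5) (nat_lit 72) (nat_lit 5) (nat_lit 355) (nat_lit 353) (nat_lit 192))) (XT.nd (nat_lit 78) (nat_lit 0) (nat_lit 76) (XT.lf (nat_lit 0) (nat_lit 547112477448) (nat_lit 532) (nat_lit 2677021796720)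 (nat_lit 608) (nat_lit 5106708634313) (nat_lit 59) (nat_lit 5) (nat_lit 66) (nat_lit 5) (nat_lit 67) (nat_lit 5) (nat_lit 356) (nat_lit 353) (nat_lit 191)) (XT.lf (nat_lit 0) (nat_lit 1798857031853) (nat_lit 532) (nat_lit 3363562664681) (nat_lit 76) (nat_lit 3826159655937) (nat_lit 60) (nat_lit 5) (nat_lit 67) (nat_lit 5) (nat_lit 61) (nat_lit 5) (nat_lit 357) (nat_lit 353) (nat_lit 190)))) (XT.nd (nat_lit 156) (nat_lit 456) (nat_lit 0) (XT.nd (nat_lit 78) (nat_lit 228) (nat_lit 0) (XT.lf (nat_lit 0) (nat_lit 3600906625674) (nat_lit 456) (nat_lit 3979955277776) (nat_lit 76) (nat_lit 2135110891110) (nat_lit 55) (nat_lit 5) (nat_lit 61) (nat_lit 5) (nat_lit 56) (nat_lit 5) (nat_lit 358) (nat_lit 353) (nat_lit 189)) (XT.lf (nat_lit 0) (nat_lit 6015160087321) (nat_lit 228) (nat_lit 46018134894) (nat_lit 304) (nat_lit 4460263865656) (nat_lit 52) (nat_lit 5) (nat_lit 55) (nat_lit 5) (nat_lit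 56) (nat_lit 5) (nat_lit 359) (nat_lit 353) (nat_lit 188))) (XT.nd (nat_lit 78) (nat_lit 228) (nat_lit 0) (XT.lf (nat_lit 0) (nat_lit 6423106473095) (nat_lit 228) (nat_lit 2948030143747) (nat_lit 304) (nat_lit 2038143473648) (nat_lit 49) (nat_lit 5) (nat_lit 52) (nat_lit 5) (nat_lit 53) (nat_lit 5) (nat_lit 360) (nat_lit 353) (nat_lit 187)) (XT.lf (nat_lit 0) (nat_lit 1166728028606) (nat_lit 228) (nat_lit 5370799671181) (nat_lit 76) (nat_lit 5854783034921) (nat_lit 46) (nat_lit 5) (nat_lit 49) (nat_lit 5) (nat_lit 47) (nat_lit 5) (nat_lit 361) (nat_lit 353) (nat_lit 186)))))) (XT.nd (nat_lit 46488) (nat_lit 0) (nat_lit 532) (XT.nd (nat_lit 312) (nat_lit 152) (nat_lit 0) (XT.nd (nat_lit 156) (nat_lit 380) (nat_lit 0) (XT.nd (nat_lit 78) (nat_lit 152) (nat_lit 0) (XT.lf (nat_lit 0) (nat_lit 5220283591956) (nat_lit 304) (nat_lit 5676786061720) (nat_lit 76) (nat_lit 2582400484681) (nat_lit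 43) (nat_lit 5) (nat_lit 47) (nat_lit 5) (nat_lit 44) (nat_lit 5) (nat_lit 362) (nat_lit 353) (nat_lit 185)) (XT.lf (nat_lit 0) (nat_lit 8816393895996) (nat_lit 152) (nat_lit 1618751415713) (nat_lit 228) (nat_lit 4250296315094) (nat_lit 41) (nat_lit 5) (nat_lit 43) (nat_lit 5) (nat_lit 44) (nat_lit 5) (nat_lit 363) (nat_lit 353) (nat_lit 184))) (XT.nd (nat_lit 78) (nat_lit 152) (nat_lit 0) (XT.lf (nat_lit 0) (nat_lit 987186242971) (nat_lit 228) (nat_lit 5998042091032) (nat_lit 76) (nat_lit 9034766897736) (nat_lit 38) (nat_lit 5) (nat_lit 41) (nat_lit 5) (nat_lit 39) (nat_lit 5) (nat_lit 364) (nat_lit 353) (nat_lit 183)) (XT.lf (nat_lit 0) (nat_lit 7365324149831) (nat_lit 228) (nat_lit 6087456492302) (nat_lit 76) (nat_lit 4044583615779) (nat_lit 36) (nat_lit 5) (nat_lit 39) (nat_lit 5) (nat_lit 37) (nat_lit 5) (nat_lit 365) (nat_lit 353) (nat_lit 182)))) (XT.nd (nat_lit 46020) (nat_lit 0)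 (nat_lit 2280) (XT.nd (nat_lit 45942) (nat_lit 0) (nat_lit 2280) (XT.lf (nat_lit 0) (nat_lit 13065778026417) (nat_lit 152) (nat_lit 2320993433995) (nat_lit 228) (nat_lit 3754640080183) (nat_lit 34) (nat_lit 5) (nat_lit 36) (nat_lit 5) (nat_lit 37) (nat_lit 5) (nat_lit 366) (nat_lit 353) (nat_lit 181)) (XT.lf (nat_lit 0) (nat_lit 3398872618098) (nat_lit 532) (nat_lit 227636105728) (nat_lit 532) (nat_lit 227636105728) (nat_lit 64) (nat_lit 3) (nat_lit 71) (nat_lit 3) (nat_lit 71) (nat_lit 5) (nat_lit 354) (nat_lit 354) (nat_lit 192))) (XT.nd (nat_lit 78) (nat_lit 0) (nat_lit 76) (XT.lf (nat_lit 76) (nat_lit 6915294926412) (nat_lit 0) (nat_lit 558594213649) (nat_lit 532) (nat_lit 799217202588) (nat_lit 65) (nat_lit 5) (nat_lit 64) (nat_lit 3) (nat_lit 71) (nat_lit 5) (nat_lit 355) (nat_lit 354) (nat_lit 191)) (XT.lf (nat_lit 76) (nat_lit 6658453425142) (nat_lit 0) (nat_lit 1938453200596) (nat_lit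 532) (nat_lit 298102743282) (nat_lit 66) (nat_lit 5) (nat_lit 65) (nat_lit 5) (nat_lit 72) (nat_lit 5) (nat_lit 356) (nat_lit 354) (nat_lit 190))))) (XT.nd (nat_lit 312) (nat_lit 836) (nat_lit 0) (XT.nd (nat_lit 156) (nat_lit 532) (nat_lit 0) (XT.nd (nat_lit 78) (nat_lit 0) (nat_lit 76) (XT.lf (nat_lit 0) (nat_lit 629179352343) (nat_lit 532) (nat_lit 3078575063491) (nat_lit 608) (nat_lit 5872714928654) (nat_lit 59) (nat_lit 5) (nat_lit 66) (nat_lit 5) (nat_lit 67) (nat_lit 5) (nat_lit 357) (nat_lit 354) (nat_lit 189)) (XT.lf (nat_lit 0) (nat_lit 2068685589531) (nat_lit 532) (nat_lit 3868097061632) (nat_lit 76) (nat_lit 4400083603944) (nat_lit 60) (nat_lit 5) (nat_lit 67) (nat_lit 5) (nat_lit 61) (nat_lit 5) (nat_lit 358) (nat_lit 354) (nat_lit 188))) (XT.nd (nat_lit 78) (nat_lit 228) (nat_lit 0) (XT.lf (nat_lit 0) (nat_lit 4141042622107) (nat_lit 456) (nat_lit 4576948566714) (nat_lit 76)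 (nat_lit 2455377524715) (nat_lit 55) (nat_lit 5) (nat_lit 61) (nat_lit 5) (nat_lit 56) (nat_lit 5) (nat_lit 359) (nat_lit 354) (nat_lit 187)) (XT.lf (nat_lit 0) (nat_lit 6917434102916) (nat_lit 228) (nat_lit 52920854936) (nat_lit 304) (nat_lit 5129303443013) (nat_lit 52) (nat_lit 5) (nat_lit 55) (nat_lit 5) (nat_lit 56) (nat_lit 5) (nat_lit 360) (nat_lit 354) (nat_lit 186)))) (XT.nd (nat_lit 156) (nat_lit 380) (nat_lit 0) (XT.nd (nat_lit 78) (nat_lit 228) (nat_lit 0) (XT.lf (nat_lit 0) (nat_lit 7386572446511) (nat_lit 228) (nat_lit 3390234664924) (nat_lit 304) (nat_lit 2343864992462) (nat_lit 49) (nat_lit 5) (nat_lit 52) (nat_lit 5) (nat_lit 53) (nat_lit 5) (nat_lit 361) (nat_lit 354) (nat_lit 185)) (XT.lf (nat_lit 0) (nat_lit 1341737234809) (nat_lit 228) (nat_lit 6176419619367) (nat_lit 76) (nat_lit 6733000490583) (nat_lit 46) (nat_lit 5) (nat_lit 49) (nat_lit 5) (nat_lit 47) (nat_lit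 5) (nat_lit 362) (nat_lit 354) (nat_lit 184))) (XT.nd (nat_lit 78) (nat_lit 152) (nat_lit 0) (XT.lf (nat_lit 0) (nat_lit 6003326132481) (nat_lit 304) (nat_lit 6528303968574) (nat_lit 76) (nat_lit 2969760557917) (nat_lit 43) (nat_lit 5) (nat_lit 47) (nat_lit 5) (nat_lit 44) (nat_lit 5) (nat_lit 363) (nat_lit 354) (nat_lit 183)) (XT.lf (nat_lit 0) (nat_lit 10138852982597) (nat_lit 152) (nat_lit 1861564127427) (nat_lit 228) (nat_lit 4887840760674) (nat_lit 41) (nat_lit 5) (nat_lit 43) (nat_lit 5) (nat_lit 44) (nat_lit 5) (nat_lit 364) (nat_lit 354) (nat_lit 182))))))))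
noncomputable def xc63 : XT := (XT.nd (nat_lit 186966) (nat_lit 0) (nat_lit 836) (XT.nd (nat_lit 93288) (nat_lit 0) (nat_lit 380) (XT.nd (nat_lit 46566) (nat_lit 0) (nat_lit 228) (XT.nd (nat_lit 46254) (nat_lit 0) (nat_lit 1292) (XT.nd (nat_lit 46098) (nat_lit 0) (nat_lit 1976) (XT.lf (nat_lit 0) (nat_lit 1135264180874) (nat_lit 228) (nat_lit 6897748402493) (nat_lit 76) (nat_lit 10389981933015) (nat_lit 38) (nat_lit 5) (nat_lit 41) (nat_lit 5) (nat_lit 39) (nat_lit 5) (nat_lit 365) (nat_lit 354) (nat_lit 181)) (XT.nd (nat_lit 78) (nat_lit 0) (nat_lit 0) (XT.lf (nat_lit 0) (nat_lit 3908703512592) (nat_lit 532) (nat_lit 261781520625) (nat_lit 532) (nat_lit 261781520625) (nat_lit 64) (nat_lit 3) (nat_lit 71) (nat_lit 3) (nat_lit 71) (nat_lit 5) (nat_lit 355) (nat_lit 355) (nat_lit 190)) (XT.lf (nat_lit 76) (nat_lit 7952589167133) (nat_lit 0) (nat_lit 642383347072) (nat_lit 532) (nat_lit 919099779586)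 (nat_lit 65) (nat_lit 5) (nat_lit 64) (nat_lit 3) (nat_lit 71) (nat_lit 5) (nat_lit 356) (nat_lit 355) (nat_lit 189)))) (XT.nd (nat_lit 156) (nat_lit 304) (nat_lit 0) (XT.nd (nat_lit 78) (nat_lit 456) (nat_lit 0) (XT.lf (nat_lit 76) (nat_lit 7657221440787) (nat_lit 0) (nat_lit 2229221181555) (nat_lit 532) (nat_lit 342818151809) (nat_lit 66) (nat_lit 5) (nat_lit 65) (nat_lit 5) (nat_lit 72) (nat_lit 5) (nat_lit 357) (nat_lit 355) (nat_lit 188)) (XT.lf (nat_lit 0) (nat_lit 723556257673) (nat_lit 532) (nat_lit 3540361320944) (nat_lit 608) (nat_lit 6753622167344) (nat_lit 59) (nat_lit 5) (nat_lit 66) (nat_lit 5) (nat_lit 67) (nat_lit 5) (nat_lit 358) (nat_lit 355) (nat_lit 187))) (XT.nd (nat_lit 78) (nat_lit 380) (nat_lit 0) (XT.lf (nat_lit 0) (nat_lit 2378988430155) (nat_lit 532) (nat_lit 4448311618797) (nat_lit 76) (nat_lit 5060096144245) (nat_lit 60) (nat_lit 5) (nat_lit 67) (nat_lit 5)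 (nat_lit 61) (nat_lit 5) (nat_lit 359) (nat_lit 355) (nat_lit 186)) (XT.lf (nat_lit 0) (nat_lit 4762199017375) (nat_lit 456) (nat_lit 5263490849659) (nat_lit 76) (nat_lit 2823684153375) (nat_lit 55) (nat_lit 5) (nat_lit 61) (nat_lit 5) (nat_lit 56) (nat_lit 5) (nat_lit 360) (nat_lit 355) (nat_lit 185))))) (XT.nd (nat_lit 312) (nat_lit 152) (nat_lit 0) (XT.nd (nat_lit 156) (nat_lit 456) (nat_lit 0) (XT.nd (nat_lit 78) (nat_lit 228) (nat_lit 0) (XT.lf (nat_lit 0) (nat_lit 7955049220242) (nat_lit 228) (nat_lit 60858983031) (nat_lit 304) (nat_lit 5898698957582) (nat_lit 52) (nat_lit 5) (nat_lit 55) (nat_lit 5) (nat_lit 56) (nat_lit 5) (nat_lit 361) (nat_lit 355) (nat_lit 184)) (XT.lf (nat_lit 0) (nat_lit 8494558315342) (nat_lit 228) (nat_lit 3898769864372) (nat_lit 304) (nat_lit 2695444739642) (nat_lit 49) (nat_lit 5) (nat_lit 52) (nat_lit 5) (nat_lit 53) (nat_lit 5) (nat_lit 362) (nat_lit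 355) (nat_lit 183))) (XT.nd (nat_lit 78) (nat_lit 228) (nat_lit 0) (XT.lf (nat_lit 0) (nat_lit 1542997821477) (nat_lit 228) (nat_lit 7102882560389) (nat_lit 76) (nat_lit 7742950564490) (nat_lit 46) (nat_lit 5) (nat_lit 49) (nat_lit 5) (nat_lit 47) (nat_lit 5) (nat_lit 363) (nat_lit 355) (nat_lit 182)) (XT.lf (nat_lit 0) (nat_lit 6903825053662) (nat_lit 304) (nat_lit 7507549562041) (nat_lit 76) (nat_lit 3415224642009) (nat_lit 43) (nat_lit 5) (nat_lit 47) (nat_lit 5) (nat_lit 44) (nat_lit 5) (nat_lit 364) (nat_lit 355) (nat_lit 181)))) (XT.nd (nat_lit 46254) (nat_lit 0) (nat_lit 1748) (XT.nd (nat_lit 46176) (nat_lit 0) (nat_lit 1748) (XT.lf (nat_lit 0) (nat_lit 11659680931651) (nat_lit 152) (nat_lit 2140798746055) (nat_lit 228) (nat_lit 5621016873502) (nat_lit 41) (nat_lit 5) (nat_lit 43) (nat_lit 5) (nat_lit 44) (nat_lit 5) (nat_lit 365) (nat_lit 355) (nat_lit 180)) (XT.lf (nat_lit 0) (nat_lit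 4495009040826) (nat_lit 532) (nat_lit 301048747992) (nat_lit 532) (nat_lit 301048747992) (nat_lit 64) (nat_lit 3) (nat_lit 71) (nat_lit 3) (nat_lit 71) (nat_lit 5) (nat_lit 356) (nat_lit 356) (nat_lit 188))) (XT.nd (nat_lit 78) (nat_lit 0) (nat_lit 76) (XT.lf (nat_lit 76) (nat_lit 9145477543534) (nat_lit 0) (nat_lit 738740850173) (nat_lit 532) (nat_lit 1056964743961) (nat_lit 65) (nat_lit 5) (nat_lit 64) (nat_lit 3) (nat_lit 71) (nat_lit 5) (nat_lit 357) (nat_lit 356) (nat_lit 187)) (XT.lf (nat_lit 76) (nat_lit 8805804658322) (nat_lit 0) (nat_lit 2563604359446) (nat_lit 532) (nat_lit 394240872338) (nat_lit 66) (nat_lit 5) (nat_lit 65) (nat_lit 5) (nat_lit 72) (nat_lit 5) (nat_lit 358) (nat_lit 356) (nat_lit 186)))))) (XT.nd (nat_lit 46800) (nat_lit 0) (nat_lit 228) (XT.nd (nat_lit 312) (nat_lit 684) (nat_lit 0) (XT.nd (nat_lit 156) (nat_lit 532) (nat_lit 0) (XT.nd (nat_lit 78) (nat_lit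 0) (nat_lit 76) (XT.lf (nat_lit 0) (nat_lit 832089698198) (nat_lit 532) (nat_lit 4071415517521) (nat_lit 608) (nat_lit 7766665491985) (nat_lit 59) (nat_lit 5) (nat_lit 66) (nat_lit 5) (nat_lit 67) (nat_lit 5) (nat_lit 359) (nat_lit 356) (nat_lit 185)) (XT.lf (nat_lit 0) (nat_lit 2735836696337) (nat_lit 532) (nat_lit 5115558360044) (nat_lit 76) (nat_lit 5819110565661) (nat_lit 60) (nat_lit 5) (nat_lit 67) (nat_lit 5) (nat_lit 61) (nat_lit 5) (nat_lit 360) (nat_lit 356) (nat_lit 184))) (XT.nd (nat_lit 78) (nat_lit 228) (nat_lit 0) (XT.lf (nat_lit 0) (nat_lit 5476528871457) (nat_lit 456) (nat_lit 6053014475548) (nat_lit 76) (nat_lit 3247236776346) (nat_lit 55) (nat_lit 5) (nat_lit 61) (nat_lit 5) (nat_lit 56) (nat_lit 5) (nat_lit 361) (nat_lit 356) (nat_lit 183)) (XT.lf (nat_lit 0) (nat_lit 9148306604706) (nat_lit 228) (nat_lit 69987830376) (nat_lit 304) (nat_lit 6783503799795) (nat_lit 52)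 (nat_lit 5) (nat_lit 55) (nat_lit 5) (nat_lit 56) (nat_lit 5) (nat_lit 362) (nat_lit 356) (nat_lit 182)))) (XT.nd (nat_lit 156) (nat_lit 228) (nat_lit 0) (XT.nd (nat_lit 78) (nat_lit 228) (nat_lit 0) (XT.lf (nat_lit 0) (nat_lit 9768742064045) (nat_lit 228) (nat_lit 4483585343808) (nat_lit 304) (nat_lit 3099761449311) (nat_lit 49) (nat_lit 5) (nat_lit 52) (nat_lit 5) (nat_lit 53) (nat_lit 5) (nat_lit 363) (nat_lit 356) (nat_lit 181)) (XT.lf (nat_lit 0) (nat_lit 1774447495792) (nat_lit 228) (nat_lit 8168314943023) (nat_lit 76) (nat_lit 8904393149406) (nat_lit 46) (nat_lit 5) (nat_lit 49) (nat_lit 5) (nat_lit 47) (nat_lit 5) (nat_lit 364) (nat_lit 356) (nat_lit 180))) (XT.nd (nat_lit 46254) (nat_lit 0) (nat_lit 1596) (XT.lf (nat_lit 0) (nat_lit 7939398812701) (nat_lit 304) (nat_lit 8633681994973) (nat_lit 76) (nat_lit 3927508338615) (nat_lit 43) (nat_lit 5) (nat_lit 47) (nat_lit 5) (nat_lit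 44) (nat_lit 5) (nat_lit 365) (nat_lit 356) (nat_lit 179)) (XT.lf (nat_lit 0) (nat_lit 5169260397967) (nat_lit 532) (nat_lit 346206059642) (nat_lit 532) (nat_lit 346206059642) (nat_lit 64) (nat_lit 3) (nat_lit 71) (nat_lit 3) (nat_lit 71) (nat_lit 5) (nat_lit 357) (nat_lit 357) (nat_lit 186))))) (XT.nd (nat_lit 312) (nat_lit 988) (nat_lit 0) (XT.nd (nat_lit 156) (nat_lit 380) (nat_lit 0) (XT.nd (nat_lit 78) (nat_lit 0) (nat_lit 76) (XT.lf (nat_lit 76) (nat_lit 10517299176071) (nat_lit 0) (nat_lit 849551978486) (nat_lit 532) (nat_lit 1215509453618) (nat_lit 65) (nat_lit 5) (nat_lit 64) (nat_lit 3) (nat_lit 71) (nat_lit 5) (nat_lit 358) (nat_lit 357) (nat_lit 185)) (XT.lf (nat_lit 76) (nat_lit 10126675358141) (nat_lit 0) (nat_lit 2948145013860) (nat_lit 532) (nat_lit 453377001494) (nat_lit 66) (nat_lit 5) (nat_lit 65) (nat_lit 5) (nat_lit 72) (nat_lit 5) (nat_lit 359) (nat_lit 357) (nat_lit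 184))) (XT.nd (nat_lit 78) (nat_lit 0) (nat_lit 76) (XT.lf (nat_lit 0) (nat_lit 956903154345) (nat_lit 532) (nat_lit 4682127843966) (nat_lit 608) (nat_lit 8931665315435) (nat_lit 59) (nat_lit 5) (nat_lit 66) (nat_lit 5) (nat_lit 67) (nat_lit 5) (nat_lit 360) (nat_lit 357) (nat_lit 183)) (XT.lf (nat_lit 0) (nat_lit 3146212202041) (nat_lit 532) (nat_lit 5882892112862) (nat_lit 76) (nat_lit 6691977150344) (nat_lit 60) (nat_lit 5) (nat_lit 67) (nat_lit 5) (nat_lit 61) (nat_lit 5) (nat_lit 361) (nat_lit 357) (nat_lit 182)))) (XT.nd (nat_lit 156) (nat_lit 456) (nat_lit 0) (XT.nd (nat_lit 78) (nat_lit 228) (nat_lit 0) (XT.lf (nat_lit 0) (nat_lit 6298008203292) (nat_lit 456) (nat_lit 6960966645700) (nat_lit 76) (nat_lit 3734322292771) (nat_lit 55) (nat_lit 5) (nat_lit 61) (nat_lit 5) (nat_lit 56) (nat_lit 5) (nat_lit 362) (nat_lit 357) (nat_lit 181)) (XT.lf (nat_lit 0) (nat_lit 10520552596491)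 (nat_lit 228) (nat_lit 80486004849) (nat_lit 304) (nat_lit 7801029368688) (nat_lit 52) (nat_lit 5) (nat_lit 55) (nat_lit 5) (nat_lit 56) (nat_lit 5) (nat_lit 363) (nat_lit 357) (nat_lit 180))) (XT.nd (nat_lit 78) (nat_lit 228) (nat_lit 0) (XT.lf (nat_lit 0) (nat_lit 11234053374712) (nat_lit 228) (nat_lit 5156123145212) (nat_lit 304) (nat_lit 3564725665741) (nat_lit 49) (nat_lit 5) (nat_lit 52) (nat_lit 5) (nat_lit 53) (nat_lit 5) (nat_lit 364) (nat_lit 357) (nat_lit 179)) (XT.lf (nat_lit 0) (nat_lit 2040614620988) (nat_lit 228) (nat_lit 9393562183400) (nat_lit 76) (nat_lit 10240052122001) (nat_lit 46) (nat_lit 5) (nat_lit 49) (nat_lit 5) (nat_lit 47) (nat_lit 5) (nat_lit 365) (nat_lit 357) (nat_lit 178))))))) (XT.nd (nat_lit 93912) (nat_lit 0) (nat_lit 456) (XT.nd (nat_lit 546) (nat_lit 228) (nat_lit 0) (XT.nd (nat_lit 234) (nat_lit 912) (nat_lit 0) (XT.nd (nat_lit 78) (nat_lit 0) (nat_lit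 0) (XT.lf (nat_lit 0) (nat_lit 5944649458431) (nat_lit 532) (nat_lit 398136968172) (nat_lit 532) (nat_lit 398136968172) (nat_lit 64) (nat_lit 3) (nat_lit 71) (nat_lit 3) (nat_lit 71) (nat_lit 5) (nat_lit 358) (nat_lit 358) (nat_lit 184)) (XT.nd (nat_lit 78) (nat_lit 0) (nat_lit 76) (XT.lf (nat_lit 76) (nat_lit 12094894053242) (nat_lit 0) (nat_lit 976984775853) (nat_lit 532) (nat_lit 1397835870195) (nat_lit 65) (nat_lit 5) (nat_lit 64) (nat_lit 3) (nat_lit 71) (nat_lit 5) (nat_lit 359) (nat_lit 358) (nat_lit 183)) (XT.lf (nat_lit 76) (nat_lit 11645676662673) (nat_lit 0) (nat_lit 3390366766315) (nat_lit 532) (nat_lit 521383550436) (nat_lit 66) (nat_lit 5) (nat_lit 65) (nat_lit 5) (nat_lit 72) (nat_lit 5) (nat_lit 360) (nat_lit 358) (nat_lit 182)))) (XT.nd (nat_lit 156) (nat_lit 532) (nat_lit 0) (XT.nd (nat_lit 78) (nat_lit 0) (nat_lit 76) (XT.lf (nat_lit 0) (nat_lit 1100438628568) (nat_lit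 532) (nat_lit 5384447019666) (nat_lit 608) (nat_lit 10271415112487) (nat_lit 59) (nat_lit 5) (nat_lit 66) (nat_lit 5) (nat_lit 67) (nat_lit 5) (nat_lit 361) (nat_lit 358) (nat_lit 181)) (XT.lf (nat_lit 0) (nat_lit 3618144033296) (nat_lit 532) (nat_lit 6765325928892) (nat_lit 76) (nat_lit 7695773722771) (nat_lit 60) (nat_lit 5) (nat_lit 67) (nat_lit 5) (nat_lit 61) (nat_lit 5) (nat_lit 362) (nat_lit 358) (nat_lit 180))) (XT.nd (nat_lit 78) (nat_lit 228) (nat_lit 0) (XT.lf (nat_lit 0) (nat_lit 7242709434630) (nat_lit 456) (nat_lit 8005111641664) (nat_lit 76) (nat_lit 4294470636667) (nat_lit 55) (nat_lit 5) (nat_lit 61) (nat_lit 5) (nat_lit 56) (nat_lit 5) (nat_lit 363) (nat_lit 358) (nat_lit 179)) (XT.lf (nat_lit 0) (nat_lit 12098635486782) (nat_lit 228) (nat_lit 92558905513) (nat_lit 304) (nat_lit 8971183773177) (nat_lit 52) (nat_lit 5) (nat_lit 55) (nat_lit 5) (nat_lit 56) (nat_lit 5) (nat_lit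 364) (nat_lit 358) (nat_lit 178))))) (XT.nd (nat_lit 46644) (nat_lit 0) (nat_lit 228) (XT.nd (nat_lit 46488) (nat_lit 0) (nat_lit 1140) (XT.nd (nat_lit 46410) (nat_lit 0) (nat_lit 1140) (XT.lf (nat_lit 0) (nat_lit 12919161381721) (nat_lit 228) (nat_lit 5929541616868) (nat_lit 304) (nat_lit 4099434514872) (nat_lit 49) (nat_lit 5) (nat_lit 52) (nat_lit 5) (nat_lit 53) (nat_lit 5) (nat_lit 365) (nat_lit 358) (nat_lit 177)) (XT.lf (nat_lit 0) (nat_lit 6836346877777) (nat_lit 532) (nat_lit 457857513084) (nat_lit 532) (nat_lit 457857513084) (nat_lit 64) (nat_lit 3) (nat_lit 71) (nat_lit 3) (nat_lit 71) (nat_lit 5) (nat_lit 359) (nat_lit 359) (nat_lit 182))) (XT.nd (nat_lit 78) (nat_lit 0) (nat_lit 76) (XT.lf (nat_lit 76) (nat_lit 13909128161804) (nat_lit 0) (nat_lit 1123532492681) (nat_lit 532) (nat_lit 1607511249616) (nat_lit 65) (nat_lit 5) (nat_lit 64) (nat_lit 3) (nat_lit 71) (nat_lit 5)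 (nat_lit 360) (nat_lit 359) (nat_lit 181)) (XT.lf (nat_lit 76) (nat_lit 13392528162686) (nat_lit 0) (nat_lit 3898921781547) (nat_lit 532) (nat_lit 599591082032) (nat_lit 66) (nat_lit 5) (nat_lit 65) (nat_lit 5) (nat_lit 72) (nat_lit 5) (nat_lit 361) (nat_lit 359) (nat_lit 180)))) (XT.nd (nat_lit 156) (nat_lit 532) (nat_lit 0) (XT.nd (nat_lit 78) (nat_lit 0) (nat_lit 76) (XT.lf (nat_lit 0) (nat_lit 1265504423664) (nat_lit 532) (nat_lit 6192114071939) (nat_lit 608) (nat_lit 11812127379161) (nat_lit 59) (nat_lit 5) (nat_lit 66) (nat_lit 5) (nat_lit 67) (nat_lit 5) (nat_lit 362) (nat_lit 359) (nat_lit 179)) (XT.lf (nat_lit 0) (nat_lit 4160865639007) (nat_lit 532) (nat_lit 7780124817546) (nat_lit 76) (nat_lit 8850139781091) (nat_lit 60) (nat_lit 5) (nat_lit 67) (nat_lit 5) (nat_lit 61) (nat_lit 5) (nat_lit 363) (nat_lit 359) (nat_lit 178))) (XT.nd (nat_lit 78) (nat_lit 228) (nat_lit 0) (XT.lf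 (nat_lit 0) (nat_lit 8329115850462) (nat_lit 456) (nat_lit 9205878387239) (nat_lit 76) (nat_lit 4938641232151) (nat_lit 55) (nat_lit 5) (nat_lit 61) (nat_lit 5) (nat_lit 56) (nat_lit 5) (nat_lit 364) (nat_lit 359) (nat_lit 177)) (XT.lf (nat_lit 0) (nat_lit 13913430810416) (nat_lit 228) (nat_lit 106442741293) (nat_lit 304) (nat_lit 10316861338537) (nat_lit 52) (nat_lit 5) (nat_lit 55) (nat_lit 5) (nat_lit 56) (nat_lit 5) (nat_lit 365) (nat_lit 359) (nat_lit 176)))))) (XT.nd (nat_lit 47112) (nat_lit 0) (nat_lit 304) (XT.nd (nat_lit 312) (nat_lit 304) (nat_lit 0) (XT.nd (nat_lit 156) (nat_lit 380) (nat_lit 0) (XT.nd (nat_lit 78) (nat_lit 0) (nat_lit 0) (XT.lf (nat_lit 0) (nat_lit 7861798909883) (nat_lit 532) (nat_lit 526536139809) (nat_lit 532) (nat_lit 526536139809) (nat_lit 64) (nat_lit 3) (nat_lit 71) (nat_lit 3) (nat_lit 71) (nat_lit 5) (nat_lit 360) (nat_lit 360) (nat_lit 180)) (XT.lf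 (nat_lit 76) (nat_lit 15995497386510) (nat_lit 0) (nat_lit 1292062366924) (nat_lit 532) (nat_lit 1848637936221) (nat_lit 65) (nat_lit 5) (nat_lit 64) (nat_lit 3) (nat_lit 71) (nat_lit 5) (nat_lit 361) (nat_lit 360) (nat_lit 179))) (XT.nd (nat_lit 78) (nat_lit 456) (nat_lit 0) (XT.lf (nat_lit 76) (nat_lit 15401407387552) (nat_lit 0) (nat_lit 4483760048994) (nat_lit 532) (nat_lit 689529743604) (nat_lit 66) (nat_lit 5) (nat_lit 65) (nat_lit 5) (nat_lit 72) (nat_lit 5) (nat_lit 362) (nat_lit 360) (nat_lit 178)) (XT.lf (nat_lit 0) (nat_lit 1455330087826) (nat_lit 532) (nat_lit 7120931182218) (nat_lit 608) (nat_lit 13583946485885) (nat_lit 59) (nat_lit 5) (nat_lit 66) (nat_lit 5) (nat_lit 67) (nat_lit 5) (nat_lit 363) (nat_lit 360) (nat_lit 177)))) (XT.nd (nat_lit 46644) (nat_lit 0) (nat_lit 684) (XT.nd (nat_lit 78) (nat_lit 380) (nat_lit 0) (XT.lf (nat_lit 0) (nat_lit 4784995485401) (nat_lit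 532) (nat_lit 8947143539664) (nat_lit 76) (nat_lit 10177660748183) (nat_lit 60) (nat_lit 5) (nat_lit 67) (nat_lit 5) (nat_lit 61) (nat_lit 5) (nat_lit 364) (nat_lit 360) (nat_lit 176)) (XT.lf (nat_lit 0) (nat_lit 9578483228514) (nat_lit 456) (nat_lit 10586760144815) (nat_lit 76) (nat_lit 5679437416963) (nat_lit 55) (nat_lit 5) (nat_lit 61) (nat_lit 5) (nat_lit 56) (nat_lit 5) (nat_lit 365) (nat_lit 360) (nat_lit 175))) (XT.nd (nat_lit 78) (nat_lit 0) (nat_lit 0) (XT.lf (nat_lit 0) (nat_lit 9041068746698) (nat_lit 532) (nat_lit 605516560601) (nat_lit 532) (nat_lit 605516560601) (nat_lit 64) (nat_lit 3) (nat_lit 71) (nat_lit 3) (nat_lit 71) (nat_lit 5) (nat_lit 361) (nat_lit 361) (nat_lit 178)) (XT.lf (nat_lit 76) (nat_lit 18394821994816) (nat_lit 0) (nat_lit 1485871722219) (nat_lit 532) (nat_lit 2125933626020) (nat_lit 65) (nat_lit 5) (nat_lit 64) (nat_lit 3) (nat_lit 71) (nat_lit 5) (nat_lit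 362) (nat_lit 361) (nat_lit 177))))) (XT.nd (nat_lit 46878) (nat_lit 0) (nat_lit 380) (XT.nd (nat_lit 156) (nat_lit 0) (nat_lit 76) (XT.nd (nat_lit 78) (nat_lit 456) (nat_lit 0) (XT.lf (nat_lit 76) (nat_lit 17711618496035) (nat_lit 0) (nat_lit 5156324056506) (nat_lit 532) (nat_lit 792959204591) (nat_lit 66) (nat_lit 5) (nat_lit 65) (nat_lit 5) (nat_lit 72) (nat_lit 5) (nat_lit 363) (nat_lit 361) (nat_lit 176)) (XT.lf (nat_lit 0) (nat_lit 1673629601463) (nat_lit 532) (nat_lit 8189070859164) (nat_lit 608) (nat_lit 15621538458653) (nat_lit 59) (nat_lit 5) (nat_lit 66) (nat_lit 5) (nat_lit 67) (nat_lit 5) (nat_lit 364) (nat_lit 361) (nat_lit 175))) (XT.nd (nat_lit 46644) (nat_lit 0) (nat_lit 304) (XT.lf (nat_lit 0) (nat_lit 5502744808621) (nat_lit 532) (nat_lit 10289215070225) (nat_lit 76) (nat_lit 11704309860356) (nat_lit 60) (nat_lit 5) (nat_lit 67) (nat_lit 5) (nat_lit 61) (nat_lit 5) (nat_lit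 365) (nat_lit 361) (nat_lit 174)) (XT.lf (nat_lit 0) (nat_lit 10397229058955) (nat_lit 532) (nat_lit 696344044555) (nat_lit 532) (nat_lit 696344044555) (nat_lit 64) (nat_lit 3) (nat_lit 71) (nat_lit 3) (nat_lit 71) (nat_lit 5) (nat_lit 362) (nat_lit 362) (nat_lit 176)))) (XT.nd (nat_lit 46956) (nat_lit 0) (nat_lit 0) (XT.nd (nat_lit 78) (nat_lit 0) (nat_lit 76) (XT.lf (nat_lit 76) (nat_lit 21154045294286) (nat_lit 0) (nat_lit 1708752480747) (nat_lit 532) (nat_lit 2444823669444) (nat_lit 65) (nat_lit 5) (nat_lit 64) (nat_lit 3) (nat_lit 71) (nat_lit 5) (nat_lit 363) (nat_lit 362) (nat_lit 175)) (XT.lf (nat_lit 76) (nat_lit 20368361270705) (nat_lit 0) (nat_lit 5929772665105) (nat_lit 532) (nat_lit 911903084860) (nat_lit 66) (nat_lit 5) (nat_lit 65) (nat_lit 5) (nat_lit 72) (nat_lit 5) (nat_lit 364) (nat_lit 362) (nat_lit 174))) (XT.nd (nat_lit 46878) (nat_lit 0) (nat_lit 0) (XT.lf (nat_lit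 76) (nat_lit 24327152088618) (nat_lit 0) (nat_lit 1965065353006) (nat_lit 532) (nat_lit 2811547219499) (nat_lit 65) (nat_lit 5) (nat_lit 64) (nat_lit 3) (nat_lit 71) (nat_lit 5) (nat_lit 364) (nat_lit 363) (nat_lit 173)) (XT.lf (nat_lit 0) (nat_lit 13750335430830) (nat_lit 532) (nat_lit 920914998728) (nat_lit 532) (nat_lit 920914998728) (nat_lit 64) (nat_lit 3) (nat_lit 71) (nat_lit 3) (nat_lit 71) (nat_lit 5) (nat_lit 364) (nat_lit 364) (nat_lit 172))))))))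

set_option maxRecDepth 10000000 in
noncomputable def Tp : PT := (PT.nd (nat_lit 7137234) (PT.nd (nat_lit 6856122) pc0 pc1) (PT.nd (nat_lit 186498) pc2 pc3))

set_option maxRecDepth 10000000 in
noncomputable def Tx : XT := (XT.nd (nat_lit 12311364) (nat_lit 0) (nat_lit 76) XT.nil (XT.nd (nat_lit 4780698) (nat_lit 0) (nat_lit 0) (XT.nd (nat_lit 2108184) (nat_lit 0) (nat_lit 0) (XT.nd (nat_lit 1451814) (nat_lit 0) (nat_lit 0) (XT.nd (nat_lit 1029444) (nat_lit 0) (nat_lit 0) (XT.nd (nat_lit 702858) (nat_lit 0) (nat_lit 0) (XT.nd (nat_lit 514176) (nat_lit 0) (nat_lit 0) (XT.nd (nat_lit 327990) (nat_lit 0) (nat_lit 0) xc0 xc1) (XT.nd (nat_lit 94614) (nat_lit 0) (nat_lit 0) xc2 xc3)) (XT.nd (nat_lit 186186) (nat_lit 0) (nat_lit 0) (XT.nd (nat_lit 93366) (nat_lit 0) (nat_lit 0) xc4 xc5) (XT.nd (nat_lit 92118) (nat_lit 0) (nat_lit 0) xc6 xc7))) (XT.nd (nat_lit 234078) (nat_lit 0) (nat_lit 0) (XT.nd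 (nat_lit 138996) (nat_lit 0) (nat_lit 0) (XT.nd (nat_lit 48048) (nat_lit 0) (nat_lit 0) xc8 xc9) (XT.nd (nat_lit 47580) (nat_lit 0) (nat_lit 0) xc10 xc11)) (XT.nd (nat_lit 94458) (nat_lit 0) (nat_lit 0) (XT.nd (nat_lit 47268) (nat_lit 0) (nat_lit 0) xc12 xc13) (XT.nd (nat_lit 46956) (nat_lit 0) (nat_lit 0) xc14 xc15)))) (XT.nd (nat_lit 328614) (nat_lit 0) (nat_lit 0) (XT.nd (nat_lit 185874) (nat_lit 0) (nat_lit 0) (XT.nd (nat_lit 93210) (nat_lit 0) (nat_lit 0) (XT.nd (nat_lit 46644) (nat_lit 0) (nat_lit 0) xc16 xc17) (XT.nd (nat_lit 46332) (nat_lit 0) (nat_lit 0) xc18 xc19)) (XT.nd (nat_lit 92118) (nat_lit 0) (nat_lit 0) (XT.nd (nat_lit 46098) (nat_lit 0) (nat_lit 0) xc20 xc21) (XT.nd (nat_lit 45786) (nat_lit 0) (nat_lit 0) xc22 xc23))) (XT.nd (nat_lit 184080) (nat_lit 0) (nat_lit 0) (XT.nd (nat_lit 91884) (nat_lit 0) (nat_lit 0) (XT.nd (nat_lit 45864) (nat_lit 0) (nat_lit 0) xc24 xc25)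 (XT.nd (nat_lit 46020) (nat_lit 0) (nat_lit 0) xc26 xc27)) (XT.nd (nat_lit 51012) (nat_lit 0) (nat_lit 0) (XT.nd (nat_lit 46176) (nat_lit 0) (nat_lit 0) xc28 xc29) (XT.nd (nat_lit 46254) (nat_lit 0) (nat_lit 0) xc30 xc31))))) (XT.nd (nat_lit 797004) (nat_lit 0) (nat_lit 0) (XT.nd (nat_lit 374244) (nat_lit 0) (nat_lit 0) (XT.nd (nat_lit 186420) (nat_lit 0) (nat_lit 0) (XT.nd (nat_lit 92976) (nat_lit 0) (nat_lit 0) (XT.nd (nat_lit 46410) (nat_lit 0) (nat_lit 0) xc32 xc33) (XT.nd (nat_lit 46644) (nat_lit 0) (nat_lit 0) xc34 xc35)) (XT.nd (nat_lit 93756) (nat_lit 0) (nat_lit 0) (XT.nd (nat_lit 46800) (nat_lit 0) (nat_lit 0) xc36 xc37) (XT.nd (nat_lit 46956) (nat_lit 0) (nat_lit 0) xc38 xc39))) (XT.nd (nat_lit 189072) (nat_lit 0) (nat_lit 0) (XT.nd (nat_lit 94380) (nat_lit 0) (nat_lit 0) (XT.nd (nat_lit 47112) (nat_lit 0) (nat_lit 0) xc40 xc41) (XT.nd (nat_lit 47268) (nat_lit 0) (nat_lit 0)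 xc42 xc43)) (XT.nd (nat_lit 138060) (nat_lit 0) (nat_lit 0) (XT.nd (nat_lit 90324) (nat_lit 0) (nat_lit 0) xc44 xc45) (XT.nd (nat_lit 47736) (nat_lit 0) (nat_lit 0) xc46 xc47)))) (XT.nd (nat_lit 562302) (nat_lit 0) (nat_lit 456) (XT.nd (nat_lit 279552) (nat_lit 0) (nat_lit 152) (XT.nd (nat_lit 139386) (nat_lit 0) (nat_lit 152) (XT.nd (nat_lit 91182) (nat_lit 0) (nat_lit 152) xc48 xc49) (XT.nd (nat_lit 48204) (nat_lit 0) (nat_lit 0) xc50 xc51)) (XT.nd (nat_lit 140946) (nat_lit 0) (nat_lit 76) (XT.nd (nat_lit 48438) (nat_lit 0) (nat_lit 76) xc52 xc53) (XT.nd (nat_lit 48750) (nat_lit 0) (nat_lit 152) xc54 xc55))) (XT.nd (nat_lit 375492) (nat_lit 0) (nat_lit 684) (XT.nd (nat_lit 186966) (nat_lit 0) (nat_lit 228) (XT.nd (nat_lit 93288) (nat_lit 0) (nat_lit 152) xc56 xc57) (XT.nd (nat_lit 94068) (nat_lit 0) (nat_lit 228) xc58 xc59)) (XT.nd (nat_lit 281190) (nat_lit 0) (nat_lit 912) (XT.nd (nat_lit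 140088) (nat_lit 0) (nat_lit 456) xc60 xc61) (XT.nd (nat_lit 187746) (nat_lit 0) (nat_lit 760) xc62 xc63)))))) XT.nil))

set_option maxRecDepth 10000000 in
noncomputable def Te : XT := XT.nil

set_option maxRecDepth 10000000 in
noncomputable def Tz : ZL := (ZL.cons (nat_lit 76) (nat_lit 6) (nat_lit 322857859214578115058) (ZL.cons (nat_lit 152) (nat_lit 6) (nat_lit 303683876524776964796) (ZL.cons (nat_lit 228) (nat_lit 3) (nat_lit 150381837580488096491) (ZL.cons (nat_lit 304) (nat_lit 6) (nat_lit 281633796431505641996) (ZL.cons (nat_lit 380) (nat_lit 6) (nat_lit 265093942790155081756) (ZL.cons (nat_lit 456) (nat_lit 3) (nat_lit 131277318628207640089) (ZL.cons (nat_lit 532) (nat_lit 6) (nat_lit 246073111102601937482) (ZL.cons (nat_lit 608) (nat_lit 6) (nat_lit 231866753327925787634) (ZL.cons (nat_lit 684) (nat_lit 3) (nat_lit 114829330779728197479) (ZL.cons (nat_lit 760) (nat_lit 6) (nat_lit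 215529441887048215310) (ZL.cons (nat_lit 836) (nat_lit 6) (nat_lit 203409010830917238504) (ZL.cons (nat_lit 912) (nat_lit 3) (nat_lit 100744465516124100696) (ZL.cons (nat_lit 988) (nat_lit 6) (nat_lit 189470515116366615174) (ZL.cons (nat_lit 1064) (nat_lit 6) (nat_lit 179239051219310121276) (ZL.cons (nat_lit 1140) (nat_lit 3) (nat_lit 88784708305885914068) (ZL.cons (nat_lit 1216) (nat_lit 6) (nat_lit 167472867737695153290) (ZL.cons (nat_lit 1292) (nat_lit 6) (nat_lit 158983327320513351348) (ZL.cons (nat_lit 1368) (nat_lit 3) (nat_lit 78765735570022635179) (ZL.cons (nat_lit 1444) (nat_lit 6) (nat_lit 149220355840754279116) (ZL.cons (nat_lit 1520) (nat_lit 6) (nat_lit 142376913062227355818) (ZL.cons (nat_lit 1596) (nat_lit 3) (nat_lit 70557214713518860088) (ZL.cons (nat_lit 1672) (nat_lit 6) (nat_lit 136867249358797669366) (ZL.cons (nat_lit 1748) (nat_lit 6) (nat_lit 134506953866921394030)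 (ZL.cons (nat_lit 1824) (nat_lit 6) (nat_lit 129268652464663894298) (ZL.cons (nat_lit 1900) (nat_lit 3) (nat_lit 64085420303988627302) (ZL.cons (nat_lit 1976) (nat_lit 6) (nat_lit 125297036714568878594) (ZL.cons (nat_lit 2052) (nat_lit 6) (nat_lit 123244605852067769606) (ZL.cons (nat_lit 2128) (nat_lit 3) (nat_lit 60160248104228468906) (ZL.cons (nat_lit 2204) (nat_lit 6) (nat_lit 120866302723336155254) (ZL.cons (nat_lit 2280) (nat_lit 6) (nat_lit 122514401091091009652) (ZL.cons (nat_lit 2356) (nat_lit 6) (nat_lit 119631866745272970840) (ZL.cons (nat_lit 2432) (nat_lit 3) (nat_lit 59338623869729250773) (ZL.cons (nat_lit 2508) (nat_lit 6) (nat_lit 116088455254600033884) (ZL.cons (nat_lit 2584) (nat_lit 6) (nat_lit 117261939261590351380) (ZL.cons (nat_lit 2660) (nat_lit 6) (nat_lit 115477216772458952262) (ZL.cons (nat_lit 2736) (nat_lit 3) (nat_lit 56477113078714884825) (ZL.cons (nat_lit 2812)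 (nat_lit 6) (nat_lit 113581903649540869704) (ZL.cons (nat_lit 2888) (nat_lit 3) (nat_lit 56375900083111969940) (ZL.cons (nat_lit 2964) (nat_lit 6) (nat_lit 111402293558185074764) (ZL.cons (nat_lit 3040) (nat_lit 1) (nat_lit 18446744073709551617) ZL.nil))))))))))))))))))))))))))))))))))))))))

noncomputable def vl : XL := ⟨(nat_lit 0), (nat_lit 76), (nat_lit 176084359), (nat_lit 228), (nat_lit 33977426), (nat_lit 76), (nat_lit 176084359), (nat_lit 1), (nat_lit 5), (nat_lit 3), (nat_lit 4), (nat_lit 1), (nat_lit 4), (nat_lit 0), (nat_lit 0), (nat_lit 0)⟩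

noncomputable def cp0 : Nat := (nat_lit 7198502749906692939054801691902614054354937318857614253336106663073846595592322327144094830068058621350757345492598473024344801372751277379062862837528637625820842150614305759963852181752870502224078209613059928632226727192996350266655957179362147868386990934961997752711520321101050433423344616756102019928556972949409559647091159876852493661827975906987220344147870194773431180119610292775772993163940378834270148521560653845848303866753995415515242522425910071416906639087221509158598796682418249079842675988642142242359777019479843913418754379637126073532736562283940605623168552208464904445750409172208377703527227465348746151345660546358139873888724441072765299813497117016862404620939536293088711694994312968829792853813160987487235740048552406256138165594743255681612760007675131042358073276055989966064709504213047204716319456569034614727119281567224368288095615210518357065693360988933812158371055174753215215578610170593280)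

noncomputable def cp1 : Nat := (nat_lit 96976759350673315103132583112898356398977617433717316150054478272631099997142640726010111656005760854151331356959661162210326740724089377674967901274758005608934541767441572221495306879624990924956175164582623846384495816282928196448399582502862719010497514069942201117713150491047973140972047634367709007282713776875486403243421456061295934839383522989691481214075388375257388218121381680782185856269480806300399145011801917885460207779270360668870236619228498987849722851113487415099426468186407739949377467543981528747407820658592329031563874661351777752714069035416399396871303868918156642243842955835975537328109830074372985555842726109379849820685606560576328163878526851901937702346212447396024380882152623091008625720910525486572496540896243637195626696814432445522545127674086621560920341250184427531870678777764178244517136013082677796318423073018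79655783262830656705720820728007831296321706517018761253459231344456975279544022873093415182797943154518962360970367645180527293249995925538690256644199779381294897273116626202431450203864560084167515465827135114530175989968747166665759294096006826590182554354814302661769980283807804163342656859758797447705766411445514141122492905174191071964788531639027265645194466235161576764587749295369942357507161033606294096665500343787041635298732634088210934304784648709852325608054649767491074720756257914454803902708136032955951210424328353458873306802153267805056087225664731782418000024376541708272517388355649571422096193222120391744796401847840310771566389493578810277637426029249851081905539729942938013793467008617518650313487760962110020404117860187626506526180107482127037374215964599110558088178879370595849993334151636243781466364433641185863451389187694212640450689899551291784804164455696150534065677001623967879513823057182016287298230387513860391967498385332445556700008953396008065823915309070676927951882951397047728068927025932541688908781082346499490080919762863307553277346977001908240579938948706712004078160908662720874793444614553577235614862952330814291968)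

noncomputable def rc0 : Nat := (nat_lit 96976759350673315103132583112898356398977617433717316150054478272631099997142640726010111656005760854151331356959661162210326740724089377674967901274758005608934541767441572221495306879624990924956175164582623846384495816282928196448399582502862719010497514069942201117713150491047973140972047634367709007282713776875486403243421456061295934839383522989691481214075388375257388218121381680782185856269480806300399145011801917885460207779270360668870236619228498987849722851113487415099426468186407739949377467543981528747407820658592329031563874661351777752714069035416399396871303868918156642243842955835975537328109830074372985555842726109379849820685606560576328163878526851901937702346212447396024380882152623091008625720910525486572496540896243637195626696814432445522545127674086621560920341250184427531870678777764178244517136013082677796318423073018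79655783262830656705720820728007831296321706517018761253459231344456975279544022873093415182797943154518962360970367645180527293249995925538690256644199779381294897273116626202431450203864560084167515465827135114530175989968747166665759294096006826590182554354814302661769980283807804163342656859758797447705766411445514141122492905174191071964788531639027265645194466235161576764587749295369942357507161033606294096665500343787041635298732634088210934304784648709852325608054649767491074720756257914454803902708136032955951210424328353458873306802153267805056087225664731782418000024376541708272517388355649571422096193222120391744796401847840310771566389493578810277637426029249851081905539729942938013793467008617518650313487760962110020404117860187626506526180107482127037374215964599110558088178879370595849993334151636243781466364433641185863451389187694212640450689899551291784804164455696150534065677001623967879513823057182016287298230387513860391967498385332445556700008953396008065823915309070676927951882951397047728068927025932541688908781082346499490080919762863307553277346977001908240579938948706712004078160908662720874793444614553577235614862952330814291968)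

end Vale.Agent.Lib.P154.PChain.BF.S1
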