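import Vale.Agent.Lib.P154.PChain.BF.R1_0

set_option linter.all false

namespace Vale.Agent.Lib.P154.PChain.BF.S2

open Vale.Agent.Lib.P154.Chain

noncomputable def pc0 : PT := (PT.nd (nat_lit 7663266) (PT.nd (nat_lit 7344870) (PT.nd (nat_lit 7238556) (PT.nd (nat_lit 7132476) (PT.nd (nat_lit 7079436) (PT.nd (nat_lit 7079358) PT.nil (PT.lf (nat_lit 76) (nat_lit 6) (nat_lit 1) (nat_lit 3) (nat_lit 188) (nat_lit 133) (nat_lit 189))) (PT.nd (nat_lit 52962) (PT.lf (nat_lit 76) (nat_lit 6) (nat_lit 1) (nat_lit 1) (nat_lit 189) (nat_lit 133) (nat_lit 188)) (PT.lf (nat_lit 152) (nat_lit 6) (nat_lit 2) (nat_lit 3) (nat_lit 187) (nat_lit 134) (nat_lit 189)))) (PT.nd (nat_lit 53040) (PT.nd (nat_lit 78) (PT.lf (nat_lit 228) (nat_lit 3) (nat_lit 3) (nat_lit 1) (nat_lit 188) (nat_lit 134) (nat_lit 188)) (PT.lf (nat_lit 152) (nat_lit 6) (nat_lit 2) (nat_lit 1) (nat_lit 189) (nat_lit 134) (nat_lit 187)))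 (PT.nd (nat_lit 78) (PT.lf (nat_lit 304) (nat_lit 6) (nat_lit 4) (nat_lit 3) (nat_lit 187) (nat_lit 135) (nat_lit 188)) (PT.lf (nat_lit 304) (nat_lit 6) (nat_lit 4) (nat_lit 1) (nat_lit 188) (nat_lit 135) (nat_lit 187))))) (PT.nd (nat_lit 53118) (PT.nd (nat_lit 78) (PT.lf (nat_lit 380) (nat_lit 6) (nat_lit 5) (nat_lit 3) (nat_lit 186) (nat_lit 136) (nat_lit 188)) (PT.nd (nat_lit 78) (PT.lf (nat_lit 456) (nat_lit 3) (nat_lit 6) (nat_lit 1) (nat_lit 187) (nat_lit 136) (nat_lit 187)) (PT.lf (nat_lit 380) (nat_lit 6) (nat_lit 5) (nat_lit 1) (nat_lit 188) (nat_lit 136) (nat_lit 186)))) (PT.nd (nat_lit 53040) (PT.nd (nat_lit 78) (PT.lf (nat_lit 532) (nat_lit 6) (nat_lit 7) (nat_lit 3) (nat_lit 186) (nat_lit 137) (nat_lit 187)) (PT.lf (nat_lit 532) (nat_lit 6) (nat_lit 7) (nat_lit 1) (nat_lit 187) (nat_lit 137) (nat_lit 186))) (PT.nd (nat_lit 78) (PT.lf (nat_lit 608) (nat_lit 6) (nat_lit 8) (nat_lit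 3) (nat_lit 185) (nat_lit 138) (nat_lit 187)) (PT.lf (nat_lit 684) (nat_lit 3) (nat_lit 9) (nat_lit 1) (nat_lit 186) (nat_lit 138) (nat_lit 186)))))) (PT.nd (nat_lit 159198) (PT.nd (nat_lit 106002) (PT.nd (nat_lit 52962) (PT.lf (nat_lit 608) (nat_lit 6) (nat_lit 8) (nat_lit 1) (nat_lit 187) (nat_lit 138) (nat_lit 185)) (PT.nd (nat_lit 78) (PT.lf (nat_lit 760) (nat_lit 6) (nat_lit 10) (nat_lit 3) (nat_lit 185) (nat_lit 139) (nat_lit 186)) (PT.lf (nat_lit 760) (nat_lit 6) (nat_lit 10) (nat_lit 1) (nat_lit 186) (nat_lit 139) (nat_lit 185)))) (PT.nd (nat_lit 156) (PT.nd (nat_lit 78) (PT.lf (nat_lit 836) (nat_lit 6) (nat_lit 11) (nat_lit 3) (nat_lit 184) (nat_lit 140) (nat_lit 186)) (PT.lf (nat_lit 912) (nat_lit 3) (nat_lit 12) (nat_lit 1) (nat_lit 185) (nat_lit 140) (nat_lit 185))) (PT.nd (nat_lit 52962) (PT.lf (nat_lit 836) (nat_lit 6) (nat_lit 11) (nat_lit 1) (nat_lit 186) (nat_lit 140)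 (nat_lit 184)) (PT.lf (nat_lit 988) (nat_lit 6) (nat_lit 13) (nat_lit 3) (nat_lit 184) (nat_lit 141) (nat_lit 185))))) (PT.nd (nat_lit 53118) (PT.nd (nat_lit 52962) (PT.lf (nat_lit 988) (nat_lit 6) (nat_lit 13) (nat_lit 1) (nat_lit 185) (nat_lit 141) (nat_lit 184)) (PT.nd (nat_lit 78) (PT.lf (nat_lit 1064) (nat_lit 6) (nat_lit 14) (nat_lit 3) (nat_lit 183) (nat_lit 142) (nat_lit 185)) (PT.lf (nat_lit 1140) (nat_lit 3) (nat_lit 15) (nat_lit 1) (nat_lit 184) (nat_lit 142) (nat_lit 184)))) (PT.nd (nat_lit 53040) (PT.nd (nat_lit 52962) (PT.lf (nat_lit 1064) (nat_lit 6) (nat_lit 14) (nat_lit 1) (nat_lit 185) (nat_lit 142) (nat_lit 183)) (PT.lf (nat_lit 1216) (nat_lit 6) (nat_lit 16) (nat_lit 3) (nat_lit 183) (nat_lit 143) (nat_lit 184))) (PT.nd (nat_lit 52962) (PT.lf (nat_lit 1216) (nat_lit 6) (nat_lit 16) (nat_lit 1) (nat_lit 184) (nat_lit 143) (nat_lit 183)) (PT.lf (nat_lit 1292) (nat_lit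 6) (nat_lit 17) (nat_lit 3) (nat_lit 182) (nat_lit 144) (nat_lit 184))))))) (PT.nd (nat_lit 318396) (PT.nd (nat_lit 159198) (PT.nd (nat_lit 53118) (PT.nd (nat_lit 78) (PT.lf (nat_lit 1368) (nat_lit 3) (nat_lit 18) (nat_lit 1) (nat_lit 183) (nat_lit 144) (nat_lit 183)) (PT.nd (nat_lit 52962) (PT.lf (nat_lit 1292) (nat_lit 6) (nat_lit 17) (nat_lit 1) (nat_lit 184) (nat_lit 144) (nat_lit 182)) (PT.lf (nat_lit 1444) (nat_lit 6) (nat_lit 19) (nat_lit 3) (nat_lit 182) (nat_lit 145) (nat_lit 183)))) (PT.nd (nat_lit 53040) (PT.nd (nat_lit 52962) (PT.lf (nat_lit 1444) (nat_lit 6) (nat_lit 19) (nat_lit 1) (nat_lit 183) (nat_lit 145) (nat_lit 182)) (PT.lf (nat_lit 1520) (nat_lit 6) (nat_lit 20) (nat_lit 3) (nat_lit 181) (nat_lit 146) (nat_lit 183))) (PT.nd (nat_lit 78) (PT.lf (nat_lit 1596) (nat_lit 3) (nat_lit 21) (nat_lit 1) (nat_lit 182) (nat_lit 146) (nat_lit 182)) (PT.lf (nat_lit 1520) (nat_lit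 6) (nat_lit 20) (nat_lit 1) (nat_lit 183) (nat_lit 146) (nat_lit 181))))) (PT.nd (nat_lit 53118) (PT.nd (nat_lit 78) (PT.lf (nat_lit 1672) (nat_lit 6) (nat_lit 22) (nat_lit 3) (nat_lit 181) (nat_lit 147) (nat_lit 182)) (PT.nd (nat_lit 52962) (PT.lf (nat_lit 1672) (nat_lit 6) (nat_lit 22) (nat_lit 1) (nat_lit 182) (nat_lit 147) (nat_lit 181)) (PT.lf (nat_lit 1748) (nat_lit 6) (nat_lit 23) (nat_lit 3) (nat_lit 180) (nat_lit 148) (nat_lit 182)))) (PT.nd (nat_lit 53040) (PT.nd (nat_lit 78) (PT.lf (nat_lit 1824) (nat_lit 3) (nat_lit 24) (nat_lit 1) (nat_lit 181) (nat_lit 148) (nat_lit 181)) (PT.lf (nat_lit 1748) (nat_lit 6) (nat_lit 23) (nat_lit 1) (nat_lit 182) (nat_lit 148) (nat_lit 180))) (PT.nd (nat_lit 78) (PT.lf (nat_lit 1900) (nat_lit 6) (nat_lit 25) (nat_lit 3) (nat_lit 180) (nat_lit 149) (nat_lit 181)) (PT.lf (nat_lit 1900) (nat_lit 6) (nat_lit 25) (nat_lit 1) (nat_lit 181) (nat_lit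 149) (nat_lit 180)))))) (PT.nd (nat_lit 106158) (PT.nd (nat_lit 53040) (PT.nd (nat_lit 78) (PT.lf (nat_lit 1976) (nat_lit 6) (nat_lit 26) (nat_lit 3) (nat_lit 179) (nat_lit 150) (nat_lit 181)) (PT.nd (nat_lit 78) (PT.lf (nat_lit 2052) (nat_lit 3) (nat_lit 27) (nat_lit 1) (nat_lit 180) (nat_lit 150) (nat_lit 180)) (PT.lf (nat_lit 1976) (nat_lit 6) (nat_lit 26) (nat_lit 1) (nat_lit 181) (nat_lit 150) (nat_lit 179)))) (PT.nd (nat_lit 156) (PT.nd (nat_lit 78) (PT.lf (nat_lit 2128) (nat_lit 6) (nat_lit 28) (nat_lit 3) (nat_lit 178) (nat_lit 151) (nat_lit 181)) (PT.lf (nat_lit 2204) (nat_lit 6) (nat_lit 29) (nat_lit 3) (nat_lit 179) (nat_lit 151) (nat_lit 180))) (PT.nd (nat_lit 78) (PT.lf (nat_lit 2204) (nat_lit 6) (nat_lit 29) (nat_lit 1) (nat_lit 180) (nat_lit 151) (nat_lit 179)) (PT.lf (nat_lit 2128) (nat_lit 6) (nat_lit 28) (nat_lit 1) (nat_lit 181) (nat_lit 151) (nat_lit 178))))) (PT.nd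 (nat_lit 53118) (PT.nd (nat_lit 156) (PT.nd (nat_lit 78) (PT.lf (nat_lit 2280) (nat_lit 6) (nat_lit 30) (nat_lit 3) (nat_lit 178) (nat_lit 152) (nat_lit 180)) (PT.lf (nat_lit 2356) (nat_lit 3) (nat_lit 31) (nat_lit 1) (nat_lit 179) (nat_lit 152) (nat_lit 179))) (PT.nd (nat_lit 52884) (PT.lf (nat_lit 2280) (nat_lit 6) (nat_lit 30) (nat_lit 1) (nat_lit 180) (nat_lit 152) (nat_lit 178)) (PT.lf (nat_lit 2432) (nat_lit 6) (nat_lit 32) (nat_lit 3) (nat_lit 177) (nat_lit 153) (nat_lit 180)))) (PT.nd (nat_lit 156) (PT.nd (nat_lit 78) (PT.lf (nat_lit 2508) (nat_lit 6) (nat_lit 33) (nat_lit 3) (nat_lit 178) (nat_lit 153) (nat_lit 179)) (PT.lf (nat_lit 2508) (nat_lit 6) (nat_lit 33) (nat_lit 1) (nat_lit 179) (nat_lit 153) (nat_lit 178))) (PT.nd (nat_lit 52884) (PT.lf (nat_lit 2432) (nat_lit 6) (nat_lit 32) (nat_lit 1) (nat_lit 180) (nat_lit 153) (nat_lit 177)) (PT.lf (nat_lit 2584) (nat_lit 6) (nat_lit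 34) (nat_lit 3) (nat_lit 177) (nat_lit 154) (nat_lit 179))))))))
noncomputable def pc1 : PT := (PT.nd (nat_lit 318552) (PT.nd (nat_lit 159354) (PT.nd (nat_lit 106080) (PT.nd (nat_lit 53040) (PT.nd (nat_lit 78) (PT.lf (nat_lit 2660) (nat_lit 3) (nat_lit 35) (nat_lit 1) (nat_lit 178) (nat_lit 154) (nat_lit 178)) (PT.nd (nat_lit 52884) (PT.lf (nat_lit 2584) (nat_lit 6) (nat_lit 34) (nat_lit 1) (nat_lit 179) (nat_lit 154) (nat_lit 177)) (PT.lf (nat_lit 2736) (nat_lit 6) (nat_lit 36) (nat_lit 3) (nat_lit 176) (nat_lit 155) (nat_lit 179)))) (PT.nd (nat_lit 156) (PT.nd (nat_lit 78) (PT.lf (nat_lit 2812) (nat_lit 6) (nat_lit 37) (nat_lit 3) (nat_lit 177) (nat_lit 155) (nat_lit 178)) (PT.lf (nat_lit 2812) (nat_lit 6) (nat_lit 37) (nat_lit 1) (nat_lit 178) (nat_lit 155) (nat_lit 177))) (PT.nd (nat_lit 52806) (PT.lf (nat_lit 2736) (nat_lit 6) (nat_lit 36) (nat_lit 1) (nat_lit 179) (nat_lit 155) (nat_lit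 176)) (PT.lf (nat_lit 2888) (nat_lit 6) (nat_lit 38) (nat_lit 3) (nat_lit 175) (nat_lit 156) (nat_lit 179))))) (PT.nd (nat_lit 234) (PT.nd (nat_lit 78) (PT.lf (nat_lit 2964) (nat_lit 6) (nat_lit 39) (nat_lit 3) (nat_lit 176) (nat_lit 156) (nat_lit 178)) (PT.nd (nat_lit 78) (PT.lf (nat_lit 3040) (nat_lit 3) (nat_lit 40) (nat_lit 1) (nat_lit 177) (nat_lit 156) (nat_lit 177)) (PT.lf (nat_lit 2964) (nat_lit 6) (nat_lit 39) (nat_lit 1) (nat_lit 178) (nat_lit 156) (nat_lit 176)))) (PT.nd (nat_lit 52884) (PT.nd (nat_lit 52806) (PT.lf (nat_lit 2888) (nat_lit 6) (nat_lit 38) (nat_lit 1) (nat_lit 179) (nat_lit 156) (nat_lit 175)) (PT.lf (nat_lit 3116) (nat_lit 6) (nat_lit 41) (nat_lit 3) (nat_lit 175) (nat_lit 157) (nat_lit 178))) (PT.nd (nat_lit 78) (PT.lf (nat_lit 3192) (nat_lit 6) (nat_lit 42) (nat_lit 3) (nat_lit 176) (nat_lit 157) (nat_lit 177)) (PT.lf (nat_lit 3192) (nat_lit 6) (nat_lit 42)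 (nat_lit 1) (nat_lit 177) (nat_lit 157) (nat_lit 176)))))) (PT.nd (nat_lit 105924) (PT.nd (nat_lit 52962) (PT.nd (nat_lit 52806) (PT.lf (nat_lit 3116) (nat_lit 6) (nat_lit 41) (nat_lit 1) (nat_lit 178) (nat_lit 157) (nat_lit 175)) (PT.nd (nat_lit 78) (PT.lf (nat_lit 3268) (nat_lit 6) (nat_lit 43) (nat_lit 3) (nat_lit 174) (nat_lit 158) (nat_lit 178)) (PT.lf (nat_lit 3344) (nat_lit 6) (nat_lit 44) (nat_lit 3) (nat_lit 175) (nat_lit 158) (nat_lit 177)))) (PT.nd (nat_lit 156) (PT.nd (nat_lit 78) (PT.lf (nat_lit 3420) (nat_lit 3) (nat_lit 45) (nat_lit 1) (nat_lit 176) (nat_lit 158) (nat_lit 176)) (PT.lf (nat_lit 3344) (nat_lit 6) (nat_lit 44) (nat_lit 1) (nat_lit 177) (nat_lit 158) (nat_lit 175))) (PT.nd (nat_lit 52728) (PT.lf (nat_lit 3268) (nat_lit 6) (nat_lit 43) (nat_lit 1) (nat_lit 178) (nat_lit 158) (nat_lit 174)) (PT.lf (nat_lit 3496) (nat_lit 6) (nat_lit 46) (nat_lit 3) (nat_lit 173)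 (nat_lit 159) (nat_lit 178))))) (PT.nd (nat_lit 312) (PT.nd (nat_lit 156) (PT.nd (nat_lit 78) (PT.lf (nat_lit 3572) (nat_lit 6) (nat_lit 47) (nat_lit 3) (nat_lit 174) (nat_lit 159) (nat_lit 177)) (PT.lf (nat_lit 3648) (nat_lit 6) (nat_lit 48) (nat_lit 3) (nat_lit 175) (nat_lit 159) (nat_lit 176))) (PT.nd (nat_lit 78) (PT.lf (nat_lit 3648) (nat_lit 6) (nat_lit 48) (nat_lit 1) (nat_lit 176) (nat_lit 159) (nat_lit 175)) (PT.lf (nat_lit 3572) (nat_lit 6) (nat_lit 47) (nat_lit 1) (nat_lit 177) (nat_lit 159) (nat_lit 174)))) (PT.nd (nat_lit 52806) (PT.nd (nat_lit 52728) (PT.lf (nat_lit 3496) (nat_lit 6) (nat_lit 46) (nat_lit 1) (nat_lit 178) (nat_lit 159) (nat_lit 173)) (PT.lf (nat_lit 3724) (nat_lit 6) (nat_lit 49) (nat_lit 3) (nat_lit 173) (nat_lit 160) (nat_lit 177))) (PT.nd (nat_lit 78) (PT.lf (nat_lit 3800) (nat_lit 6) (nat_lit 50) (nat_lit 3) (nat_lit 174) (nat_lit 160) (nat_lit 176))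 (PT.lf (nat_lit 3876) (nat_lit 3) (nat_lit 51) (nat_lit 1) (nat_lit 175) (nat_lit 160) (nat_lit 175))))))) (PT.nd (nat_lit 106314) (PT.nd (nat_lit 53196) (PT.nd (nat_lit 52884) (PT.nd (nat_lit 78) (PT.lf (nat_lit 3800) (nat_lit 6) (nat_lit 50) (nat_lit 1) (nat_lit 176) (nat_lit 160) (nat_lit 174)) (PT.nd (nat_lit 52728) (PT.lf (nat_lit 3724) (nat_lit 6) (nat_lit 49) (nat_lit 1) (nat_lit 177) (nat_lit 160) (nat_lit 173)) (PT.lf (nat_lit 3952) (nat_lit 6) (nat_lit 52) (nat_lit 3) (nat_lit 172) (nat_lit 161) (nat_lit 177)))) (PT.nd (nat_lit 156) (PT.nd (nat_lit 78) (PT.lf (nat_lit 4028) (nat_lit 6) (nat_lit 53) (nat_lit 3) (nat_lit 173) (nat_lit 161) (nat_lit 176)) (PT.lf (nat_lit 4104) (nat_lit 6) (nat_lit 54) (nat_lit 3) (nat_lit 174) (nat_lit 161) (nat_lit 175))) (PT.nd (nat_lit 78) (PT.lf (nat_lit 4104) (nat_lit 6) (nat_lit 54) (nat_lit 1) (nat_lit 175) (nat_lit 161) (nat_lit 174)) (PT.lf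 (nat_lit 4028) (nat_lit 6) (nat_lit 53) (nat_lit 1) (nat_lit 176) (nat_lit 161) (nat_lit 173))))) (PT.nd (nat_lit 52806) (PT.nd (nat_lit 52650) (PT.lf (nat_lit 3952) (nat_lit 6) (nat_lit 52) (nat_lit 1) (nat_lit 177) (nat_lit 161) (nat_lit 172)) (PT.nd (nat_lit 78) (PT.lf (nat_lit 4180) (nat_lit 6) (nat_lit 55) (nat_lit 3) (nat_lit 171) (nat_lit 162) (nat_lit 177)) (PT.lf (nat_lit 4256) (nat_lit 6) (nat_lit 56) (nat_lit 3) (nat_lit 172) (nat_lit 162) (nat_lit 176)))) (PT.nd (nat_lit 156) (PT.nd (nat_lit 78) (PT.lf (nat_lit 4332) (nat_lit 6) (nat_lit 57) (nat_lit 3) (nat_lit 173) (nat_lit 162) (nat_lit 175)) (PT.lf (nat_lit 4408) (nat_lit 3) (nat_lit 58) (nat_lit 1) (nat_lit 174) (nat_lit 162) (nat_lit 174))) (PT.nd (nat_lit 78) (PT.lf (nat_lit 4332) (nat_lit 6) (nat_lit 57) (nat_lit 1) (nat_lit 175) (nat_lit 162) (nat_lit 173)) (PT.lf (nat_lit 4256) (nat_lit 6) (nat_lit 56) (nat_lit 1)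 (nat_lit 176) (nat_lit 162) (nat_lit 172)))))) (PT.nd (nat_lit 53040) (PT.nd (nat_lit 52728) (PT.nd (nat_lit 52572) (PT.lf (nat_lit 4180) (nat_lit 6) (nat_lit 55) (nat_lit 1) (nat_lit 177) (nat_lit 162) (nat_lit 171)) (PT.nd (nat_lit 78) (PT.lf (nat_lit 4560) (nat_lit 6) (nat_lit 60) (nat_lit 3) (nat_lit 170) (nat_lit 163) (nat_lit 177)) (PT.lf (nat_lit 4636) (nat_lit 6) (nat_lit 61) (nat_lit 3) (nat_lit 171) (nat_lit 163) (nat_lit 176)))) (PT.nd (nat_lit 156) (PT.nd (nat_lit 78) (PT.lf (nat_lit 4712) (nat_lit 6) (nat_lit 62) (nat_lit 3) (nat_lit 172) (nat_lit 163) (nat_lit 175)) (PT.lf (nat_lit 4788) (nat_lit 6) (nat_lit 63) (nat_lit 3) (nat_lit 173) (nat_lit 163) (nat_lit 174))) (PT.nd (nat_lit 78) (PT.lf (nat_lit 4788) (nat_lit 6) (nat_lit 63) (nat_lit 1) (nat_lit 174) (nat_lit 163) (nat_lit 173)) (PT.lf (nat_lit 4712) (nat_lit 6) (nat_lit 62) (nat_lit 1) (nat_lit 175) (nat_lit 163)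 (nat_lit 172))))) (PT.nd (nat_lit 52728) (PT.nd (nat_lit 52572) (PT.nd (nat_lit 78) (PT.lf (nat_lit 4636) (nat_lit 6) (nat_lit 61) (nat_lit 1) (nat_lit 176) (nat_lit 163) (nat_lit 171)) (PT.lf (nat_lit 4560) (nat_lit 6) (nat_lit 60) (nat_lit 1) (nat_lit 177) (nat_lit 163) (nat_lit 170))) (PT.nd (nat_lit 78) (PT.lf (nat_lit 4484) (nat_lit 6) (nat_lit 59) (nat_lit 3) (nat_lit 169) (nat_lit 164) (nat_lit 177)) (PT.lf (nat_lit 5092) (nat_lit 6) (nat_lit 67) (nat_lit 3) (nat_lit 170) (nat_lit 164) (nat_lit 176)))) (PT.nd (nat_lit 156) (PT.nd (nat_lit 78) (PT.lf (nat_lit 5168) (nat_lit 6) (nat_lit 68) (nat_lit 3) (nat_lit 171) (nat_lit 164) (nat_lit 175)) (PT.lf (nat_lit 5244) (nat_lit 6) (nat_lit 69) (nat_lit 3) (nat_lit 172) (nat_lit 164) (nat_lit 174))) (PT.nd (nat_lit 78) (PT.lf (nat_lit 5320) (nat_lit 3) (nat_lit 70) (nat_lit 1) (nat_lit 173) (nat_lit 164) (nat_lit 173)) (PT.lf (nat_lit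 5244) (nat_lit 6) (nat_lit 69) (nat_lit 1) (nat_lit 174) (nat_lit 164) (nat_lit 172))))))))
noncomputable def pc2 : PT := (PT.nd (nat_lit 159354) (PT.nd (nat_lit 105924) (PT.nd (nat_lit 52962) (PT.nd (nat_lit 52650) (PT.nd (nat_lit 78) (PT.lf (nat_lit 5168) (nat_lit 6) (nat_lit 68) (nat_lit 1) (nat_lit 175) (nat_lit 164) (nat_lit 171)) (PT.nd (nat_lit 78) (PT.lf (nat_lit 5092) (nat_lit 6) (nat_lit 67) (nat_lit 1) (nat_lit 176) (nat_lit 164) (nat_lit 170)) (PT.lf (nat_lit 4484) (nat_lit 6) (nat_lit 59) (nat_lit 1) (nat_lit 177) (nat_lit 164) (nat_lit 169)))) (PT.nd (nat_lit 156) (PT.nd (nat_lit 78) (PT.lf (nat_lit 5016) (nat_lit 6) (nat_lit 66) (nat_lit 3) (nat_lit 169) (nat_lit 165) (nat_lit 176)) (PT.lf (nat_lit 5548) (nat_lit 6) (nat_lit 73) (nat_lit 3) (nat_lit 170) (nat_lit 165) (nat_lit 175))) (PT.nd (nat_lit 78) (PT.lf (nat_lit 5624) (nat_lit 6) (nat_lit 74) (nat_lit 3) (nat_lit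 171) (nat_lit 165) (nat_lit 174)) (PT.lf (nat_lit 5700) (nat_lit 6) (nat_lit 75) (nat_lit 3) (nat_lit 172) (nat_lit 165) (nat_lit 173))))) (PT.nd (nat_lit 234) (PT.nd (nat_lit 78) (PT.lf (nat_lit 5700) (nat_lit 6) (nat_lit 75) (nat_lit 1) (nat_lit 173) (nat_lit 165) (nat_lit 172)) (PT.nd (nat_lit 78) (PT.lf (nat_lit 5624) (nat_lit 6) (nat_lit 74) (nat_lit 1) (nat_lit 174) (nat_lit 165) (nat_lit 171)) (PT.lf (nat_lit 5548) (nat_lit 6) (nat_lit 73) (nat_lit 1) (nat_lit 175) (nat_lit 165) (nat_lit 170)))) (PT.nd (nat_lit 52572) (PT.nd (nat_lit 52494) (PT.lf (nat_lit 5016) (nat_lit 6) (nat_lit 66) (nat_lit 1) (nat_lit 176) (nat_lit 165) (nat_lit 169)) (PT.lf (nat_lit 4940) (nat_lit 6) (nat_lit 65) (nat_lit 3) (nat_lit 168) (nat_lit 166) (nat_lit 176))) (PT.nd (nat_lit 78) (PT.lf (nat_lit 5472) (nat_lit 6) (nat_lit 72) (nat_lit 3) (nat_lit 169) (nat_lit 166) (nat_lit 175)) (PT.lf (nat_lit 5928)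 (nat_lit 6) (nat_lit 78) (nat_lit 3) (nat_lit 170) (nat_lit 166) (nat_lit 174)))))) (PT.nd (nat_lit 52884) (PT.nd (nat_lit 234) (PT.nd (nat_lit 78) (PT.lf (nat_lit 6004) (nat_lit 6) (nat_lit 79) (nat_lit 3) (nat_lit 171) (nat_lit 166) (nat_lit 173)) (PT.nd (nat_lit 78) (PT.lf (nat_lit 6080) (nat_lit 3) (nat_lit 80) (nat_lit 1) (nat_lit 172) (nat_lit 166) (nat_lit 172)) (PT.lf (nat_lit 6004) (nat_lit 6) (nat_lit 79) (nat_lit 1) (nat_lit 173) (nat_lit 166) (nat_lit 171)))) (PT.nd (nat_lit 156) (PT.nd (nat_lit 78) (PT.lf (nat_lit 5928) (nat_lit 6) (nat_lit 78) (nat_lit 1) (nat_lit 174) (nat_lit 166) (nat_lit 170)) (PT.lf (nat_lit 5472) (nat_lit 6) (nat_lit 72) (nat_lit 1) (nat_lit 175) (nat_lit 166) (nat_lit 169))) (PT.nd (nat_lit 52416) (PT.lf (nat_lit 4940) (nat_lit 6) (nat_lit 65) (nat_lit 1) (nat_lit 176) (nat_lit 166) (nat_lit 168)) (PT.lf (nat_lit 4864) (nat_lit 3) (nat_lit 64) (nat_lit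 3) (nat_lit 167) (nat_lit 167) (nat_lit 176))))) (PT.nd (nat_lit 234) (PT.nd (nat_lit 78) (PT.lf (nat_lit 5396) (nat_lit 6) (nat_lit 71) (nat_lit 3) (nat_lit 168) (nat_lit 167) (nat_lit 175)) (PT.nd (nat_lit 78) (PT.lf (nat_lit 5852) (nat_lit 6) (nat_lit 77) (nat_lit 3) (nat_lit 169) (nat_lit 167) (nat_lit 174)) (PT.lf (nat_lit 6232) (nat_lit 6) (nat_lit 82) (nat_lit 3) (nat_lit 170) (nat_lit 167) (nat_lit 173)))) (PT.nd (nat_lit 156) (PT.nd (nat_lit 78) (PT.lf (nat_lit 6308) (nat_lit 6) (nat_lit 83) (nat_lit 3) (nat_lit 171) (nat_lit 167) (nat_lit 172)) (PT.lf (nat_lit 6308) (nat_lit 6) (nat_lit 83) (nat_lit 1) (nat_lit 172) (nat_lit 167) (nat_lit 171))) (PT.nd (nat_lit 78) (PT.lf (nat_lit 6232) (nat_lit 6) (nat_lit 82) (nat_lit 1) (nat_lit 173) (nat_lit 167) (nat_lit 170)) (PT.lf (nat_lit 5852) (nat_lit 6) (nat_lit 77) (nat_lit 1) (nat_lit 174) (nat_lit 167) (nat_lit 169))))))) (PT.nd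 (nat_lit 105456) (PT.nd (nat_lit 52806) (PT.nd (nat_lit 52494) (PT.nd (nat_lit 78) (PT.lf (nat_lit 5396) (nat_lit 6) (nat_lit 71) (nat_lit 1) (nat_lit 175) (nat_lit 167) (nat_lit 168)) (PT.nd (nat_lit 52338) (PT.lf (nat_lit 4864) (nat_lit 3) (nat_lit 64) (nat_lit 0) (nat_lit 176) (nat_lit 167) (nat_lit 167)) (PT.lf (nat_lit 4940) (nat_lit 6) (nat_lit 65) (nat_lit 5) (nat_lit 166) (nat_lit 168) (nat_lit 176)))) (PT.nd (nat_lit 156) (PT.nd (nat_lit 78) (PT.lf (nat_lit 5396) (nat_lit 6) (nat_lit 71) (nat_lit 5) (nat_lit 167) (nat_lit 168) (nat_lit 175)) (PT.lf (nat_lit 5776) (nat_lit 3) (nat_lit 76) (nat_lit 3) (nat_lit 168) (nat_lit 168) (nat_lit 174))) (PT.nd (nat_lit 78) (PT.lf (nat_lit 6156) (nat_lit 6) (nat_lit 81) (nat_lit 3) (nat_lit 169) (nat_lit 168) (nat_lit 173)) (PT.lf (nat_lit 6460) (nat_lit 6) (nat_lit 85) (nat_lit 3) (nat_lit 170) (nat_lit 168) (nat_lit 172))))) (PT.nd (nat_lit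 234) (PT.nd (nat_lit 78) (PT.lf (nat_lit 6536) (nat_lit 3) (nat_lit 86) (nat_lit 1) (nat_lit 171) (nat_lit 168) (nat_lit 171)) (PT.nd (nat_lit 78) (PT.lf (nat_lit 6460) (nat_lit 6) (nat_lit 85) (nat_lit 1) (nat_lit 172) (nat_lit 168) (nat_lit 170)) (PT.lf (nat_lit 6156) (nat_lit 6) (nat_lit 81) (nat_lit 1) (nat_lit 173) (nat_lit 168) (nat_lit 169)))) (PT.nd (nat_lit 156) (PT.nd (nat_lit 78) (PT.lf (nat_lit 5776) (nat_lit 3) (nat_lit 76) (nat_lit 0) (nat_lit 174) (nat_lit 168) (nat_lit 168)) (PT.lf (nat_lit 5396) (nat_lit 6) (nat_lit 71) (nat_lit 0) (nat_lit 175) (nat_lit 168) (nat_lit 167))) (PT.nd (nat_lit 52182) (PT.lf (nat_lit 4940) (nat_lit 6) (nat_lit 65) (nat_lit 0) (nat_lit 176) (nat_lit 168) (nat_lit 166)) (PT.lf (nat_lit 4484) (nat_lit 6) (nat_lit 59) (nat_lit 5) (nat_lit 164) (nat_lit 169) (nat_lit 177)))))) (PT.nd (nat_lit 546) (PT.nd (nat_lit 234) (PT.nd (nat_lit 78) (PT.lf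 (nat_lit 5016) (nat_lit 6) (nat_lit 66) (nat_lit 5) (nat_lit 165) (nat_lit 169) (nat_lit 176)) (PT.nd (nat_lit 78) (PT.lf (nat_lit 5472) (nat_lit 6) (nat_lit 72) (nat_lit 5) (nat_lit 166) (nat_lit 169) (nat_lit 175)) (PT.lf (nat_lit 5852) (nat_lit 6) (nat_lit 77) (nat_lit 5) (nat_lit 167) (nat_lit 169) (nat_lit 174)))) (PT.nd (nat_lit 156) (PT.nd (nat_lit 78) (PT.lf (nat_lit 6156) (nat_lit 6) (nat_lit 81) (nat_lit 5) (nat_lit 168) (nat_lit 169) (nat_lit 173)) (PT.lf (nat_lit 6384) (nat_lit 3) (nat_lit 84) (nat_lit 3) (nat_lit 169) (nat_lit 169) (nat_lit 172))) (PT.nd (nat_lit 78) (PT.lf (nat_lit 6612) (nat_lit 6) (nat_lit 87) (nat_lit 3) (nat_lit 170) (nat_lit 169) (nat_lit 171)) (PT.lf (nat_lit 6612) (nat_lit 6) (nat_lit 87) (nat_lit 1) (nat_lit 171) (nat_lit 169) (nat_lit 170))))) (PT.nd (nat_lit 312) (PT.nd (nat_lit 156) (PT.nd (nat_lit 78) (PT.lf (nat_lit 6384) (nat_lit 3) (nat_lit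 84) (nat_lit 0) (nat_lit 172) (nat_lit 169) (nat_lit 169)) (PT.lf (nat_lit 6156) (nat_lit 6) (nat_lit 81) (nat_lit 0) (nat_lit 173) (nat_lit 169) (nat_lit 168))) (PT.nd (nat_lit 78) (PT.lf (nat_lit 5852) (nat_lit 6) (nat_lit 77) (nat_lit 0) (nat_lit 174) (nat_lit 169) (nat_lit 167)) (PT.lf (nat_lit 5472) (nat_lit 6) (nat_lit 72) (nat_lit 0) (nat_lit 175) (nat_lit 169) (nat_lit 166)))) (PT.nd (nat_lit 52104) (PT.nd (nat_lit 78) (PT.lf (nat_lit 5016) (nat_lit 6) (nat_lit 66) (nat_lit 0) (nat_lit 176) (nat_lit 169) (nat_lit 165)) (PT.lf (nat_lit 4484) (nat_lit 6) (nat_lit 59) (nat_lit 0) (nat_lit 177) (nat_lit 169) (nat_lit 164))) (PT.nd (nat_lit 78) (PT.lf (nat_lit 4560) (nat_lit 6) (nat_lit 60) (nat_lit 5) (nat_lit 163) (nat_lit 170) (nat_lit 177)) (PT.lf (nat_lit 5092) (nat_lit 6) (nat_lit 67) (nat_lit 5) (nat_lit 164) (nat_lit 170) (nat_lit 176))))))))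
noncomputable def pc3 : PT := (PT.nd (nat_lit 105924) (PT.nd (nat_lit 52962) (PT.nd (nat_lit 546) (PT.nd (nat_lit 234) (PT.nd (nat_lit 78) (PT.lf (nat_lit 5548) (nat_lit 6) (nat_lit 73) (nat_lit 5) (nat_lit 165) (nat_lit 170) (nat_lit 175)) (PT.nd (nat_lit 78) (PT.lf (nat_lit 5928) (nat_lit 6) (nat_lit 78) (nat_lit 5) (nat_lit 166) (nat_lit 170) (nat_lit 174)) (PT.lf (nat_lit 6232) (nat_lit 6) (nat_lit 82) (nat_lit 5) (nat_lit 167) (nat_lit 170) (nat_lit 173)))) (PT.nd (nat_lit 156) (PT.nd (nat_lit 78) (PT.lf (nat_lit 6460) (nat_lit 6) (nat_lit 85) (nat_lit 5) (nat_lit 168) (nat_lit 170) (nat_lit 172)) (PT.lf (nat_lit 6612) (nat_lit 6) (nat_lit 87) (nat_lit 5) (nat_lit 169) (nat_lit 170) (nat_lit 171))) (PT.nd (nat_lit 78) (PT.lf (nat_lit 6688) (nat_lit 1) (nat_lit 88) (nat_lit 0) (nat_lit 170) (nat_lit 170) (nat_lit 170)) (PT.lf (nat_lit 6612) (nat_lit 6) (nat_lit 87) (nat_lit 0) (nat_lit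 171) (nat_lit 170) (nat_lit 169))))) (PT.nd (nat_lit 234) (PT.nd (nat_lit 78) (PT.lf (nat_lit 6460) (nat_lit 6) (nat_lit 85) (nat_lit 0) (nat_lit 172) (nat_lit 170) (nat_lit 168)) (PT.nd (nat_lit 78) (PT.lf (nat_lit 6232) (nat_lit 6) (nat_lit 82) (nat_lit 0) (nat_lit 173) (nat_lit 170) (nat_lit 167)) (PT.lf (nat_lit 5928) (nat_lit 6) (nat_lit 78) (nat_lit 0) (nat_lit 174) (nat_lit 170) (nat_lit 166)))) (PT.nd (nat_lit 156) (PT.nd (nat_lit 78) (PT.lf (nat_lit 5548) (nat_lit 6) (nat_lit 73) (nat_lit 0) (nat_lit 175) (nat_lit 170) (nat_lit 165)) (PT.lf (nat_lit 5092) (nat_lit 6) (nat_lit 67) (nat_lit 0) (nat_lit 176) (nat_lit 170) (nat_lit 164))) (PT.nd (nat_lit 51948) (PT.lf (nat_lit 4560) (nat_lit 6) (nat_lit 60) (nat_lit 0) (nat_lit 177) (nat_lit 170) (nat_lit 163)) (PT.lf (nat_lit 4180) (nat_lit 6) (nat_lit 55) (nat_lit 5) (nat_lit 162) (nat_lit 171) (nat_lit 177)))))) (PT.nd (nat_lit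 546) (PT.nd (nat_lit 234) (PT.nd (nat_lit 78) (PT.lf (nat_lit 4636) (nat_lit 6) (nat_lit 61) (nat_lit 5) (nat_lit 163) (nat_lit 171) (nat_lit 176)) (PT.nd (nat_lit 78) (PT.lf (nat_lit 5168) (nat_lit 6) (nat_lit 68) (nat_lit 5) (nat_lit 164) (nat_lit 171) (nat_lit 175)) (PT.lf (nat_lit 5624) (nat_lit 6) (nat_lit 74) (nat_lit 5) (nat_lit 165) (nat_lit 171) (nat_lit 174)))) (PT.nd (nat_lit 156) (PT.nd (nat_lit 78) (PT.lf (nat_lit 6004) (nat_lit 6) (nat_lit 79) (nat_lit 5) (nat_lit 166) (nat_lit 171) (nat_lit 173)) (PT.lf (nat_lit 6308) (nat_lit 6) (nat_lit 83) (nat_lit 5) (nat_lit 167) (nat_lit 171) (nat_lit 172))) (PT.nd (nat_lit 78) (PT.lf (nat_lit 6536) (nat_lit 3) (nat_lit 86) (nat_lit 4) (nat_lit 168) (nat_lit 171) (nat_lit 171)) (PT.lf (nat_lit 6612) (nat_lit 6) (nat_lit 87) (nat_lit 4) (nat_lit 169) (nat_lit 171) (nat_lit 170))))) (PT.nd (nat_lit 312) (PT.nd (nat_lit 156) (PT.nd (nat_lit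 78) (PT.lf (nat_lit 6612) (nat_lit 6) (nat_lit 87) (nat_lit 2) (nat_lit 170) (nat_lit 171) (nat_lit 169)) (PT.lf (nat_lit 6536) (nat_lit 3) (nat_lit 86) (nat_lit 0) (nat_lit 171) (nat_lit 171) (nat_lit 168))) (PT.nd (nat_lit 78) (PT.lf (nat_lit 6308) (nat_lit 6) (nat_lit 83) (nat_lit 0) (nat_lit 172) (nat_lit 171) (nat_lit 167)) (PT.lf (nat_lit 6004) (nat_lit 6) (nat_lit 79) (nat_lit 0) (nat_lit 173) (nat_lit 171) (nat_lit 166)))) (PT.nd (nat_lit 156) (PT.nd (nat_lit 78) (PT.lf (nat_lit 5624) (nat_lit 6) (nat_lit 74) (nat_lit 0) (nat_lit 174) (nat_lit 171) (nat_lit 165)) (PT.lf (nat_lit 5168) (nat_lit 6) (nat_lit 68) (nat_lit 0) (nat_lit 175) (nat_lit 171) (nat_lit 164))) (PT.nd (nat_lit 78) (PT.lf (nat_lit 4636) (nat_lit 6) (nat_lit 61) (nat_lit 0) (nat_lit 176) (nat_lit 171) (nat_lit 163)) (PT.lf (nat_lit 4180) (nat_lit 6) (nat_lit 55) (nat_lit 0) (nat_lit 177) (nat_lit 171) (nat_lit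 162))))))) (PT.nd (nat_lit 1092) (PT.nd (nat_lit 546) (PT.nd (nat_lit 234) (PT.nd (nat_lit 78) (PT.lf (nat_lit 3952) (nat_lit 6) (nat_lit 52) (nat_lit 5) (nat_lit 161) (nat_lit 172) (nat_lit 177)) (PT.nd (nat_lit 78) (PT.lf (nat_lit 4256) (nat_lit 6) (nat_lit 56) (nat_lit 5) (nat_lit 162) (nat_lit 172) (nat_lit 176)) (PT.lf (nat_lit 4712) (nat_lit 6) (nat_lit 62) (nat_lit 5) (nat_lit 163) (nat_lit 172) (nat_lit 175)))) (PT.nd (nat_lit 156) (PT.nd (nat_lit 78) (PT.lf (nat_lit 5244) (nat_lit 6) (nat_lit 69) (nat_lit 5) (nat_lit 164) (nat_lit 172) (nat_lit 174)) (PT.lf (nat_lit 5700) (nat_lit 6) (nat_lit 75) (nat_lit 5) (nat_lit 165) (nat_lit 172) (nat_lit 173))) (PT.nd (nat_lit 78) (PT.lf (nat_lit 6080) (nat_lit 3) (nat_lit 80) (nat_lit 4) (nat_lit 166) (nat_lit 172) (nat_lit 172)) (PT.lf (nat_lit 6308) (nat_lit 6) (nat_lit 83) (nat_lit 4) (nat_lit 167) (nat_lit 172) (nat_lit 171))))) (PT.nd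 (nat_lit 234) (PT.nd (nat_lit 78) (PT.lf (nat_lit 6460) (nat_lit 6) (nat_lit 85) (nat_lit 4) (nat_lit 168) (nat_lit 172) (nat_lit 170)) (PT.nd (nat_lit 78) (PT.lf (nat_lit 6384) (nat_lit 3) (nat_lit 84) (nat_lit 2) (nat_lit 169) (nat_lit 172) (nat_lit 169)) (PT.lf (nat_lit 6460) (nat_lit 6) (nat_lit 85) (nat_lit 2) (nat_lit 170) (nat_lit 172) (nat_lit 168)))) (PT.nd (nat_lit 156) (PT.nd (nat_lit 78) (PT.lf (nat_lit 6308) (nat_lit 6) (nat_lit 83) (nat_lit 2) (nat_lit 171) (nat_lit 172) (nat_lit 167)) (PT.lf (nat_lit 6080) (nat_lit 3) (nat_lit 80) (nat_lit 0) (nat_lit 172) (nat_lit 172) (nat_lit 166))) (PT.nd (nat_lit 78) (PT.lf (nat_lit 5700) (nat_lit 6) (nat_lit 75) (nat_lit 0) (nat_lit 173) (nat_lit 172) (nat_lit 165)) (PT.lf (nat_lit 5244) (nat_lit 6) (nat_lit 69) (nat_lit 0) (nat_lit 174) (nat_lit 172) (nat_lit 164)))))) (PT.nd (nat_lit 52182) (PT.nd (nat_lit 51870) (PT.nd (nat_lit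 78) (PT.lf (nat_lit 4712) (nat_lit 6) (nat_lit 62) (nat_lit 0) (nat_lit 175) (nat_lit 172) (nat_lit 163)) (PT.nd (nat_lit 78) (PT.lf (nat_lit 4256) (nat_lit 6) (nat_lit 56) (nat_lit 0) (nat_lit 176) (nat_lit 172) (nat_lit 162)) (PT.lf (nat_lit 3952) (nat_lit 6) (nat_lit 52) (nat_lit 0) (nat_lit 177) (nat_lit 172) (nat_lit 161)))) (PT.nd (nat_lit 156) (PT.nd (nat_lit 78) (PT.lf (nat_lit 3496) (nat_lit 6) (nat_lit 46) (nat_lit 5) (nat_lit 159) (nat_lit 173) (nat_lit 178)) (PT.lf (nat_lit 3724) (nat_lit 6) (nat_lit 49) (nat_lit 5) (nat_lit 160) (nat_lit 173) (nat_lit 177))) (PT.nd (nat_lit 78) (PT.lf (nat_lit 4028) (nat_lit 6) (nat_lit 53) (nat_lit 5) (nat_lit 161) (nat_lit 173) (nat_lit 176)) (PT.lf (nat_lit 4332) (nat_lit 6) (nat_lit 57) (nat_lit 5) (nat_lit 162) (nat_lit 173) (nat_lit 175))))) (PT.nd (nat_lit 312) (PT.nd (nat_lit 156) (PT.nd (nat_lit 78) (PT.lf (nat_lit 4788) (nat_lit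 6) (nat_lit 63) (nat_lit 5) (nat_lit 163) (nat_lit 173) (nat_lit 174)) (PT.lf (nat_lit 5320) (nat_lit 3) (nat_lit 70) (nat_lit 4) (nat_lit 164) (nat_lit 173) (nat_lit 173))) (PT.nd (nat_lit 78) (PT.lf (nat_lit 5700) (nat_lit 6) (nat_lit 75) (nat_lit 4) (nat_lit 165) (nat_lit 173) (nat_lit 172)) (PT.lf (nat_lit 6004) (nat_lit 6) (nat_lit 79) (nat_lit 4) (nat_lit 166) (nat_lit 173) (nat_lit 171)))) (PT.nd (nat_lit 156) (PT.nd (nat_lit 78) (PT.lf (nat_lit 6232) (nat_lit 6) (nat_lit 82) (nat_lit 4) (nat_lit 167) (nat_lit 173) (nat_lit 170)) (PT.lf (nat_lit 6156) (nat_lit 6) (nat_lit 81) (nat_lit 4) (nat_lit 168) (nat_lit 173) (nat_lit 169))) (PT.nd (nat_lit 78) (PT.lf (nat_lit 6156) (nat_lit 6) (nat_lit 81) (nat_lit 2) (nat_lit 169) (nat_lit 173) (nat_lit 168)) (PT.lf (nat_lit 6232) (nat_lit 6) (nat_lit 82) (nat_lit 2) (nat_lit 170) (nat_lit 173) (nat_lit 167))))))))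
noncomputable def pc4 : PT := (PT.nd (nat_lit 53664) (PT.nd (nat_lit 52572) (PT.nd (nat_lit 546) (PT.nd (nat_lit 234) (PT.nd (nat_lit 78) (PT.lf (nat_lit 6004) (nat_lit 6) (nat_lit 79) (nat_lit 2) (nat_lit 171) (nat_lit 173) (nat_lit 166)) (PT.nd (nat_lit 78) (PT.lf (nat_lit 5700) (nat_lit 6) (nat_lit 75) (nat_lit 2) (nat_lit 172) (nat_lit 173) (nat_lit 165)) (PT.lf (nat_lit 5320) (nat_lit 3) (nat_lit 70) (nat_lit 0) (nat_lit 173) (nat_lit 173) (nat_lit 164)))) (PT.nd (nat_lit 156) (PT.nd (nat_lit 78) (PT.lf (nat_lit 4788) (nat_lit 6) (nat_lit 63) (nat_lit 0) (nat_lit 174) (nat_lit 173) (nat_lit 163)) (PT.lf (nat_lit 4332) (nat_lit 6) (nat_lit 57) (nat_lit 0) (nat_lit 175) (nat_lit 173) (nat_lit 162))) (PT.nd (nat_lit 78) (PT.lf (nat_lit 4028) (nat_lit 6) (nat_lit 53) (nat_lit 0) (nat_lit 176) (nat_lit 173) (nat_lit 161)) (PT.lf (nat_lit 3724) (nat_lit 6) (nat_lit 49) (nat_lit 0) (nat_lit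 177) (nat_lit 173) (nat_lit 160))))) (PT.nd (nat_lit 51714) (PT.nd (nat_lit 51558) (PT.lf (nat_lit 3496) (nat_lit 6) (nat_lit 46) (nat_lit 0) (nat_lit 178) (nat_lit 173) (nat_lit 159)) (PT.nd (nat_lit 78) (PT.lf (nat_lit 3268) (nat_lit 6) (nat_lit 43) (nat_lit 5) (nat_lit 158) (nat_lit 174) (nat_lit 178)) (PT.lf (nat_lit 3572) (nat_lit 6) (nat_lit 47) (nat_lit 5) (nat_lit 159) (nat_lit 174) (nat_lit 177)))) (PT.nd (nat_lit 156) (PT.nd (nat_lit 78) (PT.lf (nat_lit 3800) (nat_lit 6) (nat_lit 50) (nat_lit 5) (nat_lit 160) (nat_lit 174) (nat_lit 176)) (PT.lf (nat_lit 4104) (nat_lit 6) (nat_lit 54) (nat_lit 5) (nat_lit 161) (nat_lit 174) (nat_lit 175))) (PT.nd (nat_lit 78) (PT.lf (nat_lit 4408) (nat_lit 3) (nat_lit 58) (nat_lit 4) (nat_lit 162) (nat_lit 174) (nat_lit 174)) (PT.lf (nat_lit 4788) (nat_lit 6) (nat_lit 63) (nat_lit 4) (nat_lit 163) (nat_lit 174) (nat_lit 173)))))) (PT.nd (nat_lit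 546) (PT.nd (nat_lit 234) (PT.nd (nat_lit 78) (PT.lf (nat_lit 5244) (nat_lit 6) (nat_lit 69) (nat_lit 4) (nat_lit 164) (nat_lit 174) (nat_lit 172)) (PT.nd (nat_lit 78) (PT.lf (nat_lit 5624) (nat_lit 6) (nat_lit 74) (nat_lit 4) (nat_lit 165) (nat_lit 174) (nat_lit 171)) (PT.lf (nat_lit 5928) (nat_lit 6) (nat_lit 78) (nat_lit 4) (nat_lit 166) (nat_lit 174) (nat_lit 170)))) (PT.nd (nat_lit 156) (PT.nd (nat_lit 78) (PT.lf (nat_lit 5852) (nat_lit 6) (nat_lit 77) (nat_lit 4) (nat_lit 167) (nat_lit 174) (nat_lit 169)) (PT.lf (nat_lit 5776) (nat_lit 3) (nat_lit 76) (nat_lit 2) (nat_lit 168) (nat_lit 174) (nat_lit 168))) (PT.nd (nat_lit 78) (PT.lf (nat_lit 5852) (nat_lit 6) (nat_lit 77) (nat_lit 2) (nat_lit 169) (nat_lit 174) (nat_lit 167)) (PT.lf (nat_lit 5928) (nat_lit 6) (nat_lit 78) (nat_lit 2) (nat_lit 170) (nat_lit 174) (nat_lit 166))))) (PT.nd (nat_lit 234) (PT.nd (nat_lit 78) (PT.lf (nat_lit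 5624) (nat_lit 6) (nat_lit 74) (nat_lit 2) (nat_lit 171) (nat_lit 174) (nat_lit 165)) (PT.nd (nat_lit 78) (PT.lf (nat_lit 5244) (nat_lit 6) (nat_lit 69) (nat_lit 2) (nat_lit 172) (nat_lit 174) (nat_lit 164)) (PT.lf (nat_lit 4788) (nat_lit 6) (nat_lit 63) (nat_lit 2) (nat_lit 173) (nat_lit 174) (nat_lit 163)))) (PT.nd (nat_lit 156) (PT.nd (nat_lit 78) (PT.lf (nat_lit 4408) (nat_lit 3) (nat_lit 58) (nat_lit 0) (nat_lit 174) (nat_lit 174) (nat_lit 162)) (PT.lf (nat_lit 4104) (nat_lit 6) (nat_lit 54) (nat_lit 0) (nat_lit 175) (nat_lit 174) (nat_lit 161))) (PT.nd (nat_lit 78) (PT.lf (nat_lit 3800) (nat_lit 6) (nat_lit 50) (nat_lit 0) (nat_lit 176) (nat_lit 174) (nat_lit 160)) (PT.lf (nat_lit 3572) (nat_lit 6) (nat_lit 47) (nat_lit 0) (nat_lit 177) (nat_lit 174) (nat_lit 159))))))) (PT.nd (nat_lit 52416) (PT.nd (nat_lit 51870) (PT.nd (nat_lit 51558) (PT.nd (nat_lit 51402) (PT.lf (nat_lit 3268)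 (nat_lit 6) (nat_lit 43) (nat_lit 0) (nat_lit 178) (nat_lit 174) (nat_lit 158)) (PT.nd (nat_lit 78) (PT.lf (nat_lit 2888) (nat_lit 6) (nat_lit 38) (nat_lit 5) (nat_lit 156) (nat_lit 175) (nat_lit 179)) (PT.lf (nat_lit 3116) (nat_lit 6) (nat_lit 41) (nat_lit 5) (nat_lit 157) (nat_lit 175) (nat_lit 178)))) (PT.nd (nat_lit 156) (PT.nd (nat_lit 78) (PT.lf (nat_lit 3344) (nat_lit 6) (nat_lit 44) (nat_lit 5) (nat_lit 158) (nat_lit 175) (nat_lit 177)) (PT.lf (nat_lit 3648) (nat_lit 6) (nat_lit 48) (nat_lit 5) (nat_lit 159) (nat_lit 175) (nat_lit 176))) (PT.nd (nat_lit 78) (PT.lf (nat_lit 3876) (nat_lit 3) (nat_lit 51) (nat_lit 4) (nat_lit 160) (nat_lit 175) (nat_lit 175)) (PT.lf (nat_lit 4104) (nat_lit 6) (nat_lit 54) (nat_lit 4) (nat_lit 161) (nat_lit 175) (nat_lit 174))))) (PT.nd (nat_lit 234) (PT.nd (nat_lit 78) (PT.lf (nat_lit 4332) (nat_lit 6) (nat_lit 57) (nat_lit 4) (nat_lit 162) (nat_lit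 175) (nat_lit 173)) (PT.nd (nat_lit 78) (PT.lf (nat_lit 4712) (nat_lit 6) (nat_lit 62) (nat_lit 4) (nat_lit 163) (nat_lit 175) (nat_lit 172)) (PT.lf (nat_lit 5168) (nat_lit 6) (nat_lit 68) (nat_lit 4) (nat_lit 164) (nat_lit 175) (nat_lit 171)))) (PT.nd (nat_lit 156) (PT.nd (nat_lit 78) (PT.lf (nat_lit 5548) (nat_lit 6) (nat_lit 73) (nat_lit 4) (nat_lit 165) (nat_lit 175) (nat_lit 170)) (PT.lf (nat_lit 5472) (nat_lit 6) (nat_lit 72) (nat_lit 4) (nat_lit 166) (nat_lit 175) (nat_lit 169))) (PT.nd (nat_lit 78) (PT.lf (nat_lit 5396) (nat_lit 6) (nat_lit 71) (nat_lit 4) (nat_lit 167) (nat_lit 175) (nat_lit 168)) (PT.lf (nat_lit 5396) (nat_lit 6) (nat_lit 71) (nat_lit 2) (nat_lit 168) (nat_lit 175) (nat_lit 167)))))) (PT.nd (nat_lit 546) (PT.nd (nat_lit 234) (PT.nd (nat_lit 78) (PT.lf (nat_lit 5472) (nat_lit 6) (nat_lit 72) (nat_lit 2) (nat_lit 169) (nat_lit 175) (nat_lit 166)) (PT.nd (nat_lit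 78) (PT.lf (nat_lit 5548) (nat_lit 6) (nat_lit 73) (nat_lit 2) (nat_lit 170) (nat_lit 175) (nat_lit 165)) (PT.lf (nat_lit 5168) (nat_lit 6) (nat_lit 68) (nat_lit 2) (nat_lit 171) (nat_lit 175) (nat_lit 164)))) (PT.nd (nat_lit 156) (PT.nd (nat_lit 78) (PT.lf (nat_lit 4712) (nat_lit 6) (nat_lit 62) (nat_lit 2) (nat_lit 172) (nat_lit 175) (nat_lit 163)) (PT.lf (nat_lit 4332) (nat_lit 6) (nat_lit 57) (nat_lit 2) (nat_lit 173) (nat_lit 175) (nat_lit 162))) (PT.nd (nat_lit 78) (PT.lf (nat_lit 4104) (nat_lit 6) (nat_lit 54) (nat_lit 2) (nat_lit 174) (nat_lit 175) (nat_lit 161)) (PT.lf (nat_lit 3876) (nat_lit 3) (nat_lit 51) (nat_lit 0) (nat_lit 175) (nat_lit 175) (nat_lit 160))))) (PT.nd (nat_lit 51480) (PT.nd (nat_lit 156) (PT.nd (nat_lit 78) (PT.lf (nat_lit 3648) (nat_lit 6) (nat_lit 48) (nat_lit 0) (nat_lit 176) (nat_lit 175) (nat_lit 159)) (PT.lf (nat_lit 3344) (nat_lit 6) (nat_lit 44) (nat_lit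 0) (nat_lit 177) (nat_lit 175) (nat_lit 158))) (PT.nd (nat_lit 78) (PT.lf (nat_lit 3116) (nat_lit 6) (nat_lit 41) (nat_lit 0) (nat_lit 178) (nat_lit 175) (nat_lit 157)) (PT.lf (nat_lit 2888) (nat_lit 6) (nat_lit 38) (nat_lit 0) (nat_lit 179) (nat_lit 175) (nat_lit 156)))) (PT.nd (nat_lit 156) (PT.nd (nat_lit 78) (PT.lf (nat_lit 2736) (nat_lit 6) (nat_lit 36) (nat_lit 5) (nat_lit 155) (nat_lit 176) (nat_lit 179)) (PT.lf (nat_lit 2964) (nat_lit 6) (nat_lit 39) (nat_lit 5) (nat_lit 156) (nat_lit 176) (nat_lit 178))) (PT.nd (nat_lit 78) (PT.lf (nat_lit 3192) (nat_lit 6) (nat_lit 42) (nat_lit 5) (nat_lit 157) (nat_lit 176) (nat_lit 177)) (PT.lf (nat_lit 3420) (nat_lit 3) (nat_lit 45) (nat_lit 4) (nat_lit 158) (nat_lit 176) (nat_lit 176))))))))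
noncomputable def pc5 : PT := (PT.nd (nat_lit 53274) (PT.nd (nat_lit 1092) (PT.nd (nat_lit 546) (PT.nd (nat_lit 234) (PT.nd (nat_lit 78) (PT.lf (nat_lit 3648) (nat_lit 6) (nat_lit 48) (nat_lit 4) (nat_lit 159) (nat_lit 176) (nat_lit 175)) (PT.nd (nat_lit 78) (PT.lf (nat_lit 3800) (nat_lit 6) (nat_lit 50) (nat_lit 4) (nat_lit 160) (nat_lit 176) (nat_lit 174)) (PT.lf (nat_lit 4028) (nat_lit 6) (nat_lit 53) (nat_lit 4) (nat_lit 161) (nat_lit 176) (nat_lit 173)))) (PT.nd (nat_lit 156) (PT.nd (nat_lit 78) (PT.lf (nat_lit 4256) (nat_lit 6) (nat_lit 56) (nat_lit 4) (nat_lit 162) (nat_lit 176) (nat_lit 172)) (PT.lf (nat_lit 4636) (nat_lit 6) (nat_lit 61) (nat_lit 4) (nat_lit 163) (nat_lit 176) (nat_lit 171))) (PT.nd (nat_lit 78) (PT.lf (nat_lit 5092) (nat_lit 6) (nat_lit 67) (nat_lit 4) (nat_lit 164) (nat_lit 176) (nat_lit 170)) (PT.lf (nat_lit 5016) (nat_lit 6) (nat_lit 66) (nat_lit 4) (nat_lit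 165) (nat_lit 176) (nat_lit 169))))) (PT.nd (nat_lit 234) (PT.nd (nat_lit 78) (PT.lf (nat_lit 4940) (nat_lit 6) (nat_lit 65) (nat_lit 4) (nat_lit 166) (nat_lit 176) (nat_lit 168)) (PT.nd (nat_lit 78) (PT.lf (nat_lit 4864) (nat_lit 3) (nat_lit 64) (nat_lit 2) (nat_lit 167) (nat_lit 176) (nat_lit 167)) (PT.lf (nat_lit 4940) (nat_lit 6) (nat_lit 65) (nat_lit 2) (nat_lit 168) (nat_lit 176) (nat_lit 166)))) (PT.nd (nat_lit 156) (PT.nd (nat_lit 78) (PT.lf (nat_lit 5016) (nat_lit 6) (nat_lit 66) (nat_lit 2) (nat_lit 169) (nat_lit 176) (nat_lit 165)) (PT.lf (nat_lit 5092) (nat_lit 6) (nat_lit 67) (nat_lit 2) (nat_lit 170) (nat_lit 176) (nat_lit 164))) (PT.nd (nat_lit 78) (PT.lf (nat_lit 4636) (nat_lit 6) (nat_lit 61) (nat_lit 2) (nat_lit 171) (nat_lit 176) (nat_lit 163)) (PT.lf (nat_lit 4256) (nat_lit 6) (nat_lit 56) (nat_lit 2) (nat_lit 172) (nat_lit 176) (nat_lit 162)))))) (PT.nd (nat_lit 51558)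 (PT.nd (nat_lit 234) (PT.nd (nat_lit 78) (PT.lf (nat_lit 4028) (nat_lit 6) (nat_lit 53) (nat_lit 2) (nat_lit 173) (nat_lit 176) (nat_lit 161)) (PT.nd (nat_lit 78) (PT.lf (nat_lit 3800) (nat_lit 6) (nat_lit 50) (nat_lit 2) (nat_lit 174) (nat_lit 176) (nat_lit 160)) (PT.lf (nat_lit 3648) (nat_lit 6) (nat_lit 48) (nat_lit 2) (nat_lit 175) (nat_lit 176) (nat_lit 159)))) (PT.nd (nat_lit 156) (PT.nd (nat_lit 78) (PT.lf (nat_lit 3420) (nat_lit 3) (nat_lit 45) (nat_lit 0) (nat_lit 176) (nat_lit 176) (nat_lit 158)) (PT.lf (nat_lit 3192) (nat_lit 6) (nat_lit 42) (nat_lit 0) (nat_lit 177) (nat_lit 176) (nat_lit 157))) (PT.nd (nat_lit 78) (PT.lf (nat_lit 2964) (nat_lit 6) (nat_lit 39) (nat_lit 0) (nat_lit 178) (nat_lit 176) (nat_lit 156)) (PT.lf (nat_lit 2736) (nat_lit 6) (nat_lit 36) (nat_lit 0) (nat_lit 179) (nat_lit 176) (nat_lit 155))))) (PT.nd (nat_lit 312) (PT.nd (nat_lit 156) (PT.nd (nat_lit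 78) (PT.lf (nat_lit 2432) (nat_lit 6) (nat_lit 32) (nat_lit 5) (nat_lit 153) (nat_lit 177) (nat_lit 180)) (PT.lf (nat_lit 2584) (nat_lit 6) (nat_lit 34) (nat_lit 5) (nat_lit 154) (nat_lit 177) (nat_lit 179))) (PT.nd (nat_lit 78) (PT.lf (nat_lit 2812) (nat_lit 6) (nat_lit 37) (nat_lit 5) (nat_lit 155) (nat_lit 177) (nat_lit 178)) (PT.lf (nat_lit 3040) (nat_lit 3) (nat_lit 40) (nat_lit 4) (nat_lit 156) (nat_lit 177) (nat_lit 177)))) (PT.nd (nat_lit 156) (PT.nd (nat_lit 78) (PT.lf (nat_lit 3192) (nat_lit 6) (nat_lit 42) (nat_lit 4) (nat_lit 157) (nat_lit 177) (nat_lit 176)) (PT.lf (nat_lit 3344) (nat_lit 6) (nat_lit 44) (nat_lit 4) (nat_lit 158) (nat_lit 177) (nat_lit 175))) (PT.nd (nat_lit 78) (PT.lf (nat_lit 3572) (nat_lit 6) (nat_lit 47) (nat_lit 4) (nat_lit 159) (nat_lit 177) (nat_lit 174)) (PT.lf (nat_lit 3724) (nat_lit 6) (nat_lit 49) (nat_lit 4) (nat_lit 160) (nat_lit 177) (nat_lit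 173))))))) (PT.nd (nat_lit 1404) (PT.nd (nat_lit 858) (PT.nd (nat_lit 234) (PT.nd (nat_lit 78) (PT.lf (nat_lit 3952) (nat_lit 6) (nat_lit 52) (nat_lit 4) (nat_lit 161) (nat_lit 177) (nat_lit 172)) (PT.nd (nat_lit 78) (PT.lf (nat_lit 4180) (nat_lit 6) (nat_lit 55) (nat_lit 4) (nat_lit 162) (nat_lit 177) (nat_lit 171)) (PT.lf (nat_lit 4560) (nat_lit 6) (nat_lit 60) (nat_lit 4) (nat_lit 163) (nat_lit 177) (nat_lit 170)))) (PT.nd (nat_lit 468) (PT.nd (nat_lit 390) (PT.lf (nat_lit 4484) (nat_lit 6) (nat_lit 59) (nat_lit 4) (nat_lit 164) (nat_lit 177) (nat_lit 169)) (PT.lf (nat_lit 4484) (nat_lit 6) (nat_lit 59) (nat_lit 2) (nat_lit 169) (nat_lit 177) (nat_lit 164))) (PT.nd (nat_lit 78) (PT.lf (nat_lit 4560) (nat_lit 6) (nat_lit 60) (nat_lit 2) (nat_lit 170) (nat_lit 177) (nat_lit 163)) (PT.lf (nat_lit 4180) (nat_lit 6) (nat_lit 55) (nat_lit 2) (nat_lit 171) (nat_lit 177) (nat_lit 162))))) (PT.nd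 (nat_lit 234) (PT.nd (nat_lit 78) (PT.lf (nat_lit 3952) (nat_lit 6) (nat_lit 52) (nat_lit 2) (nat_lit 172) (nat_lit 177) (nat_lit 161)) (PT.nd (nat_lit 78) (PT.lf (nat_lit 3724) (nat_lit 6) (nat_lit 49) (nat_lit 2) (nat_lit 173) (nat_lit 177) (nat_lit 160)) (PT.lf (nat_lit 3572) (nat_lit 6) (nat_lit 47) (nat_lit 2) (nat_lit 174) (nat_lit 177) (nat_lit 159)))) (PT.nd (nat_lit 156) (PT.nd (nat_lit 78) (PT.lf (nat_lit 3344) (nat_lit 6) (nat_lit 44) (nat_lit 2) (nat_lit 175) (nat_lit 177) (nat_lit 158)) (PT.lf (nat_lit 3192) (nat_lit 6) (nat_lit 42) (nat_lit 2) (nat_lit 176) (nat_lit 177) (nat_lit 157))) (PT.nd (nat_lit 78) (PT.lf (nat_lit 3040) (nat_lit 3) (nat_lit 40) (nat_lit 0) (nat_lit 177) (nat_lit 177) (nat_lit 156)) (PT.lf (nat_lit 2812) (nat_lit 6) (nat_lit 37) (nat_lit 0) (nat_lit 178) (nat_lit 177) (nat_lit 155)))))) (PT.nd (nat_lit 51324) (PT.nd (nat_lit 51012) (PT.nd (nat_lit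 78) (PT.lf (nat_lit 2584) (nat_lit 6) (nat_lit 34) (nat_lit 0) (nat_lit 179) (nat_lit 177) (nat_lit 154)) (PT.nd (nat_lit 50856) (PT.lf (nat_lit 2432) (nat_lit 6) (nat_lit 32) (nat_lit 0) (nat_lit 180) (nat_lit 177) (nat_lit 153)) (PT.lf (nat_lit 2128) (nat_lit 6) (nat_lit 28) (nat_lit 5) (nat_lit 151) (nat_lit 178) (nat_lit 181)))) (PT.nd (nat_lit 156) (PT.nd (nat_lit 78) (PT.lf (nat_lit 2280) (nat_lit 6) (nat_lit 30) (nat_lit 5) (nat_lit 152) (nat_lit 178) (nat_lit 180)) (PT.lf (nat_lit 2508) (nat_lit 6) (nat_lit 33) (nat_lit 5) (nat_lit 153) (nat_lit 178) (nat_lit 179))) (PT.nd (nat_lit 78) (PT.lf (nat_lit 2660) (nat_lit 3) (nat_lit 35) (nat_lit 4) (nat_lit 154) (nat_lit 178) (nat_lit 178)) (PT.lf (nat_lit 2812) (nat_lit 6) (nat_lit 37) (nat_lit 4) (nat_lit 155) (nat_lit 178) (nat_lit 177))))) (PT.nd (nat_lit 1326) (PT.nd (nat_lit 156) (PT.nd (nat_lit 78) (PT.lf (nat_lit 2964) (nat_lit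 6) (nat_lit 39) (nat_lit 4) (nat_lit 156) (nat_lit 178) (nat_lit 176)) (PT.lf (nat_lit 3116) (nat_lit 6) (nat_lit 41) (nat_lit 4) (nat_lit 157) (nat_lit 178) (nat_lit 175))) (PT.nd (nat_lit 78) (PT.lf (nat_lit 3268) (nat_lit 6) (nat_lit 43) (nat_lit 4) (nat_lit 158) (nat_lit 178) (nat_lit 174)) (PT.lf (nat_lit 3496) (nat_lit 6) (nat_lit 46) (nat_lit 4) (nat_lit 159) (nat_lit 178) (nat_lit 173)))) (PT.nd (nat_lit 156) (PT.nd (nat_lit 78) (PT.lf (nat_lit 3496) (nat_lit 6) (nat_lit 46) (nat_lit 2) (nat_lit 173) (nat_lit 178) (nat_lit 159)) (PT.lf (nat_lit 3268) (nat_lit 6) (nat_lit 43) (nat_lit 2) (nat_lit 174) (nat_lit 178) (nat_lit 158))) (PT.nd (nat_lit 78) (PT.lf (nat_lit 3116) (nat_lit 6) (nat_lit 41) (nat_lit 2) (nat_lit 175) (nat_lit 178) (nat_lit 157)) (PT.lf (nat_lit 2964) (nat_lit 6) (nat_lit 39) (nat_lit 2) (nat_lit 176) (nat_lit 178) (nat_lit 156))))))))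
noncomputable def pc6 : PT := (PT.nd (nat_lit 106470) (PT.nd (nat_lit 53118) (PT.nd (nat_lit 51168) (PT.nd (nat_lit 234) (PT.nd (nat_lit 78) (PT.lf (nat_lit 2812) (nat_lit 6) (nat_lit 37) (nat_lit 2) (nat_lit 177) (nat_lit 178) (nat_lit 155)) (PT.nd (nat_lit 78) (PT.lf (nat_lit 2660) (nat_lit 3) (nat_lit 35) (nat_lit 0) (nat_lit 178) (nat_lit 178) (nat_lit 154)) (PT.lf (nat_lit 2508) (nat_lit 6) (nat_lit 33) (nat_lit 0) (nat_lit 179) (nat_lit 178) (nat_lit 153)))) (PT.nd (nat_lit 50778) (PT.nd (nat_lit 78) (PT.lf (nat_lit 2280) (nat_lit 6) (nat_lit 30) (nat_lit 0) (nat_lit 180) (nat_lit 178) (nat_lit 152)) (PT.lf (nat_lit 2128) (nat_lit 6) (nat_lit 28) (nat_lit 0) (nat_lit 181) (nat_lit 178) (nat_lit 151))) (PT.nd (nat_lit 78) (PT.lf (nat_lit 1976) (nat_lit 6) (nat_lit 26) (nat_lit 5) (nat_lit 150) (nat_lit 179) (nat_lit 181)) (PT.lf (nat_lit 2204) (nat_lit 6) (nat_lit 29) (nat_lit 5)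 (nat_lit 151) (nat_lit 179) (nat_lit 180))))) (PT.nd (nat_lit 234) (PT.nd (nat_lit 78) (PT.lf (nat_lit 2356) (nat_lit 3) (nat_lit 31) (nat_lit 4) (nat_lit 152) (nat_lit 179) (nat_lit 179)) (PT.nd (nat_lit 78) (PT.lf (nat_lit 2508) (nat_lit 6) (nat_lit 33) (nat_lit 4) (nat_lit 153) (nat_lit 179) (nat_lit 178)) (PT.lf (nat_lit 2584) (nat_lit 6) (nat_lit 34) (nat_lit 4) (nat_lit 154) (nat_lit 179) (nat_lit 177)))) (PT.nd (nat_lit 1560) (PT.nd (nat_lit 78) (PT.lf (nat_lit 2736) (nat_lit 6) (nat_lit 36) (nat_lit 4) (nat_lit 155) (nat_lit 179) (nat_lit 176)) (PT.lf (nat_lit 2888) (nat_lit 6) (nat_lit 38) (nat_lit 4) (nat_lit 156) (nat_lit 179) (nat_lit 175))) (PT.nd (nat_lit 78) (PT.lf (nat_lit 2888) (nat_lit 6) (nat_lit 38) (nat_lit 2) (nat_lit 175) (nat_lit 179) (nat_lit 156)) (PT.lf (nat_lit 2736) (nat_lit 6) (nat_lit 36) (nat_lit 2) (nat_lit 176) (nat_lit 179) (nat_lit 155)))))) (PT.nd (nat_lit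 51012) (PT.nd (nat_lit 234) (PT.nd (nat_lit 78) (PT.lf (nat_lit 2584) (nat_lit 6) (nat_lit 34) (nat_lit 2) (nat_lit 177) (nat_lit 179) (nat_lit 154)) (PT.nd (nat_lit 78) (PT.lf (nat_lit 2508) (nat_lit 6) (nat_lit 33) (nat_lit 2) (nat_lit 178) (nat_lit 179) (nat_lit 153)) (PT.lf (nat_lit 2356) (nat_lit 3) (nat_lit 31) (nat_lit 0) (nat_lit 179) (nat_lit 179) (nat_lit 152)))) (PT.nd (nat_lit 50622) (PT.nd (nat_lit 78) (PT.lf (nat_lit 2204) (nat_lit 6) (nat_lit 29) (nat_lit 0) (nat_lit 180) (nat_lit 179) (nat_lit 151)) (PT.lf (nat_lit 1976) (nat_lit 6) (nat_lit 26) (nat_lit 0) (nat_lit 181) (nat_lit 179) (nat_lit 150))) (PT.nd (nat_lit 78) (PT.lf (nat_lit 1748) (nat_lit 6) (nat_lit 23) (nat_lit 5) (nat_lit 148) (nat_lit 180) (nat_lit 182)) (PT.lf (nat_lit 1900) (nat_lit 6) (nat_lit 25) (nat_lit 5) (nat_lit 149) (nat_lit 180) (nat_lit 181))))) (PT.nd (nat_lit 234) (PT.nd (nat_lit 78) (PT.lf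 (nat_lit 2052) (nat_lit 3) (nat_lit 27) (nat_lit 4) (nat_lit 150) (nat_lit 180) (nat_lit 180)) (PT.nd (nat_lit 78) (PT.lf (nat_lit 2204) (nat_lit 6) (nat_lit 29) (nat_lit 4) (nat_lit 151) (nat_lit 180) (nat_lit 179)) (PT.lf (nat_lit 2280) (nat_lit 6) (nat_lit 30) (nat_lit 4) (nat_lit 152) (nat_lit 180) (nat_lit 178)))) (PT.nd (nat_lit 1950) (PT.nd (nat_lit 1872) (PT.lf (nat_lit 2432) (nat_lit 6) (nat_lit 32) (nat_lit 4) (nat_lit 153) (nat_lit 180) (nat_lit 177)) (PT.lf (nat_lit 2432) (nat_lit 6) (nat_lit 32) (nat_lit 2) (nat_lit 177) (nat_lit 180) (nat_lit 153))) (PT.nd (nat_lit 78) (PT.lf (nat_lit 2280) (nat_lit 6) (nat_lit 30) (nat_lit 2) (nat_lit 178) (nat_lit 180) (nat_lit 152)) (PT.lf (nat_lit 2204) (nat_lit 6) (nat_lit 29) (nat_lit 2) (nat_lit 179) (nat_lit 180) (nat_lit 151))))))) (PT.nd (nat_lit 53352) (PT.nd (nat_lit 50778) (PT.nd (nat_lit 50466) (PT.nd (nat_lit 78) (PT.lf (nat_lit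 2052) (nat_lit 3) (nat_lit 27) (nat_lit 0) (nat_lit 180) (nat_lit 180) (nat_lit 150)) (PT.nd (nat_lit 78) (PT.lf (nat_lit 1900) (nat_lit 6) (nat_lit 25) (nat_lit 0) (nat_lit 181) (nat_lit 180) (nat_lit 149)) (PT.lf (nat_lit 1748) (nat_lit 6) (nat_lit 23) (nat_lit 0) (nat_lit 182) (nat_lit 180) (nat_lit 148)))) (PT.nd (nat_lit 156) (PT.nd (nat_lit 78) (PT.lf (nat_lit 1520) (nat_lit 6) (nat_lit 20) (nat_lit 5) (nat_lit 146) (nat_lit 181) (nat_lit 183)) (PT.lf (nat_lit 1672) (nat_lit 6) (nat_lit 22) (nat_lit 5) (nat_lit 147) (nat_lit 181) (nat_lit 182))) (PT.nd (nat_lit 78) (PT.lf (nat_lit 1824) (nat_lit 3) (nat_lit 24) (nat_lit 4) (nat_lit 148) (nat_lit 181) (nat_lit 181)) (PT.lf (nat_lit 1900) (nat_lit 6) (nat_lit 25) (nat_lit 4) (nat_lit 149) (nat_lit 181) (nat_lit 180))))) (PT.nd (nat_lit 2262) (PT.nd (nat_lit 78) (PT.lf (nat_lit 1976) (nat_lit 6) (nat_lit 26) (nat_lit 4) (nat_lit 150)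 (nat_lit 181) (nat_lit 179)) (PT.nd (nat_lit 2106) (PT.lf (nat_lit 2128) (nat_lit 6) (nat_lit 28) (nat_lit 4) (nat_lit 151) (nat_lit 181) (nat_lit 178)) (PT.lf (nat_lit 2128) (nat_lit 6) (nat_lit 28) (nat_lit 2) (nat_lit 178) (nat_lit 181) (nat_lit 151)))) (PT.nd (nat_lit 156) (PT.nd (nat_lit 78) (PT.lf (nat_lit 1976) (nat_lit 6) (nat_lit 26) (nat_lit 2) (nat_lit 179) (nat_lit 181) (nat_lit 150)) (PT.lf (nat_lit 1900) (nat_lit 6) (nat_lit 25) (nat_lit 2) (nat_lit 180) (nat_lit 181) (nat_lit 149))) (PT.nd (nat_lit 78) (PT.lf (nat_lit 1824) (nat_lit 3) (nat_lit 24) (nat_lit 0) (nat_lit 181) (nat_lit 181) (nat_lit 148)) (PT.lf (nat_lit 1672) (nat_lit 6) (nat_lit 22) (nat_lit 0) (nat_lit 182) (nat_lit 181) (nat_lit 147)))))) (PT.nd (nat_lit 52962) (PT.nd (nat_lit 50232) (PT.nd (nat_lit 50076) (PT.lf (nat_lit 1520) (nat_lit 6) (nat_lit 20) (nat_lit 0) (nat_lit 183) (nat_lit 181) (nat_lit 146))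 (PT.nd (nat_lit 78) (PT.lf (nat_lit 1292) (nat_lit 6) (nat_lit 17) (nat_lit 5) (nat_lit 144) (nat_lit 182) (nat_lit 184)) (PT.lf (nat_lit 1444) (nat_lit 6) (nat_lit 19) (nat_lit 5) (nat_lit 145) (nat_lit 182) (nat_lit 183)))) (PT.nd (nat_lit 156) (PT.nd (nat_lit 78) (PT.lf (nat_lit 1596) (nat_lit 3) (nat_lit 21) (nat_lit 4) (nat_lit 146) (nat_lit 182) (nat_lit 182)) (PT.lf (nat_lit 1672) (nat_lit 6) (nat_lit 22) (nat_lit 4) (nat_lit 147) (nat_lit 182) (nat_lit 181))) (PT.nd (nat_lit 2496) (PT.lf (nat_lit 1748) (nat_lit 6) (nat_lit 23) (nat_lit 4) (nat_lit 148) (nat_lit 182) (nat_lit 180)) (PT.lf (nat_lit 1748) (nat_lit 6) (nat_lit 23) (nat_lit 2) (nat_lit 180) (nat_lit 182) (nat_lit 148))))) (PT.nd (nat_lit 50076) (PT.nd (nat_lit 156) (PT.nd (nat_lit 78) (PT.lf (nat_lit 1672) (nat_lit 6) (nat_lit 22) (nat_lit 2) (nat_lit 181) (nat_lit 182) (nat_lit 147)) (PT.lf (nat_lit 1596) (nat_lit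 3) (nat_lit 21) (nat_lit 0) (nat_lit 182) (nat_lit 182) (nat_lit 146))) (PT.nd (nat_lit 78) (PT.lf (nat_lit 1444) (nat_lit 6) (nat_lit 19) (nat_lit 0) (nat_lit 183) (nat_lit 182) (nat_lit 145)) (PT.lf (nat_lit 1292) (nat_lit 6) (nat_lit 17) (nat_lit 0) (nat_lit 184) (nat_lit 182) (nat_lit 144)))) (PT.nd (nat_lit 156) (PT.nd (nat_lit 78) (PT.lf (nat_lit 1064) (nat_lit 6) (nat_lit 14) (nat_lit 5) (nat_lit 142) (nat_lit 183) (nat_lit 185)) (PT.lf (nat_lit 1216) (nat_lit 6) (nat_lit 16) (nat_lit 5) (nat_lit 143) (nat_lit 183) (nat_lit 184))) (PT.nd (nat_lit 78) (PT.lf (nat_lit 1368) (nat_lit 3) (nat_lit 18) (nat_lit 4) (nat_lit 144) (nat_lit 183) (nat_lit 183)) (PT.lf (nat_lit 1444) (nat_lit 6) (nat_lit 19) (nat_lit 4) (nat_lit 145) (nat_lit 183) (nat_lit 182))))))))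
noncomputable def pc7 : PT := (PT.nd (nat_lit 158808) (PT.nd (nat_lit 56160) (PT.nd (nat_lit 52728) (PT.nd (nat_lit 2886) (PT.nd (nat_lit 2730) (PT.lf (nat_lit 1520) (nat_lit 6) (nat_lit 20) (nat_lit 4) (nat_lit 146) (nat_lit 183) (nat_lit 181)) (PT.nd (nat_lit 78) (PT.lf (nat_lit 1520) (nat_lit 6) (nat_lit 20) (nat_lit 2) (nat_lit 181) (nat_lit 183) (nat_lit 146)) (PT.lf (nat_lit 1444) (nat_lit 6) (nat_lit 19) (nat_lit 2) (nat_lit 182) (nat_lit 183) (nat_lit 145)))) (PT.nd (nat_lit 156) (PT.nd (nat_lit 78) (PT.lf (nat_lit 1368) (nat_lit 3) (nat_lit 18) (nat_lit 0) (nat_lit 183) (nat_lit 183) (nat_lit 144)) (PT.lf (nat_lit 1216) (nat_lit 6) (nat_lit 16) (nat_lit 0) (nat_lit 184) (nat_lit 183) (nat_lit 143))) (PT.nd (nat_lit 49608) (PT.lf (nat_lit 1064) (nat_lit 6) (nat_lit 14) (nat_lit 0) (nat_lit 185) (nat_lit 183) (nat_lit 142)) (PT.lf (nat_lit 836) (nat_lit 6) (nat_lit 11) (nat_lit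 5) (nat_lit 140) (nat_lit 184) (nat_lit 186))))) (PT.nd (nat_lit 234) (PT.nd (nat_lit 78) (PT.lf (nat_lit 988) (nat_lit 6) (nat_lit 13) (nat_lit 5) (nat_lit 141) (nat_lit 184) (nat_lit 185)) (PT.nd (nat_lit 78) (PT.lf (nat_lit 1140) (nat_lit 3) (nat_lit 15) (nat_lit 4) (nat_lit 142) (nat_lit 184) (nat_lit 184)) (PT.lf (nat_lit 1216) (nat_lit 6) (nat_lit 16) (nat_lit 4) (nat_lit 143) (nat_lit 184) (nat_lit 183)))) (PT.nd (nat_lit 3042) (PT.nd (nat_lit 2964) (PT.lf (nat_lit 1292) (nat_lit 6) (nat_lit 17) (nat_lit 4) (nat_lit 144) (nat_lit 184) (nat_lit 182)) (PT.lf (nat_lit 1292) (nat_lit 6) (nat_lit 17) (nat_lit 2) (nat_lit 182) (nat_lit 184) (nat_lit 144))) (PT.nd (nat_lit 78) (PT.lf (nat_lit 1216) (nat_lit 6) (nat_lit 16) (nat_lit 2) (nat_lit 183) (nat_lit 184) (nat_lit 143)) (PT.lf (nat_lit 1140) (nat_lit 3) (nat_lit 15) (nat_lit 0) (nat_lit 184) (nat_lit 184) (nat_lit 142)))))) (PT.nd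 (nat_lit 52962) (PT.nd (nat_lit 49530) (PT.nd (nat_lit 78) (PT.lf (nat_lit 988) (nat_lit 6) (nat_lit 13) (nat_lit 0) (nat_lit 185) (nat_lit 184) (nat_lit 141)) (PT.nd (nat_lit 49374) (PT.lf (nat_lit 836) (nat_lit 6) (nat_lit 11) (nat_lit 0) (nat_lit 186) (nat_lit 184) (nat_lit 140)) (PT.lf (nat_lit 608) (nat_lit 6) (nat_lit 8) (nat_lit 5) (nat_lit 138) (nat_lit 185) (nat_lit 187)))) (PT.nd (nat_lit 156) (PT.nd (nat_lit 78) (PT.lf (nat_lit 760) (nat_lit 6) (nat_lit 10) (nat_lit 5) (nat_lit 139) (nat_lit 185) (nat_lit 186)) (PT.lf (nat_lit 912) (nat_lit 3) (nat_lit 12) (nat_lit 4) (nat_lit 140) (nat_lit 185) (nat_lit 185))) (PT.nd (nat_lit 78) (PT.lf (nat_lit 988) (nat_lit 6) (nat_lit 13) (nat_lit 4) (nat_lit 141) (nat_lit 185) (nat_lit 184)) (PT.lf (nat_lit 1064) (nat_lit 6) (nat_lit 14) (nat_lit 4) (nat_lit 142) (nat_lit 185) (nat_lit 183))))) (PT.nd (nat_lit 312) (PT.nd (nat_lit 156)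 (PT.nd (nat_lit 78) (PT.lf (nat_lit 1064) (nat_lit 6) (nat_lit 14) (nat_lit 2) (nat_lit 183) (nat_lit 185) (nat_lit 142)) (PT.lf (nat_lit 988) (nat_lit 6) (nat_lit 13) (nat_lit 2) (nat_lit 184) (nat_lit 185) (nat_lit 141))) (PT.nd (nat_lit 78) (PT.lf (nat_lit 912) (nat_lit 3) (nat_lit 12) (nat_lit 0) (nat_lit 185) (nat_lit 185) (nat_lit 140)) (PT.lf (nat_lit 760) (nat_lit 6) (nat_lit 10) (nat_lit 0) (nat_lit 186) (nat_lit 185) (nat_lit 139)))) (PT.nd (nat_lit 49218) (PT.nd (nat_lit 49140) (PT.lf (nat_lit 608) (nat_lit 6) (nat_lit 8) (nat_lit 0) (nat_lit 187) (nat_lit 185) (nat_lit 138)) (PT.lf (nat_lit 380) (nat_lit 6) (nat_lit 5) (nat_lit 5) (nat_lit 136) (nat_lit 186) (nat_lit 188))) (PT.nd (nat_lit 78) (PT.lf (nat_lit 532) (nat_lit 6) (nat_lit 7) (nat_lit 5) (nat_lit 137) (nat_lit 186) (nat_lit 187)) (PT.lf (nat_lit 684) (nat_lit 3) (nat_lit 9) (nat_lit 4) (nat_lit 138) (nat_lit 186)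 (nat_lit 186))))))) (PT.nd (nat_lit 56862) (PT.nd (nat_lit 52728) (PT.nd (nat_lit 3588) (PT.nd (nat_lit 78) (PT.lf (nat_lit 760) (nat_lit 6) (nat_lit 10) (nat_lit 4) (nat_lit 139) (nat_lit 186) (nat_lit 185)) (PT.nd (nat_lit 3432) (PT.lf (nat_lit 836) (nat_lit 6) (nat_lit 11) (nat_lit 4) (nat_lit 140) (nat_lit 186) (nat_lit 184)) (PT.lf (nat_lit 836) (nat_lit 6) (nat_lit 11) (nat_lit 2) (nat_lit 184) (nat_lit 186) (nat_lit 140)))) (PT.nd (nat_lit 156) (PT.nd (nat_lit 78) (PT.lf (nat_lit 760) (nat_lit 6) (nat_lit 10) (nat_lit 2) (nat_lit 185) (nat_lit 186) (nat_lit 139)) (PT.lf (nat_lit 684) (nat_lit 3) (nat_lit 9) (nat_lit 0) (nat_lit 186) (nat_lit 186) (nat_lit 138))) (PT.nd (nat_lit 78) (PT.lf (nat_lit 532) (nat_lit 6) (nat_lit 7) (nat_lit 0) (nat_lit 187) (nat_lit 186) (nat_lit 137)) (PT.lf (nat_lit 380) (nat_lit 6) (nat_lit 5) (nat_lit 0) (nat_lit 188) (nat_lit 186) (nat_lit 136)))))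 (PT.nd (nat_lit 234) (PT.nd (nat_lit 78) (PT.lf (nat_lit 152) (nat_lit 6) (nat_lit 2) (nat_lit 5) (nat_lit 134) (nat_lit 187) (nat_lit 189)) (PT.nd (nat_lit 78) (PT.lf (nat_lit 304) (nat_lit 6) (nat_lit 4) (nat_lit 5) (nat_lit 135) (nat_lit 187) (nat_lit 188)) (PT.lf (nat_lit 456) (nat_lit 3) (nat_lit 6) (nat_lit 4) (nat_lit 136) (nat_lit 187) (nat_lit 187)))) (PT.nd (nat_lit 3744) (PT.nd (nat_lit 78) (PT.lf (nat_lit 532) (nat_lit 6) (nat_lit 7) (nat_lit 4) (nat_lit 137) (nat_lit 187) (nat_lit 186)) (PT.lf (nat_lit 608) (nat_lit 6) (nat_lit 8) (nat_lit 4) (nat_lit 138) (nat_lit 187) (nat_lit 185))) (PT.nd (nat_lit 78) (PT.lf (nat_lit 608) (nat_lit 6) (nat_lit 8) (nat_lit 2) (nat_lit 185) (nat_lit 187) (nat_lit 138)) (PT.lf (nat_lit 532) (nat_lit 6) (nat_lit 7) (nat_lit 2) (nat_lit 186) (nat_lit 187) (nat_lit 137)))))) (PT.nd (nat_lit 53040) (PT.nd (nat_lit 48906) (PT.nd (nat_lit 78) (PT.lf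 (nat_lit 456) (nat_lit 3) (nat_lit 6) (nat_lit 0) (nat_lit 187) (nat_lit 187) (nat_lit 136)) (PT.nd (nat_lit 78) (PT.lf (nat_lit 304) (nat_lit 6) (nat_lit 4) (nat_lit 0) (nat_lit 188) (nat_lit 187) (nat_lit 135)) (PT.lf (nat_lit 152) (nat_lit 6) (nat_lit 2) (nat_lit 0) (nat_lit 189) (nat_lit 187) (nat_lit 134)))) (PT.nd (nat_lit 156) (PT.nd (nat_lit 78) (PT.lf (nat_lit 76) (nat_lit 6) (nat_lit 1) (nat_lit 5) (nat_lit 133) (nat_lit 188) (nat_lit 189)) (PT.lf (nat_lit 228) (nat_lit 3) (nat_lit 3) (nat_lit 4) (nat_lit 134) (nat_lit 188) (nat_lit 188))) (PT.nd (nat_lit 78) (PT.lf (nat_lit 304) (nat_lit 6) (nat_lit 4) (nat_lit 4) (nat_lit 135) (nat_lit 188) (nat_lit 187)) (PT.lf (nat_lit 380) (nat_lit 6) (nat_lit 5) (nat_lit 4) (nat_lit 136) (nat_lit 188) (nat_lit 186))))) (PT.nd (nat_lit 48984) (PT.nd (nat_lit 156) (PT.nd (nat_lit 78) (PT.lf (nat_lit 380) (nat_lit 6) (nat_lit 5) (nat_lit 2)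 (nat_lit 186) (nat_lit 188) (nat_lit 136)) (PT.lf (nat_lit 304) (nat_lit 6) (nat_lit 4) (nat_lit 2) (nat_lit 187) (nat_lit 188) (nat_lit 135))) (PT.nd (nat_lit 78) (PT.lf (nat_lit 228) (nat_lit 3) (nat_lit 3) (nat_lit 0) (nat_lit 188) (nat_lit 188) (nat_lit 134)) (PT.lf (nat_lit 76) (nat_lit 6) (nat_lit 1) (nat_lit 0) (nat_lit 189) (nat_lit 188) (nat_lit 133)))) (PT.nd (nat_lit 4212) (PT.nd (nat_lit 78) (PT.lf (nat_lit 76) (nat_lit 6) (nat_lit 1) (nat_lit 4) (nat_lit 133) (nat_lit 189) (nat_lit 188)) (PT.lf (nat_lit 152) (nat_lit 6) (nat_lit 2) (nat_lit 4) (nat_lit 134) (nat_lit 189) (nat_lit 187))) (PT.nd (nat_lit 78) (PT.lf (nat_lit 152) (nat_lit 6) (nat_lit 2) (nat_lit 2) (nat_lit 187) (nat_lit 189) (nat_lit 134)) (PT.lf (nat_lit 76) (nat_lit 6) (nat_lit 1) (nat_lit 2) (nat_lit 188) (nat_lit 189) (nat_lit 133))))))))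
noncomputable def xc0 : XT := (XT.nd (nat_lit 211848) (nat_lit 0) (nat_lit 0) (XT.nd (nat_lit 106236) (nat_lit 0) (nat_lit 0) (XT.nd (nat_lit 53196) (nat_lit 0) (nat_lit 0) (XT.nd (nat_lit 52962) (nat_lit 0) (nat_lit 0) (XT.nd (nat_lit 78) (nat_lit 0) (nat_lit 0) (XT.lf (nat_lit 0) (nat_lit 2454334977506) (nat_lit 152) (nat_lit 477868817003) (nat_lit 0) (nat_lit 2454334977506) (nat_lit 1) (nat_lit 5) (nat_lit 3) (nat_lit 4) (nat_lit 1) (nat_lit 4) (nat_lit 464) (nat_lit 278) (nat_lit 278)) (XT.lf (nat_lit 0) (nat_lit 5301806818781) (nat_lit 152) (nat_lit 1031280278675) (nat_lit 0) (nat_lit 5301800631788) (nat_lit 1) (nat_lit 5) (nat_lit 3) (nat_lit 4) (nat_lit 1) (nat_lit 4) (nat_lit 465) (nat_lit 278) (nat_lit 277))) (XT.nd (nat_lit 78) (nat_lit 0) (nat_lit 0) (XT.lf (nat_lit 0) (nat_lit 2103777942200) (nat_lit 152) (nat_lit 410567174054) (nat_lit 0) (nat_lit 2103777942200) (nat_lit 1)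 (nat_lit 5) (nat_lit 3) (nat_lit 4) (nat_lit 1) (nat_lit 4) (nat_lit 462) (nat_lit 279) (nat_lit 279)) (XT.nd (nat_lit 78) (nat_lit 0) (nat_lit 0) (XT.lf (nat_lit 0) (nat_lit 4544639083909) (nat_lit 152) (nat_lit 885835420621) (nat_lit 0) (nat_lit 4544632401956) (nat_lit 1) (nat_lit 5) (nat_lit 3) (nat_lit 4) (nat_lit 1) (nat_lit 4) (nat_lit 463) (nat_lit 279) (nat_lit 278)) (XT.lf (nat_lit 0) (nat_lit 4908665245844) (nat_lit 152) (nat_lit 955760833147) (nat_lit 0) (nat_lit 4908652376898) (nat_lit 1) (nat_lit 5) (nat_lit 3) (nat_lit 4) (nat_lit 1) (nat_lit 4) (nat_lit 464) (nat_lit 279) (nat_lit 277))))) (XT.nd (nat_lit 52806) (nat_lit 0) (nat_lit 0) (XT.nd (nat_lit 52728) (nat_lit 0) (nat_lit 0) (XT.lf (nat_lit 0) (nat_lit 5301791562276) (nat_lit 152) (nat_lit 1031324958501) (nat_lit 0) (nat_lit 5301772964633) (nat_lit 1) (nat_lit 5) (nat_lit 3) (nat_lit 4) (nat_lit 1) (nat_lit 4) (nat_lit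 465) (nat_lit 279) (nat_lit 276)) (XT.lf (nat_lit 0) (nat_lit 1803198290139) (nat_lit 152) (nat_lit 352936597782) (nat_lit 0) (nat_lit 1803198290139) (nat_lit 1) (nat_lit 5) (nat_lit 3) (nat_lit 4) (nat_lit 1) (nat_lit 4) (nat_lit 460) (nat_lit 280) (nat_lit 280))) (XT.nd (nat_lit 78) (nat_lit 0) (nat_lit 0) (XT.lf (nat_lit 0) (nat_lit 3895425333757) (nat_lit 152) (nat_lit 761274201847) (nat_lit 0) (nat_lit 3895418117249) (nat_lit 1) (nat_lit 5) (nat_lit 3) (nat_lit 4) (nat_lit 1) (nat_lit 4) (nat_lit 461) (nat_lit 280) (nat_lit 279)) (XT.nd (nat_lit 78) (nat_lit 0) (nat_lit 0) (XT.lf (nat_lit 0) (nat_lit 4207550798498) (nat_lit 152) (nat_lit 821159403180) (nat_lit 0) (nat_lit 4207536900037) (nat_lit 1) (nat_lit 5) (nat_lit 3) (nat_lit 4) (nat_lit 1) (nat_lit 4) (nat_lit 462) (nat_lit 280) (nat_lit 278)) (XT.lf (nat_lit 0) (nat_lit 4544622606884) (nat_lit 152) (nat_lit 885883674833) (nat_lit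 0) (nat_lit 4544602521430) (nat_lit 1) (nat_lit 5) (nat_lit 3) (nat_lit 4) (nat_lit 1) (nat_lit 4) (nat_lit 463) (nat_lit 280) (nat_lit 277)))))) (XT.nd (nat_lit 52884) (nat_lit 0) (nat_lit 0) (XT.nd (nat_lit 52650) (nat_lit 0) (nat_lit 0) (XT.nd (nat_lit 78) (nat_lit 0) (nat_lit 0) (XT.lf (nat_lit 0) (nat_lit 4908638221483) (nat_lit 152) (nat_lit 955830568045) (nat_lit 0) (nat_lit 4908612407332) (nat_lit 1) (nat_lit 5) (nat_lit 3) (nat_lit 4) (nat_lit 1) (nat_lit 4) (nat_lit 464) (nat_lit 280) (nat_lit 276)) (XT.lf (nat_lit 0) (nat_lit 5301754771865) (nat_lit 152) (nat_lit 1031414582923) (nat_lit 0) (nat_lit 5301723653364) (nat_lit 1) (nat_lit 5) (nat_lit 3) (nat_lit 4) (nat_lit 1) (nat_lit 4) (nat_lit 465) (nat_lit 280) (nat_lit 275))) (XT.nd (nat_lit 78) (nat_lit 0) (nat_lit 0) (XT.lf (nat_lit 0) (nat_lit 1545463509114) (nat_lit 152) (nat_lit 303602981198) (nat_lit 0) (nat_lit 1545463509114)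 (nat_lit 1) (nat_lit 5) (nat_lit 3) (nat_lit 4) (nat_lit 1) (nat_lit 4) (nat_lit 458) (nat_lit 281) (nat_lit 281)) (XT.nd (nat_lit 78) (nat_lit 0) (nat_lit 0) (XT.lf (nat_lit 0) (nat_lit 3338759568908) (nat_lit 152) (nat_lit 654628082075) (nat_lit 0) (nat_lit 3338751775078) (nat_lit 1) (nat_lit 5) (nat_lit 3) (nat_lit 4) (nat_lit 1) (nat_lit 4) (nat_lit 459) (nat_lit 281) (nat_lit 280)) (XT.lf (nat_lit 0) (nat_lit 3606391087503) (nat_lit 152) (nat_lit 705900255042) (nat_lit 0) (nat_lit 3606376077165) (nat_lit 1) (nat_lit 5) (nat_lit 3) (nat_lit 4) (nat_lit 1) (nat_lit 4) (nat_lit 460) (nat_lit 281) (nat_lit 279))))) (XT.nd (nat_lit 156) (nat_lit 0) (nat_lit 0) (XT.nd (nat_lit 78) (nat_lit 0) (nat_lit 0) (XT.lf (nat_lit 0) (nat_lit 3895407538570) (nat_lit 152) (nat_lit 761326316396) (nat_lit 0) (nat_lit 3895385846280) (nat_lit 1) (nat_lit 5) (nat_lit 3) (nat_lit 4) (nat_lit 1) (nat_lit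 4) (nat_lit 461) (nat_lit 281) (nat_lit 278)) (XT.lf (nat_lit 0) (nat_lit 4207521612189) (nat_lit 152) (nat_lit 821234716870) (nat_lit 0) (nat_lit 4207493732905) (nat_lit 1) (nat_lit 5) (nat_lit 3) (nat_lit 4) (nat_lit 1) (nat_lit 4) (nat_lit 462) (nat_lit 281) (nat_lit 277))) (XT.nd (nat_lit 78) (nat_lit 0) (nat_lit 0) (XT.lf (nat_lit 0) (nat_lit 4544582873239) (nat_lit 152) (nat_lit 885980469209) (nat_lit 0) (nat_lit 4544549265259) (nat_lit 1) (nat_lit 5) (nat_lit 3) (nat_lit 4) (nat_lit 1) (nat_lit 4) (nat_lit 463) (nat_lit 281) (nat_lit 276)) (XT.nd (nat_lit 78) (nat_lit 0) (nat_lit 0) (XT.lf (nat_lit 0) (nat_lit 4908588721788) (nat_lit 152) (nat_lit 955947251944) (nat_lit 0) (nat_lit 4908549809458) (nat_lit 1) (nat_lit 5) (nat_lit 3) (nat_lit 4) (nat_lit 1) (nat_lit 4) (nat_lit 464) (nat_lit 281) (nat_lit 275)) (XT.lf (nat_lit 0) (nat_lit 5301696229529) (nat_lit 152) (nat_lit 1031549683048)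 (nat_lit 0) (nat_lit 5301652405765) (nat_lit 1) (nat_lit 5) (nat_lit 3) (nat_lit 4) (nat_lit 1) (nat_lit 4) (nat_lit 465) (nat_lit 281) (nat_lit 274))))))) (XT.nd (nat_lit 52962) (nat_lit 0) (nat_lit 0) (XT.nd (nat_lit 390) (nat_lit 0) (nat_lit 0) (XT.nd (nat_lit 156) (nat_lit 0) (nat_lit 0) (XT.nd (nat_lit 78) (nat_lit 0) (nat_lit 0) (XT.lf (nat_lit 0) (nat_lit 1324458405141) (nat_lit 152) (nat_lit 261388695339) (nat_lit 0) (nat_lit 1324458405141) (nat_lit 1) (nat_lit 5) (nat_lit 3) (nat_lit 4) (nat_lit 1) (nat_lit 4) (nat_lit 456) (nat_lit 282) (nat_lit 282)) (XT.lf (nat_lit 0) (nat_lit 2861433215464) (nat_lit 152) (nat_lit 563352876036) (nat_lit 0) (nat_lit 2861424798129) (nat_lit 1) (nat_lit 5) (nat_lit 3) (nat_lit 4) (nat_lit 1) (nat_lit 4) (nat_lit 457) (nat_lit 282) (nat_lit 281))) (XT.nd (nat_lit 78) (nat_lit 0) (nat_lit 0) (XT.lf (nat_lit 0) (nat_lit 3090921086031) (nat_lit 152)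 (nat_lit 607235186632) (nat_lit 0) (nat_lit 3090904874866) (nat_lit 1) (nat_lit 5) (nat_lit 3) (nat_lit 4) (nat_lit 1) (nat_lit 4) (nat_lit 458) (nat_lit 282) (nat_lit 280)) (XT.nd (nat_lit 78) (nat_lit 0) (nat_lit 0) (XT.lf (nat_lit 0) (nat_lit 3338740350105) (nat_lit 152) (nat_lit 654684365789) (nat_lit 0) (nat_lit 3338716922432) (nat_lit 1) (nat_lit 5) (nat_lit 3) (nat_lit 4) (nat_lit 1) (nat_lit 4) (nat_lit 459) (nat_lit 282) (nat_lit 279)) (XT.lf (nat_lit 0) (nat_lit 3606359566289) (nat_lit 152) (nat_lit 705981593827) (nat_lit 0) (nat_lit 3606329456663) (nat_lit 1) (nat_lit 5) (nat_lit 3) (nat_lit 4) (nat_lit 1) (nat_lit 4) (nat_lit 460) (nat_lit 282) (nat_lit 278))))) (XT.nd (nat_lit 156) (nat_lit 0) (nat_lit 0) (XT.nd (nat_lit 78) (nat_lit 0) (nat_lit 0) (XT.lf (nat_lit 0) (nat_lit 3895364626234) (nat_lit 152) (nat_lit 761430854322) (nat_lit 0) (nat_lit 3895328329615) (nat_lit 1)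 (nat_lit 5) (nat_lit 3) (nat_lit 4) (nat_lit 1) (nat_lit 4) (nat_lit 461) (nat_lit 282) (nat_lit 277)) (XT.lf (nat_lit 0) (nat_lit 4207468152517) (nat_lit 152) (nat_lit 821360735482) (nat_lit 0) (nat_lit 4207426127201) (nat_lit 1) (nat_lit 5) (nat_lit 3) (nat_lit 4) (nat_lit 1) (nat_lit 4) (nat_lit 462) (nat_lit 282) (nat_lit 276))) (XT.nd (nat_lit 78) (nat_lit 0) (nat_lit 0) (XT.lf (nat_lit 0) (nat_lit 4544519647517) (nat_lit 152) (nat_lit 886126377344) (nat_lit 0) (nat_lit 4544472317852) (nat_lit 1) (nat_lit 5) (nat_lit 3) (nat_lit 4) (nat_lit 1) (nat_lit 4) (nat_lit 463) (nat_lit 282) (nat_lit 275)) (XT.nd (nat_lit 78) (nat_lit 0) (nat_lit 0) (XT.lf (nat_lit 0) (nat_lit 4908516453426) (nat_lit 152) (nat_lit 956111576305) (nat_lit 0) (nat_lit 4908464212326) (nat_lit 1) (nat_lit 5) (nat_lit 3) (nat_lit 4) (nat_lit 1) (nat_lit 4) (nat_lit 464) (nat_lit 282) (nat_lit 274)) (XT.lf (nat_lit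 0) (nat_lit 5301615588352) (nat_lit 152) (nat_lit 1031731059470) (nat_lit 0) (nat_lit 5301558799628) (nat_lit 1) (nat_lit 5) (nat_lit 3) (nat_lit 4) (nat_lit 1) (nat_lit 4) (nat_lit 465) (nat_lit 282) (nat_lit 273)))))) (XT.nd (nat_lit 390) (nat_lit 0) (nat_lit 0) (XT.nd (nat_lit 156) (nat_lit 0) (nat_lit 0) (XT.nd (nat_lit 78) (nat_lit 0) (nat_lit 0) (XT.lf (nat_lit 0) (nat_lit 1134939953494) (nat_lit 152) (nat_lit 225284595189) (nat_lit 0) (nat_lit 1134939953494) (nat_lit 1) (nat_lit 5) (nat_lit 3) (nat_lit 4) (nat_lit 1) (nat_lit 4) (nat_lit 454) (nat_lit 283) (nat_lit 283)) (XT.lf (nat_lit 0) (nat_lit 2452121604735) (nat_lit 152) (nat_lit 485268283240) (nat_lit 0) (nat_lit 2452112514013) (nat_lit 1) (nat_lit 5) (nat_lit 3) (nat_lit 4) (nat_lit 1) (nat_lit 4) (nat_lit 455) (nat_lit 283) (nat_lit 282))) (XT.nd (nat_lit 78) (nat_lit 0) (nat_lit 0) (XT.lf (nat_lit 0) (nat_lit 2648910403510)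 (nat_lit 152) (nat_lit 522808952853) (nat_lit 0) (nat_lit 2648892895452) (nat_lit 1) (nat_lit 5) (nat_lit 3) (nat_lit 4) (nat_lit 1) (nat_lit 4) (nat_lit 456) (nat_lit 283) (nat_lit 281)) (XT.nd (nat_lit 78) (nat_lit 0) (nat_lit 0) (XT.lf (nat_lit 0) (nat_lit 2861412459158) (nat_lit 152) (nat_lit 563413662446) (nat_lit 0) (nat_lit 2861387157271) (nat_lit 1) (nat_lit 5) (nat_lit 3) (nat_lit 4) (nat_lit 1) (nat_lit 4) (nat_lit 457) (nat_lit 283) (nat_lit 280)) (XT.lf (nat_lit 0) (nat_lit 3090887043120) (nat_lit 152) (nat_lit 607323032520) (nat_lit 0) (nat_lit 3090854524724) (nat_lit 1) (nat_lit 5) (nat_lit 3) (nat_lit 4) (nat_lit 1) (nat_lit 4) (nat_lit 458) (nat_lit 283) (nat_lit 279))))) (XT.nd (nat_lit 234) (nat_lit 0) (nat_lit 0) (XT.nd (nat_lit 78) (nat_lit 0) (nat_lit 0) (XT.lf (nat_lit 0) (nat_lit 3338694004783) (nat_lit 152) (nat_lit 654797266748) (nat_lit 0) (nat_lit 3338654804434)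 (nat_lit 1) (nat_lit 5) (nat_lit 3) (nat_lit 4) (nat_lit 1) (nat_lit 4) (nat_lit 459) (nat_lit 283) (nat_lit 278)) (XT.nd (nat_lit 78) (nat_lit 0) (nat_lit 0) (XT.lf (nat_lit 0) (nat_lit 3606301829845) (nat_lit 152) (nat_lit 706117693928) (nat_lit 0) (nat_lit 3606256442503) (nat_lit 1) (nat_lit 5) (nat_lit 3) (nat_lit 4) (nat_lit 1) (nat_lit 4) (nat_lit 460) (nat_lit 283) (nat_lit 277)) (XT.lf (nat_lit 0) (nat_lit 3895296342454) (nat_lit 152) (nat_lit 761588435108) (nat_lit 0) (nat_lit 3895245226416) (nat_lit 1) (nat_lit 5) (nat_lit 3) (nat_lit 4) (nat_lit 1) (nat_lit 4) (nat_lit 461) (nat_lit 283) (nat_lit 276)))) (XT.nd (nat_lit 78) (nat_lit 0) (nat_lit 0) (XT.lf (nat_lit 0) (nat_lit 4207390102686) (nat_lit 152) (nat_lit 821538205792) (nat_lit 0) (nat_lit 4207333682299) (nat_lit 1) (nat_lit 5) (nat_lit 3) (nat_lit 4) (nat_lit 1) (nat_lit 4) (nat_lit 462) (nat_lit 283) (nat_lit 275))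 (XT.nd (nat_lit 78) (nat_lit 0) (nat_lit 0) (XT.lf (nat_lit 0) (nat_lit 4544432555046) (nat_lit 152) (nat_lit 886322263880) (nat_lit 0) (nat_lit 4544371223224) (nat_lit 1) (nat_lit 5) (nat_lit 3) (nat_lit 4) (nat_lit 1) (nat_lit 4) (nat_lit 463) (nat_lit 283) (nat_lit 274)) (XT.lf (nat_lit 0) (nat_lit 4908420988140) (nat_lit 152) (nat_lit 956324514902) (nat_lit 0) (nat_lit 4908355108693) (nat_lit 1) (nat_lit 5) (nat_lit 3) (nat_lit 4) (nat_lit 1) (nat_lit 4) (nat_lit 464) (nat_lit 283) (nat_lit 273))))))))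
noncomputable def xc1 : XT := (XT.nd (nat_lit 105456) (nat_lit 0) (nat_lit 0) (XT.nd (nat_lit 52806) (nat_lit 0) (nat_lit 0) (XT.nd (nat_lit 52416) (nat_lit 0) (nat_lit 0) (XT.nd (nat_lit 52182) (nat_lit 0) (nat_lit 0) (XT.nd (nat_lit 52104) (nat_lit 0) (nat_lit 0) (XT.lf (nat_lit 0) (nat_lit 5301512370460) (nat_lit 152) (nat_lit 1031959787011) (nat_lit 0) (nat_lit 5301442280250) (nat_lit 1) (nat_lit 5) (nat_lit 3) (nat_lit 4) (nat_lit 1) (nat_lit 4) (nat_lit 465) (nat_lit 283) (nat_lit 272)) (XT.lf (nat_lit 0) (nat_lit 972412855485) (nat_lit 152) (nat_lit 194426022117) (nat_lit 0) (nat_lit 972412855485) (nat_lit 1) (nat_lit 5) (nat_lit 3) (nat_lit 4) (nat_lit 1) (nat_lit 4) (nat_lit 452) (nat_lit 284) (nat_lit 284))) (XT.nd (nat_lit 78) (nat_lit 0) (nat_lit 0) (XT.lf (nat_lit 0) (nat_lit 2101115177450) (nat_lit 152) (nat_lit 418506050016) (nat_lit 0) (nat_lit 2101105359470) (nat_lit 1)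 (nat_lit 5) (nat_lit 3) (nat_lit 4) (nat_lit 1) (nat_lit 4) (nat_lit 453) (nat_lit 284) (nat_lit 283)) (XT.nd (nat_lit 78) (nat_lit 0) (nat_lit 0) (XT.lf (nat_lit 0) (nat_lit 2269872987674) (nat_lit 152) (nat_lit 450603277527) (nat_lit 0) (nat_lit 2269854078971) (nat_lit 1) (nat_lit 5) (nat_lit 3) (nat_lit 4) (nat_lit 1) (nat_lit 4) (nat_lit 454) (nat_lit 284) (nat_lit 282)) (XT.lf (nat_lit 0) (nat_lit 2452099187924) (nat_lit 152) (nat_lit 485333932563) (nat_lit 0) (nat_lit 2452071861886) (nat_lit 1) (nat_lit 5) (nat_lit 3) (nat_lit 4) (nat_lit 1) (nat_lit 4) (nat_lit 455) (nat_lit 284) (nat_lit 281))))) (XT.nd (nat_lit 156) (nat_lit 0) (nat_lit 0) (XT.nd (nat_lit 78) (nat_lit 0) (nat_lit 0) (XT.lf (nat_lit 0) (nat_lit 2648873637166) (nat_lit 152) (nat_lit 522903826412) (nat_lit 0) (nat_lit 2648838517298) (nat_lit 1) (nat_lit 5) (nat_lit 3) (nat_lit 4) (nat_lit 1) (nat_lit 4) (nat_lit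 456) (nat_lit 284) (nat_lit 280)) (XT.lf (nat_lit 0) (nat_lit 2861362406209) (nat_lit 152) (nat_lit 563535595483) (nat_lit 0) (nat_lit 2861320069833) (nat_lit 1) (nat_lit 5) (nat_lit 3) (nat_lit 4) (nat_lit 1) (nat_lit 4) (nat_lit 457) (nat_lit 284) (nat_lit 279))) (XT.nd (nat_lit 78) (nat_lit 0) (nat_lit 0) (XT.lf (nat_lit 0) (nat_lit 3090824687760) (nat_lit 152) (nat_lit 607470020628) (nat_lit 0) (nat_lit 3090775669431) (nat_lit 1) (nat_lit 5) (nat_lit 3) (nat_lit 4) (nat_lit 1) (nat_lit 4) (nat_lit 458) (nat_lit 284) (nat_lit 278)) (XT.nd (nat_lit 78) (nat_lit 0) (nat_lit 0) (XT.lf (nat_lit 0) (nat_lit 3338620258300) (nat_lit 152) (nat_lit 654967453997) (nat_lit 0) (nat_lit 3338565052979) (nat_lit 1) (nat_lit 5) (nat_lit 3) (nat_lit 4) (nat_lit 1) (nat_lit 4) (nat_lit 459) (nat_lit 284) (nat_lit 277)) (XT.lf (nat_lit 0) (nat_lit 3606217536027) (nat_lit 152) (nat_lit 706309361862) (nat_lit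 0) (nat_lit 3606156602008) (nat_lit 1) (nat_lit 5) (nat_lit 3) (nat_lit 4) (nat_lit 1) (nat_lit 4) (nat_lit 460) (nat_lit 284) (nat_lit 276)))))) (XT.nd (nat_lit 52260) (nat_lit 0) (nat_lit 0) (XT.nd (nat_lit 156) (nat_lit 0) (nat_lit 0) (XT.nd (nat_lit 78) (nat_lit 0) (nat_lit 0) (XT.lf (nat_lit 0) (nat_lit 3895202282586) (nat_lit 152) (nat_lit 761799992566) (nat_lit 0) (nat_lit 3895136044218) (nat_lit 1) (nat_lit 5) (nat_lit 3) (nat_lit 4) (nat_lit 1) (nat_lit 4) (nat_lit 461) (nat_lit 284) (nat_lit 275)) (XT.lf (nat_lit 0) (nat_lit 4207287000178) (nat_lit 152) (nat_lit 821768179476) (nat_lit 0) (nat_lit 4207215850375) (nat_lit 1) (nat_lit 5) (nat_lit 3) (nat_lit 4) (nat_lit 1) (nat_lit 4) (nat_lit 462) (nat_lit 284) (nat_lit 274))) (XT.nd (nat_lit 78) (nat_lit 0) (nat_lit 0) (XT.lf (nat_lit 0) (nat_lit 4544321079723) (nat_lit 152) (nat_lit 886569289625) (nat_lit 0) (nat_lit 4544245382296)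 (nat_lit 1) (nat_lit 5) (nat_lit 3) (nat_lit 4) (nat_lit 1) (nat_lit 4) (nat_lit 463) (nat_lit 284) (nat_lit 273)) (XT.nd (nat_lit 78) (nat_lit 0) (nat_lit 0) (XT.lf (nat_lit 0) (nat_lit 4908301760211) (nat_lit 152) (nat_lit 956587329592) (nat_lit 0) (nat_lit 4908221852020) (nat_lit 1) (nat_lit 5) (nat_lit 3) (nat_lit 4) (nat_lit 1) (nat_lit 4) (nat_lit 464) (nat_lit 284) (nat_lit 272)) (XT.lf (nat_lit 0) (nat_lit 5301385964192) (nat_lit 152) (nat_lit 1032237221095) (nat_lit 0) (nat_lit 5301302157146) (nat_lit 1) (nat_lit 5) (nat_lit 3) (nat_lit 4) (nat_lit 1) (nat_lit 4) (nat_lit 465) (nat_lit 284) (nat_lit 271))))) (XT.nd (nat_lit 156) (nat_lit 0) (nat_lit 0) (XT.nd (nat_lit 78) (nat_lit 0) (nat_lit 0) (XT.lf (nat_lit 0) (nat_lit 833022846982) (nat_lit 152) (nat_lit 168072232928) (nat_lit 0) (nat_lit 833022846982) (nat_lit 1) (nat_lit 5) (nat_lit 3) (nat_lit 4) (nat_lit 1) (nat_lit 4)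 (nat_lit 450) (nat_lit 285) (nat_lit 285)) (XT.lf (nat_lit 0) (nat_lit 1800089031852) (nat_lit 152) (nat_lit 361465532745) (nat_lit 0) (nat_lit 1800078428433) (nat_lit 1) (nat_lit 5) (nat_lit 3) (nat_lit 4) (nat_lit 1) (nat_lit 4) (nat_lit 451) (nat_lit 285) (nat_lit 284))) (XT.nd (nat_lit 78) (nat_lit 0) (nat_lit 0) (XT.lf (nat_lit 0) (nat_lit 1944818238110) (nat_lit 152) (nat_lit 388888858356) (nat_lit 0) (nat_lit 1944797816711) (nat_lit 1) (nat_lit 5) (nat_lit 3) (nat_lit 4) (nat_lit 1) (nat_lit 4) (nat_lit 452) (nat_lit 285) (nat_lit 283)) (XT.nd (nat_lit 78) (nat_lit 0) (nat_lit 0) (XT.lf (nat_lit 0) (nat_lit 2101090967294) (nat_lit 152) (nat_lit 418576951285) (nat_lit 0) (nat_lit 2101061455173) (nat_lit 1) (nat_lit 5) (nat_lit 3) (nat_lit 4) (nat_lit 1) (nat_lit 4) (nat_lit 453) (nat_lit 285) (nat_lit 282)) (XT.lf (nat_lit 0) (nat_lit 2269833280022) (nat_lit 152) (nat_lit 450705740971)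 (nat_lit 0) (nat_lit 2269795350565) (nat_lit 1) (nat_lit 5) (nat_lit 3) (nat_lit 4) (nat_lit 1) (nat_lit 4) (nat_lit 454) (nat_lit 285) (nat_lit 281))))))) (XT.nd (nat_lit 780) (nat_lit 0) (nat_lit 0) (XT.nd (nat_lit 390) (nat_lit 0) (nat_lit 0) (XT.nd (nat_lit 156) (nat_lit 0) (nat_lit 0) (XT.nd (nat_lit 78) (nat_lit 0) (nat_lit 0) (XT.lf (nat_lit 0) (nat_lit 2452045130740) (nat_lit 152) (nat_lit 485465620243) (nat_lit 0) (nat_lit 2451999407453) (nat_lit 1) (nat_lit 5) (nat_lit 3) (nat_lit 4) (nat_lit 1) (nat_lit 4) (nat_lit 455) (nat_lit 285) (nat_lit 280)) (XT.lf (nat_lit 0) (nat_lit 2648806293377) (nat_lit 152) (nat_lit 523062573569) (nat_lit 0) (nat_lit 2648753353582) (nat_lit 1) (nat_lit 5) (nat_lit 3) (nat_lit 4) (nat_lit 1) (nat_lit 4) (nat_lit 456) (nat_lit 285) (nat_lit 279))) (XT.nd (nat_lit 78) (nat_lit 0) (nat_lit 0) (XT.lf (nat_lit 0) (nat_lit 2861282760008) (nat_lit 152)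 (nat_lit 563719397711) (nat_lit 0) (nat_lit 2861223138261) (nat_lit 1) (nat_lit 5) (nat_lit 3) (nat_lit 4) (nat_lit 1) (nat_lit 4) (nat_lit 457) (nat_lit 285) (nat_lit 278)) (XT.nd (nat_lit 78) (nat_lit 0) (nat_lit 0) (XT.lf (nat_lit 0) (nat_lit 3090733650437) (nat_lit 152) (nat_lit 607677021997) (nat_lit 0) (nat_lit 3090667841697) (nat_lit 1) (nat_lit 5) (nat_lit 3) (nat_lit 4) (nat_lit 1) (nat_lit 4) (nat_lit 458) (nat_lit 285) (nat_lit 277)) (XT.lf (nat_lit 0) (nat_lit 3338518673642) (nat_lit 152) (nat_lit 655195936052) (nat_lit 0) (nat_lit 3338447136205) (nat_lit 1) (nat_lit 5) (nat_lit 3) (nat_lit 4) (nat_lit 1) (nat_lit 4) (nat_lit 459) (nat_lit 285) (nat_lit 276))))) (XT.nd (nat_lit 156) (nat_lit 0) (nat_lit 0) (XT.nd (nat_lit 78) (nat_lit 0) (nat_lit 0) (XT.lf (nat_lit 0) (nat_lit 3606106185318) (nat_lit 152) (nat_lit 706557733441) (nat_lit 0) (nat_lit 3606029343531) (nat_lit 1)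 (nat_lit 5) (nat_lit 3) (nat_lit 4) (nat_lit 1) (nat_lit 4) (nat_lit 460) (nat_lit 285) (nat_lit 275)) (XT.lf (nat_lit 0) (nat_lit 3895081889237) (nat_lit 152) (nat_lit 762066780371) (nat_lit 0) (nat_lit 3895000136015) (nat_lit 1) (nat_lit 5) (nat_lit 3) (nat_lit 4) (nat_lit 1) (nat_lit 4) (nat_lit 461) (nat_lit 285) (nat_lit 274))) (XT.nd (nat_lit 78) (nat_lit 0) (nat_lit 0) (XT.lf (nat_lit 0) (nat_lit 4207158234014) (nat_lit 152) (nat_lit 822052019341) (nat_lit 0) (nat_lit 4207071933168) (nat_lit 1) (nat_lit 5) (nat_lit 3) (nat_lit 4) (nat_lit 1) (nat_lit 4) (nat_lit 462) (nat_lit 285) (nat_lit 273)) (XT.nd (nat_lit 78) (nat_lit 0) (nat_lit 0) (XT.lf (nat_lit 0) (nat_lit 4544184560953) (nat_lit 152) (nat_lit 886868918435) (nat_lit 0) (nat_lit 4544094049344) (nat_lit 1) (nat_lit 5) (nat_lit 3) (nat_lit 4) (nat_lit 1) (nat_lit 4) (nat_lit 463) (nat_lit 285) (nat_lit 272)) (XT.lf (nat_lit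 0) (nat_lit 4908158063101) (nat_lit 152) (nat_lit 956901577796) (nat_lit 0) (nat_lit 4908063652637) (nat_lit 1) (nat_lit 5) (nat_lit 3) (nat_lit 4) (nat_lit 1) (nat_lit 4) (nat_lit 464) (nat_lit 285) (nat_lit 271)))))) (XT.nd (nat_lit 52104) (nat_lit 0) (nat_lit 0) (XT.nd (nat_lit 51870) (nat_lit 0) (nat_lit 0) (XT.nd (nat_lit 51792) (nat_lit 0) (nat_lit 0) (XT.lf (nat_lit 0) (nat_lit 5301235620472) (nat_lit 152) (nat_lit 1032565005775) (nat_lit 0) (nat_lit 5301137599957) (nat_lit 1) (nat_lit 5) (nat_lit 3) (nat_lit 4) (nat_lit 1) (nat_lit 4) (nat_lit 465) (nat_lit 285) (nat_lit 270)) (XT.lf (nat_lit 0) (nat_lit 713465226059) (nat_lit 152) (nat_lit 145588766912) (nat_lit 0) (nat_lit 713465226059) (nat_lit 1) (nat_lit 5) (nat_lit 3) (nat_lit 4) (nat_lit 1) (nat_lit 4) (nat_lit 448) (nat_lit 286) (nat_lit 286))) (XT.nd (nat_lit 78) (nat_lit 0) (nat_lit 0) (XT.lf (nat_lit 0) (nat_lit 1541905345249)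 (nat_lit 152) (nat_lit 312775606922) (nat_lit 0) (nat_lit 1541893893557) (nat_lit 1) (nat_lit 5) (nat_lit 3) (nat_lit 4) (nat_lit 1) (nat_lit 4) (nat_lit 449) (nat_lit 286) (nat_lit 285)) (XT.nd (nat_lit 78) (nat_lit 0) (nat_lit 0) (XT.lf (nat_lit 0) (nat_lit 1666037623275) (nat_lit 152) (nat_lit 336184225106) (nat_lit 0) (nat_lit 1666015568165) (nat_lit 1) (nat_lit 5) (nat_lit 3) (nat_lit 4) (nat_lit 1) (nat_lit 4) (nat_lit 450) (nat_lit 286) (nat_lit 284)) (XT.lf (nat_lit 0) (nat_lit 1800062884884) (nat_lit 152) (nat_lit 361542106116) (nat_lit 0) (nat_lit 1800031011793) (nat_lit 1) (nat_lit 5) (nat_lit 3) (nat_lit 4) (nat_lit 1) (nat_lit 4) (nat_lit 451) (nat_lit 286) (nat_lit 283))))) (XT.nd (nat_lit 234) (nat_lit 0) (nat_lit 0) (XT.nd (nat_lit 78) (nat_lit 0) (nat_lit 0) (XT.lf (nat_lit 0) (nat_lit 1944775353847) (nat_lit 152) (nat_lit 388999518875) (nat_lit 0) (nat_lit 1944734390033)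 (nat_lit 1) (nat_lit 5) (nat_lit 3) (nat_lit 4) (nat_lit 1) (nat_lit 4) (nat_lit 452) (nat_lit 286) (nat_lit 282)) (XT.nd (nat_lit 78) (nat_lit 0) (nat_lit 0) (XT.lf (nat_lit 0) (nat_lit 2101032585535) (nat_lit 152) (nat_lit 418719173978) (nat_lit 0) (nat_lit 2100983204386) (nat_lit 1) (nat_lit 5) (nat_lit 3) (nat_lit 4) (nat_lit 1) (nat_lit 4) (nat_lit 453) (nat_lit 286) (nat_lit 281)) (XT.lf (nat_lit 0) (nat_lit 2269760548730) (nat_lit 152) (nat_lit 450877187901) (nat_lit 0) (nat_lit 2269703373752) (nat_lit 1) (nat_lit 5) (nat_lit 3) (nat_lit 4) (nat_lit 1) (nat_lit 4) (nat_lit 454) (nat_lit 286) (nat_lit 280)))) (XT.nd (nat_lit 78) (nat_lit 0) (nat_lit 0) (XT.lf (nat_lit 0) (nat_lit 2451959112843) (nat_lit 152) (nat_lit 485664126650) (nat_lit 0) (nat_lit 2451894721356) (nat_lit 1) (nat_lit 5) (nat_lit 3) (nat_lit 4) (nat_lit 1) (nat_lit 4) (nat_lit 455) (nat_lit 286) (nat_lit 279))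 (XT.nd (nat_lit 78) (nat_lit 0) (nat_lit 0) (XT.lf (nat_lit 0) (nat_lit 2648707973068) (nat_lit 152) (nat_lit 523286135048) (nat_lit 0) (nat_lit 2648636899629) (nat_lit 1) (nat_lit 5) (nat_lit 3) (nat_lit 4) (nat_lit 1) (nat_lit 4) (nat_lit 456) (nat_lit 286) (nat_lit 278)) (XT.lf (nat_lit 0) (nat_lit 2861173048578) (nat_lit 152) (nat_lit 563966158331) (nat_lit 0) (nat_lit 2861095788145) (nat_lit 1) (nat_lit 5) (nat_lit 3) (nat_lit 4) (nat_lit 1) (nat_lit 4) (nat_lit 457) (nat_lit 286) (nat_lit 277))))))))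
noncomputable def xc2 : XT := (XT.nd (nat_lit 53118) (nat_lit 0) (nat_lit 0) (XT.nd (nat_lit 52338) (nat_lit 0) (nat_lit 0) (XT.nd (nat_lit 390) (nat_lit 0) (nat_lit 0) (XT.nd (nat_lit 156) (nat_lit 0) (nat_lit 0) (XT.nd (nat_lit 78) (nat_lit 0) (nat_lit 0) (XT.lf (nat_lit 0) (nat_lit 3090613391671) (nat_lit 152) (nat_lit 607945263302) (nat_lit 0) (nat_lit 3090530402541) (nat_lit 1) (nat_lit 5) (nat_lit 3) (nat_lit 4) (nat_lit 1) (nat_lit 4) (nat_lit 458) (nat_lit 286) (nat_lit 276)) (XT.lf (nat_lit 0) (nat_lit 3338388648825) (nat_lit 152) (nat_lit 655484066881) (nat_lit 0) (nat_lit 3338300355346) (nat_lit 1) (nat_lit 5) (nat_lit 3) (nat_lit 4) (nat_lit 1) (nat_lit 4) (nat_lit 459) (nat_lit 286) (nat_lit 275))) (XT.nd (nat_lit 78) (nat_lit 0) (nat_lit 0) (XT.lf (nat_lit 0) (nat_lit 3605967117861) (nat_lit 152) (nat_lit 706864280496) (nat_lit 0) (nat_lit 3605873912948) (nat_lit 1) (nat_lit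 5) (nat_lit 3) (nat_lit 4) (nat_lit 1) (nat_lit 4) (nat_lit 460) (nat_lit 286) (nat_lit 274)) (XT.nd (nat_lit 78) (nat_lit 0) (nat_lit 0) (XT.lf (nat_lit 0) (nat_lit 3894934448965) (nat_lit 152) (nat_lit 762390379486) (nat_lit 0) (nat_lit 3894836696427) (nat_lit 1) (nat_lit 5) (nat_lit 3) (nat_lit 4) (nat_lit 1) (nat_lit 4) (nat_lit 461) (nat_lit 286) (nat_lit 273)) (XT.lf (nat_lit 0) (nat_lit 4207003041136) (nat_lit 152) (nat_lit 822391407402) (nat_lit 0) (nat_lit 4206901077835) (nat_lit 1) (nat_lit 5) (nat_lit 3) (nat_lit 4) (nat_lit 1) (nat_lit 4) (nat_lit 462) (nat_lit 286) (nat_lit 272))))) (XT.nd (nat_lit 156) (nat_lit 0) (nat_lit 0) (XT.nd (nat_lit 78) (nat_lit 0) (nat_lit 0) (XT.lf (nat_lit 0) (nat_lit 4544022189736) (nat_lit 152) (nat_lit 887222925890) (nat_lit 0) (nat_lit 4543916327579) (nat_lit 1) (nat_lit 5) (nat_lit 3) (nat_lit 4) (nat_lit 1) (nat_lit 4) (nat_lit 463) (nat_lit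 286) (nat_lit 271)) (XT.lf (nat_lit 0) (nat_lit 4907989045274) (nat_lit 152) (nat_lit 957269121727) (nat_lit 0) (nat_lit 4907879573067) (nat_lit 1) (nat_lit 5) (nat_lit 3) (nat_lit 4) (nat_lit 1) (nat_lit 4) (nat_lit 464) (nat_lit 286) (nat_lit 270))) (XT.nd (nat_lit 51636) (nat_lit 0) (nat_lit 0) (XT.lf (nat_lit 0) (nat_lit 5301060448376) (nat_lit 152) (nat_lit 1032945083480) (nat_lit 0) (nat_lit 5300947633529) (nat_lit 1) (nat_lit 5) (nat_lit 3) (nat_lit 4) (nat_lit 1) (nat_lit 4) (nat_lit 465) (nat_lit 286) (nat_lit 269)) (XT.nd (nat_lit 78) (nat_lit 0) (nat_lit 0) (XT.lf (nat_lit 0) (nat_lit 610906428471) (nat_lit 152) (nat_lit 126432332043) (nat_lit 0) (nat_lit 610906428471) (nat_lit 1) (nat_lit 5) (nat_lit 3) (nat_lit 4) (nat_lit 1) (nat_lit 4) (nat_lit 446) (nat_lit 287) (nat_lit 287)) (XT.lf (nat_lit 0) (nat_lit 1320443979015) (nat_lit 152) (nat_lit 271262017235) (nat_lit 0) (nat_lit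 1320431611187) (nat_lit 1) (nat_lit 5) (nat_lit 3) (nat_lit 4) (nat_lit 1) (nat_lit 4) (nat_lit 447) (nat_lit 287) (nat_lit 286)))))) (XT.nd (nat_lit 390) (nat_lit 0) (nat_lit 0) (XT.nd (nat_lit 156) (nat_lit 0) (nat_lit 0) (XT.nd (nat_lit 78) (nat_lit 0) (nat_lit 0) (XT.lf (nat_lit 0) (nat_lit 1426921735775) (nat_lit 152) (nat_lit 291220473815) (nat_lit 0) (nat_lit 1426897916255) (nat_lit 1) (nat_lit 5) (nat_lit 3) (nat_lit 4) (nat_lit 1) (nat_lit 4) (nat_lit 448) (nat_lit 287) (nat_lit 285)) (XT.lf (nat_lit 0) (nat_lit 1541877106523) (nat_lit 152) (nat_lit 312858306162) (nat_lit 0) (nat_lit 1541842683585) (nat_lit 1) (nat_lit 5) (nat_lit 3) (nat_lit 4) (nat_lit 1) (nat_lit 4) (nat_lit 449) (nat_lit 287) (nat_lit 284))) (XT.nd (nat_lit 78) (nat_lit 0) (nat_lit 0) (XT.lf (nat_lit 0) (nat_lit 1665991308271) (nat_lit 152) (nat_lit 336303738467) (nat_lit 0) (nat_lit 1665947067352) (nat_lit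 1) (nat_lit 5) (nat_lit 3) (nat_lit 4) (nat_lit 1) (nat_lit 4) (nat_lit 450) (nat_lit 287) (nat_lit 283)) (XT.nd (nat_lit 78) (nat_lit 0) (nat_lit 0) (XT.lf (nat_lit 0) (nat_lit 1799999832584) (nat_lit 152) (nat_lit 361695706625) (nat_lit 0) (nat_lit 1799946500943) (nat_lit 1) (nat_lit 5) (nat_lit 3) (nat_lit 4) (nat_lit 1) (nat_lit 4) (nat_lit 451) (nat_lit 287) (nat_lit 282)) (XT.lf (nat_lit 0) (nat_lit 1944696804051) (nat_lit 152) (nat_lit 389184681559) (nat_lit 0) (nat_lit 1944635055074) (nat_lit 1) (nat_lit 5) (nat_lit 3) (nat_lit 4) (nat_lit 1) (nat_lit 4) (nat_lit 452) (nat_lit 287) (nat_lit 281))))) (XT.nd (nat_lit 156) (nat_lit 0) (nat_lit 0) (XT.nd (nat_lit 78) (nat_lit 0) (nat_lit 0) (XT.lf (nat_lit 0) (nat_lit 2100939686206) (nat_lit 152) (nat_lit 418933560898) (nat_lit 0) (nat_lit 2100870143400) (nat_lit 1) (nat_lit 5) (nat_lit 3) (nat_lit 4) (nat_lit 1) (nat_lit 4) (nat_lit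 453) (nat_lit 287) (nat_lit 280)) (XT.lf (nat_lit 0) (nat_lit 2269654362797) (nat_lit 152) (nat_lit 451118634298) (nat_lit 0) (nat_lit 2269577603482) (nat_lit 1) (nat_lit 5) (nat_lit 3) (nat_lit 4) (nat_lit 1) (nat_lit 4) (nat_lit 454) (nat_lit 287) (nat_lit 279))) (XT.nd (nat_lit 78) (nat_lit 0) (nat_lit 0) (XT.lf (nat_lit 0) (nat_lit 2451840624498) (nat_lit 152) (nat_lit 485930628119) (nat_lit 0) (nat_lit 2451757183231) (nat_lit 1) (nat_lit 5) (nat_lit 3) (nat_lit 4) (nat_lit 1) (nat_lit 4) (nat_lit 455) (nat_lit 287) (nat_lit 278)) (XT.nd (nat_lit 78) (nat_lit 0) (nat_lit 0) (XT.lf (nat_lit 0) (nat_lit 2648578093601) (nat_lit 152) (nat_lit 523575835658) (nat_lit 0) (nat_lit 2648488465341) (nat_lit 1) (nat_lit 5) (nat_lit 3) (nat_lit 4) (nat_lit 1) (nat_lit 4) (nat_lit 456) (nat_lit 287) (nat_lit 277)) (XT.lf (nat_lit 0) (nat_lit 2861032621775) (nat_lit 152) (nat_lit 564277339626) (nat_lit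 0) (nat_lit 2860937264818) (nat_lit 1) (nat_lit 5) (nat_lit 3) (nat_lit 4) (nat_lit 1) (nat_lit 4) (nat_lit 457) (nat_lit 287) (nat_lit 276))))))) (XT.nd (nat_lit 52182) (nat_lit 0) (nat_lit 0) (XT.nd (nat_lit 390) (nat_lit 0) (nat_lit 0) (XT.nd (nat_lit 156) (nat_lit 0) (nat_lit 0) (XT.nd (nat_lit 78) (nat_lit 0) (nat_lit 0) (XT.lf (nat_lit 0) (nat_lit 3090463198817) (nat_lit 152) (nat_lit 608276334121) (nat_lit 0) (nat_lit 3090362537511) (nat_lit 1) (nat_lit 5) (nat_lit 3) (nat_lit 4) (nat_lit 1) (nat_lit 4) (nat_lit 458) (nat_lit 287) (nat_lit 275)) (XT.lf (nat_lit 0) (nat_lit 3338229413332) (nat_lit 152) (nat_lit 655833553926) (nat_lit 0) (nat_lit 3338123840591) (nat_lit 1) (nat_lit 5) (nat_lit 3) (nat_lit 4) (nat_lit 1) (nat_lit 4) (nat_lit 459) (nat_lit 287) (nat_lit 274))) (XT.nd (nat_lit 78) (nat_lit 0) (nat_lit 0) (XT.lf (nat_lit 0) (nat_lit 3605799509553) (nat_lit 152) (nat_lit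 707230819601) (nat_lit 0) (nat_lit 3605689389187) (nat_lit 1) (nat_lit 5) (nat_lit 3) (nat_lit 4) (nat_lit 1) (nat_lit 4) (nat_lit 460) (nat_lit 287) (nat_lit 273)) (XT.nd (nat_lit 78) (nat_lit 0) (nat_lit 0) (XT.lf (nat_lit 0) (nat_lit 3894759088051) (nat_lit 152) (nat_lit 762772707537) (nat_lit 0) (nat_lit 3894644756922) (nat_lit 1) (nat_lit 5) (nat_lit 3) (nat_lit 4) (nat_lit 1) (nat_lit 4) (nat_lit 461) (nat_lit 287) (nat_lit 272)) (XT.lf (nat_lit 0) (nat_lit 4206820501883) (nat_lit 152) (nat_lit 822788354847) (nat_lit 0) (nat_lit 4206702271899) (nat_lit 1) (nat_lit 5) (nat_lit 3) (nat_lit 4) (nat_lit 1) (nat_lit 4) (nat_lit 462) (nat_lit 287) (nat_lit 271))))) (XT.nd (nat_lit 156) (nat_lit 0) (nat_lit 0) (XT.nd (nat_lit 78) (nat_lit 0) (nat_lit 0) (XT.lf (nat_lit 0) (nat_lit 4543833003872) (nat_lit 152) (nat_lit 887633409810) (nat_lit 0) (nat_lit 4543711163837) (nat_lit 1) (nat_lit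 5) (nat_lit 3) (nat_lit 4) (nat_lit 1) (nat_lit 4) (nat_lit 463) (nat_lit 287) (nat_lit 270)) (XT.lf (nat_lit 0) (nat_lit 4907793705142) (nat_lit 152) (nat_lit 957692139421) (nat_lit 0) (nat_lit 4907668522467) (nat_lit 1) (nat_lit 5) (nat_lit 3) (nat_lit 4) (nat_lit 1) (nat_lit 4) (nat_lit 464) (nat_lit 287) (nat_lit 269))) (XT.nd (nat_lit 51480) (nat_lit 0) (nat_lit 0) (XT.lf (nat_lit 0) (nat_lit 5300859409847) (nat_lit 152) (nat_lit 1033379706520) (nat_lit 0) (nat_lit 5300731132135) (nat_lit 1) (nat_lit 5) (nat_lit 3) (nat_lit 4) (nat_lit 1) (nat_lit 4) (nat_lit 465) (nat_lit 287) (nat_lit 268)) (XT.nd (nat_lit 78) (nat_lit 0) (nat_lit 0) (XT.lf (nat_lit 0) (nat_lit 522916789394) (nat_lit 152) (nat_lit 110137851201) (nat_lit 0) (nat_lit 522916789394) (nat_lit 1) (nat_lit 5) (nat_lit 3) (nat_lit 4) (nat_lit 1) (nat_lit 4) (nat_lit 444) (nat_lit 288) (nat_lit 288)) (XT.lf (nat_lit 0) (nat_lit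 1130457246089) (nat_lit 152) (nat_lit 235919393018) (nat_lit 0) (nat_lit 1130443888836) (nat_lit 1) (nat_lit 5) (nat_lit 3) (nat_lit 4) (nat_lit 1) (nat_lit 4) (nat_lit 445) (nat_lit 288) (nat_lit 287)))))) (XT.nd (nat_lit 390) (nat_lit 0) (nat_lit 0) (XT.nd (nat_lit 156) (nat_lit 0) (nat_lit 0) (XT.nd (nat_lit 78) (nat_lit 0) (nat_lit 0) (XT.lf (nat_lit 0) (nat_lit 1221803443291) (nat_lit 152) (nat_lit 252911039276) (nat_lit 0) (nat_lit 1221777718209) (nat_lit 1) (nat_lit 5) (nat_lit 3) (nat_lit 4) (nat_lit 1) (nat_lit 4) (nat_lit 446) (nat_lit 288) (nat_lit 286)) (XT.lf (nat_lit 0) (nat_lit 1320413481191) (nat_lit 152) (nat_lit 271351332415) (nat_lit 0) (nat_lit 1320376304418) (nat_lit 1) (nat_lit 5) (nat_lit 3) (nat_lit 4) (nat_lit 1) (nat_lit 4) (nat_lit 447) (nat_lit 288) (nat_lit 285))) (XT.nd (nat_lit 78) (nat_lit 0) (nat_lit 0) (XT.lf (nat_lit 0) (nat_lit 1426871715570) (nat_lit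 152) (nat_lit 291349548245) (nat_lit 0) (nat_lit 1426823935378) (nat_lit 1) (nat_lit 5) (nat_lit 3) (nat_lit 4) (nat_lit 1) (nat_lit 4) (nat_lit 448) (nat_lit 288) (nat_lit 284)) (XT.nd (nat_lit 78) (nat_lit 0) (nat_lit 0) (XT.lf (nat_lit 0) (nat_lit 1541809010039) (nat_lit 152) (nat_lit 313024194712) (nat_lit 0) (nat_lit 1541751411867) (nat_lit 1) (nat_lit 5) (nat_lit 3) (nat_lit 4) (nat_lit 1) (nat_lit 4) (nat_lit 449) (nat_lit 288) (nat_lit 283)) (XT.lf (nat_lit 0) (nat_lit 1665906474491) (nat_lit 152) (nat_lit 336503714165) (nat_lit 0) (nat_lit 1665839785597) (nat_lit 1) (nat_lit 5) (nat_lit 3) (nat_lit 4) (nat_lit 1) (nat_lit 4) (nat_lit 450) (nat_lit 288) (nat_lit 282))))) (XT.nd (nat_lit 234) (nat_lit 0) (nat_lit 0) (XT.nd (nat_lit 78) (nat_lit 0) (nat_lit 0) (XT.lf (nat_lit 0) (nat_lit 1799899501309) (nat_lit 152) (nat_lit 361927244498) (nat_lit 0) (nat_lit 1799824395078) (nat_lit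 1) (nat_lit 5) (nat_lit 3) (nat_lit 4) (nat_lit 1) (nat_lit 4) (nat_lit 451) (nat_lit 288) (nat_lit 281)) (XT.nd (nat_lit 78) (nat_lit 0) (nat_lit 0) (XT.lf (nat_lit 0) (nat_lit 1944582123243) (nat_lit 152) (nat_lit 389445443668) (nat_lit 0) (nat_lit 1944499223183) (nat_lit 1) (nat_lit 5) (nat_lit 3) (nat_lit 4) (nat_lit 1) (nat_lit 4) (nat_lit 452) (nat_lit 288) (nat_lit 280)) (XT.lf (nat_lit 0) (nat_lit 2100811718794) (nat_lit 152) (nat_lit 419221382485) (nat_lit 0) (nat_lit 2100721602225) (nat_lit 1) (nat_lit 5) (nat_lit 3) (nat_lit 4) (nat_lit 1) (nat_lit 4) (nat_lit 453) (nat_lit 288) (nat_lit 279)))) (XT.nd (nat_lit 78) (nat_lit 0) (nat_lit 0) (XT.lf (nat_lit 0) (nat_lit 2269514092972) (nat_lit 152) (nat_lit 451431510956) (nat_lit 0) (nat_lit 2269417294451) (nat_lit 1) (nat_lit 5) (nat_lit 3) (nat_lit 4) (nat_lit 1) (nat_lit 4) (nat_lit 454) (nat_lit 288) (nat_lit 278)) (XT.nd (nat_lit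 78) (nat_lit 0) (nat_lit 0) (XT.lf (nat_lit 0) (nat_lit 2451688963551) (nat_lit 152) (nat_lit 486266703918) (nat_lit 0) (nat_lit 2451585978037) (nat_lit 1) (nat_lit 5) (nat_lit 3) (nat_lit 4) (nat_lit 1) (nat_lit 4) (nat_lit 455) (nat_lit 288) (nat_lit 277)) (XT.lf (nat_lit 0) (nat_lit 2648415885319) (nat_lit 152) (nat_lit 523933392142) (nat_lit 0) (nat_lit 2648307171108) (nat_lit 1) (nat_lit 5) (nat_lit 3) (nat_lit 4) (nat_lit 1) (nat_lit 4) (nat_lit 456) (nat_lit 288) (nat_lit 276))))))))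
noncomputable def xc3 : XT := (XT.nd (nat_lit 52806) (nat_lit 0) (nat_lit 0) (XT.nd (nat_lit 52026) (nat_lit 0) (nat_lit 0) (XT.nd (nat_lit 390) (nat_lit 0) (nat_lit 0) (XT.nd (nat_lit 156) (nat_lit 0) (nat_lit 0) (XT.nd (nat_lit 78) (nat_lit 0) (nat_lit 0) (XT.lf (nat_lit 0) (nat_lit 2860860647442) (nat_lit 152) (nat_lit 564654785634) (nat_lit 0) (nat_lit 2860746628882) (nat_lit 1) (nat_lit 5) (nat_lit 3) (nat_lit 4) (nat_lit 1) (nat_lit 4) (nat_lit 457) (nat_lit 288) (nat_lit 275)) (XT.lf (nat_lit 0) (nat_lit 3090282181845) (nat_lit 152) (nat_lit 608672196356) (nat_lit 0) (nat_lit 3090163251850) (nat_lit 1) (nat_lit 5) (nat_lit 3) (nat_lit 4) (nat_lit 1) (nat_lit 4) (nat_lit 458) (nat_lit 288) (nat_lit 274))) (XT.nd (nat_lit 78) (nat_lit 0) (nat_lit 0) (XT.lf (nat_lit 0) (nat_lit 3338040023544) (nat_lit 152) (nat_lit 656246468221) (nat_lit 0) (nat_lit 3337916545925) (nat_lit 1) (nat_lit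 5) (nat_lit 3) (nat_lit 4) (nat_lit 1) (nat_lit 4) (nat_lit 459) (nat_lit 288) (nat_lit 273)) (XT.nd (nat_lit 78) (nat_lit 0) (nat_lit 0) (XT.lf (nat_lit 0) (nat_lit 3605602367159) (nat_lit 152) (nat_lit 707659522842) (nat_lit 0) (nat_lit 3605474678776) (nat_lit 1) (nat_lit 5) (nat_lit 3) (nat_lit 4) (nat_lit 1) (nat_lit 4) (nat_lit 460) (nat_lit 288) (nat_lit 272)) (XT.lf (nat_lit 0) (nat_lit 3894554767318) (nat_lit 152) (nat_lit 763216030171) (nat_lit 0) (nat_lit 3894423180080) (nat_lit 1) (nat_lit 5) (nat_lit 3) (nat_lit 4) (nat_lit 1) (nat_lit 4) (nat_lit 461) (nat_lit 288) (nat_lit 271))))) (XT.nd (nat_lit 156) (nat_lit 0) (nat_lit 0) (XT.nd (nat_lit 78) (nat_lit 0) (nat_lit 0) (XT.lf (nat_lit 0) (nat_lit 4206609534540) (nat_lit 152) (nat_lit 823245213956) (nat_lit 0) (nat_lit 4206474337251) (nat_lit 1) (nat_lit 5) (nat_lit 3) (nat_lit 4) (nat_lit 1) (nat_lit 4) (nat_lit 462) (nat_lit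 288) (nat_lit 270)) (XT.lf (nat_lit 0) (nat_lit 4543615882260) (nat_lit 152) (nat_lit 888102802694) (nat_lit 0) (nat_lit 4543477342332) (nat_lit 1) (nat_lit 5) (nat_lit 3) (nat_lit 4) (nat_lit 1) (nat_lit 4) (nat_lit 463) (nat_lit 288) (nat_lit 269))) (XT.nd (nat_lit 78) (nat_lit 0) (nat_lit 0) (XT.lf (nat_lit 0) (nat_lit 4907570885133) (nat_lit 152) (nat_lit 958173137650) (nat_lit 0) (nat_lit 4907429250167) (nat_lit 1) (nat_lit 5) (nat_lit 3) (nat_lit 4) (nat_lit 1) (nat_lit 4) (nat_lit 464) (nat_lit 288) (nat_lit 268)) (XT.nd (nat_lit 51324) (nat_lit 0) (nat_lit 0) (XT.lf (nat_lit 0) (nat_lit 5300631313544) (nat_lit 152) (nat_lit 1033871450440) (nat_lit 0) (nat_lit 5300486812804) (nat_lit 1) (nat_lit 5) (nat_lit 3) (nat_lit 4) (nat_lit 1) (nat_lit 4) (nat_lit 465) (nat_lit 288) (nat_lit 267)) (XT.lf (nat_lit 0) (nat_lit 447412895444) (nat_lit 152) (nat_lit 96307360602) (nat_lit 0) (nat_lit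 447412895444) (nat_lit 1) (nat_lit 5) (nat_lit 3) (nat_lit 4) (nat_lit 1) (nat_lit 4) (nat_lit 442) (nat_lit 289) (nat_lit 289)))))) (XT.nd (nat_lit 390) (nat_lit 0) (nat_lit 0) (XT.nd (nat_lit 156) (nat_lit 0) (nat_lit 0) (XT.nd (nat_lit 78) (nat_lit 0) (nat_lit 0) (XT.lf (nat_lit 0) (nat_lit 967445393638) (nat_lit 152) (nat_lit 205887264078) (nat_lit 0) (nat_lit 967430967804) (nat_lit 1) (nat_lit 5) (nat_lit 3) (nat_lit 4) (nat_lit 1) (nat_lit 4) (nat_lit 443) (nat_lit 289) (nat_lit 288)) (XT.lf (nat_lit 0) (nat_lit 1045823412044) (nat_lit 152) (nat_lit 220325787607) (nat_lit 0) (nat_lit 1045795628956) (nat_lit 1) (nat_lit 5) (nat_lit 3) (nat_lit 4) (nat_lit 1) (nat_lit 4) (nat_lit 444) (nat_lit 289) (nat_lit 287))) (XT.nd (nat_lit 78) (nat_lit 0) (nat_lit 0) (XT.lf (nat_lit 0) (nat_lit 1130424308440) (nat_lit 152) (nat_lit 236015853412) (nat_lit 0) (nat_lit 1130384157524) (nat_lit 1)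 (nat_lit 5) (nat_lit 3) (nat_lit 4) (nat_lit 1) (nat_lit 4) (nat_lit 445) (nat_lit 289) (nat_lit 286)) (XT.nd (nat_lit 78) (nat_lit 0) (nat_lit 0) (XT.lf (nat_lit 0) (nat_lit 1221749421469) (nat_lit 152) (nat_lit 253050439660) (nat_lit 0) (nat_lit 1221697818862) (nat_lit 1) (nat_lit 5) (nat_lit 3) (nat_lit 4) (nat_lit 1) (nat_lit 4) (nat_lit 446) (nat_lit 289) (nat_lit 285)) (XT.lf (nat_lit 0) (nat_lit 1320339936988) (nat_lit 152) (nat_lit 271530492049) (nat_lit 0) (nat_lit 1320277730962) (nat_lit 1) (nat_lit 5) (nat_lit 3) (nat_lit 4) (nat_lit 1) (nat_lit 4) (nat_lit 447) (nat_lit 289) (nat_lit 284))))) (XT.nd (nat_lit 156) (nat_lit 0) (nat_lit 0) (XT.nd (nat_lit 78) (nat_lit 0) (nat_lit 0) (XT.lf (nat_lit 0) (nat_lit 1426780095088) (nat_lit 152) (nat_lit 291565521999) (nat_lit 0) (nat_lit 1426708071082) (nat_lit 1) (nat_lit 5) (nat_lit 3) (nat_lit 4) (nat_lit 1) (nat_lit 4) (nat_lit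 448) (nat_lit 289) (nat_lit 283)) (XT.lf (nat_lit 0) (nat_lit 1541700652262) (nat_lit 152) (nat_lit 313274255615) (nat_lit 0) (nat_lit 1541619537533) (nat_lit 1) (nat_lit 5) (nat_lit 3) (nat_lit 4) (nat_lit 1) (nat_lit 4) (nat_lit 449) (nat_lit 289) (nat_lit 282))) (XT.nd (nat_lit 78) (nat_lit 0) (nat_lit 0) (XT.lf (nat_lit 0) (nat_lit 1665782619219) (nat_lit 152) (nat_lit 336785337243) (nat_lit 0) (nat_lit 1665693087154) (nat_lit 1) (nat_lit 5) (nat_lit 3) (nat_lit 4) (nat_lit 1) (nat_lit 4) (nat_lit 450) (nat_lit 289) (nat_lit 281)) (XT.nd (nat_lit 78) (nat_lit 0) (nat_lit 0) (XT.lf (nat_lit 0) (nat_lit 1799761296503) (nat_lit 152) (nat_lit 362238091811) (nat_lit 0) (nat_lit 1799663970609) (nat_lit 1) (nat_lit 5) (nat_lit 3) (nat_lit 4) (nat_lit 1) (nat_lit 4) (nat_lit 451) (nat_lit 289) (nat_lit 280)) (XT.lf (nat_lit 0) (nat_lit 1944430631832) (nat_lit 152) (nat_lit 389783350459) (nat_lit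 0) (nat_lit 1944326089430) (nat_lit 1) (nat_lit 5) (nat_lit 3) (nat_lit 4) (nat_lit 1) (nat_lit 4) (nat_lit 452) (nat_lit 289) (nat_lit 279))))))) (XT.nd (nat_lit 780) (nat_lit 0) (nat_lit 0) (XT.nd (nat_lit 390) (nat_lit 0) (nat_lit 0) (XT.nd (nat_lit 156) (nat_lit 0) (nat_lit 0) (XT.nd (nat_lit 78) (nat_lit 0) (nat_lit 0) (XT.lf (nat_lit 0) (nat_lit 2100647924971) (nat_lit 152) (nat_lit 419584344347) (nat_lit 0) (nat_lit 2100536700616) (nat_lit 1) (nat_lit 5) (nat_lit 3) (nat_lit 4) (nat_lit 1) (nat_lit 4) (nat_lit 453) (nat_lit 289) (nat_lit 278)) (XT.lf (nat_lit 0) (nat_lit 2269338908028) (nat_lit 152) (nat_lit 451817671959) (nat_lit 0) (nat_lit 2269221496680) (nat_lit 1) (nat_lit 5) (nat_lit 3) (nat_lit 4) (nat_lit 1) (nat_lit 4) (nat_lit 454) (nat_lit 289) (nat_lit 277))) (XT.nd (nat_lit 78) (nat_lit 0) (nat_lit 0) (XT.lf (nat_lit 0) (nat_lit 2451503231271) (nat_lit 152) (nat_lit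 486674345607) (nat_lit 0) (nat_lit 2451380091226) (nat_lit 1) (nat_lit 5) (nat_lit 3) (nat_lit 4) (nat_lit 1) (nat_lit 4) (nat_lit 455) (nat_lit 289) (nat_lit 276)) (XT.nd (nat_lit 78) (nat_lit 0) (nat_lit 0) (XT.lf (nat_lit 0) (nat_lit 2648220386989) (nat_lit 152) (nat_lit 524360923355) (nat_lit 0) (nat_lit 2648091942594) (nat_lit 1) (nat_lit 5) (nat_lit 3) (nat_lit 4) (nat_lit 1) (nat_lit 4) (nat_lit 456) (nat_lit 289) (nat_lit 275)) (XT.lf (nat_lit 0) (nat_lit 2860656106472) (nat_lit 152) (nat_lit 565100733073) (nat_lit 0) (nat_lit 2860522750643) (nat_lit 1) (nat_lit 5) (nat_lit 3) (nat_lit 4) (nat_lit 1) (nat_lit 4) (nat_lit 457) (nat_lit 289) (nat_lit 274))))) (XT.nd (nat_lit 156) (nat_lit 0) (nat_lit 0) (XT.nd (nat_lit 78) (nat_lit 0) (nat_lit 0) (XT.lf (nat_lit 0) (nat_lit 3090069268059) (nat_lit 152) (nat_lit 609135195855) (nat_lit 0) (nat_lit 3089931364606) (nat_lit 1) (nat_lit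 5) (nat_lit 3) (nat_lit 4) (nat_lit 1) (nat_lit 4) (nat_lit 458) (nat_lit 289) (nat_lit 273)) (XT.lf (nat_lit 0) (nat_lit 3337819357153) (nat_lit 152) (nat_lit 656725256666) (nat_lit 0) (nat_lit 3337677242936) (nat_lit 1) (nat_lit 5) (nat_lit 3) (nat_lit 4) (nat_lit 1) (nat_lit 4) (nat_lit 459) (nat_lit 289) (nat_lit 272))) (XT.nd (nat_lit 78) (nat_lit 0) (nat_lit 0) (XT.lf (nat_lit 0) (nat_lit 3605374522429) (nat_lit 152) (nat_lit 708152930680) (nat_lit 0) (nat_lit 3605228509357) (nat_lit 1) (nat_lit 5) (nat_lit 3) (nat_lit 4) (nat_lit 1) (nat_lit 4) (nat_lit 460) (nat_lit 289) (nat_lit 271)) (XT.nd (nat_lit 78) (nat_lit 0) (nat_lit 0) (XT.lf (nat_lit 0) (nat_lit 3894320275977) (nat_lit 152) (nat_lit 763722974485) (nat_lit 0) (nat_lit 3894170652854) (nat_lit 1) (nat_lit 5) (nat_lit 3) (nat_lit 4) (nat_lit 1) (nat_lit 4) (nat_lit 461) (nat_lit 289) (nat_lit 270)) (XT.lf (nat_lit 0) (nat_lit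 4206368888930) (nat_lit 152) (nat_lit 823764692044) (nat_lit 0) (nat_lit 4206215923167) (nat_lit 1) (nat_lit 5) (nat_lit 3) (nat_lit 4) (nat_lit 1) (nat_lit 4) (nat_lit 462) (nat_lit 289) (nat_lit 269)))))) (XT.nd (nat_lit 51480) (nat_lit 0) (nat_lit 0) (XT.nd (nat_lit 156) (nat_lit 0) (nat_lit 0) (XT.nd (nat_lit 78) (nat_lit 0) (nat_lit 0) (XT.lf (nat_lit 0) (nat_lit 4543369538254) (nat_lit 152) (nat_lit 888633886128) (nat_lit 0) (nat_lit 4543213477454) (nat_lit 1) (nat_lit 5) (nat_lit 3) (nat_lit 4) (nat_lit 1) (nat_lit 4) (nat_lit 463) (nat_lit 289) (nat_lit 268)) (XT.lf (nat_lit 0) (nat_lit 4907319264833) (nat_lit 152) (nat_lit 958714966775) (nat_lit 0) (nat_lit 4907160338258) (nat_lit 1) (nat_lit 5) (nat_lit 3) (nat_lit 4) (nat_lit 1) (nat_lit 4) (nat_lit 464) (nat_lit 289) (nat_lit 267))) (XT.nd (nat_lit 51168) (nat_lit 0) (nat_lit 0) (XT.lf (nat_lit 0) (nat_lit 5300374807787) (nat_lit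 152) (nat_lit 1034423229279) (nat_lit 0) (nat_lit 5300213227718) (nat_lit 1) (nat_lit 5) (nat_lit 3) (nat_lit 4) (nat_lit 1) (nat_lit 4) (nat_lit 465) (nat_lit 289) (nat_lit 266)) (XT.nd (nat_lit 78) (nat_lit 0) (nat_lit 0) (XT.lf (nat_lit 0) (nat_lit 382608158646) (nat_lit 152) (nat_lit 84600496522) (nat_lit 0) (nat_lit 382608158646) (nat_lit 1) (nat_lit 5) (nat_lit 3) (nat_lit 4) (nat_lit 1) (nat_lit 4) (nat_lit 440) (nat_lit 290) (nat_lit 290)) (XT.lf (nat_lit 0) (nat_lit 827549845312) (nat_lit 152) (nat_lit 180429506880) (nat_lit 0) (nat_lit 827534265411) (nat_lit 1) (nat_lit 5) (nat_lit 3) (nat_lit 4) (nat_lit 1) (nat_lit 4) (nat_lit 441) (nat_lit 290) (nat_lit 289))))) (XT.nd (nat_lit 234) (nat_lit 0) (nat_lit 0) (XT.nd (nat_lit 78) (nat_lit 0) (nat_lit 0) (XT.lf (nat_lit 0) (nat_lit 894814810805) (nat_lit 152) (nat_lit 192668813225) (nat_lit 0) (nat_lit 894784805070) (nat_lit 1)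 (nat_lit 5) (nat_lit 3) (nat_lit 4) (nat_lit 1) (nat_lit 4) (nat_lit 442) (nat_lit 290) (nat_lit 288)) (XT.nd (nat_lit 78) (nat_lit 0) (nat_lit 0) (XT.lf (nat_lit 0) (nat_lit 967409820976) (nat_lit 152) (nat_lit 205991441303) (nat_lit 0) (nat_lit 967366457988) (nat_lit 1) (nat_lit 5) (nat_lit 3) (nat_lit 4) (nat_lit 1) (nat_lit 4) (nat_lit 443) (nat_lit 290) (nat_lit 287)) (XT.lf (nat_lit 0) (nat_lit 1045765068477) (nat_lit 152) (nat_lit 220476340021) (nat_lit 0) (nat_lit 1045709337661) (nat_lit 1) (nat_lit 5) (nat_lit 3) (nat_lit 4) (nat_lit 1) (nat_lit 4) (nat_lit 444) (nat_lit 290) (nat_lit 286)))) (XT.nd (nat_lit 78) (nat_lit 0) (nat_lit 0) (XT.lf (nat_lit 0) (nat_lit 1130344880701) (nat_lit 152) (nat_lit 236209345816) (nat_lit 0) (nat_lit 1130277698192) (nat_lit 1) (nat_lit 5) (nat_lit 3) (nat_lit 4) (nat_lit 1) (nat_lit 4) (nat_lit 445) (nat_lit 290) (nat_lit 285)) (XT.nd (nat_lit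 78) (nat_lit 0) (nat_lit 0) (XT.lf (nat_lit 0) (nat_lit 1221650471349) (nat_lit 152) (nat_lit 253283691315) (nat_lit 0) (nat_lit 1221572685422) (nat_lit 1) (nat_lit 5) (nat_lit 3) (nat_lit 4) (nat_lit 1) (nat_lit 4) (nat_lit 446) (nat_lit 290) (nat_lit 284)) (XT.lf (nat_lit 0) (nat_lit 1320222910589) (nat_lit 152) (nat_lit 271800557824) (nat_lit 0) (nat_lit 1320135306682) (nat_lit 1) (nat_lit 5) (nat_lit 3) (nat_lit 4) (nat_lit 1) (nat_lit 4) (nat_lit 447) (nat_lit 290) (nat_lit 283))))))))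
noncomputable def xc4 : XT := (XT.nd (nat_lit 52494) (nat_lit 0) (nat_lit 0) (XT.nd (nat_lit 780) (nat_lit 0) (nat_lit 0) (XT.nd (nat_lit 390) (nat_lit 0) (nat_lit 0) (XT.nd (nat_lit 156) (nat_lit 0) (nat_lit 0) (XT.nd (nat_lit 78) (nat_lit 0) (nat_lit 0) (XT.lf (nat_lit 0) (nat_lit 1426646331394) (nat_lit 152) (nat_lit 291869674923) (nat_lit 0) (nat_lit 1426549636764) (nat_lit 1) (nat_lit 5) (nat_lit 3) (nat_lit 4) (nat_lit 1) (nat_lit 4) (nat_lit 448) (nat_lit 290) (nat_lit 282)) (XT.lf (nat_lit 0) (nat_lit 1541551391072) (nat_lit 152) (nat_lit 313609970713) (nat_lit 0) (nat_lit 1541446279106) (nat_lit 1) (nat_lit 5) (nat_lit 3) (nat_lit 4) (nat_lit 1) (nat_lit 4) (nat_lit 449) (nat_lit 290) (nat_lit 281))) (XT.nd (nat_lit 78) (nat_lit 0) (nat_lit 0) (XT.lf (nat_lit 0) (nat_lit 1665619008495) (nat_lit 152) (nat_lit 337150276577) (nat_lit 0) (nat_lit 1665506102701) (nat_lit 1) (nat_lit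 5) (nat_lit 3) (nat_lit 4) (nat_lit 1) (nat_lit 4) (nat_lit 450) (nat_lit 290) (nat_lit 280)) (XT.nd (nat_lit 78) (nat_lit 0) (nat_lit 0) (XT.lf (nat_lit 0) (nat_lit 1799584399175) (nat_lit 152) (nat_lit 362630090623) (nat_lit 0) (nat_lit 1799464276871) (nat_lit 1) (nat_lit 5) (nat_lit 3) (nat_lit 4) (nat_lit 1) (nat_lit 4) (nat_lit 451) (nat_lit 290) (nat_lit 279)) (XT.lf (nat_lit 0) (nat_lit 1944241432092) (nat_lit 152) (nat_lit 390200404343) (nat_lit 0) (nat_lit 1944114627837) (nat_lit 1) (nat_lit 5) (nat_lit 3) (nat_lit 4) (nat_lit 1) (nat_lit 4) (nat_lit 452) (nat_lit 290) (nat_lit 278))))) (XT.nd (nat_lit 156) (nat_lit 0) (nat_lit 0) (XT.nd (nat_lit 78) (nat_lit 0) (nat_lit 0) (XT.lf (nat_lit 0) (nat_lit 2100447334109) (nat_lit 152) (nat_lit 420024597372) (nat_lit 0) (nat_lit 2100314342861) (nat_lit 1) (nat_lit 5) (nat_lit 3) (nat_lit 4) (nat_lit 1) (nat_lit 4) (nat_lit 453) (nat_lit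 290) (nat_lit 277)) (XT.lf (nat_lit 0) (nat_lit 2269127769831) (nat_lit 152) (nat_lit 452279405669) (nat_lit 0) (nat_lit 2268989049885) (nat_lit 1) (nat_lit 5) (nat_lit 3) (nat_lit 4) (nat_lit 1) (nat_lit 4) (nat_lit 454) (nat_lit 290) (nat_lit 276))) (XT.nd (nat_lit 78) (nat_lit 0) (nat_lit 0) (XT.lf (nat_lit 0) (nat_lit 2451282327023) (nat_lit 152) (nat_lit 487155968840) (nat_lit 0) (nat_lit 2451138302728) (nat_lit 1) (nat_lit 5) (nat_lit 3) (nat_lit 4) (nat_lit 1) (nat_lit 4) (nat_lit 455) (nat_lit 290) (nat_lit 275)) (XT.nd (nat_lit 78) (nat_lit 0) (nat_lit 0) (XT.lf (nat_lit 0) (nat_lit 2647990440100) (nat_lit 152) (nat_lit 524860962815) (nat_lit 0) (nat_lit 2647841504371) (nat_lit 1) (nat_lit 5) (nat_lit 3) (nat_lit 4) (nat_lit 1) (nat_lit 4) (nat_lit 456) (nat_lit 290) (nat_lit 274)) (XT.lf (nat_lit 0) (nat_lit 2860417786769) (nat_lit 152) (nat_lit 565617824593) (nat_lit 0) (nat_lit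 2860264303415) (nat_lit 1) (nat_lit 5) (nat_lit 3) (nat_lit 4) (nat_lit 1) (nat_lit 4) (nat_lit 457) (nat_lit 290) (nat_lit 273)))))) (XT.nd (nat_lit 390) (nat_lit 0) (nat_lit 0) (XT.nd (nat_lit 156) (nat_lit 0) (nat_lit 0) (XT.nd (nat_lit 78) (nat_lit 0) (nat_lit 0) (XT.lf (nat_lit 0) (nat_lit 3089823195750) (nat_lit 152) (nat_lit 609668076321) (nat_lit 0) (nat_lit 3089665501633) (nat_lit 1) (nat_lit 5) (nat_lit 3) (nat_lit 4) (nat_lit 1) (nat_lit 4) (nat_lit 458) (nat_lit 290) (nat_lit 272)) (XT.lf (nat_lit 0) (nat_lit 3337566106505) (nat_lit 152) (nat_lit 657272756525) (nat_lit 0) (nat_lit 3337404513532) (nat_lit 1) (nat_lit 5) (nat_lit 3) (nat_lit 4) (nat_lit 1) (nat_lit 4) (nat_lit 459) (nat_lit 290) (nat_lit 271))) (XT.nd (nat_lit 78) (nat_lit 0) (nat_lit 0) (XT.lf (nat_lit 0) (nat_lit 3605114625170) (nat_lit 152) (nat_lit 708713967015) (nat_lit 0) (nat_lit 3604949422147) (nat_lit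 1) (nat_lit 5) (nat_lit 3) (nat_lit 4) (nat_lit 1) (nat_lit 4) (nat_lit 460) (nat_lit 290) (nat_lit 270)) (XT.nd (nat_lit 78) (nat_lit 0) (nat_lit 0) (XT.lf (nat_lit 0) (nat_lit 3894054224450) (nat_lit 152) (nat_lit 764296544594) (nat_lit 0) (nat_lit 3893885678786) (nat_lit 1) (nat_lit 5) (nat_lit 3) (nat_lit 4) (nat_lit 1) (nat_lit 4) (nat_lit 461) (nat_lit 290) (nat_lit 269)) (XT.lf (nat_lit 0) (nat_lit 4206097139006) (nat_lit 152) (nat_lit 824349867499) (nat_lit 0) (nat_lit 4205925498306) (nat_lit 1) (nat_lit 5) (nat_lit 3) (nat_lit 4) (nat_lit 1) (nat_lit 4) (nat_lit 462) (nat_lit 290) (nat_lit 268))))) (XT.nd (nat_lit 156) (nat_lit 0) (nat_lit 0) (XT.nd (nat_lit 78) (nat_lit 0) (nat_lit 0) (XT.lf (nat_lit 0) (nat_lit 4543092512036) (nat_lit 152) (nat_lit 889229807274) (nat_lit 0) (nat_lit 4542918005561) (nat_lit 1) (nat_lit 5) (nat_lit 3) (nat_lit 4) (nat_lit 1) (nat_lit 4) (nat_lit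 463) (nat_lit 290) (nat_lit 267)) (XT.lf (nat_lit 0) (nat_lit 4907037353158) (nat_lit 152) (nat_lit 959320837635) (nat_lit 0) (nat_lit 4906860193188) (nat_lit 1) (nat_lit 5) (nat_lit 3) (nat_lit 4) (nat_lit 1) (nat_lit 4) (nat_lit 464) (nat_lit 290) (nat_lit 266))) (XT.nd (nat_lit 51012) (nat_lit 0) (nat_lit 0) (XT.lf (nat_lit 0) (nat_lit 5300088372541) (nat_lit 152) (nat_lit 1035038312836) (nat_lit 0) (nat_lit 5299908755631) (nat_lit 1) (nat_lit 5) (nat_lit 3) (nat_lit 4) (nat_lit 1) (nat_lit 4) (nat_lit 465) (nat_lit 290) (nat_lit 265)) (XT.nd (nat_lit 78) (nat_lit 0) (nat_lit 0) (XT.lf (nat_lit 0) (nat_lit 326970439223) (nat_lit 152) (nat_lit 74726344091) (nat_lit 0) (nat_lit 326970439223) (nat_lit 1) (nat_lit 5) (nat_lit 3) (nat_lit 4) (nat_lit 1) (nat_lit 4) (nat_lit 438) (nat_lit 291) (nat_lit 291)) (XT.lf (nat_lit 0) (nat_lit 707461669170) (nat_lit 152) (nat_lit 158916732379) (nat_lit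 0) (nat_lit 707444842877) (nat_lit 1) (nat_lit 5) (nat_lit 3) (nat_lit 4) (nat_lit 1) (nat_lit 4) (nat_lit 439) (nat_lit 291) (nat_lit 290))))))) (XT.nd (nat_lit 780) (nat_lit 0) (nat_lit 0) (XT.nd (nat_lit 390) (nat_lit 0) (nat_lit 0) (XT.nd (nat_lit 156) (nat_lit 0) (nat_lit 0) (XT.nd (nat_lit 78) (nat_lit 0) (nat_lit 0) (XT.lf (nat_lit 0) (nat_lit 765204458802) (nat_lit 152) (nat_lit 169259412428) (nat_lit 0) (nat_lit 765172052608) (nat_lit 1) (nat_lit 5) (nat_lit 3) (nat_lit 4) (nat_lit 1) (nat_lit 4) (nat_lit 440) (nat_lit 291) (nat_lit 289)) (XT.lf (nat_lit 0) (nat_lit 827511426837) (nat_lit 152) (nat_lit 180542018284) (nat_lit 0) (nat_lit 827464594809) (nat_lit 1) (nat_lit 5) (nat_lit 3) (nat_lit 4) (nat_lit 1) (nat_lit 4) (nat_lit 441) (nat_lit 291) (nat_lit 288))) (XT.nd (nat_lit 78) (nat_lit 0) (nat_lit 0) (XT.lf (nat_lit 0) (nat_lit 894751799753) (nat_lit 152) (nat_lit 192831409833)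 (nat_lit 0) (nat_lit 894691610471) (nat_lit 1) (nat_lit 5) (nat_lit 3) (nat_lit 4) (nat_lit 1) (nat_lit 4) (nat_lit 442) (nat_lit 291) (nat_lit 287)) (XT.nd (nat_lit 78) (nat_lit 0) (nat_lit 0) (XT.lf (nat_lit 0) (nat_lit 967324039018) (nat_lit 152) (nat_lit 206200413100) (nat_lit 0) (nat_lit 967251481909) (nat_lit 1) (nat_lit 5) (nat_lit 3) (nat_lit 4) (nat_lit 1) (nat_lit 4) (nat_lit 443) (nat_lit 291) (nat_lit 286)) (XT.lf (nat_lit 0) (nat_lit 1045658202347) (nat_lit 152) (nat_lit 220728251809) (nat_lit 0) (nat_lit 1045574193546) (nat_lit 1) (nat_lit 5) (nat_lit 3) (nat_lit 4) (nat_lit 1) (nat_lit 4) (nat_lit 444) (nat_lit 291) (nat_lit 285))))) (XT.nd (nat_lit 156) (nat_lit 0) (nat_lit 0) (XT.nd (nat_lit 78) (nat_lit 0) (nat_lit 0) (XT.lf (nat_lit 0) (nat_lit 1130218492190) (nat_lit 152) (nat_lit 236501016854) (nat_lit 0) (nat_lit 1130123879970) (nat_lit 1) (nat_lit 5) (nat_lit 3)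 (nat_lit 4) (nat_lit 1) (nat_lit 4) (nat_lit 445) (nat_lit 291) (nat_lit 284)) (XT.lf (nat_lit 0) (nat_lit 1221506006559) (nat_lit 152) (nat_lit 253612176473) (nat_lit 0) (nat_lit 1221401576359) (nat_lit 1) (nat_lit 5) (nat_lit 3) (nat_lit 4) (nat_lit 1) (nat_lit 4) (nat_lit 446) (nat_lit 291) (nat_lit 283))) (XT.nd (nat_lit 78) (nat_lit 0) (nat_lit 0) (XT.lf (nat_lit 0) (nat_lit 1320061708504) (nat_lit 152) (nat_lit 272163130131) (nat_lit 0) (nat_lit 1319948187581) (nat_lit 1) (nat_lit 5) (nat_lit 3) (nat_lit 4) (nat_lit 1) (nat_lit 4) (nat_lit 447) (nat_lit 291) (nat_lit 282)) (XT.nd (nat_lit 78) (nat_lit 0) (nat_lit 0) (XT.lf (nat_lit 0) (nat_lit 1426469631813) (nat_lit 152) (nat_lit 292263809404) (nat_lit 0) (nat_lit 1426347693554) (nat_lit 1) (nat_lit 5) (nat_lit 3) (nat_lit 4) (nat_lit 1) (nat_lit 4) (nat_lit 448) (nat_lit 291) (nat_lit 281)) (XT.lf (nat_lit 0) (nat_lit 1541360341957)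 (nat_lit 152) (nat_lit 314033329430) (nat_lit 0) (nat_lit 1541230609870) (nat_lit 1) (nat_lit 5) (nat_lit 3) (nat_lit 4) (nat_lit 1) (nat_lit 4) (nat_lit 449) (nat_lit 291) (nat_lit 280)))))) (XT.nd (nat_lit 390) (nat_lit 0) (nat_lit 0) (XT.nd (nat_lit 156) (nat_lit 0) (nat_lit 0) (XT.nd (nat_lit 78) (nat_lit 0) (nat_lit 0) (XT.lf (nat_lit 0) (nat_lit 1665414672776) (nat_lit 152) (nat_lit 337600694772) (nat_lit 0) (nat_lit 1665277724180) (nat_lit 1) (nat_lit 5) (nat_lit 3) (nat_lit 4) (nat_lit 1) (nat_lit 4) (nat_lit 450) (nat_lit 291) (nat_lit 279)) (XT.lf (nat_lit 0) (nat_lit 1799367761044) (nat_lit 152) (nat_lit 363105563889) (nat_lit 0) (nat_lit 1799224130495) (nat_lit 1) (nat_lit 5) (nat_lit 3) (nat_lit 4) (nat_lit 1) (nat_lit 4) (nat_lit 451) (nat_lit 291) (nat_lit 278))) (XT.nd (nat_lit 78) (nat_lit 0) (nat_lit 0) (XT.lf (nat_lit 0) (nat_lit 1944013402839) (nat_lit 152) (nat_lit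 390699076749) (nat_lit 0) (nat_lit 1943863585298) (nat_lit 1) (nat_lit 5) (nat_lit 3) (nat_lit 4) (nat_lit 1) (nat_lit 4) (nat_lit 452) (nat_lit 291) (nat_lit 277)) (XT.nd (nat_lit 78) (nat_lit 0) (nat_lit 0) (XT.lf (nat_lit 0) (nat_lit 2100208757521) (nat_lit 152) (nat_lit 420544750464) (nat_lit 0) (nat_lit 2100053211283) (nat_lit 1) (nat_lit 5) (nat_lit 3) (nat_lit 4) (nat_lit 1) (nat_lit 4) (nat_lit 453) (nat_lit 291) (nat_lit 276)) (XT.lf (nat_lit 0) (nat_lit 2268879427192) (nat_lit 152) (nat_lit 452819448286) (nat_lit 0) (nat_lit 2268718576604) (nat_lit 1) (nat_lit 5) (nat_lit 3) (nat_lit 4) (nat_lit 1) (nat_lit 4) (nat_lit 454) (nat_lit 291) (nat_lit 275))))) (XT.nd (nat_lit 234) (nat_lit 0) (nat_lit 0) (XT.nd (nat_lit 78) (nat_lit 0) (nat_lit 0) (XT.lf (nat_lit 0) (nat_lit 2451024941744) (nat_lit 152) (nat_lit 487714427682) (nat_lit 0) (nat_lit 2450859179722) (nat_lit 1) (nat_lit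 5) (nat_lit 3) (nat_lit 4) (nat_lit 1) (nat_lit 4) (nat_lit 455) (nat_lit 291) (nat_lit 274)) (XT.nd (nat_lit 78) (nat_lit 0) (nat_lit 0) (XT.lf (nat_lit 0) (nat_lit 2647724682007) (nat_lit 152) (nat_lit 525436473717) (nat_lit 0) (nat_lit 2647554372360) (nat_lit 1) (nat_lit 5) (nat_lit 3) (nat_lit 4) (nat_lit 1) (nat_lit 4) (nat_lit 456) (nat_lit 291) (nat_lit 273)) (XT.lf (nat_lit 0) (nat_lit 2860144276069) (nat_lit 152) (nat_lit 566209124442) (nat_lit 0) (nat_lit 2859969755659) (nat_lit 1) (nat_lit 5) (nat_lit 3) (nat_lit 4) (nat_lit 1) (nat_lit 4) (nat_lit 457) (nat_lit 291) (nat_lit 272)))) (XT.nd (nat_lit 78) (nat_lit 0) (nat_lit 0) (XT.lf (nat_lit 0) (nat_lit 3089542506711) (nat_lit 152) (nat_lit 610273995562) (nat_lit 0) (nat_lit 3089364087446) (nat_lit 1) (nat_lit 5) (nat_lit 3) (nat_lit 4) (nat_lit 1) (nat_lit 4) (nat_lit 458) (nat_lit 291) (nat_lit 271)) (XT.nd (nat_lit 78) (nat_lit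 0) (nat_lit 0) (XT.lf (nat_lit 0) (nat_lit 3337278770855) (nat_lit 152) (nat_lit 657892212243) (nat_lit 0) (nat_lit 3337096741539) (nat_lit 1) (nat_lit 5) (nat_lit 3) (nat_lit 4) (nat_lit 1) (nat_lit 4) (nat_lit 459) (nat_lit 291) (nat_lit 270)) (XT.lf (nat_lit 0) (nat_lit 3604821135252) (nat_lit 152) (nat_lit 709345956507) (nat_lit 0) (nat_lit 3604635763296) (nat_lit 1) (nat_lit 5) (nat_lit 3) (nat_lit 4) (nat_lit 1) (nat_lit 4) (nat_lit 460) (nat_lit 291) (nat_lit 269))))))))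
noncomputable def xc5 : XT := (XT.nd (nat_lit 52338) (nat_lit 0) (nat_lit 0) (XT.nd (nat_lit 51558) (nat_lit 0) (nat_lit 0) (XT.nd (nat_lit 51168) (nat_lit 0) (nat_lit 0) (XT.nd (nat_lit 156) (nat_lit 0) (nat_lit 0) (XT.nd (nat_lit 78) (nat_lit 0) (nat_lit 0) (XT.lf (nat_lit 0) (nat_lit 3893755036135) (nat_lit 152) (nat_lit 764940139432) (nat_lit 0) (nat_lit 3893566569142) (nat_lit 1) (nat_lit 5) (nat_lit 3) (nat_lit 4) (nat_lit 1) (nat_lit 4) (nat_lit 461) (nat_lit 291) (nat_lit 268)) (XT.lf (nat_lit 0) (nat_lit 4205792674397) (nat_lit 152) (nat_lit 825004208028) (nat_lit 0) (nat_lit 4205601341629) (nat_lit 1) (nat_lit 5) (nat_lit 3) (nat_lit 4) (nat_lit 1) (nat_lit 4) (nat_lit 462) (nat_lit 291) (nat_lit 267))) (XT.nd (nat_lit 78) (nat_lit 0) (nat_lit 0) (XT.lf (nat_lit 0) (nat_lit 4542783161970) (nat_lit 152) (nat_lit 889894097516) (nat_lit 0) (nat_lit 4542589175707) (nat_lit 1) (nat_lit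 5) (nat_lit 3) (nat_lit 4) (nat_lit 1) (nat_lit 4) (nat_lit 463) (nat_lit 291) (nat_lit 266)) (XT.nd (nat_lit 78) (nat_lit 0) (nat_lit 0) (XT.lf (nat_lit 0) (nat_lit 4906723479521) (nat_lit 152) (nat_lit 959994340575) (nat_lit 0) (nat_lit 4906527036318) (nat_lit 1) (nat_lit 5) (nat_lit 3) (nat_lit 4) (nat_lit 1) (nat_lit 4) (nat_lit 464) (nat_lit 291) (nat_lit 265)) (XT.lf (nat_lit 0) (nat_lit 5299770310413) (nat_lit 152) (nat_lit 1035720346052) (nat_lit 0) (nat_lit 5299571592265) (nat_lit 1) (nat_lit 5) (nat_lit 3) (nat_lit 4) (nat_lit 1) (nat_lit 4) (nat_lit 465) (nat_lit 291) (nat_lit 264))))) (XT.nd (nat_lit 156) (nat_lit 0) (nat_lit 0) (XT.nd (nat_lit 78) (nat_lit 0) (nat_lit 0) (XT.lf (nat_lit 0) (nat_lit 279185711438) (nat_lit 152) (nat_lit 66436454230) (nat_lit 0) (nat_lit 279185711438) (nat_lit 1) (nat_lit 5) (nat_lit 3) (nat_lit 4) (nat_lit 1) (nat_lit 4) (nat_lit 436) (nat_lit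 292) (nat_lit 292)) (XT.lf (nat_lit 0) (nat_lit 604343098789) (nat_lit 152) (nat_lit 140811196611) (nat_lit 0) (nat_lit 604324926393) (nat_lit 1) (nat_lit 5) (nat_lit 3) (nat_lit 4) (nat_lit 1) (nat_lit 4) (nat_lit 437) (nat_lit 292) (nat_lit 291))) (XT.nd (nat_lit 78) (nat_lit 0) (nat_lit 0) (XT.lf (nat_lit 0) (nat_lit 653928071278) (nat_lit 152) (nat_lit 149515781115) (nat_lit 0) (nat_lit 653893072589) (nat_lit 1) (nat_lit 5) (nat_lit 3) (nat_lit 4) (nat_lit 1) (nat_lit 4) (nat_lit 438) (nat_lit 292) (nat_lit 290)) (XT.nd (nat_lit 78) (nat_lit 0) (nat_lit 0) (XT.lf (nat_lit 0) (nat_lit 707420177218) (nat_lit 152) (nat_lit 159038244695) (nat_lit 0) (nat_lit 707369598628) (nat_lit 1) (nat_lit 5) (nat_lit 3) (nat_lit 4) (nat_lit 1) (nat_lit 4) (nat_lit 439) (nat_lit 292) (nat_lit 289)) (XT.lf (nat_lit 0) (nat_lit 765136406865) (nat_lit 152) (nat_lit 169435016764) (nat_lit 0) (nat_lit 765071402441)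 (nat_lit 1) (nat_lit 5) (nat_lit 3) (nat_lit 4) (nat_lit 1) (nat_lit 4) (nat_lit 440) (nat_lit 292) (nat_lit 288)))))) (XT.nd (nat_lit 390) (nat_lit 0) (nat_lit 0) (XT.nd (nat_lit 156) (nat_lit 0) (nat_lit 0) (XT.nd (nat_lit 78) (nat_lit 0) (nat_lit 0) (XT.lf (nat_lit 0) (nat_lit 827418782323) (nat_lit 152) (nat_lit 180767707824) (nat_lit 0) (nat_lit 827340420645) (nat_lit 1) (nat_lit 5) (nat_lit 3) (nat_lit 4) (nat_lit 1) (nat_lit 4) (nat_lit 441) (nat_lit 292) (nat_lit 287)) (XT.lf (nat_lit 0) (nat_lit 894636384333) (nat_lit 152) (nat_lit 193103474563) (nat_lit 0) (nat_lit 894545654827) (nat_lit 1) (nat_lit 5) (nat_lit 3) (nat_lit 4) (nat_lit 1) (nat_lit 4) (nat_lit 442) (nat_lit 292) (nat_lit 286))) (XT.nd (nat_lit 78) (nat_lit 0) (nat_lit 0) (XT.lf (nat_lit 0) (nat_lit 967187539426) (nat_lit 152) (nat_lit 206515417821) (nat_lit 0) (nat_lit 967085358229) (nat_lit 1) (nat_lit 5) (nat_lit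 3) (nat_lit 4) (nat_lit 1) (nat_lit 4) (nat_lit 443) (nat_lit 292) (nat_lit 285)) (XT.nd (nat_lit 78) (nat_lit 0) (nat_lit 0) (XT.lf (nat_lit 0) (nat_lit 1045502180374) (nat_lit 152) (nat_lit 221083015779) (nat_lit 0) (nat_lit 1045389395758) (nat_lit 1) (nat_lit 5) (nat_lit 3) (nat_lit 4) (nat_lit 1) (nat_lit 4) (nat_lit 444) (nat_lit 292) (nat_lit 284)) (XT.lf (nat_lit 0) (nat_lit 1130044393937) (nat_lit 152) (nat_lit 236892594945) (nat_lit 0) (nat_lit 1129921791341) (nat_lit 1) (nat_lit 5) (nat_lit 3) (nat_lit 4) (nat_lit 1) (nat_lit 4) (nat_lit 445) (nat_lit 292) (nat_lit 283))))) (XT.nd (nat_lit 156) (nat_lit 0) (nat_lit 0) (XT.nd (nat_lit 78) (nat_lit 0) (nat_lit 0) (XT.lf (nat_lit 0) (nat_lit 1221315171011) (nat_lit 152) (nat_lit 254037841712) (nat_lit 0) (nat_lit 1221183477692) (nat_lit 1) (nat_lit 5) (nat_lit 3) (nat_lit 4) (nat_lit 1) (nat_lit 4) (nat_lit 446) (nat_lit 292) (nat_lit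 282)) (XT.lf (nat_lit 0) (nat_lit 1319855375460) (nat_lit 152) (nat_lit 272620357545) (nat_lit 0) (nat_lit 1319715264805) (nat_lit 1) (nat_lit 5) (nat_lit 3) (nat_lit 4) (nat_lit 1) (nat_lit 4) (nat_lit 447) (nat_lit 292) (nat_lit 281))) (XT.nd (nat_lit 78) (nat_lit 0) (nat_lit 0) (XT.lf (nat_lit 0) (nat_lit 1426248949236) (nat_lit 152) (nat_lit 292750261054) (nat_lit 0) (nat_lit 1426101044752) (nat_lit 1) (nat_lit 5) (nat_lit 3) (nat_lit 4) (nat_lit 1) (nat_lit 4) (nat_lit 448) (nat_lit 292) (nat_lit 280)) (XT.nd (nat_lit 78) (nat_lit 0) (nat_lit 0) (XT.lf (nat_lit 0) (nat_lit 1541126372776) (nat_lit 152) (nat_lit 314546840558) (nat_lit 0) (nat_lit 1540971251784) (nat_lit 1) (nat_lit 5) (nat_lit 3) (nat_lit 4) (nat_lit 1) (nat_lit 4) (nat_lit 449) (nat_lit 292) (nat_lit 279)) (XT.lf (nat_lit 0) (nat_lit 1665168401183) (nat_lit 152) (nat_lit 338139260971) (nat_lit 0) (nat_lit 1665006598238)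 (nat_lit 1) (nat_lit 5) (nat_lit 3) (nat_lit 4) (nat_lit 1) (nat_lit 4) (nat_lit 450) (nat_lit 292) (nat_lit 278))))))) (XT.nd (nat_lit 780) (nat_lit 0) (nat_lit 0) (XT.nd (nat_lit 390) (nat_lit 0) (nat_lit 0) (XT.nd (nat_lit 156) (nat_lit 0) (nat_lit 0) (XT.nd (nat_lit 78) (nat_lit 0) (nat_lit 0) (XT.lf (nat_lit 0) (nat_lit 1799110098329) (nat_lit 152) (nat_lit 363667329229) (nat_lit 0) (nat_lit 1798942108391) (nat_lit 1) (nat_lit 5) (nat_lit 3) (nat_lit 4) (nat_lit 1) (nat_lit 4) (nat_lit 451) (nat_lit 292) (nat_lit 277)) (XT.lf (nat_lit 0) (nat_lit 1943745192789) (nat_lit 152) (nat_lit 391282322775) (nat_lit 0) (nat_lit 1943571474154) (nat_lit 1) (nat_lit 5) (nat_lit 3) (nat_lit 4) (nat_lit 1) (nat_lit 4) (nat_lit 452) (nat_lit 292) (nat_lit 276))) (XT.nd (nat_lit 78) (nat_lit 0) (nat_lit 0) (XT.lf (nat_lit 0) (nat_lit 2099930781420) (nat_lit 152) (nat_lit 421147886013) (nat_lit 0)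 (nat_lit 2099751758436) (nat_lit 1) (nat_lit 5) (nat_lit 3) (nat_lit 4) (nat_lit 1) (nat_lit 4) (nat_lit 453) (nat_lit 292) (nat_lit 275)) (XT.nd (nat_lit 78) (nat_lit 0) (nat_lit 0) (XT.lf (nat_lit 0) (nat_lit 2268592408450) (nat_lit 152) (nat_lit 453441000061) (nat_lit 0) (nat_lit 2268408474032) (nat_lit 1) (nat_lit 5) (nat_lit 3) (nat_lit 4) (nat_lit 1) (nat_lit 4) (nat_lit 454) (nat_lit 292) (nat_lit 274)) (XT.lf (nat_lit 0) (nat_lit 2450729550188) (nat_lit 152) (nat_lit 488353031518) (nat_lit 0) (nat_lit 2450541068145) (nat_lit 1) (nat_lit 5) (nat_lit 3) (nat_lit 4) (nat_lit 1) (nat_lit 4) (nat_lit 455) (nat_lit 292) (nat_lit 273))))) (XT.nd (nat_lit 156) (nat_lit 0) (nat_lit 0) (XT.nd (nat_lit 78) (nat_lit 0) (nat_lit 0) (XT.lf (nat_lit 0) (nat_lit 2647421537845) (nat_lit 152) (nat_lit 526090866499) (nat_lit 0) (nat_lit 2647228845038) (nat_lit 1) (nat_lit 5) (nat_lit 3) (nat_lit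 4) (nat_lit 1) (nat_lit 4) (nat_lit 456) (nat_lit 292) (nat_lit 272)) (XT.lf (nat_lit 0) (nat_lit 2859833953568) (nat_lit 152) (nat_lit 566878136616) (nat_lit 0) (nat_lit 2859637361906) (nat_lit 1) (nat_lit 5) (nat_lit 3) (nat_lit 4) (nat_lit 1) (nat_lit 4) (nat_lit 457) (nat_lit 292) (nat_lit 271))) (XT.nd (nat_lit 78) (nat_lit 0) (nat_lit 0) (XT.lf (nat_lit 0) (nat_lit 3089225537600) (nat_lit 152) (nat_lit 610956544213) (nat_lit 0) (nat_lit 3089025335887) (nat_lit 1) (nat_lit 5) (nat_lit 3) (nat_lit 4) (nat_lit 1) (nat_lit 4) (nat_lit 458) (nat_lit 292) (nat_lit 270)) (XT.nd (nat_lit 78) (nat_lit 0) (nat_lit 0) (XT.lf (nat_lit 0) (nat_lit 3336955647475) (nat_lit 152) (nat_lit 658587294667) (nat_lit 0) (nat_lit 3336752103123) (nat_lit 1) (nat_lit 5) (nat_lit 3) (nat_lit 4) (nat_lit 1) (nat_lit 4) (nat_lit 459) (nat_lit 292) (nat_lit 269)) (XT.lf (nat_lit 0) (nat_lit 3604492313475) (nat_lit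 152) (nat_lit 710052644277) (nat_lit 0) (nat_lit 3604285674085) (nat_lit 1) (nat_lit 5) (nat_lit 3) (nat_lit 4) (nat_lit 1) (nat_lit 4) (nat_lit 460) (nat_lit 292) (nat_lit 268)))))) (XT.nd (nat_lit 51012) (nat_lit 0) (nat_lit 0) (XT.nd (nat_lit 156) (nat_lit 0) (nat_lit 0) (XT.nd (nat_lit 78) (nat_lit 0) (nat_lit 0) (XT.lf (nat_lit 0) (nat_lit 3893420938064) (nat_lit 152) (nat_lit 765657572893) (nat_lit 0) (nat_lit 3893211432900) (nat_lit 1) (nat_lit 5) (nat_lit 3) (nat_lit 4) (nat_lit 1) (nat_lit 4) (nat_lit 461) (nat_lit 292) (nat_lit 267)) (XT.lf (nat_lit 0) (nat_lit 4205453690869) (nat_lit 152) (nat_lit 825731591203) (nat_lit 0) (nat_lit 4205241532210) (nat_lit 1) (nat_lit 5) (nat_lit 3) (nat_lit 4) (nat_lit 1) (nat_lit 4) (nat_lit 462) (nat_lit 292) (nat_lit 266))) (XT.nd (nat_lit 78) (nat_lit 0) (nat_lit 0) (XT.lf (nat_lit 0) (nat_lit 4542439654871) (nat_lit 152) (nat_lit 890630693389)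 (nat_lit 0) (nat_lit 4542225039272) (nat_lit 1) (nat_lit 5) (nat_lit 3) (nat_lit 4) (nat_lit 1) (nat_lit 4) (nat_lit 463) (nat_lit 292) (nat_lit 265)) (XT.nd (nat_lit 78) (nat_lit 0) (nat_lit 0) (XT.lf (nat_lit 0) (nat_lit 4906375783930) (nat_lit 152) (nat_lit 960739466724) (nat_lit 0) (nat_lit 4906158893386) (nat_lit 1) (nat_lit 5) (nat_lit 3) (nat_lit 4) (nat_lit 1) (nat_lit 4) (nat_lit 464) (nat_lit 292) (nat_lit 264)) (XT.lf (nat_lit 0) (nat_lit 5299418736588) (nat_lit 152) (nat_lit 1036473370604) (nat_lit 0) (nat_lit 5299199739614) (nat_lit 1) (nat_lit 5) (nat_lit 3) (nat_lit 4) (nat_lit 1) (nat_lit 4) (nat_lit 465) (nat_lit 292) (nat_lit 263))))) (XT.nd (nat_lit 234) (nat_lit 0) (nat_lit 0) (XT.nd (nat_lit 78) (nat_lit 0) (nat_lit 0) (XT.lf (nat_lit 0) (nat_lit 238126910154) (nat_lit 152) (nat_lit 59518862520) (nat_lit 0) (nat_lit 238126910154) (nat_lit 1) (nat_lit 5) (nat_lit 3)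 (nat_lit 4) (nat_lit 1) (nat_lit 4) (nat_lit 434) (nat_lit 293) (nat_lit 293)) (XT.nd (nat_lit 78) (nat_lit 0) (nat_lit 0) (XT.lf (nat_lit 0) (nat_lit 515760244982) (nat_lit 152) (nat_lit 125653874955) (nat_lit 0) (nat_lit 515740618794) (nat_lit 1) (nat_lit 5) (nat_lit 3) (nat_lit 4) (nat_lit 1) (nat_lit 4) (nat_lit 435) (nat_lit 293) (nat_lit 292)) (XT.lf (nat_lit 0) (nat_lit 558357591133) (nat_lit 152) (nat_lit 132941048828) (nat_lit 0) (nat_lit 558319792549) (nat_lit 1) (nat_lit 5) (nat_lit 3) (nat_lit 4) (nat_lit 1) (nat_lit 4) (nat_lit 436) (nat_lit 293) (nat_lit 291)))) (XT.nd (nat_lit 78) (nat_lit 0) (nat_lit 0) (XT.lf (nat_lit 0) (nat_lit 604298287480) (nat_lit 152) (nat_lit 140942429912) (nat_lit 0) (nat_lit 604243662603) (nat_lit 1) (nat_lit 5) (nat_lit 3) (nat_lit 4) (nat_lit 1) (nat_lit 4) (nat_lit 437) (nat_lit 293) (nat_lit 290)) (XT.nd (nat_lit 78) (nat_lit 0) (nat_lit 0)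 (XT.lf (nat_lit 0) (nat_lit 653854575187) (nat_lit 152) (nat_lit 149705433798) (nat_lit 0) (nat_lit 653784370409) (nat_lit 1) (nat_lit 5) (nat_lit 3) (nat_lit 4) (nat_lit 1) (nat_lit 4) (nat_lit 438) (nat_lit 293) (nat_lit 289)) (XT.lf (nat_lit 0) (nat_lit 707320121142) (nat_lit 152) (nat_lit 159281989399) (nat_lit 0) (nat_lit 707235490530) (nat_lit 1) (nat_lit 5) (nat_lit 3) (nat_lit 4) (nat_lit 1) (nat_lit 4) (nat_lit 439) (nat_lit 293) (nat_lit 288))))))))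
noncomputable def xc6 : XT := (XT.nd (nat_lit 1560) (nat_lit 0) (nat_lit 0) (XT.nd (nat_lit 780) (nat_lit 0) (nat_lit 0) (XT.nd (nat_lit 390) (nat_lit 0) (nat_lit 0) (XT.nd (nat_lit 156) (nat_lit 0) (nat_lit 0) (XT.nd (nat_lit 78) (nat_lit 0) (nat_lit 0) (XT.lf (nat_lit 0) (nat_lit 765011758212) (nat_lit 152) (nat_lit 169728846673) (nat_lit 0) (nat_lit 764913770346) (nat_lit 1) (nat_lit 5) (nat_lit 3) (nat_lit 4) (nat_lit 1) (nat_lit 4) (nat_lit 440) (nat_lit 293) (nat_lit 287)) (XT.lf (nat_lit 0) (nat_lit 827271362763) (nat_lit 152) (nat_lit 181107912922) (nat_lit 0) (nat_lit 827161007070) (nat_lit 1) (nat_lit 5) (nat_lit 3) (nat_lit 4) (nat_lit 1) (nat_lit 4) (nat_lit 441) (nat_lit 293) (nat_lit 286))) (XT.nd (nat_lit 78) (nat_lit 0) (nat_lit 0) (XT.lf (nat_lit 0) (nat_lit 894467880601) (nat_lit 152) (nat_lit 193486619651) (nat_lit 0) (nat_lit 894346073216) (nat_lit 1) (nat_lit 5) (nat_lit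 3) (nat_lit 4) (nat_lit 1) (nat_lit 4) (nat_lit 442) (nat_lit 293) (nat_lit 285)) (XT.nd (nat_lit 78) (nat_lit 0) (nat_lit 0) (XT.lf (nat_lit 0) (nat_lit 966999513314) (nat_lit 152) (nat_lit 206938322159) (nat_lit 0) (nat_lit 966867102509) (nat_lit 1) (nat_lit 5) (nat_lit 3) (nat_lit 4) (nat_lit 1) (nat_lit 4) (nat_lit 443) (nat_lit 293) (nat_lit 284)) (XT.lf (nat_lit 0) (nat_lit 1045296077982) (nat_lit 152) (nat_lit 221542734238) (nat_lit 0) (nat_lit 1045153849198) (nat_lit 1) (nat_lit 5) (nat_lit 3) (nat_lit 4) (nat_lit 1) (nat_lit 4) (nat_lit 444) (nat_lit 293) (nat_lit 283))))) (XT.nd (nat_lit 156) (nat_lit 0) (nat_lit 0) (XT.nd (nat_lit 78) (nat_lit 0) (nat_lit 0) (XT.lf (nat_lit 0) (nat_lit 1129821554250) (nat_lit 152) (nat_lit 237386400552) (nat_lit 0) (nat_lit 1129670234743) (nat_lit 1) (nat_lit 5) (nat_lit 3) (nat_lit 4) (nat_lit 1) (nat_lit 4) (nat_lit 445) (nat_lit 293) (nat_lit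 282)) (XT.lf (nat_lit 0) (nat_lit 1221076833828) (nat_lit 152) (nat_lit 254563209494) (nat_lit 0) (nat_lit 1220917096986) (nat_lit 1) (nat_lit 5) (nat_lit 3) (nat_lit 4) (nat_lit 1) (nat_lit 4) (nat_lit 446) (nat_lit 293) (nat_lit 281))) (XT.nd (nat_lit 78) (nat_lit 0) (nat_lit 0) (XT.lf (nat_lit 0) (nat_lit 1319602688744) (nat_lit 152) (nat_lit 273174949562) (nat_lit 0) (nat_lit 1319435158072) (nat_lit 1) (nat_lit 5) (nat_lit 3) (nat_lit 4) (nat_lit 1) (nat_lit 4) (nat_lit 447) (nat_lit 293) (nat_lit 280)) (XT.nd (nat_lit 78) (nat_lit 0) (nat_lit 0) (XT.lf (nat_lit 0) (nat_lit 1425982975915) (nat_lit 152) (nat_lit 293331912549) (nat_lit 0) (nat_lit 1425808228735) (nat_lit 1) (nat_lit 5) (nat_lit 3) (nat_lit 4) (nat_lit 1) (nat_lit 4) (nat_lit 448) (nat_lit 293) (nat_lit 279)) (XT.lf (nat_lit 0) (nat_lit 1540848097044) (nat_lit 152) (nat_lit 315153547125) (nat_lit 0) (nat_lit 1540666667911)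 (nat_lit 1) (nat_lit 5) (nat_lit 3) (nat_lit 4) (nat_lit 1) (nat_lit 4) (nat_lit 449) (nat_lit 293) (nat_lit 278)))))) (XT.nd (nat_lit 390) (nat_lit 0) (nat_lit 0) (XT.nd (nat_lit 156) (nat_lit 0) (nat_lit 0) (XT.nd (nat_lit 78) (nat_lit 0) (nat_lit 0) (XT.lf (nat_lit 0) (nat_lit 1664878734329) (nat_lit 152) (nat_lit 338769166678) (nat_lit 0) (nat_lit 1664691118203) (nat_lit 1) (nat_lit 5) (nat_lit 3) (nat_lit 4) (nat_lit 1) (nat_lit 4) (nat_lit 450) (nat_lit 293) (nat_lit 277)) (XT.lf (nat_lit 0) (nat_lit 1798809884140) (nat_lit 152) (nat_lit 364318715623) (nat_lit 0) (nat_lit 1798616539317) (nat_lit 1) (nat_lit 5) (nat_lit 3) (nat_lit 4) (nat_lit 1) (nat_lit 4) (nat_lit 451) (nat_lit 293) (nat_lit 276))) (XT.nd (nat_lit 78) (nat_lit 0) (nat_lit 0) (XT.lf (nat_lit 0) (nat_lit 1943435212549) (nat_lit 152) (nat_lit 391953598692) (nat_lit 0) (nat_lit 1943236563377) (nat_lit 1) (nat_lit 5)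 (nat_lit 3) (nat_lit 4) (nat_lit 1) (nat_lit 4) (nat_lit 452) (nat_lit 293) (nat_lit 275)) (XT.nd (nat_lit 78) (nat_lit 0) (nat_lit 0) (XT.lf (nat_lit 0) (nat_lit 2099611758540) (nat_lit 152) (nat_lit 421837578156) (nat_lit 0) (nat_lit 2099408197933) (nat_lit 1) (nat_lit 5) (nat_lit 3) (nat_lit 4) (nat_lit 1) (nat_lit 4) (nat_lit 453) (nat_lit 293) (nat_lit 274)) (XT.lf (nat_lit 0) (nat_lit 2268265012755) (nat_lit 152) (nat_lit 454147744264) (nat_lit 0) (nat_lit 2268056904524) (nat_lit 1) (nat_lit 5) (nat_lit 3) (nat_lit 4) (nat_lit 1) (nat_lit 4) (nat_lit 454) (nat_lit 293) (nat_lit 273))))) (XT.nd (nat_lit 156) (nat_lit 0) (nat_lit 0) (XT.nd (nat_lit 78) (nat_lit 0) (nat_lit 0) (XT.lf (nat_lit 0) (nat_lit 2450394401887) (nat_lit 152) (nat_lit 489075564667) (nat_lit 0) (nat_lit 2450182082892) (nat_lit 1) (nat_lit 5) (nat_lit 3) (nat_lit 4) (nat_lit 1) (nat_lit 4) (nat_lit 455) (nat_lit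 293) (nat_lit 272)) (XT.lf (nat_lit 0) (nat_lit 2647079211204) (nat_lit 152) (nat_lit 526828019041) (nat_lit 0) (nat_lit 2646862993354) (nat_lit 1) (nat_lit 5) (nat_lit 3) (nat_lit 4) (nat_lit 1) (nat_lit 4) (nat_lit 456) (nat_lit 293) (nat_lit 271))) (XT.nd (nat_lit 78) (nat_lit 0) (nat_lit 0) (XT.lf (nat_lit 0) (nat_lit 2859484980317) (nat_lit 152) (nat_lit 567628825635) (nat_lit 0) (nat_lit 2859265152417) (nat_lit 1) (nat_lit 5) (nat_lit 3) (nat_lit 4) (nat_lit 1) (nat_lit 4) (nat_lit 457) (nat_lit 293) (nat_lit 270)) (XT.nd (nat_lit 78) (nat_lit 0) (nat_lit 0) (XT.lf (nat_lit 0) (nat_lit 3088870410080) (nat_lit 152) (nat_lit 611719767005) (nat_lit 0) (nat_lit 3088647239540) (nat_lit 1) (nat_lit 5) (nat_lit 3) (nat_lit 4) (nat_lit 1) (nat_lit 4) (nat_lit 458) (nat_lit 293) (nat_lit 269)) (XT.lf (nat_lit 0) (nat_lit 3336594821559) (nat_lit 152) (nat_lit 659362122805) (nat_lit 0) (nat_lit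 3336368555981) (nat_lit 1) (nat_lit 5) (nat_lit 3) (nat_lit 4) (nat_lit 1) (nat_lit 4) (nat_lit 459) (nat_lit 293) (nat_lit 268))))))) (XT.nd (nat_lit 51246) (nat_lit 0) (nat_lit 0) (XT.nd (nat_lit 390) (nat_lit 0) (nat_lit 0) (XT.nd (nat_lit 156) (nat_lit 0) (nat_lit 0) (XT.nd (nat_lit 78) (nat_lit 0) (nat_lit 0) (XT.lf (nat_lit 0) (nat_lit 3604126211265) (nat_lit 152) (nat_lit 710838218106) (nat_lit 0) (nat_lit 3603897079913) (nat_lit 1) (nat_lit 5) (nat_lit 3) (nat_lit 4) (nat_lit 1) (nat_lit 4) (nat_lit 460) (nat_lit 293) (nat_lit 267)) (XT.lf (nat_lit 0) (nat_lit 3893049950397) (nat_lit 152) (nat_lit 766453096436) (nat_lit 0) (nat_lit 3892818165549) (nat_lit 1) (nat_lit 5) (nat_lit 3) (nat_lit 4) (nat_lit 1) (nat_lit 4) (nat_lit 461) (nat_lit 293) (nat_lit 266))) (XT.nd (nat_lit 78) (nat_lit 0) (nat_lit 0) (XT.lf (nat_lit 0) (nat_lit 4205078179631) (nat_lit 152) (nat_lit 826536327443)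 (nat_lit 0) (nat_lit 4204843937844) (nat_lit 1) (nat_lit 5) (nat_lit 3) (nat_lit 4) (nat_lit 1) (nat_lit 4) (nat_lit 462) (nat_lit 293) (nat_lit 265)) (XT.nd (nat_lit 78) (nat_lit 0) (nat_lit 0) (XT.lf (nat_lit 0) (nat_lit 4542059955141) (nat_lit 152) (nat_lit 891443959905) (nat_lit 0) (nat_lit 4541823438409) (nat_lit 1) (nat_lit 5) (nat_lit 3) (nat_lit 4) (nat_lit 1) (nat_lit 4) (nat_lit 463) (nat_lit 293) (nat_lit 264)) (XT.lf (nat_lit 0) (nat_lit 4905992205967) (nat_lit 152) (nat_lit 961560631644) (nat_lit 0) (nat_lit 4905753582805) (nat_lit 1) (nat_lit 5) (nat_lit 3) (nat_lit 4) (nat_lit 1) (nat_lit 4) (nat_lit 464) (nat_lit 293) (nat_lit 263))))) (XT.nd (nat_lit 50622) (nat_lit 0) (nat_lit 0) (XT.nd (nat_lit 50544) (nat_lit 0) (nat_lit 0) (XT.lf (nat_lit 0) (nat_lit 5299031567668) (nat_lit 152) (nat_lit 1037301848861) (nat_lit 0) (nat_lit 5298790994108) (nat_lit 1) (nat_lit 5) (nat_lit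 3) (nat_lit 4) (nat_lit 1) (nat_lit 4) (nat_lit 465) (nat_lit 293) (nat_lit 262)) (XT.lf (nat_lit 0) (nat_lit 202827218831) (nat_lit 152) (nat_lit 53792967501) (nat_lit 0) (nat_lit 202827218831) (nat_lit 1) (nat_lit 5) (nat_lit 3) (nat_lit 4) (nat_lit 1) (nat_lit 4) (nat_lit 432) (nat_lit 294) (nat_lit 294))) (XT.nd (nat_lit 78) (nat_lit 0) (nat_lit 0) (XT.lf (nat_lit 0) (nat_lit 439625401248) (nat_lit 152) (nat_lit 113053392268) (nat_lit 0) (nat_lit 439604204965) (nat_lit 1) (nat_lit 5) (nat_lit 3) (nat_lit 4) (nat_lit 1) (nat_lit 4) (nat_lit 433) (nat_lit 294) (nat_lit 293)) (XT.nd (nat_lit 78) (nat_lit 0) (nat_lit 0) (XT.lf (nat_lit 0) (nat_lit 476238882025) (nat_lit 152) (nat_lit 119111316637) (nat_lit 0) (nat_lit 476198059554) (nat_lit 1) (nat_lit 5) (nat_lit 3) (nat_lit 4) (nat_lit 1) (nat_lit 4) (nat_lit 434) (nat_lit 294) (nat_lit 292)) (XT.lf (nat_lit 0) (nat_lit 515711848768)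 (nat_lit 152) (nat_lit 125795606920) (nat_lit 0) (nat_lit 515652853901) (nat_lit 1) (nat_lit 5) (nat_lit 3) (nat_lit 4) (nat_lit 1) (nat_lit 4) (nat_lit 435) (nat_lit 294) (nat_lit 291)))))) (XT.nd (nat_lit 390) (nat_lit 0) (nat_lit 0) (XT.nd (nat_lit 156) (nat_lit 0) (nat_lit 0) (XT.nd (nat_lit 78) (nat_lit 0) (nat_lit 0) (XT.lf (nat_lit 0) (nat_lit 558278215354) (nat_lit 152) (nat_lit 133145873726) (nat_lit 0) (nat_lit 558202394194) (nat_lit 1) (nat_lit 5) (nat_lit 3) (nat_lit 4) (nat_lit 1) (nat_lit 4) (nat_lit 436) (nat_lit 294) (nat_lit 290)) (XT.lf (nat_lit 0) (nat_lit 604190226918) (nat_lit 152) (nat_lit 141205674193) (nat_lit 0) (nat_lit 604098825857) (nat_lit 1) (nat_lit 5) (nat_lit 3) (nat_lit 4) (nat_lit 1) (nat_lit 4) (nat_lit 437) (nat_lit 294) (nat_lit 289))) (XT.nd (nat_lit 78) (nat_lit 0) (nat_lit 0) (XT.lf (nat_lit 0) (nat_lit 653719954640) (nat_lit 152) (nat_lit 150022770100)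 (nat_lit 0) (nat_lit 653614127745) (nat_lit 1) (nat_lit 5) (nat_lit 3) (nat_lit 4) (nat_lit 1) (nat_lit 4) (nat_lit 438) (nat_lit 294) (nat_lit 288)) (XT.nd (nat_lit 78) (nat_lit 0) (nat_lit 0) (XT.lf (nat_lit 0) (nat_lit 707160908018) (nat_lit 152) (nat_lit 159649410905) (nat_lit 0) (nat_lit 707041723869) (nat_lit 1) (nat_lit 5) (nat_lit 3) (nat_lit 4) (nat_lit 1) (nat_lit 4) (nat_lit 439) (nat_lit 294) (nat_lit 287)) (XT.lf (nat_lit 0) (nat_lit 764829774182) (nat_lit 152) (nat_lit 170142643368) (nat_lit 0) (nat_lit 764698222205) (nat_lit 1) (nat_lit 5) (nat_lit 3) (nat_lit 4) (nat_lit 1) (nat_lit 4) (nat_lit 440) (nat_lit 294) (nat_lit 286))))) (XT.nd (nat_lit 234) (nat_lit 0) (nat_lit 0) (XT.nd (nat_lit 78) (nat_lit 0) (nat_lit 0) (XT.lf (nat_lit 0) (nat_lit 827068294561) (nat_lit 152) (nat_lit 181564649608) (nat_lit 0) (nat_lit 826925290893) (nat_lit 1) (nat_lit 5) (nat_lit 3) (nat_lit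 4) (nat_lit 1) (nat_lit 4) (nat_lit 441) (nat_lit 294) (nat_lit 285)) (XT.nd (nat_lit 78) (nat_lit 0) (nat_lit 0) (XT.lf (nat_lit 0) (nat_lit 894245290018) (nat_lit 152) (nat_lit 193983115587) (nat_lit 0) (nat_lit 894091682931) (nat_lit 1) (nat_lit 5) (nat_lit 3) (nat_lit 4) (nat_lit 1) (nat_lit 4) (nat_lit 442) (nat_lit 294) (nat_lit 284)) (XT.lf (nat_lit 0) (nat_lit 966758846452) (nat_lit 152) (nat_lit 207471632215) (nat_lit 0) (nat_lit 966595421384) (nat_lit 1) (nat_lit 5) (nat_lit 3) (nat_lit 4) (nat_lit 1) (nat_lit 4) (nat_lit 443) (nat_lit 294) (nat_lit 283)))) (XT.nd (nat_lit 78) (nat_lit 0) (nat_lit 0) (XT.lf (nat_lit 0) (nat_lit 1045038673825) (nat_lit 152) (nat_lit 222110131442) (nat_lit 0) (nat_lit 1044866158035) (nat_lit 1) (nat_lit 5) (nat_lit 3) (nat_lit 4) (nat_lit 1) (nat_lit 4) (nat_lit 444) (nat_lit 294) (nat_lit 282)) (XT.nd (nat_lit 78) (nat_lit 0) (nat_lit 0) (XT.lf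 (nat_lit 0) (nat_lit 1129548652597) (nat_lit 152) (nat_lit 237985359931) (nat_lit 0) (nat_lit 1129367719472) (nat_lit 1) (nat_lit 5) (nat_lit 3) (nat_lit 4) (nat_lit 1) (nat_lit 4) (nat_lit 445) (nat_lit 294) (nat_lit 281)) (XT.lf (nat_lit 0) (nat_lit 1220789582642) (nat_lit 152) (nat_lit 255191393109) (nat_lit 0) (nat_lit 1220600855688) (nat_lit 1) (nat_lit 5) (nat_lit 3) (nat_lit 4) (nat_lit 1) (nat_lit 4) (nat_lit 446) (nat_lit 294) (nat_lit 280))))))))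
noncomputable def xc7 : XT := (XT.nd (nat_lit 51948) (nat_lit 0) (nat_lit 0) (XT.nd (nat_lit 780) (nat_lit 0) (nat_lit 0) (XT.nd (nat_lit 390) (nat_lit 0) (nat_lit 0) (XT.nd (nat_lit 156) (nat_lit 0) (nat_lit 0) (XT.nd (nat_lit 78) (nat_lit 0) (nat_lit 0) (XT.lf (nat_lit 0) (nat_lit 1319302150953) (nat_lit 152) (nat_lit 273830192655) (nat_lit 0) (nat_lit 1319106207490) (nat_lit 1) (nat_lit 5) (nat_lit 3) (nat_lit 4) (nat_lit 1) (nat_lit 4) (nat_lit 447) (nat_lit 294) (nat_lit 279)) (XT.lf (nat_lit 0) (nat_lit 1425670135713) (nat_lit 152) (nat_lit 294012210714) (nat_lit 0) (nat_lit 1425467510297) (nat_lit 1) (nat_lit 5) (nat_lit 3) (nat_lit 4) (nat_lit 1) (nat_lit 4) (nat_lit 448) (nat_lit 294) (nat_lit 278))) (XT.nd (nat_lit 78) (nat_lit 0) (nat_lit 0) (XT.lf (nat_lit 0) (nat_lit 1540523865719) (nat_lit 152) (nat_lit 315857044429) (nat_lit 0) (nat_lit 1540315053311) (nat_lit 1) (nat_lit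 5) (nat_lit 3) (nat_lit 4) (nat_lit 1) (nat_lit 4) (nat_lit 449) (nat_lit 294) (nat_lit 277)) (XT.nd (nat_lit 78) (nat_lit 0) (nat_lit 0) (XT.lf (nat_lit 0) (nat_lit 1664543955669) (nat_lit 152) (nat_lit 339494144669) (nat_lit 0) (nat_lit 1664329414563) (nat_lit 1) (nat_lit 5) (nat_lit 3) (nat_lit 4) (nat_lit 1) (nat_lit 4) (nat_lit 450) (nat_lit 294) (nat_lit 276)) (XT.lf (nat_lit 0) (nat_lit 1798465339429) (nat_lit 152) (nat_lit 365063583137) (nat_lit 0) (nat_lit 1798245493973) (nat_lit 1) (nat_lit 5) (nat_lit 3) (nat_lit 4) (nat_lit 1) (nat_lit 4) (nat_lit 451) (nat_lit 294) (nat_lit 275))))) (XT.nd (nat_lit 156) (nat_lit 0) (nat_lit 0) (XT.nd (nat_lit 78) (nat_lit 0) (nat_lit 0) (XT.lf (nat_lit 0) (nat_lit 1943081625198) (nat_lit 152) (nat_lit 392716882432) (nat_lit 0) (nat_lit 1942856868308) (nat_lit 1) (nat_lit 5) (nat_lit 3) (nat_lit 4) (nat_lit 1) (nat_lit 4) (nat_lit 452) (nat_lit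 294) (nat_lit 274)) (XT.lf (nat_lit 0) (nat_lit 2099249798374) (nat_lit 152) (nat_lit 422617913957) (nat_lit 0) (nat_lit 2099020493860) (nat_lit 1) (nat_lit 5) (nat_lit 3) (nat_lit 4) (nat_lit 1) (nat_lit 4) (nat_lit 453) (nat_lit 294) (nat_lit 273))) (XT.nd (nat_lit 78) (nat_lit 0) (nat_lit 0) (XT.lf (nat_lit 0) (nat_lit 2267895299983) (nat_lit 152) (nat_lit 454943869010) (nat_lit 0) (nat_lit 2267661784706) (nat_lit 1) (nat_lit 5) (nat_lit 3) (nat_lit 4) (nat_lit 1) (nat_lit 4) (nat_lit 454) (nat_lit 294) (nat_lit 272)) (XT.nd (nat_lit 78) (nat_lit 0) (nat_lit 0) (XT.lf (nat_lit 0) (nat_lit 2450017510776) (nat_lit 152) (nat_lit 489886308807) (nat_lit 0) (nat_lit 2449780096644) (nat_lit 1) (nat_lit 5) (nat_lit 3) (nat_lit 4) (nat_lit 1) (nat_lit 4) (nat_lit 455) (nat_lit 294) (nat_lit 271)) (XT.lf (nat_lit 0) (nat_lit 2646695673483) (nat_lit 152) (nat_lit 527652299657) (nat_lit 0) (nat_lit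 2646454649299) (nat_lit 1) (nat_lit 5) (nat_lit 3) (nat_lit 4) (nat_lit 1) (nat_lit 4) (nat_lit 456) (nat_lit 294) (nat_lit 270)))))) (XT.nd (nat_lit 390) (nat_lit 0) (nat_lit 0) (XT.nd (nat_lit 156) (nat_lit 0) (nat_lit 0) (XT.nd (nat_lit 78) (nat_lit 0) (nat_lit 0) (XT.lf (nat_lit 0) (nat_lit 2859095288327) (nat_lit 152) (nat_lit 568465640024) (nat_lit 0) (nat_lit 2858850921504) (nat_lit 1) (nat_lit 5) (nat_lit 3) (nat_lit 4) (nat_lit 1) (nat_lit 4) (nat_lit 457) (nat_lit 294) (nat_lit 269)) (XT.lf (nat_lit 0) (nat_lit 3088475019693) (nat_lit 152) (nat_lit 612568186741) (nat_lit 0) (nat_lit 3088227557833) (nat_lit 1) (nat_lit 5) (nat_lit 3) (nat_lit 4) (nat_lit 1) (nat_lit 4) (nat_lit 458) (nat_lit 294) (nat_lit 268))) (XT.nd (nat_lit 78) (nat_lit 0) (nat_lit 0) (XT.lf (nat_lit 0) (nat_lit 3336194154878) (nat_lit 152) (nat_lit 660221288232) (nat_lit 0) (nat_lit 3335943827243) (nat_lit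 1) (nat_lit 5) (nat_lit 3) (nat_lit 4) (nat_lit 1) (nat_lit 4) (nat_lit 459) (nat_lit 294) (nat_lit 267)) (XT.nd (nat_lit 78) (nat_lit 0) (nat_lit 0) (XT.lf (nat_lit 0) (nat_lit 3603720659127) (nat_lit 152) (nat_lit 711707333246) (nat_lit 0) (nat_lit 3603467677997) (nat_lit 1) (nat_lit 5) (nat_lit 3) (nat_lit 4) (nat_lit 1) (nat_lit 4) (nat_lit 460) (nat_lit 294) (nat_lit 266)) (XT.lf (nat_lit 0) (nat_lit 3892639874688) (nat_lit 152) (nat_lit 767331424274) (nat_lit 0) (nat_lit 3892384436618) (nat_lit 1) (nat_lit 5) (nat_lit 3) (nat_lit 4) (nat_lit 1) (nat_lit 4) (nat_lit 461) (nat_lit 294) (nat_lit 265))))) (XT.nd (nat_lit 234) (nat_lit 0) (nat_lit 0) (XT.nd (nat_lit 78) (nat_lit 0) (nat_lit 0) (XT.lf (nat_lit 0) (nat_lit 4204663915431) (nat_lit 152) (nat_lit 827423185557) (nat_lit 0) (nat_lit 4204406202416) (nat_lit 1) (nat_lit 5) (nat_lit 3) (nat_lit 4) (nat_lit 1) (nat_lit 4) (nat_lit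 462) (nat_lit 294) (nat_lit 264)) (XT.nd (nat_lit 78) (nat_lit 0) (nat_lit 0) (XT.lf (nat_lit 0) (nat_lit 4541641812707) (nat_lit 152) (nat_lit 892338716423) (nat_lit 0) (nat_lit 4541381993262) (nat_lit 1) (nat_lit 5) (nat_lit 3) (nat_lit 4) (nat_lit 1) (nat_lit 4) (nat_lit 463) (nat_lit 294) (nat_lit 263)) (XT.lf (nat_lit 0) (nat_lit 4905570472576) (nat_lit 152) (nat_lit 962462701498) (nat_lit 0) (nat_lit 4905308702733) (nat_lit 1) (nat_lit 5) (nat_lit 3) (nat_lit 4) (nat_lit 1) (nat_lit 4) (nat_lit 464) (nat_lit 294) (nat_lit 262)))) (XT.nd (nat_lit 50388) (nat_lit 0) (nat_lit 0) (XT.lf (nat_lit 0) (nat_lit 5298606509318) (nat_lit 152) (nat_lit 1038210690323) (nat_lit 0) (nat_lit 5298342933550) (nat_lit 1) (nat_lit 5) (nat_lit 3) (nat_lit 4) (nat_lit 1) (nat_lit 4) (nat_lit 465) (nat_lit 294) (nat_lit 261)) (XT.nd (nat_lit 78) (nat_lit 0) (nat_lit 0) (XT.lf (nat_lit 0) (nat_lit 172457165083)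 (nat_lit 152) (nat_lit 49105146311) (nat_lit 0) (nat_lit 172457165083) (nat_lit 1) (nat_lit 5) (nat_lit 3) (nat_lit 4) (nat_lit 1) (nat_lit 4) (nat_lit 430) (nat_lit 295) (nat_lit 295)) (XT.lf (nat_lit 0) (nat_lit 374147573839) (nat_lit 152) (nat_lit 102676545095) (nat_lit 0) (nat_lit 374124681853) (nat_lit 1) (nat_lit 5) (nat_lit 3) (nat_lit 4) (nat_lit 1) (nat_lit 4) (nat_lit 431) (nat_lit 295) (nat_lit 294))))))) (XT.nd (nat_lit 780) (nat_lit 0) (nat_lit 0) (XT.nd (nat_lit 390) (nat_lit 0) (nat_lit 0) (XT.nd (nat_lit 156) (nat_lit 0) (nat_lit 0) (XT.nd (nat_lit 78) (nat_lit 0) (nat_lit 0) (XT.lf (nat_lit 0) (nat_lit 405638304317) (nat_lit 152) (nat_lit 107665413928) (nat_lit 0) (nat_lit 405594216048) (nat_lit 1) (nat_lit 5) (nat_lit 3) (nat_lit 4) (nat_lit 1) (nat_lit 4) (nat_lit 432) (nat_lit 295) (nat_lit 293)) (XT.lf (nat_lit 0) (nat_lit 439573133338) (nat_lit 152) (nat_lit 113206462790)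 (nat_lit 0) (nat_lit 439509418881) (nat_lit 1) (nat_lit 5) (nat_lit 3) (nat_lit 4) (nat_lit 1) (nat_lit 4) (nat_lit 433) (nat_lit 295) (nat_lit 292))) (XT.nd (nat_lit 78) (nat_lit 0) (nat_lit 0) (XT.lf (nat_lit 0) (nat_lit 476153156184) (nat_lit 152) (nat_lit 119332527527) (nat_lit 0) (nat_lit 476071269331) (nat_lit 1) (nat_lit 5) (nat_lit 3) (nat_lit 4) (nat_lit 1) (nat_lit 4) (nat_lit 434) (nat_lit 295) (nat_lit 291)) (XT.nd (nat_lit 78) (nat_lit 0) (nat_lit 0) (XT.lf (nat_lit 0) (nat_lit 515595143362) (nat_lit 152) (nat_lit 126079910743) (nat_lit 0) (nat_lit 515496430216) (nat_lit 1) (nat_lit 5) (nat_lit 3) (nat_lit 4) (nat_lit 1) (nat_lit 4) (nat_lit 435) (nat_lit 295) (nat_lit 290)) (XT.lf (nat_lit 0) (nat_lit 558132825164) (nat_lit 152) (nat_lit 133488596932) (nat_lit 0) (nat_lit 558018532118) (nat_lit 1) (nat_lit 5) (nat_lit 3) (nat_lit 4) (nat_lit 1) (nat_lit 4) (nat_lit 436) (nat_lit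 295) (nat_lit 289))))) (XT.nd (nat_lit 156) (nat_lit 0) (nat_lit 0) (XT.nd (nat_lit 78) (nat_lit 0) (nat_lit 0) (XT.lf (nat_lit 0) (nat_lit 604018276744) (nat_lit 152) (nat_lit 141602489419) (nat_lit 0) (nat_lit 603889557864) (nat_lit 1) (nat_lit 5) (nat_lit 3) (nat_lit 4) (nat_lit 1) (nat_lit 4) (nat_lit 437) (nat_lit 295) (nat_lit 288)) (XT.lf (nat_lit 0) (nat_lit 653523411888) (nat_lit 152) (nat_lit 150469670530) (nat_lit 0) (nat_lit 653381335754) (nat_lit 1) (nat_lit 5) (nat_lit 3) (nat_lit 4) (nat_lit 1) (nat_lit 4) (nat_lit 438) (nat_lit 295) (nat_lit 287))) (XT.nd (nat_lit 78) (nat_lit 0) (nat_lit 0) (XT.lf (nat_lit 0) (nat_lit 706941594360) (nat_lit 152) (nat_lit 160142686525) (nat_lit 0) (nat_lit 706787150398) (nat_lit 1) (nat_lit 5) (nat_lit 3) (nat_lit 4) (nat_lit 1) (nat_lit 4) (nat_lit 439) (nat_lit 295) (nat_lit 286)) (XT.nd (nat_lit 78) (nat_lit 0) (nat_lit 0) (XT.lf (nat_lit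 0) (nat_lit 764589376352) (nat_lit 152) (nat_lit 170678858978) (nat_lit 0) (nat_lit 764423480698) (nat_lit 1) (nat_lit 5) (nat_lit 3) (nat_lit 4) (nat_lit 1) (nat_lit 4) (nat_lit 440) (nat_lit 295) (nat_lit 285)) (XT.lf (nat_lit 0) (nat_lit 826808374351) (nat_lit 152) (nat_lit 182140624468) (nat_lit 0) (nat_lit 826631875278) (nat_lit 1) (nat_lit 5) (nat_lit 3) (nat_lit 4) (nat_lit 1) (nat_lit 4) (nat_lit 441) (nat_lit 295) (nat_lit 284)))))) (XT.nd (nat_lit 390) (nat_lit 0) (nat_lit 0) (XT.nd (nat_lit 156) (nat_lit 0) (nat_lit 0) (XT.nd (nat_lit 78) (nat_lit 0) (nat_lit 0) (XT.lf (nat_lit 0) (nat_lit 893967293528) (nat_lit 152) (nat_lit 194595904568) (nat_lit 0) (nat_lit 893780976475) (nat_lit 1) (nat_lit 5) (nat_lit 3) (nat_lit 4) (nat_lit 1) (nat_lit 4) (nat_lit 442) (nat_lit 295) (nat_lit 283)) (XT.lf (nat_lit 0) (nat_lit 966464112666) (nat_lit 152) (nat_lit 208118508344) (nat_lit 0)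 (nat_lit 966268704891) (nat_lit 1) (nat_lit 5) (nat_lit 3) (nat_lit 4) (nat_lit 1) (nat_lit 4) (nat_lit 443) (nat_lit 295) (nat_lit 282))) (XT.nd (nat_lit 78) (nat_lit 0) (nat_lit 0) (XT.lf (nat_lit 0) (nat_lit 1044728442544) (nat_lit 152) (nat_lit 222788569746) (nat_lit 0) (nat_lit 1044524617433) (nat_lit 1) (nat_lit 5) (nat_lit 3) (nat_lit 4) (nat_lit 1) (nat_lit 4) (nat_lit 444) (nat_lit 295) (nat_lit 281)) (XT.nd (nat_lit 78) (nat_lit 0) (nat_lit 0) (XT.lf (nat_lit 0) (nat_lit 1129224071783) (nat_lit 152) (nat_lit 238693022471) (nat_lit 0) (nat_lit 1129012452843) (nat_lit 1) (nat_lit 5) (nat_lit 3) (nat_lit 4) (nat_lit 1) (nat_lit 4) (nat_lit 445) (nat_lit 295) (nat_lit 280)) (XT.lf (nat_lit 0) (nat_lit 1220451715224) (nat_lit 152) (nat_lit 255926115126) (nat_lit 0) (nat_lit 1220232879775) (nat_lit 1) (nat_lit 5) (nat_lit 3) (nat_lit 4) (nat_lit 1) (nat_lit 4) (nat_lit 446) (nat_lit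 295) (nat_lit 279))))) (XT.nd (nat_lit 234) (nat_lit 0) (nat_lit 0) (XT.nd (nat_lit 78) (nat_lit 0) (nat_lit 0) (XT.lf (nat_lit 0) (nat_lit 1318951981123) (nat_lit 152) (nat_lit 274589969744) (nat_lit 0) (nat_lit 1318726463721) (nat_lit 1) (nat_lit 5) (nat_lit 3) (nat_lit 4) (nat_lit 1) (nat_lit 4) (nat_lit 447) (nat_lit 295) (nat_lit 278)) (XT.nd (nat_lit 78) (nat_lit 0) (nat_lit 0) (XT.lf (nat_lit 0) (nat_lit 1425308574760) (nat_lit 152) (nat_lit 294795186943) (nat_lit 0) (nat_lit 1425076870366) (nat_lit 1) (nat_lit 5) (nat_lit 3) (nat_lit 4) (nat_lit 1) (nat_lit 4) (nat_lit 448) (nat_lit 295) (nat_lit 277)) (XT.lf (nat_lit 0) (nat_lit 1540151757432) (nat_lit 152) (nat_lit 316661501345) (nat_lit 0) (nat_lit 1539914324340) (nat_lit 1) (nat_lit 5) (nat_lit 3) (nat_lit 4) (nat_lit 1) (nat_lit 4) (nat_lit 449) (nat_lit 295) (nat_lit 276)))) (XT.nd (nat_lit 78) (nat_lit 0) (nat_lit 0) (XT.lf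 (nat_lit 0) (nat_lit 1664162081330) (nat_lit 152) (nat_lit 340318491108) (nat_lit 0) (nat_lit 1663919343889) (nat_lit 1) (nat_lit 5) (nat_lit 3) (nat_lit 4) (nat_lit 1) (nat_lit 4) (nat_lit 450) (nat_lit 295) (nat_lit 275)) (XT.nd (nat_lit 78) (nat_lit 0) (nat_lit 0) (XT.lf (nat_lit 0) (nat_lit 1798074422450) (nat_lit 152) (nat_lit 365906345802) (nat_lit 0) (nat_lit 1797826773575) (nat_lit 1) (nat_lit 5) (nat_lit 3) (nat_lit 4) (nat_lit 1) (nat_lit 4) (nat_lit 451) (nat_lit 295) (nat_lit 274)) (XT.lf (nat_lit 0) (nat_lit 1942682335405) (nat_lit 152) (nat_lit 393576697158) (nat_lit 0) (nat_lit 1942430138905) (nat_lit 1) (nat_lit 5) (nat_lit 3) (nat_lit 4) (nat_lit 1) (nat_lit 4) (nat_lit 452) (nat_lit 295) (nat_lit 273))))))))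
noncomputable def xc8 : XT := (XT.nd (nat_lit 51714) (nat_lit 0) (nat_lit 0) (XT.nd (nat_lit 780) (nat_lit 0) (nat_lit 0) (XT.nd (nat_lit 390) (nat_lit 0) (nat_lit 0) (XT.nd (nat_lit 156) (nat_lit 0) (nat_lit 0) (XT.nd (nat_lit 78) (nat_lit 0) (nat_lit 0) (XT.lf (nat_lit 0) (nat_lit 2098842755974) (nat_lit 152) (nat_lit 423493517628) (nat_lit 0) (nat_lit 2098586348711) (nat_lit 1) (nat_lit 5) (nat_lit 3) (nat_lit 4) (nat_lit 1) (nat_lit 4) (nat_lit 453) (nat_lit 295) (nat_lit 272)) (XT.lf (nat_lit 0) (nat_lit 2267481079245) (nat_lit 152) (nat_lit 455834092075) (nat_lit 0) (nat_lit 2267220773126) (nat_lit 1) (nat_lit 5) (nat_lit 3) (nat_lit 4) (nat_lit 1) (nat_lit 4) (nat_lit 454) (nat_lit 295) (nat_lit 271))) (XT.nd (nat_lit 78) (nat_lit 0) (nat_lit 0) (XT.lf (nat_lit 0) (nat_lit 2449596643427) (nat_lit 152) (nat_lit 490790068347) (nat_lit 0) (nat_lit 2449332727258) (nat_lit 1) (nat_lit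 5) (nat_lit 3) (nat_lit 4) (nat_lit 1) (nat_lit 4) (nat_lit 455) (nat_lit 295) (nat_lit 270)) (XT.nd (nat_lit 78) (nat_lit 0) (nat_lit 0) (XT.lf (nat_lit 0) (nat_lit 2646268651865) (nat_lit 152) (nat_lit 528568592971) (nat_lit 0) (nat_lit 2646001393056) (nat_lit 1) (nat_lit 5) (nat_lit 3) (nat_lit 4) (nat_lit 1) (nat_lit 4) (nat_lit 456) (nat_lit 295) (nat_lit 269)) (XT.lf (nat_lit 0) (nat_lit 2858662568313) (nat_lit 152) (nat_lit 569393538685) (nat_lit 0) (nat_lit 2858392214467) (nat_lit 1) (nat_lit 5) (nat_lit 3) (nat_lit 4) (nat_lit 1) (nat_lit 4) (nat_lit 457) (nat_lit 295) (nat_lit 268))))) (XT.nd (nat_lit 156) (nat_lit 0) (nat_lit 0) (XT.nd (nat_lit 78) (nat_lit 0) (nat_lit 0) (XT.lf (nat_lit 0) (nat_lit 3088037023385) (nat_lit 152) (nat_lit 613506831092) (nat_lit 0) (nat_lit 3087763803764) (nat_lit 1) (nat_lit 5) (nat_lit 3) (nat_lit 4) (nat_lit 1) (nat_lit 4) (nat_lit 458) (nat_lit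 295) (nat_lit 267)) (XT.lf (nat_lit 0) (nat_lit 3335751273113) (nat_lit 152) (nat_lit 661169882297) (nat_lit 0) (nat_lit 3335475399997) (nat_lit 1) (nat_lit 5) (nat_lit 3) (nat_lit 4) (nat_lit 1) (nat_lit 4) (nat_lit 459) (nat_lit 295) (nat_lit 266))) (XT.nd (nat_lit 78) (nat_lit 0) (nat_lit 0) (XT.lf (nat_lit 0) (nat_lit 3603273253791) (nat_lit 152) (nat_lit 712665140009) (nat_lit 0) (nat_lit 3602994923735) (nat_lit 1) (nat_lit 5) (nat_lit 3) (nat_lit 4) (nat_lit 1) (nat_lit 4) (nat_lit 460) (nat_lit 295) (nat_lit 265)) (XT.nd (nat_lit 78) (nat_lit 0) (nat_lit 0) (XT.lf (nat_lit 0) (nat_lit 3892188280860) (nat_lit 152) (nat_lit 768297761312) (nat_lit 0) (nat_lit 3891907675859) (nat_lit 1) (nat_lit 5) (nat_lit 3) (nat_lit 4) (nat_lit 1) (nat_lit 4) (nat_lit 461) (nat_lit 295) (nat_lit 264)) (XT.lf (nat_lit 0) (nat_lit 4204208443369) (nat_lit 152) (nat_lit 828397420999) (nat_lit 0) (nat_lit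 4203925731938) (nat_lit 1) (nat_lit 5) (nat_lit 3) (nat_lit 4) (nat_lit 1) (nat_lit 4) (nat_lit 462) (nat_lit 295) (nat_lit 263)))))) (XT.nd (nat_lit 50544) (nat_lit 0) (nat_lit 0) (XT.nd (nat_lit 156) (nat_lit 0) (nat_lit 0) (XT.nd (nat_lit 78) (nat_lit 0) (nat_lit 0) (XT.lf (nat_lit 0) (nat_lit 4541182749689) (nat_lit 152) (nat_lit 893320265202) (nat_lit 0) (nat_lit 4540898087860) (nat_lit 1) (nat_lit 5) (nat_lit 3) (nat_lit 4) (nat_lit 1) (nat_lit 4) (nat_lit 463) (nat_lit 295) (nat_lit 262)) (XT.lf (nat_lit 0) (nat_lit 4905108084598) (nat_lit 152) (nat_lit 963451021885) (nat_lit 0) (nat_lit 4904821616844) (nat_lit 1) (nat_lit 5) (nat_lit 3) (nat_lit 4) (nat_lit 1) (nat_lit 4) (nat_lit 464) (nat_lit 295) (nat_lit 261))) (XT.nd (nat_lit 50232) (nat_lit 0) (nat_lit 0) (XT.lf (nat_lit 0) (nat_lit 5298141042673) (nat_lit 152) (nat_lit 1039205280717) (nat_lit 0) (nat_lit 5297852902767) (nat_lit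 1) (nat_lit 5) (nat_lit 3) (nat_lit 4) (nat_lit 1) (nat_lit 4) (nat_lit 465) (nat_lit 295) (nat_lit 260)) (XT.nd (nat_lit 78) (nat_lit 0) (nat_lit 0) (XT.lf (nat_lit 0) (nat_lit 146304980355) (nat_lit 152) (nat_lit 45325002983) (nat_lit 0) (nat_lit 146304980355) (nat_lit 1) (nat_lit 5) (nat_lit 3) (nat_lit 4) (nat_lit 1) (nat_lit 4) (nat_lit 428) (nat_lit 296) (nat_lit 296)) (XT.lf (nat_lit 0) (nat_lit 317790062608) (nat_lit 152) (nat_lit 94240189831) (nat_lit 0) (nat_lit 317765339263) (nat_lit 1) (nat_lit 5) (nat_lit 3) (nat_lit 4) (nat_lit 1) (nat_lit 4) (nat_lit 429) (nat_lit 296) (nat_lit 295))))) (XT.nd (nat_lit 156) (nat_lit 0) (nat_lit 0) (XT.nd (nat_lit 78) (nat_lit 0) (nat_lit 0) (XT.lf (nat_lit 0) (nat_lit 344896906154) (nat_lit 152) (nat_lit 98296129862) (nat_lit 0) (nat_lit 344849290824) (nat_lit 1) (nat_lit 5) (nat_lit 3) (nat_lit 4) (nat_lit 1) (nat_lit 4) (nat_lit 430) (nat_lit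 296) (nat_lit 294)) (XT.lf (nat_lit 0) (nat_lit 374091124495) (nat_lit 152) (nat_lit 102841861258) (nat_lit 0) (nat_lit 374022312882) (nat_lit 1) (nat_lit 5) (nat_lit 3) (nat_lit 4) (nat_lit 1) (nat_lit 4) (nat_lit 431) (nat_lit 296) (nat_lit 293))) (XT.nd (nat_lit 78) (nat_lit 0) (nat_lit 0) (XT.lf (nat_lit 0) (nat_lit 405545720409) (nat_lit 152) (nat_lit 107904321689) (nat_lit 0) (nat_lit 405457282607) (nat_lit 1) (nat_lit 5) (nat_lit 3) (nat_lit 4) (nat_lit 1) (nat_lit 4) (nat_lit 432) (nat_lit 296) (nat_lit 292)) (XT.nd (nat_lit 78) (nat_lit 0) (nat_lit 0) (XT.lf (nat_lit 0) (nat_lit 439447091499) (nat_lit 152) (nat_lit 113513510919) (nat_lit 0) (nat_lit 439340481301) (nat_lit 1) (nat_lit 5) (nat_lit 3) (nat_lit 4) (nat_lit 1) (nat_lit 4) (nat_lit 433) (nat_lit 296) (nat_lit 291)) (XT.lf (nat_lit 0) (nat_lit 475996134779) (nat_lit 152) (nat_lit 119702668589) (nat_lit 0) (nat_lit 475872698289)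 (nat_lit 1) (nat_lit 5) (nat_lit 3) (nat_lit 4) (nat_lit 1) (nat_lit 4) (nat_lit 434) (nat_lit 296) (nat_lit 290))))))) (XT.nd (nat_lit 780) (nat_lit 0) (nat_lit 0) (XT.nd (nat_lit 390) (nat_lit 0) (nat_lit 0) (XT.nd (nat_lit 156) (nat_lit 0) (nat_lit 0) (XT.nd (nat_lit 78) (nat_lit 0) (nat_lit 0) (XT.lf (nat_lit 0) (nat_lit 515409437173) (nat_lit 152) (nat_lit 126508471187) (nat_lit 0) (nat_lit 515270420782) (nat_lit 1) (nat_lit 5) (nat_lit 3) (nat_lit 4) (nat_lit 1) (nat_lit 4) (nat_lit 435) (nat_lit 296) (nat_lit 289)) (XT.lf (nat_lit 0) (nat_lit 557920558992) (nat_lit 152) (nat_lit 133971249397) (nat_lit 0) (nat_lit 557767116767) (nat_lit 1) (nat_lit 5) (nat_lit 3) (nat_lit 4) (nat_lit 1) (nat_lit 4) (nat_lit 436) (nat_lit 296) (nat_lit 288))) (XT.nd (nat_lit 78) (nat_lit 0) (nat_lit 0) (XT.lf (nat_lit 0) (nat_lit 603781417994) (nat_lit 152) (nat_lit 142135227089) (nat_lit 0) (nat_lit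 603614618515) (nat_lit 1) (nat_lit 5) (nat_lit 3) (nat_lit 4) (nat_lit 1) (nat_lit 4) (nat_lit 437) (nat_lit 296) (nat_lit 287)) (XT.nd (nat_lit 78) (nat_lit 0) (nat_lit 0) (XT.lf (nat_lit 0) (nat_lit 653263782232) (nat_lit 152) (nat_lit 151048783389) (nat_lit 0) (nat_lit 653084614926) (nat_lit 1) (nat_lit 5) (nat_lit 3) (nat_lit 4) (nat_lit 1) (nat_lit 4) (nat_lit 438) (nat_lit 296) (nat_lit 286)) (XT.lf (nat_lit 0) (nat_lit 706660880532) (nat_lit 152) (nat_lit 160764739374) (nat_lit 0) (nat_lit 706470261534) (nat_lit 1) (nat_lit 5) (nat_lit 3) (nat_lit 4) (nat_lit 1) (nat_lit 4) (nat_lit 439) (nat_lit 296) (nat_lit 285))))) (XT.nd (nat_lit 156) (nat_lit 0) (nat_lit 0) (XT.nd (nat_lit 78) (nat_lit 0) (nat_lit 0) (XT.lf (nat_lit 0) (nat_lit 764289140143) (nat_lit 152) (nat_lit 171340671077) (nat_lit 0) (nat_lit 764087917726) (nat_lit 1) (nat_lit 5) (nat_lit 3) (nat_lit 4) (nat_lit 1) (nat_lit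 4) (nat_lit 440) (nat_lit 296) (nat_lit 284)) (XT.lf (nat_lit 0) (nat_lit 826490061862) (nat_lit 152) (nat_lit 182839250688) (nat_lit 0) (nat_lit 826279021465) (nat_lit 1) (nat_lit 5) (nat_lit 3) (nat_lit 4) (nat_lit 1) (nat_lit 4) (nat_lit 441) (nat_lit 296) (nat_lit 283))) (XT.nd (nat_lit 78) (nat_lit 0) (nat_lit 0) (XT.lf (nat_lit 0) (nat_lit 893632243745) (nat_lit 152) (nat_lit 195328617936) (nat_lit 0) (nat_lit 893412112625) (nat_lit 1) (nat_lit 5) (nat_lit 3) (nat_lit 4) (nat_lit 1) (nat_lit 4) (nat_lit 442) (nat_lit 296) (nat_lit 282)) (XT.nd (nat_lit 78) (nat_lit 0) (nat_lit 0) (XT.lf (nat_lit 0) (nat_lit 966113565387) (nat_lit 152) (nat_lit 208882783887) (nat_lit 0) (nat_lit 965885016931) (nat_lit 1) (nat_lit 5) (nat_lit 3) (nat_lit 4) (nat_lit 1) (nat_lit 4) (nat_lit 443) (nat_lit 296) (nat_lit 281)) (XT.lf (nat_lit 0) (nat_lit 1044363545732) (nat_lit 152) (nat_lit 223582069525)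 (nat_lit 0) (nat_lit 1044127203447) (nat_lit 1) (nat_lit 5) (nat_lit 3) (nat_lit 4) (nat_lit 1) (nat_lit 4) (nat_lit 444) (nat_lit 296) (nat_lit 280)))))) (XT.nd (nat_lit 390) (nat_lit 0) (nat_lit 0) (XT.nd (nat_lit 156) (nat_lit 0) (nat_lit 0) (XT.nd (nat_lit 78) (nat_lit 0) (nat_lit 0) (XT.lf (nat_lit 0) (nat_lit 1128845888366) (nat_lit 152) (nat_lit 239513581727) (nat_lit 0) (nat_lit 1128602329573) (nat_lit 1) (nat_lit 5) (nat_lit 3) (nat_lit 4) (nat_lit 1) (nat_lit 4) (nat_lit 445) (nat_lit 296) (nat_lit 279)) (XT.lf (nat_lit 0) (nat_lit 1220061229395) (nat_lit 152) (nat_lit 256771729454) (nat_lit 0) (nat_lit 1219810988649) (nat_lit 1) (nat_lit 5) (nat_lit 3) (nat_lit 4) (nat_lit 1) (nat_lit 4) (nat_lit 446) (nat_lit 296) (nat_lit 278))) (XT.nd (nat_lit 78) (nat_lit 0) (nat_lit 0) (XT.lf (nat_lit 0) (nat_lit 1318550104172) (nat_lit 152) (nat_lit 275458783212) (nat_lit 0) (nat_lit 1318293676433)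 (nat_lit 1) (nat_lit 5) (nat_lit 3) (nat_lit 4) (nat_lit 1) (nat_lit 4) (nat_lit 447) (nat_lit 296) (nat_lit 277)) (XT.nd (nat_lit 78) (nat_lit 0) (nat_lit 0) (XT.lf (nat_lit 0) (nat_lit 1424896150474) (nat_lit 152) (nat_lit 295685481098) (nat_lit 0) (nat_lit 1424633994038) (nat_lit 1) (nat_lit 5) (nat_lit 3) (nat_lit 4) (nat_lit 1) (nat_lit 4) (nat_lit 448) (nat_lit 296) (nat_lit 276)) (XT.lf (nat_lit 0) (nat_lit 1539729567095) (nat_lit 152) (nat_lit 317571685023) (nat_lit 0) (nat_lit 1539462106309) (nat_lit 1) (nat_lit 5) (nat_lit 3) (nat_lit 4) (nat_lit 1) (nat_lit 4) (nat_lit 449) (nat_lit 296) (nat_lit 275))))) (XT.nd (nat_lit 234) (nat_lit 0) (nat_lit 0) (XT.nd (nat_lit 78) (nat_lit 0) (nat_lit 0) (XT.lf (nat_lit 0) (nat_lit 1663730848353) (nat_lit 152) (nat_lit 341247091012) (nat_lit 0) (nat_lit 1663458476134) (nat_lit 1) (nat_lit 5) (nat_lit 3) (nat_lit 4) (nat_lit 1) (nat_lit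 4) (nat_lit 450) (nat_lit 296) (nat_lit 274)) (XT.nd (nat_lit 78) (nat_lit 0) (nat_lit 0) (XT.lf (nat_lit 0) (nat_lit 1797634816658) (nat_lit 152) (nat_lit 366851997766) (nat_lit 0) (nat_lit 1797357896814) (nat_lit 1) (nat_lit 5) (nat_lit 3) (nat_lit 4) (nat_lit 1) (nat_lit 4) (nat_lit 451) (nat_lit 296) (nat_lit 273)) (XT.lf (nat_lit 0) (nat_lit 1942234977007) (nat_lit 152) (nat_lit 394538138068) (nat_lit 0) (nat_lit 1941953846399) (nat_lit 1) (nat_lit 5) (nat_lit 3) (nat_lit 4) (nat_lit 1) (nat_lit 4) (nat_lit 452) (nat_lit 296) (nat_lit 272)))) (XT.nd (nat_lit 78) (nat_lit 0) (nat_lit 0) (XT.lf (nat_lit 0) (nat_lit 2098388219238) (nat_lit 152) (nat_lit 424469577932) (nat_lit 0) (nat_lit 2098103189775) (nat_lit 1) (nat_lit 5) (nat_lit 3) (nat_lit 4) (nat_lit 1) (nat_lit 4) (nat_lit 453) (nat_lit 296) (nat_lit 271)) (XT.nd (nat_lit 78) (nat_lit 0) (nat_lit 0) (XT.lf (nat_lit 0) (nat_lit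 2267019895898) (nat_lit 152) (nat_lit 456823688855) (nat_lit 0) (nat_lit 2266731256384) (nat_lit 1) (nat_lit 5) (nat_lit 3) (nat_lit 4) (nat_lit 1) (nat_lit 4) (nat_lit 454) (nat_lit 296) (nat_lit 270)) (XT.lf (nat_lit 0) (nat_lit 2449129305811) (nat_lit 152) (nat_lit 491792198901) (nat_lit 0) (nat_lit 2448837323658) (nat_lit 1) (nat_lit 5) (nat_lit 3) (nat_lit 4) (nat_lit 1) (nat_lit 4) (nat_lit 455) (nat_lit 296) (nat_lit 269))))))))
noncomputable def xc9 : XT := (XT.nd (nat_lit 51558) (nat_lit 0) (nat_lit 0) (XT.nd (nat_lit 50778) (nat_lit 0) (nat_lit 0) (XT.nd (nat_lit 390) (nat_lit 0) (nat_lit 0) (XT.nd (nat_lit 156) (nat_lit 0) (nat_lit 0) (XT.nd (nat_lit 78) (nat_lit 0) (nat_lit 0) (XT.lf (nat_lit 0) (nat_lit 2645795615852) (nat_lit 152) (nat_lit 529582328870) (nat_lit 0) (nat_lit 2645500538662) (nat_lit 1) (nat_lit 5) (nat_lit 3) (nat_lit 4) (nat_lit 1) (nat_lit 4) (nat_lit 456)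 (nat_lit 296) (nat_lit 268)) (XT.lf (nat_lit 0) (nat_lit 2858184256006) (nat_lit 152) (nat_lit 570418020275) (nat_lit 0) (nat_lit 2857886313041) (nat_lit 1) (nat_lit 5) (nat_lit 3) (nat_lit 4) (nat_lit 1) (nat_lit 4) (nat_lit 457) (nat_lit 296) (nat_lit 267))) (XT.nd (nat_lit 78) (nat_lit 0) (nat_lit 0) (XT.lf (nat_lit 0) (nat_lit 3087553825622) (nat_lit 152) (nat_lit 614541262396) (nat_lit 0) (nat_lit 3087253229161) (nat_lit 1) (nat_lit 5) (nat_lit 3) (nat_lit 4) (nat_lit 1) (nat_lit 4) (nat_lit 458) (nat_lit 296) (nat_lit 266)) (XT.nd (nat_lit 78) (nat_lit 0) (nat_lit 0) (XT.lf (nat_lit 0) (nat_lit 3335263551778) (nat_lit 152) (nat_lit 662213526298) (nat_lit 0) (nat_lit 3334960498378) (nat_lit 1) (nat_lit 5) (nat_lit 3) (nat_lit 4) (nat_lit 1) (nat_lit 4) (nat_lit 459) (nat_lit 296) (nat_lit 265)) (XT.lf (nat_lit 0) (nat_lit 3602781343964) (nat_lit 152) (nat_lit 713717314287) (nat_lit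 0) (nat_lit 3602476015619) (nat_lit 1) (nat_lit 5) (nat_lit 3) (nat_lit 4) (nat_lit 1) (nat_lit 4) (nat_lit 460) (nat_lit 296) (nat_lit 264))))) (XT.nd (nat_lit 156) (nat_lit 0) (nat_lit 0) (XT.nd (nat_lit 78) (nat_lit 0) (nat_lit 0) (XT.lf (nat_lit 0) (nat_lit 3891692492800) (nat_lit 152) (nat_lit 769357833994) (nat_lit 0) (nat_lit 3891385058024) (nat_lit 1) (nat_lit 5) (nat_lit 3) (nat_lit 4) (nat_lit 1) (nat_lit 4) (nat_lit 461) (nat_lit 296) (nat_lit 263)) (XT.lf (nat_lit 0) (nat_lit 4203709064352) (nat_lit 152) (nat_lit 829464807017) (nat_lit 0) (nat_lit 4203399679179) (nat_lit 1) (nat_lit 5) (nat_lit 3) (nat_lit 4) (nat_lit 1) (nat_lit 4) (nat_lit 462) (nat_lit 296) (nat_lit 262))) (XT.nd (nat_lit 78) (nat_lit 0) (nat_lit 0) (XT.lf (nat_lit 0) (nat_lit 4540680045712) (nat_lit 152) (nat_lit 894394422827) (nat_lit 0) (nat_lit 4540368854614) (nat_lit 1) (nat_lit 5) (nat_lit 3) (nat_lit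 4) (nat_lit 1) (nat_lit 4) (nat_lit 463) (nat_lit 296) (nat_lit 261)) (XT.nd (nat_lit 78) (nat_lit 0) (nat_lit 0) (XT.lf (nat_lit 0) (nat_lit 4904602301954) (nat_lit 152) (nat_lit 964531449518) (nat_lit 0) (nat_lit 4904289438705) (nat_lit 1) (nat_lit 5) (nat_lit 3) (nat_lit 4) (nat_lit 1) (nat_lit 4) (nat_lit 464) (nat_lit 296) (nat_lit 260)) (XT.lf (nat_lit 0) (nat_lit 5297632409412) (nat_lit 152) (nat_lit 1040291513913) (nat_lit 0) (nat_lit 5297317997874) (nat_lit 1) (nat_lit 5) (nat_lit 3) (nat_lit 4) (nat_lit 1) (nat_lit 4) (nat_lit 465) (nat_lit 296) (nat_lit 259)))))) (XT.nd (nat_lit 390) (nat_lit 0) (nat_lit 0) (XT.nd (nat_lit 156) (nat_lit 0) (nat_lit 0) (XT.nd (nat_lit 78) (nat_lit 0) (nat_lit 0) (XT.lf (nat_lit 0) (nat_lit 123759757784) (nat_lit 152) (nat_lit 42342159744) (nat_lit 0) (nat_lit 123759757784) (nat_lit 1) (nat_lit 5) (nat_lit 3) (nat_lit 4) (nat_lit 1) (nat_lit 4)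 (nat_lit 426) (nat_lit 297) (nat_lit 297)) (XT.lf (nat_lit 0) (nat_lit 269234086257) (nat_lit 152) (nat_lit 87504303105) (nat_lit 0) (nat_lit 269207385045) (nat_lit 1) (nat_lit 5) (nat_lit 3) (nat_lit 4) (nat_lit 1) (nat_lit 4) (nat_lit 427) (nat_lit 297) (nat_lit 296))) (XT.nd (nat_lit 78) (nat_lit 0) (nat_lit 0) (XT.lf (nat_lit 0) (nat_lit 292591142778) (nat_lit 152) (nat_lit 90742710185) (nat_lit 0) (nat_lit 292539718221) (nat_lit 1) (nat_lit 5) (nat_lit 3) (nat_lit 4) (nat_lit 1) (nat_lit 4) (nat_lit 428) (nat_lit 297) (nat_lit 295)) (XT.nd (nat_lit 78) (nat_lit 0) (nat_lit 0) (XT.lf (nat_lit 0) (nat_lit 317729097317) (nat_lit 152) (nat_lit 94418731288) (nat_lit 0) (nat_lit 317654780775) (nat_lit 1) (nat_lit 5) (nat_lit 3) (nat_lit 4) (nat_lit 1) (nat_lit 4) (nat_lit 429) (nat_lit 297) (nat_lit 294)) (XT.lf (nat_lit 0) (nat_lit 344796915533) (nat_lit 152) (nat_lit 98554150243) (nat_lit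 0) (nat_lit 344701402707) (nat_lit 1) (nat_lit 5) (nat_lit 3) (nat_lit 4) (nat_lit 1) (nat_lit 4) (nat_lit 430) (nat_lit 297) (nat_lit 293))))) (XT.nd (nat_lit 156) (nat_lit 0) (nat_lit 0) (XT.nd (nat_lit 78) (nat_lit 0) (nat_lit 0) (XT.lf (nat_lit 0) (nat_lit 373954999309) (nat_lit 152) (nat_lit 103173473237) (nat_lit 0) (nat_lit 373839860296) (nat_lit 1) (nat_lit 5) (nat_lit 3) (nat_lit 4) (nat_lit 1) (nat_lit 4) (nat_lit 431) (nat_lit 297) (nat_lit 292)) (XT.lf (nat_lit 0) (nat_lit 405376137291) (nat_lit 152) (nat_lit 108304074036) (nat_lit 0) (nat_lit 405242825882) (nat_lit 1) (nat_lit 5) (nat_lit 3) (nat_lit 4) (nat_lit 1) (nat_lit 4) (nat_lit 432) (nat_lit 297) (nat_lit 291))) (XT.nd (nat_lit 78) (nat_lit 0) (nat_lit 0) (XT.lf (nat_lit 0) (nat_lit 439246528815) (nat_lit 152) (nat_lit 113976356199) (nat_lit 0) (nat_lit 439096391113) (nat_lit 1) (nat_lit 5) (nat_lit 3) (nat_lit 4)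 (nat_lit 1) (nat_lit 4) (nat_lit 433) (nat_lit 297) (nat_lit 290)) (XT.nd (nat_lit 78) (nat_lit 0) (nat_lit 0) (XT.lf (nat_lit 0) (nat_lit 475766887313) (nat_lit 152) (nat_lit 120223933251) (nat_lit 0) (nat_lit 475601169710) (nat_lit 1) (nat_lit 5) (nat_lit 3) (nat_lit 4) (nat_lit 1) (nat_lit 4) (nat_lit 434) (nat_lit 297) (nat_lit 289)) (XT.lf (nat_lit 0) (nat_lit 515153629723) (nat_lit 152) (nat_lit 127083827870) (nat_lit 0) (nat_lit 514973486286) (nat_lit 1) (nat_lit 5) (nat_lit 3) (nat_lit 4) (nat_lit 1) (nat_lit 4) (nat_lit 435) (nat_lit 297) (nat_lit 288))))))) (XT.nd (nat_lit 780) (nat_lit 0) (nat_lit 0) (XT.nd (nat_lit 390) (nat_lit 0) (nat_lit 0) (XT.nd (nat_lit 156) (nat_lit 0) (nat_lit 0) (XT.nd (nat_lit 78) (nat_lit 0) (nat_lit 0) (XT.lf (nat_lit 0) (nat_lit 557640158964) (nat_lit 152) (nat_lit 134596691285) (nat_lit 0) (nat_lit 557446658273) (nat_lit 1) (nat_lit 5) (nat_lit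 3) (nat_lit 4) (nat_lit 1) (nat_lit 4) (nat_lit 436) (nat_lit 297) (nat_lit 287)) (XT.lf (nat_lit 0) (nat_lit 603478247060) (nat_lit 152) (nat_lit 142807044166) (nat_lit 0) (nat_lit 603272378541) (nat_lit 1) (nat_lit 5) (nat_lit 3) (nat_lit 4) (nat_lit 1) (nat_lit 4) (nat_lit 437) (nat_lit 297) (nat_lit 286))) (XT.nd (nat_lit 78) (nat_lit 0) (nat_lit 0) (XT.lf (nat_lit 0) (nat_lit 652939527126) (nat_lit 152) (nat_lit 151763540457) (nat_lit 0) (nat_lit 652722206916) (nat_lit 1) (nat_lit 5) (nat_lit 3) (nat_lit 4) (nat_lit 1) (nat_lit 4) (nat_lit 438) (nat_lit 297) (nat_lit 285)) (XT.nd (nat_lit 78) (nat_lit 0) (nat_lit 0) (XT.lf (nat_lit 0) (nat_lit 706317103045) (nat_lit 152) (nat_lit 161519255691) (nat_lit 0) (nat_lit 706089179416) (nat_lit 1) (nat_lit 5) (nat_lit 3) (nat_lit 4) (nat_lit 1) (nat_lit 4) (nat_lit 439) (nat_lit 297) (nat_lit 284)) (XT.lf (nat_lit 0) (nat_lit 763927286377)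 (nat_lit 152) (nat_lit 172132001515) (nat_lit 0) (nat_lit 763689544767) (nat_lit 1) (nat_lit 5) (nat_lit 3) (nat_lit 4) (nat_lit 1) (nat_lit 4) (nat_lit 440) (nat_lit 297) (nat_lit 283))))) (XT.nd (nat_lit 156) (nat_lit 0) (nat_lit 0) (XT.nd (nat_lit 78) (nat_lit 0) (nat_lit 0) (XT.lf (nat_lit 0) (nat_lit 826111470801) (nat_lit 152) (nat_lit 183664668274) (nat_lit 0) (nat_lit 825864638469) (nat_lit 1) (nat_lit 5) (nat_lit 3) (nat_lit 4) (nat_lit 1) (nat_lit 4) (nat_lit 441) (nat_lit 297) (nat_lit 282)) (XT.lf (nat_lit 0) (nat_lit 893238155188) (nat_lit 152) (nat_lit 196185597697) (nat_lit 0) (nat_lit 892982905520) (nat_lit 1) (nat_lit 5) (nat_lit 3) (nat_lit 4) (nat_lit 1) (nat_lit 4) (nat_lit 442) (nat_lit 297) (nat_lit 281))) (XT.nd (nat_lit 78) (nat_lit 0) (nat_lit 0) (XT.lf (nat_lit 0) (nat_lit 965705127297) (nat_lit 152) (nat_lit 209768987884) (nat_lit 0) (nat_lit 965442083800) (nat_lit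 1) (nat_lit 5) (nat_lit 3) (nat_lit 4) (nat_lit 1) (nat_lit 4) (nat_lit 443) (nat_lit 297) (nat_lit 280)) (XT.nd (nat_lit 78) (nat_lit 0) (nat_lit 0) (XT.lf (nat_lit 0) (nat_lit 1043941821037) (nat_lit 152) (nat_lit 224495332999) (nat_lit 0) (nat_lit 1043671561031) (nat_lit 1) (nat_lit 5) (nat_lit 3) (nat_lit 4) (nat_lit 1) (nat_lit 4) (nat_lit 444) (nat_lit 297) (nat_lit 279)) (XT.lf (nat_lit 0) (nat_lit 1128411861259) (nat_lit 152) (nat_lit 240451900273) (nat_lit 0) (nat_lit 1128134919301) (nat_lit 1) (nat_lit 5) (nat_lit 3) (nat_lit 4) (nat_lit 1) (nat_lit 4) (nat_lit 445) (nat_lit 297) (nat_lit 278)))))) (XT.nd (nat_lit 390) (nat_lit 0) (nat_lit 0) (XT.nd (nat_lit 156) (nat_lit 0) (nat_lit 0) (XT.nd (nat_lit 78) (nat_lit 0) (nat_lit 0) (XT.lf (nat_lit 0) (nat_lit 1219615811166) (nat_lit 152) (nat_lit 257733247141) (nat_lit 0) (nat_lit 1219332682215) (nat_lit 1) (nat_lit 5) (nat_lit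 3) (nat_lit 4) (nat_lit 1) (nat_lit 4) (nat_lit 446) (nat_lit 297) (nat_lit 277)) (XT.lf (nat_lit 0) (nat_lit 1318094138608) (nat_lit 152) (nat_lit 276441781585) (nat_lit 0) (nat_lit 1317805280960) (nat_lit 1) (nat_lit 5) (nat_lit 3) (nat_lit 4) (nat_lit 1) (nat_lit 4) (nat_lit 447) (nat_lit 297) (nat_lit 276))) (XT.nd (nat_lit 78) (nat_lit 0) (nat_lit 0) (XT.lf (nat_lit 0) (nat_lit 1424430418859) (nat_lit 152) (nat_lit 296688368994) (nat_lit 0) (nat_lit 1424136256862) (nat_lit 1) (nat_lit 5) (nat_lit 3) (nat_lit 4) (nat_lit 1) (nat_lit 4) (nat_lit 448) (nat_lit 297) (nat_lit 275)) (XT.nd (nat_lit 78) (nat_lit 0) (nat_lit 0) (XT.lf (nat_lit 0) (nat_lit 1539254792840) (nat_lit 152) (nat_lit 318592989145) (nat_lit 0) (nat_lit 1538955719408) (nat_lit 1) (nat_lit 5) (nat_lit 3) (nat_lit 4) (nat_lit 1) (nat_lit 4) (nat_lit 449) (nat_lit 297) (nat_lit 274)) (XT.lf (nat_lit 0) (nat_lit 1663247701284)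 (nat_lit 152) (nat_lit 342285447195) (nat_lit 0) (nat_lit 1662944080227) (nat_lit 1) (nat_lit 5) (nat_lit 3) (nat_lit 4) (nat_lit 1) (nat_lit 4) (nat_lit 450) (nat_lit 297) (nat_lit 273))))) (XT.nd (nat_lit 234) (nat_lit 0) (nat_lit 0) (XT.nd (nat_lit 78) (nat_lit 0) (nat_lit 0) (XT.lf (nat_lit 0) (nat_lit 1797143916982) (nat_lit 152) (nat_lit 367906142894) (nat_lit 0) (nat_lit 1796836085162) (nat_lit 1) (nat_lit 5) (nat_lit 3) (nat_lit 4) (nat_lit 1) (nat_lit 4) (nat_lit 451) (nat_lit 297) (nat_lit 272)) (XT.nd (nat_lit 78) (nat_lit 0) (nat_lit 0) (XT.lf (nat_lit 0) (nat_lit 1941736898992) (nat_lit 152) (nat_lit 395606902589) (nat_lit 0) (nat_lit 1941425168317) (nat_lit 1) (nat_lit 5) (nat_lit 3) (nat_lit 4) (nat_lit 1) (nat_lit 4) (nat_lit 452) (nat_lit 297) (nat_lit 271)) (XT.lf (nat_lit 0) (nat_lit 2097883494612) (nat_lit 152) (nat_lit 425551878929) (nat_lit 0) (nat_lit 2097568153886)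 (nat_lit 1) (nat_lit 5) (nat_lit 3) (nat_lit 4) (nat_lit 1) (nat_lit 4) (nat_lit 453) (nat_lit 297) (nat_lit 270)))) (XT.nd (nat_lit 78) (nat_lit 0) (nat_lit 0) (XT.lf (nat_lit 0) (nat_lit 2266509017003) (nat_lit 152) (nat_lit 457918523626) (nat_lit 0) (nat_lit 2266190333638) (nat_lit 1) (nat_lit 5) (nat_lit 3) (nat_lit 4) (nat_lit 1) (nat_lit 4) (nat_lit 454) (nat_lit 297) (nat_lit 269)) (XT.nd (nat_lit 78) (nat_lit 0) (nat_lit 0) (XT.lf (nat_lit 0) (nat_lit 2448612728520) (nat_lit 152) (nat_lit 492898639018) (nat_lit 0) (nat_lit 2448290950118) (nat_lit 1) (nat_lit 5) (nat_lit 3) (nat_lit 4) (nat_lit 1) (nat_lit 4) (nat_lit 455) (nat_lit 297) (nat_lit 268)) (XT.lf (nat_lit 0) (nat_lit 2645273762268) (nat_lit 152) (nat_lit 530699514679) (nat_lit 0) (nat_lit 2644949118090) (nat_lit 1) (nat_lit 5) (nat_lit 3) (nat_lit 4) (nat_lit 1) (nat_lit 4) (nat_lit 456) (nat_lit 297) (nat_lit 267))))))))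
noncomputable def xc10 : XT := (XT.nd (nat_lit 51402) (nat_lit 0) (nat_lit 0) (XT.nd (nat_lit 50622) (nat_lit 0) (nat_lit 0) (XT.nd (nat_lit 390) (nat_lit 0) (nat_lit 0) (XT.nd (nat_lit 156) (nat_lit 0) (nat_lit 0) (XT.nd (nat_lit 78) (nat_lit 0) (nat_lit 0) (XT.lf (nat_lit 0) (nat_lit 2857657516964) (nat_lit 152) (nat_lit 571545155797) (nat_lit 0) (nat_lit 2857330219292) (nat_lit 1) (nat_lit 5) (nat_lit 3) (nat_lit 4) (nat_lit 1) (nat_lit 4) (nat_lit 457) (nat_lit 297) (nat_lit 266)) (XT.lf (nat_lit 0) (nat_lit 3087022563009) (nat_lit 152) (nat_lit 615677610616) (nat_lit 0) (nat_lit 3086692808396) (nat_lit 1) (nat_lit 5) (nat_lit 3) (nat_lit 4) (nat_lit 1) (nat_lit 4) (nat_lit 458) (nat_lit 297) (nat_lit 265))) (XT.nd (nat_lit 78) (nat_lit 0) (nat_lit 0) (XT.lf (nat_lit 0) (nat_lit 3334728100673) (nat_lit 152) (nat_lit 663358404794) (nat_lit 0) (nat_lit 3334396071116) (nat_lit 1) (nat_lit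 5) (nat_lit 3) (nat_lit 4) (nat_lit 1) (nat_lit 4) (nat_lit 459) (nat_lit 297) (nat_lit 264)) (XT.nd (nat_lit 78) (nat_lit 0) (nat_lit 0) (XT.lf (nat_lit 0) (nat_lit 3602242014626) (nat_lit 152) (nat_lit 714870091186) (nat_lit 0) (nat_lit 3601907878639) (nat_lit 1) (nat_lit 5) (nat_lit 3) (nat_lit 4) (nat_lit 1) (nat_lit 4) (nat_lit 460) (nat_lit 297) (nat_lit 263)) (XT.lf (nat_lit 0) (nat_lit 3891149572505) (nat_lit 152) (nat_lit 770517924229) (nat_lit 0) (nat_lit 3890813486119) (nat_lit 1) (nat_lit 5) (nat_lit 3) (nat_lit 4) (nat_lit 1) (nat_lit 4) (nat_lit 461) (nat_lit 297) (nat_lit 262))))) (XT.nd (nat_lit 156) (nat_lit 0) (nat_lit 0) (XT.nd (nat_lit 78) (nat_lit 0) (nat_lit 0) (XT.lf (nat_lit 0) (nat_lit 4203162819097) (nat_lit 152) (nat_lit 830631668861) (nat_lit 0) (nat_lit 4202824926788) (nat_lit 1) (nat_lit 5) (nat_lit 3) (nat_lit 4) (nat_lit 1) (nat_lit 4) (nat_lit 462) (nat_lit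 297) (nat_lit 261)) (XT.lf (nat_lit 0) (nat_lit 4540130721791) (nat_lit 152) (nat_lit 895567554679) (nat_lit 0) (nat_lit 4539791157329) (nat_lit 1) (nat_lit 5) (nat_lit 3) (nat_lit 4) (nat_lit 1) (nat_lit 4) (nat_lit 463) (nat_lit 297) (nat_lit 260))) (XT.nd (nat_lit 78) (nat_lit 0) (nat_lit 0) (XT.lf (nat_lit 0) (nat_lit 4904050127416) (nat_lit 152) (nat_lit 965710386931) (nat_lit 0) (nat_lit 4903709014665) (nat_lit 1) (nat_lit 5) (nat_lit 3) (nat_lit 4) (nat_lit 1) (nat_lit 4) (nat_lit 464) (nat_lit 297) (nat_lit 259)) (XT.nd (nat_lit 49920) (nat_lit 0) (nat_lit 0) (XT.lf (nat_lit 0) (nat_lit 5297077595413) (nat_lit 152) (nat_lit 1041475826847) (nat_lit 0) (nat_lit 5296735049062) (nat_lit 1) (nat_lit 5) (nat_lit 3) (nat_lit 4) (nat_lit 1) (nat_lit 4) (nat_lit 465) (nat_lit 297) (nat_lit 258)) (XT.lf (nat_lit 0) (nat_lit 104297008743) (nat_lit 152) (nat_lit 40063514452) (nat_lit 0) (nat_lit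 104297008743) (nat_lit 1) (nat_lit 5) (nat_lit 3) (nat_lit 4) (nat_lit 1) (nat_lit 4) (nat_lit 424) (nat_lit 298) (nat_lit 298)))))) (XT.nd (nat_lit 390) (nat_lit 0) (nat_lit 0) (XT.nd (nat_lit 156) (nat_lit 0) (nat_lit 0) (XT.nd (nat_lit 78) (nat_lit 0) (nat_lit 0) (XT.lf (nat_lit 0) (nat_lit 227347589084) (nat_lit 152) (nat_lit 82266048319) (nat_lit 0) (nat_lit 227318751775) (nat_lit 1) (nat_lit 5) (nat_lit 3) (nat_lit 4) (nat_lit 1) (nat_lit 4) (nat_lit 425) (nat_lit 298) (nat_lit 297)) (XT.lf (nat_lit 0) (nat_lit 247499192200) (nat_lit 152) (nat_lit 84784440043) (nat_lit 0) (nat_lit 247443653679) (nat_lit 1) (nat_lit 5) (nat_lit 3) (nat_lit 4) (nat_lit 1) (nat_lit 4) (nat_lit 426) (nat_lit 298) (nat_lit 296))) (XT.nd (nat_lit 78) (nat_lit 0) (nat_lit 0) (XT.lf (nat_lit 0) (nat_lit 269168243743) (nat_lit 152) (nat_lit 87697127878) (nat_lit 0) (nat_lit 269087981878) (nat_lit 1) (nat_lit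 5) (nat_lit 3) (nat_lit 4) (nat_lit 1) (nat_lit 4) (nat_lit 427) (nat_lit 298) (nat_lit 295)) (XT.nd (nat_lit 78) (nat_lit 0) (nat_lit 0) (XT.lf (nat_lit 0) (nat_lit 292483152907) (nat_lit 152) (nat_lit 91021372197) (nat_lit 0) (nat_lit 292379999056) (nat_lit 1) (nat_lit 5) (nat_lit 3) (nat_lit 4) (nat_lit 1) (nat_lit 4) (nat_lit 428) (nat_lit 298) (nat_lit 294)) (XT.lf (nat_lit 0) (nat_lit 317582082116) (nat_lit 152) (nat_lit 94776872225) (nat_lit 0) (nat_lit 317457731982) (nat_lit 1) (nat_lit 5) (nat_lit 3) (nat_lit 4) (nat_lit 1) (nat_lit 4) (nat_lit 429) (nat_lit 298) (nat_lit 293))))) (XT.nd (nat_lit 156) (nat_lit 0) (nat_lit 0) (XT.nd (nat_lit 78) (nat_lit 0) (nat_lit 0) (XT.lf (nat_lit 0) (nat_lit 344613765766) (nat_lit 152) (nat_lit 98985882778) (nat_lit 0) (nat_lit 344469789443) (nat_lit 1) (nat_lit 5) (nat_lit 3) (nat_lit 4) (nat_lit 1) (nat_lit 4) (nat_lit 430) (nat_lit 298)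 (nat_lit 292)) (XT.lf (nat_lit 0) (nat_lit 373738391611) (nat_lit 152) (nat_lit 103673346140) (nat_lit 0) (nat_lit 373576242893) (nat_lit 1) (nat_lit 5) (nat_lit 3) (nat_lit 4) (nat_lit 1) (nat_lit 4) (nat_lit 431) (nat_lit 298) (nat_lit 291))) (XT.nd (nat_lit 78) (nat_lit 0) (nat_lit 0) (XT.lf (nat_lit 0) (nat_lit 405128550028) (nat_lit 152) (nat_lit 108867039871) (nat_lit 0) (nat_lit 404949575016) (nat_lit 1) (nat_lit 5) (nat_lit 3) (nat_lit 4) (nat_lit 1) (nat_lit 4) (nat_lit 432) (nat_lit 298) (nat_lit 290)) (XT.nd (nat_lit 78) (nat_lit 0) (nat_lit 0) (XT.lf (nat_lit 0) (nat_lit 438970256769) (nat_lit 152) (nat_lit 114597741417) (nat_lit 0) (nat_lit 438775701857) (nat_lit 1) (nat_lit 5) (nat_lit 3) (nat_lit 4) (nat_lit 1) (nat_lit 4) (nat_lit 433) (nat_lit 298) (nat_lit 289)) (XT.lf (nat_lit 0) (nat_lit 475464055282) (nat_lit 152) (nat_lit 120899410490) (nat_lit 0) (nat_lit 475255074536)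 (nat_lit 1) (nat_lit 5) (nat_lit 3) (nat_lit 4) (nat_lit 1) (nat_lit 4) (nat_lit 434) (nat_lit 298) (nat_lit 288))))))) (XT.nd (nat_lit 780) (nat_lit 0) (nat_lit 0) (XT.nd (nat_lit 390) (nat_lit 0) (nat_lit 0) (XT.nd (nat_lit 156) (nat_lit 0) (nat_lit 0) (XT.nd (nat_lit 78) (nat_lit 0) (nat_lit 0) (XT.lf (nat_lit 0) (nat_lit 514826205114) (nat_lit 152) (nat_lit 127809390314) (nat_lit 0) (nat_lit 514603867114) (nat_lit 1) (nat_lit 5) (nat_lit 3) (nat_lit 4) (nat_lit 1) (nat_lit 4) (nat_lit 435) (nat_lit 298) (nat_lit 287)) (XT.lf (nat_lit 0) (nat_lit 557289963449) (nat_lit 152) (nat_lit 135368628917) (nat_lit 0) (nat_lit 557055257622) (nat_lit 1) (nat_lit 5) (nat_lit 3) (nat_lit 4) (nat_lit 1) (nat_lit 4) (nat_lit 436) (nat_lit 298) (nat_lit 286))) (XT.nd (nat_lit 78) (nat_lit 0) (nat_lit 0) (XT.lf (nat_lit 0) (nat_lit 603106967374) (nat_lit 152) (nat_lit 143621921788) (nat_lit 0) (nat_lit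 602860809854) (nat_lit 1) (nat_lit 5) (nat_lit 3) (nat_lit 4) (nat_lit 1) (nat_lit 4) (nat_lit 437) (nat_lit 298) (nat_lit 285)) (XT.nd (nat_lit 78) (nat_lit 0) (nat_lit 0) (XT.lf (nat_lit 0) (nat_lit 652548725059) (nat_lit 152) (nat_lit 152618177329) (nat_lit 0) (nat_lit 652291964120) (nat_lit 1) (nat_lit 5) (nat_lit 3) (nat_lit 4) (nat_lit 1) (nat_lit 4) (nat_lit 438) (nat_lit 298) (nat_lit 284)) (XT.lf (nat_lit 0) (nat_lit 705908224699) (nat_lit 152) (nat_lit 162410706685) (nat_lit 0) (nat_lit 705641645780) (nat_lit 1) (nat_lit 5) (nat_lit 3) (nat_lit 4) (nat_lit 1) (nat_lit 4) (nat_lit 439) (nat_lit 298) (nat_lit 283))))) (XT.nd (nat_lit 156) (nat_lit 0) (nat_lit 0) (XT.nd (nat_lit 78) (nat_lit 0) (nat_lit 0) (XT.lf (nat_lit 0) (nat_lit 763501670735) (nat_lit 152) (nat_lit 173057539657) (nat_lit 0) (nat_lit 763226001094) (nat_lit 1) (nat_lit 5) (nat_lit 3) (nat_lit 4) (nat_lit 1) (nat_lit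 4) (nat_lit 440) (nat_lit 298) (nat_lit 282)) (XT.lf (nat_lit 0) (nat_lit 825670357663) (nat_lit 152) (nat_lit 184621768590) (nat_lit 0) (nat_lit 825386270686) (nat_lit 1) (nat_lit 5) (nat_lit 3) (nat_lit 4) (nat_lit 1) (nat_lit 4) (nat_lit 441) (nat_lit 298) (nat_lit 281))) (XT.nd (nat_lit 78) (nat_lit 0) (nat_lit 0) (XT.lf (nat_lit 0) (nat_lit 892782692517) (nat_lit 152) (nat_lit 197171922249) (nat_lit 0) (nat_lit 892490811711) (nat_lit 1) (nat_lit 5) (nat_lit 3) (nat_lit 4) (nat_lit 1) (nat_lit 4) (nat_lit 442) (nat_lit 298) (nat_lit 280)) (XT.nd (nat_lit 78) (nat_lit 0) (nat_lit 0) (XT.lf (nat_lit 0) (nat_lit 965236378021) (nat_lit 152) (nat_lit 210782371914) (nat_lit 0) (nat_lit 964937280707) (nat_lit 1) (nat_lit 5) (nat_lit 3) (nat_lit 4) (nat_lit 1) (nat_lit 4) (nat_lit 443) (nat_lit 298) (nat_lit 279)) (XT.lf (nat_lit 0) (nat_lit 1043460769350) (nat_lit 152) (nat_lit 225533772101)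 (nat_lit 0) (nat_lit 1043154990082) (nat_lit 1) (nat_lit 5) (nat_lit 3) (nat_lit 4) (nat_lit 1) (nat_lit 4) (nat_lit 444) (nat_lit 298) (nat_lit 278)))))) (XT.nd (nat_lit 390) (nat_lit 0) (nat_lit 0) (XT.nd (nat_lit 156) (nat_lit 0) (nat_lit 0) (XT.nd (nat_lit 78) (nat_lit 0) (nat_lit 0) (XT.lf (nat_lit 0) (nat_lit 1127919418450) (nat_lit 152) (nat_lit 241513538515) (nat_lit 0) (nat_lit 1127607452190) (nat_lit 1) (nat_lit 5) (nat_lit 3) (nat_lit 4) (nat_lit 1) (nat_lit 4) (nat_lit 445) (nat_lit 298) (nat_lit 277)) (XT.lf (nat_lit 0) (nat_lit 1219112821022) (nat_lit 152) (nat_lit 258816366069) (nat_lit 0) (nat_lit 1218795126065) (nat_lit 1) (nat_lit 5) (nat_lit 3) (nat_lit 4) (nat_lit 1) (nat_lit 4) (nat_lit 446) (nat_lit 298) (nat_lit 276))) (XT.nd (nat_lit 78) (nat_lit 0) (nat_lit 0) (XT.lf (nat_lit 0) (nat_lit 1317581382413) (nat_lit 152) (nat_lit 277544790036) (nat_lit 0) (nat_lit 1317258383106)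 (nat_lit 1) (nat_lit 5) (nat_lit 3) (nat_lit 4) (nat_lit 1) (nat_lit 4) (nat_lit 447) (nat_lit 298) (nat_lit 275)) (XT.nd (nat_lit 78) (nat_lit 0) (nat_lit 0) (XT.lf (nat_lit 0) (nat_lit 1423908620024) (nat_lit 152) (nat_lit 297809793671) (nat_lit 0) (nat_lit 1423580709283) (nat_lit 1) (nat_lit 5) (nat_lit 3) (nat_lit 4) (nat_lit 1) (nat_lit 4) (nat_lit 448) (nat_lit 298) (nat_lit 274)) (XT.lf (nat_lit 0) (nat_lit 1538724621190) (nat_lit 152) (nat_lit 319731465883) (nat_lit 0) (nat_lit 1538392162824) (nat_lit 1) (nat_lit 5) (nat_lit 3) (nat_lit 4) (nat_lit 1) (nat_lit 4) (nat_lit 449) (nat_lit 298) (nat_lit 273))))) (XT.nd (nat_lit 234) (nat_lit 0) (nat_lit 0) (XT.nd (nat_lit 78) (nat_lit 0) (nat_lit 0) (XT.lf (nat_lit 0) (nat_lit 1662709777028) (nat_lit 152) (nat_lit 343439712878) (nat_lit 0) (nat_lit 1662373107899) (nat_lit 1) (nat_lit 5) (nat_lit 3) (nat_lit 4) (nat_lit 1) (nat_lit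 4) (nat_lit 450) (nat_lit 298) (nat_lit 272)) (XT.nd (nat_lit 78) (nat_lit 0) (nat_lit 0) (XT.lf (nat_lit 0) (nat_lit 1796598814387) (nat_lit 152) (nat_lit 369075027972) (nat_lit 0) (nat_lit 1796258246403) (nat_lit 1) (nat_lit 5) (nat_lit 3) (nat_lit 4) (nat_lit 1) (nat_lit 4) (nat_lit 451) (nat_lit 298) (nat_lit 271)) (XT.lf (nat_lit 0) (nat_lit 1941185149786) (nat_lit 152) (nat_lit 396789324142) (nat_lit 0) (nat_lit 1940840971751) (nat_lit 1) (nat_lit 5) (nat_lit 3) (nat_lit 4) (nat_lit 1) (nat_lit 4) (nat_lit 452) (nat_lit 298) (nat_lit 270)))) (XT.nd (nat_lit 78) (nat_lit 0) (nat_lit 0) (XT.lf (nat_lit 0) (nat_lit 2097325591138) (nat_lit 152) (nat_lit 426746834256) (nat_lit 0) (nat_lit 2096978070463) (nat_lit 1) (nat_lit 5) (nat_lit 3) (nat_lit 4) (nat_lit 1) (nat_lit 4) (nat_lit 453) (nat_lit 298) (nat_lit 269)) (XT.nd (nat_lit 78) (nat_lit 0) (nat_lit 0) (XT.lf (nat_lit 0) (nat_lit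 2265945415132) (nat_lit 152) (nat_lit 459125084299) (nat_lit 0) (nat_lit 2265594799420) (nat_lit 1) (nat_lit 5) (nat_lit 3) (nat_lit 4) (nat_lit 1) (nat_lit 4) (nat_lit 454) (nat_lit 298) (nat_lit 268)) (XT.lf (nat_lit 0) (nat_lit 2448043850355) (nat_lit 152) (nat_lit 494115945382) (nat_lit 0) (nat_lit 2447690368869) (nat_lit 1) (nat_lit 5) (nat_lit 3) (nat_lit 4) (nat_lit 1) (nat_lit 4) (nat_lit 455) (nat_lit 298) (nat_lit 267))))))))
noncomputable def xc11 : XT := (XT.nd (nat_lit 51324) (nat_lit 0) (nat_lit 0) (XT.nd (nat_lit 50466) (nat_lit 0) (nat_lit 0) (XT.nd (nat_lit 390) (nat_lit 0) (nat_lit 0) (XT.nd (nat_lit 156) (nat_lit 0) (nat_lit 0) (XT.nd (nat_lit 78) (nat_lit 0) (nat_lit 0) (XT.lf (nat_lit 0) (nat_lit 2644699998646) (nat_lit 152) (nat_lit 531926770756) (nat_lit 0) (nat_lit 2644343863664) (nat_lit 1) (nat_lit 5) (nat_lit 3) (nat_lit 4) (nat_lit 1) (nat_lit 4) (nat_lit 456)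 (nat_lit 298) (nat_lit 266)) (XT.lf (nat_lit 0) (nat_lit 2857079229771) (nat_lit 152) (nat_lit 572781624572) (nat_lit 0) (nat_lit 2856720637850) (nat_lit 1) (nat_lit 5) (nat_lit 3) (nat_lit 4) (nat_lit 1) (nat_lit 4) (nat_lit 457) (nat_lit 298) (nat_lit 265))) (XT.nd (nat_lit 78) (nat_lit 0) (nat_lit 0) (XT.lf (nat_lit 0) (nat_lit 3086440087324) (nat_lit 152) (nat_lit 616922609667) (nat_lit 0) (nat_lit 3086079220457) (nat_lit 1) (nat_lit 5) (nat_lit 3) (nat_lit 4) (nat_lit 1) (nat_lit 4) (nat_lit 458) (nat_lit 298) (nat_lit 264)) (XT.nd (nat_lit 78) (nat_lit 0) (nat_lit 0) (XT.lf (nat_lit 0) (nat_lit 3334141746755) (nat_lit 152) (nat_lit 664611302249) (nat_lit 0) (nat_lit 3333778773459) (nat_lit 1) (nat_lit 5) (nat_lit 3) (nat_lit 4) (nat_lit 1) (nat_lit 4) (nat_lit 459) (nat_lit 298) (nat_lit 263)) (XT.lf (nat_lit 0) (nat_lit 3601652069751) (nat_lit 152) (nat_lit 716130301977) (nat_lit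 0) (nat_lit 3601287146056) (nat_lit 1) (nat_lit 5) (nat_lit 3) (nat_lit 4) (nat_lit 1) (nat_lit 4) (nat_lit 460) (nat_lit 298) (nat_lit 262))))) (XT.nd (nat_lit 156) (nat_lit 0) (nat_lit 0) (XT.nd (nat_lit 78) (nat_lit 0) (nat_lit 0) (XT.lf (nat_lit 0) (nat_lit 3890556302670) (nat_lit 152) (nat_lit 771784906629) (nat_lit 0) (nat_lit 3890189573051) (nat_lit 1) (nat_lit 5) (nat_lit 3) (nat_lit 4) (nat_lit 1) (nat_lit 4) (nat_lit 461) (nat_lit 298) (nat_lit 261)) (XT.lf (nat_lit 0) (nat_lit 4202566470596) (nat_lit 152) (nat_lit 831904921268) (nat_lit 0) (nat_lit 4202198068825) (nat_lit 1) (nat_lit 5) (nat_lit 3) (nat_lit 4) (nat_lit 1) (nat_lit 4) (nat_lit 462) (nat_lit 298) (nat_lit 260))) (XT.nd (nat_lit 78) (nat_lit 0) (nat_lit 0) (XT.lf (nat_lit 0) (nat_lit 4539531522672) (nat_lit 152) (nat_lit 896846612648) (nat_lit 0) (nat_lit 4539161572612) (nat_lit 1) (nat_lit 5) (nat_lit 3) (nat_lit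 4) (nat_lit 1) (nat_lit 4) (nat_lit 463) (nat_lit 298) (nat_lit 259)) (XT.nd (nat_lit 78) (nat_lit 0) (nat_lit 0) (XT.lf (nat_lit 0) (nat_lit 4903448288837) (nat_lit 152) (nat_lit 966994820421) (nat_lit 0) (nat_lit 4903076905176) (nat_lit 1) (nat_lit 5) (nat_lit 3) (nat_lit 4) (nat_lit 1) (nat_lit 4) (nat_lit 464) (nat_lit 298) (nat_lit 258)) (XT.lf (nat_lit 0) (nat_lit 5296473312889) (nat_lit 152) (nat_lit 1042765237671) (nat_lit 0) (nat_lit 5296100601820) (nat_lit 1) (nat_lit 5) (nat_lit 3) (nat_lit 4) (nat_lit 1) (nat_lit 4) (nat_lit 465) (nat_lit 298) (nat_lit 257)))))) (XT.nd (nat_lit 390) (nat_lit 0) (nat_lit 0) (XT.nd (nat_lit 156) (nat_lit 0) (nat_lit 0) (XT.nd (nat_lit 78) (nat_lit 0) (nat_lit 0) (XT.lf (nat_lit 0) (nat_lit 87466275561) (nat_lit 152) (nat_lit 38410898359) (nat_lit 0) (nat_lit 87466275561) (nat_lit 1) (nat_lit 5) (nat_lit 3) (nat_lit 4) (nat_lit 1) (nat_lit 4)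 (nat_lit 422) (nat_lit 299) (nat_lit 299)) (XT.lf (nat_lit 0) (nat_lit 191158489426) (nat_lit 152) (nat_lit 78354706127) (nat_lit 0) (nat_lit 191127345132) (nat_lit 1) (nat_lit 5) (nat_lit 3) (nat_lit 4) (nat_lit 1) (nat_lit 4) (nat_lit 423) (nat_lit 299) (nat_lit 298))) (XT.nd (nat_lit 78) (nat_lit 0) (nat_lit 0) (XT.lf (nat_lit 0) (nat_lit 208572068249) (nat_lit 152) (nat_lit 80235159104) (nat_lit 0) (nat_lit 208512086646) (nat_lit 1) (nat_lit 5) (nat_lit 3) (nat_lit 4) (nat_lit 1) (nat_lit 4) (nat_lit 424) (nat_lit 299) (nat_lit 297)) (XT.nd (nat_lit 78) (nat_lit 0) (nat_lit 0) (XT.lf (nat_lit 0) (nat_lit 227276479169) (nat_lit 152) (nat_lit 82474299075) (nat_lit 0) (nat_lit 227189796354) (nat_lit 1) (nat_lit 5) (nat_lit 3) (nat_lit 4) (nat_lit 1) (nat_lit 4) (nat_lit 425) (nat_lit 299) (nat_lit 296)) (XT.lf (nat_lit 0) (nat_lit 247382563140) (nat_lit 152) (nat_lit 85085395017) (nat_lit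 0) (nat_lit 247271156980) (nat_lit 1) (nat_lit 5) (nat_lit 3) (nat_lit 4) (nat_lit 1) (nat_lit 4) (nat_lit 426) (nat_lit 299) (nat_lit 295))))) (XT.nd (nat_lit 234) (nat_lit 0) (nat_lit 0) (XT.nd (nat_lit 78) (nat_lit 0) (nat_lit 0) (XT.lf (nat_lit 0) (nat_lit 269009467326) (nat_lit 152) (nat_lit 88083920091) (nat_lit 0) (nat_lit 268875169181) (nat_lit 1) (nat_lit 5) (nat_lit 3) (nat_lit 4) (nat_lit 1) (nat_lit 4) (nat_lit 427) (nat_lit 299) (nat_lit 294)) (XT.nd (nat_lit 78) (nat_lit 0) (nat_lit 0) (XT.lf (nat_lit 0) (nat_lit 292285351159) (nat_lit 152) (nat_lit 91487643334) (nat_lit 0) (nat_lit 292129856731) (nat_lit 1) (nat_lit 5) (nat_lit 3) (nat_lit 4) (nat_lit 1) (nat_lit 4) (nat_lit 428) (nat_lit 299) (nat_lit 293)) (XT.lf (nat_lit 0) (nat_lit 317348145802) (nat_lit 152) (nat_lit 95316734960) (nat_lit 0) (nat_lit 317173025186) (nat_lit 1) (nat_lit 5) (nat_lit 3) (nat_lit 4) (nat_lit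 1) (nat_lit 4) (nat_lit 429) (nat_lit 299) (nat_lit 292)))) (XT.nd (nat_lit 78) (nat_lit 0) (nat_lit 0) (XT.lf (nat_lit 0) (nat_lit 344346371521) (nat_lit 152) (nat_lit 99593885880) (nat_lit 0) (nat_lit 344153078509) (nat_lit 1) (nat_lit 5) (nat_lit 3) (nat_lit 4) (nat_lit 1) (nat_lit 4) (nat_lit 430) (nat_lit 299) (nat_lit 291)) (XT.nd (nat_lit 78) (nat_lit 0) (nat_lit 0) (XT.lf (nat_lit 0) (nat_lit 373440017801) (nat_lit 152) (nat_lit 104344442175) (nat_lit 0) (nat_lit 373229898496) (nat_lit 1) (nat_lit 5) (nat_lit 3) (nat_lit 4) (nat_lit 1) (nat_lit 4) (nat_lit 431) (nat_lit 299) (nat_lit 290)) (XT.lf (nat_lit 0) (nat_lit 404801491435) (nat_lit 152) (nat_lit 109596555289) (nat_lit 0) (nat_lit 404575792229) (nat_lit 1) (nat_lit 5) (nat_lit 3) (nat_lit 4) (nat_lit 1) (nat_lit 4) (nat_lit 432) (nat_lit 299) (nat_lit 289))))))) (XT.nd (nat_lit 780) (nat_lit 0) (nat_lit 0) (XT.nd (nat_lit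 390) (nat_lit 0) (nat_lit 0) (XT.nd (nat_lit 156) (nat_lit 0) (nat_lit 0) (XT.nd (nat_lit 78) (nat_lit 0) (nat_lit 0) (XT.lf (nat_lit 0) (nat_lit 438616638192) (nat_lit 152) (nat_lit 115381348856) (nat_lit 0) (nat_lit 438376513152) (nat_lit 1) (nat_lit 5) (nat_lit 3) (nat_lit 4) (nat_lit 1) (nat_lit 4) (nat_lit 433) (nat_lit 299) (nat_lit 288)) (XT.lf (nat_lit 0) (nat_lit 475085844127) (nat_lit 152) (nat_lit 121733103133) (nat_lit 0) (nat_lit 474832361833) (nat_lit 1) (nat_lit 5) (nat_lit 3) (nat_lit 4) (nat_lit 1) (nat_lit 4) (nat_lit 434) (nat_lit 299) (nat_lit 287))) (XT.nd (nat_lit 78) (nat_lit 0) (nat_lit 0) (XT.lf (nat_lit 0) (nat_lit 514425223053) (nat_lit 152) (nat_lit 128689458146) (nat_lit 0) (nat_lit 514159372932) (nat_lit 1) (nat_lit 5) (nat_lit 3) (nat_lit 4) (nat_lit 1) (nat_lit 4) (nat_lit 435) (nat_lit 299) (nat_lit 286)) (XT.nd (nat_lit 78) (nat_lit 0) (nat_lit 0) (XT.lf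 (nat_lit 0) (nat_lit 556867897216) (nat_lit 152) (nat_lit 136291636740) (nat_lit 0) (nat_lit 556590595403) (nat_lit 1) (nat_lit 5) (nat_lit 3) (nat_lit 4) (nat_lit 1) (nat_lit 4) (nat_lit 436) (nat_lit 299) (nat_lit 285)) (XT.lf (nat_lit 0) (nat_lit 602665378760) (nat_lit 152) (nat_lit 144584688861) (nat_lit 0) (nat_lit 602377473527) (nat_lit 1) (nat_lit 5) (nat_lit 3) (nat_lit 4) (nat_lit 1) (nat_lit 4) (nat_lit 437) (nat_lit 299) (nat_lit 284))))) (XT.nd (nat_lit 156) (nat_lit 0) (nat_lit 0) (XT.nd (nat_lit 78) (nat_lit 0) (nat_lit 0) (XT.lf (nat_lit 0) (nat_lit 652089060166) (nat_lit 152) (nat_lit 153617758523) (nat_lit 0) (nat_lit 651791336953) (nat_lit 1) (nat_lit 5) (nat_lit 3) (nat_lit 4) (nat_lit 1) (nat_lit 4) (nat_lit 438) (nat_lit 299) (nat_lit 283)) (XT.lf (nat_lit 0) (nat_lit 705431822510) (nat_lit 152) (nat_lit 163444375026) (nat_lit 0) (nat_lit 705125008575) (nat_lit 1)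 (nat_lit 5) (nat_lit 3) (nat_lit 4) (nat_lit 1) (nat_lit 4) (nat_lit 439) (nat_lit 299) (nat_lit 282))) (XT.nd (nat_lit 78) (nat_lit 0) (nat_lit 0) (XT.lf (nat_lit 0) (nat_lit 763009771051) (nat_lit 152) (nat_lit 174122770173) (nat_lit 0) (nat_lit 762694539780) (nat_lit 1) (nat_lit 5) (nat_lit 3) (nat_lit 4) (nat_lit 1) (nat_lit 4) (nat_lit 440) (nat_lit 299) (nat_lit 281)) (XT.nd (nat_lit 78) (nat_lit 0) (nat_lit 0) (XT.lf (nat_lit 0) (nat_lit 825164108446) (nat_lit 152) (nat_lit 185716223343) (nat_lit 0) (nat_lit 824841083346) (nat_lit 1) (nat_lit 5) (nat_lit 3) (nat_lit 4) (nat_lit 1) (nat_lit 4) (nat_lit 441) (nat_lit 299) (nat_lit 280)) (XT.lf (nat_lit 0) (nat_lit 892263156695) (nat_lit 152) (nat_lit 198293436479) (nat_lit 0) (nat_lit 891932915087) (nat_lit 1) (nat_lit 5) (nat_lit 3) (nat_lit 4) (nat_lit 1) (nat_lit 4) (nat_lit 442) (nat_lit 299) (nat_lit 279)))))) (XT.nd (nat_lit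 390) (nat_lit 0) (nat_lit 0) (XT.nd (nat_lit 156) (nat_lit 0) (nat_lit 0) (XT.nd (nat_lit 78) (nat_lit 0) (nat_lit 0) (XT.lf (nat_lit 0) (nat_lit 964704539788) (nat_lit 152) (nat_lit 211928941215) (nat_lit 0) (nat_lit 964367616227) (nat_lit 1) (nat_lit 5) (nat_lit 3) (nat_lit 4) (nat_lit 1) (nat_lit 4) (nat_lit 443) (nat_lit 299) (nat_lit 278)) (XT.lf (nat_lit 0) (nat_lit 1042917539994) (nat_lit 152) (nat_lit 226703540543) (nat_lit 0) (nat_lit 1042574429440) (nat_lit 1) (nat_lit 5) (nat_lit 3) (nat_lit 4) (nat_lit 1) (nat_lit 4) (nat_lit 444) (nat_lit 299) (nat_lit 277))) (XT.nd (nat_lit 78) (nat_lit 0) (nat_lit 0) (XT.lf (nat_lit 0) (nat_lit 1127365641759) (nat_lit 152) (nat_lit 242704787643) (nat_lit 0) (nat_lit 1127016802508) (nat_lit 1) (nat_lit 5) (nat_lit 3) (nat_lit 4) (nat_lit 1) (nat_lit 4) (nat_lit 445) (nat_lit 299) (nat_lit 276)) (XT.nd (nat_lit 78) (nat_lit 0) (nat_lit 0)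 (XT.lf (nat_lit 0) (nat_lit 1218549278280) (nat_lit 152) (nat_lit 260027504720) (nat_lit 0) (nat_lit 1218195134679) (nat_lit 1) (nat_lit 5) (nat_lit 3) (nat_lit 4) (nat_lit 1) (nat_lit 4) (nat_lit 446) (nat_lit 299) (nat_lit 275)) (XT.lf (nat_lit 0) (nat_lit 1317008797031) (nat_lit 152) (nat_lit 278774344914) (nat_lit 0) (nat_lit 1316649741996) (nat_lit 1) (nat_lit 5) (nat_lit 3) (nat_lit 4) (nat_lit 1) (nat_lit 4) (nat_lit 447) (nat_lit 299) (nat_lit 274))))) (XT.nd (nat_lit 234) (nat_lit 0) (nat_lit 0) (XT.nd (nat_lit 78) (nat_lit 0) (nat_lit 0) (XT.lf (nat_lit 0) (nat_lit 1423327661827) (nat_lit 152) (nat_lit 299056400609) (nat_lit 0) (nat_lit 1422964059168) (nat_lit 1) (nat_lit 5) (nat_lit 3) (nat_lit 4) (nat_lit 1) (nat_lit 4) (nat_lit 448) (nat_lit 299) (nat_lit 273)) (XT.nd (nat_lit 78) (nat_lit 0) (nat_lit 0) (XT.lf (nat_lit 0) (nat_lit 1538135910387) (nat_lit 152) (nat_lit 320993861766)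 (nat_lit 0) (nat_lit 1537768096964) (nat_lit 1) (nat_lit 5) (nat_lit 3) (nat_lit 4) (nat_lit 1) (nat_lit 4) (nat_lit 449) (nat_lit 299) (nat_lit 272)) (XT.lf (nat_lit 0) (nat_lit 1662113887886) (nat_lit 152) (nat_lit 344716728155) (nat_lit 0) (nat_lit 1661742175608) (nat_lit 1) (nat_lit 5) (nat_lit 3) (nat_lit 4) (nat_lit 1) (nat_lit 4) (nat_lit 450) (nat_lit 299) (nat_lit 271)))) (XT.nd (nat_lit 78) (nat_lit 0) (nat_lit 0) (XT.lf (nat_lit 0) (nat_lit 1795996278635) (nat_lit 152) (nat_lit 370365579725) (nat_lit 0) (nat_lit 1795620956306) (nat_lit 1) (nat_lit 5) (nat_lit 3) (nat_lit 4) (nat_lit 1) (nat_lit 4) (nat_lit 451) (nat_lit 299) (nat_lit 270)) (XT.nd (nat_lit 78) (nat_lit 0) (nat_lit 0) (XT.lf (nat_lit 0) (nat_lit 1940576459765) (nat_lit 152) (nat_lit 398092409669) (nat_lit 0) (nat_lit 1940197794796) (nat_lit 1) (nat_lit 5) (nat_lit 3) (nat_lit 4) (nat_lit 1) (nat_lit 4) (nat_lit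 452) (nat_lit 299) (nat_lit 269)) (XT.lf (nat_lit 0) (nat_lit 2096711202720) (nat_lit 152) (nat_lit 428061525129) (nat_lit 0) (nat_lit 2096329442714) (nat_lit 1) (nat_lit 5) (nat_lit 3) (nat_lit 4) (nat_lit 1) (nat_lit 4) (nat_lit 453) (nat_lit 299) (nat_lit 268))))))))
noncomputable def xc12 : XT := (XT.nd (nat_lit 51090) (nat_lit 0) (nat_lit 0) (XT.nd (nat_lit 780) (nat_lit 0) (nat_lit 0) (XT.nd (nat_lit 390) (nat_lit 0) (nat_lit 0) (XT.nd (nat_lit 156) (nat_lit 0) (nat_lit 0) (XT.nd (nat_lit 78) (nat_lit 0) (nat_lit 0) (XT.lf (nat_lit 0) (nat_lit 2265325750420) (nat_lit 152) (nat_lit 460450520862) (nat_lit 0) (nat_lit 2264941124640) (nat_lit 1) (nat_lit 5) (nat_lit 3) (nat_lit 4) (nat_lit 1) (nat_lit 4) (nat_lit 454) (nat_lit 299) (nat_lit 267)) (XT.lf (nat_lit 0) (nat_lit 2447419300187) (nat_lit 152) (nat_lit 495451331659) (nat_lit 0) (nat_lit 2447032020911) (nat_lit 1) (nat_lit 5)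 (nat_lit 3) (nat_lit 4) (nat_lit 1) (nat_lit 4) (nat_lit 455) (nat_lit 299) (nat_lit 266))) (XT.nd (nat_lit 78) (nat_lit 0) (nat_lit 0) (XT.lf (nat_lit 0) (nat_lit 2644070924906) (nat_lit 152) (nat_lit 533271369731) (nat_lit 0) (nat_lit 2643681188690) (nat_lit 1) (nat_lit 5) (nat_lit 3) (nat_lit 4) (nat_lit 1) (nat_lit 4) (nat_lit 456) (nat_lit 299) (nat_lit 265)) (XT.nd (nat_lit 78) (nat_lit 0) (nat_lit 0) (XT.lf (nat_lit 0) (nat_lit 2856445967539) (nat_lit 152) (nat_lit 574134753823) (nat_lit 0) (nat_lit 2856053956380) (nat_lit 1) (nat_lit 5) (nat_lit 3) (nat_lit 4) (nat_lit 1) (nat_lit 4) (nat_lit 457) (nat_lit 299) (nat_lit 264)) (XT.lf (nat_lit 0) (nat_lit 3085802946859) (nat_lit 152) (nat_lit 618283637321) (nat_lit 0) (nat_lit 3085408829269) (nat_lit 1) (nat_lit 5) (nat_lit 3) (nat_lit 4) (nat_lit 1) (nat_lit 4) (nat_lit 458) (nat_lit 299) (nat_lit 263))))) (XT.nd (nat_lit 156) (nat_lit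 0) (nat_lit 0) (XT.nd (nat_lit 78) (nat_lit 0) (nat_lit 0) (XT.lf (nat_lit 0) (nat_lit 3333501015333) (nat_lit 152) (nat_lit 665979643240) (nat_lit 0) (nat_lit 3333104947345) (nat_lit 1) (nat_lit 5) (nat_lit 3) (nat_lit 4) (nat_lit 1) (nat_lit 4) (nat_lit 459) (nat_lit 299) (nat_lit 262)) (XT.lf (nat_lit 0) (nat_lit 3601008013369) (nat_lit 152) (nat_lit 717505414577) (nat_lit 0) (nat_lit 3600610139457) (nat_lit 1) (nat_lit 5) (nat_lit 3) (nat_lit 4) (nat_lit 1) (nat_lit 4) (nat_lit 460) (nat_lit 299) (nat_lit 261))) (XT.nd (nat_lit 78) (nat_lit 0) (nat_lit 0) (XT.lf (nat_lit 0) (nat_lit 3889909167622) (nat_lit 152) (nat_lit 773166289236) (nat_lit 0) (nat_lit 3889509621557) (nat_lit 1) (nat_lit 5) (nat_lit 3) (nat_lit 4) (nat_lit 1) (nat_lit 4) (nat_lit 461) (nat_lit 299) (nat_lit 260)) (XT.nd (nat_lit 78) (nat_lit 0) (nat_lit 0) (XT.lf (nat_lit 0) (nat_lit 4201916484930) (nat_lit 152)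 (nat_lit 833292109437) (nat_lit 0) (nat_lit 4201515390577) (nat_lit 1) (nat_lit 5) (nat_lit 3) (nat_lit 4) (nat_lit 1) (nat_lit 4) (nat_lit 462) (nat_lit 299) (nat_lit 259)) (XT.lf (nat_lit 0) (nat_lit 4538878897546) (nat_lit 152) (nat_lit 898239176338) (nat_lit 0) (nat_lit 4538476369592) (nat_lit 1) (nat_lit 5) (nat_lit 3) (nat_lit 4) (nat_lit 1) (nat_lit 4) (nat_lit 463) (nat_lit 299) (nat_lit 258)))))) (XT.nd (nat_lit 49920) (nat_lit 0) (nat_lit 0) (XT.nd (nat_lit 49686) (nat_lit 0) (nat_lit 0) (XT.nd (nat_lit 78) (nat_lit 0) (nat_lit 0) (XT.lf (nat_lit 0) (nat_lit 4902793219766) (nat_lit 152) (nat_lit 968392361445) (nat_lit 0) (nat_lit 4902389364403) (nat_lit 1) (nat_lit 5) (nat_lit 3) (nat_lit 4) (nat_lit 1) (nat_lit 4) (nat_lit 464) (nat_lit 299) (nat_lit 257)) (XT.lf (nat_lit 0) (nat_lit 5295815980907) (nat_lit 152) (nat_lit 1044167387338) (nat_lit 0) (nat_lit 5295410896462) (nat_lit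 1) (nat_lit 5) (nat_lit 3) (nat_lit 4) (nat_lit 1) (nat_lit 4) (nat_lit 465) (nat_lit 299) (nat_lit 256))) (XT.nd (nat_lit 78) (nat_lit 0) (nat_lit 0) (XT.lf (nat_lit 0) (nat_lit 72880506719) (nat_lit 152) (nat_lit 37319077799) (nat_lit 0) (nat_lit 72880506719) (nat_lit 1) (nat_lit 5) (nat_lit 3) (nat_lit 4) (nat_lit 1) (nat_lit 4) (nat_lit 420) (nat_lit 300) (nat_lit 300)) (XT.nd (nat_lit 78) (nat_lit 0) (nat_lit 0) (XT.lf (nat_lit 0) (nat_lit 159831735466) (nat_lit 152) (nat_lit 75627346971) (nat_lit 0) (nat_lit 159798099628) (nat_lit 1) (nat_lit 5) (nat_lit 3) (nat_lit 4) (nat_lit 1) (nat_lit 4) (nat_lit 421) (nat_lit 300) (nat_lit 299)) (XT.lf (nat_lit 0) (nat_lit 174908845945) (nat_lit 152) (nat_lit 76938577335) (nat_lit 0) (nat_lit 174844065814) (nat_lit 1) (nat_lit 5) (nat_lit 3) (nat_lit 4) (nat_lit 1) (nat_lit 4) (nat_lit 422) (nat_lit 300) (nat_lit 298))))) (XT.nd (nat_lit 156)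 (nat_lit 0) (nat_lit 0) (XT.nd (nat_lit 78) (nat_lit 0) (nat_lit 0) (XT.lf (nat_lit 0) (nat_lit 191081690718) (nat_lit 152) (nat_lit 78579616943) (nat_lit 0) (nat_lit 190988073278) (nat_lit 1) (nat_lit 5) (nat_lit 3) (nat_lit 4) (nat_lit 1) (nat_lit 4) (nat_lit 423) (nat_lit 300) (nat_lit 297)) (XT.lf (nat_lit 0) (nat_lit 208446108864) (nat_lit 152) (nat_lit 80560190476) (nat_lit 0) (nat_lit 208325790211) (nat_lit 1) (nat_lit 5) (nat_lit 3) (nat_lit 4) (nat_lit 1) (nat_lit 4) (nat_lit 424) (nat_lit 300) (nat_lit 296))) (XT.nd (nat_lit 78) (nat_lit 0) (nat_lit 0) (XT.lf (nat_lit 0) (nat_lit 227105000638) (nat_lit 152) (nat_lit 82892034664) (nat_lit 0) (nat_lit 226959958641) (nat_lit 1) (nat_lit 5) (nat_lit 3) (nat_lit 4) (nat_lit 1) (nat_lit 4) (nat_lit 425) (nat_lit 300) (nat_lit 295)) (XT.nd (nat_lit 78) (nat_lit 0) (nat_lit 0) (XT.lf (nat_lit 0) (nat_lit 247168937252) (nat_lit 152) (nat_lit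 85588967845) (nat_lit 0) (nat_lit 247001003269) (nat_lit 1) (nat_lit 5) (nat_lit 3) (nat_lit 4) (nat_lit 1) (nat_lit 4) (nat_lit 426) (nat_lit 300) (nat_lit 294)) (XT.lf (nat_lit 0) (nat_lit 268756816107) (nat_lit 152) (nat_lit 88666971844) (nat_lit 0) (nat_lit 268567685842) (nat_lit 1) (nat_lit 5) (nat_lit 3) (nat_lit 4) (nat_lit 1) (nat_lit 4) (nat_lit 427) (nat_lit 300) (nat_lit 293))))))) (XT.nd (nat_lit 780) (nat_lit 0) (nat_lit 0) (XT.nd (nat_lit 390) (nat_lit 0) (nat_lit 0) (XT.nd (nat_lit 156) (nat_lit 0) (nat_lit 0) (XT.nd (nat_lit 78) (nat_lit 0) (nat_lit 0) (XT.lf (nat_lit 0) (nat_lit 291996565375) (nat_lit 152) (nat_lit 92144286685) (nat_lit 0) (nat_lit 291787808921) (nat_lit 1) (nat_lit 5) (nat_lit 3) (nat_lit 4) (nat_lit 1) (nat_lit 4) (nat_lit 428) (nat_lit 300) (nat_lit 292)) (XT.lf (nat_lit 0) (nat_lit 317025902087) (nat_lit 152) (nat_lit 96041518678) (nat_lit 0) (nat_lit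 316798973238) (nat_lit 1) (nat_lit 5) (nat_lit 3) (nat_lit 4) (nat_lit 1) (nat_lit 4) (nat_lit 429) (nat_lit 300) (nat_lit 291))) (XT.nd (nat_lit 78) (nat_lit 0) (nat_lit 0) (XT.lf (nat_lit 0) (nat_lit 343993148241) (nat_lit 152) (nat_lit 100381762532) (nat_lit 0) (nat_lit 343749393098) (nat_lit 1) (nat_lit 5) (nat_lit 3) (nat_lit 4) (nat_lit 1) (nat_lit 4) (nat_lit 430) (nat_lit 300) (nat_lit 290)) (XT.nd (nat_lit 78) (nat_lit 0) (nat_lit 0) (XT.lf (nat_lit 0) (nat_lit 373058109737) (nat_lit 152) (nat_lit 105190738209) (nat_lit 0) (nat_lit 372798774694) (nat_lit 1) (nat_lit 5) (nat_lit 3) (nat_lit 4) (nat_lit 1) (nat_lit 4) (nat_lit 431) (nat_lit 300) (nat_lit 289)) (XT.lf (nat_lit 0) (nat_lit 404393023387) (nat_lit 152) (nat_lit 110496943344) (nat_lit 0) (nat_lit 404119262509) (nat_lit 1) (nat_lit 5) (nat_lit 3) (nat_lit 4) (nat_lit 1) (nat_lit 4) (nat_lit 432) (nat_lit 300) (nat_lit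 288))))) (XT.nd (nat_lit 156) (nat_lit 0) (nat_lit 0) (XT.nd (nat_lit 78) (nat_lit 0) (nat_lit 0) (XT.lf (nat_lit 0) (nat_lit 438183577566) (nat_lit 152) (nat_lit 116331822115) (nat_lit 0) (nat_lit 437896459435) (nat_lit 1) (nat_lit 5) (nat_lit 3) (nat_lit 4) (nat_lit 1) (nat_lit 4) (nat_lit 433) (nat_lit 300) (nat_lit 287)) (XT.lf (nat_lit 0) (nat_lit 474630012595) (nat_lit 152) (nat_lit 122729951581) (nat_lit 0) (nat_lit 474330526637) (nat_lit 1) (nat_lit 5) (nat_lit 3) (nat_lit 4) (nat_lit 1) (nat_lit 4) (nat_lit 434) (nat_lit 300) (nat_lit 286))) (XT.nd (nat_lit 78) (nat_lit 0) (nat_lit 0) (XT.lf (nat_lit 0) (nat_lit 513948307350) (nat_lit 152) (nat_lit 129729246585) (nat_lit 0) (nat_lit 513637369699) (nat_lit 1) (nat_lit 5) (nat_lit 3) (nat_lit 4) (nat_lit 1) (nat_lit 4) (nat_lit 435) (nat_lit 300) (nat_lit 285)) (XT.nd (nat_lit 78) (nat_lit 0) (nat_lit 0) (XT.lf (nat_lit 0) (nat_lit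 556371459132) (nat_lit 152) (nat_lit 137371184428) (nat_lit 0) (nat_lit 556049918062) (nat_lit 1) (nat_lit 5) (nat_lit 3) (nat_lit 4) (nat_lit 1) (nat_lit 4) (nat_lit 436) (nat_lit 300) (nat_lit 284)) (XT.lf (nat_lit 0) (nat_lit 602150864396) (nat_lit 152) (nat_lit 145701050670) (nat_lit 0) (nat_lit 601819505346) (nat_lit 1) (nat_lit 5) (nat_lit 3) (nat_lit 4) (nat_lit 1) (nat_lit 4) (nat_lit 437) (nat_lit 300) (nat_lit 283)))))) (XT.nd (nat_lit 390) (nat_lit 0) (nat_lit 0) (XT.nd (nat_lit 156) (nat_lit 0) (nat_lit 0) (XT.nd (nat_lit 78) (nat_lit 0) (nat_lit 0) (XT.lf (nat_lit 0) (nat_lit 651557808507) (nat_lit 152) (nat_lit 154768207480) (nat_lit 0) (nat_lit 651217358734) (nat_lit 1) (nat_lit 5) (nat_lit 3) (nat_lit 4) (nat_lit 1) (nat_lit 4) (nat_lit 438) (nat_lit 300) (nat_lit 282)) (XT.lf (nat_lit 0) (nat_lit 704885073355) (nat_lit 152) (nat_lit 164626386159) (nat_lit 0) (nat_lit 704536206247)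 (nat_lit 1) (nat_lit 5) (nat_lit 3) (nat_lit 4) (nat_lit 1) (nat_lit 4) (nat_lit 439) (nat_lit 300) (nat_lit 281))) (XT.nd (nat_lit 78) (nat_lit 0) (nat_lit 0) (XT.lf (nat_lit 0) (nat_lit 762448672363) (nat_lit 152) (nat_lit 175334005541) (nat_lit 0) (nat_lit 762092011426) (nat_lit 1) (nat_lit 5) (nat_lit 3) (nat_lit 4) (nat_lit 1) (nat_lit 4) (nat_lit 440) (nat_lit 300) (nat_lit 280)) (XT.nd (nat_lit 78) (nat_lit 0) (nat_lit 0) (XT.lf (nat_lit 0) (nat_lit 824589723153) (nat_lit 152) (nat_lit 186954518188) (nat_lit 0) (nat_lit 824225845708) (nat_lit 1) (nat_lit 5) (nat_lit 3) (nat_lit 4) (nat_lit 1) (nat_lit 4) (nat_lit 441) (nat_lit 300) (nat_lit 279)) (XT.lf (nat_lit 0) (nat_lit 891676468991) (nat_lit 152) (nat_lit 199556786396) (nat_lit 0) (nat_lit 891305909593) (nat_lit 1) (nat_lit 5) (nat_lit 3) (nat_lit 4) (nat_lit 1) (nat_lit 4) (nat_lit 442) (nat_lit 300) (nat_lit 278))))) (XT.nd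 (nat_lit 234) (nat_lit 0) (nat_lit 0) (XT.nd (nat_lit 78) (nat_lit 0) (nat_lit 0) (XT.lf (nat_lit 0) (nat_lit 964106460961) (nat_lit 152) (nat_lit 213215490273) (nat_lit 0) (nat_lit 963729714570) (nat_lit 1) (nat_lit 5) (nat_lit 3) (nat_lit 4) (nat_lit 1) (nat_lit 4) (nat_lit 443) (nat_lit 300) (nat_lit 277)) (XT.nd (nat_lit 78) (nat_lit 0) (nat_lit 0) (XT.lf (nat_lit 0) (nat_lit 1042308913832) (nat_lit 152) (nat_lit 228011570286) (nat_lit 0) (nat_lit 1041926438744) (nat_lit 1) (nat_lit 5) (nat_lit 3) (nat_lit 4) (nat_lit 1) (nat_lit 4) (nat_lit 444) (nat_lit 300) (nat_lit 276)) (XT.lf (nat_lit 0) (nat_lit 1126747249547) (nat_lit 152) (nat_lit 244032706910) (nat_lit 0) (nat_lit 1126359470109) (nat_lit 1) (nat_lit 5) (nat_lit 3) (nat_lit 4) (nat_lit 1) (nat_lit 4) (nat_lit 445) (nat_lit 300) (nat_lit 275)))) (XT.nd (nat_lit 78) (nat_lit 0) (nat_lit 0) (XT.lf (nat_lit 0) (nat_lit 1217921843427)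 (nat_lit 152) (nat_lit 261373840214) (nat_lit 0) (nat_lit 1217529152555) (nat_lit 1) (nat_lit 5) (nat_lit 3) (nat_lit 4) (nat_lit 1) (nat_lit 4) (nat_lit 446) (nat_lit 300) (nat_lit 274)) (XT.nd (nat_lit 78) (nat_lit 0) (nat_lit 0) (XT.lf (nat_lit 0) (nat_lit 1316372989364) (nat_lit 152) (nat_lit 280137732468) (nat_lit 0) (nat_lit 1315975750867) (nat_lit 1) (nat_lit 5) (nat_lit 3) (nat_lit 4) (nat_lit 1) (nat_lit 4) (nat_lit 447) (nat_lit 300) (nat_lit 273)) (XT.lf (nat_lit 0) (nat_lit 1422684101554) (nat_lit 152) (nat_lit 300435577109) (nat_lit 0) (nat_lit 1422282652294) (nat_lit 1) (nat_lit 5) (nat_lit 3) (nat_lit 4) (nat_lit 1) (nat_lit 4) (nat_lit 448) (nat_lit 300) (nat_lit 272))))))))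
noncomputable def xc13 : XT := (XT.nd (nat_lit 50934) (nat_lit 0) (nat_lit 0) (XT.nd (nat_lit 780) (nat_lit 0) (nat_lit 0) (XT.nd (nat_lit 390) (nat_lit 0) (nat_lit 0) (XT.nd (nat_lit 156) (nat_lit 0) (nat_lit 0) (XT.nd (nat_lit 78) (nat_lit 0) (nat_lit 0) (XT.lf (nat_lit 0) (nat_lit 1537485171774) (nat_lit 152) (nat_lit 322387657660) (nat_lit 0) (nat_lit 1537079823659) (nat_lit 1) (nat_lit 5) (nat_lit 3) (nat_lit 4) (nat_lit 1) (nat_lit 4) (nat_lit 449) (nat_lit 300) (nat_lit 271)) (XT.lf (nat_lit 0) (nat_lit 1661456502663) (nat_lit 152) (nat_lit 346124060524) (nat_lit 0) (nat_lit 1661047544497) (nat_lit 1) (nat_lit 5) (nat_lit 3) (nat_lit 4) (nat_lit 1) (nat_lit 4) (nat_lit 450) (nat_lit 300) (nat_lit 270))) (XT.nd (nat_lit 78) (nat_lit 0) (nat_lit 0) (XT.lf (nat_lit 0) (nat_lit 1795332739143) (nat_lit 152) (nat_lit 371785445867) (nat_lit 0) (nat_lit 1794920438337) (nat_lit 1) (nat_lit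 5) (nat_lit 3) (nat_lit 4) (nat_lit 1) (nat_lit 4) (nat_lit 451) (nat_lit 300) (nat_lit 269)) (XT.nd (nat_lit 78) (nat_lit 0) (nat_lit 0) (XT.lf (nat_lit 0) (nat_lit 1939907221876) (nat_lit 152) (nat_lit 399523881158) (nat_lit 0) (nat_lit 1939491826034) (nat_lit 1) (nat_lit 5) (nat_lit 3) (nat_lit 4) (nat_lit 1) (nat_lit 4) (nat_lit 452) (nat_lit 300) (nat_lit 268)) (XT.lf (nat_lit 0) (nat_lit 2096036688538) (nat_lit 152) (nat_lit 429503742308) (nat_lit 0) (nat_lit 2095618426920) (nat_lit 1) (nat_lit 5) (nat_lit 3) (nat_lit 4) (nat_lit 1) (nat_lit 4) (nat_lit 453) (nat_lit 300) (nat_lit 267))))) (XT.nd (nat_lit 156) (nat_lit 0) (nat_lit 0) (XT.nd (nat_lit 78) (nat_lit 0) (nat_lit 0) (XT.lf (nat_lit 0) (nat_lit 2264646350781) (nat_lit 152) (nat_lit 461902687756) (nat_lit 0) (nat_lit 2264225435669) (nat_lit 1) (nat_lit 5) (nat_lit 3) (nat_lit 4) (nat_lit 1) (nat_lit 4) (nat_lit 454) (nat_lit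 300) (nat_lit 266)) (XT.lf (nat_lit 0) (nat_lit 2446735376976) (nat_lit 152) (nat_lit 496912711250) (nat_lit 0) (nat_lit 2446312004924) (nat_lit 1) (nat_lit 5) (nat_lit 3) (nat_lit 4) (nat_lit 1) (nat_lit 4) (nat_lit 455) (nat_lit 300) (nat_lit 265))) (XT.nd (nat_lit 78) (nat_lit 0) (nat_lit 0) (XT.lf (nat_lit 0) (nat_lit 2643382813204) (nat_lit 152) (nat_lit 534741279598) (nat_lit 0) (nat_lit 2642957166206) (nat_lit 1) (nat_lit 5) (nat_lit 3) (nat_lit 4) (nat_lit 1) (nat_lit 4) (nat_lit 456) (nat_lit 300) (nat_lit 264)) (XT.nd (nat_lit 78) (nat_lit 0) (nat_lit 0) (XT.lf (nat_lit 0) (nat_lit 2855753977604) (nat_lit 152) (nat_lit 575612562094) (nat_lit 0) (nat_lit 2855326224177) (nat_lit 1) (nat_lit 5) (nat_lit 3) (nat_lit 4) (nat_lit 1) (nat_lit 4) (nat_lit 457) (nat_lit 300) (nat_lit 263)) (XT.lf (nat_lit 0) (nat_lit 3085107365966) (nat_lit 152) (nat_lit 619768758929) (nat_lit 0) (nat_lit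 3084677662141) (nat_lit 1) (nat_lit 5) (nat_lit 3) (nat_lit 4) (nat_lit 1) (nat_lit 4) (nat_lit 458) (nat_lit 300) (nat_lit 262)))))) (XT.nd (nat_lit 390) (nat_lit 0) (nat_lit 0) (XT.nd (nat_lit 156) (nat_lit 0) (nat_lit 0) (XT.nd (nat_lit 78) (nat_lit 0) (nat_lit 0) (XT.lf (nat_lit 0) (nat_lit 3332802109481) (nat_lit 152) (nat_lit 667471536455) (nat_lit 0) (nat_lit 3332370599731) (nat_lit 1) (nat_lit 5) (nat_lit 3) (nat_lit 4) (nat_lit 1) (nat_lit 4) (nat_lit 459) (nat_lit 300) (nat_lit 261)) (XT.lf (nat_lit 0) (nat_lit 3600306028851) (nat_lit 152) (nat_lit 719003577799) (nat_lit 0) (nat_lit 3599872846949) (nat_lit 1) (nat_lit 5) (nat_lit 3) (nat_lit 4) (nat_lit 1) (nat_lit 4) (nat_lit 460) (nat_lit 300) (nat_lit 260))) (XT.nd (nat_lit 78) (nat_lit 0) (nat_lit 0) (XT.lf (nat_lit 0) (nat_lit 3889204332486) (nat_lit 152) (nat_lit 774670258020) (nat_lit 0) (nat_lit 3888769602295) (nat_lit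 1) (nat_lit 5) (nat_lit 3) (nat_lit 4) (nat_lit 1) (nat_lit 4) (nat_lit 461) (nat_lit 300) (nat_lit 259)) (XT.nd (nat_lit 78) (nat_lit 0) (nat_lit 0) (XT.lf (nat_lit 0) (nat_lit 4201209010334) (nat_lit 152) (nat_lit 834801453743) (nat_lit 0) (nat_lit 4200772846542) (nat_lit 1) (nat_lit 5) (nat_lit 3) (nat_lit 4) (nat_lit 1) (nat_lit 4) (nat_lit 462) (nat_lit 300) (nat_lit 258)) (XT.lf (nat_lit 0) (nat_lit 4538168979005) (nat_lit 152) (nat_lit 899753497977) (nat_lit 0) (nat_lit 4537731487805) (nat_lit 1) (nat_lit 5) (nat_lit 3) (nat_lit 4) (nat_lit 1) (nat_lit 4) (nat_lit 463) (nat_lit 300) (nat_lit 257))))) (XT.nd (nat_lit 49530) (nat_lit 0) (nat_lit 0) (XT.nd (nat_lit 78) (nat_lit 0) (nat_lit 0) (XT.lf (nat_lit 0) (nat_lit 4902081038313) (nat_lit 152) (nat_lit 969911291727) (nat_lit 0) (nat_lit 4901642318031) (nat_lit 1) (nat_lit 5) (nat_lit 3) (nat_lit 4) (nat_lit 1) (nat_lit 4) (nat_lit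 464) (nat_lit 300) (nat_lit 256)) (XT.lf (nat_lit 0) (nat_lit 5295101704165) (nat_lit 152) (nat_lit 1045690584882) (nat_lit 0) (nat_lit 5294661845845) (nat_lit 1) (nat_lit 5) (nat_lit 3) (nat_lit 4) (nat_lit 1) (nat_lit 4) (nat_lit 465) (nat_lit 300) (nat_lit 255))) (XT.nd (nat_lit 78) (nat_lit 0) (nat_lit 0) (XT.lf (nat_lit 0) (nat_lit 60206942725) (nat_lit 152) (nat_lit 36734051529) (nat_lit 0) (nat_lit 60206942725) (nat_lit 1) (nat_lit 5) (nat_lit 3) (nat_lit 4) (nat_lit 1) (nat_lit 4) (nat_lit 418) (nat_lit 301) (nat_lit 301)) (XT.nd (nat_lit 78) (nat_lit 0) (nat_lit 0) (XT.lf (nat_lit 0) (nat_lit 132649624513) (nat_lit 152) (nat_lit 73965141343) (nat_lit 0) (nat_lit 132613297809) (nat_lit 1) (nat_lit 5) (nat_lit 3) (nat_lit 4) (nat_lit 1) (nat_lit 4) (nat_lit 419) (nat_lit 301) (nat_lit 300)) (XT.lf (nat_lit 0) (nat_lit 145735411848) (nat_lit 152) (nat_lit 74764278664) (nat_lit 0)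 (nat_lit 145665449307) (nat_lit 1) (nat_lit 5) (nat_lit 3) (nat_lit 4) (nat_lit 1) (nat_lit 4) (nat_lit 420) (nat_lit 301) (nat_lit 299))))))) (XT.nd (nat_lit 780) (nat_lit 0) (nat_lit 0) (XT.nd (nat_lit 390) (nat_lit 0) (nat_lit 0) (XT.nd (nat_lit 156) (nat_lit 0) (nat_lit 0) (XT.nd (nat_lit 78) (nat_lit 0) (nat_lit 0) (XT.lf (nat_lit 0) (nat_lit 159748792861) (nat_lit 152) (nat_lit 75870250653) (nat_lit 0) (nat_lit 159647686026) (nat_lit 1) (nat_lit 5) (nat_lit 3) (nat_lit 4) (nat_lit 1) (nat_lit 4) (nat_lit 421) (nat_lit 301) (nat_lit 298)) (XT.lf (nat_lit 0) (nat_lit 174772809809) (nat_lit 152) (nat_lit 77289611216) (nat_lit 0) (nat_lit 174642865665) (nat_lit 1) (nat_lit 5) (nat_lit 3) (nat_lit 4) (nat_lit 1) (nat_lit 4) (nat_lit 422) (nat_lit 301) (nat_lit 297))) (XT.nd (nat_lit 78) (nat_lit 0) (nat_lit 0) (XT.lf (nat_lit 0) (nat_lit 190896493904) (nat_lit 152) (nat_lit 79030771380)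 (nat_lit 0) (nat_lit 190739848548) (nat_lit 1) (nat_lit 5) (nat_lit 3) (nat_lit 4) (nat_lit 1) (nat_lit 4) (nat_lit 423) (nat_lit 301) (nat_lit 296)) (XT.nd (nat_lit 78) (nat_lit 0) (nat_lit 0) (XT.lf (nat_lit 0) (nat_lit 208215392904) (nat_lit 152) (nat_lit 81104049130) (nat_lit 0) (nat_lit 208034024203) (nat_lit 1) (nat_lit 5) (nat_lit 3) (nat_lit 4) (nat_lit 1) (nat_lit 4) (nat_lit 424) (nat_lit 301) (nat_lit 295)) (XT.lf (nat_lit 0) (nat_lit 226832137322) (nat_lit 152) (nat_lit 83521730558) (nat_lit 0) (nat_lit 226627876635) (nat_lit 1) (nat_lit 5) (nat_lit 3) (nat_lit 4) (nat_lit 1) (nat_lit 4) (nat_lit 425) (nat_lit 301) (nat_lit 294))))) (XT.nd (nat_lit 156) (nat_lit 0) (nat_lit 0) (XT.nd (nat_lit 78) (nat_lit 0) (nat_lit 0) (XT.lf (nat_lit 0) (nat_lit 246857048605) (nat_lit 152) (nat_lit 86298142663) (nat_lit 0) (nat_lit 246631591635) (nat_lit 1) (nat_lit 5) (nat_lit 3) (nat_lit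 4) (nat_lit 1) (nat_lit 4) (nat_lit 426) (nat_lit 301) (nat_lit 293)) (XT.lf (nat_lit 0) (nat_lit 268408792895) (nat_lit 152) (nat_lit 89449738260) (nat_lit 0) (nat_lit 268163709737) (nat_lit 1) (nat_lit 5) (nat_lit 3) (nat_lit 4) (nat_lit 1) (nat_lit 4) (nat_lit 427) (nat_lit 301) (nat_lit 292))) (XT.nd (nat_lit 78) (nat_lit 0) (nat_lit 0) (XT.lf (nat_lit 0) (nat_lit 291615084232) (nat_lit 152) (nat_lit 92995193468) (nat_lit 0) (nat_lit 291351828678) (nat_lit 1) (nat_lit 5) (nat_lit 3) (nat_lit 4) (nat_lit 1) (nat_lit 4) (nat_lit 428) (nat_lit 301) (nat_lit 291)) (XT.nd (nat_lit 78) (nat_lit 0) (nat_lit 0) (XT.lf (nat_lit 0) (nat_lit 316613441379) (nat_lit 152) (nat_lit 96955518395) (nat_lit 0) (nat_lit 316333359532) (nat_lit 1) (nat_lit 5) (nat_lit 3) (nat_lit 4) (nat_lit 1) (nat_lit 4) (nat_lit 429) (nat_lit 301) (nat_lit 290)) (XT.lf (nat_lit 0) (nat_lit 343552002749) (nat_lit 152)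 (nat_lit 101354181631) (nat_lit 0) (nat_lit 343256341001) (nat_lit 1) (nat_lit 5) (nat_lit 3) (nat_lit 4) (nat_lit 1) (nat_lit 4) (nat_lit 430) (nat_lit 301) (nat_lit 289)))))) (XT.nd (nat_lit 390) (nat_lit 0) (nat_lit 0) (XT.nd (nat_lit 156) (nat_lit 0) (nat_lit 0) (XT.nd (nat_lit 78) (nat_lit 0) (nat_lit 0) (XT.lf (nat_lit 0) (nat_lit 372590404261) (nat_lit 152) (nat_lit 106217249329) (nat_lit 0) (nat_lit 372280316680) (nat_lit 1) (nat_lit 5) (nat_lit 3) (nat_lit 4) (nat_lit 1) (nat_lit 4) (nat_lit 431) (nat_lit 301) (nat_lit 288)) (XT.lf (nat_lit 0) (nat_lit 403900725333) (nat_lit 152) (nat_lit 111573539668) (nat_lit 0) (nat_lit 403577280497) (nat_lit 1) (nat_lit 5) (nat_lit 3) (nat_lit 4) (nat_lit 1) (nat_lit 4) (nat_lit 432) (nat_lit 301) (nat_lit 287))) (XT.nd (nat_lit 78) (nat_lit 0) (nat_lit 0) (XT.lf (nat_lit 0) (nat_lit 437668508606) (nat_lit 152) (nat_lit 117454793628) (nat_lit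 0) (nat_lit 437332695943) (nat_lit 1) (nat_lit 5) (nat_lit 3) (nat_lit 4) (nat_lit 1) (nat_lit 4) (nat_lit 433) (nat_lit 301) (nat_lit 286)) (XT.nd (nat_lit 78) (nat_lit 0) (nat_lit 0) (XT.lf (nat_lit 0) (nat_lit 474093859464) (nat_lit 152) (nat_lit 123895863085) (nat_lit 0) (nat_lit 473746595109) (nat_lit 1) (nat_lit 5) (nat_lit 3) (nat_lit 4) (nat_lit 1) (nat_lit 4) (nat_lit 434) (nat_lit 301) (nat_lit 285)) (XT.lf (nat_lit 0) (nat_lit 513392631837) (nat_lit 152) (nat_lit 130934917338) (nat_lit 0) (nat_lit 513034764063) (nat_lit 1) (nat_lit 5) (nat_lit 3) (nat_lit 4) (nat_lit 1) (nat_lit 4) (nat_lit 435) (nat_lit 301) (nat_lit 284))))) (XT.nd (nat_lit 234) (nat_lit 0) (nat_lit 0) (XT.nd (nat_lit 78) (nat_lit 0) (nat_lit 0) (XT.lf (nat_lit 0) (nat_lit 555797707340) (nat_lit 152) (nat_lit 138613669303) (nat_lit 0) (nat_lit 555430021586) (nat_lit 1) (nat_lit 5) (nat_lit 3) (nat_lit 4) (nat_lit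 1) (nat_lit 4) (nat_lit 436) (nat_lit 301) (nat_lit 283)) (XT.nd (nat_lit 78) (nat_lit 0) (nat_lit 0) (XT.lf (nat_lit 0) (nat_lit 601560375309) (nat_lit 152) (nat_lit 146977622693) (nat_lit 0) (nat_lit 601183598832) (nat_lit 1) (nat_lit 5) (nat_lit 3) (nat_lit 4) (nat_lit 1) (nat_lit 4) (nat_lit 437) (nat_lit 301) (nat_lit 282)) (XT.lf (nat_lit 0) (nat_lit 650951821924) (nat_lit 152) (nat_lit 156076341678) (nat_lit 0) (nat_lit 650566628112) (nat_lit 1) (nat_lit 5) (nat_lit 3) (nat_lit 4) (nat_lit 1) (nat_lit 4) (nat_lit 438) (nat_lit 301) (nat_lit 281)))) (XT.nd (nat_lit 78) (nat_lit 0) (nat_lit 0) (XT.lf (nat_lit 0) (nat_lit 704264737239) (nat_lit 152) (nat_lit 165963744592) (nat_lit 0) (nat_lit 703871749598) (nat_lit 1) (nat_lit 5) (nat_lit 3) (nat_lit 4) (nat_lit 1) (nat_lit 4) (nat_lit 439) (nat_lit 301) (nat_lit 280)) (XT.nd (nat_lit 78) (nat_lit 0) (nat_lit 0) (XT.lf (nat_lit 0)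 (nat_lit 761815049642) (nat_lit 152) (nat_lit 176698423452) (nat_lit 0) (nat_lit 761414845492) (nat_lit 1) (nat_lit 5) (nat_lit 3) (nat_lit 4) (nat_lit 1) (nat_lit 4) (nat_lit 440) (nat_lit 301) (nat_lit 279)) (XT.lf (nat_lit 0) (nat_lit 823943798021) (nat_lit 152) (nat_lit 188343991171) (nat_lit 0) (nat_lit 823536911919) (nat_lit 1) (nat_lit 5) (nat_lit 3) (nat_lit 4) (nat_lit 1) (nat_lit 4) (nat_lit 441) (nat_lit 301) (nat_lit 278))))))))
noncomputable def xc14 : XT := (XT.nd (nat_lit 1560) (nat_lit 0) (nat_lit 0) (XT.nd (nat_lit 780) (nat_lit 0) (nat_lit 0) (XT.nd (nat_lit 390) (nat_lit 0) (nat_lit 0) (XT.nd (nat_lit 156) (nat_lit 0) (nat_lit 0) (XT.nd (nat_lit 78) (nat_lit 0) (nat_lit 0) (XT.lf (nat_lit 0) (nat_lit 891019152736) (nat_lit 152) (nat_lit 200969458519) (nat_lit 0) (nat_lit 890606079641) (nat_lit 1) (nat_lit 5) (nat_lit 3) (nat_lit 4) (nat_lit 1) (nat_lit 4) (nat_lit 442)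 (nat_lit 301) (nat_lit 277)) (XT.lf (nat_lit 0) (nat_lit 963438597372) (nat_lit 152) (nat_lit 214649643082) (nat_lit 0) (nat_lit 963019795579) (nat_lit 1) (nat_lit 5) (nat_lit 3) (nat_lit 4) (nat_lit 1) (nat_lit 4) (nat_lit 443) (nat_lit 301) (nat_lit 276))) (XT.nd (nat_lit 78) (nat_lit 0) (nat_lit 0) (XT.lf (nat_lit 0) (nat_lit 1041631284192) (nat_lit 152) (nat_lit 229465612619) (nat_lit 0) (nat_lit 1041207178050) (nat_lit 1) (nat_lit 5) (nat_lit 3) (nat_lit 4) (nat_lit 1) (nat_lit 4) (nat_lit 444) (nat_lit 301) (nat_lit 275)) (XT.nd (nat_lit 78) (nat_lit 0) (nat_lit 0) (XT.lf (nat_lit 0) (nat_lit 1126060577266) (nat_lit 152) (nat_lit 245505165469) (nat_lit 0) (nat_lit 1125631559690) (nat_lit 1) (nat_lit 5) (nat_lit 3) (nat_lit 4) (nat_lit 1) (nat_lit 4) (nat_lit 445) (nat_lit 301) (nat_lit 274)) (XT.lf (nat_lit 0) (nat_lit 1217226798332) (nat_lit 152) (nat_lit 262863350833) (nat_lit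 0) (nat_lit 1216793233131) (nat_lit 1) (nat_lit 5) (nat_lit 3) (nat_lit 4) (nat_lit 1) (nat_lit 4) (nat_lit 446) (nat_lit 301) (nat_lit 273))))) (XT.nd (nat_lit 156) (nat_lit 0) (nat_lit 0) (XT.nd (nat_lit 78) (nat_lit 0) (nat_lit 0) (XT.lf (nat_lit 0) (nat_lit 1315670191662) (nat_lit 152) (nat_lit 281643032032) (nat_lit 0) (nat_lit 1315232415698) (nat_lit 1) (nat_lit 5) (nat_lit 3) (nat_lit 4) (nat_lit 1) (nat_lit 4) (nat_lit 447) (nat_lit 301) (nat_lit 272)) (XT.lf (nat_lit 0) (nat_lit 1421974125513) (nat_lit 152) (nat_lit 301955496067) (nat_lit 0) (nat_lit 1421532450694) (nat_lit 1) (nat_lit 5) (nat_lit 3) (nat_lit 4) (nat_lit 1) (nat_lit 4) (nat_lit 448) (nat_lit 301) (nat_lit 271))) (XT.nd (nat_lit 78) (nat_lit 0) (nat_lit 0) (XT.lf (nat_lit 0) (nat_lit 1536768549123) (nat_lit 152) (nat_lit 323921113094) (nat_lit 0) (nat_lit 1536323264253) (nat_lit 1) (nat_lit 5) (nat_lit 3) (nat_lit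 4) (nat_lit 1) (nat_lit 4) (nat_lit 449) (nat_lit 301) (nat_lit 270)) (XT.nd (nat_lit 78) (nat_lit 0) (nat_lit 0) (XT.lf (nat_lit 0) (nat_lit 1660733725743) (nat_lit 152) (nat_lit 347670049732) (nat_lit 0) (nat_lit 1660285098233) (nat_lit 1) (nat_lit 5) (nat_lit 3) (nat_lit 4) (nat_lit 1) (nat_lit 4) (nat_lit 450) (nat_lit 301) (nat_lit 269)) (XT.lf (nat_lit 0) (nat_lit 1794604263827) (nat_lit 152) (nat_lit 373343040421) (nat_lit 0) (nat_lit 1794152541280) (nat_lit 1) (nat_lit 5) (nat_lit 3) (nat_lit 4) (nat_lit 1) (nat_lit 4) (nat_lit 451) (nat_lit 301) (nat_lit 268)))))) (XT.nd (nat_lit 390) (nat_lit 0) (nat_lit 0) (XT.nd (nat_lit 156) (nat_lit 0) (nat_lit 0) (XT.nd (nat_lit 78) (nat_lit 0) (nat_lit 0) (XT.lf (nat_lit 0) (nat_lit 1939173470266) (nat_lit 152) (nat_lit 401092221402) (nat_lit 0) (nat_lit 1938718881944) (nat_lit 1) (nat_lit 5) (nat_lit 3) (nat_lit 4) (nat_lit 1) (nat_lit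 4) (nat_lit 452) (nat_lit 301) (nat_lit 267)) (XT.lf (nat_lit 0) (nat_lit 2095298051471) (nat_lit 152) (nat_lit 431082032267) (nat_lit 0) (nat_lit 2094840809654) (nat_lit 1) (nat_lit 5) (nat_lit 3) (nat_lit 4) (nat_lit 1) (nat_lit 4) (nat_lit 453) (nat_lit 301) (nat_lit 266))) (XT.nd (nat_lit 78) (nat_lit 0) (nat_lit 0) (XT.lf (nat_lit 0) (nat_lit 2263903190143) (nat_lit 152) (nat_lit 463490190412) (nat_lit 0) (nat_lit 2263443491386) (nat_lit 1) (nat_lit 5) (nat_lit 3) (nat_lit 4) (nat_lit 1) (nat_lit 4) (nat_lit 454) (nat_lit 301) (nat_lit 265)) (XT.nd (nat_lit 78) (nat_lit 0) (nat_lit 0) (XT.lf (nat_lit 0) (nat_lit 2445988027846) (nat_lit 152) (nat_lit 498508744183) (nat_lit 0) (nat_lit 2445526054144) (nat_lit 1) (nat_lit 5) (nat_lit 3) (nat_lit 4) (nat_lit 1) (nat_lit 4) (nat_lit 455) (nat_lit 301) (nat_lit 264)) (XT.lf (nat_lit 0) (nat_lit 2642631585840) (nat_lit 152) (nat_lit 536345210934)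 (nat_lit 0) (nat_lit 2642167505708) (nat_lit 1) (nat_lit 5) (nat_lit 3) (nat_lit 4) (nat_lit 1) (nat_lit 4) (nat_lit 456) (nat_lit 301) (nat_lit 263))))) (XT.nd (nat_lit 156) (nat_lit 0) (nat_lit 0) (XT.nd (nat_lit 78) (nat_lit 0) (nat_lit 0) (XT.lf (nat_lit 0) (nat_lit 2854999159284) (nat_lit 152) (nat_lit 577223806766) (nat_lit 0) (nat_lit 2854533128754) (nat_lit 1) (nat_lit 5) (nat_lit 3) (nat_lit 4) (nat_lit 1) (nat_lit 4) (nat_lit 457) (nat_lit 301) (nat_lit 262)) (XT.lf (nat_lit 0) (nat_lit 3084349222686) (nat_lit 152) (nat_lit 621386775209) (nat_lit 0) (nat_lit 3083881386232) (nat_lit 1) (nat_lit 5) (nat_lit 3) (nat_lit 4) (nat_lit 1) (nat_lit 4) (nat_lit 458) (nat_lit 301) (nat_lit 261))) (XT.nd (nat_lit 78) (nat_lit 0) (nat_lit 0) (XT.lf (nat_lit 0) (nat_lit 3332040887534) (nat_lit 152) (nat_lit 669095822743) (nat_lit 0) (nat_lit 3331571378928) (nat_lit 1) (nat_lit 5) (nat_lit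 3) (nat_lit 4) (nat_lit 1) (nat_lit 4) (nat_lit 459) (nat_lit 301) (nat_lit 260)) (XT.nd (nat_lit 78) (nat_lit 0) (nat_lit 0) (XT.lf (nat_lit 0) (nat_lit 3599541956286) (nat_lit 152) (nat_lit 720633669649) (nat_lit 0) (nat_lit 3599070899391) (nat_lit 1) (nat_lit 5) (nat_lit 3) (nat_lit 4) (nat_lit 1) (nat_lit 4) (nat_lit 460) (nat_lit 301) (nat_lit 259)) (XT.lf (nat_lit 0) (nat_lit 3888437620461) (nat_lit 152) (nat_lit 776305725391) (nat_lit 0) (nat_lit 3887965129965) (nat_lit 1) (nat_lit 5) (nat_lit 3) (nat_lit 4) (nat_lit 1) (nat_lit 4) (nat_lit 461) (nat_lit 301) (nat_lit 258))))))) (XT.nd (nat_lit 49998) (nat_lit 0) (nat_lit 0) (XT.nd (nat_lit 49608) (nat_lit 0) (nat_lit 0) (XT.nd (nat_lit 156) (nat_lit 0) (nat_lit 0) (XT.nd (nat_lit 78) (nat_lit 0) (nat_lit 0) (XT.lf (nat_lit 0) (nat_lit 4200439854365) (nat_lit 152) (nat_lit 836441898448) (nat_lit 0) (nat_lit 4199966036460) (nat_lit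 1) (nat_lit 5) (nat_lit 3) (nat_lit 4) (nat_lit 1) (nat_lit 4) (nat_lit 462) (nat_lit 301) (nat_lit 257)) (XT.lf (nat_lit 0) (nat_lit 4537397560124) (nat_lit 152) (nat_lit 901398551325) (nat_lit 0) (nat_lit 4536922513138) (nat_lit 1) (nat_lit 5) (nat_lit 3) (nat_lit 4) (nat_lit 1) (nat_lit 4) (nat_lit 463) (nat_lit 301) (nat_lit 256))) (XT.nd (nat_lit 78) (nat_lit 0) (nat_lit 0) (XT.lf (nat_lit 0) (nat_lit 4901307524143) (nat_lit 152) (nat_lit 971560612337) (nat_lit 0) (nat_lit 4900831339118) (nat_lit 1) (nat_lit 5) (nat_lit 3) (nat_lit 4) (nat_lit 1) (nat_lit 4) (nat_lit 464) (nat_lit 301) (nat_lit 255)) (XT.nd (nat_lit 49296) (nat_lit 0) (nat_lit 0) (XT.lf (nat_lit 0) (nat_lit 5294326249913) (nat_lit 152) (nat_lit 1047343856659) (nat_lit 0) (nat_lit 5293849011149) (nat_lit 1) (nat_lit 5) (nat_lit 3) (nat_lit 4) (nat_lit 1) (nat_lit 4) (nat_lit 465) (nat_lit 301) (nat_lit 254)) (XT.lf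 (nat_lit 0) (nat_lit 49159296726) (nat_lit 152) (nat_lit 36611602389) (nat_lit 0) (nat_lit 49159296726) (nat_lit 1) (nat_lit 5) (nat_lit 3) (nat_lit 4) (nat_lit 1) (nat_lit 4) (nat_lit 416) (nat_lit 302) (nat_lit 302))))) (XT.nd (nat_lit 156) (nat_lit 0) (nat_lit 0) (XT.nd (nat_lit 78) (nat_lit 0) (nat_lit 0) (XT.lf (nat_lit 0) (nat_lit 108994919415) (nat_lit 152) (nat_lit 73270218402) (nat_lit 0) (nat_lit 108955686574) (nat_lit 1) (nat_lit 5) (nat_lit 3) (nat_lit 4) (nat_lit 1) (nat_lit 4) (nat_lit 417) (nat_lit 302) (nat_lit 301)) (XT.lf (nat_lit 0) (nat_lit 120386235732) (nat_lit 152) (nat_lit 73604315970) (nat_lit 0) (nat_lit 120310676187) (nat_lit 1) (nat_lit 5) (nat_lit 3) (nat_lit 4) (nat_lit 1) (nat_lit 4) (nat_lit 418) (nat_lit 302) (nat_lit 300))) (XT.nd (nat_lit 78) (nat_lit 0) (nat_lit 0) (XT.lf (nat_lit 0) (nat_lit 132560046500) (nat_lit 152) (nat_lit 74227477318) (nat_lit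 0) (nat_lit 132450851118) (nat_lit 1) (nat_lit 5) (nat_lit 3) (nat_lit 4) (nat_lit 1) (nat_lit 4) (nat_lit 419) (nat_lit 302) (nat_lit 299)) (XT.nd (nat_lit 78) (nat_lit 0) (nat_lit 0) (XT.lf (nat_lit 0) (nat_lit 145588492821) (nat_lit 152) (nat_lit 75143395256) (nat_lit 0) (nat_lit 145448153145) (nat_lit 1) (nat_lit 5) (nat_lit 3) (nat_lit 4) (nat_lit 1) (nat_lit 4) (nat_lit 420) (nat_lit 302) (nat_lit 298)) (XT.lf (nat_lit 0) (nat_lit 159548780302) (nat_lit 152) (nat_lit 76357497444) (nat_lit 0) (nat_lit 159379603317) (nat_lit 1) (nat_lit 5) (nat_lit 3) (nat_lit 4) (nat_lit 1) (nat_lit 4) (nat_lit 421) (nat_lit 302) (nat_lit 297)))))) (XT.nd (nat_lit 390) (nat_lit 0) (nat_lit 0) (XT.nd (nat_lit 156) (nat_lit 0) (nat_lit 0) (XT.nd (nat_lit 78) (nat_lit 0) (nat_lit 0) (XT.lf (nat_lit 0) (nat_lit 174523636573) (nat_lit 152) (nat_lit 77876978563) (nat_lit 0) (nat_lit 174327758376) (nat_lit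 1) (nat_lit 5) (nat_lit 3) (nat_lit 4) (nat_lit 1) (nat_lit 4) (nat_lit 422) (nat_lit 302) (nat_lit 296)) (XT.lf (nat_lit 0) (nat_lit 190601801523) (nat_lit 152) (nat_lit 79710842945) (nat_lit 0) (nat_lit 190381199981) (nat_lit 1) (nat_lit 5) (nat_lit 3) (nat_lit 4) (nat_lit 1) (nat_lit 4) (nat_lit 423) (nat_lit 302) (nat_lit 295))) (XT.nd (nat_lit 78) (nat_lit 0) (nat_lit 0) (XT.lf (nat_lit 0) (nat_lit 207878553166) (nat_lit 152) (nat_lit 81869957934) (nat_lit 0) (nat_lit 207635059639) (nat_lit 1) (nat_lit 5) (nat_lit 3) (nat_lit 4) (nat_lit 1) (nat_lit 4) (nat_lit 424) (nat_lit 302) (nat_lit 294)) (XT.nd (nat_lit 78) (nat_lit 0) (nat_lit 0) (XT.lf (nat_lit 0) (nat_lit 226456272253) (nat_lit 152) (nat_lit 84367118287) (nat_lit 0) (nat_lit 226191582442) (nat_lit 1) (nat_lit 5) (nat_lit 3) (nat_lit 4) (nat_lit 1) (nat_lit 4) (nat_lit 425) (nat_lit 302) (nat_lit 293)) (XT.lf (nat_lit 0)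 (nat_lit 246445048970) (nat_lit 152) (nat_lit 87217121989) (nat_lit 0) (nat_lit 246160732972) (nat_lit 1) (nat_lit 5) (nat_lit 3) (nat_lit 4) (nat_lit 1) (nat_lit 4) (nat_lit 426) (nat_lit 302) (nat_lit 292))))) (XT.nd (nat_lit 234) (nat_lit 0) (nat_lit 0) (XT.nd (nat_lit 78) (nat_lit 0) (nat_lit 0) (XT.lf (nat_lit 0) (nat_lit 267963335329) (nat_lit 152) (nat_lit 90436857953) (nat_lit 0) (nat_lit 267660846935) (nat_lit 1) (nat_lit 5) (nat_lit 3) (nat_lit 4) (nat_lit 1) (nat_lit 4) (nat_lit 427) (nat_lit 302) (nat_lit 291)) (XT.nd (nat_lit 78) (nat_lit 0) (nat_lit 0) (XT.lf (nat_lit 0) (nat_lit 291138647100) (nat_lit 152) (nat_lit 94045406095) (nat_lit 0) (nat_lit 290819332413) (nat_lit 1) (nat_lit 5) (nat_lit 3) (nat_lit 4) (nat_lit 1) (nat_lit 4) (nat_lit 428) (nat_lit 302) (nat_lit 290)) (XT.lf (nat_lit 0) (nat_lit 316108319465) (nat_lit 152) (nat_lit 98064150404) (nat_lit 0) (nat_lit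 315773424876) (nat_lit 1) (nat_lit 5) (nat_lit 3) (nat_lit 4) (nat_lit 1) (nat_lit 4) (nat_lit 429) (nat_lit 302) (nat_lit 289)))) (XT.nd (nat_lit 78) (nat_lit 0) (nat_lit 0) (XT.lf (nat_lit 0) (nat_lit 343020320851) (nat_lit 152) (nat_lit 102516905661) (nat_lit 0) (nat_lit 342671000428) (nat_lit 1) (nat_lit 5) (nat_lit 3) (nat_lit 4) (nat_lit 1) (nat_lit 4) (nat_lit 430) (nat_lit 302) (nat_lit 288)) (XT.nd (nat_lit 78) (nat_lit 0) (nat_lit 0) (XT.lf (nat_lit 0) (nat_lit 372034129785) (nat_lit 152) (nat_lit 107430058563) (nat_lit 0) (nat_lit 371671452109) (nat_lit 1) (nat_lit 5) (nat_lit 3) (nat_lit 4) (nat_lit 1) (nat_lit 4) (nat_lit 431) (nat_lit 302) (nat_lit 287)) (XT.lf (nat_lit 0) (nat_lit 403321679951) (nat_lit 152) (nat_lit 112832724092) (nat_lit 0) (nat_lit 402946634447) (nat_lit 1) (nat_lit 5) (nat_lit 3) (nat_lit 4) (nat_lit 1) (nat_lit 4) (nat_lit 432) (nat_lit 302) (nat_lit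 286))))))))
noncomputable def xc15 : XT := (XT.nd (nat_lit 1638) (nat_lit 0) (nat_lit 0) (XT.nd (nat_lit 780) (nat_lit 0) (nat_lit 0) (XT.nd (nat_lit 390) (nat_lit 0) (nat_lit 0) (XT.nd (nat_lit 156) (nat_lit 0) (nat_lit 0) (XT.nd (nat_lit 78) (nat_lit 0) (nat_lit 0) (XT.lf (nat_lit 0) (nat_lit 437068379052) (nat_lit 152) (nat_lit 118756918043) (nat_lit 0) (nat_lit 436681881857) (nat_lit 1) (nat_lit 5) (nat_lit 3) (nat_lit 4) (nat_lit 1) (nat_lit 4) (nat_lit 433) (nat_lit 302) (nat_lit 285)) (XT.lf (nat_lit 0) (nat_lit 473474207529) (nat_lit 152) (nat_lit 125237746749) (nat_lit 0) (nat_lit 473077106914) (nat_lit 1) (nat_lit 5) (nat_lit 3) (nat_lit 4) (nat_lit 1) (nat_lit 4) (nat_lit 434) (nat_lit 302) (nat_lit 284))) (XT.nd (nat_lit 78) (nat_lit 0) (nat_lit 0) (XT.lf (nat_lit 0) (nat_lit 512754903623) (nat_lit 152) (nat_lit 132313615123) (nat_lit 0) (nat_lit 512347985029) (nat_lit 1) (nat_lit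 5) (nat_lit 3) (nat_lit 4) (nat_lit 1) (nat_lit 4) (nat_lit 435) (nat_lit 302) (nat_lit 283)) (XT.nd (nat_lit 78) (nat_lit 0) (nat_lit 0) (XT.lf (nat_lit 0) (nat_lit 555143241831) (nat_lit 152) (nat_lit 140026454236) (nat_lit 0) (nat_lit 554727232514) (nat_lit 1) (nat_lit 5) (nat_lit 3) (nat_lit 4) (nat_lit 1) (nat_lit 4) (nat_lit 436) (nat_lit 302) (nat_lit 282)) (XT.lf (nat_lit 0) (nat_lit 600890412304) (nat_lit 152) (nat_lit 148421969801) (nat_lit 0) (nat_lit 600465985651) (nat_lit 1) (nat_lit 5) (nat_lit 3) (nat_lit 4) (nat_lit 1) (nat_lit 4) (nat_lit 437) (nat_lit 302) (nat_lit 281))))) (XT.nd (nat_lit 156) (nat_lit 0) (nat_lit 0) (XT.nd (nat_lit 78) (nat_lit 0) (nat_lit 0) (XT.lf (nat_lit 0) (nat_lit 650267509386) (nat_lit 152) (nat_lit 157549913022) (nat_lit 0) (nat_lit 649835288904) (nat_lit 1) (nat_lit 5) (nat_lit 3) (nat_lit 4) (nat_lit 1) (nat_lit 4) (nat_lit 438) (nat_lit 302)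 (nat_lit 280)) (XT.lf (nat_lit 0) (nat_lit 703567138096) (nat_lit 152) (nat_lit 167464375413) (nat_lit 0) (nat_lit 703127701106) (nat_lit 1) (nat_lit 5) (nat_lit 3) (nat_lit 4) (nat_lit 1) (nat_lit 4) (nat_lit 439) (nat_lit 302) (nat_lit 279))) (XT.nd (nat_lit 78) (nat_lit 0) (nat_lit 0) (XT.lf (nat_lit 0) (nat_lit 761105148088) (nat_lit 152) (nat_lit 178224109345) (nat_lit 0) (nat_lit 760659029145) (nat_lit 1) (nat_lit 5) (nat_lit 3) (nat_lit 4) (nat_lit 1) (nat_lit 4) (nat_lit 440) (nat_lit 302) (nat_lit 278)) (XT.nd (nat_lit 78) (nat_lit 0) (nat_lit 0) (XT.lf (nat_lit 0) (nat_lit 823222505344) (nat_lit 152) (nat_lit 189892876205) (nat_lit 0) (nat_lit 822770199408) (nat_lit 1) (nat_lit 5) (nat_lit 3) (nat_lit 4) (nat_lit 1) (nat_lit 4) (nat_lit 441) (nat_lit 302) (nat_lit 277)) (XT.lf (nat_lit 0) (nat_lit 890287312725) (nat_lit 152) (nat_lit 202539824239) (nat_lit 0) (nat_lit 889829278091)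 (nat_lit 1) (nat_lit 5) (nat_lit 3) (nat_lit 4) (nat_lit 1) (nat_lit 4) (nat_lit 442) (nat_lit 302) (nat_lit 276)))))) (XT.nd (nat_lit 390) (nat_lit 0) (nat_lit 0) (XT.nd (nat_lit 156) (nat_lit 0) (nat_lit 0) (XT.nd (nat_lit 78) (nat_lit 0) (nat_lit 0) (XT.lf (nat_lit 0) (nat_lit 962696991309) (nat_lit 152) (nat_lit 216239898325) (nat_lit 0) (nat_lit 962233652326) (nat_lit 1) (nat_lit 5) (nat_lit 3) (nat_lit 4) (nat_lit 1) (nat_lit 4) (nat_lit 443) (nat_lit 302) (nat_lit 275)) (XT.lf (nat_lit 0) (nat_lit 1040880635489) (nat_lit 152) (nat_lit 231074284088) (nat_lit 0) (nat_lit 1040412385072) (nat_lit 1) (nat_lit 5) (nat_lit 3) (nat_lit 4) (nat_lit 1) (nat_lit 4) (nat_lit 444) (nat_lit 302) (nat_lit 274))) (XT.nd (nat_lit 78) (nat_lit 0) (nat_lit 0) (XT.lf (nat_lit 0) (nat_lit 1125301555749) (nat_lit 152) (nat_lit 247130888998) (nat_lit 0) (nat_lit 1124828757707) (nat_lit 1) (nat_lit 5)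 (nat_lit 3) (nat_lit 4) (nat_lit 1) (nat_lit 4) (nat_lit 445) (nat_lit 302) (nat_lit 273)) (XT.nd (nat_lit 78) (nat_lit 0) (nat_lit 0) (XT.lf (nat_lit 0) (nat_lit 1216460024208) (nat_lit 152) (nat_lit 264504863308) (nat_lit 0) (nat_lit 1215983015403) (nat_lit 1) (nat_lit 5) (nat_lit 3) (nat_lit 4) (nat_lit 1) (nat_lit 4) (nat_lit 446) (nat_lit 302) (nat_lit 272)) (XT.lf (nat_lit 0) (nat_lit 1314896239199) (nat_lit 152) (nat_lit 283299163901) (nat_lit 0) (nat_lit 1314415331539) (nat_lit 1) (nat_lit 5) (nat_lit 3) (nat_lit 4) (nat_lit 1) (nat_lit 4) (nat_lit 447) (nat_lit 302) (nat_lit 271))))) (XT.nd (nat_lit 234) (nat_lit 0) (nat_lit 0) (XT.nd (nat_lit 78) (nat_lit 0) (nat_lit 0) (XT.lf (nat_lit 0) (nat_lit 1421193526440) (nat_lit 152) (nat_lit 303625164411) (nat_lit 0) (nat_lit 1420709008729) (nat_lit 1) (nat_lit 5) (nat_lit 3) (nat_lit 4) (nat_lit 1) (nat_lit 4) (nat_lit 448) (nat_lit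 302) (nat_lit 270)) (XT.nd (nat_lit 78) (nat_lit 0) (nat_lit 0) (XT.lf (nat_lit 0) (nat_lit 1535981795781) (nat_lit 152) (nat_lit 325603315212) (nat_lit 0) (nat_lit 1535493935431) (nat_lit 1) (nat_lit 5) (nat_lit 3) (nat_lit 4) (nat_lit 1) (nat_lit 4) (nat_lit 449) (nat_lit 302) (nat_lit 269)) (XT.lf (nat_lit 0) (nat_lit 1659941274004) (nat_lit 152) (nat_lit 349363857196) (nat_lit 0) (nat_lit 1659450318617) (nat_lit 1) (nat_lit 5) (nat_lit 3) (nat_lit 4) (nat_lit 1) (nat_lit 4) (nat_lit 450) (nat_lit 302) (nat_lit 268)))) (XT.nd (nat_lit 78) (nat_lit 0) (nat_lit 0) (XT.lf (nat_lit 0) (nat_lit 1793806535794) (nat_lit 152) (nat_lit 375047593576) (nat_lit 0) (nat_lit 1793312714632) (nat_lit 1) (nat_lit 5) (nat_lit 3) (nat_lit 4) (nat_lit 1) (nat_lit 4) (nat_lit 451) (nat_lit 302) (nat_lit 267)) (XT.nd (nat_lit 78) (nat_lit 0) (nat_lit 0) (XT.lf (nat_lit 0) (nat_lit 1938370856777) (nat_lit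 152) (nat_lit 402806724271) (nat_lit 0) (nat_lit 1937874382119) (nat_lit 1) (nat_lit 5) (nat_lit 3) (nat_lit 4) (nat_lit 1) (nat_lit 4) (nat_lit 452) (nat_lit 302) (nat_lit 266)) (XT.lf (nat_lit 0) (nat_lit 2094490914410) (nat_lit 152) (nat_lit 432805747834) (nat_lit 0) (nat_lit 2093991982812) (nat_lit 1) (nat_lit 5) (nat_lit 3) (nat_lit 4) (nat_lit 1) (nat_lit 4) (nat_lit 453) (nat_lit 302) (nat_lit 265))))))) (XT.nd (nat_lit 780) (nat_lit 0) (nat_lit 0) (XT.nd (nat_lit 390) (nat_lit 0) (nat_lit 0) (XT.nd (nat_lit 156) (nat_lit 0) (nat_lit 0) (XT.nd (nat_lit 78) (nat_lit 0) (nat_lit 0) (XT.lf (nat_lit 0) (nat_lit 2263091864590) (nat_lit 152) (nat_lit 465222436255) (nat_lit 0) (nat_lit 2262590658048) (nat_lit 1) (nat_lit 5) (nat_lit 3) (nat_lit 4) (nat_lit 1) (nat_lit 4) (nat_lit 454) (nat_lit 302) (nat_lit 264)) (XT.lf (nat_lit 0) (nat_lit 2445172824060) (nat_lit 152) (nat_lit 500248888429)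 (nat_lit 0) (nat_lit 2444669511088) (nat_lit 1) (nat_lit 5) (nat_lit 3) (nat_lit 4) (nat_lit 1) (nat_lit 4) (nat_lit 455) (nat_lit 302) (nat_lit 263))) (XT.nd (nat_lit 78) (nat_lit 0) (nat_lit 0) (XT.lf (nat_lit 0) (nat_lit 2641812791097) (nat_lit 152) (nat_lit 538092668517) (nat_lit 0) (nat_lit 2641307527727) (nat_lit 1) (nat_lit 5) (nat_lit 3) (nat_lit 4) (nat_lit 1) (nat_lit 4) (nat_lit 456) (nat_lit 302) (nat_lit 262)) (XT.nd (nat_lit 78) (nat_lit 0) (nat_lit 0) (XT.lf (nat_lit 0) (nat_lit 2854177039581) (nat_lit 152) (nat_lit 578978035957) (nat_lit 0) (nat_lit 2853669970286) (nat_lit 1) (nat_lit 5) (nat_lit 3) (nat_lit 4) (nat_lit 1) (nat_lit 4) (nat_lit 457) (nat_lit 302) (nat_lit 261)) (XT.lf (nat_lit 0) (nat_lit 3083524024317) (nat_lit 152) (nat_lit 623147274407) (nat_lit 0) (nat_lit 3083015282870) (nat_lit 1) (nat_lit 5) (nat_lit 3) (nat_lit 4) (nat_lit 1) (nat_lit 4) (nat_lit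 458) (nat_lit 302) (nat_lit 260))))) (XT.nd (nat_lit 156) (nat_lit 0) (nat_lit 0) (XT.nd (nat_lit 78) (nat_lit 0) (nat_lit 0) (XT.lf (nat_lit 0) (nat_lit 3331212838548) (nat_lit 152) (nat_lit 670862127504) (nat_lit 0) (nat_lit 3330702548812) (nat_lit 1) (nat_lit 5) (nat_lit 3) (nat_lit 4) (nat_lit 1) (nat_lit 4) (nat_lit 459) (nat_lit 302) (nat_lit 259)) (XT.lf (nat_lit 0) (nat_lit 3598711267840) (nat_lit 152) (nat_lit 722405349931) (nat_lit 0) (nat_lit 3598199544503) (nat_lit 1) (nat_lit 5) (nat_lit 3) (nat_lit 4) (nat_lit 1) (nat_lit 4) (nat_lit 460) (nat_lit 302) (nat_lit 258))) (XT.nd (nat_lit 78) (nat_lit 0) (nat_lit 0) (XT.lf (nat_lit 0) (nat_lit 3887604488070) (nat_lit 152) (nat_lit 778082383007) (nat_lit 0) (nat_lit 3887091437325) (nat_lit 1) (nat_lit 5) (nat_lit 3) (nat_lit 4) (nat_lit 1) (nat_lit 4) (nat_lit 461) (nat_lit 302) (nat_lit 257)) (XT.nd (nat_lit 78) (nat_lit 0) (nat_lit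 0) (XT.lf (nat_lit 0) (nat_lit 4199604459061) (nat_lit 152) (nat_lit 838223164706) (nat_lit 0) (nat_lit 4199090179235) (nat_lit 1) (nat_lit 5) (nat_lit 3) (nat_lit 4) (nat_lit 1) (nat_lit 4) (nat_lit 462) (nat_lit 302) (nat_lit 256)) (XT.lf (nat_lit 0) (nat_lit 4536560069532) (nat_lit 152) (nat_lit 903184084845) (nat_lit 0) (nat_lit 4536044651666) (nat_lit 1) (nat_lit 5) (nat_lit 3) (nat_lit 4) (nat_lit 1) (nat_lit 4) (nat_lit 463) (nat_lit 302) (nat_lit 255)))))) (XT.nd (nat_lit 49452) (nat_lit 0) (nat_lit 0) (XT.nd (nat_lit 49218) (nat_lit 0) (nat_lit 0) (XT.nd (nat_lit 78) (nat_lit 0) (nat_lit 0) (XT.lf (nat_lit 0) (nat_lit 4900468093469) (nat_lit 152) (nat_lit 973350097025) (nat_lit 0) (nat_lit 4899951621864) (nat_lit 1) (nat_lit 5) (nat_lit 3) (nat_lit 4) (nat_lit 1) (nat_lit 4) (nat_lit 464) (nat_lit 302) (nat_lit 254)) (XT.lf (nat_lit 0) (nat_lit 5293485022866) (nat_lit 152) (nat_lit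 1049136999836) (nat_lit 0) (nat_lit 5292967575577) (nat_lit 1) (nat_lit 5) (nat_lit 3) (nat_lit 4) (nat_lit 1) (nat_lit 4) (nat_lit 465) (nat_lit 302) (nat_lit 253))) (XT.nd (nat_lit 78) (nat_lit 0) (nat_lit 0) (XT.lf (nat_lit 0) (nat_lit 39491044737) (nat_lit 152) (nat_lit 36916067906) (nat_lit 0) (nat_lit 39491044737) (nat_lit 1) (nat_lit 5) (nat_lit 3) (nat_lit 4) (nat_lit 1) (nat_lit 4) (nat_lit 414) (nat_lit 303) (nat_lit 303)) (XT.nd (nat_lit 78) (nat_lit 0) (nat_lit 0) (XT.lf (nat_lit 0) (nat_lit 88336362197) (nat_lit 152) (nat_lit 73462996499) (nat_lit 0) (nat_lit 88293990729) (nat_lit 1) (nat_lit 5) (nat_lit 3) (nat_lit 4) (nat_lit 1) (nat_lit 4) (nat_lit 415) (nat_lit 303) (nat_lit 302)) (XT.lf (nat_lit 0) (nat_lit 98288731757) (nat_lit 152) (nat_lit 73370314722) (nat_lit 0) (nat_lit 98207127449) (nat_lit 1) (nat_lit 5) (nat_lit 3) (nat_lit 4) (nat_lit 1) (nat_lit 4) (nat_lit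 416) (nat_lit 303) (nat_lit 301))))) (XT.nd (nat_lit 234) (nat_lit 0) (nat_lit 0) (XT.nd (nat_lit 78) (nat_lit 0) (nat_lit 0) (XT.lf (nat_lit 0) (nat_lit 108898175161) (nat_lit 152) (nat_lit 73553541256) (nat_lit 0) (nat_lit 108780244148) (nat_lit 1) (nat_lit 5) (nat_lit 3) (nat_lit 4) (nat_lit 1) (nat_lit 4) (nat_lit 417) (nat_lit 303) (nat_lit 300)) (XT.nd (nat_lit 78) (nat_lit 0) (nat_lit 0) (XT.lf (nat_lit 0) (nat_lit 120227563182) (nat_lit 152) (nat_lit 74013761889) (nat_lit 0) (nat_lit 120075996332) (nat_lit 1) (nat_lit 5) (nat_lit 3) (nat_lit 4) (nat_lit 1) (nat_lit 4) (nat_lit 418) (nat_lit 303) (nat_lit 299)) (XT.lf (nat_lit 0) (nat_lit 132344032937) (nat_lit 152) (nat_lit 74753703853) (nat_lit 0) (nat_lit 132161321793) (nat_lit 1) (nat_lit 5) (nat_lit 3) (nat_lit 4) (nat_lit 1) (nat_lit 4) (nat_lit 419) (nat_lit 303) (nat_lit 298)))) (XT.nd (nat_lit 78) (nat_lit 0) (nat_lit 0)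 (XT.lf (nat_lit 0) (nat_lit 145319385726) (nat_lit 152) (nat_lit 75777751990) (nat_lit 0) (nat_lit 145107837274) (nat_lit 1) (nat_lit 5) (nat_lit 3) (nat_lit 4) (nat_lit 1) (nat_lit 4) (nat_lit 420) (nat_lit 303) (nat_lit 297)) (XT.nd (nat_lit 78) (nat_lit 0) (nat_lit 0) (XT.lf (nat_lit 0) (nat_lit 159230512530) (nat_lit 152) (nat_lit 77091974734) (nat_lit 0) (nat_lit 158992262865) (nat_lit 1) (nat_lit 5) (nat_lit 3) (nat_lit 4) (nat_lit 1) (nat_lit 4) (nat_lit 421) (nat_lit 303) (nat_lit 296)) (XT.lf (nat_lit 0) (nat_lit 174159849656) (nat_lit 152) (nat_lit 78704160071) (nat_lit 0) (nat_lit 173896876646) (nat_lit 1) (nat_lit 5) (nat_lit 3) (nat_lit 4) (nat_lit 1) (nat_lit 4) (nat_lit 422) (nat_lit 303) (nat_lit 295))))))))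
noncomputable def xc16 : XT := (XT.nd (nat_lit 1560) (nat_lit 0) (nat_lit 0) (XT.nd (nat_lit 780) (nat_lit 0) (nat_lit 0) (XT.nd (nat_lit 390) (nat_lit 0) (nat_lit 0) (XT.nd (nat_lit 156) (nat_lit 0) (nat_lit 0) (XT.nd (nat_lit 78) (nat_lit 0) (nat_lit 0) (XT.lf (nat_lit 0) (nat_lit 190195867248) (nat_lit 152) (nat_lit 80623861692) (nat_lit 0) (nat_lit 189910002253) (nat_lit 1) (nat_lit 5) (nat_lit 3) (nat_lit 4) (nat_lit 1) (nat_lit 4) (nat_lit 423) (nat_lit 303) (nat_lit 294)) (XT.lf (nat_lit 0) (nat_lit 207433593561) (nat_lit 152) (nat_lit 82862455606) (nat_lit 0) (nat_lit 207126532283) (nat_lit 1) (nat_lit 5) (nat_lit 3) (nat_lit 4) (nat_lit 1) (nat_lit 4) (nat_lit 424) (nat_lit 303) (nat_lit 293))) (XT.nd (nat_lit 78) (nat_lit 0) (nat_lit 0) (XT.lf (nat_lit 0) (nat_lit 225975178082) (nat_lit 152) (nat_lit 85433207556) (nat_lit 0) (nat_lit 225648490616) (nat_lit 1) (nat_lit 5) (nat_lit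 3) (nat_lit 4) (nat_lit 1) (nat_lit 4) (nat_lit 425) (nat_lit 303) (nat_lit 292)) (XT.nd (nat_lit 78) (nat_lit 0) (nat_lit 0) (XT.lf (nat_lit 0) (nat_lit 245930496869) (nat_lit 152) (nat_lit 88351351626) (nat_lit 0) (nat_lit 245585637007) (nat_lit 1) (nat_lit 5) (nat_lit 3) (nat_lit 4) (nat_lit 1) (nat_lit 4) (nat_lit 426) (nat_lit 303) (nat_lit 291)) (XT.lf (nat_lit 0) (nat_lit 267417803662) (nat_lit 152) (nat_lit 91634180523) (nat_lit 0) (nat_lit 267056117507) (nat_lit 1) (nat_lit 5) (nat_lit 3) (nat_lit 4) (nat_lit 1) (nat_lit 4) (nat_lit 427) (nat_lit 303) (nat_lit 290))))) (XT.nd (nat_lit 156) (nat_lit 0) (nat_lit 0) (XT.nd (nat_lit 78) (nat_lit 0) (nat_lit 0) (XT.lf (nat_lit 0) (nat_lit 290564430650) (nat_lit 152) (nat_lit 95301148048) (nat_lit 0) (nat_lit 290187164594) (nat_lit 1) (nat_lit 5) (nat_lit 3) (nat_lit 4) (nat_lit 1) (nat_lit 4) (nat_lit 428) (nat_lit 303) (nat_lit 289))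 (XT.lf (nat_lit 0) (nat_lit 315507543030) (nat_lit 152) (nat_lit 99373984377) (nat_lit 0) (nat_lit 315115851140) (nat_lit 1) (nat_lit 5) (nat_lit 3) (nat_lit 4) (nat_lit 1) (nat_lit 4) (nat_lit 429) (nat_lit 303) (nat_lit 288))) (XT.nd (nat_lit 78) (nat_lit 0) (nat_lit 0) (XT.lf (nat_lit 0) (nat_lit 342394951838) (nat_lit 152) (nat_lit 103876824839) (nat_lit 0) (nat_lit 341989902694) (nat_lit 1) (nat_lit 5) (nat_lit 3) (nat_lit 4) (nat_lit 1) (nat_lit 4) (nat_lit 430) (nat_lit 303) (nat_lit 287)) (XT.nd (nat_lit 78) (nat_lit 0) (nat_lit 0) (XT.lf (nat_lit 0) (nat_lit 371385989867) (nat_lit 152) (nat_lit 108836352931) (nat_lit 0) (nat_lit 370968572896) (nat_lit 1) (nat_lit 5) (nat_lit 3) (nat_lit 4) (nat_lit 1) (nat_lit 4) (nat_lit 431) (nat_lit 303) (nat_lit 286)) (XT.lf (nat_lit 0) (nat_lit 402652455861) (nat_lit 152) (nat_lit 114281958450) (nat_lit 0) (nat_lit 402223587197) (nat_lit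 1) (nat_lit 5) (nat_lit 3) (nat_lit 4) (nat_lit 1) (nat_lit 4) (nat_lit 432) (nat_lit 303) (nat_lit 285)))))) (XT.nd (nat_lit 390) (nat_lit 0) (nat_lit 0) (XT.nd (nat_lit 156) (nat_lit 0) (nat_lit 0) (XT.nd (nat_lit 78) (nat_lit 0) (nat_lit 0) (XT.lf (nat_lit 0) (nat_lit 436379632581) (nat_lit 152) (nat_lit 120245911650) (nat_lit 0) (nat_lit 435940160499) (nat_lit 1) (nat_lit 5) (nat_lit 3) (nat_lit 4) (nat_lit 1) (nat_lit 4) (nat_lit 433) (nat_lit 303) (nat_lit 284)) (XT.lf (nat_lit 0) (nat_lit 472767384779) (nat_lit 152) (nat_lit 126763554477) (nat_lit 0) (nat_lit 472318094716) (nat_lit 1) (nat_lit 5) (nat_lit 3) (nat_lit 4) (nat_lit 1) (nat_lit 4) (nat_lit 434) (nat_lit 303) (nat_lit 283))) (XT.nd (nat_lit 78) (nat_lit 0) (nat_lit 0) (XT.lf (nat_lit 0) (nat_lit 512031343578) (nat_lit 152) (nat_lit 133873510000) (nat_lit 0) (nat_lit 511572962793) (nat_lit 1) (nat_lit 5) (nat_lit 3) (nat_lit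 4) (nat_lit 1) (nat_lit 4) (nat_lit 435) (nat_lit 303) (nat_lit 282)) (XT.nd (nat_lit 78) (nat_lit 0) (nat_lit 0) (XT.lf (nat_lit 0) (nat_lit 554404184289) (nat_lit 152) (nat_lit 141617911287) (nat_lit 0) (nat_lit 553937386169) (nat_lit 1) (nat_lit 5) (nat_lit 3) (nat_lit 4) (nat_lit 1) (nat_lit 4) (nat_lit 436) (nat_lit 303) (nat_lit 281)) (XT.lf (nat_lit 0) (nat_lit 600137005229) (nat_lit 152) (nat_lit 150042651088) (nat_lit 0) (nat_lit 599662413279) (nat_lit 1) (nat_lit 5) (nat_lit 3) (nat_lit 4) (nat_lit 1) (nat_lit 4) (nat_lit 437) (nat_lit 303) (nat_lit 280))))) (XT.nd (nat_lit 156) (nat_lit 0) (nat_lit 0) (XT.nd (nat_lit 78) (nat_lit 0) (nat_lit 0) (XT.lf (nat_lit 0) (nat_lit 649500815707) (nat_lit 152) (nat_lit 159197653786) (nat_lit 0) (nat_lit 649019007248) (nat_lit 1) (nat_lit 5) (nat_lit 3) (nat_lit 4) (nat_lit 1) (nat_lit 4) (nat_lit 438) (nat_lit 303) (nat_lit 279)) (XT.lf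 (nat_lit 0) (nat_lit 702788142006) (nat_lit 152) (nat_lit 169137171249) (nat_lit 0) (nat_lit 702299651595) (nat_lit 1) (nat_lit 5) (nat_lit 3) (nat_lit 4) (nat_lit 1) (nat_lit 4) (nat_lit 439) (nat_lit 303) (nat_lit 278))) (XT.nd (nat_lit 78) (nat_lit 0) (nat_lit 0) (XT.lf (nat_lit 0) (nat_lit 760314760875) (nat_lit 152) (nat_lit 179920104322) (nat_lit 0) (nat_lit 759820083471) (nat_lit 1) (nat_lit 5) (nat_lit 3) (nat_lit 4) (nat_lit 1) (nat_lit 4) (nat_lit 440) (nat_lit 303) (nat_lit 277)) (XT.nd (nat_lit 78) (nat_lit 0) (nat_lit 0) (XT.lf (nat_lit 0) (nat_lit 822421570796) (nat_lit 152) (nat_lit 191610351867) (nat_lit 0) (nat_lit 821921164695) (nat_lit 1) (nat_lit 5) (nat_lit 3) (nat_lit 4) (nat_lit 1) (nat_lit 4) (nat_lit 441) (nat_lit 303) (nat_lit 276)) (XT.lf (nat_lit 0) (nat_lit 889476612125) (nat_lit 152) (nat_lit 204277189425) (nat_lit 0) (nat_lit 888970901675) (nat_lit 1) (nat_lit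 5) (nat_lit 3) (nat_lit 4) (nat_lit 1) (nat_lit 4) (nat_lit 442) (nat_lit 303) (nat_lit 275))))))) (XT.nd (nat_lit 780) (nat_lit 0) (nat_lit 0) (XT.nd (nat_lit 390) (nat_lit 0) (nat_lit 0) (XT.nd (nat_lit 156) (nat_lit 0) (nat_lit 0) (XT.nd (nat_lit 78) (nat_lit 0) (nat_lit 0) (XT.lf (nat_lit 0) (nat_lit 961877248070) (nat_lit 152) (nat_lit 217995679737) (nat_lit 0) (nat_lit 961366626185) (nat_lit 1) (nat_lit 5) (nat_lit 3) (nat_lit 4) (nat_lit 1) (nat_lit 4) (nat_lit 443) (nat_lit 303) (nat_lit 274)) (XT.lf (nat_lit 0) (nat_lit 1040052519435) (nat_lit 152) (nat_lit 232847117561) (nat_lit 0) (nat_lit 1039537349926) (nat_lit 1) (nat_lit 5) (nat_lit 3) (nat_lit 4) (nat_lit 1) (nat_lit 4) (nat_lit 444) (nat_lit 303) (nat_lit 273))) (XT.nd (nat_lit 78) (nat_lit 0) (nat_lit 0) (XT.lf (nat_lit 0) (nat_lit 1124465687089) (nat_lit 152) (nat_lit 248919511417) (nat_lit 0) (nat_lit 1123946306816)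 (nat_lit 1) (nat_lit 5) (nat_lit 3) (nat_lit 4) (nat_lit 1) (nat_lit 4) (nat_lit 445) (nat_lit 303) (nat_lit 272)) (XT.nd (nat_lit 78) (nat_lit 0) (nat_lit 0) (XT.lf (nat_lit 0) (nat_lit 1215616977209) (nat_lit 152) (nat_lit 266308105120) (nat_lit 0) (nat_lit 1215093698081) (nat_lit 1) (nat_lit 5) (nat_lit 3) (nat_lit 4) (nat_lit 1) (nat_lit 4) (nat_lit 446) (nat_lit 303) (nat_lit 271)) (XT.lf (nat_lit 0) (nat_lit 1314046545590) (nat_lit 152) (nat_lit 285115942189) (nat_lit 0) (nat_lit 1313519656411) (nat_lit 1) (nat_lit 5) (nat_lit 3) (nat_lit 4) (nat_lit 1) (nat_lit 4) (nat_lit 447) (nat_lit 303) (nat_lit 270))))) (XT.nd (nat_lit 156) (nat_lit 0) (nat_lit 0) (XT.nd (nat_lit 78) (nat_lit 0) (nat_lit 0) (XT.lf (nat_lit 0) (nat_lit 1420337678562) (nat_lit 152) (nat_lit 305454476473) (nat_lit 0) (nat_lit 1419807446744) (nat_lit 1) (nat_lit 5) (nat_lit 3) (nat_lit 4) (nat_lit 1) (nat_lit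 4) (nat_lit 448) (nat_lit 303) (nat_lit 269)) (XT.lf (nat_lit 0) (nat_lit 1535120249506) (nat_lit 152) (nat_lit 327444232619) (nat_lit 0) (nat_lit 1534586922651) (nat_lit 1) (nat_lit 5) (nat_lit 3) (nat_lit 4) (nat_lit 1) (nat_lit 4) (nat_lit 449) (nat_lit 303) (nat_lit 268))) (XT.nd (nat_lit 78) (nat_lit 0) (nat_lit 0) (XT.lf (nat_lit 0) (nat_lit 1659074451435) (nat_lit 152) (nat_lit 351215520295) (nat_lit 0) (nat_lit 1658538258805) (nat_lit 1) (nat_lit 5) (nat_lit 3) (nat_lit 4) (nat_lit 1) (nat_lit 4) (nat_lit 450) (nat_lit 303) (nat_lit 267)) (XT.nd (nat_lit 78) (nat_lit 0) (nat_lit 0) (XT.lf (nat_lit 0) (nat_lit 1792934827768) (nat_lit 152) (nat_lit 376909206388) (nat_lit 0) (nat_lit 1792395981643) (nat_lit 1) (nat_lit 5) (nat_lit 3) (nat_lit 4) (nat_lit 1) (nat_lit 4) (nat_lit 451) (nat_lit 303) (nat_lit 266)) (XT.lf (nat_lit 0) (nat_lit 1937494625180) (nat_lit 152) (nat_lit 404677549781)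 (nat_lit 0) (nat_lit 1936953322114) (nat_lit 1) (nat_lit 5) (nat_lit 3) (nat_lit 4) (nat_lit 1) (nat_lit 4) (nat_lit 452) (nat_lit 303) (nat_lit 265)))))) (XT.nd (nat_lit 390) (nat_lit 0) (nat_lit 0) (XT.nd (nat_lit 156) (nat_lit 0) (nat_lit 0) (XT.nd (nat_lit 78) (nat_lit 0) (nat_lit 0) (XT.lf (nat_lit 0) (nat_lit 2093610494321) (nat_lit 152) (nat_lit 434685103620) (nat_lit 0) (nat_lit 2093066916311) (nat_lit 1) (nat_lit 5) (nat_lit 3) (nat_lit 4) (nat_lit 1) (nat_lit 4) (nat_lit 453) (nat_lit 303) (nat_lit 264)) (XT.lf (nat_lit 0) (nat_lit 2262207566268) (nat_lit 152) (nat_lit 467109690444) (nat_lit 0) (nat_lit 2261661881828) (nat_lit 1) (nat_lit 5) (nat_lit 3) (nat_lit 4) (nat_lit 1) (nat_lit 4) (nat_lit 454) (nat_lit 303) (nat_lit 263))) (XT.nd (nat_lit 78) (nat_lit 0) (nat_lit 0) (XT.lf (nat_lit 0) (nat_lit 2444284934781) (nat_lit 152) (nat_lit 502143455955) (nat_lit 0) (nat_lit 2443737299943)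 (nat_lit 1) (nat_lit 5) (nat_lit 3) (nat_lit 4) (nat_lit 1) (nat_lit 4) (nat_lit 455) (nat_lit 303) (nat_lit 262)) (XT.nd (nat_lit 78) (nat_lit 0) (nat_lit 0) (XT.lf (nat_lit 0) (nat_lit 2640921576859) (nat_lit 152) (nat_lit 539994007651) (nat_lit 0) (nat_lit 2640372136096) (nat_lit 1) (nat_lit 5) (nat_lit 3) (nat_lit 4) (nat_lit 1) (nat_lit 4) (nat_lit 456) (nat_lit 303) (nat_lit 261)) (XT.lf (nat_lit 0) (nat_lit 2853282746676) (nat_lit 152) (nat_lit 580885645098) (nat_lit 0) (nat_lit 2852731633761) (nat_lit 1) (nat_lit 5) (nat_lit 3) (nat_lit 4) (nat_lit 1) (nat_lit 4) (nat_lit 457) (nat_lit 303) (nat_lit 260))))) (XT.nd (nat_lit 234) (nat_lit 0) (nat_lit 0) (XT.nd (nat_lit 78) (nat_lit 0) (nat_lit 0) (XT.lf (nat_lit 0) (nat_lit 3082626880794) (nat_lit 152) (nat_lit 625060689111) (nat_lit 0) (nat_lit 3082074219591) (nat_lit 1) (nat_lit 5) (nat_lit 3) (nat_lit 4) (nat_lit 1) (nat_lit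 4) (nat_lit 458) (nat_lit 303) (nat_lit 259)) (XT.nd (nat_lit 78) (nat_lit 0) (nat_lit 0) (XT.lf (nat_lit 0) (nat_lit 3330313055565) (nat_lit 152) (nat_lit 672780917728) (nat_lit 0) (nat_lit 3329758960760) (nat_lit 1) (nat_lit 5) (nat_lit 3) (nat_lit 4) (nat_lit 1) (nat_lit 4) (nat_lit 459) (nat_lit 303) (nat_lit 258)) (XT.lf (nat_lit 0) (nat_lit 3597809040912) (nat_lit 152) (nat_lit 724329117489) (nat_lit 0) (nat_lit 3597253618699) (nat_lit 1) (nat_lit 5) (nat_lit 3) (nat_lit 4) (nat_lit 1) (nat_lit 4) (nat_lit 460) (nat_lit 303) (nat_lit 257)))) (XT.nd (nat_lit 78) (nat_lit 0) (nat_lit 0) (XT.lf (nat_lit 0) (nat_lit 3886699998230) (nat_lit 152) (nat_lit 780010759208) (nat_lit 0) (nat_lit 3886143346936) (nat_lit 1) (nat_lit 5) (nat_lit 3) (nat_lit 4) (nat_lit 1) (nat_lit 4) (nat_lit 461) (nat_lit 303) (nat_lit 256)) (XT.nd (nat_lit 78) (nat_lit 0) (nat_lit 0) (XT.lf (nat_lit 0) (nat_lit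 4198697873933) (nat_lit 152) (nat_lit 840155808169) (nat_lit 0) (nat_lit 4198140084600) (nat_lit 1) (nat_lit 5) (nat_lit 3) (nat_lit 4) (nat_lit 1) (nat_lit 4) (nat_lit 462) (nat_lit 303) (nat_lit 255)) (XT.lf (nat_lit 0) (nat_lit 4535651544321) (nat_lit 152) (nat_lit 905120679476) (nat_lit 0) (nat_lit 4535092701249) (nat_lit 1) (nat_lit 5) (nat_lit 3) (nat_lit 4) (nat_lit 1) (nat_lit 4) (nat_lit 463) (nat_lit 303) (nat_lit 254))))))))
noncomputable def xc17 : XT := (XT.nd (nat_lit 50466) (nat_lit 0) (nat_lit 0) (XT.nd (nat_lit 49686) (nat_lit 0) (nat_lit 0) (XT.nd (nat_lit 49296) (nat_lit 0) (nat_lit 0) (XT.nd (nat_lit 49062) (nat_lit 0) (nat_lit 0) (XT.nd (nat_lit 78) (nat_lit 0) (nat_lit 0) (XT.lf (nat_lit 0) (nat_lit 4899557771886) (nat_lit 152) (nat_lit 975290350145) (nat_lit 0) (nat_lit 4898997953129) (nat_lit 1) (nat_lit 5) (nat_lit 3) (nat_lit 4) (nat_lit 1) (nat_lit 4) (nat_lit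 464) (nat_lit 303) (nat_lit 253)) (XT.lf (nat_lit 0) (nat_lit 5292573037976) (nat_lit 152) (nat_lit 1051080640446) (nat_lit 0) (nat_lit 5292012315807) (nat_lit 1) (nat_lit 5) (nat_lit 3) (nat_lit 4) (nat_lit 1) (nat_lit 4) (nat_lit 465) (nat_lit 303) (nat_lit 252))) (XT.nd (nat_lit 78) (nat_lit 0) (nat_lit 0) (XT.lf (nat_lit 0) (nat_lit 30989666684) (nat_lit 152) (nat_lit 37619299606) (nat_lit 0) (nat_lit 30989666684) (nat_lit 1) (nat_lit 5) (nat_lit 3) (nat_lit 4) (nat_lit 1) (nat_lit 4) (nat_lit 412) (nat_lit 304) (nat_lit 304)) (XT.nd (nat_lit 78) (nat_lit 0) (nat_lit 0) (XT.lf (nat_lit 0) (nat_lit 70216242048) (nat_lit 152) (nat_lit 74479920156) (nat_lit 0) (nat_lit 70170480863) (nat_lit 1) (nat_lit 5) (nat_lit 3) (nat_lit 4) (nat_lit 1) (nat_lit 4) (nat_lit 413) (nat_lit 304) (nat_lit 303)) (XT.lf (nat_lit 0) (nat_lit 78949838843) (nat_lit 152) (nat_lit 73991014552) (nat_lit 0) (nat_lit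 78861706190) (nat_lit 1) (nat_lit 5) (nat_lit 3) (nat_lit 4) (nat_lit 1) (nat_lit 4) (nat_lit 414) (nat_lit 304) (nat_lit 302))))) (XT.nd (nat_lit 156) (nat_lit 0) (nat_lit 0) (XT.nd (nat_lit 78) (nat_lit 0) (nat_lit 0) (XT.lf (nat_lit 0) (nat_lit 88231878402) (nat_lit 152) (nat_lit 73768985181) (nat_lit 0) (nat_lit 88104512909) (nat_lit 1) (nat_lit 5) (nat_lit 3) (nat_lit 4) (nat_lit 1) (nat_lit 4) (nat_lit 415) (nat_lit 304) (nat_lit 301)) (XT.lf (nat_lit 0) (nat_lit 98117365404) (nat_lit 152) (nat_lit 73812516314) (nat_lit 0) (nat_lit 97953673206) (nat_lit 1) (nat_lit 5) (nat_lit 3) (nat_lit 4) (nat_lit 1) (nat_lit 4) (nat_lit 416) (nat_lit 304) (nat_lit 300))) (XT.nd (nat_lit 78) (nat_lit 0) (nat_lit 0) (XT.lf (nat_lit 0) (nat_lit 108664880512) (nat_lit 152) (nat_lit 74121865913) (nat_lit 0) (nat_lit 108467552477) (nat_lit 1) (nat_lit 5) (nat_lit 3) (nat_lit 4) (nat_lit 1) (nat_lit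 4) (nat_lit 417) (nat_lit 304) (nat_lit 299)) (XT.nd (nat_lit 78) (nat_lit 0) (nat_lit 0) (XT.lf (nat_lit 0) (nat_lit 119936927520) (nat_lit 152) (nat_lit 74698867162) (nat_lit 0) (nat_lit 119708455191) (nat_lit 1) (nat_lit 5) (nat_lit 3) (nat_lit 4) (nat_lit 1) (nat_lit 4) (nat_lit 418) (nat_lit 304) (nat_lit 298)) (XT.lf (nat_lit 0) (nat_lit 132000303743) (nat_lit 152) (nat_lit 75546939326) (nat_lit 0) (nat_lit 131742994105) (nat_lit 1) (nat_lit 5) (nat_lit 3) (nat_lit 4) (nat_lit 1) (nat_lit 4) (nat_lit 419) (nat_lit 304) (nat_lit 297)))))) (XT.nd (nat_lit 390) (nat_lit 0) (nat_lit 0) (XT.nd (nat_lit 156) (nat_lit 0) (nat_lit 0) (XT.nd (nat_lit 78) (nat_lit 0) (nat_lit 0) (XT.lf (nat_lit 0) (nat_lit 144926495855) (nat_lit 152) (nat_lit 76671108019) (nat_lit 0) (nat_lit 144642485005) (nat_lit 1) (nat_lit 5) (nat_lit 3) (nat_lit 4) (nat_lit 1) (nat_lit 4) (nat_lit 420) (nat_lit 304) (nat_lit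 296)) (XT.lf (nat_lit 0) (nat_lit 158792103514) (nat_lit 152) (nat_lit 78078034981) (nat_lit 0) (nat_lit 158483369319) (nat_lit 1) (nat_lit 5) (nat_lit 3) (nat_lit 4) (nat_lit 1) (nat_lit 4) (nat_lit 421) (nat_lit 304) (nat_lit 295))) (XT.nd (nat_lit 78) (nat_lit 0) (nat_lit 0) (XT.lf (nat_lit 0) (nat_lit 173679293282) (nat_lit 152) (nat_lit 79776057557) (nat_lit 0) (nat_lit 173347667102) (nat_lit 1) (nat_lit 5) (nat_lit 3) (nat_lit 4) (nat_lit 1) (nat_lit 4) (nat_lit 422) (nat_lit 304) (nat_lit 294)) (XT.nd (nat_lit 78) (nat_lit 0) (nat_lit 0) (XT.lf (nat_lit 0) (nat_lit 189676285544) (nat_lit 152) (nat_lit 81775238103) (nat_lit 0) (nat_lit 189323463081) (nat_lit 1) (nat_lit 5) (nat_lit 3) (nat_lit 4) (nat_lit 1) (nat_lit 4) (nat_lit 423) (nat_lit 304) (nat_lit 293)) (XT.lf (nat_lit 0) (nat_lit 206877877291) (nat_lit 152) (nat_lit 84087423614) (nat_lit 0) (nat_lit 206505428640) (nat_lit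 1) (nat_lit 5) (nat_lit 3) (nat_lit 4) (nat_lit 1) (nat_lit 4) (nat_lit 424) (nat_lit 304) (nat_lit 292))))) (XT.nd (nat_lit 156) (nat_lit 0) (nat_lit 0) (XT.nd (nat_lit 78) (nat_lit 0) (nat_lit 0) (XT.lf (nat_lit 0) (nat_lit 225386003882) (nat_lit 152) (nat_lit 86726315932) (nat_lit 0) (nat_lit 224995382834) (nat_lit 1) (nat_lit 5) (nat_lit 3) (nat_lit 4) (nat_lit 1) (nat_lit 4) (nat_lit 425) (nat_lit 304) (nat_lit 291)) (XT.lf (nat_lit 0) (nat_lit 245310343103) (nat_lit 152) (nat_lit 89707552935) (nat_lit 0) (nat_lit 244902895762) (nat_lit 1) (nat_lit 5) (nat_lit 3) (nat_lit 4) (nat_lit 1) (nat_lit 4) (nat_lit 426) (nat_lit 304) (nat_lit 290))) (XT.nd (nat_lit 78) (nat_lit 0) (nat_lit 0) (XT.lf (nat_lit 0) (nat_lit 266768965113) (nat_lit 152) (nat_lit 93048801215) (nat_lit 0) (nat_lit 266345937872) (nat_lit 1) (nat_lit 5) (nat_lit 3) (nat_lit 4) (nat_lit 1) (nat_lit 4) (nat_lit 427)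 (nat_lit 304) (nat_lit 289)) (XT.nd (nat_lit 78) (nat_lit 0) (nat_lit 0) (XT.lf (nat_lit 0) (nat_lit 289889032117) (nat_lit 152) (nat_lit 96769860760) (nat_lit 0) (nat_lit 289451579041) (nat_lit 1) (nat_lit 5) (nat_lit 3) (nat_lit 4) (nat_lit 1) (nat_lit 4) (nat_lit 428) (nat_lit 304) (nat_lit 288)) (XT.lf (nat_lit 0) (nat_lit 314807551919) (nat_lit 152) (nat_lit 100892782294) (nat_lit 0) (nat_lit 314356741590) (nat_lit 1) (nat_lit 5) (nat_lit 3) (nat_lit 4) (nat_lit 1) (nat_lit 4) (nat_lit 429) (nat_lit 304) (nat_lit 287))))))) (XT.nd (nat_lit 780) (nat_lit 0) (nat_lit 0) (XT.nd (nat_lit 390) (nat_lit 0) (nat_lit 0) (XT.nd (nat_lit 156) (nat_lit 0) (nat_lit 0) (XT.nd (nat_lit 78) (nat_lit 0) (nat_lit 0) (XT.lf (nat_lit 0) (nat_lit 341672189821) (nat_lit 152) (nat_lit 105441997945) (nat_lit 0) (nat_lit 341209011664) (nat_lit 1) (nat_lit 5) (nat_lit 3) (nat_lit 4) (nat_lit 1) (nat_lit 4)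 (nat_lit 430) (nat_lit 304) (nat_lit 286)) (XT.lf (nat_lit 0) (nat_lit 370642143678) (nat_lit 152) (nat_lit 110444466027) (nat_lit 0) (nat_lit 370167513829) (nat_lit 1) (nat_lit 5) (nat_lit 3) (nat_lit 4) (nat_lit 1) (nat_lit 4) (nat_lit 431) (nat_lit 304) (nat_lit 285))) (XT.nd (nat_lit 78) (nat_lit 0) (nat_lit 0) (XT.lf (nat_lit 0) (nat_lit 401889087291) (nat_lit 152) (nat_lit 115929830796) (nat_lit 0) (nat_lit 401403854023) (nat_lit 1) (nat_lit 5) (nat_lit 3) (nat_lit 4) (nat_lit 1) (nat_lit 4) (nat_lit 432) (nat_lit 304) (nat_lit 284)) (XT.nd (nat_lit 78) (nat_lit 0) (nat_lit 0) (XT.lf (nat_lit 0) (nat_lit 435598187732) (nat_lit 152) (nat_lit 121930598117) (nat_lit 0) (nat_lit 435103136484) (nat_lit 1) (nat_lit 5) (nat_lit 3) (nat_lit 4) (nat_lit 1) (nat_lit 4) (nat_lit 433) (nat_lit 304) (nat_lit 283)) (XT.lf (nat_lit 0) (nat_lit 471969202634) (nat_lit 152) (nat_lit 128482328093)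 (nat_lit 0) (nat_lit 471465060664) (nat_lit 1) (nat_lit 5) (nat_lit 3) (nat_lit 4) (nat_lit 1) (nat_lit 4) (nat_lit 434) (nat_lit 304) (nat_lit 282))))) (XT.nd (nat_lit 156) (nat_lit 0) (nat_lit 0) (XT.nd (nat_lit 78) (nat_lit 0) (nat_lit 0) (XT.lf (nat_lit 0) (nat_lit 511217663937) (nat_lit 152) (nat_lit 135623845790) (nat_lit 0) (nat_lit 510705104631) (nat_lit 1) (nat_lit 5) (nat_lit 3) (nat_lit 4) (nat_lit 1) (nat_lit 4) (nat_lit 435) (nat_lit 304) (nat_lit 281)) (XT.lf (nat_lit 0) (nat_lit 553576155116) (nat_lit 152) (nat_lit 143397471313) (nat_lit 0) (nat_lit 553055801981) (nat_lit 1) (nat_lit 5) (nat_lit 3) (nat_lit 4) (nat_lit 1) (nat_lit 4) (nat_lit 436) (nat_lit 304) (nat_lit 280))) (XT.nd (nat_lit 78) (nat_lit 0) (nat_lit 0) (XT.lf (nat_lit 0) (nat_lit 599295689451) (nat_lit 152) (nat_lit 151849270591) (nat_lit 0) (nat_lit 598768119807) (nat_lit 1) (nat_lit 5) (nat_lit 3) (nat_lit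 4) (nat_lit 1) (nat_lit 4) (nat_lit 437) (nat_lit 304) (nat_lit 279)) (XT.nd (nat_lit 78) (nat_lit 0) (nat_lit 0) (XT.lf (nat_lit 0) (nat_lit 648647197517) (nat_lit 152) (nat_lit 161029328361) (nat_lit 0) (nat_lit 648112945921) (nat_lit 1) (nat_lit 5) (nat_lit 3) (nat_lit 4) (nat_lit 1) (nat_lit 4) (nat_lit 438) (nat_lit 304) (nat_lit 278)) (XT.lf (nat_lit 0) (nat_lit 701923132694) (nat_lit 152) (nat_lit 170992044965) (nat_lit 0) (nat_lit 701382694105) (nat_lit 1) (nat_lit 5) (nat_lit 3) (nat_lit 4) (nat_lit 1) (nat_lit 4) (nat_lit 439) (nat_lit 304) (nat_lit 277)))))) (XT.nd (nat_lit 390) (nat_lit 0) (nat_lit 0) (XT.nd (nat_lit 156) (nat_lit 0) (nat_lit 0) (XT.nd (nat_lit 78) (nat_lit 0) (nat_lit 0) (XT.lf (nat_lit 0) (nat_lit 759439204228) (nat_lit 152) (nat_lit 181796458724) (nat_lit 0) (nat_lit 758893036941) (nat_lit 1) (nat_lit 5) (nat_lit 3) (nat_lit 4) (nat_lit 1) (nat_lit 4) (nat_lit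 440) (nat_lit 304) (nat_lit 276)) (XT.lf (nat_lit 0) (nat_lit 821536248098) (nat_lit 152) (nat_lit 193506595792) (nat_lit 0) (nat_lit 820984776463) (nat_lit 1) (nat_lit 5) (nat_lit 3) (nat_lit 4) (nat_lit 1) (nat_lit 4) (nat_lit 441) (nat_lit 304) (nat_lit 275))) (XT.nd (nat_lit 78) (nat_lit 0) (nat_lit 0) (XT.lf (nat_lit 0) (nat_lit 888582246787) (nat_lit 152) (nat_lit 206191849576) (nat_lit 0) (nat_lit 888025863717) (nat_lit 1) (nat_lit 5) (nat_lit 3) (nat_lit 4) (nat_lit 1) (nat_lit 4) (nat_lit 442) (nat_lit 304) (nat_lit 274)) (XT.nd (nat_lit 78) (nat_lit 0) (nat_lit 0) (XT.lf (nat_lit 0) (nat_lit 960974509917) (nat_lit 152) (nat_lit 219927391949) (nat_lit 0) (nat_lit 960413579222) (nat_lit 1) (nat_lit 5) (nat_lit 3) (nat_lit 4) (nat_lit 1) (nat_lit 4) (nat_lit 443) (nat_lit 304) (nat_lit 273)) (XT.lf (nat_lit 0) (nat_lit 1039142028676) (nat_lit 152) (nat_lit 234794618718) (nat_lit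 0) (nat_lit 1038576887218) (nat_lit 1) (nat_lit 5) (nat_lit 3) (nat_lit 4) (nat_lit 1) (nat_lit 4) (nat_lit 444) (nat_lit 304) (nat_lit 272))))) (XT.nd (nat_lit 234) (nat_lit 0) (nat_lit 0) (XT.nd (nat_lit 78) (nat_lit 0) (nat_lit 0) (XT.lf (nat_lit 0) (nat_lit 1123548017991) (nat_lit 152) (nat_lit 250881631967) (nat_lit 0) (nat_lit 1122978977677) (nat_lit 1) (nat_lit 5) (nat_lit 3) (nat_lit 4) (nat_lit 1) (nat_lit 4) (nat_lit 445) (nat_lit 304) (nat_lit 271)) (XT.nd (nat_lit 78) (nat_lit 0) (nat_lit 0) (XT.lf (nat_lit 0) (nat_lit 1214692661501) (nat_lit 152) (nat_lit 268283762146) (nat_lit 0) (nat_lit 1214120011137) (nat_lit 1) (nat_lit 5) (nat_lit 3) (nat_lit 4) (nat_lit 1) (nat_lit 4) (nat_lit 446) (nat_lit 304) (nat_lit 270)) (XT.lf (nat_lit 0) (nat_lit 1313116075613) (nat_lit 152) (nat_lit 287104132989) (nat_lit 0) (nat_lit 1312540082609) (nat_lit 1) (nat_lit 5) (nat_lit 3) (nat_lit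 4) (nat_lit 1) (nat_lit 4) (nat_lit 447) (nat_lit 304) (nat_lit 269)))) (XT.nd (nat_lit 78) (nat_lit 0) (nat_lit 0) (XT.lf (nat_lit 0) (nat_lit 1419401510188) (nat_lit 152) (nat_lit 307454272619) (nat_lit 0) (nat_lit 1418822422147) (nat_lit 1) (nat_lit 5) (nat_lit 3) (nat_lit 4) (nat_lit 1) (nat_lit 4) (nat_lit 448) (nat_lit 304) (nat_lit 268)) (XT.nd (nat_lit 78) (nat_lit 0) (nat_lit 0) (XT.lf (nat_lit 0) (nat_lit 1534178804839) (nat_lit 152) (nat_lit 329454774457) (nat_lit 0) (nat_lit 1533596851023) (nat_lit 1) (nat_lit 5) (nat_lit 3) (nat_lit 4) (nat_lit 1) (nat_lit 4) (nat_lit 449) (nat_lit 304) (nat_lit 267)) (XT.lf (nat_lit 0) (nat_lit 1658128121311) (nat_lit 152) (nat_lit 353236011845) (nat_lit 0) (nat_lit 1657543514000) (nat_lit 1) (nat_lit 5) (nat_lit 3) (nat_lit 4) (nat_lit 1) (nat_lit 4) (nat_lit 450) (nat_lit 304) (nat_lit 266))))))))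
noncomputable def xc18 : XT := (XT.nd (nat_lit 50310) (nat_lit 0) (nat_lit 0) (XT.nd (nat_lit 780) (nat_lit 0) (nat_lit 0) (XT.nd (nat_lit 390) (nat_lit 0) (nat_lit 0) (XT.nd (nat_lit 156) (nat_lit 0) (nat_lit 0) (XT.nd (nat_lit 78) (nat_lit 0) (nat_lit 0) (XT.lf (nat_lit 0) (nat_lit 1791983974073) (nat_lit 152) (nat_lit 378938910637) (nat_lit 0) (nat_lit 1791396909822) (nat_lit 1) (nat_lit 5) (nat_lit 3) (nat_lit 4) (nat_lit 1) (nat_lit 4) (nat_lit 451) (nat_lit 304) (nat_lit 265)) (XT.lf (nat_lit 0) (nat_lit 1936539582992) (nat_lit 152) (nat_lit 406715784306) (nat_lit 0) (nat_lit 1935950243797) (nat_lit 1) (nat_lit 5) (nat_lit 3) (nat_lit 4) (nat_lit 1) (nat_lit 4) (nat_lit 452) (nat_lit 304) (nat_lit 264))) (XT.nd (nat_lit 78) (nat_lit 0) (nat_lit 0) (XT.lf (nat_lit 0) (nat_lit 2092651573900) (nat_lit 152) (nat_lit 436731236548) (nat_lit 0) (nat_lit 2092060128275) (nat_lit 1) (nat_lit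 5) (nat_lit 3) (nat_lit 4) (nat_lit 1) (nat_lit 4) (nat_lit 453) (nat_lit 304) (nat_lit 263)) (XT.nd (nat_lit 78) (nat_lit 0) (nat_lit 0) (XT.lf (nat_lit 0) (nat_lit 2261245054890) (nat_lit 152) (nat_lit 469163136709) (nat_lit 0) (nat_lit 2260651658867) (nat_lit 1) (nat_lit 5) (nat_lit 3) (nat_lit 4) (nat_lit 1) (nat_lit 4) (nat_lit 454) (nat_lit 304) (nat_lit 262)) (XT.lf (nat_lit 0) (nat_lit 2443319098443) (nat_lit 152) (nat_lit 504203673828) (nat_lit 0) (nat_lit 2442723896496) (nat_lit 1) (nat_lit 5) (nat_lit 3) (nat_lit 4) (nat_lit 1) (nat_lit 4) (nat_lit 455) (nat_lit 304) (nat_lit 261))))) (XT.nd (nat_lit 156) (nat_lit 0) (nat_lit 0) (XT.nd (nat_lit 78) (nat_lit 0) (nat_lit 0) (XT.lf (nat_lit 0) (nat_lit 2639952661854) (nat_lit 152) (nat_lit 542060495531) (nat_lit 0) (nat_lit 2639355787754) (nat_lit 1) (nat_lit 5) (nat_lit 3) (nat_lit 4) (nat_lit 1) (nat_lit 4) (nat_lit 456) (nat_lit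 304) (nat_lit 260)) (XT.lf (nat_lit 0) (nat_lit 2852310981054) (nat_lit 152) (nat_lit 582957938541) (nat_lit 0) (nat_lit 2851712558665) (nat_lit 1) (nat_lit 5) (nat_lit 3) (nat_lit 4) (nat_lit 1) (nat_lit 4) (nat_lit 457) (nat_lit 304) (nat_lit 259))) (XT.nd (nat_lit 78) (nat_lit 0) (nat_lit 0) (XT.lf (nat_lit 0) (nat_lit 3081652475712) (nat_lit 152) (nat_lit 627138358074) (nat_lit 0) (nat_lit 3081052619723) (nat_lit 1) (nat_lit 5) (nat_lit 3) (nat_lit 4) (nat_lit 1) (nat_lit 4) (nat_lit 458) (nat_lit 304) (nat_lit 258)) (XT.nd (nat_lit 78) (nat_lit 0) (nat_lit 0) (XT.lf (nat_lit 0) (nat_lit 3329336206538) (nat_lit 152) (nat_lit 674863564026) (nat_lit 0) (nat_lit 3328735023140) (nat_lit 1) (nat_lit 5) (nat_lit 3) (nat_lit 4) (nat_lit 1) (nat_lit 4) (nat_lit 459) (nat_lit 304) (nat_lit 257)) (XT.lf (nat_lit 0) (nat_lit 3596829928973) (nat_lit 152) (nat_lit 726416372429) (nat_lit 0) (nat_lit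 3596227516494) (nat_lit 1) (nat_lit 5) (nat_lit 3) (nat_lit 4) (nat_lit 1) (nat_lit 4) (nat_lit 460) (nat_lit 304) (nat_lit 256)))))) (XT.nd (nat_lit 49140) (nat_lit 0) (nat_lit 0) (XT.nd (nat_lit 156) (nat_lit 0) (nat_lit 0) (XT.nd (nat_lit 78) (nat_lit 0) (nat_lit 0) (XT.lf (nat_lit 0) (nat_lit 3885718791003) (nat_lit 152) (nat_lit 782102281410) (nat_lit 0) (nat_lit 3885115240484) (nat_lit 1) (nat_lit 5) (nat_lit 3) (nat_lit 4) (nat_lit 1) (nat_lit 4) (nat_lit 461) (nat_lit 304) (nat_lit 255)) (XT.lf (nat_lit 0) (nat_lit 4197714726623) (nat_lit 152) (nat_lit 842251281538) (nat_lit 0) (nat_lit 4197110122366) (nat_lit 1) (nat_lit 5) (nat_lit 3) (nat_lit 4) (nat_lit 1) (nat_lit 4) (nat_lit 462) (nat_lit 304) (nat_lit 254))) (XT.nd (nat_lit 78) (nat_lit 0) (nat_lit 0) (XT.lf (nat_lit 0) (nat_lit 4534666600639) (nat_lit 152) (nat_lit 907219811335) (nat_lit 0) (nat_lit 4534061020697) (nat_lit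 1) (nat_lit 5) (nat_lit 3) (nat_lit 4) (nat_lit 1) (nat_lit 4) (nat_lit 463) (nat_lit 304) (nat_lit 253)) (XT.nd (nat_lit 78) (nat_lit 0) (nat_lit 0) (XT.lf (nat_lit 0) (nat_lit 4898571164896) (nat_lit 152) (nat_lit 977392869494) (nat_lit 0) (nat_lit 4897964681542) (nat_lit 1) (nat_lit 5) (nat_lit 3) (nat_lit 4) (nat_lit 1) (nat_lit 4) (nat_lit 464) (nat_lit 304) (nat_lit 252)) (XT.lf (nat_lit 0) (nat_lit 5291584890886) (nat_lit 152) (nat_lit 1053186296360) (nat_lit 0) (nat_lit 5290977571039) (nat_lit 1) (nat_lit 5) (nat_lit 3) (nat_lit 4) (nat_lit 1) (nat_lit 4) (nat_lit 465) (nat_lit 304) (nat_lit 251))))) (XT.nd (nat_lit 156) (nat_lit 0) (nat_lit 0) (XT.nd (nat_lit 78) (nat_lit 0) (nat_lit 0) (XT.lf (nat_lit 0) (nat_lit 23471702131) (nat_lit 152) (nat_lit 38699785162) (nat_lit 0) (nat_lit 23471702131) (nat_lit 1) (nat_lit 5) (nat_lit 3) (nat_lit 4) (nat_lit 1) (nat_lit 4) (nat_lit 410)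 (nat_lit 305) (nat_lit 305)) (XT.lf (nat_lit 0) (nat_lit 54239723575) (nat_lit 152) (nat_lit 76271547597) (nat_lit 0) (nat_lit 54190301495) (nat_lit 1) (nat_lit 5) (nat_lit 3) (nat_lit 4) (nat_lit 1) (nat_lit 4) (nat_lit 411) (nat_lit 305) (nat_lit 304))) (XT.nd (nat_lit 78) (nat_lit 0) (nat_lit 0) (XT.lf (nat_lit 0) (nat_lit 61944502687) (nat_lit 152) (nat_lit 75410188250) (nat_lit 0) (nat_lit 61849319421) (nat_lit 1) (nat_lit 5) (nat_lit 3) (nat_lit 4) (nat_lit 1) (nat_lit 4) (nat_lit 412) (nat_lit 305) (nat_lit 303)) (XT.nd (nat_lit 78) (nat_lit 0) (nat_lit 0) (XT.lf (nat_lit 0) (nat_lit 70103399550) (nat_lit 152) (nat_lit 74810387932) (nat_lit 0) (nat_lit 69965844816) (nat_lit 1) (nat_lit 5) (nat_lit 3) (nat_lit 4) (nat_lit 1) (nat_lit 4) (nat_lit 413) (nat_lit 305) (nat_lit 302)) (XT.lf (nat_lit 0) (nat_lit 78764763182) (nat_lit 152) (nat_lit 74468592271) (nat_lit 0) (nat_lit 78587975608)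 (nat_lit 1) (nat_lit 5) (nat_lit 3) (nat_lit 4) (nat_lit 1) (nat_lit 4) (nat_lit 414) (nat_lit 305) (nat_lit 301))))))) (XT.nd (nat_lit 780) (nat_lit 0) (nat_lit 0) (XT.nd (nat_lit 390) (nat_lit 0) (nat_lit 0) (XT.nd (nat_lit 156) (nat_lit 0) (nat_lit 0) (XT.nd (nat_lit 78) (nat_lit 0) (nat_lit 0) (XT.lf (nat_lit 0) (nat_lit 87979920182) (nat_lit 152) (nat_lit 74382775811) (nat_lit 0) (nat_lit 87766805904) (nat_lit 1) (nat_lit 5) (nat_lit 3) (nat_lit 4) (nat_lit 1) (nat_lit 4) (nat_lit 415) (nat_lit 305) (nat_lit 300)) (XT.lf (nat_lit 0) (nat_lit 97803478889) (nat_lit 152) (nat_lit 74552430009) (nat_lit 0) (nat_lit 97556728774) (nat_lit 1) (nat_lit 5) (nat_lit 3) (nat_lit 4) (nat_lit 1) (nat_lit 4) (nat_lit 416) (nat_lit 305) (nat_lit 299))) (XT.nd (nat_lit 78) (nat_lit 0) (nat_lit 0) (XT.lf (nat_lit 0) (nat_lit 108293652983) (nat_lit 152) (nat_lit 74978560225) (nat_lit 0) (nat_lit 108015758574)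 (nat_lit 1) (nat_lit 5) (nat_lit 3) (nat_lit 4) (nat_lit 1) (nat_lit 4) (nat_lit 417) (nat_lit 305) (nat_lit 298)) (XT.nd (nat_lit 78) (nat_lit 0) (nat_lit 0) (XT.lf (nat_lit 0) (nat_lit 119512606459) (nat_lit 152) (nat_lit 75663691673) (nat_lit 0) (nat_lit 119205874741) (nat_lit 1) (nat_lit 5) (nat_lit 3) (nat_lit 4) (nat_lit 1) (nat_lit 4) (nat_lit 418) (nat_lit 305) (nat_lit 297)) (XT.lf (nat_lit 0) (nat_lit 131526822005) (nat_lit 152) (nat_lit 76611884393) (nat_lit 0) (nat_lit 131193389075) (nat_lit 1) (nat_lit 5) (nat_lit 3) (nat_lit 4) (nat_lit 1) (nat_lit 4) (nat_lit 419) (nat_lit 305) (nat_lit 296))))) (XT.nd (nat_lit 156) (nat_lit 0) (nat_lit 0) (XT.nd (nat_lit 78) (nat_lit 0) (nat_lit 0) (XT.lf (nat_lit 0) (nat_lit 144407494972) (nat_lit 152) (nat_lit 77828757304) (nat_lit 0) (nat_lit 144049338697) (nat_lit 1) (nat_lit 5) (nat_lit 3) (nat_lit 4) (nat_lit 1) (nat_lit 4) (nat_lit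 420) (nat_lit 305) (nat_lit 295)) (XT.lf (nat_lit 0) (nat_lit 158230955273) (nat_lit 152) (nat_lit 79321521505) (nat_lit 0) (nat_lit 157849907013) (nat_lit 1) (nat_lit 5) (nat_lit 3) (nat_lit 4) (nat_lit 1) (nat_lit 4) (nat_lit 421) (nat_lit 305) (nat_lit 294))) (XT.nd (nat_lit 78) (nat_lit 0) (nat_lit 0) (XT.lf (nat_lit 0) (nat_lit 173079119711) (nat_lit 152) (nat_lit 81099023006) (nat_lit 0) (nat_lit 172676875167) (nat_lit 1) (nat_lit 5) (nat_lit 3) (nat_lit 4) (nat_lit 1) (nat_lit 4) (nat_lit 422) (nat_lit 305) (nat_lit 293)) (XT.nd (nat_lit 78) (nat_lit 0) (nat_lit 0) (XT.lf (nat_lit 0) (nat_lit 189039977407) (nat_lit 152) (nat_lit 83171795149) (nat_lit 0) (nat_lit 188618106676) (nat_lit 1) (nat_lit 5) (nat_lit 3) (nat_lit 4) (nat_lit 1) (nat_lit 4) (nat_lit 423) (nat_lit 305) (nat_lit 292)) (XT.lf (nat_lit 0) (nat_lit 206208111223) (nat_lit 152) (nat_lit 85552121028) (nat_lit 0) (nat_lit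 205768068096) (nat_lit 1) (nat_lit 5) (nat_lit 3) (nat_lit 4) (nat_lit 1) (nat_lit 4) (nat_lit 424) (nat_lit 305) (nat_lit 291)))))) (XT.nd (nat_lit 390) (nat_lit 0) (nat_lit 0) (XT.nd (nat_lit 156) (nat_lit 0) (nat_lit 0) (XT.nd (nat_lit 78) (nat_lit 0) (nat_lit 0) (XT.lf (nat_lit 0) (nat_lit 224685258248) (nat_lit 152) (nat_lit 88254106278) (nat_lit 0) (nat_lit 224228388828) (nat_lit 1) (nat_lit 5) (nat_lit 3) (nat_lit 4) (nat_lit 1) (nat_lit 4) (nat_lit 425) (nat_lit 305) (nat_lit 290)) (XT.lf (nat_lit 0) (nat_lit 244580912687) (nat_lit 152) (nat_lit 91293762665) (nat_lit 0) (nat_lit 244108463365) (nat_lit 1) (nat_lit 5) (nat_lit 3) (nat_lit 4) (nat_lit 1) (nat_lit 4) (nat_lit 426) (nat_lit 305) (nat_lit 289))) (XT.nd (nat_lit 78) (nat_lit 0) (nat_lit 0) (XT.lf (nat_lit 0) (nat_lit 266012974713) (nat_lit 152) (nat_lit 94689102965) (nat_lit 0) (nat_lit 265526099557) (nat_lit 1) (nat_lit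 5) (nat_lit 3) (nat_lit 4) (nat_lit 1) (nat_lit 4) (nat_lit 427) (nat_lit 305) (nat_lit 288)) (XT.nd (nat_lit 78) (nat_lit 0) (nat_lit 0) (XT.lf (nat_lit 0) (nat_lit 289108449138) (nat_lit 152) (nat_lit 98460247715) (nat_lit 0) (nat_lit 288608216729) (nat_lit 1) (nat_lit 5) (nat_lit 3) (nat_lit 4) (nat_lit 1) (nat_lit 4) (nat_lit 428) (nat_lit 305) (nat_lit 287)) (XT.lf (nat_lit 0) (nat_lit 314004198035) (nat_lit 152) (nat_lit 102629544438) (nat_lit 0) (nat_lit 313491597798) (nat_lit 1) (nat_lit 5) (nat_lit 3) (nat_lit 4) (nat_lit 1) (nat_lit 4) (nat_lit 429) (nat_lit 305) (nat_lit 286))))) (XT.nd (nat_lit 234) (nat_lit 0) (nat_lit 0) (XT.nd (nat_lit 78) (nat_lit 0) (nat_lit 0) (XT.lf (nat_lit 0) (nat_lit 340847751765) (nat_lit 152) (nat_lit 107221700079) (nat_lit 0) (nat_lit 340323699836) (nat_lit 1) (nat_lit 5) (nat_lit 3) (nat_lit 4) (nat_lit 1) (nat_lit 4) (nat_lit 430) (nat_lit 305)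 (nat_lit 285)) (XT.nd (nat_lit 78) (nat_lit 0) (nat_lit 0) (XT.lf (nat_lit 0) (nat_lit 369798183241) (nat_lit 152) (nat_lit 112263927411) (nat_lit 0) (nat_lit 369263527893) (nat_lit 1) (nat_lit 5) (nat_lit 3) (nat_lit 4) (nat_lit 1) (nat_lit 4) (nat_lit 431) (nat_lit 305) (nat_lit 284)) (XT.lf (nat_lit 0) (nat_lit 401027050574) (nat_lit 152) (nat_lit 117786106300) (nat_lit 0) (nat_lit 400482577247) (nat_lit 1) (nat_lit 5) (nat_lit 3) (nat_lit 4) (nat_lit 1) (nat_lit 4) (nat_lit 432) (nat_lit 305) (nat_lit 283)))) (XT.nd (nat_lit 78) (nat_lit 0) (nat_lit 0) (XT.lf (nat_lit 0) (nat_lit 434719413720) (nat_lit 152) (nat_lit 123820960770) (nat_lit 0) (nat_lit 434165849670) (nat_lit 1) (nat_lit 5) (nat_lit 3) (nat_lit 4) (nat_lit 1) (nat_lit 4) (nat_lit 433) (nat_lit 305) (nat_lit 282)) (XT.nd (nat_lit 78) (nat_lit 0) (nat_lit 0) (XT.lf (nat_lit 0) (nat_lit 471074931127) (nat_lit 152) (nat_lit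 130404252920) (nat_lit 0) (nat_lit 470512949741) (nat_lit 1) (nat_lit 5) (nat_lit 3) (nat_lit 4) (nat_lit 1) (nat_lit 4) (nat_lit 434) (nat_lit 305) (nat_lit 281)) (XT.lf (nat_lit 0) (nat_lit 510309042897) (nat_lit 152) (nat_lit 137574994853) (nat_lit 0) (nat_lit 509739267682) (nat_lit 1) (nat_lit 5) (nat_lit 3) (nat_lit 4) (nat_lit 1) (nat_lit 4) (nat_lit 435) (nat_lit 305) (nat_lit 280))))))))
noncomputable def xc19 : XT := (XT.nd (nat_lit 1638) (nat_lit 0) (nat_lit 0) (XT.nd (nat_lit 780) (nat_lit 0) (nat_lit 0) (XT.nd (nat_lit 390) (nat_lit 0) (nat_lit 0) (XT.nd (nat_lit 156) (nat_lit 0) (nat_lit 0) (XT.nd (nat_lit 78) (nat_lit 0) (nat_lit 0) (XT.lf (nat_lit 0) (nat_lit 552654247471) (nat_lit 152) (nat_lit 145375679854) (nat_lit 0) (nat_lit 552077255747) (nat_lit 1) (nat_lit 5) (nat_lit 3) (nat_lit 4) (nat_lit 1) (nat_lit 4) (nat_lit 436) (nat_lit 305) (nat_lit 279)) (XT.lf (nat_lit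 0) (nat_lit 598361479394) (nat_lit 152) (nat_lit 153852534204) (nat_lit 0) (nat_lit 597777805718) (nat_lit 1) (nat_lit 5) (nat_lit 3) (nat_lit 4) (nat_lit 1) (nat_lit 4) (nat_lit 437) (nat_lit 305) (nat_lit 278))) (XT.nd (nat_lit 78) (nat_lit 0) (nat_lit 0) (XT.lf (nat_lit 0) (nat_lit 647701596338) (nat_lit 152) (nat_lit 163055791114) (nat_lit 0) (nat_lit 647111735669) (nat_lit 1) (nat_lit 5) (nat_lit 3) (nat_lit 4) (nat_lit 1) (nat_lit 4) (nat_lit 438) (nat_lit 305) (nat_lit 277)) (XT.nd (nat_lit 78) (nat_lit 0) (nat_lit 0) (XT.lf (nat_lit 0) (nat_lit 700966984180) (nat_lit 152) (nat_lit 173039988404) (nat_lit 0) (nat_lit 700371394813) (nat_lit 1) (nat_lit 5) (nat_lit 3) (nat_lit 4) (nat_lit 1) (nat_lit 4) (nat_lit 439) (nat_lit 305) (nat_lit 276)) (XT.lf (nat_lit 0) (nat_lit 758473289663) (nat_lit 152) (nat_lit 183864291686) (nat_lit 0) (nat_lit 757872395947) (nat_lit 1) (nat_lit 5)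 (nat_lit 3) (nat_lit 4) (nat_lit 1) (nat_lit 4) (nat_lit 440) (nat_lit 305) (nat_lit 275))))) (XT.nd (nat_lit 156) (nat_lit 0) (nat_lit 0) (XT.nd (nat_lit 78) (nat_lit 0) (nat_lit 0) (XT.lf (nat_lit 0) (nat_lit 820561290893) (nat_lit 152) (nat_lit 195592844981) (nat_lit 0) (nat_lit 819955485743) (nat_lit 1) (nat_lit 5) (nat_lit 3) (nat_lit 4) (nat_lit 1) (nat_lit 4) (nat_lit 441) (nat_lit 305) (nat_lit 274)) (XT.lf (nat_lit 0) (nat_lit 887598916768) (nat_lit 152) (nat_lit 208295150825) (nat_lit 0) (nat_lit 886988563993) (nat_lit 1) (nat_lit 5) (nat_lit 3) (nat_lit 4) (nat_lit 1) (nat_lit 4) (nat_lit 442) (nat_lit 305) (nat_lit 273))) (XT.nd (nat_lit 78) (nat_lit 0) (nat_lit 0) (XT.lf (nat_lit 0) (nat_lit 959983427291) (nat_lit 152) (nat_lit 222046482144) (nat_lit 0) (nat_lit 959368863753) (nat_lit 1) (nat_lit 5) (nat_lit 3) (nat_lit 4) (nat_lit 1) (nat_lit 4) (nat_lit 443) (nat_lit 305)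 (nat_lit 272)) (XT.nd (nat_lit 78) (nat_lit 0) (nat_lit 0) (XT.lf (nat_lit 0) (nat_lit 1038143767711) (nat_lit 152) (nat_lit 236928328306) (nat_lit 0) (nat_lit 1037525305318) (nat_lit 1) (nat_lit 5) (nat_lit 3) (nat_lit 4) (nat_lit 1) (nat_lit 4) (nat_lit 444) (nat_lit 305) (nat_lit 271)) (XT.lf (nat_lit 0) (nat_lit 1122543110415) (nat_lit 152) (nat_lit 253028878032) (nat_lit 0) (nat_lit 1121921037971) (nat_lit 1) (nat_lit 5) (nat_lit 3) (nat_lit 4) (nat_lit 1) (nat_lit 4) (nat_lit 445) (nat_lit 305) (nat_lit 270)))))) (XT.nd (nat_lit 390) (nat_lit 0) (nat_lit 0) (XT.nd (nat_lit 156) (nat_lit 0) (nat_lit 0) (XT.nd (nat_lit 78) (nat_lit 0) (nat_lit 0) (XT.lf (nat_lit 0) (nat_lit 1213681599657) (nat_lit 152) (nat_lit 270443541984) (nat_lit 0) (nat_lit 1213056184573) (nat_lit 1) (nat_lit 5) (nat_lit 3) (nat_lit 4) (nat_lit 1) (nat_lit 4) (nat_lit 446) (nat_lit 305) (nat_lit 269)) (XT.lf (nat_lit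 0) (nat_lit 1312099315372) (nat_lit 152) (nat_lit 289275518173) (nat_lit 0) (nat_lit 1311470805251) (nat_lit 1) (nat_lit 5) (nat_lit 3) (nat_lit 4) (nat_lit 1) (nat_lit 4) (nat_lit 447) (nat_lit 305) (nat_lit 268))) (XT.nd (nat_lit 78) (nat_lit 0) (nat_lit 0) (XT.lf (nat_lit 0) (nat_lit 1418379473653) (nat_lit 152) (nat_lit 309636403494) (nat_lit 0) (nat_lit 1417748097758) (nat_lit 1) (nat_lit 5) (nat_lit 3) (nat_lit 4) (nat_lit 1) (nat_lit 4) (nat_lit 448) (nat_lit 305) (nat_lit 267)) (XT.nd (nat_lit 78) (nat_lit 0) (nat_lit 0) (XT.lf (nat_lit 0) (nat_lit 1533151882847) (nat_lit 152) (nat_lit 331646855045) (nat_lit 0) (nat_lit 1532517853456) (nat_lit 1) (nat_lit 5) (nat_lit 3) (nat_lit 4) (nat_lit 1) (nat_lit 4) (nat_lit 449) (nat_lit 305) (nat_lit 266)) (XT.lf (nat_lit 0) (nat_lit 1657096675748) (nat_lit 152) (nat_lit 355437305132) (nat_lit 0) (nat_lit 1656460189417) (nat_lit 1) (nat_lit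 5) (nat_lit 3) (nat_lit 4) (nat_lit 1) (nat_lit 4) (nat_lit 450) (nat_lit 305) (nat_lit 265))))) (XT.nd (nat_lit 234) (nat_lit 0) (nat_lit 0) (XT.nd (nat_lit 78) (nat_lit 0) (nat_lit 0) (XT.lf (nat_lit 0) (nat_lit 1790948340018) (nat_lit 152) (nat_lit 381148734200) (nat_lit 0) (nat_lit 1790309578742) (nat_lit 1) (nat_lit 5) (nat_lit 3) (nat_lit 4) (nat_lit 1) (nat_lit 4) (nat_lit 451) (nat_lit 305) (nat_lit 264)) (XT.nd (nat_lit 78) (nat_lit 0) (nat_lit 0) (XT.lf (nat_lit 0) (nat_lit 1935500070704) (nat_lit 152) (nat_lit 408933506272) (nat_lit 0) (nat_lit 1934859202999) (nat_lit 1) (nat_lit 5) (nat_lit 3) (nat_lit 4) (nat_lit 1) (nat_lit 4) (nat_lit 452) (nat_lit 305) (nat_lit 263)) (XT.lf (nat_lit 0) (nat_lit 2091608470655) (nat_lit 152) (nat_lit 438956271850) (nat_lit 0) (nat_lit 2090965652552) (nat_lit 1) (nat_lit 5) (nat_lit 3) (nat_lit 4) (nat_lit 1) (nat_lit 4) (nat_lit 453) (nat_lit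 305) (nat_lit 262)))) (XT.nd (nat_lit 78) (nat_lit 0) (nat_lit 0) (XT.lf (nat_lit 0) (nat_lit 2260198626686) (nat_lit 152) (nat_lit 471394943620) (nat_lit 0) (nat_lit 2259554002658) (nat_lit 1) (nat_lit 5) (nat_lit 3) (nat_lit 4) (nat_lit 1) (nat_lit 4) (nat_lit 454) (nat_lit 305) (nat_lit 261)) (XT.nd (nat_lit 78) (nat_lit 0) (nat_lit 0) (XT.lf (nat_lit 0) (nat_lit 2442269591572) (nat_lit 152) (nat_lit 506441750746) (nat_lit 0) (nat_lit 2441623295392) (nat_lit 1) (nat_lit 5) (nat_lit 3) (nat_lit 4) (nat_lit 1) (nat_lit 4) (nat_lit 455) (nat_lit 305) (nat_lit 260)) (XT.lf (nat_lit 0) (nat_lit 2638900304366) (nat_lit 152) (nat_lit 544304378012) (nat_lit 0) (nat_lit 2638252459897) (nat_lit 1) (nat_lit 5) (nat_lit 3) (nat_lit 4) (nat_lit 1) (nat_lit 4) (nat_lit 456) (nat_lit 305) (nat_lit 259))))))) (XT.nd (nat_lit 49374) (nat_lit 0) (nat_lit 0) (XT.nd (nat_lit 390) (nat_lit 0) (nat_lit 0)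 (XT.nd (nat_lit 156) (nat_lit 0) (nat_lit 0) (XT.nd (nat_lit 78) (nat_lit 0) (nat_lit 0) (XT.lf (nat_lit 0) (nat_lit 2851255984105) (nat_lit 152) (nat_lit 585207196542) (nat_lit 0) (nat_lit 2850606706035) (nat_lit 1) (nat_lit 5) (nat_lit 3) (nat_lit 4) (nat_lit 1) (nat_lit 4) (nat_lit 457) (nat_lit 305) (nat_lit 258)) (XT.lf (nat_lit 0) (nat_lit 3080595034819) (nat_lit 152) (nat_lit 629392593410) (nat_lit 0) (nat_lit 3079944429341) (nat_lit 1) (nat_lit 5) (nat_lit 3) (nat_lit 4) (nat_lit 1) (nat_lit 4) (nat_lit 458) (nat_lit 305) (nat_lit 257))) (XT.nd (nat_lit 78) (nat_lit 0) (nat_lit 0) (XT.lf (nat_lit 0) (nat_lit 3328276502733) (nat_lit 152) (nat_lit 677122408003) (nat_lit 0) (nat_lit 3327624668173) (nat_lit 1) (nat_lit 5) (nat_lit 3) (nat_lit 4) (nat_lit 1) (nat_lit 4) (nat_lit 459) (nat_lit 305) (nat_lit 256)) (XT.nd (nat_lit 78) (nat_lit 0) (nat_lit 0) (XT.lf (nat_lit 0) (nat_lit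 3595768129879) (nat_lit 152) (nat_lit 728679483669) (nat_lit 0) (nat_lit 3595115157281) (nat_lit 1) (nat_lit 5) (nat_lit 3) (nat_lit 4) (nat_lit 1) (nat_lit 4) (nat_lit 460) (nat_lit 305) (nat_lit 255)) (XT.lf (nat_lit 0) (nat_lit 3884655051826) (nat_lit 152) (nat_lit 784369343817) (nat_lit 0) (nat_lit 3884001025488) (nat_lit 1) (nat_lit 5) (nat_lit 3) (nat_lit 4) (nat_lit 1) (nat_lit 4) (nat_lit 461) (nat_lit 305) (nat_lit 254))))) (XT.nd (nat_lit 156) (nat_lit 0) (nat_lit 0) (XT.nd (nat_lit 78) (nat_lit 0) (nat_lit 0) (XT.lf (nat_lit 0) (nat_lit 4196649191074) (nat_lit 152) (nat_lit 844522002435) (nat_lit 0) (nat_lit 4195994189052) (nat_lit 1) (nat_lit 5) (nat_lit 3) (nat_lit 4) (nat_lit 1) (nat_lit 4) (nat_lit 462) (nat_lit 305) (nat_lit 253)) (XT.lf (nat_lit 0) (nat_lit 4533599401782) (nat_lit 152) (nat_lit 909493919721) (nat_lit 0) (nat_lit 4532943496348) (nat_lit 1) (nat_lit 5) (nat_lit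 3) (nat_lit 4) (nat_lit 1) (nat_lit 4) (nat_lit 463) (nat_lit 305) (nat_lit 252))) (XT.nd (nat_lit 78) (nat_lit 0) (nat_lit 0) (XT.lf (nat_lit 0) (nat_lit 4897502425940) (nat_lit 152) (nat_lit 979670114445) (nat_lit 0) (nat_lit 4896845684013) (nat_lit 1) (nat_lit 5) (nat_lit 3) (nat_lit 4) (nat_lit 1) (nat_lit 4) (nat_lit 464) (nat_lit 305) (nat_lit 251)) (XT.nd (nat_lit 48672) (nat_lit 0) (nat_lit 0) (XT.lf (nat_lit 0) (nat_lit 5290514725911) (nat_lit 152) (nat_lit 1055466445538) (nat_lit 0) (nat_lit 5289857209455) (nat_lit 1) (nat_lit 5) (nat_lit 3) (nat_lit 4) (nat_lit 1) (nat_lit 4) (nat_lit 465) (nat_lit 305) (nat_lit 250)) (XT.lf (nat_lit 0) (nat_lit 16778503899) (nat_lit 152) (nat_lit 40141911310) (nat_lit 0) (nat_lit 16778503899) (nat_lit 1) (nat_lit 5) (nat_lit 3) (nat_lit 4) (nat_lit 1) (nat_lit 4) (nat_lit 408) (nat_lit 306) (nat_lit 306)))))) (XT.nd (nat_lit 390) (nat_lit 0)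 (nat_lit 0) (XT.nd (nat_lit 156) (nat_lit 0) (nat_lit 0) (XT.nd (nat_lit 78) (nat_lit 0) (nat_lit 0) (XT.lf (nat_lit 0) (nat_lit 40065683151) (nat_lit 152) (nat_lit 78800941010) (nat_lit 0) (nat_lit 40012307304) (nat_lit 1) (nat_lit 5) (nat_lit 3) (nat_lit 4) (nat_lit 1) (nat_lit 4) (nat_lit 409) (nat_lit 306) (nat_lit 305)) (XT.lf (nat_lit 0) (nat_lit 46905787127) (nat_lit 152) (nat_lit 77584886484) (nat_lit 0) (nat_lit 46802989200) (nat_lit 1) (nat_lit 5) (nat_lit 3) (nat_lit 4) (nat_lit 1) (nat_lit 4) (nat_lit 410) (nat_lit 306) (nat_lit 304))) (XT.nd (nat_lit 78) (nat_lit 0) (nat_lit 0) (XT.lf (nat_lit 0) (nat_lit 54117853677) (nat_lit 152) (nat_lit 76628452795) (nat_lit 0) (nat_lit 53969294565) (nat_lit 1) (nat_lit 5) (nat_lit 3) (nat_lit 4) (nat_lit 1) (nat_lit 4) (nat_lit 411) (nat_lit 306) (nat_lit 303)) (XT.nd (nat_lit 78) (nat_lit 0) (nat_lit 0) (XT.lf (nat_lit 0) (nat_lit 61744620972)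 (nat_lit 152) (nat_lit 75925972187) (nat_lit 0) (nat_lit 61553690393) (nat_lit 1) (nat_lit 5) (nat_lit 3) (nat_lit 4) (nat_lit 1) (nat_lit 4) (nat_lit 412) (nat_lit 306) (nat_lit 302)) (XT.lf (nat_lit 0) (nat_lit 69831284672) (nat_lit 152) (nat_lit 75473281813) (nat_lit 0) (nat_lit 69601121252) (nat_lit 1) (nat_lit 5) (nat_lit 3) (nat_lit 4) (nat_lit 1) (nat_lit 4) (nat_lit 413) (nat_lit 306) (nat_lit 301))))) (XT.nd (nat_lit 234) (nat_lit 0) (nat_lit 0) (XT.nd (nat_lit 78) (nat_lit 0) (nat_lit 0) (XT.lf (nat_lit 0) (nat_lit 78425765745) (nat_lit 152) (nat_lit 75267699062) (nat_lit 0) (nat_lit 78159275621) (nat_lit 1) (nat_lit 5) (nat_lit 3) (nat_lit 4) (nat_lit 1) (nat_lit 4) (nat_lit 414) (nat_lit 306) (nat_lit 300)) (XT.nd (nat_lit 78) (nat_lit 0) (nat_lit 0) (XT.lf (nat_lit 0) (nat_lit 87578994451) (nat_lit 152) (nat_lit 75308005667) (nat_lit 0) (nat_lit 87278868489) (nat_lit 1) (nat_lit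 5) (nat_lit 3) (nat_lit 4) (nat_lit 1) (nat_lit 4) (nat_lit 415) (nat_lit 306) (nat_lit 299)) (XT.lf (nat_lit 0) (nat_lit 97345212143) (nat_lit 152) (nat_lit 75594440481) (nat_lit 0) (nat_lit 97013941888) (nat_lit 1) (nat_lit 5) (nat_lit 3) (nat_lit 4) (nat_lit 1) (nat_lit 4) (nat_lit 416) (nat_lit 306) (nat_lit 298)))) (XT.nd (nat_lit 78) (nat_lit 0) (nat_lit 0) (XT.lf (nat_lit 0) (nat_lit 107782292706) (nat_lit 152) (nat_lit 76128700897) (nat_lit 0) (nat_lit 107422185141) (nat_lit 1) (nat_lit 5) (nat_lit 3) (nat_lit 4) (nat_lit 1) (nat_lit 4) (nat_lit 417) (nat_lit 306) (nat_lit 297)) (XT.nd (nat_lit 78) (nat_lit 0) (nat_lit 0) (XT.lf (nat_lit 0) (nat_lit 118952085505) (nat_lit 152) (nat_lit 76913952901) (nat_lit 0) (nat_lit 118565276729) (nat_lit 1) (nat_lit 5) (nat_lit 3) (nat_lit 4) (nat_lit 1) (nat_lit 4) (nat_lit 418) (nat_lit 306) (nat_lit 296)) (XT.lf (nat_lit 0) (nat_lit 130920781905)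 (nat_lit 152) (nat_lit 77954849839) (nat_lit 0) (nat_lit 130509249784) (nat_lit 1) (nat_lit 5) (nat_lit 3) (nat_lit 4) (nat_lit 1) (nat_lit 4) (nat_lit 419) (nat_lit 306) (nat_lit 295))))))))
noncomputable def xc20 : XT := (XT.nd (nat_lit 1560) (nat_lit 0) (nat_lit 0) (XT.nd (nat_lit 780) (nat_lit 0) (nat_lit 0) (XT.nd (nat_lit 390) (nat_lit 0) (nat_lit 0) (XT.nd (nat_lit 156) (nat_lit 0) (nat_lit 0) (XT.nd (nat_lit 78) (nat_lit 0) (nat_lit 0) (XT.lf (nat_lit 0) (nat_lit 143759307515) (nat_lit 152) (nat_lit 79257559989) (nat_lit 0) (nat_lit 143324883408) (nat_lit 1) (nat_lit 5) (nat_lit 3) (nat_lit 4) (nat_lit 1) (nat_lit 4) (nat_lit 420) (nat_lit 306) (nat_lit 294)) (XT.lf (nat_lit 0) (nat_lit 157543742485) (nat_lit 152) (nat_lit 80829803114) (nat_lit 0) (nat_lit 157088122096) (nat_lit 1) (nat_lit 5) (nat_lit 3) (nat_lit 4) (nat_lit 1) (nat_lit 4) (nat_lit 421) (nat_lit 306) (nat_lit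 293))) (XT.nd (nat_lit 78) (nat_lit 0) (nat_lit 0) (XT.lf (nat_lit 0) (nat_lit 172355772358) (nat_lit 152) (nat_lit 82680896212) (nat_lit 0) (nat_lit 171880525780) (nat_lit 1) (nat_lit 5) (nat_lit 3) (nat_lit 4) (nat_lit 1) (nat_lit 4) (nat_lit 422) (nat_lit 306) (nat_lit 292)) (XT.nd (nat_lit 78) (nat_lit 0) (nat_lit 0) (XT.lf (nat_lit 0) (nat_lit 188283172124) (nat_lit 152) (nat_lit 84821808723) (nat_lit 0) (nat_lit 187789753149) (nat_lit 1) (nat_lit 5) (nat_lit 3) (nat_lit 4) (nat_lit 1) (nat_lit 4) (nat_lit 423) (nat_lit 306) (nat_lit 291)) (XT.lf (nat_lit 0) (nat_lit 205420326374) (nat_lit 152) (nat_lit 87265227535) (nat_lit 0) (nat_lit 204910081107) (nat_lit 1) (nat_lit 5) (nat_lit 3) (nat_lit 4) (nat_lit 1) (nat_lit 4) (nat_lit 424) (nat_lit 306) (nat_lit 290))))) (XT.nd (nat_lit 156) (nat_lit 0) (nat_lit 0) (XT.nd (nat_lit 78) (nat_lit 0) (nat_lit 0) (XT.lf (nat_lit 0) (nat_lit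 223868788616) (nat_lit 152) (nat_lit 90025632168) (nat_lit 0) (nat_lit 223342963448) (nat_lit 1) (nat_lit 5) (nat_lit 3) (nat_lit 4) (nat_lit 1) (nat_lit 4) (nat_lit 425) (nat_lit 306) (nat_lit 289)) (XT.lf (nat_lit 0) (nat_lit 243737883070) (nat_lit 152) (nat_lit 93119380575) (nat_lit 0) (nat_lit 243197632068) (nat_lit 1) (nat_lit 5) (nat_lit 3) (nat_lit 4) (nat_lit 1) (nat_lit 4) (nat_lit 426) (nat_lit 306) (nat_lit 288))) (XT.nd (nat_lit 78) (nat_lit 0) (nat_lit 0) (XT.lf (nat_lit 0) (nat_lit 265145352518) (nat_lit 152) (nat_lit 96564806080) (nat_lit 0) (nat_lit 264591744262) (nat_lit 1) (nat_lit 5) (nat_lit 3) (nat_lit 4) (nat_lit 1) (nat_lit 4) (nat_lit 427) (nat_lit 306) (nat_lit 287)) (XT.nd (nat_lit 78) (nat_lit 0) (nat_lit 0) (XT.lf (nat_lit 0) (nat_lit 288218056038) (nat_lit 152) (nat_lit 100382326019) (nat_lit 0) (nat_lit 287652079955) (nat_lit 1) (nat_lit 5) (nat_lit 3) (nat_lit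 4) (nat_lit 1) (nat_lit 4) (nat_lit 428) (nat_lit 306) (nat_lit 286)) (XT.lf (nat_lit 0) (nat_lit 313092720762) (nat_lit 152) (nat_lit 104594562733) (nat_lit 0) (nat_lit 312515292987) (nat_lit 1) (nat_lit 5) (nat_lit 3) (nat_lit 4) (nat_lit 1) (nat_lit 4) (nat_lit 429) (nat_lit 306) (nat_lit 285)))))) (XT.nd (nat_lit 390) (nat_lit 0) (nat_lit 0) (XT.nd (nat_lit 156) (nat_lit 0) (nat_lit 0) (XT.nd (nat_lit 78) (nat_lit 0) (nat_lit 0) (XT.lf (nat_lit 0) (nat_lit 339916752112) (nat_lit 152) (nat_lit 109226477624) (nat_lit 0) (nat_lit 339328720918) (nat_lit 1) (nat_lit 5) (nat_lit 3) (nat_lit 4) (nat_lit 1) (nat_lit 4) (nat_lit 430) (nat_lit 306) (nat_lit 284)) (XT.lf (nat_lit 0) (nat_lit 368849107308) (nat_lit 152) (nat_lit 114305519076) (nat_lit 0) (nat_lit 368251258134) (nat_lit 1) (nat_lit 5) (nat_lit 3) (nat_lit 4) (nat_lit 1) (nat_lit 4) (nat_lit 431) (nat_lit 306) (nat_lit 283))) (XT.nd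 (nat_lit 78) (nat_lit 0) (nat_lit 0) (XT.lf (nat_lit 0) (nat_lit 400061237347) (nat_lit 152) (nat_lit 119861785114) (nat_lit 0) (nat_lit 399454297450) (nat_lit 1) (nat_lit 5) (nat_lit 3) (nat_lit 4) (nat_lit 1) (nat_lit 4) (nat_lit 432) (nat_lit 306) (nat_lit 282)) (XT.nd (nat_lit 78) (nat_lit 0) (nat_lit 0) (XT.lf (nat_lit 0) (nat_lit 433738102997) (nat_lit 152) (nat_lit 125928201759) (nat_lit 0) (nat_lit 433122745764) (nat_lit 1) (nat_lit 5) (nat_lit 3) (nat_lit 4) (nat_lit 1) (nat_lit 4) (nat_lit 433) (nat_lit 306) (nat_lit 281)) (XT.lf (nat_lit 0) (nat_lit 470079270870) (nat_lit 152) (nat_lit 132540718145) (nat_lit 0) (nat_lit 469456119808) (nat_lit 1) (nat_lit 5) (nat_lit 3) (nat_lit 4) (nat_lit 1) (nat_lit 4) (nat_lit 434) (nat_lit 306) (nat_lit 280))))) (XT.nd (nat_lit 156) (nat_lit 0) (nat_lit 0) (XT.nd (nat_lit 78) (nat_lit 0) (nat_lit 0) (XT.lf (nat_lit 0) (nat_lit 509300096035)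 (nat_lit 152) (nat_lit 139738519555) (nat_lit 0) (nat_lit 508669728465) (nat_lit 1) (nat_lit 5) (nat_lit 3) (nat_lit 4) (nat_lit 1) (nat_lit 4) (nat_lit 435) (nat_lit 306) (nat_lit 279)) (XT.lf (nat_lit 0) (nat_lit 551632998198) (nat_lit 152) (nat_lit 147564259628) (nat_lit 0) (nat_lit 550995948675) (nat_lit 1) (nat_lit 5) (nat_lit 3) (nat_lit 4) (nat_lit 1) (nat_lit 4) (nat_lit 436) (nat_lit 306) (nat_lit 278))) (XT.nd (nat_lit 78) (nat_lit 0) (nat_lit 0) (XT.lf (nat_lit 0) (nat_lit 597328838999) (nat_lit 152) (nat_lit 156064313118) (nat_lit 0) (nat_lit 596685602484) (nat_lit 1) (nat_lit 5) (nat_lit 3) (nat_lit 4) (nat_lit 1) (nat_lit 4) (nat_lit 437) (nat_lit 306) (nat_lit 277)) (XT.nd (nat_lit 78) (nat_lit 0) (nat_lit 0) (XT.lf (nat_lit 0) (nat_lit 646658408608) (nat_lit 152) (nat_lit 165289050714) (nat_lit 0) (nat_lit 646009443395) (nat_lit 1) (nat_lit 5) (nat_lit 3) (nat_lit 4) (nat_lit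 1) (nat_lit 4) (nat_lit 438) (nat_lit 306) (nat_lit 276)) (XT.lf (nat_lit 0) (nat_lit 699914030398) (nat_lit 152) (nat_lit 175293137528) (nat_lit 0) (nat_lit 699259760836) (nat_lit 1) (nat_lit 5) (nat_lit 3) (nat_lit 4) (nat_lit 1) (nat_lit 4) (nat_lit 439) (nat_lit 306) (nat_lit 275))))))) (XT.nd (nat_lit 780) (nat_lit 0) (nat_lit 0) (XT.nd (nat_lit 390) (nat_lit 0) (nat_lit 0) (XT.nd (nat_lit 156) (nat_lit 0) (nat_lit 0) (XT.nd (nat_lit 78) (nat_lit 0) (nat_lit 0) (XT.lf (nat_lit 0) (nat_lit 757411293241) (nat_lit 152) (nat_lit 186135857036) (nat_lit 0) (nat_lit 756752112245) (nat_lit 1) (nat_lit 5) (nat_lit 3) (nat_lit 4) (nat_lit 1) (nat_lit 4) (nat_lit 440) (nat_lit 306) (nat_lit 274)) (XT.lf (nat_lit 0) (nat_lit 819490921657) (nat_lit 152) (nat_lit 197881462391) (nat_lit 0) (nat_lit 818827193036) (nat_lit 1) (nat_lit 5) (nat_lit 3) (nat_lit 4) (nat_lit 1) (nat_lit 4) (nat_lit 441)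 (nat_lit 306) (nat_lit 273))) (XT.nd (nat_lit 78) (nat_lit 0) (nat_lit 0) (XT.lf (nat_lit 0) (nat_lit 886520794925) (nat_lit 152) (nat_lit 210599557181) (nat_lit 0) (nat_lit 885852855541) (nat_lit 1) (nat_lit 5) (nat_lit 3) (nat_lit 4) (nat_lit 1) (nat_lit 4) (nat_lit 442) (nat_lit 306) (nat_lit 272)) (XT.nd (nat_lit 78) (nat_lit 0) (nat_lit 0) (XT.lf (nat_lit 0) (nat_lit 958898127110) (nat_lit 152) (nat_lit 224365507893) (nat_lit 0) (nat_lit 958226288870) (nat_lit 1) (nat_lit 5) (nat_lit 3) (nat_lit 4) (nat_lit 1) (nat_lit 4) (nat_lit 443) (nat_lit 306) (nat_lit 271)) (XT.lf (nat_lit 0) (nat_lit 1037051820919) (nat_lit 152) (nat_lit 239260890531) (nat_lit 0) (nat_lit 1036376372629) (nat_lit 1) (nat_lit 5) (nat_lit 3) (nat_lit 4) (nat_lit 1) (nat_lit 4) (nat_lit 444) (nat_lit 306) (nat_lit 270))))) (XT.nd (nat_lit 156) (nat_lit 0) (nat_lit 0) (XT.nd (nat_lit 78) (nat_lit 0) (nat_lit 0)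 (XT.lf (nat_lit 0) (nat_lit 1121445009355) (nat_lit 152) (nat_lit 255373974030) (nat_lit 0) (nat_lit 1120766218424) (nat_lit 1) (nat_lit 5) (nat_lit 3) (nat_lit 4) (nat_lit 1) (nat_lit 4) (nat_lit 445) (nat_lit 306) (nat_lit 269)) (XT.lf (nat_lit 0) (nat_lit 1212577800199) (nat_lit 152) (nat_lit 272800243329) (nat_lit 0) (nat_lit 1211895914232) (nat_lit 1) (nat_lit 5) (nat_lit 3) (nat_lit 4) (nat_lit 1) (nat_lit 4) (nat_lit 446) (nat_lit 306) (nat_lit 268))) (XT.nd (nat_lit 78) (nat_lit 0) (nat_lit 0) (XT.lf (nat_lit 0) (nat_lit 1310990239621) (nat_lit 152) (nat_lit 291642965209) (nat_lit 0) (nat_lit 1310305487879) (nat_lit 1) (nat_lit 5) (nat_lit 3) (nat_lit 4) (nat_lit 1) (nat_lit 4) (nat_lit 447) (nat_lit 306) (nat_lit 267)) (XT.nd (nat_lit 78) (nat_lit 0) (nat_lit 0) (XT.lf (nat_lit 0) (nat_lit 1417265512445) (nat_lit 152) (nat_lit 312013800244) (nat_lit 0) (nat_lit 1416578107208)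 (nat_lit 1) (nat_lit 5) (nat_lit 3) (nat_lit 4) (nat_lit 1) (nat_lit 4) (nat_lit 448) (nat_lit 306) (nat_lit 266)) (XT.lf (nat_lit 0) (nat_lit 1532033398068) (nat_lit 152) (nat_lit 334033464493) (nat_lit 0) (nat_lit 1531343535890) (nat_lit 1) (nat_lit 5) (nat_lit 3) (nat_lit 4) (nat_lit 1) (nat_lit 4) (nat_lit 449) (nat_lit 306) (nat_lit 265)))))) (XT.nd (nat_lit 390) (nat_lit 0) (nat_lit 0) (XT.nd (nat_lit 156) (nat_lit 0) (nat_lit 0) (XT.nd (nat_lit 78) (nat_lit 0) (nat_lit 0) (XT.lf (nat_lit 0) (nat_lit 1655974002477) (nat_lit 152) (nat_lit 357832444855) (nat_lit 0) (nat_lit 1655281865355) (nat_lit 1) (nat_lit 5) (nat_lit 3) (nat_lit 4) (nat_lit 1) (nat_lit 4) (nat_lit 450) (nat_lit 306) (nat_lit 264)) (XT.lf (nat_lit 0) (nat_lit 1789821788513) (nat_lit 152) (nat_lit 383551772326) (nat_lit 0) (nat_lit 1789127544962) (nat_lit 1) (nat_lit 5) (nat_lit 3) (nat_lit 4) (nat_lit 1) (nat_lit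 4) (nat_lit 451) (nat_lit 306) (nat_lit 263))) (XT.nd (nat_lit 78) (nat_lit 0) (nat_lit 0) (XT.lf (nat_lit 0) (nat_lit 1934369928243) (nat_lit 152) (nat_lit 411343857735) (nat_lit 0) (nat_lit 1933673734293) (nat_lit 1) (nat_lit 5) (nat_lit 3) (nat_lit 4) (nat_lit 1) (nat_lit 4) (nat_lit 452) (nat_lit 306) (nat_lit 262)) (XT.nd (nat_lit 78) (nat_lit 0) (nat_lit 0) (XT.lf (nat_lit 0) (nat_lit 2090475003234) (nat_lit 152) (nat_lit 441373394922) (nat_lit 0) (nat_lit 2089777003360) (nat_lit 1) (nat_lit 5) (nat_lit 3) (nat_lit 4) (nat_lit 1) (nat_lit 4) (nat_lit 453) (nat_lit 306) (nat_lit 261)) (XT.lf (nat_lit 0) (nat_lit 2259062080598) (nat_lit 152) (nat_lit 473818336698) (nat_lit 0) (nat_lit 2258362408572) (nat_lit 1) (nat_lit 5) (nat_lit 3) (nat_lit 4) (nat_lit 1) (nat_lit 4) (nat_lit 454) (nat_lit 306) (nat_lit 260))))) (XT.nd (nat_lit 234) (nat_lit 0) (nat_lit 0) (XT.nd (nat_lit 78) (nat_lit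 0) (nat_lit 0) (XT.lf (nat_lit 0) (nat_lit 2441130194867) (nat_lit 152) (nat_lit 508870949387) (nat_lit 0) (nat_lit 2440428974552) (nat_lit 1) (nat_lit 5) (nat_lit 3) (nat_lit 4) (nat_lit 1) (nat_lit 4) (nat_lit 455) (nat_lit 306) (nat_lit 259)) (XT.nd (nat_lit 78) (nat_lit 0) (nat_lit 0) (XT.lf (nat_lit 0) (nat_lit 2637758268201) (nat_lit 152) (nat_lit 546738952174) (nat_lit 0) (nat_lit 2637055614284) (nat_lit 1) (nat_lit 5) (nat_lit 3) (nat_lit 4) (nat_lit 1) (nat_lit 4) (nat_lit 456) (nat_lit 306) (nat_lit 258)) (XT.lf (nat_lit 0) (nat_lit 2850111503995) (nat_lit 152) (nat_lit 587646748038) (nat_lit 0) (nat_lit 2849407522671) (nat_lit 1) (nat_lit 5) (nat_lit 3) (nat_lit 4) (nat_lit 1) (nat_lit 4) (nat_lit 457) (nat_lit 306) (nat_lit 257)))) (XT.nd (nat_lit 78) (nat_lit 0) (nat_lit 0) (XT.lf (nat_lit 0) (nat_lit 3079448291797) (nat_lit 152) (nat_lit 631836753548) (nat_lit 0) (nat_lit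 3078743081391) (nat_lit 1) (nat_lit 5) (nat_lit 3) (nat_lit 4) (nat_lit 1) (nat_lit 4) (nat_lit 458) (nat_lit 306) (nat_lit 256)) (XT.nd (nat_lit 78) (nat_lit 0) (nat_lit 0) (XT.lf (nat_lit 0) (nat_lit 3327127664422) (nat_lit 152) (nat_lit 679570835404) (nat_lit 0) (nat_lit 3326421315977) (nat_lit 1) (nat_lit 5) (nat_lit 3) (nat_lit 4) (nat_lit 1) (nat_lit 4) (nat_lit 459) (nat_lit 306) (nat_lit 255)) (XT.lf (nat_lit 0) (nat_lit 3594617351486) (nat_lit 152) (nat_lit 731131862237) (nat_lit 0) (nat_lit 3593909949302) (nat_lit 1) (nat_lit 5) (nat_lit 3) (nat_lit 4) (nat_lit 1) (nat_lit 4) (nat_lit 460) (nat_lit 306) (nat_lit 254))))))))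
noncomputable def xc21 : XT := (XT.nd (nat_lit 49998) (nat_lit 0) (nat_lit 0) (XT.nd (nat_lit 49218) (nat_lit 0) (nat_lit 0) (XT.nd (nat_lit 48828) (nat_lit 0) (nat_lit 0) (XT.nd (nat_lit 156) (nat_lit 0) (nat_lit 0) (XT.nd (nat_lit 78) (nat_lit 0) (nat_lit 0) (XT.lf (nat_lit 0) (nat_lit 3883502477061) (nat_lit 152) (nat_lit 786825380875) (nat_lit 0) (nat_lit 3882794099192) (nat_lit 1) (nat_lit 5) (nat_lit 3) (nat_lit 4) (nat_lit 1) (nat_lit 4) (nat_lit 461) (nat_lit 306) (nat_lit 253)) (XT.lf (nat_lit 0) (nat_lit 4195494953001) (nat_lit 152) (nat_lit 846981426983) (nat_lit 0) (nat_lit 4194785671721) (nat_lit 1) (nat_lit 5) (nat_lit 3) (nat_lit 4) (nat_lit 1) (nat_lit 4) (nat_lit 462) (nat_lit 306) (nat_lit 252))) (XT.nd (nat_lit 78) (nat_lit 0) (nat_lit 0) (XT.lf (nat_lit 0) (nat_lit 4532443623610) (nat_lit 152) (nat_lit 911956480834) (nat_lit 0) (nat_lit 4531733505837) (nat_lit 1) (nat_lit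 5) (nat_lit 3) (nat_lit 4) (nat_lit 1) (nat_lit 4) (nat_lit 463) (nat_lit 306) (nat_lit 251)) (XT.nd (nat_lit 78) (nat_lit 0) (nat_lit 0) (XT.lf (nat_lit 0) (nat_lit 4896345221749) (nat_lit 152) (nat_lit 982135579784) (nat_lit 0) (nat_lit 4895634329445) (nat_lit 1) (nat_lit 5) (nat_lit 3) (nat_lit 4) (nat_lit 1) (nat_lit 4) (nat_lit 464) (nat_lit 306) (nat_lit 250)) (XT.lf (nat_lit 0) (nat_lit 5289356201333) (nat_lit 152) (nat_lit 1057934599975) (nat_lit 0) (nat_lit 5288644591872) (nat_lit 1) (nat_lit 5) (nat_lit 3) (nat_lit 4) (nat_lit 1) (nat_lit 4) (nat_lit 465) (nat_lit 306) (nat_lit 249))))) (XT.nd (nat_lit 156) (nat_lit 0) (nat_lit 0) (XT.nd (nat_lit 78) (nat_lit 0) (nat_lit 0) (XT.lf (nat_lit 0) (nat_lit 10772589421) (nat_lit 152) (nat_lit 41935348694) (nat_lit 0) (nat_lit 10772589421) (nat_lit 1) (nat_lit 5) (nat_lit 3) (nat_lit 4) (nat_lit 1) (nat_lit 4) (nat_lit 406) (nat_lit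 307) (nat_lit 307)) (XT.lf (nat_lit 0) (nat_lit 27398837057) (nat_lit 152) (nat_lit 82042318765) (nat_lit 0) (nat_lit 27341191143) (nat_lit 1) (nat_lit 5) (nat_lit 3) (nat_lit 4) (nat_lit 1) (nat_lit 4) (nat_lit 407) (nat_lit 307) (nat_lit 306))) (XT.nd (nat_lit 78) (nat_lit 0) (nat_lit 0) (XT.lf (nat_lit 0) (nat_lit 33516381292) (nat_lit 152) (nat_lit 80483964075) (nat_lit 0) (nat_lit 33405359531) (nat_lit 1) (nat_lit 5) (nat_lit 3) (nat_lit 4) (nat_lit 1) (nat_lit 4) (nat_lit 408) (nat_lit 307) (nat_lit 305)) (XT.nd (nat_lit 78) (nat_lit 0) (nat_lit 0) (XT.lf (nat_lit 0) (nat_lit 39934063661) (nat_lit 152) (nat_lit 79186398625) (nat_lit 0) (nat_lit 39773619820) (nat_lit 1) (nat_lit 5) (nat_lit 3) (nat_lit 4) (nat_lit 1) (nat_lit 4) (nat_lit 409) (nat_lit 307) (nat_lit 304)) (XT.lf (nat_lit 0) (nat_lit 46689914875) (nat_lit 152) (nat_lit 78141933137) (nat_lit 0) (nat_lit 46483709849)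 (nat_lit 1) (nat_lit 5) (nat_lit 3) (nat_lit 4) (nat_lit 1) (nat_lit 4) (nat_lit 410) (nat_lit 307) (nat_lit 303)))))) (XT.nd (nat_lit 390) (nat_lit 0) (nat_lit 0) (XT.nd (nat_lit 156) (nat_lit 0) (nat_lit 0) (XT.nd (nat_lit 78) (nat_lit 0) (nat_lit 0) (XT.lf (nat_lit 0) (nat_lit 53823969609) (nat_lit 152) (nat_lit 77344378186) (nat_lit 0) (nat_lit 53575393115) (nat_lit 1) (nat_lit 5) (nat_lit 3) (nat_lit 4) (nat_lit 1) (nat_lit 4) (nat_lit 411) (nat_lit 307) (nat_lit 302)) (XT.lf (nat_lit 0) (nat_lit 61378503741) (nat_lit 152) (nat_lit 76789007522) (nat_lit 0) (nat_lit 61090694406) (nat_lit 1) (nat_lit 5) (nat_lit 3) (nat_lit 4) (nat_lit 1) (nat_lit 4) (nat_lit 412) (nat_lit 307) (nat_lit 301))) (XT.nd (nat_lit 78) (nat_lit 0) (nat_lit 0) (XT.lf (nat_lit 0) (nat_lit 69398284882) (nat_lit 152) (nat_lit 76472530058) (nat_lit 0) (nat_lit 69074148843) (nat_lit 1) (nat_lit 5) (nat_lit 3) (nat_lit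 4) (nat_lit 1) (nat_lit 4) (nat_lit 413) (nat_lit 307) (nat_lit 300)) (XT.nd (nat_lit 78) (nat_lit 0) (nat_lit 0) (XT.lf (nat_lit 0) (nat_lit 77930837660) (nat_lit 152) (nat_lit 76393070372) (nat_lit 0) (nat_lit 77573065784) (nat_lit 1) (nat_lit 5) (nat_lit 3) (nat_lit 4) (nat_lit 1) (nat_lit 4) (nat_lit 414) (nat_lit 307) (nat_lit 299)) (XT.lf (nat_lit 0) (nat_lit 87026725351) (nat_lit 152) (nat_lit 76550157593) (nat_lit 0) (nat_lit 86637809182) (nat_lit 1) (nat_lit 5) (nat_lit 3) (nat_lit 4) (nat_lit 1) (nat_lit 4) (nat_lit 415) (nat_lit 307) (nat_lit 298))))) (XT.nd (nat_lit 156) (nat_lit 0) (nat_lit 0) (XT.nd (nat_lit 78) (nat_lit 0) (nat_lit 0) (XT.lf (nat_lit 0) (nat_lit 96739849513) (nat_lit 152) (nat_lit 76944722607) (nat_lit 0) (nat_lit 96322096034) (nat_lit 1) (nat_lit 5) (nat_lit 3) (nat_lit 4) (nat_lit 1) (nat_lit 4) (nat_lit 416) (nat_lit 307) (nat_lit 297)) (XT.lf (nat_lit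 0) (nat_lit 107127769398) (nat_lit 152) (nat_lit 77579103578) (nat_lit 0) (nat_lit 106683314707) (nat_lit 1) (nat_lit 5) (nat_lit 3) (nat_lit 4) (nat_lit 1) (nat_lit 4) (nat_lit 417) (nat_lit 307) (nat_lit 296))) (XT.nd (nat_lit 78) (nat_lit 0) (nat_lit 0) (XT.lf (nat_lit 0) (nat_lit 118252043052) (nat_lit 152) (nat_lit 78457059800) (nat_lit 0) (nat_lit 117782865016) (nat_lit 1) (nat_lit 5) (nat_lit 3) (nat_lit 4) (nat_lit 1) (nat_lit 4) (nat_lit 418) (nat_lit 307) (nat_lit 295)) (XT.nd (nat_lit 78) (nat_lit 0) (nat_lit 0) (XT.lf (nat_lit 0) (nat_lit 130178592095) (nat_lit 152) (nat_lit 79583793977) (nat_lit 0) (nat_lit 129686522074) (nat_lit 1) (nat_lit 5) (nat_lit 3) (nat_lit 4) (nat_lit 1) (nat_lit 4) (nat_lit 419) (nat_lit 307) (nat_lit 294)) (XT.lf (nat_lit 0) (nat_lit 142978092374) (nat_lit 152) (nat_lit 80965983052) (nat_lit 0) (nat_lit 142464826070) (nat_lit 1) (nat_lit 5) (nat_lit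 3) (nat_lit 4) (nat_lit 1) (nat_lit 4) (nat_lit 420) (nat_lit 307) (nat_lit 293))))))) (XT.nd (nat_lit 780) (nat_lit 0) (nat_lit 0) (XT.nd (nat_lit 390) (nat_lit 0) (nat_lit 0) (XT.nd (nat_lit 156) (nat_lit 0) (nat_lit 0) (XT.nd (nat_lit 78) (nat_lit 0) (nat_lit 0) (XT.lf (nat_lit 0) (nat_lit 156726392779) (nat_lit 152) (nat_lit 82611817775) (nat_lit 0) (nat_lit 156193500287) (nat_lit 1) (nat_lit 5) (nat_lit 3) (nat_lit 4) (nat_lit 1) (nat_lit 4) (nat_lit 421) (nat_lit 307) (nat_lit 292)) (XT.lf (nat_lit 0) (nat_lit 171504964720) (nat_lit 152) (nat_lit 84531051240) (nat_lit 0) (nat_lit 170953899832) (nat_lit 1) (nat_lit 5) (nat_lit 3) (nat_lit 4) (nat_lit 1) (nat_lit 4) (nat_lit 422) (nat_lit 307) (nat_lit 291))) (XT.nd (nat_lit 78) (nat_lit 0) (nat_lit 0) (XT.lf (nat_lit 0) (nat_lit 187401384920) (nat_lit 152) (nat_lit 86735056684) (nat_lit 0) (nat_lit 186833493739) (nat_lit 1) (nat_lit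 5) (nat_lit 3) (nat_lit 4) (nat_lit 1) (nat_lit 4) (nat_lit 423) (nat_lit 307) (nat_lit 290)) (XT.nd (nat_lit 78) (nat_lit 0) (nat_lit 0) (XT.lf (nat_lit 0) (nat_lit 204509854388) (nat_lit 152) (nat_lit 89236894879) (nat_lit 0) (nat_lit 203926383306) (nat_lit 1) (nat_lit 5) (nat_lit 3) (nat_lit 4) (nat_lit 1) (nat_lit 4) (nat_lit 424) (nat_lit 307) (nat_lit 289)) (XT.lf (nat_lit 0) (nat_lit 222931756646) (nat_lit 152) (nat_lit 92051391533) (nat_lit 0) (nat_lit 222333859729) (nat_lit 1) (nat_lit 5) (nat_lit 3) (nat_lit 4) (nat_lit 1) (nat_lit 4) (nat_lit 425) (nat_lit 307) (nat_lit 288))))) (XT.nd (nat_lit 156) (nat_lit 0) (nat_lit 0) (XT.nd (nat_lit 78) (nat_lit 0) (nat_lit 0) (XT.lf (nat_lit 0) (nat_lit 242776258521) (nat_lit 152) (nat_lit 95195225144) (nat_lit 0) (nat_lit 242165004352) (nat_lit 1) (nat_lit 5) (nat_lit 3) (nat_lit 4) (nat_lit 1) (nat_lit 4) (nat_lit 426) (nat_lit 307)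 (nat_lit 287)) (XT.lf (nat_lit 0) (nat_lit 264160957064) (nat_lit 152) (nat_lit 98687025839) (nat_lit 0) (nat_lit 263537335066) (nat_lit 1) (nat_lit 5) (nat_lit 3) (nat_lit 4) (nat_lit 1) (nat_lit 4) (nat_lit 427) (nat_lit 307) (nat_lit 286))) (XT.nd (nat_lit 78) (nat_lit 0) (nat_lit 0) (XT.lf (nat_lit 0) (nat_lit 287212576412) (nat_lit 152) (nat_lit 102547485768) (nat_lit 0) (nat_lit 286577502723) (nat_lit 1) (nat_lit 5) (nat_lit 3) (nat_lit 4) (nat_lit 1) (nat_lit 4) (nat_lit 428) (nat_lit 307) (nat_lit 285)) (XT.nd (nat_lit 78) (nat_lit 0) (nat_lit 0) (XT.lf (nat_lit 0) (nat_lit 312067718755) (nat_lit 152) (nat_lit 106799481731) (nat_lit 0) (nat_lit 311422041647) (nat_lit 1) (nat_lit 5) (nat_lit 3) (nat_lit 4) (nat_lit 1) (nat_lit 4) (nat_lit 429) (nat_lit 307) (nat_lit 284)) (XT.lf (nat_lit 0) (nat_lit 338873673826) (nat_lit 152) (nat_lit 111468210743) (nat_lit 0) (nat_lit 338218178737)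 (nat_lit 1) (nat_lit 5) (nat_lit 3) (nat_lit 4) (nat_lit 1) (nat_lit 4) (nat_lit 430) (nat_lit 307) (nat_lit 283)))))) (XT.nd (nat_lit 390) (nat_lit 0) (nat_lit 0) (XT.nd (nat_lit 156) (nat_lit 0) (nat_lit 0) (XT.nd (nat_lit 78) (nat_lit 0) (nat_lit 0) (XT.lf (nat_lit 0) (nat_lit 367789291727) (nat_lit 152) (nat_lit 116581339344) (nat_lit 0) (nat_lit 367124705916) (nat_lit 1) (nat_lit 5) (nat_lit 3) (nat_lit 4) (nat_lit 1) (nat_lit 4) (nat_lit 431) (nat_lit 307) (nat_lit 282)) (XT.lf (nat_lit 0) (nat_lit 398985924269) (nat_lit 152) (nat_lit 122169167557) (nat_lit 0) (nat_lit 398312921123) (nat_lit 1) (nat_lit 5) (nat_lit 3) (nat_lit 4) (nat_lit 1) (nat_lit 4) (nat_lit 432) (nat_lit 307) (nat_lit 281))) (XT.nd (nat_lit 78) (nat_lit 0) (nat_lit 0) (XT.lf (nat_lit 0) (nat_lit 432648440386) (nat_lit 152) (nat_lit 128264808437) (nat_lit 0) (nat_lit 431967643411) (nat_lit 1) (nat_lit 5) (nat_lit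 3) (nat_lit 4) (nat_lit 1) (nat_lit 4) (nat_lit 433) (nat_lit 307) (nat_lit 280)) (XT.nd (nat_lit 78) (nat_lit 0) (nat_lit 0) (XT.lf (nat_lit 0) (nat_lit 468976321655) (nat_lit 152) (nat_lit 134904384300) (nat_lit 0) (nat_lit 468288308171) (nat_lit 1) (nat_lit 5) (nat_lit 3) (nat_lit 4) (nat_lit 1) (nat_lit 4) (nat_lit 434) (nat_lit 307) (nat_lit 279)) (XT.lf (nat_lit 0) (nat_lit 508184844409) (nat_lit 152) (nat_lit 142127240782) (nat_lit 0) (nat_lit 507490148972) (nat_lit 1) (nat_lit 5) (nat_lit 3) (nat_lit 4) (nat_lit 1) (nat_lit 4) (nat_lit 435) (nat_lit 307) (nat_lit 278))))) (XT.nd (nat_lit 234) (nat_lit 0) (nat_lit 0) (XT.nd (nat_lit 78) (nat_lit 0) (nat_lit 0) (XT.lf (nat_lit 0) (nat_lit 550506355449) (nat_lit 152) (nat_lit 149976179995) (nat_lit 0) (nat_lit 549805473019) (nat_lit 1) (nat_lit 5) (nat_lit 3) (nat_lit 4) (nat_lit 1) (nat_lit 4) (nat_lit 436) (nat_lit 307) (nat_lit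 277)) (XT.nd (nat_lit 78) (nat_lit 0) (nat_lit 0) (XT.lf (nat_lit 0) (nat_lit 596191648915) (nat_lit 152) (nat_lit 158497714172) (nat_lit 0) (nat_lit 595485037788) (nat_lit 1) (nat_lit 5) (nat_lit 3) (nat_lit 4) (nat_lit 1) (nat_lit 4) (nat_lit 437) (nat_lit 307) (nat_lit 276)) (XT.lf (nat_lit 0) (nat_lit 645511452473) (nat_lit 152) (nat_lit 167742341292) (nat_lit 0) (nat_lit 644799536996) (nat_lit 1) (nat_lit 5) (nat_lit 3) (nat_lit 4) (nat_lit 1) (nat_lit 4) (nat_lit 438) (nat_lit 307) (nat_lit 275)))) (XT.nd (nat_lit 78) (nat_lit 0) (nat_lit 0) (XT.lf (nat_lit 0) (nat_lit 698758031623) (nat_lit 152) (nat_lit 177764844331) (nat_lit 0) (nat_lit 698041204713) (nat_lit 1) (nat_lit 5) (nat_lit 3) (nat_lit 4) (nat_lit 1) (nat_lit 4) (nat_lit 439) (nat_lit 307) (nat_lit 274)) (XT.nd (nat_lit 78) (nat_lit 0) (nat_lit 0) (XT.lf (nat_lit 0) (nat_lit 756246921652) (nat_lit 152) (nat_lit 188624615900)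 (nat_lit 0) (nat_lit 755525547116) (nat_lit 1) (nat_lit 5) (nat_lit 3) (nat_lit 4) (nat_lit 1) (nat_lit 4) (nat_lit 440) (nat_lit 307) (nat_lit 273)) (XT.lf (nat_lit 0) (nat_lit 818318797461) (nat_lit 152) (nat_lit 200386010200) (nat_lit 0) (nat_lit 817593212163) (nat_lit 1) (nat_lit 5) (nat_lit 3) (nat_lit 4) (nat_lit 1) (nat_lit 4) (nat_lit 441) (nat_lit 307) (nat_lit 272))))))))
noncomputable def xc22 : XT := (XT.nd (nat_lit 1560) (nat_lit 0) (nat_lit 0) (XT.nd (nat_lit 780) (nat_lit 0) (nat_lit 0) (XT.nd (nat_lit 390) (nat_lit 0) (nat_lit 0) (XT.nd (nat_lit 156) (nat_lit 0) (nat_lit 0) (XT.nd (nat_lit 78) (nat_lit 0) (nat_lit 0) (XT.lf (nat_lit 0) (nat_lit 885341492390) (nat_lit 152) (nat_lit 213118724384) (nat_lit 0) (nat_lit 884612008237) (nat_lit 1) (nat_lit 5) (nat_lit 3) (nat_lit 4) (nat_lit 1) (nat_lit 4) (nat_lit 442) (nat_lit 307) (nat_lit 271)) (XT.lf (nat_lit 0) (nat_lit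 957712177965) (nat_lit 152) (nat_lit 226898211572) (nat_lit 0) (nat_lit 956979083760) (nat_lit 1) (nat_lit 5) (nat_lit 3) (nat_lit 4) (nat_lit 1) (nat_lit 4) (nat_lit 443) (nat_lit 307) (nat_lit 270))) (XT.nd (nat_lit 78) (nat_lit 0) (nat_lit 0) (XT.lf (nat_lit 0) (nat_lit 1035859717505) (nat_lit 152) (nat_lit 241806127984) (nat_lit 0) (nat_lit 1035123280661) (nat_lit 1) (nat_lit 5) (nat_lit 3) (nat_lit 4) (nat_lit 1) (nat_lit 4) (nat_lit 444) (nat_lit 307) (nat_lit 269)) (XT.nd (nat_lit 78) (nat_lit 0) (nat_lit 0) (XT.lf (nat_lit 0) (nat_lit 1120247207544) (nat_lit 152) (nat_lit 257930816829) (nat_lit 0) (nat_lit 1119507675662) (nat_lit 1) (nat_lit 5) (nat_lit 3) (nat_lit 4) (nat_lit 1) (nat_lit 4) (nat_lit 445) (nat_lit 307) (nat_lit 268)) (XT.lf (nat_lit 0) (nat_lit 1211374722095) (nat_lit 152) (nat_lit 275367831819) (nat_lit 0) (nat_lit 1210632324438) (nat_lit 1) (nat_lit 5) (nat_lit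 3) (nat_lit 4) (nat_lit 1) (nat_lit 4) (nat_lit 446) (nat_lit 307) (nat_lit 267))))) (XT.nd (nat_lit 156) (nat_lit 0) (nat_lit 0) (XT.nd (nat_lit 78) (nat_lit 0) (nat_lit 0) (XT.lf (nat_lit 0) (nat_lit 1309782276059) (nat_lit 152) (nat_lit 294220503412) (nat_lit 0) (nat_lit 1309037224908) (nat_lit 1) (nat_lit 5) (nat_lit 3) (nat_lit 4) (nat_lit 1) (nat_lit 4) (nat_lit 447) (nat_lit 307) (nat_lit 266)) (XT.lf (nat_lit 0) (nat_lit 1416053025313) (nat_lit 152) (nat_lit 314600551145) (nat_lit 0) (nat_lit 1415305517221) (nat_lit 1) (nat_lit 5) (nat_lit 3) (nat_lit 4) (nat_lit 1) (nat_lit 4) (nat_lit 448) (nat_lit 307) (nat_lit 265))) (XT.nd (nat_lit 78) (nat_lit 0) (nat_lit 0) (XT.lf (nat_lit 0) (nat_lit 1530816722443) (nat_lit 152) (nat_lit 336628745670) (nat_lit 0) (nat_lit 1530066939407) (nat_lit 1) (nat_lit 5) (nat_lit 3) (nat_lit 4) (nat_lit 1) (nat_lit 4) (nat_lit 449) (nat_lit 307) (nat_lit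 264)) (XT.nd (nat_lit 78) (nat_lit 0) (nat_lit 0) (XT.lf (nat_lit 0) (nat_lit 1654753448619) (nat_lit 152) (nat_lit 360435624436) (nat_lit 0) (nat_lit 1654001559153) (nat_lit 1) (nat_lit 5) (nat_lit 3) (nat_lit 4) (nat_lit 1) (nat_lit 4) (nat_lit 450) (nat_lit 307) (nat_lit 263)) (XT.lf (nat_lit 0) (nat_lit 1788597643699) (nat_lit 152) (nat_lit 386162265244) (nat_lit 0) (nat_lit 1787843803834) (nat_lit 1) (nat_lit 5) (nat_lit 3) (nat_lit 4) (nat_lit 1) (nat_lit 4) (nat_lit 451) (nat_lit 307) (nat_lit 262)))))) (XT.nd (nat_lit 390) (nat_lit 0) (nat_lit 0) (XT.nd (nat_lit 156) (nat_lit 0) (nat_lit 0) (XT.nd (nat_lit 78) (nat_lit 0) (nat_lit 0) (XT.lf (nat_lit 0) (nat_lit 1933142458468) (nat_lit 152) (nat_lit 413961122261) (nat_lit 0) (nat_lit 1932386812680) (nat_lit 1) (nat_lit 5) (nat_lit 3) (nat_lit 4) (nat_lit 1) (nat_lit 4) (nat_lit 452) (nat_lit 307) (nat_lit 261)) (XT.lf (nat_lit 0)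 (nat_lit 2089244454793) (nat_lit 152) (nat_lit 443996929454) (nat_lit 0) (nat_lit 2088487136852) (nat_lit 1) (nat_lit 5) (nat_lit 3) (nat_lit 4) (nat_lit 1) (nat_lit 4) (nat_lit 453) (nat_lit 307) (nat_lit 260))) (XT.nd (nat_lit 78) (nat_lit 0) (nat_lit 0) (XT.lf (nat_lit 0) (nat_lit 2257828681540) (nat_lit 152) (nat_lit 476447676793) (nat_lit 0) (nat_lit 2257069815310) (nat_lit 1) (nat_lit 5) (nat_lit 3) (nat_lit 4) (nat_lit 1) (nat_lit 4) (nat_lit 454) (nat_lit 307) (nat_lit 259)) (XT.nd (nat_lit 78) (nat_lit 0) (nat_lit 0) (XT.lf (nat_lit 0) (nat_lit 2439894156349) (nat_lit 152) (nat_lit 511505665002) (nat_lit 0) (nat_lit 2439133856518) (nat_lit 1) (nat_lit 5) (nat_lit 3) (nat_lit 4) (nat_lit 1) (nat_lit 4) (nat_lit 455) (nat_lit 307) (nat_lit 258)) (XT.lf (nat_lit 0) (nat_lit 2636519785737) (nat_lit 152) (nat_lit 549378645123) (nat_lit 0) (nat_lit 2635758158498) (nat_lit 1) (nat_lit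 5) (nat_lit 3) (nat_lit 4) (nat_lit 1) (nat_lit 4) (nat_lit 456) (nat_lit 307) (nat_lit 257))))) (XT.nd (nat_lit 156) (nat_lit 0) (nat_lit 0) (XT.nd (nat_lit 78) (nat_lit 0) (nat_lit 0) (XT.lf (nat_lit 0) (nat_lit 2848870758620) (nat_lit 152) (nat_lit 590291049630) (nat_lit 0) (nat_lit 2848107902299) (nat_lit 1) (nat_lit 5) (nat_lit 3) (nat_lit 4) (nat_lit 1) (nat_lit 4) (nat_lit 457) (nat_lit 307) (nat_lit 256)) (XT.lf (nat_lit 0) (nat_lit 3078205451133) (nat_lit 152) (nat_lit 634485322402) (nat_lit 0) (nat_lit 3077441456773) (nat_lit 1) (nat_lit 5) (nat_lit 3) (nat_lit 4) (nat_lit 1) (nat_lit 4) (nat_lit 458) (nat_lit 307) (nat_lit 255))) (XT.nd (nat_lit 78) (nat_lit 0) (nat_lit 0) (XT.lf (nat_lit 0) (nat_lit 3325882883676) (nat_lit 152) (nat_lit 682223355426) (nat_lit 0) (nat_lit 3325117835577) (nat_lit 1) (nat_lit 5) (nat_lit 3) (nat_lit 4) (nat_lit 1) (nat_lit 4) (nat_lit 459) (nat_lit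 307) (nat_lit 254)) (XT.nd (nat_lit 78) (nat_lit 0) (nat_lit 0) (XT.lf (nat_lit 0) (nat_lit 3593370774367) (nat_lit 152) (nat_lit 733788040749) (nat_lit 0) (nat_lit 3592604750584) (nat_lit 1) (nat_lit 5) (nat_lit 3) (nat_lit 4) (nat_lit 1) (nat_lit 4) (nat_lit 460) (nat_lit 307) (nat_lit 253)) (XT.lf (nat_lit 0) (nat_lit 3882254236634) (nat_lit 152) (nat_lit 789484946876) (nat_lit 0) (nat_lit 3881487309439) (nat_lit 1) (nat_lit 5) (nat_lit 3) (nat_lit 4) (nat_lit 1) (nat_lit 4) (nat_lit 461) (nat_lit 307) (nat_lit 252))))))) (XT.nd (nat_lit 49062) (nat_lit 0) (nat_lit 0) (XT.nd (nat_lit 48672) (nat_lit 0) (nat_lit 0) (XT.nd (nat_lit 156) (nat_lit 0) (nat_lit 0) (XT.nd (nat_lit 78) (nat_lit 0) (nat_lit 0) (XT.lf (nat_lit 0) (nat_lit 4194245172475) (nat_lit 152) (nat_lit 849644129548) (nat_lit 0) (nat_lit 4193477408788) (nat_lit 1) (nat_lit 5) (nat_lit 3) (nat_lit 4) (nat_lit 1) (nat_lit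 4) (nat_lit 462) (nat_lit 307) (nat_lit 251)) (XT.lf (nat_lit 0) (nat_lit 4531192417065) (nat_lit 152) (nat_lit 914622087626) (nat_lit 0) (nat_lit 4530423878848) (nat_lit 1) (nat_lit 5) (nat_lit 3) (nat_lit 4) (nat_lit 1) (nat_lit 4) (nat_lit 463) (nat_lit 307) (nat_lit 250))) (XT.nd (nat_lit 78) (nat_lit 0) (nat_lit 0) (XT.lf (nat_lit 0) (nat_lit 4895092694817) (nat_lit 152) (nat_lit 984803875675) (nat_lit 0) (nat_lit 4894323439442) (nat_lit 1) (nat_lit 5) (nat_lit 3) (nat_lit 4) (nat_lit 1) (nat_lit 4) (nat_lit 464) (nat_lit 307) (nat_lit 249)) (XT.nd (nat_lit 48360) (nat_lit 0) (nat_lit 0) (XT.lf (nat_lit 0) (nat_lit 5288102451820) (nat_lit 152) (nat_lit 1060605385773) (nat_lit 0) (nat_lit 5287332532411) (nat_lit 1) (nat_lit 5) (nat_lit 3) (nat_lit 4) (nat_lit 1) (nat_lit 4) (nat_lit 465) (nat_lit 307) (nat_lit 248)) (XT.lf (nat_lit 0) (nat_lit 5334503923) (nat_lit 152) (nat_lit 44074542569)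 (nat_lit 0) (nat_lit 5334503923) (nat_lit 1) (nat_lit 5) (nat_lit 3) (nat_lit 4) (nat_lit 1) (nat_lit 4) (nat_lit 404) (nat_lit 308) (nat_lit 308))))) (XT.nd (nat_lit 156) (nat_lit 0) (nat_lit 0) (XT.nd (nat_lit 78) (nat_lit 0) (nat_lit 0) (XT.lf (nat_lit 0) (nat_lit 15982975892) (nat_lit 152) (nat_lit 85979934782) (nat_lit 0) (nat_lit 15920718305) (nat_lit 1) (nat_lit 5) (nat_lit 3) (nat_lit 4) (nat_lit 1) (nat_lit 4) (nat_lit 405) (nat_lit 308) (nat_lit 307)) (XT.lf (nat_lit 0) (nat_lit 21501302215) (nat_lit 152) (nat_lit 84086850159) (nat_lit 0) (nat_lit 21381398714) (nat_lit 1) (nat_lit 5) (nat_lit 3) (nat_lit 4) (nat_lit 1) (nat_lit 4) (nat_lit 406) (nat_lit 308) (nat_lit 306))) (XT.nd (nat_lit 78) (nat_lit 0) (nat_lit 0) (XT.lf (nat_lit 0) (nat_lit 27256688008) (nat_lit 152) (nat_lit 82458612989) (nat_lit 0) (nat_lit 27083408660) (nat_lit 1) (nat_lit 5) (nat_lit 3) (nat_lit 4) (nat_lit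 1) (nat_lit 4) (nat_lit 407) (nat_lit 308) (nat_lit 305)) (XT.nd (nat_lit 78) (nat_lit 0) (nat_lit 0) (XT.lf (nat_lit 0) (nat_lit 33283239260) (nat_lit 152) (nat_lit 81085574460) (nat_lit 0) (nat_lit 33060537832) (nat_lit 1) (nat_lit 5) (nat_lit 3) (nat_lit 4) (nat_lit 1) (nat_lit 4) (nat_lit 408) (nat_lit 308) (nat_lit 304)) (XT.lf (nat_lit 0) (nat_lit 39616668867) (nat_lit 152) (nat_lit 79959598047) (nat_lit 0) (nat_lit 39348206254) (nat_lit 1) (nat_lit 5) (nat_lit 3) (nat_lit 4) (nat_lit 1) (nat_lit 4) (nat_lit 409) (nat_lit 308) (nat_lit 303)))))) (XT.nd (nat_lit 390) (nat_lit 0) (nat_lit 0) (XT.nd (nat_lit 156) (nat_lit 0) (nat_lit 0) (XT.nd (nat_lit 78) (nat_lit 0) (nat_lit 0) (XT.lf (nat_lit 0) (nat_lit 46294508265) (nat_lit 152) (nat_lit 79074011298) (nat_lit 0) (nat_lit 45983674184) (nat_lit 1) (nat_lit 5) (nat_lit 3) (nat_lit 4) (nat_lit 1) (nat_lit 4) (nat_lit 410) (nat_lit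 308) (nat_lit 302)) (XT.lf (nat_lit 0) (nat_lit 53356329835) (nat_lit 152) (nat_lit 78423566291) (nat_lit 0) (nat_lit 53006262914) (nat_lit 1) (nat_lit 5) (nat_lit 3) (nat_lit 4) (nat_lit 1) (nat_lit 4) (nat_lit 411) (nat_lit 308) (nat_lit 301))) (XT.nd (nat_lit 78) (nat_lit 0) (nat_lit 0) (XT.lf (nat_lit 0) (nat_lit 60843981409) (nat_lit 152) (nat_lit 78004408536) (nat_lit 0) (nat_lit 60457587783) (nat_lit 1) (nat_lit 5) (nat_lit 3) (nat_lit 4) (nat_lit 1) (nat_lit 4) (nat_lit 412) (nat_lit 308) (nat_lit 300)) (XT.nd (nat_lit 78) (nat_lit 0) (nat_lit 0) (XT.lf (nat_lit 0) (nat_lit 68801834255) (nat_lit 152) (nat_lit 77814054138) (nat_lit 0) (nat_lit 68381804791) (nat_lit 1) (nat_lit 5) (nat_lit 3) (nat_lit 4) (nat_lit 1) (nat_lit 4) (nat_lit 413) (nat_lit 308) (nat_lit 299)) (XT.lf (nat_lit 0) (nat_lit 77277046019) (nat_lit 152) (nat_lit 77851375068) (nat_lit 0) (nat_lit 76825872262)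 (nat_lit 1) (nat_lit 5) (nat_lit 3) (nat_lit 4) (nat_lit 1) (nat_lit 4) (nat_lit 414) (nat_lit 308) (nat_lit 298))))) (XT.nd (nat_lit 234) (nat_lit 0) (nat_lit 0) (XT.nd (nat_lit 78) (nat_lit 0) (nat_lit 0) (XT.lf (nat_lit 0) (nat_lit 86319840179) (nat_lit 152) (nat_lit 78116592489) (nat_lit 0) (nat_lit 85839829113) (nat_lit 1) (nat_lit 5) (nat_lit 3) (nat_lit 4) (nat_lit 1) (nat_lit 4) (nat_lit 415) (nat_lit 308) (nat_lit 297)) (XT.nd (nat_lit 78) (nat_lit 0) (nat_lit 0) (XT.lf (nat_lit 0) (nat_lit 95983803663) (nat_lit 152) (nat_lit 78611278059) (nat_lit 0) (nat_lit 95477091385) (nat_lit 1) (nat_lit 5) (nat_lit 3) (nat_lit 4) (nat_lit 1) (nat_lit 4) (nat_lit 416) (nat_lit 308) (nat_lit 296)) (XT.lf (nat_lit 0) (nat_lit 106326204403) (nat_lit 152) (nat_lit 79338363247) (nat_lit 0) (nat_lit 105794768780) (nat_lit 1) (nat_lit 5) (nat_lit 3) (nat_lit 4) (nat_lit 1) (nat_lit 4) (nat_lit 417)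 (nat_lit 308) (nat_lit 295)))) (XT.nd (nat_lit 78) (nat_lit 0) (nat_lit 0) (XT.lf (nat_lit 0) (nat_lit 117408330699) (nat_lit 152) (nat_lit 80302156708) (nat_lit 0) (nat_lit 116854003091) (nat_lit 1) (nat_lit 5) (nat_lit 3) (nat_lit 4) (nat_lit 1) (nat_lit 4) (nat_lit 418) (nat_lit 308) (nat_lit 294)) (XT.nd (nat_lit 78) (nat_lit 0) (nat_lit 0) (XT.lf (nat_lit 0) (nat_lit 129295854412) (nat_lit 152) (nat_lit 81508369810) (nat_lit 0) (nat_lit 128720330520) (nat_lit 1) (nat_lit 5) (nat_lit 3) (nat_lit 4) (nat_lit 1) (nat_lit 4) (nat_lit 419) (nat_lit 308) (nat_lit 293)) (XT.lf (nat_lit 0) (nat_lit 142059220125) (nat_lit 152) (nat_lit 82964150482) (nat_lit 0) (nat_lit 141464070046) (nat_lit 1) (nat_lit 5) (nat_lit 3) (nat_lit 4) (nat_lit 1) (nat_lit 4) (nat_lit 420) (nat_lit 308) (nat_lit 292))))))))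
noncomputable def xc23 : XT := (XT.nd (nat_lit 1638) (nat_lit 0) (nat_lit 0) (XT.nd (nat_lit 780) (nat_lit 0) (nat_lit 0) (XT.nd (nat_lit 390) (nat_lit 0) (nat_lit 0) (XT.nd (nat_lit 156) (nat_lit 0) (nat_lit 0) (XT.nd (nat_lit 78) (nat_lit 0) (nat_lit 0) (XT.lf (nat_lit 0) (nat_lit 155774062600) (nat_lit 152) (nat_lit 84678125573) (nat_lit 0) (nat_lit 155160740124) (nat_lit 1) (nat_lit 5) (nat_lit 3) (nat_lit 4) (nat_lit 1) (nat_lit 4) (nat_lit 421) (nat_lit 308) (nat_lit 291)) (XT.lf (nat_lit 0) (nat_lit 170521654975) (nat_lit 152) (nat_lit 86660451972) (nat_lit 0) (nat_lit 169891506207) (nat_lit 1) (nat_lit 5) (nat_lit 3) (nat_lit 4) (nat_lit 1) (nat_lit 4) (nat_lit 422) (nat_lit 308) (nat_lit 290))) (XT.nd (nat_lit 78) (nat_lit 0) (nat_lit 0) (XT.lf (nat_lit 0) (nat_lit 186389390393) (nat_lit 152) (nat_lit 88922876798) (nat_lit 0) (nat_lit 185743661723) (nat_lit 1) (nat_lit 5) (nat_lit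 3) (nat_lit 4) (nat_lit 1) (nat_lit 4) (nat_lit 423) (nat_lit 308) (nat_lit 289)) (XT.nd (nat_lit 78) (nat_lit 0) (nat_lit 0) (XT.lf (nat_lit 0) (nat_lit 203471299876) (nat_lit 152) (nat_lit 91478807014) (nat_lit 0) (nat_lit 202811145372) (nat_lit 1) (nat_lit 5) (nat_lit 3) (nat_lit 4) (nat_lit 1) (nat_lit 4) (nat_lit 424) (nat_lit 308) (nat_lit 288)) (XT.lf (nat_lit 0) (nat_lit 221868609555) (nat_lit 152) (nat_lit 94343388872) (nat_lit 0) (nat_lit 221195097798) (nat_lit 1) (nat_lit 5) (nat_lit 3) (nat_lit 4) (nat_lit 1) (nat_lit 4) (nat_lit 425) (nat_lit 308) (nat_lit 287))))) (XT.nd (nat_lit 156) (nat_lit 0) (nat_lit 0) (XT.nd (nat_lit 78) (nat_lit 0) (nat_lit 0) (XT.lf (nat_lit 0) (nat_lit 241690340526) (nat_lit 152) (nat_lit 97533597673) (nat_lit 0) (nat_lit 241004460941) (nat_lit 1) (nat_lit 5) (nat_lit 3) (nat_lit 4) (nat_lit 1) (nat_lit 4) (nat_lit 426) (nat_lit 308) (nat_lit 286))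 (XT.lf (nat_lit 0) (nat_lit 263053954896) (nat_lit 152) (nat_lit 101068338357) (nat_lit 0) (nat_lit 262356623619) (nat_lit 1) (nat_lit 5) (nat_lit 3) (nat_lit 4) (nat_lit 1) (nat_lit 4) (nat_lit 427) (nat_lit 308) (nat_lit 285))) (XT.nd (nat_lit 78) (nat_lit 0) (nat_lit 0) (XT.lf (nat_lit 0) (nat_lit 286086051863) (nat_lit 152) (nat_lit 104968557536) (nat_lit 0) (nat_lit 285378117168) (nat_lit 1) (nat_lit 5) (nat_lit 3) (nat_lit 4) (nat_lit 1) (nat_lit 4) (nat_lit 428) (nat_lit 308) (nat_lit 284)) (XT.nd (nat_lit 78) (nat_lit 0) (nat_lit 0) (XT.lf (nat_lit 0) (nat_lit 310923117927) (nat_lit 152) (nat_lit 109257367620) (nat_lit 0) (nat_lit 310205365251) (nat_lit 1) (nat_lit 5) (nat_lit 3) (nat_lit 4) (nat_lit 1) (nat_lit 4) (nat_lit 429) (nat_lit 308) (nat_lit 283)) (XT.lf (nat_lit 0) (nat_lit 337712335702) (nat_lit 152) (nat_lit 113960183780) (nat_lit 0) (nat_lit 336985492304) (nat_lit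 1) (nat_lit 5) (nat_lit 3) (nat_lit 4) (nat_lit 1) (nat_lit 4) (nat_lit 430) (nat_lit 308) (nat_lit 282)))))) (XT.nd (nat_lit 390) (nat_lit 0) (nat_lit 0) (XT.nd (nat_lit 156) (nat_lit 0) (nat_lit 0) (XT.nd (nat_lit 78) (nat_lit 0) (nat_lit 0) (XT.lf (nat_lit 0) (nat_lit 366612456108) (nat_lit 152) (nat_lit 119104874556) (nat_lit 0) (nat_lit 365877195374) (nat_lit 1) (nat_lit 5) (nat_lit 3) (nat_lit 4) (nat_lit 1) (nat_lit 4) (nat_lit 431) (nat_lit 308) (nat_lit 281)) (XT.lf (nat_lit 0) (nat_lit 397794739117) (nat_lit 152) (nat_lit 124721927005) (nat_lit 0) (nat_lit 397051684554) (nat_lit 1) (nat_lit 5) (nat_lit 3) (nat_lit 4) (nat_lit 1) (nat_lit 4) (nat_lit 432) (nat_lit 308) (nat_lit 280))) (XT.nd (nat_lit 78) (nat_lit 0) (nat_lit 0) (XT.lf (nat_lit 0) (nat_lit 431443968630) (nat_lit 152) (nat_lit 130844627362) (nat_lit 0) (nat_lit 430693697558) (nat_lit 1) (nat_lit 5) (nat_lit 3) (nat_lit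 4) (nat_lit 1) (nat_lit 4) (nat_lit 433) (nat_lit 308) (nat_lit 279)) (XT.nd (nat_lit 78) (nat_lit 0) (nat_lit 0) (XT.lf (nat_lit 0) (nat_lit 467759547486) (nat_lit 152) (nat_lit 137509258298) (nat_lit 0) (nat_lit 467002594462) (nat_lit 1) (nat_lit 5) (nat_lit 3) (nat_lit 4) (nat_lit 1) (nat_lit 4) (nat_lit 434) (nat_lit 308) (nat_lit 278)) (XT.lf (nat_lit 0) (nat_lit 506956679118) (nat_lit 152) (nat_lit 144755313920) (nat_lit 0) (nat_lit 506193539101) (nat_lit 1) (nat_lit 5) (nat_lit 3) (nat_lit 4) (nat_lit 1) (nat_lit 4) (nat_lit 435) (nat_lit 308) (nat_lit 277))))) (XT.nd (nat_lit 234) (nat_lit 0) (nat_lit 0) (XT.nd (nat_lit 78) (nat_lit 0) (nat_lit 0) (XT.lf (nat_lit 0) (nat_lit 549267642823) (nat_lit 152) (nat_lit 152625733819) (nat_lit 0) (nat_lit 548498774109) (nat_lit 1) (nat_lit 5) (nat_lit 3) (nat_lit 4) (nat_lit 1) (nat_lit 4) (nat_lit 436) (nat_lit 308) (nat_lit 276)) (XT.nd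 (nat_lit 78) (nat_lit 0) (nat_lit 0) (XT.lf (nat_lit 0) (nat_lit 594943170238) (nat_lit 152) (nat_lit 161167157519) (nat_lit 0) (nat_lit 594168997175) (nat_lit 1) (nat_lit 5) (nat_lit 3) (nat_lit 4) (nat_lit 1) (nat_lit 4) (nat_lit 437) (nat_lit 308) (nat_lit 275)) (XT.lf (nat_lit 0) (nat_lit 644253931156) (nat_lit 152) (nat_lit 170430200865) (nat_lit 0) (nat_lit 643474846658) (nat_lit 1) (nat_lit 5) (nat_lit 3) (nat_lit 4) (nat_lit 1) (nat_lit 4) (nat_lit 438) (nat_lit 308) (nat_lit 274)))) (XT.nd (nat_lit 78) (nat_lit 0) (nat_lit 0) (XT.lf (nat_lit 0) (nat_lit 697492137492) (nat_lit 152) (nat_lit 180469755965) (nat_lit 0) (nat_lit 696708505369) (nat_lit 1) (nat_lit 5) (nat_lit 3) (nat_lit 4) (nat_lit 1) (nat_lit 4) (nat_lit 439) (nat_lit 308) (nat_lit 273)) (XT.nd (nat_lit 78) (nat_lit 0) (nat_lit 0) (XT.lf (nat_lit 0) (nat_lit 754973274914) (nat_lit 152) (nat_lit 191345316479) (nat_lit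 0) (nat_lit 754185432028) (nat_lit 1) (nat_lit 5) (nat_lit 3) (nat_lit 4) (nat_lit 1) (nat_lit 4) (nat_lit 440) (nat_lit 308) (nat_lit 272)) (XT.lf (nat_lit 0) (nat_lit 817037972385) (nat_lit 152) (nat_lit 203121330173) (nat_lit 0) (nat_lit 816246230643) (nat_lit 1) (nat_lit 5) (nat_lit 3) (nat_lit 4) (nat_lit 1) (nat_lit 4) (nat_lit 441) (nat_lit 308) (nat_lit 271))))))) (XT.nd (nat_lit 780) (nat_lit 0) (nat_lit 0) (XT.nd (nat_lit 390) (nat_lit 0) (nat_lit 0) (XT.nd (nat_lit 156) (nat_lit 0) (nat_lit 0) (XT.nd (nat_lit 78) (nat_lit 0) (nat_lit 0) (XT.lf (nat_lit 0) (nat_lit 884054020703) (nat_lit 152) (nat_lit 215867580833) (nat_lit 0) (nat_lit 883258668911) (nat_lit 1) (nat_lit 5) (nat_lit 3) (nat_lit 4) (nat_lit 1) (nat_lit 4) (nat_lit 442) (nat_lit 308) (nat_lit 270)) (XT.lf (nat_lit 0) (nat_lit 956418552009) (nat_lit 152) (nat_lit 229659601794) (nat_lit 0) (nat_lit 955619857577) (nat_lit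 1) (nat_lit 5) (nat_lit 3) (nat_lit 4) (nat_lit 1) (nat_lit 4) (nat_lit 443) (nat_lit 308) (nat_lit 269))) (XT.nd (nat_lit 78) (nat_lit 0) (nat_lit 0) (XT.lf (nat_lit 0) (nat_lit 1034560393153) (nat_lit 152) (nat_lit 244579123553) (nat_lit 0) (nat_lit 1033758603684) (nat_lit 1) (nat_lit 5) (nat_lit 3) (nat_lit 4) (nat_lit 1) (nat_lit 4) (nat_lit 444) (nat_lit 308) (nat_lit 268)) (XT.nd (nat_lit 78) (nat_lit 0) (nat_lit 0) (XT.lf (nat_lit 0) (nat_lit 1118942606897) (nat_lit 152) (nat_lit 260714558089) (nat_lit 0) (nat_lit 1118137951654) (nat_lit 1) (nat_lit 5) (nat_lit 3) (nat_lit 4) (nat_lit 1) (nat_lit 4) (nat_lit 445) (nat_lit 308) (nat_lit 267)) (XT.lf (nat_lit 0) (nat_lit 1210065235991) (nat_lit 152) (nat_lit 278161522792) (nat_lit 0) (nat_lit 1209257927252) (nat_lit 1) (nat_lit 5) (nat_lit 3) (nat_lit 4) (nat_lit 1) (nat_lit 4) (nat_lit 446) (nat_lit 308) (nat_lit 266))))) (XT.nd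 (nat_lit 156) (nat_lit 0) (nat_lit 0) (XT.nd (nat_lit 78) (nat_lit 0) (nat_lit 0) (XT.lf (nat_lit 0) (nat_lit 1308468266385) (nat_lit 152) (nat_lit 297023407083) (nat_lit 0) (nat_lit 1307658500706) (nat_lit 1) (nat_lit 5) (nat_lit 3) (nat_lit 4) (nat_lit 1) (nat_lit 4) (nat_lit 447) (nat_lit 308) (nat_lit 265)) (XT.lf (nat_lit 0) (nat_lit 1414734827146) (nat_lit 152) (nat_lit 317411985092) (nat_lit 0) (nat_lit 1413922786523) (nat_lit 1) (nat_lit 5) (nat_lit 3) (nat_lit 4) (nat_lit 1) (nat_lit 4) (nat_lit 448) (nat_lit 308) (nat_lit 264))) (XT.nd (nat_lit 78) (nat_lit 0) (nat_lit 0) (XT.lf (nat_lit 0) (nat_lit 1529494646043) (nat_lit 152) (nat_lit 339448078020) (nat_lit 0) (nat_lit 1528680498990) (nat_lit 1) (nat_lit 5) (nat_lit 3) (nat_lit 4) (nat_lit 1) (nat_lit 4) (nat_lit 449) (nat_lit 308) (nat_lit 263)) (XT.nd (nat_lit 78) (nat_lit 0) (nat_lit 0) (XT.lf (nat_lit 0) (nat_lit 1653427781262)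 (nat_lit 152) (nat_lit 363262270123) (nat_lit 0) (nat_lit 1652611683811) (nat_lit 1) (nat_lit 5) (nat_lit 3) (nat_lit 4) (nat_lit 1) (nat_lit 4) (nat_lit 450) (nat_lit 308) (nat_lit 262)) (XT.lf (nat_lit 0) (nat_lit 1787268651382) (nat_lit 152) (nat_lit 388995682539) (nat_lit 0) (nat_lit 1786450748006) (nat_lit 1) (nat_lit 5) (nat_lit 3) (nat_lit 4) (nat_lit 1) (nat_lit 4) (nat_lit 451) (nat_lit 308) (nat_lit 261)))))) (XT.nd (nat_lit 390) (nat_lit 0) (nat_lit 0) (XT.nd (nat_lit 156) (nat_lit 0) (nat_lit 0) (XT.nd (nat_lit 78) (nat_lit 0) (nat_lit 0) (XT.lf (nat_lit 0) (nat_lit 1931810387485) (nat_lit 152) (nat_lit 416800809563) (nat_lit 0) (nat_lit 1930990811957) (nat_lit 1) (nat_lit 5) (nat_lit 3) (nat_lit 4) (nat_lit 1) (nat_lit 4) (nat_lit 452) (nat_lit 308) (nat_lit 260)) (XT.lf (nat_lit 0) (nat_lit 2087909533193) (nat_lit 152) (nat_lit 446842422319) (nat_lit 0) (nat_lit 2087088409376)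 (nat_lit 1) (nat_lit 5) (nat_lit 3) (nat_lit 4) (nat_lit 1) (nat_lit 4) (nat_lit 453) (nat_lit 308) (nat_lit 259))) (XT.nd (nat_lit 78) (nat_lit 0) (nat_lit 0) (XT.lf (nat_lit 0) (nat_lit 2256491120479) (nat_lit 152) (nat_lit 479298545179) (nat_lit 0) (nat_lit 2255668563061) (nat_lit 1) (nat_lit 5) (nat_lit 3) (nat_lit 4) (nat_lit 1) (nat_lit 4) (nat_lit 454) (nat_lit 308) (nat_lit 258)) (XT.nd (nat_lit 78) (nat_lit 0) (nat_lit 0) (XT.lf (nat_lit 0) (nat_lit 2438554151343) (nat_lit 152) (nat_lit 514361510722) (nat_lit 0) (nat_lit 2437730266517) (nat_lit 1) (nat_lit 5) (nat_lit 3) (nat_lit 4) (nat_lit 1) (nat_lit 4) (nat_lit 455) (nat_lit 308) (nat_lit 257)) (XT.lf (nat_lit 0) (nat_lit 2635177517820) (nat_lit 152) (nat_lit 552239099486) (nat_lit 0) (nat_lit 2634352403912) (nat_lit 1) (nat_lit 5) (nat_lit 3) (nat_lit 4) (nat_lit 1) (nat_lit 4) (nat_lit 456) (nat_lit 308) (nat_lit 256)))))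 (XT.nd (nat_lit 234) (nat_lit 0) (nat_lit 0) (XT.nd (nat_lit 78) (nat_lit 0) (nat_lit 0) (XT.lf (nat_lit 0) (nat_lit 2847526395414) (nat_lit 152) (nat_lit 593155771254) (nat_lit 0) (nat_lit 2846700143467) (nat_lit 1) (nat_lit 5) (nat_lit 3) (nat_lit 4) (nat_lit 1) (nat_lit 4) (nat_lit 457) (nat_lit 308) (nat_lit 255)) (XT.nd (nat_lit 78) (nat_lit 0) (nat_lit 0) (XT.lf (nat_lit 0) (nat_lit 3076859147844) (nat_lit 152) (nat_lit 637353995194) (nat_lit 0) (nat_lit 3076031842158) (nat_lit 1) (nat_lit 5) (nat_lit 3) (nat_lit 4) (nat_lit 1) (nat_lit 4) (nat_lit 458) (nat_lit 308) (nat_lit 254)) (XT.lf (nat_lit 0) (nat_lit 3324534784015) (nat_lit 152) (nat_lit 685095686707) (nat_lit 0) (nat_lit 3323706502644) (nat_lit 1) (nat_lit 5) (nat_lit 3) (nat_lit 4) (nat_lit 1) (nat_lit 4) (nat_lit 459) (nat_lit 308) (nat_lit 253)))) (XT.nd (nat_lit 78) (nat_lit 0) (nat_lit 0) (XT.lf (nat_lit 0) (nat_lit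 3592021011399) (nat_lit 152) (nat_lit 736663759520) (nat_lit 0) (nat_lit 3591191826617) (nat_lit 1) (nat_lit 5) (nat_lit 3) (nat_lit 4) (nat_lit 1) (nat_lit 4) (nat_lit 460) (nat_lit 308) (nat_lit 252)) (XT.nd (nat_lit 78) (nat_lit 0) (nat_lit 0) (XT.lf (nat_lit 0) (nat_lit 3880902933566) (nat_lit 152) (nat_lit 792363802212) (nat_lit 0) (nat_lit 3880072912291) (nat_lit 1) (nat_lit 5) (nat_lit 3) (nat_lit 4) (nat_lit 1) (nat_lit 4) (nat_lit 461) (nat_lit 308) (nat_lit 251)) (XT.lf (nat_lit 0) (nat_lit 4192892443389) (nat_lit 152) (nat_lit 852525889111) (nat_lit 0) (nat_lit 4192061647584) (nat_lit 1) (nat_lit 5) (nat_lit 3) (nat_lit 4) (nat_lit 1) (nat_lit 4) (nat_lit 462) (nat_lit 308) (nat_lit 250))))))))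
noncomputable def xc24 : XT := (XT.nd (nat_lit 49686) (nat_lit 0) (nat_lit 0) (XT.nd (nat_lit 48906) (nat_lit 0) (nat_lit 0) (XT.nd (nat_lit 48516) (nat_lit 0) (nat_lit 0) (XT.nd (nat_lit 156) (nat_lit 0) (nat_lit 0) (XT.nd (nat_lit 78) (nat_lit 0) (nat_lit 0) (XT.lf (nat_lit 0) (nat_lit 4529838367591) (nat_lit 152) (nat_lit 917506536287) (nat_lit 0) (nat_lit 4529006854629) (nat_lit 1) (nat_lit 5) (nat_lit 3) (nat_lit 4) (nat_lit 1) (nat_lit 4) (nat_lit 463) (nat_lit 308) (nat_lit 249)) (XT.lf (nat_lit 0) (nat_lit 4893737422762) (nat_lit 152) (nat_lit 987690814242) (nat_lit 0) (nat_lit 4892905245765) (nat_lit 1) (nat_lit 5) (nat_lit 3) (nat_lit 4) (nat_lit 1) (nat_lit 4) (nat_lit 464) (nat_lit 308) (nat_lit 248))) (XT.nd (nat_lit 48204) (nat_lit 0) (nat_lit 0) (XT.lf (nat_lit 0) (nat_lit 5286746047746) (nat_lit 152) (nat_lit 1063494629809) (nat_lit 0) (nat_lit 5285913255902) (nat_lit 1)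 (nat_lit 5) (nat_lit 3) (nat_lit 4) (nat_lit 1) (nat_lit 4) (nat_lit 465) (nat_lit 308) (nat_lit 247)) (XT.nd (nat_lit 78) (nat_lit 0) (nat_lit 0) (XT.lf (nat_lit 0) (nat_lit 360121702) (nat_lit 152) (nat_lit 46558295738) (nat_lit 0) (nat_lit 360121702) (nat_lit 1) (nat_lit 5) (nat_lit 3) (nat_lit 4) (nat_lit 1) (nat_lit 4) (nat_lit 402) (nat_lit 309) (nat_lit 309)) (XT.lf (nat_lit 0) (nat_lit 5595146089) (nat_lit 152) (nat_lit 90607155453) (nat_lit 0) (nat_lit 5527907895) (nat_lit 1) (nat_lit 5) (nat_lit 3) (nat_lit 4) (nat_lit 1) (nat_lit 4) (nat_lit 403) (nat_lit 309) (nat_lit 308))))) (XT.nd (nat_lit 156) (nat_lit 0) (nat_lit 0) (XT.nd (nat_lit 78) (nat_lit 0) (nat_lit 0) (XT.lf (nat_lit 0) (nat_lit 10621621088) (nat_lit 152) (nat_lit 88382530131) (nat_lit 0) (nat_lit 10492125306) (nat_lit 1) (nat_lit 5) (nat_lit 3) (nat_lit 4) (nat_lit 1) (nat_lit 4) (nat_lit 404) (nat_lit 309) (nat_lit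 307)) (XT.lf (nat_lit 0) (nat_lit 15829454919) (nat_lit 152) (nat_lit 86429532544) (nat_lit 0) (nat_lit 15642313224) (nat_lit 1) (nat_lit 5) (nat_lit 3) (nat_lit 4) (nat_lit 1) (nat_lit 4) (nat_lit 405) (nat_lit 309) (nat_lit 306))) (XT.nd (nat_lit 78) (nat_lit 0) (nat_lit 0) (XT.lf (nat_lit 0) (nat_lit 21249508821) (nat_lit 152) (nat_lit 84736589374) (nat_lit 0) (nat_lit 21008991279) (nat_lit 1) (nat_lit 5) (nat_lit 3) (nat_lit 4) (nat_lit 1) (nat_lit 4) (nat_lit 406) (nat_lit 309) (nat_lit 305)) (XT.nd (nat_lit 78) (nat_lit 0) (nat_lit 0) (XT.lf (nat_lit 0) (nat_lit 26913901631) (nat_lit 152) (nat_lit 83293668365) (nat_lit 0) (nat_lit 26623962009) (nat_lit 1) (nat_lit 5) (nat_lit 3) (nat_lit 4) (nat_lit 1) (nat_lit 4) (nat_lit 407) (nat_lit 309) (nat_lit 304)) (XT.lf (nat_lit 0) (nat_lit 32856200121) (nat_lit 152) (nat_lit 82092218874) (nat_lit 0) (nat_lit 32520499313) (nat_lit 1) (nat_lit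 5) (nat_lit 3) (nat_lit 4) (nat_lit 1) (nat_lit 4) (nat_lit 408) (nat_lit 309) (nat_lit 303)))))) (XT.nd (nat_lit 390) (nat_lit 0) (nat_lit 0) (XT.nd (nat_lit 156) (nat_lit 0) (nat_lit 0) (XT.nd (nat_lit 78) (nat_lit 0) (nat_lit 0) (XT.lf (nat_lit 0) (nat_lit 39111617912) (nat_lit 152) (nat_lit 81125121200) (nat_lit 0) (nat_lit 38733545637) (nat_lit 1) (nat_lit 5) (nat_lit 3) (nat_lit 4) (nat_lit 1) (nat_lit 4) (nat_lit 409) (nat_lit 309) (nat_lit 302)) (XT.lf (nat_lit 0) (nat_lit 45717224147) (nat_lit 152) (nat_lit 80386644394) (nat_lit 0) (nat_lit 45299919031) (nat_lit 1) (nat_lit 5) (nat_lit 3) (nat_lit 4) (nat_lit 1) (nat_lit 4) (nat_lit 410) (nat_lit 309) (nat_lit 301))) (XT.nd (nat_lit 78) (nat_lit 0) (nat_lit 0) (XT.lf (nat_lit 0) (nat_lit 52712163158) (nat_lit 152) (nat_lit 79872412297) (nat_lit 0) (nat_lit 52258531338) (nat_lit 1) (nat_lit 5) (nat_lit 3) (nat_lit 4) (nat_lit 1)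 (nat_lit 4) (nat_lit 411) (nat_lit 309) (nat_lit 300)) (XT.nd (nat_lit 78) (nat_lit 0) (nat_lit 0) (XT.lf (nat_lit 0) (nat_lit 60137886437) (nat_lit 152) (nat_lit 79579377608) (nat_lit 0) (nat_lit 59650618779) (nat_lit 1) (nat_lit 5) (nat_lit 3) (nat_lit 4) (nat_lit 1) (nat_lit 4) (nat_lit 412) (nat_lit 309) (nat_lit 299)) (XT.lf (nat_lit 0) (nat_lit 68038398268) (nat_lit 152) (nat_lit 79505803825) (nat_lit 0) (nat_lit 67519986317) (nat_lit 1) (nat_lit 5) (nat_lit 3) (nat_lit 4) (nat_lit 1) (nat_lit 4) (nat_lit 413) (nat_lit 309) (nat_lit 298))))) (XT.nd (nat_lit 156) (nat_lit 0) (nat_lit 0) (XT.nd (nat_lit 78) (nat_lit 0) (nat_lit 0) (XT.lf (nat_lit 0) (nat_lit 76460516501) (nat_lit 152) (nat_lit 79651254955) (nat_lit 0) (nat_lit 75913267241) (nat_lit 1) (nat_lit 5) (nat_lit 3) (nat_lit 4) (nat_lit 1) (nat_lit 4) (nat_lit 414) (nat_lit 309) (nat_lit 297)) (XT.lf (nat_lit 0) (nat_lit 85454149984)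 (nat_lit 152) (nat_lit 80016592932) (nat_lit 0) (nat_lit 84880199511) (nat_lit 1) (nat_lit 5) (nat_lit 3) (nat_lit 4) (nat_lit 1) (nat_lit 4) (nat_lit 415) (nat_lit 309) (nat_lit 296))) (XT.nd (nat_lit 78) (nat_lit 0) (nat_lit 0) (XT.lf (nat_lit 0) (nat_lit 95072594322) (nat_lit 152) (nat_lit 80603982719) (nat_lit 0) (nat_lit 94473920505) (nat_lit 1) (nat_lit 5) (nat_lit 3) (nat_lit 4) (nat_lit 1) (nat_lit 4) (nat_lit 416) (nat_lit 309) (nat_lit 295)) (XT.nd (nat_lit 78) (nat_lit 0) (nat_lit 0) (XT.lf (nat_lit 0) (nat_lit 105372847705) (nat_lit 152) (nat_lit 81416905147) (nat_lit 0) (nat_lit 104751281902) (nat_lit 1) (nat_lit 5) (nat_lit 3) (nat_lit 4) (nat_lit 1) (nat_lit 4) (nat_lit 417) (nat_lit 309) (nat_lit 294)) (XT.lf (nat_lit 0) (nat_lit 116415948671) (nat_lit 152) (nat_lit 82460177533) (nat_lit 0) (nat_lit 115773186585) (nat_lit 1) (nat_lit 5) (nat_lit 3) (nat_lit 4) (nat_lit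 1) (nat_lit 4) (nat_lit 418) (nat_lit 309) (nat_lit 293))))))) (XT.nd (nat_lit 780) (nat_lit 0) (nat_lit 0) (XT.nd (nat_lit 390) (nat_lit 0) (nat_lit 0) (XT.nd (nat_lit 156) (nat_lit 0) (nat_lit 0) (XT.nd (nat_lit 78) (nat_lit 0) (nat_lit 0) (XT.lf (nat_lit 0) (nat_lit 128267337818) (nat_lit 152) (nat_lit 83739982232) (nat_lit 0) (nat_lit 127604949544) (nat_lit 1) (nat_lit 5) (nat_lit 3) (nat_lit 4) (nat_lit 1) (nat_lit 4) (nat_lit 419) (nat_lit 309) (nat_lit 292)) (XT.lf (nat_lit 0) (nat_lit 140997245601) (nat_lit 152) (nat_lit 85263903272) (nat_lit 0) (nat_lit 140316684931) (nat_lit 1) (nat_lit 5) (nat_lit 3) (nat_lit 4) (nat_lit 1) (nat_lit 4) (nat_lit 420) (nat_lit 309) (nat_lit 291))) (XT.nd (nat_lit 78) (nat_lit 0) (nat_lit 0) (XT.lf (nat_lit 0) (nat_lit 154681108509) (nat_lit 152) (nat_lit 87040971296) (nat_lit 0) (nat_lit 153983721547) (nat_lit 1) (nat_lit 5) (nat_lit 3) (nat_lit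 4) (nat_lit 1) (nat_lit 4) (nat_lit 421) (nat_lit 309) (nat_lit 290)) (XT.nd (nat_lit 78) (nat_lit 0) (nat_lit 0) (XT.lf (nat_lit 0) (nat_lit 169400016102) (nat_lit 152) (nat_lit 89081717077) (nat_lit 0) (nat_lit 168687049238) (nat_lit 1) (nat_lit 5) (nat_lit 3) (nat_lit 4) (nat_lit 1) (nat_lit 4) (nat_lit 422) (nat_lit 309) (nat_lit 289)) (XT.lf (nat_lit 0) (nat_lit 185241191535) (nat_lit 152) (nat_lit 91398233924) (nat_lit 0) (nat_lit 184513798837) (nat_lit 1) (nat_lit 5) (nat_lit 3) (nat_lit 4) (nat_lit 1) (nat_lit 4) (nat_lit 423) (nat_lit 309) (nat_lit 288))))) (XT.nd (nat_lit 156) (nat_lit 0) (nat_lit 0) (XT.nd (nat_lit 78) (nat_lit 0) (nat_lit 0) (XT.lf (nat_lit 0) (nat_lit 202298508440) (nat_lit 152) (nat_lit 94004249344) (nat_lit 0) (nat_lit 201557758489) (nat_lit 1) (nat_lit 5) (nat_lit 3) (nat_lit 4) (nat_lit 1) (nat_lit 4) (nat_lit 424) (nat_lit 309) (nat_lit 287)) (XT.lf (nat_lit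 0) (nat_lit 220673047214) (nat_lit 152) (nat_lit 96915206392) (nat_lit 0) (nat_lit 219919929435) (nat_lit 1) (nat_lit 5) (nat_lit 3) (nat_lit 4) (nat_lit 1) (nat_lit 4) (nat_lit 425) (nat_lit 309) (nat_lit 286))) (XT.nd (nat_lit 78) (nat_lit 0) (nat_lit 0) (XT.lf (nat_lit 0) (nat_lit 240473694013) (nat_lit 152) (nat_lit 100148355183) (nat_lit 0) (nat_lit 239709124541) (nat_lit 1) (nat_lit 5) (nat_lit 3) (nat_lit 4) (nat_lit 1) (nat_lit 4) (nat_lit 426) (nat_lit 309) (nat_lit 285)) (XT.nd (nat_lit 78) (nat_lit 0) (nat_lit 0) (XT.lf (nat_lit 0) (nat_lit 261817786002) (nat_lit 152) (nat_lit 103722855117) (nat_lit 0) (nat_lit 261042613112) (nat_lit 1) (nat_lit 5) (nat_lit 3) (nat_lit 4) (nat_lit 1) (nat_lit 4) (nat_lit 427) (nat_lit 309) (nat_lit 284)) (XT.lf (nat_lit 0) (nat_lit 284831806690) (nat_lit 152) (nat_lit 107659888417) (nat_lit 0) (nat_lit 284046815820) (nat_lit 1) (nat_lit 5) (nat_lit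 3) (nat_lit 4) (nat_lit 1) (nat_lit 4) (nat_lit 428) (nat_lit 309) (nat_lit 283)))))) (XT.nd (nat_lit 390) (nat_lit 0) (nat_lit 0) (XT.nd (nat_lit 156) (nat_lit 0) (nat_lit 0) (XT.nd (nat_lit 78) (nat_lit 0) (nat_lit 0) (XT.lf (nat_lit 0) (nat_lit 309652135459) (nat_lit 152) (nat_lit 111982785650) (nat_lit 0) (nat_lit 308858053866) (nat_lit 1) (nat_lit 5) (nat_lit 3) (nat_lit 4) (nat_lit 1) (nat_lit 4) (nat_lit 429) (nat_lit 309) (nat_lit 282)) (XT.lf (nat_lit 0) (nat_lit 336425855738) (nat_lit 152) (nat_lit 116717163984) (nat_lit 0) (nat_lit 335623356809) (nat_lit 1) (nat_lit 5) (nat_lit 3) (nat_lit 4) (nat_lit 1) (nat_lit 4) (nat_lit 430) (nat_lit 309) (nat_lit 281))) (XT.nd (nat_lit 78) (nat_lit 0) (nat_lit 0) (XT.lf (nat_lit 0) (nat_lit 365311626610) (nat_lit 152) (nat_lit 121891078996) (nat_lit 0) (nat_lit 364501333853) (nat_lit 1) (nat_lit 5) (nat_lit 3) (nat_lit 4) (nat_lit 1) (nat_lit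 4) (nat_lit 431) (nat_lit 309) (nat_lit 280)) (XT.nd (nat_lit 78) (nat_lit 0) (nat_lit 0) (XT.lf (nat_lit 0) (nat_lit 396480623015) (nat_lit 152) (nat_lit 127535190922) (nat_lit 0) (nat_lit 395663113749) (nat_lit 1) (nat_lit 5) (nat_lit 3) (nat_lit 4) (nat_lit 1) (nat_lit 4) (nat_lit 432) (nat_lit 309) (nat_lit 279)) (XT.lf (nat_lit 0) (nat_lit 430117550116) (nat_lit 152) (nat_lit 133682946351) (nat_lit 0) (nat_lit 429293358897) (nat_lit 1) (nat_lit 5) (nat_lit 3) (nat_lit 4) (nat_lit 1) (nat_lit 4) (nat_lit 433) (nat_lit 309) (nat_lit 278))))) (XT.nd (nat_lit 234) (nat_lit 0) (nat_lit 0) (XT.nd (nat_lit 78) (nat_lit 0) (nat_lit 0) (XT.lf (nat_lit 0) (nat_lit 466421737851) (nat_lit 152) (nat_lit 140370776427) (nat_lit 0) (nat_lit 465591359639) (nat_lit 1) (nat_lit 5) (nat_lit 3) (nat_lit 4) (nat_lit 1) (nat_lit 4) (nat_lit 434) (nat_lit 309) (nat_lit 277)) (XT.nd (nat_lit 78) (nat_lit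 0) (nat_lit 0) (XT.lf (nat_lit 0) (nat_lit 505608322147) (nat_lit 152) (nat_lit 147638312735) (nat_lit 0) (nat_lit 504772215238) (nat_lit 1) (nat_lit 5) (nat_lit 3) (nat_lit 4) (nat_lit 1) (nat_lit 4) (nat_lit 435) (nat_lit 309) (nat_lit 276)) (XT.lf (nat_lit 0) (nat_lit 547909519801) (nat_lit 152) (nat_lit 155528622158) (nat_lit 0) (nat_lit 547068108543) (nat_lit 1) (nat_lit 5) (nat_lit 3) (nat_lit 4) (nat_lit 1) (nat_lit 4) (nat_lit 436) (nat_lit 309) (nat_lit 275)))) (XT.nd (nat_lit 78) (nat_lit 0) (nat_lit 0) (XT.lf (nat_lit 0) (nat_lit 593576004576) (nat_lit 152) (nat_lit 164088462084) (nat_lit 0) (nat_lit 592729681884) (nat_lit 1) (nat_lit 5) (nat_lit 3) (nat_lit 4) (nat_lit 1) (nat_lit 4) (nat_lit 437) (nat_lit 309) (nat_lit 274)) (XT.nd (nat_lit 78) (nat_lit 0) (nat_lit 0) (XT.lf (nat_lit 0) (nat_lit 642878392679) (nat_lit 152) (nat_lit 173368557491) (nat_lit 0) (nat_lit 642027522362)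 (nat_lit 1) (nat_lit 5) (nat_lit 3) (nat_lit 4) (nat_lit 1) (nat_lit 4) (nat_lit 438) (nat_lit 309) (nat_lit 273)) (XT.lf (nat_lit 0) (nat_lit 696108846409) (nat_lit 152) (nat_lit 183423901536) (nat_lit 0) (nat_lit 695253765328) (nat_lit 1) (nat_lit 5) (nat_lit 3) (nat_lit 4) (nat_lit 1) (nat_lit 4) (nat_lit 439) (nat_lit 309) (nat_lit 272))))))))
noncomputable def xc25 : XT := (XT.nd (nat_lit 1560) (nat_lit 0) (nat_lit 0) (XT.nd (nat_lit 780) (nat_lit 0) (nat_lit 0) (XT.nd (nat_lit 390) (nat_lit 0) (nat_lit 0) (XT.nd (nat_lit 156) (nat_lit 0) (nat_lit 0) (XT.nd (nat_lit 78) (nat_lit 0) (nat_lit 0) (XT.lf (nat_lit 0) (nat_lit 753582805492) (nat_lit 152) (nat_lit 194314081444) (nat_lit 0) (nat_lit 752723825556) (nat_lit 1) (nat_lit 5) (nat_lit 3) (nat_lit 4) (nat_lit 1) (nat_lit 4) (nat_lit 440) (nat_lit 309) (nat_lit 271)) (XT.lf (nat_lit 0) (nat_lit 815640856352) (nat_lit 152) (nat_lit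 206103631614) (nat_lit 0) (nat_lit 814778266366) (nat_lit 1) (nat_lit 5) (nat_lit 3) (nat_lit 4) (nat_lit 1) (nat_lit 4) (nat_lit 441) (nat_lit 309) (nat_lit 270))) (XT.nd (nat_lit 78) (nat_lit 0) (nat_lit 0) (XT.lf (nat_lit 0) (nat_lit 882650750402) (nat_lit 152) (nat_lit 218862416047) (nat_lit 0) (nat_lit 881784817776) (nat_lit 1) (nat_lit 5) (nat_lit 3) (nat_lit 4) (nat_lit 1) (nat_lit 4) (nat_lit 442) (nat_lit 309) (nat_lit 269)) (XT.nd (nat_lit 78) (nat_lit 0) (nat_lit 0) (XT.lf (nat_lit 0) (nat_lit 955009583310) (nat_lit 152) (nat_lit 232666042355) (nat_lit 0) (nat_lit 954140555647) (nat_lit 1) (nat_lit 5) (nat_lit 3) (nat_lit 4) (nat_lit 1) (nat_lit 4) (nat_lit 443) (nat_lit 309) (nat_lit 268)) (XT.lf (nat_lit 0) (nat_lit 1033146148161) (nat_lit 152) (nat_lit 247596309804) (nat_lit 0) (nat_lit 1032274254723) (nat_lit 1) (nat_lit 5) (nat_lit 3) (nat_lit 4) (nat_lit 1) (nat_lit 4)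 (nat_lit 444) (nat_lit 309) (nat_lit 267))))) (XT.nd (nat_lit 156) (nat_lit 0) (nat_lit 0) (XT.nd (nat_lit 78) (nat_lit 0) (nat_lit 0) (XT.lf (nat_lit 0) (nat_lit 1117523476449) (nat_lit 152) (nat_lit 263741694053) (nat_lit 0) (nat_lit 1116648929516) (nat_lit 1) (nat_lit 5) (nat_lit 3) (nat_lit 4) (nat_lit 1) (nat_lit 4) (nat_lit 445) (nat_lit 309) (nat_lit 266)) (XT.lf (nat_lit 0) (nat_lit 1208641581971) (nat_lit 152) (nat_lit 281197871455) (nat_lit 0) (nat_lit 1207764578098) (nat_lit 1) (nat_lit 5) (nat_lit 3) (nat_lit 4) (nat_lit 1) (nat_lit 4) (nat_lit 446) (nat_lit 309) (nat_lit 265))) (XT.nd (nat_lit 78) (nat_lit 0) (nat_lit 0) (XT.lf (nat_lit 0) (nat_lit 1307040423873) (nat_lit 152) (nat_lit 300068286022) (nat_lit 0) (nat_lit 1306161145055) (nat_lit 1) (nat_lit 5) (nat_lit 3) (nat_lit 4) (nat_lit 1) (nat_lit 4) (nat_lit 447) (nat_lit 309) (nat_lit 264)) (XT.nd (nat_lit 78) (nat_lit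 0) (nat_lit 0) (XT.lf (nat_lit 0) (nat_lit 1413303106401) (nat_lit 152) (nat_lit 320464762434) (nat_lit 0) (nat_lit 1412421721153) (nat_lit 1) (nat_lit 5) (nat_lit 3) (nat_lit 4) (nat_lit 1) (nat_lit 4) (nat_lit 448) (nat_lit 309) (nat_lit 263)) (XT.lf (nat_lit 0) (nat_lit 1528059334341) (nat_lit 152) (nat_lit 342508168699) (nat_lit 0) (nat_lit 1527175998695) (nat_lit 1) (nat_lit 5) (nat_lit 3) (nat_lit 4) (nat_lit 1) (nat_lit 4) (nat_lit 449) (nat_lit 309) (nat_lit 262)))))) (XT.nd (nat_lit 390) (nat_lit 0) (nat_lit 0) (XT.nd (nat_lit 156) (nat_lit 0) (nat_lit 0) (XT.nd (nat_lit 78) (nat_lit 0) (nat_lit 0) (XT.lf (nat_lit 0) (nat_lit 1651989144601) (nat_lit 152) (nat_lit 366329132410) (nat_lit 0) (nat_lit 1651104003030) (nat_lit 1) (nat_lit 5) (nat_lit 3) (nat_lit 4) (nat_lit 1) (nat_lit 4) (nat_lit 450) (nat_lit 309) (nat_lit 261)) (XT.lf (nat_lit 0) (nat_lit 1785826936054) (nat_lit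 152) (nat_lit 392068814833) (nat_lit 0) (nat_lit 1784940122331) (nat_lit 1) (nat_lit 5) (nat_lit 3) (nat_lit 4) (nat_lit 1) (nat_lit 4) (nat_lit 451) (nat_lit 309) (nat_lit 260))) (XT.nd (nat_lit 78) (nat_lit 0) (nat_lit 0) (XT.lf (nat_lit 0) (nat_lit 1930365821540) (nat_lit 152) (nat_lit 419879747420) (nat_lit 0) (nat_lit 1929477459528) (nat_lit 1) (nat_lit 5) (nat_lit 3) (nat_lit 4) (nat_lit 1) (nat_lit 4) (nat_lit 452) (nat_lit 309) (nat_lit 259)) (XT.nd (nat_lit 78) (nat_lit 0) (nat_lit 0) (XT.lf (nat_lit 0) (nat_lit 2086462327787) (nat_lit 152) (nat_lit 449926735696) (nat_lit 0) (nat_lit 2085572532174) (nat_lit 1) (nat_lit 5) (nat_lit 3) (nat_lit 4) (nat_lit 1) (nat_lit 4) (nat_lit 453) (nat_lit 309) (nat_lit 258)) (XT.lf (nat_lit 0) (nat_lit 2255041471128) (nat_lit 152) (nat_lit 482387835890) (nat_lit 0) (nat_lit 2254150348108) (nat_lit 1) (nat_lit 5) (nat_lit 3) (nat_lit 4) (nat_lit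 1) (nat_lit 4) (nat_lit 454) (nat_lit 309) (nat_lit 257))))) (XT.nd (nat_lit 156) (nat_lit 0) (nat_lit 0) (XT.nd (nat_lit 78) (nat_lit 0) (nat_lit 0) (XT.lf (nat_lit 0) (nat_lit 2437102239080) (nat_lit 152) (nat_lit 517455410076) (nat_lit 0) (nat_lit 2436209886978) (nat_lit 1) (nat_lit 5) (nat_lit 3) (nat_lit 4) (nat_lit 1) (nat_lit 4) (nat_lit 455) (nat_lit 309) (nat_lit 256)) (XT.lf (nat_lit 0) (nat_lit 2633723510268) (nat_lit 152) (nat_lit 555337266101) (nat_lit 0) (nat_lit 2632830020127) (nat_lit 1) (nat_lit 5) (nat_lit 3) (nat_lit 4) (nat_lit 1) (nat_lit 4) (nat_lit 456) (nat_lit 309) (nat_lit 255))) (XT.nd (nat_lit 78) (nat_lit 0) (nat_lit 0) (XT.lf (nat_lit 0) (nat_lit 2846070447780) (nat_lit 152) (nat_lit 596257889038) (nat_lit 0) (nat_lit 2845175903900) (nat_lit 1) (nat_lit 5) (nat_lit 3) (nat_lit 4) (nat_lit 1) (nat_lit 4) (nat_lit 457) (nat_lit 309) (nat_lit 254)) (XT.nd (nat_lit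 78) (nat_lit 0) (nat_lit 0) (XT.lf (nat_lit 0) (nat_lit 3075401403838) (nat_lit 152) (nat_lit 640459771467) (nat_lit 0) (nat_lit 3074505884273) (nat_lit 1) (nat_lit 5) (nat_lit 3) (nat_lit 4) (nat_lit 1) (nat_lit 4) (nat_lit 458) (nat_lit 309) (nat_lit 253)) (XT.lf (nat_lit 0) (nat_lit 3323075376701) (nat_lit 152) (nat_lit 688204850470) (nat_lit 0) (nat_lit 3322178953724) (nat_lit 1) (nat_lit 5) (nat_lit 3) (nat_lit 4) (nat_lit 1) (nat_lit 4) (nat_lit 459) (nat_lit 309) (nat_lit 252))))))) (XT.nd (nat_lit 48750) (nat_lit 0) (nat_lit 0) (XT.nd (nat_lit 390) (nat_lit 0) (nat_lit 0) (XT.nd (nat_lit 156) (nat_lit 0) (nat_lit 0) (XT.nd (nat_lit 78) (nat_lit 0) (nat_lit 0) (XT.lf (nat_lit 0) (nat_lit 3590560063985) (nat_lit 152) (nat_lit 739776059847) (nat_lit 0) (nat_lit 3589662804516) (nat_lit 1) (nat_lit 5) (nat_lit 3) (nat_lit 4) (nat_lit 1) (nat_lit 4) (nat_lit 460) (nat_lit 309) (nat_lit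 251)) (XT.lf (nat_lit 0) (nat_lit 3879440560134) (nat_lit 152) (nat_lit 795479006766) (nat_lit 0) (nat_lit 3878542526135) (nat_lit 1) (nat_lit 5) (nat_lit 3) (nat_lit 4) (nat_lit 1) (nat_lit 4) (nat_lit 461) (nat_lit 309) (nat_lit 250))) (XT.nd (nat_lit 78) (nat_lit 0) (nat_lit 0) (XT.lf (nat_lit 0) (nat_lit 4191428749569) (nat_lit 152) (nat_lit 855643782764) (nat_lit 0) (nat_lit 4190529998413) (nat_lit 1) (nat_lit 5) (nat_lit 3) (nat_lit 4) (nat_lit 1) (nat_lit 4) (nat_lit 462) (nat_lit 309) (nat_lit 249)) (XT.nd (nat_lit 78) (nat_lit 0) (nat_lit 0) (XT.lf (nat_lit 0) (nat_lit 4528373451191) (nat_lit 152) (nat_lit 920626919846) (nat_lit 0) (nat_lit 4527474036000) (nat_lit 1) (nat_lit 5) (nat_lit 3) (nat_lit 4) (nat_lit 1) (nat_lit 4) (nat_lit 463) (nat_lit 309) (nat_lit 248)) (XT.lf (nat_lit 0) (nat_lit 4892271374342) (nat_lit 152) (nat_lit 990813503270) (nat_lit 0) (nat_lit 4891371344305)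 (nat_lit 1) (nat_lit 5) (nat_lit 3) (nat_lit 4) (nat_lit 1) (nat_lit 4) (nat_lit 464) (nat_lit 309) (nat_lit 247))))) (XT.nd (nat_lit 48126) (nat_lit 0) (nat_lit 0) (XT.nd (nat_lit 48048) (nat_lit 0) (nat_lit 152) (XT.lf (nat_lit 0) (nat_lit 5285278951160) (nat_lit 152) (nat_lit 1066619453530) (nat_lit 0) (nat_lit 5284378351820) (nat_lit 1) (nat_lit 5) (nat_lit 3) (nat_lit 4) (nat_lit 1) (nat_lit 4) (nat_lit 465) (nat_lit 309) (nat_lit 246)) (XT.lf (nat_lit 0) (nat_lit 32604399417) (nat_lit 76) (nat_lit 4134293484) (nat_lit 76) (nat_lit 4134293484) (nat_lit 3) (nat_lit 4) (nat_lit 4) (nat_lit 5) (nat_lit 4) (nat_lit 4) (nat_lit 400) (nat_lit 310) (nat_lit 310))) (XT.nd (nat_lit 78) (nat_lit 152) (nat_lit 0) (XT.lf (nat_lit 0) (nat_lit 80114183485) (nat_lit 76) (nat_lit 3933723850) (nat_lit 76) (nat_lit 3855297220) (nat_lit 3) (nat_lit 4) (nat_lit 4) (nat_lit 5) (nat_lit 4) (nat_lit 4)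 (nat_lit 401) (nat_lit 310) (nat_lit 309)) (XT.nd (nat_lit 78) (nat_lit 0) (nat_lit 0) (XT.lf (nat_lit 0) (nat_lit 669065706) (nat_lit 152) (nat_lit 93368712068) (nat_lit 0) (nat_lit 529210261) (nat_lit 1) (nat_lit 5) (nat_lit 3) (nat_lit 4) (nat_lit 1) (nat_lit 4) (nat_lit 402) (nat_lit 310) (nat_lit 308)) (XT.lf (nat_lit 0) (nat_lit 5429343438) (nat_lit 152) (nat_lit 91092721036) (nat_lit 0) (nat_lit 5227230407) (nat_lit 1) (nat_lit 5) (nat_lit 3) (nat_lit 4) (nat_lit 1) (nat_lit 4) (nat_lit 403) (nat_lit 310) (nat_lit 307)))))) (XT.nd (nat_lit 390) (nat_lit 0) (nat_lit 0) (XT.nd (nat_lit 156) (nat_lit 0) (nat_lit 0) (XT.nd (nat_lit 78) (nat_lit 0) (nat_lit 0) (XT.lf (nat_lit 0) (nat_lit 10349684222) (nat_lit 152) (nat_lit 89084248483) (nat_lit 0) (nat_lit 10089925276) (nat_lit 1) (nat_lit 5) (nat_lit 3) (nat_lit 4) (nat_lit 1) (nat_lit 4) (nat_lit 404) (nat_lit 310) (nat_lit 306)) (XT.lf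 (nat_lit 0) (nat_lit 15459245632) (nat_lit 152) (nat_lit 87331392350) (nat_lit 0) (nat_lit 15146110840) (nat_lit 1) (nat_lit 5) (nat_lit 3) (nat_lit 4) (nat_lit 1) (nat_lit 4) (nat_lit 405) (nat_lit 310) (nat_lit 305))) (XT.nd (nat_lit 78) (nat_lit 0) (nat_lit 0) (XT.lf (nat_lit 0) (nat_lit 20788306551) (nat_lit 152) (nat_lit 85823765341) (nat_lit 0) (nat_lit 20425749679) (nat_lit 1) (nat_lit 5) (nat_lit 3) (nat_lit 4) (nat_lit 1) (nat_lit 4) (nat_lit 406) (nat_lit 310) (nat_lit 304)) (XT.nd (nat_lit 78) (nat_lit 0) (nat_lit 0) (XT.lf (nat_lit 0) (nat_lit 26368446599) (nat_lit 152) (nat_lit 84552433370) (nat_lit 0) (nat_lit 25960128542) (nat_lit 1) (nat_lit 5) (nat_lit 3) (nat_lit 4) (nat_lit 1) (nat_lit 4) (nat_lit 407) (nat_lit 310) (nat_lit 303)) (XT.lf (nat_lit 0) (nat_lit 32232733273) (nat_lit 152) (nat_lit 83509862617) (nat_lit 0) (nat_lit 31782043748) (nat_lit 1) (nat_lit 5) (nat_lit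 3) (nat_lit 4) (nat_lit 1) (nat_lit 4) (nat_lit 408) (nat_lit 310) (nat_lit 302))))) (XT.nd (nat_lit 234) (nat_lit 0) (nat_lit 0) (XT.nd (nat_lit 78) (nat_lit 0) (nat_lit 0) (XT.lf (nat_lit 0) (nat_lit 38415917901) (nat_lit 152) (nat_lit 82689874886) (nat_lit 0) (nat_lit 37925995535) (nat_lit 1) (nat_lit 5) (nat_lit 3) (nat_lit 4) (nat_lit 1) (nat_lit 4) (nat_lit 409) (nat_lit 310) (nat_lit 301)) (XT.nd (nat_lit 78) (nat_lit 0) (nat_lit 0) (XT.lf (nat_lit 0) (nat_lit 44954641577) (nat_lit 152) (nat_lit 82087610991) (nat_lit 0) (nat_lit 44428392506) (nat_lit 1) (nat_lit 5) (nat_lit 3) (nat_lit 4) (nat_lit 1) (nat_lit 4) (nat_lit 410) (nat_lit 310) (nat_lit 300)) (XT.lf (nat_lit 0) (nat_lit 51887652293) (nat_lit 152) (nat_lit 81699501959) (nat_lit 0) (nat_lit 51327767385) (nat_lit 1) (nat_lit 5) (nat_lit 3) (nat_lit 4) (nat_lit 1) (nat_lit 4) (nat_lit 411) (nat_lit 310) (nat_lit 299))))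 (XT.nd (nat_lit 78) (nat_lit 0) (nat_lit 0) (XT.lf (nat_lit 0) (nat_lit 59256034558) (nat_lit 152) (nat_lit 81523247886) (nat_lit 0) (nat_lit 58665005356) (nat_lit 1) (nat_lit 5) (nat_lit 3) (nat_lit 4) (nat_lit 1) (nat_lit 4) (nat_lit 412) (nat_lit 310) (nat_lit 298)) (XT.nd (nat_lit 78) (nat_lit 0) (nat_lit 0) (XT.lf (nat_lit 0) (nat_lit 67103452858) (nat_lit 152) (nat_lit 81557804303) (nat_lit 0) (nat_lit 66483586347) (nat_lit 1) (nat_lit 5) (nat_lit 3) (nat_lit 4) (nat_lit 1) (nat_lit 4) (nat_lit 413) (nat_lit 310) (nat_lit 297)) (XT.lf (nat_lit 0) (nat_lit 75476410413) (nat_lit 152) (nat_lit 81803375989) (nat_lit 0) (nat_lit 74829842691) (nat_lit 1) (nat_lit 5) (nat_lit 3) (nat_lit 4) (nat_lit 1) (nat_lit 4) (nat_lit 414) (nat_lit 310) (nat_lit 296))))))))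
noncomputable def xc26 : XT := (XT.nd (nat_lit 1560) (nat_lit 0) (nat_lit 0) (XT.nd (nat_lit 780) (nat_lit 0) (nat_lit 0) (XT.nd (nat_lit 390) (nat_lit 0) (nat_lit 0) (XT.nd (nat_lit 156) (nat_lit 0) (nat_lit 0) (XT.nd (nat_lit 78) (nat_lit 0) (nat_lit 0) (XT.lf (nat_lit 0) (nat_lit 84424524750) (nat_lit 152) (nat_lit 82261418183) (nat_lit 0) (nat_lit 83753233683) (nat_lit 1) (nat_lit 5) (nat_lit 3) (nat_lit 4) (nat_lit 1) (nat_lit 4) (nat_lit 415) (nat_lit 310) (nat_lit 295)) (XT.lf (nat_lit 0) (nat_lit 94000821732) (nat_lit 152) (nat_lit 82934645210) (nat_lit 0) (nat_lit 93306638679) (nat_lit 1) (nat_lit 5) (nat_lit 3) (nat_lit 4) (nat_lit 1) (nat_lit 4) (nat_lit 416) (nat_lit 310) (nat_lit 294))) (XT.nd (nat_lit 78) (nat_lit 0) (nat_lit 0) (XT.lf (nat_lit 0) (nat_lit 104262049784) (nat_lit 152) (nat_lit 83827046563) (nat_lit 0) (nat_lit 103546670448) (nat_lit 1) (nat_lit 5) (nat_lit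 3) (nat_lit 4) (nat_lit 1) (nat_lit 4) (nat_lit 417) (nat_lit 310) (nat_lit 293)) (XT.nd (nat_lit 78) (nat_lit 0) (nat_lit 0) (XT.lf (nat_lit 0) (nat_lit 115269016185) (nat_lit 152) (nat_lit 84943910546) (nat_lit 0) (nat_lit 114534010661) (nat_lit 1) (nat_lit 5) (nat_lit 3) (nat_lit 4) (nat_lit 1) (nat_lit 4) (nat_lit 418) (nat_lit 310) (nat_lit 292)) (XT.lf (nat_lit 0) (nat_lit 127086947401) (nat_lit 152) (nat_lit 86291855613) (nat_lit 0) (nat_lit 126333769481) (nat_lit 1) (nat_lit 5) (nat_lit 3) (nat_lit 4) (nat_lit 1) (nat_lit 4) (nat_lit 419) (nat_lit 310) (nat_lit 291))))) (XT.nd (nat_lit 156) (nat_lit 0) (nat_lit 0) (XT.nd (nat_lit 78) (nat_lit 0) (nat_lit 0) (XT.lf (nat_lit 0) (nat_lit 139785875618) (nat_lit 152) (nat_lit 87878869586) (nat_lit 0) (nat_lit 139015871405) (nat_lit 1) (nat_lit 5) (nat_lit 3) (nat_lit 4) (nat_lit 1) (nat_lit 4) (nat_lit 420) (nat_lit 310) (nat_lit 290))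 (XT.lf (nat_lit 0) (nat_lit 153441053743) (nat_lit 152) (nat_lit 89714356992) (nat_lit 0) (nat_lit 152655469630) (nat_lit 1) (nat_lit 5) (nat_lit 3) (nat_lit 4) (nat_lit 1) (nat_lit 4) (nat_lit 421) (nat_lit 310) (nat_lit 289))) (XT.nd (nat_lit 78) (nat_lit 0) (nat_lit 0) (XT.lf (nat_lit 0) (nat_lit 168133401352) (nat_lit 152) (nat_lit 91809194794) (nat_lit 0) (nat_lit 167333391404) (nat_lit 1) (nat_lit 5) (nat_lit 3) (nat_lit 4) (nat_lit 1) (nat_lit 4) (nat_lit 422) (nat_lit 310) (nat_lit 288)) (XT.nd (nat_lit 78) (nat_lit 0) (nat_lit 0) (XT.lf (nat_lit 0) (nat_lit 183949984207) (nat_lit 152) (nat_lit 94175796846) (nat_lit 0) (nat_lit 183136617005) (nat_lit 1) (nat_lit 5) (nat_lit 3) (nat_lit 4) (nat_lit 1) (nat_lit 4) (nat_lit 423) (nat_lit 310) (nat_lit 287)) (XT.lf (nat_lit 0) (nat_lit 200984530206) (nat_lit 152) (nat_lit 96828187455) (nat_lit 0) (nat_lit 200158795177) (nat_lit 1)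 (nat_lit 5) (nat_lit 3) (nat_lit 4) (nat_lit 1) (nat_lit 4) (nat_lit 424) (nat_lit 310) (nat_lit 286)))))) (XT.nd (nat_lit 390) (nat_lit 0) (nat_lit 0) (XT.nd (nat_lit 156) (nat_lit 0) (nat_lit 0) (XT.nd (nat_lit 78) (nat_lit 0) (nat_lit 0) (XT.lf (nat_lit 0) (nat_lit 219337984808) (nat_lit 152) (nat_lit 99782084493) (nat_lit 0) (nat_lit 218500798087) (nat_lit 1) (nat_lit 5) (nat_lit 3) (nat_lit 4) (nat_lit 1) (nat_lit 4) (nat_lit 425) (nat_lit 310) (nat_lit 285)) (XT.lf (nat_lit 0) (nat_lit 239119109226) (nat_lit 152) (nat_lit 103054992534) (nat_lit 0) (nat_lit 238271319086) (nat_lit 1) (nat_lit 5) (nat_lit 3) (nat_lit 4) (nat_lit 1) (nat_lit 4) (nat_lit 426) (nat_lit 310) (nat_lit 284))) (XT.nd (nat_lit 78) (nat_lit 0) (nat_lit 0) (XT.lf (nat_lit 0) (nat_lit 260445124936) (nat_lit 152) (nat_lit 106666306589) (nat_lit 0) (nat_lit 259587516816) (nat_lit 1) (nat_lit 5) (nat_lit 3) (nat_lit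 4) (nat_lit 1) (nat_lit 4) (nat_lit 427) (nat_lit 310) (nat_lit 283)) (XT.nd (nat_lit 78) (nat_lit 0) (nat_lit 0) (XT.lf (nat_lit 0) (nat_lit 283442408329) (nat_lit 152) (nat_lit 110637427037) (nat_lit 0) (nat_lit 282575709486) (nat_lit 1) (nat_lit 5) (nat_lit 3) (nat_lit 4) (nat_lit 1) (nat_lit 4) (nat_lit 428) (nat_lit 310) (nat_lit 282)) (XT.lf (nat_lit 0) (nat_lit 308247239602) (nat_lit 152) (nat_lit 114991886444) (nat_lit 0) (nat_lit 307372123423) (nat_lit 1) (nat_lit 5) (nat_lit 3) (nat_lit 4) (nat_lit 1) (nat_lit 4) (nat_lit 429) (nat_lit 310) (nat_lit 281))))) (XT.nd (nat_lit 156) (nat_lit 0) (nat_lit 0) (XT.nd (nat_lit 78) (nat_lit 0) (nat_lit 0) (XT.lf (nat_lit 0) (nat_lit 335006610348) (nat_lit 152) (nat_lit 119755489015) (nat_lit 0) (nat_lit 334123700340) (nat_lit 1) (nat_lit 5) (nat_lit 3) (nat_lit 4) (nat_lit 1) (nat_lit 4) (nat_lit 430) (nat_lit 310) (nat_lit 280)) (XT.lf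 (nat_lit 0) (nat_lit 363879094615) (nat_lit 152) (nat_lit 124956463504) (nat_lit 0) (nat_lit 362988968099) (nat_lit 1) (nat_lit 5) (nat_lit 3) (nat_lit 4) (nat_lit 1) (nat_lit 4) (nat_lit 431) (nat_lit 310) (nat_lit 279))) (XT.nd (nat_lit 78) (nat_lit 0) (nat_lit 0) (XT.lf (nat_lit 0) (nat_lit 395035788608) (nat_lit 152) (nat_lit 130625630502) (nat_lit 0) (nat_lit 394138980140) (nat_lit 1) (nat_lit 5) (nat_lit 3) (nat_lit 4) (nat_lit 1) (nat_lit 4) (nat_lit 432) (nat_lit 310) (nat_lit 278)) (XT.nd (nat_lit 78) (nat_lit 0) (nat_lit 0) (XT.lf (nat_lit 0) (nat_lit 428661324587) (nat_lit 152) (nat_lit 136796585071) (nat_lit 0) (nat_lit 427758329126) (nat_lit 1) (nat_lit 5) (nat_lit 3) (nat_lit 4) (nat_lit 1) (nat_lit 4) (nat_lit 433) (nat_lit 310) (nat_lit 277)) (XT.lf (nat_lit 0) (nat_lit 464954964987) (nat_lit 152) (nat_lit 143505895833) (nat_lit 0) (nat_lit 464046240828) (nat_lit 1) (nat_lit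 5) (nat_lit 3) (nat_lit 4) (nat_lit 1) (nat_lit 4) (nat_lit 434) (nat_lit 310) (nat_lit 276))))))) (XT.nd (nat_lit 780) (nat_lit 0) (nat_lit 0) (XT.nd (nat_lit 390) (nat_lit 0) (nat_lit 0) (XT.nd (nat_lit 156) (nat_lit 0) (nat_lit 0) (XT.nd (nat_lit 78) (nat_lit 0) (nat_lit 0) (XT.lf (nat_lit 0) (nat_lit 504131783232) (nat_lit 152) (nat_lit 150793321665) (nat_lit 0) (nat_lit 503217754724) (nat_lit 1) (nat_lit 5) (nat_lit 3) (nat_lit 4) (nat_lit 1) (nat_lit 4) (nat_lit 435) (nat_lit 310) (nat_lit 275)) (XT.lf (nat_lit 0) (nat_lit 546423938246) (nat_lit 152) (nat_lit 158702047314) (nat_lit 0) (nat_lit 545504998304) (nat_lit 1) (nat_lit 5) (nat_lit 3) (nat_lit 4) (nat_lit 1) (nat_lit 4) (nat_lit 436) (nat_lit 310) (nat_lit 274))) (XT.nd (nat_lit 78) (nat_lit 0) (nat_lit 0) (XT.lf (nat_lit 0) (nat_lit 592082050207) (nat_lit 152) (nat_lit 167278939301) (nat_lit 0) (nat_lit 591158562640) (nat_lit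 1) (nat_lit 5) (nat_lit 3) (nat_lit 4) (nat_lit 1) (nat_lit 4) (nat_lit 437) (nat_lit 310) (nat_lit 273)) (XT.nd (nat_lit 78) (nat_lit 0) (nat_lit 0) (XT.lf (nat_lit 0) (nat_lit 641376685703) (nat_lit 152) (nat_lit 176574823652) (nat_lit 0) (nat_lit 640448987373) (nat_lit 1) (nat_lit 5) (nat_lit 3) (nat_lit 4) (nat_lit 1) (nat_lit 4) (nat_lit 438) (nat_lit 310) (nat_lit 272)) (XT.lf (nat_lit 0) (nat_lit 694599961094) (nat_lit 152) (nat_lit 186644787091) (nat_lit 0) (nat_lit 693668363909) (nat_lit 1) (nat_lit 5) (nat_lit 3) (nat_lit 4) (nat_lit 1) (nat_lit 4) (nat_lit 439) (nat_lit 310) (nat_lit 271))))) (XT.nd (nat_lit 156) (nat_lit 0) (nat_lit 0) (XT.nd (nat_lit 78) (nat_lit 0) (nat_lit 0) (XT.lf (nat_lit 0) (nat_lit 752067273567) (nat_lit 152) (nat_lit 197548503475) (nat_lit 0) (nat_lit 751132066330) (nat_lit 1) (nat_lit 5) (nat_lit 3) (nat_lit 4) (nat_lit 1) (nat_lit 4) (nat_lit 440)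 (nat_lit 310) (nat_lit 270)) (XT.lf (nat_lit 0) (nat_lit 814119170158) (nat_lit 152) (nat_lit 209350587419) (nat_lit 0) (nat_lit 813180620282) (nat_lit 1) (nat_lit 5) (nat_lit 3) (nat_lit 4) (nat_lit 1) (nat_lit 4) (nat_lit 441) (nat_lit 310) (nat_lit 269))) (XT.nd (nat_lit 78) (nat_lit 0) (nat_lit 0) (XT.lf (nat_lit 0) (nat_lit 881123365811) (nat_lit 152) (nat_lit 222120977198) (nat_lit 0) (nat_lit 880181720898) (nat_lit 1) (nat_lit 5) (nat_lit 3) (nat_lit 4) (nat_lit 1) (nat_lit 4) (nat_lit 442) (nat_lit 310) (nat_lit 268)) (XT.nd (nat_lit 78) (nat_lit 0) (nat_lit 0) (XT.lf (nat_lit 0) (nat_lit 953476922426) (nat_lit 152) (nat_lit 235935349197) (nat_lit 0) (nat_lit 952532411738) (nat_lit 1) (nat_lit 5) (nat_lit 3) (nat_lit 4) (nat_lit 1) (nat_lit 4) (nat_lit 443) (nat_lit 310) (nat_lit 267)) (XT.lf (nat_lit 0) (nat_lit 1031608601819) (nat_lit 152) (nat_lit 250875566359) (nat_lit 0) (nat_lit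 1030661437636) (nat_lit 1) (nat_lit 5) (nat_lit 3) (nat_lit 4) (nat_lit 1) (nat_lit 4) (nat_lit 444) (nat_lit 310) (nat_lit 266)))))) (XT.nd (nat_lit 390) (nat_lit 0) (nat_lit 0) (XT.nd (nat_lit 156) (nat_lit 0) (nat_lit 0) (XT.nd (nat_lit 78) (nat_lit 0) (nat_lit 0) (XT.lf (nat_lit 0) (nat_lit 1115981406536) (nat_lit 152) (nat_lit 267030163307) (nat_lit 0) (nat_lit 1115031785413) (nat_lit 1) (nat_lit 5) (nat_lit 3) (nat_lit 4) (nat_lit 1) (nat_lit 4) (nat_lit 445) (nat_lit 310) (nat_lit 265)) (XT.lf (nat_lit 0) (nat_lit 1207095323567) (nat_lit 152) (nat_lit 284494870984) (nat_lit 0) (nat_lit 1206143427499) (nat_lit 1) (nat_lit 5) (nat_lit 3) (nat_lit 4) (nat_lit 1) (nat_lit 4) (nat_lit 446) (nat_lit 310) (nat_lit 264))) (XT.nd (nat_lit 78) (nat_lit 0) (nat_lit 0) (XT.lf (nat_lit 0) (nat_lit 1305490287235) (nat_lit 152) (nat_lit 303373183955) (nat_lit 0) (nat_lit 1304536284737) (nat_lit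 1) (nat_lit 5) (nat_lit 3) (nat_lit 4) (nat_lit 1) (nat_lit 4) (nat_lit 447) (nat_lit 310) (nat_lit 263)) (XT.nd (nat_lit 78) (nat_lit 0) (nat_lit 0) (XT.lf (nat_lit 0) (nat_lit 1411749378806) (nat_lit 152) (nat_lit 323776973703) (nat_lit 0) (nat_lit 1410793425910) (nat_lit 1) (nat_lit 5) (nat_lit 3) (nat_lit 4) (nat_lit 1) (nat_lit 4) (nat_lit 448) (nat_lit 310) (nat_lit 262)) (XT.lf (nat_lit 0) (nat_lit 1526502281787) (nat_lit 152) (nat_lit 345827151576) (nat_lit 0) (nat_lit 1525544522967) (nat_lit 1) (nat_lit 5) (nat_lit 3) (nat_lit 4) (nat_lit 1) (nat_lit 4) (nat_lit 449) (nat_lit 310) (nat_lit 261))))) (XT.nd (nat_lit 234) (nat_lit 0) (nat_lit 0) (XT.nd (nat_lit 78) (nat_lit 0) (nat_lit 0) (XT.lf (nat_lit 0) (nat_lit 1650429013379) (nat_lit 152) (nat_lit 369654385295) (nat_lit 0) (nat_lit 1649469582407) (nat_lit 1) (nat_lit 5) (nat_lit 3) (nat_lit 4) (nat_lit 1) (nat_lit 4) (nat_lit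 450) (nat_lit 310) (nat_lit 260)) (XT.nd (nat_lit 78) (nat_lit 0) (nat_lit 0) (XT.lf (nat_lit 0) (nat_lit 1784263954215) (nat_lit 152) (nat_lit 395399873280) (nat_lit 0) (nat_lit 1783302974954) (nat_lit 1) (nat_lit 5) (nat_lit 3) (nat_lit 4) (nat_lit 1) (nat_lit 4) (nat_lit 451) (nat_lit 310) (nat_lit 259)) (XT.lf (nat_lit 0) (nat_lit 1928800200241) (nat_lit 152) (nat_lit 423216181388) (nat_lit 0) (nat_lit 1927837787379) (nat_lit 1) (nat_lit 5) (nat_lit 3) (nat_lit 4) (nat_lit 1) (nat_lit 4) (nat_lit 452) (nat_lit 310) (nat_lit 258)))) (XT.nd (nat_lit 78) (nat_lit 0) (nat_lit 0) (XT.lf (nat_lit 0) (nat_lit 2084894262543) (nat_lit 152) (nat_lit 453268146999) (nat_lit 0) (nat_lit 2083930522273) (nat_lit 1) (nat_lit 5) (nat_lit 3) (nat_lit 4) (nat_lit 1) (nat_lit 4) (nat_lit 453) (nat_lit 310) (nat_lit 257)) (XT.nd (nat_lit 78) (nat_lit 0) (nat_lit 0) (XT.lf (nat_lit 0) (nat_lit 2253471142973)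 (nat_lit 152) (nat_lit 485733855835) (nat_lit 0) (nat_lit 2252506173621) (nat_lit 1) (nat_lit 5) (nat_lit 3) (nat_lit 4) (nat_lit 1) (nat_lit 4) (nat_lit 454) (nat_lit 310) (nat_lit 256)) (XT.lf (nat_lit 0) (nat_lit 2435529815636) (nat_lit 152) (nat_lit 520805697283) (nat_lit 0) (nat_lit 2434563708245) (nat_lit 1) (nat_lit 5) (nat_lit 3) (nat_lit 4) (nat_lit 1) (nat_lit 4) (nat_lit 455) (nat_lit 310) (nat_lit 255))))))))
noncomputable def xc27 : XT := (XT.nd (nat_lit 49452) (nat_lit 0) (nat_lit 0) (XT.nd (nat_lit 48594) (nat_lit 0) (nat_lit 0) (XT.nd (nat_lit 390) (nat_lit 0) (nat_lit 0) (XT.nd (nat_lit 156) (nat_lit 0) (nat_lit 0) (XT.nd (nat_lit 78) (nat_lit 0) (nat_lit 0) (XT.lf (nat_lit 0) (nat_lit 2632149146742) (nat_lit 152) (nat_lit 558691504476) (nat_lit 0) (nat_lit 2631181985612) (nat_lit 1) (nat_lit 5) (nat_lit 3) (nat_lit 4) (nat_lit 1) (nat_lit 4) (nat_lit 456) (nat_lit 310)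 (nat_lit 254)) (XT.lf (nat_lit 0) (nat_lit 2844494287881) (nat_lit 152) (nat_lit 599615785902) (nat_lit 0) (nat_lit 2843526151066) (nat_lit 1) (nat_lit 5) (nat_lit 3) (nat_lit 4) (nat_lit 1) (nat_lit 4) (nat_lit 457) (nat_lit 310) (nat_lit 253))) (XT.nd (nat_lit 78) (nat_lit 0) (nat_lit 0) (XT.lf (nat_lit 0) (nat_lit 3073823580632) (nat_lit 152) (nat_lit 643821055821) (nat_lit 0) (nat_lit 3072854540405) (nat_lit 1) (nat_lit 5) (nat_lit 3) (nat_lit 4) (nat_lit 1) (nat_lit 4) (nat_lit 458) (nat_lit 310) (nat_lit 252)) (XT.nd (nat_lit 78) (nat_lit 0) (nat_lit 0) (XT.lf (nat_lit 0) (nat_lit 3321496013395) (nat_lit 152) (nat_lit 691569271388) (nat_lit 0) (nat_lit 3320526136676) (nat_lit 1) (nat_lit 5) (nat_lit 3) (nat_lit 4) (nat_lit 1) (nat_lit 4) (nat_lit 459) (nat_lit 310) (nat_lit 251)) (XT.lf (nat_lit 0) (nat_lit 3588979274661) (nat_lit 152) (nat_lit 743143384992) (nat_lit 0) (nat_lit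 3588008623412) (nat_lit 1) (nat_lit 5) (nat_lit 3) (nat_lit 4) (nat_lit 1) (nat_lit 4) (nat_lit 460) (nat_lit 310) (nat_lit 250))))) (XT.nd (nat_lit 156) (nat_lit 0) (nat_lit 0) (XT.nd (nat_lit 78) (nat_lit 0) (nat_lit 0) (XT.lf (nat_lit 0) (nat_lit 3877858450422) (nat_lit 152) (nat_lit 798849021010) (nat_lit 0) (nat_lit 3876887082016) (nat_lit 1) (nat_lit 5) (nat_lit 3) (nat_lit 4) (nat_lit 1) (nat_lit 4) (nat_lit 461) (nat_lit 310) (nat_lit 249)) (XT.lf (nat_lit 0) (nat_lit 4189845417277) (nat_lit 152) (nat_lit 859016286914) (nat_lit 0) (nat_lit 4188873384836) (nat_lit 1) (nat_lit 5) (nat_lit 3) (nat_lit 4) (nat_lit 1) (nat_lit 4) (nat_lit 462) (nat_lit 310) (nat_lit 248))) (XT.nd (nat_lit 78) (nat_lit 0) (nat_lit 0) (XT.lf (nat_lit 0) (nat_lit 4526788986879) (nat_lit 152) (nat_lit 924001729465) (nat_lit 0) (nat_lit 4525816339591) (nat_lit 1) (nat_lit 5) (nat_lit 3) (nat_lit 4) (nat_lit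 1) (nat_lit 4) (nat_lit 463) (nat_lit 310) (nat_lit 247)) (XT.nd (nat_lit 78) (nat_lit 0) (nat_lit 0) (XT.lf (nat_lit 0) (nat_lit 4890685861864) (nat_lit 152) (nat_lit 994190447582) (nat_lit 0) (nat_lit 4889712645274) (nat_lit 1) (nat_lit 5) (nat_lit 3) (nat_lit 4) (nat_lit 1) (nat_lit 4) (nat_lit 464) (nat_lit 310) (nat_lit 246)) (XT.lf (nat_lit 0) (nat_lit 5283692468158) (nat_lit 152) (nat_lit 1069998374410) (nat_lit 0) (nat_lit 5282718724436) (nat_lit 1) (nat_lit 5) (nat_lit 3) (nat_lit 4) (nat_lit 1) (nat_lit 4) (nat_lit 465) (nat_lit 310) (nat_lit 245)))))) (XT.nd (nat_lit 390) (nat_lit 0) (nat_lit 0) (XT.nd (nat_lit 156) (nat_lit 152) (nat_lit 0) (XT.nd (nat_lit 78) (nat_lit 0) (nat_lit 0) (XT.lf (nat_lit 0) (nat_lit 18736733586) (nat_lit 76) (nat_lit 8334531610) (nat_lit 76) (nat_lit 8334531610) (nat_lit 3) (nat_lit 4) (nat_lit 4) (nat_lit 5) (nat_lit 4) (nat_lit 4) (nat_lit 398)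 (nat_lit 311) (nat_lit 311)) (XT.lf (nat_lit 0) (nat_lit 50935119751) (nat_lit 76) (nat_lit 12606530197) (nat_lit 76) (nat_lit 12521829437) (nat_lit 3) (nat_lit 4) (nat_lit 4) (nat_lit 5) (nat_lit 4) (nat_lit 4) (nat_lit 399) (nat_lit 311) (nat_lit 310))) (XT.nd (nat_lit 78) (nat_lit 152) (nat_lit 0) (XT.lf (nat_lit 0) (nat_lit 64963515777) (nat_lit 76) (nat_lit 8477633280) (nat_lit 76) (nat_lit 8314505890) (nat_lit 3) (nat_lit 4) (nat_lit 4) (nat_lit 5) (nat_lit 4) (nat_lit 4) (nat_lit 400) (nat_lit 311) (nat_lit 309)) (XT.nd (nat_lit 78) (nat_lit 152) (nat_lit 0) (XT.lf (nat_lit 0) (nat_lit 79641786487) (nat_lit 76) (nat_lit 4257904933) (nat_lit 76) (nat_lit 4022160293) (nat_lit 3) (nat_lit 4) (nat_lit 4) (nat_lit 5) (nat_lit 4) (nat_lit 4) (nat_lit 401) (nat_lit 311) (nat_lit 308)) (XT.lf (nat_lit 0) (nat_lit 375373891) (nat_lit 152) (nat_lit 94126567888) (nat_lit 0) (nat_lit 94834229)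 (nat_lit 1) (nat_lit 5) (nat_lit 3) (nat_lit 4) (nat_lit 1) (nat_lit 4) (nat_lit 402) (nat_lit 311) (nat_lit 307))))) (XT.nd (nat_lit 234) (nat_lit 0) (nat_lit 0) (XT.nd (nat_lit 78) (nat_lit 0) (nat_lit 0) (XT.lf (nat_lit 0) (nat_lit 5029517408) (nat_lit 152) (nat_lit 92066729627) (nat_lit 0) (nat_lit 4691331832) (nat_lit 1) (nat_lit 5) (nat_lit 3) (nat_lit 4) (nat_lit 1) (nat_lit 4) (nat_lit 403) (nat_lit 311) (nat_lit 306)) (XT.nd (nat_lit 78) (nat_lit 0) (nat_lit 0) (XT.lf (nat_lit 0) (nat_lit 9851585771) (nat_lit 152) (nat_lit 90258398528) (nat_lit 0) (nat_lit 9460024348) (nat_lit 1) (nat_lit 5) (nat_lit 3) (nat_lit 4) (nat_lit 1) (nat_lit 4) (nat_lit 404) (nat_lit 311) (nat_lit 305)) (XT.lf (nat_lit 0) (nat_lit 14870154198) (nat_lit 152) (nat_lit 88690858556) (nat_lit 0) (nat_lit 14429170696) (nat_lit 1) (nat_lit 5) (nat_lit 3) (nat_lit 4) (nat_lit 1) (nat_lit 4) (nat_lit 405) (nat_lit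 311) (nat_lit 304)))) (XT.nd (nat_lit 78) (nat_lit 0) (nat_lit 0) (XT.lf (nat_lit 0) (nat_lit 20114962355) (nat_lit 152) (nat_lit 87354820584) (nat_lit 0) (nat_lit 19628217668) (nat_lit 1) (nat_lit 5) (nat_lit 3) (nat_lit 4) (nat_lit 1) (nat_lit 4) (nat_lit 406) (nat_lit 311) (nat_lit 303)) (XT.nd (nat_lit 78) (nat_lit 0) (nat_lit 0) (XT.lf (nat_lit 0) (nat_lit 25617090587) (nat_lit 152) (nat_lit 86242367351) (nat_lit 0) (nat_lit 25087974432) (nat_lit 1) (nat_lit 5) (nat_lit 3) (nat_lit 4) (nat_lit 1) (nat_lit 4) (nat_lit 407) (nat_lit 311) (nat_lit 302)) (XT.lf (nat_lit 0) (nat_lit 31409144097) (nat_lit 152) (nat_lit 85346906542) (nat_lit 0) (nat_lit 30840795101) (nat_lit 1) (nat_lit 5) (nat_lit 3) (nat_lit 4) (nat_lit 1) (nat_lit 4) (nat_lit 408) (nat_lit 311) (nat_lit 301))))))) (XT.nd (nat_lit 780) (nat_lit 0) (nat_lit 0) (XT.nd (nat_lit 390) (nat_lit 0) (nat_lit 0) (XT.nd (nat_lit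 156) (nat_lit 0) (nat_lit 0) (XT.nd (nat_lit 78) (nat_lit 0) (nat_lit 0) (XT.lf (nat_lit 0) (nat_lit 37525446166) (nat_lit 152) (nat_lit 84663131722) (nat_lit 0) (nat_lit 36920770466) (nat_lit 1) (nat_lit 5) (nat_lit 3) (nat_lit 4) (nat_lit 1) (nat_lit 4) (nat_lit 409) (nat_lit 311) (nat_lit 300)) (XT.lf (nat_lit 0) (nat_lit 44002241547) (nat_lit 152) (nat_lit 84186990892) (nat_lit 0) (nat_lit 43363930010) (nat_lit 1) (nat_lit 5) (nat_lit 3) (nat_lit 4) (nat_lit 1) (nat_lit 4) (nat_lit 410) (nat_lit 311) (nat_lit 299))) (XT.nd (nat_lit 78) (nat_lit 0) (nat_lit 0) (XT.lf (nat_lit 0) (nat_lit 50877911250) (nat_lit 152) (nat_lit 83915662476) (nat_lit 0) (nat_lit 50208455418) (nat_lit 1) (nat_lit 5) (nat_lit 3) (nat_lit 4) (nat_lit 1) (nat_lit 4) (nat_lit 411) (nat_lit 311) (nat_lit 298)) (XT.nd (nat_lit 78) (nat_lit 0) (nat_lit 0) (XT.lf (nat_lit 0) (nat_lit 58193199983) (nat_lit 152) (nat_lit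 83847538603) (nat_lit 0) (nat_lit 57494906842) (nat_lit 1) (nat_lit 5) (nat_lit 3) (nat_lit 4) (nat_lit 1) (nat_lit 4) (nat_lit 412) (nat_lit 311) (nat_lit 297)) (XT.lf (nat_lit 0) (nat_lit 65991457606) (nat_lit 152) (nat_lit 83982215575) (nat_lit 0) (nat_lit 65266463253) (nat_lit 1) (nat_lit 5) (nat_lit 3) (nat_lit 4) (nat_lit 1) (nat_lit 4) (nat_lit 413) (nat_lit 311) (nat_lit 296))))) (XT.nd (nat_lit 156) (nat_lit 0) (nat_lit 0) (XT.nd (nat_lit 78) (nat_lit 0) (nat_lit 0) (XT.lf (nat_lit 0) (nat_lit 74318896016) (nat_lit 152) (nat_lit 84320491479) (nat_lit 0) (nat_lit 73569178319) (nat_lit 1) (nat_lit 5) (nat_lit 3) (nat_lit 4) (nat_lit 1) (nat_lit 4) (nat_lit 414) (nat_lit 311) (nat_lit 295)) (XT.lf (nat_lit 0) (nat_lit 83224862996) (nat_lit 152) (nat_lit 84864370912) (nat_lit 0) (nat_lit 82452253313) (nat_lit 1) (nat_lit 5) (nat_lit 3) (nat_lit 4) (nat_lit 1) (nat_lit 4) (nat_lit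 415) (nat_lit 311) (nat_lit 294))) (XT.nd (nat_lit 78) (nat_lit 0) (nat_lit 0) (XT.lf (nat_lit 0) (nat_lit 92762134646) (nat_lit 152) (nat_lit 85617076864) (nat_lit 0) (nat_lit 91968328681) (nat_lit 1) (nat_lit 5) (nat_lit 3) (nat_lit 4) (nat_lit 1) (nat_lit 4) (nat_lit 416) (nat_lit 311) (nat_lit 293)) (XT.nd (nat_lit 78) (nat_lit 0) (nat_lit 0) (XT.lf (nat_lit 0) (nat_lit 102987228133) (nat_lit 152) (nat_lit 86583069814) (nat_lit 0) (nat_lit 102173795980) (nat_lit 1) (nat_lit 5) (nat_lit 3) (nat_lit 4) (nat_lit 1) (nat_lit 4) (nat_lit 417) (nat_lit 311) (nat_lit 292)) (XT.lf (nat_lit 0) (nat_lit 113960736603) (nat_lit 152) (nat_lit 87768074165) (nat_lit 0) (nat_lit 113129132053) (nat_lit 1) (nat_lit 5) (nat_lit 3) (nat_lit 4) (nat_lit 1) (nat_lit 4) (nat_lit 418) (nat_lit 311) (nat_lit 291)))))) (XT.nd (nat_lit 390) (nat_lit 0) (nat_lit 0) (XT.nd (nat_lit 156) (nat_lit 0) (nat_lit 0)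 (XT.nd (nat_lit 78) (nat_lit 0) (nat_lit 0) (XT.lf (nat_lit 0) (nat_lit 125747688253) (nat_lit 152) (nat_lit 89179112165) (nat_lit 0) (nat_lit 124899257411) (nat_lit 1) (nat_lit 5) (nat_lit 3) (nat_lit 4) (nat_lit 1) (nat_lit 4) (nat_lit 419) (nat_lit 311) (nat_lit 290)) (XT.lf (nat_lit 0) (nat_lit 138417931687) (nat_lit 152) (nat_lit 90824545520) (nat_lit 0) (nat_lit 137553920944) (nat_lit 1) (nat_lit 5) (nat_lit 3) (nat_lit 4) (nat_lit 1) (nat_lit 4) (nat_lit 420) (nat_lit 311) (nat_lit 289))) (XT.nd (nat_lit 78) (nat_lit 0) (nat_lit 0) (XT.lf (nat_lit 0) (nat_lit 152046549829) (nat_lit 152) (nat_lit 92714124947) (nat_lit 0) (nat_lit 151168113251) (nat_lit 1) (nat_lit 5) (nat_lit 3) (nat_lit 4) (nat_lit 1) (nat_lit 4) (nat_lit 421) (nat_lit 311) (nat_lit 288)) (XT.nd (nat_lit 78) (nat_lit 0) (nat_lit 0) (XT.lf (nat_lit 0) (nat_lit 166714304859) (nat_lit 152) (nat_lit 94859047954) (nat_lit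 0) (nat_lit 165822511028) (nat_lit 1) (nat_lit 5) (nat_lit 3) (nat_lit 4) (nat_lit 1) (nat_lit 4) (nat_lit 422) (nat_lit 311) (nat_lit 287)) (XT.lf (nat_lit 0) (nat_lit 182508116808) (nat_lit 152) (nat_lit 97272025195) (nat_lit 0) (nat_lit 181603955150) (nat_lit 1) (nat_lit 5) (nat_lit 3) (nat_lit 4) (nat_lit 1) (nat_lit 4) (nat_lit 423) (nat_lit 311) (nat_lit 286))))) (XT.nd (nat_lit 234) (nat_lit 0) (nat_lit 0) (XT.nd (nat_lit 78) (nat_lit 0) (nat_lit 0) (XT.lf (nat_lit 0) (nat_lit 199521578636) (nat_lit 152) (nat_lit 99967355794) (nat_lit 0) (nat_lit 198605965285) (nat_lit 1) (nat_lit 5) (nat_lit 3) (nat_lit 4) (nat_lit 1) (nat_lit 4) (nat_lit 424) (nat_lit 311) (nat_lit 285)) (XT.nd (nat_lit 78) (nat_lit 0) (nat_lit 0) (XT.lf (nat_lit 0) (nat_lit 217855510857) (nat_lit 152) (nat_lit 102961012082) (nat_lit 0) (nat_lit 216929294087) (nat_lit 1) (nat_lit 5) (nat_lit 3) (nat_lit 4) (nat_lit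 1) (nat_lit 4) (nat_lit 425) (nat_lit 311) (nat_lit 284)) (XT.lf (nat_lit 0) (nat_lit 237618558995) (nat_lit 152) (nat_lit 106270734244) (nat_lit 0) (nat_lit 236682524245) (nat_lit 1) (nat_lit 5) (nat_lit 3) (nat_lit 4) (nat_lit 1) (nat_lit 4) (nat_lit 426) (nat_lit 311) (nat_lit 283)))) (XT.nd (nat_lit 78) (nat_lit 0) (nat_lit 0) (XT.lf (nat_lit 0) (nat_lit 258927837410) (nat_lit 152) (nat_lit 109916135447) (nat_lit 0) (nat_lit 257982711938) (nat_lit 1) (nat_lit 5) (nat_lit 3) (nat_lit 4) (nat_lit 1) (nat_lit 4) (nat_lit 427) (nat_lit 311) (nat_lit 282)) (XT.nd (nat_lit 78) (nat_lit 0) (nat_lit 0) (XT.lf (nat_lit 0) (nat_lit 281909623307) (nat_lit 152) (nat_lit 113918818070) (nat_lit 0) (nat_lit 280956080499) (nat_lit 1) (nat_lit 5) (nat_lit 3) (nat_lit 4) (nat_lit 1) (nat_lit 4) (nat_lit 428) (nat_lit 311) (nat_lit 281)) (XT.lf (nat_lit 0) (nat_lit 306700105047) (nat_lit 152) (nat_lit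 118302501713) (nat_lit 0) (nat_lit 305738768410) (nat_lit 1) (nat_lit 5) (nat_lit 3) (nat_lit 4) (nat_lit 1) (nat_lit 4) (nat_lit 429) (nat_lit 311) (nat_lit 280))))))))
noncomputable def xc28 : XT := (XT.nd (nat_lit 1560) (nat_lit 0) (nat_lit 0) (XT.nd (nat_lit 780) (nat_lit 0) (nat_lit 0) (XT.nd (nat_lit 390) (nat_lit 0) (nat_lit 0) (XT.nd (nat_lit 156) (nat_lit 0) (nat_lit 0) (XT.nd (nat_lit 78) (nat_lit 0) (nat_lit 0) (XT.lf (nat_lit 0) (nat_lit 333446189188) (nat_lit 152) (nat_lit 123093163761) (nat_lit 0) (nat_lit 332477636042) (nat_lit 1) (nat_lit 5) (nat_lit 3) (nat_lit 4) (nat_lit 1) (nat_lit 4) (nat_lit 430) (nat_lit 311) (nat_lit 279)) (XT.lf (nat_lit 0) (nat_lit 362306371044) (nat_lit 152) (nat_lit 128319193322) (nat_lit 0) (nat_lit 361331135946) (nat_lit 1) (nat_lit 5) (nat_lit 3) (nat_lit 4) (nat_lit 1) (nat_lit 4) (nat_lit 431) (nat_lit 311) (nat_lit 278))) (XT.nd (nat_lit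 78) (nat_lit 0) (nat_lit 0) (XT.lf (nat_lit 0) (nat_lit 393451673915) (nat_lit 152) (nat_lit 134011559460) (nat_lit 0) (nat_lit 392470251824) (nat_lit 1) (nat_lit 5) (nat_lit 3) (nat_lit 4) (nat_lit 1) (nat_lit 4) (nat_lit 432) (nat_lit 311) (nat_lit 277)) (XT.nd (nat_lit 78) (nat_lit 0) (nat_lit 0) (XT.lf (nat_lit 0) (nat_lit 427066662559) (nat_lit 152) (nat_lit 140203994716) (nat_lit 0) (nat_lit 426079511770) (nat_lit 1) (nat_lit 5) (nat_lit 3) (nat_lit 4) (nat_lit 1) (nat_lit 4) (nat_lit 433) (nat_lit 311) (nat_lit 276)) (XT.lf (nat_lit 0) (nat_lit 463350536907) (nat_lit 152) (nat_lit 146933195001) (nat_lit 0) (nat_lit 462358081770) (nat_lit 1) (nat_lit 5) (nat_lit 3) (nat_lit 4) (nat_lit 1) (nat_lit 4) (nat_lit 434) (nat_lit 311) (nat_lit 275))))) (XT.nd (nat_lit 156) (nat_lit 0) (nat_lit 0) (XT.nd (nat_lit 78) (nat_lit 0) (nat_lit 0) (XT.lf (nat_lit 0) (nat_lit 502518312513) (nat_lit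 152) (nat_lit 154239037059) (nat_lit 0) (nat_lit 501520945941) (nat_lit 1) (nat_lit 5) (nat_lit 3) (nat_lit 4) (nat_lit 1) (nat_lit 4) (nat_lit 435) (nat_lit 311) (nat_lit 274)) (XT.lf (nat_lit 0) (nat_lit 544802094712) (nat_lit 152) (nat_lit 162164814768) (nat_lit 0) (nat_lit 543800180515) (nat_lit 1) (nat_lit 5) (nat_lit 3) (nat_lit 4) (nat_lit 1) (nat_lit 4) (nat_lit 436) (nat_lit 311) (nat_lit 273))) (XT.nd (nat_lit 78) (nat_lit 0) (nat_lit 0) (XT.lf (nat_lit 0) (nat_lit 590452454067) (nat_lit 152) (nat_lit 170757495701) (nat_lit 0) (nat_lit 589446329106) (nat_lit 1) (nat_lit 5) (nat_lit 3) (nat_lit 4) (nat_lit 1) (nat_lit 4) (nat_lit 437) (nat_lit 311) (nat_lit 272)) (XT.nd (nat_lit 78) (nat_lit 0) (nat_lit 0) (XT.lf (nat_lit 0) (nat_lit 639739911224) (nat_lit 152) (nat_lit 180067999446) (nat_lit 0) (nat_lit 638729887409) (nat_lit 1) (nat_lit 5) (nat_lit 3) (nat_lit 4) (nat_lit 1)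 (nat_lit 4) (nat_lit 438) (nat_lit 311) (nat_lit 271)) (XT.lf (nat_lit 0) (nat_lit 692956540004) (nat_lit 152) (nat_lit 190151499361) (nat_lit 0) (nat_lit 691942906138) (nat_lit 1) (nat_lit 5) (nat_lit 3) (nat_lit 4) (nat_lit 1) (nat_lit 4) (nat_lit 439) (nat_lit 311) (nat_lit 270)))))) (XT.nd (nat_lit 390) (nat_lit 0) (nat_lit 0) (XT.nd (nat_lit 156) (nat_lit 0) (nat_lit 0) (XT.nd (nat_lit 78) (nat_lit 0) (nat_lit 0) (XT.lf (nat_lit 0) (nat_lit 750417698208) (nat_lit 152) (nat_lit 201067749518) (nat_lit 0) (nat_lit 749400721702) (nat_lit 1) (nat_lit 5) (nat_lit 3) (nat_lit 4) (nat_lit 1) (nat_lit 4) (nat_lit 440) (nat_lit 311) (nat_lit 269)) (XT.lf (nat_lit 0) (nat_lit 812463896403) (nat_lit 152) (nat_lit 212881438808) (nat_lit 0) (nat_lit 811443824860) (nat_lit 1) (nat_lit 5) (nat_lit 3) (nat_lit 4) (nat_lit 1) (nat_lit 4) (nat_lit 441) (nat_lit 311) (nat_lit 268))) (XT.nd (nat_lit 78)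 (nat_lit 0) (nat_lit 0) (XT.lf (nat_lit 0) (nat_lit 879462815762) (nat_lit 152) (nat_lit 225662574278) (nat_lit 0) (nat_lit 878439878445) (nat_lit 1) (nat_lit 5) (nat_lit 3) (nat_lit 4) (nat_lit 1) (nat_lit 4) (nat_lit 442) (nat_lit 311) (nat_lit 267)) (XT.nd (nat_lit 78) (nat_lit 0) (nat_lit 0) (XT.lf (nat_lit 0) (nat_lit 951811486920) (nat_lit 152) (nat_lit 239486895990) (nat_lit 0) (nat_lit 950785896107) (nat_lit 1) (nat_lit 5) (nat_lit 3) (nat_lit 4) (nat_lit 1) (nat_lit 4) (nat_lit 443) (nat_lit 311) (nat_lit 266)) (XT.lf (nat_lit 0) (nat_lit 1029938642742) (nat_lit 152) (nat_lit 254436325851) (nat_lit 0) (nat_lit 1028910594989) (nat_lit 1) (nat_lit 5) (nat_lit 3) (nat_lit 4) (nat_lit 1) (nat_lit 4) (nat_lit 444) (nat_lit 311) (nat_lit 265))))) (XT.nd (nat_lit 156) (nat_lit 0) (nat_lit 0) (XT.nd (nat_lit 78) (nat_lit 0) (nat_lit 0) (XT.lf (nat_lit 0) (nat_lit 1114307258967) (nat_lit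 152) (nat_lit 270599453075) (nat_lit 0) (nat_lit 1113276936269) (nat_lit 1) (nat_lit 5) (nat_lit 3) (nat_lit 4) (nat_lit 1) (nat_lit 4) (nat_lit 445) (nat_lit 311) (nat_lit 264)) (XT.lf (nat_lit 0) (nat_lit 1205417297764) (nat_lit 152) (nat_lit 288072059155) (nat_lit 0) (nat_lit 1204384868637) (nat_lit 1) (nat_lit 5) (nat_lit 3) (nat_lit 4) (nat_lit 1) (nat_lit 4) (nat_lit 446) (nat_lit 311) (nat_lit 263))) (XT.nd (nat_lit 78) (nat_lit 0) (nat_lit 0) (XT.lf (nat_lit 0) (nat_lit 1303808670476) (nat_lit 152) (nat_lit 306957685463) (nat_lit 0) (nat_lit 1302774290950) (nat_lit 1) (nat_lit 5) (nat_lit 3) (nat_lit 4) (nat_lit 1) (nat_lit 4) (nat_lit 447) (nat_lit 311) (nat_lit 262)) (XT.nd (nat_lit 78) (nat_lit 0) (nat_lit 0) (XT.lf (nat_lit 0) (nat_lit 1410064437087) (nat_lit 152) (nat_lit 327368246819) (nat_lit 0) (nat_lit 1409028251637) (nat_lit 1) (nat_lit 5) (nat_lit 3) (nat_lit 4) (nat_lit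 1) (nat_lit 4) (nat_lit 448) (nat_lit 311) (nat_lit 261)) (XT.lf (nat_lit 0) (nat_lit 1524814261401) (nat_lit 152) (nat_lit 349424694700) (nat_lit 0) (nat_lit 1523776403799) (nat_lit 1) (nat_lit 5) (nat_lit 3) (nat_lit 4) (nat_lit 1) (nat_lit 4) (nat_lit 449) (nat_lit 311) (nat_lit 260))))))) (XT.nd (nat_lit 780) (nat_lit 0) (nat_lit 0) (XT.nd (nat_lit 390) (nat_lit 0) (nat_lit 0) (XT.nd (nat_lit 156) (nat_lit 0) (nat_lit 0) (XT.nd (nat_lit 78) (nat_lit 0) (nat_lit 0) (XT.lf (nat_lit 0) (nat_lit 1648738142377) (nat_lit 152) (nat_lit 373257733980) (nat_lit 0) (nat_lit 1647698736485) (nat_lit 1) (nat_lit 5) (nat_lit 3) (nat_lit 4) (nat_lit 1) (nat_lit 4) (nat_lit 450) (nat_lit 311) (nat_lit 259)) (XT.lf (nat_lit 0) (nat_lit 1782570443752) (nat_lit 152) (nat_lit 399008597487) (nat_lit 0) (nat_lit 1781529604260) (nat_lit 1) (nat_lit 5) (nat_lit 3) (nat_lit 4) (nat_lit 1) (nat_lit 4) (nat_lit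 451) (nat_lit 311) (nat_lit 258))) (XT.nd (nat_lit 78) (nat_lit 0) (nat_lit 0) (XT.lf (nat_lit 0) (nat_lit 1927104245833) (nat_lit 152) (nat_lit 426829882928) (nat_lit 0) (nat_lit 1926062078933) (nat_lit 1) (nat_lit 5) (nat_lit 3) (nat_lit 4) (nat_lit 1) (nat_lit 4) (nat_lit 452) (nat_lit 311) (nat_lit 257)) (XT.nd (nat_lit 78) (nat_lit 0) (nat_lit 0) (XT.lf (nat_lit 0) (nat_lit 2083196045223) (nat_lit 152) (nat_lit 456886457182) (nat_lit 0) (nat_lit 2082152649241) (nat_lit 1) (nat_lit 5) (nat_lit 3) (nat_lit 4) (nat_lit 1) (nat_lit 4) (nat_lit 453) (nat_lit 311) (nat_lit 256)) (XT.lf (nat_lit 0) (nat_lit 2251770830364) (nat_lit 152) (nat_lit 489356433280) (nat_lit 0) (nat_lit 2250726296344) (nat_lit 1) (nat_lit 5) (nat_lit 3) (nat_lit 4) (nat_lit 1) (nat_lit 4) (nat_lit 454) (nat_lit 311) (nat_lit 255))))) (XT.nd (nat_lit 156) (nat_lit 0) (nat_lit 0) (XT.nd (nat_lit 78) (nat_lit 0) (nat_lit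 0) (XT.lf (nat_lit 0) (nat_lit 2433827562945) (nat_lit 152) (nat_lit 524432225895) (nat_lit 0) (nat_lit 2432781975185) (nat_lit 1) (nat_lit 5) (nat_lit 3) (nat_lit 4) (nat_lit 1) (nat_lit 4) (nat_lit 455) (nat_lit 311) (nat_lit 254)) (XT.lf (nat_lit 0) (nat_lit 2630445097679) (nat_lit 152) (nat_lit 562321691578) (nat_lit 0) (nat_lit 2629398534234) (nat_lit 1) (nat_lit 5) (nat_lit 3) (nat_lit 4) (nat_lit 1) (nat_lit 4) (nat_lit 456) (nat_lit 311) (nat_lit 253))) (XT.nd (nat_lit 78) (nat_lit 0) (nat_lit 0) (XT.lf (nat_lit 0) (nat_lit 2842788575510) (nat_lit 152) (nat_lit 603249360494) (nat_lit 0) (nat_lit 2841741108654) (nat_lit 1) (nat_lit 5) (nat_lit 3) (nat_lit 4) (nat_lit 1) (nat_lit 4) (nat_lit 457) (nat_lit 311) (nat_lit 252)) (XT.nd (nat_lit 78) (nat_lit 0) (nat_lit 0) (XT.lf (nat_lit 0) (nat_lit 3072116328161) (nat_lit 152) (nat_lit 647457766978) (nat_lit 0) (nat_lit 3071068024812)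 (nat_lit 1) (nat_lit 5) (nat_lit 3) (nat_lit 4) (nat_lit 1) (nat_lit 4) (nat_lit 458) (nat_lit 311) (nat_lit 251)) (XT.lf (nat_lit 0) (nat_lit 3319787334906) (nat_lit 152) (nat_lit 695208886771) (nat_lit 0) (nat_lit 3318738257027) (nat_lit 1) (nat_lit 5) (nat_lit 3) (nat_lit 4) (nat_lit 1) (nat_lit 4) (nat_lit 459) (nat_lit 311) (nat_lit 250)))))) (XT.nd (nat_lit 48126) (nat_lit 0) (nat_lit 152) (XT.nd (nat_lit 156) (nat_lit 0) (nat_lit 0) (XT.nd (nat_lit 78) (nat_lit 0) (nat_lit 0) (XT.lf (nat_lit 0) (nat_lit 3587269275784) (nat_lit 152) (nat_lit 746785689474) (nat_lit 0) (nat_lit 3586219480748) (nat_lit 1) (nat_lit 5) (nat_lit 3) (nat_lit 4) (nat_lit 1) (nat_lit 4) (nat_lit 460) (nat_lit 311) (nat_lit 249)) (XT.lf (nat_lit 0) (nat_lit 3876147228965) (nat_lit 152) (nat_lit 802493815398) (nat_lit 0) (nat_lit 3875096769894) (nat_lit 1) (nat_lit 5) (nat_lit 3) (nat_lit 4) (nat_lit 1) (nat_lit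 4) (nat_lit 461) (nat_lit 311) (nat_lit 248))) (XT.nd (nat_lit 78) (nat_lit 0) (nat_lit 0) (XT.lf (nat_lit 0) (nat_lit 4188133063800) (nat_lit 152) (nat_lit 862663386771) (nat_lit 0) (nat_lit 4187081989882) (nat_lit 1) (nat_lit 5) (nat_lit 3) (nat_lit 4) (nat_lit 1) (nat_lit 4) (nat_lit 462) (nat_lit 311) (nat_lit 247)) (XT.nd (nat_lit 78) (nat_lit 0) (nat_lit 0) (XT.lf (nat_lit 0) (nat_lit 4525075585236) (nat_lit 152) (nat_lit 927650964015) (nat_lit 0) (nat_lit 4524023942016) (nat_lit 1) (nat_lit 5) (nat_lit 3) (nat_lit 4) (nat_lit 1) (nat_lit 4) (nat_lit 463) (nat_lit 311) (nat_lit 246)) (XT.lf (nat_lit 0) (nat_lit 4888971489698) (nat_lit 152) (nat_lit 997841658700) (nat_lit 0) (nat_lit 4887919319345) (nat_lit 1) (nat_lit 5) (nat_lit 3) (nat_lit 4) (nat_lit 1) (nat_lit 4) (nat_lit 464) (nat_lit 311) (nat_lit 245))))) (XT.nd (nat_lit 234) (nat_lit 0) (nat_lit 0) (XT.nd (nat_lit 78) (nat_lit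 0) (nat_lit 0) (XT.lf (nat_lit 0) (nat_lit 6110142623) (nat_lit 76) (nat_lit 12318762115) (nat_lit 76) (nat_lit 12318762115) (nat_lit 3) (nat_lit 4) (nat_lit 4) (nat_lit 5) (nat_lit 4) (nat_lit 4) (nat_lit 396) (nat_lit 312) (nat_lit 312)) (XT.nd (nat_lit 78) (nat_lit 0) (nat_lit 0) (XT.lf (nat_lit 0) (nat_lit 24498785287) (nat_lit 76) (nat_lit 20780783442) (nat_lit 76) (nat_lit 20689306621) (nat_lit 3) (nat_lit 4) (nat_lit 4) (nat_lit 5) (nat_lit 4) (nat_lit 4) (nat_lit 397) (nat_lit 312) (nat_lit 311)) (XT.lf (nat_lit 0) (nat_lit 37208561472) (nat_lit 76) (nat_lit 16894833238) (nat_lit 76) (nat_lit 16718655657) (nat_lit 3) (nat_lit 4) (nat_lit 4) (nat_lit 5) (nat_lit 4) (nat_lit 4) (nat_lit 398) (nat_lit 312) (nat_lit 310)))) (XT.nd (nat_lit 78) (nat_lit 0) (nat_lit 0) (XT.lf (nat_lit 0) (nat_lit 50424930993) (nat_lit 76) (nat_lit 12956645767) (nat_lit 76) (nat_lit 12702041556) (nat_lit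 3) (nat_lit 4) (nat_lit 4) (nat_lit 5) (nat_lit 4) (nat_lit 4) (nat_lit 399) (nat_lit 312) (nat_lit 309)) (XT.nd (nat_lit 78) (nat_lit 0) (nat_lit 0) (XT.lf (nat_lit 0) (nat_lit 64226213077) (nat_lit 76) (nat_lit 8942883621) (nat_lit 76) (nat_lit 8615662160) (nat_lit 3) (nat_lit 4) (nat_lit 4) (nat_lit 5) (nat_lit 4) (nat_lit 4) (nat_lit 400) (nat_lit 312) (nat_lit 308)) (XT.lf (nat_lit 0) (nat_lit 78694193100) (nat_lit 76) (nat_lit 4829761543) (nat_lit 76) (nat_lit 4435301887) (nat_lit 3) (nat_lit 4) (nat_lit 4) (nat_lit 5) (nat_lit 4) (nat_lit 4) (nat_lit 401) (nat_lit 312) (nat_lit 307))))))))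
noncomputable def xc29 : XT := (XT.nd (nat_lit 1560) (nat_lit 0) (nat_lit 0) (XT.nd (nat_lit 780) (nat_lit 0) (nat_lit 0) (XT.nd (nat_lit 390) (nat_lit 0) (nat_lit 0) (XT.nd (nat_lit 156) (nat_lit 0) (nat_lit 0) (XT.nd (nat_lit 78) (nat_lit 152) (nat_lit 0) (XT.lf (nat_lit 0) (nat_lit 93914607240) (nat_lit 76) (nat_lit 592905476) (nat_lit 76) (nat_lit 136188233) (nat_lit 3) (nat_lit 4) (nat_lit 4) (nat_lit 5) (nat_lit 4) (nat_lit 4) (nat_lit 402) (nat_lit 312) (nat_lit 306)) (XT.lf (nat_lit 0) (nat_lit 4393298659) (nat_lit 152) (nat_lit 93534953128) (nat_lit 0) (nat_lit 3917036477) (nat_lit 1) (nat_lit 5) (nat_lit 3) (nat_lit 4) (nat_lit 1) (nat_lit 4) (nat_lit 403) (nat_lit 312) (nat_lit 305))) (XT.nd (nat_lit 78) (nat_lit 0) (nat_lit 0) (XT.lf (nat_lit 0) (nat_lit 9124374039) (nat_lit 152) (nat_lit 91911938190) (nat_lit 0) (nat_lit 8598689777) (nat_lit 1) (nat_lit 5) (nat_lit 3) (nat_lit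 4) (nat_lit 1) (nat_lit 4) (nat_lit 404) (nat_lit 312) (nat_lit 304)) (XT.nd (nat_lit 78) (nat_lit 0) (nat_lit 0) (XT.lf (nat_lit 0) (nat_lit 14058689705) (nat_lit 152) (nat_lit 90515987256) (nat_lit 0) (nat_lit 13487244257) (nat_lit 1) (nat_lit 5) (nat_lit 3) (nat_lit 4) (nat_lit 1) (nat_lit 4) (nat_lit 405) (nat_lit 312) (nat_lit 303)) (XT.lf (nat_lit 0) (nat_lit 19225486046) (nat_lit 152) (nat_lit 89338828023) (nat_lit 0) (nat_lit 18611669130) (nat_lit 1) (nat_lit 5) (nat_lit 3) (nat_lit 4) (nat_lit 1) (nat_lit 4) (nat_lit 406) (nat_lit 312) (nat_lit 302))))) (XT.nd (nat_lit 156) (nat_lit 0) (nat_lit 0) (XT.nd (nat_lit 78) (nat_lit 0) (nat_lit 0) (XT.lf (nat_lit 0) (nat_lit 24655381114) (nat_lit 152) (nat_lit 88373484734) (nat_lit 0) (nat_lit 24002331358) (nat_lit 1) (nat_lit 5) (nat_lit 3) (nat_lit 4) (nat_lit 1) (nat_lit 4) (nat_lit 407) (nat_lit 312) (nat_lit 301)) (XT.lf (nat_lit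 0) (nat_lit 30380552066) (nat_lit 152) (nat_lit 87614236835) (nat_lit 0) (nat_lit 29691175605) (nat_lit 1) (nat_lit 5) (nat_lit 3) (nat_lit 4) (nat_lit 1) (nat_lit 4) (nat_lit 408) (nat_lit 312) (nat_lit 300))) (XT.nd (nat_lit 78) (nat_lit 0) (nat_lit 0) (XT.lf (nat_lit 0) (nat_lit 36434925840) (nat_lit 152) (nat_lit 87056585080) (nat_lit 0) (nat_lit 35711913542) (nat_lit 1) (nat_lit 5) (nat_lit 3) (nat_lit 4) (nat_lit 1) (nat_lit 4) (nat_lit 409) (nat_lit 312) (nat_lit 299)) (XT.nd (nat_lit 78) (nat_lit 0) (nat_lit 0) (XT.lf (nat_lit 0) (nat_lit 42854380206) (nat_lit 152) (nat_lit 86697224865) (nat_lit 0) (nat_lit 42100223615) (nat_lit 1) (nat_lit 5) (nat_lit 3) (nat_lit 4) (nat_lit 1) (nat_lit 4) (nat_lit 410) (nat_lit 312) (nat_lit 298)) (XT.lf (nat_lit 0) (nat_lit 49676956377) (nat_lit 152) (nat_lit 86534026650) (nat_lit 0) (nat_lit 48893962477) (nat_lit 1) (nat_lit 5) (nat_lit 3)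 (nat_lit 4) (nat_lit 1) (nat_lit 4) (nat_lit 411) (nat_lit 312) (nat_lit 297)))))) (XT.nd (nat_lit 390) (nat_lit 0) (nat_lit 0) (XT.nd (nat_lit 156) (nat_lit 0) (nat_lit 0) (XT.nd (nat_lit 78) (nat_lit 0) (nat_lit 0) (XT.lf (nat_lit 0) (nat_lit 56943084433) (nat_lit 152) (nat_lit 86566023332) (nat_lit 0) (nat_lit 56133389320) (nat_lit 1) (nat_lit 5) (nat_lit 3) (nat_lit 4) (nat_lit 1) (nat_lit 4) (nat_lit 412) (nat_lit 312) (nat_lit 296)) (XT.lf (nat_lit 0) (nat_lit 64695822910) (nat_lit 152) (nat_lit 86793404523) (nat_lit 0) (nat_lit 63861404453) (nat_lit 1) (nat_lit 5) (nat_lit 3) (nat_lit 4) (nat_lit 1) (nat_lit 4) (nat_lit 413) (nat_lit 312) (nat_lit 295))) (XT.nd (nat_lit 78) (nat_lit 0) (nat_lit 0) (XT.lf (nat_lit 0) (nat_lit 72981113963) (nat_lit 152) (nat_lit 87217517665) (nat_lit 0) (nat_lit 72123803520) (nat_lit 1) (nat_lit 5) (nat_lit 3) (nat_lit 4) (nat_lit 1) (nat_lit 4) (nat_lit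 414) (nat_lit 312) (nat_lit 294)) (XT.nd (nat_lit 78) (nat_lit 0) (nat_lit 0) (XT.lf (nat_lit 0) (nat_lit 81848055613) (nat_lit 152) (nat_lit 87840876024) (nat_lit 0) (nat_lit 80969548887) (nat_lit 1) (nat_lit 5) (nat_lit 3) (nat_lit 4) (nat_lit 1) (nat_lit 4) (nat_lit 415) (nat_lit 312) (nat_lit 293)) (XT.lf (nat_lit 0) (nat_lit 91349192698) (nat_lit 152) (nat_lit 88667173572) (nat_lit 0) (nat_lit 90451059784) (nat_lit 1) (nat_lit 5) (nat_lit 3) (nat_lit 4) (nat_lit 1) (nat_lit 4) (nat_lit 416) (nat_lit 312) (nat_lit 292))))) (XT.nd (nat_lit 156) (nat_lit 0) (nat_lit 0) (XT.nd (nat_lit 78) (nat_lit 0) (nat_lit 0) (XT.lf (nat_lit 0) (nat_lit 101540828254) (nat_lit 152) (nat_lit 89701306890) (nat_lit 0) (nat_lit 100624522944) (nat_lit 1) (nat_lit 5) (nat_lit 3) (nat_lit 4) (nat_lit 1) (nat_lit 4) (nat_lit 417) (nat_lit 312) (nat_lit 291)) (XT.lf (nat_lit 0) (nat_lit 112483357158) (nat_lit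 152) (nat_lit 90949404174) (nat_lit 0) (nat_lit 111550225555) (nat_lit 1) (nat_lit 5) (nat_lit 3) (nat_lit 4) (nat_lit 1) (nat_lit 4) (nat_lit 418) (nat_lit 312) (nat_lit 290))) (XT.nd (nat_lit 78) (nat_lit 0) (nat_lit 0) (XT.lf (nat_lit 0) (nat_lit 124241624026) (nat_lit 152) (nat_lit 92418861556) (nat_lit 0) (nat_lit 123292912522) (nat_lit 1) (nat_lit 5) (nat_lit 3) (nat_lit 4) (nat_lit 1) (nat_lit 4) (nat_lit 419) (nat_lit 312) (nat_lit 289)) (XT.nd (nat_lit 78) (nat_lit 0) (nat_lit 0) (XT.lf (nat_lit 0) (nat_lit 136885307475) (nat_lit 152) (nat_lit 94118386933) (nat_lit 0) (nat_lit 135922170137) (nat_lit 1) (nat_lit 5) (nat_lit 3) (nat_lit 4) (nat_lit 1) (nat_lit 4) (nat_lit 420) (nat_lit 312) (nat_lit 288)) (XT.lf (nat_lit 0) (nat_lit 150489333039) (nat_lit 152) (nat_lit 96058051564) (nat_lit 0) (nat_lit 149512838447) (nat_lit 1) (nat_lit 5) (nat_lit 3) (nat_lit 4) (nat_lit 1) (nat_lit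 4) (nat_lit 421) (nat_lit 312) (nat_lit 287))))))) (XT.nd (nat_lit 780) (nat_lit 0) (nat_lit 0) (XT.nd (nat_lit 390) (nat_lit 0) (nat_lit 0) (XT.nd (nat_lit 156) (nat_lit 0) (nat_lit 0) (XT.nd (nat_lit 78) (nat_lit 0) (nat_lit 0) (XT.lf (nat_lit 0) (nat_lit 165134317164) (nat_lit 152) (nat_lit 98249349760) (nat_lit 0) (nat_lit 164145454744) (nat_lit 1) (nat_lit 5) (nat_lit 3) (nat_lit 4) (nat_lit 1) (nat_lit 4) (nat_lit 422) (nat_lit 312) (nat_lit 286)) (XT.lf (nat_lit 0) (nat_lit 180907044941) (nat_lit 152) (nat_lit 100705266991) (nat_lit 0) (nat_lit 179906730830) (nat_lit 1) (nat_lit 5) (nat_lit 3) (nat_lit 4) (nat_lit 1) (nat_lit 4) (nat_lit 423) (nat_lit 312) (nat_lit 285))) (XT.nd (nat_lit 78) (nat_lit 0) (nat_lit 0) (XT.lf (nat_lit 0) (nat_lit 197900984387) (nat_lit 152) (nat_lit 103440356841) (nat_lit 0) (nat_lit 196890066857) (nat_lit 1) (nat_lit 5) (nat_lit 3) (nat_lit 4) (nat_lit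 1) (nat_lit 4) (nat_lit 424) (nat_lit 312) (nat_lit 284)) (XT.nd (nat_lit 78) (nat_lit 0) (nat_lit 0) (XT.lf (nat_lit 0) (nat_lit 216216840329) (nat_lit 152) (nat_lit 106470827249) (nat_lit 0) (nat_lit 215196104819) (nat_lit 1) (nat_lit 5) (nat_lit 3) (nat_lit 4) (nat_lit 1) (nat_lit 4) (nat_lit 425) (nat_lit 312) (nat_lit 283)) (XT.lf (nat_lit 0) (nat_lit 235963151172) (nat_lit 152) (nat_lit 109814636559) (nat_lit 0) (nat_lit 234933324939) (nat_lit 1) (nat_lit 5) (nat_lit 3) (nat_lit 4) (nat_lit 1) (nat_lit 4) (nat_lit 426) (nat_lit 312) (nat_lit 282))))) (XT.nd (nat_lit 156) (nat_lit 0) (nat_lit 0) (XT.nd (nat_lit 78) (nat_lit 0) (nat_lit 0) (XT.lf (nat_lit 0) (nat_lit 257256932091) (nat_lit 152) (nat_lit 113491599937) (nat_lit 0) (nat_lit 256218688523) (nat_lit 1) (nat_lit 5) (nat_lit 3) (nat_lit 4) (nat_lit 1) (nat_lit 4) (nat_lit 427) (nat_lit 312) (nat_lit 281)) (XT.lf (nat_lit 0)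 (nat_lit 280224368455) (nat_lit 152) (nat_lit 117523506796) (nat_lit 0) (nat_lit 279178331057) (nat_lit 1) (nat_lit 5) (nat_lit 3) (nat_lit 4) (nat_lit 1) (nat_lit 4) (nat_lit 428) (nat_lit 312) (nat_lit 280))) (XT.nd (nat_lit 78) (nat_lit 0) (nat_lit 0) (XT.lf (nat_lit 0) (nat_lit 305001563590) (nat_lit 152) (nat_lit 121934249916) (nat_lit 0) (nat_lit 303948309684) (nat_lit 1) (nat_lit 5) (nat_lit 3) (nat_lit 4) (nat_lit 1) (nat_lit 4) (nat_lit 429) (nat_lit 312) (nat_lit 279)) (XT.nd (nat_lit 78) (nat_lit 0) (nat_lit 0) (XT.lf (nat_lit 0) (nat_lit 331735345320) (nat_lit 152) (nat_lit 126749967036) (nat_lit 0) (nat_lit 330675409461) (nat_lit 1) (nat_lit 5) (nat_lit 3) (nat_lit 4) (nat_lit 1) (nat_lit 4) (nat_lit 430) (nat_lit 312) (nat_lit 278)) (XT.lf (nat_lit 0) (nat_lit 360584136054) (nat_lit 152) (nat_lit 131999195738) (nat_lit 0) (nat_lit 359518013202) (nat_lit 1) (nat_lit 5) (nat_lit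 3) (nat_lit 4) (nat_lit 1) (nat_lit 4) (nat_lit 431) (nat_lit 312) (nat_lit 277)))))) (XT.nd (nat_lit 390) (nat_lit 0) (nat_lit 0) (XT.nd (nat_lit 156) (nat_lit 0) (nat_lit 0) (XT.nd (nat_lit 78) (nat_lit 0) (nat_lit 0) (XT.lf (nat_lit 0) (nat_lit 391718891590) (nat_lit 152) (nat_lit 137713042562) (nat_lit 0) (nat_lit 390647040041) (nat_lit 1) (nat_lit 5) (nat_lit 3) (nat_lit 4) (nat_lit 1) (nat_lit 4) (nat_lit 432) (nat_lit 312) (nat_lit 276)) (XT.lf (nat_lit 0) (nat_lit 425324114182) (nat_lit 152) (nat_lit 143925367341) (nat_lit 0) (nat_lit 424246958284) (nat_lit 1) (nat_lit 5) (nat_lit 3) (nat_lit 4) (nat_lit 1) (nat_lit 4) (nat_lit 433) (nat_lit 312) (nat_lit 275))) (XT.nd (nat_lit 78) (nat_lit 0) (nat_lit 0) (XT.lf (nat_lit 0) (nat_lit 461598945891) (nat_lit 152) (nat_lit 150672983852) (nat_lit 0) (nat_lit 460516878558) (nat_lit 1) (nat_lit 5) (nat_lit 3) (nat_lit 4) (nat_lit 1) (nat_lit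 4) (nat_lit 434) (nat_lit 312) (nat_lit 274)) (XT.nd (nat_lit 78) (nat_lit 0) (nat_lit 0) (XT.lf (nat_lit 0) (nat_lit 500758348682) (nat_lit 152) (nat_lit 157995877971) (nat_lit 0) (nat_lit 499671733725) (nat_lit 1) (nat_lit 5) (nat_lit 3) (nat_lit 4) (nat_lit 1) (nat_lit 4) (nat_lit 435) (nat_lit 312) (nat_lit 273)) (XT.lf (nat_lit 0) (nat_lit 543034378275) (nat_lit 152) (nat_lit 165937444626) (nat_lit 0) (nat_lit 541943552554) (nat_lit 1) (nat_lit 5) (nat_lit 3) (nat_lit 4) (nat_lit 1) (nat_lit 4) (nat_lit 436) (nat_lit 312) (nat_lit 272))))) (XT.nd (nat_lit 234) (nat_lit 0) (nat_lit 0) (XT.nd (nat_lit 78) (nat_lit 0) (nat_lit 0) (XT.lf (nat_lit 0) (nat_lit 588677559290) (nat_lit 152) (nat_lit 174544744952) (nat_lit 0) (nat_lit 587582834714) (nat_lit 1) (nat_lit 5) (nat_lit 3) (nat_lit 4) (nat_lit 1) (nat_lit 4) (nat_lit 437) (nat_lit 312) (nat_lit 271)) (XT.nd (nat_lit 78) (nat_lit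 0) (nat_lit 0) (XT.lf (nat_lit 0) (nat_lit 637958369837) (nat_lit 152) (nat_lit 183868785173) (nat_lit 0) (nat_lit 636860035210) (nat_lit 1) (nat_lit 5) (nat_lit 3) (nat_lit 4) (nat_lit 1) (nat_lit 4) (nat_lit 438) (nat_lit 312) (nat_lit 270)) (XT.lf (nat_lit 0) (nat_lit 691168844349) (nat_lit 152) (nat_lit 193964818861) (nat_lit 0) (nat_lit 690067167082) (nat_lit 1) (nat_lit 5) (nat_lit 3) (nat_lit 4) (nat_lit 1) (nat_lit 4) (nat_lit 439) (nat_lit 312) (nat_lit 269)))) (XT.nd (nat_lit 78) (nat_lit 0) (nat_lit 0) (XT.lf (nat_lit 0) (nat_lit 748624304156) (nat_lit 152) (nat_lit 204892674365) (nat_lit 0) (nat_lit 747519531853) (nat_lit 1) (nat_lit 5) (nat_lit 3) (nat_lit 4) (nat_lit 1) (nat_lit 4) (nat_lit 440) (nat_lit 312) (nat_lit 268)) (XT.nd (nat_lit 78) (nat_lit 0) (nat_lit 0) (XT.lf (nat_lit 0) (nat_lit 810665226057) (nat_lit 152) (nat_lit 216717109346) (nat_lit 0) (nat_lit 809557587979)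 (nat_lit 1) (nat_lit 5) (nat_lit 3) (nat_lit 4) (nat_lit 1) (nat_lit 4) (nat_lit 441) (nat_lit 312) (nat_lit 267)) (XT.lf (nat_lit 0) (nat_lit 877659259959) (nat_lit 152) (nat_lit 229508194529) (nat_lit 0) (nat_lit 876548968386) (nat_lit 1) (nat_lit 5) (nat_lit 3) (nat_lit 4) (nat_lit 1) (nat_lit 4) (nat_lit 442) (nat_lit 312) (nat_lit 266))))))))
noncomputable def xc30 : XT := (XT.nd (nat_lit 1560) (nat_lit 0) (nat_lit 0) (XT.nd (nat_lit 780) (nat_lit 0) (nat_lit 0) (XT.nd (nat_lit 390) (nat_lit 0) (nat_lit 0) (XT.nd (nat_lit 156) (nat_lit 0) (nat_lit 0) (XT.nd (nat_lit 78) (nat_lit 0) (nat_lit 0) (XT.lf (nat_lit 0) (nat_lit 950003407546) (nat_lit 152) (nat_lit 243341728940) (nat_lit 0) (nat_lit 948890659032) (nat_lit 1) (nat_lit 5) (nat_lit 3) (nat_lit 4) (nat_lit 1) (nat_lit 4) (nat_lit 443) (nat_lit 312) (nat_lit 265)) (XT.lf (nat_lit 0) (nat_lit 1028126374876) (nat_lit 152) (nat_lit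 258299689076) (nat_lit 0) (nat_lit 1027011351418) (nat_lit 1) (nat_lit 5) (nat_lit 3) (nat_lit 4) (nat_lit 1) (nat_lit 4) (nat_lit 444) (nat_lit 312) (nat_lit 264))) (XT.nd (nat_lit 78) (nat_lit 0) (nat_lit 0) (XT.lf (nat_lit 0) (nat_lit 1112491112867) (nat_lit 152) (nat_lit 274470714703) (nat_lit 0) (nat_lit 1111373982979) (nat_lit 1) (nat_lit 5) (nat_lit 3) (nat_lit 4) (nat_lit 1) (nat_lit 4) (nat_lit 445) (nat_lit 312) (nat_lit 263)) (XT.nd (nat_lit 78) (nat_lit 0) (nat_lit 0) (XT.lf (nat_lit 0) (nat_lit 1203597560708) (nat_lit 152) (nat_lit 291950634120) (nat_lit 0) (nat_lit 1202478480422) (nat_lit 1) (nat_lit 5) (nat_lit 3) (nat_lit 4) (nat_lit 1) (nat_lit 4) (nat_lit 446) (nat_lit 312) (nat_lit 262)) (XT.lf (nat_lit 0) (nat_lit 1301985608459) (nat_lit 152) (nat_lit 310843032036) (nat_lit 0) (nat_lit 1300864722249) (nat_lit 1) (nat_lit 5) (nat_lit 3) (nat_lit 4) (nat_lit 1) (nat_lit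 4) (nat_lit 447) (nat_lit 312) (nat_lit 261))))) (XT.nd (nat_lit 156) (nat_lit 0) (nat_lit 0) (XT.nd (nat_lit 78) (nat_lit 0) (nat_lit 0) (XT.lf (nat_lit 0) (nat_lit 1408238296404) (nat_lit 152) (nat_lit 331259863400) (nat_lit 0) (nat_lit 1407115738042) (nat_lit 1) (nat_lit 5) (nat_lit 3) (nat_lit 4) (nat_lit 1) (nat_lit 4) (nat_lit 448) (nat_lit 312) (nat_lit 260)) (XT.lf (nat_lit 0) (nat_lit 1522985270101) (nat_lit 152) (nat_lit 353322116843) (nat_lit 0) (nat_lit 1521861163450) (nat_lit 1) (nat_lit 5) (nat_lit 3) (nat_lit 4) (nat_lit 1) (nat_lit 4) (nat_lit 449) (nat_lit 312) (nat_lit 259))) (XT.nd (nat_lit 78) (nat_lit 0) (nat_lit 0) (XT.lf (nat_lit 0) (nat_lit 1646906511616) (nat_lit 152) (nat_lit 377160531644) (nat_lit 0) (nat_lit 1645780971364) (nat_lit 1) (nat_lit 5) (nat_lit 3) (nat_lit 4) (nat_lit 1) (nat_lit 4) (nat_lit 450) (nat_lit 312) (nat_lit 258)) (XT.nd (nat_lit 78) (nat_lit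 0) (nat_lit 0) (XT.lf (nat_lit 0) (nat_lit 1780736369047) (nat_lit 152) (nat_lit 402916372484) (nat_lit 0) (nat_lit 1779609501386) (nat_lit 1) (nat_lit 5) (nat_lit 3) (nat_lit 4) (nat_lit 1) (nat_lit 4) (nat_lit 451) (nat_lit 312) (nat_lit 257)) (XT.lf (nat_lit 0) (nat_lit 1925267908216) (nat_lit 152) (nat_lit 430742266568) (nat_lit 0) (nat_lit 1924139811473) (nat_lit 1) (nat_lit 5) (nat_lit 3) (nat_lit 4) (nat_lit 1) (nat_lit 4) (nat_lit 452) (nat_lit 312) (nat_lit 256)))))) (XT.nd (nat_lit 390) (nat_lit 0) (nat_lit 0) (XT.nd (nat_lit 156) (nat_lit 0) (nat_lit 0) (XT.nd (nat_lit 78) (nat_lit 0) (nat_lit 0) (XT.lf (nat_lit 0) (nat_lit 2081357612317) (nat_lit 152) (nat_lit 460803108084) (nat_lit 0) (nat_lit 2080228377536) (nat_lit 1) (nat_lit 5) (nat_lit 3) (nat_lit 4) (nat_lit 1) (nat_lit 4) (nat_lit 453) (nat_lit 312) (nat_lit 255)) (XT.lf (nat_lit 0) (nat_lit 2249930457376) (nat_lit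 152) (nat_lit 493277035350) (nat_lit 0) (nat_lit 2248800168856) (nat_lit 1) (nat_lit 5) (nat_lit 3) (nat_lit 4) (nat_lit 1) (nat_lit 4) (nat_lit 454) (nat_lit 312) (nat_lit 254))) (XT.nd (nat_lit 78) (nat_lit 0) (nat_lit 0) (XT.lf (nat_lit 0) (nat_lit 2431985393585) (nat_lit 152) (nat_lit 528356486455) (nat_lit 0) (nat_lit 2430854129380) (nat_lit 1) (nat_lit 5) (nat_lit 3) (nat_lit 4) (nat_lit 1) (nat_lit 4) (nat_lit 455) (nat_lit 312) (nat_lit 253)) (XT.nd (nat_lit 78) (nat_lit 0) (nat_lit 0) (XT.lf (nat_lit 0) (nat_lit 2628601265010) (nat_lit 152) (nat_lit 566249339627) (nat_lit 0) (nat_lit 2627469097394) (nat_lit 1) (nat_lit 5) (nat_lit 3) (nat_lit 4) (nat_lit 1) (nat_lit 4) (nat_lit 456) (nat_lit 312) (nat_lit 252)) (XT.lf (nat_lit 0) (nat_lit 2840943202742) (nat_lit 152) (nat_lit 607180145108) (nat_lit 0) (nat_lit 2839810198633) (nat_lit 1) (nat_lit 5) (nat_lit 3) (nat_lit 4) (nat_lit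 1) (nat_lit 4) (nat_lit 457) (nat_lit 312) (nat_lit 251))))) (XT.nd (nat_lit 156) (nat_lit 0) (nat_lit 0) (XT.nd (nat_lit 78) (nat_lit 0) (nat_lit 0) (XT.lf (nat_lit 0) (nat_lit 3070269529375) (nat_lit 152) (nat_lit 651391455818) (nat_lit 0) (nat_lit 3069135750736) (nat_lit 1) (nat_lit 5) (nat_lit 3) (nat_lit 4) (nat_lit 1) (nat_lit 4) (nat_lit 458) (nat_lit 312) (nat_lit 250)) (XT.lf (nat_lit 0) (nat_lit 3317939215732) (nat_lit 152) (nat_lit 699145264711) (nat_lit 0) (nat_lit 3316804719936) (nat_lit 1) (nat_lit 5) (nat_lit 3) (nat_lit 4) (nat_lit 1) (nat_lit 4) (nat_lit 459) (nat_lit 312) (nat_lit 249))) (XT.nd (nat_lit 78) (nat_lit 0) (nat_lit 0) (XT.lf (nat_lit 0) (nat_lit 3585419934030) (nat_lit 152) (nat_lit 750724557319) (nat_lit 0) (nat_lit 3584284774199) (nat_lit 1) (nat_lit 5) (nat_lit 3) (nat_lit 4) (nat_lit 1) (nat_lit 4) (nat_lit 460) (nat_lit 312) (nat_lit 248)) (XT.nd (nat_lit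 78) (nat_lit 0) (nat_lit 0) (XT.lf (nat_lit 0) (nat_lit 3874296755191) (nat_lit 152) (nat_lit 806434988712) (nat_lit 0) (nat_lit 3873160980513) (nat_lit 1) (nat_lit 5) (nat_lit 3) (nat_lit 4) (nat_lit 1) (nat_lit 4) (nat_lit 461) (nat_lit 312) (nat_lit 247)) (XT.lf (nat_lit 0) (nat_lit 4186281541860) (nat_lit 152) (nat_lit 866606694778) (nat_lit 0) (nat_lit 4185145197879) (nat_lit 1) (nat_lit 5) (nat_lit 3) (nat_lit 4) (nat_lit 1) (nat_lit 4) (nat_lit 462) (nat_lit 312) (nat_lit 246))))))) (XT.nd (nat_lit 48360) (nat_lit 0) (nat_lit 0) (XT.nd (nat_lit 47970) (nat_lit 0) (nat_lit 152) (XT.nd (nat_lit 47736) (nat_lit 0) (nat_lit 152) (XT.nd (nat_lit 78) (nat_lit 0) (nat_lit 0) (XT.lf (nat_lit 0) (nat_lit 4523223092772) (nat_lit 152) (nat_lit 931596248590) (nat_lit 0) (nat_lit 4522086221660) (nat_lit 1) (nat_lit 5) (nat_lit 3) (nat_lit 4) (nat_lit 1) (nat_lit 4) (nat_lit 463) (nat_lit 312)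 (nat_lit 245)) (XT.lf (nat_lit 0) (nat_lit 4887118098600) (nat_lit 152) (nat_lit 1001788773430) (nat_lit 0) (nat_lit 4885980739402) (nat_lit 1) (nat_lit 5) (nat_lit 3) (nat_lit 4) (nat_lit 1) (nat_lit 4) (nat_lit 464) (nat_lit 312) (nat_lit 244))) (XT.nd (nat_lit 78) (nat_lit 76) (nat_lit 0) (XT.lf (nat_lit 0) (nat_lit 10769595838) (nat_lit 152) (nat_lit 5235707798) (nat_lit 0) (nat_lit 10769595838) (nat_lit 4) (nat_lit 5) (nat_lit 6) (nat_lit 4) (nat_lit 4) (nat_lit 4) (nat_lit 394) (nat_lit 313) (nat_lit 313)) (XT.nd (nat_lit 78) (nat_lit 0) (nat_lit 0) (XT.lf (nat_lit 0) (nat_lit 300299869) (nat_lit 76) (nat_lit 28586705333) (nat_lit 76) (nat_lit 28487910366) (nat_lit 3) (nat_lit 4) (nat_lit 4) (nat_lit 5) (nat_lit 4) (nat_lit 4) (nat_lit 395) (nat_lit 313) (nat_lit 312)) (XT.lf (nat_lit 0) (nat_lit 11934187089) (nat_lit 76) (nat_lit 24881355850) (nat_lit 76) (nat_lit 24691084062) (nat_lit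 3) (nat_lit 4) (nat_lit 4) (nat_lit 5) (nat_lit 4) (nat_lit 4) (nat_lit 396) (nat_lit 313) (nat_lit 311))))) (XT.nd (nat_lit 156) (nat_lit 0) (nat_lit 0) (XT.nd (nat_lit 78) (nat_lit 0) (nat_lit 0) (XT.lf (nat_lit 0) (nat_lit 23947781428) (nat_lit 76) (nat_lit 21158908257) (nat_lit 76) (nat_lit 20883935709) (nat_lit 3) (nat_lit 4) (nat_lit 4) (nat_lit 5) (nat_lit 4) (nat_lit 4) (nat_lit 397) (nat_lit 313) (nat_lit 310)) (XT.lf (nat_lit 0) (nat_lit 36412274556) (nat_lit 76) (nat_lit 17397303606) (nat_lit 76) (nat_lit 17043904428) (nat_lit 3) (nat_lit 4) (nat_lit 4) (nat_lit 5) (nat_lit 4) (nat_lit 4) (nat_lit 398) (nat_lit 313) (nat_lit 309))) (XT.nd (nat_lit 78) (nat_lit 0) (nat_lit 0) (XT.lf (nat_lit 0) (nat_lit 49401530135) (nat_lit 76) (nat_lit 13574250905) (nat_lit 76) (nat_lit 13148234477) (nat_lit 3) (nat_lit 4) (nat_lit 4) (nat_lit 5) (nat_lit 4) (nat_lit 4) (nat_lit 399) (nat_lit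 313) (nat_lit 308)) (XT.nd (nat_lit 78) (nat_lit 0) (nat_lit 0) (XT.lf (nat_lit 0) (nat_lit 62992521533) (nat_lit 76) (nat_lit 9667095028) (nat_lit 76) (nat_lit 9173840406) (nat_lit 3) (nat_lit 4) (nat_lit 4) (nat_lit 5) (nat_lit 4) (nat_lit 4) (nat_lit 400) (nat_lit 313) (nat_lit 307)) (XT.lf (nat_lit 0) (nat_lit 77265787958) (nat_lit 76) (nat_lit 5652682458) (nat_lit 76) (nat_lit 5097170249) (nat_lit 3) (nat_lit 4) (nat_lit 4) (nat_lit 5) (nat_lit 4) (nat_lit 4) (nat_lit 401) (nat_lit 313) (nat_lit 306)))))) (XT.nd (nat_lit 390) (nat_lit 0) (nat_lit 0) (XT.nd (nat_lit 156) (nat_lit 0) (nat_lit 0) (XT.nd (nat_lit 78) (nat_lit 152) (nat_lit 0) (XT.lf (nat_lit 0) (nat_lit 92305911728) (nat_lit 76) (nat_lit 1507224085) (nat_lit 76) (nat_lit 894065961) (nat_lit 3) (nat_lit 4) (nat_lit 4) (nat_lit 5) (nat_lit 4) (nat_lit 4) (nat_lit 402) (nat_lit 313) (nat_lit 305)) (XT.lf (nat_lit 0) (nat_lit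 3516917006) (nat_lit 152) (nat_lit 95506092125) (nat_lit 0) (nat_lit 2899755923) (nat_lit 1) (nat_lit 5) (nat_lit 3) (nat_lit 4) (nat_lit 1) (nat_lit 4) (nat_lit 403) (nat_lit 313) (nat_lit 304))) (XT.nd (nat_lit 78) (nat_lit 0) (nat_lit 0) (XT.lf (nat_lit 0) (nat_lit 8163739625) (nat_lit 152) (nat_lit 94054666224) (nat_lit 0) (nat_lit 7500817356) (nat_lit 1) (nat_lit 5) (nat_lit 3) (nat_lit 4) (nat_lit 1) (nat_lit 4) (nat_lit 404) (nat_lit 313) (nat_lit 303)) (XT.nd (nat_lit 78) (nat_lit 0) (nat_lit 0) (XT.lf (nat_lit 0) (nat_lit 13020043474) (nat_lit 152) (nat_lit 92817594029) (nat_lit 0) (nat_lit 12314749737) (nat_lit 1) (nat_lit 5) (nat_lit 3) (nat_lit 4) (nat_lit 1) (nat_lit 4) (nat_lit 405) (nat_lit 313) (nat_lit 302)) (XT.lf (nat_lit 0) (nat_lit 18114606651) (nat_lit 152) (nat_lit 91787544739) (nat_lit 0) (nat_lit 17370080074) (nat_lit 1) (nat_lit 5) (nat_lit 3) (nat_lit 4) (nat_lit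 1) (nat_lit 4) (nat_lit 406) (nat_lit 313) (nat_lit 301))))) (XT.nd (nat_lit 234) (nat_lit 0) (nat_lit 0) (XT.nd (nat_lit 78) (nat_lit 0) (nat_lit 0) (XT.lf (nat_lit 0) (nat_lit 23477619161) (nat_lit 152) (nat_lit 90958414360) (nat_lit 0) (nat_lit 22696765879) (nat_lit 1) (nat_lit 5) (nat_lit 3) (nat_lit 4) (nat_lit 1) (nat_lit 4) (nat_lit 407) (nat_lit 313) (nat_lit 300)) (XT.nd (nat_lit 78) (nat_lit 0) (nat_lit 0) (XT.lf (nat_lit 0) (nat_lit 29140861817) (nat_lit 152) (nat_lit 90325289527) (nat_lit 0) (nat_lit 28326372699) (nat_lit 1) (nat_lit 5) (nat_lit 3) (nat_lit 4) (nat_lit 1) (nat_lit 4) (nat_lit 408) (nat_lit 313) (nat_lit 299)) (XT.lf (nat_lit 0) (nat_lit 35137894577) (nat_lit 152) (nat_lit 89884418387) (nat_lit 0) (nat_lit 34292261165) (nat_lit 1) (nat_lit 5) (nat_lit 3) (nat_lit 4) (nat_lit 1) (nat_lit 4) (nat_lit 409) (nat_lit 313) (nat_lit 298)))) (XT.nd (nat_lit 78) (nat_lit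 0) (nat_lit 0) (XT.lf (nat_lit 0) (nat_lit 41504255413) (nat_lit 152) (nat_lit 89633188373) (nat_lit 0) (nat_lit 40629784691) (nat_lit 1) (nat_lit 5) (nat_lit 3) (nat_lit 4) (nat_lit 1) (nat_lit 4) (nat_lit 410) (nat_lit 313) (nat_lit 297)) (XT.nd (nat_lit 78) (nat_lit 0) (nat_lit 0) (XT.lf (nat_lit 0) (nat_lit 48277670906) (nat_lit 152) (nat_lit 89570110713) (nat_lit 0) (nat_lit 47376498973) (nat_lit 1) (nat_lit 5) (nat_lit 3) (nat_lit 4) (nat_lit 1) (nat_lit 4) (nat_lit 411) (nat_lit 313) (nat_lit 296)) (XT.lf (nat_lit 0) (nat_lit 55498279817) (nat_lit 152) (nat_lit 89694811613) (nat_lit 0) (nat_lit 54572384538) (nat_lit 1) (nat_lit 5) (nat_lit 3) (nat_lit 4) (nat_lit 1) (nat_lit 4) (nat_lit 412) (nat_lit 313) (nat_lit 295))))))))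
noncomputable def xc31 : XT := (XT.nd (nat_lit 1638) (nat_lit 0) (nat_lit 0) (XT.nd (nat_lit 780) (nat_lit 0) (nat_lit 0) (XT.nd (nat_lit 390) (nat_lit 0) (nat_lit 0) (XT.nd (nat_lit 156) (nat_lit 0) (nat_lit 0) (XT.nd (nat_lit 78) (nat_lit 0) (nat_lit 0) (XT.lf (nat_lit 0) (nat_lit 63208870937) (nat_lit 152) (nat_lit 90008030043) (nat_lit 0) (nat_lit 62260083673) (nat_lit 1) (nat_lit 5) (nat_lit 3) (nat_lit 4) (nat_lit 1) (nat_lit 4) (nat_lit 413) (nat_lit 313) (nat_lit 294)) (XT.lf (nat_lit 0) (nat_lit 71455136659) (nat_lit 152) (nat_lit 90511622110) (nat_lit 0) (nat_lit 70485153112) (nat_lit 1) (nat_lit 5) (nat_lit 3) (nat_lit 4) (nat_lit 1) (nat_lit 4) (nat_lit 414) (nat_lit 313) (nat_lit 293))) (XT.nd (nat_lit 78) (nat_lit 0) (nat_lit 0) (XT.lf (nat_lit 0) (nat_lit 80285943743) (nat_lit 152) (nat_lit 91208572066) (nat_lit 0) (nat_lit 79296334008) (nat_lit 1) (nat_lit 5) (nat_lit 3)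 (nat_lit 4) (nat_lit 1) (nat_lit 4) (nat_lit 415) (nat_lit 313) (nat_lit 292)) (XT.nd (nat_lit 78) (nat_lit 0) (nat_lit 0) (XT.lf (nat_lit 0) (nat_lit 89753622898) (nat_lit 152) (nat_lit 92103009982) (nat_lit 0) (nat_lit 88745840767) (nat_lit 1) (nat_lit 5) (nat_lit 3) (nat_lit 4) (nat_lit 1) (nat_lit 4) (nat_lit 416) (nat_lit 313) (nat_lit 291)) (XT.lf (nat_lit 0) (nat_lit 99914278888) (nat_lit 152) (nat_lit 93200236233) (nat_lit 0) (nat_lit 98889670464) (nat_lit 1) (nat_lit 5) (nat_lit 3) (nat_lit 4) (nat_lit 1) (nat_lit 4) (nat_lit 417) (nat_lit 313) (nat_lit 290))))) (XT.nd (nat_lit 156) (nat_lit 0) (nat_lit 0) (XT.nd (nat_lit 78) (nat_lit 0) (nat_lit 0) (XT.lf (nat_lit 0) (nat_lit 110828123009) (nat_lit 152) (nat_lit 94506752900) (nat_lit 0) (nat_lit 109787934684) (nat_lit 1) (nat_lit 5) (nat_lit 3) (nat_lit 4) (nat_lit 1) (nat_lit 4) (nat_lit 418) (nat_lit 313) (nat_lit 289)) (XT.lf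 (nat_lit 0) (nat_lit 122559829892) (nat_lit 152) (nat_lit 96030302303) (nat_lit 0) (nat_lit 121505215733) (nat_lit 1) (nat_lit 5) (nat_lit 3) (nat_lit 4) (nat_lit 1) (nat_lit 4) (nat_lit 419) (nat_lit 313) (nat_lit 288))) (XT.nd (nat_lit 78) (nat_lit 0) (nat_lit 0) (XT.lf (nat_lit 0) (nat_lit 135178920764) (nat_lit 152) (nat_lit 97779912883) (nat_lit 0) (nat_lit 134110949351) (nat_lit 1) (nat_lit 5) (nat_lit 3) (nat_lit 4) (nat_lit 1) (nat_lit 4) (nat_lit 420) (nat_lit 313) (nat_lit 287)) (XT.nd (nat_lit 78) (nat_lit 0) (nat_lit 0) (XT.lf (nat_lit 0) (nat_lit 148760175422) (nat_lit 152) (nat_lit 99765952704) (nat_lit 0) (nat_lit 147679836182) (nat_lit 1) (nat_lit 5) (nat_lit 3) (nat_lit 4) (nat_lit 1) (nat_lit 4) (nat_lit 421) (nat_lit 313) (nat_lit 286)) (XT.lf (nat_lit 0) (nat_lit 163384075375) (nat_lit 152) (nat_lit 102000190890) (nat_lit 0) (nat_lit 162292284442) (nat_lit 1) (nat_lit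 5) (nat_lit 3) (nat_lit 4) (nat_lit 1) (nat_lit 4) (nat_lit 422) (nat_lit 313) (nat_lit 285)))))) (XT.nd (nat_lit 390) (nat_lit 0) (nat_lit 0) (XT.nd (nat_lit 156) (nat_lit 0) (nat_lit 0) (XT.nd (nat_lit 78) (nat_lit 0) (nat_lit 0) (XT.lf (nat_lit 0) (nat_lit 179137280771) (nat_lit 152) (nat_lit 104495867371) (nat_lit 0) (nat_lit 178034886420) (nat_lit 1) (nat_lit 5) (nat_lit 3) (nat_lit 4) (nat_lit 1) (nat_lit 4) (nat_lit 423) (nat_lit 313) (nat_lit 284)) (XT.lf (nat_lit 0) (nat_lit 196113143938) (nat_lit 152) (nat_lit 107267771342) (nat_lit 0) (nat_lit 195000931607) (nat_lit 1) (nat_lit 5) (nat_lit 3) (nat_lit 4) (nat_lit 1) (nat_lit 4) (nat_lit 424) (nat_lit 313) (nat_lit 283))) (XT.nd (nat_lit 78) (nat_lit 0) (nat_lit 0) (XT.lf (nat_lit 0) (nat_lit 214412262585) (nat_lit 152) (nat_lit 110332328899) (nat_lit 0) (nat_lit 213290959531) (nat_lit 1) (nat_lit 5) (nat_lit 3) (nat_lit 4) (nat_lit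 1) (nat_lit 4) (nat_lit 425) (nat_lit 313) (nat_lit 282)) (XT.nd (nat_lit 78) (nat_lit 0) (nat_lit 0) (XT.lf (nat_lit 0) (nat_lit 234143075932) (nat_lit 152) (nat_lit 113707700383) (nat_lit 0) (nat_lit 233013355542) (nat_lit 1) (nat_lit 5) (nat_lit 3) (nat_lit 4) (nat_lit 1) (nat_lit 4) (nat_lit 426) (nat_lit 313) (nat_lit 281)) (XT.lf (nat_lit 0) (nat_lit 255422507318) (nat_lit 152) (nat_lit 117413887997) (nat_lit 0) (nat_lit 254284993099) (nat_lit 1) (nat_lit 5) (nat_lit 3) (nat_lit 4) (nat_lit 1) (nat_lit 4) (nat_lit 427) (nat_lit 313) (nat_lit 280))))) (XT.nd (nat_lit 234) (nat_lit 0) (nat_lit 0) (XT.nd (nat_lit 78) (nat_lit 0) (nat_lit 0) (XT.lf (nat_lit 0) (nat_lit 278376657077) (nat_lit 152) (nat_lit 121472854333) (nat_lit 0) (nat_lit 277231926350) (nat_lit 1) (nat_lit 5) (nat_lit 3) (nat_lit 4) (nat_lit 1) (nat_lit 4) (nat_lit 428) (nat_lit 313) (nat_lit 279)) (XT.nd (nat_lit 78)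 (nat_lit 0) (nat_lit 0) (XT.lf (nat_lit 0) (nat_lit 303141549801) (nat_lit 152) (nat_lit 125908652526) (nat_lit 0) (nat_lit 301990137121) (nat_lit 1) (nat_lit 5) (nat_lit 3) (nat_lit 4) (nat_lit 1) (nat_lit 4) (nat_lit 429) (nat_lit 313) (nat_lit 278)) (XT.lf (nat_lit 0) (nat_lit 329863940408) (nat_lit 152) (nat_lit 130747568786) (nat_lit 0) (nat_lit 328706340735) (nat_lit 1) (nat_lit 5) (nat_lit 3) (nat_lit 4) (nat_lit 1) (nat_lit 4) (nat_lit 430) (nat_lit 313) (nat_lit 277)))) (XT.nd (nat_lit 78) (nat_lit 0) (nat_lit 0) (XT.lf (nat_lit 0) (nat_lit 358702183807) (nat_lit 152) (nat_lit 136018278173) (nat_lit 0) (nat_lit 357538855437) (nat_lit 1) (nat_lit 5) (nat_lit 3) (nat_lit 4) (nat_lit 1) (nat_lit 4) (nat_lit 431) (nat_lit 313) (nat_lit 276)) (XT.nd (nat_lit 78) (nat_lit 0) (nat_lit 0) (XT.lf (nat_lit 0) (nat_lit 389827173292) (nat_lit 152) (nat_lit 141752014521) (nat_lit 0) (nat_lit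 388658540573) (nat_lit 1) (nat_lit 5) (nat_lit 3) (nat_lit 4) (nat_lit 1) (nat_lit 4) (nat_lit 432) (nat_lit 313) (nat_lit 275)) (XT.lf (nat_lit 0) (nat_lit 423423353244) (nat_lit 152) (nat_lit 147982755526) (nat_lit 0) (nat_lit 422249809091) (nat_lit 1) (nat_lit 5) (nat_lit 3) (nat_lit 4) (nat_lit 1) (nat_lit 4) (nat_lit 433) (nat_lit 313) (nat_lit 274))))))) (XT.nd (nat_lit 780) (nat_lit 0) (nat_lit 0) (XT.nd (nat_lit 390) (nat_lit 0) (nat_lit 0) (XT.nd (nat_lit 156) (nat_lit 0) (nat_lit 0) (XT.nd (nat_lit 78) (nat_lit 0) (nat_lit 0) (XT.lf (nat_lit 0) (nat_lit 459689812138) (nat_lit 152) (nat_lit 154747424098) (nat_lit 0) (nat_lit 458511720360) (nat_lit 1) (nat_lit 5) (nat_lit 3) (nat_lit 4) (nat_lit 1) (nat_lit 4) (nat_lit 434) (nat_lit 313) (nat_lit 273)) (XT.lf (nat_lit 0) (nat_lit 498841462323) (nat_lit 152) (nat_lit 162086107162) (nat_lit 0) (nat_lit 497659159781) (nat_lit 1) (nat_lit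 5) (nat_lit 3) (nat_lit 4) (nat_lit 1) (nat_lit 4) (nat_lit 435) (nat_lit 313) (nat_lit 272))) (XT.nd (nat_lit 78) (nat_lit 0) (nat_lit 0) (XT.lf (nat_lit 0) (nat_lit 541110313577) (nat_lit 152) (nat_lit 170042293211) (nat_lit 0) (nat_lit 539924112180) (nat_lit 1) (nat_lit 5) (nat_lit 3) (nat_lit 4) (nat_lit 1) (nat_lit 4) (nat_lit 436) (nat_lit 313) (nat_lit 271)) (XT.nd (nat_lit 78) (nat_lit 0) (nat_lit 0) (XT.lf (nat_lit 0) (nat_lit 586746847982) (nat_lit 152) (nat_lit 178663130012) (nat_lit 0) (nat_lit 585557036534) (nat_lit 1) (nat_lit 5) (nat_lit 3) (nat_lit 4) (nat_lit 1) (nat_lit 4) (nat_lit 437) (nat_lit 313) (nat_lit 270)) (XT.lf (nat_lit 0) (nat_lit 636021504260) (nat_lit 152) (nat_lit 187999704007) (nat_lit 0) (nat_lit 634828350173) (nat_lit 1) (nat_lit 5) (nat_lit 3) (nat_lit 4) (nat_lit 1) (nat_lit 4) (nat_lit 438) (nat_lit 313) (nat_lit 269))))) (XT.nd (nat_lit 156) (nat_lit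 0) (nat_lit 0) (XT.nd (nat_lit 78) (nat_lit 0) (nat_lit 0) (XT.lf (nat_lit 0) (nat_lit 689226280375) (nat_lit 152) (nat_lit 198107343042) (nat_lit 0) (nat_lit 688030031250) (nat_lit 1) (nat_lit 5) (nat_lit 3) (nat_lit 4) (nat_lit 1) (nat_lit 4) (nat_lit 439) (nat_lit 313) (nat_lit 268)) (XT.lf (nat_lit 0) (nat_lit 746676463888) (nat_lit 152) (nat_lit 209045944236) (nat_lit 0) (nat_lit 745477348989) (nat_lit 1) (nat_lit 5) (nat_lit 3) (nat_lit 4) (nat_lit 1) (nat_lit 4) (nat_lit 440) (nat_lit 313) (nat_lit 267))) (XT.nd (nat_lit 78) (nat_lit 0) (nat_lit 0) (XT.lf (nat_lit 0) (nat_lit 808712500332) (nat_lit 152) (nat_lit 220880328931) (nat_lit 0) (nat_lit 807510731938) (nat_lit 1) (nat_lit 5) (nat_lit 3) (nat_lit 4) (nat_lit 1) (nat_lit 4) (nat_lit 441) (nat_lit 313) (nat_lit 266)) (XT.nd (nat_lit 78) (nat_lit 0) (nat_lit 0) (XT.lf (nat_lit 0) (nat_lit 875702010663) (nat_lit 152) (nat_lit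 233680626812) (nat_lit 0) (nat_lit 874497785329) (nat_lit 1) (nat_lit 5) (nat_lit 3) (nat_lit 4) (nat_lit 1) (nat_lit 4) (nat_lit 442) (nat_lit 313) (nat_lit 265)) (XT.lf (nat_lit 0) (nat_lit 948041969758) (nat_lit 152) (nat_lit 247522691498) (nat_lit 0) (nat_lit 946835469479) (nat_lit 1) (nat_lit 5) (nat_lit 3) (nat_lit 4) (nat_lit 1) (nat_lit 4) (nat_lit 443) (nat_lit 313) (nat_lit 264)))))) (XT.nd (nat_lit 390) (nat_lit 0) (nat_lit 0) (XT.nd (nat_lit 156) (nat_lit 0) (nat_lit 0) (XT.nd (nat_lit 78) (nat_lit 0) (nat_lit 0) (XT.lf (nat_lit 0) (nat_lit 1026161058855) (nat_lit 152) (nat_lit 262488550038) (nat_lit 0) (nat_lit 1024952452146) (nat_lit 1) (nat_lit 5) (nat_lit 3) (nat_lit 4) (nat_lit 1) (nat_lit 4) (nat_lit 444) (nat_lit 313) (nat_lit 263)) (XT.lf (nat_lit 0) (nat_lit 1110522205890) (nat_lit 152) (nat_lit 278666889002) (nat_lit 0) (nat_lit 1109311648782) (nat_lit 1) (nat_lit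 5) (nat_lit 3) (nat_lit 4) (nat_lit 1) (nat_lit 4) (nat_lit 445) (nat_lit 313) (nat_lit 262))) (XT.nd (nat_lit 78) (nat_lit 0) (nat_lit 0) (XT.lf (nat_lit 0) (nat_lit 1201625328770) (nat_lit 152) (nat_lit 296153580027) (nat_lit 0) (nat_lit 1200412965739) (nat_lit 1) (nat_lit 5) (nat_lit 3) (nat_lit 4) (nat_lit 1) (nat_lit 4) (nat_lit 446) (nat_lit 313) (nat_lit 261)) (XT.nd (nat_lit 78) (nat_lit 0) (nat_lit 0) (XT.lf (nat_lit 0) (nat_lit 1300010297855) (nat_lit 152) (nat_lit 315052247950) (nat_lit 0) (nat_lit 1298796262672) (nat_lit 1) (nat_lit 5) (nat_lit 3) (nat_lit 4) (nat_lit 1) (nat_lit 4) (nat_lit 447) (nat_lit 313) (nat_lit 260)) (XT.lf (nat_lit 0) (nat_lit 1406260135183) (nat_lit 152) (nat_lit 335474884876) (nat_lit 0) (nat_lit 1405044551711) (nat_lit 1) (nat_lit 5) (nat_lit 3) (nat_lit 4) (nat_lit 1) (nat_lit 4) (nat_lit 448) (nat_lit 313) (nat_lit 259))))) (XT.nd (nat_lit 234)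 (nat_lit 0) (nat_lit 0) (XT.nd (nat_lit 78) (nat_lit 0) (nat_lit 0) (XT.lf (nat_lit 0) (nat_lit 1521004469419) (nat_lit 152) (nat_lit 357542513840) (nat_lit 0) (nat_lit 1519787452346) (nat_lit 1) (nat_lit 5) (nat_lit 3) (nat_lit 4) (nat_lit 1) (nat_lit 4) (nat_lit 449) (nat_lit 313) (nat_lit 258)) (XT.nd (nat_lit 78) (nat_lit 0) (nat_lit 0) (XT.lf (nat_lit 0) (nat_lit 1644923266989) (nat_lit 152) (nat_lit 381385905975) (nat_lit 0) (nat_lit 1643704922508) (nat_lit 1) (nat_lit 5) (nat_lit 3) (nat_lit 4) (nat_lit 1) (nat_lit 4) (nat_lit 450) (nat_lit 313) (nat_lit 257)) (XT.lf (nat_lit 0) (nat_lit 1778750861508) (nat_lit 152) (nat_lit 407146355458) (nat_lit 0) (nat_lit 1777531287945) (nat_lit 1) (nat_lit 5) (nat_lit 3) (nat_lit 4) (nat_lit 1) (nat_lit 4) (nat_lit 451) (nat_lit 313) (nat_lit 256)))) (XT.nd (nat_lit 78) (nat_lit 0) (nat_lit 0) (XT.lf (nat_lit 0) (nat_lit 1923280305388) (nat_lit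 152) (nat_lit 434976516804) (nat_lit 0) (nat_lit 1922059593786) (nat_lit 1) (nat_lit 5) (nat_lit 3) (nat_lit 4) (nat_lit 1) (nat_lit 4) (nat_lit 452) (nat_lit 313) (nat_lit 255)) (XT.nd (nat_lit 78) (nat_lit 0) (nat_lit 0) (XT.lf (nat_lit 0) (nat_lit 2079368069408) (nat_lit 152) (nat_lit 465041309488) (nat_lit 0) (nat_lit 2078146304066) (nat_lit 1) (nat_lit 5) (nat_lit 3) (nat_lit 4) (nat_lit 1) (nat_lit 4) (nat_lit 453) (nat_lit 313) (nat_lit 254)) (XT.lf (nat_lit 0) (nat_lit 2247939118094) (nat_lit 152) (nat_lit 497518895243) (nat_lit 0) (nat_lit 2246716377068) (nat_lit 1) (nat_lit 5) (nat_lit 3) (nat_lit 4) (nat_lit 1) (nat_lit 4) (nat_lit 454) (nat_lit 313) (nat_lit 253))))))))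
noncomputable def xc32 : XT := (XT.nd (nat_lit 48984) (nat_lit 0) (nat_lit 0) (XT.nd (nat_lit 48204) (nat_lit 0) (nat_lit 152) (XT.nd (nat_lit 390) (nat_lit 0) (nat_lit 0) (XT.nd (nat_lit 156) (nat_lit 0) (nat_lit 0) (XT.nd (nat_lit 78) (nat_lit 0) (nat_lit 0) (XT.lf (nat_lit 0) (nat_lit 2429992390995) (nat_lit 152) (nat_lit 532601733838) (nat_lit 0) (nat_lit 2428768746558) (nat_lit 1) (nat_lit 5) (nat_lit 3) (nat_lit 4) (nat_lit 1) (nat_lit 4) (nat_lit 455) (nat_lit 313) (nat_lit 252)) (XT.lf (nat_lit 0) (nat_lit 2626606722321) (nat_lit 152) (nat_lit 570497723575) (nat_lit 0) (nat_lit 2625382241391) (nat_lit 1) (nat_lit 5) (nat_lit 3) (nat_lit 4) (nat_lit 1) (nat_lit 4) (nat_lit 456) (nat_lit 313) (nat_lit 251))) (XT.nd (nat_lit 78) (nat_lit 0) (nat_lit 0) (XT.lf (nat_lit 0) (nat_lit 2838947234035) (nat_lit 152) (nat_lit 611431433282) (nat_lit 0) (nat_lit 2837721978574) (nat_lit 1) (nat_lit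 5) (nat_lit 3) (nat_lit 4) (nat_lit 1) (nat_lit 4) (nat_lit 457) (nat_lit 313) (nat_lit 250)) (XT.nd (nat_lit 78) (nat_lit 0) (nat_lit 0) (XT.lf (nat_lit 0) (nat_lit 3068272240280) (nat_lit 152) (nat_lit 655645433091) (nat_lit 0) (nat_lit 3067046267662) (nat_lit 1) (nat_lit 5) (nat_lit 3) (nat_lit 4) (nat_lit 1) (nat_lit 4) (nat_lit 458) (nat_lit 313) (nat_lit 249)) (XT.lf (nat_lit 0) (nat_lit 3315940704056) (nat_lit 152) (nat_lit 703401731890) (nat_lit 0) (nat_lit 3314714067404) (nat_lit 1) (nat_lit 5) (nat_lit 3) (nat_lit 4) (nat_lit 1) (nat_lit 4) (nat_lit 459) (nat_lit 313) (nat_lit 248))))) (XT.nd (nat_lit 156) (nat_lit 0) (nat_lit 0) (XT.nd (nat_lit 78) (nat_lit 0) (nat_lit 0) (XT.lf (nat_lit 0) (nat_lit 3583420290335) (nat_lit 152) (nat_lit 754983329967) (nat_lit 0) (nat_lit 3582193038836) (nat_lit 1) (nat_lit 5) (nat_lit 3) (nat_lit 4) (nat_lit 1) (nat_lit 4) (nat_lit 460) (nat_lit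 313) (nat_lit 247)) (XT.lf (nat_lit 0) (nat_lit 3872296063330) (nat_lit 152) (nat_lit 810695896053) (nat_lit 0) (nat_lit 3871068242528) (nat_lit 1) (nat_lit 5) (nat_lit 3) (nat_lit 4) (nat_lit 1) (nat_lit 4) (nat_lit 461) (nat_lit 313) (nat_lit 246))) (XT.nd (nat_lit 78) (nat_lit 0) (nat_lit 0) (XT.lf (nat_lit 0) (nat_lit 4184279879475) (nat_lit 152) (nat_lit 870869578687) (nat_lit 0) (nat_lit 4183051531541) (nat_lit 1) (nat_lit 5) (nat_lit 3) (nat_lit 4) (nat_lit 1) (nat_lit 4) (nat_lit 462) (nat_lit 313) (nat_lit 245)) (XT.nd (nat_lit 78) (nat_lit 0) (nat_lit 0) (XT.lf (nat_lit 0) (nat_lit 4521220531754) (nat_lit 152) (nat_lit 935860962654) (nat_lit 0) (nat_lit 4519991695735) (nat_lit 1) (nat_lit 5) (nat_lit 3) (nat_lit 4) (nat_lit 1) (nat_lit 4) (nat_lit 463) (nat_lit 313) (nat_lit 244)) (XT.lf (nat_lit 0) (nat_lit 4885114705513) (nat_lit 152) (nat_lit 1006055182083) (nat_lit 0) (nat_lit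 4883885417564) (nat_lit 1) (nat_lit 5) (nat_lit 3) (nat_lit 4) (nat_lit 1) (nat_lit 4) (nat_lit 464) (nat_lit 313) (nat_lit 243)))))) (XT.nd (nat_lit 390) (nat_lit 0) (nat_lit 0) (XT.nd (nat_lit 156) (nat_lit 76) (nat_lit 0) (XT.nd (nat_lit 78) (nat_lit 0) (nat_lit 0) (XT.lf (nat_lit 0) (nat_lit 3936619371) (nat_lit 152) (nat_lit 15517866398) (nat_lit 0) (nat_lit 3936619371) (nat_lit 4) (nat_lit 5) (nat_lit 6) (nat_lit 4) (nat_lit 4) (nat_lit 4) (nat_lit 392) (nat_lit 314) (nat_lit 314)) (XT.lf (nat_lit 0) (nat_lit 14569950294) (nat_lit 152) (nat_lit 20996632402) (nat_lit 0) (nat_lit 14463251730) (nat_lit 4) (nat_lit 5) (nat_lit 6) (nat_lit 4) (nat_lit 4) (nat_lit 4) (nat_lit 393) (nat_lit 314) (nat_lit 313))) (XT.nd (nat_lit 78) (nat_lit 76) (nat_lit 0) (XT.lf (nat_lit 0) (nat_lit 21500974935) (nat_lit 152) (nat_lit 10764944875) (nat_lit 0) (nat_lit 21295481404) (nat_lit 4) (nat_lit 5)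 (nat_lit 6) (nat_lit 4) (nat_lit 4) (nat_lit 4) (nat_lit 394) (nat_lit 314) (nat_lit 312)) (XT.nd (nat_lit 78) (nat_lit 76) (nat_lit 0) (XT.lf (nat_lit 0) (nat_lit 28707385405) (nat_lit 152) (nat_lit 280037993) (nat_lit 0) (nat_lit 28410415053) (nat_lit 4) (nat_lit 5) (nat_lit 6) (nat_lit 4) (nat_lit 4) (nat_lit 4) (nat_lit 395) (nat_lit 314) (nat_lit 311)) (XT.lf (nat_lit 0) (nat_lit 11074197220) (nat_lit 76) (nat_lit 25424023847) (nat_lit 76) (nat_lit 25042352735) (nat_lit 3) (nat_lit 4) (nat_lit 4) (nat_lit 5) (nat_lit 4) (nat_lit 4) (nat_lit 396) (nat_lit 314) (nat_lit 310))))) (XT.nd (nat_lit 156) (nat_lit 0) (nat_lit 0) (XT.nd (nat_lit 78) (nat_lit 0) (nat_lit 0) (XT.lf (nat_lit 0) (nat_lit 22842508502) (nat_lit 76) (nat_lit 21825921807) (nat_lit 76) (nat_lit 21365824064) (nat_lit 3) (nat_lit 4) (nat_lit 4) (nat_lit 5) (nat_lit 4) (nat_lit 4) (nat_lit 397) (nat_lit 314) (nat_lit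 309)) (XT.lf (nat_lit 0) (nat_lit 35079887689) (nat_lit 76) (nat_lit 18179451926) (nat_lit 76) (nat_lit 17646736934) (nat_lit 3) (nat_lit 4) (nat_lit 4) (nat_lit 5) (nat_lit 4) (nat_lit 4) (nat_lit 398) (nat_lit 314) (nat_lit 308))) (XT.nd (nat_lit 78) (nat_lit 0) (nat_lit 0) (XT.lf (nat_lit 0) (nat_lit 47858852582) (nat_lit 76) (nat_lit 14463005494) (nat_lit 76) (nat_lit 13863052308) (nat_lit 3) (nat_lit 4) (nat_lit 4) (nat_lit 5) (nat_lit 4) (nat_lit 4) (nat_lit 399) (nat_lit 314) (nat_lit 307)) (XT.nd (nat_lit 78) (nat_lit 0) (nat_lit 0) (XT.lf (nat_lit 0) (nat_lit 61255130381) (nat_lit 76) (nat_lit 10654559126) (nat_lit 76) (nat_lit 9992348352) (nat_lit 3) (nat_lit 4) (nat_lit 4) (nat_lit 5) (nat_lit 4) (nat_lit 4) (nat_lit 400) (nat_lit 314) (nat_lit 306)) (XT.lf (nat_lit 0) (nat_lit 75348106436) (nat_lit 76) (nat_lit 6731544249) (nat_lit 76) (nat_lit 6011687561) (nat_lit 3) (nat_lit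 4) (nat_lit 4) (nat_lit 5) (nat_lit 4) (nat_lit 4) (nat_lit 401) (nat_lit 314) (nat_lit 305))))))) (XT.nd (nat_lit 780) (nat_lit 0) (nat_lit 0) (XT.nd (nat_lit 390) (nat_lit 0) (nat_lit 0) (XT.nd (nat_lit 156) (nat_lit 0) (nat_lit 0) (XT.nd (nat_lit 78) (nat_lit 152) (nat_lit 0) (XT.lf (nat_lit 0) (nat_lit 90221294680) (nat_lit 76) (nat_lit 2670713369) (nat_lit 76) (nat_lit 1897480834) (nat_lit 3) (nat_lit 4) (nat_lit 4) (nat_lit 5) (nat_lit 4) (nat_lit 4) (nat_lit 402) (nat_lit 314) (nat_lit 304)) (XT.lf (nat_lit 0) (nat_lit 2395179077) (nat_lit 152) (nat_lit 97991827439) (nat_lit 0) (nat_lit 1633461841) (nat_lit 1) (nat_lit 5) (nat_lit 3) (nat_lit 4) (nat_lit 1) (nat_lit 4) (nat_lit 403) (nat_lit 314) (nat_lit 303))) (XT.nd (nat_lit 78) (nat_lit 0) (nat_lit 0) (XT.lf (nat_lit 0) (nat_lit 6963989879) (nat_lit 152) (nat_lit 96699280278) (nat_lit 0) (nat_lit 6159901175) (nat_lit 1) (nat_lit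 5) (nat_lit 3) (nat_lit 4) (nat_lit 1) (nat_lit 4) (nat_lit 404) (nat_lit 314) (nat_lit 302)) (XT.nd (nat_lit 78) (nat_lit 0) (nat_lit 0) (XT.lf (nat_lit 0) (nat_lit 11748060565) (nat_lit 152) (nat_lit 95609318025) (nat_lit 0) (nat_lit 10904739020) (nat_lit 1) (nat_lit 5) (nat_lit 3) (nat_lit 4) (nat_lit 1) (nat_lit 4) (nat_lit 405) (nat_lit 314) (nat_lit 301)) (XT.lf (nat_lit 0) (nat_lit 16775741183) (nat_lit 152) (nat_lit 94715481646) (nat_lit 0) (nat_lit 15896092935) (nat_lit 1) (nat_lit 5) (nat_lit 3) (nat_lit 4) (nat_lit 1) (nat_lit 4) (nat_lit 406) (nat_lit 314) (nat_lit 300))))) (XT.nd (nat_lit 156) (nat_lit 0) (nat_lit 0) (XT.nd (nat_lit 78) (nat_lit 0) (nat_lit 0) (XT.lf (nat_lit 0) (nat_lit 22076825398) (nat_lit 152) (nat_lit 94012474333) (nat_lit 0) (nat_lit 21163541312) (nat_lit 1) (nat_lit 5) (nat_lit 3) (nat_lit 4) (nat_lit 1) (nat_lit 4) (nat_lit 407) (nat_lit 314) (nat_lit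 299)) (XT.lf (nat_lit 0) (nat_lit 27682727040) (nat_lit 152) (nat_lit 93496130115) (nat_lit 0) (nat_lit 26738298661) (nat_lit 1) (nat_lit 5) (nat_lit 3) (nat_lit 4) (nat_lit 1) (nat_lit 4) (nat_lit 408) (nat_lit 314) (nat_lit 298))) (XT.nd (nat_lit 78) (nat_lit 0) (nat_lit 0) (XT.lf (nat_lit 0) (nat_lit 33626666269) (nat_lit 152) (nat_lit 93163389176) (nat_lit 0) (nat_lit 32653400581) (nat_lit 1) (nat_lit 5) (nat_lit 3) (nat_lit 4) (nat_lit 1) (nat_lit 4) (nat_lit 409) (nat_lit 314) (nat_lit 297)) (XT.nd (nat_lit 78) (nat_lit 0) (nat_lit 0) (XT.lf (nat_lit 0) (nat_lit 39943866427) (nat_lit 152) (nat_lit 93012279717) (nat_lit 0) (nat_lit 38943899527) (nat_lit 1) (nat_lit 5) (nat_lit 3) (nat_lit 4) (nat_lit 1) (nat_lit 4) (nat_lit 410) (nat_lit 314) (nat_lit 296)) (XT.lf (nat_lit 0) (nat_lit 46671762775) (nat_lit 152) (nat_lit 93041906274) (nat_lit 0) (nat_lit 45647072530) (nat_lit 1) (nat_lit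 5) (nat_lit 3) (nat_lit 4) (nat_lit 1) (nat_lit 4) (nat_lit 411) (nat_lit 314) (nat_lit 295)))))) (XT.nd (nat_lit 390) (nat_lit 0) (nat_lit 0) (XT.nd (nat_lit 156) (nat_lit 0) (nat_lit 0) (XT.nd (nat_lit 78) (nat_lit 0) (nat_lit 0) (XT.lf (nat_lit 0) (nat_lit 53850224328) (nat_lit 152) (nat_lit 93252444414) (nat_lit 0) (nat_lit 52802642097) (nat_lit 1) (nat_lit 5) (nat_lit 3) (nat_lit 4) (nat_lit 1) (nat_lit 4) (nat_lit 412) (nat_lit 314) (nat_lit 294)) (XT.lf (nat_lit 0) (nat_lit 61521790118) (nat_lit 152) (nat_lit 93645141768) (nat_lit 0) (nat_lit 60453011604) (nat_lit 1) (nat_lit 5) (nat_lit 3) (nat_lit 4) (nat_lit 1) (nat_lit 4) (nat_lit 413) (nat_lit 314) (nat_lit 293))) (XT.nd (nat_lit 78) (nat_lit 0) (nat_lit 0) (XT.lf (nat_lit 0) (nat_lit 69731921275) (nat_lit 152) (nat_lit 94222325433) (nat_lit 0) (nat_lit 68643516573) (nat_lit 1) (nat_lit 5) (nat_lit 3) (nat_lit 4) (nat_lit 1)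 (nat_lit 4) (nat_lit 414) (nat_lit 314) (nat_lit 292)) (XT.nd (nat_lit 78) (nat_lit 0) (nat_lit 0) (XT.lf (nat_lit 0) (nat_lit 78529270428) (nat_lit 152) (nat_lit 94987415756) (nat_lit 0) (nat_lit 77422693330) (nat_lit 1) (nat_lit 5) (nat_lit 3) (nat_lit 4) (nat_lit 1) (nat_lit 4) (nat_lit 415) (nat_lit 314) (nat_lit 291)) (XT.lf (nat_lit 0) (nat_lit 87965970017) (nat_lit 152) (nat_lit 95944946606) (nat_lit 0) (nat_lit 86842566626) (nat_lit 1) (nat_lit 5) (nat_lit 3) (nat_lit 4) (nat_lit 1) (nat_lit 4) (nat_lit 416) (nat_lit 314) (nat_lit 290))))) (XT.nd (nat_lit 234) (nat_lit 0) (nat_lit 0) (XT.nd (nat_lit 78) (nat_lit 0) (nat_lit 0) (XT.lf (nat_lit 0) (nat_lit 98097941224) (nat_lit 152) (nat_lit 97100592239) (nat_lit 0) (nat_lit 96958957932) (nat_lit 1) (nat_lit 5) (nat_lit 3) (nat_lit 4) (nat_lit 1) (nat_lit 4) (nat_lit 417) (nat_lit 314) (nat_lit 289)) (XT.nd (nat_lit 78) (nat_lit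 0) (nat_lit 0) (XT.lf (nat_lit 0) (nat_lit 108985225361) (nat_lit 152) (nat_lit 98461200926) (nat_lit 0) (nat_lit 107831816235) (nat_lit 1) (nat_lit 5) (nat_lit 3) (nat_lit 4) (nat_lit 1) (nat_lit 4) (nat_lit 418) (nat_lit 314) (nat_lit 288)) (XT.lf (nat_lit 0) (nat_lit 120692339666) (nat_lit 152) (nat_lit 100034835534) (nat_lit 0) (nat_lit 119525573287) (nat_lit 1) (nat_lit 5) (nat_lit 3) (nat_lit 4) (nat_lit 1) (nat_lit 4) (nat_lit 419) (nat_lit 314) (nat_lit 287)))) (XT.nd (nat_lit 78) (nat_lit 0) (nat_lit 0) (XT.lf (nat_lit 0) (nat_lit 133288659632) (nat_lit 152) (nat_lit 101830821304) (nat_lit 0) (nat_lit 132109525425) (nat_lit 1) (nat_lit 5) (nat_lit 3) (nat_lit 4) (nat_lit 1) (nat_lit 4) (nat_lit 420) (nat_lit 314) (nat_lit 286)) (XT.nd (nat_lit 78) (nat_lit 0) (nat_lit 0) (XT.lf (nat_lit 0) (nat_lit 146848830118) (nat_lit 152) (nat_lit 103859801115) (nat_lit 0) (nat_lit 145658244219)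 (nat_lit 1) (nat_lit 5) (nat_lit 3) (nat_lit 4) (nat_lit 1) (nat_lit 4) (nat_lit 421) (nat_lit 314) (nat_lit 285)) (XT.lf (nat_lit 0) (nat_lit 161453207690) (nat_lit 152) (nat_lit 106133798551) (nat_lit 0) (nat_lit 160252018372) (nat_lit 1) (nat_lit 5) (nat_lit 3) (nat_lit 4) (nat_lit 1) (nat_lit 4) (nat_lit 422) (nat_lit 314) (nat_lit 284))))))))
noncomputable def xc33 : XT := (XT.nd (nat_lit 1560) (nat_lit 0) (nat_lit 0) (XT.nd (nat_lit 780) (nat_lit 0) (nat_lit 0) (XT.nd (nat_lit 390) (nat_lit 0) (nat_lit 0) (XT.nd (nat_lit 156) (nat_lit 0) (nat_lit 0) (XT.nd (nat_lit 78) (nat_lit 0) (nat_lit 0) (XT.lf (nat_lit 0) (nat_lit 177188336807) (nat_lit 152) (nat_lit 108666289153) (nat_lit 0) (nat_lit 175977329509) (nat_lit 1) (nat_lit 5) (nat_lit 3) (nat_lit 4) (nat_lit 1) (nat_lit 4) (nat_lit 423) (nat_lit 314) (nat_lit 283)) (XT.lf (nat_lit 0) (nat_lit 194147462679) (nat_lit 152) (nat_lit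 111472280272) (nat_lit 0) (nat_lit 192927364658) (nat_lit 1) (nat_lit 5) (nat_lit 3) (nat_lit 4) (nat_lit 1) (nat_lit 4) (nat_lit 424) (nat_lit 314) (nat_lit 282))) (XT.nd (nat_lit 78) (nat_lit 0) (nat_lit 0) (XT.lf (nat_lit 0) (nat_lit 212431083830) (nat_lit 152) (nat_lit 114568400003) (nat_lit 0) (nat_lit 211202568473) (nat_lit 1) (nat_lit 5) (nat_lit 3) (nat_lit 4) (nat_lit 1) (nat_lit 4) (nat_lit 425) (nat_lit 314) (nat_lit 281)) (XT.nd (nat_lit 78) (nat_lit 0) (nat_lit 0) (XT.lf (nat_lit 0) (nat_lit 232147547644) (nat_lit 152) (nat_lit 117972995724) (nat_lit 0) (nat_lit 230911238458) (nat_lit 1) (nat_lit 5) (nat_lit 3) (nat_lit 4) (nat_lit 1) (nat_lit 4) (nat_lit 426) (nat_lit 314) (nat_lit 280)) (XT.lf (nat_lit 0) (nat_lit 253413692425) (nat_lit 152) (nat_lit 121706242815) (nat_lit 0) (nat_lit 252170166731) (nat_lit 1) (nat_lit 5) (nat_lit 3) (nat_lit 4) (nat_lit 1) (nat_lit 4) (nat_lit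 427) (nat_lit 314) (nat_lit 279))))) (XT.nd (nat_lit 156) (nat_lit 0) (nat_lit 0) (XT.nd (nat_lit 78) (nat_lit 0) (nat_lit 0) (XT.lf (nat_lit 0) (nat_lit 276355539772) (nat_lit 152) (nat_lit 125790264223) (nat_lit 0) (nat_lit 275105332126) (nat_lit 1) (nat_lit 5) (nat_lit 3) (nat_lit 4) (nat_lit 1) (nat_lit 4) (nat_lit 428) (nat_lit 314) (nat_lit 278)) (XT.lf (nat_lit 0) (nat_lit 301109041374) (nat_lit 152) (nat_lit 130249261556) (nat_lit 0) (nat_lit 299852646734) (nat_lit 1) (nat_lit 5) (nat_lit 3) (nat_lit 4) (nat_lit 1) (nat_lit 4) (nat_lit 429) (nat_lit 314) (nat_lit 277))) (XT.nd (nat_lit 78) (nat_lit 0) (nat_lit 0) (XT.lf (nat_lit 0) (nat_lit 327820884646) (nat_lit 152) (nat_lit 135109658502) (nat_lit 0) (nat_lit 326558761310) (nat_lit 1) (nat_lit 5) (nat_lit 3) (nat_lit 4) (nat_lit 1) (nat_lit 4) (nat_lit 430) (nat_lit 314) (nat_lit 276)) (XT.nd (nat_lit 78) (nat_lit 0) (nat_lit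 0) (XT.lf (nat_lit 0) (nat_lit 356649361994) (nat_lit 152) (nat_lit 140400257413) (nat_lit 0) (nat_lit 355381934308) (nat_lit 1) (nat_lit 5) (nat_lit 3) (nat_lit 4) (nat_lit 1) (nat_lit 4) (nat_lit 431) (nat_lit 314) (nat_lit 275)) (XT.lf (nat_lit 0) (nat_lit 387765308839) (nat_lit 152) (nat_lit 146152409986) (nat_lit 0) (nat_lit 386492969719) (nat_lit 1) (nat_lit 5) (nat_lit 3) (nat_lit 4) (nat_lit 1) (nat_lit 4) (nat_lit 432) (nat_lit 314) (nat_lit 274)))))) (XT.nd (nat_lit 390) (nat_lit 0) (nat_lit 0) (XT.nd (nat_lit 156) (nat_lit 0) (nat_lit 0) (XT.nd (nat_lit 78) (nat_lit 0) (nat_lit 0) (XT.lf (nat_lit 0) (nat_lit 421353115977) (nat_lit 152) (nat_lit 152400203052) (nat_lit 0) (nat_lit 420076229232) (nat_lit 1) (nat_lit 5) (nat_lit 3) (nat_lit 4) (nat_lit 1) (nat_lit 4) (nat_lit 433) (nat_lit 314) (nat_lit 273)) (XT.lf (nat_lit 0) (nat_lit 457611822264) (nat_lit 152) (nat_lit 159180660570)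 (nat_lit 0) (nat_lit 456330724756) (nat_lit 1) (nat_lit 5) (nat_lit 3) (nat_lit 4) (nat_lit 1) (nat_lit 4) (nat_lit 434) (nat_lit 314) (nat_lit 272))) (XT.nd (nat_lit 78) (nat_lit 0) (nat_lit 0) (XT.lf (nat_lit 0) (nat_lit 496756294110) (nat_lit 152) (nat_lit 166533963028) (nat_lit 0) (nat_lit 495471297746) (nat_lit 1) (nat_lit 5) (nat_lit 3) (nat_lit 4) (nat_lit 1) (nat_lit 4) (nat_lit 435) (nat_lit 314) (nat_lit 271)) (XT.nd (nat_lit 78) (nat_lit 0) (nat_lit 0) (XT.lf (nat_lit 0) (nat_lit 539018498754) (nat_lit 152) (nat_lit 174503685552) (nat_lit 0) (nat_lit 537729892339) (nat_lit 1) (nat_lit 5) (nat_lit 3) (nat_lit 4) (nat_lit 1) (nat_lit 4) (nat_lit 436) (nat_lit 314) (nat_lit 270)) (XT.lf (nat_lit 0) (nat_lit 584648878890) (nat_lit 152) (nat_lit 183137056127) (nat_lit 0) (nat_lit 583356929836) (nat_lit 1) (nat_lit 5) (nat_lit 3) (nat_lit 4) (nat_lit 1) (nat_lit 4) (nat_lit 437) (nat_lit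 314) (nat_lit 269))))) (XT.nd (nat_lit 156) (nat_lit 0) (nat_lit 0) (XT.nd (nat_lit 78) (nat_lit 0) (nat_lit 0) (XT.lf (nat_lit 0) (nat_lit 633917836771) (nat_lit 152) (nat_lit 192485235468) (nat_lit 0) (nat_lit 632622792680) (nat_lit 1) (nat_lit 5) (nat_lit 3) (nat_lit 4) (nat_lit 1) (nat_lit 4) (nat_lit 438) (nat_lit 314) (nat_lit 268)) (XT.lf (nat_lit 0) (nat_lit 687117336592) (nat_lit 152) (nat_lit 202603620194) (nat_lit 0) (nat_lit 685819426726) (nat_lit 1) (nat_lit 5) (nat_lit 3) (nat_lit 4) (nat_lit 1) (nat_lit 4) (nat_lit 439) (nat_lit 314) (nat_lit 267))) (XT.nd (nat_lit 78) (nat_lit 0) (nat_lit 0) (XT.lf (nat_lit 0) (nat_lit 744562634649) (nat_lit 152) (nat_lit 213552171102) (nat_lit 0) (nat_lit 743262071288) (nat_lit 1) (nat_lit 5) (nat_lit 3) (nat_lit 4) (nat_lit 1) (nat_lit 4) (nat_lit 440) (nat_lit 314) (nat_lit 266)) (XT.nd (nat_lit 78) (nat_lit 0) (nat_lit 0) (XT.lf (nat_lit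 0) (nat_lit 806594147521) (nat_lit 152) (nat_lit 225395768494) (nat_lit 0) (nat_lit 805291127220) (nat_lit 1) (nat_lit 5) (nat_lit 3) (nat_lit 4) (nat_lit 1) (nat_lit 4) (nat_lit 441) (nat_lit 314) (nat_lit 265)) (XT.lf (nat_lit 0) (nat_lit 873579469361) (nat_lit 152) (nat_lit 238204596652) (nat_lit 0) (nat_lit 872274174115) (nat_lit 1) (nat_lit 5) (nat_lit 3) (nat_lit 4) (nat_lit 1) (nat_lit 4) (nat_lit 442) (nat_lit 314) (nat_lit 264))))))) (XT.nd (nat_lit 780) (nat_lit 0) (nat_lit 0) (XT.nd (nat_lit 390) (nat_lit 0) (nat_lit 0) (XT.nd (nat_lit 156) (nat_lit 0) (nat_lit 0) (XT.nd (nat_lit 78) (nat_lit 0) (nat_lit 0) (XT.lf (nat_lit 0) (nat_lit 945915550222) (nat_lit 152) (nat_lit 252054559741) (nat_lit 0) (nat_lit 944608148546) (nat_lit 1) (nat_lit 5) (nat_lit 3) (nat_lit 4) (nat_lit 1) (nat_lit 4) (nat_lit 443) (nat_lit 314) (nat_lit 263)) (XT.lf (nat_lit 0) (nat_lit 1024031048362)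 (nat_lit 152) (nat_lit 267027731618) (nat_lit 0) (nat_lit 1022721696288) (nat_lit 1) (nat_lit 5) (nat_lit 3) (nat_lit 4) (nat_lit 1) (nat_lit 4) (nat_lit 444) (nat_lit 314) (nat_lit 262))) (XT.nd (nat_lit 78) (nat_lit 0) (nat_lit 0) (XT.lf (nat_lit 0) (nat_lit 1108388870437) (nat_lit 152) (nat_lit 283212842190) (nat_lit 0) (nat_lit 1107077712439) (nat_lit 1) (nat_lit 5) (nat_lit 3) (nat_lit 4) (nat_lit 1) (nat_lit 4) (nat_lit 445) (nat_lit 314) (nat_lit 261)) (XT.nd (nat_lit 78) (nat_lit 0) (nat_lit 0) (XT.lf (nat_lit 0) (nat_lit 1199488914651) (nat_lit 152) (nat_lit 300705803222) (nat_lit 0) (nat_lit 1198176084501) (nat_lit 1) (nat_lit 5) (nat_lit 3) (nat_lit 4) (nat_lit 1) (nat_lit 4) (nat_lit 446) (nat_lit 314) (nat_lit 260)) (XT.lf (nat_lit 0) (nat_lit 1297871033119) (nat_lit 152) (nat_lit 319610276707) (nat_lit 0) (nat_lit 1296556654680) (nat_lit 1) (nat_lit 5) (nat_lit 3) (nat_lit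 4) (nat_lit 1) (nat_lit 4) (nat_lit 447) (nat_lit 314) (nat_lit 259))))) (XT.nd (nat_lit 156) (nat_lit 0) (nat_lit 0) (XT.nd (nat_lit 78) (nat_lit 0) (nat_lit 0) (XT.lf (nat_lit 0) (nat_lit 1404118230986) (nat_lit 152) (nat_lit 340038289154) (nat_lit 0) (nat_lit 1402802418946) (nat_lit 1) (nat_lit 5) (nat_lit 3) (nat_lit 4) (nat_lit 1) (nat_lit 4) (nat_lit 448) (nat_lit 314) (nat_lit 258)) (XT.lf (nat_lit 0) (nat_lit 1518860121278) (nat_lit 152) (nat_lit 362110895452) (nat_lit 0) (nat_lit 1517542981829) (nat_lit 1) (nat_lit 5) (nat_lit 3) (nat_lit 4) (nat_lit 1) (nat_lit 4) (nat_lit 449) (nat_lit 314) (nat_lit 257))) (XT.nd (nat_lit 78) (nat_lit 0) (nat_lit 0) (XT.lf (nat_lit 0) (nat_lit 1642776655936) (nat_lit 152) (nat_lit 385958896230) (nat_lit 0) (nat_lit 1641458287406) (nat_lit 1) (nat_lit 5) (nat_lit 3) (nat_lit 4) (nat_lit 1) (nat_lit 4) (nat_lit 450) (nat_lit 314) (nat_lit 256))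 (XT.nd (nat_lit 78) (nat_lit 0) (nat_lit 0) (XT.lf (nat_lit 0) (nat_lit 1776602155166) (nat_lit 152) (nat_lit 411723612975) (nat_lit 0) (nat_lit 1775282648598) (nat_lit 1) (nat_lit 5) (nat_lit 3) (nat_lit 4) (nat_lit 1) (nat_lit 4) (nat_lit 451) (nat_lit 314) (nat_lit 255)) (XT.lf (nat_lit 0) (nat_lit 1921129658964) (nat_lit 152) (nat_lit 439557725489) (nat_lit 0) (nat_lit 1919809098656) (nat_lit 1) (nat_lit 5) (nat_lit 3) (nat_lit 4) (nat_lit 1) (nat_lit 4) (nat_lit 452) (nat_lit 314) (nat_lit 254)))))) (XT.nd (nat_lit 390) (nat_lit 0) (nat_lit 0) (XT.nd (nat_lit 156) (nat_lit 0) (nat_lit 0) (XT.nd (nat_lit 78) (nat_lit 0) (nat_lit 0) (XT.lf (nat_lit 0) (nat_lit 2077215626611) (nat_lit 152) (nat_lit 469626176661) (nat_lit 0) (nat_lit 2075894090618) (nat_lit 1) (nat_lit 5) (nat_lit 3) (nat_lit 4) (nat_lit 1) (nat_lit 4) (nat_lit 453) (nat_lit 314) (nat_lit 253)) (XT.lf (nat_lit 0) (nat_lit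 2245785011990) (nat_lit 152) (nat_lit 502107149906) (nat_lit 0) (nat_lit 2244462572585) (nat_lit 1) (nat_lit 5) (nat_lit 3) (nat_lit 4) (nat_lit 1) (nat_lit 4) (nat_lit 454) (nat_lit 314) (nat_lit 252))) (XT.nd (nat_lit 78) (nat_lit 0) (nat_lit 0) (XT.lf (nat_lit 0) (nat_lit 2427836744791) (nat_lit 152) (nat_lit 537193125066) (nat_lit 0) (nat_lit 2426513468894) (nat_lit 1) (nat_lit 5) (nat_lit 3) (nat_lit 4) (nat_lit 1) (nat_lit 4) (nat_lit 455) (nat_lit 314) (nat_lit 251)) (XT.nd (nat_lit 78) (nat_lit 0) (nat_lit 0) (XT.lf (nat_lit 0) (nat_lit 2624449650098) (nat_lit 152) (nat_lit 575092019029) (nat_lit 0) (nat_lit 2623125599672) (nat_lit 1) (nat_lit 5) (nat_lit 3) (nat_lit 4) (nat_lit 1) (nat_lit 4) (nat_lit 456) (nat_lit 314) (nat_lit 250)) (XT.lf (nat_lit 0) (nat_lit 2836788841425) (nat_lit 152) (nat_lit 616028417835) (nat_lit 0) (nat_lit 2835464073840) (nat_lit 1) (nat_lit 5) (nat_lit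 3) (nat_lit 4) (nat_lit 1) (nat_lit 4) (nat_lit 457) (nat_lit 314) (nat_lit 249))))) (XT.nd (nat_lit 234) (nat_lit 0) (nat_lit 0) (XT.nd (nat_lit 78) (nat_lit 0) (nat_lit 0) (XT.lf (nat_lit 0) (nat_lit 3066112625089) (nat_lit 152) (nat_lit 660244907551) (nat_lit 0) (nat_lit 3064787193470) (nat_lit 1) (nat_lit 5) (nat_lit 3) (nat_lit 4) (nat_lit 1) (nat_lit 4) (nat_lit 458) (nat_lit 314) (nat_lit 248)) (XT.nd (nat_lit 78) (nat_lit 0) (nat_lit 0) (XT.lf (nat_lit 0) (nat_lit 3313779956846) (nat_lit 152) (nat_lit 708003511818) (nat_lit 0) (nat_lit 3312453910380) (nat_lit 1) (nat_lit 5) (nat_lit 3) (nat_lit 4) (nat_lit 1) (nat_lit 4) (nat_lit 459) (nat_lit 314) (nat_lit 247)) (XT.lf (nat_lit 0) (nat_lit 3581258494958) (nat_lit 152) (nat_lit 759587244589) (nat_lit 0) (nat_lit 3579931879190) (nat_lit 1) (nat_lit 5) (nat_lit 3) (nat_lit 4) (nat_lit 1) (nat_lit 4) (nat_lit 460) (nat_lit 314) (nat_lit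 246)))) (XT.nd (nat_lit 78) (nat_lit 0) (nat_lit 0) (XT.lf (nat_lit 0) (nat_lit 3870133297430) (nat_lit 152) (nat_lit 815301787243) (nat_lit 0) (nat_lit 3868806154529) (nat_lit 1) (nat_lit 5) (nat_lit 3) (nat_lit 4) (nat_lit 1) (nat_lit 4) (nat_lit 461) (nat_lit 314) (nat_lit 245)) (XT.nd (nat_lit 78) (nat_lit 0) (nat_lit 0) (XT.lf (nat_lit 0) (nat_lit 4182116214941) (nat_lit 152) (nat_lit 875477300032) (nat_lit 0) (nat_lit 4180788583955) (nat_lit 1) (nat_lit 5) (nat_lit 3) (nat_lit 4) (nat_lit 1) (nat_lit 4) (nat_lit 462) (nat_lit 314) (nat_lit 244)) (XT.lf (nat_lit 0) (nat_lit 4519056035152) (nat_lit 152) (nat_lit 940470378588) (nat_lit 0) (nat_lit 4517727952235) (nat_lit 1) (nat_lit 5) (nat_lit 3) (nat_lit 4) (nat_lit 1) (nat_lit 4) (nat_lit 463) (nat_lit 314) (nat_lit 243))))))))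
noncomputable def xc34 : XT := (XT.nd (nat_lit 48828) (nat_lit 0) (nat_lit 0) (XT.nd (nat_lit 48048) (nat_lit 0) (nat_lit 0) (XT.nd (nat_lit 47658) (nat_lit 0) (nat_lit 152) (XT.nd (nat_lit 47424) (nat_lit 0) (nat_lit 228) (XT.nd (nat_lit 47346) (nat_lit 0) (nat_lit 380) (XT.lf (nat_lit 0) (nat_lit 4882949438478) (nat_lit 152) (nat_lit 1010666167080) (nat_lit 0) (nat_lit 4881620937107) (nat_lit 1) (nat_lit 5) (nat_lit 3) (nat_lit 4) (nat_lit 1) (nat_lit 4) (nat_lit 464) (nat_lit 314) (nat_lit 242)) (XT.lf (nat_lit 0) (nat_lit 15934809934) (nat_lit 76) (nat_lit 2285908228) (nat_lit 76) (nat_lit 2285908228) (nat_lit 6) (nat_lit 4) (nat_lit 7) (nat_lit 5) (nat_lit 7) (nat_lit 4) (nat_lit 390) (nat_lit 315) (nat_lit 315))) (XT.nd (nat_lit 78) (nat_lit 0) (nat_lit 0) (XT.lf (nat_lit 0) (nat_lit 1486390515) (nat_lit 152) (nat_lit 40941737025) (nat_lit 0) (nat_lit 1371156066) (nat_lit 4) (nat_lit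 5) (nat_lit 6) (nat_lit 4) (nat_lit 4) (nat_lit 4) (nat_lit 391) (nat_lit 315) (nat_lit 314)) (XT.nd (nat_lit 78) (nat_lit 0) (nat_lit 0) (XT.lf (nat_lit 0) (nat_lit 7831964663) (nat_lit 152) (nat_lit 31352744418) (nat_lit 0) (nat_lit 7610031650) (nat_lit 4) (nat_lit 5) (nat_lit 6) (nat_lit 4) (nat_lit 4) (nat_lit 4) (nat_lit 392) (nat_lit 315) (nat_lit 313)) (XT.lf (nat_lit 0) (nat_lit 14383760909) (nat_lit 152) (nat_lit 21607173301) (nat_lit 0) (nat_lit 14063032929) (nat_lit 4) (nat_lit 5) (nat_lit 6) (nat_lit 4) (nat_lit 4) (nat_lit 4) (nat_lit 393) (nat_lit 315) (nat_lit 312))))) (XT.nd (nat_lit 156) (nat_lit 76) (nat_lit 0) (XT.nd (nat_lit 78) (nat_lit 0) (nat_lit 0) (XT.lf (nat_lit 0) (nat_lit 21180604713) (nat_lit 152) (nat_lit 11647272143) (nat_lit 0) (nat_lit 20768399912) (nat_lit 4) (nat_lit 5) (nat_lit 6) (nat_lit 4) (nat_lit 4) (nat_lit 4) (nat_lit 394) (nat_lit 315) (nat_lit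 311)) (XT.lf (nat_lit 0) (nat_lit 28262773666) (nat_lit 152) (nat_lit 1414019306) (nat_lit 0) (nat_lit 27765868105) (nat_lit 4) (nat_lit 5) (nat_lit 6) (nat_lit 4) (nat_lit 4) (nat_lit 4) (nat_lit 395) (nat_lit 315) (nat_lit 310))) (XT.nd (nat_lit 78) (nat_lit 0) (nat_lit 0) (XT.lf (nat_lit 0) (nat_lit 9635219404) (nat_lit 76) (nat_lit 26268744033) (nat_lit 76) (nat_lit 25693411841) (nat_lit 3) (nat_lit 4) (nat_lit 4) (nat_lit 5) (nat_lit 4) (nat_lit 4) (nat_lit 396) (nat_lit 315) (nat_lit 309)) (XT.nd (nat_lit 78) (nat_lit 0) (nat_lit 0) (XT.lf (nat_lit 0) (nat_lit 21176416744) (nat_lit 76) (nat_lit 22785776763) (nat_lit 76) (nat_lit 22137827322) (nat_lit 3) (nat_lit 4) (nat_lit 4) (nat_lit 5) (nat_lit 4) (nat_lit 4) (nat_lit 397) (nat_lit 315) (nat_lit 308)) (XT.lf (nat_lit 0) (nat_lit 33203505244) (nat_lit 76) (nat_lit 19245913151) (nat_lit 76) (nat_lit 18530725515) (nat_lit 3) (nat_lit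 4) (nat_lit 4) (nat_lit 5) (nat_lit 4) (nat_lit 4) (nat_lit 398) (nat_lit 315) (nat_lit 307)))))) (XT.nd (nat_lit 390) (nat_lit 0) (nat_lit 0) (XT.nd (nat_lit 156) (nat_lit 152) (nat_lit 0) (XT.nd (nat_lit 78) (nat_lit 0) (nat_lit 0) (XT.lf (nat_lit 0) (nat_lit 45787756538) (nat_lit 76) (nat_lit 15628176228) (nat_lit 76) (nat_lit 14850731005) (nat_lit 3) (nat_lit 4) (nat_lit 4) (nat_lit 5) (nat_lit 4) (nat_lit 4) (nat_lit 399) (nat_lit 315) (nat_lit 306)) (XT.lf (nat_lit 0) (nat_lit 59003743968) (nat_lit 76) (nat_lit 11911127552) (nat_lit 76) (nat_lit 11076036415) (nat_lit 3) (nat_lit 4) (nat_lit 4) (nat_lit 5) (nat_lit 4) (nat_lit 4) (nat_lit 400) (nat_lit 315) (nat_lit 305))) (XT.nd (nat_lit 78) (nat_lit 152) (nat_lit 0) (XT.lf (nat_lit 0) (nat_lit 72929784497) (nat_lit 76) (nat_lit 8072740169) (nat_lit 76) (nat_lit 7184273186) (nat_lit 3) (nat_lit 4) (nat_lit 4) (nat_lit 5) (nat_lit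 4) (nat_lit 4) (nat_lit 401) (nat_lit 315) (nat_lit 304)) (XT.nd (nat_lit 78) (nat_lit 152) (nat_lit 0) (XT.lf (nat_lit 0) (nat_lit 87648402808) (nat_lit 76) (nat_lit 4090268079) (nat_lit 76) (nat_lit 3152379015) (nat_lit 3) (nat_lit 4) (nat_lit 4) (nat_lit 5) (nat_lit 4) (nat_lit 4) (nat_lit 402) (nat_lit 315) (nat_lit 303)) (XT.lf (nat_lit 0) (nat_lit 1021437535) (nat_lit 152) (nat_lit 101006889356) (nat_lit 0) (nat_lit 110650267) (nat_lit 1) (nat_lit 5) (nat_lit 3) (nat_lit 4) (nat_lit 1) (nat_lit 4) (nat_lit 403) (nat_lit 315) (nat_lit 302))))) (XT.nd (nat_lit 156) (nat_lit 0) (nat_lit 0) (XT.nd (nat_lit 78) (nat_lit 0) (nat_lit 0) (XT.lf (nat_lit 0) (nat_lit 5518015173) (nat_lit 152) (nat_lit 99861452137) (nat_lit 0) (nat_lit 4567995065) (nat_lit 1) (nat_lit 5) (nat_lit 3) (nat_lit 4) (nat_lit 1) (nat_lit 4) (nat_lit 404) (nat_lit 315) (nat_lit 301)) (XT.lf (nat_lit 0) (nat_lit 10235203300)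 (nat_lit 152) (nat_lit 98907702795) (nat_lit 0) (nat_lit 9248856488) (nat_lit 1) (nat_lit 5) (nat_lit 3) (nat_lit 4) (nat_lit 1) (nat_lit 4) (nat_lit 405) (nat_lit 315) (nat_lit 300))) (XT.nd (nat_lit 78) (nat_lit 0) (nat_lit 0) (XT.lf (nat_lit 0) (nat_lit 15200955624) (nat_lit 152) (nat_lit 98139989481) (nat_lit 0) (nat_lit 14180972974) (nat_lit 1) (nat_lit 5) (nat_lit 3) (nat_lit 4) (nat_lit 1) (nat_lit 4) (nat_lit 406) (nat_lit 315) (nat_lit 299)) (XT.nd (nat_lit 78) (nat_lit 0) (nat_lit 0) (XT.lf (nat_lit 0) (nat_lit 20444698825) (nat_lit 152) (nat_lit 97553762784) (nat_lit 0) (nat_lit 19393571881) (nat_lit 1) (nat_lit 5) (nat_lit 3) (nat_lit 4) (nat_lit 1) (nat_lit 4) (nat_lit 407) (nat_lit 315) (nat_lit 298)) (XT.lf (nat_lit 0) (nat_lit 25997506936) (nat_lit 152) (nat_lit 97145548766) (nat_lit 0) (nat_lit 24917542683) (nat_lit 1) (nat_lit 5) (nat_lit 3) (nat_lit 4) (nat_lit 1) (nat_lit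 4) (nat_lit 408) (nat_lit 315) (nat_lit 297))))))) (XT.nd (nat_lit 780) (nat_lit 0) (nat_lit 0) (XT.nd (nat_lit 390) (nat_lit 0) (nat_lit 0) (XT.nd (nat_lit 156) (nat_lit 0) (nat_lit 0) (XT.nd (nat_lit 78) (nat_lit 0) (nat_lit 0) (XT.lf (nat_lit 0) (nat_lit 31892285487) (nat_lit 152) (nat_lit 96912928382) (nat_lit 0) (nat_lit 30785620022) (nat_lit 1) (nat_lit 5) (nat_lit 3) (nat_lit 4) (nat_lit 1) (nat_lit 4) (nat_lit 409) (nat_lit 315) (nat_lit 296)) (XT.lf (nat_lit 0) (nat_lit 38163966500) (nat_lit 152) (nat_lit 96854523141) (nat_lit 0) (nat_lit 37032577690) (nat_lit 1) (nat_lit 5) (nat_lit 3) (nat_lit 4) (nat_lit 1) (nat_lit 4) (nat_lit 410) (nat_lit 315) (nat_lit 295))) (XT.nd (nat_lit 78) (nat_lit 0) (nat_lit 0) (XT.lf (nat_lit 0) (nat_lit 44849715490) (nat_lit 152) (nat_lit 96969986938) (nat_lit 0) (nat_lit 43695434696) (nat_lit 1) (nat_lit 5) (nat_lit 3) (nat_lit 4) (nat_lit 1)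 (nat_lit 4) (nat_lit 411) (nat_lit 315) (nat_lit 294)) (XT.nd (nat_lit 78) (nat_lit 0) (nat_lit 0) (XT.lf (nat_lit 0) (nat_lit 51989151713) (nat_lit 152) (nat_lit 97260004002) (nat_lit 0) (nat_lit 50813674635) (nat_lit 1) (nat_lit 5) (nat_lit 3) (nat_lit 4) (nat_lit 1) (nat_lit 4) (nat_lit 412) (nat_lit 315) (nat_lit 293)) (XT.lf (nat_lit 0) (nat_lit 59624582937) (nat_lit 152) (nat_lit 97726292954) (nat_lit 0) (nat_lit 58429479672) (nat_lit 1) (nat_lit 5) (nat_lit 3) (nat_lit 4) (nat_lit 1) (nat_lit 4) (nat_lit 413) (nat_lit 315) (nat_lit 292))))) (XT.nd (nat_lit 156) (nat_lit 0) (nat_lit 0) (XT.nd (nat_lit 78) (nat_lit 0) (nat_lit 0) (XT.lf (nat_lit 0) (nat_lit 67801256163) (nat_lit 152) (nat_lit 98371616987) (nat_lit 0) (nat_lit 66587980501) (nat_lit 1) (nat_lit 5) (nat_lit 3) (nat_lit 4) (nat_lit 1) (nat_lit 4) (nat_lit 414) (nat_lit 315) (nat_lit 291)) (XT.lf (nat_lit 0) (nat_lit 76567625751)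 (nat_lit 152) (nat_lit 99199800243) (nat_lit 0) (nat_lit 75337523796) (nat_lit 1) (nat_lit 5) (nat_lit 3) (nat_lit 4) (nat_lit 1) (nat_lit 4) (nat_lit 415) (nat_lit 315) (nat_lit 290))) (XT.nd (nat_lit 78) (nat_lit 0) (nat_lit 0) (XT.lf (nat_lit 0) (nat_lit 85975640557) (nat_lit 152) (nat_lit 100215750475) (nat_lit 0) (nat_lit 84729958701) (nat_lit 1) (nat_lit 5) (nat_lit 3) (nat_lit 4) (nat_lit 1) (nat_lit 4) (nat_lit 416) (nat_lit 315) (nat_lit 289)) (XT.nd (nat_lit 78) (nat_lit 0) (nat_lit 0) (XT.lf (nat_lit 0) (nat_lit 96081051780) (nat_lit 152) (nat_lit 101425488129) (nat_lit 0) (nat_lit 94820944090) (nat_lit 1) (nat_lit 5) (nat_lit 3) (nat_lit 4) (nat_lit 1) (nat_lit 4) (nat_lit 417) (nat_lit 315) (nat_lit 288)) (XT.lf (nat_lit 0) (nat_lit 106943743338) (nat_lit 152) (nat_lit 102836182021) (nat_lit 0) (nat_lit 105670278395) (nat_lit 1) (nat_lit 5) (nat_lit 3) (nat_lit 4) (nat_lit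 1) (nat_lit 4) (nat_lit 418) (nat_lit 315) (nat_lit 287)))))) (XT.nd (nat_lit 390) (nat_lit 0) (nat_lit 0) (XT.nd (nat_lit 156) (nat_lit 0) (nat_lit 0) (XT.nd (nat_lit 78) (nat_lit 0) (nat_lit 0) (XT.lf (nat_lit 0) (nat_lit 118628086738) (nat_lit 152) (nat_lit 104456191818) (nat_lit 0) (nat_lit 117342253967) (nat_lit 1) (nat_lit 5) (nat_lit 3) (nat_lit 4) (nat_lit 1) (nat_lit 4) (nat_lit 419) (nat_lit 315) (nat_lit 286)) (XT.lf (nat_lit 0) (nat_lit 131203322532) (nat_lit 152) (nat_lit 106295117578) (nat_lit 0) (nat_lit 129906038069) (nat_lit 1) (nat_lit 5) (nat_lit 3) (nat_lit 4) (nat_lit 1) (nat_lit 4) (nat_lit 420) (nat_lit 315) (nat_lit 285))) (XT.nd (nat_lit 78) (nat_lit 0) (nat_lit 0) (XT.lf (nat_lit 0) (nat_lit 144743970637) (nat_lit 152) (nat_lit 108363856639) (nat_lit 0) (nat_lit 143436082755) (nat_lit 1) (nat_lit 5) (nat_lit 3) (nat_lit 4) (nat_lit 1) (nat_lit 4) (nat_lit 421)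 (nat_lit 315) (nat_lit 284)) (XT.nd (nat_lit 78) (nat_lit 0) (nat_lit 0) (XT.lf (nat_lit 0) (nat_lit 159330271930) (nat_lit 152) (nat_lit 110674668196) (nat_lit 0) (nat_lit 158012566067) (nat_lit 1) (nat_lit 5) (nat_lit 3) (nat_lit 4) (nat_lit 1) (nat_lit 4) (nat_lit 422) (nat_lit 315) (nat_lit 283)) (XT.lf (nat_lit 0) (nat_lit 175048663751) (nat_lit 152) (nat_lit 113241245946) (nat_lit 0) (nat_lit 173721867167) (nat_lit 1) (nat_lit 5) (nat_lit 3) (nat_lit 4) (nat_lit 1) (nat_lit 4) (nat_lit 423) (nat_lit 315) (nat_lit 282))))) (XT.nd (nat_lit 234) (nat_lit 0) (nat_lit 0) (XT.nd (nat_lit 78) (nat_lit 0) (nat_lit 0) (XT.lf (nat_lit 0) (nat_lit 191992292128) (nat_lit 152) (nat_lit 116078799239) (nat_lit 0) (nat_lit 190657078207) (nat_lit 1) (nat_lit 5) (nat_lit 3) (nat_lit 4) (nat_lit 1) (nat_lit 4) (nat_lit 424) (nat_lit 315) (nat_lit 281)) (XT.nd (nat_lit 78) (nat_lit 0) (nat_lit 0) (XT.lf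 (nat_lit 0) (nat_lit 210261563745) (nat_lit 152) (nat_lit 119204143206) (nat_lit 0) (nat_lit 208918555996) (nat_lit 1) (nat_lit 5) (nat_lit 3) (nat_lit 4) (nat_lit 1) (nat_lit 4) (nat_lit 425) (nat_lit 315) (nat_lit 280)) (XT.lf (nat_lit 0) (nat_lit 229964740955) (nat_lit 152) (nat_lit 122635798404) (nat_lit 0) (nat_lit 228614516696) (nat_lit 1) (nat_lit 5) (nat_lit 3) (nat_lit 4) (nat_lit 1) (nat_lit 4) (nat_lit 426) (nat_lit 315) (nat_lit 279)))) (XT.nd (nat_lit 78) (nat_lit 0) (nat_lit 0) (XT.lf (nat_lit 0) (nat_lit 251218583324) (nat_lit 152) (nat_lit 126394100568) (nat_lit 0) (nat_lit 249861677114) (nat_lit 1) (nat_lit 5) (nat_lit 3) (nat_lit 4) (nat_lit 1) (nat_lit 4) (nat_lit 427) (nat_lit 315) (nat_lit 278)) (XT.nd (nat_lit 78) (nat_lit 0) (nat_lit 0) (XT.lf (nat_lit 0) (nat_lit 274149039550) (nat_lit 152) (nat_lit 130501321116) (nat_lit 0) (nat_lit 272785946346) (nat_lit 1) (nat_lit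 5) (nat_lit 3) (nat_lit 4) (nat_lit 1) (nat_lit 4) (nat_lit 428) (nat_lit 315) (nat_lit 277)) (XT.lf (nat_lit 0) (nat_lit 298891993816) (nat_lit 152) (nat_lit 134981799135) (nat_lit 0) (nat_lit 297523171915) (nat_lit 1) (nat_lit 5) (nat_lit 3) (nat_lit 4) (nat_lit 1) (nat_lit 4) (nat_lit 429) (nat_lit 315) (nat_lit 276))))))))
noncomputable def xc35 : XT := (XT.nd (nat_lit 1638) (nat_lit 0) (nat_lit 0) (XT.nd (nat_lit 780) (nat_lit 0) (nat_lit 0) (XT.nd (nat_lit 390) (nat_lit 0) (nat_lit 0) (XT.nd (nat_lit 156) (nat_lit 0) (nat_lit 0) (XT.nd (nat_lit 78) (nat_lit 0) (nat_lit 0) (XT.lf (nat_lit 0) (nat_lit 325594071037) (nat_lit 152) (nat_lit 139862085605) (nat_lit 0) (nat_lit 324219944787) (nat_lit 1) (nat_lit 5) (nat_lit 3) (nat_lit 4) (nat_lit 1) (nat_lit 4) (nat_lit 430) (nat_lit 315) (nat_lit 275)) (XT.lf (nat_lit 0) (nat_lit 354413505745) (nat_lit 152) (nat_lit 145171100741) (nat_lit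 0) (nat_lit 353034468061) (nat_lit 1) (nat_lit 5) (nat_lit 3) (nat_lit 4) (nat_lit 1) (nat_lit 4) (nat_lit 431) (nat_lit 315) (nat_lit 274))) (XT.nd (nat_lit 78) (nat_lit 0) (nat_lit 0) (XT.lf (nat_lit 0) (nat_lit 385521079775) (nat_lit 152) (nat_lit 150940305376) (nat_lit 0) (nat_lit 384137494466) (nat_lit 1) (nat_lit 5) (nat_lit 3) (nat_lit 4) (nat_lit 1) (nat_lit 4) (nat_lit 432) (nat_lit 315) (nat_lit 273)) (XT.nd (nat_lit 78) (nat_lit 0) (nat_lit 0) (XT.lf (nat_lit 0) (nat_lit 419101134307) (nat_lit 152) (nat_lit 157203887387) (nat_lit 0) (nat_lit 417713338234) (nat_lit 1) (nat_lit 5) (nat_lit 3) (nat_lit 4) (nat_lit 1) (nat_lit 4) (nat_lit 433) (nat_lit 315) (nat_lit 272)) (XT.lf (nat_lit 0) (nat_lit 455352662255) (nat_lit 152) (nat_lit 163998964298) (nat_lit 0) (nat_lit 453960967328) (nat_lit 1) (nat_lit 5) (nat_lit 3) (nat_lit 4) (nat_lit 1) (nat_lit 4) (nat_lit 434) (nat_lit 315)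 (nat_lit 271))))) (XT.nd (nat_lit 156) (nat_lit 0) (nat_lit 0) (XT.nd (nat_lit 78) (nat_lit 0) (nat_lit 0) (XT.lf (nat_lit 0) (nat_lit 494490487491) (nat_lit 152) (nat_lit 171365803232) (nat_lit 0) (nat_lit 493095182512) (nat_lit 1) (nat_lit 5) (nat_lit 3) (nat_lit 4) (nat_lit 1) (nat_lit 4) (nat_lit 435) (nat_lit 315) (nat_lit 270)) (XT.lf (nat_lit 0) (nat_lit 536746537866) (nat_lit 152) (nat_lit 179348059529) (nat_lit 0) (nat_lit 535347890247) (nat_lit 1) (nat_lit 5) (nat_lit 3) (nat_lit 4) (nat_lit 1) (nat_lit 4) (nat_lit 436) (nat_lit 315) (nat_lit 269))) (XT.nd (nat_lit 78) (nat_lit 0) (nat_lit 0) (XT.lf (nat_lit 0) (nat_lit 582371219605) (nat_lit 152) (nat_lit 187993035451) (nat_lit 0) (nat_lit 580969476950) (nat_lit 1) (nat_lit 5) (nat_lit 3) (nat_lit 4) (nat_lit 1) (nat_lit 4) (nat_lit 437) (nat_lit 315) (nat_lit 268)) (XT.nd (nat_lit 78) (nat_lit 0) (nat_lit 0) (XT.lf (nat_lit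 0) (nat_lit 631634901192) (nat_lit 152) (nat_lit 197351960483) (nat_lit 0) (nat_lit 630230292762) (nat_lit 1) (nat_lit 5) (nat_lit 3) (nat_lit 4) (nat_lit 1) (nat_lit 4) (nat_lit 438) (nat_lit 315) (nat_lit 267)) (XT.lf (nat_lit 0) (nat_lit 684829515557) (nat_lit 152) (nat_lit 207480294922) (nat_lit 0) (nat_lit 683422253632) (nat_lit 1) (nat_lit 5) (nat_lit 3) (nat_lit 4) (nat_lit 1) (nat_lit 4) (nat_lit 439) (nat_lit 315) (nat_lit 266)))))) (XT.nd (nat_lit 390) (nat_lit 0) (nat_lit 0) (XT.nd (nat_lit 156) (nat_lit 0) (nat_lit 0) (XT.nd (nat_lit 78) (nat_lit 0) (nat_lit 0) (XT.lf (nat_lit 0) (nat_lit 742270290042) (nat_lit 152) (nat_lit 218438058528) (nat_lit 0) (nat_lit 740860571177) (nat_lit 1) (nat_lit 5) (nat_lit 3) (nat_lit 4) (nat_lit 1) (nat_lit 4) (nat_lit 440) (nat_lit 315) (nat_lit 265)) (XT.lf (nat_lit 0) (nat_lit 804297614423) (nat_lit 152) (nat_lit 230290186196) (nat_lit 0)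 (nat_lit 802885620613) (nat_lit 1) (nat_lit 5) (nat_lit 3) (nat_lit 4) (nat_lit 1) (nat_lit 4) (nat_lit 441) (nat_lit 315) (nat_lit 264))) (XT.nd (nat_lit 78) (nat_lit 0) (nat_lit 0) (XT.lf (nat_lit 0) (nat_lit 871279058029) (nat_lit 152) (nat_lit 243106912757) (nat_lit 0) (nat_lit 869864957789) (nat_lit 1) (nat_lit 5) (nat_lit 3) (nat_lit 4) (nat_lit 1) (nat_lit 4) (nat_lit 442) (nat_lit 315) (nat_lit 263)) (XT.nd (nat_lit 78) (nat_lit 0) (nat_lit 0) (XT.lf (nat_lit 0) (nat_lit 943611547933) (nat_lit 152) (nat_lit 256964189184) (nat_lit 0) (nat_lit 942195497295) (nat_lit 1) (nat_lit 5) (nat_lit 3) (nat_lit 4) (nat_lit 1) (nat_lit 4) (nat_lit 443) (nat_lit 315) (nat_lit 262)) (XT.lf (nat_lit 0) (nat_lit 1021723721114) (nat_lit 152) (nat_lit 271944132668) (nat_lit 0) (nat_lit 1020305864551) (nat_lit 1) (nat_lit 5) (nat_lit 3) (nat_lit 4) (nat_lit 1) (nat_lit 4) (nat_lit 444) (nat_lit 315)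 (nat_lit 261))))) (XT.nd (nat_lit 234) (nat_lit 0) (nat_lit 0) (XT.nd (nat_lit 78) (nat_lit 0) (nat_lit 0) (XT.lf (nat_lit 0) (nat_lit 1106078464522) (nat_lit 152) (nat_lit 288135513247) (nat_lit 0) (nat_lit 1104658935807) (nat_lit 1) (nat_lit 5) (nat_lit 3) (nat_lit 4) (nat_lit 1) (nat_lit 4) (nat_lit 445) (nat_lit 315) (nat_lit 260)) (XT.nd (nat_lit 78) (nat_lit 0) (nat_lit 0) (XT.lf (nat_lit 0) (nat_lit 1197175658119) (nat_lit 152) (nat_lit 305634279842) (nat_lit 0) (nat_lit 1195754581116) (nat_lit 1) (nat_lit 5) (nat_lit 3) (nat_lit 4) (nat_lit 1) (nat_lit 4) (nat_lit 446) (nat_lit 315) (nat_lit 259)) (XT.lf (nat_lit 0) (nat_lit 1295555137126) (nat_lit 152) (nat_lit 324544128848) (nat_lit 0) (nat_lit 1294132626522) (nat_lit 1) (nat_lit 5) (nat_lit 3) (nat_lit 4) (nat_lit 1) (nat_lit 4) (nat_lit 447) (nat_lit 315) (nat_lit 258)))) (XT.nd (nat_lit 78) (nat_lit 0) (nat_lit 0) (XT.lf (nat_lit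 0) (nat_lit 1401799891049) (nat_lit 152) (nat_lit 344977118629) (nat_lit 0) (nat_lit 1400376053036) (nat_lit 1) (nat_lit 5) (nat_lit 3) (nat_lit 4) (nat_lit 1) (nat_lit 4) (nat_lit 448) (nat_lit 315) (nat_lit 257)) (XT.nd (nat_lit 78) (nat_lit 0) (nat_lit 0) (XT.lf (nat_lit 0) (nat_lit 1516539518428) (nat_lit 152) (nat_lit 367054333570) (nat_lit 0) (nat_lit 1515114451334) (nat_lit 1) (nat_lit 5) (nat_lit 3) (nat_lit 4) (nat_lit 1) (nat_lit 4) (nat_lit 449) (nat_lit 315) (nat_lit 256)) (XT.lf (nat_lit 0) (nat_lit 1640453957798) (nat_lit 152) (nat_lit 390906601609) (nat_lit 0) (nat_lit 1639027752665) (nat_lit 1) (nat_lit 5) (nat_lit 3) (nat_lit 4) (nat_lit 1) (nat_lit 4) (nat_lit 450) (nat_lit 315) (nat_lit 255))))))) (XT.nd (nat_lit 780) (nat_lit 0) (nat_lit 0) (XT.nd (nat_lit 390) (nat_lit 0) (nat_lit 0) (XT.nd (nat_lit 156) (nat_lit 0) (nat_lit 0) (XT.nd (nat_lit 78) (nat_lit 0) (nat_lit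 0) (XT.lf (nat_lit 0) (nat_lit 1774277516946) (nat_lit 152) (nat_lit 416675269522) (nat_lit 0) (nat_lit 1772850258074) (nat_lit 1) (nat_lit 5) (nat_lit 3) (nat_lit 4) (nat_lit 1) (nat_lit 4) (nat_lit 451) (nat_lit 315) (nat_lit 254)) (XT.lf (nat_lit 0) (nat_lit 1918803224371) (nat_lit 152) (nat_lit 444513040525) (nat_lit 0) (nat_lit 1917374989814) (nat_lit 1) (nat_lit 5) (nat_lit 3) (nat_lit 4) (nat_lit 1) (nat_lit 4) (nat_lit 452) (nat_lit 315) (nat_lit 253))) (XT.nd (nat_lit 78) (nat_lit 0) (nat_lit 0) (XT.lf (nat_lit 0) (nat_lit 2074887528711) (nat_lit 152) (nat_lit 474584879188) (nat_lit 0) (nat_lit 2073458390742) (nat_lit 1) (nat_lit 5) (nat_lit 3) (nat_lit 4) (nat_lit 1) (nat_lit 4) (nat_lit 453) (nat_lit 315) (nat_lit 252)) (XT.nd (nat_lit 78) (nat_lit 0) (nat_lit 0) (XT.lf (nat_lit 0) (nat_lit 2243455373989) (nat_lit 152) (nat_lit 507068988998) (nat_lit 0) (nat_lit 2242025399528)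 (nat_lit 1) (nat_lit 5) (nat_lit 3) (nat_lit 4) (nat_lit 1) (nat_lit 4) (nat_lit 454) (nat_lit 315) (nat_lit 251)) (XT.lf (nat_lit 0) (nat_lit 2425505680772) (nat_lit 152) (nat_lit 542157868384) (nat_lit 0) (nat_lit 2424074931781) (nat_lit 1) (nat_lit 5) (nat_lit 3) (nat_lit 4) (nat_lit 1) (nat_lit 4) (nat_lit 455) (nat_lit 315) (nat_lit 250))))) (XT.nd (nat_lit 156) (nat_lit 0) (nat_lit 0) (XT.nd (nat_lit 78) (nat_lit 0) (nat_lit 0) (XT.lf (nat_lit 0) (nat_lit 2622117265692) (nat_lit 152) (nat_lit 580059451446) (nat_lit 0) (nat_lit 2620685799544) (nat_lit 1) (nat_lit 5) (nat_lit 3) (nat_lit 4) (nat_lit 1) (nat_lit 4) (nat_lit 456) (nat_lit 315) (nat_lit 249)) (XT.lf (nat_lit 0) (nat_lit 2834455234438) (nat_lit 152) (nat_lit 620998340158) (nat_lit 0) (nat_lit 2833023104255) (nat_lit 1) (nat_lit 5) (nat_lit 3) (nat_lit 4) (nat_lit 1) (nat_lit 4) (nat_lit 457) (nat_lit 315) (nat_lit 248)))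 (XT.nd (nat_lit 78) (nat_lit 0) (nat_lit 0) (XT.lf (nat_lit 0) (nat_lit 3063777886083) (nat_lit 152) (nat_lit 665217135342) (nat_lit 0) (nat_lit 3062345141053) (nat_lit 1) (nat_lit 5) (nat_lit 3) (nat_lit 4) (nat_lit 1) (nat_lit 4) (nat_lit 458) (nat_lit 315) (nat_lit 247)) (XT.nd (nat_lit 78) (nat_lit 0) (nat_lit 0) (XT.lf (nat_lit 0) (nat_lit 3311444169674) (nat_lit 152) (nat_lit 712977874303) (nat_lit 0) (nat_lit 3310010855341) (nat_lit 1) (nat_lit 5) (nat_lit 3) (nat_lit 4) (nat_lit 1) (nat_lit 4) (nat_lit 459) (nat_lit 315) (nat_lit 246)) (XT.lf (nat_lit 0) (nat_lit 3578921737262) (nat_lit 152) (nat_lit 764563583642) (nat_lit 0) (nat_lit 3577487895797) (nat_lit 1) (nat_lit 5) (nat_lit 3) (nat_lit 4) (nat_lit 1) (nat_lit 4) (nat_lit 460) (nat_lit 315) (nat_lit 245)))))) (XT.nd (nat_lit 47502) (nat_lit 0) (nat_lit 228) (XT.nd (nat_lit 156) (nat_lit 0) (nat_lit 0) (XT.nd (nat_lit 78)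 (nat_lit 0) (nat_lit 0) (XT.lf (nat_lit 0) (nat_lit 3867795641100) (nat_lit 152) (nat_lit 820279956451) (nat_lit 0) (nat_lit 3866361311550) (nat_lit 1) (nat_lit 5) (nat_lit 3) (nat_lit 4) (nat_lit 1) (nat_lit 4) (nat_lit 461) (nat_lit 315) (nat_lit 244)) (XT.lf (nat_lit 0) (nat_lit 4179777726543) (nat_lit 152) (nat_lit 880457163828) (nat_lit 0) (nat_lit 4178342945063) (nat_lit 1) (nat_lit 5) (nat_lit 3) (nat_lit 4) (nat_lit 1) (nat_lit 4) (nat_lit 462) (nat_lit 315) (nat_lit 243))) (XT.nd (nat_lit 78) (nat_lit 0) (nat_lit 0) (XT.lf (nat_lit 0) (nat_lit 4516716776321) (nat_lit 152) (nat_lit 945451811447) (nat_lit 0) (nat_lit 4515281576386) (nat_lit 1) (nat_lit 5) (nat_lit 3) (nat_lit 4) (nat_lit 1) (nat_lit 4) (nat_lit 463) (nat_lit 315) (nat_lit 242)) (XT.nd (nat_lit 47190) (nat_lit 0) (nat_lit 380) (XT.lf (nat_lit 0) (nat_lit 4880609466283) (nat_lit 152) (nat_lit 1015649052775) (nat_lit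 0) (nat_lit 4879173878890) (nat_lit 1) (nat_lit 5) (nat_lit 3) (nat_lit 4) (nat_lit 1) (nat_lit 4) (nat_lit 464) (nat_lit 315) (nat_lit 241)) (XT.lf (nat_lit 0) (nat_lit 2078781606) (nat_lit 76) (nat_lit 7981317753) (nat_lit 76) (nat_lit 7981317753) (nat_lit 6) (nat_lit 4) (nat_lit 7) (nat_lit 5) (nat_lit 7) (nat_lit 4) (nat_lit 388) (nat_lit 316) (nat_lit 316))))) (XT.nd (nat_lit 234) (nat_lit 0) (nat_lit 0) (XT.nd (nat_lit 78) (nat_lit 152) (nat_lit 0) (XT.lf (nat_lit 0) (nat_lit 17640727738) (nat_lit 76) (nat_lit 10470274401) (nat_lit 76) (nat_lit 10335864939) (nat_lit 6) (nat_lit 4) (nat_lit 7) (nat_lit 5) (nat_lit 7) (nat_lit 4) (nat_lit 389) (nat_lit 316) (nat_lit 315)) (XT.nd (nat_lit 78) (nat_lit 152) (nat_lit 0) (XT.lf (nat_lit 0) (nat_lit 31561355465) (nat_lit 76) (nat_lit 4861505097) (nat_lit 76) (nat_lit 4602642430) (nat_lit 6) (nat_lit 4) (nat_lit 7) (nat_lit 5) (nat_lit 7)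 (nat_lit 4) (nat_lit 390) (nat_lit 316) (nat_lit 314)) (XT.lf (nat_lit 0) (nat_lit 1285305980) (nat_lit 152) (nat_lit 41601121196) (nat_lit 0) (nat_lit 938919761) (nat_lit 4) (nat_lit 5) (nat_lit 6) (nat_lit 4) (nat_lit 4) (nat_lit 4) (nat_lit 391) (nat_lit 316) (nat_lit 313)))) (XT.nd (nat_lit 78) (nat_lit 0) (nat_lit 0) (XT.lf (nat_lit 0) (nat_lit 7485964823) (nat_lit 152) (nat_lit 32305657867) (nat_lit 0) (nat_lit 7040783638) (nat_lit 4) (nat_lit 5) (nat_lit 6) (nat_lit 4) (nat_lit 4) (nat_lit 4) (nat_lit 392) (nat_lit 316) (nat_lit 312)) (XT.nd (nat_lit 78) (nat_lit 0) (nat_lit 0) (XT.lf (nat_lit 0) (nat_lit 13903580231) (nat_lit 152) (nat_lit 22831873120) (nat_lit 0) (nat_lit 13366922225) (nat_lit 4) (nat_lit 5) (nat_lit 6) (nat_lit 4) (nat_lit 4) (nat_lit 4) (nat_lit 393) (nat_lit 316) (nat_lit 311)) (XT.lf (nat_lit 0) (nat_lit 20576182518) (nat_lit 152) (nat_lit 13123626007) (nat_lit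 0) (nat_lit 19954823752) (nat_lit 4) (nat_lit 5) (nat_lit 6) (nat_lit 4) (nat_lit 4) (nat_lit 4) (nat_lit 394) (nat_lit 316) (nat_lit 310))))))))
noncomputable def xc36 : XT := (XT.nd (nat_lit 1560) (nat_lit 0) (nat_lit 0) (XT.nd (nat_lit 780) (nat_lit 0) (nat_lit 0) (XT.nd (nat_lit 390) (nat_lit 152) (nat_lit 0) (XT.nd (nat_lit 156) (nat_lit 0) (nat_lit 0) (XT.nd (nat_lit 78) (nat_lit 76) (nat_lit 0) (XT.lf (nat_lit 0) (nat_lit 27543313031) (nat_lit 152) (nat_lit 3123386175) (nat_lit 0) (nat_lit 26843527634) (nat_lit 4) (nat_lit 5) (nat_lit 6) (nat_lit 4) (nat_lit 4) (nat_lit 4) (nat_lit 395) (nat_lit 316) (nat_lit 309)) (XT.lf (nat_lit 0) (nat_lit 7608726364) (nat_lit 76) (nat_lit 27420522156) (nat_lit 76) (nat_lit 26648119510) (nat_lit 3) (nat_lit 4) (nat_lit 4) (nat_lit 5) (nat_lit 4) (nat_lit 4) (nat_lit 396) (nat_lit 316) (nat_lit 308))) (XT.nd (nat_lit 78) (nat_lit 0) (nat_lit 0)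 (XT.lf (nat_lit 0) (nat_lit 18939633017) (nat_lit 76) (nat_lit 24044161155) (nat_lit 76) (nat_lit 23204520314) (nat_lit 3) (nat_lit 4) (nat_lit 4) (nat_lit 5) (nat_lit 4) (nat_lit 4) (nat_lit 397) (nat_lit 316) (nat_lit 307)) (XT.nd (nat_lit 78) (nat_lit 0) (nat_lit 0) (XT.lf (nat_lit 0) (nat_lit 30772007918) (nat_lit 76) (nat_lit 20603007052) (nat_lit 76) (nat_lit 19701108624) (nat_lit 3) (nat_lit 4) (nat_lit 4) (nat_lit 5) (nat_lit 4) (nat_lit 4) (nat_lit 398) (nat_lit 316) (nat_lit 306)) (XT.lf (nat_lit 0) (nat_lit 43175968844) (nat_lit 76) (nat_lit 17076667822) (nat_lit 76) (nat_lit 16117123479) (nat_lit 3) (nat_lit 4) (nat_lit 4) (nat_lit 5) (nat_lit 4) (nat_lit 4) (nat_lit 399) (nat_lit 316) (nat_lit 305))))) (XT.nd (nat_lit 156) (nat_lit 152) (nat_lit 0) (XT.nd (nat_lit 78) (nat_lit 0) (nat_lit 0) (XT.lf (nat_lit 0) (nat_lit 56225020747) (nat_lit 76) (nat_lit 13444246640) (nat_lit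 76) (nat_lit 12431326451) (nat_lit 3) (nat_lit 4) (nat_lit 4) (nat_lit 5) (nat_lit 4) (nat_lit 4) (nat_lit 400) (nat_lit 316) (nat_lit 304)) (XT.lf (nat_lit 0) (nat_lit 69996491343) (nat_lit 76) (nat_lit 9684218047) (nat_lit 76) (nat_lit 8621875778) (nat_lit 3) (nat_lit 4) (nat_lit 4) (nat_lit 5) (nat_lit 4) (nat_lit 4) (nat_lit 401) (nat_lit 316) (nat_lit 303))) (XT.nd (nat_lit 78) (nat_lit 152) (nat_lit 0) (XT.lf (nat_lit 0) (nat_lit 84571989346) (nat_lit 76) (nat_lit 5774300392) (nat_lit 76) (nat_lit 4666196938) (nat_lit 3) (nat_lit 4) (nat_lit 4) (nat_lit 5) (nat_lit 4) (nat_lit 4) (nat_lit 402) (nat_lit 316) (nat_lit 302)) (XT.nd (nat_lit 78) (nat_lit 152) (nat_lit 0) (XT.lf (nat_lit 0) (nat_lit 100037888078) (nat_lit 76) (nat_lit 1691323794) (nat_lit 76) (nat_lit 540848872) (nat_lit 3) (nat_lit 4) (nat_lit 4) (nat_lit 5) (nat_lit 4) (nat_lit 4) (nat_lit 403) (nat_lit 316) (nat_lit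 301)) (XT.lf (nat_lit 0) (nat_lit 3817246769) (nat_lit 152) (nat_lit 103559920599) (nat_lit 0) (nat_lit 2715665507) (nat_lit 1) (nat_lit 5) (nat_lit 3) (nat_lit 4) (nat_lit 1) (nat_lit 4) (nat_lit 404) (nat_lit 316) (nat_lit 300)))))) (XT.nd (nat_lit 390) (nat_lit 0) (nat_lit 0) (XT.nd (nat_lit 156) (nat_lit 0) (nat_lit 0) (XT.nd (nat_lit 78) (nat_lit 0) (nat_lit 0) (XT.lf (nat_lit 0) (nat_lit 8472506601) (nat_lit 152) (nat_lit 102732294323) (nat_lit 0) (nat_lit 7337289502) (nat_lit 1) (nat_lit 5) (nat_lit 3) (nat_lit 4) (nat_lit 1) (nat_lit 4) (nat_lit 405) (nat_lit 316) (nat_lit 299)) (XT.lf (nat_lit 0) (nat_lit 13380917911) (nat_lit 152) (nat_lit 102081361625) (nat_lit 0) (nat_lit 12214556518) (nat_lit 1) (nat_lit 5) (nat_lit 3) (nat_lit 4) (nat_lit 1) (nat_lit 4) (nat_lit 406) (nat_lit 316) (nat_lit 298))) (XT.nd (nat_lit 78) (nat_lit 0) (nat_lit 0) (XT.lf (nat_lit 0) (nat_lit 18571567580)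 (nat_lit 152) (nat_lit 101603265127) (nat_lit 0) (nat_lit 17376368878) (nat_lit 1) (nat_lit 5) (nat_lit 3) (nat_lit 4) (nat_lit 1) (nat_lit 4) (nat_lit 407) (nat_lit 316) (nat_lit 297)) (XT.nd (nat_lit 78) (nat_lit 0) (nat_lit 0) (XT.lf (nat_lit 0) (nat_lit 24075215014) (nat_lit 152) (nat_lit 101295171664) (nat_lit 0) (nat_lit 22853315100) (nat_lit 1) (nat_lit 5) (nat_lit 3) (nat_lit 4) (nat_lit 1) (nat_lit 4) (nat_lit 408) (nat_lit 316) (nat_lit 296)) (XT.lf (nat_lit 0) (nat_lit 29924474420) (nat_lit 152) (nat_lit 101155255499) (nat_lit 0) (nat_lit 28677851161) (nat_lit 1) (nat_lit 5) (nat_lit 3) (nat_lit 4) (nat_lit 1) (nat_lit 4) (nat_lit 409) (nat_lit 316) (nat_lit 295))))) (XT.nd (nat_lit 156) (nat_lit 0) (nat_lit 0) (XT.nd (nat_lit 78) (nat_lit 0) (nat_lit 0) (XT.lf (nat_lit 0) (nat_lit 36154008075) (nat_lit 152) (nat_lit 101182687497) (nat_lit 0) (nat_lit 34884492831) (nat_lit 1)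 (nat_lit 5) (nat_lit 3) (nat_lit 4) (nat_lit 1) (nat_lit 4) (nat_lit 410) (nat_lit 316) (nat_lit 294)) (XT.lf (nat_lit 0) (nat_lit 42800731736) (nat_lit 152) (nat_lit 101377630218) (nat_lit 0) (nat_lit 41510020208) (nat_lit 1) (nat_lit 5) (nat_lit 3) (nat_lit 4) (nat_lit 1) (nat_lit 4) (nat_lit 411) (nat_lit 316) (nat_lit 293))) (XT.nd (nat_lit 78) (nat_lit 0) (nat_lit 0) (XT.lf (nat_lit 0) (nat_lit 49904033393) (nat_lit 152) (nat_lit 101741238880) (nat_lit 0) (nat_lit 48593695678) (nat_lit 1) (nat_lit 5) (nat_lit 3) (nat_lit 4) (nat_lit 1) (nat_lit 4) (nat_lit 412) (nat_lit 316) (nat_lit 292)) (XT.nd (nat_lit 78) (nat_lit 0) (nat_lit 0) (XT.lf (nat_lit 0) (nat_lit 57506006686) (nat_lit 152) (nat_lit 102275668199) (nat_lit 0) (nat_lit 56177496575) (nat_lit 1) (nat_lit 5) (nat_lit 3) (nat_lit 4) (nat_lit 1) (nat_lit 4) (nat_lit 413) (nat_lit 316) (nat_lit 291)) (XT.lf (nat_lit 0) (nat_lit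 65651700346) (nat_lit 152) (nat_lit 102984085165) (nat_lit 0) (nat_lit 64306363942) (nat_lit 1) (nat_lit 5) (nat_lit 3) (nat_lit 4) (nat_lit 1) (nat_lit 4) (nat_lit 414) (nat_lit 316) (nat_lit 290))))))) (XT.nd (nat_lit 780) (nat_lit 0) (nat_lit 0) (XT.nd (nat_lit 390) (nat_lit 0) (nat_lit 0) (XT.nd (nat_lit 156) (nat_lit 0) (nat_lit 0) (XT.nd (nat_lit 78) (nat_lit 0) (nat_lit 0) (XT.lf (nat_lit 0) (nat_lit 74389385151) (nat_lit 152) (nat_lit 103870687804) (nat_lit 0) (nat_lit 73028468846) (nat_lit 1) (nat_lit 5) (nat_lit 3) (nat_lit 4) (nat_lit 1) (nat_lit 4) (nat_lit 415) (nat_lit 316) (nat_lit 289)) (XT.lf (nat_lit 0) (nat_lit 83770839973) (nat_lit 152) (nat_lit 104940730057) (nat_lit 0) (nat_lit 82395497833) (nat_lit 1) (nat_lit 5) (nat_lit 3) (nat_lit 4) (nat_lit 1) (nat_lit 4) (nat_lit 416) (nat_lit 316) (nat_lit 288))) (XT.nd (nat_lit 78) (nat_lit 0) (nat_lit 0) (XT.lf (nat_lit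 0) (nat_lit 93851658618) (nat_lit 152) (nat_lit 106200552915) (nat_lit 0) (nat_lit 92462959225) (nat_lit 1) (nat_lit 5) (nat_lit 3) (nat_lit 4) (nat_lit 1) (nat_lit 4) (nat_lit 417) (nat_lit 316) (nat_lit 287)) (XT.nd (nat_lit 78) (nat_lit 0) (nat_lit 0) (XT.lf (nat_lit 0) (nat_lit 104691579271) (nat_lit 152) (nat_lit 107657621996) (nat_lit 0) (nat_lit 103290512050) (nat_lit 1) (nat_lit 5) (nat_lit 3) (nat_lit 4) (nat_lit 1) (nat_lit 4) (nat_lit 418) (nat_lit 316) (nat_lit 286)) (XT.lf (nat_lit 0) (nat_lit 116354838498) (nat_lit 152) (nat_lit 109320571784) (nat_lit 0) (nat_lit 114942319586) (nat_lit 1) (nat_lit 5) (nat_lit 3) (nat_lit 4) (nat_lit 1) (nat_lit 4) (nat_lit 419) (nat_lit 316) (nat_lit 285))))) (XT.nd (nat_lit 156) (nat_lit 0) (nat_lit 0) (XT.nd (nat_lit 78) (nat_lit 0) (nat_lit 0) (XT.lf (nat_lit 0) (nat_lit 128910551911) (nat_lit 152) (nat_lit 111199256794) (nat_lit 0) (nat_lit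 127487429580) (nat_lit 1) (nat_lit 5) (nat_lit 3) (nat_lit 4) (nat_lit 1) (nat_lit 4) (nat_lit 420) (nat_lit 316) (nat_lit 284)) (XT.lf (nat_lit 0) (nat_lit 142433123737) (nat_lit 152) (nat_lit 113304809975) (nat_lit 0) (nat_lit 141000183425) (nat_lit 1) (nat_lit 5) (nat_lit 3) (nat_lit 4) (nat_lit 1) (nat_lit 4) (nat_lit 421) (nat_lit 316) (nat_lit 283))) (XT.nd (nat_lit 78) (nat_lit 0) (nat_lit 0) (XT.lf (nat_lit 0) (nat_lit 157002687734) (nat_lit 152) (nat_lit 115649708681) (nat_lit 0) (nat_lit 155560656700) (nat_lit 1) (nat_lit 5) (nat_lit 3) (nat_lit 4) (nat_lit 1) (nat_lit 4) (nat_lit 422) (nat_lit 316) (nat_lit 282)) (XT.nd (nat_lit 78) (nat_lit 0) (nat_lit 0) (XT.lf (nat_lit 0) (nat_lit 172705582060) (nat_lit 152) (nat_lit 118247848605) (nat_lit 0) (nat_lit 171255133691) (nat_lit 1) (nat_lit 5) (nat_lit 3) (nat_lit 4) (nat_lit 1) (nat_lit 4) (nat_lit 423) (nat_lit 316) (nat_lit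 281)) (XT.lf (nat_lit 0) (nat_lit 189634860904) (nat_lit 152) (nat_lit 121114626135) (nat_lit 0) (nat_lit 188176618705) (nat_lit 1) (nat_lit 5) (nat_lit 3) (nat_lit 4) (nat_lit 1) (nat_lit 4) (nat_lit 424) (nat_lit 316) (nat_lit 280)))))) (XT.nd (nat_lit 390) (nat_lit 0) (nat_lit 0) (XT.nd (nat_lit 156) (nat_lit 0) (nat_lit 0) (XT.nd (nat_lit 78) (nat_lit 0) (nat_lit 0) (XT.lf (nat_lit 0) (nat_lit 207890845917) (nat_lit 152) (nat_lit 124267029579) (nat_lit 0) (nat_lit 206425387209) (nat_lit 1) (nat_lit 5) (nat_lit 3) (nat_lit 4) (nat_lit 1) (nat_lit 4) (nat_lit 425) (nat_lit 316) (nat_lit 279)) (XT.lf (nat_lit 0) (nat_lit 227581720714) (nat_lit 152) (nat_lit 127723739849) (nat_lit 0) (nat_lit 226109580054) (nat_lit 1) (nat_lit 5) (nat_lit 3) (nat_lit 4) (nat_lit 1) (nat_lit 4) (nat_lit 426) (nat_lit 316) (nat_lit 278))) (XT.nd (nat_lit 78) (nat_lit 0) (nat_lit 0) (XT.lf (nat_lit 0) (nat_lit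 248824171962) (nat_lit 152) (nat_lit 131505241153) (nat_lit 0) (nat_lit 247345844309) (nat_lit 1) (nat_lit 5) (nat_lit 3) (nat_lit 4) (nat_lit 1) (nat_lit 4) (nat_lit 427) (nat_lit 316) (nat_lit 277)) (XT.nd (nat_lit 78) (nat_lit 0) (nat_lit 0) (XT.lf (nat_lit 0) (nat_lit 271744080852) (nat_lit 152) (nat_lit 135633942387) (nat_lit 0) (nat_lit 270260024502) (nat_lit 1) (nat_lit 5) (nat_lit 3) (nat_lit 4) (nat_lit 1) (nat_lit 4) (nat_lit 428) (nat_lit 316) (nat_lit 276)) (XT.lf (nat_lit 0) (nat_lit 296477269067) (nat_lit 152) (nat_lit 140134309930) (nat_lit 0) (nat_lit 294987908368) (nat_lit 1) (nat_lit 5) (nat_lit 3) (nat_lit 4) (nat_lit 1) (nat_lit 4) (nat_lit 429) (nat_lit 316) (nat_lit 275))))) (XT.nd (nat_lit 234) (nat_lit 0) (nat_lit 0) (XT.nd (nat_lit 78) (nat_lit 0) (nat_lit 0) (XT.lf (nat_lit 0) (nat_lit 323170303649) (nat_lit 152) (nat_lit 145033012625) (nat_lit 0) (nat_lit 321676031515)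 (nat_lit 1) (nat_lit 5) (nat_lit 3) (nat_lit 4) (nat_lit 1) (nat_lit 4) (nat_lit 430) (nat_lit 316) (nat_lit 274)) (XT.nd (nat_lit 78) (nat_lit 0) (nat_lit 0) (XT.lf (nat_lit 0) (nat_lit 351981365542) (nat_lit 152) (nat_lit 150359079823) (nat_lit 0) (nat_lit 350482545784) (nat_lit 1) (nat_lit 5) (nat_lit 3) (nat_lit 4) (nat_lit 1) (nat_lit 4) (nat_lit 431) (nat_lit 316) (nat_lit 273)) (XT.lf (nat_lit 0) (nat_lit 383081186966) (nat_lit 152) (nat_lit 156144073402) (nat_lit 0) (nat_lit 381578156444) (nat_lit 1) (nat_lit 5) (nat_lit 3) (nat_lit 4) (nat_lit 1) (nat_lit 4) (nat_lit 432) (nat_lit 316) (nat_lit 272)))) (XT.nd (nat_lit 78) (nat_lit 0) (nat_lit 0) (XT.lf (nat_lit 0) (nat_lit 416654063158) (nat_lit 152) (nat_lit 162422274807) (nat_lit 0) (nat_lit 415147133781) (nat_lit 1) (nat_lit 5) (nat_lit 3) (nat_lit 4) (nat_lit 1) (nat_lit 4) (nat_lit 433) (nat_lit 316) (nat_lit 271)) (XT.nd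 (nat_lit 78) (nat_lit 0) (nat_lit 0) (XT.lf (nat_lit 0) (nat_lit 452898944496) (nat_lit 152) (nat_lit 169230888194) (nat_lit 0) (nat_lit 451388405069) (nat_lit 1) (nat_lit 5) (nat_lit 3) (nat_lit 4) (nat_lit 1) (nat_lit 4) (nat_lit 434) (nat_lit 316) (nat_lit 270)) (XT.lf (nat_lit 0) (nat_lit 492030615463) (nat_lit 152) (nat_lit 176610260902) (nat_lit 0) (nat_lit 490516733395) (nat_lit 1) (nat_lit 5) (nat_lit 3) (nat_lit 4) (nat_lit 1) (nat_lit 4) (nat_lit 435) (nat_lit 316) (nat_lit 269))))))))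
noncomputable def xc37 : XT := (XT.nd (nat_lit 1560) (nat_lit 0) (nat_lit 0) (XT.nd (nat_lit 780) (nat_lit 0) (nat_lit 0) (XT.nd (nat_lit 390) (nat_lit 0) (nat_lit 0) (XT.nd (nat_lit 156) (nat_lit 0) (nat_lit 0) (XT.nd (nat_lit 78) (nat_lit 0) (nat_lit 0) (XT.lf (nat_lit 0) (nat_lit 534280967441) (nat_lit 152) (nat_lit 184604122545) (nat_lit 0) (nat_lit 532763990336) (nat_lit 1) (nat_lit 5) (nat_lit 3) (nat_lit 4) (nat_lit 1) (nat_lit 4) (nat_lit 436) (nat_lit 316) (nat_lit 268)) (XT.lf (nat_lit 0) (nat_lit 579900372886) (nat_lit 152) (nat_lit 193259844158) (nat_lit 0) (nat_lit 578380530007) (nat_lit 1) (nat_lit 5) (nat_lit 3) (nat_lit 4) (nat_lit 1) (nat_lit 4) (nat_lit 437) (nat_lit 316) (nat_lit 267))) (XT.nd (nat_lit 78) (nat_lit 0) (nat_lit 0) (XT.lf (nat_lit 0) (nat_lit 629159169017) (nat_lit 152) (nat_lit 202628718903) (nat_lit 0) (nat_lit 627636672643) (nat_lit 1) (nat_lit 5) (nat_lit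 3) (nat_lit 4) (nat_lit 1) (nat_lit 4) (nat_lit 438) (nat_lit 316) (nat_lit 266)) (XT.nd (nat_lit 78) (nat_lit 0) (nat_lit 0) (XT.lf (nat_lit 0) (nat_lit 682349259810) (nat_lit 152) (nat_lit 212766266041) (nat_lit 0) (nat_lit 680824306496) (nat_lit 1) (nat_lit 5) (nat_lit 3) (nat_lit 4) (nat_lit 1) (nat_lit 4) (nat_lit 439) (nat_lit 316) (nat_lit 265)) (XT.lf (nat_lit 0) (nat_lit 739785845803) (nat_lit 152) (nat_lit 223732559922) (nat_lit 0) (nat_lit 738258617544) (nat_lit 1) (nat_lit 5) (nat_lit 3) (nat_lit 4) (nat_lit 1) (nat_lit 4) (nat_lit 440) (nat_lit 316) (nat_lit 264))))) (XT.nd (nat_lit 156) (nat_lit 0) (nat_lit 0) (XT.nd (nat_lit 78) (nat_lit 0) (nat_lit 0) (XT.lf (nat_lit 0) (nat_lit 801809291951) (nat_lit 152) (nat_lit 235592585994) (nat_lit 0) (nat_lit 800279957262) (nat_lit 1) (nat_lit 5) (nat_lit 3) (nat_lit 4) (nat_lit 1) (nat_lit 4) (nat_lit 441) (nat_lit 316) (nat_lit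 263)) (XT.lf (nat_lit 0) (nat_lit 868787144600) (nat_lit 152) (nat_lit 248416625892) (nat_lit 0) (nat_lit 867255859513) (nat_lit 1) (nat_lit 5) (nat_lit 3) (nat_lit 4) (nat_lit 1) (nat_lit 4) (nat_lit 442) (nat_lit 316) (nat_lit 262))) (XT.nd (nat_lit 78) (nat_lit 0) (nat_lit 0) (XT.lf (nat_lit 0) (nat_lit 941116309545) (nat_lit 152) (nat_lit 262280673926) (nat_lit 0) (nat_lit 939583218533) (nat_lit 1) (nat_lit 5) (nat_lit 3) (nat_lit 4) (nat_lit 1) (nat_lit 4) (nat_lit 443) (nat_lit 316) (nat_lit 261)) (XT.nd (nat_lit 78) (nat_lit 0) (nat_lit 0) (XT.lf (nat_lit 0) (nat_lit 1019225404059) (nat_lit 152) (nat_lit 277266887418) (nat_lit 0) (nat_lit 1017690640895) (nat_lit 1) (nat_lit 5) (nat_lit 3) (nat_lit 4) (nat_lit 1) (nat_lit 4) (nat_lit 444) (nat_lit 316) (nat_lit 260)) (XT.lf (nat_lit 0) (nat_lit 1103577296850) (nat_lit 152) (nat_lit 293464073560) (nat_lit 0) (nat_lit 1102040985397)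 (nat_lit 1) (nat_lit 5) (nat_lit 3) (nat_lit 4) (nat_lit 1) (nat_lit 4) (nat_lit 445) (nat_lit 316) (nat_lit 259)))))) (XT.nd (nat_lit 390) (nat_lit 0) (nat_lit 0) (XT.nd (nat_lit 156) (nat_lit 0) (nat_lit 0) (XT.nd (nat_lit 78) (nat_lit 0) (nat_lit 0) (XT.lf (nat_lit 0) (nat_lit 1194671850986) (nat_lit 152) (nat_lit 310968215675) (nat_lit 0) (nat_lit 1193134105933) (nat_lit 1) (nat_lit 5) (nat_lit 3) (nat_lit 4) (nat_lit 1) (nat_lit 4) (nat_lit 446) (nat_lit 316) (nat_lit 258)) (XT.lf (nat_lit 0) (nat_lit 1293048886049) (nat_lit 152) (nat_lit 329883042015) (nat_lit 0) (nat_lit 1291509813587) (nat_lit 1) (nat_lit 5) (nat_lit 3) (nat_lit 4) (nat_lit 1) (nat_lit 4) (nat_lit 447) (nat_lit 316) (nat_lit 257))) (XT.nd (nat_lit 78) (nat_lit 0) (nat_lit 0) (XT.lf (nat_lit 0) (nat_lit 1399291377059) (nat_lit 152) (nat_lit 350320640439) (nat_lit 0) (nat_lit 1397751075516) (nat_lit 1) (nat_lit 5)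 (nat_lit 3) (nat_lit 4) (nat_lit 1) (nat_lit 4) (nat_lit 448) (nat_lit 316) (nat_lit 256)) (XT.nd (nat_lit 78) (nat_lit 0) (nat_lit 0) (XT.lf (nat_lit 0) (nat_lit 1514028909150) (nat_lit 152) (nat_lit 372402122641) (nat_lit 0) (nat_lit 1512487469568) (nat_lit 1) (nat_lit 5) (nat_lit 3) (nat_lit 4) (nat_lit 1) (nat_lit 4) (nat_lit 449) (nat_lit 316) (nat_lit 255)) (XT.lf (nat_lit 0) (nat_lit 1637941408438) (nat_lit 152) (nat_lit 396258341849) (nat_lit 0) (nat_lit 1636398915116) (nat_lit 1) (nat_lit 5) (nat_lit 3) (nat_lit 4) (nat_lit 1) (nat_lit 4) (nat_lit 450) (nat_lit 316) (nat_lit 254))))) (XT.nd (nat_lit 156) (nat_lit 0) (nat_lit 0) (XT.nd (nat_lit 78) (nat_lit 0) (nat_lit 0) (XT.lf (nat_lit 0) (nat_lit 1771763171213) (nat_lit 152) (nat_lit 422030668251) (nat_lit 0) (nat_lit 1770219702207) (nat_lit 1) (nat_lit 5) (nat_lit 3) (nat_lit 4) (nat_lit 1) (nat_lit 4) (nat_lit 451) (nat_lit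 316) (nat_lit 253)) (XT.lf (nat_lit 0) (nat_lit 1916287215331) (nat_lit 152) (nat_lit 449871826744) (nat_lit 0) (nat_lit 1914742842913) (nat_lit 1) (nat_lit 5) (nat_lit 3) (nat_lit 4) (nat_lit 1) (nat_lit 4) (nat_lit 452) (nat_lit 316) (nat_lit 252))) (XT.nd (nat_lit 78) (nat_lit 0) (nat_lit 0) (XT.lf (nat_lit 0) (nat_lit 2072369979570) (nat_lit 152) (nat_lit 479946801971) (nat_lit 0) (nat_lit 2070824770660) (nat_lit 1) (nat_lit 5) (nat_lit 3) (nat_lit 4) (nat_lit 1) (nat_lit 4) (nat_lit 453) (nat_lit 316) (nat_lit 251)) (XT.nd (nat_lit 78) (nat_lit 0) (nat_lit 0) (XT.lf (nat_lit 0) (nat_lit 2240936398831) (nat_lit 152) (nat_lit 512433816007) (nat_lit 0) (nat_lit 2239390415391) (nat_lit 1) (nat_lit 5) (nat_lit 3) (nat_lit 4) (nat_lit 1) (nat_lit 4) (nat_lit 454) (nat_lit 316) (nat_lit 250)) (XT.lf (nat_lit 0) (nat_lit 2422985385227) (nat_lit 152) (nat_lit 547525384492) (nat_lit 0) (nat_lit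 2421438684629) (nat_lit 1) (nat_lit 5) (nat_lit 3) (nat_lit 4) (nat_lit 1) (nat_lit 4) (nat_lit 455) (nat_lit 316) (nat_lit 249))))))) (XT.nd (nat_lit 47736) (nat_lit 0) (nat_lit 152) (XT.nd (nat_lit 390) (nat_lit 0) (nat_lit 0) (XT.nd (nat_lit 156) (nat_lit 0) (nat_lit 0) (XT.nd (nat_lit 78) (nat_lit 0) (nat_lit 0) (XT.lf (nat_lit 0) (nat_lit 2619595747566) (nat_lit 152) (nat_lit 585429457461) (nat_lit 0) (nat_lit 2618048382933) (nat_lit 1) (nat_lit 5) (nat_lit 3) (nat_lit 4) (nat_lit 1) (nat_lit 4) (nat_lit 456) (nat_lit 316) (nat_lit 248)) (XT.lf (nat_lit 0) (nat_lit 2831932584292) (nat_lit 152) (nat_lit 626370651642) (nat_lit 0) (nat_lit 2830384604813) (nat_lit 1) (nat_lit 5) (nat_lit 3) (nat_lit 4) (nat_lit 1) (nat_lit 4) (nat_lit 457) (nat_lit 316) (nat_lit 247))) (XT.nd (nat_lit 78) (nat_lit 0) (nat_lit 0) (XT.lf (nat_lit 0) (nat_lit 3061254187771) (nat_lit 152) (nat_lit 670591581519)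 (nat_lit 0) (nat_lit 3059705638989) (nat_lit 1) (nat_lit 5) (nat_lit 3) (nat_lit 4) (nat_lit 1) (nat_lit 4) (nat_lit 458) (nat_lit 316) (nat_lit 246)) (XT.nd (nat_lit 78) (nat_lit 0) (nat_lit 0) (XT.lf (nat_lit 0) (nat_lit 3308919500838) (nat_lit 152) (nat_lit 718354297047) (nat_lit 0) (nat_lit 3307370424924) (nat_lit 1) (nat_lit 5) (nat_lit 3) (nat_lit 4) (nat_lit 1) (nat_lit 4) (nat_lit 459) (nat_lit 316) (nat_lit 245)) (XT.lf (nat_lit 0) (nat_lit 3576396169792) (nat_lit 152) (nat_lit 769941836541) (nat_lit 0) (nat_lit 3574846605793) (nat_lit 1) (nat_lit 5) (nat_lit 3) (nat_lit 4) (nat_lit 1) (nat_lit 4) (nat_lit 460) (nat_lit 316) (nat_lit 244))))) (XT.nd (nat_lit 156) (nat_lit 0) (nat_lit 0) (XT.nd (nat_lit 78) (nat_lit 0) (nat_lit 0) (XT.lf (nat_lit 0) (nat_lit 3865269241562) (nat_lit 152) (nat_lit 825659903939) (nat_lit 0) (nat_lit 3863719225632) (nat_lit 1) (nat_lit 5) (nat_lit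 3) (nat_lit 4) (nat_lit 1) (nat_lit 4) (nat_lit 461) (nat_lit 316) (nat_lit 243)) (XT.lf (nat_lit 0) (nat_lit 4177250556572) (nat_lit 152) (nat_lit 885838680379) (nat_lit 0) (nat_lit 4175700122188) (nat_lit 1) (nat_lit 5) (nat_lit 3) (nat_lit 4) (nat_lit 1) (nat_lit 4) (nat_lit 462) (nat_lit 316) (nat_lit 242))) (XT.nd (nat_lit 78) (nat_lit 0) (nat_lit 0) (XT.lf (nat_lit 0) (nat_lit 4514188892986) (nat_lit 152) (nat_lit 950834780835) (nat_lit 0) (nat_lit 4512638071143) (nat_lit 1) (nat_lit 5) (nat_lit 3) (nat_lit 4) (nat_lit 1) (nat_lit 4) (nat_lit 463) (nat_lit 316) (nat_lit 241)) (XT.nd (nat_lit 47034) (nat_lit 0) (nat_lit 456) (XT.lf (nat_lit 0) (nat_lit 4878080922425) (nat_lit 152) (nat_lit 1021033367382) (nat_lit 0) (nat_lit 4876529741826) (nat_lit 1) (nat_lit 5) (nat_lit 3) (nat_lit 4) (nat_lit 1) (nat_lit 4) (nat_lit 464) (nat_lit 316) (nat_lit 240)) (XT.lf (nat_lit 0) (nat_lit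 2876773888) (nat_lit 152) (nat_lit 10190533882) (nat_lit 0) (nat_lit 2876773888) (nat_lit 7) (nat_lit 5) (nat_lit 9) (nat_lit 4) (nat_lit 7) (nat_lit 4) (nat_lit 386) (nat_lit 317) (nat_lit 317)))))) (XT.nd (nat_lit 390) (nat_lit 76) (nat_lit 0) (XT.nd (nat_lit 156) (nat_lit 152) (nat_lit 0) (XT.nd (nat_lit 78) (nat_lit 76) (nat_lit 0) (XT.lf (nat_lit 0) (nat_lit 12763941150) (nat_lit 152) (nat_lit 8519420745) (nat_lit 0) (nat_lit 12618778931) (nat_lit 7) (nat_lit 5) (nat_lit 9) (nat_lit 4) (nat_lit 7) (nat_lit 4) (nat_lit 387) (nat_lit 317) (nat_lit 316)) (XT.lf (nat_lit 0) (nat_lit 3824637656) (nat_lit 76) (nat_lit 16275499236) (nat_lit 76) (nat_lit 15995927556) (nat_lit 6) (nat_lit 4) (nat_lit 7) (nat_lit 5) (nat_lit 7) (nat_lit 4) (nat_lit 388) (nat_lit 317) (nat_lit 315))) (XT.nd (nat_lit 78) (nat_lit 152) (nat_lit 0) (XT.lf (nat_lit 0) (nat_lit 16999537778) (nat_lit 76) (nat_lit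 10938417309) (nat_lit 76) (nat_lit 10534392424) (nat_lit 6) (nat_lit 4) (nat_lit 7) (nat_lit 5) (nat_lit 7) (nat_lit 4) (nat_lit 389) (nat_lit 317) (nat_lit 314)) (XT.nd (nat_lit 78) (nat_lit 152) (nat_lit 0) (XT.lf (nat_lit 0) (nat_lit 30634735501) (nat_lit 76) (nat_lit 5473425022) (nat_lit 76) (nat_lit 4954165687) (nat_lit 6) (nat_lit 4) (nat_lit 7) (nat_lit 5) (nat_lit 7) (nat_lit 4) (nat_lit 390) (nat_lit 317) (nat_lit 313)) (XT.lf (nat_lit 0) (nat_lit 766710847) (nat_lit 152) (nat_lit 42923797000) (nat_lit 0) (nat_lit 187120200) (nat_lit 4) (nat_lit 5) (nat_lit 6) (nat_lit 4) (nat_lit 4) (nat_lit 4) (nat_lit 391) (nat_lit 317) (nat_lit 312))))) (XT.nd (nat_lit 234) (nat_lit 76) (nat_lit 0) (XT.nd (nat_lit 78) (nat_lit 0) (nat_lit 0) (XT.lf (nat_lit 0) (nat_lit 6833188853) (nat_lit 152) (nat_lit 33900120040) (nat_lit 0) (nat_lit 6162121385) (nat_lit 4) (nat_lit 5) (nat_lit 6) (nat_lit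 4) (nat_lit 4) (nat_lit 4) (nat_lit 392) (nat_lit 317) (nat_lit 311)) (XT.nd (nat_lit 78) (nat_lit 0) (nat_lit 0) (XT.lf (nat_lit 0) (nat_lit 13126562745) (nat_lit 152) (nat_lit 24677989338) (nat_lit 0) (nat_lit 12370794517) (nat_lit 4) (nat_lit 5) (nat_lit 6) (nat_lit 4) (nat_lit 4) (nat_lit 4) (nat_lit 393) (nat_lit 317) (nat_lit 310)) (XT.lf (nat_lit 0) (nat_lit 19684126591) (nat_lit 152) (nat_lit 15202755230) (nat_lit 0) (nat_lit 18849931733) (nat_lit 4) (nat_lit 5) (nat_lit 6) (nat_lit 4) (nat_lit 4) (nat_lit 4) (nat_lit 394) (nat_lit 317) (nat_lit 309)))) (XT.nd (nat_lit 78) (nat_lit 76) (nat_lit 0) (XT.lf (nat_lit 0) (nat_lit 26544740028) (nat_lit 152) (nat_lit 5418268180) (nat_lit 0) (nat_lit 25637927920) (nat_lit 4) (nat_lit 5) (nat_lit 6) (nat_lit 4) (nat_lit 4) (nat_lit 4) (nat_lit 395) (nat_lit 317) (nat_lit 308)) (XT.nd (nat_lit 78) (nat_lit 0) (nat_lit 0) (XT.lf (nat_lit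 0) (nat_lit 4982709252) (nat_lit 76) (nat_lit 28886183569) (nat_lit 76) (nat_lit 27912133267) (nat_lit 3) (nat_lit 4) (nat_lit 4) (nat_lit 5) (nat_lit 4) (nat_lit 4) (nat_lit 396) (nat_lit 317) (nat_lit 307)) (XT.lf (nat_lit 0) (nat_lit 16118902307) (nat_lit 76) (nat_lit 25608532077) (nat_lit 76) (nat_lit 24572224187) (nat_lit 3) (nat_lit 4) (nat_lit 4) (nat_lit 5) (nat_lit 4) (nat_lit 4) (nat_lit 397) (nat_lit 317) (nat_lit 306))))))))
noncomputable def xc38 : XT := (XT.nd (nat_lit 1560) (nat_lit 0) (nat_lit 0) (XT.nd (nat_lit 780) (nat_lit 0) (nat_lit 0) (XT.nd (nat_lit 390) (nat_lit 152) (nat_lit 0) (XT.nd (nat_lit 156) (nat_lit 0) (nat_lit 0) (XT.nd (nat_lit 78) (nat_lit 0) (nat_lit 0) (XT.lf (nat_lit 0) (nat_lit 27770986839) (nat_lit 76) (nat_lit 22258775666) (nat_lit 76) (nat_lit 21164821862) (nat_lit 3) (nat_lit 4) (nat_lit 4) (nat_lit 5) (nat_lit 4) (nat_lit 4) (nat_lit 398) (nat_lit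 317) (nat_lit 305)) (XT.lf (nat_lit 0) (nat_lit 40008012237) (nat_lit 76) (nat_lit 18817063930) (nat_lit 76) (nat_lit 17669734279) (nat_lit 3) (nat_lit 4) (nat_lit 4) (nat_lit 5) (nat_lit 4) (nat_lit 4) (nat_lit 399) (nat_lit 317) (nat_lit 304))) (XT.nd (nat_lit 78) (nat_lit 0) (nat_lit 0) (XT.lf (nat_lit 0) (nat_lit 52902494208) (nat_lit 76) (nat_lit 15263001538) (nat_lit 76) (nat_lit 14066249807) (nat_lit 3) (nat_lit 4) (nat_lit 4) (nat_lit 5) (nat_lit 4) (nat_lit 4) (nat_lit 400) (nat_lit 317) (nat_lit 303)) (XT.nd (nat_lit 78) (nat_lit 0) (nat_lit 0) (XT.lf (nat_lit 0) (nat_lit 66530844496) (nat_lit 76) (nat_lit 11575527381) (nat_lit 76) (nat_lit 10333014465) (nat_lit 3) (nat_lit 4) (nat_lit 4) (nat_lit 5) (nat_lit 4) (nat_lit 4) (nat_lit 401) (nat_lit 317) (nat_lit 302)) (XT.lf (nat_lit 0) (nat_lit 80973823696) (nat_lit 76) (nat_lit 7732789759) (nat_lit 76) (nat_lit 6447905375) (nat_lit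 3) (nat_lit 4) (nat_lit 4) (nat_lit 5) (nat_lit 4) (nat_lit 4) (nat_lit 402) (nat_lit 317) (nat_lit 301))))) (XT.nd (nat_lit 156) (nat_lit 0) (nat_lit 0) (XT.nd (nat_lit 78) (nat_lit 152) (nat_lit 0) (XT.lf (nat_lit 0) (nat_lit 96317019833) (nat_lit 76) (nat_lit 3712016894) (nat_lit 76) (nat_lit 2387899670) (nat_lit 3) (nat_lit 4) (nat_lit 4) (nat_lit 5) (nat_lit 4) (nat_lit 4) (nat_lit 403) (nat_lit 317) (nat_lit 300)) (XT.lf (nat_lit 0) (nat_lit 1851606039) (nat_lit 152) (nat_lit 107816602514) (nat_lit 0) (nat_lit 591935735) (nat_lit 1) (nat_lit 5) (nat_lit 3) (nat_lit 4) (nat_lit 1) (nat_lit 4) (nat_lit 404) (nat_lit 317) (nat_lit 299))) (XT.nd (nat_lit 78) (nat_lit 0) (nat_lit 0) (XT.lf (nat_lit 0) (nat_lit 6449524857) (nat_lit 152) (nat_lit 107105756853) (nat_lit 0) (nat_lit 5158710259) (nat_lit 1) (nat_lit 5) (nat_lit 3) (nat_lit 4) (nat_lit 1) (nat_lit 4) (nat_lit 405) (nat_lit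 317) (nat_lit 298)) (XT.nd (nat_lit 78) (nat_lit 0) (nat_lit 0) (XT.lf (nat_lit 0) (nat_lit 11304842636) (nat_lit 152) (nat_lit 106562954355) (nat_lit 0) (nat_lit 9985190729) (nat_lit 1) (nat_lit 5) (nat_lit 3) (nat_lit 4) (nat_lit 1) (nat_lit 4) (nat_lit 406) (nat_lit 317) (nat_lit 297)) (XT.lf (nat_lit 0) (nat_lit 16446331627) (nat_lit 152) (nat_lit 106184978413) (nat_lit 0) (nat_lit 15099978508) (nat_lit 1) (nat_lit 5) (nat_lit 3) (nat_lit 4) (nat_lit 1) (nat_lit 4) (nat_lit 407) (nat_lit 317) (nat_lit 296)))))) (XT.nd (nat_lit 390) (nat_lit 0) (nat_lit 0) (XT.nd (nat_lit 156) (nat_lit 0) (nat_lit 0) (XT.nd (nat_lit 78) (nat_lit 0) (nat_lit 0) (XT.lf (nat_lit 0) (nat_lit 21904459916) (nat_lit 152) (nat_lit 105969589169) (nat_lit 0) (nat_lit 20533383452) (nat_lit 1) (nat_lit 5) (nat_lit 3) (nat_lit 4) (nat_lit 1) (nat_lit 4) (nat_lit 408) (nat_lit 317) (nat_lit 295)) (XT.lf (nat_lit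 0) (nat_lit 27711571964) (nat_lit 152) (nat_lit 105915510242) (nat_lit 0) (nat_lit 26317603515) (nat_lit 1) (nat_lit 5) (nat_lit 3) (nat_lit 4) (nat_lit 1) (nat_lit 4) (nat_lit 409) (nat_lit 317) (nat_lit 294))) (XT.nd (nat_lit 78) (nat_lit 0) (nat_lit 0) (XT.lf (nat_lit 0) (nat_lit 33902080289) (nat_lit 152) (nat_lit 106022421165) (nat_lit 0) (nat_lit 32486915557) (nat_lit 1) (nat_lit 5) (nat_lit 3) (nat_lit 4) (nat_lit 1) (nat_lit 4) (nat_lit 410) (nat_lit 317) (nat_lit 293)) (XT.nd (nat_lit 78) (nat_lit 0) (nat_lit 0) (XT.lf (nat_lit 0) (nat_lit 40512669384) (nat_lit 152) (nat_lit 106290955484) (nat_lit 0) (nat_lit 39077878464) (nat_lit 1) (nat_lit 5) (nat_lit 3) (nat_lit 4) (nat_lit 1) (nat_lit 4) (nat_lit 411) (nat_lit 317) (nat_lit 292)) (XT.lf (nat_lit 0) (nat_lit 47582513110) (nat_lit 152) (nat_lit 106722704513) (nat_lit 0) (nat_lit 46129549794) (nat_lit 1) (nat_lit 5) (nat_lit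 3) (nat_lit 4) (nat_lit 1) (nat_lit 4) (nat_lit 412) (nat_lit 317) (nat_lit 291))))) (XT.nd (nat_lit 156) (nat_lit 0) (nat_lit 0) (XT.nd (nat_lit 78) (nat_lit 0) (nat_lit 0) (XT.lf (nat_lit 0) (nat_lit 55153506838) (nat_lit 152) (nat_lit 107320226765) (nat_lit 0) (nat_lit 53683717229) (nat_lit 1) (nat_lit 5) (nat_lit 3) (nat_lit 4) (nat_lit 1) (nat_lit 4) (nat_lit 413) (nat_lit 317) (nat_lit 290)) (XT.lf (nat_lit 0) (nat_lit 63270515716) (nat_lit 152) (nat_lit 108087063114) (nat_lit 0) (nat_lit 61785146205) (nat_lit 1) (nat_lit 5) (nat_lit 3) (nat_lit 4) (nat_lit 1) (nat_lit 4) (nat_lit 414) (nat_lit 317) (nat_lit 289))) (XT.nd (nat_lit 78) (nat_lit 0) (nat_lit 0) (XT.lf (nat_lit 0) (nat_lit 71981640536) (nat_lit 152) (nat_lit 109027757773) (nat_lit 0) (nat_lit 70481845191) (nat_lit 1) (nat_lit 5) (nat_lit 3) (nat_lit 4) (nat_lit 1) (nat_lit 4) (nat_lit 415) (nat_lit 317) (nat_lit 288))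 (XT.nd (nat_lit 78) (nat_lit 0) (nat_lit 0) (XT.lf (nat_lit 0) (nat_lit 81338502779) (nat_lit 152) (nat_lit 110147885231) (nat_lit 0) (nat_lit 79825350181) (nat_lit 1) (nat_lit 5) (nat_lit 3) (nat_lit 4) (nat_lit 1) (nat_lit 4) (nat_lit 416) (nat_lit 317) (nat_lit 287)) (XT.lf (nat_lit 0) (nat_lit 91396550519) (nat_lit 152) (nat_lit 111454083278) (nat_lit 0) (nat_lit 89871030093) (nat_lit 1) (nat_lit 5) (nat_lit 3) (nat_lit 4) (nat_lit 1) (nat_lit 4) (nat_lit 417) (nat_lit 317) (nat_lit 286))))))) (XT.nd (nat_lit 780) (nat_lit 0) (nat_lit 0) (XT.nd (nat_lit 390) (nat_lit 0) (nat_lit 0) (XT.nd (nat_lit 156) (nat_lit 0) (nat_lit 0) (XT.nd (nat_lit 78) (nat_lit 0) (nat_lit 0) (XT.lf (nat_lit 0) (nat_lit 102215387000) (nat_lit 152) (nat_lit 112954092350) (nat_lit 0) (nat_lit 100678414882) (nat_lit 1) (nat_lit 5) (nat_lit 3) (nat_lit 4) (nat_lit 1) (nat_lit 4) (nat_lit 418) (nat_lit 317) (nat_lit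 285)) (XT.lf (nat_lit 0) (nat_lit 113859123847) (nat_lit 152) (nat_lit 114656801387) (nat_lit 0) (nat_lit 112311548310) (nat_lit 1) (nat_lit 5) (nat_lit 3) (nat_lit 4) (nat_lit 1) (nat_lit 4) (nat_lit 419) (nat_lit 317) (nat_lit 284))) (XT.nd (nat_lit 78) (nat_lit 0) (nat_lit 0) (XT.lf (nat_lit 0) (nat_lit 126396760980) (nat_lit 152) (nat_lit 116572300517) (nat_lit 0) (nat_lit 124839367464) (nat_lit 1) (nat_lit 5) (nat_lit 3) (nat_lit 4) (nat_lit 1) (nat_lit 4) (nat_lit 420) (nat_lit 317) (nat_lit 283)) (XT.nd (nat_lit 78) (nat_lit 0) (nat_lit 0) (XT.lf (nat_lit 0) (nat_lit 139902595511) (nat_lit 152) (nat_lit 118711940848) (nat_lit 0) (nat_lit 138336111272) (nat_lit 1) (nat_lit 5) (nat_lit 3) (nat_lit 4) (nat_lit 1) (nat_lit 4) (nat_lit 421) (nat_lit 317) (nat_lit 282)) (XT.lf (nat_lit 0) (nat_lit 154456662012) (nat_lit 152) (nat_lit 121088401728) (nat_lit 0) (nat_lit 152881760437) (nat_lit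 1) (nat_lit 5) (nat_lit 3) (nat_lit 4) (nat_lit 1) (nat_lit 4) (nat_lit 422) (nat_lit 317) (nat_lit 281))))) (XT.nd (nat_lit 156) (nat_lit 0) (nat_lit 0) (XT.nd (nat_lit 78) (nat_lit 0) (nat_lit 0) (XT.lf (nat_lit 0) (nat_lit 170145206805) (nat_lit 152) (nat_lit 123715765888) (nat_lit 0) (nat_lit 168562511401) (nat_lit 1) (nat_lit 5) (nat_lit 3) (nat_lit 4) (nat_lit 1) (nat_lit 4) (nat_lit 423) (nat_lit 317) (nat_lit 280)) (XT.lf (nat_lit 0) (nat_lit 187061199044) (nat_lit 152) (nat_lit 126609602895) (nat_lit 0) (nat_lit 185471287131) (nat_lit 1) (nat_lit 5) (nat_lit 3) (nat_lit 4) (nat_lit 1) (nat_lit 4) (nat_lit 424) (nat_lit 317) (nat_lit 279))) (XT.nd (nat_lit 78) (nat_lit 0) (nat_lit 0) (XT.lf (nat_lit 0) (nat_lit 205304881645) (nat_lit 152) (nat_lit 129787061411) (nat_lit 0) (nat_lit 203708287780) (nat_lit 1) (nat_lit 5) (nat_lit 3) (nat_lit 4) (nat_lit 1) (nat_lit 4) (nat_lit 425)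 (nat_lit 317) (nat_lit 278)) (XT.nd (nat_lit 78) (nat_lit 0) (nat_lit 0) (XT.lf (nat_lit 0) (nat_lit 224984365321) (nat_lit 152) (nat_lit 133266970822) (nat_lit 0) (nat_lit 223381584463) (nat_lit 1) (nat_lit 5) (nat_lit 3) (nat_lit 4) (nat_lit 1) (nat_lit 4) (nat_lit 426) (nat_lit 317) (nat_lit 277)) (XT.lf (nat_lit 0) (nat_lit 246216269233) (nat_lit 152) (nat_lit 137069952811) (nat_lit 0) (nat_lit 244607759678) (nat_lit 1) (nat_lit 5) (nat_lit 3) (nat_lit 4) (nat_lit 1) (nat_lit 4) (nat_lit 427) (nat_lit 317) (nat_lit 276)))))) (XT.nd (nat_lit 390) (nat_lit 0) (nat_lit 0) (XT.nd (nat_lit 156) (nat_lit 0) (nat_lit 0) (XT.nd (nat_lit 78) (nat_lit 0) (nat_lit 0) (XT.lf (nat_lit 0) (nat_lit 269126412072) (nat_lit 152) (nat_lit 141218543569) (nat_lit 0) (nat_lit 267512598168) (nat_lit 1) (nat_lit 5) (nat_lit 3) (nat_lit 4) (nat_lit 1) (nat_lit 4) (nat_lit 428) (nat_lit 317) (nat_lit 275))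 (XT.lf (nat_lit 0) (nat_lit 293850557647) (nat_lit 152) (nat_lit 145737327337) (nat_lit 0) (nat_lit 292231832308) (nat_lit 1) (nat_lit 5) (nat_lit 3) (nat_lit 4) (nat_lit 1) (nat_lit 4) (nat_lit 429) (nat_lit 317) (nat_lit 274))) (XT.nd (nat_lit 78) (nat_lit 0) (nat_lit 0) (XT.lf (nat_lit 0) (nat_lit 320535219414) (nat_lit 152) (nat_lit 150653082094) (nat_lit 0) (nat_lit 318911946451) (nat_lit 1) (nat_lit 5) (nat_lit 3) (nat_lit 4) (nat_lit 1) (nat_lit 4) (nat_lit 430) (nat_lit 317) (nat_lit 273)) (XT.nd (nat_lit 78) (nat_lit 0) (nat_lit 0) (XT.lf (nat_lit 0) (nat_lit 349338528701) (nat_lit 152) (nat_lit 155994938237) (nat_lit 0) (nat_lit 347711044974) (nat_lit 1) (nat_lit 5) (nat_lit 3) (nat_lit 4) (nat_lit 1) (nat_lit 4) (nat_lit 431) (nat_lit 317) (nat_lit 272)) (XT.lf (nat_lit 0) (nat_lit 380431171786) (nat_lit 152) (nat_lit 161794551210) (nat_lit 0) (nat_lit 378799789204) (nat_lit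 1) (nat_lit 5) (nat_lit 3) (nat_lit 4) (nat_lit 1) (nat_lit 4) (nat_lit 432) (nat_lit 317) (nat_lit 271))))) (XT.nd (nat_lit 234) (nat_lit 0) (nat_lit 0) (XT.nd (nat_lit 78) (nat_lit 0) (nat_lit 0) (XT.lf (nat_lit 0) (nat_lit 413997401368) (nat_lit 152) (nat_lit 168086289091) (nat_lit 0) (nat_lit 412362408735) (nat_lit 1) (nat_lit 5) (nat_lit 3) (nat_lit 4) (nat_lit 1) (nat_lit 4) (nat_lit 433) (nat_lit 317) (nat_lit 270)) (XT.nd (nat_lit 78) (nat_lit 0) (nat_lit 0) (XT.lf (nat_lit 0) (nat_lit 450236128438) (nat_lit 152) (nat_lit 174907436252) (nat_lit 0) (nat_lit 448597793165) (nat_lit 1) (nat_lit 5) (nat_lit 3) (nat_lit 4) (nat_lit 1) (nat_lit 4) (nat_lit 434) (nat_lit 317) (nat_lit 269)) (XT.lf (nat_lit 0) (nat_lit 489362101007) (nat_lit 152) (nat_lit 182298414305) (nat_lit 0) (nat_lit 487720670697) (nat_lit 1) (nat_lit 5) (nat_lit 3) (nat_lit 4) (nat_lit 1) (nat_lit 4) (nat_lit 435)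 (nat_lit 317) (nat_lit 268)))) (XT.nd (nat_lit 78) (nat_lit 0) (nat_lit 0) (XT.lf (nat_lit 0) (nat_lit 531607176691) (nat_lit 152) (nat_lit 190303021640) (nat_lit 0) (nat_lit 529962880607) (nat_lit 1) (nat_lit 5) (nat_lit 3) (nat_lit 4) (nat_lit 1) (nat_lit 4) (nat_lit 436) (nat_lit 317) (nat_lit 267)) (XT.nd (nat_lit 78) (nat_lit 0) (nat_lit 0) (XT.lf (nat_lit 0) (nat_lit 577221696680) (nat_lit 152) (nat_lit 198968692966) (nat_lit 0) (nat_lit 575574747100) (nat_lit 1) (nat_lit 5) (nat_lit 3) (nat_lit 4) (nat_lit 1) (nat_lit 4) (nat_lit 437) (nat_lit 317) (nat_lit 266)) (XT.lf (nat_lit 0) (nat_lit 626475969239) (nat_lit 152) (nat_lit 208346780409) (nat_lit 0) (nat_lit 624826562720) (nat_lit 1) (nat_lit 5) (nat_lit 3) (nat_lit 4) (nat_lit 1) (nat_lit 4) (nat_lit 438) (nat_lit 317) (nat_lit 265))))))))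
noncomputable def xc39 : XT := (XT.nd (nat_lit 1638) (nat_lit 0) (nat_lit 0) (XT.nd (nat_lit 780) (nat_lit 0) (nat_lit 0) (XT.nd (nat_lit 390) (nat_lit 0) (nat_lit 0) (XT.nd (nat_lit 156) (nat_lit 0) (nat_lit 0) (XT.nd (nat_lit 78) (nat_lit 0) (nat_lit 0) (XT.lf (nat_lit 0) (nat_lit 679661871541) (nat_lit 152) (nat_lit 218492857822) (nat_lit 0) (nat_lit 678010190076) (nat_lit 1) (nat_lit 5) (nat_lit 3) (nat_lit 4) (nat_lit 1) (nat_lit 4) (nat_lit 439) (nat_lit 317) (nat_lit 264)) (XT.lf (nat_lit 0) (nat_lit 737094579301) (nat_lit 152) (nat_lit 229467050108) (nat_lit 0) (nat_lit 735440791406) (nat_lit 1) (nat_lit 5) (nat_lit 3) (nat_lit 4) (nat_lit 1) (nat_lit 4) (nat_lit 440) (nat_lit 317) (nat_lit 263))) (XT.nd (nat_lit 78) (nat_lit 0) (nat_lit 0) (XT.lf (nat_lit 0) (nat_lit 799114434491) (nat_lit 152) (nat_lit 241334389516) (nat_lit 0) (nat_lit 797458696199) (nat_lit 1) (nat_lit 5) (nat_lit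 3) (nat_lit 4) (nat_lit 1) (nat_lit 4) (nat_lit 441) (nat_lit 317) (nat_lit 262)) (XT.nd (nat_lit 78) (nat_lit 0) (nat_lit 0) (XT.lf (nat_lit 0) (nat_lit 866088962181) (nat_lit 152) (nat_lit 254165201022) (nat_lit 0) (nat_lit 864431417964) (nat_lit 1) (nat_lit 5) (nat_lit 3) (nat_lit 4) (nat_lit 1) (nat_lit 4) (nat_lit 442) (nat_lit 317) (nat_lit 261)) (XT.lf (nat_lit 0) (nat_lit 938415048459) (nat_lit 152) (nat_lit 268035519063) (nat_lit 0) (nat_lit 936755832090) (nat_lit 1) (nat_lit 5) (nat_lit 3) (nat_lit 4) (nat_lit 1) (nat_lit 4) (nat_lit 443) (nat_lit 317) (nat_lit 260))))) (XT.nd (nat_lit 156) (nat_lit 0) (nat_lit 0) (XT.nd (nat_lit 78) (nat_lit 0) (nat_lit 0) (XT.lf (nat_lit 0) (nat_lit 1016521292355) (nat_lit 152) (nat_lit 283027538118) (nat_lit 0) (nat_lit 1014860527698) (nat_lit 1) (nat_lit 5) (nat_lit 3) (nat_lit 4) (nat_lit 1) (nat_lit 4) (nat_lit 444) (nat_lit 317) (nat_lit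 259)) (XT.lf (nat_lit 0) (nat_lit 1100870545686) (nat_lit 152) (nat_lit 299230099780) (nat_lit 0) (nat_lit 1099208347427) (nat_lit 1) (nat_lit 5) (nat_lit 3) (nat_lit 4) (nat_lit 1) (nat_lit 4) (nat_lit 445) (nat_lit 317) (nat_lit 258))) (XT.nd (nat_lit 78) (nat_lit 0) (nat_lit 0) (XT.lf (nat_lit 0) (nat_lit 1191962655878) (nat_lit 152) (nat_lit 316739219230) (nat_lit 0) (nat_lit 1190299130211) (nat_lit 1) (nat_lit 5) (nat_lit 3) (nat_lit 4) (nat_lit 1) (nat_lit 4) (nat_lit 446) (nat_lit 317) (nat_lit 257)) (XT.nd (nat_lit 78) (nat_lit 0) (nat_lit 0) (XT.lf (nat_lit 0) (nat_lit 1290337428028) (nat_lit 152) (nat_lit 335658654212) (nat_lit 0) (nat_lit 1288672673280) (nat_lit 1) (nat_lit 5) (nat_lit 3) (nat_lit 4) (nat_lit 1) (nat_lit 4) (nat_lit 447) (nat_lit 317) (nat_lit 256)) (XT.lf (nat_lit 0) (nat_lit 1396577823750) (nat_lit 152) (nat_lit 356100519898) (nat_lit 0) (nat_lit 1394911930963)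 (nat_lit 1) (nat_lit 5) (nat_lit 3) (nat_lit 4) (nat_lit 1) (nat_lit 4) (nat_lit 448) (nat_lit 317) (nat_lit 255)))))) (XT.nd (nat_lit 390) (nat_lit 0) (nat_lit 0) (XT.nd (nat_lit 156) (nat_lit 0) (nat_lit 0) (XT.nd (nat_lit 78) (nat_lit 0) (nat_lit 0) (XT.lf (nat_lit 0) (nat_lit 1511313415759) (nat_lit 152) (nat_lit 378185953268) (nat_lit 0) (nat_lit 1509646469232) (nat_lit 1) (nat_lit 5) (nat_lit 3) (nat_lit 4) (nat_lit 1) (nat_lit 4) (nat_lit 449) (nat_lit 317) (nat_lit 254)) (XT.lf (nat_lit 0) (nat_lit 1635224118674) (nat_lit 152) (nat_lit 402045830965) (nat_lit 0) (nat_lit 1633556196462) (nat_lit 1) (nat_lit 5) (nat_lit 3) (nat_lit 4) (nat_lit 1) (nat_lit 4) (nat_lit 450) (nat_lit 317) (nat_lit 253))) (XT.nd (nat_lit 78) (nat_lit 0) (nat_lit 0) (XT.lf (nat_lit 0) (nat_lit 1769044218142) (nat_lit 152) (nat_lit 427821544857) (nat_lit 0) (nat_lit 1767375392519) (nat_lit 1) (nat_lit 5)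 (nat_lit 3) (nat_lit 4) (nat_lit 1) (nat_lit 4) (nat_lit 451) (nat_lit 317) (nat_lit 252)) (XT.nd (nat_lit 78) (nat_lit 0) (nat_lit 0) (XT.lf (nat_lit 0) (nat_lit 1913566722160) (nat_lit 152) (nat_lit 455665839914) (nat_lit 0) (nat_lit 1911897060044) (nat_lit 1) (nat_lit 5) (nat_lit 3) (nat_lit 4) (nat_lit 1) (nat_lit 4) (nat_lit 452) (nat_lit 317) (nat_lit 251)) (XT.lf (nat_lit 0) (nat_lit 2069648060381) (nat_lit 152) (nat_lit 485743719368) (nat_lit 0) (nat_lit 2067977623735) (nat_lit 1) (nat_lit 5) (nat_lit 3) (nat_lit 4) (nat_lit 1) (nat_lit 4) (nat_lit 453) (nat_lit 317) (nat_lit 250))))) (XT.nd (nat_lit 234) (nat_lit 0) (nat_lit 0) (XT.nd (nat_lit 78) (nat_lit 0) (nat_lit 0) (XT.lf (nat_lit 0) (nat_lit 2238213159254) (nat_lit 152) (nat_lit 518233422503) (nat_lit 0) (nat_lit 2236542005451) (nat_lit 1) (nat_lit 5) (nat_lit 3) (nat_lit 4) (nat_lit 1) (nat_lit 4) (nat_lit 454) (nat_lit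 317) (nat_lit 249)) (XT.nd (nat_lit 78) (nat_lit 0) (nat_lit 0) (XT.lf (nat_lit 0) (nat_lit 2420260923069) (nat_lit 152) (nat_lit 553327480894) (nat_lit 0) (nat_lit 2418589105231) (nat_lit 1) (nat_lit 5) (nat_lit 3) (nat_lit 4) (nat_lit 1) (nat_lit 4) (nat_lit 455) (nat_lit 317) (nat_lit 248)) (XT.lf (nat_lit 0) (nat_lit 2616870153389) (nat_lit 152) (nat_lit 591233859332) (nat_lit 0) (nat_lit 2615197720704) (nat_lit 1) (nat_lit 5) (nat_lit 3) (nat_lit 4) (nat_lit 1) (nat_lit 4) (nat_lit 456) (nat_lit 317) (nat_lit 247)))) (XT.nd (nat_lit 78) (nat_lit 0) (nat_lit 0) (XT.lf (nat_lit 0) (nat_lit 2829205941949) (nat_lit 152) (nat_lit 632177188206) (nat_lit 0) (nat_lit 2827532939962) (nat_lit 1) (nat_lit 5) (nat_lit 3) (nat_lit 4) (nat_lit 1) (nat_lit 4) (nat_lit 457) (nat_lit 317) (nat_lit 246)) (XT.nd (nat_lit 78) (nat_lit 0) (nat_lit 0) (XT.lf (nat_lit 0) (nat_lit 3058526574903) (nat_lit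 152) (nat_lit 676400094651) (nat_lit 0) (nat_lit 3056853045784) (nat_lit 1) (nat_lit 5) (nat_lit 3) (nat_lit 4) (nat_lit 1) (nat_lit 4) (nat_lit 458) (nat_lit 317) (nat_lit 245)) (XT.lf (nat_lit 0) (nat_lit 3306190989337) (nat_lit 152) (nat_lit 724164640335) (nat_lit 0) (nat_lit 3304516972133) (nat_lit 1) (nat_lit 5) (nat_lit 3) (nat_lit 4) (nat_lit 1) (nat_lit 4) (nat_lit 459) (nat_lit 317) (nat_lit 244))))))) (XT.nd (nat_lit 47580) (nat_lit 0) (nat_lit 152) (XT.nd (nat_lit 47190) (nat_lit 0) (nat_lit 380) (XT.nd (nat_lit 156) (nat_lit 0) (nat_lit 0) (XT.nd (nat_lit 78) (nat_lit 0) (nat_lit 0) (XT.lf (nat_lit 0) (nat_lit 3573666826224) (nat_lit 152) (nat_lit 775753874417) (nat_lit 0) (nat_lit 3571992357089) (nat_lit 1) (nat_lit 5) (nat_lit 3) (nat_lit 4) (nat_lit 1) (nat_lit 4) (nat_lit 460) (nat_lit 317) (nat_lit 243)) (XT.lf (nat_lit 0) (nat_lit 3862539127560) (nat_lit 152) (nat_lit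 831473510878) (nat_lit 0) (nat_lit 3860864239971) (nat_lit 1) (nat_lit 5) (nat_lit 3) (nat_lit 4) (nat_lit 1) (nat_lit 4) (nat_lit 461) (nat_lit 317) (nat_lit 242))) (XT.nd (nat_lit 78) (nat_lit 0) (nat_lit 0) (XT.lf (nat_lit 0) (nat_lit 4174519729206) (nat_lit 152) (nat_lit 891653740155) (nat_lit 0) (nat_lit 4172844454159) (nat_lit 1) (nat_lit 5) (nat_lit 3) (nat_lit 4) (nat_lit 1) (nat_lit 4) (nat_lit 462) (nat_lit 317) (nat_lit 241)) (XT.nd (nat_lit 78) (nat_lit 0) (nat_lit 0) (XT.lf (nat_lit 0) (nat_lit 4511457405097) (nat_lit 152) (nat_lit 956651185829) (nat_lit 0) (nat_lit 4509781771293) (nat_lit 1) (nat_lit 5) (nat_lit 3) (nat_lit 4) (nat_lit 1) (nat_lit 4) (nat_lit 463) (nat_lit 317) (nat_lit 240)) (XT.lf (nat_lit 0) (nat_lit 4875348822942) (nat_lit 152) (nat_lit 1026851017949) (nat_lit 0) (nat_lit 4873672856955) (nat_lit 1) (nat_lit 5) (nat_lit 3) (nat_lit 4) (nat_lit 1) (nat_lit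 4) (nat_lit 464) (nat_lit 317) (nat_lit 239))))) (XT.nd (nat_lit 156) (nat_lit 228) (nat_lit 0) (XT.nd (nat_lit 78) (nat_lit 0) (nat_lit 0) (XT.lf (nat_lit 0) (nat_lit 6947987118) (nat_lit 76) (nat_lit 3601777000) (nat_lit 76) (nat_lit 3601777000) (nat_lit 9) (nat_lit 4) (nat_lit 10) (nat_lit 5) (nat_lit 10) (nat_lit 4) (nat_lit 384) (nat_lit 318) (nat_lit 318)) (XT.lf (nat_lit 0) (nat_lit 28119433019) (nat_lit 76) (nat_lit 1045873316) (nat_lit 76) (nat_lit 876556104) (nat_lit 9) (nat_lit 4) (nat_lit 10) (nat_lit 5) (nat_lit 10) (nat_lit 4) (nat_lit 385) (nat_lit 318) (nat_lit 317))) (XT.nd (nat_lit 78) (nat_lit 76) (nat_lit 0) (XT.lf (nat_lit 0) (nat_lit 5740528422) (nat_lit 152) (nat_lit 20722640738) (nat_lit 0) (nat_lit 5438591008) (nat_lit 7) (nat_lit 5) (nat_lit 9) (nat_lit 4) (nat_lit 7) (nat_lit 4) (nat_lit 386) (nat_lit 318) (nat_lit 316)) (XT.nd (nat_lit 78) (nat_lit 76) (nat_lit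 0) (XT.lf (nat_lit 0) (nat_lit 12593704619) (nat_lit 152) (nat_lit 9177264990) (nat_lit 0) (nat_lit 12157357743) (nat_lit 7) (nat_lit 5) (nat_lit 9) (nat_lit 4) (nat_lit 7) (nat_lit 4) (nat_lit 387) (nat_lit 318) (nat_lit 315)) (XT.lf (nat_lit 0) (nat_lit 2823888096) (nat_lit 76) (nat_lit 16936372756) (nat_lit 76) (nat_lit 16375572674) (nat_lit 6) (nat_lit 4) (nat_lit 7) (nat_lit 5) (nat_lit 7) (nat_lit 4) (nat_lit 388) (nat_lit 318) (nat_lit 314)))))) (XT.nd (nat_lit 390) (nat_lit 76) (nat_lit 0) (XT.nd (nat_lit 156) (nat_lit 152) (nat_lit 0) (XT.nd (nat_lit 78) (nat_lit 0) (nat_lit 0) (XT.lf (nat_lit 0) (nat_lit 15713358213) (nat_lit 76) (nat_lit 11743067845) (nat_lit 76) (nat_lit 11067033314) (nat_lit 6) (nat_lit 4) (nat_lit 7) (nat_lit 5) (nat_lit 7) (nat_lit 4) (nat_lit 389) (nat_lit 318) (nat_lit 313)) (XT.lf (nat_lit 0) (nat_lit 29084268897) (nat_lit 76) (nat_lit 6411202424) (nat_lit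 76) (nat_lit 5628469330) (nat_lit 6) (nat_lit 4) (nat_lit 7) (nat_lit 5) (nat_lit 7) (nat_lit 4) (nat_lit 390) (nat_lit 318) (nat_lit 312))) (XT.nd (nat_lit 78) (nat_lit 152) (nat_lit 0) (XT.lf (nat_lit 0) (nat_lit 43015855172) (nat_lit 76) (nat_lit 909180256) (nat_lit 76) (nat_lit 27652194) (nat_lit 6) (nat_lit 4) (nat_lit 7) (nat_lit 5) (nat_lit 7) (nat_lit 4) (nat_lit 391) (nat_lit 318) (nat_lit 311)) (XT.nd (nat_lit 78) (nat_lit 0) (nat_lit 0) (XT.lf (nat_lit 0) (nat_lit 5869768452) (nat_lit 152) (nat_lit 36145579601) (nat_lit 0) (nat_lit 4968838005) (nat_lit 4) (nat_lit 5) (nat_lit 6) (nat_lit 4) (nat_lit 4) (nat_lit 4) (nat_lit 392) (nat_lit 318) (nat_lit 310)) (XT.lf (nat_lit 0) (nat_lit 12048103902) (nat_lit 152) (nat_lit 27156461904) (nat_lit 0) (nat_lit 11068746826) (nat_lit 4) (nat_lit 5) (nat_lit 6) (nat_lit 4) (nat_lit 4) (nat_lit 4) (nat_lit 393) (nat_lit 318) (nat_lit 309)))))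 (XT.nd (nat_lit 234) (nat_lit 0) (nat_lit 0) (XT.nd (nat_lit 78) (nat_lit 76) (nat_lit 0) (XT.lf (nat_lit 0) (nat_lit 18499150673) (nat_lit 152) (nat_lit 17896980578) (nat_lit 0) (nat_lit 17447176347) (nat_lit 4) (nat_lit 5) (nat_lit 6) (nat_lit 4) (nat_lit 4) (nat_lit 4) (nat_lit 394) (nat_lit 318) (nat_lit 308)) (XT.nd (nat_lit 78) (nat_lit 76) (nat_lit 0) (XT.lf (nat_lit 0) (nat_lit 25261137189) (nat_lit 152) (nat_lit 8312264623) (nat_lit 0) (nat_lit 24141924668) (nat_lit 4) (nat_lit 5) (nat_lit 6) (nat_lit 4) (nat_lit 4) (nat_lit 4) (nat_lit 395) (nat_lit 318) (nat_lit 307)) (XT.lf (nat_lit 0) (nat_lit 1741606486) (nat_lit 76) (nat_lit 30674413673) (nat_lit 76) (nat_lit 29492943564) (nat_lit 3) (nat_lit 4) (nat_lit 4) (nat_lit 5) (nat_lit 4) (nat_lit 4) (nat_lit 396) (nat_lit 318) (nat_lit 306)))) (XT.nd (nat_lit 78) (nat_lit 0) (nat_lit 0) (XT.lf (nat_lit 0) (nat_lit 12697509172)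 (nat_lit 76) (nat_lit 27488159873) (nat_lit 76) (nat_lit 26249043851) (nat_lit 3) (nat_lit 4) (nat_lit 4) (nat_lit 5) (nat_lit 4) (nat_lit 4) (nat_lit 397) (nat_lit 318) (nat_lit 305)) (XT.nd (nat_lit 78) (nat_lit 0) (nat_lit 0) (XT.lf (nat_lit 0) (nat_lit 24182658177) (nat_lit 76) (nat_lit 24223030956) (nat_lit 76) (nat_lit 22930539087) (nat_lit 3) (nat_lit 4) (nat_lit 4) (nat_lit 5) (nat_lit 4) (nat_lit 4) (nat_lit 398) (nat_lit 318) (nat_lit 304)) (XT.lf (nat_lit 0) (nat_lit 36265113643) (nat_lit 76) (nat_lit 20859678010) (nat_lit 76) (nat_lit 19517764061) (nat_lit 3) (nat_lit 4) (nat_lit 4) (nat_lit 5) (nat_lit 4) (nat_lit 4) (nat_lit 399) (nat_lit 318) (nat_lit 303))))))))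
noncomputable def xc40 : XT := (XT.nd (nat_lit 1560) (nat_lit 0) (nat_lit 0) (XT.nd (nat_lit 780) (nat_lit 0) (nat_lit 0) (XT.nd (nat_lit 390) (nat_lit 152) (nat_lit 0) (XT.nd (nat_lit 156) (nat_lit 0) (nat_lit 0) (XT.nd (nat_lit 78) (nat_lit 0) (nat_lit 0) (XT.lf (nat_lit 0) (nat_lit 49016475306) (nat_lit 76) (nat_lit 17378170054) (nat_lit 76) (nat_lit 15990494919) (nat_lit 3) (nat_lit 4) (nat_lit 4) (nat_lit 5) (nat_lit 4) (nat_lit 4) (nat_lit 400) (nat_lit 318) (nat_lit 302)) (XT.lf (nat_lit 0) (nat_lit 62512306790) (nat_lit 76) (nat_lit 13757875929) (nat_lit 76) (nat_lit 12327829327) (nat_lit 3) (nat_lit 4) (nat_lit 4) (nat_lit 5) (nat_lit 4) (nat_lit 4) (nat_lit 401) (nat_lit 318) (nat_lit 301))) (XT.nd (nat_lit 78) (nat_lit 0) (nat_lit 0) (XT.lf (nat_lit 0) (nat_lit 76832583395) (nat_lit 76) (nat_lit 9977342041) (nat_lit 76) (nat_lit 8508062599) (nat_lit 3) (nat_lit 4) (nat_lit 4)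 (nat_lit 5) (nat_lit 4) (nat_lit 4) (nat_lit 402) (nat_lit 318) (nat_lit 300)) (XT.nd (nat_lit 78) (nat_lit 0) (nat_lit 0) (XT.lf (nat_lit 0) (nat_lit 92062166016) (nat_lit 76) (nat_lit 6014165227) (nat_lit 76) (nat_lit 4508559080) (nat_lit 3) (nat_lit 4) (nat_lit 4) (nat_lit 5) (nat_lit 4) (nat_lit 4) (nat_lit 403) (nat_lit 318) (nat_lit 299)) (XT.lf (nat_lit 0) (nat_lit 108291304035) (nat_lit 76) (nat_lit 1844859993) (nat_lit 76) (nat_lit 305618009) (nat_lit 3) (nat_lit 4) (nat_lit 4) (nat_lit 5) (nat_lit 4) (nat_lit 4) (nat_lit 404) (nat_lit 318) (nat_lit 298))))) (XT.nd (nat_lit 156) (nat_lit 0) (nat_lit 0) (XT.nd (nat_lit 78) (nat_lit 0) (nat_lit 0) (XT.lf (nat_lit 0) (nat_lit 4154270028) (nat_lit 152) (nat_lit 112054007202) (nat_lit 0) (nat_lit 2700208660) (nat_lit 1) (nat_lit 5) (nat_lit 3) (nat_lit 4) (nat_lit 1) (nat_lit 4) (nat_lit 405) (nat_lit 318) (nat_lit 297)) (XT.lf (nat_lit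 0) (nat_lit 8960427129) (nat_lit 152) (nat_lit 111611325260) (nat_lit 0) (nat_lit 7479664549) (nat_lit 1) (nat_lit 5) (nat_lit 3) (nat_lit 4) (nat_lit 1) (nat_lit 4) (nat_lit 406) (nat_lit 318) (nat_lit 296))) (XT.nd (nat_lit 78) (nat_lit 0) (nat_lit 0) (XT.lf (nat_lit 0) (nat_lit 14056396976) (nat_lit 152) (nat_lit 111326053535) (nat_lit 0) (nat_lit 12550911050) (nat_lit 1) (nat_lit 5) (nat_lit 3) (nat_lit 4) (nat_lit 1) (nat_lit 4) (nat_lit 407) (nat_lit 318) (nat_lit 295)) (XT.nd (nat_lit 78) (nat_lit 0) (nat_lit 0) (XT.lf (nat_lit 0) (nat_lit 19472377907) (nat_lit 152) (nat_lit 111196501530) (nat_lit 0) (nat_lit 17943999996) (nat_lit 1) (nat_lit 5) (nat_lit 3) (nat_lit 4) (nat_lit 1) (nat_lit 4) (nat_lit 408) (nat_lit 318) (nat_lit 294)) (XT.lf (nat_lit 0) (nat_lit 25240464625) (nat_lit 152) (nat_lit 111221901528) (nat_lit 0) (nat_lit 23690890431) (nat_lit 1) (nat_lit 5) (nat_lit 3)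 (nat_lit 4) (nat_lit 1) (nat_lit 4) (nat_lit 409) (nat_lit 318) (nat_lit 293)))))) (XT.nd (nat_lit 390) (nat_lit 0) (nat_lit 0) (XT.nd (nat_lit 156) (nat_lit 0) (nat_lit 0) (XT.nd (nat_lit 78) (nat_lit 0) (nat_lit 0) (XT.lf (nat_lit 0) (nat_lit 31394838384) (nat_lit 152) (nat_lit 111402404048) (nat_lit 0) (nat_lit 29825638003) (nat_lit 1) (nat_lit 5) (nat_lit 3) (nat_lit 4) (nat_lit 1) (nat_lit 4) (nat_lit 410) (nat_lit 318) (nat_lit 292)) (XT.lf (nat_lit 0) (nat_lit 37971969548) (nat_lit 152) (nat_lit 111739078735) (nat_lit 0) (nat_lit 36384596770) (nat_lit 1) (nat_lit 5) (nat_lit 3) (nat_lit 4) (nat_lit 1) (nat_lit 4) (nat_lit 411) (nat_lit 318) (nat_lit 291))) (XT.nd (nat_lit 78) (nat_lit 0) (nat_lit 0) (XT.lf (nat_lit 0) (nat_lit 45010833709) (nat_lit 152) (nat_lit 112233920697) (nat_lit 0) (nat_lit 43406634638) (nat_lit 1) (nat_lit 5) (nat_lit 3) (nat_lit 4) (nat_lit 1) (nat_lit 4)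 (nat_lit 412) (nat_lit 318) (nat_lit 290)) (XT.nd (nat_lit 78) (nat_lit 0) (nat_lit 0) (XT.lf (nat_lit 0) (nat_lit 52553142654) (nat_lit 152) (nat_lit 112889862332) (nat_lit 0) (nat_lit 50933363682) (nat_lit 1) (nat_lit 5) (nat_lit 3) (nat_lit 4) (nat_lit 1) (nat_lit 4) (nat_lit 413) (nat_lit 318) (nat_lit 289)) (XT.lf (nat_lit 0) (nat_lit 60643591547) (nat_lit 152) (nat_lit 113710790701) (nat_lit 0) (nat_lit 59009386741) (nat_lit 1) (nat_lit 5) (nat_lit 3) (nat_lit 4) (nat_lit 1) (nat_lit 4) (nat_lit 414) (nat_lit 318) (nat_lit 288))))) (XT.nd (nat_lit 156) (nat_lit 0) (nat_lit 0) (XT.nd (nat_lit 78) (nat_lit 0) (nat_lit 0) (XT.lf (nat_lit 0) (nat_lit 69330123789) (nat_lit 152) (nat_lit 114701570565) (nat_lit 0) (nat_lit 67682561729) (nat_lit 1) (nat_lit 5) (nat_lit 3) (nat_lit 4) (nat_lit 1) (nat_lit 4) (nat_lit 415) (nat_lit 318) (nat_lit 287)) (XT.lf (nat_lit 0) (nat_lit 78664215127)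 (nat_lit 152) (nat_lit 115868073212) (nat_lit 0) (nat_lit 77004285240) (nat_lit 1) (nat_lit 5) (nat_lit 3) (nat_lit 4) (nat_lit 1) (nat_lit 4) (nat_lit 416) (nat_lit 318) (nat_lit 286))) (XT.nd (nat_lit 78) (nat_lit 0) (nat_lit 0) (XT.lf (nat_lit 0) (nat_lit 88701178695) (nat_lit 152) (nat_lit 117217211250) (nat_lit 0) (nat_lit 87029797115) (nat_lit 1) (nat_lit 5) (nat_lit 3) (nat_lit 4) (nat_lit 1) (nat_lit 4) (nat_lit 417) (nat_lit 318) (nat_lit 285)) (XT.nd (nat_lit 78) (nat_lit 0) (nat_lit 0) (XT.lf (nat_lit 0) (nat_lit 99500492795) (nat_lit 152) (nat_lit 118756979571) (nat_lit 0) (nat_lit 97818507796) (nat_lit 1) (nat_lit 5) (nat_lit 3) (nat_lit 4) (nat_lit 1) (nat_lit 4) (nat_lit 418) (nat_lit 318) (nat_lit 284)) (XT.lf (nat_lit 0) (nat_lit 111126153362) (nat_lit 152) (nat_lit 120496502729) (nat_lit 0) (nat_lit 109434350384) (nat_lit 1) (nat_lit 5) (nat_lit 3) (nat_lit 4) (nat_lit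 1) (nat_lit 4) (nat_lit 419) (nat_lit 318) (nat_lit 283))))))) (XT.nd (nat_lit 780) (nat_lit 0) (nat_lit 0) (XT.nd (nat_lit 390) (nat_lit 0) (nat_lit 0) (XT.nd (nat_lit 156) (nat_lit 0) (nat_lit 0) (XT.nd (nat_lit 78) (nat_lit 0) (nat_lit 0) (XT.lf (nat_lit 0) (nat_lit 123647053201) (nat_lit 152) (nat_lit 122446089008) (nat_lit 0) (nat_lit 121946159500) (nat_lit 1) (nat_lit 5) (nat_lit 3) (nat_lit 4) (nat_lit 1) (nat_lit 4) (nat_lit 420) (nat_lit 318) (nat_lit 282)) (XT.lf (nat_lit 0) (nat_lit 137137390235) (nat_lit 152) (nat_lit 124617291513) (nat_lit 0) (nat_lit 135428079199) (nat_lit 1) (nat_lit 5) (nat_lit 3) (nat_lit 4) (nat_lit 1) (nat_lit 4) (nat_lit 421) (nat_lit 318) (nat_lit 281))) (XT.nd (nat_lit 78) (nat_lit 0) (nat_lit 0) (XT.lf (nat_lit 0) (nat_lit 151677107204) (nat_lit 152) (nat_lit 127022976629) (nat_lit 0) (nat_lit 149960002338) (nat_lit 1) (nat_lit 5) (nat_lit 3) (nat_lit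 4) (nat_lit 1) (nat_lit 4) (nat_lit 422) (nat_lit 318) (nat_lit 280)) (XT.nd (nat_lit 78) (nat_lit 0) (nat_lit 0) (XT.lf (nat_lit 0) (nat_lit 167352365392) (nat_lit 152) (nat_lit 129677400267) (nat_lit 0) (nat_lit 165628044018) (nat_lit 1) (nat_lit 5) (nat_lit 3) (nat_lit 4) (nat_lit 1) (nat_lit 4) (nat_lit 423) (nat_lit 318) (nat_lit 279)) (XT.lf (nat_lit 0) (nat_lit 184256055219) (nat_lit 152) (nat_lit 132596292345) (nat_lit 0) (nat_lit 182525051892) (nat_lit 1) (nat_lit 5) (nat_lit 3) (nat_lit 4) (nat_lit 1) (nat_lit 4) (nat_lit 424) (nat_lit 318) (nat_lit 278))))) (XT.nd (nat_lit 156) (nat_lit 0) (nat_lit 0) (XT.nd (nat_lit 78) (nat_lit 0) (nat_lit 0) (XT.lf (nat_lit 0) (nat_lit 202488346698) (nat_lit 152) (nat_lit 135796950002) (nat_lit 0) (nat_lit 200751156378) (nat_lit 1) (nat_lit 5) (nat_lit 3) (nat_lit 4) (nat_lit 1) (nat_lit 4) (nat_lit 425) (nat_lit 318) (nat_lit 277)) (XT.lf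 (nat_lit 0) (nat_lit 222157283038) (nat_lit 152) (nat_lit 139298340098) (nat_lit 0) (nat_lit 220414364021) (nat_lit 1) (nat_lit 5) (nat_lit 3) (nat_lit 4) (nat_lit 1) (nat_lit 4) (nat_lit 426) (nat_lit 318) (nat_lit 276))) (XT.nd (nat_lit 78) (nat_lit 0) (nat_lit 0) (XT.lf (nat_lit 0) (nat_lit 243379420900) (nat_lit 152) (nat_lit 143121211612) (nat_lit 0) (nat_lit 241631197534) (nat_lit 1) (nat_lit 5) (nat_lit 3) (nat_lit 4) (nat_lit 1) (nat_lit 4) (nat_lit 427) (nat_lit 318) (nat_lit 275)) (XT.nd (nat_lit 78) (nat_lit 0) (nat_lit 0) (XT.lf (nat_lit 0) (nat_lit 266280521099) (nat_lit 152) (nat_lit 147288218595) (nat_lit 0) (nat_lit 264527386298) (nat_lit 1) (nat_lit 5) (nat_lit 3) (nat_lit 4) (nat_lit 1) (nat_lit 4) (nat_lit 428) (nat_lit 318) (nat_lit 274)) (XT.lf (nat_lit 0) (nat_lit 290996293859) (nat_lit 152) (nat_lit 151824054425) (nat_lit 0) (nat_lit 289238611434) (nat_lit 1) (nat_lit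 5) (nat_lit 3) (nat_lit 4) (nat_lit 1) (nat_lit 4) (nat_lit 429) (nat_lit 318) (nat_lit 273)))))) (XT.nd (nat_lit 390) (nat_lit 0) (nat_lit 0) (XT.nd (nat_lit 156) (nat_lit 0) (nat_lit 0) (XT.nd (nat_lit 78) (nat_lit 0) (nat_lit 0) (XT.lf (nat_lit 0) (nat_lit 317673203020) (nat_lit 152) (nat_lit 156755598126) (nat_lit 0) (nat_lit 315911309831) (nat_lit 1) (nat_lit 5) (nat_lit 3) (nat_lit 4) (nat_lit 1) (nat_lit 4) (nat_lit 430) (nat_lit 318) (nat_lit 272)) (XT.lf (nat_lit 0) (nat_lit 346469333968) (nat_lit 152) (nat_lit 162112073663) (nat_lit 0) (nat_lit 344703541924) (nat_lit 1) (nat_lit 5) (nat_lit 3) (nat_lit 4) (nat_lit 1) (nat_lit 4) (nat_lit 431) (nat_lit 318) (nat_lit 271))) (XT.nd (nat_lit 78) (nat_lit 0) (nat_lit 0) (XT.lf (nat_lit 0) (nat_lit 377555330442) (nat_lit 152) (nat_lit 167925223112) (nat_lit 0) (nat_lit 375785928348) (nat_lit 1) (nat_lit 5) (nat_lit 3) (nat_lit 4) (nat_lit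 1) (nat_lit 4) (nat_lit 432) (nat_lit 318) (nat_lit 270)) (XT.nd (nat_lit 78) (nat_lit 0) (nat_lit 0) (XT.lf (nat_lit 0) (nat_lit 411115405756) (nat_lit 152) (nat_lit 174229494767) (nat_lit 0) (nat_lit 409342661021) (nat_lit 1) (nat_lit 5) (nat_lit 3) (nat_lit 4) (nat_lit 1) (nat_lit 4) (nat_lit 433) (nat_lit 318) (nat_lit 269)) (XT.lf (nat_lit 0) (nat_lit 447348434428) (nat_lit 152) (nat_lit 181062247273) (nat_lit 0) (nat_lit 445572594657) (nat_lit 1) (nat_lit 5) (nat_lit 3) (nat_lit 4) (nat_lit 1) (nat_lit 4) (nat_lit 434) (nat_lit 318) (nat_lit 268))))) (XT.nd (nat_lit 234) (nat_lit 0) (nat_lit 0) (XT.nd (nat_lit 78) (nat_lit 0) (nat_lit 0) (XT.lf (nat_lit 0) (nat_lit 486469130704) (nat_lit 152) (nat_lit 188463971018) (nat_lit 0) (nat_lit 484690425158) (nat_lit 1) (nat_lit 5) (nat_lit 3) (nat_lit 4) (nat_lit 1) (nat_lit 4) (nat_lit 435) (nat_lit 318) (nat_lit 267)) (XT.nd (nat_lit 78)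 (nat_lit 0) (nat_lit 0) (XT.lf (nat_lit 0) (nat_lit 528709320931) (nat_lit 152) (nat_lit 196478528066) (nat_lit 0) (nat_lit 526927961890) (nat_lit 1) (nat_lit 5) (nat_lit 3) (nat_lit 4) (nat_lit 1) (nat_lit 4) (nat_lit 436) (nat_lit 318) (nat_lit 266)) (XT.lf (nat_lit 0) (nat_lit 574319317349) (nat_lit 152) (nat_lit 205153412090) (nat_lit 0) (nat_lit 572535501368) (nat_lit 1) (nat_lit 5) (nat_lit 3) (nat_lit 4) (nat_lit 1) (nat_lit 4) (nat_lit 437) (nat_lit 318) (nat_lit 265)))) (XT.nd (nat_lit 78) (nat_lit 0) (nat_lit 0) (XT.lf (nat_lit 0) (nat_lit 623569401416) (nat_lit 152) (nat_lit 214540029809) (nat_lit 0) (nat_lit 621783310491) (nat_lit 1) (nat_lit 5) (nat_lit 3) (nat_lit 4) (nat_lit 1) (nat_lit 4) (nat_lit 438) (nat_lit 318) (nat_lit 264)) (XT.nd (nat_lit 78) (nat_lit 0) (nat_lit 0) (XT.lf (nat_lit 0) (nat_lit 676751425484) (nat_lit 152) (nat_lit 224694005626) (nat_lit 0) (nat_lit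 674963228128) (nat_lit 1) (nat_lit 5) (nat_lit 3) (nat_lit 4) (nat_lit 1) (nat_lit 4) (nat_lit 439) (nat_lit 318) (nat_lit 263)) (XT.lf (nat_lit 0) (nat_lit 734180542288) (nat_lit 152) (nat_lit 235675511248) (nat_lit 0) (nat_lit 732390394533) (nat_lit 1) (nat_lit 5) (nat_lit 3) (nat_lit 4) (nat_lit 1) (nat_lit 4) (nat_lit 440) (nat_lit 318) (nat_lit 262))))))))
noncomputable def xc41 : XT := (XT.nd (nat_lit 1560) (nat_lit 0) (nat_lit 0) (XT.nd (nat_lit 780) (nat_lit 0) (nat_lit 0) (XT.nd (nat_lit 390) (nat_lit 0) (nat_lit 0) (XT.nd (nat_lit 156) (nat_lit 0) (nat_lit 0) (XT.nd (nat_lit 78) (nat_lit 0) (nat_lit 0) (XT.lf (nat_lit 0) (nat_lit 796197072518) (nat_lit 152) (nat_lit 247549622264) (nat_lit 0) (nat_lit 794405118840) (nat_lit 1) (nat_lit 5) (nat_lit 3) (nat_lit 4) (nat_lit 1) (nat_lit 4) (nat_lit 441) (nat_lit 318) (nat_lit 261)) (XT.lf (nat_lit 0) (nat_lit 863168521541) (nat_lit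 152) (nat_lit 260386703777) (nat_lit 0) (nat_lit 861374895711) (nat_lit 1) (nat_lit 5) (nat_lit 3) (nat_lit 4) (nat_lit 1) (nat_lit 4) (nat_lit 442) (nat_lit 318) (nat_lit 260))) (XT.nd (nat_lit 78) (nat_lit 0) (nat_lit 0) (XT.lf (nat_lit 0) (nat_lit 935491757202) (nat_lit 152) (nat_lit 274262827381) (nat_lit 0) (nat_lit 933696583083) (nat_lit 1) (nat_lit 5) (nat_lit 3) (nat_lit 4) (nat_lit 1) (nat_lit 4) (nat_lit 443) (nat_lit 318) (nat_lit 259)) (XT.nd (nat_lit 78) (nat_lit 0) (nat_lit 0) (XT.lf (nat_lit 0) (nat_lit 1013595361638) (nat_lit 152) (nat_lit 289260221957) (nat_lit 0) (nat_lit 1011798753918) (nat_lit 1) (nat_lit 5) (nat_lit 3) (nat_lit 4) (nat_lit 1) (nat_lit 4) (nat_lit 444) (nat_lit 318) (nat_lit 258)) (XT.lf (nat_lit 0) (nat_lit 1097942171024) (nat_lit 152) (nat_lit 305467760953) (nat_lit 0) (nat_lit 1096144235895) (nat_lit 1) (nat_lit 5) (nat_lit 3) (nat_lit 4) (nat_lit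 1) (nat_lit 4) (nat_lit 445) (nat_lit 318) (nat_lit 257))))) (XT.nd (nat_lit 156) (nat_lit 0) (nat_lit 0) (XT.nd (nat_lit 78) (nat_lit 0) (nat_lit 0) (XT.lf (nat_lit 0) (nat_lit 1189032018304) (nat_lit 152) (nat_lit 322981489045) (nat_lit 0) (nat_lit 1187232854094) (nat_lit 1) (nat_lit 5) (nat_lit 3) (nat_lit 4) (nat_lit 1) (nat_lit 4) (nat_lit 446) (nat_lit 318) (nat_lit 256)) (XT.lf (nat_lit 0) (nat_lit 1287404695166) (nat_lit 152) (nat_lit 341905191289) (nat_lit 0) (nat_lit 1285604392917) (nat_lit 1) (nat_lit 5) (nat_lit 3) (nat_lit 4) (nat_lit 1) (nat_lit 4) (nat_lit 447) (nat_lit 318) (nat_lit 255))) (XT.nd (nat_lit 78) (nat_lit 0) (nat_lit 0) (XT.lf (nat_lit 0) (nat_lit 1393643150805) (nat_lit 152) (nat_lit 362351008143) (nat_lit 0) (nat_lit 1391841794817) (nat_lit 1) (nat_lit 5) (nat_lit 3) (nat_lit 4) (nat_lit 1) (nat_lit 4) (nat_lit 448) (nat_lit 318) (nat_lit 254)) (XT.nd (nat_lit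 78) (nat_lit 0) (nat_lit 0) (XT.lf (nat_lit 0) (nat_lit 1508376946442) (nat_lit 152) (nat_lit 384440100002) (nat_lit 0) (nat_lit 1506574614769) (nat_lit 1) (nat_lit 5) (nat_lit 3) (nat_lit 4) (nat_lit 1) (nat_lit 4) (nat_lit 449) (nat_lit 318) (nat_lit 253)) (XT.lf (nat_lit 0) (nat_lit 1632285986049) (nat_lit 152) (nat_lit 408303365189) (nat_lit 0) (nat_lit 1630482750964) (nat_lit 1) (nat_lit 5) (nat_lit 3) (nat_lit 4) (nat_lit 1) (nat_lit 4) (nat_lit 450) (nat_lit 318) (nat_lit 252)))))) (XT.nd (nat_lit 390) (nat_lit 0) (nat_lit 0) (XT.nd (nat_lit 156) (nat_lit 0) (nat_lit 0) (XT.nd (nat_lit 78) (nat_lit 0) (nat_lit 0) (XT.lf (nat_lit 0) (nat_lit 1766104545417) (nat_lit 152) (nat_lit 434082215646) (nat_lit 0) (nat_lit 1764300473840) (nat_lit 1) (nat_lit 5) (nat_lit 3) (nat_lit 4) (nat_lit 1) (nat_lit 4) (nat_lit 451) (nat_lit 318) (nat_lit 251)) (XT.lf (nat_lit 0) (nat_lit 1910625623417)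 (nat_lit 152) (nat_lit 461929414930) (nat_lit 0) (nat_lit 1908820777310) (nat_lit 1) (nat_lit 5) (nat_lit 3) (nat_lit 4) (nat_lit 1) (nat_lit 4) (nat_lit 452) (nat_lit 318) (nat_lit 250))) (XT.nd (nat_lit 78) (nat_lit 0) (nat_lit 0) (XT.lf (nat_lit 0) (nat_lit 2066705641250) (nat_lit 152) (nat_lit 492009983482) (nat_lit 0) (nat_lit 2064900077986) (nat_lit 1) (nat_lit 5) (nat_lit 3) (nat_lit 4) (nat_lit 1) (nat_lit 4) (nat_lit 453) (nat_lit 318) (nat_lit 249)) (XT.nd (nat_lit 78) (nat_lit 0) (nat_lit 0) (XT.lf (nat_lit 0) (nat_lit 2235269517543) (nat_lit 152) (nat_lit 524502176524) (nat_lit 0) (nat_lit 2233463290244) (nat_lit 1) (nat_lit 5) (nat_lit 3) (nat_lit 4) (nat_lit 1) (nat_lit 4) (nat_lit 454) (nat_lit 318) (nat_lit 248)) (XT.lf (nat_lit 0) (nat_lit 2417316149338) (nat_lit 152) (nat_lit 559598540384) (nat_lit 0) (nat_lit 2415509307192) (nat_lit 1) (nat_lit 5) (nat_lit 3) (nat_lit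 4) (nat_lit 1) (nat_lit 4) (nat_lit 455) (nat_lit 318) (nat_lit 247))))) (XT.nd (nat_lit 156) (nat_lit 0) (nat_lit 0) (XT.nd (nat_lit 78) (nat_lit 0) (nat_lit 0) (XT.lf (nat_lit 0) (nat_lit 2613924331492) (nat_lit 152) (nat_lit 597507053514) (nat_lit 0) (nat_lit 2612116920044) (nat_lit 1) (nat_lit 5) (nat_lit 3) (nat_lit 4) (nat_lit 1) (nat_lit 4) (nat_lit 456) (nat_lit 318) (nat_lit 246)) (XT.lf (nat_lit 0) (nat_lit 2826259149528) (nat_lit 152) (nat_lit 638452358956) (nat_lit 0) (nat_lit 2824451210947) (nat_lit 1) (nat_lit 5) (nat_lit 3) (nat_lit 4) (nat_lit 1) (nat_lit 4) (nat_lit 457) (nat_lit 318) (nat_lit 245))) (XT.nd (nat_lit 78) (nat_lit 0) (nat_lit 0) (XT.lf (nat_lit 0) (nat_lit 3055578883849) (nat_lit 152) (nat_lit 682677095556) (nat_lit 0) (nat_lit 3053770457183) (nat_lit 1) (nat_lit 5) (nat_lit 3) (nat_lit 4) (nat_lit 1) (nat_lit 4) (nat_lit 458) (nat_lit 318) (nat_lit 244))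 (XT.nd (nat_lit 78) (nat_lit 0) (nat_lit 0) (XT.lf (nat_lit 0) (nat_lit 3303242466215) (nat_lit 152) (nat_lit 730443335829) (nat_lit 0) (nat_lit 3301433587618) (nat_lit 1) (nat_lit 5) (nat_lit 3) (nat_lit 4) (nat_lit 1) (nat_lit 4) (nat_lit 459) (nat_lit 318) (nat_lit 243)) (XT.lf (nat_lit 0) (nat_lit 3570717532668) (nat_lit 152) (nat_lit 782034138974) (nat_lit 0) (nat_lit 3568908235617) (nat_lit 1) (nat_lit 5) (nat_lit 3) (nat_lit 4) (nat_lit 1) (nat_lit 4) (nat_lit 460) (nat_lit 318) (nat_lit 242))))))) (XT.nd (nat_lit 47424) (nat_lit 0) (nat_lit 152) (XT.nd (nat_lit 47034) (nat_lit 0) (nat_lit 456) (XT.nd (nat_lit 156) (nat_lit 0) (nat_lit 0) (XT.nd (nat_lit 78) (nat_lit 0) (nat_lit 0) (XT.lf (nat_lit 0) (nat_lit 3859589120641) (nat_lit 152) (nat_lit 837755228271) (nat_lit 0) (nat_lit 3857779436132) (nat_lit 1) (nat_lit 5) (nat_lit 3) (nat_lit 4) (nat_lit 1) (nat_lit 4) (nat_lit 461)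 (nat_lit 318) (nat_lit 241)) (XT.lf (nat_lit 0) (nat_lit 4171569061764) (nat_lit 152) (nat_lit 897936802767) (nat_lit 0) (nat_lit 4169759018498) (nat_lit 1) (nat_lit 5) (nat_lit 3) (nat_lit 4) (nat_lit 1) (nat_lit 4) (nat_lit 462) (nat_lit 318) (nat_lit 240))) (XT.nd (nat_lit 78) (nat_lit 0) (nat_lit 0) (XT.lf (nat_lit 0) (nat_lit 4508506126060) (nat_lit 152) (nat_lit 962935494014) (nat_lit 0) (nat_lit 4506695750611) (nat_lit 1) (nat_lit 5) (nat_lit 3) (nat_lit 4) (nat_lit 1) (nat_lit 4) (nat_lit 463) (nat_lit 318) (nat_lit 239)) (XT.nd (nat_lit 46722) (nat_lit 0) (nat_lit 684) (XT.lf (nat_lit 0) (nat_lit 4872396977614) (nat_lit 152) (nat_lit 1033136479443) (nat_lit 0) (nat_lit 4870586294588) (nat_lit 1) (nat_lit 5) (nat_lit 3) (nat_lit 4) (nat_lit 1) (nat_lit 4) (nat_lit 464) (nat_lit 318) (nat_lit 238)) (XT.lf (nat_lit 0) (nat_lit 3215107251) (nat_lit 152) (nat_lit 6189760727) (nat_lit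 0) (nat_lit 3215107251) (nat_lit 10) (nat_lit 5) (nat_lit 12) (nat_lit 4) (nat_lit 10) (nat_lit 4) (nat_lit 382) (nat_lit 319) (nat_lit 319))))) (XT.nd (nat_lit 156) (nat_lit 152) (nat_lit 0) (XT.nd (nat_lit 78) (nat_lit 0) (nat_lit 0) (XT.lf (nat_lit 0) (nat_lit 86805786) (nat_lit 76) (nat_lit 13407388929) (nat_lit 76) (nat_lit 13224526341) (nat_lit 9) (nat_lit 4) (nat_lit 10) (nat_lit 5) (nat_lit 10) (nat_lit 4) (nat_lit 383) (nat_lit 319) (nat_lit 318)) (XT.lf (nat_lit 0) (nat_lit 13564030417) (nat_lit 76) (nat_lit 7552267283) (nat_lit 76) (nat_lit 7200087482) (nat_lit 9) (nat_lit 4) (nat_lit 10) (nat_lit 5) (nat_lit 10) (nat_lit 4) (nat_lit 384) (nat_lit 319) (nat_lit 317))) (XT.nd (nat_lit 78) (nat_lit 152) (nat_lit 0) (XT.lf (nat_lit 0) (nat_lit 27480133812) (nat_lit 76) (nat_lit 1548152056) (nat_lit 76) (nat_lit 1039197060) (nat_lit 9) (nat_lit 4) (nat_lit 10) (nat_lit 5) (nat_lit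 10) (nat_lit 4) (nat_lit 385) (nat_lit 319) (nat_lit 316)) (XT.nd (nat_lit 78) (nat_lit 0) (nat_lit 0) (XT.lf (nat_lit 0) (nat_lit 5399455793) (nat_lit 152) (nat_lit 21749383794) (nat_lit 0) (nat_lit 4793791705) (nat_lit 7) (nat_lit 5) (nat_lit 9) (nat_lit 4) (nat_lit 7) (nat_lit 4) (nat_lit 386) (nat_lit 319) (nat_lit 315)) (XT.lf (nat_lit 0) (nat_lit 12107060529) (nat_lit 152) (nat_lit 10496851815) (nat_lit 0) (nat_lit 11376943236) (nat_lit 7) (nat_lit 5) (nat_lit 9) (nat_lit 4) (nat_lit 7) (nat_lit 4) (nat_lit 387) (nat_lit 319) (nat_lit 314)))))) (XT.nd (nat_lit 390) (nat_lit 76) (nat_lit 0) (XT.nd (nat_lit 156) (nat_lit 152) (nat_lit 0) (XT.nd (nat_lit 78) (nat_lit 0) (nat_lit 0) (XT.lf (nat_lit 0) (nat_lit 1149384163) (nat_lit 76) (nat_lit 17949172350) (nat_lit 76) (nat_lit 17103820608) (nat_lit 6) (nat_lit 4) (nat_lit 7) (nat_lit 5) (nat_lit 7) (nat_lit 4) (nat_lit 388) (nat_lit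 319) (nat_lit 313)) (XT.lf (nat_lit 0) (nat_lit 13774567240) (nat_lit 76) (nat_lit 12888994307) (nat_lit 76) (nat_lit 11936944000) (nat_lit 6) (nat_lit 4) (nat_lit 7) (nat_lit 5) (nat_lit 7) (nat_lit 4) (nat_lit 389) (nat_lit 319) (nat_lit 312))) (XT.nd (nat_lit 78) (nat_lit 152) (nat_lit 0) (XT.lf (nat_lit 0) (nat_lit 26900767701) (nat_lit 76) (nat_lit 7680394504) (nat_lit 76) (nat_lit 6629549231) (nat_lit 6) (nat_lit 4) (nat_lit 7) (nat_lit 5) (nat_lit 7) (nat_lit 4) (nat_lit 390) (nat_lit 319) (nat_lit 311)) (XT.nd (nat_lit 78) (nat_lit 152) (nat_lit 0) (XT.lf (nat_lit 0) (nat_lit 40605770436) (nat_lit 76) (nat_lit 2292507167) (nat_lit 76) (nat_lit 1150185072) (nat_lit 6) (nat_lit 4) (nat_lit 7) (nat_lit 5) (nat_lit 7) (nat_lit 4) (nat_lit 391) (nat_lit 319) (nat_lit 310)) (XT.lf (nat_lit 0) (nat_lit 4589994460) (nat_lit 152) (nat_lit 39055342978) (nat_lit 0) (nat_lit 3453862188) (nat_lit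 4) (nat_lit 5) (nat_lit 6) (nat_lit 4) (nat_lit 4) (nat_lit 4) (nat_lit 392) (nat_lit 319) (nat_lit 309))))) (XT.nd (nat_lit 234) (nat_lit 76) (nat_lit 0) (XT.nd (nat_lit 78) (nat_lit 0) (nat_lit 0) (XT.lf (nat_lit 0) (nat_lit 10661812836) (nat_lit 152) (nat_lit 30281978063) (nat_lit 0) (nat_lit 9453063313) (nat_lit 4) (nat_lit 5) (nat_lit 6) (nat_lit 4) (nat_lit 4) (nat_lit 4) (nat_lit 393) (nat_lit 319) (nat_lit 308)) (XT.nd (nat_lit 78) (nat_lit 0) (nat_lit 0) (XT.lf (nat_lit 0) (nat_lit 17014232685) (nat_lit 152) (nat_lit 21222267831) (nat_lit 0) (nat_lit 15738244968) (nat_lit 4) (nat_lit 5) (nat_lit 6) (nat_lit 4) (nat_lit 4) (nat_lit 4) (nat_lit 394) (nat_lit 319) (nat_lit 307)) (XT.lf (nat_lit 0) (nat_lit 23684897978) (nat_lit 152) (nat_lit 11822525112) (nat_lit 0) (nat_lit 22346652673) (nat_lit 4) (nat_lit 5) (nat_lit 6) (nat_lit 4) (nat_lit 4) (nat_lit 4) (nat_lit 395) (nat_lit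 319) (nat_lit 306)))) (XT.nd (nat_lit 78) (nat_lit 76) (nat_lit 0) (XT.lf (nat_lit 0) (nat_lit 30713338582) (nat_lit 152) (nat_lit 2027047727) (nat_lit 0) (nat_lit 29317447363) (nat_lit 4) (nat_lit 5) (nat_lit 6) (nat_lit 4) (nat_lit 4) (nat_lit 4) (nat_lit 396) (nat_lit 319) (nat_lit 305)) (XT.nd (nat_lit 78) (nat_lit 0) (nat_lit 0) (XT.lf (nat_lit 0) (nat_lit 8655178690) (nat_lit 76) (nat_lit 29694183080) (nat_lit 76) (nat_lit 28244916015) (nat_lit 3) (nat_lit 4) (nat_lit 4) (nat_lit 5) (nat_lit 4) (nat_lit 4) (nat_lit 397) (nat_lit 319) (nat_lit 304)) (XT.lf (nat_lit 0) (nat_lit 19985757763) (nat_lit 76) (nat_lit 26507412953) (nat_lit 76) (nat_lit 25008723808) (nat_lit 3) (nat_lit 4) (nat_lit 4) (nat_lit 5) (nat_lit 4) (nat_lit 4) (nat_lit 398) (nat_lit 319) (nat_lit 303))))))))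
noncomputable def xc42 : XT := (XT.nd (nat_lit 1560) (nat_lit 0) (nat_lit 0) (XT.nd (nat_lit 780) (nat_lit 0) (nat_lit 0) (XT.nd (nat_lit 390) (nat_lit 152) (nat_lit 0) (XT.nd (nat_lit 156) (nat_lit 0) (nat_lit 0) (XT.nd (nat_lit 78) (nat_lit 0) (nat_lit 0) (XT.lf (nat_lit 0) (nat_lit 31925092921) (nat_lit 76) (nat_lit 23216614442) (nat_lit 76) (nat_lit 21672164112) (nat_lit 3) (nat_lit 4) (nat_lit 4) (nat_lit 5) (nat_lit 4) (nat_lit 4) (nat_lit 399) (nat_lit 319) (nat_lit 302)) (XT.lf (nat_lit 0) (nat_lit 44543935780) (nat_lit 76) (nat_lit 19802286519) (nat_lit 76) (nat_lit 18215464721) (nat_lit 3) (nat_lit 4) (nat_lit 4) (nat_lit 5) (nat_lit 4) (nat_lit 4) (nat_lit 400) (nat_lit 319) (nat_lit 301))) (XT.nd (nat_lit 78) (nat_lit 0) (nat_lit 0) (XT.lf (nat_lit 0) (nat_lit 57917064669) (nat_lit 76) (nat_lit 16244196128) (nat_lit 76) (nat_lit 14618141490) (nat_lit 3) (nat_lit 4) (nat_lit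 4) (nat_lit 5) (nat_lit 4) (nat_lit 4) (nat_lit 401) (nat_lit 319) (nat_lit 300)) (XT.nd (nat_lit 78) (nat_lit 0) (nat_lit 0) (XT.lf (nat_lit 0) (nat_lit 72123727759) (nat_lit 76) (nat_lit 12521258291) (nat_lit 76) (nat_lit 10858876948) (nat_lit 3) (nat_lit 4) (nat_lit 4) (nat_lit 5) (nat_lit 4) (nat_lit 4) (nat_lit 402) (nat_lit 319) (nat_lit 299)) (XT.lf (nat_lit 0) (nat_lit 87248112682) (nat_lit 76) (nat_lit 8611411152) (nat_lit 76) (nat_lit 6915393972) (nat_lit 3) (nat_lit 4) (nat_lit 4) (nat_lit 5) (nat_lit 4) (nat_lit 4) (nat_lit 403) (nat_lit 319) (nat_lit 298))))) (XT.nd (nat_lit 156) (nat_lit 0) (nat_lit 0) (XT.nd (nat_lit 78) (nat_lit 152) (nat_lit 0) (XT.lf (nat_lit 0) (nat_lit 103379845423) (nat_lit 76) (nat_lit 4491485249) (nat_lit 76) (nat_lit 2764323774) (nat_lit 3) (nat_lit 4) (nat_lit 4) (nat_lit 5) (nat_lit 4) (nat_lit 4) (nat_lit 404) (nat_lit 319) (nat_lit 297)) (XT.lf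 (nat_lit 0) (nat_lit 1518913197) (nat_lit 76) (nat_lit 55563716) (nat_lit 152) (nat_lit 117552140927) (nat_lit 1) (nat_lit 5) (nat_lit 2) (nat_lit 5) (nat_lit 3) (nat_lit 4) (nat_lit 405) (nat_lit 319) (nat_lit 296))) (XT.nd (nat_lit 78) (nat_lit 0) (nat_lit 0) (XT.lf (nat_lit 0) (nat_lit 6333778560) (nat_lit 152) (nat_lit 117256390610) (nat_lit 0) (nat_lit 4683130416) (nat_lit 1) (nat_lit 5) (nat_lit 3) (nat_lit 4) (nat_lit 1) (nat_lit 4) (nat_lit 406) (nat_lit 319) (nat_lit 295)) (XT.nd (nat_lit 78) (nat_lit 0) (nat_lit 0) (XT.lf (nat_lit 0) (nat_lit 11387601049) (nat_lit 152) (nat_lit 117056956124) (nat_lit 0) (nat_lit 9714060920) (nat_lit 1) (nat_lit 5) (nat_lit 3) (nat_lit 4) (nat_lit 1) (nat_lit 4) (nat_lit 407) (nat_lit 319) (nat_lit 294)) (XT.lf (nat_lit 0) (nat_lit 16764556650) (nat_lit 152) (nat_lit 117006883044) (nat_lit 0) (nat_lit 15069820237) (nat_lit 1) (nat_lit 5) (nat_lit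 3) (nat_lit 4) (nat_lit 1) (nat_lit 4) (nat_lit 408) (nat_lit 319) (nat_lit 293)))))) (XT.nd (nat_lit 390) (nat_lit 0) (nat_lit 0) (XT.nd (nat_lit 156) (nat_lit 0) (nat_lit 0) (XT.nd (nat_lit 78) (nat_lit 0) (nat_lit 0) (XT.lf (nat_lit 0) (nat_lit 22496508802) (nat_lit 152) (nat_lit 117105874639) (nat_lit 0) (nat_lit 20782146202) (nat_lit 1) (nat_lit 5) (nat_lit 3) (nat_lit 4) (nat_lit 1) (nat_lit 4) (nat_lit 409) (nat_lit 319) (nat_lit 292)) (XT.lf (nat_lit 0) (nat_lit 28617424631) (nat_lit 152) (nat_lit 117354517527) (nat_lit 0) (nat_lit 26884889634) (nat_lit 1) (nat_lit 5) (nat_lit 3) (nat_lit 4) (nat_lit 1) (nat_lit 4) (nat_lit 410) (nat_lit 319) (nat_lit 291))) (XT.nd (nat_lit 78) (nat_lit 0) (nat_lit 0) (XT.lf (nat_lit 0) (nat_lit 35163576229) (nat_lit 152) (nat_lit 117754285147) (nat_lit 0) (nat_lit 33414214940) (nat_lit 1) (nat_lit 5) (nat_lit 3) (nat_lit 4) (nat_lit 1) (nat_lit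 4) (nat_lit 411) (nat_lit 319) (nat_lit 290)) (XT.nd (nat_lit 78) (nat_lit 0) (nat_lit 0) (XT.lf (nat_lit 0) (nat_lit 42173755607) (nat_lit 152) (nat_lit 118307546492) (nat_lit 0) (nat_lit 40408814417) (nat_lit 1) (nat_lit 5) (nat_lit 3) (nat_lit 4) (nat_lit 1) (nat_lit 4) (nat_lit 412) (nat_lit 319) (nat_lit 289)) (XT.lf (nat_lit 0) (nat_lit 49689504567) (nat_lit 152) (nat_lit 119017580148) (nat_lit 0) (nat_lit 47910137543) (nat_lit 1) (nat_lit 5) (nat_lit 3) (nat_lit 4) (nat_lit 1) (nat_lit 4) (nat_lit 413) (nat_lit 319) (nat_lit 288))))) (XT.nd (nat_lit 156) (nat_lit 0) (nat_lit 0) (XT.nd (nat_lit 78) (nat_lit 0) (nat_lit 0) (XT.lf (nat_lit 0) (nat_lit 57755360882) (nat_lit 152) (nat_lit 119888593721) (nat_lit 0) (nat_lit 55962636604) (nat_lit 1) (nat_lit 5) (nat_lit 3) (nat_lit 4) (nat_lit 1) (nat_lit 4) (nat_lit 414) (nat_lit 319) (nat_lit 287)) (XT.lf (nat_lit 0) (nat_lit 66419122219)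 (nat_lit 152) (nat_lit 120925748774) (nat_lit 0) (nat_lit 64614030113) (nat_lit 1) (nat_lit 5) (nat_lit 3) (nat_lit 4) (nat_lit 1) (nat_lit 4) (nat_lit 415) (nat_lit 319) (nat_lit 286))) (XT.nd (nat_lit 78) (nat_lit 0) (nat_lit 0) (XT.lf (nat_lit 0) (nat_lit 75732129385) (nat_lit 152) (nat_lit 122135191411) (nat_lit 0) (nat_lit 73915585587) (nat_lit 1) (nat_lit 5) (nat_lit 3) (nat_lit 4) (nat_lit 1) (nat_lit 4) (nat_lit 416) (nat_lit 319) (nat_lit 285)) (XT.nd (nat_lit 78) (nat_lit 0) (nat_lit 0) (XT.lf (nat_lit 0) (nat_lit 85749570571) (nat_lit 152) (nat_lit 123524088700) (nat_lit 0) (nat_lit 83922423355) (nat_lit 1) (nat_lit 5) (nat_lit 3) (nat_lit 4) (nat_lit 1) (nat_lit 4) (nat_lit 417) (nat_lit 319) (nat_lit 284)) (XT.lf (nat_lit 0) (nat_lit 96530808392) (nat_lit 152) (nat_lit 125100671141) (nat_lit 0) (nat_lit 94693843195) (nat_lit 1) (nat_lit 5) (nat_lit 3) (nat_lit 4) (nat_lit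 1) (nat_lit 4) (nat_lit 418) (nat_lit 319) (nat_lit 283))))))) (XT.nd (nat_lit 780) (nat_lit 0) (nat_lit 0) (XT.nd (nat_lit 390) (nat_lit 0) (nat_lit 0) (XT.nd (nat_lit 156) (nat_lit 0) (nat_lit 0) (XT.nd (nat_lit 78) (nat_lit 0) (nat_lit 0) (XT.lf (nat_lit 0) (nat_lit 108139731665) (nat_lit 152) (nat_lit 126874281447) (nat_lit 0) (nat_lit 106293675745) (nat_lit 1) (nat_lit 5) (nat_lit 3) (nat_lit 4) (nat_lit 1) (nat_lit 4) (nat_lit 419) (nat_lit 319) (nat_lit 282)) (XT.lf (nat_lit 0) (nat_lit 120645134007) (nat_lit 152) (nat_lit 128855429901) (nat_lit 0) (nat_lit 118790660752) (nat_lit 1) (nat_lit 5) (nat_lit 3) (nat_lit 4) (nat_lit 1) (nat_lit 4) (nat_lit 420) (nat_lit 319) (nat_lit 281))) (XT.nd (nat_lit 78) (nat_lit 0) (nat_lit 0) (XT.lf (nat_lit 0) (nat_lit 134121121509) (nat_lit 152) (nat_lit 131055856642) (nat_lit 0) (nat_lit 132258854425) (nat_lit 1) (nat_lit 5) (nat_lit 3) (nat_lit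 4) (nat_lit 1) (nat_lit 4) (nat_lit 421) (nat_lit 319) (nat_lit 280)) (XT.nd (nat_lit 78) (nat_lit 0) (nat_lit 0) (XT.lf (nat_lit 0) (nat_lit 148647551873) (nat_lit 152) (nat_lit 133488601235) (nat_lit 0) (nat_lit 146778068280) (nat_lit 1) (nat_lit 5) (nat_lit 3) (nat_lit 4) (nat_lit 1) (nat_lit 4) (nat_lit 422) (nat_lit 319) (nat_lit 279)) (XT.lf (nat_lit 0) (nat_lit 164310507649) (nat_lit 152) (nat_lit 136168079945) (nat_lit 0) (nat_lit 162434342104) (nat_lit 1) (nat_lit 5) (nat_lit 3) (nat_lit 4) (nat_lit 1) (nat_lit 4) (nat_lit 423) (nat_lit 319) (nat_lit 278))))) (XT.nd (nat_lit 156) (nat_lit 0) (nat_lit 0) (XT.nd (nat_lit 78) (nat_lit 0) (nat_lit 0) (XT.lf (nat_lit 0) (nat_lit 181202806354) (nat_lit 152) (nat_lit 139110171164) (nat_lit 0) (nat_lit 179320453816) (nat_lit 1) (nat_lit 5) (nat_lit 3) (nat_lit 4) (nat_lit 1) (nat_lit 4) (nat_lit 424) (nat_lit 319) (nat_lit 277)) (XT.lf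 (nat_lit 0) (nat_lit 199424550498) (nat_lit 152) (nat_lit 142332309507) (nat_lit 0) (nat_lit 197536469263) (nat_lit 1) (nat_lit 5) (nat_lit 3) (nat_lit 4) (nat_lit 1) (nat_lit 4) (nat_lit 425) (nat_lit 319) (nat_lit 276))) (XT.nd (nat_lit 78) (nat_lit 0) (nat_lit 0) (XT.lf (nat_lit 0) (nat_lit 219083720787) (nat_lit 152) (nat_lit 145853589127) (nat_lit 0) (nat_lit 217190335203) (nat_lit 1) (nat_lit 5) (nat_lit 3) (nat_lit 4) (nat_lit 1) (nat_lit 4) (nat_lit 426) (nat_lit 319) (nat_lit 275)) (XT.nd (nat_lit 78) (nat_lit 0) (nat_lit 0) (XT.lf (nat_lit 0) (nat_lit 240296816009) (nat_lit 152) (nat_lit 149694876866) (nat_lit 0) (nat_lit 238398518990) (nat_lit 1) (nat_lit 5) (nat_lit 3) (nat_lit 4) (nat_lit 1) (nat_lit 4) (nat_lit 427) (nat_lit 319) (nat_lit 274)) (XT.lf (nat_lit 0) (nat_lit 263189543393) (nat_lit 152) (nat_lit 153878935910) (nat_lit 0) (nat_lit 261286698750) (nat_lit 1) (nat_lit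 5) (nat_lit 3) (nat_lit 4) (nat_lit 1) (nat_lit 4) (nat_lit 428) (nat_lit 319) (nat_lit 273)))))) (XT.nd (nat_lit 390) (nat_lit 0) (nat_lit 0) (XT.nd (nat_lit 156) (nat_lit 0) (nat_lit 0) (XT.nd (nat_lit 78) (nat_lit 0) (nat_lit 0) (XT.lf (nat_lit 0) (nat_lit 287897563548) (nat_lit 152) (nat_lit 158430560685) (nat_lit 0) (nat_lit 285990508140) (nat_lit 1) (nat_lit 5) (nat_lit 3) (nat_lit 4) (nat_lit 1) (nat_lit 4) (nat_lit 429) (nat_lit 319) (nat_lit 272)) (XT.lf (nat_lit 0) (nat_lit 314567294369) (nat_lit 152) (nat_lit 163376723780) (nat_lit 0) (nat_lit 312656340107) (nat_lit 1) (nat_lit 5) (nat_lit 3) (nat_lit 4) (nat_lit 1) (nat_lit 4) (nat_lit 430) (nat_lit 319) (nat_lit 271))) (XT.nd (nat_lit 78) (nat_lit 0) (nat_lit 0) (XT.lf (nat_lit 0) (nat_lit 343356778707) (nat_lit 152) (nat_lit 168746735793) (nat_lit 0) (nat_lit 341442214393) (nat_lit 1) (nat_lit 5) (nat_lit 3) (nat_lit 4) (nat_lit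 1) (nat_lit 4) (nat_lit 431) (nat_lit 319) (nat_lit 270)) (XT.nd (nat_lit 78) (nat_lit 0) (nat_lit 0) (XT.lf (nat_lit 0) (nat_lit 374436620912) (nat_lit 152) (nat_lit 174572419015) (nat_lit 0) (nat_lit 372518713959) (nat_lit 1) (nat_lit 5) (nat_lit 3) (nat_lit 4) (nat_lit 1) (nat_lit 4) (nat_lit 432) (nat_lit 319) (nat_lit 269)) (XT.lf (nat_lit 0) (nat_lit 407990997828) (nat_lit 152) (nat_lit 180888296016) (nat_lit 0) (nat_lit 406069995839) (nat_lit 1) (nat_lit 5) (nat_lit 3) (nat_lit 4) (nat_lit 1) (nat_lit 4) (nat_lit 433) (nat_lit 319) (nat_lit 268))))) (XT.nd (nat_lit 234) (nat_lit 0) (nat_lit 0) (XT.nd (nat_lit 78) (nat_lit 0) (nat_lit 0) (XT.lf (nat_lit 0) (nat_lit 444218750208) (nat_lit 152) (nat_lit 187731794214) (nat_lit 0) (nat_lit 442294882443) (nat_lit 1) (nat_lit 5) (nat_lit 3) (nat_lit 4) (nat_lit 1) (nat_lit 4) (nat_lit 434) (nat_lit 319) (nat_lit 267)) (XT.nd (nat_lit 78)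 (nat_lit 0) (nat_lit 0) (XT.lf (nat_lit 0) (nat_lit 483334561026) (nat_lit 152) (nat_lit 195143467672) (nat_lit 0) (nat_lit 481408039767) (nat_lit 1) (nat_lit 5) (nat_lit 3) (nat_lit 4) (nat_lit 1) (nat_lit 4) (nat_lit 435) (nat_lit 319) (nat_lit 266)) (XT.lf (nat_lit 0) (nat_lit 525570227683) (nat_lit 152) (nat_lit 203167237418) (nat_lit 0) (nat_lit 523641249483) (nat_lit 1) (nat_lit 5) (nat_lit 3) (nat_lit 4) (nat_lit 1) (nat_lit 4) (nat_lit 436) (nat_lit 319) (nat_lit 265)))) (XT.nd (nat_lit 78) (nat_lit 0) (nat_lit 0) (XT.lf (nat_lit 0) (nat_lit 571176035608) (nat_lit 152) (nat_lit 211850651718) (nat_lit 0) (nat_lit 569244782464) (nat_lit 1) (nat_lit 5) (nat_lit 3) (nat_lit 4) (nat_lit 1) (nat_lit 4) (nat_lit 437) (nat_lit 319) (nat_lit 264)) (XT.nd (nat_lit 78) (nat_lit 0) (nat_lit 0) (XT.lf (nat_lit 0) (nat_lit 620422241442) (nat_lit 152) (nat_lit 221245167841) (nat_lit 0) (nat_lit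 618488881868) (nat_lit 1) (nat_lit 5) (nat_lit 3) (nat_lit 4) (nat_lit 1) (nat_lit 4) (nat_lit 438) (nat_lit 319) (nat_lit 263)) (XT.lf (nat_lit 0) (nat_lit 673600674553) (nat_lit 152) (nat_lit 231406456994) (nat_lit 0) (nat_lit 671665364581) (nat_lit 1) (nat_lit 5) (nat_lit 3) (nat_lit 4) (nat_lit 1) (nat_lit 4) (nat_lit 439) (nat_lit 319) (nat_lit 262))))))))
noncomputable def xc43 : XT := (XT.nd (nat_lit 1638) (nat_lit 0) (nat_lit 0) (XT.nd (nat_lit 780) (nat_lit 0) (nat_lit 0) (XT.nd (nat_lit 390) (nat_lit 0) (nat_lit 0) (XT.nd (nat_lit 156) (nat_lit 0) (nat_lit 0) (XT.nd (nat_lit 78) (nat_lit 0) (nat_lit 0) (XT.lf (nat_lit 0) (nat_lit 731026466397) (nat_lit 152) (nat_lit 242394734224) (nat_lit 0) (nat_lit 729089350500) (nat_lit 1) (nat_lit 5) (nat_lit 3) (nat_lit 4) (nat_lit 1) (nat_lit 4) (nat_lit 440) (nat_lit 319) (nat_lit 261)) (XT.lf (nat_lit 0) (nat_lit 793039917961) (nat_lit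 152) (nat_lit 254275115248) (nat_lit 0) (nat_lit 791101129912) (nat_lit 1) (nat_lit 5) (nat_lit 3) (nat_lit 4) (nat_lit 1) (nat_lit 4) (nat_lit 441) (nat_lit 319) (nat_lit 260))) (XT.nd (nat_lit 78) (nat_lit 0) (nat_lit 0) (XT.lf (nat_lit 0) (nat_lit 860008516367) (nat_lit 152) (nat_lit 267118002323) (nat_lit 0) (nat_lit 858068180029) (nat_lit 1) (nat_lit 5) (nat_lit 3) (nat_lit 4) (nat_lit 1) (nat_lit 4) (nat_lit 442) (nat_lit 319) (nat_lit 259)) (XT.nd (nat_lit 78) (nat_lit 0) (nat_lit 0) (XT.lf (nat_lit 0) (nat_lit 932329112567) (nat_lit 152) (nat_lit 280999501448) (nat_lit 0) (nat_lit 930387342628) (nat_lit 1) (nat_lit 5) (nat_lit 3) (nat_lit 4) (nat_lit 1) (nat_lit 4) (nat_lit 443) (nat_lit 319) (nat_lit 258)) (XT.lf (nat_lit 0) (nat_lit 1010430273058) (nat_lit 152) (nat_lit 296001873357) (nat_lit 0) (nat_lit 1008487175711) (nat_lit 1) (nat_lit 5) (nat_lit 3) (nat_lit 4) (nat_lit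 1) (nat_lit 4) (nat_lit 444) (nat_lit 319) (nat_lit 257))))) (XT.nd (nat_lit 156) (nat_lit 0) (nat_lit 0) (XT.nd (nat_lit 78) (nat_lit 0) (nat_lit 0) (XT.lf (nat_lit 0) (nat_lit 1094774819532) (nat_lit 152) (nat_lit 312214020996) (nat_lit 0) (nat_lit 1092830493104) (nat_lit 1) (nat_lit 5) (nat_lit 3) (nat_lit 4) (nat_lit 1) (nat_lit 4) (nat_lit 445) (nat_lit 319) (nat_lit 256)) (XT.lf (nat_lit 0) (nat_lit 1185862571524) (nat_lit 152) (nat_lit 329732016350) (nat_lit 0) (nat_lit 1183917107056) (nat_lit 1) (nat_lit 5) (nat_lit 3) (nat_lit 4) (nat_lit 1) (nat_lit 4) (nat_lit 446) (nat_lit 319) (nat_lit 255))) (XT.nd (nat_lit 78) (nat_lit 0) (nat_lit 0) (XT.lf (nat_lit 0) (nat_lit 1284233308303) (nat_lit 152) (nat_lit 348659669763) (nat_lit 0) (nat_lit 1282286790096) (nat_lit 1) (nat_lit 5) (nat_lit 3) (nat_lit 4) (nat_lit 1) (nat_lit 4) (nat_lit 447) (nat_lit 319) (nat_lit 254)) (XT.nd (nat_lit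 78) (nat_lit 0) (nat_lit 0) (XT.lf (nat_lit 0) (nat_lit 1390469967571) (nat_lit 152) (nat_lit 369109145105) (nat_lit 0) (nat_lit 1388522473679) (nat_lit 1) (nat_lit 5) (nat_lit 3) (nat_lit 4) (nat_lit 1) (nat_lit 4) (nat_lit 448) (nat_lit 319) (nat_lit 253)) (XT.lf (nat_lit 0) (nat_lit 1505202099899) (nat_lit 152) (nat_lit 391201624454) (nat_lit 0) (nat_lit 1503253702596) (nat_lit 1) (nat_lit 5) (nat_lit 3) (nat_lit 4) (nat_lit 1) (nat_lit 4) (nat_lit 449) (nat_lit 319) (nat_lit 252)))))) (XT.nd (nat_lit 390) (nat_lit 0) (nat_lit 0) (XT.nd (nat_lit 156) (nat_lit 0) (nat_lit 0) (XT.nd (nat_lit 78) (nat_lit 0) (nat_lit 0) (XT.lf (nat_lit 0) (nat_lit 1629109599407) (nat_lit 152) (nat_lit 415068026206) (nat_lit 0) (nat_lit 1627160365611) (nat_lit 1) (nat_lit 5) (nat_lit 3) (nat_lit 4) (nat_lit 1) (nat_lit 4) (nat_lit 450) (nat_lit 319) (nat_lit 251)) (XT.lf (nat_lit 0) (nat_lit 1762926732756)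 (nat_lit 152) (nat_lit 440849780889) (nat_lit 0) (nat_lit 1760976724431) (nat_lit 1) (nat_lit 5) (nat_lit 3) (nat_lit 4) (nat_lit 1) (nat_lit 4) (nat_lit 451) (nat_lit 319) (nat_lit 250))) (XT.nd (nat_lit 78) (nat_lit 0) (nat_lit 0) (XT.lf (nat_lit 0) (nat_lit 1907446490369) (nat_lit 152) (nat_lit 468699669272) (nat_lit 0) (nat_lit 1905495764886) (nat_lit 1) (nat_lit 5) (nat_lit 3) (nat_lit 4) (nat_lit 1) (nat_lit 4) (nat_lit 452) (nat_lit 319) (nat_lit 249)) (XT.nd (nat_lit 78) (nat_lit 0) (nat_lit 0) (XT.lf (nat_lit 0) (nat_lit 2063525285622) (nat_lit 152) (nat_lit 498782727731) (nat_lit 0) (nat_lit 2061573896104) (nat_lit 1) (nat_lit 5) (nat_lit 3) (nat_lit 4) (nat_lit 1) (nat_lit 4) (nat_lit 453) (nat_lit 319) (nat_lit 248)) (XT.lf (nat_lit 0) (nat_lit 2232088029895) (nat_lit 152) (nat_lit 531277226241) (nat_lit 0) (nat_lit 2230136025530) (nat_lit 1) (nat_lit 5) (nat_lit 3) (nat_lit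 4) (nat_lit 1) (nat_lit 4) (nat_lit 454) (nat_lit 319) (nat_lit 247))))) (XT.nd (nat_lit 234) (nat_lit 0) (nat_lit 0) (XT.nd (nat_lit 78) (nat_lit 0) (nat_lit 0) (XT.lf (nat_lit 0) (nat_lit 2414133613524) (nat_lit 152) (nat_lit 566375724794) (nat_lit 0) (nat_lit 2412181039857) (nat_lit 1) (nat_lit 5) (nat_lit 3) (nat_lit 4) (nat_lit 1) (nat_lit 4) (nat_lit 455) (nat_lit 319) (nat_lit 246)) (XT.nd (nat_lit 78) (nat_lit 0) (nat_lit 0) (XT.lf (nat_lit 0) (nat_lit 2610740825154) (nat_lit 152) (nat_lit 604286214492) (nat_lit 0) (nat_lit 2608787724354) (nat_lit 1) (nat_lit 5) (nat_lit 3) (nat_lit 4) (nat_lit 1) (nat_lit 4) (nat_lit 456) (nat_lit 319) (nat_lit 245)) (XT.lf (nat_lit 0) (nat_lit 2823074744556) (nat_lit 152) (nat_lit 645233350089) (nat_lit 0) (nat_lit 2821121155672) (nat_lit 1) (nat_lit 5) (nat_lit 3) (nat_lit 4) (nat_lit 1) (nat_lit 4) (nat_lit 457) (nat_lit 319) (nat_lit 244))))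 (XT.nd (nat_lit 78) (nat_lit 0) (nat_lit 0) (XT.lf (nat_lit 0) (nat_lit 3052393646810) (nat_lit 152) (nat_lit 689459781278) (nat_lit 0) (nat_lit 3050439605994) (nat_lit 1) (nat_lit 5) (nat_lit 3) (nat_lit 4) (nat_lit 1) (nat_lit 4) (nat_lit 458) (nat_lit 319) (nat_lit 243)) (XT.nd (nat_lit 78) (nat_lit 0) (nat_lit 0) (XT.lf (nat_lit 0) (nat_lit 3300056458742) (nat_lit 152) (nat_lit 737227590614) (nat_lit 0) (nat_lit 3298101999472) (nat_lit 1) (nat_lit 5) (nat_lit 3) (nat_lit 4) (nat_lit 1) (nat_lit 4) (nat_lit 459) (nat_lit 319) (nat_lit 242)) (XT.lf (nat_lit 0) (nat_lit 3567530811831) (nat_lit 152) (nat_lit 788819846596) (nat_lit 0) (nat_lit 3565575965104) (nat_lit 1) (nat_lit 5) (nat_lit 3) (nat_lit 4) (nat_lit 1) (nat_lit 4) (nat_lit 460) (nat_lit 319) (nat_lit 241))))))) (XT.nd (nat_lit 47268) (nat_lit 0) (nat_lit 228) (XT.nd (nat_lit 46878) (nat_lit 0) (nat_lit 608) (XT.nd (nat_lit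 156) (nat_lit 0) (nat_lit 0) (XT.nd (nat_lit 78) (nat_lit 0) (nat_lit 0) (XT.lf (nat_lit 0) (nat_lit 3856401739281) (nat_lit 152) (nat_lit 844542281111) (nat_lit 0) (nat_lit 3854446533796) (nat_lit 1) (nat_lit 5) (nat_lit 3) (nat_lit 4) (nat_lit 1) (nat_lit 4) (nat_lit 461) (nat_lit 319) (nat_lit 240)) (XT.lf (nat_lit 0) (nat_lit 4168381068810) (nat_lit 152) (nat_lit 904725101180) (nat_lit 0) (nat_lit 4166425531142) (nat_lit 1) (nat_lit 5) (nat_lit 3) (nat_lit 4) (nat_lit 1) (nat_lit 4) (nat_lit 462) (nat_lit 319) (nat_lit 239))) (XT.nd (nat_lit 78) (nat_lit 0) (nat_lit 0) (XT.lf (nat_lit 0) (nat_lit 4505317566814) (nat_lit 152) (nat_lit 969724945736) (nat_lit 0) (nat_lit 4503361721570) (nat_lit 1) (nat_lit 5) (nat_lit 3) (nat_lit 4) (nat_lit 1) (nat_lit 4) (nat_lit 463) (nat_lit 319) (nat_lit 238)) (XT.nd (nat_lit 46566) (nat_lit 0) (nat_lit 836) (XT.lf (nat_lit 0) (nat_lit 4869207894024)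 (nat_lit 152) (nat_lit 1039926999043) (nat_lit 0) (nat_lit 4867251763987) (nat_lit 1) (nat_lit 5) (nat_lit 3) (nat_lit 4) (nat_lit 1) (nat_lit 4) (nat_lit 464) (nat_lit 319) (nat_lit 237)) (XT.lf (nat_lit 0) (nat_lit 4708836266) (nat_lit 76) (nat_lit 3299134675) (nat_lit 76) (nat_lit 3299134675) (nat_lit 12) (nat_lit 4) (nat_lit 13) (nat_lit 5) (nat_lit 13) (nat_lit 4) (nat_lit 380) (nat_lit 320) (nat_lit 320))))) (XT.nd (nat_lit 156) (nat_lit 76) (nat_lit 0) (XT.nd (nat_lit 78) (nat_lit 152) (nat_lit 0) (XT.lf (nat_lit 0) (nat_lit 23234017282) (nat_lit 76) (nat_lit 436768443) (nat_lit 76) (nat_lit 223477520) (nat_lit 12) (nat_lit 4) (nat_lit 13) (nat_lit 5) (nat_lit 13) (nat_lit 4) (nat_lit 381) (nat_lit 320) (nat_lit 319)) (XT.lf (nat_lit 0) (nat_lit 6456947441) (nat_lit 152) (nat_lit 12720087191) (nat_lit 0) (nat_lit 6076593257) (nat_lit 10) (nat_lit 5) (nat_lit 12) (nat_lit 4) (nat_lit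 10) (nat_lit 4) (nat_lit 382) (nat_lit 320) (nat_lit 318))) (XT.nd (nat_lit 78) (nat_lit 76) (nat_lit 0) (XT.lf (nat_lit 0) (nat_lit 13360730105) (nat_lit 152) (nat_lit 573440971) (nat_lit 0) (nat_lit 12811058709) (nat_lit 10) (nat_lit 5) (nat_lit 12) (nat_lit 4) (nat_lit 10) (nat_lit 4) (nat_lit 383) (nat_lit 320) (nat_lit 317)) (XT.nd (nat_lit 78) (nat_lit 0) (nat_lit 0) (XT.lf (nat_lit 0) (nat_lit 12566231886) (nat_lit 76) (nat_lit 8248293780) (nat_lit 76) (nat_lit 7541847188) (nat_lit 9) (nat_lit 4) (nat_lit 10) (nat_lit 5) (nat_lit 10) (nat_lit 4) (nat_lit 384) (nat_lit 320) (nat_lit 316)) (XT.lf (nat_lit 0) (nat_lit 26197746959) (nat_lit 76) (nat_lit 2386368791) (nat_lit 76) (nat_lit 1534759981) (nat_lit 9) (nat_lit 4) (nat_lit 10) (nat_lit 5) (nat_lit 10) (nat_lit 4) (nat_lit 385) (nat_lit 320) (nat_lit 315)))))) (XT.nd (nat_lit 390) (nat_lit 152) (nat_lit 0) (XT.nd (nat_lit 156)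 (nat_lit 76) (nat_lit 0) (XT.nd (nat_lit 78) (nat_lit 0) (nat_lit 0) (XT.lf (nat_lit 0) (nat_lit 4728308716) (nat_lit 152) (nat_lit 23467381335) (nat_lit 0) (nat_lit 3815328835) (nat_lit 7) (nat_lit 5) (nat_lit 9) (nat_lit 4) (nat_lit 7) (nat_lit 4) (nat_lit 386) (nat_lit 320) (nat_lit 314)) (XT.lf (nat_lit 0) (nat_lit 11301125064) (nat_lit 152) (nat_lit 12486000996) (nat_lit 0) (nat_lit 10272910734) (nat_lit 7) (nat_lit 5) (nat_lit 9) (nat_lit 4) (nat_lit 7) (nat_lit 4) (nat_lit 387) (nat_lit 320) (nat_lit 313))) (XT.nd (nat_lit 78) (nat_lit 76) (nat_lit 0) (XT.lf (nat_lit 0) (nat_lit 18140174269) (nat_lit 152) (nat_lit 1148328200) (nat_lit 0) (nat_lit 17005261374) (nat_lit 7) (nat_lit 5) (nat_lit 9) (nat_lit 4) (nat_lit 7) (nat_lit 4) (nat_lit 388) (nat_lit 320) (nat_lit 312)) (XT.nd (nat_lit 78) (nat_lit 0) (nat_lit 0) (XT.lf (nat_lit 0) (nat_lit 11171675726) (nat_lit 76) (nat_lit 14382987371)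 (nat_lit 76) (nat_lit 13149279509) (nat_lit 6) (nat_lit 4) (nat_lit 7) (nat_lit 5) (nat_lit 7) (nat_lit 4) (nat_lit 389) (nat_lit 320) (nat_lit 311)) (XT.lf (nat_lit 0) (nat_lit 24071292648) (nat_lit 76) (nat_lit 9288522399) (nat_lit 76) (nat_lit 7963337717) (nat_lit 6) (nat_lit 4) (nat_lit 7) (nat_lit 5) (nat_lit 7) (nat_lit 4) (nat_lit 390) (nat_lit 320) (nat_lit 310))))) (XT.nd (nat_lit 234) (nat_lit 0) (nat_lit 0) (XT.nd (nat_lit 78) (nat_lit 152) (nat_lit 0) (XT.lf (nat_lit 0) (nat_lit 37566495810) (nat_lit 76) (nat_lit 4006315461) (nat_lit 76) (nat_lit 2596430018) (nat_lit 6) (nat_lit 4) (nat_lit 7) (nat_lit 5) (nat_lit 7) (nat_lit 4) (nat_lit 391) (nat_lit 320) (nat_lit 309)) (XT.nd (nat_lit 78) (nat_lit 0) (nat_lit 0) (XT.lf (nat_lit 0) (nat_lit 2986283033) (nat_lit 152) (nat_lit 42646653211) (nat_lit 0) (nat_lit 1608216299) (nat_lit 4) (nat_lit 5) (nat_lit 6) (nat_lit 4) (nat_lit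 4) (nat_lit 4) (nat_lit 392) (nat_lit 320) (nat_lit 308)) (XT.lf (nat_lit 0) (nat_lit 8959474488) (nat_lit 152) (nat_lit 34073059391) (nat_lit 0) (nat_lit 7514169559) (nat_lit 4) (nat_lit 5) (nat_lit 6) (nat_lit 4) (nat_lit 4) (nat_lit 4) (nat_lit 393) (nat_lit 320) (nat_lit 307)))) (XT.nd (nat_lit 78) (nat_lit 0) (nat_lit 0) (XT.lf (nat_lit 0) (nat_lit 15220573114) (nat_lit 152) (nat_lit 25198322396) (nat_lit 0) (nat_lit 13713010598) (nat_lit 4) (nat_lit 5) (nat_lit 6) (nat_lit 4) (nat_lit 4) (nat_lit 4) (nat_lit 394) (nat_lit 320) (nat_lit 306)) (XT.nd (nat_lit 78) (nat_lit 0) (nat_lit 0) (XT.lf (nat_lit 0) (nat_lit 21806681718) (nat_lit 152) (nat_lit 15969851191) (nat_lit 0) (nat_lit 20241473287) (nat_lit 4) (nat_lit 5) (nat_lit 6) (nat_lit 4) (nat_lit 4) (nat_lit 4) (nat_lit 395) (nat_lit 320) (nat_lit 305)) (XT.lf (nat_lit 0) (nat_lit 28756829091) (nat_lit 152) (nat_lit 6332958541)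 (nat_lit 0) (nat_lit 27138244815) (nat_lit 4) (nat_lit 5) (nat_lit 6) (nat_lit 4) (nat_lit 4) (nat_lit 4) (nat_lit 396) (nat_lit 320) (nat_lit 304))))))))
noncomputable def xc44 : XT := (XT.nd (nat_lit 1560) (nat_lit 0) (nat_lit 0) (XT.nd (nat_lit 780) (nat_lit 0) (nat_lit 0) (XT.nd (nat_lit 390) (nat_lit 152) (nat_lit 0) (XT.nd (nat_lit 156) (nat_lit 0) (nat_lit 0) (XT.nd (nat_lit 78) (nat_lit 0) (nat_lit 0) (XT.lf (nat_lit 0) (nat_lit 3967956311) (nat_lit 76) (nat_lit 32239674427) (nat_lit 76) (nat_lit 30571668070) (nat_lit 3) (nat_lit 4) (nat_lit 4) (nat_lit 5) (nat_lit 4) (nat_lit 4) (nat_lit 397) (nat_lit 320) (nat_lit 303)) (XT.lf (nat_lit 0) (nat_lit 15155415075) (nat_lit 76) (nat_lit 29125458736) (nat_lit 76) (nat_lit 27411691194) (nat_lit 3) (nat_lit 4) (nat_lit 4) (nat_lit 5) (nat_lit 4) (nat_lit 4) (nat_lit 398) (nat_lit 320) (nat_lit 302))) (XT.nd (nat_lit 78) (nat_lit 0) (nat_lit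 0) (XT.lf (nat_lit 0) (nat_lit 26962231430) (nat_lit 76) (nat_lit 25901840258) (nat_lit 76) (nat_lit 24145701248) (nat_lit 3) (nat_lit 4) (nat_lit 4) (nat_lit 5) (nat_lit 4) (nat_lit 4) (nat_lit 399) (nat_lit 320) (nat_lit 301)) (XT.nd (nat_lit 78) (nat_lit 0) (nat_lit 0) (XT.lf (nat_lit 0) (nat_lit 39458371693) (nat_lit 76) (nat_lit 22549716068) (nat_lit 76) (nat_lit 20754344218) (nat_lit 3) (nat_lit 4) (nat_lit 4) (nat_lit 5) (nat_lit 4) (nat_lit 4) (nat_lit 400) (nat_lit 320) (nat_lit 300)) (XT.lf (nat_lit 0) (nat_lit 52717887068) (nat_lit 76) (nat_lit 19049221728) (nat_lit 76) (nat_lit 17217523173) (nat_lit 3) (nat_lit 4) (nat_lit 4) (nat_lit 5) (nat_lit 4) (nat_lit 4) (nat_lit 401) (nat_lit 320) (nat_lit 299))))) (XT.nd (nat_lit 156) (nat_lit 152) (nat_lit 0) (XT.nd (nat_lit 78) (nat_lit 0) (nat_lit 0) (XT.lf (nat_lit 0) (nat_lit 66819352458) (nat_lit 76) (nat_lit 15379613566) (nat_lit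 76) (nat_lit 13514279174) (nat_lit 3) (nat_lit 4) (nat_lit 4) (nat_lit 5) (nat_lit 4) (nat_lit 4) (nat_lit 402) (nat_lit 320) (nat_lit 298)) (XT.lf (nat_lit 0) (nat_lit 81846332105) (nat_lit 76) (nat_lit 11519145758) (nat_lit 76) (nat_lit 9622667072) (nat_lit 3) (nat_lit 4) (nat_lit 4) (nat_lit 5) (nat_lit 4) (nat_lit 4) (nat_lit 403) (nat_lit 320) (nat_lit 297))) (XT.nd (nat_lit 78) (nat_lit 152) (nat_lit 0) (XT.lf (nat_lit 0) (nat_lit 97887874775) (nat_lit 76) (nat_lit 7444941455) (nat_lit 76) (nat_lit 5519625460) (nat_lit 3) (nat_lit 4) (nat_lit 4) (nat_lit 5) (nat_lit 4) (nat_lit 4) (nat_lit 404) (nat_lit 320) (nat_lit 296)) (XT.nd (nat_lit 78) (nat_lit 152) (nat_lit 0) (XT.lf (nat_lit 0) (nat_lit 115039041464) (nat_lit 76) (nat_lit 3132857226) (nat_lit 76) (nat_lit 1180840019) (nat_lit 3) (nat_lit 4) (nat_lit 4) (nat_lit 5) (nat_lit 4) (nat_lit 4) (nat_lit 405) (nat_lit 320) (nat_lit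 295)) (XT.lf (nat_lit 0) (nat_lit 3409331602) (nat_lit 152) (nat_lit 123531602645) (nat_lit 0) (nat_lit 1579016277) (nat_lit 1) (nat_lit 5) (nat_lit 3) (nat_lit 4) (nat_lit 1) (nat_lit 4) (nat_lit 406) (nat_lit 320) (nat_lit 294)))))) (XT.nd (nat_lit 390) (nat_lit 0) (nat_lit 0) (XT.nd (nat_lit 156) (nat_lit 0) (nat_lit 0) (XT.nd (nat_lit 78) (nat_lit 0) (nat_lit 0) (XT.lf (nat_lit 0) (nat_lit 8424128761) (nat_lit 152) (nat_lit 123411647085) (nat_lit 0) (nat_lit 6572617152) (nat_lit 1) (nat_lit 5) (nat_lit 3) (nat_lit 4) (nat_lit 1) (nat_lit 4) (nat_lit 407) (nat_lit 320) (nat_lit 293)) (XT.lf (nat_lit 0) (nat_lit 13764949796) (nat_lit 152) (nat_lit 123435165601) (nat_lit 0) (nat_lit 11893811999) (nat_lit 1) (nat_lit 5) (nat_lit 3) (nat_lit 4) (nat_lit 1) (nat_lit 4) (nat_lit 408) (nat_lit 320) (nat_lit 292))) (XT.nd (nat_lit 78) (nat_lit 0) (nat_lit 0) (XT.lf (nat_lit 0) (nat_lit 19463444018)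 (nat_lit 152) (nat_lit 123602297564) (nat_lit 0) (nat_lit 17574133825) (nat_lit 1) (nat_lit 5) (nat_lit 3) (nat_lit 4) (nat_lit 1) (nat_lit 4) (nat_lit 409) (nat_lit 320) (nat_lit 291)) (XT.nd (nat_lit 78) (nat_lit 0) (nat_lit 0) (XT.lf (nat_lit 0) (nat_lit 25553380281) (nat_lit 152) (nat_lit 123914033385) (nat_lit 0) (nat_lit 23647243795) (nat_lit 1) (nat_lit 5) (nat_lit 3) (nat_lit 4) (nat_lit 1) (nat_lit 4) (nat_lit 410) (nat_lit 320) (nat_lit 290)) (XT.lf (nat_lit 0) (nat_lit 32070847096) (nat_lit 152) (nat_lit 124372220388) (nat_lit 0) (nat_lit 30149130710) (nat_lit 1) (nat_lit 5) (nat_lit 3) (nat_lit 4) (nat_lit 1) (nat_lit 4) (nat_lit 411) (nat_lit 320) (nat_lit 289))))) (XT.nd (nat_lit 156) (nat_lit 0) (nat_lit 0) (XT.nd (nat_lit 78) (nat_lit 0) (nat_lit 0) (XT.lf (nat_lit 0) (nat_lit 39054466489) (nat_lit 152) (nat_lit 124979573753) (nat_lit 0) (nat_lit 37118324269) (nat_lit 1)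 (nat_lit 5) (nat_lit 3) (nat_lit 4) (nat_lit 1) (nat_lit 4) (nat_lit 412) (nat_lit 320) (nat_lit 288)) (XT.lf (nat_lit 0) (nat_lit 46545622872) (nat_lit 152) (nat_lit 125739692614) (nat_lit 0) (nat_lit 44596123398) (nat_lit 1) (nat_lit 5) (nat_lit 3) (nat_lit 4) (nat_lit 1) (nat_lit 4) (nat_lit 413) (nat_lit 320) (nat_lit 287))) (XT.nd (nat_lit 78) (nat_lit 0) (nat_lit 0) (XT.lf (nat_lit 0) (nat_lit 54588708281) (nat_lit 152) (nat_lit 126657081376) (nat_lit 0) (nat_lit 52626840979) (nat_lit 1) (nat_lit 5) (nat_lit 3) (nat_lit 4) (nat_lit 1) (nat_lit 4) (nat_lit 414) (nat_lit 320) (nat_lit 286)) (XT.nd (nat_lit 78) (nat_lit 0) (nat_lit 0) (XT.lf (nat_lit 0) (nat_lit 63231385446) (nat_lit 152) (nat_lit 127737176420) (nat_lit 0) (nat_lit 61258066452) (nat_lit 1) (nat_lit 5) (nat_lit 3) (nat_lit 4) (nat_lit 1) (nat_lit 4) (nat_lit 415) (nat_lit 320) (nat_lit 285)) (XT.lf (nat_lit 0) (nat_lit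 72524870231) (nat_lit 152) (nat_lit 128986378307) (nat_lit 0) (nat_lit 70540947818) (nat_lit 1) (nat_lit 5) (nat_lit 3) (nat_lit 4) (nat_lit 1) (nat_lit 4) (nat_lit 416) (nat_lit 320) (nat_lit 284))))))) (XT.nd (nat_lit 780) (nat_lit 0) (nat_lit 0) (XT.nd (nat_lit 390) (nat_lit 0) (nat_lit 0) (XT.nd (nat_lit 156) (nat_lit 0) (nat_lit 0) (XT.nd (nat_lit 78) (nat_lit 0) (nat_lit 0) (XT.lf (nat_lit 0) (nat_lit 82524235138) (nat_lit 152) (nat_lit 130412089716) (nat_lit 0) (nat_lit 80530494745) (nat_lit 1) (nat_lit 5) (nat_lit 3) (nat_lit 4) (nat_lit 1) (nat_lit 4) (nat_lit 417) (nat_lit 320) (nat_lit 283)) (XT.lf (nat_lit 0) (nat_lit 93288735664) (nat_lit 152) (nat_lit 132022759306) (nat_lit 0) (nat_lit 91285904548) (nat_lit 1) (nat_lit 5) (nat_lit 3) (nat_lit 4) (nat_lit 1) (nat_lit 4) (nat_lit 418) (nat_lit 320) (nat_lit 282))) (XT.nd (nat_lit 78) (nat_lit 0) (nat_lit 0) (XT.lf (nat_lit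 0) (nat_lit 104882161440) (nat_lit 152) (nat_lit 133827931787) (nat_lit 0) (nat_lit 102870912989) (nat_lit 1) (nat_lit 5) (nat_lit 3) (nat_lit 4) (nat_lit 1) (nat_lit 4) (nat_lit 419) (nat_lit 320) (nat_lit 281)) (XT.nd (nat_lit 78) (nat_lit 0) (nat_lit 0) (XT.lf (nat_lit 0) (nat_lit 117373214250) (nat_lit 152) (nat_lit 135838304476) (nat_lit 0) (nat_lit 115354171970) (nat_lit 1) (nat_lit 5) (nat_lit 3) (nat_lit 4) (nat_lit 1) (nat_lit 4) (nat_lit 420) (nat_lit 320) (nat_lit 280)) (XT.lf (nat_lit 0) (nat_lit 130835915147) (nat_lit 152) (nat_lit 138065790694) (nat_lit 0) (nat_lit 128809656358) (nat_lit 1) (nat_lit 5) (nat_lit 3) (nat_lit 4) (nat_lit 1) (nat_lit 4) (nat_lit 421) (nat_lit 320) (nat_lit 279))))) (XT.nd (nat_lit 156) (nat_lit 0) (nat_lit 0) (XT.nd (nat_lit 78) (nat_lit 0) (nat_lit 0) (XT.lf (nat_lit 0) (nat_lit 145350043099) (nat_lit 152) (nat_lit 140523590359) (nat_lit 0)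 (nat_lit 143317102357) (nat_lit 1) (nat_lit 5) (nat_lit 3) (nat_lit 4) (nat_lit 1) (nat_lit 4) (nat_lit 422) (nat_lit 320) (nat_lit 278)) (XT.lf (nat_lit 0) (nat_lit 161001607753) (nat_lit 152) (nat_lit 143226268210) (nat_lit 0) (nat_lit 158962480019) (nat_lit 1) (nat_lit 5) (nat_lit 3) (nat_lit 4) (nat_lit 1) (nat_lit 4) (nat_lit 423) (nat_lit 320) (nat_lit 277))) (XT.nd (nat_lit 78) (nat_lit 0) (nat_lit 0) (XT.lf (nat_lit 0) (nat_lit 177883359123) (nat_lit 152) (nat_lit 146189840115) (nat_lit 0) (nat_lit 175838502691) (nat_lit 1) (nat_lit 5) (nat_lit 3) (nat_lit 4) (nat_lit 1) (nat_lit 4) (nat_lit 424) (nat_lit 320) (nat_lit 276)) (XT.nd (nat_lit 78) (nat_lit 0) (nat_lit 0) (XT.lf (nat_lit 0) (nat_lit 196095337216) (nat_lit 152) (nat_lit 149431867981) (nat_lit 0) (nat_lit 194045176435) (nat_lit 1) (nat_lit 5) (nat_lit 3) (nat_lit 4) (nat_lit 1) (nat_lit 4) (nat_lit 425) (nat_lit 320)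 (nat_lit 275)) (XT.lf (nat_lit 0) (nat_lit 215745464865) (nat_lit 152) (nat_lit 152971563827) (nat_lit 0) (nat_lit 213690392650) (nat_lit 1) (nat_lit 5) (nat_lit 3) (nat_lit 4) (nat_lit 1) (nat_lit 4) (nat_lit 426) (nat_lit 320) (nat_lit 274)))))) (XT.nd (nat_lit 390) (nat_lit 0) (nat_lit 0) (XT.nd (nat_lit 156) (nat_lit 0) (nat_lit 0) (XT.nd (nat_lit 78) (nat_lit 0) (nat_lit 0) (XT.lf (nat_lit 0) (nat_lit 236950187272) (nat_lit 152) (nat_lit 156829903627) (nat_lit 0) (nat_lit 234890567432) (nat_lit 1) (nat_lit 5) (nat_lit 3) (nat_lit 4) (nat_lit 1) (nat_lit 4) (nat_lit 427) (nat_lit 320) (nat_lit 273)) (XT.lf (nat_lit 0) (nat_lit 259835162050) (nat_lit 152) (nat_lit 161029751617) (nat_lit 0) (nat_lit 257771331447) (nat_lit 1) (nat_lit 5) (nat_lit 3) (nat_lit 4) (nat_lit 1) (nat_lit 4) (nat_lit 428) (nat_lit 320) (nat_lit 272))) (XT.nd (nat_lit 78) (nat_lit 0) (nat_lit 0) (XT.lf (nat_lit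 0) (nat_lit 284536003865) (nat_lit 152) (nat_lit 165595995785) (nat_lit 0) (nat_lit 282468274407) (nat_lit 1) (nat_lit 5) (nat_lit 3) (nat_lit 4) (nat_lit 1) (nat_lit 4) (nat_lit 429) (nat_lit 320) (nat_lit 271)) (XT.nd (nat_lit 78) (nat_lit 0) (nat_lit 0) (XT.lf (nat_lit 0) (nat_lit 311199088076) (nat_lit 152) (nat_lit 170555695356) (nat_lit 0) (nat_lit 309127748567) (nat_lit 1) (nat_lit 5) (nat_lit 3) (nat_lit 4) (nat_lit 1) (nat_lit 4) (nat_lit 430) (nat_lit 320) (nat_lit 270)) (XT.lf (nat_lit 0) (nat_lit 339982418145) (nat_lit 152) (nat_lit 175938241142) (nat_lit 0) (nat_lit 337907735996) (nat_lit 1) (nat_lit 5) (nat_lit 3) (nat_lit 4) (nat_lit 1) (nat_lit 4) (nat_lit 431) (nat_lit 320) (nat_lit 269))))) (XT.nd (nat_lit 234) (nat_lit 0) (nat_lit 0) (XT.nd (nat_lit 78) (nat_lit 0) (nat_lit 0) (XT.lf (nat_lit 0) (nat_lit 371056561954) (nat_lit 152) (nat_lit 181775529711) (nat_lit 0)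 (nat_lit 368978784768) (nat_lit 1) (nat_lit 5) (nat_lit 3) (nat_lit 4) (nat_lit 1) (nat_lit 4) (nat_lit 432) (nat_lit 320) (nat_lit 268)) (XT.nd (nat_lit 78) (nat_lit 0) (nat_lit 0) (XT.lf (nat_lit 0) (nat_lit 404605662577) (nat_lit 152) (nat_lit 188102152403) (nat_lit 0) (nat_lit 402525019616) (nat_lit 1) (nat_lit 5) (nat_lit 3) (nat_lit 4) (nat_lit 1) (nat_lit 4) (nat_lit 433) (nat_lit 320) (nat_lit 267)) (XT.lf (nat_lit 0) (nat_lit 440828529499) (nat_lit 152) (nat_lit 194955600314) (nat_lit 0) (nat_lit 438745233043) (nat_lit 1) (nat_lit 5) (nat_lit 3) (nat_lit 4) (nat_lit 1) (nat_lit 4) (nat_lit 434) (nat_lit 320) (nat_lit 266)))) (XT.nd (nat_lit 78) (nat_lit 0) (nat_lit 0) (XT.lf (nat_lit 0) (nat_lit 479939816746) (nat_lit 152) (nat_lit 202376486470) (nat_lit 0) (nat_lit 477854063351) (nat_lit 1) (nat_lit 5) (nat_lit 3) (nat_lit 4) (nat_lit 1) (nat_lit 4) (nat_lit 435) (nat_lit 320)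 (nat_lit 265)) (XT.nd (nat_lit 78) (nat_lit 0) (nat_lit 0) (XT.lf (nat_lit 0) (nat_lit 522171294911) (nat_lit 152) (nat_lit 210408786492) (nat_lit 0) (nat_lit 520083266570) (nat_lit 1) (nat_lit 5) (nat_lit 3) (nat_lit 4) (nat_lit 1) (nat_lit 4) (nat_lit 436) (nat_lit 320) (nat_lit 264)) (XT.lf (nat_lit 0) (nat_lit 567773224603) (nat_lit 152) (nat_lit 219100099195) (nat_lit 0) (nat_lit 565683089832) (nat_lit 1) (nat_lit 5) (nat_lit 3) (nat_lit 4) (nat_lit 1) (nat_lit 4) (nat_lit 437) (nat_lit 320) (nat_lit 263))))))))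
noncomputable def xc45 : XT := (XT.nd (nat_lit 1560) (nat_lit 0) (nat_lit 0) (XT.nd (nat_lit 780) (nat_lit 0) (nat_lit 0) (XT.nd (nat_lit 390) (nat_lit 0) (nat_lit 0) (XT.nd (nat_lit 156) (nat_lit 0) (nat_lit 0) (XT.nd (nat_lit 78) (nat_lit 0) (nat_lit 0) (XT.lf (nat_lit 0) (nat_lit 617015839480) (nat_lit 152) (nat_lit 228501928655) (nat_lit 0) (nat_lit 614923754312) (nat_lit 1) (nat_lit 5) (nat_lit 3) (nat_lit 4) (nat_lit 1) (nat_lit 4) (nat_lit 438) (nat_lit 320) (nat_lit 262)) (XT.lf (nat_lit 0) (nat_lit 670190947632) (nat_lit 152) (nat_lit 238669989416) (nat_lit 0) (nat_lit 668097056539) (nat_lit 1) (nat_lit 5) (nat_lit 3) (nat_lit 4) (nat_lit 1) (nat_lit 4) (nat_lit 439) (nat_lit 320) (nat_lit 261))) (XT.nd (nat_lit 78) (nat_lit 0) (nat_lit 0) (XT.lf (nat_lit 0) (nat_lit 727613660808) (nat_lit 152) (nat_lit 249664536653) (nat_lit 0) (nat_lit 725518097563) (nat_lit 1) (nat_lit 5) (nat_lit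 3) (nat_lit 4) (nat_lit 1) (nat_lit 4) (nat_lit 440) (nat_lit 320) (nat_lit 260)) (XT.nd (nat_lit 78) (nat_lit 0) (nat_lit 0) (XT.lf (nat_lit 0) (nat_lit 789624261755) (nat_lit 152) (nat_lit 261550723240) (nat_lit 0) (nat_lit 787527150221) (nat_lit 1) (nat_lit 5) (nat_lit 3) (nat_lit 4) (nat_lit 1) (nat_lit 4) (nat_lit 441) (nat_lit 320) (nat_lit 259)) (XT.lf (nat_lit 0) (nat_lit 856590220701) (nat_lit 152) (nat_lit 274398985836) (nat_lit 0) (nat_lit 854491675566) (nat_lit 1) (nat_lit 5) (nat_lit 3) (nat_lit 4) (nat_lit 1) (nat_lit 4) (nat_lit 442) (nat_lit 320) (nat_lit 258))))) (XT.nd (nat_lit 156) (nat_lit 0) (nat_lit 0) (XT.nd (nat_lit 78) (nat_lit 0) (nat_lit 0) (XT.lf (nat_lit 0) (nat_lit 928908372956) (nat_lit 152) (nat_lit 288285462294) (nat_lit 0) (nat_lit 926808500413) (nat_lit 1) (nat_lit 5) (nat_lit 3) (nat_lit 4) (nat_lit 1) (nat_lit 4) (nat_lit 443) (nat_lit 320) (nat_lit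 257)) (XT.lf (nat_lit 0) (nat_lit 1007007270536) (nat_lit 152) (nat_lit 303292442846) (nat_lit 0) (nat_lit 1004906168911) (nat_lit 1) (nat_lit 5) (nat_lit 3) (nat_lit 4) (nat_lit 1) (nat_lit 4) (nat_lit 444) (nat_lit 320) (nat_lit 256))) (XT.nd (nat_lit 78) (nat_lit 0) (nat_lit 0) (XT.lf (nat_lit 0) (nat_lit 1091349721721) (nat_lit 152) (nat_lit 319508857747) (nat_lit 0) (nat_lit 1089247482057) (nat_lit 1) (nat_lit 5) (nat_lit 3) (nat_lit 4) (nat_lit 1) (nat_lit 4) (nat_lit 445) (nat_lit 320) (nat_lit 255)) (XT.nd (nat_lit 78) (nat_lit 0) (nat_lit 0) (XT.lf (nat_lit 0) (nat_lit 1182435533630) (nat_lit 152) (nat_lit 337030804269) (nat_lit 0) (nat_lit 1180332240227) (nat_lit 1) (nat_lit 5) (nat_lit 3) (nat_lit 4) (nat_lit 1) (nat_lit 4) (nat_lit 446) (nat_lit 320) (nat_lit 254)) (XT.lf (nat_lit 0) (nat_lit 1280804474037) (nat_lit 152) (nat_lit 355962116171) (nat_lit 0) (nat_lit 1278700204950)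 (nat_lit 1) (nat_lit 5) (nat_lit 3) (nat_lit 4) (nat_lit 1) (nat_lit 4) (nat_lit 447) (nat_lit 320) (nat_lit 253)))))) (XT.nd (nat_lit 390) (nat_lit 0) (nat_lit 0) (XT.nd (nat_lit 156) (nat_lit 0) (nat_lit 0) (XT.nd (nat_lit 78) (nat_lit 0) (nat_lit 0) (XT.lf (nat_lit 0) (nat_lit 1387039469997) (nat_lit 152) (nat_lit 376414979003) (nat_lit 0) (nat_lit 1384934297497) (nat_lit 1) (nat_lit 5) (nat_lit 3) (nat_lit 4) (nat_lit 1) (nat_lit 4) (nat_lit 448) (nat_lit 320) (nat_lit 252)) (XT.lf (nat_lit 0) (nat_lit 1501770062226) (nat_lit 152) (nat_lit 398510594917) (nat_lit 0) (nat_lit 1499664053234) (nat_lit 1) (nat_lit 5) (nat_lit 3) (nat_lit 4) (nat_lit 1) (nat_lit 4) (nat_lit 449) (nat_lit 320) (nat_lit 251))) (XT.nd (nat_lit 78) (nat_lit 0) (nat_lit 0) (XT.lf (nat_lit 0) (nat_lit 1625676135715) (nat_lit 152) (nat_lit 422379900895) (nat_lit 0) (nat_lit 1623569352193) (nat_lit 1) (nat_lit 5)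 (nat_lit 3) (nat_lit 4) (nat_lit 1) (nat_lit 4) (nat_lit 450) (nat_lit 320) (nat_lit 250)) (XT.nd (nat_lit 78) (nat_lit 0) (nat_lit 0) (XT.lf (nat_lit 0) (nat_lit 1759491948677) (nat_lit 152) (nat_lit 448164344677) (nat_lit 0) (nat_lit 1757384447998) (nat_lit 1) (nat_lit 5) (nat_lit 3) (nat_lit 4) (nat_lit 1) (nat_lit 4) (nat_lit 451) (nat_lit 320) (nat_lit 249)) (XT.lf (nat_lit 0) (nat_lit 1904010483708) (nat_lit 152) (nat_lit 476016722967) (nat_lit 0) (nat_lit 1901902318995) (nat_lit 1) (nat_lit 5) (nat_lit 3) (nat_lit 4) (nat_lit 1) (nat_lit 4) (nat_lit 452) (nat_lit 320) (nat_lit 248))))) (XT.nd (nat_lit 156) (nat_lit 0) (nat_lit 0) (XT.nd (nat_lit 78) (nat_lit 0) (nat_lit 0) (XT.lf (nat_lit 0) (nat_lit 2060088146942) (nat_lit 152) (nat_lit 506102086894) (nat_lit 0) (nat_lit 2057979367382) (nat_lit 1) (nat_lit 5) (nat_lit 3) (nat_lit 4) (nat_lit 1) (nat_lit 4) (nat_lit 453) (nat_lit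 320) (nat_lit 247)) (XT.lf (nat_lit 0) (nat_lit 2228649843049) (nat_lit 152) (nat_lit 538598720097) (nat_lit 0) (nat_lit 2226540494186) (nat_lit 1) (nat_lit 5) (nat_lit 3) (nat_lit 4) (nat_lit 1) (nat_lit 4) (nat_lit 454) (nat_lit 320) (nat_lit 246))) (XT.nd (nat_lit 78) (nat_lit 0) (nat_lit 0) (XT.lf (nat_lit 0) (nat_lit 2410694456154) (nat_lit 152) (nat_lit 573699195218) (nat_lit 0) (nat_lit 2408584580159) (nat_lit 1) (nat_lit 5) (nat_lit 3) (nat_lit 4) (nat_lit 1) (nat_lit 4) (nat_lit 455) (nat_lit 320) (nat_lit 245)) (XT.nd (nat_lit 78) (nat_lit 0) (nat_lit 0) (XT.lf (nat_lit 0) (nat_lit 2607300769151) (nat_lit 152) (nat_lit 611611515072) (nat_lit 0) (nat_lit 2605190405070) (nat_lit 1) (nat_lit 5) (nat_lit 3) (nat_lit 4) (nat_lit 1) (nat_lit 4) (nat_lit 456) (nat_lit 320) (nat_lit 244)) (XT.lf (nat_lit 0) (nat_lit 2819633856485) (nat_lit 152) (nat_lit 652560345257) (nat_lit 0) (nat_lit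 2817523040474) (nat_lit 1) (nat_lit 5) (nat_lit 3) (nat_lit 4) (nat_lit 1) (nat_lit 4) (nat_lit 457) (nat_lit 320) (nat_lit 243))))))) (XT.nd (nat_lit 47112) (nat_lit 0) (nat_lit 380) (XT.nd (nat_lit 390) (nat_lit 0) (nat_lit 0) (XT.nd (nat_lit 156) (nat_lit 0) (nat_lit 0) (XT.nd (nat_lit 78) (nat_lit 0) (nat_lit 0) (XT.lf (nat_lit 0) (nat_lit 3048951988305) (nat_lit 152) (nat_lit 696788345509) (nat_lit 0) (nat_lit 3046840753839) (nat_lit 1) (nat_lit 5) (nat_lit 3) (nat_lit 4) (nat_lit 1) (nat_lit 4) (nat_lit 458) (nat_lit 320) (nat_lit 242)) (XT.lf (nat_lit 0) (nat_lit 3296614086873) (nat_lit 152) (nat_lit 744557607681) (nat_lit 0) (nat_lit 3294502464950) (nat_lit 1) (nat_lit 5) (nat_lit 3) (nat_lit 4) (nat_lit 1) (nat_lit 4) (nat_lit 459) (nat_lit 320) (nat_lit 241))) (XT.nd (nat_lit 78) (nat_lit 0) (nat_lit 0) (XT.lf (nat_lit 0) (nat_lit 3564087779440) (nat_lit 152) (nat_lit 796151208882)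 (nat_lit 0) (nat_lit 3561975798759) (nat_lit 1) (nat_lit 5) (nat_lit 3) (nat_lit 4) (nat_lit 1) (nat_lit 4) (nat_lit 460) (nat_lit 320) (nat_lit 240)) (XT.nd (nat_lit 78) (nat_lit 0) (nat_lit 0) (XT.lf (nat_lit 0) (nat_lit 3852958095295) (nat_lit 152) (nat_lit 851874888971) (nat_lit 0) (nat_lit 3850845782432) (nat_lit 1) (nat_lit 5) (nat_lit 3) (nat_lit 4) (nat_lit 1) (nat_lit 4) (nat_lit 461) (nat_lit 320) (nat_lit 239)) (XT.lf (nat_lit 0) (nat_lit 4164936858532) (nat_lit 152) (nat_lit 912058862348) (nat_lit 0) (nat_lit 4162824238092) (nat_lit 1) (nat_lit 5) (nat_lit 3) (nat_lit 4) (nat_lit 1) (nat_lit 4) (nat_lit 462) (nat_lit 320) (nat_lit 238))))) (XT.nd (nat_lit 46488) (nat_lit 0) (nat_lit 836) (XT.nd (nat_lit 78) (nat_lit 0) (nat_lit 0) (XT.lf (nat_lit 0) (nat_lit 4501872832193) (nat_lit 152) (nat_lit 977059774782) (nat_lit 0) (nat_lit 4499759926960) (nat_lit 1) (nat_lit 5) (nat_lit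 3) (nat_lit 4) (nat_lit 1) (nat_lit 4) (nat_lit 463) (nat_lit 320) (nat_lit 237)) (XT.lf (nat_lit 0) (nat_lit 4865762673899) (nat_lit 152) (nat_lit 1047262816864) (nat_lit 0) (nat_lit 4863649504969) (nat_lit 1) (nat_lit 5) (nat_lit 3) (nat_lit 4) (nat_lit 1) (nat_lit 4) (nat_lit 464) (nat_lit 320) (nat_lit 236))) (XT.nd (nat_lit 78) (nat_lit 76) (nat_lit 0) (XT.lf (nat_lit 0) (nat_lit 1105935910) (nat_lit 152) (nat_lit 7969296389) (nat_lit 0) (nat_lit 1105935910) (nat_lit 13) (nat_lit 5) (nat_lit 15) (nat_lit 4) (nat_lit 13) (nat_lit 4) (nat_lit 378) (nat_lit 321) (nat_lit 321)) (XT.nd (nat_lit 78) (nat_lit 76) (nat_lit 0) (XT.lf (nat_lit 0) (nat_lit 8932978630) (nat_lit 152) (nat_lit 3811452347) (nat_lit 0) (nat_lit 8702624433) (nat_lit 13) (nat_lit 5) (nat_lit 15) (nat_lit 4) (nat_lit 13) (nat_lit 4) (nat_lit 379) (nat_lit 321) (nat_lit 320)) (XT.lf (nat_lit 0) (nat_lit 9086965420) (nat_lit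 76) (nat_lit 6992142744) (nat_lit 76) (nat_lit 6548497623) (nat_lit 12) (nat_lit 4) (nat_lit 13) (nat_lit 5) (nat_lit 13) (nat_lit 4) (nat_lit 380) (nat_lit 321) (nat_lit 319)))))) (XT.nd (nat_lit 390) (nat_lit 228) (nat_lit 0) (XT.nd (nat_lit 156) (nat_lit 76) (nat_lit 0) (XT.nd (nat_lit 78) (nat_lit 152) (nat_lit 0) (XT.lf (nat_lit 0) (nat_lit 22597099880) (nat_lit 76) (nat_lit 982048500) (nat_lit 76) (nat_lit 340911784) (nat_lit 12) (nat_lit 4) (nat_lit 13) (nat_lit 5) (nat_lit 13) (nat_lit 4) (nat_lit 381) (nat_lit 321) (nat_lit 318)) (XT.lf (nat_lit 0) (nat_lit 6156950489) (nat_lit 152) (nat_lit 13743802567) (nat_lit 0) (nat_lit 5393988170) (nat_lit 10) (nat_lit 5) (nat_lit 12) (nat_lit 4) (nat_lit 10) (nat_lit 4) (nat_lit 382) (nat_lit 321) (nat_lit 317))) (XT.nd (nat_lit 78) (nat_lit 76) (nat_lit 0) (XT.lf (nat_lit 0) (nat_lit 12914335127) (nat_lit 152) (nat_lit 1889136574) (nat_lit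 0) (nat_lit 11994597611) (nat_lit 10) (nat_lit 5) (nat_lit 12) (nat_lit 4) (nat_lit 10) (nat_lit 4) (nat_lit 383) (nat_lit 321) (nat_lit 316)) (XT.nd (nat_lit 78) (nat_lit 0) (nat_lit 0) (XT.lf (nat_lit 0) (nat_lit 10896665763) (nat_lit 76) (nat_lit 9295758092) (nat_lit 76) (nat_lit 8230858358) (nat_lit 9) (nat_lit 4) (nat_lit 10) (nat_lit 5) (nat_lit 10) (nat_lit 4) (nat_lit 384) (nat_lit 321) (nat_lit 315)) (XT.lf (nat_lit 0) (nat_lit 24264673130) (nat_lit 76) (nat_lit 3565490732) (nat_lit 76) (nat_lit 2366181536) (nat_lit 9) (nat_lit 4) (nat_lit 10) (nat_lit 5) (nat_lit 10) (nat_lit 4) (nat_lit 385) (nat_lit 321) (nat_lit 314))))) (XT.nd (nat_lit 234) (nat_lit 76) (nat_lit 0) (XT.nd (nat_lit 78) (nat_lit 0) (nat_lit 0) (XT.lf (nat_lit 0) (nat_lit 3723110025) (nat_lit 152) (nat_lit 25886814089) (nat_lit 0) (nat_lit 2497404099) (nat_lit 7) (nat_lit 5) (nat_lit 9) (nat_lit 4) (nat_lit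 7) (nat_lit 4) (nat_lit 386) (nat_lit 321) (nat_lit 313)) (XT.nd (nat_lit 78) (nat_lit 0) (nat_lit 0) (XT.lf (nat_lit 0) (nat_lit 10171122310) (nat_lit 152) (nat_lit 15156500081) (nat_lit 0) (nat_lit 8838717820) (nat_lit 7) (nat_lit 5) (nat_lit 9) (nat_lit 4) (nat_lit 7) (nat_lit 4) (nat_lit 387) (nat_lit 321) (nat_lit 312)) (XT.lf (nat_lit 0) (nat_lit 16894612196) (nat_lit 152) (nat_lit 4051296111) (nat_lit 0) (nat_lit 15463412739) (nat_lit 7) (nat_lit 5) (nat_lit 9) (nat_lit 4) (nat_lit 7) (nat_lit 4) (nat_lit 388) (nat_lit 321) (nat_lit 311)))) (XT.nd (nat_lit 78) (nat_lit 0) (nat_lit 0) (XT.lf (nat_lit 0) (nat_lit 7889259129) (nat_lit 76) (nat_lit 16233900329) (nat_lit 76) (nat_lit 14711224050) (nat_lit 6) (nat_lit 4) (nat_lit 7) (nat_lit 5) (nat_lit 7) (nat_lit 4) (nat_lit 389) (nat_lit 321) (nat_lit 310)) (XT.nd (nat_lit 78) (nat_lit 0) (nat_lit 0) (XT.lf (nat_lit 0) (nat_lit 20579076477)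 (nat_lit 76) (nat_lit 11245115757) (nat_lit 76) (nat_lit 9637738718) (nat_lit 6) (nat_lit 4) (nat_lit 7) (nat_lit 5) (nat_lit 7) (nat_lit 4) (nat_lit 390) (nat_lit 321) (nat_lit 309)) (XT.lf (nat_lit 0) (nat_lit 33880020775) (nat_lit 76) (nat_lit 6060761040) (nat_lit 76) (nat_lit 4374957371) (nat_lit 6) (nat_lit 4) (nat_lit 7) (nat_lit 5) (nat_lit 7) (nat_lit 4) (nat_lit 391) (nat_lit 321) (nat_lit 308))))))))
noncomputable def xc46 : XT := (XT.nd (nat_lit 1560) (nat_lit 0) (nat_lit 0) (XT.nd (nat_lit 780) (nat_lit 152) (nat_lit 0) (XT.nd (nat_lit 390) (nat_lit 76) (nat_lit 0) (XT.nd (nat_lit 156) (nat_lit 0) (nat_lit 0) (XT.nd (nat_lit 78) (nat_lit 0) (nat_lit 0) (XT.lf (nat_lit 0) (nat_lit 454261982) (nat_lit 76) (nat_lit 609527873) (nat_lit 152) (nat_lit 46345923426) (nat_lit 4) (nat_lit 5) (nat_lit 5) (nat_lit 5) (nat_lit 6) (nat_lit 4) (nat_lit 392) (nat_lit 321) (nat_lit 307)) (XT.lf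 (nat_lit 0) (nat_lit 6931000927) (nat_lit 152) (nat_lit 38552171556) (nat_lit 0) (nat_lit 5240575822) (nat_lit 4) (nat_lit 5) (nat_lit 6) (nat_lit 4) (nat_lit 4) (nat_lit 4) (nat_lit 393) (nat_lit 321) (nat_lit 306))) (XT.nd (nat_lit 78) (nat_lit 0) (nat_lit 0) (XT.lf (nat_lit 0) (nat_lit 13107542864) (nat_lit 152) (nat_lit 29848706075) (nat_lit 0) (nat_lit 11359471845) (nat_lit 4) (nat_lit 5) (nat_lit 6) (nat_lit 4) (nat_lit 4) (nat_lit 4) (nat_lit 394) (nat_lit 321) (nat_lit 305)) (XT.nd (nat_lit 78) (nat_lit 0) (nat_lit 0) (XT.lf (nat_lit 0) (nat_lit 19615358238) (nat_lit 152) (nat_lit 20778819607) (nat_lit 0) (nat_lit 17813911373) (nat_lit 4) (nat_lit 5) (nat_lit 6) (nat_lit 4) (nat_lit 4) (nat_lit 4) (nat_lit 395) (nat_lit 321) (nat_lit 304)) (XT.lf (nat_lit 0) (nat_lit 26493011880) (nat_lit 152) (nat_lit 11288764675) (nat_lit 0) (nat_lit 24642142935) (nat_lit 4) (nat_lit 5) (nat_lit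 6) (nat_lit 4) (nat_lit 4) (nat_lit 4) (nat_lit 396) (nat_lit 321) (nat_lit 303))))) (XT.nd (nat_lit 156) (nat_lit 0) (nat_lit 0) (XT.nd (nat_lit 78) (nat_lit 76) (nat_lit 0) (XT.lf (nat_lit 0) (nat_lit 33781260257) (nat_lit 152) (nat_lit 1322303918) (nat_lit 0) (nat_lit 31884630126) (nat_lit 4) (nat_lit 5) (nat_lit 6) (nat_lit 4) (nat_lit 4) (nat_lit 4) (nat_lit 397) (nat_lit 321) (nat_lit 302)) (XT.lf (nat_lit 0) (nat_lit 9663005861) (nat_lit 76) (nat_lit 32092682649) (nat_lit 76) (nat_lit 30153681051) (nat_lit 3) (nat_lit 4) (nat_lit 4) (nat_lit 5) (nat_lit 4) (nat_lit 4) (nat_lit 398) (nat_lit 321) (nat_lit 301))) (XT.nd (nat_lit 78) (nat_lit 0) (nat_lit 0) (XT.lf (nat_lit 0) (nat_lit 21347119620) (nat_lit 76) (nat_lit 28931267905) (nat_lit 76) (nat_lit 26953033466) (nat_lit 3) (nat_lit 4) (nat_lit 4) (nat_lit 5) (nat_lit 4) (nat_lit 4) (nat_lit 399) (nat_lit 321) (nat_lit 300)) (XT.nd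 (nat_lit 78) (nat_lit 0) (nat_lit 0) (XT.lf (nat_lit 0) (nat_lit 33729646369) (nat_lit 76) (nat_lit 25636739766) (nat_lit 76) (nat_lit 23622178623) (nat_lit 3) (nat_lit 4) (nat_lit 4) (nat_lit 5) (nat_lit 4) (nat_lit 4) (nat_lit 400) (nat_lit 321) (nat_lit 299)) (XT.lf (nat_lit 0) (nat_lit 46883964044) (nat_lit 76) (nat_lit 22189575102) (nat_lit 76) (nat_lit 20141378121) (nat_lit 3) (nat_lit 4) (nat_lit 4) (nat_lit 5) (nat_lit 4) (nat_lit 4) (nat_lit 401) (nat_lit 321) (nat_lit 298)))))) (XT.nd (nat_lit 390) (nat_lit 76) (nat_lit 0) (XT.nd (nat_lit 156) (nat_lit 76) (nat_lit 0) (XT.nd (nat_lit 78) (nat_lit 0) (nat_lit 0) (XT.lf (nat_lit 0) (nat_lit 60888024158) (nat_lit 76) (nat_lit 18569346270) (nat_lit 76) (nat_lit 16490004995) (nat_lit 3) (nat_lit 4) (nat_lit 4) (nat_lit 5) (nat_lit 4) (nat_lit 4) (nat_lit 402) (nat_lit 321) (nat_lit 297)) (XT.lf (nat_lit 0) (nat_lit 75824813734) (nat_lit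 76) (nat_lit 14754600062) (nat_lit 76) (nat_lit 12646421479) (nat_lit 3) (nat_lit 4) (nat_lit 4) (nat_lit 5) (nat_lit 4) (nat_lit 4) (nat_lit 403) (nat_lit 321) (nat_lit 296))) (XT.nd (nat_lit 78) (nat_lit 76) (nat_lit 0) (XT.lf (nat_lit 0) (nat_lit 91782847080) (nat_lit 76) (nat_lit 10722730576) (nat_lit 76) (nat_lit 8587850781) (nat_lit 3) (nat_lit 4) (nat_lit 4) (nat_lit 5) (nat_lit 4) (nat_lit 4) (nat_lit 404) (nat_lit 321) (nat_lit 295)) (XT.nd (nat_lit 78) (nat_lit 76) (nat_lit 0) (XT.lf (nat_lit 0) (nat_lit 108856690319) (nat_lit 76) (nat_lit 6449845251) (nat_lit 76) (nat_lit 4290242111) (nat_lit 3) (nat_lit 4) (nat_lit 4) (nat_lit 5) (nat_lit 4) (nat_lit 4) (nat_lit 405) (nat_lit 321) (nat_lit 294)) (XT.lf (nat_lit 0) (nat_lit 258271709) (nat_lit 152) (nat_lit 1645289970) (nat_lit 76) (nat_lit 126882188467) (nat_lit 2) (nat_lit 5) (nat_lit 4) (nat_lit 5) (nat_lit 3) (nat_lit 4)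 (nat_lit 406) (nat_lit 321) (nat_lit 293))))) (XT.nd (nat_lit 156) (nat_lit 0) (nat_lit 0) (XT.nd (nat_lit 78) (nat_lit 0) (nat_lit 0) (XT.lf (nat_lit 0) (nat_lit 5148418793) (nat_lit 152) (nat_lit 130427783844) (nat_lit 0) (nat_lit 3107963785) (nat_lit 1) (nat_lit 5) (nat_lit 3) (nat_lit 4) (nat_lit 1) (nat_lit 4) (nat_lit 407) (nat_lit 321) (nat_lit 292)) (XT.lf (nat_lit 0) (nat_lit 10455781897) (nat_lit 152) (nat_lit 130519442728) (nat_lit 0) (nat_lit 8397154493) (nat_lit 1) (nat_lit 5) (nat_lit 3) (nat_lit 4) (nat_lit 1) (nat_lit 4) (nat_lit 408) (nat_lit 321) (nat_lit 291))) (XT.nd (nat_lit 78) (nat_lit 0) (nat_lit 0) (XT.lf (nat_lit 0) (nat_lit 16123296554) (nat_lit 152) (nat_lit 130749667624) (nat_lit 0) (nat_lit 14047842856) (nat_lit 1) (nat_lit 5) (nat_lit 3) (nat_lit 4) (nat_lit 1) (nat_lit 4) (nat_lit 409) (nat_lit 321) (nat_lit 290)) (XT.nd (nat_lit 78) (nat_lit 0) (nat_lit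 0) (XT.lf (nat_lit 0) (nat_lit 22184548034) (nat_lit 152) (nat_lit 131119822828) (nat_lit 0) (nat_lit 20093514436) (nat_lit 1) (nat_lit 5) (nat_lit 3) (nat_lit 4) (nat_lit 1) (nat_lit 4) (nat_lit 410) (nat_lit 321) (nat_lit 289)) (XT.lf (nat_lit 0) (nat_lit 28675454865) (nat_lit 152) (nat_lit 131632101851) (nat_lit 0) (nat_lit 26569995433) (nat_lit 1) (nat_lit 5) (nat_lit 3) (nat_lit 4) (nat_lit 1) (nat_lit 4) (nat_lit 411) (nat_lit 321) (nat_lit 288))))))) (XT.nd (nat_lit 780) (nat_lit 0) (nat_lit 0) (XT.nd (nat_lit 390) (nat_lit 0) (nat_lit 0) (XT.nd (nat_lit 156) (nat_lit 0) (nat_lit 0) (XT.nd (nat_lit 78) (nat_lit 0) (nat_lit 0) (XT.lf (nat_lit 0) (nat_lit 35634481680) (nat_lit 152) (nat_lit 132289540421) (nat_lit 0) (nat_lit 33515664994) (nat_lit 1) (nat_lit 5) (nat_lit 3) (nat_lit 4) (nat_lit 1) (nat_lit 4) (nat_lit 412) (nat_lit 321) (nat_lit 287)) (XT.lf (nat_lit 0) (nat_lit 43102867157)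 (nat_lit 152) (nat_lit 133096034471) (nat_lit 0) (nat_lit 40971682643) (nat_lit 1) (nat_lit 5) (nat_lit 3) (nat_lit 4) (nat_lit 1) (nat_lit 4) (nat_lit 413) (nat_lit 321) (nat_lit 286))) (XT.nd (nat_lit 78) (nat_lit 0) (nat_lit 0) (XT.lf (nat_lit 0) (nat_lit 51124868394) (nat_lit 152) (nat_lit 134056363224) (nat_lit 0) (nat_lit 48982232189) (nat_lit 1) (nat_lit 5) (nat_lit 3) (nat_lit 4) (nat_lit 1) (nat_lit 4) (nat_lit 414) (nat_lit 321) (nat_lit 285)) (XT.nd (nat_lit 78) (nat_lit 0) (nat_lit 0) (XT.lf (nat_lit 0) (nat_lit 59748023178) (nat_lit 152) (nat_lit 135176217517) (nat_lit 0) (nat_lit 57594783554) (nat_lit 1) (nat_lit 5) (nat_lit 3) (nat_lit 4) (nat_lit 1) (nat_lit 4) (nat_lit 415) (nat_lit 321) (nat_lit 284)) (XT.lf (nat_lit 0) (nat_lit 69023431684) (nat_lit 152) (nat_lit 136462233525) (nat_lit 0) (nat_lit 66860374079) (nat_lit 1) (nat_lit 5) (nat_lit 3) (nat_lit 4) (nat_lit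 1) (nat_lit 4) (nat_lit 416) (nat_lit 321) (nat_lit 283))))) (XT.nd (nat_lit 156) (nat_lit 0) (nat_lit 0) (XT.nd (nat_lit 78) (nat_lit 0) (nat_lit 0) (XT.lf (nat_lit 0) (nat_lit 79006059296) (nat_lit 152) (nat_lit 137922032082) (nat_lit 0) (nat_lit 76833910969) (nat_lit 1) (nat_lit 5) (nat_lit 3) (nat_lit 4) (nat_lit 1) (nat_lit 4) (nat_lit 417) (nat_lit 321) (nat_lit 282)) (XT.lf (nat_lit 0) (nat_lit 89755062325) (nat_lit 152) (nat_lit 139564263847) (nat_lit 0) (nat_lit 87574496663) (nat_lit 1) (nat_lit 5) (nat_lit 3) (nat_lit 4) (nat_lit 1) (nat_lit 4) (nat_lit 418) (nat_lit 321) (nat_lit 281))) (XT.nd (nat_lit 78) (nat_lit 0) (nat_lit 0) (XT.lf (nat_lit 0) (nat_lit 101334138569) (nat_lit 152) (nat_lit 141398660563) (nat_lit 0) (nat_lit 99145779077) (nat_lit 1) (nat_lit 5) (nat_lit 3) (nat_lit 4) (nat_lit 1) (nat_lit 4) (nat_lit 419) (nat_lit 321) (nat_lit 280)) (XT.nd (nat_lit 78) (nat_lit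 0) (nat_lit 0) (XT.lf (nat_lit 0) (nat_lit 113811904774) (nat_lit 152) (nat_lit 143436092731) (nat_lit 0) (nat_lit 111616328773) (nat_lit 1) (nat_lit 5) (nat_lit 3) (nat_lit 4) (nat_lit 1) (nat_lit 4) (nat_lit 420) (nat_lit 321) (nat_lit 279)) (XT.lf (nat_lit 0) (nat_lit 127262303259) (nat_lit 152) (nat_lit 145688634021) (nat_lit 0) (nat_lit 125060045306) (nat_lit 1) (nat_lit 5) (nat_lit 3) (nat_lit 4) (nat_lit 1) (nat_lit 4) (nat_lit 421) (nat_lit 321) (nat_lit 278)))))) (XT.nd (nat_lit 390) (nat_lit 0) (nat_lit 0) (XT.nd (nat_lit 156) (nat_lit 0) (nat_lit 0) (XT.nd (nat_lit 78) (nat_lit 0) (nat_lit 0) (XT.lf (nat_lit 0) (nat_lit 141765040089) (nat_lit 152) (nat_lit 148169632826) (nat_lit 0) (nat_lit 139556595143) (nat_lit 1) (nat_lit 5) (nat_lit 3) (nat_lit 4) (nat_lit 1) (nat_lit 4) (nat_lit 422) (nat_lit 321) (nat_lit 277)) (XT.lf (nat_lit 0) (nat_lit 157406057408) (nat_lit 152) (nat_lit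 150893791362) (nat_lit 0) (nat_lit 155191883765) (nat_lit 1) (nat_lit 5) (nat_lit 3) (nat_lit 4) (nat_lit 1) (nat_lit 4) (nat_lit 423) (nat_lit 321) (nat_lit 276))) (XT.nd (nat_lit 78) (nat_lit 0) (nat_lit 0) (XT.lf (nat_lit 0) (nat_lit 174278042727) (nat_lit 152) (nat_lit 153877252791) (nat_lit 0) (nat_lit 172058564734) (nat_lit 1) (nat_lit 5) (nat_lit 3) (nat_lit 4) (nat_lit 1) (nat_lit 4) (nat_lit 424) (nat_lit 321) (nat_lit 275)) (XT.nd (nat_lit 78) (nat_lit 0) (nat_lit 0) (XT.lf (nat_lit 0) (nat_lit 192480978180) (nat_lit 152) (nat_lit 157137696883) (nat_lit 0) (nat_lit 190256588753) (nat_lit 1) (nat_lit 5) (nat_lit 3) (nat_lit 4) (nat_lit 1) (nat_lit 4) (nat_lit 425) (nat_lit 321) (nat_lit 274)) (XT.lf (nat_lit 0) (nat_lit 212122733014) (nat_lit 152) (nat_lit 160694444790) (nat_lit 0) (nat_lit 209893795963) (nat_lit 1) (nat_lit 5) (nat_lit 3) (nat_lit 4) (nat_lit 1) (nat_lit 4) (nat_lit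 426) (nat_lit 321) (nat_lit 273))))) (XT.nd (nat_lit 234) (nat_lit 0) (nat_lit 0) (XT.nd (nat_lit 78) (nat_lit 0) (nat_lit 0) (XT.lf (nat_lit 0) (nat_lit 233319702815) (nat_lit 152) (nat_lit 164568573535) (nat_lit 0) (nat_lit 231086555000) (nat_lit 1) (nat_lit 5) (nat_lit 3) (nat_lit 4) (nat_lit 1) (nat_lit 4) (nat_lit 427) (nat_lit 321) (nat_lit 272)) (XT.nd (nat_lit 78) (nat_lit 0) (nat_lit 0) (XT.lf (nat_lit 0) (nat_lit 256197499254) (nat_lit 152) (nat_lit 168783040919) (nat_lit 0) (nat_lit 253960452584) (nat_lit 1) (nat_lit 5) (nat_lit 3) (nat_lit 4) (nat_lit 1) (nat_lit 4) (nat_lit 428) (nat_lit 321) (nat_lit 271)) (XT.lf (nat_lit 0) (nat_lit 280891694459) (nat_lit 152) (nat_lit 173362821562) (nat_lit 0) (nat_lit 278651037738) (nat_lit 1) (nat_lit 5) (nat_lit 3) (nat_lit 4) (nat_lit 1) (nat_lit 4) (nat_lit 429) (nat_lit 321) (nat_lit 270)))) (XT.nd (nat_lit 78) (nat_lit 0) (nat_lit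 0) (XT.lf (nat_lit 0) (nat_lit 307548624401) (nat_lit 152) (nat_lit 178335054907) (nat_lit 0) (nat_lit 305304625041) (nat_lit 1) (nat_lit 5) (nat_lit 3) (nat_lit 4) (nat_lit 1) (nat_lit 4) (nat_lit 430) (nat_lit 321) (nat_lit 269)) (XT.nd (nat_lit 78) (nat_lit 0) (nat_lit 0) (XT.lf (nat_lit 0) (nat_lit 336326256073) (nat_lit 152) (nat_lit 183729206039) (nat_lit 0) (nat_lit 334079161676) (nat_lit 1) (nat_lit 5) (nat_lit 3) (nat_lit 4) (nat_lit 1) (nat_lit 4) (nat_lit 431) (nat_lit 321) (nat_lit 268)) (XT.lf (nat_lit 0) (nat_lit 367395123588) (nat_lit 152) (nat_lit 189577240299) (nat_lit 0) (nat_lit 365145163416) (nat_lit 1) (nat_lit 5) (nat_lit 3) (nat_lit 4) (nat_lit 1) (nat_lit 4) (nat_lit 432) (nat_lit 321) (nat_lit 267))))))))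
noncomputable def xc47 : XT := (XT.nd (nat_lit 1638) (nat_lit 0) (nat_lit 0) (XT.nd (nat_lit 780) (nat_lit 0) (nat_lit 0) (XT.nd (nat_lit 390) (nat_lit 0) (nat_lit 0) (XT.nd (nat_lit 156) (nat_lit 0) (nat_lit 0) (XT.nd (nat_lit 78) (nat_lit 0) (nat_lit 0) (XT.lf (nat_lit 0) (nat_lit 400939338754) (nat_lit 152) (nat_lit 195913812705) (nat_lit 0) (nat_lit 398686725087) (nat_lit 1) (nat_lit 5) (nat_lit 3) (nat_lit 4) (nat_lit 1) (nat_lit 4) (nat_lit 433) (nat_lit 321) (nat_lit 266)) (XT.lf (nat_lit 0) (nat_lit 437157682105) (nat_lit 152) (nat_lit 202776473314) (nat_lit 0) (nat_lit 434902611497) (nat_lit 1) (nat_lit 5) (nat_lit 3) (nat_lit 4) (nat_lit 1) (nat_lit 4) (nat_lit 434) (nat_lit 321) (nat_lit 265))) (XT.nd (nat_lit 78) (nat_lit 0) (nat_lit 0) (XT.lf (nat_lit 0) (nat_lit 476264780861) (nat_lit 152) (nat_lit 210205889746) (nat_lit 0) (nat_lit 474007435309) (nat_lit 1) (nat_lit 5) (nat_lit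 3) (nat_lit 4) (nat_lit 1) (nat_lit 4) (nat_lit 435) (nat_lit 321) (nat_lit 264)) (XT.nd (nat_lit 78) (nat_lit 0) (nat_lit 0) (XT.lf (nat_lit 0) (nat_lit 518492380792) (nat_lit 152) (nat_lit 218246088171) (nat_lit 0) (nat_lit 516232928810) (nat_lit 1) (nat_lit 5) (nat_lit 3) (nat_lit 4) (nat_lit 1) (nat_lit 4) (nat_lit 436) (nat_lit 321) (nat_lit 263)) (XT.lf (nat_lit 0) (nat_lit 564090719527) (nat_lit 152) (nat_lit 226944714211) (nat_lit 0) (nat_lit 561829317147) (nat_lit 1) (nat_lit 5) (nat_lit 3) (nat_lit 4) (nat_lit 1) (nat_lit 4) (nat_lit 437) (nat_lit 321) (nat_lit 262))))) (XT.nd (nat_lit 156) (nat_lit 0) (nat_lit 0) (XT.nd (nat_lit 78) (nat_lit 0) (nat_lit 0) (XT.lf (nat_lit 0) (nat_lit 613330009445) (nat_lit 152) (nat_lit 236353315279) (nat_lit 0) (nat_lit 611066801140) (nat_lit 1) (nat_lit 5) (nat_lit 3) (nat_lit 4) (nat_lit 1) (nat_lit 4) (nat_lit 438) (nat_lit 321) (nat_lit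 261)) (XT.lf (nat_lit 0) (nat_lit 666502038929) (nat_lit 152) (nat_lit 246527646047) (nat_lit 0) (nat_lit 664237158473) (nat_lit 1) (nat_lit 5) (nat_lit 3) (nat_lit 4) (nat_lit 1) (nat_lit 4) (nat_lit 439) (nat_lit 321) (nat_lit 260))) (XT.nd (nat_lit 78) (nat_lit 0) (nat_lit 0) (XT.lf (nat_lit 0) (nat_lit 723921901489) (nat_lit 152) (nat_lit 257527998847) (nat_lit 0) (nat_lit 721655472743) (nat_lit 1) (nat_lit 5) (nat_lit 3) (nat_lit 4) (nat_lit 1) (nat_lit 4) (nat_lit 440) (nat_lit 321) (nat_lit 259)) (XT.nd (nat_lit 78) (nat_lit 0) (nat_lit 0) (XT.lf (nat_lit 0) (nat_lit 785929862976) (nat_lit 152) (nat_lit 269419560954) (nat_lit 0) (nat_lit 783662000629) (nat_lit 1) (nat_lit 5) (nat_lit 3) (nat_lit 4) (nat_lit 1) (nat_lit 4) (nat_lit 441) (nat_lit 321) (nat_lit 258)) (XT.lf (nat_lit 0) (nat_lit 852893377976) (nat_lit 152) (nat_lit 282272800884) (nat_lit 0) (nat_lit 850624188221) (nat_lit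 1) (nat_lit 5) (nat_lit 3) (nat_lit 4) (nat_lit 1) (nat_lit 4) (nat_lit 442) (nat_lit 321) (nat_lit 257)))))) (XT.nd (nat_lit 390) (nat_lit 0) (nat_lit 0) (XT.nd (nat_lit 156) (nat_lit 0) (nat_lit 0) (XT.nd (nat_lit 78) (nat_lit 0) (nat_lit 0) (XT.lf (nat_lit 0) (nat_lit 925209267320) (nat_lit 152) (nat_lit 296163885986) (nat_lit 0) (nat_lit 922938848483) (nat_lit 1) (nat_lit 5) (nat_lit 3) (nat_lit 4) (nat_lit 1) (nat_lit 4) (nat_lit 443) (nat_lit 321) (nat_lit 256)) (XT.lf (nat_lit 0) (nat_lit 1003306069611) (nat_lit 152) (nat_lit 311175133799) (nat_lit 0) (nat_lit 1001034512735) (nat_lit 1) (nat_lit 5) (nat_lit 3) (nat_lit 4) (nat_lit 1) (nat_lit 4) (nat_lit 444) (nat_lit 321) (nat_lit 255))) (XT.nd (nat_lit 78) (nat_lit 0) (nat_lit 0) (XT.lf (nat_lit 0) (nat_lit 1087646580714) (nat_lit 152) (nat_lit 327395499868) (nat_lit 0) (nat_lit 1085373970099) (nat_lit 1) (nat_lit 5) (nat_lit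 3) (nat_lit 4) (nat_lit 1) (nat_lit 4) (nat_lit 445) (nat_lit 321) (nat_lit 254)) (XT.nd (nat_lit 78) (nat_lit 0) (nat_lit 0) (XT.lf (nat_lit 0) (nat_lit 1178730596250) (nat_lit 152) (nat_lit 344921104879) (nat_lit 0) (nat_lit 1176457009951) (nat_lit 1) (nat_lit 5) (nat_lit 3) (nat_lit 4) (nat_lit 1) (nat_lit 4) (nat_lit 446) (nat_lit 321) (nat_lit 253)) (XT.lf (nat_lit 0) (nat_lit 1277097873350) (nat_lit 152) (nat_lit 363855804271) (nat_lit 0) (nat_lit 1274823383639) (nat_lit 1) (nat_lit 5) (nat_lit 3) (nat_lit 4) (nat_lit 1) (nat_lit 4) (nat_lit 447) (nat_lit 321) (nat_lit 252))))) (XT.nd (nat_lit 234) (nat_lit 0) (nat_lit 0) (XT.nd (nat_lit 78) (nat_lit 0) (nat_lit 0) (XT.lf (nat_lit 0) (nat_lit 1383331329209) (nat_lit 152) (nat_lit 384311803668) (nat_lit 0) (nat_lit 1381056003006) (nat_lit 1) (nat_lit 5) (nat_lit 3) (nat_lit 4) (nat_lit 1) (nat_lit 4) (nat_lit 448) (nat_lit 321) (nat_lit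 251)) (XT.nd (nat_lit 78) (nat_lit 0) (nat_lit 0) (XT.lf (nat_lit 0) (nat_lit 1498060495420) (nat_lit 152) (nat_lit 406410323808) (nat_lit 0) (nat_lit 1495784394687) (nat_lit 1) (nat_lit 5) (nat_lit 3) (nat_lit 4) (nat_lit 1) (nat_lit 4) (nat_lit 449) (nat_lit 321) (nat_lit 250)) (XT.lf (nat_lit 0) (nat_lit 1621965248522) (nat_lit 152) (nat_lit 430282318885) (nat_lit 0) (nat_lit 1619688430631) (nat_lit 1) (nat_lit 5) (nat_lit 3) (nat_lit 4) (nat_lit 1) (nat_lit 4) (nat_lit 450) (nat_lit 321) (nat_lit 249)))) (XT.nd (nat_lit 78) (nat_lit 0) (nat_lit 0) (XT.lf (nat_lit 0) (nat_lit 1755779838903) (nat_lit 152) (nat_lit 456069252573) (nat_lit 0) (nat_lit 1753502356978) (nat_lit 1) (nat_lit 5) (nat_lit 3) (nat_lit 4) (nat_lit 1) (nat_lit 4) (nat_lit 451) (nat_lit 321) (nat_lit 248)) (XT.nd (nat_lit 78) (nat_lit 0) (nat_lit 0) (XT.lf (nat_lit 0) (nat_lit 1900297241915) (nat_lit 152) (nat_lit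 483923936331) (nat_lit 0) (nat_lit 1898019145143) (nat_lit 1) (nat_lit 5) (nat_lit 3) (nat_lit 4) (nat_lit 1) (nat_lit 4) (nat_lit 452) (nat_lit 321) (nat_lit 247)) (XT.lf (nat_lit 0) (nat_lit 2056373856983) (nat_lit 152) (nat_lit 514011434952) (nat_lit 0) (nat_lit 2054095190908) (nat_lit 1) (nat_lit 5) (nat_lit 3) (nat_lit 4) (nat_lit 1) (nat_lit 4) (nat_lit 453) (nat_lit 321) (nat_lit 246))))))) (XT.nd (nat_lit 780) (nat_lit 0) (nat_lit 0) (XT.nd (nat_lit 390) (nat_lit 0) (nat_lit 0) (XT.nd (nat_lit 156) (nat_lit 0) (nat_lit 0) (XT.nd (nat_lit 78) (nat_lit 0) (nat_lit 0) (XT.lf (nat_lit 0) (nat_lit 2224934582566) (nat_lit 152) (nat_lit 546510044723) (nat_lit 0) (nat_lit 2222655389359) (nat_lit 1) (nat_lit 5) (nat_lit 3) (nat_lit 4) (nat_lit 1) (nat_lit 4) (nat_lit 454) (nat_lit 321) (nat_lit 245)) (XT.lf (nat_lit 0) (nat_lit 2406978297038) (nat_lit 152) (nat_lit 581612349999) (nat_lit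 0) (nat_lit 2404698615745) (nat_lit 1) (nat_lit 5) (nat_lit 3) (nat_lit 4) (nat_lit 1) (nat_lit 4) (nat_lit 455) (nat_lit 321) (nat_lit 244))) (XT.nd (nat_lit 78) (nat_lit 0) (nat_lit 0) (XT.lf (nat_lit 0) (nat_lit 2603583777966) (nat_lit 152) (nat_lit 619526364441) (nat_lit 0) (nat_lit 2601303644743) (nat_lit 1) (nat_lit 5) (nat_lit 3) (nat_lit 4) (nat_lit 1) (nat_lit 4) (nat_lit 456) (nat_lit 321) (nat_lit 243)) (XT.nd (nat_lit 78) (nat_lit 0) (nat_lit 0) (XT.lf (nat_lit 0) (nat_lit 2815916094867) (nat_lit 152) (nat_lit 660476763690) (nat_lit 0) (nat_lit 2813635543190) (nat_lit 1) (nat_lit 5) (nat_lit 3) (nat_lit 4) (nat_lit 1) (nat_lit 4) (nat_lit 457) (nat_lit 321) (nat_lit 242)) (XT.lf (nat_lit 0) (nat_lit 3045233513323) (nat_lit 152) (nat_lit 704706216779) (nat_lit 0) (nat_lit 3042952574188) (nat_lit 1) (nat_lit 5) (nat_lit 3) (nat_lit 4) (nat_lit 1) (nat_lit 4) (nat_lit 458) (nat_lit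 321) (nat_lit 241))))) (XT.nd (nat_lit 156) (nat_lit 0) (nat_lit 0) (XT.nd (nat_lit 78) (nat_lit 0) (nat_lit 0) (XT.lf (nat_lit 0) (nat_lit 3292894951369) (nat_lit 152) (nat_lit 752476824169) (nat_lit 0) (nat_lit 3290613653476) (nat_lit 1) (nat_lit 5) (nat_lit 3) (nat_lit 4) (nat_lit 1) (nat_lit 4) (nat_lit 459) (nat_lit 321) (nat_lit 240)) (XT.lf (nat_lit 0) (nat_lit 3560368032341) (nat_lit 152) (nat_lit 804071670943) (nat_lit 0) (nat_lit 3558086402266) (nat_lit 1) (nat_lit 5) (nat_lit 3) (nat_lit 4) (nat_lit 1) (nat_lit 4) (nat_lit 460) (nat_lit 321) (nat_lit 239))) (XT.nd (nat_lit 78) (nat_lit 0) (nat_lit 0) (XT.lf (nat_lit 0) (nat_lit 3849237781904) (nat_lit 152) (nat_lit 859796504340) (nat_lit 0) (nat_lit 3846955844253) (nat_lit 1) (nat_lit 5) (nat_lit 3) (nat_lit 4) (nat_lit 1) (nat_lit 4) (nat_lit 461) (nat_lit 321) (nat_lit 238)) (XT.nd (nat_lit 78) (nat_lit 0) (nat_lit 0) (XT.lf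 (nat_lit 0) (nat_lit 4161216020797) (nat_lit 152) (nat_lit 919981545596) (nat_lit 0) (nat_lit 4158933798353) (nat_lit 1) (nat_lit 5) (nat_lit 3) (nat_lit 4) (nat_lit 1) (nat_lit 4) (nat_lit 462) (nat_lit 321) (nat_lit 237)) (XT.lf (nat_lit 0) (nat_lit 4498151508954) (nat_lit 152) (nat_lit 984983446805) (nat_lit 0) (nat_lit 4495869022812) (nat_lit 1) (nat_lit 5) (nat_lit 3) (nat_lit 4) (nat_lit 1) (nat_lit 4) (nat_lit 463) (nat_lit 321) (nat_lit 236)))))) (XT.nd (nat_lit 46566) (nat_lit 0) (nat_lit 608) (XT.nd (nat_lit 46332) (nat_lit 0) (nat_lit 912) (XT.nd (nat_lit 46254) (nat_lit 0) (nat_lit 1140) (XT.lf (nat_lit 0) (nat_lit 4862040901120) (nat_lit 152) (nat_lit 1055187404421) (nat_lit 0) (nat_lit 4859758170814) (nat_lit 1) (nat_lit 5) (nat_lit 3) (nat_lit 4) (nat_lit 1) (nat_lit 4) (nat_lit 464) (nat_lit 321) (nat_lit 235)) (XT.lf (nat_lit 0) (nat_lit 4190442551) (nat_lit 152) (nat_lit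 823576676) (nat_lit 0) (nat_lit 4190442551) (nat_lit 16) (nat_lit 5) (nat_lit 18) (nat_lit 4) (nat_lit 16) (nat_lit 4) (nat_lit 376) (nat_lit 322) (nat_lit 322))) (XT.nd (nat_lit 78) (nat_lit 152) (nat_lit 0) (XT.lf (nat_lit 0) (nat_lit 11128793451) (nat_lit 76) (nat_lit 4245744422) (nat_lit 76) (nat_lit 3977059287) (nat_lit 15) (nat_lit 4) (nat_lit 16) (nat_lit 5) (nat_lit 16) (nat_lit 4) (nat_lit 377) (nat_lit 322) (nat_lit 321)) (XT.nd (nat_lit 78) (nat_lit 0) (nat_lit 0) (XT.lf (nat_lit 0) (nat_lit 2288681200) (nat_lit 152) (nat_lit 16277889687) (nat_lit 0) (nat_lit 1809544470) (nat_lit 13) (nat_lit 5) (nat_lit 15) (nat_lit 4) (nat_lit 13) (nat_lit 4) (nat_lit 378) (nat_lit 322) (nat_lit 320)) (XT.lf (nat_lit 0) (nat_lit 8850553607) (nat_lit 152) (nat_lit 4464913058) (nat_lit 0) (nat_lit 8158125953) (nat_lit 13) (nat_lit 5) (nat_lit 15) (nat_lit 4) (nat_lit 13) (nat_lit 4) (nat_lit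 379) (nat_lit 322) (nat_lit 319))))) (XT.nd (nat_lit 234) (nat_lit 76) (nat_lit 0) (XT.nd (nat_lit 78) (nat_lit 152) (nat_lit 0) (XT.lf (nat_lit 0) (nat_lit 8092884336) (nat_lit 76) (nat_lit 7732451869) (nat_lit 76) (nat_lit 6842532619) (nat_lit 12) (nat_lit 4) (nat_lit 13) (nat_lit 5) (nat_lit 13) (nat_lit 4) (nat_lit 380) (nat_lit 322) (nat_lit 318)) (XT.nd (nat_lit 78) (nat_lit 152) (nat_lit 0) (XT.lf (nat_lit 0) (nat_lit 21319490750) (nat_lit 76) (nat_lit 1862548980) (nat_lit 76) (nat_lit 789767142) (nat_lit 12) (nat_lit 4) (nat_lit 13) (nat_lit 5) (nat_lit 13) (nat_lit 4) (nat_lit 381) (nat_lit 322) (nat_lit 317)) (XT.lf (nat_lit 0) (nat_lit 5528445887) (nat_lit 152) (nat_lit 15456734044) (nat_lit 0) (nat_lit 4378354175) (nat_lit 10) (nat_lit 5) (nat_lit 12) (nat_lit 4) (nat_lit 10) (nat_lit 4) (nat_lit 382) (nat_lit 322) (nat_lit 316)))) (XT.nd (nat_lit 78) (nat_lit 76) (nat_lit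 0) (XT.lf (nat_lit 0) (nat_lit 12150276797) (nat_lit 152) (nat_lit 3872420113) (nat_lit 0) (nat_lit 10855022866) (nat_lit 10) (nat_lit 5) (nat_lit 12) (nat_lit 4) (nat_lit 10) (nat_lit 4) (nat_lit 383) (nat_lit 322) (nat_lit 315)) (XT.nd (nat_lit 78) (nat_lit 0) (nat_lit 0) (XT.lf (nat_lit 0) (nat_lit 8545438322) (nat_lit 76) (nat_lit 10700867416) (nat_lit 76) (nat_lit 9271204023) (nat_lit 9) (nat_lit 4) (nat_lit 10) (nat_lit 5) (nat_lit 10) (nat_lit 4) (nat_lit 384) (nat_lit 322) (nat_lit 314)) (XT.lf (nat_lit 0) (nat_lit 21669457073) (nat_lit 76) (nat_lit 5092505267) (nat_lit 76) (nat_lit 3538388669) (nat_lit 9) (nat_lit 4) (nat_lit 10) (nat_lit 5) (nat_lit 10) (nat_lit 4) (nat_lit 385) (nat_lit 322) (nat_lit 313))))))))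
noncomputable def xc48 : XT := (XT.nd (nat_lit 1560) (nat_lit 152) (nat_lit 0) (XT.nd (nat_lit 780) (nat_lit 76) (nat_lit 0) (XT.nd (nat_lit 390) (nat_lit 152) (nat_lit 0) (XT.nd (nat_lit 156) (nat_lit 76) (nat_lit 0) (XT.nd (nat_lit 78) (nat_lit 0) (nat_lit 0) (XT.lf (nat_lit 0) (nat_lit 2377902987) (nat_lit 152) (nat_lit 29022019434) (nat_lit 0) (nat_lit 832207573) (nat_lit 7) (nat_lit 5) (nat_lit 9) (nat_lit 4) (nat_lit 7) (nat_lit 4) (nat_lit 386) (nat_lit 322) (nat_lit 312)) (XT.lf (nat_lit 0) (nat_lit 8710355954) (nat_lit 152) (nat_lit 18524174252) (nat_lit 0) (nat_lit 7065865573) (nat_lit 7) (nat_lit 5) (nat_lit 9) (nat_lit 4) (nat_lit 7) (nat_lit 4) (nat_lit 387) (nat_lit 322) (nat_lit 311))) (XT.nd (nat_lit 78) (nat_lit 76) (nat_lit 0) (XT.lf (nat_lit 0) (nat_lit 15326846472) (nat_lit 152) (nat_lit 7634219195) (nat_lit 0) (nat_lit 13590879270) (nat_lit 7) (nat_lit 5) (nat_lit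 9) (nat_lit 4) (nat_lit 7) (nat_lit 4) (nat_lit 388) (nat_lit 322) (nat_lit 310)) (XT.nd (nat_lit 78) (nat_lit 0) (nat_lit 0) (XT.lf (nat_lit 0) (nat_lit 3907866092) (nat_lit 76) (nat_lit 18452701554) (nat_lit 76) (nat_lit 16632033592) (nat_lit 6) (nat_lit 4) (nat_lit 7) (nat_lit 5) (nat_lit 7) (nat_lit 4) (nat_lit 389) (nat_lit 322) (nat_lit 309)) (XT.lf (nat_lit 0) (nat_lit 16403424575) (nat_lit 76) (nat_lit 13561769204) (nat_lit 76) (nat_lit 11662674611) (nat_lit 6) (nat_lit 4) (nat_lit 7) (nat_lit 5) (nat_lit 7) (nat_lit 4) (nat_lit 390) (nat_lit 322) (nat_lit 308))))) (XT.nd (nat_lit 156) (nat_lit 152) (nat_lit 0) (XT.nd (nat_lit 78) (nat_lit 0) (nat_lit 0) (XT.lf (nat_lit 0) (nat_lit 29524499554) (nat_lit 76) (nat_lit 8468018396) (nat_lit 76) (nat_lit 6496306554) (nat_lit 6) (nat_lit 4) (nat_lit 7) (nat_lit 5) (nat_lit 7) (nat_lit 4) (nat_lit 391) (nat_lit 322) (nat_lit 307)) (XT.lf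 (nat_lit 0) (nat_lit 43348845547) (nat_lit 76) (nat_lit 3141263940) (nat_lit 76) (nat_lit 1102313904) (nat_lit 6) (nat_lit 4) (nat_lit 7) (nat_lit 5) (nat_lit 7) (nat_lit 4) (nat_lit 392) (nat_lit 322) (nat_lit 306))) (XT.nd (nat_lit 78) (nat_lit 0) (nat_lit 0) (XT.lf (nat_lit 0) (nat_lit 4564371569) (nat_lit 152) (nat_lit 43745857445) (nat_lit 0) (nat_lit 2618808954) (nat_lit 4) (nat_lit 5) (nat_lit 6) (nat_lit 4) (nat_lit 4) (nat_lit 4) (nat_lit 393) (nat_lit 322) (nat_lit 305)) (XT.nd (nat_lit 78) (nat_lit 0) (nat_lit 0) (XT.lf (nat_lit 0) (nat_lit 10662620276) (nat_lit 152) (nat_lit 35200976700) (nat_lit 0) (nat_lit 8663681815) (nat_lit 4) (nat_lit 5) (nat_lit 6) (nat_lit 4) (nat_lit 4) (nat_lit 4) (nat_lit 394) (nat_lit 322) (nat_lit 304)) (XT.lf (nat_lit 0) (nat_lit 17097941919) (nat_lit 152) (nat_lit 26277927950) (nat_lit 0) (nat_lit 15049581377) (nat_lit 4) (nat_lit 5) (nat_lit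 6) (nat_lit 4) (nat_lit 4) (nat_lit 4) (nat_lit 395) (nat_lit 322) (nat_lit 303)))))) (XT.nd (nat_lit 390) (nat_lit 0) (nat_lit 0) (XT.nd (nat_lit 156) (nat_lit 76) (nat_lit 0) (XT.nd (nat_lit 78) (nat_lit 0) (nat_lit 0) (XT.lf (nat_lit 0) (nat_lit 23908471735) (nat_lit 152) (nat_lit 16923833869) (nat_lit 0) (nat_lit 21814350009) (nat_lit 4) (nat_lit 5) (nat_lit 6) (nat_lit 4) (nat_lit 4) (nat_lit 4) (nat_lit 396) (nat_lit 322) (nat_lit 302)) (XT.lf (nat_lit 0) (nat_lit 31134568422) (nat_lit 152) (nat_lit 7083262787) (nat_lit 0) (nat_lit 28998075227) (nat_lit 4) (nat_lit 5) (nat_lit 6) (nat_lit 4) (nat_lit 4) (nat_lit 4) (nat_lit 397) (nat_lit 322) (nat_lit 301))) (XT.nd (nat_lit 78) (nat_lit 0) (nat_lit 0) (XT.lf (nat_lit 0) (nat_lit 3475982511) (nat_lit 76) (nat_lit 35426668243) (nat_lit 76) (nat_lit 33250942208) (nat_lit 3) (nat_lit 4) (nat_lit 4) (nat_lit 5) (nat_lit 4) (nat_lit 4)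 (nat_lit 398) (nat_lit 322) (nat_lit 300)) (XT.nd (nat_lit 78) (nat_lit 0) (nat_lit 0) (XT.lf (nat_lit 0) (nat_lit 15046482755) (nat_lit 76) (nat_lit 32322849549) (nat_lit 76) (nat_lit 30110796810) (nat_lit 3) (nat_lit 4) (nat_lit 4) (nat_lit 5) (nat_lit 4) (nat_lit 4) (nat_lit 399) (nat_lit 322) (nat_lit 299)) (XT.lf (nat_lit 0) (nat_lit 27323811805) (nat_lit 76) (nat_lit 29081651085) (nat_lit 76) (nat_lit 26835962509) (nat_lit 3) (nat_lit 4) (nat_lit 4) (nat_lit 5) (nat_lit 4) (nat_lit 4) (nat_lit 400) (nat_lit 322) (nat_lit 298))))) (XT.nd (nat_lit 156) (nat_lit 0) (nat_lit 0) (XT.nd (nat_lit 78) (nat_lit 0) (nat_lit 0) (XT.lf (nat_lit 0) (nat_lit 40380724204) (nat_lit 76) (nat_lit 25683865751) (nat_lit 76) (nat_lit 23407032880) (nat_lit 3) (nat_lit 4) (nat_lit 4) (nat_lit 5) (nat_lit 4) (nat_lit 4) (nat_lit 401) (nat_lit 322) (nat_lit 297)) (XT.lf (nat_lit 0) (nat_lit 54294594247)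 (nat_lit 76) (nat_lit 22109358520) (nat_lit 76) (nat_lit 19803688341) (nat_lit 3) (nat_lit 4) (nat_lit 4) (nat_lit 5) (nat_lit 4) (nat_lit 4) (nat_lit 402) (nat_lit 322) (nat_lit 296))) (XT.nd (nat_lit 78) (nat_lit 0) (nat_lit 0) (XT.lf (nat_lit 0) (nat_lit 69147874498) (nat_lit 76) (nat_lit 18336947129) (nat_lit 76) (nat_lit 16004575738) (nat_lit 3) (nat_lit 4) (nat_lit 4) (nat_lit 5) (nat_lit 4) (nat_lit 4) (nat_lit 403) (nat_lit 322) (nat_lit 295)) (XT.nd (nat_lit 78) (nat_lit 0) (nat_lit 0) (XT.lf (nat_lit 0) (nat_lit 85028584395) (nat_lit 76) (nat_lit 14344276547) (nat_lit 76) (nat_lit 11987181811) (nat_lit 3) (nat_lit 4) (nat_lit 4) (nat_lit 5) (nat_lit 4) (nat_lit 4) (nat_lit 404) (nat_lit 322) (nat_lit 294)) (XT.lf (nat_lit 0) (nat_lit 102030831848) (nat_lit 76) (nat_lit 10107686503) (nat_lit 76) (nat_lit 7727699782) (nat_lit 3) (nat_lit 4) (nat_lit 4) (nat_lit 5) (nat_lit 4) (nat_lit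 4) (nat_lit 405) (nat_lit 322) (nat_lit 293))))))) (XT.nd (nat_lit 780) (nat_lit 0) (nat_lit 0) (XT.nd (nat_lit 390) (nat_lit 0) (nat_lit 0) (XT.nd (nat_lit 156) (nat_lit 0) (nat_lit 0) (XT.nd (nat_lit 78) (nat_lit 152) (nat_lit 0) (XT.lf (nat_lit 0) (nat_lit 120255370917) (nat_lit 76) (nat_lit 5602071280) (nat_lit 76) (nat_lit 3200888275) (nat_lit 3) (nat_lit 4) (nat_lit 4) (nat_lit 5) (nat_lit 4) (nat_lit 4) (nat_lit 406) (nat_lit 322) (nat_lit 292)) (XT.lf (nat_lit 0) (nat_lit 821478061) (nat_lit 76) (nat_lit 737313887) (nat_lit 152) (nat_lit 137427362038) (nat_lit 1) (nat_lit 5) (nat_lit 2) (nat_lit 5) (nat_lit 3) (nat_lit 4) (nat_lit 407) (nat_lit 322) (nat_lit 291))) (XT.nd (nat_lit 78) (nat_lit 0) (nat_lit 0) (XT.lf (nat_lit 0) (nat_lit 6817443071) (nat_lit 152) (nat_lit 138301695326) (nat_lit 0) (nat_lit 4559126785) (nat_lit 1) (nat_lit 5) (nat_lit 3) (nat_lit 4) (nat_lit 1) (nat_lit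 4) (nat_lit 408) (nat_lit 322) (nat_lit 290)) (XT.nd (nat_lit 78) (nat_lit 0) (nat_lit 0) (XT.lf (nat_lit 0) (nat_lit 12456272944) (nat_lit 152) (nat_lit 138590339605) (nat_lit 0) (nat_lit 10182376757) (nat_lit 1) (nat_lit 5) (nat_lit 3) (nat_lit 4) (nat_lit 1) (nat_lit 4) (nat_lit 409) (nat_lit 322) (nat_lit 289)) (XT.lf (nat_lit 0) (nat_lit 18490964440) (nat_lit 152) (nat_lit 139014586829) (nat_lit 0) (nat_lit 16202642419) (nat_lit 1) (nat_lit 5) (nat_lit 3) (nat_lit 4) (nat_lit 1) (nat_lit 4) (nat_lit 410) (nat_lit 322) (nat_lit 288))))) (XT.nd (nat_lit 156) (nat_lit 0) (nat_lit 0) (XT.nd (nat_lit 78) (nat_lit 0) (nat_lit 0) (XT.lf (nat_lit 0) (nat_lit 24957278693) (nat_lit 152) (nat_lit 139576951057) (nat_lit 0) (nat_lit 22655599418) (nat_lit 1) (nat_lit 5) (nat_lit 3) (nat_lit 4) (nat_lit 1) (nat_lit 4) (nat_lit 411) (nat_lit 322) (nat_lit 287)) (XT.lf (nat_lit 0) (nat_lit 31893534602)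 (nat_lit 152) (nat_lit 140280764816) (nat_lit 0) (nat_lit 29579487500) (nat_lit 1) (nat_lit 5) (nat_lit 3) (nat_lit 4) (nat_lit 1) (nat_lit 4) (nat_lit 412) (nat_lit 322) (nat_lit 286))) (XT.nd (nat_lit 78) (nat_lit 0) (nat_lit 0) (XT.lf (nat_lit 0) (nat_lit 39340835907) (nat_lit 152) (nat_lit 141130198856) (nat_lit 0) (nat_lit 37015337113) (nat_lit 1) (nat_lit 5) (nat_lit 3) (nat_lit 4) (nat_lit 1) (nat_lit 4) (nat_lit 413) (nat_lit 322) (nat_lit 285)) (XT.nd (nat_lit 78) (nat_lit 0) (nat_lit 0) (XT.lf (nat_lit 0) (nat_lit 47343314764) (nat_lit 152) (nat_lit 142130286859) (nat_lit 0) (nat_lit 45007212551) (nat_lit 1) (nat_lit 5) (nat_lit 3) (nat_lit 4) (nat_lit 1) (nat_lit 4) (nat_lit 414) (nat_lit 322) (nat_lit 284)) (XT.lf (nat_lit 0) (nat_lit 55948393268) (nat_lit 152) (nat_lit 143286955273) (nat_lit 0) (nat_lit 53602473075) (nat_lit 1) (nat_lit 5) (nat_lit 3) (nat_lit 4) (nat_lit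 1) (nat_lit 4) (nat_lit 415) (nat_lit 322) (nat_lit 283)))))) (XT.nd (nat_lit 390) (nat_lit 0) (nat_lit 0) (XT.nd (nat_lit 156) (nat_lit 0) (nat_lit 0) (XT.nd (nat_lit 78) (nat_lit 0) (nat_lit 0) (XT.lf (nat_lit 0) (nat_lit 65207064479) (nat_lit 152) (nat_lit 144607058429) (nat_lit 0) (nat_lit 62852053563) (nat_lit 1) (nat_lit 5) (nat_lit 3) (nat_lit 4) (nat_lit 1) (nat_lit 4) (nat_lit 416) (nat_lit 322) (nat_lit 282)) (XT.lf (nat_lit 0) (nat_lit 75174194595) (nat_lit 152) (nat_lit 146098419161) (nat_lit 0) (nat_lit 72810766343) (nat_lit 1) (nat_lit 5) (nat_lit 3) (nat_lit 4) (nat_lit 1) (nat_lit 4) (nat_lit 417) (nat_lit 322) (nat_lit 281))) (XT.nd (nat_lit 78) (nat_lit 0) (nat_lit 0) (XT.lf (nat_lit 0) (nat_lit 85908848091) (nat_lit 152) (nat_lit 147769875162) (nat_lit 0) (nat_lit 83537626011) (nat_lit 1) (nat_lit 5) (nat_lit 3) (nat_lit 4) (nat_lit 1) (nat_lit 4) (nat_lit 418) (nat_lit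 322) (nat_lit 280)) (XT.nd (nat_lit 78) (nat_lit 0) (nat_lit 0) (XT.lf (nat_lit 0) (nat_lit 97474637730) (nat_lit 152) (nat_lit 149631331356) (nat_lit 0) (nat_lit 95096199141) (nat_lit 1) (nat_lit 5) (nat_lit 3) (nat_lit 4) (nat_lit 1) (nat_lit 4) (nat_lit 419) (nat_lit 322) (nat_lit 279)) (XT.lf (nat_lit 0) (nat_lit 109940101523) (nat_lit 152) (nat_lit 151693818595) (nat_lit 0) (nat_lit 107554980982) (nat_lit 1) (nat_lit 5) (nat_lit 3) (nat_lit 4) (nat_lit 1) (nat_lit 4) (nat_lit 420) (nat_lit 322) (nat_lit 278))))) (XT.nd (nat_lit 234) (nat_lit 0) (nat_lit 0) (XT.nd (nat_lit 78) (nat_lit 0) (nat_lit 0) (XT.lf (nat_lit 0) (nat_lit 123379108886) (nat_lit 152) (nat_lit 153969559025) (nat_lit 0) (nat_lit 120987801352) (nat_lit 1) (nat_lit 5) (nat_lit 3) (nat_lit 4) (nat_lit 1) (nat_lit 4) (nat_lit 421) (nat_lit 322) (nat_lit 277)) (XT.nd (nat_lit 78) (nat_lit 0) (nat_lit 0) (XT.lf (nat_lit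 0) (nat_lit 137871298381) (nat_lit 152) (nat_lit 156472038516) (nat_lit 0) (nat_lit 135474262150) (nat_lit 1) (nat_lit 5) (nat_lit 3) (nat_lit 4) (nat_lit 1) (nat_lit 4) (nat_lit 422) (nat_lit 322) (nat_lit 276)) (XT.lf (nat_lit 0) (nat_lit 153502549650) (nat_lit 152) (nat_lit 159216086576) (nat_lit 0) (nat_lit 151100209069) (nat_lit 1) (nat_lit 5) (nat_lit 3) (nat_lit 4) (nat_lit 1) (nat_lit 4) (nat_lit 423) (nat_lit 322) (nat_lit 275)))) (XT.nd (nat_lit 78) (nat_lit 0) (nat_lit 0) (XT.lf (nat_lit 0) (nat_lit 170365492328) (nat_lit 152) (nat_lit 162217964231) (nat_lit 0) (nat_lit 167958240313) (nat_lit 1) (nat_lit 5) (nat_lit 3) (nat_lit 4) (nat_lit 1) (nat_lit 4) (nat_lit 424) (nat_lit 322) (nat_lit 274)) (XT.nd (nat_lit 78) (nat_lit 0) (nat_lit 0) (XT.lf (nat_lit 0) (nat_lit 188560054966) (nat_lit 152) (nat_lit 165495460384) (nat_lit 0) (nat_lit 186148255327) (nat_lit 1) (nat_lit 5)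 (nat_lit 3) (nat_lit 4) (nat_lit 1) (nat_lit 4) (nat_lit 425) (nat_lit 322) (nat_lit 273)) (XT.lf (nat_lit 0) (nat_lit 208194057195) (nat_lit 152) (nat_lit 169067997236) (nat_lit 0) (nat_lit 205778046791) (nat_lit 1) (nat_lit 5) (nat_lit 3) (nat_lit 4) (nat_lit 1) (nat_lit 4) (nat_lit 426) (nat_lit 322) (nat_lit 272))))))))
noncomputable def xc49 : XT := (XT.nd (nat_lit 1560) (nat_lit 0) (nat_lit 0) (XT.nd (nat_lit 780) (nat_lit 0) (nat_lit 0) (XT.nd (nat_lit 390) (nat_lit 0) (nat_lit 0) (XT.nd (nat_lit 156) (nat_lit 0) (nat_lit 0) (XT.nd (nat_lit 78) (nat_lit 0) (nat_lit 0) (XT.lf (nat_lit 0) (nat_lit 229383848656) (nat_lit 152) (nat_lit 172956745375) (nat_lit 0) (nat_lit 226963939398) (nat_lit 1) (nat_lit 5) (nat_lit 3) (nat_lit 4) (nat_lit 1) (nat_lit 4) (nat_lit 427) (nat_lit 322) (nat_lit 271)) (XT.lf (nat_lit 0) (nat_lit 252254998485) (nat_lit 152) (nat_lit 177184749234) (nat_lit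 0) (nat_lit 249831479176) (nat_lit 1) (nat_lit 5) (nat_lit 3) (nat_lit 4) (nat_lit 1) (nat_lit 4) (nat_lit 428) (nat_lit 322) (nat_lit 270))) (XT.nd (nat_lit 78) (nat_lit 0) (nat_lit 0) (XT.lf (nat_lit 0) (nat_lit 276943039421) (nat_lit 152) (nat_lit 181777063652) (nat_lit 0) (nat_lit 274516177472) (nat_lit 1) (nat_lit 5) (nat_lit 3) (nat_lit 4) (nat_lit 1) (nat_lit 4) (nat_lit 429) (nat_lit 322) (nat_lit 269)) (XT.nd (nat_lit 78) (nat_lit 0) (nat_lit 0) (XT.lf (nat_lit 0) (nat_lit 303594270967) (nat_lit 152) (nat_lit 186760902342) (nat_lit 0) (nat_lit 301164313981) (nat_lit 1) (nat_lit 5) (nat_lit 3) (nat_lit 4) (nat_lit 1) (nat_lit 4) (nat_lit 430) (nat_lit 322) (nat_lit 268)) (XT.lf (nat_lit 0) (nat_lit 332366626345) (nat_lit 152) (nat_lit 192165799166) (nat_lit 0) (nat_lit 329933803584) (nat_lit 1) (nat_lit 5) (nat_lit 3) (nat_lit 4) (nat_lit 1) (nat_lit 4) (nat_lit 431) (nat_lit 322)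 (nat_lit 267))))) (XT.nd (nat_lit 156) (nat_lit 0) (nat_lit 0) (XT.nd (nat_lit 78) (nat_lit 0) (nat_lit 0) (XT.lf (nat_lit 0) (nat_lit 363430608403) (nat_lit 152) (nat_lit 198023783139) (nat_lit 0) (nat_lit 360995132147) (nat_lit 1) (nat_lit 5) (nat_lit 3) (nat_lit 4) (nat_lit 1) (nat_lit 4) (nat_lit 432) (nat_lit 322) (nat_lit 266)) (XT.lf (nat_lit 0) (nat_lit 396970299998) (nat_lit 152) (nat_lit 204369568242) (nat_lit 0) (nat_lit 394532366802) (nat_lit 1) (nat_lit 5) (nat_lit 3) (nat_lit 4) (nat_lit 1) (nat_lit 4) (nat_lit 433) (nat_lit 322) (nat_lit 265))) (XT.nd (nat_lit 78) (nat_lit 0) (nat_lit 0) (XT.lf (nat_lit 0) (nat_lit 433184454857) (nat_lit 152) (nat_lit 211240759127) (nat_lit 0) (nat_lit 430744246716) (nat_lit 1) (nat_lit 5) (nat_lit 3) (nat_lit 4) (nat_lit 1) (nat_lit 4) (nat_lit 434) (nat_lit 322) (nat_lit 264)) (XT.nd (nat_lit 78) (nat_lit 0) (nat_lit 0) (XT.lf (nat_lit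 0) (nat_lit 472287675379) (nat_lit 152) (nat_lit 218678073963) (nat_lit 0) (nat_lit 469845360808) (nat_lit 1) (nat_lit 5) (nat_lit 3) (nat_lit 4) (nat_lit 1) (nat_lit 4) (nat_lit 435) (nat_lit 322) (nat_lit 263)) (XT.lf (nat_lit 0) (nat_lit 514511684353) (nat_lit 152) (nat_lit 226725585725) (nat_lit 0) (nat_lit 512067419384) (nat_lit 1) (nat_lit 5) (nat_lit 3) (nat_lit 4) (nat_lit 1) (nat_lit 4) (nat_lit 436) (nat_lit 322) (nat_lit 262)))))) (XT.nd (nat_lit 390) (nat_lit 0) (nat_lit 0) (XT.nd (nat_lit 156) (nat_lit 0) (nat_lit 0) (XT.nd (nat_lit 78) (nat_lit 0) (nat_lit 0) (XT.lf (nat_lit 0) (nat_lit 560106698129) (nat_lit 152) (nat_lit 235430983373) (nat_lit 0) (nat_lit 557660627236) (nat_lit 1) (nat_lit 5) (nat_lit 3) (nat_lit 4) (nat_lit 1) (nat_lit 4) (nat_lit 437) (nat_lit 322) (nat_lit 261)) (XT.lf (nat_lit 0) (nat_lit 609342909380) (nat_lit 152) (nat_lit 244845854448) (nat_lit 0)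 (nat_lit 606895166335) (nat_lit 1) (nat_lit 5) (nat_lit 3) (nat_lit 4) (nat_lit 1) (nat_lit 4) (nat_lit 438) (nat_lit 322) (nat_lit 260))) (XT.nd (nat_lit 78) (nat_lit 0) (nat_lit 0) (XT.lf (nat_lit 0) (nat_lit 662512088247) (nat_lit 152) (nat_lit 255025990779) (nat_lit 0) (nat_lit 660062796913) (nat_lit 1) (nat_lit 5) (nat_lit 3) (nat_lit 4) (nat_lit 1) (nat_lit 4) (nat_lit 439) (nat_lit 322) (nat_lit 259)) (XT.nd (nat_lit 78) (nat_lit 0) (nat_lit 0) (XT.lf (nat_lit 0) (nat_lit 719929311346) (nat_lit 152) (nat_lit 266031719099) (nat_lit 0) (nat_lit 717478586411) (nat_lit 1) (nat_lit 5) (nat_lit 3) (nat_lit 4) (nat_lit 1) (nat_lit 4) (nat_lit 440) (nat_lit 322) (nat_lit 258)) (XT.lf (nat_lit 0) (nat_lit 781934828888) (nat_lit 152) (nat_lit 277928258540) (nat_lit 0) (nat_lit 779482776545) (nat_lit 1) (nat_lit 5) (nat_lit 3) (nat_lit 4) (nat_lit 1) (nat_lit 4) (nat_lit 441) (nat_lit 322)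 (nat_lit 257))))) (XT.nd (nat_lit 156) (nat_lit 0) (nat_lit 0) (XT.nd (nat_lit 78) (nat_lit 0) (nat_lit 0) (XT.lf (nat_lit 0) (nat_lit 848896080977) (nat_lit 152) (nat_lit 290786107113) (nat_lit 0) (nat_lit 846442799552) (nat_lit 1) (nat_lit 5) (nat_lit 3) (nat_lit 4) (nat_lit 1) (nat_lit 4) (nat_lit 442) (nat_lit 322) (nat_lit 256)) (XT.lf (nat_lit 0) (nat_lit 921209875032) (nat_lit 152) (nat_lit 304681459476) (nat_lit 0) (nat_lit 918755455568) (nat_lit 1) (nat_lit 5) (nat_lit 3) (nat_lit 4) (nat_lit 1) (nat_lit 4) (nat_lit 443) (nat_lit 322) (nat_lit 255))) (XT.nd (nat_lit 78) (nat_lit 0) (nat_lit 0) (XT.lf (nat_lit 0) (nat_lit 999304737240) (nat_lit 152) (nat_lit 319696658458) (nat_lit 0) (nat_lit 996849264037) (nat_lit 1) (nat_lit 5) (nat_lit 3) (nat_lit 4) (nat_lit 1) (nat_lit 4) (nat_lit 444) (nat_lit 322) (nat_lit 254)) (XT.nd (nat_lit 78) (nat_lit 0) (nat_lit 0) (XT.lf (nat_lit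 0) (nat_lit 1083643451971) (nat_lit 152) (nat_lit 335920683016) (nat_lit 0) (nat_lit 1081187003083) (nat_lit 1) (nat_lit 5) (nat_lit 3) (nat_lit 4) (nat_lit 1) (nat_lit 4) (nat_lit 445) (nat_lit 322) (nat_lit 253)) (XT.lf (nat_lit 0) (nat_lit 1174725804200) (nat_lit 152) (nat_lit 353449675517) (nat_lit 0) (nat_lit 1172268451900) (nat_lit 1) (nat_lit 5) (nat_lit 3) (nat_lit 4) (nat_lit 1) (nat_lit 4) (nat_lit 446) (nat_lit 322) (nat_lit 252))))))) (XT.nd (nat_lit 780) (nat_lit 0) (nat_lit 0) (XT.nd (nat_lit 390) (nat_lit 0) (nat_lit 0) (XT.nd (nat_lit 156) (nat_lit 0) (nat_lit 0) (XT.nd (nat_lit 78) (nat_lit 0) (nat_lit 0) (XT.lf (nat_lit 0) (nat_lit 1273091541200) (nat_lit 152) (nat_lit 372387511473) (nat_lit 0) (nat_lit 1270633352407) (nat_lit 1) (nat_lit 5) (nat_lit 3) (nat_lit 4) (nat_lit 1) (nat_lit 4) (nat_lit 447) (nat_lit 322) (nat_lit 251)) (XT.lf (nat_lit 0) (nat_lit 1379323571041)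 (nat_lit 152) (nat_lit 392846415097) (nat_lit 0) (nat_lit 1376864607719) (nat_lit 1) (nat_lit 5) (nat_lit 3) (nat_lit 4) (nat_lit 1) (nat_lit 4) (nat_lit 448) (nat_lit 322) (nat_lit 250))) (XT.nd (nat_lit 78) (nat_lit 0) (nat_lit 0) (XT.lf (nat_lit 0) (nat_lit 1494051416864) (nat_lit 152) (nat_lit 414947624336) (nat_lit 0) (nat_lit 1491591736385) (nat_lit 1) (nat_lit 5) (nat_lit 3) (nat_lit 4) (nat_lit 1) (nat_lit 4) (nat_lit 449) (nat_lit 322) (nat_lit 249)) (XT.nd (nat_lit 78) (nat_lit 0) (nat_lit 0) (XT.lf (nat_lit 0) (nat_lit 1617954947385) (nat_lit 152) (nat_lit 438822109319) (nat_lit 0) (nat_lit 1615494602871) (nat_lit 1) (nat_lit 5) (nat_lit 3) (nat_lit 4) (nat_lit 1) (nat_lit 4) (nat_lit 450) (nat_lit 322) (nat_lit 248)) (XT.lf (nat_lit 0) (nat_lit 1751768405747) (nat_lit 152) (nat_lit 464611348476) (nat_lit 0) (nat_lit 1749307446387) (nat_lit 1) (nat_lit 5) (nat_lit 3) (nat_lit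 4) (nat_lit 1) (nat_lit 4) (nat_lit 451) (nat_lit 322) (nat_lit 247))))) (XT.nd (nat_lit 156) (nat_lit 0) (nat_lit 0) (XT.nd (nat_lit 78) (nat_lit 0) (nat_lit 0) (XT.lf (nat_lit 0) (nat_lit 1896284760593) (nat_lit 152) (nat_lit 492468166927) (nat_lit 0) (nat_lit 1893823231930) (nat_lit 1) (nat_lit 5) (nat_lit 3) (nat_lit 4) (nat_lit 1) (nat_lit 4) (nat_lit 452) (nat_lit 322) (nat_lit 246)) (XT.lf (nat_lit 0) (nat_lit 2052360405137) (nat_lit 152) (nat_lit 522557642116) (nat_lit 0) (nat_lit 2049898349341) (nat_lit 1) (nat_lit 5) (nat_lit 3) (nat_lit 4) (nat_lit 1) (nat_lit 4) (nat_lit 453) (nat_lit 322) (nat_lit 245))) (XT.nd (nat_lit 78) (nat_lit 0) (nat_lit 0) (XT.lf (nat_lit 0) (nat_lit 2220920232086) (nat_lit 152) (nat_lit 555058082042) (nat_lit 0) (nat_lit 2218457688205) (nat_lit 1) (nat_lit 5) (nat_lit 3) (nat_lit 4) (nat_lit 1) (nat_lit 4) (nat_lit 454) (nat_lit 322) (nat_lit 244))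 (XT.nd (nat_lit 78) (nat_lit 0) (nat_lit 0) (XT.lf (nat_lit 0) (nat_lit 2402963114490) (nat_lit 152) (nat_lit 590162081907) (nat_lit 0) (nat_lit 2400500118679) (nat_lit 1) (nat_lit 5) (nat_lit 3) (nat_lit 4) (nat_lit 1) (nat_lit 4) (nat_lit 455) (nat_lit 322) (nat_lit 243)) (XT.lf (nat_lit 0) (nat_lit 2599567824985) (nat_lit 152) (nat_lit 628077665412) (nat_lit 0) (nat_lit 2597104410719) (nat_lit 1) (nat_lit 5) (nat_lit 3) (nat_lit 4) (nat_lit 1) (nat_lit 4) (nat_lit 456) (nat_lit 322) (nat_lit 242)))))) (XT.nd (nat_lit 390) (nat_lit 0) (nat_lit 0) (XT.nd (nat_lit 156) (nat_lit 0) (nat_lit 0) (XT.nd (nat_lit 78) (nat_lit 0) (nat_lit 0) (XT.lf (nat_lit 0) (nat_lit 2811899428522) (nat_lit 152) (nat_lit 669029517497) (nat_lit 0) (nat_lit 2809435626798) (nat_lit 1) (nat_lit 5) (nat_lit 3) (nat_lit 4) (nat_lit 1) (nat_lit 4) (nat_lit 457) (nat_lit 322) (nat_lit 241)) (XT.lf (nat_lit 0) (nat_lit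 3041216186456) (nat_lit 152) (nat_lit 713260315805) (nat_lit 0) (nat_lit 3038752025974) (nat_lit 1) (nat_lit 5) (nat_lit 3) (nat_lit 4) (nat_lit 1) (nat_lit 4) (nat_lit 458) (nat_lit 322) (nat_lit 240))) (XT.nd (nat_lit 78) (nat_lit 0) (nat_lit 0) (XT.lf (nat_lit 0) (nat_lit 3288877012906) (nat_lit 152) (nat_lit 761032168768) (nat_lit 0) (nat_lit 3286412520243) (nat_lit 1) (nat_lit 5) (nat_lit 3) (nat_lit 4) (nat_lit 1) (nat_lit 4) (nat_lit 459) (nat_lit 322) (nat_lit 239)) (XT.nd (nat_lit 78) (nat_lit 0) (nat_lit 0) (XT.lf (nat_lit 0) (nat_lit 3556349527587) (nat_lit 152) (nat_lit 812628168851) (nat_lit 0) (nat_lit 3553884727347) (nat_lit 1) (nat_lit 5) (nat_lit 3) (nat_lit 4) (nat_lit 1) (nat_lit 4) (nat_lit 460) (nat_lit 322) (nat_lit 238)) (XT.lf (nat_lit 0) (nat_lit 3845218752807) (nat_lit 152) (nat_lit 868354070126) (nat_lit 0) (nat_lit 3842753667773) (nat_lit 1) (nat_lit 5) (nat_lit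 3) (nat_lit 4) (nat_lit 1) (nat_lit 4) (nat_lit 461) (nat_lit 322) (nat_lit 237))))) (XT.nd (nat_lit 46254) (nat_lit 0) (nat_lit 1140) (XT.nd (nat_lit 78) (nat_lit 0) (nat_lit 0) (XT.lf (nat_lit 0) (nat_lit 4157196506196) (nat_lit 152) (nat_lit 928540100157) (nat_lit 0) (nat_lit 4154731157466) (nat_lit 1) (nat_lit 5) (nat_lit 3) (nat_lit 4) (nat_lit 1) (nat_lit 4) (nat_lit 462) (nat_lit 322) (nat_lit 236)) (XT.nd (nat_lit 78) (nat_lit 0) (nat_lit 0) (XT.lf (nat_lit 0) (nat_lit 4494131544813) (nat_lit 152) (nat_lit 993542916900) (nat_lit 0) (nat_lit 4491665951918) (nat_lit 1) (nat_lit 5) (nat_lit 3) (nat_lit 4) (nat_lit 1) (nat_lit 4) (nat_lit 463) (nat_lit 322) (nat_lit 235)) (XT.lf (nat_lit 0) (nat_lit 4858020520737) (nat_lit 152) (nat_lit 1063747722232) (nat_lit 0) (nat_lit 4855554701764) (nat_lit 1) (nat_lit 5) (nat_lit 3) (nat_lit 4) (nat_lit 1) (nat_lit 4) (nat_lit 464) (nat_lit 322)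 (nat_lit 234)))) (XT.nd (nat_lit 78) (nat_lit 152) (nat_lit 0) (XT.lf (nat_lit 0) (nat_lit 4382823240) (nat_lit 76) (nat_lit 1988217360) (nat_lit 76) (nat_lit 1988217360) (nat_lit 18) (nat_lit 4) (nat_lit 19) (nat_lit 5) (nat_lit 19) (nat_lit 4) (nat_lit 374) (nat_lit 323) (nat_lit 323)) (XT.nd (nat_lit 78) (nat_lit 0) (nat_lit 0) (XT.lf (nat_lit 0) (nat_lit 2133880711) (nat_lit 152) (nat_lit 13563469905) (nat_lit 0) (nat_lit 1843700764) (nat_lit 16) (nat_lit 5) (nat_lit 18) (nat_lit 4) (nat_lit 16) (nat_lit 4) (nat_lit 375) (nat_lit 323) (nat_lit 322)) (XT.lf (nat_lit 0) (nat_lit 8510414057) (nat_lit 152) (nat_lit 1959837195) (nat_lit 0) (nat_lit 7951548974) (nat_lit 16) (nat_lit 5) (nat_lit 18) (nat_lit 4) (nat_lit 16) (nat_lit 4) (nat_lit 376) (nat_lit 323) (nat_lit 321))))))))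
noncomputable def xc50 : XT := (XT.nd (nat_lit 1560) (nat_lit 228) (nat_lit 0) (XT.nd (nat_lit 780) (nat_lit 304) (nat_lit 0) (XT.nd (nat_lit 390) (nat_lit 304) (nat_lit 0) (XT.nd (nat_lit 156) (nat_lit 76) (nat_lit 0) (XT.nd (nat_lit 78) (nat_lit 152) (nat_lit 0) (XT.lf (nat_lit 0) (nat_lit 10494876437) (nat_lit 76) (nat_lit 4845193754) (nat_lit 76) (nat_lit 4037546139) (nat_lit 15) (nat_lit 4) (nat_lit 16) (nat_lit 5) (nat_lit 16) (nat_lit 4) (nat_lit 377) (nat_lit 323) (nat_lit 320)) (XT.lf (nat_lit 0) (nat_lit 2040427772) (nat_lit 152) (nat_lit 17297791058) (nat_lit 0) (nat_lit 1079314983) (nat_lit 13) (nat_lit 5) (nat_lit 15) (nat_lit 4) (nat_lit 13) (nat_lit 4) (nat_lit 378) (nat_lit 323) (nat_lit 319))) (XT.nd (nat_lit 78) (nat_lit 76) (nat_lit 0) (XT.lf (nat_lit 0) (nat_lit 8454860918) (nat_lit 152) (nat_lit 5775706840) (nat_lit 0) (nat_lit 7296256533) (nat_lit 13) (nat_lit 5)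 (nat_lit 15) (nat_lit 4) (nat_lit 13) (nat_lit 4) (nat_lit 379) (nat_lit 323) (nat_lit 318)) (XT.nd (nat_lit 78) (nat_lit 0) (nat_lit 0) (XT.lf (nat_lit 0) (nat_lit 6429538431) (nat_lit 76) (nat_lit 8823583742) (nat_lit 76) (nat_lit 7482116768) (nat_lit 12) (nat_lit 4) (nat_lit 13) (nat_lit 5) (nat_lit 13) (nat_lit 4) (nat_lit 380) (nat_lit 323) (nat_lit 317)) (XT.lf (nat_lit 0) (nat_lit 19393618877) (nat_lit 76) (nat_lit 3083487663) (nat_lit 76) (nat_lit 1572703478) (nat_lit 12) (nat_lit 4) (nat_lit 13) (nat_lit 5) (nat_lit 13) (nat_lit 4) (nat_lit 381) (nat_lit 323) (nat_lit 316))))) (XT.nd (nat_lit 156) (nat_lit 152) (nat_lit 0) (XT.nd (nat_lit 78) (nat_lit 0) (nat_lit 0) (XT.lf (nat_lit 0) (nat_lit 4567709164) (nat_lit 152) (nat_lit 17869032327) (nat_lit 0) (nat_lit 3023672700) (nat_lit 10) (nat_lit 5) (nat_lit 12) (nat_lit 4) (nat_lit 10) (nat_lit 4) (nat_lit 382) (nat_lit 323) (nat_lit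 315)) (XT.lf (nat_lit 0) (nat_lit 11064027363) (nat_lit 152) (nat_lit 6535044379) (nat_lit 0) (nat_lit 9385581437) (nat_lit 10) (nat_lit 5) (nat_lit 12) (nat_lit 4) (nat_lit 10) (nat_lit 4) (nat_lit 383) (nat_lit 323) (nat_lit 314))) (XT.nd (nat_lit 78) (nat_lit 76) (nat_lit 0) (XT.lf (nat_lit 0) (nat_lit 5498616364) (nat_lit 76) (nat_lit 12471948325) (nat_lit 76) (nat_lit 10669049194) (nat_lit 9) (nat_lit 4) (nat_lit 10) (nat_lit 5) (nat_lit 10) (nat_lit 4) (nat_lit 384) (nat_lit 323) (nat_lit 313)) (XT.nd (nat_lit 78) (nat_lit 76) (nat_lit 0) (XT.lf (nat_lit 0) (nat_lit 18396719730) (nat_lit 76) (nat_lit 6976461372) (nat_lit 76) (nat_lit 5058327792) (nat_lit 9) (nat_lit 4) (nat_lit 10) (nat_lit 5) (nat_lit 10) (nat_lit 4) (nat_lit 385) (nat_lit 323) (nat_lit 312)) (XT.lf (nat_lit 0) (nat_lit 727783620) (nat_lit 152) (nat_lit 511042214) (nat_lit 76) (nat_lit 31143892553) (nat_lit 8) (nat_lit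 5) (nat_lit 10) (nat_lit 5) (nat_lit 9) (nat_lit 4) (nat_lit 386) (nat_lit 323) (nat_lit 311)))))) (XT.nd (nat_lit 390) (nat_lit 152) (nat_lit 0) (XT.nd (nat_lit 156) (nat_lit 76) (nat_lit 0) (XT.nd (nat_lit 78) (nat_lit 0) (nat_lit 0) (XT.lf (nat_lit 0) (nat_lit 6910169603) (nat_lit 152) (nat_lit 22608980096) (nat_lit 0) (nat_lit 4943848204) (nat_lit 7) (nat_lit 5) (nat_lit 9) (nat_lit 4) (nat_lit 7) (nat_lit 4) (nat_lit 387) (nat_lit 323) (nat_lit 310)) (XT.lf (nat_lit 0) (nat_lit 13427586631) (nat_lit 152) (nat_lit 11918329588) (nat_lit 0) (nat_lit 11376564471) (nat_lit 7) (nat_lit 5) (nat_lit 9) (nat_lit 4) (nat_lit 7) (nat_lit 4) (nat_lit 388) (nat_lit 323) (nat_lit 309))) (XT.nd (nat_lit 78) (nat_lit 76) (nat_lit 0) (XT.lf (nat_lit 0) (nat_lit 20275588819) (nat_lit 152) (nat_lit 756272838) (nat_lit 0) (nat_lit 18146140030) (nat_lit 7) (nat_lit 5) (nat_lit 9) (nat_lit 4) (nat_lit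 7) (nat_lit 4) (nat_lit 389) (nat_lit 323) (nat_lit 308)) (XT.nd (nat_lit 78) (nat_lit 0) (nat_lit 0) (XT.lf (nat_lit 0) (nat_lit 11519592338) (nat_lit 76) (nat_lit 16252211057) (nat_lit 76) (nat_lit 14050145017) (nat_lit 6) (nat_lit 4) (nat_lit 7) (nat_lit 5) (nat_lit 7) (nat_lit 4) (nat_lit 390) (nat_lit 323) (nat_lit 307)) (XT.lf (nat_lit 0) (nat_lit 24474121651) (nat_lit 76) (nat_lit 11242352757) (nat_lit 76) (nat_lit 8973048523) (nat_lit 6) (nat_lit 4) (nat_lit 7) (nat_lit 5) (nat_lit 7) (nat_lit 4) (nat_lit 391) (nat_lit 323) (nat_lit 306))))) (XT.nd (nat_lit 156) (nat_lit 0) (nat_lit 0) (XT.nd (nat_lit 78) (nat_lit 152) (nat_lit 0) (XT.lf (nat_lit 0) (nat_lit 38144258694) (nat_lit 76) (nat_lit 5993276550) (nat_lit 76) (nat_lit 3661714729) (nat_lit 6) (nat_lit 4) (nat_lit 7) (nat_lit 5) (nat_lit 7) (nat_lit 4) (nat_lit 392) (nat_lit 323) (nat_lit 305)) (XT.lf (nat_lit 0) (nat_lit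 1468869166) (nat_lit 76) (nat_lit 385975497) (nat_lit 152) (nat_lit 49308201678) (nat_lit 4) (nat_lit 5) (nat_lit 5) (nat_lit 5) (nat_lit 6) (nat_lit 4) (nat_lit 393) (nat_lit 323) (nat_lit 304))) (XT.nd (nat_lit 78) (nat_lit 0) (nat_lit 0) (XT.lf (nat_lit 0) (nat_lit 7871316920) (nat_lit 152) (nat_lit 41286851429) (nat_lit 0) (nat_lit 5609665455) (nat_lit 4) (nat_lit 5) (nat_lit 6) (nat_lit 4) (nat_lit 4) (nat_lit 4) (nat_lit 394) (nat_lit 323) (nat_lit 303)) (XT.nd (nat_lit 78) (nat_lit 0) (nat_lit 0) (XT.lf (nat_lit 0) (nat_lit 14239514737) (nat_lit 152) (nat_lit 32499763529) (nat_lit 0) (nat_lit 11932102087) (nat_lit 4) (nat_lit 5) (nat_lit 6) (nat_lit 4) (nat_lit 4) (nat_lit 4) (nat_lit 395) (nat_lit 323) (nat_lit 302)) (XT.lf (nat_lit 0) (nat_lit 20987892863) (nat_lit 152) (nat_lit 23271559124) (nat_lit 0) (nat_lit 18638108745) (nat_lit 4) (nat_lit 5) (nat_lit 6) (nat_lit 4) (nat_lit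 4) (nat_lit 4) (nat_lit 396) (nat_lit 323) (nat_lit 301))))))) (XT.nd (nat_lit 780) (nat_lit 152) (nat_lit 0) (XT.nd (nat_lit 390) (nat_lit 0) (nat_lit 0) (XT.nd (nat_lit 156) (nat_lit 76) (nat_lit 0) (XT.nd (nat_lit 78) (nat_lit 0) (nat_lit 0) (XT.lf (nat_lit 0) (nat_lit 28156441688) (nat_lit 152) (nat_lit 13547552558) (nat_lit 0) (nat_lit 25767424730) (nat_lit 4) (nat_lit 5) (nat_lit 6) (nat_lit 4) (nat_lit 4) (nat_lit 4) (nat_lit 397) (nat_lit 323) (nat_lit 300)) (XT.lf (nat_lit 0) (nat_lit 35787641501) (nat_lit 152) (nat_lit 3270120088) (nat_lit 0) (nat_lit 33362297838) (nat_lit 4) (nat_lit 5) (nat_lit 6) (nat_lit 4) (nat_lit 4) (nat_lit 4) (nat_lit 398) (nat_lit 323) (nat_lit 299))) (XT.nd (nat_lit 78) (nat_lit 0) (nat_lit 0) (XT.lf (nat_lit 0) (nat_lit 8022983728) (nat_lit 76) (nat_lit 36096683450) (nat_lit 76) (nat_lit 33637703950) (nat_lit 3) (nat_lit 4) (nat_lit 4) (nat_lit 5)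 (nat_lit 4) (nat_lit 4) (nat_lit 399) (nat_lit 323) (nat_lit 298)) (XT.nd (nat_lit 78) (nat_lit 0) (nat_lit 0) (XT.lf (nat_lit 0) (nat_lit 20202907501) (nat_lit 76) (nat_lit 32904864316) (nat_lit 76) (nat_lit 30414740522) (nat_lit 3) (nat_lit 4) (nat_lit 4) (nat_lit 5) (nat_lit 4) (nat_lit 4) (nat_lit 400) (nat_lit 323) (nat_lit 297)) (XT.lf (nat_lit 0) (nat_lit 33169629829) (nat_lit 76) (nat_lit 29552800583) (nat_lit 76) (nat_lit 27033839480) (nat_lit 3) (nat_lit 4) (nat_lit 4) (nat_lit 5) (nat_lit 4) (nat_lit 4) (nat_lit 401) (nat_lit 323) (nat_lit 296))))) (XT.nd (nat_lit 156) (nat_lit 0) (nat_lit 0) (XT.nd (nat_lit 78) (nat_lit 0) (nat_lit 0) (XT.lf (nat_lit 0) (nat_lit 46999990547) (nat_lit 76) (nat_lit 26020628169) (nat_lit 76) (nat_lit 23474965854) (nat_lit 3) (nat_lit 4) (nat_lit 4) (nat_lit 5) (nat_lit 4) (nat_lit 4) (nat_lit 402) (nat_lit 323) (nat_lit 295)) (XT.lf (nat_lit 0)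 (nat_lit 61775947349) (nat_lit 76) (nat_lit 22287415681) (nat_lit 76) (nat_lit 19717030022) (nat_lit 3) (nat_lit 4) (nat_lit 4) (nat_lit 5) (nat_lit 4) (nat_lit 4) (nat_lit 403) (nat_lit 323) (nat_lit 294))) (XT.nd (nat_lit 78) (nat_lit 0) (nat_lit 0) (XT.lf (nat_lit 0) (nat_lit 77585061459) (nat_lit 76) (nat_lit 18331040381) (nat_lit 76) (nat_lit 15737762736) (nat_lit 3) (nat_lit 4) (nat_lit 4) (nat_lit 5) (nat_lit 4) (nat_lit 4) (nat_lit 404) (nat_lit 323) (nat_lit 293)) (XT.nd (nat_lit 78) (nat_lit 0) (nat_lit 0) (XT.lf (nat_lit 0) (nat_lit 94521016518) (nat_lit 76) (nat_lit 14128057079) (nat_lit 76) (nat_lit 11513583151) (nat_lit 3) (nat_lit 4) (nat_lit 4) (nat_lit 5) (nat_lit 4) (nat_lit 4) (nat_lit 405) (nat_lit 323) (nat_lit 292)) (XT.lf (nat_lit 0) (nat_lit 112684173740) (nat_lit 76) (nat_lit 9653559209) (nat_lit 76) (nat_lit 7019459093) (nat_lit 3) (nat_lit 4) (nat_lit 4) (nat_lit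 5) (nat_lit 4) (nat_lit 4) (nat_lit 406) (nat_lit 323) (nat_lit 291)))))) (XT.nd (nat_lit 390) (nat_lit 0) (nat_lit 0) (XT.nd (nat_lit 156) (nat_lit 0) (nat_lit 0) (XT.nd (nat_lit 78) (nat_lit 152) (nat_lit 0) (XT.lf (nat_lit 0) (nat_lit 132182166650) (nat_lit 76) (nat_lit 4881031228) (nat_lit 76) (nat_lit 2228758716) (nat_lit 3) (nat_lit 4) (nat_lit 4) (nat_lit 5) (nat_lit 4) (nat_lit 4) (nat_lit 407) (nat_lit 323) (nat_lit 290)) (XT.lf (nat_lit 0) (nat_lit 2828372789) (nat_lit 152) (nat_lit 146828040447) (nat_lit 0) (nat_lit 356985007) (nat_lit 1) (nat_lit 5) (nat_lit 3) (nat_lit 4) (nat_lit 1) (nat_lit 4) (nat_lit 408) (nat_lit 323) (nat_lit 289))) (XT.nd (nat_lit 78) (nat_lit 0) (nat_lit 0) (XT.lf (nat_lit 0) (nat_lit 8440642678) (nat_lit 152) (nat_lit 147170776747) (nat_lit 0) (nat_lit 5954829062) (nat_lit 1) (nat_lit 5) (nat_lit 3) (nat_lit 4) (nat_lit 1) (nat_lit 4) (nat_lit 409)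 (nat_lit 323) (nat_lit 288)) (XT.nd (nat_lit 78) (nat_lit 0) (nat_lit 0) (XT.lf (nat_lit 0) (nat_lit 14450741596) (nat_lit 152) (nat_lit 147645109176) (nat_lit 0) (nat_lit 11951570725) (nat_lit 1) (nat_lit 5) (nat_lit 3) (nat_lit 4) (nat_lit 1) (nat_lit 4) (nat_lit 410) (nat_lit 323) (nat_lit 287)) (XT.lf (nat_lit 0) (nat_lit 20894284943) (nat_lit 152) (nat_lit 148253848592) (nat_lit 0) (nat_lit 18382746245) (nat_lit 1) (nat_lit 5) (nat_lit 3) (nat_lit 4) (nat_lit 1) (nat_lit 4) (nat_lit 411) (nat_lit 323) (nat_lit 286))))) (XT.nd (nat_lit 234) (nat_lit 0) (nat_lit 0) (XT.nd (nat_lit 78) (nat_lit 0) (nat_lit 0) (XT.lf (nat_lit 0) (nat_lit 27809456681) (nat_lit 152) (nat_lit 149000602342) (nat_lit 0) (nat_lit 25286466291) (nat_lit 1) (nat_lit 5) (nat_lit 3) (nat_lit 4) (nat_lit 1) (nat_lit 4) (nat_lit 412) (nat_lit 323) (nat_lit 285)) (XT.nd (nat_lit 78) (nat_lit 0) (nat_lit 0) (XT.lf (nat_lit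 0) (nat_lit 35237235605) (nat_lit 152) (nat_lit 149889795632) (nat_lit 0) (nat_lit 32703641796) (nat_lit 1) (nat_lit 5) (nat_lit 3) (nat_lit 4) (nat_lit 1) (nat_lit 4) (nat_lit 413) (nat_lit 323) (nat_lit 284)) (XT.lf (nat_lit 0) (nat_lit 43221638182) (nat_lit 152) (nat_lit 150926697756) (nat_lit 0) (nat_lit 40678226393) (nat_lit 1) (nat_lit 5) (nat_lit 3) (nat_lit 4) (nat_lit 1) (nat_lit 4) (nat_lit 414) (nat_lit 323) (nat_lit 283)))) (XT.nd (nat_lit 78) (nat_lit 0) (nat_lit 0) (XT.lf (nat_lit 0) (nat_lit 51809979391) (nat_lit 152) (nat_lit 152117453318) (nat_lit 0) (nat_lit 49257476880) (nat_lit 1) (nat_lit 5) (nat_lit 3) (nat_lit 4) (nat_lit 1) (nat_lit 4) (nat_lit 415) (nat_lit 323) (nat_lit 282)) (XT.nd (nat_lit 78) (nat_lit 0) (nat_lit 0) (XT.lf (nat_lit 0) (nat_lit 61053153106) (nat_lit 152) (nat_lit 153469118649) (nat_lit 0) (nat_lit 58492233259) (nat_lit 1) (nat_lit 5) (nat_lit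 3) (nat_lit 4) (nat_lit 1) (nat_lit 4) (nat_lit 416) (nat_lit 323) (nat_lit 281)) (XT.lf (nat_lit 0) (nat_lit 71005933689) (nat_lit 152) (nat_lit 154989703616) (nat_lit 0) (nat_lit 68437220013) (nat_lit 1) (nat_lit 5) (nat_lit 3) (nat_lit 4) (nat_lit 1) (nat_lit 4) (nat_lit 417) (nat_lit 323) (nat_lit 280))))))))
noncomputable def xc51 : XT := (XT.nd (nat_lit 1638) (nat_lit 0) (nat_lit 0) (XT.nd (nat_lit 780) (nat_lit 0) (nat_lit 0) (XT.nd (nat_lit 390) (nat_lit 0) (nat_lit 0) (XT.nd (nat_lit 156) (nat_lit 0) (nat_lit 0) (XT.nd (nat_lit 78) (nat_lit 0) (nat_lit 0) (XT.lf (nat_lit 0) (nat_lit 81727300581) (nat_lit 152) (nat_lit 156688219095) (nat_lit 0) (nat_lit 79151370396) (nat_lit 1) (nat_lit 5) (nat_lit 3) (nat_lit 4) (nat_lit 1) (nat_lit 4) (nat_lit 418) (nat_lit 323) (nat_lit 279)) (XT.lf (nat_lit 0) (nat_lit 93280787808) (nat_lit 152) (nat_lit 158574730361) (nat_lit 0) (nat_lit 90698175671)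 (nat_lit 1) (nat_lit 5) (nat_lit 3) (nat_lit 4) (nat_lit 1) (nat_lit 4) (nat_lit 419) (nat_lit 323) (nat_lit 278))) (XT.nd (nat_lit 78) (nat_lit 0) (nat_lit 0) (XT.lf (nat_lit 0) (nat_lit 105734860479) (nat_lit 152) (nat_lit 160660416740) (nat_lit 0) (nat_lit 103146061349) (nat_lit 1) (nat_lit 5) (nat_lit 3) (nat_lit 4) (nat_lit 1) (nat_lit 4) (nat_lit 420) (nat_lit 323) (nat_lit 277)) (XT.nd (nat_lit 78) (nat_lit 0) (nat_lit 0) (XT.lf (nat_lit 0) (nat_lit 119163320507) (nat_lit 152) (nat_lit 162957637856) (nat_lit 0) (nat_lit 116568792680) (nat_lit 1) (nat_lit 5) (nat_lit 3) (nat_lit 4) (nat_lit 1) (nat_lit 4) (nat_lit 421) (nat_lit 323) (nat_lit 276)) (XT.lf (nat_lit 0) (nat_lit 133645743951) (nat_lit 152) (nat_lit 165480006871) (nat_lit 0) (nat_lit 131045911774) (nat_lit 1) (nat_lit 5) (nat_lit 3) (nat_lit 4) (nat_lit 1) (nat_lit 4) (nat_lit 422) (nat_lit 323) (nat_lit 275))))) (XT.nd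 (nat_lit 156) (nat_lit 0) (nat_lit 0) (XT.nd (nat_lit 78) (nat_lit 0) (nat_lit 0) (XT.lf (nat_lit 0) (nat_lit 149267952579) (nat_lit 152) (nat_lit 168242471157) (nat_lit 0) (nat_lit 146663208968) (nat_lit 1) (nat_lit 5) (nat_lit 3) (nat_lit 4) (nat_lit 1) (nat_lit 4) (nat_lit 423) (nat_lit 323) (nat_lit 274)) (XT.lf (nat_lit 0) (nat_lit 166122522443) (nat_lit 152) (nat_lit 171261400872) (nat_lit 0) (nat_lit 163513231207) (nat_lit 1) (nat_lit 5) (nat_lit 3) (nat_lit 4) (nat_lit 1) (nat_lit 4) (nat_lit 424) (nat_lit 323) (nat_lit 273))) (XT.nd (nat_lit 78) (nat_lit 0) (nat_lit 0) (XT.lf (nat_lit 0) (nat_lit 184309332475) (nat_lit 152) (nat_lit 174554685971) (nat_lit 0) (nat_lit 181695830476) (nat_lit 1) (nat_lit 5) (nat_lit 3) (nat_lit 4) (nat_lit 1) (nat_lit 4) (nat_lit 425) (nat_lit 323) (nat_lit 272)) (XT.nd (nat_lit 78) (nat_lit 0) (nat_lit 0) (XT.lf (nat_lit 0) (nat_lit 203936156364)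 (nat_lit 152) (nat_lit 178141842216) (nat_lit 0) (nat_lit 201318755510) (nat_lit 1) (nat_lit 5) (nat_lit 3) (nat_lit 4) (nat_lit 1) (nat_lit 4) (nat_lit 426) (nat_lit 323) (nat_lit 271)) (XT.lf (nat_lit 0) (nat_lit 225119301216) (nat_lit 152) (nat_lit 182044126831) (nat_lit 0) (nat_lit 222498290310) (nat_lit 1) (nat_lit 5) (nat_lit 3) (nat_lit 4) (nat_lit 1) (nat_lit 4) (nat_lit 427) (nat_lit 323) (nat_lit 270)))))) (XT.nd (nat_lit 390) (nat_lit 0) (nat_lit 0) (XT.nd (nat_lit 156) (nat_lit 0) (nat_lit 0) (XT.nd (nat_lit 78) (nat_lit 0) (nat_lit 0) (XT.lf (nat_lit 0) (nat_lit 247984296776) (nat_lit 152) (nat_lit 186284664464) (nat_lit 0) (nat_lit 245359943231) (nat_lit 1) (nat_lit 5) (nat_lit 3) (nat_lit 4) (nat_lit 1) (nat_lit 4) (nat_lit 428) (nat_lit 323) (nat_lit 269)) (XT.lf (nat_lit 0) (nat_lit 272666639315) (nat_lit 152) (nat_lit 190888584228) (nat_lit 0) (nat_lit 270039190733) (nat_lit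 1) (nat_lit 5) (nat_lit 3) (nat_lit 4) (nat_lit 1) (nat_lit 4) (nat_lit 429) (nat_lit 323) (nat_lit 268))) (XT.nd (nat_lit 78) (nat_lit 0) (nat_lit 0) (XT.lf (nat_lit 0) (nat_lit 299312594567) (nat_lit 152) (nat_lit 195883168610) (nat_lit 0) (nat_lit 296682280210) (nat_lit 1) (nat_lit 5) (nat_lit 3) (nat_lit 4) (nat_lit 1) (nat_lit 4) (nat_lit 430) (nat_lit 323) (nat_lit 267)) (XT.nd (nat_lit 78) (nat_lit 0) (nat_lit 0) (XT.lf (nat_lit 0) (nat_lit 328080064488) (nat_lit 152) (nat_lit 201298015146) (nat_lit 0) (nat_lit 325447096636) (nat_lit 1) (nat_lit 5) (nat_lit 3) (nat_lit 4) (nat_lit 1) (nat_lit 4) (nat_lit 431) (nat_lit 323) (nat_lit 266)) (XT.lf (nat_lit 0) (nat_lit 359139522975) (nat_lit 152) (nat_lit 207165211818) (nat_lit 0) (nat_lit 356504098183) (nat_lit 1) (nat_lit 5) (nat_lit 3) (nat_lit 4) (nat_lit 1) (nat_lit 4) (nat_lit 432) (nat_lit 323) (nat_lit 265))))) (XT.nd (nat_lit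 234) (nat_lit 0) (nat_lit 0) (XT.nd (nat_lit 78) (nat_lit 0) (nat_lit 0) (XT.lf (nat_lit 0) (nat_lit 392675026077) (nat_lit 152) (nat_lit 213519527197) (nat_lit 0) (nat_lit 390037326341) (nat_lit 1) (nat_lit 5) (nat_lit 3) (nat_lit 4) (nat_lit 1) (nat_lit 4) (nat_lit 433) (nat_lit 323) (nat_lit 264)) (XT.nd (nat_lit 78) (nat_lit 0) (nat_lit 0) (XT.lf (nat_lit 0) (nat_lit 428885302703) (nat_lit 152) (nat_lit 220398616485) (nat_lit 0) (nat_lit 426245496537) (nat_lit 1) (nat_lit 5) (nat_lit 3) (nat_lit 4) (nat_lit 1) (nat_lit 4) (nat_lit 434) (nat_lit 323) (nat_lit 263)) (XT.lf (nat_lit 0) (nat_lit 467984932269) (nat_lit 152) (nat_lit 227843244657) (nat_lit 0) (nat_lit 465343175704) (nat_lit 1) (nat_lit 5) (nat_lit 3) (nat_lit 4) (nat_lit 1) (nat_lit 4) (nat_lit 435) (nat_lit 323) (nat_lit 262)))) (XT.nd (nat_lit 78) (nat_lit 0) (nat_lit 0) (XT.lf (nat_lit 0) (nat_lit 510205616283) (nat_lit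 152) (nat_lit 235897528028) (nat_lit 0) (nat_lit 507562053794) (nat_lit 1) (nat_lit 5) (nat_lit 3) (nat_lit 4) (nat_lit 1) (nat_lit 4) (nat_lit 436) (nat_lit 323) (nat_lit 261)) (XT.nd (nat_lit 78) (nat_lit 0) (nat_lit 0) (XT.lf (nat_lit 0) (nat_lit 555797551392) (nat_lit 152) (nat_lit 244609195683) (nat_lit 0) (nat_lit 553152316751) (nat_lit 1) (nat_lit 5) (nat_lit 3) (nat_lit 4) (nat_lit 1) (nat_lit 4) (nat_lit 437) (nat_lit 323) (nat_lit 260)) (XT.lf (nat_lit 0) (nat_lit 605030912026) (nat_lit 152) (nat_lit 254029872320) (nat_lit 0) (nat_lit 602384129096) (nat_lit 1) (nat_lit 5) (nat_lit 3) (nat_lit 4) (nat_lit 1) (nat_lit 4) (nat_lit 438) (nat_lit 323) (nat_lit 259))))))) (XT.nd (nat_lit 780) (nat_lit 0) (nat_lit 0) (XT.nd (nat_lit 390) (nat_lit 0) (nat_lit 0) (XT.nd (nat_lit 156) (nat_lit 0) (nat_lit 0) (XT.nd (nat_lit 78) (nat_lit 0) (nat_lit 0) (XT.lf (nat_lit 0) (nat_lit 658197451433)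 (nat_lit 152) (nat_lit 264215384172) (nat_lit 0) (nat_lit 655549234902) (nat_lit 1) (nat_lit 5) (nat_lit 3) (nat_lit 4) (nat_lit 1) (nat_lit 4) (nat_lit 439) (nat_lit 323) (nat_lit 258)) (XT.lf (nat_lit 0) (nat_lit 715612230587) (nat_lit 152) (nat_lit 275226089827) (nat_lit 0) (nat_lit 712962686648) (nat_lit 1) (nat_lit 5) (nat_lit 3) (nat_lit 4) (nat_lit 1) (nat_lit 4) (nat_lit 440) (nat_lit 323) (nat_lit 257))) (XT.nd (nat_lit 78) (nat_lit 0) (nat_lit 0) (XT.lf (nat_lit 0) (nat_lit 777615485217) (nat_lit 152) (nat_lit 287127237910) (nat_lit 0) (nat_lit 774964712196) (nat_lit 1) (nat_lit 5) (nat_lit 3) (nat_lit 4) (nat_lit 1) (nat_lit 4) (nat_lit 441) (nat_lit 323) (nat_lit 256)) (XT.nd (nat_lit 78) (nat_lit 0) (nat_lit 0) (XT.lf (nat_lit 0) (nat_lit 844574642017) (nat_lit 152) (nat_lit 299989353745) (nat_lit 0) (nat_lit 841922730958) (nat_lit 1) (nat_lit 5) (nat_lit 3) (nat_lit 4) (nat_lit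 1) (nat_lit 4) (nat_lit 442) (nat_lit 323) (nat_lit 255)) (XT.lf (nat_lit 0) (nat_lit 916886495990) (nat_lit 152) (nat_lit 313888657276) (nat_lit 0) (nat_lit 914233531191) (nat_lit 1) (nat_lit 5) (nat_lit 3) (nat_lit 4) (nat_lit 1) (nat_lit 4) (nat_lit 443) (nat_lit 323) (nat_lit 254))))) (XT.nd (nat_lit 156) (nat_lit 0) (nat_lit 0) (XT.nd (nat_lit 78) (nat_lit 0) (nat_lit 0) (XT.lf (nat_lit 0) (nat_lit 994979561826) (nat_lit 152) (nat_lit 328907514747) (nat_lit 0) (nat_lit 992325621342) (nat_lit 1) (nat_lit 5) (nat_lit 3) (nat_lit 4) (nat_lit 1) (nat_lit 4) (nat_lit 444) (nat_lit 323) (nat_lit 253)) (XT.lf (nat_lit 0) (nat_lit 1079316613249) (nat_lit 152) (nat_lit 345134926795) (nat_lit 0) (nat_lit 1076661769354) (nat_lit 1) (nat_lit 5) (nat_lit 3) (nat_lit 4) (nat_lit 1) (nat_lit 4) (nat_lit 445) (nat_lit 323) (nat_lit 252))) (XT.nd (nat_lit 78) (nat_lit 0) (nat_lit 0) (XT.lf (nat_lit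 0) (nat_lit 1170397425378) (nat_lit 152) (nat_lit 362667055861) (nat_lit 0) (nat_lit 1167741744990) (nat_lit 1) (nat_lit 5) (nat_lit 3) (nat_lit 4) (nat_lit 1) (nat_lit 4) (nat_lit 446) (nat_lit 323) (nat_lit 251)) (XT.nd (nat_lit 78) (nat_lit 0) (nat_lit 0) (XT.lf (nat_lit 0) (nat_lit 1268761736359) (nat_lit 152) (nat_lit 381607796043) (nat_lit 0) (nat_lit 1266105281442) (nat_lit 1) (nat_lit 5) (nat_lit 3) (nat_lit 4) (nat_lit 1) (nat_lit 4) (nat_lit 447) (nat_lit 323) (nat_lit 250)) (XT.lf (nat_lit 0) (nat_lit 1374992445814) (nat_lit 152) (nat_lit 402069388766) (nat_lit 0) (nat_lit 1372335273738) (nat_lit 1) (nat_lit 5) (nat_lit 3) (nat_lit 4) (nat_lit 1) (nat_lit 4) (nat_lit 448) (nat_lit 323) (nat_lit 249)))))) (XT.nd (nat_lit 390) (nat_lit 0) (nat_lit 0) (XT.nd (nat_lit 156) (nat_lit 0) (nat_lit 0) (XT.nd (nat_lit 78) (nat_lit 0) (nat_lit 0) (XT.lf (nat_lit 0) (nat_lit 1489719069056)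 (nat_lit 152) (nat_lit 424173087911) (nat_lit 0) (nat_lit 1487061232946) (nat_lit 1) (nat_lit 5) (nat_lit 3) (nat_lit 4) (nat_lit 1) (nat_lit 4) (nat_lit 449) (nat_lit 323) (nat_lit 248)) (XT.lf (nat_lit 0) (nat_lit 1613621467557) (nat_lit 152) (nat_lit 448049878363) (nat_lit 0) (nat_lit 1610963016601) (nat_lit 1) (nat_lit 5) (nat_lit 3) (nat_lit 4) (nat_lit 1) (nat_lit 4) (nat_lit 450) (nat_lit 323) (nat_lit 247))) (XT.nd (nat_lit 78) (nat_lit 0) (nat_lit 0) (XT.lf (nat_lit 0) (nat_lit 1747433877754) (nat_lit 152) (nat_lit 473841252213) (nat_lit 0) (nat_lit 1744774857494) (nat_lit 1) (nat_lit 5) (nat_lit 3) (nat_lit 4) (nat_lit 1) (nat_lit 4) (nat_lit 451) (nat_lit 323) (nat_lit 246)) (XT.nd (nat_lit 78) (nat_lit 0) (nat_lit 0) (XT.lf (nat_lit 0) (nat_lit 1891949262075) (nat_lit 152) (nat_lit 501700047232) (nat_lit 0) (nat_lit 1889289714684) (nat_lit 1) (nat_lit 5) (nat_lit 3) (nat_lit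 4) (nat_lit 1) (nat_lit 4) (nat_lit 452) (nat_lit 323) (nat_lit 245)) (XT.lf (nat_lit 0) (nat_lit 2048024007986) (nat_lit 152) (nat_lit 531791352576) (nat_lit 0) (nat_lit 2045363972509) (nat_lit 1) (nat_lit 5) (nat_lit 3) (nat_lit 4) (nat_lit 1) (nat_lit 4) (nat_lit 453) (nat_lit 323) (nat_lit 244))))) (XT.nd (nat_lit 234) (nat_lit 0) (nat_lit 0) (XT.nd (nat_lit 78) (nat_lit 0) (nat_lit 0) (XT.lf (nat_lit 0) (nat_lit 2216583002867) (nat_lit 152) (nat_lit 564293487091) (nat_lit 0) (nat_lit 2213922515460) (nat_lit 1) (nat_lit 5) (nat_lit 3) (nat_lit 4) (nat_lit 1) (nat_lit 4) (nat_lit 454) (nat_lit 323) (nat_lit 243)) (XT.nd (nat_lit 78) (nat_lit 0) (nat_lit 0) (XT.lf (nat_lit 0) (nat_lit 2398625114838) (nat_lit 152) (nat_lit 599399056019) (nat_lit 0) (nat_lit 2395964208976) (nat_lit 1) (nat_lit 5) (nat_lit 3) (nat_lit 4) (nat_lit 1) (nat_lit 4) (nat_lit 455) (nat_lit 323) (nat_lit 242))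 (XT.lf (nat_lit 0) (nat_lit 2595229111968) (nat_lit 152) (nat_lit 637316092360) (nat_lit 0) (nat_lit 2592567818649) (nat_lit 1) (nat_lit 5) (nat_lit 3) (nat_lit 4) (nat_lit 1) (nat_lit 4) (nat_lit 456) (nat_lit 323) (nat_lit 241)))) (XT.nd (nat_lit 78) (nat_lit 0) (nat_lit 0) (XT.lf (nat_lit 0) (nat_lit 2807560054983) (nat_lit 152) (nat_lit 678269289664) (nat_lit 0) (nat_lit 2804898402906) (nat_lit 1) (nat_lit 5) (nat_lit 3) (nat_lit 4) (nat_lit 1) (nat_lit 4) (nat_lit 457) (nat_lit 323) (nat_lit 240)) (XT.nd (nat_lit 78) (nat_lit 0) (nat_lit 0) (XT.lf (nat_lit 0) (nat_lit 3036876201322) (nat_lit 152) (nat_lit 722501333545) (nat_lit 0) (nat_lit 3034214217062) (nat_lit 1) (nat_lit 5) (nat_lit 3) (nat_lit 4) (nat_lit 1) (nat_lit 4) (nat_lit 458) (nat_lit 323) (nat_lit 239)) (XT.lf (nat_lit 0) (nat_lit 3284536461481) (nat_lit 152) (nat_lit 770274339817) (nat_lit 0) (nat_lit 3281874169645)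 (nat_lit 1) (nat_lit 5) (nat_lit 3) (nat_lit 4) (nat_lit 1) (nat_lit 4) (nat_lit 459) (nat_lit 323) (nat_lit 238))))))))
noncomputable def xc52 : XT := (XT.nd (nat_lit 47424) (nat_lit 0) (nat_lit 152) (XT.nd (nat_lit 46644) (nat_lit 0) (nat_lit 608) (XT.nd (nat_lit 46254) (nat_lit 0) (nat_lit 1140) (XT.nd (nat_lit 156) (nat_lit 0) (nat_lit 0) (XT.nd (nat_lit 78) (nat_lit 0) (nat_lit 0) (XT.lf (nat_lit 0) (nat_lit 3552008451818) (nat_lit 152) (nat_lit 821871407777) (nat_lit 0) (nat_lit 3549345875189) (nat_lit 1) (nat_lit 5) (nat_lit 3) (nat_lit 4) (nat_lit 1) (nat_lit 4) (nat_lit 460) (nat_lit 323) (nat_lit 237)) (XT.lf (nat_lit 0) (nat_lit 3840877191533) (nat_lit 152) (nat_lit 877598297828) (nat_lit 0) (nat_lit 3838214351207) (nat_lit 1) (nat_lit 5) (nat_lit 3) (nat_lit 4) (nat_lit 1) (nat_lit 4) (nat_lit 461) (nat_lit 323) (nat_lit 236))) (XT.nd (nat_lit 78) (nat_lit 0) (nat_lit 0) (XT.lf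 (nat_lit 0) (nat_lit 4152854495382) (nat_lit 152) (nat_lit 937785243393) (nat_lit 0) (nat_lit 4150191410892) (nat_lit 1) (nat_lit 5) (nat_lit 3) (nat_lit 4) (nat_lit 1) (nat_lit 4) (nat_lit 462) (nat_lit 323) (nat_lit 235)) (XT.nd (nat_lit 78) (nat_lit 0) (nat_lit 0) (XT.lf (nat_lit 0) (nat_lit 4489789117758) (nat_lit 152) (nat_lit 1002788907852) (nat_lit 0) (nat_lit 4487125807189) (nat_lit 1) (nat_lit 5) (nat_lit 3) (nat_lit 4) (nat_lit 1) (nat_lit 4) (nat_lit 463) (nat_lit 323) (nat_lit 234)) (XT.lf (nat_lit 0) (nat_lit 4853677708274) (nat_lit 152) (nat_lit 1072994498106) (nat_lit 0) (nat_lit 4851014188374) (nat_lit 1) (nat_lit 5) (nat_lit 3) (nat_lit 4) (nat_lit 1) (nat_lit 4) (nat_lit 464) (nat_lit 323) (nat_lit 233))))) (XT.nd (nat_lit 156) (nat_lit 228) (nat_lit 0) (XT.nd (nat_lit 78) (nat_lit 0) (nat_lit 0) (XT.lf (nat_lit 0) (nat_lit 191528989) (nat_lit 152) (nat_lit 7244066621)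 (nat_lit 0) (nat_lit 191528989) (nat_lit 19) (nat_lit 5) (nat_lit 21) (nat_lit 4) (nat_lit 19) (nat_lit 4) (nat_lit 372) (nat_lit 324) (nat_lit 324)) (XT.lf (nat_lit 0) (nat_lit 6464361147) (nat_lit 152) (nat_lit 3369813001) (nat_lit 0) (nat_lit 6125895257) (nat_lit 19) (nat_lit 5) (nat_lit 21) (nat_lit 4) (nat_lit 19) (nat_lit 4) (nat_lit 373) (nat_lit 324) (nat_lit 323))) (XT.nd (nat_lit 78) (nat_lit 152) (nat_lit 0) (XT.lf (nat_lit 0) (nat_lit 8462695813) (nat_lit 76) (nat_lit 4460162080) (nat_lit 76) (nat_lit 3808301848) (nat_lit 18) (nat_lit 4) (nat_lit 19) (nat_lit 5) (nat_lit 19) (nat_lit 4) (nat_lit 374) (nat_lit 324) (nat_lit 322)) (XT.nd (nat_lit 78) (nat_lit 0) (nat_lit 0) (XT.lf (nat_lit 0) (nat_lit 2113120991) (nat_lit 152) (nat_lit 14213852296) (nat_lit 0) (nat_lit 1240861567) (nat_lit 16) (nat_lit 5) (nat_lit 18) (nat_lit 4) (nat_lit 16) (nat_lit 4) (nat_lit 375) (nat_lit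 324) (nat_lit 321)) (XT.lf (nat_lit 0) (nat_lit 8340903419) (nat_lit 152) (nat_lit 2899741662) (nat_lit 0) (nat_lit 7219861461) (nat_lit 16) (nat_lit 5) (nat_lit 18) (nat_lit 4) (nat_lit 16) (nat_lit 4) (nat_lit 376) (nat_lit 324) (nat_lit 320)))))) (XT.nd (nat_lit 390) (nat_lit 228) (nat_lit 0) (XT.nd (nat_lit 156) (nat_lit 76) (nat_lit 0) (XT.nd (nat_lit 78) (nat_lit 152) (nat_lit 0) (XT.lf (nat_lit 0) (nat_lit 9223285863) (nat_lit 76) (nat_lit 5778959574) (nat_lit 76) (nat_lit 4427563420) (nat_lit 15) (nat_lit 4) (nat_lit 16) (nat_lit 5) (nat_lit 16) (nat_lit 4) (nat_lit 377) (nat_lit 324) (nat_lit 319)) (XT.lf (nat_lit 0) (nat_lit 1465640407) (nat_lit 152) (nat_lit 19004340753) (nat_lit 0) (nat_lit 16856076) (nat_lit 13) (nat_lit 5) (nat_lit 15) (nat_lit 4) (nat_lit 13) (nat_lit 4) (nat_lit 378) (nat_lit 324) (nat_lit 318))) (XT.nd (nat_lit 78) (nat_lit 76) (nat_lit 0) (XT.lf (nat_lit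 0) (nat_lit 7743555718) (nat_lit 152) (nat_lit 7751601360) (nat_lit 0) (nat_lit 6111908798) (nat_lit 13) (nat_lit 5) (nat_lit 15) (nat_lit 4) (nat_lit 13) (nat_lit 4) (nat_lit 379) (nat_lit 324) (nat_lit 317)) (XT.nd (nat_lit 78) (nat_lit 0) (nat_lit 0) (XT.lf (nat_lit 0) (nat_lit 4087070839) (nat_lit 76) (nat_lit 10272004330) (nat_lit 76) (nat_lit 8471040198) (nat_lit 12) (nat_lit 4) (nat_lit 13) (nat_lit 5) (nat_lit 13) (nat_lit 4) (nat_lit 380) (nat_lit 324) (nat_lit 316)) (XT.lf (nat_lit 0) (nat_lit 16808071684) (nat_lit 76) (nat_lit 4652099742) (nat_lit 76) (nat_lit 2694360414) (nat_lit 12) (nat_lit 4) (nat_lit 13) (nat_lit 5) (nat_lit 13) (nat_lit 4) (nat_lit 381) (nat_lit 324) (nat_lit 315))))) (XT.nd (nat_lit 156) (nat_lit 76) (nat_lit 0) (XT.nd (nat_lit 78) (nat_lit 0) (nat_lit 0) (XT.lf (nat_lit 0) (nat_lit 3269047064) (nat_lit 152) (nat_lit 20994992518) (nat_lit 0) (nat_lit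 1321916002) (nat_lit 10) (nat_lit 5) (nat_lit 12) (nat_lit 4) (nat_lit 10) (nat_lit 4) (nat_lit 382) (nat_lit 324) (nat_lit 314)) (XT.lf (nat_lit 0) (nat_lit 9649149790) (nat_lit 152) (nat_lit 9892787887) (nat_lit 0) (nat_lit 7577565523) (nat_lit 10) (nat_lit 5) (nat_lit 12) (nat_lit 4) (nat_lit 10) (nat_lit 4) (nat_lit 383) (nat_lit 324) (nat_lit 313))) (XT.nd (nat_lit 78) (nat_lit 0) (nat_lit 0) (XT.lf (nat_lit 0) (nat_lit 1738144647) (nat_lit 76) (nat_lit 14619496114) (nat_lit 76) (nat_lit 12432677398) (nat_lit 9) (nat_lit 4) (nat_lit 10) (nat_lit 5) (nat_lit 10) (nat_lit 4) (nat_lit 384) (nat_lit 324) (nat_lit 312)) (XT.nd (nat_lit 78) (nat_lit 0) (nat_lit 0) (XT.lf (nat_lit 0) (nat_lit 14427067101) (nat_lit 76) (nat_lit 9228523231) (nat_lit 76) (nat_lit 6935005951) (nat_lit 9) (nat_lit 4) (nat_lit 10) (nat_lit 5) (nat_lit 10) (nat_lit 4) (nat_lit 385) (nat_lit 324) (nat_lit 311))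 (XT.lf (nat_lit 0) (nat_lit 27728236408) (nat_lit 76) (nat_lit 3607558874) (nat_lit 76) (nat_lit 1215246627) (nat_lit 9) (nat_lit 4) (nat_lit 10) (nat_lit 5) (nat_lit 10) (nat_lit 4) (nat_lit 386) (nat_lit 324) (nat_lit 310))))))) (XT.nd (nat_lit 780) (nat_lit 76) (nat_lit 0) (XT.nd (nat_lit 390) (nat_lit 152) (nat_lit 0) (XT.nd (nat_lit 156) (nat_lit 76) (nat_lit 0) (XT.nd (nat_lit 78) (nat_lit 0) (nat_lit 0) (XT.lf (nat_lit 0) (nat_lit 4759895486) (nat_lit 152) (nat_lit 27435123870) (nat_lit 0) (nat_lit 2460090793) (nat_lit 7) (nat_lit 5) (nat_lit 9) (nat_lit 4) (nat_lit 7) (nat_lit 4) (nat_lit 387) (nat_lit 324) (nat_lit 309)) (XT.lf (nat_lit 0) (nat_lit 11185577801) (nat_lit 152) (nat_lit 16929014611) (nat_lit 0) (nat_lit 8807346479) (nat_lit 7) (nat_lit 5) (nat_lit 9) (nat_lit 4) (nat_lit 7) (nat_lit 4) (nat_lit 388) (nat_lit 324) (nat_lit 308))) (XT.nd (nat_lit 78) (nat_lit 76) (nat_lit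 0) (XT.lf (nat_lit 0) (nat_lit 17948640441) (nat_lit 152) (nat_lit 5937829388) (nat_lit 0) (nat_lit 15497791869) (nat_lit 7) (nat_lit 5) (nat_lit 9) (nat_lit 4) (nat_lit 7) (nat_lit 4) (nat_lit 389) (nat_lit 324) (nat_lit 307)) (XT.nd (nat_lit 78) (nat_lit 0) (nat_lit 0) (XT.lf (nat_lit 0) (nat_lit 5898638537) (nat_lit 76) (nat_lit 19332384675) (nat_lit 76) (nat_lit 16814297908) (nat_lit 6) (nat_lit 4) (nat_lit 7) (nat_lit 5) (nat_lit 7) (nat_lit 4) (nat_lit 390) (nat_lit 324) (nat_lit 306)) (XT.lf (nat_lit 0) (nat_lit 18698958901) (nat_lit 76) (nat_lit 14400204623) (nat_lit 76) (nat_lit 11819860269) (nat_lit 6) (nat_lit 4) (nat_lit 7) (nat_lit 5) (nat_lit 7) (nat_lit 4) (nat_lit 391) (nat_lit 324) (nat_lit 305))))) (XT.nd (nat_lit 156) (nat_lit 152) (nat_lit 0) (XT.nd (nat_lit 78) (nat_lit 0) (nat_lit 0) (XT.lf (nat_lit 0) (nat_lit 32226309879) (nat_lit 76) (nat_lit 9223052720) (nat_lit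 76) (nat_lit 6585062452) (nat_lit 6) (nat_lit 4) (nat_lit 7) (nat_lit 5) (nat_lit 7) (nat_lit 4) (nat_lit 392) (nat_lit 324) (nat_lit 304)) (XT.lf (nat_lit 0) (nat_lit 46560853553) (nat_lit 76) (nat_lit 3770249547) (nat_lit 76) (nat_lit 1078883432) (nat_lit 6) (nat_lit 4) (nat_lit 7) (nat_lit 5) (nat_lit 7) (nat_lit 4) (nat_lit 393) (nat_lit 324) (nat_lit 303))) (XT.nd (nat_lit 78) (nat_lit 0) (nat_lit 0) (XT.lf (nat_lit 0) (nat_lit 4717091738) (nat_lit 152) (nat_lit 48142394705) (nat_lit 0) (nat_lit 2179324891) (nat_lit 4) (nat_lit 5) (nat_lit 6) (nat_lit 4) (nat_lit 4) (nat_lit 4) (nat_lit 394) (nat_lit 324) (nat_lit 302)) (XT.nd (nat_lit 78) (nat_lit 0) (nat_lit 0) (XT.lf (nat_lit 0) (nat_lit 11023137864) (nat_lit 152) (nat_lit 39481196481) (nat_lit 0) (nat_lit 8442999549) (nat_lit 4) (nat_lit 5) (nat_lit 6) (nat_lit 4) (nat_lit 4) (nat_lit 4) (nat_lit 395) (nat_lit 324) (nat_lit 301))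 (XT.lf (nat_lit 0) (nat_lit 17713968129) (nat_lit 152) (nat_lit 30369556591) (nat_lit 0) (nat_lit 15094596974) (nat_lit 4) (nat_lit 5) (nat_lit 6) (nat_lit 4) (nat_lit 4) (nat_lit 4) (nat_lit 396) (nat_lit 324) (nat_lit 300)))))) (XT.nd (nat_lit 390) (nat_lit 0) (nat_lit 0) (XT.nd (nat_lit 156) (nat_lit 76) (nat_lit 0) (XT.nd (nat_lit 78) (nat_lit 0) (nat_lit 0) (XT.lf (nat_lit 0) (nat_lit 24829231897) (nat_lit 152) (nat_lit 20753480132) (nat_lit 0) (nat_lit 22173534038) (nat_lit 4) (nat_lit 5) (nat_lit 6) (nat_lit 4) (nat_lit 4) (nat_lit 4) (nat_lit 397) (nat_lit 324) (nat_lit 299)) (XT.lf (nat_lit 0) (nat_lit 32411093695) (nat_lit 152) (nat_lit 10575982946) (nat_lit 0) (nat_lit 29721759998) (nat_lit 4) (nat_lit 5) (nat_lit 6) (nat_lit 4) (nat_lit 4) (nat_lit 4) (nat_lit 398) (nat_lit 324) (nat_lit 298))) (XT.nd (nat_lit 78) (nat_lit 0) (nat_lit 0) (XT.lf (nat_lit 0) (nat_lit 235001802)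 (nat_lit 76) (nat_lit 40275133068) (nat_lit 76) (nat_lit 37554655078) (nat_lit 3) (nat_lit 4) (nat_lit 4) (nat_lit 5) (nat_lit 4) (nat_lit 4) (nat_lit 399) (nat_lit 324) (nat_lit 297)) (XT.nd (nat_lit 78) (nat_lit 0) (nat_lit 0) (XT.lf (nat_lit 0) (nat_lit 12324735505) (nat_lit 76) (nat_lit 37129035536) (nat_lit 76) (nat_lit 34379720236) (nat_lit 3) (nat_lit 4) (nat_lit 4) (nat_lit 5) (nat_lit 4) (nat_lit 4) (nat_lit 400) (nat_lit 324) (nat_lit 296)) (XT.lf (nat_lit 0) (nat_lit 25207948508) (nat_lit 76) (nat_lit 33819306619) (nat_lit 76) (nat_lit 31043290107) (nat_lit 3) (nat_lit 4) (nat_lit 4) (nat_lit 5) (nat_lit 4) (nat_lit 4) (nat_lit 401) (nat_lit 324) (nat_lit 295))))) (XT.nd (nat_lit 234) (nat_lit 0) (nat_lit 0) (XT.nd (nat_lit 78) (nat_lit 0) (nat_lit 0) (XT.lf (nat_lit 0) (nat_lit 38960985777) (nat_lit 76) (nat_lit 30326333109) (nat_lit 76) (nat_lit 27525593253) (nat_lit 3) (nat_lit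 4) (nat_lit 4) (nat_lit 5) (nat_lit 4) (nat_lit 4) (nat_lit 402) (nat_lit 324) (nat_lit 294)) (XT.nd (nat_lit 78) (nat_lit 0) (nat_lit 0) (XT.lf (nat_lit 0) (nat_lit 53665346793) (nat_lit 76) (nat_lit 26629415903) (nat_lit 76) (nat_lit 23805784061) (nat_lit 3) (nat_lit 4) (nat_lit 4) (nat_lit 5) (nat_lit 4) (nat_lit 4) (nat_lit 403) (nat_lit 324) (nat_lit 293)) (XT.lf (nat_lit 0) (nat_lit 69408168509) (nat_lit 76) (nat_lit 22706647344) (nat_lit 76) (nat_lit 19861819219) (nat_lit 3) (nat_lit 4) (nat_lit 4) (nat_lit 5) (nat_lit 4) (nat_lit 4) (nat_lit 404) (nat_lit 324) (nat_lit 292)))) (XT.nd (nat_lit 78) (nat_lit 0) (nat_lit 0) (XT.lf (nat_lit 0) (nat_lit 86282741720) (nat_lit 76) (nat_lit 18534781397) (nat_lit 76) (nat_lit 15670327083) (nat_lit 3) (nat_lit 4) (nat_lit 4) (nat_lit 5) (nat_lit 4) (nat_lit 4) (nat_lit 405) (nat_lit 324) (nat_lit 291)) (XT.nd (nat_lit 78) (nat_lit 0) (nat_lit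 0) (XT.lf (nat_lit 0) (nat_lit 104389063899) (nat_lit 76) (nat_lit 14089095891) (nat_lit 76) (nat_lit 11206469182) (nat_lit 3) (nat_lit 4) (nat_lit 4) (nat_lit 5) (nat_lit 4) (nat_lit 4) (nat_lit 406) (nat_lit 324) (nat_lit 290)) (XT.lf (nat_lit 0) (nat_lit 123834431768) (nat_lit 76) (nat_lit 9343246025) (nat_lit 76) (nat_lit 6443793023) (nat_lit 3) (nat_lit 4) (nat_lit 4) (nat_lit 5) (nat_lit 4) (nat_lit 4) (nat_lit 407) (nat_lit 324) (nat_lit 289))))))))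
noncomputable def xc53 : XT := (XT.nd (nat_lit 1560) (nat_lit 0) (nat_lit 0) (XT.nd (nat_lit 780) (nat_lit 0) (nat_lit 0) (XT.nd (nat_lit 390) (nat_lit 0) (nat_lit 0) (XT.nd (nat_lit 156) (nat_lit 0) (nat_lit 0) (XT.nd (nat_lit 78) (nat_lit 152) (nat_lit 0) (XT.lf (nat_lit 0) (nat_lit 144734077138) (nat_lit 76) (nat_lit 4269108244) (nat_lit 76) (nat_lit 1354075341) (nat_lit 3) (nat_lit 4) (nat_lit 4) (nat_lit 5) (nat_lit 4) (nat_lit 4) (nat_lit 408) (nat_lit 324) (nat_lit 288)) (XT.lf (nat_lit 0) (nat_lit 4052609429) (nat_lit 152) (nat_lit 156541826086) (nat_lit 0) (nat_lit 1340147635) (nat_lit 1) (nat_lit 5) (nat_lit 3) (nat_lit 4) (nat_lit 1) (nat_lit 4) (nat_lit 409) (nat_lit 324) (nat_lit 287))) (XT.nd (nat_lit 78) (nat_lit 0) (nat_lit 0) (XT.lf (nat_lit 0) (nat_lit 10039937441) (nat_lit 152) (nat_lit 157062533704) (nat_lit 0) (nat_lit 7315107820) (nat_lit 1) (nat_lit 5) (nat_lit 3)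 (nat_lit 4) (nat_lit 1) (nat_lit 4) (nat_lit 410) (nat_lit 324) (nat_lit 286)) (XT.nd (nat_lit 78) (nat_lit 0) (nat_lit 0) (XT.lf (nat_lit 0) (nat_lit 16462396616) (nat_lit 152) (nat_lit 157714213111) (nat_lit 0) (nat_lit 13726115303) (nat_lit 1) (nat_lit 5) (nat_lit 3) (nat_lit 4) (nat_lit 1) (nat_lit 4) (nat_lit 411) (nat_lit 324) (nat_lit 285)) (XT.lf (nat_lit 0) (nat_lit 23358045973) (nat_lit 152) (nat_lit 158500726110) (nat_lit 0) (nat_lit 20611161241) (nat_lit 1) (nat_lit 5) (nat_lit 3) (nat_lit 4) (nat_lit 1) (nat_lit 4) (nat_lit 412) (nat_lit 324) (nat_lit 284))))) (XT.nd (nat_lit 156) (nat_lit 0) (nat_lit 0) (XT.nd (nat_lit 78) (nat_lit 0) (nat_lit 0) (XT.lf (nat_lit 0) (nat_lit 30767748618) (nat_lit 152) (nat_lit 159426733521) (nat_lit 0) (nat_lit 28011045905) (nat_lit 1) (nat_lit 5) (nat_lit 3) (nat_lit 4) (nat_lit 1) (nat_lit 4) (nat_lit 413) (nat_lit 324) (nat_lit 283)) (XT.lf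 (nat_lit 0) (nat_lit 38735413900) (nat_lit 152) (nat_lit 160497722793) (nat_lit 0) (nat_lit 35969620465) (nat_lit 1) (nat_lit 5) (nat_lit 3) (nat_lit 4) (nat_lit 1) (nat_lit 4) (nat_lit 414) (nat_lit 324) (nat_lit 282))) (XT.nd (nat_lit 78) (nat_lit 0) (nat_lit 0) (XT.lf (nat_lit 0) (nat_lit 47308257613) (nat_lit 152) (nat_lit 161720040530) (nat_lit 0) (nat_lit 44534046842) (nat_lit 1) (nat_lit 5) (nat_lit 3) (nat_lit 4) (nat_lit 1) (nat_lit 4) (nat_lit 415) (nat_lit 324) (nat_lit 281)) (XT.nd (nat_lit 78) (nat_lit 0) (nat_lit 0) (XT.lf (nat_lit 0) (nat_lit 56537081795) (nat_lit 152) (nat_lit 163100930097) (nat_lit 0) (nat_lit 53755077195) (nat_lit 1) (nat_lit 5) (nat_lit 3) (nat_lit 4) (nat_lit 1) (nat_lit 4) (nat_lit 416) (nat_lit 324) (nat_lit 280)) (XT.lf (nat_lit 0) (nat_lit 66476575773) (nat_lit 152) (nat_lit 164648574542) (nat_lit 0) (nat_lit 63687354665) (nat_lit 1) (nat_lit 5)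 (nat_lit 3) (nat_lit 4) (nat_lit 1) (nat_lit 4) (nat_lit 417) (nat_lit 324) (nat_lit 279)))))) (XT.nd (nat_lit 390) (nat_lit 0) (nat_lit 0) (XT.nd (nat_lit 156) (nat_lit 0) (nat_lit 0) (XT.nd (nat_lit 78) (nat_lit 0) (nat_lit 0) (XT.lf (nat_lit 0) (nat_lit 77185640253) (nat_lit 152) (nat_lit 166372145092) (nat_lit 0) (nat_lit 74389737193) (nat_lit 1) (nat_lit 5) (nat_lit 3) (nat_lit 4) (nat_lit 1) (nat_lit 4) (nat_lit 418) (nat_lit 324) (nat_lit 278)) (XT.lf (nat_lit 0) (nat_lit 88727736358) (nat_lit 152) (nat_lit 168281855498) (nat_lit 0) (nat_lit 85925646305) (nat_lit 1) (nat_lit 5) (nat_lit 3) (nat_lit 4) (nat_lit 1) (nat_lit 4) (nat_lit 419) (nat_lit 324) (nat_lit 277))) (XT.nd (nat_lit 78) (nat_lit 0) (nat_lit 0) (XT.lf (nat_lit 0) (nat_lit 101171261694) (nat_lit 152) (nat_lit 170389022564) (nat_lit 0) (nat_lit 98363442943) (nat_lit 1) (nat_lit 5) (nat_lit 3) (nat_lit 4) (nat_lit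 1) (nat_lit 4) (nat_lit 420) (nat_lit 324) (nat_lit 276)) (XT.nd (nat_lit 78) (nat_lit 0) (nat_lit 0) (XT.lf (nat_lit 0) (nat_lit 114589955671) (nat_lit 152) (nat_lit 172706133204) (nat_lit 0) (nat_lit 111776832571) (nat_lit 1) (nat_lit 5) (nat_lit 3) (nat_lit 4) (nat_lit 1) (nat_lit 4) (nat_lit 421) (nat_lit 324) (nat_lit 275)) (XT.lf (nat_lit 0) (nat_lit 129063336475) (nat_lit 152) (nat_lit 175246918444) (nat_lit 0) (nat_lit 126245301940) (nat_lit 1) (nat_lit 5) (nat_lit 3) (nat_lit 4) (nat_lit 1) (nat_lit 4) (nat_lit 422) (nat_lit 324) (nat_lit 274))))) (XT.nd (nat_lit 156) (nat_lit 0) (nat_lit 0) (XT.nd (nat_lit 78) (nat_lit 0) (nat_lit 0) (XT.lf (nat_lit 0) (nat_lit 144677172288) (nat_lit 152) (nat_lit 178026434791) (nat_lit 0) (nat_lit 141854590129) (nat_lit 1) (nat_lit 5) (nat_lit 3) (nat_lit 4) (nat_lit 1) (nat_lit 4) (nat_lit 423) (nat_lit 324) (nat_lit 273)) (XT.lf (nat_lit 0)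 (nat_lit 161523989546) (nat_lit 152) (nat_lit 181061153451) (nat_lit 0) (nat_lit 158697196624) (nat_lit 1) (nat_lit 5) (nat_lit 3) (nat_lit 4) (nat_lit 1) (nat_lit 4) (nat_lit 424) (nat_lit 324) (nat_lit 272))) (XT.nd (nat_lit 78) (nat_lit 0) (nat_lit 0) (XT.lf (nat_lit 0) (nat_lit 179703621239) (nat_lit 152) (nat_lit 184369057944) (nat_lit 0) (nat_lit 176872929462) (nat_lit 1) (nat_lit 5) (nat_lit 3) (nat_lit 4) (nat_lit 1) (nat_lit 4) (nat_lit 425) (nat_lit 324) (nat_lit 271)) (XT.nd (nat_lit 78) (nat_lit 0) (nat_lit 0) (XT.lf (nat_lit 0) (nat_lit 199323798518) (nat_lit 152) (nat_lit 187969750665) (nat_lit 0) (nat_lit 196489496690) (nat_lit 1) (nat_lit 5) (nat_lit 3) (nat_lit 4) (nat_lit 1) (nat_lit 4) (nat_lit 426) (nat_lit 324) (nat_lit 270)) (XT.lf (nat_lit 0) (nat_lit 220500789101) (nat_lit 152) (nat_lit 191884569053) (nat_lit 0) (nat_lit 217663144632) (nat_lit 1) (nat_lit 5) (nat_lit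 3) (nat_lit 4) (nat_lit 1) (nat_lit 4) (nat_lit 427) (nat_lit 324) (nat_lit 269))))))) (XT.nd (nat_lit 780) (nat_lit 0) (nat_lit 0) (XT.nd (nat_lit 390) (nat_lit 0) (nat_lit 0) (XT.nd (nat_lit 156) (nat_lit 0) (nat_lit 0) (XT.nd (nat_lit 78) (nat_lit 0) (nat_lit 0) (XT.lf (nat_lit 0) (nat_lit 243360086264) (nat_lit 152) (nat_lit 196136712032) (nat_lit 0) (nat_lit 240519346758) (nat_lit 1) (nat_lit 5) (nat_lit 3) (nat_lit 4) (nat_lit 1) (nat_lit 4) (nat_lit 428) (nat_lit 324) (nat_lit 268)) (XT.lf (nat_lit 0) (nat_lit 268037152509) (nat_lit 152) (nat_lit 200751377487) (nat_lit 0) (nat_lit 265193547229) (nat_lit 1) (nat_lit 5) (nat_lit 3) (nat_lit 4) (nat_lit 1) (nat_lit 4) (nat_lit 429) (nat_lit 324) (nat_lit 267))) (XT.nd (nat_lit 78) (nat_lit 0) (nat_lit 0) (XT.lf (nat_lit 0) (nat_lit 294678222304) (nat_lit 152) (nat_lit 205755911583) (nat_lit 0) (nat_lit 291831963529) (nat_lit 1) (nat_lit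 5) (nat_lit 3) (nat_lit 4) (nat_lit 1) (nat_lit 4) (nat_lit 430) (nat_lit 324) (nat_lit 266)) (XT.nd (nat_lit 78) (nat_lit 0) (nat_lit 0) (XT.lf (nat_lit 0) (nat_lit 323441168654) (nat_lit 152) (nat_lit 211179970817) (nat_lit 0) (nat_lit 320592452939) (nat_lit 1) (nat_lit 5) (nat_lit 3) (nat_lit 4) (nat_lit 1) (nat_lit 4) (nat_lit 431) (nat_lit 324) (nat_lit 265)) (XT.lf (nat_lit 0) (nat_lit 354496438649) (nat_lit 152) (nat_lit 217055697765) (nat_lit 0) (nat_lit 351645447989) (nat_lit 1) (nat_lit 5) (nat_lit 3) (nat_lit 4) (nat_lit 1) (nat_lit 4) (nat_lit 432) (nat_lit 324) (nat_lit 264))))) (XT.nd (nat_lit 156) (nat_lit 0) (nat_lit 0) (XT.nd (nat_lit 78) (nat_lit 0) (nat_lit 0) (XT.lf (nat_lit 0) (nat_lit 388028063518) (nat_lit 152) (nat_lit 223417911547) (nat_lit 0) (nat_lit 385174966429) (nat_lit 1) (nat_lit 5) (nat_lit 3) (nat_lit 4) (nat_lit 1) (nat_lit 4) (nat_lit 433) (nat_lit 324)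 (nat_lit 263)) (XT.lf (nat_lit 0) (nat_lit 424234749187) (nat_lit 152) (nat_lit 230304314172) (nat_lit 0) (nat_lit 421379701699) (nat_lit 1) (nat_lit 5) (nat_lit 3) (nat_lit 4) (nat_lit 1) (nat_lit 4) (nat_lit 434) (nat_lit 324) (nat_lit 262))) (XT.nd (nat_lit 78) (nat_lit 0) (nat_lit 0) (XT.lf (nat_lit 0) (nat_lit 463331053793) (nat_lit 152) (nat_lit 237755713952) (nat_lit 0) (nat_lit 460474200381) (nat_lit 1) (nat_lit 5) (nat_lit 3) (nat_lit 4) (nat_lit 1) (nat_lit 4) (nat_lit 435) (nat_lit 324) (nat_lit 261)) (XT.nd (nat_lit 78) (nat_lit 0) (nat_lit 0) (XT.lf (nat_lit 0) (nat_lit 505548659141) (nat_lit 152) (nat_lit 245816267330) (nat_lit 0) (nat_lit 502690133577) (nat_lit 1) (nat_lit 5) (nat_lit 3) (nat_lit 4) (nat_lit 1) (nat_lit 4) (nat_lit 436) (nat_lit 324) (nat_lit 260)) (XT.lf (nat_lit 0) (nat_lit 551137743633) (nat_lit 152) (nat_lit 254533740548) (nat_lit 0) (nat_lit 548277669779)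 (nat_lit 1) (nat_lit 5) (nat_lit 3) (nat_lit 4) (nat_lit 1) (nat_lit 4) (nat_lit 437) (nat_lit 324) (nat_lit 259)))))) (XT.nd (nat_lit 390) (nat_lit 0) (nat_lit 0) (XT.nd (nat_lit 156) (nat_lit 0) (nat_lit 0) (XT.nd (nat_lit 78) (nat_lit 0) (nat_lit 0) (XT.lf (nat_lit 0) (nat_lit 600368464806) (nat_lit 152) (nat_lit 263959792706) (nat_lit 0) (nat_lit 597506957352) (nat_lit 1) (nat_lit 5) (nat_lit 3) (nat_lit 4) (nat_lit 1) (nat_lit 4) (nat_lit 438) (nat_lit 324) (nat_lit 258)) (XT.lf (nat_lit 0) (nat_lit 653532560268) (nat_lit 152) (nat_lit 274150281892) (nat_lit 0) (nat_lit 650669725406) (nat_lit 1) (nat_lit 5) (nat_lit 3) (nat_lit 4) (nat_lit 1) (nat_lit 4) (nat_lit 439) (nat_lit 324) (nat_lit 257))) (XT.nd (nat_lit 78) (nat_lit 0) (nat_lit 0) (XT.lf (nat_lit 0) (nat_lit 710945076511) (nat_lit 152) (nat_lit 285165596189) (nat_lit 0) (nat_lit 708081012567) (nat_lit 1) (nat_lit 5) (nat_lit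 3) (nat_lit 4) (nat_lit 1) (nat_lit 4) (nat_lit 440) (nat_lit 324) (nat_lit 256)) (XT.nd (nat_lit 78) (nat_lit 0) (nat_lit 0) (XT.lf (nat_lit 0) (nat_lit 772946235852) (nat_lit 152) (nat_lit 297071011534) (nat_lit 0) (nat_lit 770081033869) (nat_lit 1) (nat_lit 5) (nat_lit 3) (nat_lit 4) (nat_lit 1) (nat_lit 4) (nat_lit 441) (nat_lit 324) (nat_lit 255)) (XT.lf (nat_lit 0) (nat_lit 839903452570) (nat_lit 152) (nat_lit 309937078537) (nat_lit 0) (nat_lit 837037196847) (nat_lit 1) (nat_lit 5) (nat_lit 3) (nat_lit 4) (nat_lit 1) (nat_lit 4) (nat_lit 442) (nat_lit 324) (nat_lit 254))))) (XT.nd (nat_lit 234) (nat_lit 0) (nat_lit 0) (XT.nd (nat_lit 78) (nat_lit 0) (nat_lit 0) (XT.lf (nat_lit 0) (nat_lit 912213510170) (nat_lit 152) (nat_lit 323840040557) (nat_lit 0) (nat_lit 909346278763) (nat_lit 1) (nat_lit 5) (nat_lit 3) (nat_lit 4) (nat_lit 1) (nat_lit 4) (nat_lit 443) (nat_lit 324) (nat_lit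 253)) (XT.nd (nat_lit 78) (nat_lit 0) (nat_lit 0) (XT.lf (nat_lit 0) (nat_lit 990304912698) (nat_lit 152) (nat_lit 338862285518) (nat_lit 0) (nat_lit 987436777880) (nat_lit 1) (nat_lit 5) (nat_lit 3) (nat_lit 4) (nat_lit 1) (nat_lit 4) (nat_lit 444) (nat_lit 324) (nat_lit 252)) (XT.lf (nat_lit 0) (nat_lit 1074640424022) (nat_lit 152) (nat_lit 355092834130) (nat_lit 0) (nat_lit 1071771452710) (nat_lit 1) (nat_lit 5) (nat_lit 3) (nat_lit 4) (nat_lit 1) (nat_lit 4) (nat_lit 445) (nat_lit 324) (nat_lit 251)))) (XT.nd (nat_lit 78) (nat_lit 0) (nat_lit 0) (XT.lf (nat_lit 0) (nat_lit 1165719810132) (nat_lit 152) (nat_lit 372627867423) (nat_lit 0) (nat_lit 1162850064291) (nat_lit 1) (nat_lit 5) (nat_lit 3) (nat_lit 4) (nat_lit 1) (nat_lit 4) (nat_lit 446) (nat_lit 324) (nat_lit 250)) (XT.nd (nat_lit 78) (nat_lit 0) (nat_lit 0) (XT.lf (nat_lit 0) (nat_lit 1264082800726) (nat_lit 152) (nat_lit 391571296704)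 (nat_lit 0) (nat_lit 1261212337728) (nat_lit 1) (nat_lit 5) (nat_lit 3) (nat_lit 4) (nat_lit 1) (nat_lit 4) (nat_lit 447) (nat_lit 324) (nat_lit 249)) (XT.lf (nat_lit 0) (nat_lit 1370312287600) (nat_lit 152) (nat_lit 412035379333) (nat_lit 0) (nat_lit 1367441160567) (nat_lit 1) (nat_lit 5) (nat_lit 3) (nat_lit 4) (nat_lit 1) (nat_lit 4) (nat_lit 448) (nat_lit 324) (nat_lit 248))))))))
noncomputable def xc54 : XT := (XT.nd (nat_lit 47268) (nat_lit 0) (nat_lit 304) (XT.nd (nat_lit 780) (nat_lit 0) (nat_lit 0) (XT.nd (nat_lit 390) (nat_lit 0) (nat_lit 0) (XT.nd (nat_lit 156) (nat_lit 0) (nat_lit 0) (XT.nd (nat_lit 78) (nat_lit 0) (nat_lit 0) (XT.lf (nat_lit 0) (nat_lit 1485037778823) (nat_lit 152) (nat_lit 434141383947) (nat_lit 0) (nat_lit 1482166036943) (nat_lit 1) (nat_lit 5) (nat_lit 3) (nat_lit 4) (nat_lit 1) (nat_lit 4) (nat_lit 449) (nat_lit 324) (nat_lit 247)) (XT.lf (nat_lit 0) (nat_lit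 1608939129158) (nat_lit 152) (nat_lit 458020309092) (nat_lit 0) (nat_lit 1606066817975) (nat_lit 1) (nat_lit 5) (nat_lit 3) (nat_lit 4) (nat_lit 1) (nat_lit 4) (nat_lit 450) (nat_lit 324) (nat_lit 246))) (XT.nd (nat_lit 78) (nat_lit 0) (nat_lit 0) (XT.lf (nat_lit 0) (nat_lit 1742750568830) (nat_lit 152) (nat_lit 483813659510) (nat_lit 0) (nat_lit 1739877730516) (nat_lit 1) (nat_lit 5) (nat_lit 3) (nat_lit 4) (nat_lit 1) (nat_lit 4) (nat_lit 451) (nat_lit 324) (nat_lit 245)) (XT.nd (nat_lit 78) (nat_lit 0) (nat_lit 0) (XT.lf (nat_lit 0) (nat_lit 1887265054519) (nat_lit 152) (nat_lit 511674284684) (nat_lit 0) (nat_lit 1884391728119) (nat_lit 1) (nat_lit 5) (nat_lit 3) (nat_lit 4) (nat_lit 1) (nat_lit 4) (nat_lit 452) (nat_lit 324) (nat_lit 244)) (XT.lf (nat_lit 0) (nat_lit 2043338968361) (nat_lit 152) (nat_lit 541767284617) (nat_lit 0) (nat_lit 2040465190030) (nat_lit 1) (nat_lit 5) (nat_lit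 3) (nat_lit 4) (nat_lit 1) (nat_lit 4) (nat_lit 453) (nat_lit 324) (nat_lit 243))))) (XT.nd (nat_lit 156) (nat_lit 0) (nat_lit 0) (XT.nd (nat_lit 78) (nat_lit 0) (nat_lit 0) (XT.lf (nat_lit 0) (nat_lit 2211897192809) (nat_lit 152) (nat_lit 574270988195) (nat_lit 0) (nat_lit 2209022996024) (nat_lit 1) (nat_lit 5) (nat_lit 3) (nat_lit 4) (nat_lit 1) (nat_lit 4) (nat_lit 454) (nat_lit 324) (nat_lit 242)) (XT.lf (nat_lit 0) (nat_lit 2393938591415) (nat_lit 152) (nat_lit 609378009959) (nat_lit 0) (nat_lit 2391064007172) (nat_lit 1) (nat_lit 5) (nat_lit 3) (nat_lit 4) (nat_lit 1) (nat_lit 4) (nat_lit 455) (nat_lit 324) (nat_lit 241))) (XT.nd (nat_lit 78) (nat_lit 0) (nat_lit 0) (XT.lf (nat_lit 0) (nat_lit 2590541928024) (nat_lit 152) (nat_lit 647296391519) (nat_lit 0) (nat_lit 2587666985023) (nat_lit 1) (nat_lit 5) (nat_lit 3) (nat_lit 4) (nat_lit 1) (nat_lit 4) (nat_lit 456) (nat_lit 324) (nat_lit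 240)) (XT.nd (nat_lit 78) (nat_lit 0) (nat_lit 0) (XT.lf (nat_lit 0) (nat_lit 2802872259443) (nat_lit 152) (nat_lit 688250834396) (nat_lit 0) (nat_lit 2799996984261) (nat_lit 1) (nat_lit 5) (nat_lit 3) (nat_lit 4) (nat_lit 1) (nat_lit 4) (nat_lit 457) (nat_lit 324) (nat_lit 239)) (XT.lf (nat_lit 0) (nat_lit 3032187839490) (nat_lit 152) (nat_lit 732484031585) (nat_lit 0) (nat_lit 3029312256731) (nat_lit 1) (nat_lit 5) (nat_lit 3) (nat_lit 4) (nat_lit 1) (nat_lit 4) (nat_lit 458) (nat_lit 324) (nat_lit 238)))))) (XT.nd (nat_lit 390) (nat_lit 0) (nat_lit 0) (XT.nd (nat_lit 156) (nat_lit 0) (nat_lit 0) (XT.nd (nat_lit 78) (nat_lit 0) (nat_lit 0) (XT.lf (nat_lit 0) (nat_lit 3279847575306) (nat_lit 152) (nat_lit 780258105735) (nat_lit 0) (nat_lit 3276971707753) (nat_lit 1) (nat_lit 5) (nat_lit 3) (nat_lit 4) (nat_lit 1) (nat_lit 4) (nat_lit 459) (nat_lit 324) (nat_lit 237)) (XT.lf (nat_lit 0)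 (nat_lit 3547319080139) (nat_lit 152) (nat_lit 831856162472) (nat_lit 0) (nat_lit 3544442948889) (nat_lit 1) (nat_lit 5) (nat_lit 3) (nat_lit 4) (nat_lit 1) (nat_lit 4) (nat_lit 460) (nat_lit 324) (nat_lit 236))) (XT.nd (nat_lit 78) (nat_lit 0) (nat_lit 0) (XT.lf (nat_lit 0) (nat_lit 3836187370314) (nat_lit 152) (nat_lit 887583968056) (nat_lit 0) (nat_lit 3833310994900) (nat_lit 1) (nat_lit 5) (nat_lit 3) (nat_lit 4) (nat_lit 1) (nat_lit 4) (nat_lit 461) (nat_lit 324) (nat_lit 235)) (XT.nd (nat_lit 78) (nat_lit 0) (nat_lit 0) (XT.lf (nat_lit 0) (nat_lit 4148164257922) (nat_lit 152) (nat_lit 947771761337) (nat_lit 0) (nat_lit 4145287656430) (nat_lit 1) (nat_lit 5) (nat_lit 3) (nat_lit 4) (nat_lit 1) (nat_lit 4) (nat_lit 462) (nat_lit 324) (nat_lit 234)) (XT.lf (nat_lit 0) (nat_lit 4485098494889) (nat_lit 152) (nat_lit 1012776210718) (nat_lit 0) (nat_lit 4482221684066) (nat_lit 1) (nat_lit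 5) (nat_lit 3) (nat_lit 4) (nat_lit 1) (nat_lit 4) (nat_lit 463) (nat_lit 324) (nat_lit 233))))) (XT.nd (nat_lit 45864) (nat_lit 0) (nat_lit 1368) (XT.nd (nat_lit 45786) (nat_lit 0) (nat_lit 1596) (XT.lf (nat_lit 0) (nat_lit 4848986728545) (nat_lit 152) (nat_lit 1082982527752) (nat_lit 0) (nat_lit 4846109723897) (nat_lit 1) (nat_lit 5) (nat_lit 3) (nat_lit 4) (nat_lit 1) (nat_lit 4) (nat_lit 464) (nat_lit 324) (nat_lit 232)) (XT.lf (nat_lit 0) (nat_lit 1779699221) (nat_lit 152) (nat_lit 3419774235) (nat_lit 0) (nat_lit 1779699221) (nat_lit 22) (nat_lit 5) (nat_lit 24) (nat_lit 4) (nat_lit 22) (nat_lit 4) (nat_lit 370) (nat_lit 325) (nat_lit 325))) (XT.nd (nat_lit 78) (nat_lit 152) (nat_lit 0) (XT.lf (nat_lit 0) (nat_lit 4100450103) (nat_lit 76) (nat_lit 5439090744) (nat_lit 76) (nat_lit 5044304130) (nat_lit 21) (nat_lit 4) (nat_lit 22) (nat_lit 5) (nat_lit 22) (nat_lit 4) (nat_lit 371)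 (nat_lit 325) (nat_lit 324)) (XT.nd (nat_lit 78) (nat_lit 0) (nat_lit 0) (XT.lf (nat_lit 0) (nat_lit 465100208) (nat_lit 76) (nat_lit 124048821) (nat_lit 152) (nat_lit 14677887315) (nat_lit 19) (nat_lit 5) (nat_lit 20) (nat_lit 5) (nat_lit 21) (nat_lit 4) (nat_lit 372) (nat_lit 325) (nat_lit 323)) (XT.lf (nat_lit 0) (nat_lit 6517065594) (nat_lit 152) (nat_lit 3968428366) (nat_lit 0) (nat_lit 5499662201) (nat_lit 19) (nat_lit 5) (nat_lit 21) (nat_lit 4) (nat_lit 19) (nat_lit 4) (nat_lit 373) (nat_lit 325) (nat_lit 322))))))) (XT.nd (nat_lit 780) (nat_lit 380) (nat_lit 0) (XT.nd (nat_lit 390) (nat_lit 304) (nat_lit 0) (XT.nd (nat_lit 156) (nat_lit 152) (nat_lit 0) (XT.nd (nat_lit 78) (nat_lit 152) (nat_lit 0) (XT.lf (nat_lit 0) (nat_lit 7552048546) (nat_lit 76) (nat_lit 5262350458) (nat_lit 76) (nat_lit 3954767119) (nat_lit 18) (nat_lit 4) (nat_lit 19) (nat_lit 5) (nat_lit 19) (nat_lit 4)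 (nat_lit 374) (nat_lit 325) (nat_lit 321)) (XT.lf (nat_lit 0) (nat_lit 1781298584) (nat_lit 152) (nat_lit 15518471196) (nat_lit 0) (nat_lit 321790737) (nat_lit 16) (nat_lit 5) (nat_lit 18) (nat_lit 4) (nat_lit 16) (nat_lit 4) (nat_lit 375) (nat_lit 325) (nat_lit 320))) (XT.nd (nat_lit 78) (nat_lit 152) (nat_lit 0) (XT.lf (nat_lit 0) (nat_lit 7871348681) (nat_lit 152) (nat_lit 4472436558) (nat_lit 0) (nat_lit 6181486636) (nat_lit 16) (nat_lit 5) (nat_lit 18) (nat_lit 4) (nat_lit 16) (nat_lit 4) (nat_lit 376) (nat_lit 325) (nat_lit 319)) (XT.nd (nat_lit 78) (nat_lit 76) (nat_lit 0) (XT.lf (nat_lit 0) (nat_lit 7306486379) (nat_lit 76) (nat_lit 7052575310) (nat_lit 76) (nat_lit 5149422342) (nat_lit 15) (nat_lit 4) (nat_lit 16) (nat_lit 5) (nat_lit 16) (nat_lit 4) (nat_lit 377) (nat_lit 325) (nat_lit 318)) (XT.lf (nat_lit 0) (nat_lit 616662691) (nat_lit 152) (nat_lit 817986165) (nat_lit 76)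 (nat_lit 19145327477) (nat_lit 14) (nat_lit 5) (nat_lit 16) (nat_lit 5) (nat_lit 15) (nat_lit 4) (nat_lit 378) (nat_lit 325) (nat_lit 317))))) (XT.nd (nat_lit 156) (nat_lit 152) (nat_lit 0) (XT.nd (nat_lit 78) (nat_lit 76) (nat_lit 0) (XT.lf (nat_lit 0) (nat_lit 6712422866) (nat_lit 152) (nat_lit 10404305622) (nat_lit 0) (nat_lit 4598064392) (nat_lit 13) (nat_lit 5) (nat_lit 15) (nat_lit 4) (nat_lit 13) (nat_lit 4) (nat_lit 379) (nat_lit 325) (nat_lit 316)) (XT.lf (nat_lit 0) (nat_lit 1051600271) (nat_lit 76) (nat_lit 12086296866) (nat_lit 76) (nat_lit 9815163196) (nat_lit 12) (nat_lit 4) (nat_lit 13) (nat_lit 5) (nat_lit 13) (nat_lit 4) (nat_lit 380) (nat_lit 325) (nat_lit 315))) (XT.nd (nat_lit 78) (nat_lit 152) (nat_lit 0) (XT.lf (nat_lit 0) (nat_lit 13547527413) (nat_lit 76) (nat_lit 6577680696) (nat_lit 76) (nat_lit 4161384807) (nat_lit 12) (nat_lit 4) (nat_lit 13) (nat_lit 5) (nat_lit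 13) (nat_lit 4) (nat_lit 381) (nat_lit 325) (nat_lit 314)) (XT.nd (nat_lit 78) (nat_lit 0) (nat_lit 0) (XT.lf (nat_lit 0) (nat_lit 867612514) (nat_lit 76) (nat_lit 775809535) (nat_lit 152) (nat_lit 24095987527) (nat_lit 10) (nat_lit 5) (nat_lit 11) (nat_lit 5) (nat_lit 12) (nat_lit 4) (nat_lit 382) (nat_lit 325) (nat_lit 313)) (XT.lf (nat_lit 0) (nat_lit 7897259619) (nat_lit 152) (nat_lit 13965548377) (nat_lit 0) (nat_lit 5420260956) (nat_lit 10) (nat_lit 5) (nat_lit 12) (nat_lit 4) (nat_lit 10) (nat_lit 4) (nat_lit 383) (nat_lit 325) (nat_lit 312)))))) (XT.nd (nat_lit 390) (nat_lit 152) (nat_lit 0) (XT.nd (nat_lit 156) (nat_lit 152) (nat_lit 0) (XT.nd (nat_lit 78) (nat_lit 76) (nat_lit 0) (XT.lf (nat_lit 0) (nat_lit 14464312134) (nat_lit 152) (nat_lit 2620281712) (nat_lit 0) (nat_lit 11880614907) (nat_lit 10) (nat_lit 5) (nat_lit 12) (nat_lit 4) (nat_lit 10) (nat_lit 4) (nat_lit 384)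 (nat_lit 325) (nat_lit 311)) (XT.lf (nat_lit 0) (nat_lit 9736975319) (nat_lit 76) (nat_lit 11862036396) (nat_lit 76) (nat_lit 9179544202) (nat_lit 9) (nat_lit 4) (nat_lit 10) (nat_lit 5) (nat_lit 10) (nat_lit 4) (nat_lit 385) (nat_lit 325) (nat_lit 310))) (XT.nd (nat_lit 78) (nat_lit 152) (nat_lit 0) (XT.lf (nat_lit 0) (nat_lit 22858805710) (nat_lit 76) (nat_lit 6330676008) (nat_lit 76) (nat_lit 3556706994) (nat_lit 9) (nat_lit 4) (nat_lit 10) (nat_lit 5) (nat_lit 10) (nat_lit 4) (nat_lit 386) (nat_lit 325) (nat_lit 309)) (XT.nd (nat_lit 78) (nat_lit 0) (nat_lit 0) (XT.lf (nat_lit 0) (nat_lit 1835725884) (nat_lit 76) (nat_lit 421195105) (nat_lit 152) (nat_lit 32620139590) (nat_lit 7) (nat_lit 5) (nat_lit 8) (nat_lit 5) (nat_lit 9) (nat_lit 4) (nat_lit 387) (nat_lit 325) (nat_lit 308)) (XT.lf (nat_lit 0) (nat_lit 8587534004) (nat_lit 152) (nat_lit 22695967212) (nat_lit 0) (nat_lit 5868000296)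 (nat_lit 7) (nat_lit 5) (nat_lit 9) (nat_lit 4) (nat_lit 7) (nat_lit 4) (nat_lit 388) (nat_lit 325) (nat_lit 307))))) (XT.nd (nat_lit 234) (nat_lit 76) (nat_lit 0) (XT.nd (nat_lit 78) (nat_lit 76) (nat_lit 0) (XT.lf (nat_lit 0) (nat_lit 15271948914) (nat_lit 152) (nat_lit 11862996366) (nat_lit 0) (nat_lit 12485177012) (nat_lit 7) (nat_lit 5) (nat_lit 9) (nat_lit 4) (nat_lit 7) (nat_lit 4) (nat_lit 389) (nat_lit 325) (nat_lit 306)) (XT.nd (nat_lit 78) (nat_lit 76) (nat_lit 0) (XT.lf (nat_lit 0) (nat_lit 22339647314) (nat_lit 152) (nat_lit 468097022) (nat_lit 0) (nat_lit 19490617824) (nat_lit 7) (nat_lit 5) (nat_lit 9) (nat_lit 4) (nat_lit 7) (nat_lit 4) (nat_lit 390) (nat_lit 325) (nat_lit 305)) (XT.lf (nat_lit 0) (nat_lit 12164788116) (nat_lit 76) (nat_lit 17960287192) (nat_lit 76) (nat_lit 15053611788) (nat_lit 6) (nat_lit 4) (nat_lit 7) (nat_lit 5) (nat_lit 7) (nat_lit 4) (nat_lit 391)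 (nat_lit 325) (nat_lit 304)))) (XT.nd (nat_lit 78) (nat_lit 76) (nat_lit 0) (XT.lf (nat_lit 0) (nat_lit 25559929776) (nat_lit 76) (nat_lit 12849731867) (nat_lit 76) (nat_lit 9889680616) (nat_lit 6) (nat_lit 4) (nat_lit 7) (nat_lit 5) (nat_lit 7) (nat_lit 4) (nat_lit 392) (nat_lit 325) (nat_lit 303)) (XT.nd (nat_lit 78) (nat_lit 76) (nat_lit 0) (XT.lf (nat_lit 0) (nat_lit 39772057413) (nat_lit 76) (nat_lit 7458592191) (nat_lit 76) (nat_lit 4449118860) (nat_lit 6) (nat_lit 4) (nat_lit 7) (nat_lit 5) (nat_lit 7) (nat_lit 4) (nat_lit 393) (nat_lit 325) (nat_lit 302)) (XT.lf (nat_lit 0) (nat_lit 1235266879) (nat_lit 152) (nat_lit 485879406) (nat_lit 76) (nat_lit 53616349779) (nat_lit 5) (nat_lit 5) (nat_lit 7) (nat_lit 5) (nat_lit 6) (nat_lit 4) (nat_lit 394) (nat_lit 325) (nat_lit 301))))))))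
noncomputable def xc55 : XT := (XT.nd (nat_lit 1638) (nat_lit 0) (nat_lit 0) (XT.nd (nat_lit 780) (nat_lit 152) (nat_lit 0) (XT.nd (nat_lit 390) (nat_lit 76) (nat_lit 0) (XT.nd (nat_lit 156) (nat_lit 0) (nat_lit 0) (XT.nd (nat_lit 78) (nat_lit 0) (nat_lit 0) (XT.lf (nat_lit 0) (nat_lit 7429751291) (nat_lit 152) (nat_lit 47263598261) (nat_lit 0) (nat_lit 4561597602) (nat_lit 4) (nat_lit 5) (nat_lit 6) (nat_lit 4) (nat_lit 4) (nat_lit 4) (nat_lit 395) (nat_lit 325) (nat_lit 300)) (XT.lf (nat_lit 0) (nat_lit 14067296499) (nat_lit 152) (nat_lit 38259888477) (nat_lit 0) (nat_lit 11162816106) (nat_lit 4) (nat_lit 5) (nat_lit 6) (nat_lit 4) (nat_lit 4) (nat_lit 4) (nat_lit 396) (nat_lit 325) (nat_lit 299))) (XT.nd (nat_lit 78) (nat_lit 0) (nat_lit 0) (XT.lf (nat_lit 0) (nat_lit 21133222251) (nat_lit 152) (nat_lit 28743747302) (nat_lit 0) (nat_lit 18195106021) (nat_lit 4) (nat_lit 5) (nat_lit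 6) (nat_lit 4) (nat_lit 4) (nat_lit 4) (nat_lit 397) (nat_lit 325) (nat_lit 298)) (XT.nd (nat_lit 78) (nat_lit 0) (nat_lit 0) (XT.lf (nat_lit 0) (nat_lit 28669400701) (nat_lit 152) (nat_lit 18658782786) (nat_lit 0) (nat_lit 25700140177) (nat_lit 4) (nat_lit 5) (nat_lit 6) (nat_lit 4) (nat_lit 4) (nat_lit 4) (nat_lit 398) (nat_lit 325) (nat_lit 297)) (XT.lf (nat_lit 0) (nat_lit 36720490682) (nat_lit 152) (nat_lit 7945232177) (nat_lit 0) (nat_lit 33722392850) (nat_lit 4) (nat_lit 5) (nat_lit 6) (nat_lit 4) (nat_lit 4) (nat_lit 4) (nat_lit 399) (nat_lit 325) (nat_lit 296))))) (XT.nd (nat_lit 156) (nat_lit 0) (nat_lit 0) (XT.nd (nat_lit 78) (nat_lit 0) (nat_lit 0) (XT.lf (nat_lit 0) (nat_lit 3642610353) (nat_lit 76) (nat_lit 41779196872) (nat_lit 76) (nat_lit 38754397827) (nat_lit 3) (nat_lit 4) (nat_lit 4) (nat_lit 5) (nat_lit 4) (nat_lit 4) (nat_lit 400) (nat_lit 325) (nat_lit 295)) (XT.lf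 (nat_lit 0) (nat_lit 16448499907) (nat_lit 76) (nat_lit 38508666859) (nat_lit 76) (nat_lit 35459144469) (nat_lit 3) (nat_lit 4) (nat_lit 4) (nat_lit 5) (nat_lit 4) (nat_lit 4) (nat_lit 401) (nat_lit 325) (nat_lit 294))) (XT.nd (nat_lit 78) (nat_lit 0) (nat_lit 0) (XT.lf (nat_lit 0) (nat_lit 30129941390) (nat_lit 76) (nat_lit 35051988630) (nat_lit 76) (nat_lit 31979574255) (nat_lit 3) (nat_lit 4) (nat_lit 4) (nat_lit 5) (nat_lit 4) (nat_lit 4) (nat_lit 402) (nat_lit 325) (nat_lit 293)) (XT.nd (nat_lit 78) (nat_lit 0) (nat_lit 0) (XT.lf (nat_lit 0) (nat_lit 44768010011) (nat_lit 76) (nat_lit 31388678166) (nat_lit 76) (nat_lit 28295067508) (nat_lit 3) (nat_lit 4) (nat_lit 4) (nat_lit 5) (nat_lit 4) (nat_lit 4) (nat_lit 403) (nat_lit 325) (nat_lit 292)) (XT.lf (nat_lit 0) (nat_lit 60449449880) (nat_lit 76) (nat_lit 27497026961) (nat_lit 76) (nat_lit 24383790115) (nat_lit 3) (nat_lit 4) (nat_lit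 4) (nat_lit 5) (nat_lit 4) (nat_lit 4) (nat_lit 404) (nat_lit 325) (nat_lit 291)))))) (XT.nd (nat_lit 390) (nat_lit 152) (nat_lit 0) (XT.nd (nat_lit 156) (nat_lit 0) (nat_lit 0) (XT.nd (nat_lit 78) (nat_lit 0) (nat_lit 0) (XT.lf (nat_lit 0) (nat_lit 77267188049) (nat_lit 76) (nat_lit 23353973378) (nat_lit 76) (nat_lit 20222564135) (nat_lit 3) (nat_lit 4) (nat_lit 4) (nat_lit 5) (nat_lit 4) (nat_lit 4) (nat_lit 405) (nat_lit 325) (nat_lit 290)) (XT.lf (nat_lit 0) (nat_lit 95320885187) (nat_lit 76) (nat_lit 18934965988) (nat_lit 76) (nat_lit 15786730453) (nat_lit 3) (nat_lit 4) (nat_lit 4) (nat_lit 5) (nat_lit 4) (nat_lit 4) (nat_lit 406) (nat_lit 325) (nat_lit 289))) (XT.nd (nat_lit 78) (nat_lit 0) (nat_lit 0) (XT.lf (nat_lit 0) (nat_lit 114717526168) (nat_lit 76) (nat_lit 14213818081) (nat_lit 76) (nat_lit 11050002645) (nat_lit 3) (nat_lit 4) (nat_lit 4) (nat_lit 5) (nat_lit 4) (nat_lit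 4) (nat_lit 407) (nat_lit 325) (nat_lit 288)) (XT.nd (nat_lit 78) (nat_lit 0) (nat_lit 0) (XT.lf (nat_lit 0) (nat_lit 135572054048) (nat_lit 76) (nat_lit 9162552484) (nat_lit 76) (nat_lit 5984311213) (nat_lit 3) (nat_lit 4) (nat_lit 4) (nat_lit 5) (nat_lit 4) (nat_lit 4) (nat_lit 408) (nat_lit 325) (nat_lit 287)) (XT.lf (nat_lit 0) (nat_lit 158008051215) (nat_lit 76) (nat_lit 3751235771) (nat_lit 76) (nat_lit 559637247) (nat_lit 3) (nat_lit 4) (nat_lit 4) (nat_lit 5) (nat_lit 4) (nat_lit 4) (nat_lit 409) (nat_lit 325) (nat_lit 286))))) (XT.nd (nat_lit 234) (nat_lit 0) (nat_lit 0) (XT.nd (nat_lit 78) (nat_lit 0) (nat_lit 0) (XT.lf (nat_lit 0) (nat_lit 5232413876) (nat_lit 152) (nat_lit 167322667374) (nat_lit 0) (nat_lit 2265778365) (nat_lit 1) (nat_lit 5) (nat_lit 3) (nat_lit 4) (nat_lit 1) (nat_lit 4) (nat_lit 410) (nat_lit 325) (nat_lit 285)) (XT.nd (nat_lit 78) (nat_lit 0) (nat_lit 0)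 (XT.lf (nat_lit 0) (nat_lit 11635350670) (nat_lit 152) (nat_lit 168014106031) (nat_lit 0) (nat_lit 8658111741) (nat_lit 1) (nat_lit 5) (nat_lit 3) (nat_lit 4) (nat_lit 1) (nat_lit 4) (nat_lit 411) (nat_lit 325) (nat_lit 284)) (XT.lf (nat_lit 0) (nat_lit 18512923748) (nat_lit 152) (nat_lit 168837433151) (nat_lit 0) (nat_lit 15525866838) (nat_lit 1) (nat_lit 5) (nat_lit 3) (nat_lit 4) (nat_lit 1) (nat_lit 4) (nat_lit 412) (nat_lit 325) (nat_lit 283)))) (XT.nd (nat_lit 78) (nat_lit 0) (nat_lit 0) (XT.lf (nat_lit 0) (nat_lit 25905889097) (nat_lit 152) (nat_lit 169797527710) (nat_lit 0) (nat_lit 22909741465) (nat_lit 1) (nat_lit 5) (nat_lit 3) (nat_lit 4) (nat_lit 1) (nat_lit 4) (nat_lit 413) (nat_lit 325) (nat_lit 282)) (XT.nd (nat_lit 78) (nat_lit 0) (nat_lit 0) (XT.lf (nat_lit 0) (nat_lit 33858056883) (nat_lit 152) (nat_lit 170900079157) (nat_lit 0) (nat_lit 30853491916) (nat_lit 1) (nat_lit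 5) (nat_lit 3) (nat_lit 4) (nat_lit 1) (nat_lit 4) (nat_lit 414) (nat_lit 325) (nat_lit 281)) (XT.lf (nat_lit 0) (nat_lit 42416551064) (nat_lit 152) (nat_lit 172151621129) (nat_lit 0) (nat_lit 39404192267) (nat_lit 1) (nat_lit 5) (nat_lit 3) (nat_lit 4) (nat_lit 1) (nat_lit 4) (nat_lit 415) (nat_lit 325) (nat_lit 280))))))) (XT.nd (nat_lit 780) (nat_lit 0) (nat_lit 0) (XT.nd (nat_lit 390) (nat_lit 0) (nat_lit 0) (XT.nd (nat_lit 156) (nat_lit 0) (nat_lit 0) (XT.nd (nat_lit 78) (nat_lit 0) (nat_lit 0) (XT.lf (nat_lit 0) (nat_lit 51632088641) (nat_lit 152) (nat_lit 173559570174) (nat_lit 0) (nat_lit 48612513335) (nat_lit 1) (nat_lit 5) (nat_lit 3) (nat_lit 4) (nat_lit 1) (nat_lit 4) (nat_lit 416) (nat_lit 325) (nat_lit 279)) (XT.lf (nat_lit 0) (nat_lit 61559280207) (nat_lit 152) (nat_lit 175132269690) (nat_lit 0) (nat_lit 58533022949) (nat_lit 1) (nat_lit 5) (nat_lit 3) (nat_lit 4) (nat_lit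 1) (nat_lit 4) (nat_lit 417) (nat_lit 325) (nat_lit 278))) (XT.nd (nat_lit 78) (nat_lit 0) (nat_lit 0) (XT.lf (nat_lit 0) (nat_lit 72256953565) (nat_lit 152) (nat_lit 176879039381) (nat_lit 0) (nat_lit 69224509315) (nat_lit 1) (nat_lit 5) (nat_lit 3) (nat_lit 4) (nat_lit 1) (nat_lit 4) (nat_lit 418) (nat_lit 325) (nat_lit 277)) (XT.nd (nat_lit 78) (nat_lit 0) (nat_lit 0) (XT.lf (nat_lit 0) (nat_lit 83788502335) (nat_lit 152) (nat_lit 178810230473) (nat_lit 0) (nat_lit 80750329387) (nat_lit 1) (nat_lit 5) (nat_lit 3) (nat_lit 4) (nat_lit 1) (nat_lit 4) (nat_lit 419) (nat_lit 325) (nat_lit 276)) (XT.lf (nat_lit 0) (nat_lit 96222261620) (nat_lit 152) (nat_lit 180937287062) (nat_lit 0) (nat_lit 93178784323) (nat_lit 1) (nat_lit 5) (nat_lit 3) (nat_lit 4) (nat_lit 1) (nat_lit 4) (nat_lit 420) (nat_lit 325) (nat_lit 275))))) (XT.nd (nat_lit 156) (nat_lit 0) (nat_lit 0) (XT.nd (nat_lit 78) (nat_lit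 0) (nat_lit 0) (XT.lf (nat_lit 0) (nat_lit 109631912957) (nat_lit 152) (nat_lit 183272813928) (nat_lit 0) (nat_lit 106583524225) (nat_lit 1) (nat_lit 5) (nat_lit 3) (nat_lit 4) (nat_lit 1) (nat_lit 4) (nat_lit 421) (nat_lit 325) (nat_lit 274)) (XT.lf (nat_lit 0) (nat_lit 124096920946) (nat_lit 152) (nat_lit 185830651230) (nat_lit 0) (nat_lit 121043984590) (nat_lit 1) (nat_lit 5) (nat_lit 3) (nat_lit 4) (nat_lit 1) (nat_lit 4) (nat_lit 422) (nat_lit 325) (nat_lit 273))) (XT.nd (nat_lit 78) (nat_lit 0) (nat_lit 0) (XT.lf (nat_lit 0) (nat_lit 139703004154) (nat_lit 152) (nat_lit 188625956522) (nat_lit 0) (nat_lit 136645857034) (nat_lit 1) (nat_lit 5) (nat_lit 3) (nat_lit 4) (nat_lit 1) (nat_lit 4) (nat_lit 423) (nat_lit 325) (nat_lit 272)) (XT.nd (nat_lit 78) (nat_lit 0) (nat_lit 0) (XT.lf (nat_lit 0) (nat_lit 156542643072) (nat_lit 152) (nat_lit 191675294576) (nat_lit 0) (nat_lit 153481597097)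 (nat_lit 1) (nat_lit 5) (nat_lit 3) (nat_lit 4) (nat_lit 1) (nat_lit 4) (nat_lit 424) (nat_lit 325) (nat_lit 271)) (XT.lf (nat_lit 0) (nat_lit 174715628155) (nat_lit 152) (nat_lit 194996735544) (nat_lit 0) (nat_lit 171650972129) (nat_lit 1) (nat_lit 5) (nat_lit 3) (nat_lit 4) (nat_lit 1) (nat_lit 4) (nat_lit 425) (nat_lit 325) (nat_lit 270)))))) (XT.nd (nat_lit 390) (nat_lit 0) (nat_lit 0) (XT.nd (nat_lit 156) (nat_lit 0) (nat_lit 0) (XT.nd (nat_lit 78) (nat_lit 0) (nat_lit 0) (XT.lf (nat_lit 0) (nat_lit 194329651165) (nat_lit 152) (nat_lit 198609962039) (nat_lit 0) (nat_lit 191261652500) (nat_lit 1) (nat_lit 5) (nat_lit 3) (nat_lit 4) (nat_lit 1) (nat_lit 4) (nat_lit 426) (nat_lit 325) (nat_lit 269)) (XT.lf (nat_lit 0) (nat_lit 215500943350) (nat_lit 152) (nat_lit 202536385773) (nat_lit 0) (nat_lit 212429849648) (nat_lit 1) (nat_lit 5) (nat_lit 3) (nat_lit 4) (nat_lit 1) (nat_lit 4) (nat_lit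 427) (nat_lit 325) (nat_lit 268))) (XT.nd (nat_lit 78) (nat_lit 0) (nat_lit 0) (XT.lf (nat_lit 0) (nat_lit 238354964220) (nat_lit 152) (nat_lit 206799274443) (nat_lit 0) (nat_lit 235281004743) (nat_lit 1) (nat_lit 5) (nat_lit 3) (nat_lit 4) (nat_lit 1) (nat_lit 4) (nat_lit 428) (nat_lit 325) (nat_lit 267)) (XT.nd (nat_lit 78) (nat_lit 0) (nat_lit 0) (XT.lf (nat_lit 0) (nat_lit 263027145009) (nat_lit 152) (nat_lit 211423889612) (nat_lit 0) (nat_lit 259950532036) (nat_lit 1) (nat_lit 5) (nat_lit 3) (nat_lit 4) (nat_lit 1) (nat_lit 4) (nat_lit 429) (nat_lit 325) (nat_lit 266)) (XT.lf (nat_lit 0) (nat_lit 289663691232) (nat_lit 152) (nat_lit 216437636405) (nat_lit 0) (nat_lit 286584621320) (nat_lit 1) (nat_lit 5) (nat_lit 3) (nat_lit 4) (nat_lit 1) (nat_lit 4) (nat_lit 430) (nat_lit 325) (nat_lit 265))))) (XT.nd (nat_lit 234) (nat_lit 0) (nat_lit 0) (XT.nd (nat_lit 78) (nat_lit 0) (nat_lit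 0) (XT.lf (nat_lit 0) (nat_lit 318422449090) (nat_lit 152) (nat_lit 221870225916) (nat_lit 0) (nat_lit 315341104233) (nat_lit 1) (nat_lit 5) (nat_lit 3) (nat_lit 4) (nat_lit 1) (nat_lit 4) (nat_lit 431) (nat_lit 325) (nat_lit 264)) (XT.nd (nat_lit 78) (nat_lit 0) (nat_lit 0) (XT.lf (nat_lit 0) (nat_lit 349473840852) (nat_lit 152) (nat_lit 227753851266) (nat_lit 0) (nat_lit 346390389565) (nat_lit 1) (nat_lit 5) (nat_lit 3) (nat_lit 4) (nat_lit 1) (nat_lit 4) (nat_lit 432) (nat_lit 325) (nat_lit 263)) (XT.lf (nat_lit 0) (nat_lit 383001874765) (nat_lit 152) (nat_lit 234123378386) (nat_lit 0) (nat_lit 379916473079) (nat_lit 1) (nat_lit 5) (nat_lit 3) (nat_lit 4) (nat_lit 1) (nat_lit 4) (nat_lit 433) (nat_lit 325) (nat_lit 262)))) (XT.nd (nat_lit 78) (nat_lit 0) (nat_lit 0) (XT.lf (nat_lit 0) (nat_lit 419205235474) (nat_lit 152) (nat_lit 241016552619) (nat_lit 0) (nat_lit 416118027864) (nat_lit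 1) (nat_lit 5) (nat_lit 3) (nat_lit 4) (nat_lit 1) (nat_lit 4) (nat_lit 434) (nat_lit 325) (nat_lit 261)) (XT.nd (nat_lit 78) (nat_lit 0) (nat_lit 0) (XT.lf (nat_lit 0) (nat_lit 458298461413) (nat_lit 152) (nat_lit 248474222406) (nat_lit 0) (nat_lit 455209581651) (nat_lit 1) (nat_lit 5) (nat_lit 3) (nat_lit 4) (nat_lit 1) (nat_lit 4) (nat_lit 435) (nat_lit 325) (nat_lit 260)) (XT.lf (nat_lit 0) (nat_lit 500513216144) (nat_lit 152) (nat_lit 256540581346) (nat_lit 0) (nat_lit 497422788093) (nat_lit 1) (nat_lit 5) (nat_lit 3) (nat_lit 4) (nat_lit 1) (nat_lit 4) (nat_lit 436) (nat_lit 325) (nat_lit 259))))))))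
noncomputable def xc56 : XT := (XT.nd (nat_lit 1560) (nat_lit 0) (nat_lit 0) (XT.nd (nat_lit 780) (nat_lit 0) (nat_lit 0) (XT.nd (nat_lit 390) (nat_lit 0) (nat_lit 0) (XT.nd (nat_lit 156) (nat_lit 0) (nat_lit 0) (XT.nd (nat_lit 78) (nat_lit 0) (nat_lit 0) (XT.lf (nat_lit 0) (nat_lit 546099661175) (nat_lit 152) (nat_lit 265263430085) (nat_lit 0) (nat_lit 543007799523) (nat_lit 1) (nat_lit 5) (nat_lit 3) (nat_lit 4) (nat_lit 1) (nat_lit 4) (nat_lit 437) (nat_lit 325) (nat_lit 258)) (XT.lf (nat_lit 0) (nat_lit 595327938404) (nat_lit 152) (nat_lit 274694459577) (nat_lit 0) (nat_lit 592234749344) (nat_lit 1) (nat_lit 5) (nat_lit 3) (nat_lit 4) (nat_lit 1) (nat_lit 4) (nat_lit 438) (nat_lit 325) (nat_lit 257))) (XT.nd (nat_lit 78) (nat_lit 0) (nat_lit 0) (XT.lf (nat_lit 0) (nat_lit 648489770954) (nat_lit 152) (nat_lit 284889557405) (nat_lit 0) (nat_lit 645395352812) (nat_lit 1) (nat_lit 5) (nat_lit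 3) (nat_lit 4) (nat_lit 1) (nat_lit 4) (nat_lit 439) (nat_lit 325) (nat_lit 256)) (XT.nd (nat_lit 78) (nat_lit 0) (nat_lit 0) (XT.lf (nat_lit 0) (nat_lit 705900191908) (nat_lit 152) (nat_lit 295909138964) (nat_lit 0) (nat_lit 702804635727) (nat_lit 1) (nat_lit 5) (nat_lit 3) (nat_lit 4) (nat_lit 1) (nat_lit 4) (nat_lit 440) (nat_lit 325) (nat_lit 255)) (XT.lf (nat_lit 0) (nat_lit 767899411167) (nat_lit 152) (nat_lit 307818505478) (nat_lit 0) (nat_lit 764802801247) (nat_lit 1) (nat_lit 5) (nat_lit 3) (nat_lit 4) (nat_lit 1) (nat_lit 4) (nat_lit 441) (nat_lit 325) (nat_lit 254))))) (XT.nd (nat_lit 156) (nat_lit 0) (nat_lit 0) (XT.nd (nat_lit 78) (nat_lit 0) (nat_lit 0) (XT.lf (nat_lit 0) (nat_lit 834854831512) (nat_lit 152) (nat_lit 320688230969) (nat_lit 0) (nat_lit 831757245908) (nat_lit 1) (nat_lit 5) (nat_lit 3) (nat_lit 4) (nat_lit 1) (nat_lit 4) (nat_lit 442) (nat_lit 325) (nat_lit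 253)) (XT.lf (nat_lit 0) (nat_lit 907163225805) (nat_lit 152) (nat_lit 334594580480) (nat_lit 0) (nat_lit 904064736789) (nat_lit 1) (nat_lit 5) (nat_lit 3) (nat_lit 4) (nat_lit 1) (nat_lit 4) (nat_lit 443) (nat_lit 325) (nat_lit 252))) (XT.nd (nat_lit 78) (nat_lit 0) (nat_lit 0) (XT.lf (nat_lit 0) (nat_lit 985253088233) (nat_lit 152) (nat_lit 349619962005) (nat_lit 0) (nat_lit 982153762725) (nat_lit 1) (nat_lit 5) (nat_lit 3) (nat_lit 4) (nat_lit 1) (nat_lit 4) (nat_lit 444) (nat_lit 325) (nat_lit 251)) (XT.nd (nat_lit 78) (nat_lit 0) (nat_lit 0) (XT.lf (nat_lit 0) (nat_lit 1069587173538) (nat_lit 152) (nat_lit 365853414844) (nat_lit 0) (nat_lit 1066487073499) (nat_lit 1) (nat_lit 5) (nat_lit 3) (nat_lit 4) (nat_lit 1) (nat_lit 4) (nat_lit 445) (nat_lit 325) (nat_lit 250)) (XT.lf (nat_lit 0) (nat_lit 1160665239261) (nat_lit 152) (nat_lit 383391137236) (nat_lit 0) (nat_lit 1157564422066)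 (nat_lit 1) (nat_lit 5) (nat_lit 3) (nat_lit 4) (nat_lit 1) (nat_lit 4) (nat_lit 446) (nat_lit 325) (nat_lit 249)))))) (XT.nd (nat_lit 390) (nat_lit 0) (nat_lit 0) (XT.nd (nat_lit 156) (nat_lit 0) (nat_lit 0) (XT.nd (nat_lit 78) (nat_lit 0) (nat_lit 0) (XT.lf (nat_lit 0) (nat_lit 1259027007274) (nat_lit 152) (nat_lit 402337056423) (nat_lit 0) (nat_lit 1255925526044) (nat_lit 1) (nat_lit 5) (nat_lit 3) (nat_lit 4) (nat_lit 1) (nat_lit 4) (nat_lit 447) (nat_lit 325) (nat_lit 248)) (XT.lf (nat_lit 0) (nat_lit 1365255362128) (nat_lit 152) (nat_lit 422803444521) (nat_lit 0) (nat_lit 1362153266051) (nat_lit 1) (nat_lit 5) (nat_lit 3) (nat_lit 4) (nat_lit 1) (nat_lit 4) (nat_lit 448) (nat_lit 325) (nat_lit 247))) (XT.nd (nat_lit 78) (nat_lit 0) (nat_lit 0) (XT.lf (nat_lit 0) (nat_lit 1479979805185) (nat_lit 152) (nat_lit 444911583828) (nat_lit 0) (nat_lit 1476877139805) (nat_lit 1) (nat_lit 5)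 (nat_lit 3) (nat_lit 4) (nat_lit 1) (nat_lit 4) (nat_lit 449) (nat_lit 325) (nat_lit 246)) (XT.nd (nat_lit 78) (nat_lit 0) (nat_lit 0) (XT.lf (nat_lit 0) (nat_lit 1603880184997) (nat_lit 152) (nat_lit 468792485541) (nat_lit 0) (nat_lit 1600776992485) (nat_lit 1) (nat_lit 5) (nat_lit 3) (nat_lit 4) (nat_lit 1) (nat_lit 4) (nat_lit 450) (nat_lit 325) (nat_lit 245)) (XT.lf (nat_lit 0) (nat_lit 1737690726035) (nat_lit 152) (nat_lit 494587666114) (nat_lit 0) (nat_lit 1734587045438) (nat_lit 1) (nat_lit 5) (nat_lit 3) (nat_lit 4) (nat_lit 1) (nat_lit 4) (nat_lit 451) (nat_lit 325) (nat_lit 244))))) (XT.nd (nat_lit 156) (nat_lit 0) (nat_lit 0) (XT.nd (nat_lit 78) (nat_lit 0) (nat_lit 0) (XT.lf (nat_lit 0) (nat_lit 1882204379656) (nat_lit 152) (nat_lit 522449985877) (nat_lit 0) (nat_lit 1879100247128) (nat_lit 1) (nat_lit 5) (nat_lit 3) (nat_lit 4) (nat_lit 1) (nat_lit 4) (nat_lit 452) (nat_lit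 325) (nat_lit 243)) (XT.lf (nat_lit 0) (nat_lit 2038277523065) (nat_lit 152) (nat_lit 552544554872) (nat_lit 0) (nat_lit 2035172972082) (nat_lit 1) (nat_lit 5) (nat_lit 3) (nat_lit 4) (nat_lit 1) (nat_lit 4) (nat_lit 453) (nat_lit 325) (nat_lit 242))) (XT.nd (nat_lit 78) (nat_lit 0) (nat_lit 0) (XT.lf (nat_lit 0) (nat_lit 2206835034149) (nat_lit 152) (nat_lit 585049711287) (nat_lit 0) (nat_lit 2203730095708) (nat_lit 1) (nat_lit 5) (nat_lit 3) (nat_lit 4) (nat_lit 1) (nat_lit 4) (nat_lit 454) (nat_lit 325) (nat_lit 241)) (XT.nd (nat_lit 78) (nat_lit 0) (nat_lit 0) (XT.lf (nat_lit 0) (nat_lit 2388875772233) (nat_lit 152) (nat_lit 620158078270) (nat_lit 0) (nat_lit 2385770475035) (nat_lit 1) (nat_lit 5) (nat_lit 3) (nat_lit 4) (nat_lit 1) (nat_lit 4) (nat_lit 455) (nat_lit 325) (nat_lit 240)) (XT.lf (nat_lit 0) (nat_lit 2585478497246) (nat_lit 152) (nat_lit 658077705403) (nat_lit 0) (nat_lit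 2582372867866) (nat_lit 1) (nat_lit 5) (nat_lit 3) (nat_lit 4) (nat_lit 1) (nat_lit 4) (nat_lit 456) (nat_lit 325) (nat_lit 239))))))) (XT.nd (nat_lit 46332) (nat_lit 0) (nat_lit 912) (XT.nd (nat_lit 390) (nat_lit 0) (nat_lit 0) (XT.nd (nat_lit 156) (nat_lit 0) (nat_lit 0) (XT.nd (nat_lit 78) (nat_lit 0) (nat_lit 0) (XT.lf (nat_lit 0) (nat_lit 2797808262374) (nat_lit 152) (nat_lit 699033301589) (nat_lit 0) (nat_lit 2794702325418) (nat_lit 1) (nat_lit 5) (nat_lit 3) (nat_lit 4) (nat_lit 1) (nat_lit 4) (nat_lit 457) (nat_lit 325) (nat_lit 238)) (XT.lf (nat_lit 0) (nat_lit 3027123318078) (nat_lit 152) (nat_lit 743267566655) (nat_lit 0) (nat_lit 3024017096328) (nat_lit 1) (nat_lit 5) (nat_lit 3) (nat_lit 4) (nat_lit 1) (nat_lit 4) (nat_lit 458) (nat_lit 325) (nat_lit 237))) (XT.nd (nat_lit 78) (nat_lit 0) (nat_lit 0) (XT.lf (nat_lit 0) (nat_lit 3274782568389) (nat_lit 152) (nat_lit 791042629581)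 (nat_lit 0) (nat_lit 3271676082942) (nat_lit 1) (nat_lit 5) (nat_lit 3) (nat_lit 4) (nat_lit 1) (nat_lit 4) (nat_lit 459) (nat_lit 325) (nat_lit 236)) (XT.nd (nat_lit 78) (nat_lit 0) (nat_lit 0) (XT.lf (nat_lit 0) (nat_lit 3542253623682) (nat_lit 152) (nat_lit 842641601851) (nat_lit 0) (nat_lit 3539146894071) (nat_lit 1) (nat_lit 5) (nat_lit 3) (nat_lit 4) (nat_lit 1) (nat_lit 4) (nat_lit 460) (nat_lit 325) (nat_lit 235)) (XT.lf (nat_lit 0) (nat_lit 3831121497616) (nat_lit 152) (nat_lit 898370255152) (nat_lit 0) (nat_lit 3828014541927) (nat_lit 1) (nat_lit 5) (nat_lit 3) (nat_lit 4) (nat_lit 1) (nat_lit 4) (nat_lit 461) (nat_lit 325) (nat_lit 234))))) (XT.nd (nat_lit 156) (nat_lit 0) (nat_lit 0) (XT.nd (nat_lit 78) (nat_lit 0) (nat_lit 0) (XT.lf (nat_lit 0) (nat_lit 4143097999815) (nat_lit 152) (nat_lit 958558833355) (nat_lit 0) (nat_lit 4139990834795) (nat_lit 1) (nat_lit 5) (nat_lit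 3) (nat_lit 4) (nat_lit 1) (nat_lit 4) (nat_lit 462) (nat_lit 325) (nat_lit 233)) (XT.lf (nat_lit 0) (nat_lit 4480031879923) (nat_lit 152) (nat_lit 1023564009516) (nat_lit 0) (nat_lit 4476924521077) (nat_lit 1) (nat_lit 5) (nat_lit 3) (nat_lit 4) (nat_lit 1) (nat_lit 4) (nat_lit 463) (nat_lit 325) (nat_lit 232))) (XT.nd (nat_lit 45630) (nat_lit 0) (nat_lit 1748) (XT.lf (nat_lit 0) (nat_lit 4843919783153) (nat_lit 152) (nat_lit 1093770999495) (nat_lit 0) (nat_lit 4840812244839) (nat_lit 1) (nat_lit 5) (nat_lit 3) (nat_lit 4) (nat_lit 1) (nat_lit 4) (nat_lit 464) (nat_lit 325) (nat_lit 231)) (XT.nd (nat_lit 78) (nat_lit 76) (nat_lit 0) (XT.lf (nat_lit 0) (nat_lit 2911128784) (nat_lit 152) (nat_lit 591610255) (nat_lit 0) (nat_lit 2911128784) (nat_lit 25) (nat_lit 5) (nat_lit 27) (nat_lit 4) (nat_lit 25) (nat_lit 4) (nat_lit 368) (nat_lit 326) (nat_lit 326)) (XT.lf (nat_lit 0) (nat_lit 9545787814)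 (nat_lit 76) (nat_lit 2147392184) (nat_lit 76) (nat_lit 1686913078) (nat_lit 24) (nat_lit 4) (nat_lit 25) (nat_lit 5) (nat_lit 25) (nat_lit 4) (nat_lit 369) (nat_lit 326) (nat_lit 325)))))) (XT.nd (nat_lit 390) (nat_lit 380) (nat_lit 0) (XT.nd (nat_lit 156) (nat_lit 228) (nat_lit 0) (XT.nd (nat_lit 78) (nat_lit 76) (nat_lit 0) (XT.lf (nat_lit 0) (nat_lit 3833283323) (nat_lit 152) (nat_lit 7125169770) (nat_lit 0) (nat_lit 3012127166) (nat_lit 22) (nat_lit 5) (nat_lit 24) (nat_lit 4) (nat_lit 22) (nat_lit 4) (nat_lit 370) (nat_lit 326) (nat_lit 324)) (XT.lf (nat_lit 0) (nat_lit 3521398111) (nat_lit 76) (nat_lit 6136911900) (nat_lit 76) (nat_lit 4950212583) (nat_lit 21) (nat_lit 4) (nat_lit 22) (nat_lit 5) (nat_lit 22) (nat_lit 4) (nat_lit 371) (nat_lit 326) (nat_lit 323))) (XT.nd (nat_lit 78) (nat_lit 152) (nat_lit 0) (XT.lf (nat_lit 0) (nat_lit 526831637) (nat_lit 152) (nat_lit 429355399)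 (nat_lit 76) (nat_lit 14347510742) (nat_lit 20) (nat_lit 5) (nat_lit 22) (nat_lit 5) (nat_lit 21) (nat_lit 4) (nat_lit 372) (nat_lit 326) (nat_lit 322)) (XT.nd (nat_lit 78) (nat_lit 76) (nat_lit 0) (XT.lf (nat_lit 0) (nat_lit 6284320922) (nat_lit 152) (nat_lit 5169206446) (nat_lit 0) (nat_lit 4581950969) (nat_lit 19) (nat_lit 5) (nat_lit 21) (nat_lit 4) (nat_lit 19) (nat_lit 4) (nat_lit 373) (nat_lit 326) (nat_lit 321)) (XT.lf (nat_lit 0) (nat_lit 6028308251) (nat_lit 76) (nat_lit 6387753564) (nat_lit 76) (nat_lit 4416698475) (nat_lit 18) (nat_lit 4) (nat_lit 19) (nat_lit 5) (nat_lit 19) (nat_lit 4) (nat_lit 374) (nat_lit 326) (nat_lit 320))))) (XT.nd (nat_lit 234) (nat_lit 152) (nat_lit 0) (XT.nd (nat_lit 78) (nat_lit 76) (nat_lit 0) (XT.lf (nat_lit 0) (nat_lit 192363124) (nat_lit 76) (nat_lit 967348772) (nat_lit 152) (nat_lit 16540973668) (nat_lit 16) (nat_lit 5) (nat_lit 17) (nat_lit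 5) (nat_lit 18) (nat_lit 4) (nat_lit 375) (nat_lit 326) (nat_lit 319)) (XT.nd (nat_lit 78) (nat_lit 76) (nat_lit 0) (XT.lf (nat_lit 0) (nat_lit 7098967295) (nat_lit 152) (nat_lit 6687241557) (nat_lit 0) (nat_lit 4830271167) (nat_lit 16) (nat_lit 5) (nat_lit 18) (nat_lit 4) (nat_lit 16) (nat_lit 4) (nat_lit 376) (nat_lit 326) (nat_lit 318)) (XT.lf (nat_lit 0) (nat_lit 4733119172) (nat_lit 76) (nat_lit 8673588314) (nat_lit 76) (nat_lit 6207400590) (nat_lit 15) (nat_lit 4) (nat_lit 16) (nat_lit 5) (nat_lit 16) (nat_lit 4) (nat_lit 377) (nat_lit 326) (nat_lit 317)))) (XT.nd (nat_lit 78) (nat_lit 152) (nat_lit 0) (XT.lf (nat_lit 0) (nat_lit 16981470184) (nat_lit 76) (nat_lit 3181812045) (nat_lit 76) (nat_lit 532761732) (nat_lit 15) (nat_lit 4) (nat_lit 16) (nat_lit 5) (nat_lit 16) (nat_lit 4) (nat_lit 378) (nat_lit 326) (nat_lit 316)) (XT.nd (nat_lit 78) (nat_lit 0) (nat_lit 0) (XT.lf (nat_lit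 0) (nat_lit 5355351944) (nat_lit 152) (nat_lit 13749539356) (nat_lit 0) (nat_lit 2745752384) (nat_lit 13) (nat_lit 5) (nat_lit 15) (nat_lit 4) (nat_lit 13) (nat_lit 4) (nat_lit 379) (nat_lit 326) (nat_lit 315)) (XT.lf (nat_lit 0) (nat_lit 11647162945) (nat_lit 152) (nat_lit 2560053372) (nat_lit 0) (nat_lit 8892401167) (nat_lit 13) (nat_lit 5) (nat_lit 15) (nat_lit 4) (nat_lit 13) (nat_lit 4) (nat_lit 380) (nat_lit 326) (nat_lit 314))))))))
noncomputable def xc57 : XT := (XT.nd (nat_lit 1560) (nat_lit 228) (nat_lit 0) (XT.nd (nat_lit 780) (nat_lit 228) (nat_lit 0) (XT.nd (nat_lit 390) (nat_lit 152) (nat_lit 0) (XT.nd (nat_lit 156) (nat_lit 228) (nat_lit 0) (XT.nd (nat_lit 78) (nat_lit 0) (nat_lit 0) (XT.lf (nat_lit 0) (nat_lit 9592664317) (nat_lit 76) (nat_lit 8871641374) (nat_lit 76) (nat_lit 5982470134) (nat_lit 12) (nat_lit 4) (nat_lit 13) (nat_lit 5) (nat_lit 13) (nat_lit 4) (nat_lit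 381) (nat_lit 326) (nat_lit 313)) (XT.lf (nat_lit 0) (nat_lit 22461825925) (nat_lit 76) (nat_lit 3232081039) (nat_lit 76) (nat_lit 218456594) (nat_lit 12) (nat_lit 4) (nat_lit 13) (nat_lit 5) (nat_lit 13) (nat_lit 4) (nat_lit 382) (nat_lit 326) (nat_lit 312))) (XT.nd (nat_lit 78) (nat_lit 76) (nat_lit 0) (XT.lf (nat_lit 0) (nat_lit 5797975278) (nat_lit 152) (nat_lit 18777460724) (nat_lit 0) (nat_lit 2900883709) (nat_lit 10) (nat_lit 5) (nat_lit 12) (nat_lit 4) (nat_lit 10) (nat_lit 4) (nat_lit 383) (nat_lit 326) (nat_lit 311)) (XT.nd (nat_lit 78) (nat_lit 76) (nat_lit 0) (XT.lf (nat_lit 0) (nat_lit 12272772204) (nat_lit 152) (nat_lit 7616191130) (nat_lit 0) (nat_lit 9276885668) (nat_lit 10) (nat_lit 5) (nat_lit 12) (nat_lit 4) (nat_lit 10) (nat_lit 4) (nat_lit 384) (nat_lit 326) (nat_lit 310)) (XT.lf (nat_lit 0) (nat_lit 4298651248) (nat_lit 76) (nat_lit 14892606870) (nat_lit 76) (nat_lit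 11805243513) (nat_lit 9) (nat_lit 4) (nat_lit 10) (nat_lit 5) (nat_lit 10) (nat_lit 4) (nat_lit 385) (nat_lit 326) (nat_lit 309))))) (XT.nd (nat_lit 156) (nat_lit 152) (nat_lit 0) (XT.nd (nat_lit 78) (nat_lit 0) (nat_lit 0) (XT.lf (nat_lit 0) (nat_lit 17254427086) (nat_lit 76) (nat_lit 9444213121) (nat_lit 76) (nat_lit 6272149004) (nat_lit 9) (nat_lit 4) (nat_lit 10) (nat_lit 5) (nat_lit 10) (nat_lit 4) (nat_lit 386) (nat_lit 326) (nat_lit 308)) (XT.lf (nat_lit 0) (nat_lit 30926856223) (nat_lit 76) (nat_lit 3719735472) (nat_lit 76) (nat_lit 469244725) (nat_lit 9) (nat_lit 4) (nat_lit 10) (nat_lit 5) (nat_lit 10) (nat_lit 4) (nat_lit 387) (nat_lit 326) (nat_lit 307))) (XT.nd (nat_lit 78) (nat_lit 0) (nat_lit 0) (XT.lf (nat_lit 0) (nat_lit 5618059425) (nat_lit 152) (nat_lit 29253361925) (nat_lit 0) (nat_lit 2541107576) (nat_lit 7) (nat_lit 5) (nat_lit 9) (nat_lit 4) (nat_lit 7) (nat_lit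 4) (nat_lit 388) (nat_lit 326) (nat_lit 306)) (XT.nd (nat_lit 78) (nat_lit 0) (nat_lit 0) (XT.lf (nat_lit 0) (nat_lit 12229652362) (nat_lit 152) (nat_lit 18566885872) (nat_lit 0) (nat_lit 9090442926) (nat_lit 7) (nat_lit 5) (nat_lit 9) (nat_lit 4) (nat_lit 7) (nat_lit 4) (nat_lit 389) (nat_lit 326) (nat_lit 305)) (XT.lf (nat_lit 0) (nat_lit 19229923010) (nat_lit 152) (nat_lit 7307629856) (nat_lit 0) (nat_lit 16033067660) (nat_lit 7) (nat_lit 5) (nat_lit 9) (nat_lit 4) (nat_lit 7) (nat_lit 4) (nat_lit 390) (nat_lit 326) (nat_lit 304)))))) (XT.nd (nat_lit 390) (nat_lit 0) (nat_lit 0) (XT.nd (nat_lit 156) (nat_lit 152) (nat_lit 0) (XT.nd (nat_lit 78) (nat_lit 0) (nat_lit 0) (XT.lf (nat_lit 0) (nat_lit 4832888285) (nat_lit 76) (nat_lit 21943697247) (nat_lit 76) (nat_lit 18693466050) (nat_lit 6) (nat_lit 4) (nat_lit 7) (nat_lit 5) (nat_lit 7) (nat_lit 4) (nat_lit 391) (nat_lit 326) (nat_lit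 303)) (XT.lf (nat_lit 0) (nat_lit 18105613909) (nat_lit 76) (nat_lit 16894805420) (nat_lit 76) (nat_lit 13595152143) (nat_lit 6) (nat_lit 4) (nat_lit 7) (nat_lit 5) (nat_lit 7) (nat_lit 4) (nat_lit 392) (nat_lit 326) (nat_lit 302))) (XT.nd (nat_lit 78) (nat_lit 152) (nat_lit 0) (XT.lf (nat_lit 0) (nat_lit 32204393365) (nat_lit 76) (nat_lit 11560761576) (nat_lit 76) (nat_lit 8215347114) (nat_lit 6) (nat_lit 4) (nat_lit 7) (nat_lit 5) (nat_lit 7) (nat_lit 4) (nat_lit 393) (nat_lit 326) (nat_lit 301)) (XT.nd (nat_lit 78) (nat_lit 152) (nat_lit 0) (XT.lf (nat_lit 0) (nat_lit 47212774976) (nat_lit 76) (nat_lit 5909956566) (nat_lit 76) (nat_lit 2522170636) (nat_lit 6) (nat_lit 4) (nat_lit 7) (nat_lit 5) (nat_lit 7) (nat_lit 4) (nat_lit 394) (nat_lit 326) (nat_lit 300)) (XT.lf (nat_lit 0) (nat_lit 3438060873) (nat_lit 152) (nat_lit 55893086805) (nat_lit 0) (nat_lit 264895344) (nat_lit 4) (nat_lit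 5) (nat_lit 6) (nat_lit 4) (nat_lit 4) (nat_lit 4) (nat_lit 395) (nat_lit 326) (nat_lit 299))))) (XT.nd (nat_lit 156) (nat_lit 0) (nat_lit 0) (XT.nd (nat_lit 78) (nat_lit 0) (nat_lit 0) (XT.lf (nat_lit 0) (nat_lit 10026268065) (nat_lit 152) (nat_lit 46989312305) (nat_lit 0) (nat_lit 6819466700) (nat_lit 4) (nat_lit 5) (nat_lit 6) (nat_lit 4) (nat_lit 4) (nat_lit 4) (nat_lit 396) (nat_lit 326) (nat_lit 298)) (XT.lf (nat_lit 0) (nat_lit 17046510470) (nat_lit 152) (nat_lit 37565703799) (nat_lit 0) (nat_lit 13808564811) (nat_lit 4) (nat_lit 5) (nat_lit 6) (nat_lit 4) (nat_lit 4) (nat_lit 4) (nat_lit 397) (nat_lit 326) (nat_lit 297))) (XT.nd (nat_lit 78) (nat_lit 0) (nat_lit 0) (XT.lf (nat_lit 0) (nat_lit 24540389524) (nat_lit 152) (nat_lit 27566417682) (nat_lit 0) (nat_lit 21273606555) (nat_lit 4) (nat_lit 5) (nat_lit 6) (nat_lit 4) (nat_lit 4) (nat_lit 4) (nat_lit 398) (nat_lit 326) (nat_lit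 296)) (XT.nd (nat_lit 78) (nat_lit 0) (nat_lit 0) (XT.lf (nat_lit 0) (nat_lit 32552313398) (nat_lit 152) (nat_lit 16932198923) (nat_lit 0) (nat_lit 29258829217) (nat_lit 4) (nat_lit 5) (nat_lit 6) (nat_lit 4) (nat_lit 4) (nat_lit 4) (nat_lit 399) (nat_lit 326) (nat_lit 295)) (XT.lf (nat_lit 0) (nat_lit 41129760160) (nat_lit 152) (nat_lit 5600029931) (nat_lit 0) (nat_lit 37811552635) (nat_lit 4) (nat_lit 5) (nat_lit 6) (nat_lit 4) (nat_lit 4) (nat_lit 4) (nat_lit 400) (nat_lit 326) (nat_lit 294))))))) (XT.nd (nat_lit 780) (nat_lit 76) (nat_lit 0) (XT.nd (nat_lit 390) (nat_lit 76) (nat_lit 0) (XT.nd (nat_lit 156) (nat_lit 0) (nat_lit 0) (XT.nd (nat_lit 78) (nat_lit 0) (nat_lit 0) (XT.lf (nat_lit 0) (nat_lit 6839376183) (nat_lit 76) (nat_lit 43648670103) (nat_lit 76) (nat_lit 40307570592) (nat_lit 3) (nat_lit 4) (nat_lit 4) (nat_lit 5) (nat_lit 4) (nat_lit 4) (nat_lit 401) (nat_lit 326) (nat_lit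 293)) (XT.lf (nat_lit 0) (nat_lit 20454525272) (nat_lit 76) (nat_lit 40225598616) (nat_lit 76) (nat_lit 36863302822) (nat_lit 3) (nat_lit 4) (nat_lit 4) (nat_lit 5) (nat_lit 4) (nat_lit 4) (nat_lit 402) (nat_lit 326) (nat_lit 292))) (XT.nd (nat_lit 78) (nat_lit 0) (nat_lit 0) (XT.lf (nat_lit 0) (nat_lit 35031212046) (nat_lit 76) (nat_lit 36593405506) (nat_lit 76) (nat_lit 33211483524) (nat_lit 3) (nat_lit 4) (nat_lit 4) (nat_lit 5) (nat_lit 4) (nat_lit 4) (nat_lit 403) (nat_lit 326) (nat_lit 291)) (XT.nd (nat_lit 78) (nat_lit 0) (nat_lit 0) (XT.lf (nat_lit 0) (nat_lit 50655816872) (nat_lit 76) (nat_lit 32730566665) (nat_lit 76) (nat_lit 29330472287) (nat_lit 3) (nat_lit 4) (nat_lit 4) (nat_lit 5) (nat_lit 4) (nat_lit 4) (nat_lit 404) (nat_lit 326) (nat_lit 290)) (XT.lf (nat_lit 0) (nat_lit 67420930000) (nat_lit 76) (nat_lit 28614191197) (nat_lit 76) (nat_lit 25197270526) (nat_lit 3) (nat_lit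 4) (nat_lit 4) (nat_lit 5) (nat_lit 4) (nat_lit 4) (nat_lit 405) (nat_lit 326) (nat_lit 289))))) (XT.nd (nat_lit 156) (nat_lit 76) (nat_lit 0) (XT.nd (nat_lit 78) (nat_lit 0) (nat_lit 0) (XT.lf (nat_lit 0) (nat_lit 85425900249) (nat_lit 76) (nat_lit 24219885766) (nat_lit 76) (nat_lit 20787385194) (nat_lit 3) (nat_lit 4) (nat_lit 4) (nat_lit 5) (nat_lit 4) (nat_lit 4) (nat_lit 406) (nat_lit 326) (nat_lit 288)) (XT.lf (nat_lit 0) (nat_lit 104777423740) (nat_lit 76) (nat_lit 19521610043) (nat_lit 76) (nat_lit 16074683637) (nat_lit 3) (nat_lit 4) (nat_lit 4) (nat_lit 5) (nat_lit 4) (nat_lit 4) (nat_lit 407) (nat_lit 326) (nat_lit 287))) (XT.nd (nat_lit 78) (nat_lit 76) (nat_lit 0) (XT.lf (nat_lit 0) (nat_lit 125590176166) (nat_lit 76) (nat_lit 14491522394) (nat_lit 76) (nat_lit 11031238734) (nat_lit 3) (nat_lit 4) (nat_lit 4) (nat_lit 5) (nat_lit 4) (nat_lit 4) (nat_lit 408) (nat_lit 326)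 (nat_lit 286)) (XT.nd (nat_lit 78) (nat_lit 76) (nat_lit 0) (XT.lf (nat_lit 0) (nat_lit 147987492358) (nat_lit 76) (nat_lit 9099814892) (nat_lit 76) (nat_lit 5627163405) (nat_lit 3) (nat_lit 4) (nat_lit 4) (nat_lit 5) (nat_lit 4) (nat_lit 4) (nat_lit 409) (nat_lit 326) (nat_lit 285)) (XT.lf (nat_lit 0) (nat_lit 161084097) (nat_lit 152) (nat_lit 3149048257) (nat_lit 76) (nat_lit 171936608729) (nat_lit 2) (nat_lit 5) (nat_lit 4) (nat_lit 5) (nat_lit 3) (nat_lit 4) (nat_lit 410) (nat_lit 326) (nat_lit 284)))))) (XT.nd (nat_lit 390) (nat_lit 0) (nat_lit 0) (XT.nd (nat_lit 156) (nat_lit 0) (nat_lit 0) (XT.nd (nat_lit 78) (nat_lit 0) (nat_lit 0) (XT.lf (nat_lit 0) (nat_lit 6384542388) (nat_lit 152) (nat_lit 179214563755) (nat_lit 0) (nat_lit 3148702945) (nat_lit 1) (nat_lit 5) (nat_lit 3) (nat_lit 4) (nat_lit 1) (nat_lit 4) (nat_lit 411) (nat_lit 326) (nat_lit 283)) (XT.lf (nat_lit 0) (nat_lit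 13245378170) (nat_lit 152) (nat_lit 180071978024) (nat_lit 0) (nat_lit 10000448005) (nat_lit 1) (nat_lit 5) (nat_lit 3) (nat_lit 4) (nat_lit 1) (nat_lit 4) (nat_lit 412) (nat_lit 326) (nat_lit 282))) (XT.nd (nat_lit 78) (nat_lit 0) (nat_lit 0) (XT.lf (nat_lit 0) (nat_lit 20622846024) (nat_lit 152) (nat_lit 181063634757) (nat_lit 0) (nat_lit 17369498523) (nat_lit 1) (nat_lit 5) (nat_lit 3) (nat_lit 4) (nat_lit 1) (nat_lit 4) (nat_lit 413) (nat_lit 326) (nat_lit 281)) (XT.nd (nat_lit 78) (nat_lit 0) (nat_lit 0) (XT.lf (nat_lit 0) (nat_lit 28560664277) (nat_lit 152) (nat_lit 182195410440) (nat_lit 0) (nat_lit 25299522947) (nat_lit 1) (nat_lit 5) (nat_lit 3) (nat_lit 4) (nat_lit 1) (nat_lit 4) (nat_lit 414) (nat_lit 326) (nat_lit 280)) (XT.lf (nat_lit 0) (nat_lit 37105871853) (nat_lit 152) (nat_lit 183474011890) (nat_lit 0) (nat_lit 33837514014) (nat_lit 1) (nat_lit 5) (nat_lit 3) (nat_lit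 4) (nat_lit 1) (nat_lit 4) (nat_lit 415) (nat_lit 326) (nat_lit 279))))) (XT.nd (nat_lit 234) (nat_lit 0) (nat_lit 0) (XT.nd (nat_lit 78) (nat_lit 0) (nat_lit 0) (XT.lf (nat_lit 0) (nat_lit 46309107018) (nat_lit 152) (nat_lit 184907016006) (nat_lit 0) (nat_lit 43034067227) (nat_lit 1) (nat_lit 5) (nat_lit 3) (nat_lit 4) (nat_lit 1) (nat_lit 4) (nat_lit 416) (nat_lit 326) (nat_lit 278)) (XT.nd (nat_lit 78) (nat_lit 0) (nat_lit 0) (XT.lf (nat_lit 0) (nat_lit 56224907462) (nat_lit 152) (nat_lit 186502914663) (nat_lit 0) (nat_lit 52943680679) (nat_lit 1) (nat_lit 5) (nat_lit 3) (nat_lit 4) (nat_lit 1) (nat_lit 4) (nat_lit 417) (nat_lit 326) (nat_lit 277)) (XT.lf (nat_lit 0) (nat_lit 66912033486) (nat_lit 152) (nat_lit 188271165040) (nat_lit 0) (nat_lit 63625078004) (nat_lit 1) (nat_lit 5) (nat_lit 3) (nat_lit 4) (nat_lit 1) (nat_lit 4) (nat_lit 418) (nat_lit 326) (nat_lit 276)))) (XT.nd (nat_lit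 78) (nat_lit 0) (nat_lit 0) (XT.lf (nat_lit 0) (nat_lit 78433816204) (nat_lit 152) (nat_lit 190222245656) (nat_lit 0) (nat_lit 75141556374) (nat_lit 1) (nat_lit 5) (nat_lit 3) (nat_lit 4) (nat_lit 1) (nat_lit 4) (nat_lit 419) (nat_lit 326) (nat_lit 275)) (XT.nd (nat_lit 78) (nat_lit 0) (nat_lit 0) (XT.lf (nat_lit 0) (nat_lit 90858532849) (nat_lit 152) (nat_lit 192367718471) (nat_lit 0) (nat_lit 87561361584) (nat_lit 1) (nat_lit 5) (nat_lit 3) (nat_lit 4) (nat_lit 1) (nat_lit 4) (nat_lit 420) (nat_lit 326) (nat_lit 274)) (XT.lf (nat_lit 0) (nat_lit 104259811371) (nat_lit 152) (nat_lit 194720297397) (nat_lit 0) (nat_lit 100958092482) (nat_lit 1) (nat_lit 5) (nat_lit 3) (nat_lit 4) (nat_lit 1) (nat_lit 4) (nat_lit 421) (nat_lit 326) (nat_lit 273))))))))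
noncomputable def xc58 : XT := (XT.nd (nat_lit 1560) (nat_lit 0) (nat_lit 0) (XT.nd (nat_lit 780) (nat_lit 0) (nat_lit 0) (XT.nd (nat_lit 390) (nat_lit 0) (nat_lit 0) (XT.nd (nat_lit 156) (nat_lit 0) (nat_lit 0) (XT.nd (nat_lit 78) (nat_lit 0) (nat_lit 0) (XT.lf (nat_lit 0) (nat_lit 118717066754) (nat_lit 152) (nat_lit 197293923644) (nat_lit 0) (nat_lit 115411137102) (nat_lit 1) (nat_lit 5) (nat_lit 3) (nat_lit 4) (nat_lit 1) (nat_lit 4) (nat_lit 422) (nat_lit 326) (nat_lit 272)) (XT.lf (nat_lit 0) (nat_lit 134315971623) (nat_lit 152) (nat_lit 200103848330) (nat_lit 0) (nat_lit 131006143115) (nat_lit 1) (nat_lit 5) (nat_lit 3) (nat_lit 4) (nat_lit 1) (nat_lit 4) (nat_lit 423) (nat_lit 326) (nat_lit 271))) (XT.nd (nat_lit 78) (nat_lit 0) (nat_lit 0) (XT.lf (nat_lit 0) (nat_lit 151148963931) (nat_lit 152) (nat_lit 203166722860) (nat_lit 0) (nat_lit 147835525372) (nat_lit 1) (nat_lit 5) (nat_lit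 3) (nat_lit 4) (nat_lit 1) (nat_lit 4) (nat_lit 424) (nat_lit 326) (nat_lit 270)) (XT.nd (nat_lit 78) (nat_lit 0) (nat_lit 0) (XT.lf (nat_lit 0) (nat_lit 169315794745) (nat_lit 152) (nat_lit 206500697601) (nat_lit 0) (nat_lit 165999013546) (nat_lit 1) (nat_lit 5) (nat_lit 3) (nat_lit 4) (nat_lit 1) (nat_lit 4) (nat_lit 425) (nat_lit 326) (nat_lit 269)) (XT.lf (nat_lit 0) (nat_lit 188924119358) (nat_lit 152) (nat_lit 210125529442) (nat_lit 0) (nat_lit 185604243123) (nat_lit 1) (nat_lit 5) (nat_lit 3) (nat_lit 4) (nat_lit 1) (nat_lit 4) (nat_lit 426) (nat_lit 326) (nat_lit 268))))) (XT.nd (nat_lit 156) (nat_lit 0) (nat_lit 0) (XT.nd (nat_lit 78) (nat_lit 0) (nat_lit 0) (XT.lf (nat_lit 0) (nat_lit 210090135250) (nat_lit 152) (nat_lit 214062698868) (nat_lit 0) (nat_lit 206767393240) (nat_lit 1) (nat_lit 5) (nat_lit 3) (nat_lit 4) (nat_lit 1) (nat_lit 4) (nat_lit 427) (nat_lit 326) (nat_lit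 267)) (XT.lf (nat_lit 0) (nat_lit 232939270663) (nat_lit 152) (nat_lit 218335537252) (nat_lit 0) (nat_lit 229613875157) (nat_lit 1) (nat_lit 5) (nat_lit 3) (nat_lit 4) (nat_lit 1) (nat_lit 4) (nat_lit 428) (nat_lit 326) (nat_lit 266))) (XT.nd (nat_lit 78) (nat_lit 0) (nat_lit 0) (XT.lf (nat_lit 0) (nat_lit 257606927880) (nat_lit 152) (nat_lit 222969365118) (nat_lit 0) (nat_lit 254279075434) (nat_lit 1) (nat_lit 5) (nat_lit 3) (nat_lit 4) (nat_lit 1) (nat_lit 4) (nat_lit 429) (nat_lit 326) (nat_lit 265)) (XT.nd (nat_lit 78) (nat_lit 0) (nat_lit 0) (XT.lf (nat_lit 0) (nat_lit 284239285612) (nat_lit 152) (nat_lit 227991642187) (nat_lit 0) (nat_lit 280909158221) (nat_lit 1) (nat_lit 5) (nat_lit 3) (nat_lit 4) (nat_lit 1) (nat_lit 4) (nat_lit 430) (nat_lit 326) (nat_lit 264)) (XT.lf (nat_lit 0) (nat_lit 312994165236) (nat_lit 152) (nat_lit 233432130101) (nat_lit 0) (nat_lit 309661931416) (nat_lit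 1) (nat_lit 5) (nat_lit 3) (nat_lit 4) (nat_lit 1) (nat_lit 4) (nat_lit 431) (nat_lit 326) (nat_lit 263)))))) (XT.nd (nat_lit 390) (nat_lit 0) (nat_lit 0) (XT.nd (nat_lit 156) (nat_lit 0) (nat_lit 0) (XT.nd (nat_lit 78) (nat_lit 0) (nat_lit 0) (XT.lf (nat_lit 0) (nat_lit 344041966041) (nat_lit 152) (nat_lit 239323068789) (nat_lit 0) (nat_lit 340707781823) (nat_lit 1) (nat_lit 5) (nat_lit 3) (nat_lit 4) (nat_lit 1) (nat_lit 4) (nat_lit 432) (nat_lit 326) (nat_lit 262)) (XT.lf (nat_lit 0) (nat_lit 377566674994) (nat_lit 152) (nat_lit 245699367516) (nat_lit 0) (nat_lit 374230684852) (nat_lit 1) (nat_lit 5) (nat_lit 3) (nat_lit 4) (nat_lit 1) (nat_lit 4) (nat_lit 433) (nat_lit 326) (nat_lit 261))) (XT.nd (nat_lit 78) (nat_lit 0) (nat_lit 0) (XT.lf (nat_lit 0) (nat_lit 413766957037) (nat_lit 152) (nat_lit 252598811756) (nat_lit 0) (nat_lit 410429294742) (nat_lit 1) (nat_lit 5) (nat_lit 3) (nat_lit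 4) (nat_lit 1) (nat_lit 4) (nat_lit 434) (nat_lit 326) (nat_lit 260)) (XT.nd (nat_lit 78) (nat_lit 0) (nat_lit 0) (XT.lf (nat_lit 0) (nat_lit 452857332359) (nat_lit 152) (nat_lit 260062287106) (nat_lit 0) (nat_lit 449518121775) (nat_lit 1) (nat_lit 5) (nat_lit 3) (nat_lit 4) (nat_lit 1) (nat_lit 4) (nat_lit 435) (nat_lit 326) (nat_lit 259)) (XT.lf (nat_lit 0) (nat_lit 495069447629) (nat_lit 152) (nat_lit 268134021567) (nat_lit 0) (nat_lit 491728803444) (nat_lit 1) (nat_lit 5) (nat_lit 3) (nat_lit 4) (nat_lit 1) (nat_lit 4) (nat_lit 436) (nat_lit 326) (nat_lit 258))))) (XT.nd (nat_lit 156) (nat_lit 0) (nat_lit 0) (XT.nd (nat_lit 78) (nat_lit 0) (nat_lit 0) (XT.lf (nat_lit 0) (nat_lit 540653448715) (nat_lit 152) (nat_lit 276861847639) (nat_lit 0) (nat_lit 537311477122) (nat_lit 1) (nat_lit 5) (nat_lit 3) (nat_lit 4) (nat_lit 1) (nat_lit 4) (nat_lit 437) (nat_lit 326) (nat_lit 257)) (XT.lf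 (nat_lit 0) (nat_lit 589879463032) (nat_lit 152) (nat_lit 286297485774) (nat_lit 0) (nat_lit 586536262357) (nat_lit 1) (nat_lit 5) (nat_lit 3) (nat_lit 4) (nat_lit 1) (nat_lit 4) (nat_lit 438) (nat_lit 326) (nat_lit 256))) (XT.nd (nat_lit 78) (nat_lit 0) (nat_lit 0) (XT.lf (nat_lit 0) (nat_lit 643039200294) (nat_lit 152) (nat_lit 296496850864) (nat_lit 0) (nat_lit 639694861580) (nat_lit 1) (nat_lit 5) (nat_lit 3) (nat_lit 4) (nat_lit 1) (nat_lit 4) (nat_lit 439) (nat_lit 326) (nat_lit 255)) (XT.nd (nat_lit 78) (nat_lit 0) (nat_lit 0) (XT.lf (nat_lit 0) (nat_lit 700447681165) (nat_lit 152) (nat_lit 307520383591) (nat_lit 0) (nat_lit 697102288712) (nat_lit 1) (nat_lit 5) (nat_lit 3) (nat_lit 4) (nat_lit 1) (nat_lit 4) (nat_lit 440) (nat_lit 326) (nat_lit 254)) (XT.lf (nat_lit 0) (nat_lit 762445104052) (nat_lit 152) (nat_lit 319433408594) (nat_lit 0) (nat_lit 759098735914) (nat_lit 1) (nat_lit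 5) (nat_lit 3) (nat_lit 4) (nat_lit 1) (nat_lit 4) (nat_lit 441) (nat_lit 326) (nat_lit 253))))))) (XT.nd (nat_lit 780) (nat_lit 0) (nat_lit 0) (XT.nd (nat_lit 390) (nat_lit 0) (nat_lit 0) (XT.nd (nat_lit 156) (nat_lit 0) (nat_lit 0) (XT.nd (nat_lit 78) (nat_lit 0) (nat_lit 0) (XT.lf (nat_lit 0) (nat_lit 829398861089) (nat_lit 152) (nat_lit 332306521576) (nat_lit 0) (nat_lit 826051589540) (nat_lit 1) (nat_lit 5) (nat_lit 3) (nat_lit 4) (nat_lit 1) (nat_lit 4) (nat_lit 442) (nat_lit 326) (nat_lit 252)) (XT.lf (nat_lit 0) (nat_lit 901705715282) (nat_lit 152) (nat_lit 346216007651) (nat_lit 0) (nat_lit 898357607241) (nat_lit 1) (nat_lit 5) (nat_lit 3) (nat_lit 4) (nat_lit 1) (nat_lit 4) (nat_lit 443) (nat_lit 326) (nat_lit 251))) (XT.nd (nat_lit 78) (nat_lit 0) (nat_lit 0) (XT.lf (nat_lit 0) (nat_lit 979794151692) (nat_lit 152) (nat_lit 361244293403) (nat_lit 0) (nat_lit 976445269121) (nat_lit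 1) (nat_lit 5) (nat_lit 3) (nat_lit 4) (nat_lit 1) (nat_lit 4) (nat_lit 444) (nat_lit 326) (nat_lit 250)) (XT.nd (nat_lit 78) (nat_lit 0) (nat_lit 0) (XT.lf (nat_lit 0) (nat_lit 1064126916610) (nat_lit 152) (nat_lit 377480435340) (nat_lit 0) (nat_lit 1060777316881) (nat_lit 1) (nat_lit 5) (nat_lit 3) (nat_lit 4) (nat_lit 1) (nat_lit 4) (nat_lit 445) (nat_lit 326) (nat_lit 249)) (XT.lf (nat_lit 0) (nat_lit 1155203759752) (nat_lit 152) (nat_lit 395020647638) (nat_lit 0) (nat_lit 1151853495989) (nat_lit 1) (nat_lit 5) (nat_lit 3) (nat_lit 4) (nat_lit 1) (nat_lit 4) (nat_lit 446) (nat_lit 326) (nat_lit 248))))) (XT.nd (nat_lit 156) (nat_lit 0) (nat_lit 0) (XT.nd (nat_lit 78) (nat_lit 0) (nat_lit 0) (XT.lf (nat_lit 0) (nat_lit 1253564395746) (nat_lit 152) (nat_lit 413968872294) (nat_lit 0) (nat_lit 1250213517136) (nat_lit 1) (nat_lit 5) (nat_lit 3) (nat_lit 4) (nat_lit 1) (nat_lit 4) (nat_lit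 447) (nat_lit 326) (nat_lit 247)) (XT.lf (nat_lit 0) (nat_lit 1359791702434) (nat_lit 152) (nat_lit 434437395085) (nat_lit 0) (nat_lit 1356440254521) (nat_lit 1) (nat_lit 5) (nat_lit 3) (nat_lit 4) (nat_lit 1) (nat_lit 4) (nat_lit 448) (nat_lit 326) (nat_lit 246))) (XT.nd (nat_lit 78) (nat_lit 0) (nat_lit 0) (XT.lf (nat_lit 0) (nat_lit 1474515174967) (nat_lit 152) (nat_lit 456547510960) (nat_lit 0) (nat_lit 1471163199922) (nat_lit 1) (nat_lit 5) (nat_lit 3) (nat_lit 4) (nat_lit 1) (nat_lit 4) (nat_lit 449) (nat_lit 326) (nat_lit 245)) (XT.nd (nat_lit 78) (nat_lit 0) (nat_lit 0) (XT.lf (nat_lit 0) (nat_lit 1598414656145) (nat_lit 152) (nat_lit 480430242828) (nat_lit 0) (nat_lit 1595062193015) (nat_lit 1) (nat_lit 5) (nat_lit 3) (nat_lit 4) (nat_lit 1) (nat_lit 4) (nat_lit 450) (nat_lit 326) (nat_lit 244)) (XT.lf (nat_lit 0) (nat_lit 1732224365116) (nat_lit 152) (nat_lit 506227117990) (nat_lit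 0) (nat_lit 1728871450055) (nat_lit 1) (nat_lit 5) (nat_lit 3) (nat_lit 4) (nat_lit 1) (nat_lit 4) (nat_lit 451) (nat_lit 326) (nat_lit 243)))))) (XT.nd (nat_lit 390) (nat_lit 0) (nat_lit 0) (XT.nd (nat_lit 156) (nat_lit 0) (nat_lit 0) (XT.nd (nat_lit 78) (nat_lit 0) (nat_lit 0) (XT.lf (nat_lit 0) (nat_lit 1876737248303) (nat_lit 152) (nat_lit 534091006816) (nat_lit 0) (nat_lit 1873383914787) (nat_lit 1) (nat_lit 5) (nat_lit 3) (nat_lit 4) (nat_lit 1) (nat_lit 4) (nat_lit 452) (nat_lit 326) (nat_lit 242)) (XT.lf (nat_lit 0) (nat_lit 2032809678347) (nat_lit 152) (nat_lit 564187028648) (nat_lit 0) (nat_lit 2029455957374) (nat_lit 1) (nat_lit 5) (nat_lit 3) (nat_lit 4) (nat_lit 1) (nat_lit 4) (nat_lit 453) (nat_lit 326) (nat_lit 241))) (XT.nd (nat_lit 78) (nat_lit 0) (nat_lit 0) (XT.lf (nat_lit 0) (nat_lit 2201366528909) (nat_lit 152) (nat_lit 596693530281) (nat_lit 0) (nat_lit 2198012449178)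 (nat_lit 1) (nat_lit 5) (nat_lit 3) (nat_lit 4) (nat_lit 1) (nat_lit 4) (nat_lit 454) (nat_lit 326) (nat_lit 240)) (XT.nd (nat_lit 78) (nat_lit 0) (nat_lit 0) (XT.lf (nat_lit 0) (nat_lit 2383406655398) (nat_lit 152) (nat_lit 631803142837) (nat_lit 0) (nat_lit 2380052243485) (nat_lit 1) (nat_lit 5) (nat_lit 3) (nat_lit 4) (nat_lit 1) (nat_lit 4) (nat_lit 455) (nat_lit 326) (nat_lit 239)) (XT.lf (nat_lit 0) (nat_lit 2580008814120) (nat_lit 152) (nat_lit 669723923279) (nat_lit 0) (nat_lit 2576654094630) (nat_lit 1) (nat_lit 5) (nat_lit 3) (nat_lit 4) (nat_lit 1) (nat_lit 4) (nat_lit 456) (nat_lit 326) (nat_lit 238))))) (XT.nd (nat_lit 234) (nat_lit 0) (nat_lit 0) (XT.nd (nat_lit 78) (nat_lit 0) (nat_lit 0) (XT.lf (nat_lit 0) (nat_lit 2792338054904) (nat_lit 152) (nat_lit 710680587342) (nat_lit 0) (nat_lit 2788983050622) (nat_lit 1) (nat_lit 5) (nat_lit 3) (nat_lit 4) (nat_lit 1) (nat_lit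 4) (nat_lit 457) (nat_lit 326) (nat_lit 237)) (XT.nd (nat_lit 78) (nat_lit 0) (nat_lit 0) (XT.lf (nat_lit 0) (nat_lit 3021652625104) (nat_lit 152) (nat_lit 754915841185) (nat_lit 0) (nat_lit 3018297357124) (nat_lit 1) (nat_lit 5) (nat_lit 3) (nat_lit 4) (nat_lit 1) (nat_lit 4) (nat_lit 458) (nat_lit 326) (nat_lit 236)) (XT.lf (nat_lit 0) (nat_lit 3269311425875) (nat_lit 152) (nat_lit 802691819645) (nat_lit 0) (nat_lit 3265955913731) (nat_lit 1) (nat_lit 5) (nat_lit 3) (nat_lit 4) (nat_lit 1) (nat_lit 4) (nat_lit 459) (nat_lit 326) (nat_lit 235)))) (XT.nd (nat_lit 78) (nat_lit 0) (nat_lit 0) (XT.lf (nat_lit 0) (nat_lit 3536782064926) (nat_lit 152) (nat_lit 854291639630) (nat_lit 0) (nat_lit 3533426326704) (nat_lit 1) (nat_lit 5) (nat_lit 3) (nat_lit 4) (nat_lit 1) (nat_lit 4) (nat_lit 460) (nat_lit 326) (nat_lit 234)) (XT.nd (nat_lit 78) (nat_lit 0) (nat_lit 0) (XT.lf (nat_lit 0) (nat_lit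 3825649553452) (nat_lit 152) (nat_lit 910021077853) (nat_lit 0) (nat_lit 3822293605899) (nat_lit 1) (nat_lit 5) (nat_lit 3) (nat_lit 4) (nat_lit 1) (nat_lit 4) (nat_lit 461) (nat_lit 326) (nat_lit 233)) (XT.lf (nat_lit 0) (nat_lit 4137625698792) (nat_lit 152) (nat_lit 970210382836) (nat_lit 0) (nat_lit 4134269557413) (nat_lit 1) (nat_lit 5) (nat_lit 3) (nat_lit 4) (nat_lit 1) (nat_lit 4) (nat_lit 462) (nat_lit 326) (nat_lit 232))))))))
noncomputable def xc59 : XT := (XT.nd (nat_lit 47034) (nat_lit 0) (nat_lit 152) (XT.nd (nat_lit 46176) (nat_lit 0) (nat_lit 684) (XT.nd (nat_lit 45786) (nat_lit 0) (nat_lit 1368) (XT.nd (nat_lit 45552) (nat_lit 0) (nat_lit 1824) (XT.nd (nat_lit 78) (nat_lit 0) (nat_lit 0) (XT.lf (nat_lit 0) (nat_lit 4474559248474) (nat_lit 152) (nat_lit 1035216231942) (nat_lit 0) (nat_lit 4471202927627) (nat_lit 1) (nat_lit 5) (nat_lit 3) (nat_lit 4) (nat_lit 1) (nat_lit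 4) (nat_lit 463) (nat_lit 326) (nat_lit 231)) (XT.lf (nat_lit 0) (nat_lit 4838446845754) (nat_lit 152) (nat_lit 1105423845017) (nat_lit 0) (nat_lit 4835090358734) (nat_lit 1) (nat_lit 5) (nat_lit 3) (nat_lit 4) (nat_lit 1) (nat_lit 4) (nat_lit 464) (nat_lit 326) (nat_lit 230))) (XT.nd (nat_lit 78) (nat_lit 152) (nat_lit 0) (XT.lf (nat_lit 0) (nat_lit 1609973335) (nat_lit 152) (nat_lit 2152471465) (nat_lit 152) (nat_lit 2152471465) (nat_lit 27) (nat_lit 4) (nat_lit 29) (nat_lit 5) (nat_lit 29) (nat_lit 4) (nat_lit 366) (nat_lit 327) (nat_lit 327)) (XT.nd (nat_lit 78) (nat_lit 0) (nat_lit 0) (XT.lf (nat_lit 0) (nat_lit 819510227) (nat_lit 152) (nat_lit 11179793775) (nat_lit 0) (nat_lit 322192793) (nat_lit 25) (nat_lit 5) (nat_lit 27) (nat_lit 4) (nat_lit 25) (nat_lit 4) (nat_lit 367) (nat_lit 327) (nat_lit 326)) (XT.lf (nat_lit 0) (nat_lit 6175957717) (nat_lit 152) (nat_lit 1445148283) (nat_lit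 0) (nat_lit 5218161176) (nat_lit 25) (nat_lit 5) (nat_lit 27) (nat_lit 4) (nat_lit 25) (nat_lit 4) (nat_lit 368) (nat_lit 327) (nat_lit 325))))) (XT.nd (nat_lit 156) (nat_lit 228) (nat_lit 0) (XT.nd (nat_lit 78) (nat_lit 152) (nat_lit 0) (XT.lf (nat_lit 0) (nat_lit 9014770700) (nat_lit 76) (nat_lit 2886359502) (nat_lit 76) (nat_lit 1502193418) (nat_lit 24) (nat_lit 4) (nat_lit 25) (nat_lit 5) (nat_lit 25) (nat_lit 4) (nat_lit 369) (nat_lit 327) (nat_lit 324)) (XT.lf (nat_lit 0) (nat_lit 3835404830) (nat_lit 152) (nat_lit 7983726239) (nat_lit 0) (nat_lit 2188226407) (nat_lit 22) (nat_lit 5) (nat_lit 24) (nat_lit 4) (nat_lit 22) (nat_lit 4) (nat_lit 370) (nat_lit 327) (nat_lit 323))) (XT.nd (nat_lit 78) (nat_lit 152) (nat_lit 0) (XT.lf (nat_lit 0) (nat_lit 2359862709) (nat_lit 76) (nat_lit 7141902835) (nat_lit 76) (nat_lit 5156258522) (nat_lit 21) (nat_lit 4) (nat_lit 22) (nat_lit 5) (nat_lit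 22) (nat_lit 4) (nat_lit 371) (nat_lit 327) (nat_lit 322)) (XT.nd (nat_lit 78) (nat_lit 76) (nat_lit 0) (XT.lf (nat_lit 0) (nat_lit 200985147) (nat_lit 152) (nat_lit 1880989549) (nat_lit 76) (nat_lit 13282056171) (nat_lit 20) (nat_lit 5) (nat_lit 22) (nat_lit 5) (nat_lit 21) (nat_lit 4) (nat_lit 372) (nat_lit 327) (nat_lit 321)) (XT.lf (nat_lit 0) (nat_lit 5764747902) (nat_lit 152) (nat_lit 6979262964) (nat_lit 0) (nat_lit 3367323270) (nat_lit 19) (nat_lit 5) (nat_lit 21) (nat_lit 4) (nat_lit 19) (nat_lit 4) (nat_lit 373) (nat_lit 327) (nat_lit 320)))))) (XT.nd (nat_lit 390) (nat_lit 380) (nat_lit 0) (XT.nd (nat_lit 156) (nat_lit 152) (nat_lit 0) (XT.nd (nat_lit 78) (nat_lit 76) (nat_lit 0) (XT.lf (nat_lit 0) (nat_lit 3882445357) (nat_lit 76) (nat_lit 7843040452) (nat_lit 76) (nat_lit 5196833288) (nat_lit 18) (nat_lit 4) (nat_lit 19) (nat_lit 5) (nat_lit 19) (nat_lit 4) (nat_lit 374) (nat_lit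 327) (nat_lit 319)) (XT.lf (nat_lit 0) (nat_lit 295039400) (nat_lit 152) (nat_lit 2262879407) (nat_lit 76) (nat_lit 15243731121) (nat_lit 17) (nat_lit 5) (nat_lit 19) (nat_lit 5) (nat_lit 18) (nat_lit 4) (nat_lit 375) (nat_lit 327) (nat_lit 318))) (XT.nd (nat_lit 78) (nat_lit 76) (nat_lit 0) (XT.lf (nat_lit 0) (nat_lit 6019182188) (nat_lit 152) (nat_lit 9557281429) (nat_lit 0) (nat_lit 3158207850) (nat_lit 16) (nat_lit 5) (nat_lit 18) (nat_lit 4) (nat_lit 16) (nat_lit 4) (nat_lit 376) (nat_lit 327) (nat_lit 317)) (XT.nd (nat_lit 78) (nat_lit 0) (nat_lit 0) (XT.lf (nat_lit 0) (nat_lit 1487934659) (nat_lit 76) (nat_lit 10651604589) (nat_lit 76) (nat_lit 7607767662) (nat_lit 15) (nat_lit 4) (nat_lit 16) (nat_lit 5) (nat_lit 16) (nat_lit 4) (nat_lit 377) (nat_lit 327) (nat_lit 316)) (XT.lf (nat_lit 0) (nat_lit 13528865831) (nat_lit 76) (nat_lit 5261022333) (nat_lit 76) (nat_lit 2047868195)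 (nat_lit 15) (nat_lit 4) (nat_lit 16) (nat_lit 5) (nat_lit 16) (nat_lit 4) (nat_lit 378) (nat_lit 327) (nat_lit 315))))) (XT.nd (nat_lit 234) (nat_lit 152) (nat_lit 0) (XT.nd (nat_lit 78) (nat_lit 76) (nat_lit 0) (XT.lf (nat_lit 0) (nat_lit 3664301050) (nat_lit 152) (nat_lit 17807126168) (nat_lit 0) (nat_lit 543996111) (nat_lit 13) (nat_lit 5) (nat_lit 15) (nat_lit 4) (nat_lit 13) (nat_lit 4) (nat_lit 379) (nat_lit 327) (nat_lit 314)) (XT.nd (nat_lit 78) (nat_lit 76) (nat_lit 0) (XT.lf (nat_lit 0) (nat_lit 9855767368) (nat_lit 152) (nat_lit 6815616670) (nat_lit 0) (nat_lit 6601052967) (nat_lit 13) (nat_lit 5) (nat_lit 15) (nat_lit 4) (nat_lit 13) (nat_lit 4) (nat_lit 380) (nat_lit 327) (nat_lit 313)) (XT.lf (nat_lit 0) (nat_lit 4920046173) (nat_lit 76) (nat_lit 11547575618) (nat_lit 76) (nat_lit 8168408012) (nat_lit 12) (nat_lit 4) (nat_lit 13) (nat_lit 5) (nat_lit 13) (nat_lit 4) (nat_lit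 381) (nat_lit 327) (nat_lit 312)))) (XT.nd (nat_lit 78) (nat_lit 152) (nat_lit 0) (XT.lf (nat_lit 0) (nat_lit 17610537017) (nat_lit 76) (nat_lit 5996359617) (nat_lit 76) (nat_lit 2501957562) (nat_lit 12) (nat_lit 4) (nat_lit 13) (nat_lit 5) (nat_lit 13) (nat_lit 4) (nat_lit 382) (nat_lit 327) (nat_lit 311)) (XT.nd (nat_lit 78) (nat_lit 0) (nat_lit 0) (XT.lf (nat_lit 0) (nat_lit 3338856564) (nat_lit 152) (nat_lit 24357039966) (nat_lit 0) (nat_lit 4504139) (nat_lit 10) (nat_lit 5) (nat_lit 12) (nat_lit 4) (nat_lit 10) (nat_lit 4) (nat_lit 383) (nat_lit 327) (nat_lit 310)) (XT.lf (nat_lit 0) (nat_lit 9728231648) (nat_lit 152) (nat_lit 13366138029) (nat_lit 0) (nat_lit 6302402402) (nat_lit 10) (nat_lit 5) (nat_lit 12) (nat_lit 4) (nat_lit 10) (nat_lit 4) (nat_lit 384) (nat_lit 327) (nat_lit 309))))))) (XT.nd (nat_lit 780) (nat_lit 228) (nat_lit 0) (XT.nd (nat_lit 390) (nat_lit 76) (nat_lit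 0) (XT.nd (nat_lit 156) (nat_lit 152) (nat_lit 0) (XT.nd (nat_lit 78) (nat_lit 76) (nat_lit 0) (XT.lf (nat_lit 0) (nat_lit 16464240599) (nat_lit 152) (nat_lit 1824079427) (nat_lit 0) (nat_lit 12953710592) (nat_lit 10) (nat_lit 5) (nat_lit 12) (nat_lit 4) (nat_lit 10) (nat_lit 4) (nat_lit 385) (nat_lit 327) (nat_lit 308)) (XT.lf (nat_lit 0) (nat_lit 10881889405) (nat_lit 76) (nat_lit 12966620803) (nat_lit 76) (nat_lit 9377664166) (nat_lit 9) (nat_lit 4) (nat_lit 10) (nat_lit 5) (nat_lit 10) (nat_lit 4) (nat_lit 386) (nat_lit 327) (nat_lit 307))) (XT.nd (nat_lit 78) (nat_lit 152) (nat_lit 0) (XT.lf (nat_lit 0) (nat_lit 24411953528) (nat_lit 76) (nat_lit 7313273673) (nat_lit 76) (nat_lit 3651699787) (nat_lit 9) (nat_lit 4) (nat_lit 10) (nat_lit 5) (nat_lit 10) (nat_lit 4) (nat_lit 387) (nat_lit 327) (nat_lit 306)) (XT.nd (nat_lit 78) (nat_lit 0) (nat_lit 0) (XT.lf (nat_lit 0) (nat_lit 1033890566)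 (nat_lit 76) (nat_lit 1255870321) (nat_lit 152) (nat_lit 35414390775) (nat_lit 7) (nat_lit 5) (nat_lit 8) (nat_lit 5) (nat_lit 9) (nat_lit 4) (nat_lit 388) (nat_lit 327) (nat_lit 305)) (XT.lf (nat_lit 0) (nat_lit 8803722362) (nat_lit 152) (nat_lit 26089224659) (nat_lit 0) (nat_lit 5293472669) (nat_lit 7) (nat_lit 5) (nat_lit 9) (nat_lit 4) (nat_lit 7) (nat_lit 4) (nat_lit 389) (nat_lit 327) (nat_lit 304))))) (XT.nd (nat_lit 156) (nat_lit 76) (nat_lit 0) (XT.nd (nat_lit 78) (nat_lit 0) (nat_lit 0) (XT.lf (nat_lit 0) (nat_lit 15741559906) (nat_lit 152) (nat_lit 14955564316) (nat_lit 0) (nat_lit 12177934367) (nat_lit 7) (nat_lit 5) (nat_lit 9) (nat_lit 4) (nat_lit 7) (nat_lit 4) (nat_lit 390) (nat_lit 327) (nat_lit 303)) (XT.lf (nat_lit 0) (nat_lit 23114182920) (nat_lit 152) (nat_lit 3173099110) (nat_lit 0) (nat_lit 19501135301) (nat_lit 7) (nat_lit 5) (nat_lit 9) (nat_lit 4) (nat_lit 7)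 (nat_lit 4) (nat_lit 391) (nat_lit 327) (nat_lit 302))) (XT.nd (nat_lit 78) (nat_lit 0) (nat_lit 0) (XT.lf (nat_lit 0) (nat_lit 9819188555) (nat_lit 76) (nat_lit 21382244187) (nat_lit 76) (nat_lit 17723435383) (nat_lit 6) (nat_lit 4) (nat_lit 7) (nat_lit 5) (nat_lit 7) (nat_lit 4) (nat_lit 392) (nat_lit 327) (nat_lit 301)) (XT.nd (nat_lit 78) (nat_lit 0) (nat_lit 0) (XT.lf (nat_lit 0) (nat_lit 23813015991) (nat_lit 76) (nat_lit 16101066854) (nat_lit 76) (nat_lit 12399886581) (nat_lit 6) (nat_lit 4) (nat_lit 7) (nat_lit 5) (nat_lit 7) (nat_lit 4) (nat_lit 393) (nat_lit 327) (nat_lit 300)) (XT.lf (nat_lit 0) (nat_lit 38724219806) (nat_lit 76) (nat_lit 10499212317) (nat_lit 76) (nat_lit 6758799204) (nat_lit 6) (nat_lit 4) (nat_lit 7) (nat_lit 5) (nat_lit 7) (nat_lit 4) (nat_lit 394) (nat_lit 327) (nat_lit 299)))))) (XT.nd (nat_lit 390) (nat_lit 76) (nat_lit 0) (XT.nd (nat_lit 156) (nat_lit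 0) (nat_lit 0) (XT.nd (nat_lit 78) (nat_lit 152) (nat_lit 0) (XT.lf (nat_lit 0) (nat_lit 54641162689) (nat_lit 76) (nat_lit 4543484402) (nat_lit 76) (nat_lit 766744585) (nat_lit 6) (nat_lit 4) (nat_lit 7) (nat_lit 5) (nat_lit 7) (nat_lit 4) (nat_lit 395) (nat_lit 327) (nat_lit 298)) (XT.lf (nat_lit 0) (nat_lit 5566935994) (nat_lit 152) (nat_lit 56609557992) (nat_lit 0) (nat_lit 2038810388) (nat_lit 4) (nat_lit 5) (nat_lit 6) (nat_lit 4) (nat_lit 4) (nat_lit 4) (nat_lit 396) (nat_lit 327) (nat_lit 297))) (XT.nd (nat_lit 78) (nat_lit 0) (nat_lit 0) (XT.lf (nat_lit 0) (nat_lit 12544879003) (nat_lit 152) (nat_lit 47271627885) (nat_lit 0) (nat_lit 8987916088) (nat_lit 4) (nat_lit 5) (nat_lit 6) (nat_lit 4) (nat_lit 4) (nat_lit 4) (nat_lit 397) (nat_lit 327) (nat_lit 296)) (XT.nd (nat_lit 78) (nat_lit 0) (nat_lit 0) (XT.lf (nat_lit 0) (nat_lit 19999591949) (nat_lit 152) (nat_lit 37351673618)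 (nat_lit 0) (nat_lit 16415927822) (nat_lit 4) (nat_lit 5) (nat_lit 6) (nat_lit 4) (nat_lit 4) (nat_lit 4) (nat_lit 398) (nat_lit 327) (nat_lit 295)) (XT.lf (nat_lit 0) (nat_lit 27975250909) (nat_lit 152) (nat_lit 26790910276) (nat_lit 0) (nat_lit 24366863437) (nat_lit 4) (nat_lit 5) (nat_lit 6) (nat_lit 4) (nat_lit 4) (nat_lit 4) (nat_lit 399) (nat_lit 327) (nat_lit 294))))) (XT.nd (nat_lit 234) (nat_lit 0) (nat_lit 0) (XT.nd (nat_lit 78) (nat_lit 76) (nat_lit 0) (XT.lf (nat_lit 0) (nat_lit 36519119047) (nat_lit 152) (nat_lit 15526755559) (nat_lit 0) (nat_lit 32887839589) (nat_lit 4) (nat_lit 5) (nat_lit 6) (nat_lit 4) (nat_lit 4) (nat_lit 4) (nat_lit 400) (nat_lit 327) (nat_lit 293)) (XT.nd (nat_lit 78) (nat_lit 76) (nat_lit 0) (XT.lf (nat_lit 0) (nat_lit 45681826692) (nat_lit 152) (nat_lit 3492458921) (nat_lit 0) (nat_lit 42029350952) (nat_lit 4) (nat_lit 5) (nat_lit 6) (nat_lit 4) (nat_lit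 4) (nat_lit 4) (nat_lit 401) (nat_lit 327) (nat_lit 292)) (XT.lf (nat_lit 0) (nat_lit 9877401622) (nat_lit 76) (nat_lit 45877821496) (nat_lit 76) (nat_lit 42205719568) (nat_lit 3) (nat_lit 4) (nat_lit 4) (nat_lit 5) (nat_lit 4) (nat_lit 4) (nat_lit 402) (nat_lit 327) (nat_lit 291)))) (XT.nd (nat_lit 78) (nat_lit 0) (nat_lit 0) (XT.lf (nat_lit 0) (nat_lit 24397253353) (nat_lit 76) (nat_lit 42274440751) (nat_lit 76) (nat_lit 38584166426) (nat_lit 3) (nat_lit 4) (nat_lit 4) (nat_lit 5) (nat_lit 4) (nat_lit 4) (nat_lit 403) (nat_lit 327) (nat_lit 290)) (XT.nd (nat_lit 78) (nat_lit 0) (nat_lit 0) (XT.lf (nat_lit 0) (nat_lit 39969233139) (nat_lit 76) (nat_lit 38438280026) (nat_lit 76) (nat_lit 34731179408) (nat_lit 3) (nat_lit 4) (nat_lit 4) (nat_lit 5) (nat_lit 4) (nat_lit 4) (nat_lit 404) (nat_lit 327) (nat_lit 289)) (XT.lf (nat_lit 0) (nat_lit 56685619378) (nat_lit 76) (nat_lit 34346606517)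 (nat_lit 76) (nat_lit 30623925998) (nat_lit 3) (nat_lit 4) (nat_lit 4) (nat_lit 5) (nat_lit 4) (nat_lit 4) (nat_lit 405) (nat_lit 327) (nat_lit 288))))))))
noncomputable def xc60 : XT := (XT.nd (nat_lit 1560) (nat_lit 0) (nat_lit 0) (XT.nd (nat_lit 780) (nat_lit 0) (nat_lit 0) (XT.nd (nat_lit 390) (nat_lit 152) (nat_lit 0) (XT.nd (nat_lit 156) (nat_lit 0) (nat_lit 0) (XT.nd (nat_lit 78) (nat_lit 0) (nat_lit 0) (XT.lf (nat_lit 0) (nat_lit 74645472138) (nat_lit 76) (nat_lit 29975173269) (nat_lit 76) (nat_lit 26238066917) (nat_lit 3) (nat_lit 4) (nat_lit 4) (nat_lit 5) (nat_lit 4) (nat_lit 4) (nat_lit 406) (nat_lit 327) (nat_lit 287)) (XT.lf (nat_lit 0) (nat_lit 93955220175) (nat_lit 76) (nat_lit 25298075494) (nat_lit 76) (nat_lit 21547611888) (nat_lit 3) (nat_lit 4) (nat_lit 4) (nat_lit 5) (nat_lit 4) (nat_lit 4) (nat_lit 407) (nat_lit 327) (nat_lit 286))) (XT.nd (nat_lit 78) (nat_lit 0)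 (nat_lit 0) (XT.lf (nat_lit 0) (nat_lit 114729291626) (nat_lit 76) (nat_lit 20287597056) (nat_lit 76) (nat_lit 16524765623) (nat_lit 3) (nat_lit 4) (nat_lit 4) (nat_lit 5) (nat_lit 4) (nat_lit 4) (nat_lit 408) (nat_lit 327) (nat_lit 285)) (XT.nd (nat_lit 78) (nat_lit 0) (nat_lit 0) (XT.lf (nat_lit 0) (nat_lit 137090792099) (nat_lit 76) (nat_lit 14914046232) (nat_lit 76) (nat_lit 11139763106) (nat_lit 3) (nat_lit 4) (nat_lit 4) (nat_lit 5) (nat_lit 4) (nat_lit 4) (nat_lit 409) (nat_lit 327) (nat_lit 284)) (XT.lf (nat_lit 0) (nat_lit 161172234190) (nat_lit 76) (nat_lit 9145579756) (nat_lit 76) (nat_lit 5360693211) (nat_lit 3) (nat_lit 4) (nat_lit 4) (nat_lit 5) (nat_lit 4) (nat_lit 4) (nat_lit 410) (nat_lit 327) (nat_lit 283))))) (XT.nd (nat_lit 156) (nat_lit 0) (nat_lit 0) (XT.nd (nat_lit 78) (nat_lit 76) (nat_lit 0) (XT.lf (nat_lit 0) (nat_lit 804335517) (nat_lit 152) (nat_lit 2121686649)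 (nat_lit 76) (nat_lit 186289995266) (nat_lit 2) (nat_lit 5) (nat_lit 4) (nat_lit 5) (nat_lit 3) (nat_lit 4) (nat_lit 411) (nat_lit 327) (nat_lit 282)) (XT.lf (nat_lit 0) (nat_lit 7524194155) (nat_lit 152) (nat_lit 192270935809) (nat_lit 0) (nat_lit 4002161519) (nat_lit 1) (nat_lit 5) (nat_lit 3) (nat_lit 4) (nat_lit 1) (nat_lit 4) (nat_lit 412) (nat_lit 327) (nat_lit 281))) (XT.nd (nat_lit 78) (nat_lit 0) (nat_lit 0) (XT.lf (nat_lit 0) (nat_lit 14887312476) (nat_lit 152) (nat_lit 193291816778) (nat_lit 0) (nat_lit 11357486010) (nat_lit 1) (nat_lit 5) (nat_lit 3) (nat_lit 4) (nat_lit 1) (nat_lit 4) (nat_lit 413) (nat_lit 327) (nat_lit 280)) (XT.nd (nat_lit 78) (nat_lit 0) (nat_lit 0) (XT.lf (nat_lit 0) (nat_lit 22811844124) (nat_lit 152) (nat_lit 194450651939) (nat_lit 0) (nat_lit 19274801150) (nat_lit 1) (nat_lit 5) (nat_lit 3) (nat_lit 4) (nat_lit 1) (nat_lit 4) (nat_lit 414) (nat_lit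 327) (nat_lit 279)) (XT.lf (nat_lit 0) (nat_lit 31344749288) (nat_lit 152) (nat_lit 195754308461) (nat_lit 0) (nat_lit 27801024362) (nat_lit 1) (nat_lit 5) (nat_lit 3) (nat_lit 4) (nat_lit 1) (nat_lit 4) (nat_lit 415) (nat_lit 327) (nat_lit 278)))))) (XT.nd (nat_lit 390) (nat_lit 0) (nat_lit 0) (XT.nd (nat_lit 156) (nat_lit 0) (nat_lit 0) (XT.nd (nat_lit 78) (nat_lit 0) (nat_lit 0) (XT.lf (nat_lit 0) (nat_lit 40536593331) (nat_lit 152) (nat_lit 197210511717) (nat_lit 0) (nat_lit 36986681412) (nat_lit 1) (nat_lit 5) (nat_lit 3) (nat_lit 4) (nat_lit 1) (nat_lit 4) (nat_lit 416) (nat_lit 327) (nat_lit 277)) (XT.lf (nat_lit 0) (nat_lit 50441846441) (nat_lit 152) (nat_lit 198827891061) (nat_lit 0) (nat_lit 46886205824) (nat_lit 1) (nat_lit 5) (nat_lit 3) (nat_lit 4) (nat_lit 1) (nat_lit 4) (nat_lit 417) (nat_lit 327) (nat_lit 276))) (XT.nd (nat_lit 78) (nat_lit 0) (nat_lit 0) (XT.lf (nat_lit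 0) (nat_lit 61119206413) (nat_lit 152) (nat_lit 200616030961) (nat_lit 0) (nat_lit 57558261447) (nat_lit 1) (nat_lit 5) (nat_lit 3) (nat_lit 4) (nat_lit 1) (nat_lit 4) (nat_lit 418) (nat_lit 327) (nat_lit 275)) (XT.nd (nat_lit 78) (nat_lit 0) (nat_lit 0) (XT.lf (nat_lit 0) (nat_lit 72631946492) (nat_lit 152) (nat_lit 202585527802) (nat_lit 0) (nat_lit 69066090091) (nat_lit 1) (nat_lit 5) (nat_lit 3) (nat_lit 4) (nat_lit 1) (nat_lit 4) (nat_lit 419) (nat_lit 327) (nat_lit 274)) (XT.lf (nat_lit 0) (nat_lit 85048290322) (nat_lit 152) (nat_lit 204748052678) (nat_lit 0) (nat_lit 81477886297) (nat_lit 1) (nat_lit 5) (nat_lit 3) (nat_lit 4) (nat_lit 1) (nat_lit 4) (nat_lit 420) (nat_lit 327) (nat_lit 273))))) (XT.nd (nat_lit 156) (nat_lit 0) (nat_lit 0) (XT.nd (nat_lit 78) (nat_lit 0) (nat_lit 0) (XT.lf (nat_lit 0) (nat_lit 98441816238) (nat_lit 152) (nat_lit 207116420550) (nat_lit 0) (nat_lit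 94867201449) (nat_lit 1) (nat_lit 5) (nat_lit 3) (nat_lit 4) (nat_lit 1) (nat_lit 4) (nat_lit 421) (nat_lit 327) (nat_lit 272)) (XT.lf (nat_lit 0) (nat_lit 112891893282) (nat_lit 152) (nat_lit 209704666191) (nat_lit 0) (nat_lit 109313379638) (nat_lit 1) (nat_lit 5) (nat_lit 3) (nat_lit 4) (nat_lit 1) (nat_lit 4) (nat_lit 422) (nat_lit 327) (nat_lit 271))) (XT.nd (nat_lit 78) (nat_lit 0) (nat_lit 0) (XT.lf (nat_lit 0) (nat_lit 128484151540) (nat_lit 152) (nat_lit 212528127352) (nat_lit 0) (nat_lit 124902027845) (nat_lit 1) (nat_lit 5) (nat_lit 3) (nat_lit 4) (nat_lit 1) (nat_lit 4) (nat_lit 423) (nat_lit 327) (nat_lit 270)) (XT.nd (nat_lit 78) (nat_lit 0) (nat_lit 0) (XT.lf (nat_lit 0) (nat_lit 145310989579) (nat_lit 152) (nat_lit 215603535656) (nat_lit 0) (nat_lit 141725523245) (nat_lit 1) (nat_lit 5) (nat_lit 3) (nat_lit 4) (nat_lit 1) (nat_lit 4) (nat_lit 424) (nat_lit 327) (nat_lit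 269)) (XT.lf (nat_lit 0) (nat_lit 163472121996) (nat_lit 152) (nat_lit 218949115743) (nat_lit 0) (nat_lit 159883560625) (nat_lit 1) (nat_lit 5) (nat_lit 3) (nat_lit 4) (nat_lit 1) (nat_lit 4) (nat_lit 425) (nat_lit 327) (nat_lit 268))))))) (XT.nd (nat_lit 780) (nat_lit 0) (nat_lit 0) (XT.nd (nat_lit 390) (nat_lit 0) (nat_lit 0) (XT.nd (nat_lit 156) (nat_lit 0) (nat_lit 0) (XT.nd (nat_lit 78) (nat_lit 0) (nat_lit 0) (XT.lf (nat_lit 0) (nat_lit 183075170316) (nat_lit 152) (nat_lit 222584693275) (nat_lit 0) (nat_lit 179483743170) (nat_lit 1) (nat_lit 5) (nat_lit 3) (nat_lit 4) (nat_lit 1) (nat_lit 4) (nat_lit 426) (nat_lit 327) (nat_lit 267)) (XT.lf (nat_lit 0) (nat_lit 204236300751) (nat_lit 152) (nat_lit 226531812414) (nat_lit 0) (nat_lit 200642220110) (nat_lit 1) (nat_lit 5) (nat_lit 3) (nat_lit 4) (nat_lit 1) (nat_lit 4) (nat_lit 427) (nat_lit 327) (nat_lit 266))) (XT.nd (nat_lit 78)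 (nat_lit 0) (nat_lit 0) (XT.lf (nat_lit 0) (nat_lit 227080912592) (nat_lit 152) (nat_lit 230813863496) (nat_lit 0) (nat_lit 223484375011) (nat_lit 1) (nat_lit 5) (nat_lit 3) (nat_lit 4) (nat_lit 1) (nat_lit 4) (nat_lit 428) (nat_lit 327) (nat_lit 265)) (XT.nd (nat_lit 78) (nat_lit 0) (nat_lit 0) (XT.lf (nat_lit 0) (nat_lit 251744381318) (nat_lit 152) (nat_lit 235456221638) (nat_lit 0) (nat_lit 248145568792) (nat_lit 1) (nat_lit 5) (nat_lit 3) (nat_lit 4) (nat_lit 1) (nat_lit 4) (nat_lit 429) (nat_lit 327) (nat_lit 264)) (XT.lf (nat_lit 0) (nat_lit 278372860816) (nat_lit 152) (nat_lit 240486397111) (nat_lit 0) (nat_lit 274771941860) (nat_lit 1) (nat_lit 5) (nat_lit 3) (nat_lit 4) (nat_lit 1) (nat_lit 4) (nat_lit 430) (nat_lit 327) (nat_lit 263))))) (XT.nd (nat_lit 156) (nat_lit 0) (nat_lit 0) (XT.nd (nat_lit 78) (nat_lit 0) (nat_lit 0) (XT.lf (nat_lit 0) (nat_lit 307124149484) (nat_lit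 152) (nat_lit 245934198362) (nat_lit 0) (nat_lit 303521280130) (nat_lit 1) (nat_lit 5) (nat_lit 3) (nat_lit 4) (nat_lit 1) (nat_lit 4) (nat_lit 431) (nat_lit 327) (nat_lit 262)) (XT.lf (nat_lit 0) (nat_lit 338168625329) (nat_lit 152) (nat_lit 251831908657) (nat_lit 0) (nat_lit 334563950051) (nat_lit 1) (nat_lit 5) (nat_lit 3) (nat_lit 4) (nat_lit 1) (nat_lit 4) (nat_lit 432) (nat_lit 327) (nat_lit 261))) (XT.nd (nat_lit 78) (nat_lit 0) (nat_lit 0) (XT.lf (nat_lit 0) (nat_lit 371690255615) (nat_lit 152) (nat_lit 258214477392) (nat_lit 0) (nat_lit 368083908185) (nat_lit 1) (nat_lit 5) (nat_lit 3) (nat_lit 4) (nat_lit 1) (nat_lit 4) (nat_lit 433) (nat_lit 327) (nat_lit 260)) (XT.nd (nat_lit 78) (nat_lit 0) (nat_lit 0) (XT.lf (nat_lit 0) (nat_lit 407887687041) (nat_lit 152) (nat_lit 265119727195) (nat_lit 0) (nat_lit 404279791321) (nat_lit 1) (nat_lit 5) (nat_lit 3) (nat_lit 4) (nat_lit 1)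 (nat_lit 4) (nat_lit 434) (nat_lit 327) (nat_lit 259)) (XT.lf (nat_lit 0) (nat_lit 446975422902) (nat_lit 152) (nat_lit 272588578065) (nat_lit 0) (nat_lit 443366093582) (nat_lit 1) (nat_lit 5) (nat_lit 3) (nat_lit 4) (nat_lit 1) (nat_lit 4) (nat_lit 435) (nat_lit 327) (nat_lit 258)))))) (XT.nd (nat_lit 390) (nat_lit 0) (nat_lit 0) (XT.nd (nat_lit 156) (nat_lit 0) (nat_lit 0) (XT.nd (nat_lit 78) (nat_lit 0) (nat_lit 0) (XT.lf (nat_lit 0) (nat_lit 489185094227) (nat_lit 152) (nat_lit 280665289860) (nat_lit 0) (nat_lit 485574437499) (nat_lit 1) (nat_lit 5) (nat_lit 3) (nat_lit 4) (nat_lit 1) (nat_lit 4) (nat_lit 436) (nat_lit 327) (nat_lit 257)) (XT.lf (nat_lit 0) (nat_lit 534766832402) (nat_lit 152) (nat_lit 289397724575) (nat_lit 0) (nat_lit 531154946592) (nat_lit 1) (nat_lit 5) (nat_lit 3) (nat_lit 4) (nat_lit 1) (nat_lit 4) (nat_lit 437) (nat_lit 327) (nat_lit 256))) (XT.nd (nat_lit 78)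 (nat_lit 0) (nat_lit 0) (XT.lf (nat_lit 0) (nat_lit 583990751430) (nat_lit 152) (nat_lit 298837629972) (nat_lit 0) (nat_lit 580377727581) (nat_lit 1) (nat_lit 5) (nat_lit 3) (nat_lit 4) (nat_lit 1) (nat_lit 4) (nat_lit 438) (nat_lit 327) (nat_lit 255)) (XT.nd (nat_lit 78) (nat_lit 0) (nat_lit 0) (XT.lf (nat_lit 0) (nat_lit 637148548610) (nat_lit 152) (nat_lit 309040946230) (nat_lit 0) (nat_lit 633534471021) (nat_lit 1) (nat_lit 5) (nat_lit 3) (nat_lit 4) (nat_lit 1) (nat_lit 4) (nat_lit 439) (nat_lit 327) (nat_lit 254)) (XT.lf (nat_lit 0) (nat_lit 694555233109) (nat_lit 152) (nat_lit 320068137446) (nat_lit 0) (nat_lit 690940179836) (nat_lit 1) (nat_lit 5) (nat_lit 3) (nat_lit 4) (nat_lit 1) (nat_lit 4) (nat_lit 440) (nat_lit 327) (nat_lit 253))))) (XT.nd (nat_lit 234) (nat_lit 0) (nat_lit 0) (XT.nd (nat_lit 78) (nat_lit 0) (nat_lit 0) (XT.lf (nat_lit 0) (nat_lit 756550992688) (nat_lit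 152) (nat_lit 331984549939) (nat_lit 0) (nat_lit 752935036003) (nat_lit 1) (nat_lit 5) (nat_lit 3) (nat_lit 4) (nat_lit 1) (nat_lit 4) (nat_lit 441) (nat_lit 327) (nat_lit 252)) (XT.nd (nat_lit 78) (nat_lit 0) (nat_lit 0) (XT.lf (nat_lit 0) (nat_lit 823503209625) (nat_lit 152) (nat_lit 344860799485) (nat_lit 0) (nat_lit 819886416448) (nat_lit 1) (nat_lit 5) (nat_lit 3) (nat_lit 4) (nat_lit 1) (nat_lit 4) (nat_lit 442) (nat_lit 327) (nat_lit 251)) (XT.lf (nat_lit 0) (nat_lit 895808637800) (nat_lit 152) (nat_lit 358773189786) (nat_lit 0) (nat_lit 892191070093) (nat_lit 1) (nat_lit 5) (nat_lit 3) (nat_lit 4) (nat_lit 1) (nat_lit 4) (nat_lit 443) (nat_lit 327) (nat_lit 250)))) (XT.nd (nat_lit 78) (nat_lit 0) (nat_lit 0) (XT.lf (nat_lit 0) (nat_lit 973895753823) (nat_lit 152) (nat_lit 373804164637) (nat_lit 0) (nat_lit 970277468958) (nat_lit 1) (nat_lit 5) (nat_lit 3) (nat_lit 4) (nat_lit 1)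 (nat_lit 4) (nat_lit 444) (nat_lit 327) (nat_lit 249)) (XT.nd (nat_lit 78) (nat_lit 0) (nat_lit 0) (XT.lf (nat_lit 0) (nat_lit 1058227296159) (nat_lit 152) (nat_lit 390042796481) (nat_lit 0) (nat_lit 1054608347260) (nat_lit 1) (nat_lit 5) (nat_lit 3) (nat_lit 4) (nat_lit 1) (nat_lit 4) (nat_lit 445) (nat_lit 327) (nat_lit 248)) (XT.lf (nat_lit 0) (nat_lit 1149303007283) (nat_lit 152) (nat_lit 407585314248) (nat_lit 0) (nat_lit 1145683443537) (nat_lit 1) (nat_lit 5) (nat_lit 3) (nat_lit 4) (nat_lit 1) (nat_lit 4) (nat_lit 446) (nat_lit 327) (nat_lit 247))))))))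
noncomputable def xc61 : XT := (XT.nd (nat_lit 46800) (nat_lit 0) (nat_lit 608) (XT.nd (nat_lit 780) (nat_lit 0) (nat_lit 0) (XT.nd (nat_lit 390) (nat_lit 0) (nat_lit 0) (XT.nd (nat_lit 156) (nat_lit 0) (nat_lit 0) (XT.nd (nat_lit 78) (nat_lit 0) (nat_lit 0) (XT.lf (nat_lit 0) (nat_lit 1247662595110) (nat_lit 152) (nat_lit 426535673597) (nat_lit 0) (nat_lit 1244042462062) (nat_lit 1) (nat_lit 5) (nat_lit 3) (nat_lit 4) (nat_lit 1) (nat_lit 4) (nat_lit 447) (nat_lit 327) (nat_lit 246)) (XT.lf (nat_lit 0) (nat_lit 1353888931274) (nat_lit 152) (nat_lit 447006172956) (nat_lit 0) (nat_lit 1350268271094) (nat_lit 1) (nat_lit 5) (nat_lit 3) (nat_lit 4) (nat_lit 1) (nat_lit 4) (nat_lit 448) (nat_lit 327) (nat_lit 245))) (XT.nd (nat_lit 78) (nat_lit 0) (nat_lit 0) (XT.lf (nat_lit 0) (nat_lit 1468611505174) (nat_lit 152) (nat_lit 469118118986) (nat_lit 0) (nat_lit 1464990356908) (nat_lit 1) (nat_lit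 5) (nat_lit 3) (nat_lit 4) (nat_lit 1) (nat_lit 4) (nat_lit 449) (nat_lit 327) (nat_lit 244)) (XT.nd (nat_lit 78) (nat_lit 0) (nat_lit 0) (XT.lf (nat_lit 0) (nat_lit 1592510154284) (nat_lit 152) (nat_lit 493002545443) (nat_lit 0) (nat_lit 1588888554087) (nat_lit 1) (nat_lit 5) (nat_lit 3) (nat_lit 4) (nat_lit 1) (nat_lit 4) (nat_lit 450) (nat_lit 327) (nat_lit 243)) (XT.lf (nat_lit 0) (nat_lit 1726319092821) (nat_lit 152) (nat_lit 518800989668) (nat_lit 0) (nat_lit 1722697074170) (nat_lit 1) (nat_lit 5) (nat_lit 3) (nat_lit 4) (nat_lit 1) (nat_lit 4) (nat_lit 451) (nat_lit 327) (nat_lit 242))))) (XT.nd (nat_lit 156) (nat_lit 0) (nat_lit 0) (XT.nd (nat_lit 78) (nat_lit 0) (nat_lit 0) (XT.lf (nat_lit 0) (nat_lit 1870831262644) (nat_lit 152) (nat_lit 546666331330) (nat_lit 0) (nat_lit 1867208856535) (nat_lit 1) (nat_lit 5) (nat_lit 3) (nat_lit 4) (nat_lit 1) (nat_lit 4) (nat_lit 452) (nat_lit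 327) (nat_lit 241)) (XT.lf (nat_lit 0) (nat_lit 2026903032166) (nat_lit 152) (nat_lit 576763698380) (nat_lit 0) (nat_lit 2023280267300) (nat_lit 1) (nat_lit 5) (nat_lit 3) (nat_lit 4) (nat_lit 1) (nat_lit 4) (nat_lit 453) (nat_lit 327) (nat_lit 240))) (XT.nd (nat_lit 78) (nat_lit 0) (nat_lit 0) (XT.lf (nat_lit 0) (nat_lit 2195459271133) (nat_lit 152) (nat_lit 609271445587) (nat_lit 0) (nat_lit 2191836174084) (nat_lit 1) (nat_lit 5) (nat_lit 3) (nat_lit 4) (nat_lit 1) (nat_lit 4) (nat_lit 454) (nat_lit 327) (nat_lit 239)) (XT.nd (nat_lit 78) (nat_lit 0) (nat_lit 0) (XT.lf (nat_lit 0) (nat_lit 2377498831330) (nat_lit 152) (nat_lit 644382211451) (nat_lit 0) (nat_lit 2373875426705) (nat_lit 1) (nat_lit 5) (nat_lit 3) (nat_lit 4) (nat_lit 1) (nat_lit 4) (nat_lit 455) (nat_lit 327) (nat_lit 238)) (XT.lf (nat_lit 0) (nat_lit 2574100465708) (nat_lit 152) (nat_lit 682304059771) (nat_lit 0) (nat_lit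 2570476776290) (nat_lit 1) (nat_lit 5) (nat_lit 3) (nat_lit 4) (nat_lit 1) (nat_lit 4) (nat_lit 456) (nat_lit 327) (nat_lit 237)))))) (XT.nd (nat_lit 390) (nat_lit 0) (nat_lit 0) (XT.nd (nat_lit 156) (nat_lit 0) (nat_lit 0) (XT.nd (nat_lit 78) (nat_lit 0) (nat_lit 0) (XT.lf (nat_lit 0) (nat_lit 2786429220989) (nat_lit 152) (nat_lit 723261712611) (nat_lit 0) (nat_lit 2782805267873) (nat_lit 1) (nat_lit 5) (nat_lit 3) (nat_lit 4) (nat_lit 1) (nat_lit 4) (nat_lit 457) (nat_lit 327) (nat_lit 236)) (XT.lf (nat_lit 0) (nat_lit 3015743341648) (nat_lit 152) (nat_lit 767497881987) (nat_lit 0) (nat_lit 3012119144368) (nat_lit 1) (nat_lit 5) (nat_lit 3) (nat_lit 4) (nat_lit 1) (nat_lit 4) (nat_lit 458) (nat_lit 327) (nat_lit 235))) (XT.nd (nat_lit 78) (nat_lit 0) (nat_lit 0) (XT.lf (nat_lit 0) (nat_lit 3263401726178) (nat_lit 152) (nat_lit 815274708162) (nat_lit 0) (nat_lit 3259777302821) (nat_lit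 1) (nat_lit 5) (nat_lit 3) (nat_lit 4) (nat_lit 1) (nat_lit 4) (nat_lit 459) (nat_lit 327) (nat_lit 234)) (XT.nd (nat_lit 78) (nat_lit 0) (nat_lit 0) (XT.lf (nat_lit 0) (nat_lit 3530871979821) (nat_lit 152) (nat_lit 866875313070) (nat_lit 0) (nat_lit 3527247347132) (nat_lit 1) (nat_lit 5) (nat_lit 3) (nat_lit 4) (nat_lit 1) (nat_lit 4) (nat_lit 460) (nat_lit 327) (nat_lit 233)) (XT.lf (nat_lit 0) (nat_lit 3819739111487) (nat_lit 152) (nat_lit 922605478073) (nat_lit 0) (nat_lit 3816114284973) (nat_lit 1) (nat_lit 5) (nat_lit 3) (nat_lit 4) (nat_lit 1) (nat_lit 4) (nat_lit 461) (nat_lit 327) (nat_lit 232))))) (XT.nd (nat_lit 156) (nat_lit 0) (nat_lit 0) (XT.nd (nat_lit 78) (nat_lit 0) (nat_lit 0) (XT.lf (nat_lit 0) (nat_lit 4131714926401) (nat_lit 152) (nat_lit 982795456000) (nat_lit 0) (nat_lit 4128089920419) (nat_lit 1) (nat_lit 5) (nat_lit 3) (nat_lit 4) (nat_lit 1) (nat_lit 4) (nat_lit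 462) (nat_lit 327) (nat_lit 231)) (XT.lf (nat_lit 0) (nat_lit 4468648170133) (nat_lit 152) (nat_lit 1047801928203) (nat_lit 0) (nat_lit 4465022997977) (nat_lit 1) (nat_lit 5) (nat_lit 3) (nat_lit 4) (nat_lit 1) (nat_lit 4) (nat_lit 463) (nat_lit 327) (nat_lit 230))) (XT.nd (nat_lit 45318) (nat_lit 0) (nat_lit 2128) (XT.lf (nat_lit 0) (nat_lit 4832535484127) (nat_lit 152) (nat_lit 1118010118219) (nat_lit 0) (nat_lit 4828910158106) (nat_lit 1) (nat_lit 5) (nat_lit 3) (nat_lit 4) (nat_lit 1) (nat_lit 4) (nat_lit 464) (nat_lit 327) (nat_lit 229)) (XT.nd (nat_lit 78) (nat_lit 152) (nat_lit 0) (XT.lf (nat_lit 0) (nat_lit 3324633680) (nat_lit 152) (nat_lit 1075293444) (nat_lit 152) (nat_lit 1075293444) (nat_lit 31) (nat_lit 4) (nat_lit 33) (nat_lit 5) (nat_lit 33) (nat_lit 4) (nat_lit 364) (nat_lit 328) (nat_lit 328)) (XT.lf (nat_lit 0) (nat_lit 2784247340) (nat_lit 152) (nat_lit 6391050903)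 (nat_lit 0) (nat_lit 2204176284) (nat_lit 29) (nat_lit 5) (nat_lit 31) (nat_lit 4) (nat_lit 29) (nat_lit 4) (nat_lit 365) (nat_lit 328) (nat_lit 327))))))) (XT.nd (nat_lit 780) (nat_lit 684) (nat_lit 0) (XT.nd (nat_lit 390) (nat_lit 304) (nat_lit 0) (XT.nd (nat_lit 156) (nat_lit 228) (nat_lit 0) (XT.nd (nat_lit 78) (nat_lit 152) (nat_lit 0) (XT.lf (nat_lit 0) (nat_lit 2967764219) (nat_lit 152) (nat_lit 4995320707) (nat_lit 152) (nat_lit 3878146821) (nat_lit 27) (nat_lit 4) (nat_lit 29) (nat_lit 5) (nat_lit 29) (nat_lit 4) (nat_lit 366) (nat_lit 328) (nat_lit 326)) (XT.lf (nat_lit 0) (nat_lit 608930195) (nat_lit 76) (nat_lit 460022456) (nat_lit 152) (nat_lit 11275644636) (nat_lit 25) (nat_lit 5) (nat_lit 26) (nat_lit 5) (nat_lit 27) (nat_lit 4) (nat_lit 367) (nat_lit 328) (nat_lit 325))) (XT.nd (nat_lit 78) (nat_lit 228) (nat_lit 0) (XT.lf (nat_lit 0) (nat_lit 6281357621) (nat_lit 152)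 (nat_lit 2232483764) (nat_lit 0) (nat_lit 4360088707) (nat_lit 25) (nat_lit 5) (nat_lit 27) (nat_lit 4) (nat_lit 25) (nat_lit 4) (nat_lit 368) (nat_lit 328) (nat_lit 324)) (XT.nd (nat_lit 78) (nat_lit 152) (nat_lit 0) (XT.lf (nat_lit 0) (nat_lit 7949589704) (nat_lit 76) (nat_lit 3908194097) (nat_lit 76) (nat_lit 1592138570) (nat_lit 24) (nat_lit 4) (nat_lit 25) (nat_lit 5) (nat_lit 25) (nat_lit 4) (nat_lit 369) (nat_lit 328) (nat_lit 323)) (XT.lf (nat_lit 0) (nat_lit 3565775536) (nat_lit 152) (nat_lit 9420305620) (nat_lit 0) (nat_lit 1082813788) (nat_lit 22) (nat_lit 5) (nat_lit 24) (nat_lit 4) (nat_lit 22) (nat_lit 4) (nat_lit 370) (nat_lit 328) (nat_lit 322))))) (XT.nd (nat_lit 156) (nat_lit 228) (nat_lit 0) (XT.nd (nat_lit 78) (nat_lit 0) (nat_lit 0) (XT.lf (nat_lit 0) (nat_lit 608960723) (nat_lit 76) (nat_lit 8460019051) (nat_lit 76) (nat_lit 5663662961) (nat_lit 21) (nat_lit 4) (nat_lit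 22) (nat_lit 5) (nat_lit 22) (nat_lit 4) (nat_lit 371) (nat_lit 328) (nat_lit 321)) (XT.lf (nat_lit 0) (nat_lit 11516639363) (nat_lit 76) (nat_lit 3509185741) (nat_lit 76) (nat_lit 422649705) (nat_lit 21) (nat_lit 4) (nat_lit 22) (nat_lit 5) (nat_lit 22) (nat_lit 4) (nat_lit 372) (nat_lit 328) (nat_lit 320))) (XT.nd (nat_lit 78) (nat_lit 76) (nat_lit 0) (XT.lf (nat_lit 0) (nat_lit 4955267583) (nat_lit 152) (nat_lit 9409324180) (nat_lit 0) (nat_lit 1848581313) (nat_lit 19) (nat_lit 5) (nat_lit 21) (nat_lit 4) (nat_lit 19) (nat_lit 4) (nat_lit 373) (nat_lit 328) (nat_lit 319)) (XT.nd (nat_lit 78) (nat_lit 0) (nat_lit 0) (XT.lf (nat_lit 0) (nat_lit 1101743639) (nat_lit 76) (nat_lit 9636835047) (nat_lit 76) (nat_lit 6299794579) (nat_lit 18) (nat_lit 4) (nat_lit 19) (nat_lit 5) (nat_lit 19) (nat_lit 4) (nat_lit 374) (nat_lit 328) (nat_lit 318)) (XT.lf (nat_lit 0) (nat_lit 12559952570) (nat_lit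 76) (nat_lit 4458642818) (nat_lit 76) (nat_lit 908311427) (nat_lit 18) (nat_lit 4) (nat_lit 19) (nat_lit 5) (nat_lit 19) (nat_lit 4) (nat_lit 375) (nat_lit 328) (nat_lit 317)))))) (XT.nd (nat_lit 390) (nat_lit 304) (nat_lit 0) (XT.nd (nat_lit 156) (nat_lit 228) (nat_lit 0) (XT.nd (nat_lit 78) (nat_lit 0) (nat_lit 0) (XT.lf (nat_lit 0) (nat_lit 4625594632) (nat_lit 152) (nat_lit 13099563817) (nat_lit 0) (nat_lit 1155388163) (nat_lit 16) (nat_lit 5) (nat_lit 18) (nat_lit 4) (nat_lit 16) (nat_lit 4) (nat_lit 376) (nat_lit 328) (nat_lit 316)) (XT.lf (nat_lit 0) (nat_lit 10608929453) (nat_lit 152) (nat_lit 2325824106) (nat_lit 0) (nat_lit 6969405772) (nat_lit 16) (nat_lit 5) (nat_lit 18) (nat_lit 4) (nat_lit 16) (nat_lit 4) (nat_lit 377) (nat_lit 328) (nat_lit 315))) (XT.nd (nat_lit 78) (nat_lit 152) (nat_lit 0) (XT.lf (nat_lit 0) (nat_lit 9400577881) (nat_lit 76) (nat_lit 7701461617) (nat_lit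 76) (nat_lit 3905162740) (nat_lit 15) (nat_lit 4) (nat_lit 16) (nat_lit 5) (nat_lit 16) (nat_lit 4) (nat_lit 378) (nat_lit 328) (nat_lit 314)) (XT.nd (nat_lit 78) (nat_lit 76) (nat_lit 0) (XT.lf (nat_lit 0) (nat_lit 1691126843) (nat_lit 152) (nat_lit 423917262) (nat_lit 76) (nat_lit 20090113968) (nat_lit 14) (nat_lit 5) (nat_lit 16) (nat_lit 5) (nat_lit 15) (nat_lit 4) (nat_lit 379) (nat_lit 328) (nat_lit 313)) (XT.lf (nat_lit 0) (nat_lit 7727803716) (nat_lit 152) (nat_lit 11792913082) (nat_lit 0) (nat_lit 3953849497) (nat_lit 13) (nat_lit 5) (nat_lit 15) (nat_lit 4) (nat_lit 13) (nat_lit 4) (nat_lit 380) (nat_lit 328) (nat_lit 312))))) (XT.nd (nat_lit 234) (nat_lit 152) (nat_lit 0) (XT.nd (nat_lit 78) (nat_lit 152) (nat_lit 0) (XT.lf (nat_lit 0) (nat_lit 14135301518) (nat_lit 152) (nat_lit 473103801) (nat_lit 0) (nat_lit 10246112849) (nat_lit 13) (nat_lit 5) (nat_lit 15) (nat_lit 4) (nat_lit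 13) (nat_lit 4) (nat_lit 381) (nat_lit 328) (nat_lit 311)) (XT.nd (nat_lit 78) (nat_lit 76) (nat_lit 0) (XT.lf (nat_lit 0) (nat_lit 12027038343) (nat_lit 76) (nat_lit 9151925124) (nat_lit 76) (nat_lit 5156037891) (nat_lit 12) (nat_lit 4) (nat_lit 13) (nat_lit 5) (nat_lit 13) (nat_lit 4) (nat_lit 382) (nat_lit 328) (nat_lit 310)) (XT.lf (nat_lit 0) (nat_lit 657558805) (nat_lit 152) (nat_lit 2726959885) (nat_lit 76) (nat_lit 24559942792) (nat_lit 11) (nat_lit 5) (nat_lit 13) (nat_lit 5) (nat_lit 12) (nat_lit 4) (nat_lit 383) (nat_lit 328) (nat_lit 309)))) (XT.nd (nat_lit 78) (nat_lit 76) (nat_lit 0) (XT.lf (nat_lit 0) (nat_lit 6815611708) (nat_lit 152) (nat_lit 19904196170) (nat_lit 0) (nat_lit 2939538540) (nat_lit 10) (nat_lit 5) (nat_lit 12) (nat_lit 4) (nat_lit 10) (nat_lit 4) (nat_lit 384) (nat_lit 328) (nat_lit 308)) (XT.nd (nat_lit 78) (nat_lit 76) (nat_lit 0) (XT.lf (nat_lit 0) (nat_lit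 13478385197) (nat_lit 152) (nat_lit 8508200374) (nat_lit 0) (nat_lit 9523885400) (nat_lit 10) (nat_lit 5) (nat_lit 12) (nat_lit 4) (nat_lit 10) (nat_lit 4) (nat_lit 385) (nat_lit 328) (nat_lit 307)) (XT.lf (nat_lit 0) (nat_lit 3703429479) (nat_lit 76) (nat_lit 16918772580) (nat_lit 76) (nat_lit 12891655533) (nat_lit 9) (nat_lit 4) (nat_lit 10) (nat_lit 5) (nat_lit 10) (nat_lit 4) (nat_lit 386) (nat_lit 328) (nat_lit 306))))))))
noncomputable def xc62 : XT := (XT.nd (nat_lit 1560) (nat_lit 152) (nat_lit 0) (XT.nd (nat_lit 780) (nat_lit 152) (nat_lit 0) (XT.nd (nat_lit 390) (nat_lit 152) (nat_lit 0) (XT.nd (nat_lit 156) (nat_lit 152) (nat_lit 0) (XT.nd (nat_lit 78) (nat_lit 0) (nat_lit 0) (XT.lf (nat_lit 0) (nat_lit 17101674145) (nat_lit 76) (nat_lit 11331287043) (nat_lit 76) (nat_lit 7236931802) (nat_lit 9) (nat_lit 4) (nat_lit 10) (nat_lit 5) (nat_lit 10) (nat_lit 4) (nat_lit 387) (nat_lit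 328) (nat_lit 305)) (XT.lf (nat_lit 0) (nat_lit 31317903873) (nat_lit 76) (nat_lit 5423647212) (nat_lit 76) (nat_lit 1267034383) (nat_lit 9) (nat_lit 4) (nat_lit 10) (nat_lit 5) (nat_lit 10) (nat_lit 4) (nat_lit 388) (nat_lit 328) (nat_lit 304))) (XT.nd (nat_lit 78) (nat_lit 0) (nat_lit 0) (XT.lf (nat_lit 0) (nat_lit 4973857105) (nat_lit 152) (nat_lit 34474589550) (nat_lit 0) (nat_lit 1071765676) (nat_lit 7) (nat_lit 5) (nat_lit 9) (nat_lit 4) (nat_lit 7) (nat_lit 4) (nat_lit 389) (nat_lit 328) (nat_lit 303)) (XT.nd (nat_lit 78) (nat_lit 0) (nat_lit 0) (XT.lf (nat_lit 0) (nat_lit 11853886220) (nat_lit 152) (nat_lit 23457221498) (nat_lit 0) (nat_lit 7902372711) (nat_lit 7) (nat_lit 5) (nat_lit 9) (nat_lit 4) (nat_lit 7) (nat_lit 4) (nat_lit 390) (nat_lit 328) (nat_lit 302)) (XT.lf (nat_lit 0) (nat_lit 19172982910) (nat_lit 152) (nat_lit 11782434337) (nat_lit 0) (nat_lit 15175708216) (nat_lit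 7) (nat_lit 5) (nat_lit 9) (nat_lit 4) (nat_lit 7) (nat_lit 4) (nat_lit 391) (nat_lit 328) (nat_lit 301))))) (XT.nd (nat_lit 156) (nat_lit 76) (nat_lit 0) (XT.nd (nat_lit 78) (nat_lit 0) (nat_lit 0) (XT.lf (nat_lit 0) (nat_lit 651548972) (nat_lit 76) (nat_lit 26338640398) (nat_lit 76) (nat_lit 22298994236) (nat_lit 6) (nat_lit 4) (nat_lit 7) (nat_lit 5) (nat_lit 7) (nat_lit 4) (nat_lit 392) (nat_lit 328) (nat_lit 300)) (XT.lf (nat_lit 0) (nat_lit 14548198612) (nat_lit 76) (nat_lit 21106413537) (nat_lit 76) (nat_lit 17027534535) (nat_lit 6) (nat_lit 4) (nat_lit 7) (nat_lit 5) (nat_lit 7) (nat_lit 4) (nat_lit 393) (nat_lit 328) (nat_lit 299))) (XT.nd (nat_lit 78) (nat_lit 76) (nat_lit 0) (XT.lf (nat_lit 0) (nat_lit 29369422985) (nat_lit 76) (nat_lit 15549883512) (nat_lit 76) (nat_lit 11434677805) (nat_lit 6) (nat_lit 4) (nat_lit 7) (nat_lit 5) (nat_lit 7) (nat_lit 4) (nat_lit 394) (nat_lit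 328) (nat_lit 298)) (XT.nd (nat_lit 78) (nat_lit 76) (nat_lit 0) (XT.lf (nat_lit 0) (nat_lit 45203051571) (nat_lit 76) (nat_lit 9636122738) (nat_lit 76) (nat_lit 5487281193) (nat_lit 6) (nat_lit 4) (nat_lit 7) (nat_lit 5) (nat_lit 7) (nat_lit 4) (nat_lit 395) (nat_lit 328) (nat_lit 297)) (XT.lf (nat_lit 0) (nat_lit 807383735) (nat_lit 152) (nat_lit 2500627667) (nat_lit 76) (nat_lit 61313454240) (nat_lit 5) (nat_lit 5) (nat_lit 7) (nat_lit 5) (nat_lit 6) (nat_lit 4) (nat_lit 396) (nat_lit 328) (nat_lit 296)))))) (XT.nd (nat_lit 390) (nat_lit 76) (nat_lit 0) (XT.nd (nat_lit 156) (nat_lit 0) (nat_lit 0) (XT.nd (nat_lit 78) (nat_lit 0) (nat_lit 0) (XT.lf (nat_lit 0) (nat_lit 7601651515) (nat_lit 152) (nat_lit 57919036146) (nat_lit 0) (nat_lit 3704593045) (nat_lit 4) (nat_lit 5) (nat_lit 6) (nat_lit 4) (nat_lit 4) (nat_lit 4) (nat_lit 397) (nat_lit 328) (nat_lit 295)) (XT.lf (nat_lit 0) (nat_lit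 15020099546) (nat_lit 152) (nat_lit 48072537296) (nat_lit 0) (nat_lit 11098317732) (nat_lit 4) (nat_lit 5) (nat_lit 6) (nat_lit 4) (nat_lit 4) (nat_lit 4) (nat_lit 398) (nat_lit 328) (nat_lit 294))) (XT.nd (nat_lit 78) (nat_lit 0) (nat_lit 0) (XT.lf (nat_lit 0) (nat_lit 22962179882) (nat_lit 152) (nat_lit 37579788230) (nat_lit 0) (nat_lit 19017506082) (nat_lit 4) (nat_lit 5) (nat_lit 6) (nat_lit 4) (nat_lit 4) (nat_lit 4) (nat_lit 399) (nat_lit 328) (nat_lit 293)) (XT.nd (nat_lit 78) (nat_lit 0) (nat_lit 0) (XT.lf (nat_lit 0) (nat_lit 31474956701) (nat_lit 152) (nat_lit 26378609693) (nat_lit 0) (nat_lit 27509086618) (nat_lit 4) (nat_lit 5) (nat_lit 6) (nat_lit 4) (nat_lit 4) (nat_lit 4) (nat_lit 400) (nat_lit 328) (nat_lit 292)) (XT.lf (nat_lit 0) (nat_lit 40608876088) (nat_lit 152) (nat_lit 14402624333) (nat_lit 0) (nat_lit 36623379818) (nat_lit 4) (nat_lit 5) (nat_lit 6) (nat_lit 4)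 (nat_lit 4) (nat_lit 4) (nat_lit 401) (nat_lit 328) (nat_lit 291))))) (XT.nd (nat_lit 156) (nat_lit 0) (nat_lit 0) (XT.nd (nat_lit 78) (nat_lit 76) (nat_lit 0) (XT.lf (nat_lit 0) (nat_lit 50418064974) (nat_lit 152) (nat_lit 1580863346) (nat_lit 0) (nat_lit 46414396307) (nat_lit 4) (nat_lit 5) (nat_lit 6) (nat_lit 4) (nat_lit 4) (nat_lit 4) (nat_lit 402) (nat_lit 328) (nat_lit 290)) (XT.lf (nat_lit 0) (nat_lit 12803117881) (nat_lit 76) (nat_lit 48465449296) (nat_lit 76) (nat_lit 44444954336) (nat_lit 3) (nat_lit 4) (nat_lit 4) (nat_lit 5) (nat_lit 4) (nat_lit 4) (nat_lit 403) (nat_lit 328) (nat_lit 289))) (XT.nd (nat_lit 78) (nat_lit 0) (nat_lit 0) (XT.lf (nat_lit 0) (nat_lit 28326370778) (nat_lit 76) (nat_lit 44653990529) (nat_lit 76) (nat_lit 40617915669) (nat_lit 3) (nat_lit 4) (nat_lit 4) (nat_lit 5) (nat_lit 4) (nat_lit 4) (nat_lit 404) (nat_lit 328) (nat_lit 288)) (XT.nd (nat_lit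 78) (nat_lit 0) (nat_lit 0) (XT.lf (nat_lit 0) (nat_lit 44997639527) (nat_lit 76) (nat_lit 40585189204) (nat_lit 76) (nat_lit 36534688509) (nat_lit 3) (nat_lit 4) (nat_lit 4) (nat_lit 5) (nat_lit 4) (nat_lit 4) (nat_lit 405) (nat_lit 328) (nat_lit 287)) (XT.lf (nat_lit 0) (nat_lit 62915716834) (nat_lit 76) (nat_lit 36234933905) (nat_lit 76) (nat_lit 32171075956) (nat_lit 3) (nat_lit 4) (nat_lit 4) (nat_lit 5) (nat_lit 4) (nat_lit 4) (nat_lit 406) (nat_lit 328) (nat_lit 286))))))) (XT.nd (nat_lit 780) (nat_lit 0) (nat_lit 0) (XT.nd (nat_lit 390) (nat_lit 152) (nat_lit 0) (XT.nd (nat_lit 156) (nat_lit 0) (nat_lit 0) (XT.nd (nat_lit 78) (nat_lit 0) (nat_lit 0) (XT.lf (nat_lit 0) (nat_lit 82186783895) (nat_lit 76) (nat_lit 31577445341) (nat_lit 76) (nat_lit 27501219565) (nat_lit 3) (nat_lit 4) (nat_lit 4) (nat_lit 5) (nat_lit 4) (nat_lit 4) (nat_lit 407) (nat_lit 328) (nat_lit 285)) (XT.lf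 (nat_lit 0) (nat_lit 102925039628) (nat_lit 76) (nat_lit 26585123580) (nat_lit 76) (nat_lit 22497446112) (nat_lit 3) (nat_lit 4) (nat_lit 4) (nat_lit 5) (nat_lit 4) (nat_lit 4) (nat_lit 408) (nat_lit 328) (nat_lit 284))) (XT.nd (nat_lit 78) (nat_lit 0) (nat_lit 0) (XT.lf (nat_lit 0) (nat_lit 125253377399) (nat_lit 76) (nat_lit 21228384493) (nat_lit 76) (nat_lit 17130103606) (nat_lit 3) (nat_lit 4) (nat_lit 4) (nat_lit 5) (nat_lit 4) (nat_lit 4) (nat_lit 409) (nat_lit 328) (nat_lit 283)) (XT.nd (nat_lit 78) (nat_lit 0) (nat_lit 0) (XT.lf (nat_lit 0) (nat_lit 149304113285) (nat_lit 76) (nat_lit 15475484442) (nat_lit 76) (nat_lit 11367385575) (nat_lit 3) (nat_lit 4) (nat_lit 4) (nat_lit 5) (nat_lit 4) (nat_lit 4) (nat_lit 410) (nat_lit 328) (nat_lit 282)) (XT.lf (nat_lit 0) (nat_lit 175219770165) (nat_lit 76) (nat_lit 9292332166) (nat_lit 76) (nat_lit 5175142576) (nat_lit 3) (nat_lit 4) (nat_lit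 4) (nat_lit 5) (nat_lit 4) (nat_lit 4) (nat_lit 411) (nat_lit 328) (nat_lit 281))))) (XT.nd (nat_lit 156) (nat_lit 0) (nat_lit 0) (XT.nd (nat_lit 78) (nat_lit 76) (nat_lit 0) (XT.lf (nat_lit 0) (nat_lit 1409118479) (nat_lit 152) (nat_lit 1194640486) (nat_lit 76) (nat_lit 201706276024) (nat_lit 2) (nat_lit 5) (nat_lit 4) (nat_lit 5) (nat_lit 3) (nat_lit 4) (nat_lit 412) (nat_lit 328) (nat_lit 280)) (XT.lf (nat_lit 0) (nat_lit 8665300106) (nat_lit 152) (nat_lit 206554537075) (nat_lit 0) (nat_lit 4838077186) (nat_lit 1) (nat_lit 5) (nat_lit 3) (nat_lit 4) (nat_lit 1) (nat_lit 4) (nat_lit 413) (nat_lit 328) (nat_lit 279))) (XT.nd (nat_lit 78) (nat_lit 0) (nat_lit 0) (XT.lf (nat_lit 0) (nat_lit 16577529343) (nat_lit 152) (nat_lit 207738427307) (nat_lit 0) (nat_lit 12743624470) (nat_lit 1) (nat_lit 5) (nat_lit 3) (nat_lit 4) (nat_lit 1) (nat_lit 4) (nat_lit 414) (nat_lit 328) (nat_lit 278))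 (XT.nd (nat_lit 78) (nat_lit 0) (nat_lit 0) (XT.lf (nat_lit 0) (nat_lit 25099043385) (nat_lit 152) (nat_lit 209065282970) (nat_lit 0) (nat_lit 21258951519) (nat_lit 1) (nat_lit 5) (nat_lit 3) (nat_lit 4) (nat_lit 1) (nat_lit 4) (nat_lit 415) (nat_lit 328) (nat_lit 277)) (XT.lf (nat_lit 0) (nat_lit 34280340093) (nat_lit 152) (nat_lit 210542966912) (nat_lit 0) (nat_lit 30434519530) (nat_lit 1) (nat_lit 5) (nat_lit 3) (nat_lit 4) (nat_lit 1) (nat_lit 4) (nat_lit 416) (nat_lit 328) (nat_lit 276)))))) (XT.nd (nat_lit 390) (nat_lit 0) (nat_lit 0) (XT.nd (nat_lit 156) (nat_lit 0) (nat_lit 0) (XT.nd (nat_lit 78) (nat_lit 0) (nat_lit 0) (XT.lf (nat_lit 0) (nat_lit 44175827151) (nat_lit 152) (nat_lit 212180235779) (nat_lit 0) (nat_lit 40324702239) (nat_lit 1) (nat_lit 5) (nat_lit 3) (nat_lit 4) (nat_lit 1) (nat_lit 4) (nat_lit 417) (nat_lit 328) (nat_lit 275)) (XT.lf (nat_lit 0) (nat_lit 54844144484)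 (nat_lit 152) (nat_lit 213986791905) (nat_lit 0) (nat_lit 50988108136) (nat_lit 1) (nat_lit 5) (nat_lit 3) (nat_lit 4) (nat_lit 1) (nat_lit 4) (nat_lit 418) (nat_lit 328) (nat_lit 274))) (XT.nd (nat_lit 78) (nat_lit 0) (nat_lit 0) (XT.lf (nat_lit 0) (nat_lit 66348511748) (nat_lit 152) (nat_lit 215973340807) (nat_lit 0) (nat_lit 62487927776) (nat_lit 1) (nat_lit 5) (nat_lit 3) (nat_lit 4) (nat_lit 1) (nat_lit 4) (nat_lit 419) (nat_lit 328) (nat_lit 273)) (XT.nd (nat_lit 78) (nat_lit 0) (nat_lit 0) (XT.lf (nat_lit 0) (nat_lit 78757102972) (nat_lit 152) (nat_lit 218151654628) (nat_lit 0) (nat_lit 74892308237) (nat_lit 1) (nat_lit 5) (nat_lit 3) (nat_lit 4) (nat_lit 1) (nat_lit 4) (nat_lit 420) (nat_lit 328) (nat_lit 272)) (XT.lf (nat_lit 0) (nat_lit 92143450548) (nat_lit 152) (nat_lit 220534641894) (nat_lit 0) (nat_lit 88274756958) (nat_lit 1) (nat_lit 5) (nat_lit 3) (nat_lit 4) (nat_lit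 1) (nat_lit 4) (nat_lit 421) (nat_lit 328) (nat_lit 271))))) (XT.nd (nat_lit 234) (nat_lit 0) (nat_lit 0) (XT.nd (nat_lit 78) (nat_lit 0) (nat_lit 0) (XT.lf (nat_lit 0) (nat_lit 106586880982) (nat_lit 152) (nat_lit 223136424010) (nat_lit 0) (nat_lit 102714577341) (nat_lit 1) (nat_lit 5) (nat_lit 3) (nat_lit 4) (nat_lit 1) (nat_lit 4) (nat_lit 422) (nat_lit 328) (nat_lit 270)) (XT.nd (nat_lit 78) (nat_lit 0) (nat_lit 0) (XT.lf (nat_lit 0) (nat_lit 122172984971) (nat_lit 152) (nat_lit 225972418945) (nat_lit 0) (nat_lit 118297338690) (nat_lit 1) (nat_lit 5) (nat_lit 3) (nat_lit 4) (nat_lit 1) (nat_lit 4) (nat_lit 423) (nat_lit 328) (nat_lit 269)) (XT.lf (nat_lit 0) (nat_lit 138994124614) (nat_lit 152) (nat_lit 229059432595) (nat_lit 0) (nat_lit 135115383296) (nat_lit 1) (nat_lit 5) (nat_lit 3) (nat_lit 4) (nat_lit 1) (nat_lit 4) (nat_lit 424) (nat_lit 328) (nat_lit 268)))) (XT.nd (nat_lit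 78) (nat_lit 0) (nat_lit 0) (XT.lf (nat_lit 0) (nat_lit 157149980737) (nat_lit 152) (nat_lit 232415758374) (nat_lit 0) (nat_lit 153268373645) (nat_lit 1) (nat_lit 5) (nat_lit 3) (nat_lit 4) (nat_lit 1) (nat_lit 4) (nat_lit 425) (nat_lit 328) (nat_lit 267)) (XT.nd (nat_lit 78) (nat_lit 0) (nat_lit 0) (XT.lf (nat_lit 0) (nat_lit 176748143600) (nat_lit 152) (nat_lit 236061285620) (nat_lit 0) (nat_lit 172863883012) (nat_lit 1) (nat_lit 5) (nat_lit 3) (nat_lit 4) (nat_lit 1) (nat_lit 4) (nat_lit 426) (nat_lit 328) (nat_lit 266)) (XT.lf (nat_lit 0) (nat_lit 197904750463) (nat_lit 152) (nat_lit 240017617456) (nat_lit 0) (nat_lit 194018032936) (nat_lit 1) (nat_lit 5) (nat_lit 3) (nat_lit 4) (nat_lit 1) (nat_lit 4) (nat_lit 427) (nat_lit 328) (nat_lit 265))))))))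
noncomputable def xc63 : XT := (XT.nd (nat_lit 1638) (nat_lit 0) (nat_lit 0) (XT.nd (nat_lit 780) (nat_lit 0) (nat_lit 0) (XT.nd (nat_lit 390) (nat_lit 0) (nat_lit 0) (XT.nd (nat_lit 156) (nat_lit 0) (nat_lit 0) (XT.nd (nat_lit 78) (nat_lit 0) (nat_lit 0) (XT.lf (nat_lit 0) (nat_lit 220745173813) (nat_lit 152) (nat_lit 244308198814) (nat_lit 0) (nat_lit 216856181341) (nat_lit 1) (nat_lit 5) (nat_lit 3) (nat_lit 4) (nat_lit 1) (nat_lit 4) (nat_lit 428) (nat_lit 328) (nat_lit 264)) (XT.lf (nat_lit 0) (nat_lit 245404764305) (nat_lit 152) (nat_lit 248958455360) (nat_lit 0) (nat_lit 241513665403) (nat_lit 1) (nat_lit 5) (nat_lit 3) (nat_lit 4) (nat_lit 1) (nat_lit 4) (nat_lit 429) (nat_lit 328) (nat_lit 263))) (XT.nd (nat_lit 78) (nat_lit 0) (nat_lit 0) (XT.lf (nat_lit 0) (nat_lit 272029652847) (nat_lit 152) (nat_lit 253995944169) (nat_lit 0) (nat_lit 268136603546) (nat_lit 1) (nat_lit 5) (nat_lit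 3) (nat_lit 4) (nat_lit 1) (nat_lit 4) (nat_lit 430) (nat_lit 328) (nat_lit 262)) (XT.nd (nat_lit 78) (nat_lit 0) (nat_lit 0) (XT.lf (nat_lit 0) (nat_lit 300777616555) (nat_lit 152) (nat_lit 259450517028) (nat_lit 0) (nat_lit 296882761330) (nat_lit 1) (nat_lit 5) (nat_lit 3) (nat_lit 4) (nat_lit 1) (nat_lit 4) (nat_lit 431) (nat_lit 328) (nat_lit 261)) (XT.lf (nat_lit 0) (nat_lit 331819013733) (nat_lit 152) (nat_lit 265354497331) (nat_lit 0) (nat_lit 327922486357) (nat_lit 1) (nat_lit 5) (nat_lit 3) (nat_lit 4) (nat_lit 1) (nat_lit 4) (nat_lit 432) (nat_lit 328) (nat_lit 260))))) (XT.nd (nat_lit 156) (nat_lit 0) (nat_lit 0) (XT.nd (nat_lit 78) (nat_lit 0) (nat_lit 0) (XT.lf (nat_lit 0) (nat_lit 365337793402) (nat_lit 152) (nat_lit 271742871628) (nat_lit 0) (nat_lit 361439717737) (nat_lit 1) (nat_lit 5) (nat_lit 3) (nat_lit 4) (nat_lit 1) (nat_lit 4) (nat_lit 433) (nat_lit 328) (nat_lit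 259)) (XT.lf (nat_lit 0) (nat_lit 401532585367) (nat_lit 152) (nat_lit 278653496951) (nat_lit 0) (nat_lit 397633076100) (nat_lit 1) (nat_lit 5) (nat_lit 3) (nat_lit 4) (nat_lit 1) (nat_lit 4) (nat_lit 434) (nat_lit 328) (nat_lit 258))) (XT.nd (nat_lit 78) (nat_lit 0) (nat_lit 0) (XT.lf (nat_lit 0) (nat_lit 440617877284) (nat_lit 152) (nat_lit 286127325156) (nat_lit 0) (nat_lit 436717040609) (nat_lit 1) (nat_lit 5) (nat_lit 3) (nat_lit 4) (nat_lit 1) (nat_lit 4) (nat_lit 435) (nat_lit 328) (nat_lit 257)) (XT.nd (nat_lit 78) (nat_lit 0) (nat_lit 0) (XT.lf (nat_lit 0) (nat_lit 482825285697) (nat_lit 152) (nat_lit 294208645593) (nat_lit 0) (nat_lit 478923219941) (nat_lit 1) (nat_lit 5) (nat_lit 3) (nat_lit 4) (nat_lit 1) (nat_lit 4) (nat_lit 436) (nat_lit 328) (nat_lit 256)) (XT.lf (nat_lit 0) (nat_lit 528404928583) (nat_lit 152) (nat_lit 302945347570) (nat_lit 0) (nat_lit 524501724788) (nat_lit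 1) (nat_lit 5) (nat_lit 3) (nat_lit 4) (nat_lit 1) (nat_lit 4) (nat_lit 437) (nat_lit 328) (nat_lit 255)))))) (XT.nd (nat_lit 390) (nat_lit 0) (nat_lit 0) (XT.nd (nat_lit 156) (nat_lit 0) (nat_lit 0) (XT.nd (nat_lit 78) (nat_lit 0) (nat_lit 0) (XT.lf (nat_lit 0) (nat_lit 577626907529) (nat_lit 152) (nat_lit 312389204135) (nat_lit 0) (nat_lit 573722649994) (nat_lit 1) (nat_lit 5) (nat_lit 3) (nat_lit 4) (nat_lit 1) (nat_lit 4) (nat_lit 438) (nat_lit 328) (nat_lit 254)) (XT.lf (nat_lit 0) (nat_lit 630782908336) (nat_lit 152) (nat_lit 322596178882) (nat_lit 0) (nat_lit 626877675117) (nat_lit 1) (nat_lit 5) (nat_lit 3) (nat_lit 4) (nat_lit 1) (nat_lit 4) (nat_lit 439) (nat_lit 328) (nat_lit 253))) (XT.nd (nat_lit 78) (nat_lit 0) (nat_lit 0) (XT.lf (nat_lit 0) (nat_lit 688187929528) (nat_lit 152) (nat_lit 333626757588) (nat_lit 0) (nat_lit 684281792896) (nat_lit 1) (nat_lit 5) (nat_lit 3) (nat_lit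 4) (nat_lit 1) (nat_lit 4) (nat_lit 440) (nat_lit 328) (nat_lit 252)) (XT.nd (nat_lit 78) (nat_lit 0) (nat_lit 0) (XT.lf (nat_lit 0) (nat_lit 750182149007) (nat_lit 152) (nat_lit 345546306645) (nat_lit 0) (nat_lit 746275175883) (nat_lit 1) (nat_lit 5) (nat_lit 3) (nat_lit 4) (nat_lit 1) (nat_lit 4) (nat_lit 441) (nat_lit 328) (nat_lit 251)) (XT.lf (nat_lit 0) (nat_lit 817132939926) (nat_lit 152) (nat_lit 358425460418) (nat_lit 0) (nat_lit 813225192272) (nat_lit 1) (nat_lit 5) (nat_lit 3) (nat_lit 4) (nat_lit 1) (nat_lit 4) (nat_lit 442) (nat_lit 328) (nat_lit 250))))) (XT.nd (nat_lit 234) (nat_lit 0) (nat_lit 0) (XT.nd (nat_lit 78) (nat_lit 0) (nat_lit 0) (XT.lf (nat_lit 0) (nat_lit 889437047713) (nat_lit 152) (nat_lit 372340539819) (nat_lit 0) (nat_lit 885528582902) (nat_lit 1) (nat_lit 5) (nat_lit 3) (nat_lit 4) (nat_lit 1) (nat_lit 4) (nat_lit 443) (nat_lit 328) (nat_lit 249)) (XT.nd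 (nat_lit 78) (nat_lit 0) (nat_lit 0) (XT.lf (nat_lit 0) (nat_lit 967522941155) (nat_lit 152) (nat_lit 387374004576) (nat_lit 0) (nat_lit 963613812310) (nat_lit 1) (nat_lit 5) (nat_lit 3) (nat_lit 4) (nat_lit 1) (nat_lit 4) (nat_lit 444) (nat_lit 328) (nat_lit 248)) (XT.lf (nat_lit 0) (nat_lit 1051853351473) (nat_lit 152) (nat_lit 403614941888) (nat_lit 0) (nat_lit 1047943607780) (nat_lit 1) (nat_lit 5) (nat_lit 3) (nat_lit 4) (nat_lit 1) (nat_lit 4) (nat_lit 445) (nat_lit 328) (nat_lit 247)))) (XT.nd (nat_lit 78) (nat_lit 0) (nat_lit 0) (XT.lf (nat_lit 0) (nat_lit 1142928014430) (nat_lit 152) (nat_lit 421159594348) (nat_lit 0) (nat_lit 1139017701435) (nat_lit 1) (nat_lit 5) (nat_lit 3) (nat_lit 4) (nat_lit 1) (nat_lit 4) (nat_lit 446) (nat_lit 328) (nat_lit 246)) (XT.nd (nat_lit 78) (nat_lit 0) (nat_lit 0) (XT.lf (nat_lit 0) (nat_lit 1241286631733) (nat_lit 152) (nat_lit 440111930265)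 (nat_lit 0) (nat_lit 1237375791606) (nat_lit 1) (nat_lit 5) (nat_lit 3) (nat_lit 4) (nat_lit 1) (nat_lit 4) (nat_lit 447) (nat_lit 328) (nat_lit 245)) (XT.lf (nat_lit 0) (nat_lit 1347512069264) (nat_lit 152) (nat_lit 460584259779) (nat_lit 0) (nat_lit 1343600741051) (nat_lit 1) (nat_lit 5) (nat_lit 3) (nat_lit 4) (nat_lit 1) (nat_lit 4) (nat_lit 448) (nat_lit 328) (nat_lit 244))))))) (XT.nd (nat_lit 780) (nat_lit 0) (nat_lit 0) (XT.nd (nat_lit 390) (nat_lit 0) (nat_lit 0) (XT.nd (nat_lit 156) (nat_lit 0) (nat_lit 0) (XT.nd (nat_lit 78) (nat_lit 0) (nat_lit 0) (XT.lf (nat_lit 0) (nat_lit 1462233811095) (nat_lit 152) (nat_lit 482697900398) (nat_lit 0) (nat_lit 1458322030952) (nat_lit 1) (nat_lit 5) (nat_lit 3) (nat_lit 4) (nat_lit 1) (nat_lit 4) (nat_lit 449) (nat_lit 328) (nat_lit 243)) (XT.lf (nat_lit 0) (nat_lit 1586131689772) (nat_lit 152) (nat_lit 506583895918) (nat_lit 0) (nat_lit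 1582219491174) (nat_lit 1) (nat_lit 5) (nat_lit 3) (nat_lit 4) (nat_lit 1) (nat_lit 4) (nat_lit 450) (nat_lit 328) (nat_lit 242))) (XT.nd (nat_lit 78) (nat_lit 0) (nat_lit 0) (XT.lf (nat_lit 0) (nat_lit 1719939914945) (nat_lit 152) (nat_lit 532383792979) (nat_lit 0) (nat_lit 1716027328890) (nat_lit 1) (nat_lit 5) (nat_lit 3) (nat_lit 4) (nat_lit 1) (nat_lit 4) (nat_lit 451) (nat_lit 328) (nat_lit 241)) (XT.nd (nat_lit 78) (nat_lit 0) (nat_lit 0) (XT.lf (nat_lit 0) (nat_lit 1864451424246) (nat_lit 152) (nat_lit 560250479860) (nat_lit 0) (nat_lit 1860538479433) (nat_lit 1) (nat_lit 5) (nat_lit 3) (nat_lit 4) (nat_lit 1) (nat_lit 4) (nat_lit 452) (nat_lit 328) (nat_lit 240)) (XT.lf (nat_lit 0) (nat_lit 2020522582173) (nat_lit 152) (nat_lit 590349092484) (nat_lit 0) (nat_lit 2016609305178) (nat_lit 1) (nat_lit 5) (nat_lit 3) (nat_lit 4) (nat_lit 1) (nat_lit 4) (nat_lit 453) (nat_lit 328) (nat_lit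 239))))) (XT.nd (nat_lit 156) (nat_lit 0) (nat_lit 0) (XT.nd (nat_lit 78) (nat_lit 0) (nat_lit 0) (XT.lf (nat_lit 0) (nat_lit 2189078254848) (nat_lit 152) (nat_lit 622857992999) (nat_lit 0) (nat_lit 2185164670276) (nat_lit 1) (nat_lit 5) (nat_lit 3) (nat_lit 4) (nat_lit 1) (nat_lit 4) (nat_lit 454) (nat_lit 328) (nat_lit 238)) (XT.lf (nat_lit 0) (nat_lit 2371117290702) (nat_lit 152) (nat_lit 657969826741) (nat_lit 0) (nat_lit 2367203421337) (nat_lit 1) (nat_lit 5) (nat_lit 3) (nat_lit 4) (nat_lit 1) (nat_lit 4) (nat_lit 455) (nat_lit 328) (nat_lit 237))) (XT.nd (nat_lit 78) (nat_lit 0) (nat_lit 0) (XT.lf (nat_lit 0) (nat_lit 2567718439576) (nat_lit 152) (nat_lit 695892663837) (nat_lit 0) (nat_lit 2563804306514) (nat_lit 1) (nat_lit 5) (nat_lit 3) (nat_lit 4) (nat_lit 1) (nat_lit 4) (nat_lit 456) (nat_lit 328) (nat_lit 236)) (XT.nd (nat_lit 78) (nat_lit 0) (nat_lit 0) (XT.lf (nat_lit 0)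 (nat_lit 2780046745317) (nat_lit 152) (nat_lit 736851232210) (nat_lit 0) (nat_lit 2776132368090) (nat_lit 1) (nat_lit 5) (nat_lit 3) (nat_lit 4) (nat_lit 1) (nat_lit 4) (nat_lit 457) (nat_lit 328) (nat_lit 235)) (XT.lf (nat_lit 0) (nat_lit 3009360449734) (nat_lit 152) (nat_lit 781088249302) (nat_lit 0) (nat_lit 3005445846430) (nat_lit 1) (nat_lit 5) (nat_lit 3) (nat_lit 4) (nat_lit 1) (nat_lit 4) (nat_lit 458) (nat_lit 328) (nat_lit 234)))))) (XT.nd (nat_lit 390) (nat_lit 0) (nat_lit 0) (XT.nd (nat_lit 156) (nat_lit 0) (nat_lit 0) (XT.nd (nat_lit 78) (nat_lit 0) (nat_lit 0) (XT.lf (nat_lit 0) (nat_lit 3257018448856) (nat_lit 152) (nat_lit 828865860400) (nat_lit 0) (nat_lit 3253103636220) (nat_lit 1) (nat_lit 5) (nat_lit 3) (nat_lit 4) (nat_lit 1) (nat_lit 4) (nat_lit 459) (nat_lit 328) (nat_lit 233)) (XT.lf (nat_lit 0) (nat_lit 3524488345639) (nat_lit 152) (nat_lit 880467192088) (nat_lit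 0) (nat_lit 3520573339178) (nat_lit 1) (nat_lit 5) (nat_lit 3) (nat_lit 4) (nat_lit 1) (nat_lit 4) (nat_lit 460) (nat_lit 328) (nat_lit 232))) (XT.nd (nat_lit 78) (nat_lit 0) (nat_lit 0) (XT.lf (nat_lit 0) (nat_lit 3813355146880) (nat_lit 152) (nat_lit 936198030035) (nat_lit 0) (nat_lit 3809439960951) (nat_lit 1) (nat_lit 5) (nat_lit 3) (nat_lit 4) (nat_lit 1) (nat_lit 4) (nat_lit 461) (nat_lit 328) (nat_lit 231)) (XT.nd (nat_lit 78) (nat_lit 0) (nat_lit 0) (XT.lf (nat_lit 0) (nat_lit 4125330655844) (nat_lit 152) (nat_lit 996388631058) (nat_lit 0) (nat_lit 4121415303741) (nat_lit 1) (nat_lit 5) (nat_lit 3) (nat_lit 4) (nat_lit 1) (nat_lit 4) (nat_lit 462) (nat_lit 328) (nat_lit 230)) (XT.lf (nat_lit 0) (nat_lit 4462263616289) (nat_lit 152) (nat_lit 1061395680202) (nat_lit 0) (nat_lit 4458348110321) (nat_lit 1) (nat_lit 5) (nat_lit 3) (nat_lit 4) (nat_lit 1) (nat_lit 4) (nat_lit 463) (nat_lit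 328) (nat_lit 229))))) (XT.nd (nat_lit 45318) (nat_lit 0) (nat_lit 1976) (XT.nd (nat_lit 45162) (nat_lit 0) (nat_lit 2432) (XT.lf (nat_lit 0) (nat_lit 4826150667981) (nat_lit 152) (nat_lit 1131604404423) (nat_lit 0) (nat_lit 4822235019545) (nat_lit 1) (nat_lit 5) (nat_lit 3) (nat_lit 4) (nat_lit 1) (nat_lit 4) (nat_lit 464) (nat_lit 328) (nat_lit 228)) (XT.nd (nat_lit 78) (nat_lit 152) (nat_lit 0) (XT.lf (nat_lit 0) (nat_lit 4690767935) (nat_lit 152) (nat_lit 198662647) (nat_lit 152) (nat_lit 198662647) (nat_lit 35) (nat_lit 4) (nat_lit 37) (nat_lit 5) (nat_lit 37) (nat_lit 4) (nat_lit 362) (nat_lit 329) (nat_lit 329)) (XT.lf (nat_lit 0) (nat_lit 4334449506) (nat_lit 152) (nat_lit 2558531493) (nat_lit 0) (nat_lit 3657854626) (nat_lit 33) (nat_lit 5) (nat_lit 35) (nat_lit 4) (nat_lit 33) (nat_lit 4) (nat_lit 363) (nat_lit 329) (nat_lit 328)))) (XT.nd (nat_lit 78) (nat_lit 304) (nat_lit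 0) (XT.lf (nat_lit 0) (nat_lit 6419397535) (nat_lit 152) (nat_lit 2922469561) (nat_lit 152) (nat_lit 1619397941) (nat_lit 31) (nat_lit 4) (nat_lit 33) (nat_lit 5) (nat_lit 33) (nat_lit 4) (nat_lit 364) (nat_lit 329) (nat_lit 327)) (XT.nd (nat_lit 78) (nat_lit 152) (nat_lit 0) (XT.lf (nat_lit 0) (nat_lit 3128237745) (nat_lit 152) (nat_lit 6889350814) (nat_lit 0) (nat_lit 1384587120) (nat_lit 29) (nat_lit 5) (nat_lit 31) (nat_lit 4) (nat_lit 29) (nat_lit 4) (nat_lit 365) (nat_lit 329) (nat_lit 326)) (XT.lf (nat_lit 0) (nat_lit 2209722447) (nat_lit 152) (nat_lit 5953371279) (nat_lit 152) (nat_lit 3712403218) (nat_lit 27) (nat_lit 4) (nat_lit 29) (nat_lit 5) (nat_lit 29) (nat_lit 4) (nat_lit 366) (nat_lit 329) (nat_lit 325))))))))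
noncomputable def xc64 : XT := (XT.nd (nat_lit 1560) (nat_lit 532) (nat_lit 0) (XT.nd (nat_lit 780) (nat_lit 456) (nat_lit 0) (XT.nd (nat_lit 390) (nat_lit 456) (nat_lit 0) (XT.nd (nat_lit 156) (nat_lit 228) (nat_lit 0) (XT.nd (nat_lit 78) (nat_lit 76) (nat_lit 0) (XT.lf (nat_lit 0) (nat_lit 1086925328) (nat_lit 228) (nat_lit 440642482) (nat_lit 76) (nat_lit 10862173185) (nat_lit 26) (nat_lit 5) (nat_lit 29) (nat_lit 5) (nat_lit 27) (nat_lit 4) (nat_lit 367) (nat_lit 329) (nat_lit 324)) (XT.lf (nat_lit 0) (nat_lit 6139081872) (nat_lit 152) (nat_lit 3549892646) (nat_lit 0) (nat_lit 3242955289) (nat_lit 25) (nat_lit 5) (nat_lit 27) (nat_lit 4) (nat_lit 25) (nat_lit 4) (nat_lit 368) (nat_lit 329) (nat_lit 323))) (XT.nd (nat_lit 78) (nat_lit 152) (nat_lit 0) (XT.lf (nat_lit 0) (nat_lit 6343932643) (nat_lit 76) (nat_lit 5218951285) (nat_lit 76) (nat_lit 1957281542) (nat_lit 24) (nat_lit 4)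 (nat_lit 25) (nat_lit 5) (nat_lit 25) (nat_lit 4) (nat_lit 369) (nat_lit 329) (nat_lit 322)) (XT.nd (nat_lit 78) (nat_lit 0) (nat_lit 0) (XT.lf (nat_lit 0) (nat_lit 2703642325) (nat_lit 76) (nat_lit 327020154) (nat_lit 152) (nat_lit 11124265664) (nat_lit 22) (nat_lit 5) (nat_lit 23) (nat_lit 5) (nat_lit 24) (nat_lit 4) (nat_lit 370) (nat_lit 329) (nat_lit 321)) (XT.lf (nat_lit 0) (nat_lit 8399275577) (nat_lit 152) (nat_lit 1654557495) (nat_lit 0) (nat_lit 4775636711) (nat_lit 22) (nat_lit 5) (nat_lit 24) (nat_lit 4) (nat_lit 22) (nat_lit 4) (nat_lit 371) (nat_lit 329) (nat_lit 320))))) (XT.nd (nat_lit 156) (nat_lit 228) (nat_lit 0) (XT.nd (nat_lit 78) (nat_lit 152) (nat_lit 0) (XT.lf (nat_lit 0) (nat_lit 8961369837) (nat_lit 76) (nat_lit 5244163797) (nat_lit 76) (nat_lit 1351839795) (nat_lit 21) (nat_lit 4) (nat_lit 22) (nat_lit 5) (nat_lit 22) (nat_lit 4) (nat_lit 372) (nat_lit 329) (nat_lit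 319)) (XT.lf (nat_lit 0) (nat_lit 3851083046) (nat_lit 152) (nat_lit 12473790457) (nat_lit 0) (nat_lit 16725143) (nat_lit 19) (nat_lit 5) (nat_lit 21) (nat_lit 4) (nat_lit 19) (nat_lit 4) (nat_lit 373) (nat_lit 329) (nat_lit 318))) (XT.nd (nat_lit 78) (nat_lit 228) (nat_lit 0) (XT.lf (nat_lit 0) (nat_lit 9505535278) (nat_lit 152) (nat_lit 2213705335) (nat_lit 0) (nat_lit 5457886453) (nat_lit 19) (nat_lit 5) (nat_lit 21) (nat_lit 4) (nat_lit 19) (nat_lit 4) (nat_lit 374) (nat_lit 329) (nat_lit 317)) (XT.nd (nat_lit 78) (nat_lit 152) (nat_lit 0) (XT.lf (nat_lit 0) (nat_lit 8937023486) (nat_lit 76) (nat_lit 6693114378) (nat_lit 76) (nat_lit 2447973956) (nat_lit 18) (nat_lit 4) (nat_lit 19) (nat_lit 5) (nat_lit 19) (nat_lit 4) (nat_lit 375) (nat_lit 329) (nat_lit 316)) (XT.lf (nat_lit 0) (nat_lit 1687351624) (nat_lit 76) (nat_lit 1252722719) (nat_lit 152) (nat_lit 16112485318) (nat_lit 16)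 (nat_lit 5) (nat_lit 17) (nat_lit 5) (nat_lit 18) (nat_lit 4) (nat_lit 376) (nat_lit 329) (nat_lit 315)))))) (XT.nd (nat_lit 390) (nat_lit 228) (nat_lit 0) (XT.nd (nat_lit 156) (nat_lit 152) (nat_lit 0) (XT.nd (nat_lit 78) (nat_lit 76) (nat_lit 0) (XT.lf (nat_lit 0) (nat_lit 8799542842) (nat_lit 152) (nat_lit 6743788333) (nat_lit 0) (nat_lit 4542764859) (nat_lit 16) (nat_lit 5) (nat_lit 18) (nat_lit 4) (nat_lit 16) (nat_lit 4) (nat_lit 377) (nat_lit 329) (nat_lit 314)) (XT.lf (nat_lit 0) (nat_lit 4572142406) (nat_lit 76) (nat_lit 10517591759) (nat_lit 76) (nat_lit 6115651558) (nat_lit 15) (nat_lit 4) (nat_lit 16) (nat_lit 5) (nat_lit 16) (nat_lit 4) (nat_lit 378) (nat_lit 329) (nat_lit 313))) (XT.nd (nat_lit 78) (nat_lit 152) (nat_lit 0) (XT.lf (nat_lit 0) (nat_lit 16834387184) (nat_lit 76) (nat_lit 5057743722) (nat_lit 76) (nat_lit 521394059) (nat_lit 15) (nat_lit 4) (nat_lit 16) (nat_lit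 5) (nat_lit 16) (nat_lit 4) (nat_lit 379) (nat_lit 329) (nat_lit 312)) (XT.nd (nat_lit 78) (nat_lit 0) (nat_lit 0) (XT.lf (nat_lit 0) (nat_lit 5250661835) (nat_lit 152) (nat_lit 17521437695) (nat_lit 0) (nat_lit 935103624) (nat_lit 13) (nat_lit 5) (nat_lit 15) (nat_lit 4) (nat_lit 13) (nat_lit 4) (nat_lit 380) (nat_lit 329) (nat_lit 311)) (XT.lf (nat_lit 0) (nat_lit 11578502792) (nat_lit 152) (nat_lit 6358788533) (nat_lit 0) (nat_lit 7156246017) (nat_lit 13) (nat_lit 5) (nat_lit 15) (nat_lit 4) (nat_lit 13) (nat_lit 4) (nat_lit 381) (nat_lit 329) (nat_lit 310))))) (XT.nd (nat_lit 156) (nat_lit 152) (nat_lit 0) (XT.nd (nat_lit 78) (nat_lit 0) (nat_lit 0) (XT.lf (nat_lit 0) (nat_lit 5678242503) (nat_lit 76) (nat_lit 12717477208) (nat_lit 76) (nat_lit 8196425465) (nat_lit 12) (nat_lit 4) (nat_lit 13) (nat_lit 5) (nat_lit 13) (nat_lit 4) (nat_lit 382) (nat_lit 329) (nat_lit 309)) (XT.lf (nat_lit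 0) (nat_lit 18744849968) (nat_lit 76) (nat_lit 7038180177) (nat_lit 76) (nat_lit 2425651613) (nat_lit 12) (nat_lit 4) (nat_lit 13) (nat_lit 5) (nat_lit 13) (nat_lit 4) (nat_lit 383) (nat_lit 329) (nat_lit 308))) (XT.nd (nat_lit 78) (nat_lit 0) (nat_lit 0) (XT.lf (nat_lit 0) (nat_lit 2663280067) (nat_lit 76) (nat_lit 875426370) (nat_lit 152) (nat_lit 26414737255) (nat_lit 10) (nat_lit 5) (nat_lit 11) (nat_lit 5) (nat_lit 12) (nat_lit 4) (nat_lit 384) (nat_lit 329) (nat_lit 307)) (XT.nd (nat_lit 78) (nat_lit 0) (nat_lit 0) (XT.lf (nat_lit 0) (nat_lit 10112615290) (nat_lit 152) (nat_lit 16008357144) (nat_lit 0) (nat_lit 5690711629) (nat_lit 10) (nat_lit 5) (nat_lit 12) (nat_lit 4) (nat_lit 10) (nat_lit 4) (nat_lit 385) (nat_lit 329) (nat_lit 306)) (XT.lf (nat_lit 0) (nat_lit 17104576981) (nat_lit 152) (nat_lit 4107213145) (nat_lit 0) (nat_lit 12615435125) (nat_lit 10) (nat_lit 5) (nat_lit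 12) (nat_lit 4) (nat_lit 10) (nat_lit 4) (nat_lit 386) (nat_lit 329) (nat_lit 305))))))) (XT.nd (nat_lit 780) (nat_lit 228) (nat_lit 0) (XT.nd (nat_lit 390) (nat_lit 76) (nat_lit 0) (XT.nd (nat_lit 156) (nat_lit 152) (nat_lit 0) (XT.nd (nat_lit 78) (nat_lit 0) (nat_lit 0) (XT.lf (nat_lit 0) (nat_lit 8952697900) (nat_lit 76) (nat_lit 15797586031) (nat_lit 76) (nat_lit 11246186589) (nat_lit 9) (nat_lit 4) (nat_lit 10) (nat_lit 5) (nat_lit 10) (nat_lit 4) (nat_lit 387) (nat_lit 329) (nat_lit 304)) (XT.lf (nat_lit 0) (nat_lit 23055913690) (nat_lit 76) (nat_lit 9946411900) (nat_lit 76) (nat_lit 5337366544) (nat_lit 9) (nat_lit 4) (nat_lit 10) (nat_lit 5) (nat_lit 10) (nat_lit 4) (nat_lit 388) (nat_lit 329) (nat_lit 303))) (XT.nd (nat_lit 78) (nat_lit 76) (nat_lit 0) (XT.lf (nat_lit 0) (nat_lit 880179895) (nat_lit 152) (nat_lit 2831647021) (nat_lit 76) (nat_lit 37165484696) (nat_lit 8) (nat_lit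 5) (nat_lit 10) (nat_lit 5) (nat_lit 9) (nat_lit 4) (nat_lit 389) (nat_lit 329) (nat_lit 302)) (XT.nd (nat_lit 78) (nat_lit 0) (nat_lit 0) (XT.lf (nat_lit 0) (nat_lit 7543863886) (nat_lit 152) (nat_lit 32862981590) (nat_lit 0) (nat_lit 3181046031) (nat_lit 7) (nat_lit 5) (nat_lit 9) (nat_lit 4) (nat_lit 7) (nat_lit 4) (nat_lit 390) (nat_lit 329) (nat_lit 301)) (XT.lf (nat_lit 0) (nat_lit 14813399166) (nat_lit 152) (nat_lit 21287896324) (nat_lit 0) (nat_lit 10408209843) (nat_lit 7) (nat_lit 5) (nat_lit 9) (nat_lit 4) (nat_lit 7) (nat_lit 4) (nat_lit 391) (nat_lit 329) (nat_lit 300))))) (XT.nd (nat_lit 156) (nat_lit 0) (nat_lit 0) (XT.nd (nat_lit 78) (nat_lit 76) (nat_lit 0) (XT.lf (nat_lit 0) (nat_lit 22569045662) (nat_lit 152) (nat_lit 8978822702) (nat_lit 0) (nat_lit 18124623498) (nat_lit 7) (nat_lit 5) (nat_lit 9) (nat_lit 4) (nat_lit 7) (nat_lit 4) (nat_lit 392) (nat_lit 329) (nat_lit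 299)) (XT.lf (nat_lit 0) (nat_lit 4355038604) (nat_lit 76) (nat_lit 26606462940) (nat_lit 76) (nat_lit 22125714072) (nat_lit 6) (nat_lit 4) (nat_lit 7) (nat_lit 5) (nat_lit 7) (nat_lit 4) (nat_lit 393) (nat_lit 329) (nat_lit 298))) (XT.nd (nat_lit 78) (nat_lit 0) (nat_lit 0) (XT.lf (nat_lit 0) (nat_lit 19092948681) (nat_lit 76) (nat_lit 21091900055) (nat_lit 76) (nat_lit 16577515350) (nat_lit 6) (nat_lit 4) (nat_lit 7) (nat_lit 5) (nat_lit 7) (nat_lit 4) (nat_lit 394) (nat_lit 329) (nat_lit 297)) (XT.nd (nat_lit 78) (nat_lit 0) (nat_lit 0) (XT.lf (nat_lit 0) (nat_lit 34849434398) (nat_lit 76) (nat_lit 15216997744) (nat_lit 76) (nat_lit 10671468746) (nat_lit 6) (nat_lit 4) (nat_lit 7) (nat_lit 5) (nat_lit 7) (nat_lit 4) (nat_lit 395) (nat_lit 329) (nat_lit 296)) (XT.lf (nat_lit 0) (nat_lit 51717867524) (nat_lit 76) (nat_lit 8946941771) (nat_lit 76) (nat_lit 4372575463) (nat_lit 6) (nat_lit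 4) (nat_lit 7) (nat_lit 5) (nat_lit 7) (nat_lit 4) (nat_lit 396) (nat_lit 329) (nat_lit 295)))))) (XT.nd (nat_lit 390) (nat_lit 76) (nat_lit 0) (XT.nd (nat_lit 156) (nat_lit 0) (nat_lit 0) (XT.nd (nat_lit 78) (nat_lit 0) (nat_lit 0) (XT.lf (nat_lit 0) (nat_lit 58150264) (nat_lit 76) (nat_lit 2181858285) (nat_lit 152) (nat_lit 67441639795) (nat_lit 4) (nat_lit 5) (nat_lit 5) (nat_lit 5) (nat_lit 6) (nat_lit 4) (nat_lit 397) (nat_lit 329) (nat_lit 294)) (XT.lf (nat_lit 0) (nat_lit 9572404213) (nat_lit 152) (nat_lit 59792539761) (nat_lit 0) (nat_lit 5289264523) (nat_lit 4) (nat_lit 5) (nat_lit 6) (nat_lit 4) (nat_lit 4) (nat_lit 4) (nat_lit 398) (nat_lit 329) (nat_lit 293))) (XT.nd (nat_lit 78) (nat_lit 0) (nat_lit 0) (XT.lf (nat_lit 0) (nat_lit 17483393229) (nat_lit 152) (nat_lit 49362766875) (nat_lit 0) (nat_lit 13179057257) (nat_lit 4) (nat_lit 5) (nat_lit 6) (nat_lit 4) (nat_lit 4) (nat_lit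 4) (nat_lit 399) (nat_lit 329) (nat_lit 292)) (XT.nd (nat_lit 78) (nat_lit 0) (nat_lit 0) (XT.lf (nat_lit 0) (nat_lit 25967381790) (nat_lit 152) (nat_lit 38219899617) (nat_lit 0) (nat_lit 21643419630) (nat_lit 4) (nat_lit 5) (nat_lit 6) (nat_lit 4) (nat_lit 4) (nat_lit 4) (nat_lit 400) (nat_lit 329) (nat_lit 291)) (XT.lf (nat_lit 0) (nat_lit 35074645383) (nat_lit 152) (nat_lit 26297906180) (nat_lit 0) (nat_lit 30732510827) (nat_lit 4) (nat_lit 5) (nat_lit 6) (nat_lit 4) (nat_lit 4) (nat_lit 4) (nat_lit 401) (nat_lit 329) (nat_lit 290))))) (XT.nd (nat_lit 234) (nat_lit 0) (nat_lit 0) (XT.nd (nat_lit 78) (nat_lit 76) (nat_lit 0) (XT.lf (nat_lit 0) (nat_lit 44859152977) (nat_lit 152) (nat_lit 13526137716) (nat_lit 0) (nat_lit 40500192128) (nat_lit 4) (nat_lit 5) (nat_lit 6) (nat_lit 4) (nat_lit 4) (nat_lit 4) (nat_lit 402) (nat_lit 329) (nat_lit 289)) (XT.nd (nat_lit 78) (nat_lit 0) (nat_lit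 0) (XT.lf (nat_lit 0) (nat_lit 180099643) (nat_lit 76) (nat_lit 55203118598) (nat_lit 76) (nat_lit 50828577848) (nat_lit 3) (nat_lit 4) (nat_lit 4) (nat_lit 5) (nat_lit 4) (nat_lit 4) (nat_lit 403) (nat_lit 329) (nat_lit 288)) (XT.lf (nat_lit 0) (nat_lit 15658235049) (nat_lit 76) (nat_lit 51414532015) (nat_lit 76) (nat_lit 47025565431) (nat_lit 3) (nat_lit 4) (nat_lit 4) (nat_lit 5) (nat_lit 4) (nat_lit 4) (nat_lit 404) (nat_lit 329) (nat_lit 287)))) (XT.nd (nat_lit 78) (nat_lit 0) (nat_lit 0) (XT.lf (nat_lit 0) (nat_lit 32287728345) (nat_lit 76) (nat_lit 47366908638) (nat_lit 76) (nat_lit 42964584800) (nat_lit 3) (nat_lit 4) (nat_lit 4) (nat_lit 5) (nat_lit 4) (nat_lit 4) (nat_lit 405) (nat_lit 329) (nat_lit 286)) (XT.nd (nat_lit 78) (nat_lit 0) (nat_lit 0) (XT.lf (nat_lit 0) (nat_lit 50167124676) (nat_lit 76) (nat_lit 43036262550) (nat_lit 76) (nat_lit 38621570885) (nat_lit 3) (nat_lit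 4) (nat_lit 4) (nat_lit 5) (nat_lit 4) (nat_lit 4) (nat_lit 406) (nat_lit 329) (nat_lit 285)) (XT.lf (nat_lit 0) (nat_lit 69402376019) (nat_lit 76) (nat_lit 38396930663) (nat_lit 76) (nat_lit 33970787306) (nat_lit 3) (nat_lit 4) (nat_lit 4) (nat_lit 5) (nat_lit 4) (nat_lit 4) (nat_lit 407) (nat_lit 329) (nat_lit 284))))))))
noncomputable def xc65 : XT := (XT.nd (nat_lit 1560) (nat_lit 0) (nat_lit 0) (XT.nd (nat_lit 780) (nat_lit 0) (nat_lit 0) (XT.nd (nat_lit 390) (nat_lit 152) (nat_lit 0) (XT.nd (nat_lit 156) (nat_lit 0) (nat_lit 0) (XT.nd (nat_lit 78) (nat_lit 0) (nat_lit 0) (XT.lf (nat_lit 0) (nat_lit 90107469050) (nat_lit 76) (nat_lit 33421420640) (nat_lit 76) (nat_lit 28984673864) (nat_lit 3) (nat_lit 4) (nat_lit 4) (nat_lit 5) (nat_lit 4) (nat_lit 4) (nat_lit 408) (nat_lit 329) (nat_lit 283)) (XT.lf (nat_lit 0) (nat_lit 112405100616) (nat_lit 76) (nat_lit 28080247978) (nat_lit 76)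 (nat_lit 23633683221) (nat_lit 3) (nat_lit 4) (nat_lit 4) (nat_lit 5) (nat_lit 4) (nat_lit 4) (nat_lit 409) (nat_lit 329) (nat_lit 282))) (XT.nd (nat_lit 78) (nat_lit 0) (nat_lit 0) (XT.lf (nat_lit 0) (nat_lit 136427404830) (nat_lit 76) (nat_lit 22341761282) (nat_lit 76) (nat_lit 17886105803) (nat_lit 3) (nat_lit 4) (nat_lit 4) (nat_lit 5) (nat_lit 4) (nat_lit 4) (nat_lit 410) (nat_lit 329) (nat_lit 281)) (XT.nd (nat_lit 78) (nat_lit 0) (nat_lit 0) (XT.lf (nat_lit 0) (nat_lit 162316736088) (nat_lit 76) (nat_lit 16171954705) (nat_lit 76) (nat_lit 11707881891) (nat_lit 3) (nat_lit 4) (nat_lit 4) (nat_lit 5) (nat_lit 4) (nat_lit 4) (nat_lit 411) (nat_lit 329) (nat_lit 280)) (XT.lf (nat_lit 0) (nat_lit 190226512648) (nat_lit 76) (nat_lit 9534266432) (nat_lit 76) (nat_lit 5062399788) (nat_lit 3) (nat_lit 4) (nat_lit 4) (nat_lit 5) (nat_lit 4) (nat_lit 4) (nat_lit 412) (nat_lit 329) (nat_lit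 279))))) (XT.nd (nat_lit 156) (nat_lit 0) (nat_lit 0) (XT.nd (nat_lit 78) (nat_lit 76) (nat_lit 0) (XT.lf (nat_lit 0) (nat_lit 1985184825) (nat_lit 152) (nat_lit 349898716) (nat_lit 76) (nat_lit 218282662483) (nat_lit 2) (nat_lit 5) (nat_lit 4) (nat_lit 5) (nat_lit 3) (nat_lit 4) (nat_lit 413) (nat_lit 329) (nat_lit 278)) (XT.lf (nat_lit 0) (nat_lit 9820775846) (nat_lit 152) (nat_lit 222137478917) (nat_lit 0) (nat_lit 5667289637) (nat_lit 1) (nat_lit 5) (nat_lit 3) (nat_lit 4) (nat_lit 1) (nat_lit 4) (nat_lit 414) (nat_lit 329) (nat_lit 277))) (XT.nd (nat_lit 78) (nat_lit 0) (nat_lit 0) (XT.lf (nat_lit 0) (nat_lit 18331742552) (nat_lit 152) (nat_lit 223485815266) (nat_lit 0) (nat_lit 14172527647) (nat_lit 1) (nat_lit 5) (nat_lit 3) (nat_lit 4) (nat_lit 1) (nat_lit 4) (nat_lit 415) (nat_lit 329) (nat_lit 276)) (XT.nd (nat_lit 78) (nat_lit 0) (nat_lit 0) (XT.lf (nat_lit 0) (nat_lit 27503273209)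 (nat_lit 152) (nat_lit 224983388731) (nat_lit 0) (nat_lit 23338753954) (nat_lit 1) (nat_lit 5) (nat_lit 3) (nat_lit 4) (nat_lit 1) (nat_lit 4) (nat_lit 416) (nat_lit 329) (nat_lit 275)) (XT.lf (nat_lit 0) (nat_lit 37389717628) (nat_lit 152) (nat_lit 226639073824) (nat_lit 0) (nat_lit 33220286938) (nat_lit 1) (nat_lit 5) (nat_lit 3) (nat_lit 4) (nat_lit 1) (nat_lit 4) (nat_lit 417) (nat_lit 329) (nat_lit 274)))))) (XT.nd (nat_lit 390) (nat_lit 0) (nat_lit 0) (XT.nd (nat_lit 156) (nat_lit 0) (nat_lit 0) (XT.nd (nat_lit 78) (nat_lit 0) (nat_lit 0) (XT.lf (nat_lit 0) (nat_lit 48049662145) (nat_lit 152) (nat_lit 228462682011) (nat_lit 0) (nat_lit 43875683831) (nat_lit 1) (nat_lit 5) (nat_lit 3) (nat_lit 4) (nat_lit 1) (nat_lit 4) (nat_lit 418) (nat_lit 329) (nat_lit 273)) (XT.lf (nat_lit 0) (nat_lit 59546276803) (nat_lit 152) (nat_lit 230465019859) (nat_lit 0) (nat_lit 55368087726) (nat_lit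 1) (nat_lit 5) (nat_lit 3) (nat_lit 4) (nat_lit 1) (nat_lit 4) (nat_lit 419) (nat_lit 329) (nat_lit 272))) (XT.nd (nat_lit 78) (nat_lit 0) (nat_lit 0) (XT.lf (nat_lit 0) (nat_lit 71947689688) (nat_lit 152) (nat_lit 232657953074) (nat_lit 0) (nat_lit 67765601756) (nat_lit 1) (nat_lit 5) (nat_lit 3) (nat_lit 4) (nat_lit 1) (nat_lit 4) (nat_lit 420) (nat_lit 329) (nat_lit 271)) (XT.nd (nat_lit 78) (nat_lit 0) (nat_lit 0) (XT.lf (nat_lit 0) (nat_lit 85327390654) (nat_lit 152) (nat_lit 235054476815) (nat_lit 0) (nat_lit 81141692671) (nat_lit 1) (nat_lit 5) (nat_lit 3) (nat_lit 4) (nat_lit 1) (nat_lit 4) (nat_lit 421) (nat_lit 329) (nat_lit 270)) (XT.lf (nat_lit 0) (nat_lit 99764666819) (nat_lit 152) (nat_lit 237668792705) (nat_lit 0) (nat_lit 95575626196) (nat_lit 1) (nat_lit 5) (nat_lit 3) (nat_lit 4) (nat_lit 1) (nat_lit 4) (nat_lit 422) (nat_lit 329) (nat_lit 269))))) (XT.nd (nat_lit 156)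 (nat_lit 0) (nat_lit 0) (XT.nd (nat_lit 78) (nat_lit 0) (nat_lit 0) (XT.lf (nat_lit 0) (nat_lit 115345072411) (nat_lit 152) (nat_lit 240516392986) (nat_lit 0) (nat_lit 111152936752) (nat_lit 1) (nat_lit 5) (nat_lit 3) (nat_lit 4) (nat_lit 1) (nat_lit 4) (nat_lit 423) (nat_lit 329) (nat_lit 268)) (XT.lf (nat_lit 0) (nat_lit 132160935760) (nat_lit 152) (nat_lit 243614152327) (nat_lit 0) (nat_lit 127965934326) (nat_lit 1) (nat_lit 5) (nat_lit 3) (nat_lit 4) (nat_lit 1) (nat_lit 4) (nat_lit 424) (nat_lit 329) (nat_lit 267))) (XT.nd (nat_lit 78) (nat_lit 0) (nat_lit 0) (XT.lf (nat_lit 0) (nat_lit 150311906427) (nat_lit 152) (nat_lit 246980427819) (nat_lit 0) (nat_lit 146114251497) (nat_lit 1) (nat_lit 5) (nat_lit 3) (nat_lit 4) (nat_lit 1) (nat_lit 4) (nat_lit 425) (nat_lit 329) (nat_lit 266)) (XT.nd (nat_lit 78) (nat_lit 0) (nat_lit 0) (XT.lf (nat_lit 0) (nat_lit 169905545718) (nat_lit 152)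 (nat_lit 250635167763) (nat_lit 0) (nat_lit 165705433848) (nat_lit 1) (nat_lit 5) (nat_lit 3) (nat_lit 4) (nat_lit 1) (nat_lit 4) (nat_lit 426) (nat_lit 329) (nat_lit 265)) (XT.lf (nat_lit 0) (nat_lit 191057964090) (nat_lit 152) (nat_lit 254600029876) (nat_lit 0) (nat_lit 186855577275) (nat_lit 1) (nat_lit 5) (nat_lit 3) (nat_lit 4) (nat_lit 1) (nat_lit 4) (nat_lit 427) (nat_lit 329) (nat_lit 264))))))) (XT.nd (nat_lit 780) (nat_lit 0) (nat_lit 0) (XT.nd (nat_lit 390) (nat_lit 0) (nat_lit 0) (XT.nd (nat_lit 156) (nat_lit 0) (nat_lit 0) (XT.nd (nat_lit 78) (nat_lit 0) (nat_lit 0) (XT.lf (nat_lit 0) (nat_lit 213894509206) (nat_lit 152) (nat_lit 258898509637) (nat_lit 0) (nat_lit 209690015962) (nat_lit 1) (nat_lit 5) (nat_lit 3) (nat_lit 4) (nat_lit 1) (nat_lit 4) (nat_lit 428) (nat_lit 329) (nat_lit 263)) (XT.lf (nat_lit 0) (nat_lit 238550508742) (nat_lit 152) (nat_lit 263556079519) (nat_lit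 0) (nat_lit 234344065099) (nat_lit 1) (nat_lit 5) (nat_lit 3) (nat_lit 4) (nat_lit 1) (nat_lit 4) (nat_lit 429) (nat_lit 329) (nat_lit 262))) (XT.nd (nat_lit 78) (nat_lit 0) (nat_lit 0) (XT.lf (nat_lit 0) (nat_lit 265172072323) (nat_lit 152) (nat_lit 268600339936) (nat_lit 0) (nat_lit 260963822756) (nat_lit 1) (nat_lit 5) (nat_lit 3) (nat_lit 4) (nat_lit 1) (nat_lit 4) (nat_lit 430) (nat_lit 329) (nat_lit 261)) (XT.nd (nat_lit 78) (nat_lit 0) (nat_lit 0) (XT.lf (nat_lit 0) (nat_lit 293916957365) (nat_lit 152) (nat_lit 274061182803) (nat_lit 0) (nat_lit 289707035646) (nat_lit 1) (nat_lit 5) (nat_lit 3) (nat_lit 4) (nat_lit 1) (nat_lit 4) (nat_lit 431) (nat_lit 329) (nat_lit 260)) (XT.lf (nat_lit 0) (nat_lit 324955503926) (nat_lit 152) (nat_lit 279970968668) (nat_lit 0) (nat_lit 320744033918) (nat_lit 1) (nat_lit 5) (nat_lit 3) (nat_lit 4) (nat_lit 1) (nat_lit 4) (nat_lit 432) (nat_lit 329)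 (nat_lit 259))))) (XT.nd (nat_lit 156) (nat_lit 0) (nat_lit 0) (XT.nd (nat_lit 78) (nat_lit 0) (nat_lit 0) (XT.lf (nat_lit 0) (nat_lit 358471644135) (nat_lit 152) (nat_lit 286364718485) (nat_lit 0) (nat_lit 354258740526) (nat_lit 1) (nat_lit 5) (nat_lit 3) (nat_lit 4) (nat_lit 1) (nat_lit 4) (nat_lit 433) (nat_lit 329) (nat_lit 258)) (XT.lf (nat_lit 0) (nat_lit 394663992155) (nat_lit 152) (nat_lit 293280321143) (nat_lit 0) (nat_lit 390449761137) (nat_lit 1) (nat_lit 5) (nat_lit 3) (nat_lit 4) (nat_lit 1) (nat_lit 4) (nat_lit 434) (nat_lit 329) (nat_lit 257))) (XT.nd (nat_lit 78) (nat_lit 0) (nat_lit 0) (XT.lf (nat_lit 0) (nat_lit 433747021160) (nat_lit 152) (nat_lit 300758757990) (nat_lit 0) (nat_lit 429531561061) (nat_lit 1) (nat_lit 5) (nat_lit 3) (nat_lit 4) (nat_lit 1) (nat_lit 4) (nat_lit 435) (nat_lit 329) (nat_lit 256)) (XT.nd (nat_lit 78) (nat_lit 0) (nat_lit 0) (XT.lf (nat_lit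 0) (nat_lit 475952334284) (nat_lit 152) (nat_lit 308844345690) (nat_lit 0) (nat_lit 471735736147) (nat_lit 1) (nat_lit 5) (nat_lit 3) (nat_lit 4) (nat_lit 1) (nat_lit 4) (nat_lit 436) (nat_lit 329) (nat_lit 255)) (XT.lf (nat_lit 0) (nat_lit 521530037088) (nat_lit 152) (nat_lit 317584998834) (nat_lit 0) (nat_lit 517312385211) (nat_lit 1) (nat_lit 5) (nat_lit 3) (nat_lit 4) (nat_lit 1) (nat_lit 4) (nat_lit 437) (nat_lit 329) (nat_lit 254)))))) (XT.nd (nat_lit 390) (nat_lit 0) (nat_lit 0) (XT.nd (nat_lit 156) (nat_lit 0) (nat_lit 0) (XT.nd (nat_lit 78) (nat_lit 0) (nat_lit 0) (XT.lf (nat_lit 0) (nat_lit 570750219662) (nat_lit 152) (nat_lit 327032513888) (nat_lit 0) (nat_lit 566531592100) (nat_lit 1) (nat_lit 5) (nat_lit 3) (nat_lit 4) (nat_lit 1) (nat_lit 4) (nat_lit 438) (nat_lit 329) (nat_lit 253)) (XT.lf (nat_lit 0) (nat_lit 623904557161) (nat_lit 152) (nat_lit 337242876126) (nat_lit 0)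 (nat_lit 619685026187) (nat_lit 1) (nat_lit 5) (nat_lit 3) (nat_lit 4) (nat_lit 1) (nat_lit 4) (nat_lit 439) (nat_lit 329) (nat_lit 252))) (XT.nd (nat_lit 78) (nat_lit 0) (nat_lit 0) (XT.lf (nat_lit 0) (nat_lit 681308038252) (nat_lit 152) (nat_lit 348276591396) (nat_lit 0) (nat_lit 677087670787) (nat_lit 1) (nat_lit 5) (nat_lit 3) (nat_lit 4) (nat_lit 1) (nat_lit 4) (nat_lit 440) (nat_lit 329) (nat_lit 251)) (XT.nd (nat_lit 78) (nat_lit 0) (nat_lit 0) (XT.lf (nat_lit 0) (nat_lit 743300831713) (nat_lit 152) (nat_lit 360199044680) (nat_lit 0) (nat_lit 739079689717) (nat_lit 1) (nat_lit 5) (nat_lit 3) (nat_lit 4) (nat_lit 1) (nat_lit 4) (nat_lit 441) (nat_lit 329) (nat_lit 250)) (XT.lf (nat_lit 0) (nat_lit 810250302245) (nat_lit 152) (nat_lit 373080887552) (nat_lit 0) (nat_lit 806028443092) (nat_lit 1) (nat_lit 5) (nat_lit 3) (nat_lit 4) (nat_lit 1) (nat_lit 4) (nat_lit 442) (nat_lit 329)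 (nat_lit 249))))) (XT.nd (nat_lit 234) (nat_lit 0) (nat_lit 0) (XT.nd (nat_lit 78) (nat_lit 0) (nat_lit 0) (XT.lf (nat_lit 0) (nat_lit 882553187452) (nat_lit 152) (nat_lit 386998456858) (nat_lit 0) (nat_lit 878330664264) (nat_lit 1) (nat_lit 5) (nat_lit 3) (nat_lit 4) (nat_lit 1) (nat_lit 4) (nat_lit 443) (nat_lit 329) (nat_lit 248)) (XT.nd (nat_lit 78) (nat_lit 0) (nat_lit 0) (XT.lf (nat_lit 0) (nat_lit 960637948874) (nat_lit 152) (nat_lit 402034227084) (nat_lit 0) (nat_lit 956414810840) (nat_lit 1) (nat_lit 5) (nat_lit 3) (nat_lit 4) (nat_lit 1) (nat_lit 4) (nat_lit 444) (nat_lit 329) (nat_lit 247)) (XT.lf (nat_lit 0) (nat_lit 1044967311026) (nat_lit 152) (nat_lit 418277299090) (nat_lit 0) (nat_lit 1040743603688) (nat_lit 1) (nat_lit 5) (nat_lit 3) (nat_lit 4) (nat_lit 1) (nat_lit 4) (nat_lit 445) (nat_lit 329) (nat_lit 246)))) (XT.nd (nat_lit 78) (nat_lit 0) (nat_lit 0) (XT.lf (nat_lit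 0) (nat_lit 1136041003459) (nat_lit 152) (nat_lit 435823928117) (nat_lit 0) (nat_lit 1131816768989) (nat_lit 1) (nat_lit 5) (nat_lit 3) (nat_lit 4) (nat_lit 1) (nat_lit 4) (nat_lit 446) (nat_lit 329) (nat_lit 245)) (XT.nd (nat_lit 78) (nat_lit 0) (nat_lit 0) (XT.lf (nat_lit 0) (nat_lit 1234398722129) (nat_lit 152) (nat_lit 454778094190) (nat_lit 0) (nat_lit 1230173999574) (nat_lit 1) (nat_lit 5) (nat_lit 3) (nat_lit 4) (nat_lit 1) (nat_lit 4) (nat_lit 447) (nat_lit 329) (nat_lit 244)) (XT.lf (nat_lit 0) (nat_lit 1340623327591) (nat_lit 152) (nat_lit 475252118292) (nat_lit 0) (nat_lit 1336398153106) (nat_lit 1) (nat_lit 5) (nat_lit 3) (nat_lit 4) (nat_lit 1) (nat_lit 4) (nat_lit 448) (nat_lit 329) (nat_lit 243))))))))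
noncomputable def xc66 : XT := (XT.nd (nat_lit 46566) (nat_lit 0) (nat_lit 684) (XT.nd (nat_lit 780) (nat_lit 0) (nat_lit 0) (XT.nd (nat_lit 390) (nat_lit 0) (nat_lit 0) (XT.nd (nat_lit 156) (nat_lit 0) (nat_lit 0) (XT.nd (nat_lit 78) (nat_lit 0) (nat_lit 0) (XT.lf (nat_lit 0) (nat_lit 1455344298989) (nat_lit 152) (nat_lit 497367327974) (nat_lit 0) (nat_lit 1451118706050) (nat_lit 1) (nat_lit 5) (nat_lit 3) (nat_lit 4) (nat_lit 1) (nat_lit 4) (nat_lit 449) (nat_lit 329) (nat_lit 242)) (XT.lf (nat_lit 0) (nat_lit 1579241464302) (nat_lit 152) (nat_lit 521254776331) (nat_lit 0) (nat_lit 1575015483904) (nat_lit 1) (nat_lit 5) (nat_lit 3) (nat_lit 4) (nat_lit 1) (nat_lit 4) (nat_lit 450) (nat_lit 329) (nat_lit 241))) (XT.nd (nat_lit 78) (nat_lit 0) (nat_lit 0) (XT.lf (nat_lit 0) (nat_lit 1713049028953) (nat_lit 152) (nat_lit 547056018611) (nat_lit 0) (nat_lit 1708822689798) (nat_lit 1) (nat_lit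 5) (nat_lit 3) (nat_lit 4) (nat_lit 1) (nat_lit 4) (nat_lit 451) (nat_lit 329) (nat_lit 240)) (XT.nd (nat_lit 78) (nat_lit 0) (nat_lit 0) (XT.lf (nat_lit 0) (nat_lit 1857559926658) (nat_lit 152) (nat_lit 574923951065) (nat_lit 0) (nat_lit 1853333255321) (nat_lit 1) (nat_lit 5) (nat_lit 3) (nat_lit 4) (nat_lit 1) (nat_lit 4) (nat_lit 452) (nat_lit 329) (nat_lit 239)) (XT.lf (nat_lit 0) (nat_lit 2013630518294) (nat_lit 152) (nat_lit 605023716997) (nat_lit 0) (nat_lit 2009403539380) (nat_lit 1) (nat_lit 5) (nat_lit 3) (nat_lit 4) (nat_lit 1) (nat_lit 4) (nat_lit 453) (nat_lit 329) (nat_lit 238))))) (XT.nd (nat_lit 156) (nat_lit 0) (nat_lit 0) (XT.nd (nat_lit 78) (nat_lit 0) (nat_lit 0) (XT.lf (nat_lit 0) (nat_lit 2182185666625) (nat_lit 152) (nat_lit 637533685390) (nat_lit 0) (nat_lit 2177958402918) (nat_lit 1) (nat_lit 5) (nat_lit 3) (nat_lit 4) (nat_lit 1) (nat_lit 4) (nat_lit 454) (nat_lit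 329) (nat_lit 237)) (XT.lf (nat_lit 0) (nat_lit 2364224216976) (nat_lit 152) (nat_lit 672646507908) (nat_lit 0) (nat_lit 2359996689571) (nat_lit 1) (nat_lit 5) (nat_lit 3) (nat_lit 4) (nat_lit 1) (nat_lit 4) (nat_lit 455) (nat_lit 329) (nat_lit 236))) (XT.nd (nat_lit 78) (nat_lit 0) (nat_lit 0) (XT.lf (nat_lit 0) (nat_lit 2560824916309) (nat_lit 152) (nat_lit 710570260537) (nat_lit 0) (nat_lit 2556597144741) (nat_lit 1) (nat_lit 5) (nat_lit 3) (nat_lit 4) (nat_lit 1) (nat_lit 4) (nat_lit 456) (nat_lit 329) (nat_lit 235)) (XT.nd (nat_lit 78) (nat_lit 0) (nat_lit 0) (XT.lf (nat_lit 0) (nat_lit 2773152805808) (nat_lit 152) (nat_lit 751529676626) (nat_lit 0) (nat_lit 2768924808162) (nat_lit 1) (nat_lit 5) (nat_lit 3) (nat_lit 4) (nat_lit 1) (nat_lit 4) (nat_lit 457) (nat_lit 329) (nat_lit 234)) (XT.lf (nat_lit 0) (nat_lit 3002466124818) (nat_lit 152) (nat_lit 795767478641) (nat_lit 0) (nat_lit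 2998237917840) (nat_lit 1) (nat_lit 5) (nat_lit 3) (nat_lit 4) (nat_lit 1) (nat_lit 4) (nat_lit 458) (nat_lit 329) (nat_lit 233)))))) (XT.nd (nat_lit 45396) (nat_lit 0) (nat_lit 2280) (XT.nd (nat_lit 156) (nat_lit 0) (nat_lit 0) (XT.nd (nat_lit 78) (nat_lit 0) (nat_lit 0) (XT.lf (nat_lit 0) (nat_lit 3250123767080) (nat_lit 152) (nat_lit 843545816518) (nat_lit 0) (nat_lit 3245895366277) (nat_lit 1) (nat_lit 5) (nat_lit 3) (nat_lit 4) (nat_lit 1) (nat_lit 4) (nat_lit 459) (nat_lit 329) (nat_lit 232)) (XT.lf (nat_lit 0) (nat_lit 3517593333437) (nat_lit 152) (nat_lit 895147821150) (nat_lit 0) (nat_lit 3513364753166) (nat_lit 1) (nat_lit 5) (nat_lit 3) (nat_lit 4) (nat_lit 1) (nat_lit 4) (nat_lit 460) (nat_lit 329) (nat_lit 231))) (XT.nd (nat_lit 78) (nat_lit 0) (nat_lit 0) (XT.lf (nat_lit 0) (nat_lit 3806459828728) (nat_lit 152) (nat_lit 950879282194) (nat_lit 0) (nat_lit 3802231082283) (nat_lit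 1) (nat_lit 5) (nat_lit 3) (nat_lit 4) (nat_lit 1) (nat_lit 4) (nat_lit 461) (nat_lit 329) (nat_lit 230)) (XT.nd (nat_lit 78) (nat_lit 0) (nat_lit 0) (XT.lf (nat_lit 0) (nat_lit 4118435054406) (nat_lit 152) (nat_lit 1011070460159) (nat_lit 0) (nat_lit 4114206154096) (nat_lit 1) (nat_lit 5) (nat_lit 3) (nat_lit 4) (nat_lit 1) (nat_lit 4) (nat_lit 462) (nat_lit 329) (nat_lit 229)) (XT.lf (nat_lit 0) (nat_lit 4455367752548) (nat_lit 152) (nat_lit 1076078043508) (nat_lit 0) (nat_lit 4451138709771) (nat_lit 1) (nat_lit 5) (nat_lit 3) (nat_lit 4) (nat_lit 1) (nat_lit 4) (nat_lit 463) (nat_lit 329) (nat_lit 228))))) (XT.nd (nat_lit 156) (nat_lit 304) (nat_lit 0) (XT.nd (nat_lit 78) (nat_lit 152) (nat_lit 0) (XT.lf (nat_lit 0) (nat_lit 558789728) (nat_lit 228) (nat_lit 3625661856) (nat_lit 0) (nat_lit 558789728) (nat_lit 37) (nat_lit 5) (nat_lit 40) (nat_lit 4) (nat_lit 37) (nat_lit 4) (nat_lit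 360) (nat_lit 330) (nat_lit 330)) (XT.lf (nat_lit 0) (nat_lit 655293772) (nat_lit 152) (nat_lit 4977108144) (nat_lit 152) (nat_lit 4187927877) (nat_lit 35) (nat_lit 4) (nat_lit 37) (nat_lit 5) (nat_lit 37) (nat_lit 4) (nat_lit 361) (nat_lit 330) (nat_lit 329))) (XT.nd (nat_lit 78) (nat_lit 228) (nat_lit 0) (XT.lf (nat_lit 0) (nat_lit 240491460) (nat_lit 228) (nat_lit 1019680499) (nat_lit 76) (nat_lit 8925863402) (nat_lit 34) (nat_lit 5) (nat_lit 37) (nat_lit 5) (nat_lit 35) (nat_lit 4) (nat_lit 362) (nat_lit 330) (nat_lit 328)) (XT.nd (nat_lit 78) (nat_lit 152) (nat_lit 0) (XT.lf (nat_lit 0) (nat_lit 4796740367) (nat_lit 152) (nat_lit 3012742769) (nat_lit 0) (nat_lit 2762946278) (nat_lit 33) (nat_lit 5) (nat_lit 35) (nat_lit 4) (nat_lit 33) (nat_lit 4) (nat_lit 363) (nat_lit 330) (nat_lit 327)) (XT.lf (nat_lit 0) (nat_lit 5728425868) (nat_lit 152) (nat_lit 3939620077) (nat_lit 152) (nat_lit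 1325754931) (nat_lit 31) (nat_lit 4) (nat_lit 33) (nat_lit 5) (nat_lit 33) (nat_lit 4) (nat_lit 364) (nat_lit 330) (nat_lit 326))))))) (XT.nd (nat_lit 780) (nat_lit 684) (nat_lit 0) (XT.nd (nat_lit 390) (nat_lit 380) (nat_lit 0) (XT.nd (nat_lit 156) (nat_lit 228) (nat_lit 0) (XT.nd (nat_lit 78) (nat_lit 152) (nat_lit 0) (XT.lf (nat_lit 0) (nat_lit 3238185963) (nat_lit 152) (nat_lit 7888903525) (nat_lit 0) (nat_lit 320623023) (nat_lit 29) (nat_lit 5) (nat_lit 31) (nat_lit 4) (nat_lit 29) (nat_lit 4) (nat_lit 365) (nat_lit 330) (nat_lit 325)) (XT.lf (nat_lit 0) (nat_lit 941329256) (nat_lit 152) (nat_lit 7184771982) (nat_lit 152) (nat_lit 3806729937) (nat_lit 27) (nat_lit 4) (nat_lit 29) (nat_lit 5) (nat_lit 29) (nat_lit 4) (nat_lit 366) (nat_lit 330) (nat_lit 324))) (XT.nd (nat_lit 78) (nat_lit 152) (nat_lit 0) (XT.lf (nat_lit 0) (nat_lit 881729276) (nat_lit 228) (nat_lit 1970414693) (nat_lit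 76) (nat_lit 9604395908) (nat_lit 26) (nat_lit 5) (nat_lit 29) (nat_lit 5) (nat_lit 27) (nat_lit 4) (nat_lit 367) (nat_lit 330) (nat_lit 323)) (XT.nd (nat_lit 78) (nat_lit 76) (nat_lit 0) (XT.lf (nat_lit 0) (nat_lit 5748287355) (nat_lit 152) (nat_lit 5405181795) (nat_lit 0) (nat_lit 1860140871) (nat_lit 25) (nat_lit 5) (nat_lit 27) (nat_lit 4) (nat_lit 25) (nat_lit 4) (nat_lit 368) (nat_lit 330) (nat_lit 322)) (XT.lf (nat_lit 0) (nat_lit 4188284512) (nat_lit 76) (nat_lit 6826398517) (nat_lit 76) (nat_lit 2599786144) (nat_lit 24) (nat_lit 4) (nat_lit 25) (nat_lit 5) (nat_lit 25) (nat_lit 4) (nat_lit 369) (nat_lit 330) (nat_lit 321))))) (XT.nd (nat_lit 156) (nat_lit 228) (nat_lit 0) (XT.nd (nat_lit 78) (nat_lit 0) (nat_lit 0) (XT.lf (nat_lit 0) (nat_lit 148101028) (nat_lit 76) (nat_lit 2105796925) (nat_lit 152) (nat_lit 12009908679) (nat_lit 22) (nat_lit 5) (nat_lit 23) (nat_lit 5) (nat_lit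 24) (nat_lit 4) (nat_lit 370) (nat_lit 330) (nat_lit 320)) (XT.lf (nat_lit 0) (nat_lit 7475952928) (nat_lit 152) (nat_lit 4470586714) (nat_lit 0) (nat_lit 3003557870) (nat_lit 22) (nat_lit 5) (nat_lit 24) (nat_lit 4) (nat_lit 22) (nat_lit 4) (nat_lit 371) (nat_lit 330) (nat_lit 319))) (XT.nd (nat_lit 78) (nat_lit 152) (nat_lit 0) (XT.lf (nat_lit 0) (nat_lit 5807585695) (nat_lit 76) (nat_lit 7302685503) (nat_lit 76) (nat_lit 2581507913) (nat_lit 21) (nat_lit 4) (nat_lit 22) (nat_lit 5) (nat_lit 22) (nat_lit 4) (nat_lit 372) (nat_lit 330) (nat_lit 318)) (XT.nd (nat_lit 78) (nat_lit 0) (nat_lit 0) (XT.lf (nat_lit 0) (nat_lit 248063489) (nat_lit 76) (nat_lit 2251741932) (nat_lit 152) (nat_lit 13993234111) (nat_lit 19) (nat_lit 5) (nat_lit 20) (nat_lit 5) (nat_lit 21) (nat_lit 4) (nat_lit 373) (nat_lit 330) (nat_lit 317)) (XT.lf (nat_lit 0) (nat_lit 8005323660) (nat_lit 152) (nat_lit 6112096675)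 (nat_lit 0) (nat_lit 3223080409) (nat_lit 19) (nat_lit 5) (nat_lit 21) (nat_lit 4) (nat_lit 19) (nat_lit 4) (nat_lit 374) (nat_lit 330) (nat_lit 316)))))) (XT.nd (nat_lit 390) (nat_lit 380) (nat_lit 0) (XT.nd (nat_lit 156) (nat_lit 152) (nat_lit 0) (XT.nd (nat_lit 78) (nat_lit 76) (nat_lit 0) (XT.lf (nat_lit 0) (nat_lit 4656580961) (nat_lit 76) (nat_lit 9282641700) (nat_lit 76) (nat_lit 4317535861) (nat_lit 18) (nat_lit 4) (nat_lit 19) (nat_lit 5) (nat_lit 19) (nat_lit 4) (nat_lit 375) (nat_lit 330) (nat_lit 315)) (XT.lf (nat_lit 0) (nat_lit 1036032515) (nat_lit 152) (nat_lit 2979475418) (nat_lit 76) (nat_lit 15229550057) (nat_lit 17) (nat_lit 5) (nat_lit 19) (nat_lit 5) (nat_lit 18) (nat_lit 4) (nat_lit 376) (nat_lit 330) (nat_lit 314))) (XT.nd (nat_lit 78) (nat_lit 76) (nat_lit 0) (XT.lf (nat_lit 0) (nat_lit 6664872259) (nat_lit 152) (nat_lit 11866571067) (nat_lit 0) (nat_lit 1765614623)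 (nat_lit 16) (nat_lit 5) (nat_lit 18) (nat_lit 4) (nat_lit 16) (nat_lit 4) (nat_lit 377) (nat_lit 330) (nat_lit 313)) (XT.nd (nat_lit 78) (nat_lit 76) (nat_lit 0) (XT.lf (nat_lit 0) (nat_lit 12764737956) (nat_lit 152) (nat_lit 935777177) (nat_lit 0) (nat_lit 7731070858) (nat_lit 16) (nat_lit 5) (nat_lit 18) (nat_lit 4) (nat_lit 16) (nat_lit 4) (nat_lit 378) (nat_lit 330) (nat_lit 312)) (XT.lf (nat_lit 0) (nat_lit 11124731459) (nat_lit 76) (nat_lit 8340633522) (nat_lit 76) (nat_lit 3182513219) (nat_lit 15) (nat_lit 4) (nat_lit 16) (nat_lit 5) (nat_lit 16) (nat_lit 4) (nat_lit 379) (nat_lit 330) (nat_lit 311))))) (XT.nd (nat_lit 234) (nat_lit 228) (nat_lit 0) (XT.nd (nat_lit 78) (nat_lit 76) (nat_lit 0) (XT.lf (nat_lit 0) (nat_lit 2475423082) (nat_lit 152) (nat_lit 124474741) (nat_lit 76) (nat_lit 21366567494) (nat_lit 14) (nat_lit 5) (nat_lit 16) (nat_lit 5) (nat_lit 15) (nat_lit 4) (nat_lit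 380) (nat_lit 330) (nat_lit 310)) (XT.nd (nat_lit 78) (nat_lit 0) (nat_lit 0) (XT.lf (nat_lit 0) (nat_lit 8663746985) (nat_lit 152) (nat_lit 13018006789) (nat_lit 0) (nat_lit 3682216136) (nat_lit 13) (nat_lit 5) (nat_lit 15) (nat_lit 4) (nat_lit 13) (nat_lit 4) (nat_lit 381) (nat_lit 330) (nat_lit 309)) (XT.lf (nat_lit 0) (nat_lit 15276109129) (nat_lit 152) (nat_lit 1399763910) (nat_lit 0) (nat_lit 10203101459) (nat_lit 13) (nat_lit 5) (nat_lit 15) (nat_lit 4) (nat_lit 13) (nat_lit 4) (nat_lit 382) (nat_lit 330) (nat_lit 308)))) (XT.nd (nat_lit 78) (nat_lit 152) (nat_lit 0) (XT.lf (nat_lit 0) (nat_lit 11461806122) (nat_lit 76) (nat_lit 11099783757) (nat_lit 76) (nat_lit 5942075327) (nat_lit 12) (nat_lit 4) (nat_lit 13) (nat_lit 5) (nat_lit 13) (nat_lit 4) (nat_lit 383) (nat_lit 330) (nat_lit 307)) (XT.nd (nat_lit 78) (nat_lit 76) (nat_lit 0) (XT.lf (nat_lit 0) (nat_lit 71058317) (nat_lit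 152) (nat_lit 5088333758) (nat_lit 76) (nat_lit 25105977731) (nat_lit 11) (nat_lit 5) (nat_lit 13) (nat_lit 5) (nat_lit 12) (nat_lit 4) (nat_lit 384) (nat_lit 330) (nat_lit 306)) (XT.lf (nat_lit 0) (nat_lit 6346985574) (nat_lit 152) (nat_lit 24368995109) (nat_lit 0) (nat_lit 1431474176) (nat_lit 10) (nat_lit 5) (nat_lit 12) (nat_lit 4) (nat_lit 10) (nat_lit 4) (nat_lit 385) (nat_lit 330) (nat_lit 305))))))))
noncomputable def xc67 : XT := (XT.nd (nat_lit 1560) (nat_lit 152) (nat_lit 0) (XT.nd (nat_lit 780) (nat_lit 228) (nat_lit 0) (XT.nd (nat_lit 390) (nat_lit 76) (nat_lit 0) (XT.nd (nat_lit 156) (nat_lit 228) (nat_lit 0) (XT.nd (nat_lit 78) (nat_lit 0) (nat_lit 0) (XT.lf (nat_lit 0) (nat_lit 13280810594) (nat_lit 152) (nat_lit 12583800475) (nat_lit 0) (nat_lit 8303041609) (nat_lit 10) (nat_lit 5) (nat_lit 12) (nat_lit 4) (nat_lit 10) (nat_lit 4) (nat_lit 386) (nat_lit 330) (nat_lit 304))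 (XT.lf (nat_lit 0) (nat_lit 20657374696) (nat_lit 152) (nat_lit 79100160) (nat_lit 0) (nat_lit 15621959796) (nat_lit 10) (nat_lit 5) (nat_lit 12) (nat_lit 4) (nat_lit 10) (nat_lit 4) (nat_lit 387) (nat_lit 330) (nat_lit 303))) (XT.nd (nat_lit 78) (nat_lit 152) (nat_lit 0) (XT.lf (nat_lit 0) (nat_lit 13915307819) (nat_lit 76) (nat_lit 14939746519) (nat_lit 76) (nat_lit 9850955773) (nat_lit 9) (nat_lit 4) (nat_lit 10) (nat_lit 5) (nat_lit 10) (nat_lit 4) (nat_lit 388) (nat_lit 330) (nat_lit 302)) (XT.nd (nat_lit 78) (nat_lit 152) (nat_lit 0) (XT.lf (nat_lit 0) (nat_lit 28832233162) (nat_lit 76) (nat_lit 8777637450) (nat_lit 76) (nat_lit 3639424624) (nat_lit 9) (nat_lit 4) (nat_lit 10) (nat_lit 5) (nat_lit 10) (nat_lit 4) (nat_lit 389) (nat_lit 330) (nat_lit 301)) (XT.lf (nat_lit 0) (nat_lit 716861142) (nat_lit 76) (nat_lit 2120078835) (nat_lit 152) (nat_lit 41159491542) (nat_lit 7) (nat_lit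 5) (nat_lit 8) (nat_lit 5) (nat_lit 9) (nat_lit 4) (nat_lit 390) (nat_lit 330) (nat_lit 300))))) (XT.nd (nat_lit 156) (nat_lit 76) (nat_lit 0) (XT.nd (nat_lit 78) (nat_lit 0) (nat_lit 0) (XT.lf (nat_lit 0) (nat_lit 10009597115) (nat_lit 152) (nat_lit 31745813734) (nat_lit 0) (nat_lit 5170388338) (nat_lit 7) (nat_lit 5) (nat_lit 9) (nat_lit 4) (nat_lit 7) (nat_lit 4) (nat_lit 391) (nat_lit 330) (nat_lit 299)) (XT.lf (nat_lit 0) (nat_lit 17722752690) (nat_lit 152) (nat_lit 19522218417) (nat_lit 0) (nat_lit 12847217209) (nat_lit 7) (nat_lit 5) (nat_lit 9) (nat_lit 4) (nat_lit 7) (nat_lit 4) (nat_lit 392) (nat_lit 330) (nat_lit 298))) (XT.nd (nat_lit 78) (nat_lit 76) (nat_lit 0) (XT.lf (nat_lit 0) (nat_lit 25971126344) (nat_lit 152) (nat_lit 6485360357) (nat_lit 0) (nat_lit 21061955025) (nat_lit 7) (nat_lit 5) (nat_lit 9) (nat_lit 4) (nat_lit 7) (nat_lit 4) (nat_lit 393) (nat_lit 330) (nat_lit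 297)) (XT.nd (nat_lit 78) (nat_lit 0) (nat_lit 0) (XT.lf (nat_lit 0) (nat_lit 7833899267) (nat_lit 76) (nat_lit 27158103526) (nat_lit 76) (nat_lit 22217787914) (nat_lit 6) (nat_lit 4) (nat_lit 7) (nat_lit 5) (nat_lit 7) (nat_lit 4) (nat_lit 394) (nat_lit 330) (nat_lit 296)) (XT.lf (nat_lit 0) (nat_lit 23518956403) (nat_lit 76) (nat_lit 21319181274) (nat_lit 76) (nat_lit 16350028353) (nat_lit 6) (nat_lit 4) (nat_lit 7) (nat_lit 5) (nat_lit 7) (nat_lit 4) (nat_lit 395) (nat_lit 330) (nat_lit 295)))))) (XT.nd (nat_lit 390) (nat_lit 76) (nat_lit 0) (XT.nd (nat_lit 156) (nat_lit 152) (nat_lit 0) (XT.nd (nat_lit 78) (nat_lit 0) (nat_lit 0) (XT.lf (nat_lit 0) (nat_lit 40321251954) (nat_lit 76) (nat_lit 15082440170) (nat_lit 76) (nat_lit 10086586036) (nat_lit 6) (nat_lit 4) (nat_lit 7) (nat_lit 5) (nat_lit 7) (nat_lit 4) (nat_lit 396) (nat_lit 330) (nat_lit 294)) (XT.lf (nat_lit 0) (nat_lit 58340355078)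 (nat_lit 76) (nat_lit 8410921747) (nat_lit 76) (nat_lit 3390344269) (nat_lit 6) (nat_lit 4) (nat_lit 7) (nat_lit 5) (nat_lit 7) (nat_lit 4) (nat_lit 397) (nat_lit 330) (nat_lit 293))) (XT.nd (nat_lit 78) (nat_lit 0) (nat_lit 0) (XT.lf (nat_lit 0) (nat_lit 2549977403) (nat_lit 76) (nat_lit 1100718205) (nat_lit 152) (nat_lit 71506886971) (nat_lit 4) (nat_lit 5) (nat_lit 5) (nat_lit 5) (nat_lit 6) (nat_lit 4) (nat_lit 398) (nat_lit 330) (nat_lit 292)) (XT.nd (nat_lit 78) (nat_lit 0) (nat_lit 0) (XT.lf (nat_lit 0) (nat_lit 11506424068) (nat_lit 152) (nat_lit 62209671270) (nat_lit 0) (nat_lit 6816918747) (nat_lit 4) (nat_lit 5) (nat_lit 6) (nat_lit 4) (nat_lit 4) (nat_lit 4) (nat_lit 399) (nat_lit 330) (nat_lit 291)) (XT.lf (nat_lit 0) (nat_lit 19963756834) (nat_lit 152) (nat_lit 51120795936) (nat_lit 0) (nat_lit 15256079117) (nat_lit 4) (nat_lit 5) (nat_lit 6) (nat_lit 4) (nat_lit 4) (nat_lit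 4) (nat_lit 400) (nat_lit 330) (nat_lit 290))))) (XT.nd (nat_lit 156) (nat_lit 76) (nat_lit 0) (XT.nd (nat_lit 78) (nat_lit 0) (nat_lit 0) (XT.lf (nat_lit 0) (nat_lit 29046339135) (nat_lit 152) (nat_lit 39248795023) (nat_lit 0) (nat_lit 24321835125) (nat_lit 4) (nat_lit 5) (nat_lit 6) (nat_lit 4) (nat_lit 4) (nat_lit 4) (nat_lit 401) (nat_lit 330) (nat_lit 289)) (XT.lf (nat_lit 0) (nat_lit 38807993682) (nat_lit 152) (nat_lit 26523315931) (nat_lit 0) (nat_lit 34067909771) (nat_lit 4) (nat_lit 5) (nat_lit 6) (nat_lit 4) (nat_lit 4) (nat_lit 4) (nat_lit 402) (nat_lit 330) (nat_lit 288))) (XT.nd (nat_lit 78) (nat_lit 76) (nat_lit 0) (XT.lf (nat_lit 0) (nat_lit 49306567316) (nat_lit 152) (nat_lit 12868948415) (nat_lit 0) (nat_lit 44552057571) (nat_lit 4) (nat_lit 5) (nat_lit 6) (nat_lit 4) (nat_lit 4) (nat_lit 4) (nat_lit 403) (nat_lit 330) (nat_lit 287)) (XT.nd (nat_lit 78) (nat_lit 0) (nat_lit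 0) (XT.lf (nat_lit 0) (nat_lit 1889755519) (nat_lit 76) (nat_lit 58759966953) (nat_lit 76) (nat_lit 53992099954) (nat_lit 3) (nat_lit 4) (nat_lit 4) (nat_lit 5) (nat_lit 4) (nat_lit 4) (nat_lit 404) (nat_lit 330) (nat_lit 286)) (XT.lf (nat_lit 0) (nat_lit 18480567840) (nat_lit 76) (nat_lit 54731952787) (nat_lit 76) (nat_lit 49951717960) (nat_lit 3) (nat_lit 4) (nat_lit 4) (nat_lit 5) (nat_lit 4) (nat_lit 4) (nat_lit 405) (nat_lit 330) (nat_lit 285))))))) (XT.nd (nat_lit 780) (nat_lit 0) (nat_lit 0) (XT.nd (nat_lit 390) (nat_lit 152) (nat_lit 0) (XT.nd (nat_lit 156) (nat_lit 0) (nat_lit 0) (XT.nd (nat_lit 78) (nat_lit 0) (nat_lit 0) (XT.lf (nat_lit 0) (nat_lit 36324148452) (nat_lit 76) (nat_lit 50419463376) (nat_lit 76) (nat_lit 45627776857) (nat_lit 3) (nat_lit 4) (nat_lit 4) (nat_lit 5) (nat_lit 4) (nat_lit 4) (nat_lit 406) (nat_lit 330) (nat_lit 284)) (XT.lf (nat_lit 0) (nat_lit 55526237094)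 (nat_lit 76) (nat_lit 45796943227) (nat_lit 76) (nat_lit 40994653289) (nat_lit 3) (nat_lit 4) (nat_lit 4) (nat_lit 5) (nat_lit 4) (nat_lit 4) (nat_lit 407) (nat_lit 330) (nat_lit 283))) (XT.nd (nat_lit 78) (nat_lit 0) (nat_lit 0) (XT.lf (nat_lit 0) (nat_lit 76200623919) (nat_lit 76) (nat_lit 40836999628) (nat_lit 76) (nat_lit 36024891710) (nat_lit 3) (nat_lit 4) (nat_lit 4) (nat_lit 5) (nat_lit 4) (nat_lit 4) (nat_lit 408) (nat_lit 330) (nat_lit 282)) (XT.nd (nat_lit 78) (nat_lit 0) (nat_lit 0) (XT.lf (nat_lit 0) (nat_lit 98469823814) (nat_lit 76) (nat_lit 35510240321) (nat_lit 76) (nat_lit 30689041681) (nat_lit 3) (nat_lit 4) (nat_lit 4) (nat_lit 5) (nat_lit 4) (nat_lit 4) (nat_lit 409) (nat_lit 330) (nat_lit 281)) (XT.lf (nat_lit 0) (nat_lit 122465802406) (nat_lit 76) (nat_lit 29785099324) (nat_lit 76) (nat_lit 24955483349) (nat_lit 3) (nat_lit 4) (nat_lit 4) (nat_lit 5) (nat_lit 4)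 (nat_lit 4) (nat_lit 410) (nat_lit 330) (nat_lit 280))))) (XT.nd (nat_lit 156) (nat_lit 152) (nat_lit 0) (XT.nd (nat_lit 78) (nat_lit 0) (nat_lit 0) (XT.lf (nat_lit 0) (nat_lit 148330758087) (nat_lit 76) (nat_lit 23627649877) (nat_lit 76) (nat_lit 18790240073) (nat_lit 3) (nat_lit 4) (nat_lit 4) (nat_lit 5) (nat_lit 4) (nat_lit 4) (nat_lit 411) (nat_lit 330) (nat_lit 279)) (XT.lf (nat_lit 0) (nat_lit 176217964670) (nat_lit 76) (nat_lit 17001403390) (nat_lit 76) (nat_lit 12156777077) (nat_lit 3) (nat_lit 4) (nat_lit 4) (nat_lit 5) (nat_lit 4) (nat_lit 4) (nat_lit 412) (nat_lit 330) (nat_lit 278))) (XT.nd (nat_lit 78) (nat_lit 152) (nat_lit 0) (XT.lf (nat_lit 0) (nat_lit 206292679674) (nat_lit 76) (nat_lit 9867093217) (nat_lit 76) (nat_lit 5015784951) (nat_lit 3) (nat_lit 4) (nat_lit 4) (nat_lit 5) (nat_lit 4) (nat_lit 4) (nat_lit 413) (nat_lit 330) (nat_lit 277)) (XT.nd (nat_lit 78) (nat_lit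 0) (nat_lit 0) (XT.lf (nat_lit 0) (nat_lit 450828500) (nat_lit 76) (nat_lit 2101250230) (nat_lit 152) (nat_lit 235682419371) (nat_lit 1) (nat_lit 5) (nat_lit 2) (nat_lit 5) (nat_lit 3) (nat_lit 4) (nat_lit 414) (nat_lit 330) (nat_lit 276)) (XT.lf (nat_lit 0) (nat_lit 11002744267) (nat_lit 152) (nat_lit 239101360355) (nat_lit 0) (nat_lit 6499759122) (nat_lit 1) (nat_lit 5) (nat_lit 3) (nat_lit 4) (nat_lit 1) (nat_lit 4) (nat_lit 415) (nat_lit 330) (nat_lit 275)))))) (XT.nd (nat_lit 390) (nat_lit 0) (nat_lit 0) (XT.nd (nat_lit 156) (nat_lit 0) (nat_lit 0) (XT.nd (nat_lit 78) (nat_lit 0) (nat_lit 0) (XT.lf (nat_lit 0) (nat_lit 20165232284) (nat_lit 152) (nat_lit 240617350046) (nat_lit 0) (nat_lit 15657335705) (nat_lit 1) (nat_lit 5) (nat_lit 3) (nat_lit 4) (nat_lit 1) (nat_lit 4) (nat_lit 416) (nat_lit 330) (nat_lit 274)) (XT.lf (nat_lit 0) (nat_lit 30043303888) (nat_lit 152) (nat_lit 242290087200)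 (nat_lit 0) (nat_lit 25530859684) (nat_lit 1) (nat_lit 5) (nat_lit 3) (nat_lit 4) (nat_lit 1) (nat_lit 4) (nat_lit 417) (nat_lit 330) (nat_lit 273))) (XT.nd (nat_lit 78) (nat_lit 0) (nat_lit 0) (XT.lf (nat_lit 0) (nat_lit 40695495799) (nat_lit 152) (nat_lit 244129484332) (nat_lit 0) (nat_lit 36178840832) (nat_lit 1) (nat_lit 5) (nat_lit 3) (nat_lit 4) (nat_lit 1) (nat_lit 4) (nat_lit 418) (nat_lit 330) (nat_lit 272)) (XT.nd (nat_lit 78) (nat_lit 0) (nat_lit 0) (XT.lf (nat_lit 0) (nat_lit 52184932117) (nat_lit 152) (nat_lit 246146441573) (nat_lit 0) (nat_lit 47664378295) (nat_lit 1) (nat_lit 5) (nat_lit 3) (nat_lit 4) (nat_lit 1) (nat_lit 4) (nat_lit 419) (nat_lit 330) (nat_lit 271)) (XT.lf (nat_lit 0) (nat_lit 64579698392) (nat_lit 152) (nat_lit 248352911264) (nat_lit 0) (nat_lit 60055534519) (nat_lit 1) (nat_lit 5) (nat_lit 3) (nat_lit 4) (nat_lit 1) (nat_lit 4) (nat_lit 420) (nat_lit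 330) (nat_lit 270))))) (XT.nd (nat_lit 234) (nat_lit 0) (nat_lit 0) (XT.nd (nat_lit 78) (nat_lit 0) (nat_lit 0) (XT.lf (nat_lit 0) (nat_lit 77953245090) (nat_lit 152) (nat_lit 250761968779) (nat_lit 0) (nat_lit 73425738577) (nat_lit 1) (nat_lit 5) (nat_lit 3) (nat_lit 4) (nat_lit 1) (nat_lit 4) (nat_lit 421) (nat_lit 330) (nat_lit 269)) (XT.nd (nat_lit 78) (nat_lit 0) (nat_lit 0) (XT.lf (nat_lit 0) (nat_lit 92384822858) (nat_lit 152) (nat_lit 253387890015) (nat_lit 0) (nat_lit 87854221308) (nat_lit 1) (nat_lit 5) (nat_lit 3) (nat_lit 4) (nat_lit 1) (nat_lit 4) (nat_lit 422) (nat_lit 330) (nat_lit 268)) (XT.lf (nat_lit 0) (nat_lit 107959952156) (nat_lit 152) (nat_lit 256246235987) (nat_lit 0) (nat_lit 103426484832) (nat_lit 1) (nat_lit 5) (nat_lit 3) (nat_lit 4) (nat_lit 1) (nat_lit 4) (nat_lit 423) (nat_lit 330) (nat_lit 267)))) (XT.nd (nat_lit 78) (nat_lit 0) (nat_lit 0) (XT.lf (nat_lit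 0) (nat_lit 124770930048) (nat_lit 152) (nat_lit 259353945042) (nat_lit 0) (nat_lit 120234809229) (nat_lit 1) (nat_lit 5) (nat_lit 3) (nat_lit 4) (nat_lit 1) (nat_lit 4) (nat_lit 424) (nat_lit 330) (nat_lit 266)) (XT.nd (nat_lit 78) (nat_lit 0) (nat_lit 0) (XT.lf (nat_lit 0) (nat_lit 142917377144) (nat_lit 152) (nat_lit 262729433232) (nat_lit 0) (nat_lit 138378799384) (nat_lit 1) (nat_lit 5) (nat_lit 3) (nat_lit 4) (nat_lit 1) (nat_lit 4) (nat_lit 425) (nat_lit 330) (nat_lit 265)) (XT.lf (nat_lit 0) (nat_lit 162506827943) (nat_lit 152) (nat_lit 266392703451) (nat_lit 0) (nat_lit 157965975239) (nat_lit 1) (nat_lit 5) (nat_lit 3) (nat_lit 4) (nat_lit 1) (nat_lit 4) (nat_lit 426) (nat_lit 330) (nat_lit 264))))))))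
noncomputable def xc68 : XT := (XT.nd (nat_lit 1560) (nat_lit 0) (nat_lit 0) (XT.nd (nat_lit 780) (nat_lit 0) (nat_lit 0) (XT.nd (nat_lit 390) (nat_lit 0) (nat_lit 0) (XT.nd (nat_lit 156) (nat_lit 0) (nat_lit 0) (XT.nd (nat_lit 78) (nat_lit 0) (nat_lit 0) (XT.lf (nat_lit 0) (nat_lit 183655368081) (nat_lit 152) (nat_lit 270365463968) (nat_lit 0) (nat_lit 179112408947) (nat_lit 1) (nat_lit 5) (nat_lit 3) (nat_lit 4) (nat_lit 1) (nat_lit 4) (nat_lit 427) (nat_lit 330) (nat_lit 263)) (XT.lf (nat_lit 0) (nat_lit 206488322241) (nat_lit 152) (nat_lit 274671257065) (nat_lit 0) (nat_lit 201943412709) (nat_lit 1) (nat_lit 5) (nat_lit 3) (nat_lit 4) (nat_lit 1) (nat_lit 4) (nat_lit 428) (nat_lit 330) (nat_lit 262))) (XT.nd (nat_lit 78) (nat_lit 0) (nat_lit 0) (XT.lf (nat_lit 0) (nat_lit 231140996816) (nat_lit 152) (nat_lit 279335598556) (nat_lit 0) (nat_lit 226594281360) (nat_lit 1) (nat_lit 5) (nat_lit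 3) (nat_lit 4) (nat_lit 1) (nat_lit 4) (nat_lit 429) (nat_lit 330) (nat_lit 261)) (XT.nd (nat_lit 78) (nat_lit 0) (nat_lit 0) (XT.lf (nat_lit 0) (nat_lit 257759481732) (nat_lit 152) (nat_lit 284386128980) (nat_lit 0) (nat_lit 253211094123) (nat_lit 1) (nat_lit 5) (nat_lit 3) (nat_lit 4) (nat_lit 1) (nat_lit 4) (nat_lit 430) (nat_lit 330) (nat_lit 260)) (XT.lf (nat_lit 0) (nat_lit 286501516156) (nat_lit 152) (nat_lit 289852777409) (nat_lit 0) (nat_lit 281951580258) (nat_lit 1) (nat_lit 5) (nat_lit 3) (nat_lit 4) (nat_lit 1) (nat_lit 4) (nat_lit 431) (nat_lit 330) (nat_lit 259))))) (XT.nd (nat_lit 156) (nat_lit 0) (nat_lit 0) (XT.nd (nat_lit 78) (nat_lit 0) (nat_lit 0) (XT.lf (nat_lit 0) (nat_lit 317537423257) (nat_lit 152) (nat_lit 295767938795) (nat_lit 0) (nat_lit 312986053758) (nat_lit 1) (nat_lit 5) (nat_lit 3) (nat_lit 4) (nat_lit 1) (nat_lit 4) (nat_lit 432) (nat_lit 330) (nat_lit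 258)) (XT.lf (nat_lit 0) (nat_lit 351051119521) (nat_lit 152) (nat_lit 302166665947) (nat_lit 0) (nat_lit 346498422614) (nat_lit 1) (nat_lit 5) (nat_lit 3) (nat_lit 4) (nat_lit 1) (nat_lit 4) (nat_lit 433) (nat_lit 330) (nat_lit 257))) (XT.nd (nat_lit 78) (nat_lit 0) (nat_lit 0) (XT.lf (nat_lit 0) (nat_lit 387241204629) (nat_lit 152) (nat_lit 309086877247) (nat_lit 0) (nat_lit 382687278640) (nat_lit 1) (nat_lit 5) (nat_lit 3) (nat_lit 4) (nat_lit 1) (nat_lit 4) (nat_lit 434) (nat_lit 330) (nat_lit 256)) (XT.nd (nat_lit 78) (nat_lit 0) (nat_lit 0) (XT.lf (nat_lit 0) (nat_lit 426322138345) (nat_lit 152) (nat_lit 316569581356) (nat_lit 0) (nat_lit 421767074318) (nat_lit 1) (nat_lit 5) (nat_lit 3) (nat_lit 4) (nat_lit 1) (nat_lit 4) (nat_lit 435) (nat_lit 330) (nat_lit 255)) (XT.lf (nat_lit 0) (nat_lit 468525511387) (nat_lit 152) (nat_lit 324659120223) (nat_lit 0) (nat_lit 463969393621) (nat_lit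 1) (nat_lit 5) (nat_lit 3) (nat_lit 4) (nat_lit 1) (nat_lit 4) (nat_lit 436) (nat_lit 330) (nat_lit 254)))))) (XT.nd (nat_lit 390) (nat_lit 0) (nat_lit 0) (XT.nd (nat_lit 156) (nat_lit 0) (nat_lit 0) (XT.nd (nat_lit 78) (nat_lit 0) (nat_lit 0) (XT.lf (nat_lit 0) (nat_lit 514101417819) (nat_lit 152) (nat_lit 333403431857) (nat_lit 0) (nat_lit 509544324367) (nat_lit 1) (nat_lit 5) (nat_lit 3) (nat_lit 4) (nat_lit 1) (nat_lit 4) (nat_lit 437) (nat_lit 330) (nat_lit 253)) (XT.lf (nat_lit 0) (nat_lit 563319937085) (nat_lit 152) (nat_lit 342854334401) (nat_lit 0) (nat_lit 558761940221) (nat_lit 1) (nat_lit 5) (nat_lit 3) (nat_lit 4) (nat_lit 1) (nat_lit 4) (nat_lit 438) (nat_lit 330) (nat_lit 252))) (XT.nd (nat_lit 78) (nat_lit 0) (nat_lit 0) (XT.lf (nat_lit 0) (nat_lit 616472734484) (nat_lit 152) (nat_lit 353067833203) (nat_lit 0) (nat_lit 611913901128) (nat_lit 1) (nat_lit 5) (nat_lit 3) (nat_lit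 4) (nat_lit 1) (nat_lit 4) (nat_lit 439) (nat_lit 330) (nat_lit 251)) (XT.nd (nat_lit 78) (nat_lit 0) (nat_lit 0) (XT.lf (nat_lit 0) (nat_lit 673874789557) (nat_lit 152) (nat_lit 364104452700) (nat_lit 0) (nat_lit 669315181672) (nat_lit 1) (nat_lit 5) (nat_lit 3) (nat_lit 4) (nat_lit 1) (nat_lit 4) (nat_lit 440) (nat_lit 330) (nat_lit 250)) (XT.lf (nat_lit 0) (nat_lit 735866262631) (nat_lit 152) (nat_lit 376029595083) (nat_lit 0) (nat_lit 731305937588) (nat_lit 1) (nat_lit 5) (nat_lit 3) (nat_lit 4) (nat_lit 1) (nat_lit 4) (nat_lit 441) (nat_lit 330) (nat_lit 249))))) (XT.nd (nat_lit 156) (nat_lit 0) (nat_lit 0) (XT.nd (nat_lit 78) (nat_lit 0) (nat_lit 0) (XT.lf (nat_lit 0) (nat_lit 802814510582) (nat_lit 152) (nat_lit 388913927861) (nat_lit 0) (nat_lit 798253521504) (nat_lit 1) (nat_lit 5) (nat_lit 3) (nat_lit 4) (nat_lit 1) (nat_lit 4) (nat_lit 442) (nat_lit 330) (nat_lit 248)) (XT.lf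 (nat_lit 0) (nat_lit 875116263769) (nat_lit 152) (nat_lit 402833802636) (nat_lit 0) (nat_lit 870554659845) (nat_lit 1) (nat_lit 5) (nat_lit 3) (nat_lit 4) (nat_lit 1) (nat_lit 4) (nat_lit 443) (nat_lit 330) (nat_lit 247))) (XT.nd (nat_lit 78) (nat_lit 0) (nat_lit 0) (XT.lf (nat_lit 0) (nat_lit 953199977026) (nat_lit 152) (nat_lit 417871707555) (nat_lit 0) (nat_lit 948637803799) (nat_lit 1) (nat_lit 5) (nat_lit 3) (nat_lit 4) (nat_lit 1) (nat_lit 4) (nat_lit 444) (nat_lit 330) (nat_lit 246)) (XT.nd (nat_lit 78) (nat_lit 0) (nat_lit 0) (XT.lf (nat_lit 0) (nat_lit 1037528368653) (nat_lit 152) (nat_lit 434116756129) (nat_lit 0) (nat_lit 1032965668294) (nat_lit 1) (nat_lit 5) (nat_lit 3) (nat_lit 4) (nat_lit 1) (nat_lit 4) (nat_lit 445) (nat_lit 330) (nat_lit 245)) (XT.lf (nat_lit 0) (nat_lit 1128601162452) (nat_lit 152) (nat_lit 451665215311) (nat_lit 0) (nat_lit 1124037974008) (nat_lit 1)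 (nat_lit 5) (nat_lit 3) (nat_lit 4) (nat_lit 1) (nat_lit 4) (nat_lit 446) (nat_lit 330) (nat_lit 244))))))) (XT.nd (nat_lit 780) (nat_lit 0) (nat_lit 0) (XT.nd (nat_lit 390) (nat_lit 0) (nat_lit 0) (XT.nd (nat_lit 156) (nat_lit 0) (nat_lit 0) (XT.nd (nat_lit 78) (nat_lit 0) (nat_lit 0) (XT.lf (nat_lit 0) (nat_lit 1226958049055) (nat_lit 152) (nat_lit 470621075972) (nat_lit 0) (nat_lit 1222394408679) (nat_lit 1) (nat_lit 5) (nat_lit 3) (nat_lit 4) (nat_lit 1) (nat_lit 4) (nat_lit 447) (nat_lit 330) (nat_lit 243)) (XT.lf (nat_lit 0) (nat_lit 1333181884084) (nat_lit 152) (nat_lit 491096669138) (nat_lit 0) (nat_lit 1328617825254) (nat_lit 1) (nat_lit 5) (nat_lit 3) (nat_lit 4) (nat_lit 1) (nat_lit 4) (nat_lit 448) (nat_lit 330) (nat_lit 242))) (XT.nd (nat_lit 78) (nat_lit 0) (nat_lit 0) (XT.lf (nat_lit 0) (nat_lit 1447902142118) (nat_lit 152) (nat_lit 513213331656) (nat_lit 0) (nat_lit 1443337695830)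 (nat_lit 1) (nat_lit 5) (nat_lit 3) (nat_lit 4) (nat_lit 1) (nat_lit 4) (nat_lit 449) (nat_lit 330) (nat_lit 241)) (XT.nd (nat_lit 78) (nat_lit 0) (nat_lit 0) (XT.lf (nat_lit 0) (nat_lit 1571798646908) (nat_lit 152) (nat_lit 537102125232) (nat_lit 0) (nat_lit 1567233841863) (nat_lit 1) (nat_lit 5) (nat_lit 3) (nat_lit 4) (nat_lit 1) (nat_lit 4) (nat_lit 450) (nat_lit 330) (nat_lit 240)) (XT.lf (nat_lit 0) (nat_lit 1705605599964) (nat_lit 152) (nat_lit 562904613084) (nat_lit 0) (nat_lit 1701040462736) (nat_lit 1) (nat_lit 5) (nat_lit 3) (nat_lit 4) (nat_lit 1) (nat_lit 4) (nat_lit 451) (nat_lit 330) (nat_lit 239))))) (XT.nd (nat_lit 156) (nat_lit 0) (nat_lit 0) (XT.nd (nat_lit 78) (nat_lit 0) (nat_lit 0) (XT.lf (nat_lit 0) (nat_lit 1850115931378) (nat_lit 152) (nat_lit 590773698847) (nat_lit 0) (nat_lit 1845550486574) (nat_lit 1) (nat_lit 5) (nat_lit 3) (nat_lit 4) (nat_lit 1) (nat_lit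 4) (nat_lit 452) (nat_lit 330) (nat_lit 238)) (XT.lf (nat_lit 0) (nat_lit 2006185998670) (nat_lit 152) (nat_lit 620874532657) (nat_lit 0) (nat_lit 2001620269073) (nat_lit 1) (nat_lit 5) (nat_lit 3) (nat_lit 4) (nat_lit 1) (nat_lit 4) (nat_lit 453) (nat_lit 330) (nat_lit 237))) (XT.nd (nat_lit 78) (nat_lit 0) (nat_lit 0) (XT.lf (nat_lit 0) (nat_lit 2174740661497) (nat_lit 152) (nat_lit 653385489826) (nat_lit 0) (nat_lit 2170174668203) (nat_lit 1) (nat_lit 5) (nat_lit 3) (nat_lit 4) (nat_lit 1) (nat_lit 4) (nat_lit 454) (nat_lit 330) (nat_lit 236)) (XT.nd (nat_lit 78) (nat_lit 0) (nat_lit 0) (XT.lf (nat_lit 0) (nat_lit 2356778762307) (nat_lit 152) (nat_lit 688499227878) (nat_lit 0) (nat_lit 2352212524849) (nat_lit 1) (nat_lit 5) (nat_lit 3) (nat_lit 4) (nat_lit 1) (nat_lit 4) (nat_lit 455) (nat_lit 330) (nat_lit 235)) (XT.lf (nat_lit 0) (nat_lit 2553379045400) (nat_lit 152) (nat_lit 726423828223)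 (nat_lit 0) (nat_lit 2548812581864) (nat_lit 1) (nat_lit 5) (nat_lit 3) (nat_lit 4) (nat_lit 1) (nat_lit 4) (nat_lit 456) (nat_lit 330) (nat_lit 234)))))) (XT.nd (nat_lit 390) (nat_lit 0) (nat_lit 0) (XT.nd (nat_lit 156) (nat_lit 0) (nat_lit 0) (XT.nd (nat_lit 78) (nat_lit 0) (nat_lit 0) (XT.lf (nat_lit 0) (nat_lit 2765706549490) (nat_lit 152) (nat_lit 767384029234) (nat_lit 0) (nat_lit 2761139876623) (nat_lit 1) (nat_lit 5) (nat_lit 3) (nat_lit 4) (nat_lit 1) (nat_lit 4) (nat_lit 457) (nat_lit 330) (nat_lit 233)) (XT.lf (nat_lit 0) (nat_lit 2995019511640) (nat_lit 152) (nat_lit 811622558028) (nat_lit 0) (nat_lit 2990452644947) (nat_lit 1) (nat_lit 5) (nat_lit 3) (nat_lit 4) (nat_lit 1) (nat_lit 4) (nat_lit 458) (nat_lit 330) (nat_lit 232))) (XT.nd (nat_lit 78) (nat_lit 0) (nat_lit 0) (XT.lf (nat_lit 0) (nat_lit 3242676823476) (nat_lit 152) (nat_lit 859401568851) (nat_lit 0) (nat_lit 3238109777315)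 (nat_lit 1) (nat_lit 5) (nat_lit 3) (nat_lit 4) (nat_lit 1) (nat_lit 4) (nat_lit 459) (nat_lit 330) (nat_lit 231)) (XT.nd (nat_lit 78) (nat_lit 0) (nat_lit 0) (XT.lf (nat_lit 0) (nat_lit 3510146083884) (nat_lit 152) (nat_lit 911004196579) (nat_lit 0) (nat_lit 3505578871549) (nat_lit 1) (nat_lit 5) (nat_lit 3) (nat_lit 4) (nat_lit 1) (nat_lit 4) (nat_lit 460) (nat_lit 330) (nat_lit 230)) (XT.lf (nat_lit 0) (nat_lit 3799012295888) (nat_lit 152) (nat_lit 966736234564) (nat_lit 0) (nat_lit 3794444929688) (nat_lit 1) (nat_lit 5) (nat_lit 3) (nat_lit 4) (nat_lit 1) (nat_lit 4) (nat_lit 461) (nat_lit 330) (nat_lit 229))))) (XT.nd (nat_lit 45084) (nat_lit 0) (nat_lit 2584) (XT.nd (nat_lit 78) (nat_lit 0) (nat_lit 0) (XT.lf (nat_lit 0) (nat_lit 4110987259263) (nat_lit 152) (nat_lit 1026927946734) (nat_lit 0) (nat_lit 4106419750596) (nat_lit 1) (nat_lit 5) (nat_lit 3) (nat_lit 4) (nat_lit 1) (nat_lit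 4) (nat_lit 462) (nat_lit 330) (nat_lit 228)) (XT.nd (nat_lit 44928) (nat_lit 0) (nat_lit 3116) (XT.lf (nat_lit 0) (nat_lit 4447919714533) (nat_lit 152) (nat_lit 1091936024717) (nat_lit 0) (nat_lit 4443352073952) (nat_lit 1) (nat_lit 5) (nat_lit 3) (nat_lit 4) (nat_lit 1) (nat_lit 4) (nat_lit 463) (nat_lit 330) (nat_lit 227)) (XT.lf (nat_lit 0) (nat_lit 1237715243) (nat_lit 228) (nat_lit 1964245008) (nat_lit 0) (nat_lit 1237715243) (nat_lit 42) (nat_lit 5) (nat_lit 45) (nat_lit 4) (nat_lit 42) (nat_lit 4) (nat_lit 358) (nat_lit 331) (nat_lit 331)))) (XT.nd (nat_lit 78) (nat_lit 380) (nat_lit 0) (XT.lf (nat_lit 0) (nat_lit 3562911579) (nat_lit 152) (nat_lit 3265996498) (nat_lit 152) (nat_lit 2345496634) (nat_lit 40) (nat_lit 4) (nat_lit 42) (nat_lit 5) (nat_lit 42) (nat_lit 4) (nat_lit 359) (nat_lit 331) (nat_lit 330)) (XT.nd (nat_lit 78) (nat_lit 152) (nat_lit 0) (XT.lf (nat_lit 0) (nat_lit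 1836679691) (nat_lit 228) (nat_lit 7465347584) (nat_lit 0) (nat_lit 195184735) (nat_lit 37) (nat_lit 5) (nat_lit 40) (nat_lit 4) (nat_lit 37) (nat_lit 4) (nat_lit 360) (nat_lit 331) (nat_lit 329)) (XT.lf (nat_lit 0) (nat_lit 221394237) (nat_lit 152) (nat_lit 5996325902) (nat_lit 152) (nat_lit 3624108476) (nat_lit 35) (nat_lit 4) (nat_lit 37) (nat_lit 5) (nat_lit 37) (nat_lit 4) (nat_lit 361) (nat_lit 331) (nat_lit 328))))))))
noncomputable def xc69 : XT := (XT.nd (nat_lit 1560) (nat_lit 684) (nat_lit 0) (XT.nd (nat_lit 780) (nat_lit 684) (nat_lit 0) (XT.nd (nat_lit 390) (nat_lit 532) (nat_lit 0) (XT.nd (nat_lit 156) (nat_lit 304) (nat_lit 0) (XT.nd (nat_lit 78) (nat_lit 76) (nat_lit 0) (XT.lf (nat_lit 0) (nat_lit 654105091) (nat_lit 228) (nat_lit 1688273715) (nat_lit 76) (nat_lit 7873888023) (nat_lit 34) (nat_lit 5) (nat_lit 37) (nat_lit 5) (nat_lit 35) (nat_lit 4) (nat_lit 362) (nat_lit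 331) (nat_lit 327)) (XT.lf (nat_lit 0) (nat_lit 5047466712) (nat_lit 152) (nat_lit 3923856942) (nat_lit 0) (nat_lit 1644421300) (nat_lit 33) (nat_lit 5) (nat_lit 35) (nat_lit 4) (nat_lit 33) (nat_lit 4) (nat_lit 363) (nat_lit 331) (nat_lit 326))) (XT.nd (nat_lit 78) (nat_lit 152) (nat_lit 0) (XT.lf (nat_lit 0) (nat_lit 4572257713) (nat_lit 152) (nat_lit 5208065995) (nat_lit 152) (nat_lit 1267917752) (nat_lit 31) (nat_lit 4) (nat_lit 33) (nat_lit 5) (nat_lit 33) (nat_lit 4) (nat_lit 364) (nat_lit 331) (nat_lit 325)) (XT.nd (nat_lit 78) (nat_lit 0) (nat_lit 0) (XT.lf (nat_lit 0) (nat_lit 2093544263) (nat_lit 76) (nat_lit 1046364361) (nat_lit 152) (nat_lit 8374433036) (nat_lit 29) (nat_lit 5) (nat_lit 30) (nat_lit 5) (nat_lit 31) (nat_lit 4) (nat_lit 365) (nat_lit 331) (nat_lit 324)) (XT.lf (nat_lit 0) (nat_lit 7872208879) (nat_lit 152) (nat_lit 802664849) (nat_lit 0) (nat_lit 3337074820)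 (nat_lit 29) (nat_lit 5) (nat_lit 31) (nat_lit 4) (nat_lit 29) (nat_lit 4) (nat_lit 366) (nat_lit 331) (nat_lit 323))))) (XT.nd (nat_lit 156) (nat_lit 228) (nat_lit 0) (XT.nd (nat_lit 78) (nat_lit 76) (nat_lit 0) (XT.lf (nat_lit 0) (nat_lit 437503731) (nat_lit 228) (nat_lit 4019912910) (nat_lit 76) (nat_lit 8089144721) (nat_lit 26) (nat_lit 5) (nat_lit 29) (nat_lit 5) (nat_lit 27) (nat_lit 4) (nat_lit 367) (nat_lit 331) (nat_lit 322)) (XT.lf (nat_lit 0) (nat_lit 5106658251) (nat_lit 152) (nat_lit 7809345519) (nat_lit 0) (nat_lit 203450998) (nat_lit 25) (nat_lit 5) (nat_lit 27) (nat_lit 4) (nat_lit 25) (nat_lit 4) (nat_lit 368) (nat_lit 331) (nat_lit 321))) (XT.nd (nat_lit 78) (nat_lit 152) (nat_lit 0) (XT.lf (nat_lit 0) (nat_lit 1469871099) (nat_lit 76) (nat_lit 8740061406) (nat_lit 76) (nat_lit 3523459811) (nat_lit 24) (nat_lit 4) (nat_lit 25) (nat_lit 5) (nat_lit 25) (nat_lit 4) (nat_lit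 369) (nat_lit 331) (nat_lit 320)) (XT.nd (nat_lit 78) (nat_lit 76) (nat_lit 0) (XT.lf (nat_lit 0) (nat_lit 1275701891) (nat_lit 152) (nat_lit 2853321607) (nat_lit 76) (nat_lit 10263566280) (nat_lit 23) (nat_lit 5) (nat_lit 25) (nat_lit 5) (nat_lit 24) (nat_lit 4) (nat_lit 370) (nat_lit 331) (nat_lit 319)) (XT.lf (nat_lit 0) (nat_lit 6278894765) (nat_lit 152) (nat_lit 7886277196) (nat_lit 0) (nat_lit 931240435) (nat_lit 22) (nat_lit 5) (nat_lit 24) (nat_lit 4) (nat_lit 22) (nat_lit 4) (nat_lit 371) (nat_lit 331) (nat_lit 318)))))) (XT.nd (nat_lit 390) (nat_lit 380) (nat_lit 0) (XT.nd (nat_lit 156) (nat_lit 152) (nat_lit 0) (XT.nd (nat_lit 78) (nat_lit 76) (nat_lit 0) (XT.lf (nat_lit 0) (nat_lit 2036597843) (nat_lit 76) (nat_lit 9696949508) (nat_lit 76) (nat_lit 4118940980) (nat_lit 21) (nat_lit 4) (nat_lit 22) (nat_lit 5) (nat_lit 22) (nat_lit 4) (nat_lit 372) (nat_lit 331) (nat_lit 317))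 (XT.lf (nat_lit 0) (nat_lit 944765865) (nat_lit 152) (nat_lit 3826186452) (nat_lit 76) (nat_lit 11893333745) (nat_lit 20) (nat_lit 5) (nat_lit 22) (nat_lit 5) (nat_lit 21) (nat_lit 4) (nat_lit 373) (nat_lit 331) (nat_lit 316))) (XT.nd (nat_lit 78) (nat_lit 76) (nat_lit 0) (XT.lf (nat_lit 0) (nat_lit 6202556728) (nat_lit 152) (nat_lit 10671645639) (nat_lit 0) (nat_lit 657379833) (nat_lit 19) (nat_lit 5) (nat_lit 21) (nat_lit 4) (nat_lit 19) (nat_lit 4) (nat_lit 374) (nat_lit 331) (nat_lit 315)) (XT.nd (nat_lit 78) (nat_lit 76) (nat_lit 0) (XT.lf (nat_lit 0) (nat_lit 11943206661) (nat_lit 152) (nat_lit 291396183) (nat_lit 0) (nat_lit 6228712554) (nat_lit 19) (nat_lit 5) (nat_lit 21) (nat_lit 4) (nat_lit 19) (nat_lit 4) (nat_lit 375) (nat_lit 331) (nat_lit 314)) (XT.lf (nat_lit 0) (nat_lit 11179037227) (nat_lit 76) (nat_lit 7076430232) (nat_lit 76) (nat_lit 1205160928) (nat_lit 18) (nat_lit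 4) (nat_lit 19) (nat_lit 5) (nat_lit 19) (nat_lit 4) (nat_lit 376) (nat_lit 331) (nat_lit 313))))) (XT.nd (nat_lit 156) (nat_lit 228) (nat_lit 0) (XT.nd (nat_lit 78) (nat_lit 0) (nat_lit 0) (XT.lf (nat_lit 0) (nat_lit 2776074994) (nat_lit 76) (nat_lit 1451091599) (nat_lit 152) (nat_lit 16308336727) (nat_lit 16) (nat_lit 5) (nat_lit 17) (nat_lit 5) (nat_lit 18) (nat_lit 4) (nat_lit 377) (nat_lit 331) (nat_lit 312)) (XT.lf (nat_lit 0) (nat_lit 10217721009) (nat_lit 152) (nat_lit 6938568768) (nat_lit 0) (nat_lit 4522497876) (nat_lit 16) (nat_lit 5) (nat_lit 18) (nat_lit 4) (nat_lit 16) (nat_lit 4) (nat_lit 378) (nat_lit 331) (nat_lit 311))) (XT.nd (nat_lit 78) (nat_lit 152) (nat_lit 0) (XT.lf (nat_lit 0) (nat_lit 4664677042) (nat_lit 76) (nat_lit 12029406072) (nat_lit 76) (nat_lit 6218948490) (nat_lit 15) (nat_lit 4) (nat_lit 16) (nat_lit 5) (nat_lit 16) (nat_lit 4) (nat_lit 379) (nat_lit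 331) (nat_lit 310)) (XT.nd (nat_lit 78) (nat_lit 152) (nat_lit 0) (XT.lf (nat_lit 0) (nat_lit 17318908930) (nat_lit 76) (nat_lit 6420122220) (nat_lit 76) (nat_lit 502966074) (nat_lit 15) (nat_lit 4) (nat_lit 16) (nat_lit 5) (nat_lit 16) (nat_lit 4) (nat_lit 380) (nat_lit 331) (nat_lit 309)) (XT.lf (nat_lit 0) (nat_lit 5171823436) (nat_lit 76) (nat_lit 206914327) (nat_lit 152) (nat_lit 20288282571) (nat_lit 13) (nat_lit 5) (nat_lit 14) (nat_lit 5) (nat_lit 15) (nat_lit 4) (nat_lit 381) (nat_lit 331) (nat_lit 308))))))) (XT.nd (nat_lit 780) (nat_lit 228) (nat_lit 0) (XT.nd (nat_lit 390) (nat_lit 228) (nat_lit 0) (XT.nd (nat_lit 156) (nat_lit 152) (nat_lit 0) (XT.nd (nat_lit 78) (nat_lit 76) (nat_lit 0) (XT.lf (nat_lit 0) (nat_lit 11922889441) (nat_lit 152) (nat_lit 8996736494) (nat_lit 0) (nat_lit 6267863577) (nat_lit 13) (nat_lit 5) (nat_lit 15) (nat_lit 4) (nat_lit 13) (nat_lit 4) (nat_lit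 382) (nat_lit 331) (nat_lit 307)) (XT.lf (nat_lit 0) (nat_lit 3343190106) (nat_lit 76) (nat_lit 15611377016) (nat_lit 76) (nat_lit 9877924522) (nat_lit 12) (nat_lit 4) (nat_lit 13) (nat_lit 5) (nat_lit 13) (nat_lit 4) (nat_lit 383) (nat_lit 331) (nat_lit 306))) (XT.nd (nat_lit 78) (nat_lit 152) (nat_lit 0) (XT.lf (nat_lit 0) (nat_lit 16947770004) (nat_lit 76) (nat_lit 9728600111) (nat_lit 76) (nat_lit 3922530367) (nat_lit 12) (nat_lit 4) (nat_lit 13) (nat_lit 5) (nat_lit 13) (nat_lit 4) (nat_lit 384) (nat_lit 331) (nat_lit 305)) (XT.nd (nat_lit 78) (nat_lit 76) (nat_lit 0) (XT.lf (nat_lit 0) (nat_lit 2271285052) (nat_lit 152) (nat_lit 1149035029) (nat_lit 76) (nat_lit 29090484722) (nat_lit 11) (nat_lit 5) (nat_lit 13) (nat_lit 5) (nat_lit 12) (nat_lit 4) (nat_lit 385) (nat_lit 331) (nat_lit 304)) (XT.lf (nat_lit 0) (nat_lit 9039175976) (nat_lit 152) (nat_lit 21961824680) (nat_lit 0) (nat_lit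 3543281971) (nat_lit 10) (nat_lit 5) (nat_lit 12) (nat_lit 4) (nat_lit 10) (nat_lit 4) (nat_lit 386) (nat_lit 331) (nat_lit 303))))) (XT.nd (nat_lit 156) (nat_lit 152) (nat_lit 0) (XT.nd (nat_lit 78) (nat_lit 76) (nat_lit 0) (XT.lf (nat_lit 0) (nat_lit 16365897254) (nat_lit 152) (nat_lit 9556532257) (nat_lit 0) (nat_lit 10816627401) (nat_lit 10) (nat_lit 5) (nat_lit 12) (nat_lit 4) (nat_lit 10) (nat_lit 4) (nat_lit 387) (nat_lit 331) (nat_lit 302)) (XT.lf (nat_lit 0) (nat_lit 3841919707) (nat_lit 76) (nat_lit 20433241200) (nat_lit 76) (nat_lit 14834549267) (nat_lit 9) (nat_lit 4) (nat_lit 10) (nat_lit 5) (nat_lit 10) (nat_lit 4) (nat_lit 388) (nat_lit 331) (nat_lit 301))) (XT.nd (nat_lit 78) (nat_lit 152) (nat_lit 0) (XT.lf (nat_lit 0) (nat_lit 18669130942) (nat_lit 76) (nat_lit 14315956423) (nat_lit 76) (nat_lit 8671503306) (nat_lit 9) (nat_lit 4) (nat_lit 10) (nat_lit 5) (nat_lit 10)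 (nat_lit 4) (nat_lit 389) (nat_lit 331) (nat_lit 300)) (XT.nd (nat_lit 78) (nat_lit 152) (nat_lit 0) (XT.lf (nat_lit 0) (nat_lit 34509736349) (nat_lit 76) (nat_lit 7795617133) (nat_lit 76) (nat_lit 2108792548) (nat_lit 9) (nat_lit 4) (nat_lit 10) (nat_lit 5) (nat_lit 10) (nat_lit 4) (nat_lit 390) (nat_lit 331) (nat_lit 299)) (XT.lf (nat_lit 0) (nat_lit 4148762675) (nat_lit 76) (nat_lit 598746988) (nat_lit 152) (nat_lit 42633812303) (nat_lit 7) (nat_lit 5) (nat_lit 8) (nat_lit 5) (nat_lit 9) (nat_lit 4) (nat_lit 391) (nat_lit 331) (nat_lit 298)))))) (XT.nd (nat_lit 390) (nat_lit 152) (nat_lit 0) (XT.nd (nat_lit 156) (nat_lit 76) (nat_lit 0) (XT.nd (nat_lit 78) (nat_lit 0) (nat_lit 0) (XT.lf (nat_lit 0) (nat_lit 12406921914) (nat_lit 152) (nat_lit 31073710673) (nat_lit 0) (nat_lit 7071381052) (nat_lit 7) (nat_lit 5) (nat_lit 9) (nat_lit 4) (nat_lit 7) (nat_lit 4) (nat_lit 392) (nat_lit 331)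 (nat_lit 297)) (XT.lf (nat_lit 0) (nat_lit 20618866451) (nat_lit 152) (nat_lit 18110136482) (nat_lit 0) (nat_lit 15252181296) (nat_lit 7) (nat_lit 5) (nat_lit 9) (nat_lit 4) (nat_lit 7) (nat_lit 4) (nat_lit 393) (nat_lit 331) (nat_lit 296))) (XT.nd (nat_lit 78) (nat_lit 76) (nat_lit 0) (XT.lf (nat_lit 0) (nat_lit 29417606771) (nat_lit 152) (nat_lit 4250615660) (nat_lit 0) (nat_lit 24022084307) (nat_lit 7) (nat_lit 5) (nat_lit 9) (nat_lit 4) (nat_lit 7) (nat_lit 4) (nat_lit 394) (nat_lit 331) (nat_lit 295)) (XT.nd (nat_lit 78) (nat_lit 0) (nat_lit 0) (XT.lf (nat_lit 0) (nat_lit 11144474012) (nat_lit 76) (nat_lit 27978834414) (nat_lit 76) (nat_lit 22556610738) (nat_lit 6) (nat_lit 4) (nat_lit 7) (nat_lit 5) (nat_lit 7) (nat_lit 4) (nat_lit 395) (nat_lit 331) (nat_lit 294)) (XT.lf (nat_lit 0) (nat_lit 27885531067) (nat_lit 76) (nat_lit 21772940411) (nat_lit 76) (nat_lit 16325993390) (nat_lit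 6) (nat_lit 4) (nat_lit 7) (nat_lit 5) (nat_lit 7) (nat_lit 4) (nat_lit 396) (nat_lit 331) (nat_lit 293))))) (XT.nd (nat_lit 234) (nat_lit 0) (nat_lit 0) (XT.nd (nat_lit 78) (nat_lit 152) (nat_lit 0) (XT.lf (nat_lit 0) (nat_lit 45847931880) (nat_lit 76) (nat_lit 15129984119) (nat_lit 76) (nat_lit 9660145113) (nat_lit 6) (nat_lit 4) (nat_lit 7) (nat_lit 5) (nat_lit 7) (nat_lit 4) (nat_lit 397) (nat_lit 331) (nat_lit 292)) (XT.nd (nat_lit 78) (nat_lit 152) (nat_lit 0) (XT.lf (nat_lit 0) (nat_lit 65138120308) (nat_lit 76) (nat_lit 8010599872) (nat_lit 76) (nat_lit 2519564583) (nat_lit 6) (nat_lit 4) (nat_lit 7) (nat_lit 5) (nat_lit 7) (nat_lit 4) (nat_lit 398) (nat_lit 331) (nat_lit 291)) (XT.lf (nat_lit 0) (nat_lit 4886327376) (nat_lit 76) (nat_lit 112224957) (nat_lit 152) (nat_lit 76087105275) (nat_lit 4) (nat_lit 5) (nat_lit 5) (nat_lit 5) (nat_lit 6) (nat_lit 4) (nat_lit 399) (nat_lit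 331) (nat_lit 290)))) (XT.nd (nat_lit 78) (nat_lit 0) (nat_lit 0) (XT.lf (nat_lit 0) (nat_lit 13428504795) (nat_lit 152) (nat_lit 65157748408) (nat_lit 0) (nat_lit 8309214171) (nat_lit 4) (nat_lit 5) (nat_lit 6) (nat_lit 4) (nat_lit 4) (nat_lit 4) (nat_lit 400) (nat_lit 331) (nat_lit 289)) (XT.nd (nat_lit 78) (nat_lit 0) (nat_lit 0) (XT.lf (nat_lit 0) (nat_lit 22488234049) (nat_lit 152) (nat_lit 53332036867) (nat_lit 0) (nat_lit 17353363525) (nat_lit 4) (nat_lit 5) (nat_lit 6) (nat_lit 4) (nat_lit 4) (nat_lit 4) (nat_lit 401) (nat_lit 331) (nat_lit 288)) (XT.lf (nat_lit 0) (nat_lit 32228728367) (nat_lit 152) (nat_lit 40649418306) (nat_lit 0) (nat_lit 27079432008) (nat_lit 4) (nat_lit 5) (nat_lit 6) (nat_lit 4) (nat_lit 4) (nat_lit 4) (nat_lit 402) (nat_lit 331) (nat_lit 287))))))))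
noncomputable def xc70 : XT := (XT.nd (nat_lit 1560) (nat_lit 0) (nat_lit 0) (XT.nd (nat_lit 780) (nat_lit 152) (nat_lit 0) (XT.nd (nat_lit 390) (nat_lit 0) (nat_lit 0) (XT.nd (nat_lit 156) (nat_lit 76) (nat_lit 0) (XT.nd (nat_lit 78) (nat_lit 0) (nat_lit 0) (XT.lf (nat_lit 0) (nat_lit 42707709196) (nat_lit 152) (nat_lit 27034736466) (nat_lit 0) (nat_lit 37545055583) (nat_lit 4) (nat_lit 5) (nat_lit 6) (nat_lit 4) (nat_lit 4) (nat_lit 4) (nat_lit 403) (nat_lit 331) (nat_lit 286)) (XT.lf (nat_lit 0) (nat_lit 53987274201) (nat_lit 152) (nat_lit 12407311752) (nat_lit 0) (nat_lit 48812252761) (nat_lit 4) (nat_lit 5) (nat_lit 6) (nat_lit 4) (nat_lit 4) (nat_lit 4) (nat_lit 404) (nat_lit 331) (nat_lit 285))) (XT.nd (nat_lit 78) (nat_lit 0) (nat_lit 0) (XT.lf (nat_lit 0) (nat_lit 3494337800) (nat_lit 76) (nat_lit 62723966355) (nat_lit 76) (nat_lit 57537493223) (nat_lit 3) (nat_lit 4) (nat_lit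 4) (nat_lit 5) (nat_lit 4) (nat_lit 4) (nat_lit 405) (nat_lit 331) (nat_lit 284)) (XT.nd (nat_lit 78) (nat_lit 0) (nat_lit 0) (XT.lf (nat_lit 0) (nat_lit 21304755711) (nat_lit 76) (nat_lit 58428288682) (nat_lit 76) (nat_lit 53231212131) (nat_lit 3) (nat_lit 4) (nat_lit 4) (nat_lit 5) (nat_lit 4) (nat_lit 4) (nat_lit 406) (nat_lit 331) (nat_lit 283)) (XT.lf (nat_lit 0) (nat_lit 40476138147) (nat_lit 76) (nat_lit 53821334957) (nat_lit 76) (nat_lit 48614440426) (nat_lit 3) (nat_lit 4) (nat_lit 4) (nat_lit 5) (nat_lit 4) (nat_lit 4) (nat_lit 407) (nat_lit 331) (nat_lit 282))))) (XT.nd (nat_lit 156) (nat_lit 0) (nat_lit 0) (XT.nd (nat_lit 78) (nat_lit 0) (nat_lit 0) (XT.lf (nat_lit 0) (nat_lit 61122093300) (nat_lit 76) (nat_lit 48875804714) (nat_lit 76) (nat_lit 43659819460) (nat_lit 3) (nat_lit 4) (nat_lit 4) (nat_lit 5) (nat_lit 4) (nat_lit 4) (nat_lit 408) (nat_lit 331) (nat_lit 281)) (XT.lf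 (nat_lit 0) (nat_lit 83364967573) (nat_lit 76) (nat_lit 43562391107) (nat_lit 76) (nat_lit 38337988517) (nat_lit 3) (nat_lit 4) (nat_lit 4) (nat_lit 5) (nat_lit 4) (nat_lit 4) (nat_lit 409) (nat_lit 331) (nat_lit 280))) (XT.nd (nat_lit 78) (nat_lit 0) (nat_lit 0) (XT.lf (nat_lit 0) (nat_lit 107336570589) (nat_lit 76) (nat_lit 37849607240) (nat_lit 76) (nat_lit 32617410821) (nat_lit 3) (nat_lit 4) (nat_lit 4) (nat_lit 5) (nat_lit 4) (nat_lit 4) (nat_lit 410) (nat_lit 331) (nat_lit 279)) (XT.nd (nat_lit 78) (nat_lit 0) (nat_lit 0) (XT.lf (nat_lit 0) (nat_lit 133178956293) (nat_lit 76) (nat_lit 31703599579) (nat_lit 76) (nat_lit 26464186652) (nat_lit 3) (nat_lit 4) (nat_lit 4) (nat_lit 5) (nat_lit 4) (nat_lit 4) (nat_lit 411) (nat_lit 331) (nat_lit 278)) (XT.lf (nat_lit 0) (nat_lit 161045264748) (nat_lit 76) (nat_lit 25087947338) (nat_lit 76) (nat_lit 19841852459) (nat_lit 3) (nat_lit 4)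 (nat_lit 4) (nat_lit 5) (nat_lit 4) (nat_lit 4) (nat_lit 412) (nat_lit 331) (nat_lit 277)))))) (XT.nd (nat_lit 390) (nat_lit 0) (nat_lit 0) (XT.nd (nat_lit 156) (nat_lit 152) (nat_lit 0) (XT.nd (nat_lit 78) (nat_lit 0) (nat_lit 0) (XT.lf (nat_lit 0) (nat_lit 191100629634) (nat_lit 76) (nat_lit 17963446653) (nat_lit 76) (nat_lit 12711164780) (nat_lit 3) (nat_lit 4) (nat_lit 4) (nat_lit 5) (nat_lit 4) (nat_lit 4) (nat_lit 413) (nat_lit 331) (nat_lit 276)) (XT.lf (nat_lit 0) (nat_lit 223523156816) (nat_lit 76) (nat_lit 10287878259) (nat_lit 76) (nat_lit 5029867690) (nat_lit 3) (nat_lit 4) (nat_lit 4) (nat_lit 5) (nat_lit 4) (nat_lit 4) (nat_lit 414) (nat_lit 331) (nat_lit 275))) (XT.nd (nat_lit 78) (nat_lit 0) (nat_lit 0) (XT.lf (nat_lit 0) (nat_lit 1214448075) (nat_lit 76) (nat_lit 1899861056) (nat_lit 152) (nat_lit 254150285448) (nat_lit 1) (nat_lit 5) (nat_lit 2) (nat_lit 5) (nat_lit 3)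 (nat_lit 4) (nat_lit 415) (nat_lit 331) (nat_lit 274)) (XT.nd (nat_lit 78) (nat_lit 0) (nat_lit 0) (XT.lf (nat_lit 0) (nat_lit 12222732630) (nat_lit 152) (nat_lit 257537496553) (nat_lit 0) (nat_lit 7344745265) (nat_lit 1) (nat_lit 5) (nat_lit 3) (nat_lit 4) (nat_lit 1) (nat_lit 4) (nat_lit 416) (nat_lit 331) (nat_lit 273)) (XT.lf (nat_lit 0) (nat_lit 22093051627) (nat_lit 152) (nat_lit 259226022652) (nat_lit 0) (nat_lit 17210853500) (nat_lit 1) (nat_lit 5) (nat_lit 3) (nat_lit 4) (nat_lit 1) (nat_lit 4) (nat_lit 417) (nat_lit 331) (nat_lit 272))))) (XT.nd (nat_lit 156) (nat_lit 0) (nat_lit 0) (XT.nd (nat_lit 78) (nat_lit 0) (nat_lit 0) (XT.lf (nat_lit 0) (nat_lit 32738065199) (nat_lit 152) (nat_lit 261080039177) (nat_lit 0) (nat_lit 27851968216) (nat_lit 1) (nat_lit 5) (nat_lit 3) (nat_lit 4) (nat_lit 1) (nat_lit 4) (nat_lit 418) (nat_lit 331) (nat_lit 271)) (XT.lf (nat_lit 0) (nat_lit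 44220854908) (nat_lit 152) (nat_lit 263110532895) (nat_lit 0) (nat_lit 39331147874) (nat_lit 1) (nat_lit 5) (nat_lit 3) (nat_lit 4) (nat_lit 1) (nat_lit 4) (nat_lit 419) (nat_lit 331) (nat_lit 270))) (XT.nd (nat_lit 78) (nat_lit 0) (nat_lit 0) (XT.lf (nat_lit 0) (nat_lit 56609466914) (nat_lit 152) (nat_lit 265329536359) (nat_lit 0) (nat_lit 51716417240) (nat_lit 1) (nat_lit 5) (nat_lit 3) (nat_lit 4) (nat_lit 1) (nat_lit 4) (nat_lit 420) (nat_lit 331) (nat_lit 269)) (XT.nd (nat_lit 78) (nat_lit 0) (nat_lit 0) (XT.lf (nat_lit 0) (nat_lit 69977315214) (nat_lit 152) (nat_lit 267750199220) (nat_lit 0) (nat_lit 65081170504) (nat_lit 1) (nat_lit 5) (nat_lit 3) (nat_lit 4) (nat_lit 1) (nat_lit 4) (nat_lit 421) (nat_lit 331) (nat_lit 268)) (XT.lf (nat_lit 0) (nat_lit 84403616689) (nat_lit 152) (nat_lit 270386866147) (nat_lit 0) (nat_lit 79504606203) (nat_lit 1) (nat_lit 5) (nat_lit 3) (nat_lit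 4) (nat_lit 1) (nat_lit 4) (nat_lit 422) (nat_lit 331) (nat_lit 267))))))) (XT.nd (nat_lit 780) (nat_lit 0) (nat_lit 0) (XT.nd (nat_lit 390) (nat_lit 0) (nat_lit 0) (XT.nd (nat_lit 156) (nat_lit 0) (nat_lit 0) (XT.nd (nat_lit 78) (nat_lit 0) (nat_lit 0) (XT.lf (nat_lit 0) (nat_lit 99973860530) (nat_lit 152) (nat_lit 273255161833) (nat_lit 0) (nat_lit 95072196550) (nat_lit 1) (nat_lit 5) (nat_lit 3) (nat_lit 4) (nat_lit 1) (nat_lit 4) (nat_lit 423) (nat_lit 331) (nat_lit 266)) (XT.lf (nat_lit 0) (nat_lit 116780314851) (nat_lit 152) (nat_lit 276372083585) (nat_lit 0) (nat_lit 111876193931) (nat_lit 1) (nat_lit 5) (nat_lit 3) (nat_lit 4) (nat_lit 1) (nat_lit 4) (nat_lit 424) (nat_lit 331) (nat_lit 265))) (XT.nd (nat_lit 78) (nat_lit 0) (nat_lit 0) (XT.lf (nat_lit 0) (nat_lit 134922573454) (nat_lit 152) (nat_lit 279756102051) (nat_lit 0) (nat_lit 130016177589) (nat_lit 1) (nat_lit 5) (nat_lit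 3) (nat_lit 4) (nat_lit 1) (nat_lit 4) (nat_lit 425) (nat_lit 331) (nat_lit 264)) (XT.nd (nat_lit 78) (nat_lit 0) (nat_lit 0) (XT.lf (nat_lit 0) (nat_lit 154508146021) (nat_lit 152) (nat_lit 283427270674) (nat_lit 0) (nat_lit 149599643726) (nat_lit 1) (nat_lit 5) (nat_lit 3) (nat_lit 4) (nat_lit 1) (nat_lit 4) (nat_lit 426) (nat_lit 331) (nat_lit 263)) (XT.lf (nat_lit 0) (nat_lit 175653095202) (nat_lit 152) (nat_lit 287407344527) (nat_lit 0) (nat_lit 170742642509) (nat_lit 1) (nat_lit 5) (nat_lit 3) (nat_lit 4) (nat_lit 1) (nat_lit 4) (nat_lit 427) (nat_lit 331) (nat_lit 262))))) (XT.nd (nat_lit 156) (nat_lit 0) (nat_lit 0) (XT.nd (nat_lit 78) (nat_lit 0) (nat_lit 0) (XT.lf (nat_lit 0) (nat_lit 198482724402) (nat_lit 152) (nat_lit 291719909233) (nat_lit 0) (nat_lit 193570465784) (nat_lit 1) (nat_lit 5) (nat_lit 3) (nat_lit 4) (nat_lit 1) (nat_lit 4) (nat_lit 428) (nat_lit 331) (nat_lit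 261)) (XT.lf (nat_lit 0) (nat_lit 223132320311) (nat_lit 152) (nat_lit 296390520731) (nat_lit 0) (nat_lit 218218389541) (nat_lit 1) (nat_lit 5) (nat_lit 3) (nat_lit 4) (nat_lit 1) (nat_lit 4) (nat_lit 429) (nat_lit 331) (nat_lit 260))) (XT.nd (nat_lit 78) (nat_lit 0) (nat_lit 0) (XT.lf (nat_lit 0) (nat_lit 249747954609) (nat_lit 152) (nat_lit 301446856718) (nat_lit 0) (nat_lit 244832475550) (nat_lit 1) (nat_lit 5) (nat_lit 3) (nat_lit 4) (nat_lit 1) (nat_lit 4) (nat_lit 430) (nat_lit 331) (nat_lit 259)) (XT.nd (nat_lit 78) (nat_lit 0) (nat_lit 0) (XT.lf (nat_lit 0) (nat_lit 278487349573) (nat_lit 152) (nat_lit 306918880667) (nat_lit 0) (nat_lit 273570436913) (nat_lit 1) (nat_lit 5) (nat_lit 3) (nat_lit 4) (nat_lit 1) (nat_lit 4) (nat_lit 431) (nat_lit 331) (nat_lit 258)) (XT.lf (nat_lit 0) (nat_lit 309520812729) (nat_lit 152) (nat_lit 312839019387) (nat_lit 0) (nat_lit 304602572661) (nat_lit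 1) (nat_lit 5) (nat_lit 3) (nat_lit 4) (nat_lit 1) (nat_lit 4) (nat_lit 432) (nat_lit 331) (nat_lit 257)))))) (XT.nd (nat_lit 390) (nat_lit 0) (nat_lit 0) (XT.nd (nat_lit 156) (nat_lit 0) (nat_lit 0) (XT.nd (nat_lit 78) (nat_lit 0) (nat_lit 0) (XT.lf (nat_lit 0) (nat_lit 343032246081) (nat_lit 152) (nat_lit 319242355182) (nat_lit 0) (nat_lit 338112776931) (nat_lit 1) (nat_lit 5) (nat_lit 3) (nat_lit 4) (nat_lit 1) (nat_lit 4) (nat_lit 433) (nat_lit 331) (nat_lit 256)) (XT.lf (nat_lit 0) (nat_lit 379220235900) (nat_lit 152) (nat_lit 326166833744) (nat_lit 0) (nat_lit 374299628712) (nat_lit 1) (nat_lit 5) (nat_lit 3) (nat_lit 4) (nat_lit 1) (nat_lit 4) (nat_lit 434) (nat_lit 331) (nat_lit 255))) (XT.nd (nat_lit 78) (nat_lit 0) (nat_lit 0) (XT.lf (nat_lit 0) (nat_lit 418299229534) (nat_lit 152) (nat_lit 333653489021) (nat_lit 0) (nat_lit 413377568606) (nat_lit 1) (nat_lit 5) (nat_lit 3) (nat_lit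 4) (nat_lit 1) (nat_lit 4) (nat_lit 435) (nat_lit 331) (nat_lit 254)) (XT.nd (nat_lit 78) (nat_lit 0) (nat_lit 0) (XT.lf (nat_lit 0) (nat_lit 460500806204) (nat_lit 152) (nat_lit 341746686377) (nat_lit 0) (nat_lit 455578169592) (nat_lit 1) (nat_lit 5) (nat_lit 3) (nat_lit 4) (nat_lit 1) (nat_lit 4) (nat_lit 436) (nat_lit 331) (nat_lit 253)) (XT.lf (nat_lit 0) (nat_lit 506075049328) (nat_lit 152) (nat_lit 350494385501) (nat_lit 0) (nat_lit 501151509304) (nat_lit 1) (nat_lit 5) (nat_lit 3) (nat_lit 4) (nat_lit 1) (nat_lit 4) (nat_lit 437) (nat_lit 331) (nat_lit 252))))) (XT.nd (nat_lit 234) (nat_lit 0) (nat_lit 0) (XT.nd (nat_lit 78) (nat_lit 0) (nat_lit 0) (XT.lf (nat_lit 0) (nat_lit 555292028494) (nat_lit 152) (nat_lit 359948424610) (nat_lit 0) (nat_lit 550367651977) (nat_lit 1) (nat_lit 5) (nat_lit 3) (nat_lit 4) (nat_lit 1) (nat_lit 4) (nat_lit 438) (nat_lit 331) (nat_lit 251)) (XT.nd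 (nat_lit 78) (nat_lit 0) (nat_lit 0) (XT.lf (nat_lit 0) (nat_lit 608443399875) (nat_lit 152) (nat_lit 370164827638) (nat_lit 0) (nat_lit 603518248828) (nat_lit 1) (nat_lit 5) (nat_lit 3) (nat_lit 4) (nat_lit 1) (nat_lit 4) (nat_lit 439) (nat_lit 331) (nat_lit 250)) (XT.lf (nat_lit 0) (nat_lit 665844134561) (nat_lit 152) (nat_lit 381204136234) (nat_lit 0) (nat_lit 660918266357) (nat_lit 1) (nat_lit 5) (nat_lit 3) (nat_lit 4) (nat_lit 1) (nat_lit 4) (nat_lit 440) (nat_lit 331) (nat_lit 249)))) (XT.nd (nat_lit 78) (nat_lit 0) (nat_lit 0) (XT.lf (nat_lit 0) (nat_lit 727834385053) (nat_lit 152) (nat_lit 393131768523) (nat_lit 0) (nat_lit 722907852815) (nat_lit 1) (nat_lit 5) (nat_lit 3) (nat_lit 4) (nat_lit 1) (nat_lit 4) (nat_lit 441) (nat_lit 331) (nat_lit 248)) (XT.nd (nat_lit 78) (nat_lit 0) (nat_lit 0) (XT.lf (nat_lit 0) (nat_lit 794781500985) (nat_lit 152) (nat_lit 406018406769) (nat_lit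 0) (nat_lit 789854353900) (nat_lit 1) (nat_lit 5) (nat_lit 3) (nat_lit 4) (nat_lit 1) (nat_lit 4) (nat_lit 442) (nat_lit 331) (nat_lit 247)) (XT.lf (nat_lit 0) (nat_lit 867082206006) (nat_lit 152) (nat_lit 419940416238) (nat_lit 0) (nat_lit 862154489618) (nat_lit 1) (nat_lit 5) (nat_lit 3) (nat_lit 4) (nat_lit 1) (nat_lit 4) (nat_lit 443) (nat_lit 331) (nat_lit 246))))))))
noncomputable def xc71 : XT := (XT.nd (nat_lit 46332) (nat_lit 0) (nat_lit 1216) (XT.nd (nat_lit 780) (nat_lit 0) (nat_lit 0) (XT.nd (nat_lit 390) (nat_lit 0) (nat_lit 0) (XT.nd (nat_lit 156) (nat_lit 0) (nat_lit 0) (XT.nd (nat_lit 78) (nat_lit 0) (nat_lit 0) (XT.lf (nat_lit 0) (nat_lit 945164948739) (nat_lit 152) (nat_lit 434980297725) (nat_lit 0) (nat_lit 940236705219) (nat_lit 1) (nat_lit 5) (nat_lit 3) (nat_lit 4) (nat_lit 1) (nat_lit 4) (nat_lit 444) (nat_lit 331) (nat_lit 245)) (XT.lf (nat_lit 0) (nat_lit 1029492441732)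 (nat_lit 152) (nat_lit 451227176454) (nat_lit 0) (nat_lit 1024563710127) (nat_lit 1) (nat_lit 5) (nat_lit 3) (nat_lit 4) (nat_lit 1) (nat_lit 4) (nat_lit 445) (nat_lit 331) (nat_lit 244))) (XT.nd (nat_lit 78) (nat_lit 0) (nat_lit 0) (XT.lf (nat_lit 0) (nat_lit 1120564403464) (nat_lit 152) (nat_lit 468777330225) (nat_lit 0) (nat_lit 1115635219928) (nat_lit 1) (nat_lit 5) (nat_lit 3) (nat_lit 4) (nat_lit 1) (nat_lit 4) (nat_lit 446) (nat_lit 331) (nat_lit 243)) (XT.nd (nat_lit 78) (nat_lit 0) (nat_lit 0) (XT.lf (nat_lit 0) (nat_lit 1218920519633) (nat_lit 152) (nat_lit 487734759949) (nat_lit 0) (nat_lit 1213990917643) (nat_lit 1) (nat_lit 5) (nat_lit 3) (nat_lit 4) (nat_lit 1) (nat_lit 4) (nat_lit 447) (nat_lit 331) (nat_lit 242)) (XT.lf (nat_lit 0) (nat_lit 1325143641298) (nat_lit 152) (nat_lit 508211805951) (nat_lit 0) (nat_lit 1320213651850) (nat_lit 1) (nat_lit 5) (nat_lit 3) (nat_lit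 4) (nat_lit 1) (nat_lit 4) (nat_lit 448) (nat_lit 331) (nat_lit 241))))) (XT.nd (nat_lit 156) (nat_lit 0) (nat_lit 0) (XT.nd (nat_lit 78) (nat_lit 0) (nat_lit 0) (XT.lf (nat_lit 0) (nat_lit 1439863238809) (nat_lit 152) (nat_lit 530329813688) (nat_lit 0) (nat_lit 1434932890604) (nat_lit 1) (nat_lit 5) (nat_lit 3) (nat_lit 4) (nat_lit 1) (nat_lit 4) (nat_lit 449) (nat_lit 331) (nat_lit 240)) (XT.lf (nat_lit 0) (nat_lit 1563759132005) (nat_lit 152) (nat_lit 554219852836) (nat_lit 0) (nat_lit 1558828451617) (nat_lit 1) (nat_lit 5) (nat_lit 3) (nat_lit 4) (nat_lit 1) (nat_lit 4) (nat_lit 450) (nat_lit 331) (nat_lit 239))) (XT.nd (nat_lit 78) (nat_lit 0) (nat_lit 0) (XT.lf (nat_lit 0) (nat_lit 1697565518769) (nat_lit 152) (nat_lit 580023493998) (nat_lit 0) (nat_lit 1692634530805) (nat_lit 1) (nat_lit 5) (nat_lit 3) (nat_lit 4) (nat_lit 1) (nat_lit 4) (nat_lit 451) (nat_lit 331) (nat_lit 238))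 (XT.nd (nat_lit 78) (nat_lit 0) (nat_lit 0) (XT.lf (nat_lit 0) (nat_lit 1842075325839) (nat_lit 152) (nat_lit 607893647638) (nat_lit 0) (nat_lit 1837144053082) (nat_lit 1) (nat_lit 5) (nat_lit 3) (nat_lit 4) (nat_lit 1) (nat_lit 4) (nat_lit 452) (nat_lit 331) (nat_lit 237)) (XT.lf (nat_lit 0) (nat_lit 1998144907628) (nat_lit 152) (nat_lit 637995470224) (nat_lit 0) (nat_lit 1993213371173) (nat_lit 1) (nat_lit 5) (nat_lit 3) (nat_lit 4) (nat_lit 1) (nat_lit 4) (nat_lit 453) (nat_lit 331) (nat_lit 236)))))) (XT.nd (nat_lit 390) (nat_lit 0) (nat_lit 0) (XT.nd (nat_lit 156) (nat_lit 0) (nat_lit 0) (XT.nd (nat_lit 78) (nat_lit 0) (nat_lit 0) (XT.lf (nat_lit 0) (nat_lit 2166699120915) (nat_lit 152) (nat_lit 670507342927) (nat_lit 0) (nat_lit 2161767340296) (nat_lit 1) (nat_lit 5) (nat_lit 3) (nat_lit 4) (nat_lit 1) (nat_lit 4) (nat_lit 454) (nat_lit 331) (nat_lit 235)) (XT.lf (nat_lit 0) (nat_lit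 2348736805483) (nat_lit 152) (nat_lit 705621928694) (nat_lit 0) (nat_lit 2343804798786) (nat_lit 1) (nat_lit 5) (nat_lit 3) (nat_lit 4) (nat_lit 1) (nat_lit 4) (nat_lit 455) (nat_lit 331) (nat_lit 234))) (XT.nd (nat_lit 78) (nat_lit 0) (nat_lit 0) (XT.lf (nat_lit 0) (nat_lit 2545336703167) (nat_lit 152) (nat_lit 743547313962) (nat_lit 0) (nat_lit 2540404487139) (nat_lit 1) (nat_lit 5) (nat_lit 3) (nat_lit 4) (nat_lit 1) (nat_lit 4) (nat_lit 456) (nat_lit 331) (nat_lit 233)) (XT.nd (nat_lit 78) (nat_lit 0) (nat_lit 0) (XT.lf (nat_lit 0) (nat_lit 2757663850398) (nat_lit 152) (nat_lit 784508241753) (nat_lit 0) (nat_lit 2752731440545) (nat_lit 1) (nat_lit 5) (nat_lit 3) (nat_lit 4) (nat_lit 1) (nat_lit 4) (nat_lit 457) (nat_lit 331) (nat_lit 232)) (XT.lf (nat_lit 0) (nat_lit 2986976482122) (nat_lit 152) (nat_lit 828747443492) (nat_lit 0) (nat_lit 2982043892801) (nat_lit 1) (nat_lit 5) (nat_lit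 3) (nat_lit 4) (nat_lit 1) (nat_lit 4) (nat_lit 458) (nat_lit 331) (nat_lit 231))))) (XT.nd (nat_lit 234) (nat_lit 0) (nat_lit 0) (XT.nd (nat_lit 78) (nat_lit 0) (nat_lit 0) (XT.lf (nat_lit 0) (nat_lit 3234633488009) (nat_lit 152) (nat_lit 876527077410) (nat_lit 0) (nat_lit 3229700732513) (nat_lit 1) (nat_lit 5) (nat_lit 3) (nat_lit 4) (nat_lit 1) (nat_lit 4) (nat_lit 459) (nat_lit 331) (nat_lit 230)) (XT.nd (nat_lit 78) (nat_lit 0) (nat_lit 0) (XT.lf (nat_lit 0) (nat_lit 3502102465130) (nat_lit 152) (nat_lit 928130282080) (nat_lit 0) (nat_lit 3497169555769) (nat_lit 1) (nat_lit 5) (nat_lit 3) (nat_lit 4) (nat_lit 1) (nat_lit 4) (nat_lit 460) (nat_lit 331) (nat_lit 229)) (XT.lf (nat_lit 0) (nat_lit 3790968414831) (nat_lit 152) (nat_lit 983862854270) (nat_lit 0) (nat_lit 3786035363004) (nat_lit 1) (nat_lit 5) (nat_lit 3) (nat_lit 4) (nat_lit 1) (nat_lit 4) (nat_lit 461) (nat_lit 331) (nat_lit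 228)))) (XT.nd (nat_lit 78) (nat_lit 0) (nat_lit 0) (XT.lf (nat_lit 0) (nat_lit 4102943135334) (nat_lit 152) (nat_lit 1044055061075) (nat_lit 0) (nat_lit 4098009951592) (nat_lit 1) (nat_lit 5) (nat_lit 3) (nat_lit 4) (nat_lit 1) (nat_lit 4) (nat_lit 462) (nat_lit 331) (nat_lit 227)) (XT.nd (nat_lit 44772) (nat_lit 0) (nat_lit 3572) (XT.lf (nat_lit 0) (nat_lit 4439875365722) (nat_lit 152) (nat_lit 1109063597052) (nat_lit 0) (nat_lit 4434942059837) (nat_lit 1) (nat_lit 5) (nat_lit 3) (nat_lit 4) (nat_lit 1) (nat_lit 4) (nat_lit 463) (nat_lit 331) (nat_lit 226)) (XT.lf (nat_lit 0) (nat_lit 1874792368) (nat_lit 228) (nat_lit 425876259) (nat_lit 0) (nat_lit 1874792368) (nat_lit 48) (nat_lit 5) (nat_lit 51) (nat_lit 4) (nat_lit 48) (nat_lit 4) (nat_lit 356) (nat_lit 332) (nat_lit 332))))))) (XT.nd (nat_lit 780) (nat_lit 912) (nat_lit 0) (XT.nd (nat_lit 390) (nat_lit 608) (nat_lit 0) (XT.nd (nat_lit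 156) (nat_lit 380) (nat_lit 0) (XT.nd (nat_lit 78) (nat_lit 228) (nat_lit 0) (XT.lf (nat_lit 0) (nat_lit 6220114640) (nat_lit 228) (nat_lit 1731855998) (nat_lit 228) (nat_lit 658184957) (nat_lit 45) (nat_lit 4) (nat_lit 48) (nat_lit 5) (nat_lit 48) (nat_lit 4) (nat_lit 357) (nat_lit 332) (nat_lit 331)) (XT.lf (nat_lit 0) (nat_lit 3341370468) (nat_lit 228) (nat_lit 4121590005) (nat_lit 0) (nat_lit 1426730751) (nat_lit 42) (nat_lit 5) (nat_lit 45) (nat_lit 4) (nat_lit 42) (nat_lit 4) (nat_lit 358) (nat_lit 332) (nat_lit 330))) (XT.nd (nat_lit 78) (nat_lit 228) (nat_lit 0) (XT.lf (nat_lit 0) (nat_lit 3171431907) (nat_lit 152) (nat_lit 4395297473) (nat_lit 152) (nat_lit 1628343067) (nat_lit 40) (nat_lit 4) (nat_lit 42) (nat_lit 5) (nat_lit 42) (nat_lit 4) (nat_lit 359) (nat_lit 332) (nat_lit 329)) (XT.nd (nat_lit 78) (nat_lit 0) (nat_lit 0) (XT.lf (nat_lit 0) (nat_lit 1395185161) (nat_lit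 152) (nat_lit 985257066) (nat_lit 228) (nat_lit 7147125878) (nat_lit 37) (nat_lit 5) (nat_lit 39) (nat_lit 5) (nat_lit 40) (nat_lit 4) (nat_lit 360) (nat_lit 332) (nat_lit 328)) (XT.lf (nat_lit 0) (nat_lit 6618252760) (nat_lit 228) (nat_lit 616511677) (nat_lit 0) (nat_lit 2648940590) (nat_lit 37) (nat_lit 5) (nat_lit 40) (nat_lit 4) (nat_lit 37) (nat_lit 4) (nat_lit 361) (nat_lit 332) (nat_lit 327))))) (XT.nd (nat_lit 156) (nat_lit 304) (nat_lit 0) (XT.nd (nat_lit 78) (nat_lit 76) (nat_lit 0) (XT.lf (nat_lit 0) (nat_lit 865842461) (nat_lit 228) (nat_lit 2794836588) (nat_lit 76) (nat_lit 6607145418) (nat_lit 34) (nat_lit 5) (nat_lit 37) (nat_lit 5) (nat_lit 35) (nat_lit 4) (nat_lit 362) (nat_lit 332) (nat_lit 326)) (XT.lf (nat_lit 0) (nat_lit 5088114327) (nat_lit 152) (nat_lit 5297273208) (nat_lit 0) (nat_lit 295651395) (nat_lit 33) (nat_lit 5) (nat_lit 35) (nat_lit 4) (nat_lit 33) (nat_lit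 4) (nat_lit 363) (nat_lit 332) (nat_lit 325))) (XT.nd (nat_lit 78) (nat_lit 152) (nat_lit 0) (XT.lf (nat_lit 0) (nat_lit 2944041702) (nat_lit 152) (nat_lit 6735324031) (nat_lit 152) (nat_lit 1445543665) (nat_lit 31) (nat_lit 4) (nat_lit 33) (nat_lit 5) (nat_lit 33) (nat_lit 4) (nat_lit 364) (nat_lit 332) (nat_lit 324)) (XT.nd (nat_lit 78) (nat_lit 0) (nat_lit 0) (XT.lf (nat_lit 0) (nat_lit 119853557) (nat_lit 76) (nat_lit 2702316168) (nat_lit 152) (nat_lit 8781140533) (nat_lit 29) (nat_lit 5) (nat_lit 30) (nat_lit 5) (nat_lit 31) (nat_lit 4) (nat_lit 365) (nat_lit 332) (nat_lit 323)) (XT.lf (nat_lit 0) (nat_lit 7414819352) (nat_lit 152) (nat_lit 3001587563) (nat_lit 0) (nat_lit 1695718413) (nat_lit 29) (nat_lit 5) (nat_lit 31) (nat_lit 4) (nat_lit 29) (nat_lit 4) (nat_lit 366) (nat_lit 332) (nat_lit 322)))))) (XT.nd (nat_lit 390) (nat_lit 380) (nat_lit 0) (XT.nd (nat_lit 156) (nat_lit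 228) (nat_lit 0) (XT.nd (nat_lit 78) (nat_lit 152) (nat_lit 0) (XT.lf (nat_lit 0) (nat_lit 6052265353) (nat_lit 152) (nat_lit 6346107301) (nat_lit 152) (nat_lit 261463200) (nat_lit 27) (nat_lit 4) (nat_lit 29) (nat_lit 5) (nat_lit 29) (nat_lit 4) (nat_lit 367) (nat_lit 332) (nat_lit 321)) (XT.lf (nat_lit 0) (nat_lit 2425969769) (nat_lit 76) (nat_lit 1828395499) (nat_lit 152) (nat_lit 8992208170) (nat_lit 25) (nat_lit 5) (nat_lit 26) (nat_lit 5) (nat_lit 27) (nat_lit 4) (nat_lit 368) (nat_lit 332) (nat_lit 320))) (XT.nd (nat_lit 78) (nat_lit 228) (nat_lit 0) (XT.lf (nat_lit 0) (nat_lit 9187812880) (nat_lit 152) (nat_lit 1736001926) (nat_lit 0) (nat_lit 2950308869) (nat_lit 25) (nat_lit 5) (nat_lit 27) (nat_lit 4) (nat_lit 25) (nat_lit 4) (nat_lit 369) (nat_lit 332) (nat_lit 319)) (XT.nd (nat_lit 78) (nat_lit 76) (nat_lit 0) (XT.lf (nat_lit 0) (nat_lit 35961519) (nat_lit 152) (nat_lit 6431389186)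 (nat_lit 76) (nat_lit 8079035321) (nat_lit 23) (nat_lit 5) (nat_lit 25) (nat_lit 5) (nat_lit 24) (nat_lit 4) (nat_lit 370) (nat_lit 332) (nat_lit 318)) (XT.lf (nat_lit 0) (nat_lit 3307667526) (nat_lit 76) (nat_lit 1530139784) (nat_lit 152) (nat_lit 10428530183) (nat_lit 22) (nat_lit 5) (nat_lit 23) (nat_lit 5) (nat_lit 24) (nat_lit 4) (nat_lit 371) (nat_lit 332) (nat_lit 317))))) (XT.nd (nat_lit 234) (nat_lit 152) (nat_lit 0) (XT.nd (nat_lit 78) (nat_lit 228) (nat_lit 0) (XT.lf (nat_lit 0) (nat_lit 10124297053) (nat_lit 152) (nat_lit 2255186202) (nat_lit 0) (nat_lit 3656402722) (nat_lit 22) (nat_lit 5) (nat_lit 24) (nat_lit 4) (nat_lit 22) (nat_lit 4) (nat_lit 372) (nat_lit 332) (nat_lit 316)) (XT.nd (nat_lit 78) (nat_lit 152) (nat_lit 0) (XT.lf (nat_lit 0) (nat_lit 8302987368) (nat_lit 76) (nat_lit 7611486530) (nat_lit 76) (nat_lit 946100604) (nat_lit 21) (nat_lit 4) (nat_lit 22) (nat_lit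 5) (nat_lit 22) (nat_lit 4) (nat_lit 373) (nat_lit 332) (nat_lit 315)) (XT.lf (nat_lit 0) (nat_lit 1770492168) (nat_lit 76) (nat_lit 2373133160) (nat_lit 152) (nat_lit 13603312525) (nat_lit 19) (nat_lit 5) (nat_lit 20) (nat_lit 5) (nat_lit 21) (nat_lit 4) (nat_lit 374) (nat_lit 332) (nat_lit 314)))) (XT.nd (nat_lit 78) (nat_lit 152) (nat_lit 0) (XT.lf (nat_lit 0) (nat_lit 9751962292) (nat_lit 152) (nat_lit 5683091896) (nat_lit 0) (nat_lit 3254216249) (nat_lit 19) (nat_lit 5) (nat_lit 21) (nat_lit 4) (nat_lit 19) (nat_lit 4) (nat_lit 375) (nat_lit 332) (nat_lit 313)) (XT.nd (nat_lit 78) (nat_lit 76) (nat_lit 0) (XT.lf (nat_lit 0) (nat_lit 5363099597) (nat_lit 76) (nat_lit 10491584258) (nat_lit 76) (nat_lit 3848675996) (nat_lit 18) (nat_lit 4) (nat_lit 19) (nat_lit 5) (nat_lit 19) (nat_lit 4) (nat_lit 376) (nat_lit 332) (nat_lit 312)) (XT.lf (nat_lit 0) (nat_lit 1579727677) (nat_lit 152)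 (nat_lit 3491484154) (nat_lit 76) (nat_lit 15723013525) (nat_lit 17) (nat_lit 5) (nat_lit 19) (nat_lit 5) (nat_lit 18) (nat_lit 4) (nat_lit 377) (nat_lit 332) (nat_lit 311))))))))
noncomputable def xc72 : XT := (XT.nd (nat_lit 1560) (nat_lit 380) (nat_lit 0) (XT.nd (nat_lit 780) (nat_lit 304) (nat_lit 0) (XT.nd (nat_lit 390) (nat_lit 228) (nat_lit 0) (XT.nd (nat_lit 156) (nat_lit 228) (nat_lit 0) (XT.nd (nat_lit 78) (nat_lit 0) (nat_lit 0) (XT.lf (nat_lit 0) (nat_lit 7323629757) (nat_lit 152) (nat_lit 13700521546) (nat_lit 0) (nat_lit 933101119) (nat_lit 16) (nat_lit 5) (nat_lit 18) (nat_lit 4) (nat_lit 16) (nat_lit 4) (nat_lit 378) (nat_lit 332) (nat_lit 310)) (XT.lf (nat_lit 0) (nat_lit 13624009548) (nat_lit 152) (nat_lit 2454792829) (nat_lit 0) (nat_lit 7126782346) (nat_lit 16) (nat_lit 5) (nat_lit 18) (nat_lit 4) (nat_lit 16) (nat_lit 4) (nat_lit 379) (nat_lit 332) (nat_lit 309)))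 (XT.nd (nat_lit 78) (nat_lit 152) (nat_lit 0) (XT.lf (nat_lit 0) (nat_lit 9949146533) (nat_lit 76) (nat_lit 10595682647) (nat_lit 76) (nat_lit 3999660478) (nat_lit 15) (nat_lit 4) (nat_lit 16) (nat_lit 5) (nat_lit 16) (nat_lit 4) (nat_lit 380) (nat_lit 332) (nat_lit 308)) (XT.nd (nat_lit 78) (nat_lit 76) (nat_lit 0) (XT.lf (nat_lit 0) (nat_lit 1873690572) (nat_lit 152) (nat_lit 2790222598) (nat_lit 76) (nat_lit 21326996725) (nat_lit 14) (nat_lit 5) (nat_lit 16) (nat_lit 5) (nat_lit 15) (nat_lit 4) (nat_lit 381) (nat_lit 332) (nat_lit 307)) (XT.lf (nat_lit 0) (nat_lit 8179627847) (nat_lit 152) (nat_lit 17441743032) (nat_lit 0) (nat_lit 1909072523) (nat_lit 13) (nat_lit 5) (nat_lit 15) (nat_lit 4) (nat_lit 13) (nat_lit 4) (nat_lit 382) (nat_lit 332) (nat_lit 306))))) (XT.nd (nat_lit 156) (nat_lit 152) (nat_lit 0) (XT.nd (nat_lit 78) (nat_lit 76) (nat_lit 0) (XT.lf (nat_lit 0) (nat_lit 15076688616)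 (nat_lit 152) (nat_lit 5376016876) (nat_lit 0) (nat_lit 8733516042) (nat_lit 13) (nat_lit 5) (nat_lit 15) (nat_lit 4) (nat_lit 13) (nat_lit 4) (nat_lit 383) (nat_lit 332) (nat_lit 305)) (XT.lf (nat_lit 0) (nat_lit 7841218826) (nat_lit 76) (nat_lit 14768466486) (nat_lit 76) (nat_lit 8358055718) (nat_lit 12) (nat_lit 4) (nat_lit 13) (nat_lit 5) (nat_lit 13) (nat_lit 4) (nat_lit 384) (nat_lit 332) (nat_lit 304))) (XT.nd (nat_lit 78) (nat_lit 152) (nat_lit 0) (XT.lf (nat_lit 0) (nat_lit 22220789301) (nat_lit 76) (nat_lit 8570017110) (nat_lit 76) (nat_lit 2097348754) (nat_lit 12) (nat_lit 4) (nat_lit 13) (nat_lit 5) (nat_lit 13) (nat_lit 4) (nat_lit 385) (nat_lit 332) (nat_lit 303)) (XT.nd (nat_lit 78) (nat_lit 0) (nat_lit 0) (XT.lf (nat_lit 0) (nat_lit 2616224103) (nat_lit 76) (nat_lit 1781150114) (nat_lit 152) (nat_lit 30558545826) (nat_lit 10) (nat_lit 5) (nat_lit 11) (nat_lit 5) (nat_lit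 12) (nat_lit 4) (nat_lit 386) (nat_lit 332) (nat_lit 302)) (XT.lf (nat_lit 0) (nat_lit 11635108028) (nat_lit 152) (nat_lit 19983611158) (nat_lit 0) (nat_lit 5539098661) (nat_lit 10) (nat_lit 5) (nat_lit 12) (nat_lit 4) (nat_lit 10) (nat_lit 4) (nat_lit 387) (nat_lit 332) (nat_lit 301)))))) (XT.nd (nat_lit 390) (nat_lit 76) (nat_lit 0) (XT.nd (nat_lit 156) (nat_lit 152) (nat_lit 0) (XT.nd (nat_lit 78) (nat_lit 76) (nat_lit 0) (XT.lf (nat_lit 0) (nat_lit 19409241232) (nat_lit 152) (nat_lit 6862573822) (nat_lit 0) (nat_lit 13267470680) (nat_lit 10) (nat_lit 5) (nat_lit 12) (nat_lit 4) (nat_lit 10) (nat_lit 4) (nat_lit 388) (nat_lit 332) (nat_lit 300)) (XT.lf (nat_lit 0) (nat_lit 7520197818) (nat_lit 76) (nat_lit 20383669183) (nat_lit 76) (nat_lit 14199527163) (nat_lit 9) (nat_lit 4) (nat_lit 10) (nat_lit 5) (nat_lit 10) (nat_lit 4) (nat_lit 389) (nat_lit 332) (nat_lit 299))) (XT.nd (nat_lit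 78) (nat_lit 152) (nat_lit 0) (XT.lf (nat_lit 0) (nat_lit 23283887837) (nat_lit 76) (nat_lit 13901759500) (nat_lit 76) (nat_lit 7678384639) (nat_lit 9) (nat_lit 4) (nat_lit 10) (nat_lit 5) (nat_lit 10) (nat_lit 4) (nat_lit 390) (nat_lit 332) (nat_lit 298)) (XT.nd (nat_lit 78) (nat_lit 152) (nat_lit 0) (XT.lf (nat_lit 0) (nat_lit 40160539720) (nat_lit 76) (nat_lit 6975309618) (nat_lit 76) (nat_lit 715608053) (nat_lit 9) (nat_lit 4) (nat_lit 10) (nat_lit 5) (nat_lit 10) (nat_lit 4) (nat_lit 391) (nat_lit 332) (nat_lit 297)) (XT.lf (nat_lit 0) (nat_lit 6590052113) (nat_lit 152) (nat_lit 43701752757) (nat_lit 0) (nat_lit 762887851) (nat_lit 7) (nat_lit 5) (nat_lit 9) (nat_lit 4) (nat_lit 7) (nat_lit 4) (nat_lit 392) (nat_lit 332) (nat_lit 296))))) (XT.nd (nat_lit 156) (nat_lit 76) (nat_lit 0) (XT.nd (nat_lit 78) (nat_lit 0) (nat_lit 0) (XT.lf (nat_lit 0) (nat_lit 14768265987) (nat_lit 152)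 (nat_lit 30806034001) (nat_lit 0) (nat_lit 8912264416) (nat_lit 7) (nat_lit 5) (nat_lit 9) (nat_lit 4) (nat_lit 7) (nat_lit 4) (nat_lit 393) (nat_lit 332) (nat_lit 295)) (XT.lf (nat_lit 0) (nat_lit 23535774211) (nat_lit 152) (nat_lit 17009342284) (nat_lit 0) (nat_lit 17653071429) (nat_lit 7) (nat_lit 5) (nat_lit 9) (nat_lit 4) (nat_lit 7) (nat_lit 4) (nat_lit 394) (nat_lit 332) (nat_lit 294))) (XT.nd (nat_lit 78) (nat_lit 76) (nat_lit 0) (XT.lf (nat_lit 0) (nat_lit 32944532391) (nat_lit 152) (nat_lit 2229919435) (nat_lit 0) (nat_lit 27037106264) (nat_lit 7) (nat_lit 5) (nat_lit 9) (nat_lit 4) (nat_lit 7) (nat_lit 4) (nat_lit 395) (nat_lit 332) (nat_lit 293)) (XT.nd (nat_lit 78) (nat_lit 0) (nat_lit 0) (XT.lf (nat_lit 0) (nat_lit 14337011703) (nat_lit 76) (nat_lit 29058089903) (nat_lit 76) (nat_lit 23127771790) (nat_lit 6) (nat_lit 4) (nat_lit 7) (nat_lit 5) (nat_lit 7) (nat_lit 4) (nat_lit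 396) (nat_lit 332) (nat_lit 292)) (XT.lf (nat_lit 0) (nat_lit 32246910377) (nat_lit 76) (nat_lit 22441580029) (nat_lit 76) (nat_lit 16490065633) (nat_lit 6) (nat_lit 4) (nat_lit 7) (nat_lit 5) (nat_lit 7) (nat_lit 4) (nat_lit 397) (nat_lit 332) (nat_lit 291))))))) (XT.nd (nat_lit 780) (nat_lit 152) (nat_lit 0) (XT.nd (nat_lit 390) (nat_lit 76) (nat_lit 0) (XT.nd (nat_lit 156) (nat_lit 152) (nat_lit 0) (XT.nd (nat_lit 78) (nat_lit 0) (nat_lit 0) (XT.lf (nat_lit 0) (nat_lit 51488485712) (nat_lit 76) (nat_lit 15346683205) (nat_lit 76) (nat_lit 9375542622) (nat_lit 6) (nat_lit 4) (nat_lit 7) (nat_lit 5) (nat_lit 7) (nat_lit 4) (nat_lit 398) (nat_lit 332) (nat_lit 290)) (XT.lf (nat_lit 0) (nat_lit 72175761860) (nat_lit 76) (nat_lit 7731355600) (nat_lit 76) (nat_lit 1742042620) (nat_lit 6) (nat_lit 4) (nat_lit 7) (nat_lit 5) (nat_lit 7) (nat_lit 4) (nat_lit 399) (nat_lit 332) (nat_lit 289)))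 (XT.nd (nat_lit 78) (nat_lit 0) (nat_lit 0) (XT.lf (nat_lit 0) (nat_lit 6322898254) (nat_lit 152) (nat_lit 80413938973) (nat_lit 0) (nat_lit 761658187) (nat_lit 4) (nat_lit 5) (nat_lit 6) (nat_lit 4) (nat_lit 4) (nat_lit 4) (nat_lit 400) (nat_lit 332) (nat_lit 288)) (XT.nd (nat_lit 78) (nat_lit 0) (nat_lit 0) (XT.lf (nat_lit 0) (nat_lit 15361467279) (nat_lit 152) (nat_lit 68631087963) (nat_lit 0) (nat_lit 9785801378) (nat_lit 4) (nat_lit 5) (nat_lit 6) (nat_lit 4) (nat_lit 4) (nat_lit 4) (nat_lit 401) (nat_lit 332) (nat_lit 287)) (XT.lf (nat_lit 0) (nat_lit 25082368792) (nat_lit 152) (nat_lit 55988155078) (nat_lit 0) (nat_lit 19493345637) (nat_lit 4) (nat_lit 5) (nat_lit 6) (nat_lit 4) (nat_lit 4) (nat_lit 4) (nat_lit 402) (nat_lit 332) (nat_lit 286))))) (XT.nd (nat_lit 156) (nat_lit 76) (nat_lit 0) (XT.nd (nat_lit 78) (nat_lit 0) (nat_lit 0) (XT.lf (nat_lit 0) (nat_lit 35543208135) (nat_lit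 152) (nat_lit 42410219234) (nat_lit 0) (nat_lit 29941817152) (nat_lit 4) (nat_lit 5) (nat_lit 6) (nat_lit 4) (nat_lit 4) (nat_lit 4) (nat_lit 403) (nat_lit 332) (nat_lit 285)) (XT.lf (nat_lit 0) (nat_lit 46805975468) (nat_lit 152) (nat_lit 27816818591) (nat_lit 0) (nat_lit 41193132793) (nat_lit 4) (nat_lit 5) (nat_lit 6) (nat_lit 4) (nat_lit 4) (nat_lit 4) (nat_lit 404) (nat_lit 332) (nat_lit 284))) (XT.nd (nat_lit 78) (nat_lit 76) (nat_lit 0) (XT.lf (nat_lit 0) (nat_lit 58937413115) (nat_lit 152) (nat_lit 12121473736) (nat_lit 0) (nat_lit 53313967021) (nat_lit 4) (nat_lit 5) (nat_lit 6) (nat_lit 4) (nat_lit 4) (nat_lit 4) (nat_lit 405) (nat_lit 332) (nat_lit 283)) (XT.nd (nat_lit 78) (nat_lit 0) (nat_lit 0) (XT.lf (nat_lit 0) (nat_lit 5019942642) (nat_lit 76) (nat_lit 67110198175) (nat_lit 76) (nat_lit 61476934101) (nat_lit 3) (nat_lit 4) (nat_lit 4) (nat_lit 5) (nat_lit 4) (nat_lit 4)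 (nat_lit 406) (nat_lit 332) (nat_lit 282)) (XT.lf (nat_lit 0) (nat_lit 24162893407) (nat_lit 76) (nat_lit 62517657806) (nat_lit 76) (nat_lit 56875303009) (nat_lit 3) (nat_lit 4) (nat_lit 4) (nat_lit 5) (nat_lit 4) (nat_lit 4) (nat_lit 407) (nat_lit 332) (nat_lit 281)))))) (XT.nd (nat_lit 390) (nat_lit 152) (nat_lit 0) (XT.nd (nat_lit 156) (nat_lit 0) (nat_lit 0) (XT.nd (nat_lit 78) (nat_lit 0) (nat_lit 0) (XT.lf (nat_lit 0) (nat_lit 44782522938) (nat_lit 76) (nat_lit 57585473262) (nat_lit 76) (nat_lit 51934701130) (nat_lit 3) (nat_lit 4) (nat_lit 4) (nat_lit 5) (nat_lit 4) (nat_lit 4) (nat_lit 408) (nat_lit 332) (nat_lit 280)) (XT.lf (nat_lit 0) (nat_lit 67001021635) (nat_lit 76) (nat_lit 52284416784) (nat_lit 76) (nat_lit 46625850823) (nat_lit 3) (nat_lit 4) (nat_lit 4) (nat_lit 5) (nat_lit 4) (nat_lit 4) (nat_lit 409) (nat_lit 332) (nat_lit 279))) (XT.nd (nat_lit 78) (nat_lit 0) (nat_lit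 0) (XT.lf (nat_lit 0) (nat_lit 90950054673) (nat_lit 76) (nat_lit 46583074703) (nat_lit 76) (nat_lit 40917292234) (nat_lit 3) (nat_lit 4) (nat_lit 4) (nat_lit 5) (nat_lit 4) (nat_lit 4) (nat_lit 410) (nat_lit 332) (nat_lit 278)) (XT.nd (nat_lit 78) (nat_lit 0) (nat_lit 0) (XT.lf (nat_lit 0) (nat_lit 116771542250) (nat_lit 76) (nat_lit 40447661289) (nat_lit 76) (nat_lit 34775196867) (nat_lit 3) (nat_lit 4) (nat_lit 4) (nat_lit 5) (nat_lit 4) (nat_lit 4) (nat_lit 411) (nat_lit 332) (nat_lit 277)) (XT.lf (nat_lit 0) (nat_lit 144618500587) (nat_lit 76) (nat_lit 33841818537) (nat_lit 76) (nat_lit 28163167121) (nat_lit 3) (nat_lit 4) (nat_lit 4) (nat_lit 5) (nat_lit 4) (nat_lit 4) (nat_lit 412) (nat_lit 332) (nat_lit 276))))) (XT.nd (nat_lit 234) (nat_lit 152) (nat_lit 0) (XT.nd (nat_lit 78) (nat_lit 0) (nat_lit 0) (XT.lf (nat_lit 0) (nat_lit 174655948697) (nat_lit 76) (nat_lit 26726400710)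 (nat_lit 76) (nat_lit 21042020598) (nat_lit 3) (nat_lit 4) (nat_lit 4) (nat_lit 5) (nat_lit 4) (nat_lit 4) (nat_lit 413) (nat_lit 332) (nat_lit 275)) (XT.nd (nat_lit 78) (nat_lit 0) (nat_lit 0) (XT.lf (nat_lit 0) (nat_lit 207061886272) (nat_lit 76) (nat_lit 19059242371) (nat_lit 76) (nat_lit 13369557909) (nat_lit 3) (nat_lit 4) (nat_lit 4) (nat_lit 5) (nat_lit 4) (nat_lit 4) (nat_lit 414) (nat_lit 332) (nat_lit 274)) (XT.lf (nat_lit 0) (nat_lit 242028348498) (nat_lit 76) (nat_lit 10794908507) (nat_lit 76) (nat_lit 5100312611) (nat_lit 3) (nat_lit 4) (nat_lit 4) (nat_lit 5) (nat_lit 4) (nat_lit 4) (nat_lit 415) (nat_lit 332) (nat_lit 273)))) (XT.nd (nat_lit 78) (nat_lit 0) (nat_lit 0) (XT.lf (nat_lit 0) (nat_lit 1935363605) (nat_lit 76) (nat_lit 1735072512) (nat_lit 152) (nat_lit 274150751809) (nat_lit 1) (nat_lit 5) (nat_lit 2) (nat_lit 5) (nat_lit 3) (nat_lit 4) (nat_lit 416) (nat_lit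 332) (nat_lit 272)) (XT.nd (nat_lit 78) (nat_lit 0) (nat_lit 0) (XT.lf (nat_lit 0) (nat_lit 13491848241) (nat_lit 152) (nat_lit 277547241279) (nat_lit 0) (nat_lit 8210964644) (nat_lit 1) (nat_lit 5) (nat_lit 3) (nat_lit 4) (nat_lit 1) (nat_lit 4) (nat_lit 417) (nat_lit 332) (nat_lit 271)) (XT.lf (nat_lit 0) (nat_lit 24130215202) (nat_lit 152) (nat_lit 279414794280) (nat_lit 0) (nat_lit 18845721555) (nat_lit 1) (nat_lit 5) (nat_lit 3) (nat_lit 4) (nat_lit 1) (nat_lit 4) (nat_lit 418) (nat_lit 332) (nat_lit 270))))))))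
noncomputable def xc73 : XT := (XT.nd (nat_lit 1560) (nat_lit 0) (nat_lit 0) (XT.nd (nat_lit 780) (nat_lit 0) (nat_lit 0) (XT.nd (nat_lit 390) (nat_lit 0) (nat_lit 0) (XT.nd (nat_lit 156) (nat_lit 0) (nat_lit 0) (XT.nd (nat_lit 78) (nat_lit 0) (nat_lit 0) (XT.lf (nat_lit 0) (nat_lit 35606850642) (nat_lit 152) (nat_lit 281457821771) (nat_lit 0) (nat_lit 30319014355) (nat_lit 1) (nat_lit 5) (nat_lit 3) (nat_lit 4) (nat_lit 1) (nat_lit 4) (nat_lit 419) (nat_lit 332) (nat_lit 269)) (XT.lf (nat_lit 0) (nat_lit 47989764251) (nat_lit 152) (nat_lit 283688430581) (nat_lit 0) (nat_lit 42698832927) (nat_lit 1) (nat_lit 5) (nat_lit 3) (nat_lit 4) (nat_lit 1) (nat_lit 4) (nat_lit 420) (nat_lit 332) (nat_lit 268))) (XT.nd (nat_lit 78) (nat_lit 0) (nat_lit 0) (XT.lf (nat_lit 0) (nat_lit 61352336258) (nat_lit 152) (nat_lit 286119839133) (nat_lit 0) (nat_lit 56058539159) (nat_lit 1) (nat_lit 5) (nat_lit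 3) (nat_lit 4) (nat_lit 1) (nat_lit 4) (nat_lit 421) (nat_lit 332) (nat_lit 267)) (XT.nd (nat_lit 78) (nat_lit 0) (nat_lit 0) (XT.lf (nat_lit 0) (nat_lit 75773752276) (nat_lit 152) (nat_lit 288766455774) (nat_lit 0) (nat_lit 70477301681) (nat_lit 1) (nat_lit 5) (nat_lit 3) (nat_lit 4) (nat_lit 1) (nat_lit 4) (nat_lit 422) (nat_lit 332) (nat_lit 266)) (XT.lf (nat_lit 0) (nat_lit 91339472546) (nat_lit 152) (nat_lit 291643964158) (nat_lit 0) (nat_lit 86040565012) (nat_lit 1) (nat_lit 5) (nat_lit 3) (nat_lit 4) (nat_lit 1) (nat_lit 4) (nat_lit 423) (nat_lit 332) (nat_lit 265))))) (XT.nd (nat_lit 156) (nat_lit 0) (nat_lit 0) (XT.nd (nat_lit 78) (nat_lit 0) (nat_lit 0) (XT.lf (nat_lit 0) (nat_lit 108141738375) (nat_lit 152) (nat_lit 294769416186) (nat_lit 0) (nat_lit 102840555896) (nat_lit 1) (nat_lit 5) (nat_lit 3) (nat_lit 4) (nat_lit 1) (nat_lit 4) (nat_lit 424) (nat_lit 332) (nat_lit 264))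 (XT.lf (nat_lit 0) (nat_lit 126280118745) (nat_lit 152) (nat_lit 298161333056) (nat_lit 0) (nat_lit 120976829836) (nat_lit 1) (nat_lit 5) (nat_lit 3) (nat_lit 4) (nat_lit 1) (nat_lit 4) (nat_lit 425) (nat_lit 332) (nat_lit 263))) (XT.nd (nat_lit 78) (nat_lit 0) (nat_lit 0) (XT.lf (nat_lit 0) (nat_lit 145862100354) (nat_lit 152) (nat_lit 301839815015) (nat_lit 0) (nat_lit 140556861048) (nat_lit 1) (nat_lit 5) (nat_lit 3) (nat_lit 4) (nat_lit 1) (nat_lit 4) (nat_lit 426) (nat_lit 332) (nat_lit 262)) (XT.nd (nat_lit 78) (nat_lit 0) (nat_lit 0) (XT.lf (nat_lit 0) (nat_lit 167003724576) (nat_lit 152) (nat_lit 305826660476) (nat_lit 0) (nat_lit 161696679345) (nat_lit 1) (nat_lit 5) (nat_lit 3) (nat_lit 4) (nat_lit 1) (nat_lit 4) (nat_lit 427) (nat_lit 332) (nat_lit 261)) (XT.lf (nat_lit 0) (nat_lit 189830275109) (nat_lit 152) (nat_lit 310145495189) (nat_lit 0) (nat_lit 184521557726) (nat_lit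 1) (nat_lit 5) (nat_lit 3) (nat_lit 4) (nat_lit 1) (nat_lit 4) (nat_lit 428) (nat_lit 332) (nat_lit 260)))))) (XT.nd (nat_lit 390) (nat_lit 0) (nat_lit 0) (XT.nd (nat_lit 156) (nat_lit 0) (nat_lit 0) (XT.nd (nat_lit 78) (nat_lit 0) (nat_lit 0) (XT.lf (nat_lit 0) (nat_lit 214477020401) (nat_lit 152) (nat_lit 314821912249) (nat_lit 0) (nat_lit 209166754729) (nat_lit 1) (nat_lit 5) (nat_lit 3) (nat_lit 4) (nat_lit 1) (nat_lit 4) (nat_lit 429) (nat_lit 332) (nat_lit 259)) (XT.lf (nat_lit 0) (nat_lit 241090015238) (nat_lit 152) (nat_lit 319883623757) (nat_lit 0) (nat_lit 235778315965) (nat_lit 1) (nat_lit 5) (nat_lit 3) (nat_lit 4) (nat_lit 1) (nat_lit 4) (nat_lit 430) (nat_lit 332) (nat_lit 258))) (XT.nd (nat_lit 78) (nat_lit 0) (nat_lit 0) (XT.lf (nat_lit 0) (nat_lit 269826966258) (nat_lit 152) (nat_lit 325360625041) (nat_lit 0) (nat_lit 264513939576) (nat_lit 1) (nat_lit 5) (nat_lit 3) (nat_lit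 4) (nat_lit 1) (nat_lit 4) (nat_lit 431) (nat_lit 332) (nat_lit 257)) (XT.nd (nat_lit 78) (nat_lit 0) (nat_lit 0) (XT.lf (nat_lit 0) (nat_lit 300858166502) (nat_lit 152) (nat_lit 331285372403) (nat_lit 0) (nat_lit 295543910739) (nat_lit 1) (nat_lit 5) (nat_lit 3) (nat_lit 4) (nat_lit 1) (nat_lit 4) (nat_lit 432) (nat_lit 332) (nat_lit 256)) (XT.lf (nat_lit 0) (nat_lit 334367504565) (nat_lit 152) (nat_lit 337692975459) (nat_lit 0) (nat_lit 329052110763) (nat_lit 1) (nat_lit 5) (nat_lit 3) (nat_lit 4) (nat_lit 1) (nat_lit 4) (nat_lit 433) (nat_lit 332) (nat_lit 255))))) (XT.nd (nat_lit 156) (nat_lit 0) (nat_lit 0) (XT.nd (nat_lit 78) (nat_lit 0) (nat_lit 0) (XT.lf (nat_lit 0) (nat_lit 370553554302) (nat_lit 152) (nat_lit 344621405190) (nat_lit 0) (nat_lit 365237106761) (nat_lit 1) (nat_lit 5) (nat_lit 3) (nat_lit 4) (nat_lit 1) (nat_lit 4) (nat_lit 434) (nat_lit 332) (nat_lit 254)) (XT.lf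 (nat_lit 0) (nat_lit 409630751564) (nat_lit 152) (nat_lit 352111718956) (nat_lit 0) (nat_lit 404313328338) (nat_lit 1) (nat_lit 5) (nat_lit 3) (nat_lit 4) (nat_lit 1) (nat_lit 4) (nat_lit 435) (nat_lit 332) (nat_lit 253))) (XT.nd (nat_lit 78) (nat_lit 0) (nat_lit 0) (XT.lf (nat_lit 0) (nat_lit 451830664926) (nat_lit 152) (nat_lit 360208303802) (nat_lit 0) (nat_lit 446512338288) (nat_lit 1) (nat_lit 5) (nat_lit 3) (nat_lit 4) (nat_lit 1) (nat_lit 4) (nat_lit 436) (nat_lit 332) (nat_lit 252)) (XT.nd (nat_lit 78) (nat_lit 0) (nat_lit 0) (XT.lf (nat_lit 0) (nat_lit 497403367950) (nat_lit 152) (nat_lit 368959139491) (nat_lit 0) (nat_lit 492084204820) (nat_lit 1) (nat_lit 5) (nat_lit 3) (nat_lit 4) (nat_lit 1) (nat_lit 4) (nat_lit 437) (nat_lit 332) (nat_lit 251)) (XT.lf (nat_lit 0) (nat_lit 546618921097) (nat_lit 152) (nat_lit 378416082826) (nat_lit 0) (nat_lit 541298983437) (nat_lit 1) (nat_lit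 5) (nat_lit 3) (nat_lit 4) (nat_lit 1) (nat_lit 4) (nat_lit 438) (nat_lit 332) (nat_lit 250))))))) (XT.nd (nat_lit 780) (nat_lit 0) (nat_lit 0) (XT.nd (nat_lit 390) (nat_lit 0) (nat_lit 0) (XT.nd (nat_lit 156) (nat_lit 0) (nat_lit 0) (XT.nd (nat_lit 78) (nat_lit 0) (nat_lit 0) (XT.lf (nat_lit 0) (nat_lit 599768972091) (nat_lit 152) (nat_lit 388635174953) (nat_lit 0) (nat_lit 594448317274) (nat_lit 1) (nat_lit 5) (nat_lit 3) (nat_lit 4) (nat_lit 1) (nat_lit 4) (nat_lit 439) (nat_lit 332) (nat_lit 249)) (XT.lf (nat_lit 0) (nat_lit 657168484196) (nat_lit 152) (nat_lit 399676973455) (nat_lit 0) (nat_lit 651847165344) (nat_lit 1) (nat_lit 5) (nat_lit 3) (nat_lit 4) (nat_lit 1) (nat_lit 4) (nat_lit 440) (nat_lit 332) (nat_lit 248))) (XT.nd (nat_lit 78) (nat_lit 0) (nat_lit 0) (XT.lf (nat_lit 0) (nat_lit 719157602670) (nat_lit 152) (nat_lit 411606911213) (nat_lit 0) (nat_lit 713835668971) (nat_lit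 1) (nat_lit 5) (nat_lit 3) (nat_lit 4) (nat_lit 1) (nat_lit 4) (nat_lit 441) (nat_lit 332) (nat_lit 247)) (XT.nd (nat_lit 78) (nat_lit 0) (nat_lit 0) (XT.lf (nat_lit 0) (nat_lit 786103670435) (nat_lit 152) (nat_lit 424495684153) (nat_lit 0) (nat_lit 780781167434) (nat_lit 1) (nat_lit 5) (nat_lit 3) (nat_lit 4) (nat_lit 1) (nat_lit 4) (nat_lit 442) (nat_lit 332) (nat_lit 246)) (XT.lf (nat_lit 0) (nat_lit 858403404932) (nat_lit 152) (nat_lit 438419670189) (nat_lit 0) (nat_lit 853080374799) (nat_lit 1) (nat_lit 5) (nat_lit 3) (nat_lit 4) (nat_lit 1) (nat_lit 4) (nat_lit 443) (nat_lit 332) (nat_lit 245))))) (XT.nd (nat_lit 156) (nat_lit 0) (nat_lit 0) (XT.nd (nat_lit 78) (nat_lit 0) (nat_lit 0) (XT.lf (nat_lit 0) (nat_lit 936485249031) (nat_lit 152) (nat_lit 453461381831) (nat_lit 0) (nat_lit 931161730813) (nat_lit 1) (nat_lit 5) (nat_lit 3) (nat_lit 4) (nat_lit 1) (nat_lit 4) (nat_lit 444)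 (nat_lit 332) (nat_lit 244)) (XT.lf (nat_lit 0) (nat_lit 1020811909957) (nat_lit 152) (nat_lit 469709955148) (nat_lit 0) (nat_lit 1015487939807) (nat_lit 1) (nat_lit 5) (nat_lit 3) (nat_lit 4) (nat_lit 1) (nat_lit 4) (nat_lit 445) (nat_lit 332) (nat_lit 243))) (XT.nd (nat_lit 78) (nat_lit 0) (nat_lit 0) (XT.lf (nat_lit 0) (nat_lit 1111883101255) (nat_lit 152) (nat_lit 487261677983) (nat_lit 0) (nat_lit 1106558712651) (nat_lit 1) (nat_lit 5) (nat_lit 3) (nat_lit 4) (nat_lit 1) (nat_lit 4) (nat_lit 446) (nat_lit 332) (nat_lit 242)) (XT.nd (nat_lit 78) (nat_lit 0) (nat_lit 0) (XT.lf (nat_lit 0) (nat_lit 1210238504060) (nat_lit 152) (nat_lit 506220560543) (nat_lit 0) (nat_lit 1204913727998) (nat_lit 1) (nat_lit 5) (nat_lit 3) (nat_lit 4) (nat_lit 1) (nat_lit 4) (nat_lit 447) (nat_lit 332) (nat_lit 241)) (XT.lf (nat_lit 0) (nat_lit 1316460965203) (nat_lit 152) (nat_lit 526698951764) (nat_lit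 0) (nat_lit 1311135830384) (nat_lit 1) (nat_lit 5) (nat_lit 3) (nat_lit 4) (nat_lit 1) (nat_lit 4) (nat_lit 448) (nat_lit 332) (nat_lit 240)))))) (XT.nd (nat_lit 390) (nat_lit 0) (nat_lit 0) (XT.nd (nat_lit 156) (nat_lit 0) (nat_lit 0) (XT.nd (nat_lit 78) (nat_lit 0) (nat_lit 0) (XT.lf (nat_lit 0) (nat_lit 1431179951119) (nat_lit 152) (nat_lit 548818205075) (nat_lit 0) (nat_lit 1425854484118) (nat_lit 1) (nat_lit 5) (nat_lit 3) (nat_lit 4) (nat_lit 1) (nat_lit 4) (nat_lit 449) (nat_lit 332) (nat_lit 239)) (XT.lf (nat_lit 0) (nat_lit 1555075278023) (nat_lit 152) (nat_lit 572709397531) (nat_lit 0) (nat_lit 1549749503445) (nat_lit 1) (nat_lit 5) (nat_lit 3) (nat_lit 4) (nat_lit 1) (nat_lit 4) (nat_lit 450) (nat_lit 332) (nat_lit 238))) (XT.nd (nat_lit 78) (nat_lit 0) (nat_lit 0) (XT.lf (nat_lit 0) (nat_lit 1688881140444) (nat_lit 152) (nat_lit 598514106570) (nat_lit 0) (nat_lit 1683555081072)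 (nat_lit 1) (nat_lit 5) (nat_lit 3) (nat_lit 4) (nat_lit 1) (nat_lit 4) (nat_lit 451) (nat_lit 332) (nat_lit 237)) (XT.nd (nat_lit 78) (nat_lit 0) (nat_lit 0) (XT.lf (nat_lit 0) (nat_lit 1833390462010) (nat_lit 152) (nat_lit 626385248987) (nat_lit 0) (nat_lit 1828064138942) (nat_lit 1) (nat_lit 5) (nat_lit 3) (nat_lit 4) (nat_lit 1) (nat_lit 4) (nat_lit 452) (nat_lit 332) (nat_lit 236)) (XT.lf (nat_lit 0) (nat_lit 1989459594258) (nat_lit 152) (nat_lit 656487987106) (nat_lit 0) (nat_lit 1984133027025) (nat_lit 1) (nat_lit 5) (nat_lit 3) (nat_lit 4) (nat_lit 1) (nat_lit 4) (nat_lit 453) (nat_lit 332) (nat_lit 235))))) (XT.nd (nat_lit 234) (nat_lit 0) (nat_lit 0) (XT.nd (nat_lit 78) (nat_lit 0) (nat_lit 0) (XT.lf (nat_lit 0) (nat_lit 2158013391304) (nat_lit 152) (nat_lit 689000707525) (nat_lit 0) (nat_lit 2152686597993) (nat_lit 1) (nat_lit 5) (nat_lit 3) (nat_lit 4) (nat_lit 1) (nat_lit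 4) (nat_lit 454) (nat_lit 332) (nat_lit 234)) (XT.nd (nat_lit 78) (nat_lit 0) (nat_lit 0) (XT.lf (nat_lit 0) (nat_lit 2340050690464) (nat_lit 152) (nat_lit 724116078215) (nat_lit 0) (nat_lit 2334723687822) (nat_lit 1) (nat_lit 5) (nat_lit 3) (nat_lit 4) (nat_lit 1) (nat_lit 4) (nat_lit 455) (nat_lit 332) (nat_lit 233)) (XT.lf (nat_lit 0) (nat_lit 2536650231288) (nat_lit 152) (nat_lit 762042190262) (nat_lit 0) (nat_lit 2531323034821) (nat_lit 1) (nat_lit 5) (nat_lit 3) (nat_lit 4) (nat_lit 1) (nat_lit 4) (nat_lit 456) (nat_lit 332) (nat_lit 232)))) (XT.nd (nat_lit 78) (nat_lit 0) (nat_lit 0) (XT.lf (nat_lit 0) (nat_lit 2748977048094) (nat_lit 152) (nat_lit 803003790998) (nat_lit 0) (nat_lit 2743649672158) (nat_lit 1) (nat_lit 5) (nat_lit 3) (nat_lit 4) (nat_lit 1) (nat_lit 4) (nat_lit 457) (nat_lit 332) (nat_lit 231)) (XT.nd (nat_lit 78) (nat_lit 0) (nat_lit 0) (XT.lf (nat_lit 0) (nat_lit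 2978289373868) (nat_lit 152) (nat_lit 847243615833) (nat_lit 0) (nat_lit 2972961831759) (nat_lit 1) (nat_lit 5) (nat_lit 3) (nat_lit 4) (nat_lit 1) (nat_lit 4) (nat_lit 458) (nat_lit 332) (nat_lit 230)) (XT.lf (nat_lit 0) (nat_lit 3225946096468) (nat_lit 152) (nat_lit 895023826693) (nat_lit 0) (nat_lit 3220618400494) (nat_lit 1) (nat_lit 5) (nat_lit 3) (nat_lit 4) (nat_lit 1) (nat_lit 4) (nat_lit 459) (nat_lit 332) (nat_lit 229))))))))
noncomputable def xc74 : XT := (XT.nd (nat_lit 46098) (nat_lit 0) (nat_lit 608) (XT.nd (nat_lit 45318) (nat_lit 0) (nat_lit 1824) (XT.nd (nat_lit 44928) (nat_lit 0) (nat_lit 2964) (XT.nd (nat_lit 156) (nat_lit 0) (nat_lit 0) (XT.nd (nat_lit 78) (nat_lit 0) (nat_lit 0) (XT.lf (nat_lit 0) (nat_lit 3493414811286) (nat_lit 152) (nat_lit 946627565568) (nat_lit 0) (nat_lit 3488086972845) (nat_lit 1) (nat_lit 5) (nat_lit 3) (nat_lit 4) (nat_lit 1) (nat_lit 4) (nat_lit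 460) (nat_lit 332) (nat_lit 228)) (XT.lf (nat_lit 0) (nat_lit 3782280518115) (nat_lit 152) (nat_lit 1002360632392) (nat_lit 0) (nat_lit 3776952547759) (nat_lit 1) (nat_lit 5) (nat_lit 3) (nat_lit 4) (nat_lit 1) (nat_lit 4) (nat_lit 461) (nat_lit 332) (nat_lit 227))) (XT.nd (nat_lit 78) (nat_lit 0) (nat_lit 0) (XT.lf (nat_lit 0) (nat_lit 4094255013735) (nat_lit 152) (nat_lit 1062553297191) (nat_lit 0) (nat_lit 4088926921237) (nat_lit 1) (nat_lit 5) (nat_lit 3) (nat_lit 4) (nat_lit 1) (nat_lit 4) (nat_lit 462) (nat_lit 332) (nat_lit 226)) (XT.nd (nat_lit 44616) (nat_lit 0) (nat_lit 3800) (XT.lf (nat_lit 0) (nat_lit 4431187035899) (nat_lit 152) (nat_lit 1127562257237) (nat_lit 0) (nat_lit 4425858830305) (nat_lit 1) (nat_lit 5) (nat_lit 3) (nat_lit 4) (nat_lit 1) (nat_lit 4) (nat_lit 463) (nat_lit 332) (nat_lit 225)) (XT.lf (nat_lit 0) (nat_lit 1115785379) (nat_lit 228) (nat_lit 1415097637)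 (nat_lit 228) (nat_lit 1415097637) (nat_lit 51) (nat_lit 4) (nat_lit 54) (nat_lit 5) (nat_lit 54) (nat_lit 4) (nat_lit 354) (nat_lit 333) (nat_lit 333))))) (XT.nd (nat_lit 156) (nat_lit 608) (nat_lit 0) (XT.nd (nat_lit 78) (nat_lit 0) (nat_lit 0) (XT.lf (nat_lit 0) (nat_lit 667900125) (nat_lit 152) (nat_lit 255287387) (nat_lit 228) (nat_lit 7195481724) (nat_lit 48) (nat_lit 5) (nat_lit 50) (nat_lit 5) (nat_lit 51) (nat_lit 4) (nat_lit 355) (nat_lit 333) (nat_lit 332)) (XT.lf (nat_lit 0) (nat_lit 4784785158) (nat_lit 228) (nat_lit 1024634848) (nat_lit 0) (nat_lit 2551549392) (nat_lit 48) (nat_lit 5) (nat_lit 51) (nat_lit 4) (nat_lit 48) (nat_lit 4) (nat_lit 356) (nat_lit 333) (nat_lit 331))) (XT.nd (nat_lit 78) (nat_lit 304) (nat_lit 0) (XT.lf (nat_lit 0) (nat_lit 221733023) (nat_lit 304) (nat_lit 2766170930) (nat_lit 76) (nat_lit 5641827474) (nat_lit 44) (nat_lit 5) (nat_lit 48) (nat_lit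 5) (nat_lit 45) (nat_lit 4) (nat_lit 357) (nat_lit 333) (nat_lit 330)) (XT.nd (nat_lit 78) (nat_lit 152) (nat_lit 0) (XT.lf (nat_lit 0) (nat_lit 4029682194) (nat_lit 228) (nat_lit 4702034266) (nat_lit 0) (nat_lit 189056747) (nat_lit 42) (nat_lit 5) (nat_lit 45) (nat_lit 4) (nat_lit 42) (nat_lit 4) (nat_lit 358) (nat_lit 333) (nat_lit 329)) (XT.lf (nat_lit 0) (nat_lit 2386152683) (nat_lit 152) (nat_lit 5740091713) (nat_lit 152) (nat_lit 1110285998) (nat_lit 40) (nat_lit 4) (nat_lit 42) (nat_lit 5) (nat_lit 42) (nat_lit 4) (nat_lit 359) (nat_lit 333) (nat_lit 328)))))) (XT.nd (nat_lit 390) (nat_lit 456) (nat_lit 0) (XT.nd (nat_lit 156) (nat_lit 456) (nat_lit 0) (XT.nd (nat_lit 78) (nat_lit 0) (nat_lit 0) (XT.lf (nat_lit 0) (nat_lit 335863093) (nat_lit 152) (nat_lit 2402786559) (nat_lit 228) (nat_lit 6840156327) (nat_lit 37) (nat_lit 5) (nat_lit 39) (nat_lit 5) (nat_lit 40) (nat_lit 4) (nat_lit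 360) (nat_lit 333) (nat_lit 327)) (XT.lf (nat_lit 0) (nat_lit 6836618637) (nat_lit 228) (nat_lit 1862879050) (nat_lit 0) (nat_lit 1246689874) (nat_lit 37) (nat_lit 5) (nat_lit 40) (nat_lit 4) (nat_lit 37) (nat_lit 4) (nat_lit 361) (nat_lit 333) (nat_lit 326))) (XT.nd (nat_lit 78) (nat_lit 228) (nat_lit 0) (XT.lf (nat_lit 0) (nat_lit 876958311) (nat_lit 228) (nat_lit 4345926530) (nat_lit 76) (nat_lit 5118128963) (nat_lit 34) (nat_lit 5) (nat_lit 37) (nat_lit 5) (nat_lit 35) (nat_lit 4) (nat_lit 362) (nat_lit 333) (nat_lit 325)) (XT.nd (nat_lit 78) (nat_lit 152) (nat_lit 0) (XT.lf (nat_lit 0) (nat_lit 3592259975) (nat_lit 76) (nat_lit 1359356670) (nat_lit 152) (nat_lit 5814466220) (nat_lit 33) (nat_lit 5) (nat_lit 34) (nat_lit 5) (nat_lit 35) (nat_lit 4) (nat_lit 363) (nat_lit 333) (nat_lit 324)) (XT.lf (nat_lit 0) (nat_lit 834129148) (nat_lit 152) (nat_lit 8530444604) (nat_lit 152) (nat_lit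 1859685268) (nat_lit 31) (nat_lit 4) (nat_lit 33) (nat_lit 5) (nat_lit 33) (nat_lit 4) (nat_lit 364) (nat_lit 333) (nat_lit 323))))) (XT.nd (nat_lit 156) (nat_lit 304) (nat_lit 0) (XT.nd (nat_lit 78) (nat_lit 76) (nat_lit 0) (XT.lf (nat_lit 0) (nat_lit 2331852269) (nat_lit 228) (nat_lit 2246876157) (nat_lit 76) (nat_lit 7132515826) (nat_lit 30) (nat_lit 5) (nat_lit 33) (nat_lit 5) (nat_lit 31) (nat_lit 4) (nat_lit 365) (nat_lit 333) (nat_lit 322)) (XT.lf (nat_lit 0) (nat_lit 6514510275) (nat_lit 76) (nat_lit 219348266) (nat_lit 152) (nat_lit 5501485705) (nat_lit 29) (nat_lit 5) (nat_lit 30) (nat_lit 5) (nat_lit 31) (nat_lit 4) (nat_lit 366) (nat_lit 333) (nat_lit 321))) (XT.nd (nat_lit 78) (nat_lit 152) (nat_lit 0) (XT.lf (nat_lit 0) (nat_lit 3036463646) (nat_lit 152) (nat_lit 8517558961) (nat_lit 152) (nat_lit 1242134282) (nat_lit 27) (nat_lit 4) (nat_lit 29) (nat_lit 5) (nat_lit 29)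 (nat_lit 4) (nat_lit 367) (nat_lit 333) (nat_lit 320)) (XT.nd (nat_lit 78) (nat_lit 76) (nat_lit 0) (XT.lf (nat_lit 0) (nat_lit 3179446109) (nat_lit 228) (nat_lit 975571112) (nat_lit 76) (nat_lit 9241255039) (nat_lit 26) (nat_lit 5) (nat_lit 29) (nat_lit 5) (nat_lit 27) (nat_lit 4) (nat_lit 368) (nat_lit 333) (nat_lit 319)) (XT.lf (nat_lit 0) (nat_lit 7947799596) (nat_lit 152) (nat_lit 5436824842) (nat_lit 0) (nat_lit 652430181) (nat_lit 25) (nat_lit 5) (nat_lit 27) (nat_lit 4) (nat_lit 25) (nat_lit 4) (nat_lit 369) (nat_lit 333) (nat_lit 318))))))) (XT.nd (nat_lit 780) (nat_lit 532) (nat_lit 0) (XT.nd (nat_lit 390) (nat_lit 304) (nat_lit 0) (XT.nd (nat_lit 156) (nat_lit 228) (nat_lit 0) (XT.nd (nat_lit 78) (nat_lit 76) (nat_lit 0) (XT.lf (nat_lit 0) (nat_lit 4071315234) (nat_lit 76) (nat_lit 9098119293) (nat_lit 76) (nat_lit 1553967345) (nat_lit 24) (nat_lit 4) (nat_lit 25) (nat_lit 5)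 (nat_lit 25) (nat_lit 4) (nat_lit 370) (nat_lit 333) (nat_lit 317)) (XT.lf (nat_lit 0) (nat_lit 3168930834) (nat_lit 152) (nat_lit 1183130010) (nat_lit 76) (nat_lit 11106836520) (nat_lit 23) (nat_lit 5) (nat_lit 25) (nat_lit 5) (nat_lit 24) (nat_lit 4) (nat_lit 371) (nat_lit 333) (nat_lit 316))) (XT.nd (nat_lit 78) (nat_lit 152) (nat_lit 0) (XT.lf (nat_lit 0) (nat_lit 8280542362) (nat_lit 152) (nat_lit 7077477850) (nat_lit 0) (nat_lit 884433966) (nat_lit 22) (nat_lit 5) (nat_lit 24) (nat_lit 4) (nat_lit 22) (nat_lit 4) (nat_lit 372) (nat_lit 333) (nat_lit 315)) (XT.nd (nat_lit 78) (nat_lit 76) (nat_lit 0) (XT.lf (nat_lit 0) (nat_lit 3087497886) (nat_lit 76) (nat_lit 10787158771) (nat_lit 76) (nat_lit 3208187786) (nat_lit 21) (nat_lit 4) (nat_lit 22) (nat_lit 5) (nat_lit 22) (nat_lit 4) (nat_lit 373) (nat_lit 333) (nat_lit 314)) (XT.lf (nat_lit 0) (nat_lit 1881823331) (nat_lit 152) (nat_lit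 3834095667) (nat_lit 76) (nat_lit 12266685292) (nat_lit 20) (nat_lit 5) (nat_lit 22) (nat_lit 5) (nat_lit 21) (nat_lit 4) (nat_lit 374) (nat_lit 333) (nat_lit 313))))) (XT.nd (nat_lit 156) (nat_lit 228) (nat_lit 0) (XT.nd (nat_lit 78) (nat_lit 0) (nat_lit 0) (XT.lf (nat_lit 0) (nat_lit 7159364181) (nat_lit 76) (nat_lit 83149075) (nat_lit 152) (nat_lit 11702248667) (nat_lit 19) (nat_lit 5) (nat_lit 20) (nat_lit 5) (nat_lit 21) (nat_lit 4) (nat_lit 375) (nat_lit 333) (nat_lit 312)) (XT.lf (nat_lit 0) (nat_lit 13149747041) (nat_lit 152) (nat_lit 1128921180) (nat_lit 0) (nat_lit 5695834438) (nat_lit 19) (nat_lit 5) (nat_lit 21) (nat_lit 4) (nat_lit 19) (nat_lit 4) (nat_lit 376) (nat_lit 333) (nat_lit 311))) (XT.nd (nat_lit 78) (nat_lit 152) (nat_lit 0) (XT.lf (nat_lit 0) (nat_lit 10674160112) (nat_lit 76) (nat_lit 8990040383) (nat_lit 76) (nat_lit 1411674575) (nat_lit 18) (nat_lit 4) (nat_lit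 19) (nat_lit 5) (nat_lit 19) (nat_lit 4) (nat_lit 377) (nat_lit 333) (nat_lit 310)) (XT.nd (nat_lit 78) (nat_lit 0) (nat_lit 0) (XT.lf (nat_lit 0) (nat_lit 923302317) (nat_lit 76) (nat_lit 3219439305) (nat_lit 152) (nat_lit 18119694630) (nat_lit 16) (nat_lit 5) (nat_lit 17) (nat_lit 5) (nat_lit 18) (nat_lit 4) (nat_lit 378) (nat_lit 333) (nat_lit 309)) (XT.lf (nat_lit 0) (nat_lit 10306622784) (nat_lit 152) (nat_lit 10130950825) (nat_lit 0) (nat_lit 3084123875) (nat_lit 16) (nat_lit 5) (nat_lit 18) (nat_lit 4) (nat_lit 16) (nat_lit 4) (nat_lit 379) (nat_lit 333) (nat_lit 308)))))) (XT.nd (nat_lit 390) (nat_lit 304) (nat_lit 0) (XT.nd (nat_lit 156) (nat_lit 152) (nat_lit 0) (XT.nd (nat_lit 78) (nat_lit 0) (nat_lit 0) (XT.lf (nat_lit 0) (nat_lit 1756713175) (nat_lit 76) (nat_lit 15219005618) (nat_lit 76) (nat_lit 7905029888) (nat_lit 15) (nat_lit 4) (nat_lit 16) (nat_lit 5) (nat_lit 16) (nat_lit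 4) (nat_lit 380) (nat_lit 333) (nat_lit 307)) (XT.lf (nat_lit 0) (nat_lit 14955722399) (nat_lit 76) (nat_lit 9389088363) (nat_lit 76) (nat_lit 1990411873) (nat_lit 15) (nat_lit 4) (nat_lit 16) (nat_lit 5) (nat_lit 16) (nat_lit 4) (nat_lit 381) (nat_lit 333) (nat_lit 306))) (XT.nd (nat_lit 78) (nat_lit 0) (nat_lit 0) (XT.lf (nat_lit 0) (nat_lit 1045773908) (nat_lit 76) (nat_lit 3051763124) (nat_lit 152) (nat_lit 23806459860) (nat_lit 13) (nat_lit 5) (nat_lit 14) (nat_lit 5) (nat_lit 15) (nat_lit 4) (nat_lit 382) (nat_lit 333) (nat_lit 305)) (XT.nd (nat_lit 78) (nat_lit 0) (nat_lit 0) (XT.lf (nat_lit 0) (nat_lit 10871005500) (nat_lit 152) (nat_lit 14818139384) (nat_lit 0) (nat_lit 3880523676) (nat_lit 13) (nat_lit 5) (nat_lit 15) (nat_lit 4) (nat_lit 13) (nat_lit 4) (nat_lit 383) (nat_lit 333) (nat_lit 304)) (XT.lf (nat_lit 0) (nat_lit 18168941692) (nat_lit 152) (nat_lit 2084854624) (nat_lit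 0) (nat_lit 11116202280) (nat_lit 13) (nat_lit 5) (nat_lit 15) (nat_lit 4) (nat_lit 13) (nat_lit 4) (nat_lit 384) (nat_lit 333) (nat_lit 303))))) (XT.nd (nat_lit 234) (nat_lit 76) (nat_lit 0) (XT.nd (nat_lit 78) (nat_lit 152) (nat_lit 0) (XT.lf (nat_lit 0) (nat_lit 12095551236) (nat_lit 76) (nat_lit 14156544721) (nat_lit 76) (nat_lit 7046159395) (nat_lit 12) (nat_lit 4) (nat_lit 13) (nat_lit 5) (nat_lit 13) (nat_lit 4) (nat_lit 385) (nat_lit 333) (nat_lit 302)) (XT.nd (nat_lit 78) (nat_lit 152) (nat_lit 0) (XT.lf (nat_lit 0) (nat_lit 27356818096) (nat_lit 76) (nat_lit 7595063771) (nat_lit 76) (nat_lit 431302599) (nat_lit 12) (nat_lit 4) (nat_lit 13) (nat_lit 5) (nat_lit 13) (nat_lit 4) (nat_lit 386) (nat_lit 333) (nat_lit 301)) (XT.lf (nat_lit 0) (nat_lit 6188458053) (nat_lit 76) (nat_lit 254638727) (nat_lit 152) (nat_lit 31173612300) (nat_lit 10) (nat_lit 5) (nat_lit 11) (nat_lit 5) (nat_lit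 12) (nat_lit 4) (nat_lit 387) (nat_lit 333) (nat_lit 300)))) (XT.nd (nat_lit 78) (nat_lit 76) (nat_lit 0) (XT.lf (nat_lit 0) (nat_lit 14171539076) (nat_lit 152) (nat_lit 18380002814) (nat_lit 0) (nat_lit 7450294227) (nat_lit 10) (nat_lit 5) (nat_lit 12) (nat_lit 4) (nat_lit 10) (nat_lit 4) (nat_lit 388) (nat_lit 333) (nat_lit 299)) (XT.nd (nat_lit 78) (nat_lit 76) (nat_lit 0) (XT.lf (nat_lit 0) (nat_lit 22448667943) (nat_lit 152) (nat_lit 4446489694) (nat_lit 0) (nat_lit 15688190253) (nat_lit 10) (nat_lit 5) (nat_lit 12) (nat_lit 4) (nat_lit 10) (nat_lit 4) (nat_lit 389) (nat_lit 333) (nat_lit 298)) (XT.lf (nat_lit 0) (nat_lit 11011838106) (nat_lit 76) (nat_lit 20570405832) (nat_lit 76) (nat_lit 13773601437) (nat_lit 9) (nat_lit 4) (nat_lit 10) (nat_lit 5) (nat_lit 10) (nat_lit 4) (nat_lit 390) (nat_lit 333) (nat_lit 297))))))))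
noncomputable def xc75 : XT := (XT.nd (nat_lit 1638) (nat_lit 152) (nat_lit 0) (XT.nd (nat_lit 780) (nat_lit 228) (nat_lit 0) (XT.nd (nat_lit 390) (nat_lit 76) (nat_lit 0) (XT.nd (nat_lit 156) (nat_lit 76) (nat_lit 0) (XT.nd (nat_lit 78) (nat_lit 76) (nat_lit 0) (XT.lf (nat_lit 0) (nat_lit 27822547442) (nat_lit 76) (nat_lit 13676903143) (nat_lit 76) (nat_lit 6846462911) (nat_lit 9) (nat_lit 4) (nat_lit 10) (nat_lit 5) (nat_lit 10) (nat_lit 4) (nat_lit 391) (nat_lit 333) (nat_lit 296)) (XT.lf (nat_lit 0) (nat_lit 537886292) (nat_lit 152) (nat_lit 5742781037) (nat_lit 76) (nat_lit 45298520005) (nat_lit 8) (nat_lit 5) (nat_lit 10) (nat_lit 5) (nat_lit 9) (nat_lit 4) (nat_lit 392) (nat_lit 333) (nat_lit 295))) (XT.nd (nat_lit 78) (nat_lit 0) (nat_lit 0) (XT.lf (nat_lit 0) (nat_lit 8384654726) (nat_lit 152) (nat_lit 44648287861) (nat_lit 0) (nat_lit 2004634509) (nat_lit 7) (nat_lit 5) (nat_lit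 9) (nat_lit 4) (nat_lit 7) (nat_lit 4) (nat_lit 393) (nat_lit 333) (nat_lit 294)) (XT.nd (nat_lit 78) (nat_lit 0) (nat_lit 0) (XT.lf (nat_lit 0) (nat_lit 17123244344) (nat_lit 152) (nat_lit 30909771242) (nat_lit 0) (nat_lit 10718500782) (nat_lit 7) (nat_lit 5) (nat_lit 9) (nat_lit 4) (nat_lit 7) (nat_lit 4) (nat_lit 394) (nat_lit 333) (nat_lit 293)) (XT.lf (nat_lit 0) (nat_lit 26505226035) (nat_lit 152) (nat_lit 16184214224) (nat_lit 0) (nat_lit 20077590488) (nat_lit 7) (nat_lit 5) (nat_lit 9) (nat_lit 4) (nat_lit 7) (nat_lit 4) (nat_lit 395) (nat_lit 333) (nat_lit 292))))) (XT.nd (nat_lit 156) (nat_lit 0) (nat_lit 0) (XT.nd (nat_lit 78) (nat_lit 76) (nat_lit 0) (XT.lf (nat_lit 0) (nat_lit 36586196730) (nat_lit 152) (nat_lit 384354246) (nat_lit 0) (nat_lit 30137364900) (nat_lit 7) (nat_lit 5) (nat_lit 9) (nat_lit 4) (nat_lit 7) (nat_lit 4) (nat_lit 396) (nat_lit 333) (nat_lit 291)) (XT.lf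 (nat_lit 0) (nat_lit 17456691921) (nat_lit 76) (nat_lit 30389037452) (nat_lit 76) (nat_lit 23920579434) (nat_lit 6) (nat_lit 4) (nat_lit 7) (nat_lit 5) (nat_lit 7) (nat_lit 4) (nat_lit 397) (nat_lit 333) (nat_lit 290))) (XT.nd (nat_lit 78) (nat_lit 0) (nat_lit 0) (XT.lf (nat_lit 0) (nat_lit 36653255134) (nat_lit 76) (nat_lit 23316814169) (nat_lit 76) (nat_lit 16830183754) (nat_lit 6) (nat_lit 4) (nat_lit 7) (nat_lit 5) (nat_lit 7) (nat_lit 4) (nat_lit 398) (nat_lit 333) (nat_lit 289)) (XT.nd (nat_lit 78) (nat_lit 0) (nat_lit 0) (XT.lf (nat_lit 0) (nat_lit 57298853391) (nat_lit 76) (nat_lit 15722480582) (nat_lit 76) (nat_lit 9219023874) (nat_lit 6) (nat_lit 4) (nat_lit 7) (nat_lit 5) (nat_lit 7) (nat_lit 4) (nat_lit 399) (nat_lit 333) (nat_lit 288)) (XT.lf (nat_lit 0) (nat_lit 79515830977) (nat_lit 76) (nat_lit 7561033233) (nat_lit 76) (nat_lit 1041996624) (nat_lit 6) (nat_lit 4) (nat_lit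 7) (nat_lit 5) (nat_lit 7) (nat_lit 4) (nat_lit 400) (nat_lit 333) (nat_lit 287)))))) (XT.nd (nat_lit 390) (nat_lit 76) (nat_lit 0) (XT.nd (nat_lit 156) (nat_lit 0) (nat_lit 0) (XT.nd (nat_lit 78) (nat_lit 0) (nat_lit 0) (XT.lf (nat_lit 0) (nat_lit 7623806134) (nat_lit 152) (nat_lit 85236609352) (nat_lit 0) (nat_lit 1574303872) (nat_lit 4) (nat_lit 5) (nat_lit 6) (nat_lit 4) (nat_lit 4) (nat_lit 4) (nat_lit 401) (nat_lit 333) (nat_lit 286)) (XT.lf (nat_lit 0) (nat_lit 17326566161) (nat_lit 152) (nat_lit 72630422463) (nat_lit 0) (nat_lit 11264696072) (nat_lit 4) (nat_lit 5) (nat_lit 6) (nat_lit 4) (nat_lit 4) (nat_lit 4) (nat_lit 402) (nat_lit 333) (nat_lit 285))) (XT.nd (nat_lit 78) (nat_lit 0) (nat_lit 0) (XT.lf (nat_lit 0) (nat_lit 27770607832) (nat_lit 152) (nat_lit 59086510691) (nat_lit 0) (nat_lit 21697286051) (nat_lit 4) (nat_lit 5) (nat_lit 6) (nat_lit 4) (nat_lit 4) (nat_lit 4)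 (nat_lit 403) (nat_lit 333) (nat_lit 284)) (XT.nd (nat_lit 78) (nat_lit 0) (nat_lit 0) (XT.lf (nat_lit 0) (nat_lit 39017821764) (nat_lit 152) (nat_lit 44524613817) (nat_lit 0) (nat_lit 32933896564) (nat_lit 4) (nat_lit 5) (nat_lit 6) (nat_lit 4) (nat_lit 4) (nat_lit 4) (nat_lit 404) (nat_lit 333) (nat_lit 283)) (XT.lf (nat_lit 0) (nat_lit 51134858114) (nat_lit 152) (nat_lit 28858439118) (nat_lit 0) (nat_lit 45041114934) (nat_lit 4) (nat_lit 5) (nat_lit 6) (nat_lit 4) (nat_lit 4) (nat_lit 4) (nat_lit 405) (nat_lit 333) (nat_lit 282))))) (XT.nd (nat_lit 234) (nat_lit 0) (nat_lit 0) (XT.nd (nat_lit 78) (nat_lit 76) (nat_lit 0) (XT.lf (nat_lit 0) (nat_lit 64193521543) (nat_lit 152) (nat_lit 11995150005) (nat_lit 0) (nat_lit 58090687640) (nat_lit 4) (nat_lit 5) (nat_lit 6) (nat_lit 4) (nat_lit 4) (nat_lit 4) (nat_lit 406) (nat_lit 333) (nat_lit 281)) (XT.nd (nat_lit 78) (nat_lit 0) (nat_lit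 0) (XT.lf (nat_lit 0) (nat_lit 6489831794) (nat_lit 76) (nat_lit 71937445537) (nat_lit 76) (nat_lit 65826194299) (nat_lit 3) (nat_lit 4) (nat_lit 4) (nat_lit 5) (nat_lit 4) (nat_lit 4) (nat_lit 407) (nat_lit 333) (nat_lit 280)) (XT.lf (nat_lit 0) (nat_lit 27085085750) (nat_lit 76) (nat_lit 67017618123) (nat_lit 76) (nat_lit 60898573056) (nat_lit 3) (nat_lit 4) (nat_lit 4) (nat_lit 5) (nat_lit 4) (nat_lit 4) (nat_lit 408) (nat_lit 333) (nat_lit 279)))) (XT.nd (nat_lit 78) (nat_lit 0) (nat_lit 0) (XT.lf (nat_lit 0) (nat_lit 49281014468) (nat_lit 76) (nat_lit 61728003431) (nat_lit 76) (nat_lit 55601741855) (nat_lit 3) (nat_lit 4) (nat_lit 4) (nat_lit 5) (nat_lit 4) (nat_lit 4) (nat_lit 409) (nat_lit 333) (nat_lit 278)) (XT.nd (nat_lit 78) (nat_lit 0) (nat_lit 0) (XT.lf (nat_lit 0) (nat_lit 73209149379) (nat_lit 76) (nat_lit 56037255598) (nat_lit 76) (nat_lit 49904312069) (nat_lit 3) (nat_lit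 4) (nat_lit 4) (nat_lit 5) (nat_lit 4) (nat_lit 4) (nat_lit 410) (nat_lit 333) (nat_lit 277)) (XT.lf (nat_lit 0) (nat_lit 99011286838) (nat_lit 76) (nat_lit 49911651671) (nat_lit 76) (nat_lit 43772521150) (nat_lit 3) (nat_lit 4) (nat_lit 4) (nat_lit 5) (nat_lit 4) (nat_lit 4) (nat_lit 411) (nat_lit 333) (nat_lit 276))))))) (XT.nd (nat_lit 780) (nat_lit 0) (nat_lit 0) (XT.nd (nat_lit 390) (nat_lit 152) (nat_lit 0) (XT.nd (nat_lit 156) (nat_lit 0) (nat_lit 0) (XT.nd (nat_lit 78) (nat_lit 0) (nat_lit 0) (XT.lf (nat_lit 0) (nat_lit 126840328399) (nat_lit 76) (nat_lit 43314891777) (nat_lit 76) (nat_lit 37170032559) (nat_lit 3) (nat_lit 4) (nat_lit 4) (nat_lit 5) (nat_lit 4) (nat_lit 4) (nat_lit 412) (nat_lit 333) (nat_lit 275)) (XT.lf (nat_lit 0) (nat_lit 156861186901) (nat_lit 76) (nat_lit 36207884005) (nat_lit 76) (nat_lit 30057720437) (nat_lit 3) (nat_lit 4) (nat_lit 4) (nat_lit 5) (nat_lit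 4) (nat_lit 4) (nat_lit 413) (nat_lit 333) (nat_lit 274))) (XT.nd (nat_lit 78) (nat_lit 0) (nat_lit 0) (XT.lf (nat_lit 0) (nat_lit 189251763729) (nat_lit 76) (nat_lit 28548512754) (nat_lit 76) (nat_lit 22393437751) (nat_lit 3) (nat_lit 4) (nat_lit 4) (nat_lit 5) (nat_lit 4) (nat_lit 4) (nat_lit 414) (nat_lit 333) (nat_lit 273)) (XT.nd (nat_lit 78) (nat_lit 0) (nat_lit 0) (XT.lf (nat_lit 0) (nat_lit 224204003041) (nat_lit 76) (nat_lit 20291389156) (nat_lit 76) (nat_lit 14131766529) (nat_lit 3) (nat_lit 4) (nat_lit 4) (nat_lit 5) (nat_lit 4) (nat_lit 4) (nat_lit 415) (nat_lit 333) (nat_lit 272)) (XT.lf (nat_lit 0) (nat_lit 261925029218) (nat_lit 76) (nat_lit 11387582109) (nat_lit 76) (nat_lit 5223748719) (nat_lit 3) (nat_lit 4) (nat_lit 4) (nat_lit 5) (nat_lit 4) (nat_lit 4) (nat_lit 416) (nat_lit 333) (nat_lit 271))))) (XT.nd (nat_lit 156) (nat_lit 0) (nat_lit 0) (XT.nd (nat_lit 78) (nat_lit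 0) (nat_lit 0) (XT.lf (nat_lit 0) (nat_lit 2624966085) (nat_lit 76) (nat_lit 1602292727) (nat_lit 152) (nat_lit 295798555716) (nat_lit 1) (nat_lit 5) (nat_lit 2) (nat_lit 5) (nat_lit 3) (nat_lit 4) (nat_lit 417) (nat_lit 333) (nat_lit 270)) (XT.lf (nat_lit 0) (nat_lit 14820936327) (nat_lit 152) (nat_lit 299242400040) (nat_lit 0) (nat_lit 9106730497) (nat_lit 1) (nat_lit 5) (nat_lit 3) (nat_lit 4) (nat_lit 1) (nat_lit 4) (nat_lit 418) (nat_lit 333) (nat_lit 269))) (XT.nd (nat_lit 78) (nat_lit 0) (nat_lit 0) (XT.lf (nat_lit 0) (nat_lit 26291873369) (nat_lit 152) (nat_lit 301297032878) (nat_lit 0) (nat_lit 20574572503) (nat_lit 1) (nat_lit 5) (nat_lit 3) (nat_lit 4) (nat_lit 1) (nat_lit 4) (nat_lit 419) (nat_lit 333) (nat_lit 268)) (XT.nd (nat_lit 78) (nat_lit 0) (nat_lit 0) (XT.lf (nat_lit 0) (nat_lit 38669510685) (nat_lit 152) (nat_lit 303538387379) (nat_lit 0) (nat_lit 32949344043) (nat_lit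 1) (nat_lit 5) (nat_lit 3) (nat_lit 4) (nat_lit 1) (nat_lit 4) (nat_lit 420) (nat_lit 333) (nat_lit 267)) (XT.lf (nat_lit 0) (nat_lit 52027197235) (nat_lit 152) (nat_lit 305979745644) (nat_lit 0) (nat_lit 46304377098) (nat_lit 1) (nat_lit 5) (nat_lit 3) (nat_lit 4) (nat_lit 1) (nat_lit 4) (nat_lit 421) (nat_lit 333) (nat_lit 266)))))) (XT.nd (nat_lit 390) (nat_lit 0) (nat_lit 0) (XT.nd (nat_lit 156) (nat_lit 0) (nat_lit 0) (XT.nd (nat_lit 78) (nat_lit 0) (nat_lit 0) (XT.lf (nat_lit 0) (nat_lit 66444089681) (nat_lit 152) (nat_lit 308635574983) (nat_lit 0) (nat_lit 60718812604) (nat_lit 1) (nat_lit 5) (nat_lit 3) (nat_lit 4) (nat_lit 1) (nat_lit 4) (nat_lit 422) (nat_lit 333) (nat_lit 265)) (XT.lf (nat_lit 0) (nat_lit 82005621460) (nat_lit 152) (nat_lit 311521613643) (nat_lit 0) (nat_lit 76278069438) (nat_lit 1) (nat_lit 5) (nat_lit 3) (nat_lit 4) (nat_lit 1) (nat_lit 4) (nat_lit 423) (nat_lit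 333) (nat_lit 264))) (XT.nd (nat_lit 78) (nat_lit 0) (nat_lit 0) (XT.lf (nat_lit 0) (nat_lit 98804009055) (nat_lit 152) (nat_lit 314654964074) (nat_lit 0) (nat_lit 93074350604) (nat_lit 1) (nat_lit 5) (nat_lit 3) (nat_lit 4) (nat_lit 1) (nat_lit 4) (nat_lit 424) (nat_lit 333) (nat_lit 263)) (XT.nd (nat_lit 78) (nat_lit 0) (nat_lit 0) (XT.lf (nat_lit 0) (nat_lit 116938798469) (nat_lit 152) (nat_lit 318054194281) (nat_lit 0) (nat_lit 111207189619) (nat_lit 1) (nat_lit 5) (nat_lit 3) (nat_lit 4) (nat_lit 1) (nat_lit 4) (nat_lit 425) (nat_lit 333) (nat_lit 262)) (XT.lf (nat_lit 0) (nat_lit 136517455118) (nat_lit 152) (nat_lit 321739447848) (nat_lit 0) (nat_lit 130784040344) (nat_lit 1) (nat_lit 5) (nat_lit 3) (nat_lit 4) (nat_lit 1) (nat_lit 4) (nat_lit 426) (nat_lit 333) (nat_lit 261))))) (XT.nd (nat_lit 234) (nat_lit 0) (nat_lit 0) (XT.nd (nat_lit 78) (nat_lit 0) (nat_lit 0) (XT.lf (nat_lit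 0) (nat_lit 157656000673) (nat_lit 152) (nat_lit 325732563317) (nat_lit 0) (nat_lit 151920913747) (nat_lit 1) (nat_lit 5) (nat_lit 3) (nat_lit 4) (nat_lit 1) (nat_lit 4) (nat_lit 427) (nat_lit 333) (nat_lit 260)) (XT.nd (nat_lit 78) (nat_lit 0) (nat_lit 0) (XT.lf (nat_lit 0) (nat_lit 180479700589) (nat_lit 152) (nat_lit 330057203592) (nat_lit 0) (nat_lit 174743065374) (nat_lit 1) (nat_lit 5) (nat_lit 3) (nat_lit 4) (nat_lit 1) (nat_lit 4) (nat_lit 428) (nat_lit 333) (nat_lit 259)) (XT.lf (nat_lit 0) (nat_lit 205123806420) (nat_lit 152) (nat_lit 334738996173) (nat_lit 0) (nat_lit 199385737604) (nat_lit 1) (nat_lit 5) (nat_lit 3) (nat_lit 4) (nat_lit 1) (nat_lit 4) (nat_lit 429) (nat_lit 333) (nat_lit 258)))) (XT.nd (nat_lit 78) (nat_lit 0) (nat_lit 0) (XT.lf (nat_lit 0) (nat_lit 231734357313) (nat_lit 152) (nat_lit 339805685015) (nat_lit 0) (nat_lit 225994961089) (nat_lit 1) (nat_lit 5)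 (nat_lit 3) (nat_lit 4) (nat_lit 1) (nat_lit 4) (nat_lit 430) (nat_lit 333) (nat_lit 257)) (XT.nd (nat_lit 78) (nat_lit 0) (nat_lit 0) (XT.lf (nat_lit 0) (nat_lit 260469045420) (nat_lit 152) (nat_lit 345287294941) (nat_lit 0) (nat_lit 254728420115) (nat_lit 1) (nat_lit 5) (nat_lit 3) (nat_lit 4) (nat_lit 1) (nat_lit 4) (nat_lit 431) (nat_lit 333) (nat_lit 256)) (XT.lf (nat_lit 0) (nat_lit 291498150376) (nat_lit 152) (nat_lit 351216309565) (nat_lit 0) (nat_lit 285756387031) (nat_lit 1) (nat_lit 5) (nat_lit 3) (nat_lit 4) (nat_lit 1) (nat_lit 4) (nat_lit 432) (nat_lit 333) (nat_lit 255))))))))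
noncomputable def xc76 : XT := (XT.nd (nat_lit 1560) (nat_lit 0) (nat_lit 0) (XT.nd (nat_lit 780) (nat_lit 0) (nat_lit 0) (XT.nd (nat_lit 390) (nat_lit 0) (nat_lit 0) (XT.nd (nat_lit 156) (nat_lit 0) (nat_lit 0) (XT.nd (nat_lit 78) (nat_lit 0) (nat_lit 0) (XT.lf (nat_lit 0) (nat_lit 325005548357) (nat_lit 152) (nat_lit 357627863789) (nat_lit 0) (nat_lit 319262731273) (nat_lit 1) (nat_lit 5) (nat_lit 3) (nat_lit 4) (nat_lit 1) (nat_lit 4) (nat_lit 433) (nat_lit 333) (nat_lit 254)) (XT.lf (nat_lit 0) (nat_lit 361189801722) (nat_lit 152) (nat_lit 364559952009) (nat_lit 0) (nat_lit 355446008953) (nat_lit 1) (nat_lit 5) (nat_lit 3) (nat_lit 4) (nat_lit 1) (nat_lit 4) (nat_lit 434) (nat_lit 333) (nat_lit 253))) (XT.nd (nat_lit 78) (nat_lit 0) (nat_lit 0) (XT.lf (nat_lit 0) (nat_lit 400265335675) (nat_lit 152) (nat_lit 372053653265) (nat_lit 0) (nat_lit 394520639495) (nat_lit 1) (nat_lit 5) (nat_lit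 3) (nat_lit 4) (nat_lit 1) (nat_lit 4) (nat_lit 435) (nat_lit 333) (nat_lit 252)) (XT.nd (nat_lit 78) (nat_lit 0) (nat_lit 0) (XT.lf (nat_lit 0) (nat_lit 442463708938) (nat_lit 152) (nat_lit 380153374676) (nat_lit 0) (nat_lit 436718176265) (nat_lit 1) (nat_lit 5) (nat_lit 3) (nat_lit 4) (nat_lit 1) (nat_lit 4) (nat_lit 436) (nat_lit 333) (nat_lit 251)) (XT.lf (nat_lit 0) (nat_lit 488034985944) (nat_lit 152) (nat_lit 388907114591) (nat_lit 0) (nat_lit 482288678741) (nat_lit 1) (nat_lit 5) (nat_lit 3) (nat_lit 4) (nat_lit 1) (nat_lit 4) (nat_lit 437) (nat_lit 333) (nat_lit 250))))) (XT.nd (nat_lit 156) (nat_lit 0) (nat_lit 0) (XT.nd (nat_lit 78) (nat_lit 0) (nat_lit 0) (XT.lf (nat_lit 0) (nat_lit 537249218704) (nat_lit 152) (nat_lit 398366747025) (nat_lit 0) (nat_lit 531502194344) (nat_lit 1) (nat_lit 5) (nat_lit 3) (nat_lit 4) (nat_lit 1) (nat_lit 4) (nat_lit 438) (nat_lit 333) (nat_lit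 249)) (XT.lf (nat_lit 0) (nat_lit 590398047117) (nat_lit 152) (nat_lit 408588329058) (nat_lit 0) (nat_lit 584650358722) (nat_lit 1) (nat_lit 5) (nat_lit 3) (nat_lit 4) (nat_lit 1) (nat_lit 4) (nat_lit 439) (nat_lit 333) (nat_lit 248))) (XT.nd (nat_lit 78) (nat_lit 0) (nat_lit 0) (XT.lf (nat_lit 0) (nat_lit 647796427202) (nat_lit 152) (nat_lit 419632433029) (nat_lit 0) (nat_lit 642048123961) (nat_lit 1) (nat_lit 5) (nat_lit 3) (nat_lit 4) (nat_lit 1) (nat_lit 4) (nat_lit 440) (nat_lit 333) (nat_lit 247)) (XT.nd (nat_lit 78) (nat_lit 0) (nat_lit 0) (XT.lf (nat_lit 0) (nat_lit 709784497510) (nat_lit 152) (nat_lit 431564505480) (nat_lit 0) (nat_lit 704035624966) (nat_lit 1) (nat_lit 5) (nat_lit 3) (nat_lit 4) (nat_lit 1) (nat_lit 4) (nat_lit 441) (nat_lit 333) (nat_lit 246)) (XT.lf (nat_lit 0) (nat_lit 776729594751) (nat_lit 152) (nat_lit 444455254988) (nat_lit 0) (nat_lit 770980195075) (nat_lit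 1) (nat_lit 5) (nat_lit 3) (nat_lit 4) (nat_lit 1) (nat_lit 4) (nat_lit 442) (nat_lit 333) (nat_lit 245)))))) (XT.nd (nat_lit 390) (nat_lit 0) (nat_lit 0) (XT.nd (nat_lit 156) (nat_lit 0) (nat_lit 0) (XT.nd (nat_lit 78) (nat_lit 0) (nat_lit 0) (XT.lf (nat_lit 0) (nat_lit 849028430615) (nat_lit 152) (nat_lit 458381071179) (nat_lit 0) (nat_lit 843278542853) (nat_lit 1) (nat_lit 5) (nat_lit 3) (nat_lit 4) (nat_lit 1) (nat_lit 4) (nat_lit 443) (nat_lit 333) (nat_lit 244)) (XT.lf (nat_lit 0) (nat_lit 927109442646) (nat_lit 152) (nat_lit 473424477410) (nat_lit 0) (nat_lit 921359102954) (nat_lit 1) (nat_lit 5) (nat_lit 3) (nat_lit 4) (nat_lit 1) (nat_lit 4) (nat_lit 444) (nat_lit 333) (nat_lit 243))) (XT.nd (nat_lit 78) (nat_lit 0) (nat_lit 0) (XT.lf (nat_lit 0) (nat_lit 1011435333138) (nat_lit 152) (nat_lit 489674619790) (nat_lit 0) (nat_lit 1005684574992) (nat_lit 1) (nat_lit 5) (nat_lit 3)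 (nat_lit 4) (nat_lit 1) (nat_lit 4) (nat_lit 445) (nat_lit 333) (nat_lit 242)) (XT.nd (nat_lit 78) (nat_lit 0) (nat_lit 0) (XT.lf (nat_lit 0) (nat_lit 1102505811073) (nat_lit 152) (nat_lit 507227795461) (nat_lit 0) (nat_lit 1096754665468) (nat_lit 1) (nat_lit 5) (nat_lit 3) (nat_lit 4) (nat_lit 1) (nat_lit 4) (nat_lit 446) (nat_lit 333) (nat_lit 241)) (XT.lf (nat_lit 0) (nat_lit 1200860553355) (nat_lit 152) (nat_lit 526188023241) (nat_lit 0) (nat_lit 1195109048993) (nat_lit 1) (nat_lit 5) (nat_lit 3) (nat_lit 4) (nat_lit 1) (nat_lit 4) (nat_lit 447) (nat_lit 333) (nat_lit 240))))) (XT.nd (nat_lit 156) (nat_lit 0) (nat_lit 0) (XT.nd (nat_lit 78) (nat_lit 0) (nat_lit 0) (XT.lf (nat_lit 0) (nat_lit 1307082402903) (nat_lit 152) (nat_lit 546667660034) (nat_lit 0) (nat_lit 1301330566358) (nat_lit 1) (nat_lit 5) (nat_lit 3) (nat_lit 4) (nat_lit 1) (nat_lit 4) (nat_lit 448) (nat_lit 333) (nat_lit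 239)) (XT.lf (nat_lit 0) (nat_lit 1421800822528) (nat_lit 152) (nat_lit 568788066653) (nat_lit 0) (nat_lit 1416048678407) (nat_lit 1) (nat_lit 5) (nat_lit 3) (nat_lit 4) (nat_lit 1) (nat_lit 4) (nat_lit 449) (nat_lit 333) (nat_lit 238))) (XT.nd (nat_lit 78) (nat_lit 0) (nat_lit 0) (XT.lf (nat_lit 0) (nat_lit 1545695625087) (nat_lit 152) (nat_lit 592680326988) (nat_lit 0) (nat_lit 1539943196173) (nat_lit 1) (nat_lit 5) (nat_lit 3) (nat_lit 4) (nat_lit 1) (nat_lit 4) (nat_lit 450) (nat_lit 333) (nat_lit 237)) (XT.nd (nat_lit 78) (nat_lit 0) (nat_lit 0) (XT.lf (nat_lit 0) (nat_lit 1679501002004) (nat_lit 152) (nat_lit 618486024803) (nat_lit 0) (nat_lit 1673748309393) (nat_lit 1) (nat_lit 5) (nat_lit 3) (nat_lit 4) (nat_lit 1) (nat_lit 4) (nat_lit 451) (nat_lit 333) (nat_lit 236)) (XT.lf (nat_lit 0) (nat_lit 1824009874030) (nat_lit 152) (nat_lit 646358082753) (nat_lit 0) (nat_lit 1818256937255)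 (nat_lit 1) (nat_lit 5) (nat_lit 3) (nat_lit 4) (nat_lit 1) (nat_lit 4) (nat_lit 452) (nat_lit 333) (nat_lit 235))))))) (XT.nd (nat_lit 780) (nat_lit 0) (nat_lit 0) (XT.nd (nat_lit 390) (nat_lit 0) (nat_lit 0) (XT.nd (nat_lit 156) (nat_lit 0) (nat_lit 0) (XT.nd (nat_lit 78) (nat_lit 0) (nat_lit 0) (XT.lf (nat_lit 0) (nat_lit 1980078590037) (nat_lit 152) (nat_lit 676461668588) (nat_lit 0) (nat_lit 1974325427184) (nat_lit 1) (nat_lit 5) (nat_lit 3) (nat_lit 4) (nat_lit 1) (nat_lit 4) (nat_lit 453) (nat_lit 333) (nat_lit 234)) (XT.lf (nat_lit 0) (nat_lit 2148632001674) (nat_lit 152) (nat_lit 708975173929) (nat_lit 0) (nat_lit 2142878629490) (nat_lit 1) (nat_lit 5) (nat_lit 3) (nat_lit 4) (nat_lit 1) (nat_lit 4) (nat_lit 454) (nat_lit 333) (nat_lit 233))) (XT.nd (nat_lit 78) (nat_lit 0) (nat_lit 0) (XT.lf (nat_lit 0) (nat_lit 2330668943975) (nat_lit 152) (nat_lit 744091271399) (nat_lit 0)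 (nat_lit 2324915377965) (nat_lit 1) (nat_lit 5) (nat_lit 3) (nat_lit 4) (nat_lit 1) (nat_lit 4) (nat_lit 455) (nat_lit 333) (nat_lit 232)) (XT.nd (nat_lit 78) (nat_lit 0) (nat_lit 0) (XT.lf (nat_lit 0) (nat_lit 2527268154374) (nat_lit 152) (nat_lit 782018056391) (nat_lit 0) (nat_lit 2521514408896) (nat_lit 1) (nat_lit 5) (nat_lit 3) (nat_lit 4) (nat_lit 1) (nat_lit 4) (nat_lit 456) (nat_lit 333) (nat_lit 231)) (XT.lf (nat_lit 0) (nat_lit 2739594665229) (nat_lit 152) (nat_lit 822980280223) (nat_lit 0) (nat_lit 2733840753577) (nat_lit 1) (nat_lit 5) (nat_lit 3) (nat_lit 4) (nat_lit 1) (nat_lit 4) (nat_lit 457) (nat_lit 333) (nat_lit 230))))) (XT.nd (nat_lit 156) (nat_lit 0) (nat_lit 0) (XT.nd (nat_lit 78) (nat_lit 0) (nat_lit 0) (XT.lf (nat_lit 0) (nat_lit 2968906707717) (nat_lit 152) (nat_lit 867220681999) (nat_lit 0) (nat_lit 2963152642200) (nat_lit 1) (nat_lit 5) (nat_lit 3) (nat_lit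 4) (nat_lit 1) (nat_lit 4) (nat_lit 458) (nat_lit 333) (nat_lit 229)) (XT.lf (nat_lit 0) (nat_lit 3216563168014) (nat_lit 152) (nat_lit 915001427064) (nat_lit 0) (nat_lit 3210808960030) (nat_lit 1) (nat_lit 5) (nat_lit 3) (nat_lit 4) (nat_lit 1) (nat_lit 4) (nat_lit 459) (nat_lit 333) (nat_lit 228))) (XT.nd (nat_lit 78) (nat_lit 0) (nat_lit 0) (XT.lf (nat_lit 0) (nat_lit 3484031639960) (nat_lit 152) (nat_lit 966605660573) (nat_lit 0) (nat_lit 3478277300061) (nat_lit 1) (nat_lit 5) (nat_lit 3) (nat_lit 4) (nat_lit 1) (nat_lit 4) (nat_lit 460) (nat_lit 333) (nat_lit 227)) (XT.nd (nat_lit 78) (nat_lit 0) (nat_lit 0) (XT.lf (nat_lit 0) (nat_lit 3772897121907) (nat_lit 152) (nat_lit 1022339185392) (nat_lit 0) (nat_lit 3767142659865) (nat_lit 1) (nat_lit 5) (nat_lit 3) (nat_lit 4) (nat_lit 1) (nat_lit 4) (nat_lit 461) (nat_lit 333) (nat_lit 226)) (XT.lf (nat_lit 0) (nat_lit 4084871409303) (nat_lit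 152) (nat_lit 1082532274260) (nat_lit 0) (nat_lit 4079116834166) (nat_lit 1) (nat_lit 5) (nat_lit 3) (nat_lit 4) (nat_lit 1) (nat_lit 4) (nat_lit 462) (nat_lit 333) (nat_lit 225)))))) (XT.nd (nat_lit 44772) (nat_lit 0) (nat_lit 2736) (XT.nd (nat_lit 44538) (nat_lit 0) (nat_lit 3572) (XT.nd (nat_lit 44460) (nat_lit 0) (nat_lit 4332) (XT.lf (nat_lit 0) (nat_lit 4421803238666) (nat_lit 152) (nat_lit 1147541626963) (nat_lit 0) (nat_lit 4416048558812) (nat_lit 1) (nat_lit 5) (nat_lit 3) (nat_lit 4) (nat_lit 1) (nat_lit 4) (nat_lit 463) (nat_lit 333) (nat_lit 224)) (XT.lf (nat_lit 0) (nat_lit 2686952313) (nat_lit 380) (nat_lit 531982579) (nat_lit 380) (nat_lit 531982579) (nat_lit 58) (nat_lit 4) (nat_lit 63) (nat_lit 5) (nat_lit 63) (nat_lit 4) (nat_lit 352) (nat_lit 334) (nat_lit 334))) (XT.nd (nat_lit 78) (nat_lit 456) (nat_lit 0) (XT.lf (nat_lit 0) (nat_lit 2554413225) (nat_lit 304) (nat_lit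 3934454401) (nat_lit 0) (nat_lit 1201896930) (nat_lit 54) (nat_lit 5) (nat_lit 58) (nat_lit 4) (nat_lit 54) (nat_lit 4) (nat_lit 353) (nat_lit 334) (nat_lit 333)) (XT.nd (nat_lit 78) (nat_lit 228) (nat_lit 0) (XT.lf (nat_lit 0) (nat_lit 2070326473) (nat_lit 228) (nat_lit 4218323134) (nat_lit 228) (nat_lit 1613476936) (nat_lit 51) (nat_lit 4) (nat_lit 54) (nat_lit 5) (nat_lit 54) (nat_lit 4) (nat_lit 354) (nat_lit 334) (nat_lit 332)) (XT.lf (nat_lit 0) (nat_lit 292774712) (nat_lit 152) (nat_lit 1657795304) (nat_lit 228) (nat_lit 6186299403) (nat_lit 48) (nat_lit 5) (nat_lit 50) (nat_lit 5) (nat_lit 51) (nat_lit 4) (nat_lit 355) (nat_lit 334) (nat_lit 331))))) (XT.nd (nat_lit 234) (nat_lit 380) (nat_lit 0) (XT.nd (nat_lit 78) (nat_lit 456) (nat_lit 0) (XT.lf (nat_lit 0) (nat_lit 5663285180) (nat_lit 228) (nat_lit 1544306326) (nat_lit 0) (nat_lit 1183579659) (nat_lit 48) (nat_lit 5) (nat_lit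 51) (nat_lit 4) (nat_lit 48) (nat_lit 4) (nat_lit 356) (nat_lit 334) (nat_lit 330)) (XT.nd (nat_lit 78) (nat_lit 152) (nat_lit 0) (XT.lf (nat_lit 0) (nat_lit 900776379) (nat_lit 304) (nat_lit 3526590515) (nat_lit 76) (nat_lit 4241157743) (nat_lit 44) (nat_lit 5) (nat_lit 48) (nat_lit 5) (nat_lit 45) (nat_lit 4) (nat_lit 357) (nat_lit 334) (nat_lit 329)) (XT.lf (nat_lit 0) (nat_lit 3265480177) (nat_lit 152) (nat_lit 1310481481) (nat_lit 228) (nat_lit 4394298098) (nat_lit 42) (nat_lit 5) (nat_lit 44) (nat_lit 5) (nat_lit 45) (nat_lit 4) (nat_lit 358) (nat_lit 334) (nat_lit 328)))) (XT.nd (nat_lit 78) (nat_lit 228) (nat_lit 0) (XT.lf (nat_lit 0) (nat_lit 1202420401) (nat_lit 152) (nat_lit 7308348368) (nat_lit 152) (nat_lit 788255459) (nat_lit 40) (nat_lit 4) (nat_lit 42) (nat_lit 5) (nat_lit 42) (nat_lit 4) (nat_lit 359) (nat_lit 334) (nat_lit 327)) (XT.nd (nat_lit 78) (nat_lit 152) (nat_lit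 0) (XT.lf (nat_lit 0) (nat_lit 2936069691) (nat_lit 228) (nat_lit 1089662830) (nat_lit 76) (nat_lit 5623685140) (nat_lit 39) (nat_lit 5) (nat_lit 42) (nat_lit 5) (nat_lit 40) (nat_lit 4) (nat_lit 360) (nat_lit 334) (nat_lit 326)) (XT.lf (nat_lit 0) (nat_lit 6483653668) (nat_lit 152) (nat_lit 394624311) (nat_lit 228) (nat_lit 3151035209) (nat_lit 37) (nat_lit 5) (nat_lit 39) (nat_lit 5) (nat_lit 40) (nat_lit 4) (nat_lit 361) (nat_lit 334) (nat_lit 325))))))))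
noncomputable def xc77 : XT := (XT.nd (nat_lit 1560) (nat_lit 836) (nat_lit 0) (XT.nd (nat_lit 780) (nat_lit 608) (nat_lit 0) (XT.nd (nat_lit 390) (nat_lit 456) (nat_lit 0) (XT.nd (nat_lit 156) (nat_lit 304) (nat_lit 0) (XT.nd (nat_lit 78) (nat_lit 76) (nat_lit 0) (XT.lf (nat_lit 0) (nat_lit 687518512) (nat_lit 228) (nat_lit 6350735182) (nat_lit 76) (nat_lit 3398014859) (nat_lit 34) (nat_lit 5) (nat_lit 37) (nat_lit 5) (nat_lit 35) (nat_lit 4) (nat_lit 362) (nat_lit 334) (nat_lit 324)) (XT.lf (nat_lit 0) (nat_lit 1327417029) (nat_lit 76) (nat_lit 3290615736) (nat_lit 152) (nat_lit 6254878519) (nat_lit 33) (nat_lit 5) (nat_lit 34) (nat_lit 5) (nat_lit 35) (nat_lit 4) (nat_lit 363) (nat_lit 334) (nat_lit 323))) (XT.nd (nat_lit 78) (nat_lit 304) (nat_lit 0) (XT.lf (nat_lit 0) (nat_lit 8876650469) (nat_lit 152) (nat_lit 1681441409) (nat_lit 0) (nat_lit 785381737) (nat_lit 33) (nat_lit 5) (nat_lit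 35) (nat_lit 4) (nat_lit 33) (nat_lit 4) (nat_lit 364) (nat_lit 334) (nat_lit 322)) (XT.nd (nat_lit 78) (nat_lit 76) (nat_lit 0) (XT.lf (nat_lit 0) (nat_lit 1624365406) (nat_lit 228) (nat_lit 5107375299) (nat_lit 76) (nat_lit 5110377370) (nat_lit 30) (nat_lit 5) (nat_lit 33) (nat_lit 5) (nat_lit 31) (nat_lit 4) (nat_lit 365) (nat_lit 334) (nat_lit 321)) (XT.lf (nat_lit 0) (nat_lit 3357692312) (nat_lit 76) (nat_lit 2512159042) (nat_lit 152) (nat_lit 6508919317) (nat_lit 29) (nat_lit 5) (nat_lit 30) (nat_lit 5) (nat_lit 31) (nat_lit 4) (nat_lit 366) (nat_lit 334) (nat_lit 320))))) (XT.nd (nat_lit 156) (nat_lit 228) (nat_lit 0) (XT.nd (nat_lit 78) (nat_lit 228) (nat_lit 0) (XT.lf (nat_lit 0) (nat_lit 10482601981) (nat_lit 152) (nat_lit 500319994) (nat_lit 0) (nat_lit 1973283096) (nat_lit 29) (nat_lit 5) (nat_lit 31) (nat_lit 4) (nat_lit 29) (nat_lit 4) (nat_lit 367) (nat_lit 334) (nat_lit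 319)) (XT.lf (nat_lit 0) (nat_lit 1917917825) (nat_lit 228) (nat_lit 4810229755) (nat_lit 76) (nat_lit 6837899805) (nat_lit 26) (nat_lit 5) (nat_lit 29) (nat_lit 5) (nat_lit 27) (nat_lit 4) (nat_lit 368) (nat_lit 334) (nat_lit 318))) (XT.nd (nat_lit 78) (nat_lit 152) (nat_lit 0) (XT.lf (nat_lit 0) (nat_lit 4444624774) (nat_lit 76) (nat_lit 2051917889) (nat_lit 152) (nat_lit 7725488140) (nat_lit 25) (nat_lit 5) (nat_lit 26) (nat_lit 5) (nat_lit 27) (nat_lit 4) (nat_lit 369) (nat_lit 334) (nat_lit 317)) (XT.nd (nat_lit 78) (nat_lit 152) (nat_lit 0) (XT.lf (nat_lit 0) (nat_lit 11499069292) (nat_lit 152) (nat_lit 554610053) (nat_lit 0) (nat_lit 2872248458) (nat_lit 25) (nat_lit 5) (nat_lit 27) (nat_lit 4) (nat_lit 25) (nat_lit 4) (nat_lit 370) (nat_lit 334) (nat_lit 316)) (XT.lf (nat_lit 0) (nat_lit 1303903563) (nat_lit 152) (nat_lit 6127992344) (nat_lit 76) (nat_lit 8240014965) (nat_lit 23)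 (nat_lit 5) (nat_lit 25) (nat_lit 5) (nat_lit 24) (nat_lit 4) (nat_lit 371) (nat_lit 334) (nat_lit 315)))))) (XT.nd (nat_lit 390) (nat_lit 304) (nat_lit 0) (XT.nd (nat_lit 156) (nat_lit 228) (nat_lit 0) (XT.nd (nat_lit 78) (nat_lit 0) (nat_lit 0) (XT.lf (nat_lit 0) (nat_lit 3855746337) (nat_lit 76) (nat_lit 2342979474) (nat_lit 152) (nat_lit 10274101755) (nat_lit 22) (nat_lit 5) (nat_lit 23) (nat_lit 5) (nat_lit 24) (nat_lit 4) (nat_lit 372) (nat_lit 334) (nat_lit 314)) (XT.lf (nat_lit 0) (nat_lit 11596838939) (nat_lit 152) (nat_lit 2672704008) (nat_lit 0) (nat_lit 3059370474) (nat_lit 22) (nat_lit 5) (nat_lit 24) (nat_lit 4) (nat_lit 22) (nat_lit 4) (nat_lit 373) (nat_lit 334) (nat_lit 313))) (XT.nd (nat_lit 78) (nat_lit 152) (nat_lit 0) (XT.lf (nat_lit 0) (nat_lit 8179622394) (nat_lit 76) (nat_lit 9378803631) (nat_lit 76) (nat_lit 684559970) (nat_lit 21) (nat_lit 4) (nat_lit 22) (nat_lit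 5) (nat_lit 22) (nat_lit 4) (nat_lit 374) (nat_lit 334) (nat_lit 312)) (XT.nd (nat_lit 78) (nat_lit 0) (nat_lit 0) (XT.lf (nat_lit 0) (nat_lit 499677001) (nat_lit 76) (nat_lit 3990266690) (nat_lit 152) (nat_lit 14734163790) (nat_lit 19) (nat_lit 5) (nat_lit 20) (nat_lit 5) (nat_lit 21) (nat_lit 4) (nat_lit 375) (nat_lit 334) (nat_lit 311)) (XT.lf (nat_lit 0) (nat_lit 10243484013) (nat_lit 152) (nat_lit 8088275338) (nat_lit 0) (nat_lit 1934395735) (nat_lit 19) (nat_lit 5) (nat_lit 21) (nat_lit 4) (nat_lit 19) (nat_lit 4) (nat_lit 376) (nat_lit 334) (nat_lit 310))))) (XT.nd (nat_lit 156) (nat_lit 152) (nat_lit 0) (XT.nd (nat_lit 78) (nat_lit 76) (nat_lit 0) (XT.lf (nat_lit 0) (nat_lit 3236944365) (nat_lit 76) (nat_lit 13286824930) (nat_lit 76) (nat_lit 4862502202) (nat_lit 18) (nat_lit 4) (nat_lit 19) (nat_lit 5) (nat_lit 19) (nat_lit 4) (nat_lit 377) (nat_lit 334) (nat_lit 309)) (XT.lf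 (nat_lit 0) (nat_lit 787242152) (nat_lit 152) (nat_lit 6893557614) (nat_lit 76) (nat_lit 14904865051) (nat_lit 17) (nat_lit 5) (nat_lit 19) (nat_lit 5) (nat_lit 18) (nat_lit 4) (nat_lit 378) (nat_lit 334) (nat_lit 308))) (XT.nd (nat_lit 78) (nat_lit 76) (nat_lit 0) (XT.lf (nat_lit 0) (nat_lit 5191841572) (nat_lit 76) (nat_lit 1453186230) (nat_lit 152) (nat_lit 17224394260) (nat_lit 16) (nat_lit 5) (nat_lit 17) (nat_lit 5) (nat_lit 18) (nat_lit 4) (nat_lit 379) (nat_lit 334) (nat_lit 307)) (XT.nd (nat_lit 78) (nat_lit 76) (nat_lit 0) (XT.lf (nat_lit 0) (nat_lit 13186281762) (nat_lit 152) (nat_lit 6941416221) (nat_lit 0) (nat_lit 5111010392) (nat_lit 16) (nat_lit 5) (nat_lit 18) (nat_lit 4) (nat_lit 16) (nat_lit 4) (nat_lit 380) (nat_lit 334) (nat_lit 306)) (XT.lf (nat_lit 0) (nat_lit 5795994805) (nat_lit 76) (nat_lit 14534443757) (nat_lit 76) (nat_lit 6380745758) (nat_lit 15) (nat_lit 4)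 (nat_lit 16) (nat_lit 5) (nat_lit 16) (nat_lit 4) (nat_lit 381) (nat_lit 334) (nat_lit 305))))))) (XT.nd (nat_lit 780) (nat_lit 380) (nat_lit 0) (XT.nd (nat_lit 390) (nat_lit 228) (nat_lit 0) (XT.nd (nat_lit 156) (nat_lit 76) (nat_lit 0) (XT.nd (nat_lit 78) (nat_lit 152) (nat_lit 0) (XT.lf (nat_lit 0) (nat_lit 19762128873) (nat_lit 76) (nat_lit 8379028108) (nat_lit 76) (nat_lit 152712859) (nat_lit 15) (nat_lit 4) (nat_lit 16) (nat_lit 5) (nat_lit 16) (nat_lit 4) (nat_lit 382) (nat_lit 334) (nat_lit 304)) (XT.lf (nat_lit 0) (nat_lit 4745602442) (nat_lit 76) (nat_lit 1523222502) (nat_lit 152) (nat_lit 23719781681) (nat_lit 13) (nat_lit 5) (nat_lit 14) (nat_lit 5) (nat_lit 15) (nat_lit 4) (nat_lit 383) (nat_lit 334) (nat_lit 303))) (XT.nd (nat_lit 78) (nat_lit 76) (nat_lit 0) (XT.lf (nat_lit 0) (nat_lit 13487091483) (nat_lit 152) (nat_lit 12557994607) (nat_lit 0) (nat_lit 5750229417) (nat_lit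 13) (nat_lit 5) (nat_lit 15) (nat_lit 4) (nat_lit 13) (nat_lit 4) (nat_lit 384) (nat_lit 334) (nat_lit 302)) (XT.nd (nat_lit 78) (nat_lit 0) (nat_lit 0) (XT.lf (nat_lit 0) (nat_lit 988155127) (nat_lit 76) (nat_lit 20275109223) (nat_lit 76) (nat_lit 12484871311) (nat_lit 12) (nat_lit 4) (nat_lit 13) (nat_lit 5) (nat_lit 13) (nat_lit 4) (nat_lit 385) (nat_lit 334) (nat_lit 301)) (XT.lf (nat_lit 0) (nat_lit 16172793160) (nat_lit 76) (nat_lit 13751517644) (nat_lit 76) (nat_lit 5911857651) (nat_lit 12) (nat_lit 4) (nat_lit 13) (nat_lit 5) (nat_lit 13) (nat_lit 4) (nat_lit 386) (nat_lit 334) (nat_lit 300))))) (XT.nd (nat_lit 156) (nat_lit 76) (nat_lit 0) (XT.nd (nat_lit 78) (nat_lit 76) (nat_lit 0) (XT.lf (nat_lit 0) (nat_lit 1051063193) (nat_lit 152) (nat_lit 5699209736) (nat_lit 76) (nat_lit 31344819666) (nat_lit 11) (nat_lit 5) (nat_lit 13) (nat_lit 5) (nat_lit 12) (nat_lit 4) (nat_lit 387)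 (nat_lit 334) (nat_lit 299)) (XT.lf (nat_lit 0) (nat_lit 8438617944) (nat_lit 152) (nat_lit 30970807084) (nat_lit 0) (nat_lit 1098069198) (nat_lit 10) (nat_lit 5) (nat_lit 12) (nat_lit 4) (nat_lit 10) (nat_lit 4) (nat_lit 388) (nat_lit 334) (nat_lit 298))) (XT.nd (nat_lit 78) (nat_lit 76) (nat_lit 0) (XT.lf (nat_lit 0) (nat_lit 16681824622) (nat_lit 152) (nat_lit 17104949304) (nat_lit 0) (nat_lit 9304949172) (nat_lit 10) (nat_lit 5) (nat_lit 12) (nat_lit 4) (nat_lit 10) (nat_lit 4) (nat_lit 389) (nat_lit 334) (nat_lit 297)) (XT.nd (nat_lit 78) (nat_lit 76) (nat_lit 0) (XT.lf (nat_lit 0) (nat_lit 25519156211) (nat_lit 152) (nat_lit 2260122078) (nat_lit 0) (nat_lit 18108644924) (nat_lit 10) (nat_lit 5) (nat_lit 12) (nat_lit 4) (nat_lit 10) (nat_lit 4) (nat_lit 390) (nat_lit 334) (nat_lit 296)) (XT.lf (nat_lit 0) (nat_lit 14370515319) (nat_lit 76) (nat_lit 20978078005) (nat_lit 76) (nat_lit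 13536422423) (nat_lit 9) (nat_lit 4) (nat_lit 10) (nat_lit 5) (nat_lit 10) (nat_lit 4) (nat_lit 391) (nat_lit 334) (nat_lit 295)))))) (XT.nd (nat_lit 390) (nat_lit 228) (nat_lit 0) (XT.nd (nat_lit 156) (nat_lit 76) (nat_lit 0) (XT.nd (nat_lit 78) (nat_lit 76) (nat_lit 0) (XT.lf (nat_lit 0) (nat_lit 32342545833) (nat_lit 76) (nat_lit 13624795863) (nat_lit 76) (nat_lit 6154302973) (nat_lit 9) (nat_lit 4) (nat_lit 10) (nat_lit 5) (nat_lit 10) (nat_lit 4) (nat_lit 392) (nat_lit 334) (nat_lit 294)) (XT.lf (nat_lit 0) (nat_lit 1671522106) (nat_lit 152) (nat_lit 4020428120) (nat_lit 76) (nat_lit 49926231880) (nat_lit 8) (nat_lit 5) (nat_lit 10) (nat_lit 5) (nat_lit 9) (nat_lit 4) (nat_lit 393) (nat_lit 334) (nat_lit 293))) (XT.nd (nat_lit 78) (nat_lit 0) (nat_lit 0) (XT.lf (nat_lit 0) (nat_lit 10142016991) (nat_lit 152) (nat_lit 46034275447) (nat_lit 0) (nat_lit 3177278614) (nat_lit 7) (nat_lit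 5) (nat_lit 9) (nat_lit 4) (nat_lit 7) (nat_lit 4) (nat_lit 394) (nat_lit 334) (nat_lit 292)) (XT.nd (nat_lit 78) (nat_lit 0) (nat_lit 0) (XT.lf (nat_lit 0) (nat_lit 19499205638) (nat_lit 152) (nat_lit 31358594199) (nat_lit 0) (nat_lit 12513270979) (nat_lit 7) (nat_lit 5) (nat_lit 9) (nat_lit 4) (nat_lit 7) (nat_lit 4) (nat_lit 395) (nat_lit 334) (nat_lit 291)) (XT.lf (nat_lit 0) (nat_lit 29557219810) (nat_lit 152) (nat_lit 15604915489) (nat_lit 0) (nat_lit 22551658962) (nat_lit 7) (nat_lit 5) (nat_lit 9) (nat_lit 4) (nat_lit 7) (nat_lit 4) (nat_lit 396) (nat_lit 334) (nat_lit 290))))) (XT.nd (nat_lit 234) (nat_lit 152) (nat_lit 0) (XT.nd (nat_lit 78) (nat_lit 0) (nat_lit 0) (XT.lf (nat_lit 0) (nat_lit 1389630774) (nat_lit 76) (nat_lit 39019452433) (nat_lit 76) (nat_lit 31995719189) (nat_lit 6) (nat_lit 4) (nat_lit 7) (nat_lit 5) (nat_lit 7) (nat_lit 4) (nat_lit 397) (nat_lit 334) (nat_lit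 289)) (XT.nd (nat_lit 78) (nat_lit 0) (nat_lit 0) (XT.lf (nat_lit 0) (nat_lit 20544516096) (nat_lit 76) (nat_lit 31968223168) (nat_lit 76) (nat_lit 24927663631) (nat_lit 6) (nat_lit 4) (nat_lit 7) (nat_lit 5) (nat_lit 7) (nat_lit 4) (nat_lit 398) (nat_lit 334) (nat_lit 288)) (XT.lf (nat_lit 0) (nat_lit 41151523713) (nat_lit 76) (nat_lit 24393328487) (nat_lit 76) (nat_lit 17337189050) (nat_lit 6) (nat_lit 4) (nat_lit 7) (nat_lit 5) (nat_lit 7) (nat_lit 4) (nat_lit 399) (nat_lit 334) (nat_lit 287)))) (XT.nd (nat_lit 78) (nat_lit 152) (nat_lit 0) (XT.lf (nat_lit 0) (nat_lit 63332769225) (nat_lit 76) (nat_lit 16249880126) (nat_lit 76) (nat_lit 9179314854) (nat_lit 6) (nat_lit 4) (nat_lit 7) (nat_lit 5) (nat_lit 7) (nat_lit 4) (nat_lit 400) (nat_lit 334) (nat_lit 286)) (XT.nd (nat_lit 78) (nat_lit 152) (nat_lit 0) (XT.lf (nat_lit 0) (nat_lit 87219697051) (nat_lit 76) (nat_lit 7489620611) (nat_lit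 76) (nat_lit 405698086) (nat_lit 6) (nat_lit 4) (nat_lit 7) (nat_lit 5) (nat_lit 7) (nat_lit 4) (nat_lit 401) (nat_lit 334) (nat_lit 285)) (XT.lf (nat_lit 0) (nat_lit 8915360161) (nat_lit 152) (nat_lit 90674841307) (nat_lit 0) (nat_lit 2344720945) (nat_lit 4) (nat_lit 5) (nat_lit 6) (nat_lit 4) (nat_lit 4) (nat_lit 4) (nat_lit 402) (nat_lit 334) (nat_lit 284))))))))
noncomputable def xc78 : XT := (XT.nd (nat_lit 1560) (nat_lit 0) (nat_lit 0) (XT.nd (nat_lit 780) (nat_lit 152) (nat_lit 0) (XT.nd (nat_lit 390) (nat_lit 76) (nat_lit 0) (XT.nd (nat_lit 156) (nat_lit 0) (nat_lit 0) (XT.nd (nat_lit 78) (nat_lit 0) (nat_lit 0) (XT.lf (nat_lit 0) (nat_lit 19343848432) (nat_lit 152) (nat_lit 77162433304) (nat_lit 0) (nat_lit 12762605797) (nat_lit 4) (nat_lit 5) (nat_lit 6) (nat_lit 4) (nat_lit 4) (nat_lit 4) (nat_lit 403) (nat_lit 334) (nat_lit 283)) (XT.lf (nat_lit 0) (nat_lit 30576661067) (nat_lit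 152) (nat_lit 62629706587) (nat_lit 0) (nat_lit 23985600453) (nat_lit 4) (nat_lit 5) (nat_lit 6) (nat_lit 4) (nat_lit 4) (nat_lit 4) (nat_lit 404) (nat_lit 334) (nat_lit 282))) (XT.nd (nat_lit 78) (nat_lit 0) (nat_lit 0) (XT.lf (nat_lit 0) (nat_lit 42680362884) (nat_lit 152) (nat_lit 46990541293) (nat_lit 0) (nat_lit 36080211547) (nat_lit 4) (nat_lit 5) (nat_lit 6) (nat_lit 4) (nat_lit 4) (nat_lit 4) (nat_lit 405) (nat_lit 334) (nat_lit 281)) (XT.nd (nat_lit 78) (nat_lit 0) (nat_lit 0) (XT.lf (nat_lit 0) (nat_lit 55726679522) (nat_lit 152) (nat_lit 30152260887) (nat_lit 0) (nat_lit 49118110849) (nat_lit 4) (nat_lit 5) (nat_lit 6) (nat_lit 4) (nat_lit 4) (nat_lit 4) (nat_lit 406) (nat_lit 334) (nat_lit 280)) (XT.lf (nat_lit 0) (nat_lit 69792922487) (nat_lit 152) (nat_lit 12015082968) (nat_lit 0) (nat_lit 63176559985) (nat_lit 4) (nat_lit 5) (nat_lit 6) (nat_lit 4) (nat_lit 4) (nat_lit 4)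 (nat_lit 407) (nat_lit 334) (nat_lit 279))))) (XT.nd (nat_lit 156) (nat_lit 0) (nat_lit 0) (XT.nd (nat_lit 78) (nat_lit 0) (nat_lit 0) (XT.lf (nat_lit 0) (nat_lit 7924908032) (nat_lit 76) (nat_lit 77228133489) (nat_lit 76) (nat_lit 70604554478) (nat_lit 3) (nat_lit 4) (nat_lit 4) (nat_lit 5) (nat_lit 4) (nat_lit 4) (nat_lit 408) (nat_lit 334) (nat_lit 278)) (XT.lf (nat_lit 0) (nat_lit 30099938623) (nat_lit 76) (nat_lit 71949113044) (nat_lit 76) (nat_lit 65318852081) (nat_lit 3) (nat_lit 4) (nat_lit 4) (nat_lit 5) (nat_lit 4) (nat_lit 4) (nat_lit 409) (nat_lit 334) (nat_lit 277))) (XT.nd (nat_lit 78) (nat_lit 0) (nat_lit 0) (XT.lf (nat_lit 0) (nat_lit 54008723416) (nat_lit 76) (nat_lit 66268174697) (nat_lit 76) (nat_lit 59631726741) (nat_lit 3) (nat_lit 4) (nat_lit 4) (nat_lit 5) (nat_lit 4) (nat_lit 4) (nat_lit 410) (nat_lit 334) (nat_lit 276)) (XT.nd (nat_lit 78) (nat_lit 0) (nat_lit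 0) (XT.lf (nat_lit 0) (nat_lit 79792944099) (nat_lit 76) (nat_lit 60151653630) (nat_lit 76) (nat_lit 53509476977) (nat_lit 3) (nat_lit 4) (nat_lit 4) (nat_lit 5) (nat_lit 4) (nat_lit 4) (nat_lit 411) (nat_lit 334) (nat_lit 275)) (XT.lf (nat_lit 0) (nat_lit 107605396052) (nat_lit 76) (nat_lit 53563303791) (nat_lit 76) (nat_lit 46915822788) (nat_lit 3) (nat_lit 4) (nat_lit 4) (nat_lit 5) (nat_lit 4) (nat_lit 4) (nat_lit 412) (nat_lit 334) (nat_lit 274)))))) (XT.nd (nat_lit 390) (nat_lit 152) (nat_lit 0) (XT.nd (nat_lit 156) (nat_lit 0) (nat_lit 0) (XT.nd (nat_lit 78) (nat_lit 0) (nat_lit 0) (XT.lf (nat_lit 0) (nat_lit 137610893807) (nat_lit 76) (nat_lit 46464083106) (nat_lit 76) (nat_lit 39811690669) (nat_lit 3) (nat_lit 4) (nat_lit 4) (nat_lit 5) (nat_lit 4) (nat_lit 4) (nat_lit 413) (nat_lit 334) (nat_lit 273)) (XT.lf (nat_lit 0) (nat_lit 169987247720) (nat_lit 76) (nat_lit 38811922121)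 (nat_lit 76) (nat_lit 32154982059) (nat_lit 3) (nat_lit 4) (nat_lit 4) (nat_lit 5) (nat_lit 4) (nat_lit 4) (nat_lit 414) (nat_lit 334) (nat_lit 272))) (XT.nd (nat_lit 78) (nat_lit 0) (nat_lit 0) (XT.lf (nat_lit 0) (nat_lit 204926317667) (nat_lit 76) (nat_lit 30561474695) (nat_lit 76) (nat_lit 23900323871) (nat_lit 3) (nat_lit 4) (nat_lit 4) (nat_lit 5) (nat_lit 4) (nat_lit 4) (nat_lit 415) (nat_lit 334) (nat_lit 271)) (XT.nd (nat_lit 78) (nat_lit 0) (nat_lit 0) (XT.lf (nat_lit 0) (nat_lit 242635149988) (nat_lit 76) (nat_lit 21663849290) (nat_lit 76) (nat_lit 14998799610) (nat_lit 3) (nat_lit 4) (nat_lit 4) (nat_lit 5) (nat_lit 4) (nat_lit 4) (nat_lit 416) (nat_lit 334) (nat_lit 270)) (XT.lf (nat_lit 0) (nat_lit 283337204429) (nat_lit 76) (nat_lit 12066319234) (nat_lit 76) (nat_lit 5397659503) (nat_lit 3) (nat_lit 4) (nat_lit 4) (nat_lit 5) (nat_lit 4) (nat_lit 4) (nat_lit 417) (nat_lit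 334) (nat_lit 269))))) (XT.nd (nat_lit 156) (nat_lit 0) (nat_lit 0) (XT.nd (nat_lit 78) (nat_lit 0) (nat_lit 0) (XT.lf (nat_lit 0) (nat_lit 3293445361) (nat_lit 76) (nat_lit 1497635279) (nat_lit 152) (nat_lit 319218736267) (nat_lit 1) (nat_lit 5) (nat_lit 2) (nat_lit 5) (nat_lit 3) (nat_lit 4) (nat_lit 418) (nat_lit 334) (nat_lit 268)) (XT.lf (nat_lit 0) (nat_lit 16220723225) (nat_lit 152) (nat_lit 322745731909) (nat_lit 0) (nat_lit 10040077477) (nat_lit 1) (nat_lit 5) (nat_lit 3) (nat_lit 4) (nat_lit 1) (nat_lit 4) (nat_lit 419) (nat_lit 334) (nat_lit 267))) (XT.nd (nat_lit 78) (nat_lit 0) (nat_lit 0) (XT.lf (nat_lit 0) (nat_lit 28593475083) (nat_lit 152) (nat_lit 324997036124) (nat_lit 0) (nat_lit 22410175840) (nat_lit 1) (nat_lit 5) (nat_lit 3) (nat_lit 4) (nat_lit 1) (nat_lit 4) (nat_lit 420) (nat_lit 334) (nat_lit 266)) (XT.nd (nat_lit 78) (nat_lit 0) (nat_lit 0) (XT.lf (nat_lit 0)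 (nat_lit 41946638062) (nat_lit 152) (nat_lit 327447607088) (nat_lit 0) (nat_lit 35760881879) (nat_lit 1) (nat_lit 5) (nat_lit 3) (nat_lit 4) (nat_lit 1) (nat_lit 4) (nat_lit 421) (nat_lit 334) (nat_lit 265)) (XT.lf (nat_lit 0) (nat_lit 56359342016) (nat_lit 152) (nat_lit 330111966703) (nat_lit 0) (nat_lit 50171310889) (nat_lit 1) (nat_lit 5) (nat_lit 3) (nat_lit 4) (nat_lit 1) (nat_lit 4) (nat_lit 422) (nat_lit 334) (nat_lit 264))))))) (XT.nd (nat_lit 780) (nat_lit 0) (nat_lit 0) (XT.nd (nat_lit 390) (nat_lit 0) (nat_lit 0) (XT.nd (nat_lit 156) (nat_lit 0) (nat_lit 0) (XT.nd (nat_lit 78) (nat_lit 0) (nat_lit 0) (XT.lf (nat_lit 0) (nat_lit 71916995561) (nat_lit 152) (nat_lit 333005903766) (nat_lit 0) (nat_lit 65726858004) (nat_lit 1) (nat_lit 5) (nat_lit 3) (nat_lit 4) (nat_lit 1) (nat_lit 4) (nat_lit 423) (nat_lit 334) (nat_lit 263)) (XT.lf (nat_lit 0) (nat_lit 88711792200) (nat_lit 152)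 (nat_lit 336146567534) (nat_lit 0) (nat_lit 82519704244) (nat_lit 1) (nat_lit 5) (nat_lit 3) (nat_lit 4) (nat_lit 1) (nat_lit 4) (nat_lit 424) (nat_lit 334) (nat_lit 262))) (XT.nd (nat_lit 78) (nat_lit 0) (nat_lit 0) (XT.lf (nat_lit 0) (nat_lit 106843256653) (nat_lit 152) (nat_lit 339552569348) (nat_lit 0) (nat_lit 100649362773) (nat_lit 1) (nat_lit 5) (nat_lit 3) (nat_lit 4) (nat_lit 1) (nat_lit 4) (nat_lit 425) (nat_lit 334) (nat_lit 261)) (XT.nd (nat_lit 78) (nat_lit 0) (nat_lit 0) (XT.lf (nat_lit 0) (nat_lit 126418834637) (nat_lit 152) (nat_lit 343244092923) (nat_lit 0) (nat_lit 120223268604) (nat_lit 1) (nat_lit 5) (nat_lit 3) (nat_lit 4) (nat_lit 1) (nat_lit 4) (nat_lit 426) (nat_lit 334) (nat_lit 260)) (XT.lf (nat_lit 0) (nat_lit 147554529574) (nat_lit 152) (nat_lit 347243013954) (nat_lit 0) (nat_lit 141357415253) (nat_lit 1) (nat_lit 5) (nat_lit 3) (nat_lit 4) (nat_lit 1) (nat_lit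 4) (nat_lit 427) (nat_lit 334) (nat_lit 259))))) (XT.nd (nat_lit 156) (nat_lit 0) (nat_lit 0) (XT.nd (nat_lit 78) (nat_lit 0) (nat_lit 0) (XT.lf (nat_lit 0) (nat_lit 170375590030) (nat_lit 152) (nat_lit 351573029750) (nat_lit 0) (nat_lit 164177042108) (nat_lit 1) (nat_lit 5) (nat_lit 3) (nat_lit 4) (nat_lit 1) (nat_lit 4) (nat_lit 428) (nat_lit 334) (nat_lit 258)) (XT.lf (nat_lit 0) (nat_lit 195017251916) (nat_lit 152) (nat_lit 356259799665) (nat_lit 0) (nat_lit 188817376586) (nat_lit 1) (nat_lit 5) (nat_lit 3) (nat_lit 4) (nat_lit 1) (nat_lit 4) (nat_lit 429) (nat_lit 334) (nat_lit 257))) (XT.nd (nat_lit 78) (nat_lit 0) (nat_lit 0) (XT.lf (nat_lit 0) (nat_lit 221625539897) (nat_lit 152) (nat_lit 361331097150) (nat_lit 0) (nat_lit 215424435485) (nat_lit 1) (nat_lit 5) (nat_lit 3) (nat_lit 4) (nat_lit 1) (nat_lit 4) (nat_lit 430) (nat_lit 334) (nat_lit 256)) (XT.nd (nat_lit 78) (nat_lit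 0) (nat_lit 0) (XT.lf (nat_lit 0) (nat_lit 250358132716) (nat_lit 152) (nat_lit 366816974337) (nat_lit 0) (nat_lit 244155890265) (nat_lit 1) (nat_lit 5) (nat_lit 3) (nat_lit 4) (nat_lit 1) (nat_lit 4) (nat_lit 431) (nat_lit 334) (nat_lit 255)) (XT.lf (nat_lit 0) (nat_lit 281385297589) (nat_lit 152) (nat_lit 372749940130) (nat_lit 0) (nat_lit 275182001399) (nat_lit 1) (nat_lit 5) (nat_lit 3) (nat_lit 4) (nat_lit 1) (nat_lit 4) (nat_lit 432) (nat_lit 334) (nat_lit 254)))))) (XT.nd (nat_lit 390) (nat_lit 0) (nat_lit 0) (XT.nd (nat_lit 156) (nat_lit 0) (nat_lit 0) (XT.nd (nat_lit 78) (nat_lit 0) (nat_lit 0) (XT.lf (nat_lit 0) (nat_lit 314890899198) (nat_lit 152) (nat_lit 379165152843) (nat_lit 0) (nat_lit 308686627323) (nat_lit 1) (nat_lit 5) (nat_lit 3) (nat_lit 4) (nat_lit 1) (nat_lit 4) (nat_lit 433) (nat_lit 334) (nat_lit 253)) (XT.lf (nat_lit 0) (nat_lit 351073489255) (nat_lit 152) (nat_lit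 386100628552) (nat_lit 0) (nat_lit 344868313968) (nat_lit 1) (nat_lit 5) (nat_lit 3) (nat_lit 4) (nat_lit 1) (nat_lit 4) (nat_lit 434) (nat_lit 334) (nat_lit 252))) (XT.nd (nat_lit 78) (nat_lit 0) (nat_lit 0) (XT.lf (nat_lit 0) (nat_lit 390147483109) (nat_lit 152) (nat_lit 393597466373) (nat_lit 0) (nat_lit 383941471330) (nat_lit 1) (nat_lit 5) (nat_lit 3) (nat_lit 4) (nat_lit 1) (nat_lit 4) (nat_lit 435) (nat_lit 334) (nat_lit 251)) (XT.nd (nat_lit 78) (nat_lit 0) (nat_lit 0) (XT.lf (nat_lit 0) (nat_lit 432344430353) (nat_lit 152) (nat_lit 401700092011) (nat_lit 0) (nat_lit 426137644044) (nat_lit 1) (nat_lit 5) (nat_lit 3) (nat_lit 4) (nat_lit 1) (nat_lit 4) (nat_lit 436) (nat_lit 334) (nat_lit 250)) (XT.lf (nat_lit 0) (nat_lit 477914386971) (nat_lit 152) (nat_lit 410456521025) (nat_lit 0) (nat_lit 471706883505) (nat_lit 1) (nat_lit 5) (nat_lit 3) (nat_lit 4) (nat_lit 1) (nat_lit 4) (nat_lit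 437) (nat_lit 334) (nat_lit 249))))) (XT.nd (nat_lit 234) (nat_lit 0) (nat_lit 0) (XT.nd (nat_lit 78) (nat_lit 0) (nat_lit 0) (XT.lf (nat_lit 0) (nat_lit 527127397151) (nat_lit 152) (nat_lit 419918643365) (nat_lit 0) (nat_lit 520919229650) (nat_lit 1) (nat_lit 5) (nat_lit 3) (nat_lit 4) (nat_lit 1) (nat_lit 4) (nat_lit 438) (nat_lit 334) (nat_lit 248)) (XT.nd (nat_lit 78) (nat_lit 0) (nat_lit 0) (XT.lf (nat_lit 0) (nat_lit 580275093544) (nat_lit 152) (nat_lit 430142530867) (nat_lit 0) (nat_lit 574066311196) (nat_lit 1) (nat_lit 5) (nat_lit 3) (nat_lit 4) (nat_lit 1) (nat_lit 4) (nat_lit 439) (nat_lit 334) (nat_lit 247)) (XT.lf (nat_lit 0) (nat_lit 637672425464) (nat_lit 152) (nat_lit 441188769531) (nat_lit 0) (nat_lit 631463073813) (nat_lit 1) (nat_lit 5) (nat_lit 3) (nat_lit 4) (nat_lit 1) (nat_lit 4) (nat_lit 440) (nat_lit 334) (nat_lit 246)))) (XT.nd (nat_lit 78) (nat_lit 0) (nat_lit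 0) (XT.lf (nat_lit 0) (nat_lit 699659525247) (nat_lit 152) (nat_lit 453122818549) (nat_lit 0) (nat_lit 693449646465) (nat_lit 1) (nat_lit 5) (nat_lit 3) (nat_lit 4) (nat_lit 1) (nat_lit 4) (nat_lit 441) (nat_lit 334) (nat_lit 245)) (XT.nd (nat_lit 78) (nat_lit 0) (nat_lit 0) (XT.lf (nat_lit 0) (nat_lit 766603723855) (nat_lit 152) (nat_lit 466015398213) (nat_lit 0) (nat_lit 760393356988) (nat_lit 1) (nat_lit 5) (nat_lit 3) (nat_lit 4) (nat_lit 1) (nat_lit 4) (nat_lit 442) (nat_lit 334) (nat_lit 244)) (XT.lf (nat_lit 0) (nat_lit 838901727651) (nat_lit 152) (nat_lit 479942908992) (nat_lit 0) (nat_lit 832690908852) (nat_lit 1) (nat_lit 5) (nat_lit 3) (nat_lit 4) (nat_lit 1) (nat_lit 4) (nat_lit 443) (nat_lit 334) (nat_lit 243))))))))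
noncomputable def xc79 : XT := (XT.nd (nat_lit 45864) (nat_lit 0) (nat_lit 1748) (XT.nd (nat_lit 780) (nat_lit 0) (nat_lit 0) (XT.nd (nat_lit 390) (nat_lit 0) (nat_lit 0) (XT.nd (nat_lit 156) (nat_lit 0) (nat_lit 0) (XT.nd (nat_lit 78) (nat_lit 0) (nat_lit 0) (XT.lf (nat_lit 0) (nat_lit 916981969249) (nat_lit 152) (nat_lit 494987884286) (nat_lit 0) (nat_lit 910770731996) (nat_lit 1) (nat_lit 5) (nat_lit 3) (nat_lit 4) (nat_lit 1) (nat_lit 4) (nat_lit 444) (nat_lit 334) (nat_lit 242)) (XT.lf (nat_lit 0) (nat_lit 1001307146377) (nat_lit 152) (nat_lit 511239479503) (nat_lit 0) (nat_lit 995095521666) (nat_lit 1) (nat_lit 5) (nat_lit 3) (nat_lit 4) (nat_lit 1) (nat_lit 4) (nat_lit 445) (nat_lit 334) (nat_lit 241))) (XT.nd (nat_lit 78) (nat_lit 0) (nat_lit 0) (XT.lf (nat_lit 0) (nat_lit 1092376963788) (nat_lit 152) (nat_lit 528794000393) (nat_lit 0) (nat_lit 1086164980320) (nat_lit 1) (nat_lit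 5) (nat_lit 3) (nat_lit 4) (nat_lit 1) (nat_lit 4) (nat_lit 446) (nat_lit 334) (nat_lit 240)) (XT.nd (nat_lit 78) (nat_lit 0) (nat_lit 0) (XT.lf (nat_lit 0) (nat_lit 1190731094476) (nat_lit 152) (nat_lit 547755473745) (nat_lit 0) (nat_lit 1184518778825) (nat_lit 1) (nat_lit 5) (nat_lit 3) (nat_lit 4) (nat_lit 1) (nat_lit 4) (nat_lit 447) (nat_lit 334) (nat_lit 239)) (XT.lf (nat_lit 0) (nat_lit 1296952377732) (nat_lit 152) (nat_lit 568236263848) (nat_lit 0) (nat_lit 1290739754505) (nat_lit 1) (nat_lit 5) (nat_lit 3) (nat_lit 4) (nat_lit 1) (nat_lit 4) (nat_lit 448) (nat_lit 334) (nat_lit 238))))) (XT.nd (nat_lit 156) (nat_lit 0) (nat_lit 0) (XT.nd (nat_lit 78) (nat_lit 0) (nat_lit 0) (XT.lf (nat_lit 0) (nat_lit 1411670273013) (nat_lit 152) (nat_lit 590357738344) (nat_lit 0) (nat_lit 1405457364993) (nat_lit 1) (nat_lit 5) (nat_lit 3) (nat_lit 4) (nat_lit 1) (nat_lit 4) (nat_lit 449) (nat_lit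 334) (nat_lit 237)) (XT.lf (nat_lit 0) (nat_lit 1535564590069) (nat_lit 152) (nat_lit 614250987455) (nat_lit 0) (nat_lit 1529351418352) (nat_lit 1) (nat_lit 5) (nat_lit 3) (nat_lit 4) (nat_lit 1) (nat_lit 4) (nat_lit 450) (nat_lit 334) (nat_lit 236))) (XT.nd (nat_lit 78) (nat_lit 0) (nat_lit 0) (XT.lf (nat_lit 0) (nat_lit 1669369517446) (nat_lit 152) (nat_lit 640057600804) (nat_lit 0) (nat_lit 1663156101564) (nat_lit 1) (nat_lit 5) (nat_lit 3) (nat_lit 4) (nat_lit 1) (nat_lit 4) (nat_lit 451) (nat_lit 334) (nat_lit 235)) (XT.nd (nat_lit 78) (nat_lit 0) (nat_lit 0) (XT.lf (nat_lit 0) (nat_lit 1813877973231) (nat_lit 152) (nat_lit 667930506470) (nat_lit 0) (nat_lit 1807664331271) (nat_lit 1) (nat_lit 5) (nat_lit 3) (nat_lit 4) (nat_lit 1) (nat_lit 4) (nat_lit 452) (nat_lit 334) (nat_lit 234)) (XT.lf (nat_lit 0) (nat_lit 1969946303829) (nat_lit 152) (nat_lit 698034877227) (nat_lit 0) (nat_lit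 1963732452538) (nat_lit 1) (nat_lit 5) (nat_lit 3) (nat_lit 4) (nat_lit 1) (nat_lit 4) (nat_lit 453) (nat_lit 334) (nat_lit 233)))))) (XT.nd (nat_lit 390) (nat_lit 0) (nat_lit 0) (XT.nd (nat_lit 156) (nat_lit 0) (nat_lit 0) (XT.nd (nat_lit 78) (nat_lit 0) (nat_lit 0) (XT.lf (nat_lit 0) (nat_lit 2138499358607) (nat_lit 152) (nat_lit 730549109348) (nat_lit 0) (nat_lit 2132285313490) (nat_lit 1) (nat_lit 5) (nat_lit 3) (nat_lit 4) (nat_lit 1) (nat_lit 4) (nat_lit 454) (nat_lit 334) (nat_lit 232)) (XT.lf (nat_lit 0) (nat_lit 2320535970481) (nat_lit 152) (nat_lit 765665879762) (nat_lit 0) (nat_lit 2314321745897) (nat_lit 1) (nat_lit 5) (nat_lit 3) (nat_lit 4) (nat_lit 1) (nat_lit 4) (nat_lit 455) (nat_lit 334) (nat_lit 231))) (XT.nd (nat_lit 78) (nat_lit 0) (nat_lit 0) (XT.lf (nat_lit 0) (nat_lit 2517134874931) (nat_lit 152) (nat_lit 803593287850) (nat_lit 0) (nat_lit 2510920484172) (nat_lit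 1) (nat_lit 5) (nat_lit 3) (nat_lit 4) (nat_lit 1) (nat_lit 4) (nat_lit 456) (nat_lit 334) (nat_lit 230)) (XT.nd (nat_lit 78) (nat_lit 0) (nat_lit 0) (XT.lf (nat_lit 0) (nat_lit 2729461102499) (nat_lit 152) (nat_lit 844556088624) (nat_lit 0) (nat_lit 2723246557876) (nat_lit 1) (nat_lit 5) (nat_lit 3) (nat_lit 4) (nat_lit 1) (nat_lit 4) (nat_lit 457) (nat_lit 334) (nat_lit 229)) (XT.lf (nat_lit 0) (nat_lit 2958772882684) (nat_lit 152) (nat_lit 888797024605) (nat_lit 0) (nat_lit 2952558195594) (nat_lit 1) (nat_lit 5) (nat_lit 3) (nat_lit 4) (nat_lit 1) (nat_lit 4) (nat_lit 458) (nat_lit 334) (nat_lit 228))))) (XT.nd (nat_lit 234) (nat_lit 0) (nat_lit 0) (XT.nd (nat_lit 78) (nat_lit 0) (nat_lit 0) (XT.lf (nat_lit 0) (nat_lit 3206429100109) (nat_lit 152) (nat_lit 936578264304) (nat_lit 0) (nat_lit 3200214281104) (nat_lit 1) (nat_lit 5) (nat_lit 3) (nat_lit 4) (nat_lit 1) (nat_lit 4) (nat_lit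 459) (nat_lit 334) (nat_lit 227)) (XT.nd (nat_lit 78) (nat_lit 0) (nat_lit 0) (XT.lf (nat_lit 0) (nat_lit 3473897347173) (nat_lit 152) (nat_lit 988182955808) (nat_lit 0) (nat_lit 3467682406025) (nat_lit 1) (nat_lit 5) (nat_lit 3) (nat_lit 4) (nat_lit 1) (nat_lit 4) (nat_lit 460) (nat_lit 334) (nat_lit 226)) (XT.lf (nat_lit 0) (nat_lit 3762762620895) (nat_lit 152) (nat_lit 1043916904696) (nat_lit 0) (nat_lit 3756547566652) (nat_lit 1) (nat_lit 5) (nat_lit 3) (nat_lit 4) (nat_lit 1) (nat_lit 4) (nat_lit 461) (nat_lit 334) (nat_lit 225)))) (XT.nd (nat_lit 78) (nat_lit 0) (nat_lit 0) (XT.lf (nat_lit 0) (nat_lit 4074736715491) (nat_lit 152) (nat_lit 1104110386220) (nat_lit 0) (nat_lit 4068521556530) (nat_lit 1) (nat_lit 5) (nat_lit 3) (nat_lit 4) (nat_lit 1) (nat_lit 4) (nat_lit 462) (nat_lit 334) (nat_lit 224)) (XT.nd (nat_lit 44304) (nat_lit 0) (nat_lit 4712) (XT.lf (nat_lit 0) (nat_lit 4411668366336)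 (nat_lit 152) (nat_lit 1169120102494) (nat_lit 0) (nat_lit 4405453110414) (nat_lit 1) (nat_lit 5) (nat_lit 3) (nat_lit 4) (nat_lit 1) (nat_lit 4) (nat_lit 463) (nat_lit 334) (nat_lit 223)) (XT.lf (nat_lit 0) (nat_lit 374401272) (nat_lit 532) (nat_lit 2838485491) (nat_lit 0) (nat_lit 374401272) (nat_lit 63) (nat_lit 5) (nat_lit 70) (nat_lit 4) (nat_lit 63) (nat_lit 4) (nat_lit 350) (nat_lit 335) (nat_lit 335))))))) (XT.nd (nat_lit 780) (nat_lit 1140) (nat_lit 0) (XT.nd (nat_lit 390) (nat_lit 836) (nat_lit 0) (XT.nd (nat_lit 156) (nat_lit 532) (nat_lit 0) (XT.nd (nat_lit 78) (nat_lit 456) (nat_lit 0) (XT.lf (nat_lit 0) (nat_lit 4242779447) (nat_lit 532) (nat_lit 423826853) (nat_lit 0) (nat_lit 2665204441) (nat_lit 63) (nat_lit 5) (nat_lit 70) (nat_lit 4) (nat_lit 63) (nat_lit 4) (nat_lit 351) (nat_lit 335) (nat_lit 334)) (XT.lf (nat_lit 0) (nat_lit 360749541) (nat_lit 456) (nat_lit 2287933558)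 (nat_lit 76) (nat_lit 4862460841) (nat_lit 57) (nat_lit 5) (nat_lit 63) (nat_lit 5) (nat_lit 58) (nat_lit 4) (nat_lit 352) (nat_lit 335) (nat_lit 333))) (XT.nd (nat_lit 78) (nat_lit 304) (nat_lit 0) (XT.lf (nat_lit 0) (nat_lit 3449894681) (nat_lit 228) (nat_lit 319674347) (nat_lit 304) (nat_lit 3941078873) (nat_lit 54) (nat_lit 5) (nat_lit 57) (nat_lit 5) (nat_lit 58) (nat_lit 4) (nat_lit 353) (nat_lit 335) (nat_lit 332)) (XT.nd (nat_lit 78) (nat_lit 76) (nat_lit 0) (XT.lf (nat_lit 0) (nat_lit 1585638093) (nat_lit 228) (nat_lit 5786086455) (nat_lit 228) (nat_lit 560957934) (nat_lit 51) (nat_lit 4) (nat_lit 54) (nat_lit 5) (nat_lit 54) (nat_lit 4) (nat_lit 354) (nat_lit 335) (nat_lit 331)) (XT.lf (nat_lit 0) (nat_lit 2832795699) (nat_lit 304) (nat_lit 406584505) (nat_lit 76) (nat_lit 4935522454) (nat_lit 50) (nat_lit 5) (nat_lit 54) (nat_lit 5) (nat_lit 51) (nat_lit 4) (nat_lit 355) (nat_lit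 335) (nat_lit 330))))) (XT.nd (nat_lit 156) (nat_lit 380) (nat_lit 0) (XT.nd (nat_lit 78) (nat_lit 304) (nat_lit 0) (XT.lf (nat_lit 0) (nat_lit 6017950272) (nat_lit 152) (nat_lit 381515923) (nat_lit 228) (nat_lit 2041506030) (nat_lit 48) (nat_lit 5) (nat_lit 50) (nat_lit 5) (nat_lit 51) (nat_lit 4) (nat_lit 356) (nat_lit 335) (nat_lit 329)) (XT.lf (nat_lit 0) (nat_lit 1415894149) (nat_lit 304) (nat_lit 4659976537) (nat_lit 76) (nat_lit 2652160776) (nat_lit 44) (nat_lit 5) (nat_lit 48) (nat_lit 5) (nat_lit 45) (nat_lit 4) (nat_lit 357) (nat_lit 335) (nat_lit 328))) (XT.nd (nat_lit 78) (nat_lit 228) (nat_lit 0) (XT.lf (nat_lit 0) (nat_lit 1926147262) (nat_lit 152) (nat_lit 3035566150) (nat_lit 228) (nat_lit 4078469328) (nat_lit 42) (nat_lit 5) (nat_lit 44) (nat_lit 5) (nat_lit 45) (nat_lit 4) (nat_lit 358) (nat_lit 335) (nat_lit 327)) (XT.nd (nat_lit 78) (nat_lit 228) (nat_lit 0) (XT.lf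 (nat_lit 0) (nat_lit 8731883224) (nat_lit 228) (nat_lit 367431363) (nat_lit 0) (nat_lit 282865532) (nat_lit 42) (nat_lit 5) (nat_lit 45) (nat_lit 4) (nat_lit 42) (nat_lit 4) (nat_lit 359) (nat_lit 335) (nat_lit 326)) (XT.lf (nat_lit 0) (nat_lit 2964598416) (nat_lit 228) (nat_lit 2909129724) (nat_lit 76) (nat_lit 3866835355) (nat_lit 39) (nat_lit 5) (nat_lit 42) (nat_lit 5) (nat_lit 40) (nat_lit 4) (nat_lit 360) (nat_lit 335) (nat_lit 325)))))) (XT.nd (nat_lit 390) (nat_lit 456) (nat_lit 0) (XT.nd (nat_lit 156) (nat_lit 304) (nat_lit 0) (XT.nd (nat_lit 78) (nat_lit 228) (nat_lit 0) (XT.lf (nat_lit 0) (nat_lit 4428713984) (nat_lit 152) (nat_lit 2342574222) (nat_lit 228) (nat_lit 3360061452) (nat_lit 37) (nat_lit 5) (nat_lit 39) (nat_lit 5) (nat_lit 40) (nat_lit 4) (nat_lit 361) (nat_lit 335) (nat_lit 324)) (XT.lf (nat_lit 0) (nat_lit 296400458) (nat_lit 228) (nat_lit 8821142894) (nat_lit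 76) (nat_lit 1436609836) (nat_lit 34) (nat_lit 5) (nat_lit 37) (nat_lit 5) (nat_lit 35) (nat_lit 4) (nat_lit 362) (nat_lit 335) (nat_lit 323))) (XT.nd (nat_lit 78) (nat_lit 304) (nat_lit 0) (XT.lf (nat_lit 0) (nat_lit 4111958306) (nat_lit 228) (nat_lit 1345261676) (nat_lit 76) (nat_lit 5542811470) (nat_lit 34) (nat_lit 5) (nat_lit 37) (nat_lit 5) (nat_lit 35) (nat_lit 4) (nat_lit 363) (nat_lit 335) (nat_lit 322)) (XT.nd (nat_lit 78) (nat_lit 228) (nat_lit 0) (XT.lf (nat_lit 0) (nat_lit 6807559616) (nat_lit 76) (nat_lit 1429009669) (nat_lit 152) (nat_lit 3244781169) (nat_lit 33) (nat_lit 5) (nat_lit 34) (nat_lit 5) (nat_lit 35) (nat_lit 4) (nat_lit 364) (nat_lit 335) (nat_lit 321)) (XT.lf (nat_lit 0) (nat_lit 692634140) (nat_lit 228) (nat_lit 8484590534) (nat_lit 76) (nat_lit 2819713197) (nat_lit 30) (nat_lit 5) (nat_lit 33) (nat_lit 5) (nat_lit 31) (nat_lit 4) (nat_lit 365) (nat_lit 335)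 (nat_lit 320))))) (XT.nd (nat_lit 234) (nat_lit 152) (nat_lit 0) (XT.nd (nat_lit 78) (nat_lit 304) (nat_lit 0) (XT.lf (nat_lit 0) (nat_lit 4782739012) (nat_lit 228) (nat_lit 315638291) (nat_lit 76) (nat_lit 7447672334) (nat_lit 30) (nat_lit 5) (nat_lit 33) (nat_lit 5) (nat_lit 31) (nat_lit 4) (nat_lit 366) (nat_lit 335) (nat_lit 319)) (XT.nd (nat_lit 78) (nat_lit 228) (nat_lit 0) (XT.lf (nat_lit 0) (nat_lit 8694980881) (nat_lit 76) (nat_lit 570456936) (nat_lit 152) (nat_lit 3868476924) (nat_lit 29) (nat_lit 5) (nat_lit 30) (nat_lit 5) (nat_lit 31) (nat_lit 4) (nat_lit 367) (nat_lit 335) (nat_lit 318)) (XT.lf (nat_lit 0) (nat_lit 403960060) (nat_lit 228) (nat_lit 9222086894) (nat_lit 76) (nat_lit 4135525502) (nat_lit 26) (nat_lit 5) (nat_lit 29) (nat_lit 5) (nat_lit 27) (nat_lit 4) (nat_lit 368) (nat_lit 335) (nat_lit 317)))) (XT.nd (nat_lit 78) (nat_lit 152) (nat_lit 0) (XT.lf (nat_lit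 0) (nat_lit 4808247115) (nat_lit 228) (nat_lit 309952354) (nat_lit 76) (nat_lit 9313324512) (nat_lit 26) (nat_lit 5) (nat_lit 29) (nat_lit 5) (nat_lit 27) (nat_lit 4) (nat_lit 369) (nat_lit 335) (nat_lit 316)) (XT.nd (nat_lit 78) (nat_lit 76) (nat_lit 0) (XT.lf (nat_lit 0) (nat_lit 9561617227) (nat_lit 76) (nat_lit 103324011) (nat_lit 152) (nat_lit 5482165862) (nat_lit 25) (nat_lit 5) (nat_lit 26) (nat_lit 5) (nat_lit 27) (nat_lit 4) (nat_lit 370) (nat_lit 335) (nat_lit 315)) (XT.lf (nat_lit 0) (nat_lit 4168136560) (nat_lit 76) (nat_lit 10850626861) (nat_lit 76) (nat_lit 892523644) (nat_lit 24) (nat_lit 4) (nat_lit 25) (nat_lit 5) (nat_lit 25) (nat_lit 4) (nat_lit 371) (nat_lit 335) (nat_lit 314))))))))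
noncomputable def xc80 : XT := (XT.nd (nat_lit 1560) (nat_lit 532) (nat_lit 0) (XT.nd (nat_lit 780) (nat_lit 456) (nat_lit 0) (XT.nd (nat_lit 390) (nat_lit 228) (nat_lit 0) (XT.nd (nat_lit 156) (nat_lit 228) (nat_lit 0) (XT.nd (nat_lit 78) (nat_lit 76) (nat_lit 0) (XT.lf (nat_lit 0) (nat_lit 3892984107) (nat_lit 152) (nat_lit 2043558860) (nat_lit 76) (nat_lit 10789710476) (nat_lit 23) (nat_lit 5) (nat_lit 25) (nat_lit 5) (nat_lit 24) (nat_lit 4) (nat_lit 372) (nat_lit 335) (nat_lit 313)) (XT.lf (nat_lit 0) (nat_lit 8623064412) (nat_lit 76) (nat_lit 479506466) (nat_lit 152) (nat_lit 8494864876) (nat_lit 22) (nat_lit 5) (nat_lit 23) (nat_lit 5) (nat_lit 24) (nat_lit 4) (nat_lit 373) (nat_lit 335) (nat_lit 312))) (XT.nd (nat_lit 78) (nat_lit 152) (nat_lit 0) (XT.lf (nat_lit 0) (nat_lit 1447707178) (nat_lit 76) (nat_lit 13386947628) (nat_lit 76) (nat_lit 3695227061) (nat_lit 21) (nat_lit 4)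 (nat_lit 22) (nat_lit 5) (nat_lit 22) (nat_lit 4) (nat_lit 374) (nat_lit 335) (nat_lit 311)) (XT.nd (nat_lit 78) (nat_lit 76) (nat_lit 0) (XT.lf (nat_lit 0) (nat_lit 1562064112) (nat_lit 152) (nat_lit 6577036675) (nat_lit 76) (nat_lit 11383131947) (nat_lit 20) (nat_lit 5) (nat_lit 22) (nat_lit 5) (nat_lit 21) (nat_lit 4) (nat_lit 375) (nat_lit 335) (nat_lit 310)) (XT.lf (nat_lit 0) (nat_lit 4705073606) (nat_lit 76) (nat_lit 2340915259) (nat_lit 152) (nat_lit 13539871265) (nat_lit 19) (nat_lit 5) (nat_lit 20) (nat_lit 5) (nat_lit 21) (nat_lit 4) (nat_lit 376) (nat_lit 335) (nat_lit 309))))) (XT.nd (nat_lit 156) (nat_lit 152) (nat_lit 0) (XT.nd (nat_lit 78) (nat_lit 76) (nat_lit 0) (XT.lf (nat_lit 0) (nat_lit 13140920050) (nat_lit 152) (nat_lit 4759176093) (nat_lit 0) (nat_lit 3820718491) (nat_lit 19) (nat_lit 5) (nat_lit 21) (nat_lit 4) (nat_lit 19) (nat_lit 4) (nat_lit 377) (nat_lit 335)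 (nat_lit 308)) (XT.lf (nat_lit 0) (nat_lit 7371398875) (nat_lit 76) (nat_lit 12491512357) (nat_lit 76) (nat_lit 3072515832) (nat_lit 18) (nat_lit 4) (nat_lit 19) (nat_lit 5) (nat_lit 19) (nat_lit 4) (nat_lit 378) (nat_lit 335) (nat_lit 307))) (XT.nd (nat_lit 78) (nat_lit 76) (nat_lit 0) (XT.lf (nat_lit 0) (nat_lit 2766874130) (nat_lit 152) (nat_lit 3755375154) (nat_lit 76) (nat_lit 17716621934) (nat_lit 17) (nat_lit 5) (nat_lit 19) (nat_lit 5) (nat_lit 18) (nat_lit 4) (nat_lit 379) (nat_lit 335) (nat_lit 306)) (XT.nd (nat_lit 78) (nat_lit 0) (nat_lit 0) (XT.lf (nat_lit 0) (nat_lit 9041782296) (nat_lit 152) (nat_lit 16430328250) (nat_lit 0) (nat_lit 157361826) (nat_lit 16) (nat_lit 5) (nat_lit 18) (nat_lit 4) (nat_lit 16) (nat_lit 4) (nat_lit 380) (nat_lit 335) (nat_lit 305)) (XT.lf (nat_lit 0) (nat_lit 16003126308) (nat_lit 152) (nat_lit 4067365090) (nat_lit 0) (nat_lit 7046088589) (nat_lit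 16) (nat_lit 5) (nat_lit 18) (nat_lit 4) (nat_lit 16) (nat_lit 4) (nat_lit 381) (nat_lit 335) (nat_lit 304)))))) (XT.nd (nat_lit 390) (nat_lit 152) (nat_lit 0) (XT.nd (nat_lit 156) (nat_lit 152) (nat_lit 0) (XT.nd (nat_lit 78) (nat_lit 76) (nat_lit 0) (XT.lf (nat_lit 0) (nat_lit 9602219466) (nat_lit 76) (nat_lit 14066470254) (nat_lit 76) (nat_lit 5042194341) (nat_lit 15) (nat_lit 4) (nat_lit 16) (nat_lit 5) (nat_lit 16) (nat_lit 4) (nat_lit 382) (nat_lit 335) (nat_lit 303)) (XT.lf (nat_lit 0) (nat_lit 1469724327) (nat_lit 152) (nat_lit 6029506899) (nat_lit 76) (nat_lit 22928139131) (nat_lit 14) (nat_lit 5) (nat_lit 16) (nat_lit 5) (nat_lit 15) (nat_lit 4) (nat_lit 383) (nat_lit 335) (nat_lit 302))) (XT.nd (nat_lit 78) (nat_lit 76) (nat_lit 0) (XT.lf (nat_lit 0) (nat_lit 8225530662) (nat_lit 76) (nat_lit 125291490) (nat_lit 152) (nat_lit 23910235471) (nat_lit 13) (nat_lit 5) (nat_lit 14)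 (nat_lit 5) (nat_lit 15) (nat_lit 4) (nat_lit 384) (nat_lit 335) (nat_lit 301)) (XT.nd (nat_lit 78) (nat_lit 76) (nat_lit 0) (XT.lf (nat_lit 0) (nat_lit 16063320070) (nat_lit 152) (nat_lit 10608591028) (nat_lit 0) (nat_lit 7547065198) (nat_lit 13) (nat_lit 5) (nat_lit 15) (nat_lit 4) (nat_lit 13) (nat_lit 4) (nat_lit 385) (nat_lit 335) (nat_lit 300)) (XT.lf (nat_lit 0) (nat_lit 3946464783) (nat_lit 76) (nat_lit 20473459948) (nat_lit 76) (nat_lit 11911443890) (nat_lit 12) (nat_lit 4) (nat_lit 13) (nat_lit 5) (nat_lit 13) (nat_lit 4) (nat_lit 386) (nat_lit 335) (nat_lit 299))))) (XT.nd (nat_lit 156) (nat_lit 76) (nat_lit 0) (XT.nd (nat_lit 78) (nat_lit 76) (nat_lit 0) (XT.lf (nat_lit 0) (nat_lit 20132595544) (nat_lit 76) (nat_lit 13533437191) (nat_lit 76) (nat_lit 4929049666) (nat_lit 12) (nat_lit 4) (nat_lit 13) (nat_lit 5) (nat_lit 13) (nat_lit 4) (nat_lit 387) (nat_lit 335) (nat_lit 298))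 (XT.lf (nat_lit 0) (nat_lit 2415642467) (nat_lit 152) (nat_lit 3619084032) (nat_lit 76) (nat_lit 35005399049) (nat_lit 11) (nat_lit 5) (nat_lit 13) (nat_lit 5) (nat_lit 12) (nat_lit 4) (nat_lit 388) (nat_lit 335) (nat_lit 297))) (XT.nd (nat_lit 78) (nat_lit 0) (nat_lit 0) (XT.lf (nat_lit 0) (nat_lit 10388302212) (nat_lit 152) (nat_lit 30906384859) (nat_lit 0) (nat_lit 2351314184) (nat_lit 10) (nat_lit 5) (nat_lit 12) (nat_lit 4) (nat_lit 10) (nat_lit 4) (nat_lit 389) (nat_lit 335) (nat_lit 296)) (XT.nd (nat_lit 78) (nat_lit 0) (nat_lit 0) (XT.lf (nat_lit 0) (nat_lit 19196550992) (nat_lit 152) (nat_lit 16119561182) (nat_lit 0) (nat_lit 11128418670) (nat_lit 10) (nat_lit 5) (nat_lit 12) (nat_lit 4) (nat_lit 10) (nat_lit 4) (nat_lit 390) (nat_lit 335) (nat_lit 295)) (XT.lf (nat_lit 0) (nat_lit 28653448339) (nat_lit 152) (nat_lit 261502153) (nat_lit 0) (nat_lit 20556478708) (nat_lit 10) (nat_lit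 5) (nat_lit 12) (nat_lit 4) (nat_lit 10) (nat_lit 4) (nat_lit 391) (nat_lit 335) (nat_lit 294))))))) (XT.nd (nat_lit 780) (nat_lit 228) (nat_lit 0) (XT.nd (nat_lit 390) (nat_lit 76) (nat_lit 0) (XT.nd (nat_lit 156) (nat_lit 152) (nat_lit 0) (XT.nd (nat_lit 78) (nat_lit 0) (nat_lit 0) (XT.lf (nat_lit 0) (nat_lit 17644410800) (nat_lit 76) (nat_lit 21594972827) (nat_lit 76) (nat_lit 13471301985) (nat_lit 9) (nat_lit 4) (nat_lit 10) (nat_lit 5) (nat_lit 10) (nat_lit 4) (nat_lit 392) (nat_lit 335) (nat_lit 293)) (XT.lf (nat_lit 0) (nat_lit 36896851589) (nat_lit 76) (nat_lit 13732046738) (nat_lit 76) (nat_lit 5583652551) (nat_lit 9) (nat_lit 4) (nat_lit 10) (nat_lit 5) (nat_lit 10) (nat_lit 4) (nat_lit 393) (nat_lit 335) (nat_lit 292))) (XT.nd (nat_lit 78) (nat_lit 76) (nat_lit 0) (XT.lf (nat_lit 0) (nat_lit 2740261802) (nat_lit 152) (nat_lit 2471541623) (nat_lit 76) (nat_lit 54780953093) (nat_lit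 8) (nat_lit 5) (nat_lit 10) (nat_lit 5) (nat_lit 9) (nat_lit 4) (nat_lit 394) (nat_lit 335) (nat_lit 291)) (XT.nd (nat_lit 78) (nat_lit 0) (nat_lit 0) (XT.lf (nat_lit 0) (nat_lit 11884954043) (nat_lit 152) (nat_lit 47842981609) (nat_lit 0) (nat_lit 4299322139) (nat_lit 7) (nat_lit 5) (nat_lit 9) (nat_lit 4) (nat_lit 7) (nat_lit 4) (nat_lit 395) (nat_lit 335) (nat_lit 290)) (XT.lf (nat_lit 0) (nat_lit 21921712175) (nat_lit 152) (nat_lit 32132063333) (nat_lit 0) (nat_lit 14317907875) (nat_lit 7) (nat_lit 5) (nat_lit 9) (nat_lit 4) (nat_lit 7) (nat_lit 4) (nat_lit 396) (nat_lit 335) (nat_lit 289))))) (XT.nd (nat_lit 156) (nat_lit 0) (nat_lit 0) (XT.nd (nat_lit 78) (nat_lit 76) (nat_lit 0) (XT.lf (nat_lit 0) (nat_lit 32720473400) (nat_lit 152) (nat_lit 15246625023) (nat_lit 0) (nat_lit 25099842807) (nat_lit 7) (nat_lit 5) (nat_lit 9) (nat_lit 4) (nat_lit 7) (nat_lit 4) (nat_lit 397) (nat_lit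 335) (nat_lit 288)) (XT.lf (nat_lit 0) (nat_lit 3066809404) (nat_lit 76) (nat_lit 41352177812) (nat_lit 76) (nat_lit 33715967319) (nat_lit 6) (nat_lit 4) (nat_lit 7) (nat_lit 5) (nat_lit 7) (nat_lit 4) (nat_lit 398) (nat_lit 335) (nat_lit 287))) (XT.nd (nat_lit 78) (nat_lit 0) (nat_lit 0) (XT.lf (nat_lit 0) (nat_lit 23638084947) (nat_lit 76) (nat_lit 33795282119) (nat_lit 76) (nat_lit 26144645791) (nat_lit 6) (nat_lit 4) (nat_lit 7) (nat_lit 5) (nat_lit 7) (nat_lit 4) (nat_lit 399) (nat_lit 335) (nat_lit 286)) (XT.nd (nat_lit 78) (nat_lit 0) (nat_lit 0) (XT.lf (nat_lit 0) (nat_lit 45786245206) (nat_lit 76) (nat_lit 25668499486) (nat_lit 76) (nat_lit 18004505905) (nat_lit 6) (nat_lit 4) (nat_lit 7) (nat_lit 5) (nat_lit 7) (nat_lit 4) (nat_lit 400) (nat_lit 335) (nat_lit 285)) (XT.lf (nat_lit 0) (nat_lit 69642538537) (nat_lit 76) (nat_lit 16923671202) (nat_lit 76) (nat_lit 9247309793) (nat_lit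 6) (nat_lit 4) (nat_lit 7) (nat_lit 5) (nat_lit 7) (nat_lit 4) (nat_lit 401) (nat_lit 335) (nat_lit 284)))))) (XT.nd (nat_lit 390) (nat_lit 76) (nat_lit 0) (XT.nd (nat_lit 156) (nat_lit 0) (nat_lit 0) (XT.nd (nat_lit 78) (nat_lit 76) (nat_lit 0) (XT.lf (nat_lit 0) (nat_lit 169890885) (nat_lit 152) (nat_lit 7334440059) (nat_lit 76) (nat_lit 95173799566) (nat_lit 5) (nat_lit 5) (nat_lit 7) (nat_lit 5) (nat_lit 6) (nat_lit 4) (nat_lit 402) (nat_lit 335) (nat_lit 283)) (XT.lf (nat_lit 0) (nat_lit 10212993583) (nat_lit 152) (nat_lit 96745103652) (nat_lit 0) (nat_lit 3084830139) (nat_lit 4) (nat_lit 5) (nat_lit 6) (nat_lit 4) (nat_lit 4) (nat_lit 4) (nat_lit 403) (nat_lit 335) (nat_lit 282))) (XT.nd (nat_lit 78) (nat_lit 0) (nat_lit 0) (XT.lf (nat_lit 0) (nat_lit 21432471685) (nat_lit 152) (nat_lit 82239386339) (nat_lit 0) (nat_lit 14295217518) (nat_lit 4) (nat_lit 5) (nat_lit 6) (nat_lit 4)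 (nat_lit 4) (nat_lit 4) (nat_lit 404) (nat_lit 335) (nat_lit 281)) (XT.nd (nat_lit 78) (nat_lit 0) (nat_lit 0) (XT.lf (nat_lit 0) (nat_lit 33523826711) (nat_lit 152) (nat_lit 66625229753) (nat_lit 0) (nat_lit 26378155209) (nat_lit 4) (nat_lit 5) (nat_lit 6) (nat_lit 4) (nat_lit 4) (nat_lit 4) (nat_lit 405) (nat_lit 335) (nat_lit 280)) (XT.lf (nat_lit 0) (nat_lit 46558711135) (nat_lit 152) (nat_lit 49810105559) (nat_lit 0) (nat_lit 39405245804) (nat_lit 4) (nat_lit 5) (nat_lit 6) (nat_lit 4) (nat_lit 4) (nat_lit 4) (nat_lit 406) (nat_lit 335) (nat_lit 279))))) (XT.nd (nat_lit 234) (nat_lit 0) (nat_lit 0) (XT.nd (nat_lit 78) (nat_lit 76) (nat_lit 0) (XT.lf (nat_lit 0) (nat_lit 60614368718) (nat_lit 152) (nat_lit 31694368576) (nat_lit 0) (nat_lit 53453686877) (nat_lit 4) (nat_lit 5) (nat_lit 6) (nat_lit 4) (nat_lit 4) (nat_lit 4) (nat_lit 407) (nat_lit 335) (nat_lit 278)) (XT.nd (nat_lit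 78) (nat_lit 76) (nat_lit 0) (XT.lf (nat_lit 0) (nat_lit 75774092243) (nat_lit 152) (nat_lit 12170666289) (nat_lit 0) (nat_lit 68606728450) (nat_lit 4) (nat_lit 5) (nat_lit 6) (nat_lit 4) (nat_lit 4) (nat_lit 4) (nat_lit 408) (nat_lit 335) (nat_lit 277)) (XT.lf (nat_lit 0) (nat_lit 9344128465) (nat_lit 76) (nat_lit 83008315159) (nat_lit 76) (nat_lit 75834764374) (nat_lit 3) (nat_lit 4) (nat_lit 4) (nat_lit 5) (nat_lit 4) (nat_lit 4) (nat_lit 409) (nat_lit 335) (nat_lit 276)))) (XT.nd (nat_lit 78) (nat_lit 0) (nat_lit 0) (XT.lf (nat_lit 0) (nat_lit 33234996482) (nat_lit 76) (nat_lit 77336459672) (nat_lit 76) (nat_lit 70157180189) (nat_lit 3) (nat_lit 4) (nat_lit 4) (nat_lit 5) (nat_lit 4) (nat_lit 4) (nat_lit 410) (nat_lit 335) (nat_lit 275)) (XT.nd (nat_lit 78) (nat_lit 0) (nat_lit 0) (XT.lf (nat_lit 0) (nat_lit 59002627557) (nat_lit 76) (nat_lit 71228348659) (nat_lit 76) (nat_lit 64043764827)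 (nat_lit 3) (nat_lit 4) (nat_lit 4) (nat_lit 5) (nat_lit 4) (nat_lit 4) (nat_lit 411) (nat_lit 335) (nat_lit 274)) (XT.lf (nat_lit 0) (nat_lit 86799718763) (nat_lit 76) (nat_lit 64647785907) (nat_lit 76) (nat_lit 57458290641) (nat_lit 3) (nat_lit 4) (nat_lit 4) (nat_lit 5) (nat_lit 4) (nat_lit 4) (nat_lit 412) (nat_lit 335) (nat_lit 273))))))))
noncomputable def xc81 : XT := (XT.nd (nat_lit 1560) (nat_lit 0) (nat_lit 0) (XT.nd (nat_lit 780) (nat_lit 0) (nat_lit 0) (XT.nd (nat_lit 390) (nat_lit 152) (nat_lit 0) (XT.nd (nat_lit 156) (nat_lit 0) (nat_lit 0) (XT.nd (nat_lit 78) (nat_lit 0) (nat_lit 0) (XT.lf (nat_lit 0) (nat_lit 116790993604) (nat_lit 76) (nat_lit 57555775489) (nat_lit 76) (nat_lit 50361732598) (nat_lit 3) (nat_lit 4) (nat_lit 4) (nat_lit 5) (nat_lit 4) (nat_lit 4) (nat_lit 413) (nat_lit 335) (nat_lit 272)) (XT.lf (nat_lit 0) (nat_lit 149154178152) (nat_lit 76) (nat_lit 49910290676)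 (nat_lit 76) (nat_lit 42712037022) (nat_lit 3) (nat_lit 4) (nat_lit 4) (nat_lit 5) (nat_lit 4) (nat_lit 4) (nat_lit 414) (nat_lit 335) (nat_lit 271))) (XT.nd (nat_lit 78) (nat_lit 0) (nat_lit 0) (XT.lf (nat_lit 0) (nat_lit 184081054242) (nat_lit 76) (nat_lit 41666024892) (nat_lit 76) (nat_lit 34463872383) (nat_lit 3) (nat_lit 4) (nat_lit 4) (nat_lit 5) (nat_lit 4) (nat_lit 4) (nat_lit 415) (nat_lit 335) (nat_lit 270)) (XT.nd (nat_lit 78) (nat_lit 0) (nat_lit 0) (XT.lf (nat_lit 0) (nat_lit 221778595954) (nat_lit 76) (nat_lit 32774123228) (nat_lit 76) (nat_lit 25568360668) (nat_lit 3) (nat_lit 4) (nat_lit 4) (nat_lit 5) (nat_lit 4) (nat_lit 4) (nat_lit 416) (nat_lit 335) (nat_lit 269)) (XT.lf (nat_lit 0) (nat_lit 262470196129) (nat_lit 76) (nat_lit 23181892934) (nat_lit 76) (nat_lit 15972787733) (nat_lit 3) (nat_lit 4) (nat_lit 4) (nat_lit 5) (nat_lit 4) (nat_lit 4) (nat_lit 417) (nat_lit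 335) (nat_lit 268))))) (XT.nd (nat_lit 156) (nat_lit 0) (nat_lit 0) (XT.nd (nat_lit 78) (nat_lit 152) (nat_lit 0) (XT.lf (nat_lit 0) (nat_lit 306396990175) (nat_lit 76) (nat_lit 12832491163) (nat_lit 76) (nat_lit 5620290926) (nat_lit 3) (nat_lit 4) (nat_lit 4) (nat_lit 5) (nat_lit 4) (nat_lit 4) (nat_lit 418) (nat_lit 335) (nat_lit 267)) (XT.lf (nat_lit 0) (nat_lit 3949995397) (nat_lit 76) (nat_lit 1417822587) (nat_lit 152) (nat_lit 344547298348) (nat_lit 1) (nat_lit 5) (nat_lit 2) (nat_lit 5) (nat_lit 3) (nat_lit 4) (nat_lit 419) (nat_lit 335) (nat_lit 266))) (XT.nd (nat_lit 78) (nat_lit 0) (nat_lit 0) (XT.lf (nat_lit 0) (nat_lit 17701947605) (nat_lit 152) (nat_lit 348191539181) (nat_lit 0) (nat_lit 11018873987) (nat_lit 1) (nat_lit 5) (nat_lit 3) (nat_lit 4) (nat_lit 1) (nat_lit 4) (nat_lit 420) (nat_lit 335) (nat_lit 265)) (XT.nd (nat_lit 78) (nat_lit 0) (nat_lit 0) (XT.lf (nat_lit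 0) (nat_lit 31050922092) (nat_lit 152) (nat_lit 350650640421) (nat_lit 0) (nat_lit 24365573530) (nat_lit 1) (nat_lit 5) (nat_lit 3) (nat_lit 4) (nat_lit 1) (nat_lit 4) (nat_lit 421) (nat_lit 335) (nat_lit 264)) (XT.lf (nat_lit 0) (nat_lit 45459747813) (nat_lit 152) (nat_lit 353322898439) (nat_lit 0) (nat_lit 38772292820) (nat_lit 1) (nat_lit 5) (nat_lit 3) (nat_lit 4) (nat_lit 1) (nat_lit 4) (nat_lit 422) (nat_lit 335) (nat_lit 263)))))) (XT.nd (nat_lit 390) (nat_lit 0) (nat_lit 0) (XT.nd (nat_lit 156) (nat_lit 0) (nat_lit 0) (XT.nd (nat_lit 78) (nat_lit 0) (nat_lit 0) (XT.lf (nat_lit 0) (nat_lit 61013810401) (nat_lit 152) (nat_lit 356224148839) (nat_lit 0) (nat_lit 54324405011) (nat_lit 1) (nat_lit 5) (nat_lit 3) (nat_lit 4) (nat_lit 1) (nat_lit 4) (nat_lit 423) (nat_lit 335) (nat_lit 262)) (XT.lf (nat_lit 0) (nat_lit 77805282080) (nat_lit 152) (nat_lit 359371584215) (nat_lit 0) (nat_lit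 71114070765) (nat_lit 1) (nat_lit 5) (nat_lit 3) (nat_lit 4) (nat_lit 1) (nat_lit 4) (nat_lit 424) (nat_lit 335) (nat_lit 261))) (XT.nd (nat_lit 78) (nat_lit 0) (nat_lit 0) (XT.lf (nat_lit 0) (nat_lit 95933667867) (nat_lit 152) (nat_lit 362783856037) (nat_lit 0) (nat_lit 89240784400) (nat_lit 1) (nat_lit 5) (nat_lit 3) (nat_lit 4) (nat_lit 1) (nat_lit 4) (nat_lit 425) (nat_lit 335) (nat_lit 260)) (XT.nd (nat_lit 78) (nat_lit 0) (nat_lit 0) (XT.lf (nat_lit 0) (nat_lit 115506395233) (nat_lit 152) (nat_lit 366481185174) (nat_lit 0) (nat_lit 108811963477) (nat_lit 1) (nat_lit 5) (nat_lit 3) (nat_lit 4) (nat_lit 1) (nat_lit 4) (nat_lit 426) (nat_lit 335) (nat_lit 259)) (XT.lf (nat_lit 0) (nat_lit 136639450710) (nat_lit 152) (nat_lit 370485481725) (nat_lit 0) (nat_lit 129943585353) (nat_lit 1) (nat_lit 5) (nat_lit 3) (nat_lit 4) (nat_lit 1) (nat_lit 4) (nat_lit 427) (nat_lit 335) (nat_lit 258)))))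 (XT.nd (nat_lit 156) (nat_lit 0) (nat_lit 0) (XT.nd (nat_lit 78) (nat_lit 0) (nat_lit 0) (XT.lf (nat_lit 0) (nat_lit 159458067221) (nat_lit 152) (nat_lit 374820474856) (nat_lit 0) (nat_lit 152760874456) (nat_lit 1) (nat_lit 5) (nat_lit 3) (nat_lit 4) (nat_lit 1) (nat_lit 4) (nat_lit 428) (nat_lit 335) (nat_lit 257)) (XT.lf (nat_lit 0) (nat_lit 184097466195) (nat_lit 152) (nat_lit 379511853413) (nat_lit 0) (nat_lit 177399044349) (nat_lit 1) (nat_lit 5) (nat_lit 3) (nat_lit 4) (nat_lit 1) (nat_lit 4) (nat_lit 429) (nat_lit 335) (nat_lit 256))) (XT.nd (nat_lit 78) (nat_lit 0) (nat_lit 0) (XT.lf (nat_lit 0) (nat_lit 210703658887) (nat_lit 152) (nat_lit 384587418159) (nat_lit 0) (nat_lit 204004099002) (nat_lit 1) (nat_lit 5) (nat_lit 3) (nat_lit 4) (nat_lit 1) (nat_lit 4) (nat_lit 430) (nat_lit 335) (nat_lit 255)) (XT.nd (nat_lit 78) (nat_lit 0) (nat_lit 0) (XT.lf (nat_lit 0) (nat_lit 239434311624)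 (nat_lit 152) (nat_lit 390077246515) (nat_lit 0) (nat_lit 232733697999) (nat_lit 1) (nat_lit 5) (nat_lit 3) (nat_lit 4) (nat_lit 1) (nat_lit 4) (nat_lit 431) (nat_lit 335) (nat_lit 254)) (XT.lf (nat_lit 0) (nat_lit 270459680125) (nat_lit 152) (nat_lit 396013870797) (nat_lit 0) (nat_lit 263758090815) (nat_lit 1) (nat_lit 5) (nat_lit 3) (nat_lit 4) (nat_lit 1) (nat_lit 4) (nat_lit 432) (nat_lit 335) (nat_lit 253))))))) (XT.nd (nat_lit 780) (nat_lit 0) (nat_lit 0) (XT.nd (nat_lit 390) (nat_lit 0) (nat_lit 0) (XT.nd (nat_lit 156) (nat_lit 0) (nat_lit 0) (XT.nd (nat_lit 78) (nat_lit 0) (nat_lit 0) (XT.lf (nat_lit 0) (nat_lit 303963618425) (nat_lit 152) (nat_lit 402432471000) (nat_lit 0) (nat_lit 297261125704) (nat_lit 1) (nat_lit 5) (nat_lit 3) (nat_lit 4) (nat_lit 1) (nat_lit 4) (nat_lit 433) (nat_lit 335) (nat_lit 252)) (XT.lf (nat_lit 0) (nat_lit 340144668383) (nat_lit 152) (nat_lit 409371083274)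 (nat_lit 0) (nat_lit 333441339169) (nat_lit 1) (nat_lit 5) (nat_lit 3) (nat_lit 4) (nat_lit 1) (nat_lit 4) (nat_lit 434) (nat_lit 335) (nat_lit 251))) (XT.nd (nat_lit 78) (nat_lit 0) (nat_lit 0) (XT.lf (nat_lit 0) (nat_lit 379217236218) (nat_lit 152) (nat_lit 416870825321) (nat_lit 0) (nat_lit 372513132475) (nat_lit 1) (nat_lit 5) (nat_lit 3) (nat_lit 4) (nat_lit 1) (nat_lit 4) (nat_lit 435) (nat_lit 335) (nat_lit 250)) (XT.nd (nat_lit 78) (nat_lit 0) (nat_lit 0) (XT.lf (nat_lit 0) (nat_lit 421412863075) (nat_lit 152) (nat_lit 424976140058) (nat_lit 0) (nat_lit 414708042174) (nat_lit 1) (nat_lit 5) (nat_lit 3) (nat_lit 4) (nat_lit 1) (nat_lit 4) (nat_lit 436) (nat_lit 335) (nat_lit 249)) (XT.lf (nat_lit 0) (nat_lit 466981597113) (nat_lit 152) (nat_lit 433735058978) (nat_lit 0) (nat_lit 460276112177) (nat_lit 1) (nat_lit 5) (nat_lit 3) (nat_lit 4) (nat_lit 1) (nat_lit 4) (nat_lit 437) (nat_lit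 335) (nat_lit 248))))) (XT.nd (nat_lit 156) (nat_lit 0) (nat_lit 0) (XT.nd (nat_lit 78) (nat_lit 0) (nat_lit 0) (XT.lf (nat_lit 0) (nat_lit 516193475273) (nat_lit 152) (nat_lit 443199486787) (nat_lit 0) (nat_lit 509487375490) (nat_lit 1) (nat_lit 5) (nat_lit 3) (nat_lit 4) (nat_lit 1) (nat_lit 4) (nat_lit 438) (nat_lit 335) (nat_lit 247)) (XT.lf (nat_lit 0) (nat_lit 569340123500) (nat_lit 152) (nat_lit 453425508982) (nat_lit 0) (nat_lit 562633454415) (nat_lit 1) (nat_lit 5) (nat_lit 3) (nat_lit 4) (nat_lit 1) (nat_lit 4) (nat_lit 439) (nat_lit 335) (nat_lit 246))) (XT.nd (nat_lit 78) (nat_lit 0) (nat_lit 0) (XT.lf (nat_lit 0) (nat_lit 626736484896) (nat_lit 152) (nat_lit 464473724214) (nat_lit 0) (nat_lit 620029288679) (nat_lit 1) (nat_lit 5) (nat_lit 3) (nat_lit 4) (nat_lit 1) (nat_lit 4) (nat_lit 440) (nat_lit 335) (nat_lit 245)) (XT.nd (nat_lit 78) (nat_lit 0) (nat_lit 0) (XT.lf (nat_lit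 0) (nat_lit 688722686046) (nat_lit 152) (nat_lit 476409603388) (nat_lit 0) (nat_lit 682015001743) (nat_lit 1) (nat_lit 5) (nat_lit 3) (nat_lit 4) (nat_lit 1) (nat_lit 4) (nat_lit 441) (nat_lit 335) (nat_lit 244)) (XT.lf (nat_lit 0) (nat_lit 755666052586) (nat_lit 152) (nat_lit 489303877639) (nat_lit 0) (nat_lit 748957916353) (nat_lit 1) (nat_lit 5) (nat_lit 3) (nat_lit 4) (nat_lit 1) (nat_lit 4) (nat_lit 442) (nat_lit 335) (nat_lit 243)))))) (XT.nd (nat_lit 390) (nat_lit 0) (nat_lit 0) (XT.nd (nat_lit 156) (nat_lit 0) (nat_lit 0) (XT.nd (nat_lit 78) (nat_lit 0) (nat_lit 0) (XT.lf (nat_lit 0) (nat_lit 827963285948) (nat_lit 152) (nat_lit 503232957482) (nat_lit 0) (nat_lit 821254731260) (nat_lit 1) (nat_lit 5) (nat_lit 3) (nat_lit 4) (nat_lit 1) (nat_lit 4) (nat_lit 443) (nat_lit 335) (nat_lit 242)) (XT.lf (nat_lit 0) (nat_lit 906042814182) (nat_lit 152) (nat_lit 518279385613) (nat_lit 0)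 (nat_lit 899333872036) (nat_lit 1) (nat_lit 5) (nat_lit 3) (nat_lit 4) (nat_lit 1) (nat_lit 4) (nat_lit 444) (nat_lit 335) (nat_lit 241))) (XT.nd (nat_lit 78) (nat_lit 0) (nat_lit 0) (XT.lf (nat_lit 0) (nat_lit 990367330787) (nat_lit 152) (nat_lit 534532326048) (nat_lit 0) (nat_lit 983658029885) (nat_lit 1) (nat_lit 5) (nat_lit 3) (nat_lit 4) (nat_lit 1) (nat_lit 4) (nat_lit 445) (nat_lit 335) (nat_lit 240)) (XT.nd (nat_lit 78) (nat_lit 0) (nat_lit 0) (XT.lf (nat_lit 0) (nat_lit 1081436536604) (nat_lit 152) (nat_lit 552088092511) (nat_lit 0) (nat_lit 1074726903519) (nat_lit 1) (nat_lit 5) (nat_lit 3) (nat_lit 4) (nat_lit 1) (nat_lit 4) (nat_lit 446) (nat_lit 335) (nat_lit 239)) (XT.lf (nat_lit 0) (nat_lit 1179790101000) (nat_lit 152) (nat_lit 571050719172) (nat_lit 0) (nat_lit 1173080160339) (nat_lit 1) (nat_lit 5) (nat_lit 3) (nat_lit 4) (nat_lit 1) (nat_lit 4) (nat_lit 447) (nat_lit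 335) (nat_lit 238))))) (XT.nd (nat_lit 234) (nat_lit 0) (nat_lit 0) (XT.nd (nat_lit 78) (nat_lit 0) (nat_lit 0) (XT.lf (nat_lit 0) (nat_lit 1286010859913) (nat_lit 152) (nat_lit 591532577152) (nat_lit 0) (nat_lit 1279300634458) (nat_lit 1) (nat_lit 5) (nat_lit 3) (nat_lit 4) (nat_lit 1) (nat_lit 4) (nat_lit 448) (nat_lit 335) (nat_lit 237)) (XT.nd (nat_lit 78) (nat_lit 0) (nat_lit 0) (XT.lf (nat_lit 0) (nat_lit 1400728269690) (nat_lit 152) (nat_lit 613655040425) (nat_lit 0) (nat_lit 1394017780538) (nat_lit 1) (nat_lit 5) (nat_lit 3) (nat_lit 4) (nat_lit 1) (nat_lit 4) (nat_lit 449) (nat_lit 335) (nat_lit 236)) (XT.lf (nat_lit 0) (nat_lit 1524622137206) (nat_lit 152) (nat_lit 637549205069) (nat_lit 0) (nat_lit 1517911403890) (nat_lit 1) (nat_lit 5) (nat_lit 3) (nat_lit 4) (nat_lit 1) (nat_lit 4) (nat_lit 450) (nat_lit 335) (nat_lit 235)))) (XT.nd (nat_lit 78) (nat_lit 0) (nat_lit 0) (XT.lf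 (nat_lit 0) (nat_lit 1658426648341) (nat_lit 152) (nat_lit 663356666134) (nat_lit 0) (nat_lit 1651715688947) (nat_lit 1) (nat_lit 5) (nat_lit 3) (nat_lit 4) (nat_lit 1) (nat_lit 4) (nat_lit 451) (nat_lit 335) (nat_lit 234)) (XT.nd (nat_lit 78) (nat_lit 0) (nat_lit 0) (XT.lf (nat_lit 0) (nat_lit 1802934718718) (nat_lit 152) (nat_lit 691230356722) (nat_lit 0) (nat_lit 1796223549992) (nat_lit 1) (nat_lit 5) (nat_lit 3) (nat_lit 4) (nat_lit 1) (nat_lit 4) (nat_lit 452) (nat_lit 335) (nat_lit 233)) (XT.lf (nat_lit 0) (nat_lit 1959002692456) (nat_lit 152) (nat_lit 721335454259) (nat_lit 0) (nat_lit 1952291329905) (nat_lit 1) (nat_lit 5) (nat_lit 3) (nat_lit 4) (nat_lit 1) (nat_lit 4) (nat_lit 453) (nat_lit 335) (nat_lit 232))))))))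
noncomputable def xc82 : XT := (XT.nd (nat_lit 45630) (nat_lit 0) (nat_lit 1368) (XT.nd (nat_lit 44850) (nat_lit 0) (nat_lit 3268) (XT.nd (nat_lit 390) (nat_lit 0) (nat_lit 0) (XT.nd (nat_lit 156) (nat_lit 0) (nat_lit 0) (XT.nd (nat_lit 78) (nat_lit 0) (nat_lit 0) (XT.lf (nat_lit 0) (nat_lit 2127555416808) (nat_lit 152) (nat_lit 753850359324) (nat_lit 0) (nat_lit 2120843874789) (nat_lit 1) (nat_lit 5) (nat_lit 3) (nat_lit 4) (nat_lit 1) (nat_lit 4) (nat_lit 454) (nat_lit 335) (nat_lit 231)) (XT.lf (nat_lit 0) (nat_lit 2309591722733) (nat_lit 152) (nat_lit 788967752835) (nat_lit 0) (nat_lit 2302880014540) (nat_lit 1) (nat_lit 5) (nat_lit 3) (nat_lit 4) (nat_lit 1) (nat_lit 4) (nat_lit 455) (nat_lit 335) (nat_lit 230))) (XT.nd (nat_lit 78) (nat_lit 0) (nat_lit 0) (XT.lf (nat_lit 0) (nat_lit 2506190343896) (nat_lit 152) (nat_lit 826895737865) (nat_lit 0) (nat_lit 2499478481838) (nat_lit 1)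 (nat_lit 5) (nat_lit 3) (nat_lit 4) (nat_lit 1) (nat_lit 4) (nat_lit 456) (nat_lit 335) (nat_lit 229)) (XT.nd (nat_lit 78) (nat_lit 0) (nat_lit 0) (XT.lf (nat_lit 0) (nat_lit 2718516309162) (nat_lit 152) (nat_lit 867859072843) (nat_lit 0) (nat_lit 2711804304637) (nat_lit 1) (nat_lit 5) (nat_lit 3) (nat_lit 4) (nat_lit 1) (nat_lit 4) (nat_lit 457) (nat_lit 335) (nat_lit 228)) (XT.lf (nat_lit 0) (nat_lit 2947827846474) (nat_lit 152) (nat_lit 912100503459) (nat_lit 0) (nat_lit 2941115710035) (nat_lit 1) (nat_lit 5) (nat_lit 3) (nat_lit 4) (nat_lit 1) (nat_lit 4) (nat_lit 458) (nat_lit 335) (nat_lit 227))))) (XT.nd (nat_lit 156) (nat_lit 0) (nat_lit 0) (XT.nd (nat_lit 78) (nat_lit 0) (nat_lit 0) (XT.lf (nat_lit 0) (nat_lit 3195483839017) (nat_lit 152) (nat_lit 959882201152) (nat_lit 0) (nat_lit 3188771580434) (nat_lit 1) (nat_lit 5) (nat_lit 3) (nat_lit 4) (nat_lit 1) (nat_lit 4) (nat_lit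 459) (nat_lit 335) (nat_lit 226)) (XT.lf (nat_lit 0) (nat_lit 3462951877856) (nat_lit 152) (nat_lit 1011487316725) (nat_lit 0) (nat_lit 3456239506179) (nat_lit 1) (nat_lit 5) (nat_lit 3) (nat_lit 4) (nat_lit 1) (nat_lit 4) (nat_lit 460) (nat_lit 335) (nat_lit 225))) (XT.nd (nat_lit 78) (nat_lit 0) (nat_lit 0) (XT.lf (nat_lit 0) (nat_lit 3751816958778) (nat_lit 152) (nat_lit 1067221658270) (nat_lit 0) (nat_lit 3745104482383) (nat_lit 1) (nat_lit 5) (nat_lit 3) (nat_lit 4) (nat_lit 1) (nat_lit 4) (nat_lit 461) (nat_lit 335) (nat_lit 224)) (XT.nd (nat_lit 78) (nat_lit 0) (nat_lit 0) (XT.lf (nat_lit 0) (nat_lit 4063790874856) (nat_lit 152) (nat_lit 1127415503365) (nat_lit 0) (nat_lit 4057078301499) (nat_lit 1) (nat_lit 5) (nat_lit 3) (nat_lit 4) (nat_lit 1) (nat_lit 4) (nat_lit 462) (nat_lit 335) (nat_lit 223)) (XT.lf (nat_lit 0) (nat_lit 4400722360405) (nat_lit 152) (nat_lit 1192425556279)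 (nat_lit 0) (nat_lit 4394009697270) (nat_lit 1) (nat_lit 5) (nat_lit 3) (nat_lit 4) (nat_lit 1) (nat_lit 4) (nat_lit 463) (nat_lit 335) (nat_lit 222)))))) (XT.nd (nat_lit 390) (nat_lit 988) (nat_lit 0) (XT.nd (nat_lit 156) (nat_lit 988) (nat_lit 0) (XT.nd (nat_lit 78) (nat_lit 380) (nat_lit 0) (XT.lf (nat_lit 0) (nat_lit 1334900191) (nat_lit 380) (nat_lit 783420657) (nat_lit 0) (nat_lit 1334900191) (nat_lit 75) (nat_lit 5) (nat_lit 80) (nat_lit 4) (nat_lit 75) (nat_lit 4) (nat_lit 348) (nat_lit 336) (nat_lit 336)) (XT.lf (nat_lit 0) (nat_lit 3360083616) (nat_lit 380) (nat_lit 2757300986) (nat_lit 380) (nat_lit 917217499) (nat_lit 70) (nat_lit 4) (nat_lit 75) (nat_lit 5) (nat_lit 75) (nat_lit 4) (nat_lit 349) (nat_lit 336) (nat_lit 335))) (XT.nd (nat_lit 78) (nat_lit 456) (nat_lit 0) (XT.lf (nat_lit 0) (nat_lit 1337450084) (nat_lit 456) (nat_lit 1009335770) (nat_lit 532) (nat_lit 4836398416)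 (nat_lit 63) (nat_lit 5) (nat_lit 69) (nat_lit 5) (nat_lit 70) (nat_lit 4) (nat_lit 350) (nat_lit 336) (nat_lit 334)) (XT.nd (nat_lit 78) (nat_lit 456) (nat_lit 0) (XT.lf (nat_lit 0) (nat_lit 5696050944) (nat_lit 532) (nat_lit 702101296) (nat_lit 0) (nat_lit 953977332) (nat_lit 63) (nat_lit 5) (nat_lit 70) (nat_lit 4) (nat_lit 63) (nat_lit 4) (nat_lit 351) (nat_lit 336) (nat_lit 333)) (XT.lf (nat_lit 0) (nat_lit 1597044554) (nat_lit 456) (nat_lit 2772737233) (nat_lit 76) (nat_lit 3169036642) (nat_lit 57) (nat_lit 5) (nat_lit 63) (nat_lit 5) (nat_lit 58) (nat_lit 4) (nat_lit 352) (nat_lit 336) (nat_lit 332))))) (XT.nd (nat_lit 156) (nat_lit 456) (nat_lit 0) (XT.nd (nat_lit 78) (nat_lit 304) (nat_lit 0) (XT.lf (nat_lit 0) (nat_lit 2806309406) (nat_lit 228) (nat_lit 2075050793) (nat_lit 304) (nat_lit 2867028623) (nat_lit 54) (nat_lit 5) (nat_lit 57) (nat_lit 5) (nat_lit 58) (nat_lit 4) (nat_lit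 353) (nat_lit 336) (nat_lit 331)) (XT.lf (nat_lit 0) (nat_lit 316910912) (nat_lit 304) (nat_lit 7217199869) (nat_lit 76) (nat_lit 449057572) (nat_lit 50) (nat_lit 5) (nat_lit 54) (nat_lit 5) (nat_lit 51) (nat_lit 4) (nat_lit 354) (nat_lit 336) (nat_lit 330))) (XT.nd (nat_lit 78) (nat_lit 456) (nat_lit 0) (XT.lf (nat_lit 0) (nat_lit 3580194996) (nat_lit 304) (nat_lit 1423708828) (nat_lit 76) (nat_lit 3228682321) (nat_lit 50) (nat_lit 5) (nat_lit 54) (nat_lit 5) (nat_lit 51) (nat_lit 4) (nat_lit 355) (nat_lit 336) (nat_lit 329)) (XT.nd (nat_lit 78) (nat_lit 304) (nat_lit 0) (XT.lf (nat_lit 0) (nat_lit 4817167378) (nat_lit 152) (nat_lit 2205996882) (nat_lit 228) (nat_lit 1485465555) (nat_lit 48) (nat_lit 5) (nat_lit 50) (nat_lit 5) (nat_lit 51) (nat_lit 4) (nat_lit 356) (nat_lit 336) (nat_lit 328)) (XT.lf (nat_lit 0) (nat_lit 1770138883) (nat_lit 304) (nat_lit 6173045358) (nat_lit 76) (nat_lit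 865420295) (nat_lit 44) (nat_lit 5) (nat_lit 48) (nat_lit 5) (nat_lit 45) (nat_lit 4) (nat_lit 357) (nat_lit 336) (nat_lit 327))))))) (XT.nd (nat_lit 780) (nat_lit 760) (nat_lit 0) (XT.nd (nat_lit 390) (nat_lit 608) (nat_lit 0) (XT.nd (nat_lit 156) (nat_lit 380) (nat_lit 0) (XT.nd (nat_lit 78) (nat_lit 0) (nat_lit 0) (XT.lf (nat_lit 0) (nat_lit 197972554) (nat_lit 152) (nat_lit 4986464589) (nat_lit 228) (nat_lit 3946902273) (nat_lit 42) (nat_lit 5) (nat_lit 44) (nat_lit 5) (nat_lit 45) (nat_lit 4) (nat_lit 358) (nat_lit 336) (nat_lit 326)) (XT.lf (nat_lit 0) (nat_lit 7168909608) (nat_lit 152) (nat_lit 1692225580) (nat_lit 228) (nat_lit 619736685) (nat_lit 42) (nat_lit 5) (nat_lit 44) (nat_lit 5) (nat_lit 45) (nat_lit 4) (nat_lit 359) (nat_lit 336) (nat_lit 325))) (XT.nd (nat_lit 78) (nat_lit 152) (nat_lit 0) (XT.lf (nat_lit 0) (nat_lit 2816327372) (nat_lit 228) (nat_lit 5150120847) (nat_lit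 76) (nat_lit 1886981589) (nat_lit 39) (nat_lit 5) (nat_lit 42) (nat_lit 5) (nat_lit 40) (nat_lit 4) (nat_lit 360) (nat_lit 336) (nat_lit 324)) (XT.nd (nat_lit 78) (nat_lit 0) (nat_lit 0) (XT.lf (nat_lit 0) (nat_lit 1940398753) (nat_lit 152) (nat_lit 4543054787) (nat_lit 228) (nat_lit 3771973038) (nat_lit 37) (nat_lit 5) (nat_lit 39) (nat_lit 5) (nat_lit 40) (nat_lit 4) (nat_lit 361) (nat_lit 336) (nat_lit 323)) (XT.lf (nat_lit 0) (nat_lit 9641995956) (nat_lit 152) (nat_lit 783243467) (nat_lit 228) (nat_lit 265928154) (nat_lit 37) (nat_lit 5) (nat_lit 39) (nat_lit 5) (nat_lit 40) (nat_lit 4) (nat_lit 362) (nat_lit 336) (nat_lit 322))))) (XT.nd (nat_lit 156) (nat_lit 304) (nat_lit 0) (XT.nd (nat_lit 78) (nat_lit 76) (nat_lit 0) (XT.lf (nat_lit 0) (nat_lit 3439962785) (nat_lit 228) (nat_lit 4421711806) (nat_lit 76) (nat_lit 3285756607) (nat_lit 34) (nat_lit 5) (nat_lit 37) (nat_lit 5) (nat_lit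 35) (nat_lit 4) (nat_lit 363) (nat_lit 336) (nat_lit 321)) (XT.lf (nat_lit 0) (nat_lit 3446490076) (nat_lit 76) (nat_lit 3966063332) (nat_lit 152) (nat_lit 4228391873) (nat_lit 33) (nat_lit 5) (nat_lit 34) (nat_lit 5) (nat_lit 35) (nat_lit 4) (nat_lit 364) (nat_lit 336) (nat_lit 320))) (XT.nd (nat_lit 78) (nat_lit 304) (nat_lit 0) (XT.lf (nat_lit 0) (nat_lit 11687764456) (nat_lit 152) (nat_lit 222991120) (nat_lit 0) (nat_lit 264464294) (nat_lit 33) (nat_lit 5) (nat_lit 35) (nat_lit 4) (nat_lit 33) (nat_lit 4) (nat_lit 365) (nat_lit 336) (nat_lit 319)) (XT.nd (nat_lit 78) (nat_lit 76) (nat_lit 0) (XT.lf (nat_lit 0) (nat_lit 3552141513) (nat_lit 228) (nat_lit 4348240154) (nat_lit 76) (nat_lit 4830905785) (nat_lit 30) (nat_lit 5) (nat_lit 33) (nat_lit 5) (nat_lit 31) (nat_lit 4) (nat_lit 366) (nat_lit 336) (nat_lit 318)) (XT.lf (nat_lit 0) (nat_lit 4334375926) (nat_lit 76) (nat_lit 3531609831)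 (nat_lit 152) (nat_lit 5466699755) (nat_lit 29) (nat_lit 5) (nat_lit 30) (nat_lit 5) (nat_lit 31) (nat_lit 4) (nat_lit 367) (nat_lit 336) (nat_lit 317)))))) (XT.nd (nat_lit 390) (nat_lit 304) (nat_lit 0) (XT.nd (nat_lit 156) (nat_lit 228) (nat_lit 0) (XT.nd (nat_lit 78) (nat_lit 228) (nat_lit 0) (XT.lf (nat_lit 0) (nat_lit 12544607610) (nat_lit 152) (nat_lit 276231345) (nat_lit 0) (nat_lit 1159830215) (nat_lit 29) (nat_lit 5) (nat_lit 31) (nat_lit 4) (nat_lit 29) (nat_lit 4) (nat_lit 368) (nat_lit 336) (nat_lit 316)) (XT.lf (nat_lit 0) (nat_lit 2970439702) (nat_lit 228) (nat_lit 5436617011) (nat_lit 76) (nat_lit 6251916359) (nat_lit 26) (nat_lit 5) (nat_lit 29) (nat_lit 5) (nat_lit 27) (nat_lit 4) (nat_lit 369) (nat_lit 336) (nat_lit 315))) (XT.nd (nat_lit 78) (nat_lit 152) (nat_lit 0) (XT.lf (nat_lit 0) (nat_lit 4056348702) (nat_lit 76) (nat_lit 3580560536) (nat_lit 152) (nat_lit 7752882996)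 (nat_lit 25) (nat_lit 5) (nat_lit 26) (nat_lit 5) (nat_lit 27) (nat_lit 4) (nat_lit 370) (nat_lit 336) (nat_lit 314)) (XT.nd (nat_lit 78) (nat_lit 152) (nat_lit 0) (XT.lf (nat_lit 0) (nat_lit 12749827614) (nat_lit 152) (nat_lit 1808711669) (nat_lit 0) (nat_lit 1614721955) (nat_lit 25) (nat_lit 5) (nat_lit 27) (nat_lit 4) (nat_lit 25) (nat_lit 4) (nat_lit 371) (nat_lit 336) (nat_lit 313)) (XT.lf (nat_lit 0) (nat_lit 1385005274) (nat_lit 152) (nat_lit 8423611899) (nat_lit 76) (nat_lit 7192788286) (nat_lit 23) (nat_lit 5) (nat_lit 25) (nat_lit 5) (nat_lit 24) (nat_lit 4) (nat_lit 372) (nat_lit 336) (nat_lit 312))))) (XT.nd (nat_lit 234) (nat_lit 152) (nat_lit 0) (XT.nd (nat_lit 78) (nat_lit 76) (nat_lit 0) (XT.lf (nat_lit 0) (nat_lit 1805309990) (nat_lit 76) (nat_lit 4572818883) (nat_lit 152) (nat_lit 11511789238) (nat_lit 22) (nat_lit 5) (nat_lit 23) (nat_lit 5) (nat_lit 24) (nat_lit 4)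 (nat_lit 373) (nat_lit 336) (nat_lit 311)) (XT.nd (nat_lit 78) (nat_lit 76) (nat_lit 0) (XT.lf (nat_lit 0) (nat_lit 11925036059) (nat_lit 152) (nat_lit 5733748438) (nat_lit 0) (nat_lit 1178406166) (nat_lit 22) (nat_lit 5) (nat_lit 24) (nat_lit 4) (nat_lit 22) (nat_lit 4) (nat_lit 374) (nat_lit 336) (nat_lit 310)) (XT.lf (nat_lit 0) (nat_lit 5409739933) (nat_lit 76) (nat_lit 12654850168) (nat_lit 76) (nat_lit 1783767069) (nat_lit 21) (nat_lit 4) (nat_lit 22) (nat_lit 5) (nat_lit 22) (nat_lit 4) (nat_lit 375) (nat_lit 336) (nat_lit 309)))) (XT.nd (nat_lit 78) (nat_lit 76) (nat_lit 0) (XT.lf (nat_lit 0) (nat_lit 3628391434) (nat_lit 152) (nat_lit 3439263364) (nat_lit 76) (nat_lit 13860651305) (nat_lit 20) (nat_lit 5) (nat_lit 22) (nat_lit 5) (nat_lit 21) (nat_lit 4) (nat_lit 376) (nat_lit 336) (nat_lit 308)) (XT.nd (nat_lit 78) (nat_lit 0) (nat_lit 0) (XT.lf (nat_lit 0) (nat_lit 8652657860)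 (nat_lit 76) (nat_lit 840454625) (nat_lit 152) (nat_lit 12588573973) (nat_lit 19) (nat_lit 5) (nat_lit 20) (nat_lit 5) (nat_lit 21) (nat_lit 4) (nat_lit 377) (nat_lit 336) (nat_lit 307)) (XT.lf (nat_lit 0) (nat_lit 15973707127) (nat_lit 152) (nat_lit 1730992767) (nat_lit 0) (nat_lit 5610919092) (nat_lit 19) (nat_lit 5) (nat_lit 21) (nat_lit 4) (nat_lit 19) (nat_lit 4) (nat_lit 378) (nat_lit 336) (nat_lit 306))))))))
noncomputable def xc83 : XT := (XT.nd (nat_lit 1638) (nat_lit 380) (nat_lit 0) (XT.nd (nat_lit 780) (nat_lit 456) (nat_lit 0) (XT.nd (nat_lit 390) (nat_lit 228) (nat_lit 0) (XT.nd (nat_lit 156) (nat_lit 152) (nat_lit 0) (XT.nd (nat_lit 78) (nat_lit 76) (nat_lit 0) (XT.lf (nat_lit 0) (nat_lit 11283726493) (nat_lit 76) (nat_lit 11897676139) (nat_lit 76) (nat_lit 1450187343) (nat_lit 18) (nat_lit 4) (nat_lit 19) (nat_lit 5) (nat_lit 19) (nat_lit 4) (nat_lit 379) (nat_lit 336)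 (nat_lit 305)) (XT.lf (nat_lit 0) (nat_lit 4631444745) (nat_lit 152) (nat_lit 892510354) (nat_lit 76) (nat_lit 20522298464) (nat_lit 17) (nat_lit 5) (nat_lit 19) (nat_lit 5) (nat_lit 18) (nat_lit 4) (nat_lit 380) (nat_lit 336) (nat_lit 304))) (XT.nd (nat_lit 78) (nat_lit 76) (nat_lit 0) (XT.lf (nat_lit 0) (nat_lit 11396552662) (nat_lit 152) (nat_lit 14569417076) (nat_lit 0) (nat_lit 1583096481) (nat_lit 16) (nat_lit 5) (nat_lit 18) (nat_lit 4) (nat_lit 16) (nat_lit 4) (nat_lit 381) (nat_lit 336) (nat_lit 303)) (XT.nd (nat_lit 78) (nat_lit 76) (nat_lit 0) (XT.lf (nat_lit 0) (nat_lit 18793957693) (nat_lit 152) (nat_lit 1452627044) (nat_lit 0) (nat_lit 8918243924) (nat_lit 16) (nat_lit 5) (nat_lit 18) (nat_lit 4) (nat_lit 16) (nat_lit 4) (nat_lit 382) (nat_lit 336) (nat_lit 302)) (XT.lf (nat_lit 0) (nat_lit 13236090675) (nat_lit 76) (nat_lit 13793700594) (nat_lit 76) (nat_lit 3860340912)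 (nat_lit 15) (nat_lit 4) (nat_lit 16) (nat_lit 5) (nat_lit 16) (nat_lit 4) (nat_lit 383) (nat_lit 336) (nat_lit 301))))) (XT.nd (nat_lit 156) (nat_lit 76) (nat_lit 0) (XT.nd (nat_lit 78) (nat_lit 76) (nat_lit 0) (XT.lf (nat_lit 0) (nat_lit 2981681350) (nat_lit 152) (nat_lit 3784838320) (nat_lit 76) (nat_lit 25983306439) (nat_lit 14) (nat_lit 5) (nat_lit 16) (nat_lit 5) (nat_lit 15) (nat_lit 4) (nat_lit 384) (nat_lit 336) (nat_lit 300)) (XT.lf (nat_lit 0) (nat_lit 10401986626) (nat_lit 152) (nat_lit 23219889656) (nat_lit 0) (nat_lit 1109248099) (nat_lit 13) (nat_lit 5) (nat_lit 15) (nat_lit 4) (nat_lit 13) (nat_lit 4) (nat_lit 385) (nat_lit 336) (nat_lit 299))) (XT.nd (nat_lit 78) (nat_lit 76) (nat_lit 0) (XT.lf (nat_lit 0) (nat_lit 18632045885) (nat_lit 152) (nat_lit 8924662442) (nat_lit 0) (nat_lit 9296935890) (nat_lit 13) (nat_lit 5) (nat_lit 15) (nat_lit 4) (nat_lit 13) (nat_lit 4)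 (nat_lit 386) (nat_lit 336) (nat_lit 298)) (XT.nd (nat_lit 78) (nat_lit 0) (nat_lit 0) (XT.lf (nat_lit 0) (nat_lit 6730680976) (nat_lit 76) (nat_lit 20890779461) (nat_lit 76) (nat_lit 11516436626) (nat_lit 12) (nat_lit 4) (nat_lit 13) (nat_lit 5) (nat_lit 13) (nat_lit 4) (nat_lit 387) (nat_lit 336) (nat_lit 297)) (XT.lf (nat_lit 0) (nat_lit 24028850419) (nat_lit 76) (nat_lit 13485966535) (nat_lit 76) (nat_lit 4075296995) (nat_lit 12) (nat_lit 4) (nat_lit 13) (nat_lit 5) (nat_lit 13) (nat_lit 4) (nat_lit 388) (nat_lit 336) (nat_lit 296)))))) (XT.nd (nat_lit 390) (nat_lit 228) (nat_lit 0) (XT.nd (nat_lit 156) (nat_lit 76) (nat_lit 0) (XT.nd (nat_lit 78) (nat_lit 76) (nat_lit 0) (XT.lf (nat_lit 0) (nat_lit 3706711268) (nat_lit 152) (nat_lit 1734345937) (nat_lit 76) (nat_lit 38794337326) (nat_lit 11) (nat_lit 5) (nat_lit 13) (nat_lit 5) (nat_lit 12) (nat_lit 4) (nat_lit 389) (nat_lit 336)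 (nat_lit 295)) (XT.lf (nat_lit 0) (nat_lit 12312126019) (nat_lit 152) (nat_lit 31199465956) (nat_lit 0) (nat_lit 3538561509) (nat_lit 10) (nat_lit 5) (nat_lit 12) (nat_lit 4) (nat_lit 10) (nat_lit 4) (nat_lit 390) (nat_lit 336) (nat_lit 294))) (XT.nd (nat_lit 78) (nat_lit 76) (nat_lit 0) (XT.lf (nat_lit 0) (nat_lit 21744089544) (nat_lit 152) (nat_lit 15391135622) (nat_lit 0) (nat_lit 12943823822) (nat_lit 10) (nat_lit 5) (nat_lit 12) (nat_lit 4) (nat_lit 10) (nat_lit 4) (nat_lit 391) (nat_lit 336) (nat_lit 293)) (XT.nd (nat_lit 78) (nat_lit 0) (nat_lit 0) (XT.lf (nat_lit 0) (nat_lit 1669607904) (nat_lit 76) (nat_lit 30253135664) (nat_lit 76) (nat_lit 21428146597) (nat_lit 9) (nat_lit 4) (nat_lit 10) (nat_lit 5) (nat_lit 10) (nat_lit 4) (nat_lit 392) (nat_lit 336) (nat_lit 292)) (XT.lf (nat_lit 0) (nat_lit 20877169302) (nat_lit 76) (nat_lit 22412632881) (nat_lit 76) (nat_lit 13564751829)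 (nat_lit 9) (nat_lit 4) (nat_lit 10) (nat_lit 5) (nat_lit 10) (nat_lit 4) (nat_lit 393) (nat_lit 336) (nat_lit 291))))) (XT.nd (nat_lit 234) (nat_lit 76) (nat_lit 0) (XT.nd (nat_lit 78) (nat_lit 152) (nat_lit 0) (XT.lf (nat_lit 0) (nat_lit 41534901233) (nat_lit 76) (nat_lit 13988075503) (nat_lit 76) (nat_lit 5118998168) (nat_lit 9) (nat_lit 4) (nat_lit 10) (nat_lit 5) (nat_lit 10) (nat_lit 4) (nat_lit 394) (nat_lit 336) (nat_lit 290)) (XT.nd (nat_lit 78) (nat_lit 76) (nat_lit 0) (XT.lf (nat_lit 0) (nat_lit 3761109913) (nat_lit 152) (nat_lit 1065594902) (nat_lit 76) (nat_lit 59901274560) (nat_lit 8) (nat_lit 5) (nat_lit 10) (nat_lit 5) (nat_lit 9) (nat_lit 4) (nat_lit 395) (nat_lit 336) (nat_lit 289)) (XT.lf (nat_lit 0) (nat_lit 13634426371) (nat_lit 152) (nat_lit 50063736433) (nat_lit 0) (nat_lit 5387319038) (nat_lit 7) (nat_lit 5) (nat_lit 9) (nat_lit 4) (nat_lit 7) (nat_lit 4) (nat_lit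 396) (nat_lit 336) (nat_lit 288)))) (XT.nd (nat_lit 78) (nat_lit 76) (nat_lit 0) (XT.lf (nat_lit 0) (nat_lit 24414963968) (nat_lit 152) (nat_lit 33214958303) (nat_lit 0) (nat_lit 16152276734) (nat_lit 7) (nat_lit 5) (nat_lit 9) (nat_lit 4) (nat_lit 7) (nat_lit 4) (nat_lit 397) (nat_lit 336) (nat_lit 287)) (XT.nd (nat_lit 78) (nat_lit 76) (nat_lit 0) (XT.lf (nat_lit 0) (nat_lit 36022847216) (nat_lit 152) (nat_lit 15088882713) (nat_lit 0) (nat_lit 27745734148) (nat_lit 7) (nat_lit 5) (nat_lit 9) (nat_lit 4) (nat_lit 7) (nat_lit 4) (nat_lit 398) (nat_lit 336) (nat_lit 286)) (XT.lf (nat_lit 0) (nat_lit 4654753752) (nat_lit 76) (nat_lit 43984056757) (nat_lit 76) (nat_lit 35693586436) (nat_lit 6) (nat_lit 4) (nat_lit 7) (nat_lit 5) (nat_lit 7) (nat_lit 4) (nat_lit 399) (nat_lit 336) (nat_lit 285))))))) (XT.nd (nat_lit 780) (nat_lit 228) (nat_lit 0) (XT.nd (nat_lit 390) (nat_lit 0) (nat_lit 0)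 (XT.nd (nat_lit 156) (nat_lit 152) (nat_lit 0) (XT.nd (nat_lit 78) (nat_lit 0) (nat_lit 0) (XT.lf (nat_lit 0) (nat_lit 26772279516) (nat_lit 76) (nat_lit 35872705355) (nat_lit 76) (nat_lit 27569867206) (nat_lit 6) (nat_lit 4) (nat_lit 7) (nat_lit 5) (nat_lit 7) (nat_lit 4) (nat_lit 400) (nat_lit 336) (nat_lit 284)) (XT.lf (nat_lit 0) (nat_lit 50600207575) (nat_lit 76) (nat_lit 27142165247) (nat_lit 76) (nat_lit 18827875406) (nat_lit 6) (nat_lit 4) (nat_lit 7) (nat_lit 5) (nat_lit 7) (nat_lit 4) (nat_lit 401) (nat_lit 336) (nat_lit 283))) (XT.nd (nat_lit 78) (nat_lit 152) (nat_lit 0) (XT.lf (nat_lit 0) (nat_lit 76279740466) (nat_lit 76) (nat_lit 17740699901) (nat_lit 76) (nat_lit 9415806641) (nat_lit 6) (nat_lit 4) (nat_lit 7) (nat_lit 5) (nat_lit 7) (nat_lit 4) (nat_lit 402) (nat_lit 336) (nat_lit 282)) (XT.nd (nat_lit 78) (nat_lit 76) (nat_lit 0) (XT.lf (nat_lit 0) (nat_lit 685991230)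 (nat_lit 152) (nat_lit 6907849481) (nat_lit 76) (nat_lit 103258305751) (nat_lit 5) (nat_lit 5) (nat_lit 7) (nat_lit 5) (nat_lit 6) (nat_lit 4) (nat_lit 403) (nat_lit 336) (nat_lit 281)) (XT.lf (nat_lit 0) (nat_lit 11531065828) (nat_lit 152) (nat_lit 103469858584) (nat_lit 0) (nat_lit 3805323270) (nat_lit 4) (nat_lit 5) (nat_lit 6) (nat_lit 4) (nat_lit 4) (nat_lit 4) (nat_lit 404) (nat_lit 336) (nat_lit 280))))) (XT.nd (nat_lit 156) (nat_lit 0) (nat_lit 0) (XT.nd (nat_lit 78) (nat_lit 0) (nat_lit 0) (XT.lf (nat_lit 0) (nat_lit 23610988640) (nat_lit 152) (nat_lit 87878858209) (nat_lit 0) (nat_lit 15877452253) (nat_lit 4) (nat_lit 5) (nat_lit 6) (nat_lit 4) (nat_lit 4) (nat_lit 4) (nat_lit 405) (nat_lit 336) (nat_lit 279)) (XT.lf (nat_lit 0) (nat_lit 36635287682) (nat_lit 152) (nat_lit 71085174951) (nat_lit 0) (nat_lit 28894534786) (nat_lit 4) (nat_lit 5) (nat_lit 6) (nat_lit 4) (nat_lit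 4) (nat_lit 4) (nat_lit 406) (nat_lit 336) (nat_lit 278))) (XT.nd (nat_lit 78) (nat_lit 0) (nat_lit 0) (XT.lf (nat_lit 0) (nat_lit 50681143984) (nat_lit 152) (nat_lit 52989290686) (nat_lit 0) (nat_lit 42933709135) (nat_lit 4) (nat_lit 5) (nat_lit 6) (nat_lit 4) (nat_lit 4) (nat_lit 4) (nat_lit 407) (nat_lit 336) (nat_lit 277)) (XT.nd (nat_lit 78) (nat_lit 0) (nat_lit 0) (XT.lf (nat_lit 0) (nat_lit 65831792250) (nat_lit 152) (nat_lit 33483970546) (nat_lit 0) (nat_lit 58078170408) (nat_lit 4) (nat_lit 5) (nat_lit 6) (nat_lit 4) (nat_lit 4) (nat_lit 4) (nat_lit 408) (nat_lit 336) (nat_lit 276)) (XT.lf (nat_lit 0) (nat_lit 82177014099) (nat_lit 152) (nat_lit 12453627447) (nat_lit 0) (nat_lit 74417663560) (nat_lit 4) (nat_lit 5) (nat_lit 6) (nat_lit 4) (nat_lit 4) (nat_lit 4) (nat_lit 409) (nat_lit 336) (nat_lit 275)))))) (XT.nd (nat_lit 390) (nat_lit 152) (nat_lit 0) (XT.nd (nat_lit 156) (nat_lit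 0) (nat_lit 0) (XT.nd (nat_lit 78) (nat_lit 0) (nat_lit 0) (XT.lf (nat_lit 0) (nat_lit 10764865010) (nat_lit 76) (nat_lit 89307700358) (nat_lit 76) (nat_lit 81543045470) (nat_lit 3) (nat_lit 4) (nat_lit 4) (nat_lit 5) (nat_lit 4) (nat_lit 4) (nat_lit 410) (nat_lit 336) (nat_lit 274)) (XT.lf (nat_lit 0) (nat_lit 36517135337) (nat_lit 76) (nat_lit 83207376433) (nat_lit 76) (nat_lit 75437810110) (nat_lit 3) (nat_lit 4) (nat_lit 4) (nat_lit 5) (nat_lit 4) (nat_lit 4) (nat_lit 411) (nat_lit 336) (nat_lit 273))) (XT.nd (nat_lit 78) (nat_lit 0) (nat_lit 0) (XT.lf (nat_lit 0) (nat_lit 64300003629) (nat_lit 76) (nat_lit 76634023947) (nat_lit 76) (nat_lit 68859910000) (nat_lit 3) (nat_lit 4) (nat_lit 4) (nat_lit 5) (nat_lit 4) (nat_lit 4) (nat_lit 412) (nat_lit 336) (nat_lit 272)) (XT.nd (nat_lit 78) (nat_lit 0) (nat_lit 0) (XT.lf (nat_lit 0) (nat_lit 94278109104) (nat_lit 76) (nat_lit 69548689701)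 (nat_lit 76) (nat_lit 61770364991) (nat_lit 3) (nat_lit 4) (nat_lit 4) (nat_lit 5) (nat_lit 4) (nat_lit 4) (nat_lit 413) (nat_lit 336) (nat_lit 271)) (XT.lf (nat_lit 0) (nat_lit 126629099796) (nat_lit 76) (nat_lit 61909386530) (nat_lit 76) (nat_lit 54127162964) (nat_lit 3) (nat_lit 4) (nat_lit 4) (nat_lit 5) (nat_lit 4) (nat_lit 4) (nat_lit 414) (nat_lit 336) (nat_lit 270))))) (XT.nd (nat_lit 234) (nat_lit 152) (nat_lit 0) (XT.nd (nat_lit 78) (nat_lit 0) (nat_lit 0) (XT.lf (nat_lit 0) (nat_lit 161544685278) (nat_lit 76) (nat_lit 53670844487) (nat_lit 76) (nat_lit 45885010871) (nat_lit 3) (nat_lit 4) (nat_lit 4) (nat_lit 5) (nat_lit 4) (nat_lit 4) (nat_lit 415) (nat_lit 336) (nat_lit 269)) (XT.nd (nat_lit 78) (nat_lit 0) (nat_lit 0) (XT.lf (nat_lit 0) (nat_lit 199231772724) (nat_lit 76) (nat_lit 44784242584) (nat_lit 76) (nat_lit 36995066328) (nat_lit 3) (nat_lit 4) (nat_lit 4) (nat_lit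 5) (nat_lit 4) (nat_lit 4) (nat_lit 416) (nat_lit 336) (nat_lit 268)) (XT.lf (nat_lit 0) (nat_lit 239913693022) (nat_lit 76) (nat_lit 35196919476) (nat_lit 76) (nat_lit 27404648183) (nat_lit 3) (nat_lit 4) (nat_lit 4) (nat_lit 5) (nat_lit 4) (nat_lit 4) (nat_lit 417) (nat_lit 336) (nat_lit 267)))) (XT.nd (nat_lit 78) (nat_lit 152) (nat_lit 0) (XT.lf (nat_lit 0) (nat_lit 283831524219) (nat_lit 76) (nat_lit 24852061396) (nat_lit 76) (nat_lit 17056924328) (nat_lit 3) (nat_lit 4) (nat_lit 4) (nat_lit 5) (nat_lit 4) (nat_lit 4) (nat_lit 418) (nat_lit 336) (nat_lit 266)) (XT.nd (nat_lit 78) (nat_lit 152) (nat_lit 0) (XT.lf (nat_lit 0) (nat_lit 331245520129) (nat_lit 76) (nat_lit 13688365481) (nat_lit 76) (nat_lit 5890574918) (nat_lit 3) (nat_lit 4) (nat_lit 4) (nat_lit 5) (nat_lit 4) (nat_lit 4) (nat_lit 419) (nat_lit 336) (nat_lit 265)) (XT.lf (nat_lit 0) (nat_lit 4602992978) (nat_lit 76) (nat_lit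 1360103407) (nat_lit 152) (nat_lit 371931952569) (nat_lit 1) (nat_lit 5) (nat_lit 2) (nat_lit 5) (nat_lit 3) (nat_lit 4) (nat_lit 420) (nat_lit 336) (nat_lit 264))))))))
noncomputable def xc84 : XT := (XT.nd (nat_lit 1560) (nat_lit 0) (nat_lit 0) (XT.nd (nat_lit 780) (nat_lit 0) (nat_lit 0) (XT.nd (nat_lit 390) (nat_lit 0) (nat_lit 0) (XT.nd (nat_lit 156) (nat_lit 0) (nat_lit 0) (XT.nd (nat_lit 78) (nat_lit 0) (nat_lit 0) (XT.lf (nat_lit 0) (nat_lit 19275482119) (nat_lit 152) (nat_lit 375726345100) (nat_lit 0) (nat_lit 12050924297) (nat_lit 1) (nat_lit 5) (nat_lit 3) (nat_lit 4) (nat_lit 1) (nat_lit 4) (nat_lit 421) (nat_lit 336) (nat_lit 263)) (XT.lf (nat_lit 0) (nat_lit 33680716883) (nat_lit 152) (nat_lit 378405916454) (nat_lit 0) (nat_lit 26454208663) (nat_lit 1) (nat_lit 5) (nat_lit 3) (nat_lit 4) (nat_lit 1) (nat_lit 4) (nat_lit 422) (nat_lit 336) (nat_lit 262))) (XT.nd (nat_lit 78)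 (nat_lit 0) (nat_lit 0) (XT.lf (nat_lit 0) (nat_lit 49231454511) (nat_lit 152) (nat_lit 381313938462) (nat_lit 0) (nat_lit 42003140367) (nat_lit 1) (nat_lit 5) (nat_lit 3) (nat_lit 4) (nat_lit 1) (nat_lit 4) (nat_lit 423) (nat_lit 336) (nat_lit 261)) (XT.nd (nat_lit 78) (nat_lit 0) (nat_lit 0) (XT.lf (nat_lit 0) (nat_lit 66019847524) (nat_lit 152) (nat_lit 384467643846) (nat_lit 0) (nat_lit 58789861227) (nat_lit 1) (nat_lit 5) (nat_lit 3) (nat_lit 4) (nat_lit 1) (nat_lit 4) (nat_lit 424) (nat_lit 336) (nat_lit 260)) (XT.lf (nat_lit 0) (nat_lit 84145382693) (nat_lit 152) (nat_lit 387885721230) (nat_lit 0) (nat_lit 76913848108) (nat_lit 1) (nat_lit 5) (nat_lit 3) (nat_lit 4) (nat_lit 1) (nat_lit 4) (nat_lit 425) (nat_lit 336) (nat_lit 259))))) (XT.nd (nat_lit 156) (nat_lit 0) (nat_lit 0) (XT.nd (nat_lit 78) (nat_lit 0) (nat_lit 0) (XT.lf (nat_lit 0) (nat_lit 103715470599) (nat_lit 152) (nat_lit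 391588425888) (nat_lit 0) (nat_lit 96482502413) (nat_lit 1) (nat_lit 5) (nat_lit 3) (nat_lit 4) (nat_lit 1) (nat_lit 4) (nat_lit 426) (nat_lit 336) (nat_lit 258)) (XT.lf (nat_lit 0) (nat_lit 124846082131) (nat_lit 152) (nat_lit 395597699773) (nat_lit 0) (nat_lit 117611786537) (nat_lit 1) (nat_lit 5) (nat_lit 3) (nat_lit 4) (nat_lit 1) (nat_lit 4) (nat_lit 427) (nat_lit 336) (nat_lit 257))) (XT.nd (nat_lit 78) (nat_lit 0) (nat_lit 0) (XT.lf (nat_lit 0) (nat_lit 147662435730) (nat_lit 152) (nat_lit 399937301546) (nat_lit 0) (nat_lit 140426911054) (nat_lit 1) (nat_lit 5) (nat_lit 3) (nat_lit 4) (nat_lit 1) (nat_lit 4) (nat_lit 428) (nat_lit 336) (nat_lit 256)) (XT.nd (nat_lit 78) (nat_lit 0) (nat_lit 0) (XT.lf (nat_lit 0) (nat_lit 172299739416) (nat_lit 152) (nat_lit 404632947365) (nat_lit 0) (nat_lit 165063076701) (nat_lit 1) (nat_lit 5) (nat_lit 3) (nat_lit 4) (nat_lit 1) (nat_lit 4) (nat_lit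 429) (nat_lit 336) (nat_lit 255)) (XT.lf (nat_lit 0) (nat_lit 198903992026) (nat_lit 152) (nat_lit 409712463280) (nat_lit 0) (nat_lit 191666275572) (nat_lit 1) (nat_lit 5) (nat_lit 3) (nat_lit 4) (nat_lit 1) (nat_lit 4) (nat_lit 430) (nat_lit 336) (nat_lit 254)))))) (XT.nd (nat_lit 390) (nat_lit 0) (nat_lit 0) (XT.nd (nat_lit 156) (nat_lit 0) (nat_lit 0) (XT.nd (nat_lit 78) (nat_lit 0) (nat_lit 0) (XT.lf (nat_lit 0) (nat_lit 227632848390) (nat_lit 152) (nat_lit 415205950125) (nat_lit 0) (nat_lit 220394156251) (nat_lit 1) (nat_lit 5) (nat_lit 3) (nat_lit 4) (nat_lit 1) (nat_lit 4) (nat_lit 431) (nat_lit 336) (nat_lit 253)) (XT.lf (nat_lit 0) (nat_lit 258656553583) (nat_lit 152) (nat_lit 421145961896) (nat_lit 0) (nat_lit 251416958032) (nat_lit 1) (nat_lit 5) (nat_lit 3) (nat_lit 4) (nat_lit 1) (nat_lit 4) (nat_lit 432) (nat_lit 336) (nat_lit 252))) (XT.nd (nat_lit 78) (nat_lit 0) (nat_lit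 0) (XT.lf (nat_lit 0) (nat_lit 292158951784) (nat_lit 152) (nat_lit 427567698664) (nat_lit 0) (nat_lit 284918519741) (nat_lit 1) (nat_lit 5) (nat_lit 3) (nat_lit 4) (nat_lit 1) (nat_lit 4) (nat_lit 433) (nat_lit 336) (nat_lit 251)) (XT.nd (nat_lit 78) (nat_lit 0) (nat_lit 0) (XT.lf (nat_lit 0) (nat_lit 328338575723) (nat_lit 152) (nat_lit 434509215165) (nat_lit 0) (nat_lit 321097369150) (nat_lit 1) (nat_lit 5) (nat_lit 3) (nat_lit 4) (nat_lit 1) (nat_lit 4) (nat_lit 434) (nat_lit 336) (nat_lit 250)) (XT.lf (nat_lit 0) (nat_lit 367409823171) (nat_lit 152) (nat_lit 442011646311) (nat_lit 0) (nat_lit 360167899441) (nat_lit 1) (nat_lit 5) (nat_lit 3) (nat_lit 4) (nat_lit 1) (nat_lit 4) (nat_lit 435) (nat_lit 336) (nat_lit 249))))) (XT.nd (nat_lit 156) (nat_lit 0) (nat_lit 0) (XT.nd (nat_lit 78) (nat_lit 0) (nat_lit 0) (XT.lf (nat_lit 0) (nat_lit 409604227447) (nat_lit 152) (nat_lit 450119450953)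 (nat_lit 0) (nat_lit 402361639682) (nat_lit 1) (nat_lit 5) (nat_lit 3) (nat_lit 4) (nat_lit 1) (nat_lit 4) (nat_lit 436) (nat_lit 336) (nat_lit 248)) (XT.lf (nat_lit 0) (nat_lit 455171829465) (nat_lit 152) (nat_lit 458880675342) (nat_lit 0) (nat_lit 447928626854) (nat_lit 1) (nat_lit 5) (nat_lit 3) (nat_lit 4) (nat_lit 1) (nat_lit 4) (nat_lit 437) (nat_lit 336) (nat_lit 247))) (XT.nd (nat_lit 78) (nat_lit 0) (nat_lit 0) (XT.lf (nat_lit 0) (nat_lit 504382659460) (nat_lit 152) (nat_lit 468347237844) (nat_lit 0) (nat_lit 497138887545) (nat_lit 1) (nat_lit 5) (nat_lit 3) (nat_lit 4) (nat_lit 1) (nat_lit 4) (nat_lit 438) (nat_lit 336) (nat_lit 246)) (XT.nd (nat_lit 78) (nat_lit 0) (nat_lit 0) (XT.lf (nat_lit 0) (nat_lit 557528337163) (nat_lit 152) (nat_lit 478575236607) (nat_lit 0) (nat_lit 550284038116) (nat_lit 1) (nat_lit 5) (nat_lit 3) (nat_lit 4) (nat_lit 1) (nat_lit 4) (nat_lit 439) (nat_lit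 336) (nat_lit 245)) (XT.lf (nat_lit 0) (nat_lit 614923799925) (nat_lit 152) (nat_lit 489625281995) (nat_lit 0) (nat_lit 607679012793) (nat_lit 1) (nat_lit 5) (nat_lit 3) (nat_lit 4) (nat_lit 1) (nat_lit 4) (nat_lit 440) (nat_lit 336) (nat_lit 244))))))) (XT.nd (nat_lit 780) (nat_lit 0) (nat_lit 0) (XT.nd (nat_lit 390) (nat_lit 0) (nat_lit 0) (XT.nd (nat_lit 156) (nat_lit 0) (nat_lit 0) (XT.nd (nat_lit 78) (nat_lit 0) (nat_lit 0) (XT.lf (nat_lit 0) (nat_lit 676909169007) (nat_lit 152) (nat_lit 501562855757) (nat_lit 0) (nat_lit 669663929944) (nat_lit 1) (nat_lit 5) (nat_lit 3) (nat_lit 4) (nat_lit 1) (nat_lit 4) (nat_lit 441) (nat_lit 336) (nat_lit 243)) (XT.lf (nat_lit 0) (nat_lit 743851765114) (nat_lit 152) (nat_lit 514458699072) (nat_lit 0) (nat_lit 736606107597) (nat_lit 1) (nat_lit 5) (nat_lit 3) (nat_lit 4) (nat_lit 1) (nat_lit 4) (nat_lit 442) (nat_lit 336) (nat_lit 242))) (XT.nd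 (nat_lit 78) (nat_lit 0) (nat_lit 0) (XT.lf (nat_lit 0) (nat_lit 816148285112) (nat_lit 152) (nat_lit 528389231751) (nat_lit 0) (nat_lit 808902240137) (nat_lit 1) (nat_lit 5) (nat_lit 3) (nat_lit 4) (nat_lit 1) (nat_lit 4) (nat_lit 443) (nat_lit 336) (nat_lit 241)) (XT.nd (nat_lit 78) (nat_lit 0) (nat_lit 0) (XT.lf (nat_lit 0) (nat_lit 894227152823) (nat_lit 152) (nat_lit 543437005100) (nat_lit 0) (nat_lit 886980749091) (nat_lit 1) (nat_lit 5) (nat_lit 3) (nat_lit 4) (nat_lit 1) (nat_lit 4) (nat_lit 444) (nat_lit 336) (nat_lit 240)) (XT.lf (nat_lit 0) (nat_lit 978551057834) (nat_lit 152) (nat_lit 559691191109) (nat_lit 0) (nat_lit 971304321919) (nat_lit 1) (nat_lit 5) (nat_lit 3) (nat_lit 4) (nat_lit 1) (nat_lit 4) (nat_lit 445) (nat_lit 336) (nat_lit 239))))) (XT.nd (nat_lit 156) (nat_lit 0) (nat_lit 0) (XT.nd (nat_lit 78) (nat_lit 0) (nat_lit 0) (XT.lf (nat_lit 0) (nat_lit 1069619697359)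 (nat_lit 152) (nat_lit 577248110880) (nat_lit 0) (nat_lit 1062372653868) (nat_lit 1) (nat_lit 5) (nat_lit 3) (nat_lit 4) (nat_lit 1) (nat_lit 4) (nat_lit 446) (nat_lit 336) (nat_lit 238)) (XT.lf (nat_lit 0) (nat_lit 1167972737411) (nat_lit 152) (nat_lit 596211805419) (nat_lit 0) (nat_lit 1160725409127) (nat_lit 1) (nat_lit 5) (nat_lit 3) (nat_lit 4) (nat_lit 1) (nat_lit 4) (nat_lit 447) (nat_lit 336) (nat_lit 237))) (XT.nd (nat_lit 78) (nat_lit 0) (nat_lit 0) (XT.lf (nat_lit 0) (nat_lit 1274193010820) (nat_lit 152) (nat_lit 616694652175) (nat_lit 0) (nat_lit 1266945418838) (nat_lit 1) (nat_lit 5) (nat_lit 3) (nat_lit 4) (nat_lit 1) (nat_lit 4) (nat_lit 448) (nat_lit 336) (nat_lit 236)) (XT.nd (nat_lit 78) (nat_lit 0) (nat_lit 0) (XT.lf (nat_lit 0) (nat_lit 1388909971057) (nat_lit 152) (nat_lit 638818030981) (nat_lit 0) (nat_lit 1381662134911) (nat_lit 1) (nat_lit 5) (nat_lit 3) (nat_lit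 4) (nat_lit 1) (nat_lit 4) (nat_lit 449) (nat_lit 336) (nat_lit 235)) (XT.lf (nat_lit 0) (nat_lit 1512803422331) (nat_lit 152) (nat_lit 662713043341) (nat_lit 0) (nat_lit 1505555360108) (nat_lit 1) (nat_lit 5) (nat_lit 3) (nat_lit 4) (nat_lit 1) (nat_lit 4) (nat_lit 450) (nat_lit 336) (nat_lit 234)))))) (XT.nd (nat_lit 390) (nat_lit 0) (nat_lit 0) (XT.nd (nat_lit 156) (nat_lit 0) (nat_lit 0) (XT.nd (nat_lit 78) (nat_lit 0) (nat_lit 0) (XT.lf (nat_lit 0) (nat_lit 1646607548058) (nat_lit 152) (nat_lit 688521289328) (nat_lit 0) (nat_lit 1639359276503) (nat_lit 1) (nat_lit 5) (nat_lit 3) (nat_lit 4) (nat_lit 1) (nat_lit 4) (nat_lit 451) (nat_lit 336) (nat_lit 233)) (XT.lf (nat_lit 0) (nat_lit 1791115261575) (nat_lit 152) (nat_lit 716395706697) (nat_lit 0) (nat_lit 1783866796195) (nat_lit 1) (nat_lit 5) (nat_lit 3) (nat_lit 4) (nat_lit 1) (nat_lit 4) (nat_lit 452) (nat_lit 336) (nat_lit 232)))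 (XT.nd (nat_lit 78) (nat_lit 0) (nat_lit 0) (XT.lf (nat_lit 0) (nat_lit 1947182904888) (nat_lit 152) (nat_lit 746501477178) (nat_lit 0) (nat_lit 1939934260039) (nat_lit 1) (nat_lit 5) (nat_lit 3) (nat_lit 4) (nat_lit 1) (nat_lit 4) (nat_lit 453) (nat_lit 336) (nat_lit 231)) (XT.nd (nat_lit 78) (nat_lit 0) (nat_lit 0) (XT.lf (nat_lit 0) (nat_lit 2115735323290) (nat_lit 152) (nat_lit 779017005340) (nat_lit 0) (nat_lit 2108486512268) (nat_lit 1) (nat_lit 5) (nat_lit 3) (nat_lit 4) (nat_lit 1) (nat_lit 4) (nat_lit 454) (nat_lit 336) (nat_lit 230)) (XT.lf (nat_lit 0) (nat_lit 2297771345928) (nat_lit 152) (nat_lit 814134975792) (nat_lit 0) (nat_lit 2290522381041) (nat_lit 1) (nat_lit 5) (nat_lit 3) (nat_lit 4) (nat_lit 1) (nat_lit 4) (nat_lit 455) (nat_lit 336) (nat_lit 229))))) (XT.nd (nat_lit 234) (nat_lit 0) (nat_lit 0) (XT.nd (nat_lit 78) (nat_lit 0) (nat_lit 0) (XT.lf (nat_lit 0) (nat_lit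 2494369704788) (nat_lit 152) (nat_lit 852063495027) (nat_lit 0) (nat_lit 2487120597434) (nat_lit 1) (nat_lit 5) (nat_lit 3) (nat_lit 4) (nat_lit 1) (nat_lit 4) (nat_lit 456) (nat_lit 336) (nat_lit 228)) (XT.nd (nat_lit 78) (nat_lit 0) (nat_lit 0) (XT.lf (nat_lit 0) (nat_lit 2706695427182) (nat_lit 152) (nat_lit 893027324639) (nat_lit 0) (nat_lit 2699446187913) (nat_lit 1) (nat_lit 5) (nat_lit 3) (nat_lit 4) (nat_lit 1) (nat_lit 4) (nat_lit 457) (nat_lit 336) (nat_lit 227)) (XT.lf (nat_lit 0) (nat_lit 2936006739612) (nat_lit 152) (nat_lit 937269213249) (nat_lit 0) (nat_lit 2928757378200) (nat_lit 1) (nat_lit 5) (nat_lit 3) (nat_lit 4) (nat_lit 1) (nat_lit 4) (nat_lit 458) (nat_lit 336) (nat_lit 226)))) (XT.nd (nat_lit 78) (nat_lit 0) (nat_lit 0) (XT.lf (nat_lit 0) (nat_lit 3183662523930) (nat_lit 152) (nat_lit 985051335012) (nat_lit 0) (nat_lit 3176413049423) (nat_lit 1) (nat_lit 5) (nat_lit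 3) (nat_lit 4) (nat_lit 1) (nat_lit 4) (nat_lit 459) (nat_lit 336) (nat_lit 225)) (XT.nd (nat_lit 78) (nat_lit 0) (nat_lit 0) (XT.lf (nat_lit 0) (nat_lit 3451130369970) (nat_lit 152) (nat_lit 1036656843242) (nat_lit 0) (nat_lit 3443880790745) (nat_lit 1) (nat_lit 5) (nat_lit 3) (nat_lit 4) (nat_lit 1) (nat_lit 4) (nat_lit 460) (nat_lit 336) (nat_lit 224)) (XT.lf (nat_lit 0) (nat_lit 3739995272373) (nat_lit 152) (nat_lit 1092391548357) (nat_lit 0) (nat_lit 3732745596188) (nat_lit 1) (nat_lit 5) (nat_lit 3) (nat_lit 4) (nat_lit 1) (nat_lit 4) (nat_lit 461) (nat_lit 336) (nat_lit 223))))))))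
noncomputable def xc85 : XT := (XT.nd (nat_lit 45474) (nat_lit 0) (nat_lit 1064) (XT.nd (nat_lit 44694) (nat_lit 0) (nat_lit 2508) (XT.nd (nat_lit 44304) (nat_lit 0) (nat_lit 4028) (XT.nd (nat_lit 44070) (nat_lit 0) (nat_lit 5624) (XT.nd (nat_lit 78) (nat_lit 0) (nat_lit 0) (XT.lf (nat_lit 0) (nat_lit 4051969023155) (nat_lit 152) (nat_lit 1152585730092) (nat_lit 0) (nat_lit 4044719257191) (nat_lit 1) (nat_lit 5) (nat_lit 3) (nat_lit 4) (nat_lit 1) (nat_lit 4) (nat_lit 462) (nat_lit 336) (nat_lit 222)) (XT.lf (nat_lit 0) (nat_lit 4388900355654) (nat_lit 152) (nat_lit 1217596094709) (nat_lit 0) (nat_lit 4381650506561) (nat_lit 1) (nat_lit 5) (nat_lit 3) (nat_lit 4) (nat_lit 1) (nat_lit 4) (nat_lit 463) (nat_lit 336) (nat_lit 221))) (XT.nd (nat_lit 78) (nat_lit 380) (nat_lit 0) (XT.lf (nat_lit 0) (nat_lit 1440455086) (nat_lit 228) (nat_lit 954998448) (nat_lit 228) (nat_lit 954998448) (nat_lit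 80) (nat_lit 4) (nat_lit 83) (nat_lit 5) (nat_lit 83) (nat_lit 4) (nat_lit 346) (nat_lit 337) (nat_lit 337)) (XT.nd (nat_lit 78) (nat_lit 0) (nat_lit 0) (XT.lf (nat_lit 0) (nat_lit 571758290) (nat_lit 304) (nat_lit 734987704) (nat_lit 380) (nat_lit 5494004698) (nat_lit 75) (nat_lit 5) (nat_lit 79) (nat_lit 5) (nat_lit 80) (nat_lit 4) (nat_lit 347) (nat_lit 337) (nat_lit 336)) (XT.lf (nat_lit 0) (nat_lit 4526951809) (nat_lit 380) (nat_lit 1690491624) (nat_lit 0) (nat_lit 699578155) (nat_lit 75) (nat_lit 5) (nat_lit 80) (nat_lit 4) (nat_lit 75) (nat_lit 4) (nat_lit 348) (nat_lit 337) (nat_lit 335))))) (XT.nd (nat_lit 156) (nat_lit 684) (nat_lit 0) (XT.nd (nat_lit 78) (nat_lit 456) (nat_lit 0) (XT.lf (nat_lit 0) (nat_lit 752902050) (nat_lit 456) (nat_lit 3965118394) (nat_lit 76) (nat_lit 2335914451) (nat_lit 69) (nat_lit 5) (nat_lit 75) (nat_lit 5) (nat_lit 70) (nat_lit 4) (nat_lit 349) (nat_lit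 337) (nat_lit 334)) (XT.lf (nat_lit 0) (nat_lit 884212001) (nat_lit 456) (nat_lit 2958548415) (nat_lit 532) (nat_lit 3368386571) (nat_lit 63) (nat_lit 5) (nat_lit 69) (nat_lit 5) (nat_lit 70) (nat_lit 4) (nat_lit 350) (nat_lit 337) (nat_lit 333))) (XT.nd (nat_lit 78) (nat_lit 684) (nat_lit 0) (XT.lf (nat_lit 0) (nat_lit 6107952328) (nat_lit 456) (nat_lit 948489783) (nat_lit 532) (nat_lit 334620636) (nat_lit 63) (nat_lit 5) (nat_lit 69) (nat_lit 5) (nat_lit 70) (nat_lit 4) (nat_lit 351) (nat_lit 337) (nat_lit 332)) (XT.nd (nat_lit 78) (nat_lit 228) (nat_lit 0) (XT.lf (nat_lit 0) (nat_lit 2705469917) (nat_lit 456) (nat_lit 3559625866) (nat_lit 76) (nat_lit 1321973693) (nat_lit 57) (nat_lit 5) (nat_lit 63) (nat_lit 5) (nat_lit 58) (nat_lit 4) (nat_lit 352) (nat_lit 337) (nat_lit 331)) (XT.lf (nat_lit 0) (nat_lit 1854602485) (nat_lit 228) (nat_lit 4011344873) (nat_lit 304) (nat_lit 1940697833)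 (nat_lit 54) (nat_lit 5) (nat_lit 57) (nat_lit 5) (nat_lit 58) (nat_lit 4) (nat_lit 353) (nat_lit 337) (nat_lit 330)))))) (XT.nd (nat_lit 390) (nat_lit 760) (nat_lit 0) (XT.nd (nat_lit 156) (nat_lit 456) (nat_lit 0) (XT.nd (nat_lit 78) (nat_lit 228) (nat_lit 0) (XT.lf (nat_lit 0) (nat_lit 1068012431) (nat_lit 304) (nat_lit 412455951) (nat_lit 76) (nat_lit 6569569561) (nat_lit 53) (nat_lit 5) (nat_lit 57) (nat_lit 5) (nat_lit 54) (nat_lit 5) (nat_lit 354) (nat_lit 337) (nat_lit 329)) (XT.lf (nat_lit 0) (nat_lit 4190155699) (nat_lit 304) (nat_lit 2779271436) (nat_lit 76) (nat_lit 1341397870) (nat_lit 50) (nat_lit 5) (nat_lit 54) (nat_lit 5) (nat_lit 51) (nat_lit 4) (nat_lit 355) (nat_lit 337) (nat_lit 328))) (XT.nd (nat_lit 78) (nat_lit 304) (nat_lit 0) (XT.lf (nat_lit 0) (nat_lit 3269761572) (nat_lit 152) (nat_lit 4238349750) (nat_lit 228) (nat_lit 1088830671) (nat_lit 48) (nat_lit 5) (nat_lit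 50) (nat_lit 5) (nat_lit 51) (nat_lit 4) (nat_lit 356) (nat_lit 337) (nat_lit 327)) (XT.nd (nat_lit 78) (nat_lit 0) (nat_lit 0) (XT.lf (nat_lit 0) (nat_lit 805071333) (nat_lit 228) (nat_lit 1189137253) (nat_lit 304) (nat_lit 6914224836) (nat_lit 44) (nat_lit 5) (nat_lit 47) (nat_lit 5) (nat_lit 48) (nat_lit 5) (nat_lit 357) (nat_lit 337) (nat_lit 326)) (XT.lf (nat_lit 0) (nat_lit 5291852046) (nat_lit 304) (nat_lit 1832774332) (nat_lit 76) (nat_lit 2115931645) (nat_lit 44) (nat_lit 5) (nat_lit 48) (nat_lit 5) (nat_lit 45) (nat_lit 4) (nat_lit 358) (nat_lit 337) (nat_lit 325))))) (XT.nd (nat_lit 156) (nat_lit 380) (nat_lit 0) (XT.nd (nat_lit 78) (nat_lit 228) (nat_lit 0) (XT.lf (nat_lit 0) (nat_lit 4925542363) (nat_lit 152) (nat_lit 3916691143) (nat_lit 228) (nat_lit 758015391) (nat_lit 42) (nat_lit 5) (nat_lit 44) (nat_lit 5) (nat_lit 45) (nat_lit 4) (nat_lit 359) (nat_lit 337) (nat_lit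 324)) (XT.lf (nat_lit 0) (nat_lit 2153811891) (nat_lit 152) (nat_lit 344859912) (nat_lit 228) (nat_lit 7489350123) (nat_lit 39) (nat_lit 5) (nat_lit 41) (nat_lit 5) (nat_lit 42) (nat_lit 5) (nat_lit 360) (nat_lit 337) (nat_lit 323))) (XT.nd (nat_lit 78) (nat_lit 380) (nat_lit 0) (XT.lf (nat_lit 0) (nat_lit 6037023019) (nat_lit 228) (nat_lit 946211764) (nat_lit 76) (nat_lit 3417128053) (nat_lit 39) (nat_lit 5) (nat_lit 42) (nat_lit 5) (nat_lit 40) (nat_lit 4) (nat_lit 361) (nat_lit 337) (nat_lit 322)) (XT.nd (nat_lit 78) (nat_lit 228) (nat_lit 0) (XT.lf (nat_lit 0) (nat_lit 6594690702) (nat_lit 152) (nat_lit 3289150380) (nat_lit 228) (nat_lit 959899201) (nat_lit 37) (nat_lit 5) (nat_lit 39) (nat_lit 5) (nat_lit 40) (nat_lit 4) (nat_lit 362) (nat_lit 337) (nat_lit 321)) (XT.lf (nat_lit 0) (nat_lit 2566139594) (nat_lit 228) (nat_lit 7986566951) (nat_lit 76) (nat_lit 765831405) (nat_lit 34)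 (nat_lit 5) (nat_lit 37) (nat_lit 5) (nat_lit 35) (nat_lit 4) (nat_lit 363) (nat_lit 337) (nat_lit 320))))))) (XT.nd (nat_lit 780) (nat_lit 608) (nat_lit 0) (XT.nd (nat_lit 390) (nat_lit 456) (nat_lit 0) (XT.nd (nat_lit 156) (nat_lit 304) (nat_lit 0) (XT.nd (nat_lit 78) (nat_lit 76) (nat_lit 0) (XT.lf (nat_lit 0) (nat_lit 6389928575) (nat_lit 228) (nat_lit 398629033) (nat_lit 76) (nat_lit 5035429536) (nat_lit 34) (nat_lit 5) (nat_lit 37) (nat_lit 5) (nat_lit 35) (nat_lit 4) (nat_lit 364) (nat_lit 337) (nat_lit 319)) (XT.lf (nat_lit 0) (nat_lit 7988223438) (nat_lit 76) (nat_lit 2596569733) (nat_lit 152) (nat_lit 1779924959) (nat_lit 33) (nat_lit 5) (nat_lit 34) (nat_lit 5) (nat_lit 35) (nat_lit 4) (nat_lit 365) (nat_lit 337) (nat_lit 318))) (XT.nd (nat_lit 78) (nat_lit 76) (nat_lit 0) (XT.lf (nat_lit 0) (nat_lit 2090013849) (nat_lit 228) (nat_lit 8931975546) (nat_lit 76) (nat_lit 1920052638)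 (nat_lit 30) (nat_lit 5) (nat_lit 33) (nat_lit 5) (nat_lit 31) (nat_lit 4) (nat_lit 366) (nat_lit 337) (nat_lit 317)) (XT.nd (nat_lit 78) (nat_lit 76) (nat_lit 0) (XT.lf (nat_lit 0) (nat_lit 6240373742) (nat_lit 228) (nat_lit 567912105) (nat_lit 76) (nat_lit 6748255762) (nat_lit 30) (nat_lit 5) (nat_lit 33) (nat_lit 5) (nat_lit 31) (nat_lit 4) (nat_lit 367) (nat_lit 337) (nat_lit 316)) (XT.lf (nat_lit 0) (nat_lit 8704802192) (nat_lit 76) (nat_lit 2113214256) (nat_lit 152) (nat_lit 3394608231) (nat_lit 29) (nat_lit 5) (nat_lit 30) (nat_lit 5) (nat_lit 31) (nat_lit 4) (nat_lit 368) (nat_lit 337) (nat_lit 315))))) (XT.nd (nat_lit 156) (nat_lit 228) (nat_lit 0) (XT.nd (nat_lit 78) (nat_lit 0) (nat_lit 0) (XT.lf (nat_lit 0) (nat_lit 865336382) (nat_lit 228) (nat_lit 11188087563) (nat_lit 76) (nat_lit 2860853446) (nat_lit 26) (nat_lit 5) (nat_lit 29) (nat_lit 5) (nat_lit 27) (nat_lit 4) (nat_lit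 369) (nat_lit 337) (nat_lit 314)) (XT.lf (nat_lit 0) (nat_lit 5380711055) (nat_lit 228) (nat_lit 1993599839) (nat_lit 76) (nat_lit 8282889984) (nat_lit 26) (nat_lit 5) (nat_lit 29) (nat_lit 5) (nat_lit 27) (nat_lit 4) (nat_lit 370) (nat_lit 337) (nat_lit 313))) (XT.nd (nat_lit 78) (nat_lit 152) (nat_lit 0) (XT.lf (nat_lit 0) (nat_lit 8160627269) (nat_lit 76) (nat_lit 2189838448) (nat_lit 152) (nat_lit 6101672759) (nat_lit 25) (nat_lit 5) (nat_lit 26) (nat_lit 5) (nat_lit 27) (nat_lit 4) (nat_lit 371) (nat_lit 337) (nat_lit 312)) (XT.nd (nat_lit 78) (nat_lit 76) (nat_lit 0) (XT.lf (nat_lit 0) (nat_lit 1753056670) (nat_lit 76) (nat_lit 14043121582) (nat_lit 76) (nat_lit 1508252474) (nat_lit 24) (nat_lit 4) (nat_lit 25) (nat_lit 5) (nat_lit 25) (nat_lit 4) (nat_lit 372) (nat_lit 337) (nat_lit 311)) (XT.lf (nat_lit 0) (nat_lit 3468294851) (nat_lit 152) (nat_lit 5465978034) (nat_lit 76) (nat_lit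 9268946687) (nat_lit 23) (nat_lit 5) (nat_lit 25) (nat_lit 5) (nat_lit 24) (nat_lit 4) (nat_lit 373) (nat_lit 337) (nat_lit 310)))))) (XT.nd (nat_lit 390) (nat_lit 304) (nat_lit 0) (XT.nd (nat_lit 156) (nat_lit 228) (nat_lit 0) (XT.nd (nat_lit 78) (nat_lit 0) (nat_lit 0) (XT.lf (nat_lit 0) (nat_lit 5489320320) (nat_lit 76) (nat_lit 3310564827) (nat_lit 152) (nat_lit 10367843720) (nat_lit 22) (nat_lit 5) (nat_lit 23) (nat_lit 5) (nat_lit 24) (nat_lit 4) (nat_lit 374) (nat_lit 337) (nat_lit 309)) (XT.lf (nat_lit 0) (nat_lit 14685206831) (nat_lit 152) (nat_lit 2809288248) (nat_lit 0) (nat_lit 2704749430) (nat_lit 22) (nat_lit 5) (nat_lit 24) (nat_lit 4) (nat_lit 22) (nat_lit 4) (nat_lit 375) (nat_lit 337) (nat_lit 308))) (XT.nd (nat_lit 78) (nat_lit 152) (nat_lit 0) (XT.lf (nat_lit 0) (nat_lit 9140029570) (nat_lit 76) (nat_lit 12121410617) (nat_lit 76) (nat_lit 34254652) (nat_lit 21) (nat_lit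 4) (nat_lit 22) (nat_lit 5) (nat_lit 22) (nat_lit 4) (nat_lit 376) (nat_lit 337) (nat_lit 307)) (XT.nd (nat_lit 78) (nat_lit 76) (nat_lit 0) (XT.lf (nat_lit 0) (nat_lit 5583067920) (nat_lit 152) (nat_lit 573169655) (nat_lit 76) (nat_lit 16312840860) (nat_lit 20) (nat_lit 5) (nat_lit 22) (nat_lit 5) (nat_lit 21) (nat_lit 4) (nat_lit 377) (nat_lit 337) (nat_lit 306)) (XT.lf (nat_lit 0) (nat_lit 11880281007) (nat_lit 152) (nat_lit 11325115884) (nat_lit 0) (nat_lit 512292348) (nat_lit 19) (nat_lit 5) (nat_lit 21) (nat_lit 4) (nat_lit 19) (nat_lit 4) (nat_lit 378) (nat_lit 337) (nat_lit 305))))) (XT.nd (nat_lit 234) (nat_lit 76) (nat_lit 0) (XT.nd (nat_lit 78) (nat_lit 152) (nat_lit 0) (XT.lf (nat_lit 0) (nat_lit 1108580744) (nat_lit 76) (nat_lit 17697045006) (nat_lit 76) (nat_lit 6250629716) (nat_lit 18) (nat_lit 4) (nat_lit 19) (nat_lit 5) (nat_lit 19) (nat_lit 4) (nat_lit 379) (nat_lit 337)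 (nat_lit 304)) (XT.nd (nat_lit 78) (nat_lit 76) (nat_lit 0) (XT.lf (nat_lit 0) (nat_lit 33646086) (nat_lit 152) (nat_lit 11449048679) (nat_lit 76) (nat_lit 15000466013) (nat_lit 17) (nat_lit 5) (nat_lit 19) (nat_lit 5) (nat_lit 18) (nat_lit 4) (nat_lit 380) (nat_lit 337) (nat_lit 303)) (XT.lf (nat_lit 0) (nat_lit 1840156331) (nat_lit 76) (nat_lit 4614856680) (nat_lit 152) (nat_lit 21558465400) (nat_lit 16) (nat_lit 5) (nat_lit 17) (nat_lit 5) (nat_lit 18) (nat_lit 4) (nat_lit 381) (nat_lit 337) (nat_lit 302)))) (XT.nd (nat_lit 78) (nat_lit 76) (nat_lit 0) (XT.lf (nat_lit 0) (nat_lit 13706963246) (nat_lit 152) (nat_lit 13012630393) (nat_lit 0) (nat_lit 2921288874) (nat_lit 16) (nat_lit 5) (nat_lit 18) (nat_lit 4) (nat_lit 16) (nat_lit 4) (nat_lit 382) (nat_lit 337) (nat_lit 301)) (XT.nd (nat_lit 78) (nat_lit 0) (nat_lit 0) (XT.lf (nat_lit 0) (nat_lit 1001970652) (nat_lit 76) (nat_lit 20614681047)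 (nat_lit 76) (nat_lit 9775630828) (nat_lit 15) (nat_lit 4) (nat_lit 16) (nat_lit 5) (nat_lit 16) (nat_lit 4) (nat_lit 383) (nat_lit 337) (nat_lit 300)) (XT.lf (nat_lit 0) (nat_lit 16751848344) (nat_lit 76) (nat_lit 13698562142) (nat_lit 76) (nat_lit 2810089844) (nat_lit 15) (nat_lit 4) (nat_lit 16) (nat_lit 5) (nat_lit 16) (nat_lit 4) (nat_lit 384) (nat_lit 337) (nat_lit 299))))))))
noncomputable def xc86 : XT := (XT.nd (nat_lit 1560) (nat_lit 304) (nat_lit 0) (XT.nd (nat_lit 780) (nat_lit 304) (nat_lit 0) (XT.nd (nat_lit 390) (nat_lit 228) (nat_lit 0) (XT.nd (nat_lit 156) (nat_lit 76) (nat_lit 0) (XT.nd (nat_lit 78) (nat_lit 76) (nat_lit 0) (XT.lf (nat_lit 0) (nat_lit 4415671171) (nat_lit 152) (nat_lit 1749637447) (nat_lit 76) (nat_lit 29108709789) (nat_lit 14) (nat_lit 5) (nat_lit 16) (nat_lit 5) (nat_lit 15) (nat_lit 4) (nat_lit 385) (nat_lit 337) (nat_lit 298)) (XT.lf (nat_lit 0) (nat_lit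 12422719824) (nat_lit 152) (nat_lit 22732466136) (nat_lit 0) (nat_lit 2259196721) (nat_lit 13) (nat_lit 5) (nat_lit 15) (nat_lit 4) (nat_lit 13) (nat_lit 4) (nat_lit 386) (nat_lit 337) (nat_lit 297))) (XT.nd (nat_lit 78) (nat_lit 76) (nat_lit 0) (XT.lf (nat_lit 0) (nat_lit 21223141285) (nat_lit 152) (nat_lit 7467325537) (nat_lit 0) (nat_lit 11023291477) (nat_lit 13) (nat_lit 5) (nat_lit 15) (nat_lit 4) (nat_lit 13) (nat_lit 4) (nat_lit 387) (nat_lit 337) (nat_lit 296)) (XT.nd (nat_lit 78) (nat_lit 0) (nat_lit 0) (XT.lf (nat_lit 0) (nat_lit 9385475483) (nat_lit 76) (nat_lit 21515610678) (nat_lit 76) (nat_lit 11282125033) (nat_lit 12) (nat_lit 4) (nat_lit 13) (nat_lit 5) (nat_lit 13) (nat_lit 4) (nat_lit 388) (nat_lit 337) (nat_lit 295)) (XT.lf (nat_lit 0) (nat_lit 27910732554) (nat_lit 76) (nat_lit 13595926135) (nat_lit 76) (nat_lit 3331296197) (nat_lit 12) (nat_lit 4) (nat_lit 13) (nat_lit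 5) (nat_lit 13) (nat_lit 4) (nat_lit 389) (nat_lit 337) (nat_lit 294))))) (XT.nd (nat_lit 156) (nat_lit 76) (nat_lit 0) (XT.nd (nat_lit 78) (nat_lit 76) (nat_lit 0) (XT.lf (nat_lit 0) (nat_lit 4944449648) (nat_lit 152) (nat_lit 9011979) (nat_lit 76) (nat_lit 42745369182) (nat_lit 11) (nat_lit 5) (nat_lit 13) (nat_lit 5) (nat_lit 12) (nat_lit 4) (nat_lit 390) (nat_lit 337) (nat_lit 293)) (XT.lf (nat_lit 0) (nat_lit 14233961352) (nat_lit 152) (nat_lit 31826913553) (nat_lit 0) (nat_lit 4678249816) (nat_lit 10) (nat_lit 5) (nat_lit 12) (nat_lit 4) (nat_lit 10) (nat_lit 4) (nat_lit 391) (nat_lit 337) (nat_lit 292))) (XT.nd (nat_lit 78) (nat_lit 76) (nat_lit 0) (XT.lf (nat_lit 0) (nat_lit 24351084533) (nat_lit 152) (nat_lit 14892324916) (nat_lit 0) (nat_lit 14772481011) (nat_lit 10) (nat_lit 5) (nat_lit 12) (nat_lit 4) (nat_lit 10) (nat_lit 4) (nat_lit 392) (nat_lit 337) (nat_lit 291)) (XT.nd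 (nat_lit 78) (nat_lit 0) (nat_lit 0) (XT.lf (nat_lit 0) (nat_lit 3489478052) (nat_lit 76) (nat_lit 31830851543) (nat_lit 76) (nat_lit 22231051737) (nat_lit 9) (nat_lit 4) (nat_lit 10) (nat_lit 5) (nat_lit 10) (nat_lit 4) (nat_lit 393) (nat_lit 337) (nat_lit 290)) (XT.lf (nat_lit 0) (nat_lit 24108733140) (nat_lit 76) (nat_lit 23425518535) (nat_lit 76) (nat_lit 13806092542) (nat_lit 9) (nat_lit 4) (nat_lit 10) (nat_lit 5) (nat_lit 10) (nat_lit 4) (nat_lit 394) (nat_lit 337) (nat_lit 289)))))) (XT.nd (nat_lit 390) (nat_lit 152) (nat_lit 0) (XT.nd (nat_lit 156) (nat_lit 0) (nat_lit 0) (XT.nd (nat_lit 78) (nat_lit 152) (nat_lit 0) (XT.lf (nat_lit 0) (nat_lit 46303425084) (nat_lit 76) (nat_lit 14384783602) (nat_lit 76) (nat_lit 4747185213) (nat_lit 9) (nat_lit 4) (nat_lit 10) (nat_lit 5) (nat_lit 10) (nat_lit 4) (nat_lit 395) (nat_lit 337) (nat_lit 288)) (XT.lf (nat_lit 0) (nat_lit 235843964)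 (nat_lit 76) (nat_lit 4519092884) (nat_lit 152) (nat_lit 65095787962) (nat_lit 7) (nat_lit 5) (nat_lit 8) (nat_lit 5) (nat_lit 9) (nat_lit 4) (nat_lit 396) (nat_lit 337) (nat_lit 287))) (XT.nd (nat_lit 78) (nat_lit 0) (nat_lit 0) (XT.lf (nat_lit 0) (nat_lit 15409916424) (nat_lit 152) (nat_lit 52691363035) (nat_lit 0) (nat_lit 6456208477) (nat_lit 7) (nat_lit 5) (nat_lit 9) (nat_lit 4) (nat_lit 7) (nat_lit 4) (nat_lit 397) (nat_lit 337) (nat_lit 286)) (XT.nd (nat_lit 78) (nat_lit 0) (nat_lit 0) (XT.lf (nat_lit 0) (nat_lit 27002175848) (nat_lit 152) (nat_lit 34596717641) (nat_lit 0) (nat_lit 18035110647) (nat_lit 7) (nat_lit 5) (nat_lit 9) (nat_lit 4) (nat_lit 7) (nat_lit 4) (nat_lit 398) (nat_lit 337) (nat_lit 285)) (XT.lf (nat_lit 0) (nat_lit 39491725699) (nat_lit 152) (nat_lit 15115032842) (nat_lit 0) (nat_lit 30512292670) (nat_lit 7) (nat_lit 5) (nat_lit 9) (nat_lit 4) (nat_lit 7) (nat_lit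 4) (nat_lit 399) (nat_lit 337) (nat_lit 284))))) (XT.nd (nat_lit 156) (nat_lit 76) (nat_lit 0) (XT.nd (nat_lit 78) (nat_lit 0) (nat_lit 0) (XT.lf (nat_lit 0) (nat_lit 6178196805) (nat_lit 76) (nat_lit 46922967100) (nat_lit 76) (nat_lit 37932082379) (nat_lit 6) (nat_lit 4) (nat_lit 7) (nat_lit 5) (nat_lit 7) (nat_lit 4) (nat_lit 400) (nat_lit 337) (nat_lit 283)) (XT.lf (nat_lit 0) (nat_lit 29979860723) (nat_lit 76) (nat_lit 38205656786) (nat_lit 76) (nat_lit 29204168646) (nat_lit 6) (nat_lit 4) (nat_lit 7) (nat_lit 5) (nat_lit 7) (nat_lit 4) (nat_lit 401) (nat_lit 337) (nat_lit 282))) (XT.nd (nat_lit 78) (nat_lit 76) (nat_lit 0) (XT.lf (nat_lit 0) (nat_lit 55635074965) (nat_lit 76) (nat_lit 28816441247) (nat_lit 76) (nat_lit 19805135127) (nat_lit 6) (nat_lit 4) (nat_lit 7) (nat_lit 5) (nat_lit 7) (nat_lit 4) (nat_lit 402) (nat_lit 337) (nat_lit 281)) (XT.nd (nat_lit 78) (nat_lit 76) (nat_lit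 0) (XT.lf (nat_lit 0) (nat_lit 83295870428) (nat_lit 76) (nat_lit 18699680689) (nat_lit 76) (nat_lit 9679283846) (nat_lit 6) (nat_lit 4) (nat_lit 7) (nat_lit 5) (nat_lit 7) (nat_lit 4) (nat_lit 403) (nat_lit 337) (nat_lit 280)) (XT.lf (nat_lit 0) (nat_lit 1171691065) (nat_lit 152) (nat_lit 6591696762) (nat_lit 76) (nat_lit 111922435764) (nat_lit 5) (nat_lit 5) (nat_lit 7) (nat_lit 5) (nat_lit 6) (nat_lit 4) (nat_lit 404) (nat_lit 337) (nat_lit 279))))))) (XT.nd (nat_lit 780) (nat_lit 152) (nat_lit 0) (XT.nd (nat_lit 390) (nat_lit 76) (nat_lit 0) (XT.nd (nat_lit 156) (nat_lit 0) (nat_lit 0) (XT.nd (nat_lit 78) (nat_lit 0) (nat_lit 0) (XT.lf (nat_lit 0) (nat_lit 12883105928) (nat_lit 152) (nat_lit 110877374088) (nat_lit 0) (nat_lit 4515876292) (nat_lit 4) (nat_lit 5) (nat_lit 6) (nat_lit 4) (nat_lit 4) (nat_lit 4) (nat_lit 405) (nat_lit 337) (nat_lit 278)) (XT.lf (nat_lit 0) (nat_lit 25897603689)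 (nat_lit 152) (nat_lit 94103543548) (nat_lit 0) (nat_lit 17523692100) (nat_lit 4) (nat_lit 5) (nat_lit 6) (nat_lit 4) (nat_lit 4) (nat_lit 4) (nat_lit 406) (nat_lit 337) (nat_lit 277))) (XT.nd (nat_lit 78) (nat_lit 0) (nat_lit 0) (XT.lf (nat_lit 0) (nat_lit 39934384731) (nat_lit 152) (nat_lit 76026041431) (nat_lit 0) (nat_lit 31554286149) (nat_lit 4) (nat_lit 5) (nat_lit 6) (nat_lit 4) (nat_lit 4) (nat_lit 4) (nat_lit 407) (nat_lit 337) (nat_lit 276)) (XT.nd (nat_lit 78) (nat_lit 0) (nat_lit 0) (XT.lf (nat_lit 0) (nat_lit 55076629979) (nat_lit 152) (nat_lit 56537741796) (nat_lit 0) (nat_lit 46690802700) (nat_lit 4) (nat_lit 5) (nat_lit 6) (nat_lit 4) (nat_lit 4) (nat_lit 4) (nat_lit 408) (nat_lit 337) (nat_lit 275)) (XT.lf (nat_lit 0) (nat_lit 71414071256) (nat_lit 152) (nat_lit 35523158426) (nat_lit 0) (nat_lit 63022939628) (nat_lit 4) (nat_lit 5) (nat_lit 6) (nat_lit 4) (nat_lit 4) (nat_lit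 4) (nat_lit 409) (nat_lit 337) (nat_lit 274))))) (XT.nd (nat_lit 156) (nat_lit 0) (nat_lit 0) (XT.nd (nat_lit 78) (nat_lit 76) (nat_lit 0) (XT.lf (nat_lit 0) (nat_lit 89043523029) (nat_lit 152) (nat_lit 12857760455) (nat_lit 0) (nat_lit 80647479966) (nat_lit 4) (nat_lit 5) (nat_lit 6) (nat_lit 4) (nat_lit 4) (nat_lit 4) (nat_lit 410) (nat_lit 337) (nat_lit 273)) (XT.lf (nat_lit 0) (nat_lit 12203220078) (nat_lit 76) (nat_lit 96159723782) (nat_lit 76) (nat_lit 87759133095) (nat_lit 3) (nat_lit 4) (nat_lit 4) (nat_lit 5) (nat_lit 4) (nat_lit 4) (nat_lit 411) (nat_lit 337) (nat_lit 272))) (XT.nd (nat_lit 78) (nat_lit 0) (nat_lit 0) (XT.lf (nat_lit 0) (nat_lit 39972919004) (nat_lit 76) (nat_lit 89593047469) (nat_lit 76) (nat_lit 81188246018) (nat_lit 3) (nat_lit 4) (nat_lit 4) (nat_lit 5) (nat_lit 4) (nat_lit 4) (nat_lit 412) (nat_lit 337) (nat_lit 271)) (XT.nd (nat_lit 78) (nat_lit 0) (nat_lit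 0) (XT.lf (nat_lit 0) (nat_lit 69938830623) (nat_lit 76) (nat_lit 82513894864) (nat_lit 76) (nat_lit 74105194559) (nat_lit 3) (nat_lit 4) (nat_lit 4) (nat_lit 5) (nat_lit 4) (nat_lit 4) (nat_lit 413) (nat_lit 337) (nat_lit 270)) (XT.lf (nat_lit 0) (nat_lit 102278530706) (nat_lit 76) (nat_lit 74880315434) (nat_lit 76) (nat_lit 66468005078) (nat_lit 3) (nat_lit 4) (nat_lit 4) (nat_lit 5) (nat_lit 4) (nat_lit 4) (nat_lit 414) (nat_lit 337) (nat_lit 269)))))) (XT.nd (nat_lit 390) (nat_lit 152) (nat_lit 0) (XT.nd (nat_lit 156) (nat_lit 0) (nat_lit 0) (XT.nd (nat_lit 78) (nat_lit 0) (nat_lit 0) (XT.lf (nat_lit 0) (nat_lit 137183661922) (nat_lit 76) (nat_lit 66647073153) (nat_lit 76) (nat_lit 58231420156) (nat_lit 3) (nat_lit 4) (nat_lit 4) (nat_lit 5) (nat_lit 4) (nat_lit 4) (nat_lit 415) (nat_lit 337) (nat_lit 268)) (XT.lf (nat_lit 0) (nat_lit 174861069491) (nat_lit 76) (nat_lit 57765378436)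 (nat_lit 76) (nat_lit 49346630403) (nat_lit 3) (nat_lit 4) (nat_lit 4) (nat_lit 5) (nat_lit 4) (nat_lit 4) (nat_lit 416) (nat_lit 337) (nat_lit 267))) (XT.nd (nat_lit 78) (nat_lit 0) (nat_lit 0) (XT.lf (nat_lit 0) (nat_lit 215534026941) (nat_lit 76) (nat_lit 48182599018) (nat_lit 76) (nat_lit 39760985210) (nat_lit 3) (nat_lit 4) (nat_lit 4) (nat_lit 5) (nat_lit 4) (nat_lit 4) (nat_lit 417) (nat_lit 337) (nat_lit 266)) (XT.nd (nat_lit 78) (nat_lit 0) (nat_lit 0) (XT.lf (nat_lit 0) (nat_lit 259443559204) (nat_lit 76) (nat_lit 37841948059) (nat_lit 76) (nat_lit 29417680756) (nat_lit 3) (nat_lit 4) (nat_lit 4) (nat_lit 5) (nat_lit 4) (nat_lit 4) (nat_lit 418) (nat_lit 337) (nat_lit 265)) (XT.lf (nat_lit 0) (nat_lit 306849870916) (nat_lit 76) (nat_lit 26682147627) (nat_lit 76) (nat_lit 18255423384) (nat_lit 3) (nat_lit 4) (nat_lit 4) (nat_lit 5) (nat_lit 4) (nat_lit 4) (nat_lit 419) (nat_lit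 337) (nat_lit 264))))) (XT.nd (nat_lit 234) (nat_lit 0) (nat_lit 0) (XT.nd (nat_lit 78) (nat_lit 152) (nat_lit 0) (XT.lf (nat_lit 0) (nat_lit 358033888368) (nat_lit 76) (nat_lit 14637065571) (nat_lit 76) (nat_lit 6208066384) (nat_lit 3) (nat_lit 4) (nat_lit 4) (nat_lit 5) (nat_lit 4) (nat_lit 4) (nat_lit 420) (nat_lit 337) (nat_lit 263)) (XT.nd (nat_lit 78) (nat_lit 0) (nat_lit 0) (XT.lf (nat_lit 0) (nat_lit 5260153840) (nat_lit 76) (nat_lit 1322182437) (nat_lit 152) (nat_lit 401532933974) (nat_lit 1) (nat_lit 5) (nat_lit 2) (nat_lit 5) (nat_lit 3) (nat_lit 4) (nat_lit 421) (nat_lit 337) (nat_lit 262)) (XT.lf (nat_lit 0) (nat_lit 20952447562) (nat_lit 152) (nat_lit 405509660856) (nat_lit 0) (nat_lit 13144062362) (nat_lit 1) (nat_lit 5) (nat_lit 3) (nat_lit 4) (nat_lit 1) (nat_lit 4) (nat_lit 422) (nat_lit 337) (nat_lit 261)))) (XT.nd (nat_lit 78) (nat_lit 0) (nat_lit 0) (XT.lf (nat_lit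 0) (nat_lit 36500106524) (nat_lit 152) (nat_lit 408423952871) (nat_lit 0) (nat_lit 28690049172) (nat_lit 1) (nat_lit 5) (nat_lit 3) (nat_lit 4) (nat_lit 1) (nat_lit 4) (nat_lit 423) (nat_lit 337) (nat_lit 260)) (XT.nd (nat_lit 78) (nat_lit 0) (nat_lit 0) (XT.lf (nat_lit 0) (nat_lit 53285648919) (nat_lit 152) (nat_lit 411583463817) (nat_lit 0) (nat_lit 45474043278) (nat_lit 1) (nat_lit 5) (nat_lit 3) (nat_lit 4) (nat_lit 1) (nat_lit 4) (nat_lit 424) (nat_lit 337) (nat_lit 259)) (XT.lf (nat_lit 0) (nat_lit 71408544628) (nat_lit 152) (nat_lit 415006916722) (nat_lit 0) (nat_lit 63595505386) (nat_lit 1) (nat_lit 5) (nat_lit 3) (nat_lit 4) (nat_lit 1) (nat_lit 4) (nat_lit 425) (nat_lit 337) (nat_lit 258))))))))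
noncomputable def xc87 : XT := (XT.nd (nat_lit 1638) (nat_lit 0) (nat_lit 0) (XT.nd (nat_lit 780) (nat_lit 0) (nat_lit 0) (XT.nd (nat_lit 390) (nat_lit 0) (nat_lit 0) (XT.nd (nat_lit 156) (nat_lit 0) (nat_lit 0) (XT.nd (nat_lit 78) (nat_lit 0) (nat_lit 0) (XT.lf (nat_lit 0) (nat_lit 90976188589) (nat_lit 152) (nat_lit 418714598714) (nat_lit 0) (nat_lit 83161821939) (nat_lit 1) (nat_lit 5) (nat_lit 3) (nat_lit 4) (nat_lit 1) (nat_lit 4) (nat_lit 426) (nat_lit 337) (nat_lit 257)) (XT.lf (nat_lit 0) (nat_lit 112104537210) (nat_lit 152) (nat_lit 422728481242) (nat_lit 0) (nat_lit 104288941478) (nat_lit 1) (nat_lit 5) (nat_lit 3) (nat_lit 4) (nat_lit 1) (nat_lit 4) (nat_lit 427) (nat_lit 337) (nat_lit 256))) (XT.nd (nat_lit 78) (nat_lit 0) (nat_lit 0) (XT.lf (nat_lit 0) (nat_lit 134918795520) (nat_lit 152) (nat_lit 427072350276) (nat_lit 0) (nat_lit 127102061749) (nat_lit 1) (nat_lit 5) (nat_lit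 3) (nat_lit 4) (nat_lit 1) (nat_lit 4) (nat_lit 428) (nat_lit 337) (nat_lit 255)) (XT.nd (nat_lit 78) (nat_lit 0) (nat_lit 0) (XT.lf (nat_lit 0) (nat_lit 159554159123) (nat_lit 152) (nat_lit 431771947264) (nat_lit 0) (nat_lit 151736371613) (nat_lit 1) (nat_lit 5) (nat_lit 3) (nat_lit 4) (nat_lit 1) (nat_lit 4) (nat_lit 429) (nat_lit 337) (nat_lit 254)) (XT.lf (nat_lit 0) (nat_lit 186156615361) (nat_lit 152) (nat_lit 436855121667) (nat_lit 0) (nat_lit 178337852166) (nat_lit 1) (nat_lit 5) (nat_lit 3) (nat_lit 4) (nat_lit 1) (nat_lit 4) (nat_lit 430) (nat_lit 337) (nat_lit 253))))) (XT.nd (nat_lit 156) (nat_lit 0) (nat_lit 0) (XT.nd (nat_lit 78) (nat_lit 0) (nat_lit 0) (XT.lf (nat_lit 0) (nat_lit 214883808417) (nat_lit 152) (nat_lit 442351996002) (nat_lit 0) (nat_lit 207064141811) (nat_lit 1) (nat_lit 5) (nat_lit 3) (nat_lit 4) (nat_lit 1) (nat_lit 4) (nat_lit 431) (nat_lit 337) (nat_lit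 252)) (XT.lf (nat_lit 0) (nat_lit 245905973511) (nat_lit 152) (nat_lit 448295144338) (nat_lit 0) (nat_lit 238085470412) (nat_lit 1) (nat_lit 5) (nat_lit 3) (nat_lit 4) (nat_lit 1) (nat_lit 4) (nat_lit 432) (nat_lit 337) (nat_lit 251))) (XT.nd (nat_lit 78) (nat_lit 0) (nat_lit 0) (XT.lf (nat_lit 0) (nat_lit 279406945693) (nat_lit 152) (nat_lit 454719785333) (nat_lit 0) (nat_lit 271585668064) (nat_lit 1) (nat_lit 5) (nat_lit 3) (nat_lit 4) (nat_lit 1) (nat_lit 4) (nat_lit 433) (nat_lit 337) (nat_lit 250)) (XT.nd (nat_lit 78) (nat_lit 0) (nat_lit 0) (XT.lf (nat_lit 0) (nat_lit 315585249245) (nat_lit 152) (nat_lit 461663990932) (nat_lit 0) (nat_lit 307763254459) (nat_lit 1) (nat_lit 5) (nat_lit 3) (nat_lit 4) (nat_lit 1) (nat_lit 4) (nat_lit 434) (nat_lit 337) (nat_lit 249)) (XT.lf (nat_lit 0) (nat_lit 354655274112) (nat_lit 152) (nat_lit 469168911984) (nat_lit 0) (nat_lit 346832615292) (nat_lit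 1) (nat_lit 5) (nat_lit 3) (nat_lit 4) (nat_lit 1) (nat_lit 4) (nat_lit 435) (nat_lit 337) (nat_lit 248)))))) (XT.nd (nat_lit 390) (nat_lit 0) (nat_lit 0) (XT.nd (nat_lit 156) (nat_lit 0) (nat_lit 0) (XT.nd (nat_lit 78) (nat_lit 0) (nat_lit 0) (XT.lf (nat_lit 0) (nat_lit 396848546369) (nat_lit 152) (nat_lit 477279022096) (nat_lit 0) (nat_lit 389025272701) (nat_lit 1) (nat_lit 5) (nat_lit 3) (nat_lit 4) (nat_lit 1) (nat_lit 4) (nat_lit 436) (nat_lit 337) (nat_lit 247)) (XT.lf (nat_lit 0) (nat_lit 442415100221) (nat_lit 152) (nat_lit 486042381178) (nat_lit 0) (nat_lit 434591257251) (nat_lit 1) (nat_lit 5) (nat_lit 3) (nat_lit 4) (nat_lit 1) (nat_lit 4) (nat_lit 437) (nat_lit 337) (nat_lit 246))) (XT.nd (nat_lit 78) (nat_lit 0) (nat_lit 0) (XT.lf (nat_lit 0) (nat_lit 491624959691) (nat_lit 152) (nat_lit 495510920248) (nat_lit 0) (nat_lit 483800589589) (nat_lit 1) (nat_lit 5) (nat_lit 3) (nat_lit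 4) (nat_lit 1) (nat_lit 4) (nat_lit 438) (nat_lit 337) (nat_lit 245)) (XT.nd (nat_lit 78) (nat_lit 0) (nat_lit 0) (XT.lf (nat_lit 0) (nat_lit 544769738761) (nat_lit 152) (nat_lit 505740749166) (nat_lit 0) (nat_lit 536944880573) (nat_lit 1) (nat_lit 5) (nat_lit 3) (nat_lit 4) (nat_lit 1) (nat_lit 4) (nat_lit 439) (nat_lit 337) (nat_lit 244)) (XT.lf (nat_lit 0) (nat_lit 602164369455) (nat_lit 152) (nat_lit 516792489142) (nat_lit 0) (nat_lit 594339059337) (nat_lit 1) (nat_lit 5) (nat_lit 3) (nat_lit 4) (nat_lit 1) (nat_lit 4) (nat_lit 440) (nat_lit 337) (nat_lit 243))))) (XT.nd (nat_lit 234) (nat_lit 0) (nat_lit 0) (XT.nd (nat_lit 78) (nat_lit 0) (nat_lit 0) (XT.lf (nat_lit 0) (nat_lit 664148968104) (nat_lit 152) (nat_lit 528731631967) (nat_lit 0) (nat_lit 656323239531) (nat_lit 1) (nat_lit 5) (nat_lit 3) (nat_lit 4) (nat_lit 1) (nat_lit 4) (nat_lit 441) (nat_lit 337) (nat_lit 242)) (XT.nd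 (nat_lit 78) (nat_lit 0) (nat_lit 0) (XT.lf (nat_lit 0) (nat_lit 731090850846) (nat_lit 152) (nat_lit 541628928118) (nat_lit 0) (nat_lit 723264734816) (nat_lit 1) (nat_lit 5) (nat_lit 3) (nat_lit 4) (nat_lit 1) (nat_lit 4) (nat_lit 442) (nat_lit 337) (nat_lit 241)) (XT.lf (nat_lit 0) (nat_lit 803386710322) (nat_lit 152) (nat_lit 555560806017) (nat_lit 0) (nat_lit 795560235534) (nat_lit 1) (nat_lit 5) (nat_lit 3) (nat_lit 4) (nat_lit 1) (nat_lit 4) (nat_lit 443) (nat_lit 337) (nat_lit 240)))) (XT.nd (nat_lit 78) (nat_lit 0) (nat_lit 0) (XT.lf (nat_lit 0) (nat_lit 881464966438) (nat_lit 152) (nat_lit 570609824939) (nat_lit 0) (nat_lit 873638159468) (nat_lit 1) (nat_lit 5) (nat_lit 3) (nat_lit 4) (nat_lit 1) (nat_lit 4) (nat_lit 444) (nat_lit 337) (nat_lit 239)) (XT.nd (nat_lit 78) (nat_lit 0) (nat_lit 0) (XT.lf (nat_lit 0) (nat_lit 965788305158) (nat_lit 152) (nat_lit 586865164256) (nat_lit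 0) (nat_lit 957961190611) (nat_lit 1) (nat_lit 5) (nat_lit 3) (nat_lit 4) (nat_lit 1) (nat_lit 4) (nat_lit 445) (nat_lit 337) (nat_lit 238)) (XT.lf (nat_lit 0) (nat_lit 1056856420339) (nat_lit 152) (nat_lit 604423151905) (nat_lit 0) (nat_lit 1049029020999) (nat_lit 1) (nat_lit 5) (nat_lit 3) (nat_lit 4) (nat_lit 1) (nat_lit 4) (nat_lit 446) (nat_lit 337) (nat_lit 237))))))) (XT.nd (nat_lit 780) (nat_lit 0) (nat_lit 0) (XT.nd (nat_lit 390) (nat_lit 0) (nat_lit 0) (XT.nd (nat_lit 156) (nat_lit 0) (nat_lit 0) (XT.nd (nat_lit 78) (nat_lit 0) (nat_lit 0) (XT.lf (nat_lit 0) (nat_lit 1155208974888) (nat_lit 152) (nat_lit 623387835220) (nat_lit 0) (nat_lit 1147381311850) (nat_lit 1) (nat_lit 5) (nat_lit 3) (nat_lit 4) (nat_lit 1) (nat_lit 4) (nat_lit 447) (nat_lit 337) (nat_lit 236)) (XT.lf (nat_lit 0) (nat_lit 1261428798756) (nat_lit 152) (nat_lit 643871597509) (nat_lit 0) (nat_lit 1253600891554)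 (nat_lit 1) (nat_lit 5) (nat_lit 3) (nat_lit 4) (nat_lit 1) (nat_lit 4) (nat_lit 448) (nat_lit 337) (nat_lit 235))) (XT.nd (nat_lit 78) (nat_lit 0) (nat_lit 0) (XT.lf (nat_lit 0) (nat_lit 1376145342752) (nat_lit 152) (nat_lit 665995824032) (nat_lit 0) (nat_lit 1368317209472) (nat_lit 1) (nat_lit 5) (nat_lit 3) (nat_lit 4) (nat_lit 1) (nat_lit 4) (nat_lit 449) (nat_lit 337) (nat_lit 234)) (XT.nd (nat_lit 78) (nat_lit 0) (nat_lit 0) (XT.lf (nat_lit 0) (nat_lit 1500038408618) (nat_lit 152) (nat_lit 689891621314) (nat_lit 0) (nat_lit 1492210066007) (nat_lit 1) (nat_lit 5) (nat_lit 3) (nat_lit 4) (nat_lit 1) (nat_lit 4) (nat_lit 450) (nat_lit 337) (nat_lit 233)) (XT.lf (nat_lit 0) (nat_lit 1633842177485) (nat_lit 152) (nat_lit 715700594081) (nat_lit 0) (nat_lit 1626013641048) (nat_lit 1) (nat_lit 5) (nat_lit 3) (nat_lit 4) (nat_lit 1) (nat_lit 4) (nat_lit 451) (nat_lit 337) (nat_lit 232)))))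 (XT.nd (nat_lit 156) (nat_lit 0) (nat_lit 0) (XT.nd (nat_lit 78) (nat_lit 0) (nat_lit 0) (XT.lf (nat_lit 0) (nat_lit 1778349560576) (nat_lit 152) (nat_lit 743575684393) (nat_lit 0) (nat_lit 1770520844672) (nat_lit 1) (nat_lit 5) (nat_lit 3) (nat_lit 4) (nat_lit 1) (nat_lit 4) (nat_lit 452) (nat_lit 337) (nat_lit 231)) (XT.lf (nat_lit 0) (nat_lit 1934416897939) (nat_lit 152) (nat_lit 773682077972) (nat_lit 0) (nat_lit 1926588015861) (nat_lit 1) (nat_lit 5) (nat_lit 3) (nat_lit 4) (nat_lit 1) (nat_lit 4) (nat_lit 453) (nat_lit 337) (nat_lit 230))) (XT.nd (nat_lit 78) (nat_lit 0) (nat_lit 0) (XT.lf (nat_lit 0) (nat_lit 2102969033055) (nat_lit 152) (nat_lit 806198183075) (nat_lit 0) (nat_lit 2095139997112) (nat_lit 1) (nat_lit 5) (nat_lit 3) (nat_lit 4) (nat_lit 1) (nat_lit 4) (nat_lit 454) (nat_lit 337) (nat_lit 229)) (XT.nd (nat_lit 78) (nat_lit 0) (nat_lit 0) (XT.lf (nat_lit 0) (nat_lit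 2285004793390) (nat_lit 152) (nat_lit 841316687732) (nat_lit 0) (nat_lit 2277175614980) (nat_lit 1) (nat_lit 5) (nat_lit 3) (nat_lit 4) (nat_lit 1) (nat_lit 4) (nat_lit 455) (nat_lit 337) (nat_lit 228)) (XT.lf (nat_lit 0) (nat_lit 2481602909378) (nat_lit 152) (nat_lit 879245701600) (nat_lit 0) (nat_lit 2473773599053) (nat_lit 1) (nat_lit 5) (nat_lit 3) (nat_lit 4) (nat_lit 1) (nat_lit 4) (nat_lit 456) (nat_lit 337) (nat_lit 227)))))) (XT.nd (nat_lit 390) (nat_lit 0) (nat_lit 0) (XT.nd (nat_lit 156) (nat_lit 0) (nat_lit 0) (XT.nd (nat_lit 78) (nat_lit 0) (nat_lit 0) (XT.lf (nat_lit 0) (nat_lit 2693928406889) (nat_lit 152) (nat_lit 920209989208) (nat_lit 0) (nat_lit 2686098974421) (nat_lit 1) (nat_lit 5) (nat_lit 3) (nat_lit 4) (nat_lit 1) (nat_lit 4) (nat_lit 457) (nat_lit 337) (nat_lit 226)) (XT.lf (nat_lit 0) (nat_lit 2923239511095) (nat_lit 152) (nat_lit 964452301887) (nat_lit 0) (nat_lit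 2915409965532) (nat_lit 1) (nat_lit 5) (nat_lit 3) (nat_lit 4) (nat_lit 1) (nat_lit 4) (nat_lit 458) (nat_lit 337) (nat_lit 225))) (XT.nd (nat_lit 78) (nat_lit 0) (nat_lit 0) (XT.lf (nat_lit 0) (nat_lit 3170895102613) (nat_lit 152) (nat_lit 1012234816306) (nat_lit 0) (nat_lit 3163065452332) (nat_lit 1) (nat_lit 5) (nat_lit 3) (nat_lit 4) (nat_lit 1) (nat_lit 4) (nat_lit 459) (nat_lit 337) (nat_lit 224)) (XT.nd (nat_lit 78) (nat_lit 0) (nat_lit 0) (XT.lf (nat_lit 0) (nat_lit 3438362770134) (nat_lit 152) (nat_lit 1063840688107) (nat_lit 0) (nat_lit 3430533022892) (nat_lit 1) (nat_lit 5) (nat_lit 3) (nat_lit 4) (nat_lit 1) (nat_lit 4) (nat_lit 460) (nat_lit 337) (nat_lit 223)) (XT.lf (nat_lit 0) (nat_lit 3727227507242) (nat_lit 152) (nat_lit 1119575729862) (nat_lit 0) (nat_lit 3719397670222) (nat_lit 1) (nat_lit 5) (nat_lit 3) (nat_lit 4) (nat_lit 1) (nat_lit 4) (nat_lit 461) (nat_lit 337)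 (nat_lit 222))))) (XT.nd (nat_lit 43992) (nat_lit 0) (nat_lit 5624) (XT.nd (nat_lit 78) (nat_lit 0) (nat_lit 0) (XT.lf (nat_lit 0) (nat_lit 4039201104973) (nat_lit 152) (nat_lit 1179770223300) (nat_lit 0) (nat_lit 4031371184825) (nat_lit 1) (nat_lit 5) (nat_lit 3) (nat_lit 4) (nat_lit 1) (nat_lit 4) (nat_lit 462) (nat_lit 337) (nat_lit 221)) (XT.nd (nat_lit 43836) (nat_lit 0) (nat_lit 6232) (XT.lf (nat_lit 0) (nat_lit 4376132295758) (nat_lit 152) (nat_lit 1244780876531) (nat_lit 0) (nat_lit 4368302298639) (nat_lit 1) (nat_lit 5) (nat_lit 3) (nat_lit 4) (nat_lit 1) (nat_lit 4) (nat_lit 463) (nat_lit 337) (nat_lit 220)) (XT.lf (nat_lit 0) (nat_lit 296971035) (nat_lit 228) (nat_lit 2684512291) (nat_lit 0) (nat_lit 296971035) (nat_lit 83) (nat_lit 5) (nat_lit 86) (nat_lit 4) (nat_lit 83) (nat_lit 4) (nat_lit 344) (nat_lit 338) (nat_lit 338)))) (XT.nd (nat_lit 78) (nat_lit 608) (nat_lit 0)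 (XT.lf (nat_lit 0) (nat_lit 3761256540) (nat_lit 228) (nat_lit 1418686849) (nat_lit 0) (nat_lit 1443281290) (nat_lit 83) (nat_lit 5) (nat_lit 86) (nat_lit 4) (nat_lit 83) (nat_lit 4) (nat_lit 345) (nat_lit 338) (nat_lit 337)) (XT.nd (nat_lit 78) (nat_lit 304) (nat_lit 0) (XT.lf (nat_lit 0) (nat_lit 249477898) (nat_lit 304) (nat_lit 3945334599) (nat_lit 76) (nat_lit 2516535734) (nat_lit 79) (nat_lit 5) (nat_lit 83) (nat_lit 5) (nat_lit 80) (nat_lit 4) (nat_lit 346) (nat_lit 338) (nat_lit 336)) (XT.lf (nat_lit 0) (nat_lit 278858771) (nat_lit 304) (nat_lit 2956909289) (nat_lit 380) (nat_lit 3582713026) (nat_lit 75) (nat_lit 5) (nat_lit 79) (nat_lit 5) (nat_lit 80) (nat_lit 4) (nat_lit 347) (nat_lit 338) (nat_lit 335))))))))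
noncomputable def xc88 : XT := (XT.nd (nat_lit 1560) (nat_lit 1292) (nat_lit 0) (XT.nd (nat_lit 780) (nat_lit 1292) (nat_lit 0) (XT.nd (nat_lit 390) (nat_lit 760) (nat_lit 0) (XT.nd (nat_lit 156) (nat_lit 912) (nat_lit 0) (XT.nd (nat_lit 78) (nat_lit 456) (nat_lit 0) (XT.lf (nat_lit 0) (nat_lit 4848495064) (nat_lit 304) (nat_lit 1468869044) (nat_lit 380) (nat_lit 628632588) (nat_lit 75) (nat_lit 5) (nat_lit 79) (nat_lit 5) (nat_lit 80) (nat_lit 4) (nat_lit 348) (nat_lit 338) (nat_lit 334)) (XT.lf (nat_lit 0) (nat_lit 2262965329) (nat_lit 456) (nat_lit 4548035160) (nat_lit 76) (nat_lit 281714969) (nat_lit 69) (nat_lit 5) (nat_lit 75) (nat_lit 5) (nat_lit 70) (nat_lit 4) (nat_lit 349) (nat_lit 338) (nat_lit 333))) (XT.nd (nat_lit 78) (nat_lit 456) (nat_lit 0) (XT.lf (nat_lit 0) (nat_lit 155678574) (nat_lit 456) (nat_lit 5070955665) (nat_lit 532) (nat_lit 2033512253) (nat_lit 63) (nat_lit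 5) (nat_lit 69) (nat_lit 5) (nat_lit 70) (nat_lit 4) (nat_lit 350) (nat_lit 338) (nat_lit 332)) (XT.nd (nat_lit 78) (nat_lit 380) (nat_lit 0) (XT.lf (nat_lit 0) (nat_lit 844250273) (nat_lit 532) (nat_lit 2196794227) (nat_lit 76) (nat_lit 4405676721) (nat_lit 62) (nat_lit 5) (nat_lit 69) (nat_lit 5) (nat_lit 63) (nat_lit 5) (nat_lit 351) (nat_lit 338) (nat_lit 331)) (XT.lf (nat_lit 0) (nat_lit 2984063619) (nat_lit 380) (nat_lit 725990550) (nat_lit 456) (nat_lit 3944732041) (nat_lit 57) (nat_lit 5) (nat_lit 62) (nat_lit 5) (nat_lit 63) (nat_lit 5) (nat_lit 352) (nat_lit 338) (nat_lit 330))))) (XT.nd (nat_lit 156) (nat_lit 456) (nat_lit 0) (XT.nd (nat_lit 78) (nat_lit 76) (nat_lit 0) (XT.lf (nat_lit 0) (nat_lit 589134172) (nat_lit 228) (nat_lit 6140030923) (nat_lit 304) (nat_lit 1156597136) (nat_lit 54) (nat_lit 5) (nat_lit 57) (nat_lit 5) (nat_lit 58) (nat_lit 4) (nat_lit 353) (nat_lit 338)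 (nat_lit 329)) (XT.lf (nat_lit 0) (nat_lit 1721403069) (nat_lit 304) (nat_lit 1886574737) (nat_lit 76) (nat_lit 4527065464) (nat_lit 53) (nat_lit 5) (nat_lit 57) (nat_lit 5) (nat_lit 54) (nat_lit 5) (nat_lit 354) (nat_lit 338) (nat_lit 328))) (XT.nd (nat_lit 78) (nat_lit 228) (nat_lit 0) (XT.lf (nat_lit 0) (nat_lit 3908612622) (nat_lit 228) (nat_lit 776351030) (nat_lit 304) (nat_lit 3723625523) (nat_lit 50) (nat_lit 5) (nat_lit 53) (nat_lit 5) (nat_lit 54) (nat_lit 5) (nat_lit 355) (nat_lit 338) (nat_lit 327)) (XT.nd (nat_lit 78) (nat_lit 76) (nat_lit 0) (XT.lf (nat_lit 0) (nat_lit 1366563044) (nat_lit 152) (nat_lit 6490618099) (nat_lit 228) (nat_lit 849250949) (nat_lit 48) (nat_lit 5) (nat_lit 50) (nat_lit 5) (nat_lit 51) (nat_lit 4) (nat_lit 356) (nat_lit 338) (nat_lit 326)) (XT.lf (nat_lit 0) (nat_lit 2122606233) (nat_lit 228) (nat_lit 1361189912) (nat_lit 76) (nat_lit 5541659545) (nat_lit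 47) (nat_lit 5) (nat_lit 50) (nat_lit 5) (nat_lit 48) (nat_lit 5) (nat_lit 357) (nat_lit 338) (nat_lit 325)))))) (XT.nd (nat_lit 390) (nat_lit 532) (nat_lit 0) (XT.nd (nat_lit 156) (nat_lit 380) (nat_lit 0) (XT.nd (nat_lit 78) (nat_lit 152) (nat_lit 0) (XT.lf (nat_lit 0) (nat_lit 5122882601) (nat_lit 228) (nat_lit 132896273) (nat_lit 304) (nat_lit 4115012173) (nat_lit 44) (nat_lit 5) (nat_lit 47) (nat_lit 5) (nat_lit 48) (nat_lit 5) (nat_lit 358) (nat_lit 338) (nat_lit 324)) (XT.lf (nat_lit 0) (nat_lit 2279087039) (nat_lit 152) (nat_lit 6388817976) (nat_lit 228) (nat_lit 1073686487) (nat_lit 42) (nat_lit 5) (nat_lit 44) (nat_lit 5) (nat_lit 45) (nat_lit 4) (nat_lit 359) (nat_lit 338) (nat_lit 323))) (XT.nd (nat_lit 78) (nat_lit 304) (nat_lit 0) (XT.lf (nat_lit 0) (nat_lit 2076653599) (nat_lit 228) (nat_lit 837427968) (nat_lit 76) (nat_lit 7225703521) (nat_lit 41) (nat_lit 5) (nat_lit 44)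 (nat_lit 5) (nat_lit 42) (nat_lit 5) (nat_lit 360) (nat_lit 338) (nat_lit 322)) (XT.nd (nat_lit 78) (nat_lit 152) (nat_lit 0) (XT.lf (nat_lit 0) (nat_lit 5463116904) (nat_lit 228) (nat_lit 4177990594) (nat_lit 76) (nat_lit 923208553) (nat_lit 39) (nat_lit 5) (nat_lit 42) (nat_lit 5) (nat_lit 40) (nat_lit 4) (nat_lit 361) (nat_lit 338) (nat_lit 321)) (XT.lf (nat_lit 0) (nat_lit 3090075734) (nat_lit 152) (nat_lit 6072289185) (nat_lit 228) (nat_lit 1857170316) (nat_lit 37) (nat_lit 5) (nat_lit 39) (nat_lit 5) (nat_lit 40) (nat_lit 4) (nat_lit 362) (nat_lit 338) (nat_lit 320))))) (XT.nd (nat_lit 156) (nat_lit 304) (nat_lit 0) (XT.nd (nat_lit 78) (nat_lit 152) (nat_lit 0) (XT.lf (nat_lit 0) (nat_lit 1551232487) (nat_lit 228) (nat_lit 572020575) (nat_lit 76) (nat_lit 9385838860) (nat_lit 36) (nat_lit 5) (nat_lit 39) (nat_lit 5) (nat_lit 37) (nat_lit 5) (nat_lit 363) (nat_lit 338) (nat_lit 319))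 (XT.lf (nat_lit 0) (nat_lit 5248068509) (nat_lit 228) (nat_lit 4572881457) (nat_lit 76) (nat_lit 2203776066) (nat_lit 34) (nat_lit 5) (nat_lit 37) (nat_lit 5) (nat_lit 35) (nat_lit 4) (nat_lit 364) (nat_lit 338) (nat_lit 318))) (XT.nd (nat_lit 78) (nat_lit 228) (nat_lit 0) (XT.lf (nat_lit 0) (nat_lit 3496823364) (nat_lit 76) (nat_lit 5781581281) (nat_lit 152) (nat_lit 3300241209) (nat_lit 33) (nat_lit 5) (nat_lit 34) (nat_lit 5) (nat_lit 35) (nat_lit 4) (nat_lit 365) (nat_lit 338) (nat_lit 317)) (XT.nd (nat_lit 78) (nat_lit 152) (nat_lit 0) (XT.lf (nat_lit 0) (nat_lit 443505714) (nat_lit 152) (nat_lit 902522534) (nat_lit 76) (nat_lit 11829068910) (nat_lit 32) (nat_lit 5) (nat_lit 34) (nat_lit 5) (nat_lit 33) (nat_lit 5) (nat_lit 366) (nat_lit 338) (nat_lit 316)) (XT.lf (nat_lit 0) (nat_lit 4483197278) (nat_lit 228) (nat_lit 5824137976) (nat_lit 76) (nat_lit 3491136028) (nat_lit 30) (nat_lit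 5) (nat_lit 33) (nat_lit 5) (nat_lit 31) (nat_lit 4) (nat_lit 367) (nat_lit 338) (nat_lit 315))))))) (XT.nd (nat_lit 780) (nat_lit 532) (nat_lit 0) (XT.nd (nat_lit 390) (nat_lit 380) (nat_lit 0) (XT.nd (nat_lit 156) (nat_lit 304) (nat_lit 0) (XT.nd (nat_lit 78) (nat_lit 0) (nat_lit 0) (XT.lf (nat_lit 0) (nat_lit 3079983365) (nat_lit 76) (nat_lit 5794788691) (nat_lit 152) (nat_lit 5594687253) (nat_lit 29) (nat_lit 5) (nat_lit 30) (nat_lit 5) (nat_lit 31) (nat_lit 4) (nat_lit 368) (nat_lit 338) (nat_lit 314)) (XT.lf (nat_lit 0) (nat_lit 12850840168) (nat_lit 76) (nat_lit 824002911) (nat_lit 152) (nat_lit 1514747275) (nat_lit 29) (nat_lit 5) (nat_lit 30) (nat_lit 5) (nat_lit 31) (nat_lit 4) (nat_lit 369) (nat_lit 338) (nat_lit 313))) (XT.nd (nat_lit 78) (nat_lit 76) (nat_lit 0) (XT.lf (nat_lit 0) (nat_lit 2946263457) (nat_lit 228) (nat_lit 8492443335) (nat_lit 76) (nat_lit 4507147941) (nat_lit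 26) (nat_lit 5) (nat_lit 29) (nat_lit 5) (nat_lit 27) (nat_lit 4) (nat_lit 370) (nat_lit 338) (nat_lit 312)) (XT.nd (nat_lit 78) (nat_lit 0) (nat_lit 0) (XT.lf (nat_lit 0) (nat_lit 1233322041) (nat_lit 76) (nat_lit 6470192660) (nat_lit 152) (nat_lit 9054292251) (nat_lit 25) (nat_lit 5) (nat_lit 26) (nat_lit 5) (nat_lit 27) (nat_lit 4) (nat_lit 371) (nat_lit 338) (nat_lit 311)) (XT.lf (nat_lit 0) (nat_lit 12054021578) (nat_lit 76) (nat_lit 927125206) (nat_lit 152) (nat_lit 4642412139) (nat_lit 25) (nat_lit 5) (nat_lit 26) (nat_lit 5) (nat_lit 27) (nat_lit 4) (nat_lit 372) (nat_lit 338) (nat_lit 310))))) (XT.nd (nat_lit 156) (nat_lit 228) (nat_lit 0) (XT.nd (nat_lit 78) (nat_lit 0) (nat_lit 0) (XT.lf (nat_lit 0) (nat_lit 278950984) (nat_lit 152) (nat_lit 13393787465) (nat_lit 76) (nat_lit 4872608245) (nat_lit 23) (nat_lit 5) (nat_lit 25) (nat_lit 5) (nat_lit 24) (nat_lit 4) (nat_lit 373)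 (nat_lit 338) (nat_lit 309)) (XT.lf (nat_lit 0) (nat_lit 5436849965) (nat_lit 152) (nat_lit 2789810789) (nat_lit 76) (nat_lit 11297101086) (nat_lit 23) (nat_lit 5) (nat_lit 25) (nat_lit 5) (nat_lit 24) (nat_lit 4) (nat_lit 374) (nat_lit 338) (nat_lit 308))) (XT.nd (nat_lit 78) (nat_lit 152) (nat_lit 0) (XT.lf (nat_lit 0) (nat_lit 8963090028) (nat_lit 76) (nat_lit 2179594199) (nat_lit 152) (nat_lit 9426962013) (nat_lit 22) (nat_lit 5) (nat_lit 23) (nat_lit 5) (nat_lit 24) (nat_lit 4) (nat_lit 375) (nat_lit 338) (nat_lit 307)) (XT.nd (nat_lit 78) (nat_lit 152) (nat_lit 0) (XT.lf (nat_lit 0) (nat_lit 17408521222) (nat_lit 152) (nat_lit 133516850) (nat_lit 0) (nat_lit 4148899249) (nat_lit 22) (nat_lit 5) (nat_lit 24) (nat_lit 4) (nat_lit 22) (nat_lit 4) (nat_lit 376) (nat_lit 338) (nat_lit 306)) (XT.lf (nat_lit 0) (nat_lit 1505971516) (nat_lit 152) (nat_lit 10218678040) (nat_lit 76) (nat_lit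 11151168202) (nat_lit 20) (nat_lit 5) (nat_lit 22) (nat_lit 5) (nat_lit 21) (nat_lit 4) (nat_lit 377) (nat_lit 338) (nat_lit 305)))))) (XT.nd (nat_lit 390) (nat_lit 228) (nat_lit 0) (XT.nd (nat_lit 156) (nat_lit 228) (nat_lit 0) (XT.nd (nat_lit 78) (nat_lit 0) (nat_lit 0) (XT.lf (nat_lit 0) (nat_lit 2183296630) (nat_lit 76) (nat_lit 5325884227) (nat_lit 152) (nat_lit 16638775180) (nat_lit 19) (nat_lit 5) (nat_lit 20) (nat_lit 5) (nat_lit 21) (nat_lit 4) (nat_lit 378) (nat_lit 338) (nat_lit 304)) (XT.lf (nat_lit 0) (nat_lit 14244926321) (nat_lit 152) (nat_lit 9525016604) (nat_lit 0) (nat_lit 1731753928) (nat_lit 19) (nat_lit 5) (nat_lit 21) (nat_lit 4) (nat_lit 19) (nat_lit 4) (nat_lit 379) (nat_lit 338) (nat_lit 303))) (XT.nd (nat_lit 78) (nat_lit 152) (nat_lit 0) (XT.lf (nat_lit 0) (nat_lit 3834866677) (nat_lit 76) (nat_lit 17848109050) (nat_lit 76) (nat_lit 5267698464) (nat_lit 18) (nat_lit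 4) (nat_lit 19) (nat_lit 5) (nat_lit 19) (nat_lit 4) (nat_lit 380) (nat_lit 338) (nat_lit 302)) (XT.nd (nat_lit 78) (nat_lit 76) (nat_lit 0) (XT.lf (nat_lit 0) (nat_lit 1340779331) (nat_lit 152) (nat_lit 9853847164) (nat_lit 76) (nat_lit 17302617726) (nat_lit 17) (nat_lit 5) (nat_lit 19) (nat_lit 5) (nat_lit 18) (nat_lit 4) (nat_lit 381) (nat_lit 338) (nat_lit 301)) (XT.lf (nat_lit 0) (nat_lit 4434921452) (nat_lit 76) (nat_lit 3803172557) (nat_lit 152) (nat_lit 21914930043) (nat_lit 16) (nat_lit 5) (nat_lit 17) (nat_lit 5) (nat_lit 18) (nat_lit 4) (nat_lit 382) (nat_lit 338) (nat_lit 300))))) (XT.nd (nat_lit 234) (nat_lit 152) (nat_lit 0) (XT.nd (nat_lit 78) (nat_lit 76) (nat_lit 0) (XT.lf (nat_lit 0) (nat_lit 16002668429) (nat_lit 152) (nat_lit 11719673017) (nat_lit 0) (nat_lit 4193696267) (nat_lit 16) (nat_lit 5) (nat_lit 18) (nat_lit 4) (nat_lit 16) (nat_lit 4) (nat_lit 383) (nat_lit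 338) (nat_lit 299)) (XT.nd (nat_lit 78) (nat_lit 0) (nat_lit 0) (XT.lf (nat_lit 0) (nat_lit 3357008319) (nat_lit 76) (nat_lit 21154008771) (nat_lit 76) (nat_lit 9299275424) (nat_lit 15) (nat_lit 4) (nat_lit 16) (nat_lit 5) (nat_lit 16) (nat_lit 4) (nat_lit 384) (nat_lit 338) (nat_lit 298)) (XT.lf (nat_lit 0) (nat_lit 20198366595) (nat_lit 76) (nat_lit 13766811226) (nat_lit 76) (nat_lit 1869706411) (nat_lit 15) (nat_lit 4) (nat_lit 16) (nat_lit 5) (nat_lit 16) (nat_lit 4) (nat_lit 385) (nat_lit 338) (nat_lit 297)))) (XT.nd (nat_lit 78) (nat_lit 0) (nat_lit 0) (XT.lf (nat_lit 0) (nat_lit 120886615) (nat_lit 76) (nat_lit 5675855822) (nat_lit 152) (nat_lit 32216837120) (nat_lit 13) (nat_lit 5) (nat_lit 14) (nat_lit 5) (nat_lit 15) (nat_lit 4) (nat_lit 386) (nat_lit 338) (nat_lit 296)) (XT.nd (nat_lit 78) (nat_lit 0) (nat_lit 0) (XT.lf (nat_lit 0) (nat_lit 14435548270) (nat_lit 152) (nat_lit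 22540591297) (nat_lit 0) (nat_lit 3349747937) (nat_lit 13) (nat_lit 5) (nat_lit 15) (nat_lit 4) (nat_lit 13) (nat_lit 4) (nat_lit 387) (nat_lit 338) (nat_lit 295)) (XT.lf (nat_lit 0) (nat_lit 23864521162) (nat_lit 152) (nat_lit 6203163312) (nat_lit 0) (nat_lit 12747576535) (nat_lit 13) (nat_lit 5) (nat_lit 15) (nat_lit 4) (nat_lit 13) (nat_lit 4) (nat_lit 388) (nat_lit 338) (nat_lit 294))))))))
noncomputable def xc89 : XT := (XT.nd (nat_lit 1560) (nat_lit 228) (nat_lit 0) (XT.nd (nat_lit 780) (nat_lit 228) (nat_lit 0) (XT.nd (nat_lit 390) (nat_lit 228) (nat_lit 0) (XT.nd (nat_lit 156) (nat_lit 152) (nat_lit 0) (XT.nd (nat_lit 78) (nat_lit 0) (nat_lit 0) (XT.lf (nat_lit 0) (nat_lit 11950733986) (nat_lit 76) (nat_lit 22339713493) (nat_lit 76) (nat_lit 11193931557) (nat_lit 12) (nat_lit 4) (nat_lit 13) (nat_lit 5) (nat_lit 13) (nat_lit 4) (nat_lit 389) (nat_lit 338) (nat_lit 293)) (XT.lf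 (nat_lit 0) (nat_lit 31823610107) (nat_lit 76) (nat_lit 13852909449) (nat_lit 76) (nat_lit 2680426300) (nat_lit 12) (nat_lit 4) (nat_lit 13) (nat_lit 5) (nat_lit 13) (nat_lit 4) (nat_lit 390) (nat_lit 338) (nat_lit 292))) (XT.nd (nat_lit 78) (nat_lit 0) (nat_lit 0) (XT.lf (nat_lit 0) (nat_lit 1672059814) (nat_lit 76) (nat_lit 4515087448) (nat_lit 152) (nat_lit 45259733660) (nat_lit 10) (nat_lit 5) (nat_lit 11) (nat_lit 5) (nat_lit 12) (nat_lit 4) (nat_lit 391) (nat_lit 338) (nat_lit 291)) (XT.nd (nat_lit 78) (nat_lit 0) (nat_lit 0) (XT.lf (nat_lit 0) (nat_lit 16175889211) (nat_lit 152) (nat_lit 32771120752) (nat_lit 0) (nat_lit 5786909138) (nat_lit 10) (nat_lit 5) (nat_lit 12) (nat_lit 4) (nat_lit 10) (nat_lit 4) (nat_lit 392) (nat_lit 338) (nat_lit 290)) (XT.lf (nat_lit 0) (nat_lit 27042885139) (nat_lit 152) (nat_lit 14600427683) (nat_lit 0) (nat_lit 16634278878) (nat_lit 10) (nat_lit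 5) (nat_lit 12) (nat_lit 4) (nat_lit 10) (nat_lit 4) (nat_lit 393) (nat_lit 338) (nat_lit 289))))) (XT.nd (nat_lit 156) (nat_lit 152) (nat_lit 0) (XT.nd (nat_lit 78) (nat_lit 0) (nat_lit 0) (XT.lf (nat_lit 0) (nat_lit 5214368049) (nat_lit 76) (nat_lit 33654981725) (nat_lit 76) (nat_lit 23228203068) (nat_lit 9) (nat_lit 4) (nat_lit 10) (nat_lit 5) (nat_lit 10) (nat_lit 4) (nat_lit 394) (nat_lit 338) (nat_lit 288)) (XT.lf (nat_lit 0) (nat_lit 27376072303) (nat_lit 76) (nat_lit 24630728591) (nat_lit 76) (nat_lit 14187123642) (nat_lit 9) (nat_lit 4) (nat_lit 10) (nat_lit 5) (nat_lit 10) (nat_lit 4) (nat_lit 395) (nat_lit 338) (nat_lit 287))) (XT.nd (nat_lit 78) (nat_lit 152) (nat_lit 0) (XT.lf (nat_lit 0) (nat_lit 51247181046) (nat_lit 76) (nat_lit 14916277932) (nat_lit 76) (nat_lit 4457093082) (nat_lit 9) (nat_lit 4) (nat_lit 10) (nat_lit 5) (nat_lit 10) (nat_lit 4) (nat_lit 396) (nat_lit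 338) (nat_lit 286)) (XT.nd (nat_lit 78) (nat_lit 0) (nat_lit 0) (XT.lf (nat_lit 0) (nat_lit 1495527484) (nat_lit 76) (nat_lit 4258865865) (nat_lit 152) (nat_lit 69634814913) (nat_lit 7) (nat_lit 5) (nat_lit 8) (nat_lit 5) (nat_lit 9) (nat_lit 4) (nat_lit 397) (nat_lit 338) (nat_lit 285)) (XT.lf (nat_lit 0) (nat_lit 17229760444) (nat_lit 152) (nat_lit 55725711591) (nat_lit 0) (nat_lit 7519604946) (nat_lit 7) (nat_lit 5) (nat_lit 9) (nat_lit 4) (nat_lit 7) (nat_lit 4) (nat_lit 398) (nat_lit 338) (nat_lit 284)))))) (XT.nd (nat_lit 390) (nat_lit 152) (nat_lit 0) (XT.nd (nat_lit 156) (nat_lit 76) (nat_lit 0) (XT.nd (nat_lit 78) (nat_lit 0) (nat_lit 0) (XT.lf (nat_lit 0) (nat_lit 29705915385) (nat_lit 152) (nat_lit 36270973119) (nat_lit 0) (nat_lit 19984308194) (nat_lit 7) (nat_lit 5) (nat_lit 9) (nat_lit 4) (nat_lit 7) (nat_lit 4) (nat_lit 399) (nat_lit 338) (nat_lit 283)) (XT.lf (nat_lit 0)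 (nat_lit 43154365115) (nat_lit 152) (nat_lit 15311752199) (nat_lit 0) (nat_lit 33422154506) (nat_lit 7) (nat_lit 5) (nat_lit 9) (nat_lit 4) (nat_lit 7) (nat_lit 4) (nat_lit 400) (nat_lit 338) (nat_lit 282))) (XT.nd (nat_lit 78) (nat_lit 0) (nat_lit 0) (XT.lf (nat_lit 0) (nat_lit 7659303333) (nat_lit 76) (nat_lit 50179707248) (nat_lit 76) (nat_lit 40437678658) (nat_lit 6) (nat_lit 4) (nat_lit 7) (nat_lit 5) (nat_lit 7) (nat_lit 4) (nat_lit 401) (nat_lit 338) (nat_lit 281)) (XT.nd (nat_lit 78) (nat_lit 0) (nat_lit 0) (XT.lf (nat_lit 0) (nat_lit 33292000306) (nat_lit 76) (nat_lit 40801834125) (nat_lit 76) (nat_lit 31050714812) (nat_lit 6) (nat_lit 4) (nat_lit 7) (nat_lit 5) (nat_lit 7) (nat_lit 4) (nat_lit 402) (nat_lit 338) (nat_lit 280)) (XT.lf (nat_lit 0) (nat_lit 60931946448) (nat_lit 76) (nat_lit 30695575802) (nat_lit 76) (nat_lit 20936039155) (nat_lit 6) (nat_lit 4) (nat_lit 7) (nat_lit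 5) (nat_lit 7) (nat_lit 4) (nat_lit 403) (nat_lit 338) (nat_lit 279))))) (XT.nd (nat_lit 156) (nat_lit 76) (nat_lit 0) (XT.nd (nat_lit 78) (nat_lit 76) (nat_lit 0) (XT.lf (nat_lit 0) (nat_lit 90742934031) (nat_lit 76) (nat_lit 19801043344) (nat_lit 76) (nat_lit 10033712867) (nat_lit 6) (nat_lit 4) (nat_lit 7) (nat_lit 5) (nat_lit 7) (nat_lit 4) (nat_lit 404) (nat_lit 338) (nat_lit 278)) (XT.lf (nat_lit 0) (nat_lit 1634785521) (nat_lit 152) (nat_lit 6374193101) (nat_lit 76) (nat_lit 121222137306) (nat_lit 5) (nat_lit 5) (nat_lit 7) (nat_lit 5) (nat_lit 6) (nat_lit 4) (nat_lit 405) (nat_lit 338) (nat_lit 277))) (XT.nd (nat_lit 78) (nat_lit 0) (nat_lit 0) (XT.lf (nat_lit 0) (nat_lit 14282028437) (nat_lit 152) (nat_lit 119001616499) (nat_lit 0) (nat_lit 5225334976) (nat_lit 4) (nat_lit 5) (nat_lit 6) (nat_lit 4) (nat_lit 4) (nat_lit 4) (nat_lit 406) (nat_lit 338) (nat_lit 276)) (XT.nd (nat_lit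 78) (nat_lit 0) (nat_lit 0) (XT.lf (nat_lit 0) (nat_lit 28310406461) (nat_lit 152) (nat_lit 100941134888) (nat_lit 0) (nat_lit 19247984302) (nat_lit 4) (nat_lit 5) (nat_lit 6) (nat_lit 4) (nat_lit 4) (nat_lit 4) (nat_lit 407) (nat_lit 338) (nat_lit 275)) (XT.lf (nat_lit 0) (nat_lit 43444871136) (nat_lit 152) (nat_lit 81468594982) (nat_lit 0) (nat_lit 34377144628) (nat_lit 4) (nat_lit 5) (nat_lit 6) (nat_lit 4) (nat_lit 4) (nat_lit 4) (nat_lit 408) (nat_lit 338) (nat_lit 274))))))) (XT.nd (nat_lit 780) (nat_lit 152) (nat_lit 0) (XT.nd (nat_lit 390) (nat_lit 0) (nat_lit 0) (XT.nd (nat_lit 156) (nat_lit 76) (nat_lit 0) (XT.nd (nat_lit 78) (nat_lit 0) (nat_lit 0) (XT.lf (nat_lit 0) (nat_lit 59775108179) (nat_lit 152) (nat_lit 60468603952) (nat_lit 0) (nat_lit 50702470237) (nat_lit 4) (nat_lit 5) (nat_lit 6) (nat_lit 4) (nat_lit 4) (nat_lit 4) (nat_lit 409) (nat_lit 338) (nat_lit 273)) (XT.lf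 (nat_lit 0) (nat_lit 77397889366) (nat_lit 152) (nat_lit 37816717407) (nat_lit 0) (nat_lit 68320703799) (nat_lit 4) (nat_lit 5) (nat_lit 6) (nat_lit 4) (nat_lit 4) (nat_lit 4) (nat_lit 410) (nat_lit 338) (nat_lit 272))) (XT.nd (nat_lit 78) (nat_lit 76) (nat_lit 0) (XT.lf (nat_lit 0) (nat_lit 96417645991) (nat_lit 152) (nat_lit 13378701946) (nat_lit 0) (nat_lit 87336249661) (nat_lit 4) (nat_lit 5) (nat_lit 6) (nat_lit 4) (nat_lit 4) (nat_lit 4) (nat_lit 411) (nat_lit 338) (nat_lit 271)) (XT.nd (nat_lit 78) (nat_lit 0) (nat_lit 0) (XT.lf (nat_lit 0) (nat_lit 13674304388) (nat_lit 76) (nat_lit 103601650686) (nat_lit 76) (nat_lit 94516355501) (nat_lit 3) (nat_lit 4) (nat_lit 4) (nat_lit 5) (nat_lit 4) (nat_lit 4) (nat_lit 412) (nat_lit 338) (nat_lit 270)) (XT.lf (nat_lit 0) (nat_lit 43628925398) (nat_lit 76) (nat_lit 96528221823) (nat_lit 76) (nat_lit 87439316587) (nat_lit 3) (nat_lit 4) (nat_lit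 4) (nat_lit 5) (nat_lit 4) (nat_lit 4) (nat_lit 413) (nat_lit 338) (nat_lit 269))))) (XT.nd (nat_lit 156) (nat_lit 0) (nat_lit 0) (XT.nd (nat_lit 78) (nat_lit 0) (nat_lit 0) (XT.lf (nat_lit 0) (nat_lit 75958171215) (nat_lit 76) (nat_lit 88899942154) (nat_lit 76) (nat_lit 79807694278) (nat_lit 3) (nat_lit 4) (nat_lit 4) (nat_lit 5) (nat_lit 4) (nat_lit 4) (nat_lit 414) (nat_lit 338) (nat_lit 268)) (XT.lf (nat_lit 0) (nat_lit 110853622554) (nat_lit 76) (nat_lit 80671607059) (nat_lit 76) (nat_lit 71576264146) (nat_lit 3) (nat_lit 4) (nat_lit 4) (nat_lit 5) (nat_lit 4) (nat_lit 4) (nat_lit 415) (nat_lit 338) (nat_lit 267))) (XT.nd (nat_lit 78) (nat_lit 0) (nat_lit 0) (XT.lf (nat_lit 0) (nat_lit 148522067275) (nat_lit 76) (nat_lit 71794456032) (nat_lit 76) (nat_lit 62696247345) (nat_lit 3) (nat_lit 4) (nat_lit 4) (nat_lit 5) (nat_lit 4) (nat_lit 4) (nat_lit 416) (nat_lit 338) (nat_lit 266))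 (XT.nd (nat_lit 78) (nat_lit 0) (nat_lit 0) (XT.lf (nat_lit 0) (nat_lit 189186725790) (nat_lit 76) (nat_lit 62215883736) (nat_lit 76) (nat_lit 53115021553) (nat_lit 3) (nat_lit 4) (nat_lit 4) (nat_lit 5) (nat_lit 4) (nat_lit 4) (nat_lit 417) (nat_lit 338) (nat_lit 265)) (XT.lf (nat_lit 0) (nat_lit 233088573855) (nat_lit 76) (nat_lit 51879128260) (nat_lit 76) (nat_lit 42775809137) (nat_lit 3) (nat_lit 4) (nat_lit 4) (nat_lit 5) (nat_lit 4) (nat_lit 4) (nat_lit 418) (nat_lit 338) (nat_lit 264)))))) (XT.nd (nat_lit 390) (nat_lit 0) (nat_lit 0) (XT.nd (nat_lit 156) (nat_lit 152) (nat_lit 0) (XT.nd (nat_lit 78) (nat_lit 0) (nat_lit 0) (XT.lf (nat_lit 0) (nat_lit 280487770569) (nat_lit 76) (nat_lit 40722934756) (nat_lit 76) (nat_lit 31617340689) (nat_lit 3) (nat_lit 4) (nat_lit 4) (nat_lit 5) (nat_lit 4) (nat_lit 4) (nat_lit 419) (nat_lit 338) (nat_lit 263)) (XT.lf (nat_lit 0) (nat_lit 331665200060)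 (nat_lit 76) (nat_lit 28681192448) (nat_lit 76) (nat_lit 19573491951) (nat_lit 3) (nat_lit 4) (nat_lit 4) (nat_lit 5) (nat_lit 4) (nat_lit 4) (nat_lit 420) (nat_lit 338) (nat_lit 262))) (XT.nd (nat_lit 78) (nat_lit 152) (nat_lit 0) (XT.lf (nat_lit 0) (nat_lit 386924135985) (nat_lit 76) (nat_lit 15682542864) (nat_lit 76) (nat_lit 6572891969) (nat_lit 3) (nat_lit 4) (nat_lit 4) (nat_lit 5) (nat_lit 4) (nat_lit 4) (nat_lit 421) (nat_lit 338) (nat_lit 261)) (XT.nd (nat_lit 78) (nat_lit 0) (nat_lit 0) (XT.lf (nat_lit 0) (nat_lit 5928669699) (nat_lit 76) (nat_lit 1302160357) (nat_lit 152) (nat_lit 433523903054) (nat_lit 1) (nat_lit 5) (nat_lit 2) (nat_lit 5) (nat_lit 3) (nat_lit 4) (nat_lit 422) (nat_lit 338) (nat_lit 260)) (XT.lf (nat_lit 0) (nat_lit 22744321414) (nat_lit 152) (nat_lit 437714844002) (nat_lit 0) (nat_lit 14306239032) (nat_lit 1) (nat_lit 5) (nat_lit 3) (nat_lit 4) (nat_lit 1)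 (nat_lit 4) (nat_lit 423) (nat_lit 338) (nat_lit 259))))) (XT.nd (nat_lit 234) (nat_lit 0) (nat_lit 0) (XT.nd (nat_lit 78) (nat_lit 0) (nat_lit 0) (XT.lf (nat_lit 0) (nat_lit 39527224349) (nat_lit 152) (nat_lit 440879730469) (nat_lit 0) (nat_lit 31087708366) (nat_lit 1) (nat_lit 5) (nat_lit 3) (nat_lit 4) (nat_lit 1) (nat_lit 4) (nat_lit 424) (nat_lit 338) (nat_lit 258)) (XT.nd (nat_lit 78) (nat_lit 0) (nat_lit 0) (XT.lf (nat_lit 0) (nat_lit 57647676113) (nat_lit 152) (nat_lit 444308160707) (nat_lit 0) (nat_lit 49206832722) (nat_lit 1) (nat_lit 5) (nat_lit 3) (nat_lit 4) (nat_lit 1) (nat_lit 4) (nat_lit 425) (nat_lit 338) (nat_lit 257)) (XT.lf (nat_lit 0) (nat_lit 77213057162) (nat_lit 152) (nat_lit 448020451342) (nat_lit 0) (nat_lit 68770984689) (nat_lit 1) (nat_lit 5) (nat_lit 3) (nat_lit 4) (nat_lit 1) (nat_lit 4) (nat_lit 426) (nat_lit 338) (nat_lit 256)))) (XT.nd (nat_lit 78) (nat_lit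 0) (nat_lit 0) (XT.lf (nat_lit 0) (nat_lit 98339310494) (nat_lit 152) (nat_lit 452038601132) (nat_lit 0) (nat_lit 89896099983) (nat_lit 1) (nat_lit 5) (nat_lit 3) (nat_lit 4) (nat_lit 1) (nat_lit 4) (nat_lit 427) (nat_lit 338) (nat_lit 255)) (XT.nd (nat_lit 78) (nat_lit 0) (nat_lit 0) (XT.lf (nat_lit 0) (nat_lit 121151628722) (nat_lit 152) (nat_lit 456386421335) (nat_lit 0) (nat_lit 112707364471) (nat_lit 1) (nat_lit 5) (nat_lit 3) (nat_lit 4) (nat_lit 1) (nat_lit 4) (nat_lit 428) (nat_lit 338) (nat_lit 254)) (XT.lf (nat_lit 0) (nat_lit 145785195953) (nat_lit 152) (nat_lit 461089676811) (nat_lit 0) (nat_lit 137339956018) (nat_lit 1) (nat_lit 5) (nat_lit 3) (nat_lit 4) (nat_lit 1) (nat_lit 4) (nat_lit 429) (nat_lit 338) (nat_lit 253))))))))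
noncomputable def xc90 : XT := (XT.nd (nat_lit 1560) (nat_lit 0) (nat_lit 0) (XT.nd (nat_lit 780) (nat_lit 0) (nat_lit 0) (XT.nd (nat_lit 390) (nat_lit 0) (nat_lit 0) (XT.nd (nat_lit 156) (nat_lit 0) (nat_lit 0) (XT.nd (nat_lit 78) (nat_lit 0) (nat_lit 0) (XT.lf (nat_lit 0) (nat_lit 172385988883) (nat_lit 152) (nat_lit 466176238705) (nat_lit 0) (nat_lit 163939845536) (nat_lit 1) (nat_lit 5) (nat_lit 3) (nat_lit 4) (nat_lit 1) (nat_lit 4) (nat_lit 430) (nat_lit 338) (nat_lit 252)) (XT.lf (nat_lit 0) (nat_lit 201111641839) (nat_lit 152) (nat_lit 471676249604) (nat_lit 0) (nat_lit 192664662000) (nat_lit 1) (nat_lit 5) (nat_lit 3) (nat_lit 4) (nat_lit 1) (nat_lit 4) (nat_lit 431) (nat_lit 338) (nat_lit 251))) (XT.nd (nat_lit 78) (nat_lit 0) (nat_lit 0) (XT.lf (nat_lit 0) (nat_lit 232132380914) (nat_lit 152) (nat_lit 477622302167) (nat_lit 0) (nat_lit 223684626545) (nat_lit 1) (nat_lit 5) (nat_lit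 3) (nat_lit 4) (nat_lit 1) (nat_lit 4) (nat_lit 432) (nat_lit 338) (nat_lit 250)) (XT.nd (nat_lit 78) (nat_lit 0) (nat_lit 0) (XT.lf (nat_lit 0) (nat_lit 265632032709) (nat_lit 152) (nat_lit 484049632260) (nat_lit 0) (nat_lit 257183561183) (nat_lit 1) (nat_lit 5) (nat_lit 3) (nat_lit 4) (nat_lit 1) (nat_lit 4) (nat_lit 433) (nat_lit 338) (nat_lit 249)) (XT.lf (nat_lit 0) (nat_lit 301809113680) (nat_lit 152) (nat_lit 490996327766) (nat_lit 0) (nat_lit 293359978119) (nat_lit 1) (nat_lit 5) (nat_lit 3) (nat_lit 4) (nat_lit 1) (nat_lit 4) (nat_lit 434) (nat_lit 338) (nat_lit 248))))) (XT.nd (nat_lit 156) (nat_lit 0) (nat_lit 0) (XT.nd (nat_lit 78) (nat_lit 0) (nat_lit 0) (XT.lf (nat_lit 0) (nat_lit 340878006528) (nat_lit 152) (nat_lit 498503554287) (nat_lit 0) (nat_lit 332428256120) (nat_lit 1) (nat_lit 5) (nat_lit 3) (nat_lit 4) (nat_lit 1) (nat_lit 4) (nat_lit 435) (nat_lit 338) (nat_lit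 247)) (XT.lf (nat_lit 0) (nat_lit 383070230619) (nat_lit 152) (nat_lit 506615799091) (nat_lit 0) (nat_lit 374619910909) (nat_lit 1) (nat_lit 5) (nat_lit 3) (nat_lit 4) (nat_lit 1) (nat_lit 4) (nat_lit 436) (nat_lit 338) (nat_lit 246))) (XT.nd (nat_lit 78) (nat_lit 0) (nat_lit 0) (XT.lf (nat_lit 0) (nat_lit 428635813947) (nat_lit 152) (nat_lit 515381134741) (nat_lit 0) (nat_lit 420184967104) (nat_lit 1) (nat_lit 5) (nat_lit 3) (nat_lit 4) (nat_lit 1) (nat_lit 4) (nat_lit 437) (nat_lit 338) (nat_lit 245)) (XT.nd (nat_lit 78) (nat_lit 0) (nat_lit 0) (XT.lf (nat_lit 0) (nat_lit 477844774783) (nat_lit 152) (nat_lit 524851503966) (nat_lit 0) (nat_lit 469393439856) (nat_lit 1) (nat_lit 5) (nat_lit 3) (nat_lit 4) (nat_lit 1) (nat_lit 4) (nat_lit 438) (nat_lit 338) (nat_lit 244)) (XT.lf (nat_lit 0) (nat_lit 530988721785) (nat_lit 152) (nat_lit 535083027473) (nat_lit 0) (nat_lit 522536934927) (nat_lit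 1) (nat_lit 5) (nat_lit 3) (nat_lit 4) (nat_lit 1) (nat_lit 4) (nat_lit 439) (nat_lit 338) (nat_lit 243)))))) (XT.nd (nat_lit 390) (nat_lit 0) (nat_lit 0) (XT.nd (nat_lit 156) (nat_lit 0) (nat_lit 0) (XT.nd (nat_lit 78) (nat_lit 0) (nat_lit 0) (XT.lf (nat_lit 0) (nat_lit 588382582046) (nat_lit 152) (nat_lit 546136336512) (nat_lit 0) (nat_lit 579930376733) (nat_lit 1) (nat_lit 5) (nat_lit 3) (nat_lit 4) (nat_lit 1) (nat_lit 4) (nat_lit 440) (nat_lit 338) (nat_lit 242)) (XT.lf (nat_lit 0) (nat_lit 650366467331) (nat_lit 152) (nat_lit 558076932174) (nat_lit 0) (nat_lit 641913874560) (nat_lit 1) (nat_lit 5) (nat_lit 3) (nat_lit 4) (nat_lit 1) (nat_lit 4) (nat_lit 441) (nat_lit 338) (nat_lit 241))) (XT.nd (nat_lit 78) (nat_lit 0) (nat_lit 0) (XT.lf (nat_lit 0) (nat_lit 717307689551) (nat_lit 152) (nat_lit 570975573544) (nat_lit 0) (nat_lit 708854738023) (nat_lit 1) (nat_lit 5) (nat_lit 3) (nat_lit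 4) (nat_lit 1) (nat_lit 4) (nat_lit 442) (nat_lit 338) (nat_lit 240)) (XT.nd (nat_lit 78) (nat_lit 0) (nat_lit 0) (XT.lf (nat_lit 0) (nat_lit 789602937432) (nat_lit 152) (nat_lit 584908697015) (nat_lit 0) (nat_lit 781149653721) (nat_lit 1) (nat_lit 5) (nat_lit 3) (nat_lit 4) (nat_lit 1) (nat_lit 4) (nat_lit 443) (nat_lit 338) (nat_lit 239)) (XT.lf (nat_lit 0) (nat_lit 867680627257) (nat_lit 152) (nat_lit 599958869246) (nat_lit 0) (nat_lit 859227035969) (nat_lit 1) (nat_lit 5) (nat_lit 3) (nat_lit 4) (nat_lit 1) (nat_lit 4) (nat_lit 444) (nat_lit 338) (nat_lit 238))))) (XT.nd (nat_lit 156) (nat_lit 0) (nat_lit 0) (XT.nd (nat_lit 78) (nat_lit 0) (nat_lit 0) (XT.lf (nat_lit 0) (nat_lit 952003441632) (nat_lit 152) (nat_lit 616215276441) (nat_lit 0) (nat_lit 943549565552) (nat_lit 1) (nat_lit 5) (nat_lit 3) (nat_lit 4) (nat_lit 1) (nat_lit 4) (nat_lit 445) (nat_lit 338) (nat_lit 237)) (XT.lf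 (nat_lit 0) (nat_lit 1043071071310) (nat_lit 152) (nat_lit 633774252866) (nat_lit 0) (nat_lit 1034616931532) (nat_lit 1) (nat_lit 5) (nat_lit 3) (nat_lit 4) (nat_lit 1) (nat_lit 4) (nat_lit 446) (nat_lit 338) (nat_lit 236))) (XT.nd (nat_lit 78) (nat_lit 0) (nat_lit 0) (XT.lf (nat_lit 0) (nat_lit 1141423176318) (nat_lit 152) (nat_lit 652739851714) (nat_lit 0) (nat_lit 1132968792376) (nat_lit 1) (nat_lit 5) (nat_lit 3) (nat_lit 4) (nat_lit 1) (nat_lit 4) (nat_lit 447) (nat_lit 338) (nat_lit 235)) (XT.nd (nat_lit 78) (nat_lit 0) (nat_lit 0) (XT.lf (nat_lit 0) (nat_lit 1247642583945) (nat_lit 152) (nat_lit 673224461720) (nat_lit 0) (nat_lit 1239187973925) (nat_lit 1) (nat_lit 5) (nat_lit 3) (nat_lit 4) (nat_lit 1) (nat_lit 4) (nat_lit 448) (nat_lit 338) (nat_lit 234)) (XT.lf (nat_lit 0) (nat_lit 1362358742532) (nat_lit 152) (nat_lit 695349473164) (nat_lit 0) (nat_lit 1353903923181) (nat_lit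 1) (nat_lit 5) (nat_lit 3) (nat_lit 4) (nat_lit 1) (nat_lit 4) (nat_lit 449) (nat_lit 338) (nat_lit 233))))))) (XT.nd (nat_lit 780) (nat_lit 0) (nat_lit 0) (XT.nd (nat_lit 390) (nat_lit 0) (nat_lit 0) (XT.nd (nat_lit 156) (nat_lit 0) (nat_lit 0) (XT.nd (nat_lit 78) (nat_lit 0) (nat_lit 0) (XT.lf (nat_lit 0) (nat_lit 1486251451538) (nat_lit 152) (nat_lit 719245997226) (nat_lit 0) (nat_lit 1477796438362) (nat_lit 1) (nat_lit 5) (nat_lit 3) (nat_lit 4) (nat_lit 1) (nat_lit 4) (nat_lit 450) (nat_lit 338) (nat_lit 232)) (XT.lf (nat_lit 0) (nat_lit 1620054889980) (nat_lit 152) (nat_lit 745055642938) (nat_lit 0) (nat_lit 1611599697335) (nat_lit 1) (nat_lit 5) (nat_lit 3) (nat_lit 4) (nat_lit 1) (nat_lit 4) (nat_lit 451) (nat_lit 338) (nat_lit 231))) (XT.nd (nat_lit 78) (nat_lit 0) (nat_lit 0) (XT.lf (nat_lit 0) (nat_lit 1764561967121) (nat_lit 152) (nat_lit 772931356347) (nat_lit 0) (nat_lit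 1756106608303) (nat_lit 1) (nat_lit 5) (nat_lit 3) (nat_lit 4) (nat_lit 1) (nat_lit 4) (nat_lit 452) (nat_lit 338) (nat_lit 230)) (XT.nd (nat_lit 78) (nat_lit 0) (nat_lit 0) (XT.lf (nat_lit 0) (nat_lit 1920629021198) (nat_lit 152) (nat_lit 803038326867) (nat_lit 0) (nat_lit 1912173508514) (nat_lit 1) (nat_lit 5) (nat_lit 3) (nat_lit 4) (nat_lit 1) (nat_lit 4) (nat_lit 453) (nat_lit 338) (nat_lit 229)) (XT.lf (nat_lit 0) (nat_lit 2089180894011) (nat_lit 152) (nat_lit 835554966174) (nat_lit 0) (nat_lit 2080725238860) (nat_lit 1) (nat_lit 5) (nat_lit 3) (nat_lit 4) (nat_lit 1) (nat_lit 4) (nat_lit 454) (nat_lit 338) (nat_lit 228))))) (XT.nd (nat_lit 156) (nat_lit 0) (nat_lit 0) (XT.nd (nat_lit 78) (nat_lit 0) (nat_lit 0) (XT.lf (nat_lit 0) (nat_lit 2271216411474) (nat_lit 152) (nat_lit 870673965466) (nat_lit 0) (nat_lit 2262760624409) (nat_lit 1) (nat_lit 5) (nat_lit 3) (nat_lit 4) (nat_lit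 1) (nat_lit 4) (nat_lit 455) (nat_lit 338) (nat_lit 227)) (XT.lf (nat_lit 0) (nat_lit 2467814302579) (nat_lit 152) (nat_lit 908603437329) (nat_lit 0) (nat_lit 2459358393371) (nat_lit 1) (nat_lit 5) (nat_lit 3) (nat_lit 4) (nat_lit 1) (nat_lit 4) (nat_lit 456) (nat_lit 338) (nat_lit 226))) (XT.nd (nat_lit 78) (nat_lit 0) (nat_lit 0) (XT.lf (nat_lit 0) (nat_lit 2680139591866) (nat_lit 152) (nat_lit 949568149005) (nat_lit 0) (nat_lit 2671683569563) (nat_lit 1) (nat_lit 5) (nat_lit 3) (nat_lit 4) (nat_lit 1) (nat_lit 4) (nat_lit 457) (nat_lit 338) (nat_lit 225)) (XT.nd (nat_lit 78) (nat_lit 0) (nat_lit 0) (XT.lf (nat_lit 0) (nat_lit 2909450503272) (nat_lit 152) (nat_lit 993810854341) (nat_lit 0) (nat_lit 2900994376251) (nat_lit 1) (nat_lit 5) (nat_lit 3) (nat_lit 4) (nat_lit 1) (nat_lit 4) (nat_lit 458) (nat_lit 338) (nat_lit 224)) (XT.lf (nat_lit 0) (nat_lit 3157105916271) (nat_lit 152) (nat_lit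 1041593732331) (nat_lit 0) (nat_lit 3148649692289) (nat_lit 1) (nat_lit 5) (nat_lit 3) (nat_lit 4) (nat_lit 1) (nat_lit 4) (nat_lit 459) (nat_lit 338) (nat_lit 223)))))) (XT.nd (nat_lit 43992) (nat_lit 0) (nat_lit 5548) (XT.nd (nat_lit 156) (nat_lit 0) (nat_lit 0) (XT.nd (nat_lit 78) (nat_lit 0) (nat_lit 0) (XT.lf (nat_lit 0) (nat_lit 3424573418497) (nat_lit 152) (nat_lit 1093199940771) (nat_lit 0) (nat_lit 3416117104736) (nat_lit 1) (nat_lit 5) (nat_lit 3) (nat_lit 4) (nat_lit 1) (nat_lit 4) (nat_lit 460) (nat_lit 338) (nat_lit 222)) (XT.lf (nat_lit 0) (nat_lit 3713438002554) (nat_lit 152) (nat_lit 1148935294230) (nat_lit 0) (nat_lit 3704981605665) (nat_lit 1) (nat_lit 5) (nat_lit 3) (nat_lit 4) (nat_lit 1) (nat_lit 4) (nat_lit 461) (nat_lit 338) (nat_lit 221))) (XT.nd (nat_lit 78) (nat_lit 0) (nat_lit 0) (XT.lf (nat_lit 0) (nat_lit 4025411458572) (nat_lit 152) (nat_lit 1209130076282)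 (nat_lit 0) (nat_lit 4016954984712) (nat_lit 1) (nat_lit 5) (nat_lit 3) (nat_lit 4) (nat_lit 1) (nat_lit 4) (nat_lit 462) (nat_lit 338) (nat_lit 220)) (XT.nd (nat_lit 43680) (nat_lit 0) (nat_lit 6460) (XT.lf (nat_lit 0) (nat_lit 4362342518140) (nat_lit 152) (nat_lit 1274140996749) (nat_lit 0) (nat_lit 4353885973011) (nat_lit 1) (nat_lit 5) (nat_lit 3) (nat_lit 4) (nat_lit 1) (nat_lit 4) (nat_lit 463) (nat_lit 338) (nat_lit 219)) (XT.lf (nat_lit 0) (nat_lit 94420855) (nat_lit 76) (nat_lit 1569827444) (nat_lit 76) (nat_lit 1569827444) (nat_lit 86) (nat_lit 4) (nat_lit 87) (nat_lit 5) (nat_lit 87) (nat_lit 4) (nat_lit 342) (nat_lit 339) (nat_lit 339))))) (XT.nd (nat_lit 234) (nat_lit 684) (nat_lit 0) (XT.nd (nat_lit 78) (nat_lit 152) (nat_lit 0) (XT.lf (nat_lit 0) (nat_lit 23825606) (nat_lit 152) (nat_lit 2654129069) (nat_lit 76) (nat_lit 3829225455) (nat_lit 85) (nat_lit 5) (nat_lit 87)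 (nat_lit 5) (nat_lit 86) (nat_lit 4) (nat_lit 343) (nat_lit 339) (nat_lit 338)) (XT.nd (nat_lit 78) (nat_lit 0) (nat_lit 0) (XT.lf (nat_lit 0) (nat_lit 1037572056) (nat_lit 152) (nat_lit 1964673933) (nat_lit 228) (nat_lit 3562483629) (nat_lit 83) (nat_lit 5) (nat_lit 85) (nat_lit 5) (nat_lit 86) (nat_lit 4) (nat_lit 344) (nat_lit 339) (nat_lit 337)) (XT.lf (nat_lit 0) (nat_lit 4986611370) (nat_lit 152) (nat_lit 1028622390) (nat_lit 228) (nat_lit 628354380) (nat_lit 83) (nat_lit 5) (nat_lit 85) (nat_lit 5) (nat_lit 86) (nat_lit 4) (nat_lit 345) (nat_lit 339) (nat_lit 336)))) (XT.nd (nat_lit 78) (nat_lit 380) (nat_lit 0) (XT.lf (nat_lit 0) (nat_lit 2212566801) (nat_lit 304) (nat_lit 4352813118) (nat_lit 76) (nat_lit 174905941) (nat_lit 79) (nat_lit 5) (nat_lit 83) (nat_lit 5) (nat_lit 80) (nat_lit 4) (nat_lit 346) (nat_lit 339) (nat_lit 335)) (XT.nd (nat_lit 78) (nat_lit 380) (nat_lit 0)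 (XT.lf (nat_lit 0) (nat_lit 5073759007) (nat_lit 304) (nat_lit 241616817) (nat_lit 76) (nat_lit 1542206660) (nat_lit 79) (nat_lit 5) (nat_lit 83) (nat_lit 5) (nat_lit 80) (nat_lit 4) (nat_lit 347) (nat_lit 339) (nat_lit 334)) (XT.lf (nat_lit 0) (nat_lit 990451972) (nat_lit 380) (nat_lit 2801005573) (nat_lit 76) (nat_lit 3201223780) (nat_lit 74) (nat_lit 5) (nat_lit 79) (nat_lit 5) (nat_lit 75) (nat_lit 5) (nat_lit 348) (nat_lit 339) (nat_lit 333))))))))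
noncomputable def xc91 : XT := (XT.nd (nat_lit 1638) (nat_lit 1292) (nat_lit 0) (XT.nd (nat_lit 780) (nat_lit 1140) (nat_lit 0) (XT.nd (nat_lit 390) (nat_lit 988) (nat_lit 0) (XT.nd (nat_lit 156) (nat_lit 912) (nat_lit 0) (XT.nd (nat_lit 78) (nat_lit 0) (nat_lit 0) (XT.lf (nat_lit 0) (nat_lit 1695790990) (nat_lit 380) (nat_lit 2020608486) (nat_lit 456) (nat_lit 3432651198) (nat_lit 69) (nat_lit 5) (nat_lit 74) (nat_lit 5) (nat_lit 75) (nat_lit 5) (nat_lit 349) (nat_lit 339) (nat_lit 332)) (XT.lf (nat_lit 0) (nat_lit 6518787962) (nat_lit 380) (nat_lit 8527031) (nat_lit 456) (nat_lit 801501602) (nat_lit 69) (nat_lit 5) (nat_lit 74) (nat_lit 5) (nat_lit 75) (nat_lit 5) (nat_lit 350) (nat_lit 339) (nat_lit 331))) (XT.nd (nat_lit 78) (nat_lit 380) (nat_lit 0) (XT.lf (nat_lit 0) (nat_lit 1895268695) (nat_lit 532) (nat_lit 3408150371) (nat_lit 76) (nat_lit 2219249096) (nat_lit 62) (nat_lit 5)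 (nat_lit 69) (nat_lit 5) (nat_lit 63) (nat_lit 5) (nat_lit 351) (nat_lit 339) (nat_lit 330)) (XT.nd (nat_lit 78) (nat_lit 0) (nat_lit 0) (XT.lf (nat_lit 0) (nat_lit 1607755801) (nat_lit 380) (nat_lit 3029367215) (nat_lit 456) (nat_lit 3103617087) (nat_lit 57) (nat_lit 5) (nat_lit 62) (nat_lit 5) (nat_lit 63) (nat_lit 5) (nat_lit 352) (nat_lit 339) (nat_lit 329)) (XT.lf (nat_lit 0) (nat_lit 7023925006) (nat_lit 380) (nat_lit 487930690) (nat_lit 456) (nat_lit 471494935) (nat_lit 57) (nat_lit 5) (nat_lit 62) (nat_lit 5) (nat_lit 63) (nat_lit 5) (nat_lit 353) (nat_lit 339) (nat_lit 328))))) (XT.nd (nat_lit 156) (nat_lit 456) (nat_lit 0) (XT.nd (nat_lit 78) (nat_lit 228) (nat_lit 0) (XT.lf (nat_lit 0) (nat_lit 2250869379) (nat_lit 304) (nat_lit 3691776403) (nat_lit 76) (nat_lit 2298449121) (nat_lit 53) (nat_lit 5) (nat_lit 57) (nat_lit 5) (nat_lit 54) (nat_lit 5) (nat_lit 354) (nat_lit 339)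 (nat_lit 327)) (XT.lf (nat_lit 0) (nat_lit 1908469019) (nat_lit 228) (nat_lit 3179422798) (nat_lit 304) (nat_lit 3436938919) (nat_lit 50) (nat_lit 5) (nat_lit 53) (nat_lit 5) (nat_lit 54) (nat_lit 5) (nat_lit 355) (nat_lit 339) (nat_lit 326))) (XT.nd (nat_lit 78) (nat_lit 456) (nat_lit 0) (XT.lf (nat_lit 0) (nat_lit 7974320996) (nat_lit 228) (nat_lit 122809007) (nat_lit 304) (nat_lit 738643918) (nat_lit 50) (nat_lit 5) (nat_lit 53) (nat_lit 5) (nat_lit 54) (nat_lit 5) (nat_lit 356) (nat_lit 339) (nat_lit 325)) (XT.nd (nat_lit 78) (nat_lit 228) (nat_lit 0) (XT.lf (nat_lit 0) (nat_lit 2128429678) (nat_lit 228) (nat_lit 3864367118) (nat_lit 76) (nat_lit 3169781051) (nat_lit 47) (nat_lit 5) (nat_lit 50) (nat_lit 5) (nat_lit 48) (nat_lit 5) (nat_lit 357) (nat_lit 339) (nat_lit 324)) (XT.lf (nat_lit 0) (nat_lit 2390841300) (nat_lit 228) (nat_lit 2736609421) (nat_lit 304) (nat_lit 4391243767)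 (nat_lit 44) (nat_lit 5) (nat_lit 47) (nat_lit 5) (nat_lit 48) (nat_lit 5) (nat_lit 358) (nat_lit 339) (nat_lit 323)))))) (XT.nd (nat_lit 390) (nat_lit 532) (nat_lit 0) (XT.nd (nat_lit 156) (nat_lit 380) (nat_lit 0) (XT.nd (nat_lit 78) (nat_lit 228) (nat_lit 0) (XT.lf (nat_lit 0) (nat_lit 8356023321) (nat_lit 304) (nat_lit 746813202) (nat_lit 76) (nat_lit 801388220) (nat_lit 44) (nat_lit 5) (nat_lit 48) (nat_lit 5) (nat_lit 45) (nat_lit 4) (nat_lit 359) (nat_lit 339) (nat_lit 322)) (XT.lf (nat_lit 0) (nat_lit 1541349350) (nat_lit 228) (nat_lit 4150536880) (nat_lit 76) (nat_lit 4618246205) (nat_lit 41) (nat_lit 5) (nat_lit 44) (nat_lit 5) (nat_lit 42) (nat_lit 5) (nat_lit 360) (nat_lit 339) (nat_lit 321))) (XT.nd (nat_lit 78) (nat_lit 228) (nat_lit 0) (XT.lf (nat_lit 0) (nat_lit 2830777314) (nat_lit 152) (nat_lit 1927240501) (nat_lit 228) (nat_lit 5990265303) (nat_lit 39) (nat_lit 5) (nat_lit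 41) (nat_lit 5) (nat_lit 42) (nat_lit 5) (nat_lit 361) (nat_lit 339) (nat_lit 320)) (XT.nd (nat_lit 78) (nat_lit 228) (nat_lit 0) (XT.lf (nat_lit 0) (nat_lit 8278002982) (nat_lit 228) (nat_lit 847964715) (nat_lit 76) (nat_lit 2091909087) (nat_lit 39) (nat_lit 5) (nat_lit 42) (nat_lit 5) (nat_lit 40) (nat_lit 4) (nat_lit 362) (nat_lit 339) (nat_lit 319)) (XT.lf (nat_lit 0) (nat_lit 442799026) (nat_lit 228) (nat_lit 4819262769) (nat_lit 76) (nat_lit 6453874777) (nat_lit 36) (nat_lit 5) (nat_lit 39) (nat_lit 5) (nat_lit 37) (nat_lit 5) (nat_lit 363) (nat_lit 339) (nat_lit 318))))) (XT.nd (nat_lit 234) (nat_lit 304) (nat_lit 0) (XT.nd (nat_lit 78) (nat_lit 76) (nat_lit 0) (XT.lf (nat_lit 0) (nat_lit 2952424161) (nat_lit 152) (nat_lit 968179031) (nat_lit 228) (nat_lit 8328516597) (nat_lit 34) (nat_lit 5) (nat_lit 36) (nat_lit 5) (nat_lit 37) (nat_lit 5) (nat_lit 364) (nat_lit 339) (nat_lit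 317)) (XT.nd (nat_lit 78) (nat_lit 76) (nat_lit 0) (XT.lf (nat_lit 0) (nat_lit 7791231674) (nat_lit 228) (nat_lit 1464251369) (nat_lit 76) (nat_lit 3560357772) (nat_lit 34) (nat_lit 5) (nat_lit 37) (nat_lit 5) (nat_lit 35) (nat_lit 4) (nat_lit 365) (nat_lit 339) (nat_lit 316)) (XT.lf (nat_lit 0) (nat_lit 7163068811) (nat_lit 76) (nat_lit 4905088496) (nat_lit 152) (nat_lit 1352057825) (nat_lit 33) (nat_lit 5) (nat_lit 34) (nat_lit 5) (nat_lit 35) (nat_lit 4) (nat_lit 366) (nat_lit 339) (nat_lit 315)))) (XT.nd (nat_lit 78) (nat_lit 76) (nat_lit 0) (XT.lf (nat_lit 0) (nat_lit 2383409418) (nat_lit 152) (nat_lit 98767568) (nat_lit 228) (nat_lit 11585880525) (nat_lit 30) (nat_lit 5) (nat_lit 32) (nat_lit 5) (nat_lit 33) (nat_lit 5) (nat_lit 367) (nat_lit 339) (nat_lit 314)) (XT.nd (nat_lit 78) (nat_lit 76) (nat_lit 0) (XT.lf (nat_lit 0) (nat_lit 6750274118) (nat_lit 228) (nat_lit 3012980869)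 (nat_lit 76) (nat_lit 4985686838) (nat_lit 30) (nat_lit 5) (nat_lit 33) (nat_lit 5) (nat_lit 31) (nat_lit 4) (nat_lit 368) (nat_lit 339) (nat_lit 313)) (XT.lf (nat_lit 0) (nat_lit 6520505923) (nat_lit 76) (nat_lit 4908123189) (nat_lit 152) (nat_lit 4050197775) (nat_lit 29) (nat_lit 5) (nat_lit 30) (nat_lit 5) (nat_lit 31) (nat_lit 4) (nat_lit 369) (nat_lit 339) (nat_lit 312))))))) (XT.nd (nat_lit 780) (nat_lit 532) (nat_lit 0) (XT.nd (nat_lit 390) (nat_lit 304) (nat_lit 0) (XT.nd (nat_lit 156) (nat_lit 228) (nat_lit 0) (XT.nd (nat_lit 78) (nat_lit 0) (nat_lit 0) (XT.lf (nat_lit 0) (nat_lit 221584805) (nat_lit 228) (nat_lit 15681608438) (nat_lit 76) (nat_lit 362075515) (nat_lit 26) (nat_lit 5) (nat_lit 29) (nat_lit 5) (nat_lit 27) (nat_lit 4) (nat_lit 370) (nat_lit 339) (nat_lit 311)) (XT.lf (nat_lit 0) (nat_lit 4906673179) (nat_lit 228) (nat_lit 6093399815) (nat_lit 76) (nat_lit 6082934298)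 (nat_lit 26) (nat_lit 5) (nat_lit 29) (nat_lit 5) (nat_lit 27) (nat_lit 4) (nat_lit 371) (nat_lit 339) (nat_lit 310))) (XT.nd (nat_lit 78) (nat_lit 152) (nat_lit 0) (XT.lf (nat_lit 0) (nat_lit 4332491626) (nat_lit 76) (nat_lit 5656418889) (nat_lit 152) (nat_lit 7975492630) (nat_lit 25) (nat_lit 5) (nat_lit 26) (nat_lit 5) (nat_lit 27) (nat_lit 4) (nat_lit 372) (nat_lit 339) (nat_lit 309)) (XT.nd (nat_lit 78) (nat_lit 152) (nat_lit 0) (XT.lf (nat_lit 0) (nat_lit 15570681965) (nat_lit 152) (nat_lit 3118322638) (nat_lit 0) (nat_lit 219893345) (nat_lit 25) (nat_lit 5) (nat_lit 27) (nat_lit 4) (nat_lit 25) (nat_lit 4) (nat_lit 373) (nat_lit 339) (nat_lit 308)) (XT.lf (nat_lit 0) (nat_lit 1867092549) (nat_lit 152) (nat_lit 11582470566) (nat_lit 76) (nat_lit 6453749001) (nat_lit 23) (nat_lit 5) (nat_lit 25) (nat_lit 5) (nat_lit 24) (nat_lit 4) (nat_lit 374) (nat_lit 339) (nat_lit 307))))) (XT.nd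 (nat_lit 156) (nat_lit 228) (nat_lit 0) (XT.nd (nat_lit 78) (nat_lit 76) (nat_lit 0) (XT.lf (nat_lit 0) (nat_lit 7321636376) (nat_lit 152) (nat_lit 343717970) (nat_lit 76) (nat_lit 13303954447) (nat_lit 23) (nat_lit 5) (nat_lit 25) (nat_lit 5) (nat_lit 24) (nat_lit 4) (nat_lit 375) (nat_lit 339) (nat_lit 306)) (XT.lf (nat_lit 0) (nat_lit 12281838262) (nat_lit 76) (nat_lit 1157274651) (nat_lit 152) (nat_lit 8663364169) (nat_lit 22) (nat_lit 5) (nat_lit 23) (nat_lit 5) (nat_lit 24) (nat_lit 4) (nat_lit 376) (nat_lit 339) (nat_lit 305))) (XT.nd (nat_lit 78) (nat_lit 152) (nat_lit 0) (XT.lf (nat_lit 0) (nat_lit 2465878684) (nat_lit 76) (nat_lit 17722215993) (nat_lit 76) (nat_lit 3126851714) (nat_lit 21) (nat_lit 4) (nat_lit 22) (nat_lit 5) (nat_lit 22) (nat_lit 4) (nat_lit 377) (nat_lit 339) (nat_lit 304)) (XT.nd (nat_lit 78) (nat_lit 76) (nat_lit 0) (XT.lf (nat_lit 0) (nat_lit 2947707725)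 (nat_lit 152) (nat_lit 8542558839) (nat_lit 76) (nat_lit 13109646237) (nat_lit 20) (nat_lit 5) (nat_lit 22) (nat_lit 5) (nat_lit 21) (nat_lit 4) (nat_lit 378) (nat_lit 339) (nat_lit 303)) (XT.lf (nat_lit 0) (nat_lit 4788444349) (nat_lit 76) (nat_lit 4603311663) (nat_lit 152) (nat_lit 16585239533) (nat_lit 19) (nat_lit 5) (nat_lit 20) (nat_lit 5) (nat_lit 21) (nat_lit 4) (nat_lit 379) (nat_lit 339) (nat_lit 302)))))) (XT.nd (nat_lit 390) (nat_lit 304) (nat_lit 0) (XT.nd (nat_lit 156) (nat_lit 152) (nat_lit 0) (XT.nd (nat_lit 78) (nat_lit 76) (nat_lit 0) (XT.lf (nat_lit 0) (nat_lit 16596988562) (nat_lit 152) (nat_lit 7966966021) (nat_lit 0) (nat_lit 2880649346) (nat_lit 19) (nat_lit 5) (nat_lit 21) (nat_lit 4) (nat_lit 19) (nat_lit 4) (nat_lit 380) (nat_lit 339) (nat_lit 301)) (XT.lf (nat_lit 0) (nat_lit 6402972431) (nat_lit 76) (nat_lit 18191681749) (nat_lit 76) (nat_lit 4417696619) (nat_lit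 18) (nat_lit 4) (nat_lit 19) (nat_lit 5) (nat_lit 19) (nat_lit 4) (nat_lit 381) (nat_lit 339) (nat_lit 300))) (XT.nd (nat_lit 78) (nat_lit 76) (nat_lit 0) (XT.lf (nat_lit 0) (nat_lit 2566390065) (nat_lit 152) (nat_lit 8489269640) (nat_lit 76) (nat_lit 19631712631) (nat_lit 17) (nat_lit 5) (nat_lit 19) (nat_lit 5) (nat_lit 18) (nat_lit 4) (nat_lit 382) (nat_lit 339) (nat_lit 299)) (XT.nd (nat_lit 78) (nat_lit 0) (nat_lit 0) (XT.lf (nat_lit 0) (nat_lit 6888097040) (nat_lit 76) (nat_lit 3095018390) (nat_lit 152) (nat_lit 22495102679) (nat_lit 16) (nat_lit 5) (nat_lit 17) (nat_lit 5) (nat_lit 18) (nat_lit 4) (nat_lit 383) (nat_lit 339) (nat_lit 298)) (XT.lf (nat_lit 0) (nat_lit 18310958140) (nat_lit 152) (nat_lit 10656245653) (nat_lit 0) (nat_lit 5419713472) (nat_lit 16) (nat_lit 5) (nat_lit 18) (nat_lit 4) (nat_lit 16) (nat_lit 4) (nat_lit 384) (nat_lit 339) (nat_lit 297))))) (XT.nd (nat_lit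 234) (nat_lit 76) (nat_lit 0) (XT.nd (nat_lit 78) (nat_lit 152) (nat_lit 0) (XT.lf (nat_lit 0) (nat_lit 5575911932) (nat_lit 76) (nat_lit 21894814762) (nat_lit 76) (nat_lit 8964337253) (nat_lit 15) (nat_lit 4) (nat_lit 16) (nat_lit 5) (nat_lit 16) (nat_lit 4) (nat_lit 385) (nat_lit 339) (nat_lit 296)) (XT.nd (nat_lit 78) (nat_lit 152) (nat_lit 0) (XT.lf (nat_lit 0) (nat_lit 23620109023) (nat_lit 76) (nat_lit 13987123984) (nat_lit 76) (nat_lit 1020319771) (nat_lit 15) (nat_lit 4) (nat_lit 16) (nat_lit 5) (nat_lit 16) (nat_lit 4) (nat_lit 386) (nat_lit 339) (nat_lit 295)) (XT.lf (nat_lit 0) (nat_lit 1939541162) (nat_lit 76) (nat_lit 5243142113) (nat_lit 152) (nat_lit 33798090863) (nat_lit 13) (nat_lit 5) (nat_lit 14) (nat_lit 5) (nat_lit 15) (nat_lit 4) (nat_lit 387) (nat_lit 339) (nat_lit 294)))) (XT.nd (nat_lit 78) (nat_lit 76) (nat_lit 0) (XT.lf (nat_lit 0) (nat_lit 16464029701) (nat_lit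 152) (nat_lit 22620182797) (nat_lit 0) (nat_lit 4397747901) (nat_lit 13) (nat_lit 5) (nat_lit 15) (nat_lit 4) (nat_lit 13) (nat_lit 4) (nat_lit 388) (nat_lit 339) (nat_lit 293)) (XT.nd (nat_lit 78) (nat_lit 76) (nat_lit 0) (XT.lf (nat_lit 0) (nat_lit 26582606530) (nat_lit 152) (nat_lit 5103438780) (nat_lit 0) (nat_lit 14489623518) (nat_lit 13) (nat_lit 5) (nat_lit 15) (nat_lit 4) (nat_lit 13) (nat_lit 4) (nat_lit 389) (nat_lit 339) (nat_lit 292)) (XT.lf (nat_lit 0) (nat_lit 14462365805) (nat_lit 76) (nat_lit 23357732445) (nat_lit 76) (nat_lit 11240026089) (nat_lit 12) (nat_lit 4) (nat_lit 13) (nat_lit 5) (nat_lit 13) (nat_lit 4) (nat_lit 390) (nat_lit 339) (nat_lit 291))))))))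
noncomputable def xc92 : XT := (XT.nd (nat_lit 1560) (nat_lit 228) (nat_lit 0) (XT.nd (nat_lit 780) (nat_lit 228) (nat_lit 0) (XT.nd (nat_lit 390) (nat_lit 152) (nat_lit 0) (XT.nd (nat_lit 156) (nat_lit 76) (nat_lit 0) (XT.nd (nat_lit 78) (nat_lit 152) (nat_lit 0) (XT.lf (nat_lit 0) (nat_lit 35809844378) (nat_lit 76) (nat_lit 14248958754) (nat_lit 76) (nat_lit 2108360411) (nat_lit 12) (nat_lit 4) (nat_lit 13) (nat_lit 5) (nat_lit 13) (nat_lit 4) (nat_lit 391) (nat_lit 339) (nat_lit 290)) (XT.lf (nat_lit 0) (nat_lit 3248130216) (nat_lit 76) (nat_lit 4160487496) (nat_lit 152) (nat_lit 48095820900) (nat_lit 10) (nat_lit 5) (nat_lit 11) (nat_lit 5) (nat_lit 12) (nat_lit 4) (nat_lit 392) (nat_lit 339) (nat_lit 289))) (XT.nd (nat_lit 78) (nat_lit 76) (nat_lit 0) (XT.lf (nat_lit 0) (nat_lit 18158584276) (nat_lit 152) (nat_lit 34019400017) (nat_lit 0) (nat_lit 6879490930) (nat_lit 10) (nat_lit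 5) (nat_lit 12) (nat_lit 4) (nat_lit 10) (nat_lit 4) (nat_lit 393) (nat_lit 339) (nat_lit 288)) (XT.nd (nat_lit 78) (nat_lit 76) (nat_lit 0) (XT.lf (nat_lit 0) (nat_lit 29843930698) (nat_lit 152) (nat_lit 14496785605) (nat_lit 0) (nat_lit 18548011060) (nat_lit 10) (nat_lit 5) (nat_lit 12) (nat_lit 4) (nat_lit 10) (nat_lit 4) (nat_lit 394) (nat_lit 339) (nat_lit 287)) (XT.lf (nat_lit 0) (nat_lit 6870999449) (nat_lit 76) (nat_lit 35728091905) (nat_lit 76) (nat_lit 24416592365) (nat_lit 9) (nat_lit 4) (nat_lit 10) (nat_lit 5) (nat_lit 10) (nat_lit 4) (nat_lit 395) (nat_lit 339) (nat_lit 286))))) (XT.nd (nat_lit 156) (nat_lit 152) (nat_lit 0) (XT.nd (nat_lit 78) (nat_lit 0) (nat_lit 0) (XT.lf (nat_lit 0) (nat_lit 30713826564) (nat_lit 76) (nat_lit 26027771732) (nat_lit 76) (nat_lit 14701846359) (nat_lit 9) (nat_lit 4) (nat_lit 10) (nat_lit 5) (nat_lit 10) (nat_lit 4) (nat_lit 396) (nat_lit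 339) (nat_lit 285)) (XT.lf (nat_lit 0) (nat_lit 56409611527) (nat_lit 76) (nat_lit 15578640216) (nat_lit 76) (nat_lit 4239357589) (nat_lit 9) (nat_lit 4) (nat_lit 10) (nat_lit 5) (nat_lit 10) (nat_lit 4) (nat_lit 397) (nat_lit 339) (nat_lit 284))) (XT.nd (nat_lit 78) (nat_lit 0) (nat_lit 0) (XT.lf (nat_lit 0) (nat_lit 2678969411) (nat_lit 76) (nat_lit 4066520908) (nat_lit 152) (nat_lit 74632352433) (nat_lit 7) (nat_lit 5) (nat_lit 8) (nat_lit 5) (nat_lit 9) (nat_lit 4) (nat_lit 398) (nat_lit 339) (nat_lit 283)) (XT.nd (nat_lit 78) (nat_lit 0) (nat_lit 0) (XT.lf (nat_lit 0) (nat_lit 19111442640) (nat_lit 152) (nat_lit 59171285247) (nat_lit 0) (nat_lit 8590051763) (nat_lit 7) (nat_lit 5) (nat_lit 9) (nat_lit 4) (nat_lit 7) (nat_lit 4) (nat_lit 399) (nat_lit 339) (nat_lit 282)) (XT.lf (nat_lit 0) (nat_lit 32548408393) (nat_lit 152) (nat_lit 38235166459) (nat_lit 0) (nat_lit 22017199536) (nat_lit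 7) (nat_lit 5) (nat_lit 9) (nat_lit 4) (nat_lit 7) (nat_lit 4) (nat_lit 400) (nat_lit 339) (nat_lit 281)))))) (XT.nd (nat_lit 390) (nat_lit 152) (nat_lit 0) (XT.nd (nat_lit 156) (nat_lit 0) (nat_lit 0) (XT.nd (nat_lit 78) (nat_lit 76) (nat_lit 0) (XT.lf (nat_lit 0) (nat_lit 47038214118) (nat_lit 152) (nat_lit 15668651162) (nat_lit 0) (nat_lit 36497914539) (nat_lit 7) (nat_lit 5) (nat_lit 9) (nat_lit 4) (nat_lit 7) (nat_lit 4) (nat_lit 401) (nat_lit 339) (nat_lit 280)) (XT.lf (nat_lit 0) (nat_lit 9118113086) (nat_lit 76) (nat_lit 53767903084) (nat_lit 76) (nat_lit 43219186168) (nat_lit 6) (nat_lit 4) (nat_lit 7) (nat_lit 5) (nat_lit 7) (nat_lit 4) (nat_lit 402) (nat_lit 339) (nat_lit 279))) (XT.nd (nat_lit 78) (nat_lit 0) (nat_lit 0) (XT.lf (nat_lit 0) (nat_lit 36738754299) (nat_lit 76) (nat_lit 43671369054) (nat_lit 76) (nat_lit 33114858310) (nat_lit 6) (nat_lit 4) (nat_lit 7) (nat_lit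 5) (nat_lit 7) (nat_lit 4) (nat_lit 403) (nat_lit 339) (nat_lit 278)) (XT.nd (nat_lit 78) (nat_lit 0) (nat_lit 0) (XT.lf (nat_lit 0) (nat_lit 66531866950) (nat_lit 76) (nat_lit 32785840570) (nat_lit 76) (nat_lit 22222113317) (nat_lit 6) (nat_lit 4) (nat_lit 7) (nat_lit 5) (nat_lit 7) (nat_lit 4) (nat_lit 404) (nat_lit 339) (nat_lit 277)) (XT.lf (nat_lit 0) (nat_lit 98674002815) (nat_lit 76) (nat_lit 21046810796) (nat_lit 76) (nat_lit 10476401590) (nat_lit 6) (nat_lit 4) (nat_lit 7) (nat_lit 5) (nat_lit 7) (nat_lit 4) (nat_lit 405) (nat_lit 339) (nat_lit 276))))) (XT.nd (nat_lit 156) (nat_lit 0) (nat_lit 0) (XT.nd (nat_lit 78) (nat_lit 76) (nat_lit 0) (XT.lf (nat_lit 0) (nat_lit 2082234318) (nat_lit 152) (nat_lit 6245548815) (nat_lit 76) (nat_lit 131216467516) (nat_lit 5) (nat_lit 5) (nat_lit 7) (nat_lit 5) (nat_lit 6) (nat_lit 4) (nat_lit 406) (nat_lit 339) (nat_lit 275)) (XT.lf (nat_lit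 0) (nat_lit 15740326338) (nat_lit 152) (nat_lit 127882216056) (nat_lit 0) (nat_lit 5941877361) (nat_lit 4) (nat_lit 5) (nat_lit 6) (nat_lit 4) (nat_lit 4) (nat_lit 4) (nat_lit 407) (nat_lit 339) (nat_lit 274))) (XT.nd (nat_lit 78) (nat_lit 0) (nat_lit 0) (XT.lf (nat_lit 0) (nat_lit 30867586780) (nat_lit 152) (nat_lit 108424268490) (nat_lit 0) (nat_lit 21064226368) (nat_lit 4) (nat_lit 5) (nat_lit 6) (nat_lit 4) (nat_lit 4) (nat_lit 4) (nat_lit 408) (nat_lit 339) (nat_lit 273)) (XT.nd (nat_lit 78) (nat_lit 0) (nat_lit 0) (XT.lf (nat_lit 0) (nat_lit 47191153236) (nat_lit 152) (nat_lit 87437788887) (nat_lit 0) (nat_lit 37383245200) (nat_lit 4) (nat_lit 5) (nat_lit 6) (nat_lit 4) (nat_lit 4) (nat_lit 4) (nat_lit 409) (nat_lit 339) (nat_lit 272)) (XT.lf (nat_lit 0) (nat_lit 64807757954) (nat_lit 152) (nat_lit 64798412923) (nat_lit 0) (nat_lit 54995639154) (nat_lit 4) (nat_lit 5) (nat_lit 6)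 (nat_lit 4) (nat_lit 4) (nat_lit 4) (nat_lit 410) (nat_lit 339) (nat_lit 271))))))) (XT.nd (nat_lit 780) (nat_lit 152) (nat_lit 0) (XT.nd (nat_lit 390) (nat_lit 0) (nat_lit 0) (XT.nd (nat_lit 156) (nat_lit 76) (nat_lit 0) (XT.nd (nat_lit 78) (nat_lit 0) (nat_lit 0) (XT.lf (nat_lit 0) (nat_lit 83821795626) (nat_lit 152) (nat_lit 40371981332) (nat_lit 0) (nat_lit 74005777971) (nat_lit 4) (nat_lit 5) (nat_lit 6) (nat_lit 4) (nat_lit 4) (nat_lit 4) (nat_lit 411) (nat_lit 339) (nat_lit 270)) (XT.lf (nat_lit 0) (nat_lit 104345942033) (nat_lit 152) (nat_lit 14013744890) (nat_lit 0) (nat_lit 94526314327) (nat_lit 4) (nat_lit 5) (nat_lit 6) (nat_lit 4) (nat_lit 4) (nat_lit 4) (nat_lit 412) (nat_lit 339) (nat_lit 269))) (XT.nd (nat_lit 78) (nat_lit 0) (nat_lit 0) (XT.lf (nat_lit 0) (nat_lit 15192482881) (nat_lit 76) (nat_lit 111674718441) (nat_lit 76) (nat_lit 101851748096) (nat_lit 3) (nat_lit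 4) (nat_lit 4) (nat_lit 5) (nat_lit 4) (nat_lit 4) (nat_lit 413) (nat_lit 339) (nat_lit 268)) (XT.nd (nat_lit 78) (nat_lit 0) (nat_lit 0) (XT.lf (nat_lit 0) (nat_lit 47512048821) (nat_lit 76) (nat_lit 104051345958) (nat_lit 76) (nat_lit 94225280576) (nat_lit 3) (nat_lit 4) (nat_lit 4) (nat_lit 5) (nat_lit 4) (nat_lit 4) (nat_lit 414) (nat_lit 339) (nat_lit 267)) (XT.lf (nat_lit 0) (nat_lit 82398537312) (nat_lit 76) (nat_lit 95827554554) (nat_lit 76) (nat_lit 85998623396) (nat_lit 3) (nat_lit 4) (nat_lit 4) (nat_lit 5) (nat_lit 4) (nat_lit 4) (nat_lit 415) (nat_lit 339) (nat_lit 266))))) (XT.nd (nat_lit 156) (nat_lit 0) (nat_lit 0) (XT.nd (nat_lit 78) (nat_lit 0) (nat_lit 0) (XT.lf (nat_lit 0) (nat_lit 120058683098) (nat_lit 76) (nat_lit 86954610649) (nat_lit 76) (nat_lit 77123025996) (nat_lit 3) (nat_lit 4) (nat_lit 4) (nat_lit 5) (nat_lit 4) (nat_lit 4) (nat_lit 416) (nat_lit 339) (nat_lit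 265)) (XT.lf (nat_lit 0) (nat_lit 160715657416) (nat_lit 76) (nat_lit 77379933835) (nat_lit 76) (nat_lit 67545892242) (nat_lit 3) (nat_lit 4) (nat_lit 4) (nat_lit 5) (nat_lit 4) (nat_lit 4) (nat_lit 417) (nat_lit 339) (nat_lit 264))) (XT.nd (nat_lit 78) (nat_lit 0) (nat_lit 0) (XT.lf (nat_lit 0) (nat_lit 204610390483) (nat_lit 76) (nat_lit 67046785287) (nat_lit 76) (nat_lit 57210468750) (nat_lit 3) (nat_lit 4) (nat_lit 4) (nat_lit 5) (nat_lit 4) (nat_lit 4) (nat_lit 418) (nat_lit 339) (nat_lit 263)) (XT.nd (nat_lit 78) (nat_lit 0) (nat_lit 0) (XT.lf (nat_lit 0) (nat_lit 252002999235) (nat_lit 76) (nat_lit 55893931531) (nat_lit 76) (nat_lit 46055508564) (nat_lit 3) (nat_lit 4) (nat_lit 4) (nat_lit 5) (nat_lit 4) (nat_lit 4) (nat_lit 419) (nat_lit 339) (nat_lit 262)) (XT.lf (nat_lit 0) (nat_lit 303174328762) (nat_lit 76) (nat_lit 43855281583) (nat_lit 76) (nat_lit 34014908218) (nat_lit 3)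 (nat_lit 4) (nat_lit 4) (nat_lit 5) (nat_lit 4) (nat_lit 4) (nat_lit 420) (nat_lit 339) (nat_lit 261)))))) (XT.nd (nat_lit 390) (nat_lit 0) (nat_lit 0) (XT.nd (nat_lit 156) (nat_lit 152) (nat_lit 0) (XT.nd (nat_lit 78) (nat_lit 0) (nat_lit 0) (XT.lf (nat_lit 0) (nat_lit 358427616572) (nat_lit 76) (nat_lit 30859495295) (nat_lit 76) (nat_lit 21017316006) (nat_lit 3) (nat_lit 4) (nat_lit 4) (nat_lit 5) (nat_lit 4) (nat_lit 4) (nat_lit 421) (nat_lit 339) (nat_lit 260)) (XT.lf (nat_lit 0) (nat_lit 418090289556) (nat_lit 76) (nat_lit 16829560600) (nat_lit 76) (nat_lit 6985709158) (nat_lit 3) (nat_lit 4) (nat_lit 4) (nat_lit 5) (nat_lit 4) (nat_lit 4) (nat_lit 422) (nat_lit 339) (nat_lit 259))) (XT.nd (nat_lit 78) (nat_lit 0) (nat_lit 0) (XT.lf (nat_lit 0) (nat_lit 6615329147) (nat_lit 76) (nat_lit 1298482813) (nat_lit 152) (nat_lit 468092933236) (nat_lit 1) (nat_lit 5) (nat_lit 2) (nat_lit 5)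 (nat_lit 3) (nat_lit 4) (nat_lit 423) (nat_lit 339) (nat_lit 258)) (XT.nd (nat_lit 78) (nat_lit 0) (nat_lit 0) (XT.lf (nat_lit 0) (nat_lit 24663042407) (nat_lit 152) (nat_lit 472530051307) (nat_lit 0) (nat_lit 15545604137) (nat_lit 1) (nat_lit 5) (nat_lit 3) (nat_lit 4) (nat_lit 1) (nat_lit 4) (nat_lit 424) (nat_lit 339) (nat_lit 257)) (XT.lf (nat_lit 0) (nat_lit 42781231260) (nat_lit 152) (nat_lit 475963090189) (nat_lit 0) (nat_lit 33662563908) (nat_lit 1) (nat_lit 5) (nat_lit 3) (nat_lit 4) (nat_lit 1) (nat_lit 4) (nat_lit 425) (nat_lit 339) (nat_lit 256))))) (XT.nd (nat_lit 234) (nat_lit 0) (nat_lit 0) (XT.nd (nat_lit 78) (nat_lit 0) (nat_lit 0) (XT.lf (nat_lit 0) (nat_lit 62344517020) (nat_lit 152) (nat_lit 479679648085) (nat_lit 0) (nat_lit 53224711629) (nat_lit 1) (nat_lit 5) (nat_lit 3) (nat_lit 4) (nat_lit 1) (nat_lit 4) (nat_lit 426) (nat_lit 339) (nat_lit 255)) (XT.nd (nat_lit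 78) (nat_lit 0) (nat_lit 0) (XT.lf (nat_lit 0) (nat_lit 83468830270) (nat_lit 152) (nat_lit 483701749043) (nat_lit 0) (nat_lit 74347971140) (nat_lit 1) (nat_lit 5) (nat_lit 3) (nat_lit 4) (nat_lit 1) (nat_lit 4) (nat_lit 427) (nat_lit 339) (nat_lit 254)) (XT.lf (nat_lit 0) (nat_lit 106279352125) (nat_lit 152) (nat_lit 488053227735) (nat_lit 0) (nat_lit 97157517310) (nat_lit 1) (nat_lit 5) (nat_lit 3) (nat_lit 4) (nat_lit 1) (nat_lit 4) (nat_lit 428) (nat_lit 339) (nat_lit 253)))) (XT.nd (nat_lit 78) (nat_lit 0) (nat_lit 0) (XT.lf (nat_lit 0) (nat_lit 130911256049) (nat_lit 152) (nat_lit 492759870701) (nat_lit 0) (nat_lit 121788517822) (nat_lit 1) (nat_lit 5) (nat_lit 3) (nat_lit 4) (nat_lit 1) (nat_lit 4) (nat_lit 429) (nat_lit 339) (nat_lit 252)) (XT.nd (nat_lit 78) (nat_lit 0) (nat_lit 0) (XT.lf (nat_lit 0) (nat_lit 157510508878) (nat_lit 152) (nat_lit 497849569160) (nat_lit 0) (nat_lit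 148386934160) (nat_lit 1) (nat_lit 5) (nat_lit 3) (nat_lit 4) (nat_lit 1) (nat_lit 4) (nat_lit 430) (nat_lit 339) (nat_lit 251)) (XT.lf (nat_lit 0) (nat_lit 186234735817) (nat_lit 152) (nat_lit 503352484286) (nat_lit 0) (nat_lit 177110386568) (nat_lit 1) (nat_lit 5) (nat_lit 3) (nat_lit 4) (nat_lit 1) (nat_lit 4) (nat_lit 431) (nat_lit 339) (nat_lit 250))))))))
noncomputable def xc93 : XT := (XT.nd (nat_lit 1560) (nat_lit 0) (nat_lit 0) (XT.nd (nat_lit 780) (nat_lit 0) (nat_lit 0) (XT.nd (nat_lit 390) (nat_lit 0) (nat_lit 0) (XT.nd (nat_lit 156) (nat_lit 0) (nat_lit 0) (XT.nd (nat_lit 78) (nat_lit 0) (nat_lit 0) (XT.lf (nat_lit 0) (nat_lit 217254154504) (nat_lit 152) (nat_lit 509301225947) (nat_lit 0) (nat_lit 208129088098) (nat_lit 1) (nat_lit 5) (nat_lit 3) (nat_lit 4) (nat_lit 1) (nat_lit 4) (nat_lit 432) (nat_lit 339) (nat_lit 249)) (XT.lf (nat_lit 0) (nat_lit 250752583719) (nat_lit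 152) (nat_lit 515731045947) (nat_lit 0) (nat_lit 241626853278) (nat_lit 1) (nat_lit 5) (nat_lit 3) (nat_lit 4) (nat_lit 1) (nat_lit 4) (nat_lit 433) (nat_lit 339) (nat_lit 248))) (XT.nd (nat_lit 78) (nat_lit 0) (nat_lit 0) (XT.lf (nat_lit 0) (nat_lit 286928532670) (nat_lit 152) (nat_lit 522680046921) (nat_lit 0) (nat_lit 277802187383) (nat_lit 1) (nat_lit 5) (nat_lit 3) (nat_lit 4) (nat_lit 1) (nat_lit 4) (nat_lit 434) (nat_lit 339) (nat_lit 247)) (XT.nd (nat_lit 78) (nat_lit 0) (nat_lit 0) (XT.lf (nat_lit 0) (nat_lit 325996377352) (nat_lit 152) (nat_lit 530189408135) (nat_lit 0) (nat_lit 316869462762) (nat_lit 1) (nat_lit 5) (nat_lit 3) (nat_lit 4) (nat_lit 1) (nat_lit 4) (nat_lit 435) (nat_lit 339) (nat_lit 246)) (XT.lf (nat_lit 0) (nat_lit 368187630919) (nat_lit 152) (nat_lit 538303629508) (nat_lit 0) (nat_lit 359060189197) (nat_lit 1) (nat_lit 5) (nat_lit 3) (nat_lit 4) (nat_lit 1)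 (nat_lit 4) (nat_lit 436) (nat_lit 339) (nat_lit 245))))) (XT.nd (nat_lit 156) (nat_lit 0) (nat_lit 0) (XT.nd (nat_lit 78) (nat_lit 0) (nat_lit 0) (XT.lf (nat_lit 0) (nat_lit 413752315613) (nat_lit 152) (nat_lit 547070795313) (nat_lit 0) (nat_lit 404624385806) (nat_lit 1) (nat_lit 5) (nat_lit 3) (nat_lit 4) (nat_lit 1) (nat_lit 4) (nat_lit 437) (nat_lit 339) (nat_lit 244)) (XT.lf (nat_lit 0) (nat_lit 462960444382) (nat_lit 152) (nat_lit 556542859126) (nat_lit 0) (nat_lit 453832062644) (nat_lit 1) (nat_lit 5) (nat_lit 3) (nat_lit 4) (nat_lit 1) (nat_lit 4) (nat_lit 438) (nat_lit 339) (nat_lit 243))) (XT.nd (nat_lit 78) (nat_lit 0) (nat_lit 0) (XT.lf (nat_lit 0) (nat_lit 516103620951) (nat_lit 152) (nat_lit 566775951696) (nat_lit 0) (nat_lit 506974820758) (nat_lit 1) (nat_lit 5) (nat_lit 3) (nat_lit 4) (nat_lit 1) (nat_lit 4) (nat_lit 439) (nat_lit 339) (nat_lit 242)) (XT.nd (nat_lit 78)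 (nat_lit 0) (nat_lit 0) (XT.lf (nat_lit 0) (nat_lit 573496767847) (nat_lit 152) (nat_lit 577830713572) (nat_lit 0) (nat_lit 564367580197) (nat_lit 1) (nat_lit 5) (nat_lit 3) (nat_lit 4) (nat_lit 1) (nat_lit 4) (nat_lit 440) (nat_lit 339) (nat_lit 241)) (XT.lf (nat_lit 0) (nat_lit 635479992609) (nat_lit 152) (nat_lit 589772654452) (nat_lit 0) (nat_lit 626350446201) (nat_lit 1) (nat_lit 5) (nat_lit 3) (nat_lit 4) (nat_lit 1) (nat_lit 4) (nat_lit 441) (nat_lit 339) (nat_lit 240)))))) (XT.nd (nat_lit 390) (nat_lit 0) (nat_lit 0) (XT.nd (nat_lit 156) (nat_lit 0) (nat_lit 0) (XT.nd (nat_lit 78) (nat_lit 0) (nat_lit 0) (XT.lf (nat_lit 0) (nat_lit 702420603235) (nat_lit 152) (nat_lit 602672541395) (nat_lit 0) (nat_lit 693290724644) (nat_lit 1) (nat_lit 5) (nat_lit 3) (nat_lit 4) (nat_lit 1) (nat_lit 4) (nat_lit 442) (nat_lit 339) (nat_lit 239)) (XT.lf (nat_lit 0) (nat_lit 774715284824) (nat_lit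 152) (nat_lit 616606818175) (nat_lit 0) (nat_lit 765585098657) (nat_lit 1) (nat_lit 5) (nat_lit 3) (nat_lit 4) (nat_lit 1) (nat_lit 4) (nat_lit 443) (nat_lit 339) (nat_lit 238))) (XT.nd (nat_lit 78) (nat_lit 0) (nat_lit 0) (XT.lf (nat_lit 0) (nat_lit 852792450305) (nat_lit 152) (nat_lit 631658058284) (nat_lit 0) (nat_lit 843661979345) (nat_lit 1) (nat_lit 5) (nat_lit 3) (nat_lit 4) (nat_lit 1) (nat_lit 4) (nat_lit 444) (nat_lit 339) (nat_lit 237)) (XT.nd (nat_lit 78) (nat_lit 0) (nat_lit 0) (XT.lf (nat_lit 0) (nat_lit 937114779177) (nat_lit 152) (nat_lit 647915454255) (nat_lit 0) (nat_lit 927984044519) (nat_lit 1) (nat_lit 5) (nat_lit 3) (nat_lit 4) (nat_lit 1) (nat_lit 4) (nat_lit 445) (nat_lit 339) (nat_lit 236)) (XT.lf (nat_lit 0) (nat_lit 1028181959314) (nat_lit 152) (nat_lit 665475346213) (nat_lit 0) (nat_lit 1019050980493) (nat_lit 1) (nat_lit 5) (nat_lit 3) (nat_lit 4) (nat_lit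 1) (nat_lit 4) (nat_lit 446) (nat_lit 339) (nat_lit 235))))) (XT.nd (nat_lit 156) (nat_lit 0) (nat_lit 0) (XT.nd (nat_lit 78) (nat_lit 0) (nat_lit 0) (XT.lf (nat_lit 0) (nat_lit 1126533648081) (nat_lit 152) (nat_lit 684441792778) (nat_lit 0) (nat_lit 1117402443181) (nat_lit 1) (nat_lit 5) (nat_lit 3) (nat_lit 4) (nat_lit 1) (nat_lit 4) (nat_lit 447) (nat_lit 339) (nat_lit 234)) (XT.lf (nat_lit 0) (nat_lit 1232752670299) (nat_lit 152) (nat_lit 704927187705) (nat_lit 0) (nat_lit 1223621256069) (nat_lit 1) (nat_lit 5) (nat_lit 3) (nat_lit 4) (nat_lit 1) (nat_lit 4) (nat_lit 448) (nat_lit 339) (nat_lit 233))) (XT.nd (nat_lit 78) (nat_lit 0) (nat_lit 0) (XT.lf (nat_lit 0) (nat_lit 1347468472027) (nat_lit 152) (nat_lit 727052925930) (nat_lit 0) (nat_lit 1338336863971) (nat_lit 1) (nat_lit 5) (nat_lit 3) (nat_lit 4) (nat_lit 1) (nat_lit 4) (nat_lit 449) (nat_lit 339) (nat_lit 232)) (XT.nd (nat_lit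 78) (nat_lit 0) (nat_lit 0) (XT.lf (nat_lit 0) (nat_lit 1471360850608) (nat_lit 152) (nat_lit 750950122936) (nat_lit 0) (nat_lit 1462229063084) (nat_lit 1) (nat_lit 5) (nat_lit 3) (nat_lit 4) (nat_lit 1) (nat_lit 4) (nat_lit 450) (nat_lit 339) (nat_lit 231)) (XT.lf (nat_lit 0) (nat_lit 1605163983099) (nat_lit 152) (nat_lit 776760391744) (nat_lit 0) (nat_lit 1596032029401) (nat_lit 1) (nat_lit 5) (nat_lit 3) (nat_lit 4) (nat_lit 1) (nat_lit 4) (nat_lit 451) (nat_lit 339) (nat_lit 230))))))) (XT.nd (nat_lit 780) (nat_lit 0) (nat_lit 0) (XT.nd (nat_lit 390) (nat_lit 0) (nat_lit 0) (XT.nd (nat_lit 156) (nat_lit 0) (nat_lit 0) (XT.nd (nat_lit 78) (nat_lit 0) (nat_lit 0) (XT.lf (nat_lit 0) (nat_lit 1749670776954) (nat_lit 152) (nat_lit 804636682095) (nat_lit 0) (nat_lit 1740538669391) (nat_lit 1) (nat_lit 5) (nat_lit 3) (nat_lit 4) (nat_lit 1) (nat_lit 4) (nat_lit 452) (nat_lit 339) (nat_lit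 229)) (XT.lf (nat_lit 0) (nat_lit 1905737568728) (nat_lit 152) (nat_lit 834744186819) (nat_lit 0) (nat_lit 1896605318698) (nat_lit 1) (nat_lit 5) (nat_lit 3) (nat_lit 4) (nat_lit 1) (nat_lit 4) (nat_lit 453) (nat_lit 339) (nat_lit 228))) (XT.nd (nat_lit 78) (nat_lit 0) (nat_lit 0) (XT.lf (nat_lit 0) (nat_lit 2074289198668) (nat_lit 152) (nat_lit 867261320761) (nat_lit 0) (nat_lit 2065156816724) (nat_lit 1) (nat_lit 5) (nat_lit 3) (nat_lit 4) (nat_lit 1) (nat_lit 4) (nat_lit 454) (nat_lit 339) (nat_lit 227)) (XT.nd (nat_lit 78) (nat_lit 0) (nat_lit 0) (XT.lf (nat_lit 0) (nat_lit 2256324491249) (nat_lit 152) (nat_lit 902380778047) (nat_lit 0) (nat_lit 2247191987162) (nat_lit 1) (nat_lit 5) (nat_lit 3) (nat_lit 4) (nat_lit 1) (nat_lit 4) (nat_lit 455) (nat_lit 339) (nat_lit 226)) (XT.lf (nat_lit 0) (nat_lit 2452922174130) (nat_lit 152) (nat_lit 940310673980) (nat_lit 0) (nat_lit 2443789556947)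 (nat_lit 1) (nat_lit 5) (nat_lit 3) (nat_lit 4) (nat_lit 1) (nat_lit 4) (nat_lit 456) (nat_lit 339) (nat_lit 225))))) (XT.nd (nat_lit 156) (nat_lit 0) (nat_lit 0) (XT.nd (nat_lit 78) (nat_lit 0) (nat_lit 0) (XT.lf (nat_lit 0) (nat_lit 2665247270617) (nat_lit 152) (nat_lit 981275778312) (nat_lit 0) (nat_lit 2656114548717) (nat_lit 1) (nat_lit 5) (nat_lit 3) (nat_lit 4) (nat_lit 1) (nat_lit 4) (nat_lit 457) (nat_lit 339) (nat_lit 224)) (XT.lf (nat_lit 0) (nat_lit 2894558003504) (nat_lit 152) (nat_lit 1025518847219) (nat_lit 0) (nat_lit 2885425184643) (nat_lit 1) (nat_lit 5) (nat_lit 3) (nat_lit 4) (nat_lit 1) (nat_lit 4) (nat_lit 458) (nat_lit 339) (nat_lit 223))) (XT.nd (nat_lit 78) (nat_lit 0) (nat_lit 0) (XT.lf (nat_lit 0) (nat_lit 3142213251208) (nat_lit 152) (nat_lit 1073302061849) (nat_lit 0) (nat_lit 3133080342568) (nat_lit 1) (nat_lit 5) (nat_lit 3) (nat_lit 4) (nat_lit 1) (nat_lit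 4) (nat_lit 459) (nat_lit 339) (nat_lit 222)) (XT.nd (nat_lit 78) (nat_lit 0) (nat_lit 0) (XT.lf (nat_lit 0) (nat_lit 3409680600383) (nat_lit 152) (nat_lit 1124908581992) (nat_lit 0) (nat_lit 3400547608615) (nat_lit 1) (nat_lit 5) (nat_lit 3) (nat_lit 4) (nat_lit 1) (nat_lit 4) (nat_lit 460) (nat_lit 339) (nat_lit 221)) (XT.lf (nat_lit 0) (nat_lit 3698545042727) (nat_lit 152) (nat_lit 1180644224065) (nat_lit 0) (nat_lit 3689411973987) (nat_lit 1) (nat_lit 5) (nat_lit 3) (nat_lit 4) (nat_lit 1) (nat_lit 4) (nat_lit 461) (nat_lit 339) (nat_lit 220)))))) (XT.nd (nat_lit 43836) (nat_lit 0) (nat_lit 5548) (XT.nd (nat_lit 43602) (nat_lit 0) (nat_lit 6460) (XT.nd (nat_lit 78) (nat_lit 0) (nat_lit 0) (XT.lf (nat_lit 0) (nat_lit 4010518367527) (nat_lit 152) (nat_lit 1240839273353) (nat_lit 0) (nat_lit 4001385227519) (nat_lit 1) (nat_lit 5) (nat_lit 3) (nat_lit 4) (nat_lit 1) (nat_lit 4) (nat_lit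 462) (nat_lit 339) (nat_lit 219)) (XT.lf (nat_lit 0) (nat_lit 4347449305598) (nat_lit 152) (nat_lit 1305850441260) (nat_lit 0) (nat_lit 4338316099600) (nat_lit 1) (nat_lit 5) (nat_lit 3) (nat_lit 4) (nat_lit 1) (nat_lit 4) (nat_lit 463) (nat_lit 339) (nat_lit 218))) (XT.nd (nat_lit 78) (nat_lit 152) (nat_lit 0) (XT.lf (nat_lit 0) (nat_lit 1073741823) (nat_lit 0) (nat_lit 0) (nat_lit 0) (nat_lit 0) (nat_lit 88) (nat_lit 0) (nat_lit 1) (nat_lit 0) (nat_lit 1) (nat_lit 0) (nat_lit 340) (nat_lit 340) (nat_lit 340)) (XT.nd (nat_lit 78) (nat_lit 76) (nat_lit 0) (XT.lf (nat_lit 0) (nat_lit 3077736068) (nat_lit 76) (nat_lit 3213294780) (nat_lit 0) (nat_lit 157754830) (nat_lit 87) (nat_lit 5) (nat_lit 88) (nat_lit 0) (nat_lit 87) (nat_lit 4) (nat_lit 341) (nat_lit 340) (nat_lit 339)) (XT.lf (nat_lit 0) (nat_lit 96442890) (nat_lit 76) (nat_lit 6003743467) (nat_lit 76) (nat_lit 380075898) (nat_lit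 86) (nat_lit 4) (nat_lit 87) (nat_lit 5) (nat_lit 87) (nat_lit 4) (nat_lit 342) (nat_lit 340) (nat_lit 338))))) (XT.nd (nat_lit 234) (nat_lit 608) (nat_lit 0) (XT.nd (nat_lit 78) (nat_lit 228) (nat_lit 0) (XT.lf (nat_lit 0) (nat_lit 2504268283) (nat_lit 152) (nat_lit 2918202808) (nat_lit 76) (nat_lit 1103009794) (nat_lit 85) (nat_lit 5) (nat_lit 87) (nat_lit 5) (nat_lit 86) (nat_lit 4) (nat_lit 343) (nat_lit 340) (nat_lit 337)) (XT.nd (nat_lit 78) (nat_lit 76) (nat_lit 0) (XT.lf (nat_lit 0) (nat_lit 668755847) (nat_lit 152) (nat_lit 4674422968) (nat_lit 228) (nat_lit 1251208777) (nat_lit 83) (nat_lit 5) (nat_lit 85) (nat_lit 5) (nat_lit 86) (nat_lit 4) (nat_lit 344) (nat_lit 340) (nat_lit 336)) (XT.lf (nat_lit 0) (nat_lit 1472381168) (nat_lit 228) (nat_lit 2186855315) (nat_lit 76) (nat_lit 3021048321) (nat_lit 82) (nat_lit 5) (nat_lit 85) (nat_lit 5) (nat_lit 83) (nat_lit 5) (nat_lit 345)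 (nat_lit 340) (nat_lit 335)))) (XT.nd (nat_lit 78) (nat_lit 380) (nat_lit 0) (XT.lf (nat_lit 0) (nat_lit 1729938208) (nat_lit 228) (nat_lit 2414581240) (nat_lit 304) (nat_lit 2642398061) (nat_lit 79) (nat_lit 5) (nat_lit 82) (nat_lit 5) (nat_lit 83) (nat_lit 5) (nat_lit 346) (nat_lit 340) (nat_lit 334)) (XT.nd (nat_lit 78) (nat_lit 380) (nat_lit 0) (XT.lf (nat_lit 0) (nat_lit 5913752542) (nat_lit 228) (nat_lit 947043120) (nat_lit 304) (nat_lit 55156132) (nat_lit 79) (nat_lit 5) (nat_lit 82) (nat_lit 5) (nat_lit 83) (nat_lit 5) (nat_lit 347) (nat_lit 340) (nat_lit 333)) (XT.lf (nat_lit 0) (nat_lit 2483641992) (nat_lit 380) (nat_lit 3774965738) (nat_lit 76) (nat_lit 801160922) (nat_lit 74) (nat_lit 5) (nat_lit 79) (nat_lit 5) (nat_lit 75) (nat_lit 5) (nat_lit 348) (nat_lit 340) (nat_lit 332))))))))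
noncomputable def xc94 : XT := (XT.nd (nat_lit 1560) (nat_lit 1292) (nat_lit 0) (XT.nd (nat_lit 780) (nat_lit 1292) (nat_lit 0) (XT.nd (nat_lit 390) (nat_lit 684) (nat_lit 0) (XT.nd (nat_lit 156) (nat_lit 912) (nat_lit 0) (XT.nd (nat_lit 78) (nat_lit 76) (nat_lit 0) (XT.lf (nat_lit 0) (nat_lit 577832758) (nat_lit 380) (nat_lit 4506285940) (nat_lit 456) (nat_lit 2142171583) (nat_lit 69) (nat_lit 5) (nat_lit 74) (nat_lit 5) (nat_lit 75) (nat_lit 5) (nat_lit 349) (nat_lit 340) (nat_lit 331)) (XT.lf (nat_lit 0) (nat_lit 368646060) (nat_lit 456) (nat_lit 2107976647) (nat_lit 76) (nat_lit 4936260668) (nat_lit 68) (nat_lit 5) (nat_lit 74) (nat_lit 5) (nat_lit 69) (nat_lit 5) (nat_lit 350) (nat_lit 340) (nat_lit 330))) (XT.nd (nat_lit 78) (nat_lit 456) (nat_lit 0) (XT.lf (nat_lit 0) (nat_lit 2699922467) (nat_lit 456) (nat_lit 144965935) (nat_lit 532) (nat_lit 4774830124) (nat_lit 62) (nat_lit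 5) (nat_lit 68) (nat_lit 5) (nat_lit 69) (nat_lit 5) (nat_lit 351) (nat_lit 340) (nat_lit 329)) (XT.nd (nat_lit 78) (nat_lit 456) (nat_lit 0) (XT.lf (nat_lit 0) (nat_lit 5460469965) (nat_lit 532) (nat_lit 69814336) (nat_lit 76) (nat_lit 2317692232) (nat_lit 62) (nat_lit 5) (nat_lit 69) (nat_lit 5) (nat_lit 63) (nat_lit 5) (nat_lit 352) (nat_lit 340) (nat_lit 328)) (XT.lf (nat_lit 0) (nat_lit 148439634) (nat_lit 456) (nat_lit 2845015481) (nat_lit 76) (nat_lit 5103448675) (nat_lit 56) (nat_lit 5) (nat_lit 62) (nat_lit 5) (nat_lit 57) (nat_lit 5) (nat_lit 353) (nat_lit 340) (nat_lit 327))))) (XT.nd (nat_lit 156) (nat_lit 456) (nat_lit 0) (XT.nd (nat_lit 78) (nat_lit 0) (nat_lit 0) (XT.lf (nat_lit 0) (nat_lit 2526522476) (nat_lit 228) (nat_lit 136304590) (nat_lit 304) (nat_lit 5705731980) (nat_lit 53) (nat_lit 5) (nat_lit 56) (nat_lit 5) (nat_lit 57) (nat_lit 5) (nat_lit 354) (nat_lit 340)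 (nat_lit 326)) (XT.lf (nat_lit 0) (nat_lit 5378047982) (nat_lit 304) (nat_lit 421840380) (nat_lit 76) (nat_lit 2862212562) (nat_lit 53) (nat_lit 5) (nat_lit 57) (nat_lit 5) (nat_lit 54) (nat_lit 5) (nat_lit 355) (nat_lit 340) (nat_lit 325))) (XT.nd (nat_lit 78) (nat_lit 228) (nat_lit 0) (XT.lf (nat_lit 0) (nat_lit 5536164470) (nat_lit 228) (nat_lit 2771137637) (nat_lit 304) (nat_lit 672198063) (nat_lit 50) (nat_lit 5) (nat_lit 53) (nat_lit 5) (nat_lit 54) (nat_lit 5) (nat_lit 356) (nat_lit 340) (nat_lit 324)) (XT.nd (nat_lit 78) (nat_lit 0) (nat_lit 0) (XT.lf (nat_lit 0) (nat_lit 1992351446) (nat_lit 228) (nat_lit 6759566855) (nat_lit 76) (nat_lit 570243126) (nat_lit 47) (nat_lit 5) (nat_lit 50) (nat_lit 5) (nat_lit 48) (nat_lit 5) (nat_lit 357) (nat_lit 340) (nat_lit 323)) (XT.lf (nat_lit 0) (nat_lit 4870496828) (nat_lit 228) (nat_lit 709324968) (nat_lit 76) (nat_lit 4108171839) (nat_lit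 47) (nat_lit 5) (nat_lit 50) (nat_lit 5) (nat_lit 48) (nat_lit 5) (nat_lit 358) (nat_lit 340) (nat_lit 322)))))) (XT.nd (nat_lit 390) (nat_lit 532) (nat_lit 0) (XT.nd (nat_lit 156) (nat_lit 304) (nat_lit 0) (XT.nd (nat_lit 78) (nat_lit 228) (nat_lit 0) (XT.lf (nat_lit 0) (nat_lit 5958599072) (nat_lit 228) (nat_lit 2041541990) (nat_lit 304) (nat_lit 2081339240) (nat_lit 44) (nat_lit 5) (nat_lit 47) (nat_lit 5) (nat_lit 48) (nat_lit 5) (nat_lit 359) (nat_lit 340) (nat_lit 321)) (XT.lf (nat_lit 0) (nat_lit 837787653) (nat_lit 228) (nat_lit 7912890479) (nat_lit 76) (nat_lit 1753539241) (nat_lit 41) (nat_lit 5) (nat_lit 44) (nat_lit 5) (nat_lit 42) (nat_lit 5) (nat_lit 360) (nat_lit 340) (nat_lit 320))) (XT.nd (nat_lit 78) (nat_lit 304) (nat_lit 0) (XT.lf (nat_lit 0) (nat_lit 3930538469) (nat_lit 228) (nat_lit 1155179300) (nat_lit 76) (nat_lit 5866597154) (nat_lit 41) (nat_lit 5) (nat_lit 44)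 (nat_lit 5) (nat_lit 42) (nat_lit 5) (nat_lit 361) (nat_lit 340) (nat_lit 319)) (XT.nd (nat_lit 78) (nat_lit 152) (nat_lit 0) (XT.lf (nat_lit 0) (nat_lit 6300402042) (nat_lit 152) (nat_lit 1014293457) (nat_lit 228) (nat_lit 4118110319) (nat_lit 39) (nat_lit 5) (nat_lit 41) (nat_lit 5) (nat_lit 42) (nat_lit 5) (nat_lit 362) (nat_lit 340) (nat_lit 318)) (XT.lf (nat_lit 0) (nat_lit 2342917047) (nat_lit 152) (nat_lit 8692285118) (nat_lit 228) (nat_lit 911344113) (nat_lit 37) (nat_lit 5) (nat_lit 39) (nat_lit 5) (nat_lit 40) (nat_lit 4) (nat_lit 363) (nat_lit 340) (nat_lit 317))))) (XT.nd (nat_lit 156) (nat_lit 304) (nat_lit 0) (XT.nd (nat_lit 78) (nat_lit 152) (nat_lit 0) (XT.lf (nat_lit 0) (nat_lit 2491432425) (nat_lit 228) (nat_lit 2035809189) (nat_lit 76) (nat_lit 7963915239) (nat_lit 36) (nat_lit 5) (nat_lit 39) (nat_lit 5) (nat_lit 37) (nat_lit 5) (nat_lit 364) (nat_lit 340) (nat_lit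 316)) (XT.lf (nat_lit 0) (nat_lit 6175138834) (nat_lit 228) (nat_lit 6798190619) (nat_lit 76) (nat_lit 99524961) (nat_lit 34) (nat_lit 5) (nat_lit 37) (nat_lit 5) (nat_lit 35) (nat_lit 4) (nat_lit 365) (nat_lit 340) (nat_lit 315))) (XT.nd (nat_lit 78) (nat_lit 228) (nat_lit 0) (XT.lf (nat_lit 0) (nat_lit 1470983005) (nat_lit 76) (nat_lit 8799327058) (nat_lit 152) (nat_lit 3421480102) (nat_lit 33) (nat_lit 5) (nat_lit 34) (nat_lit 5) (nat_lit 35) (nat_lit 4) (nat_lit 366) (nat_lit 340) (nat_lit 314)) (XT.nd (nat_lit 78) (nat_lit 152) (nat_lit 0) (XT.lf (nat_lit 0) (nat_lit 414555051) (nat_lit 152) (nat_lit 3723612638) (nat_lit 76) (nat_lit 10213602147) (nat_lit 32) (nat_lit 5) (nat_lit 34) (nat_lit 5) (nat_lit 33) (nat_lit 5) (nat_lit 367) (nat_lit 340) (nat_lit 313)) (XT.lf (nat_lit 0) (nat_lit 4445242289) (nat_lit 228) (nat_lit 9582513674) (nat_lit 76) (nat_lit 1023907713) (nat_lit 30)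 (nat_lit 5) (nat_lit 33) (nat_lit 5) (nat_lit 31) (nat_lit 4) (nat_lit 368) (nat_lit 340) (nat_lit 312))))))) (XT.nd (nat_lit 780) (nat_lit 608) (nat_lit 0) (XT.nd (nat_lit 390) (nat_lit 304) (nat_lit 0) (XT.nd (nat_lit 156) (nat_lit 304) (nat_lit 0) (XT.nd (nat_lit 78) (nat_lit 76) (nat_lit 0) (XT.lf (nat_lit 0) (nat_lit 8926459505) (nat_lit 228) (nat_lit 444444454) (nat_lit 76) (nat_lit 6426431298) (nat_lit 30) (nat_lit 5) (nat_lit 33) (nat_lit 5) (nat_lit 31) (nat_lit 4) (nat_lit 369) (nat_lit 340) (nat_lit 311)) (XT.lf (nat_lit 0) (nat_lit 9780592804) (nat_lit 76) (nat_lit 4143152504) (nat_lit 152) (nat_lit 2666339404) (nat_lit 29) (nat_lit 5) (nat_lit 30) (nat_lit 5) (nat_lit 31) (nat_lit 4) (nat_lit 370) (nat_lit 340) (nat_lit 310))) (XT.nd (nat_lit 78) (nat_lit 76) (nat_lit 0) (XT.lf (nat_lit 0) (nat_lit 1836264038) (nat_lit 228) (nat_lit 14085730645) (nat_lit 76) (nat_lit 1516240188)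 (nat_lit 26) (nat_lit 5) (nat_lit 29) (nat_lit 5) (nat_lit 27) (nat_lit 4) (nat_lit 371) (nat_lit 340) (nat_lit 309)) (XT.nd (nat_lit 78) (nat_lit 76) (nat_lit 0) (XT.lf (nat_lit 0) (nat_lit 6777866709) (nat_lit 228) (nat_lit 3941606552) (nat_lit 76) (nat_lit 7611419627) (nat_lit 26) (nat_lit 5) (nat_lit 29) (nat_lit 5) (nat_lit 27) (nat_lit 4) (nat_lit 372) (nat_lit 340) (nat_lit 308)) (XT.lf (nat_lit 0) (nat_lit 7251539363) (nat_lit 76) (nat_lit 4967480769) (nat_lit 152) (nat_lit 7067627547) (nat_lit 25) (nat_lit 5) (nat_lit 26) (nat_lit 5) (nat_lit 27) (nat_lit 4) (nat_lit 373) (nat_lit 340) (nat_lit 307))))) (XT.nd (nat_lit 156) (nat_lit 152) (nat_lit 0) (XT.nd (nat_lit 78) (nat_lit 152) (nat_lit 0) (XT.lf (nat_lit 0) (nat_lit 18166751998) (nat_lit 152) (nat_lit 904914203) (nat_lit 0) (nat_lit 1241514070) (nat_lit 25) (nat_lit 5) (nat_lit 27) (nat_lit 4) (nat_lit 25) (nat_lit 4) (nat_lit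 374) (nat_lit 340) (nat_lit 306)) (XT.lf (nat_lit 0) (nat_lit 3358902928) (nat_lit 152) (nat_lit 10037514802) (nat_lit 76) (nat_lit 7991424175) (nat_lit 23) (nat_lit 5) (nat_lit 25) (nat_lit 5) (nat_lit 24) (nat_lit 4) (nat_lit 375) (nat_lit 340) (nat_lit 305))) (XT.nd (nat_lit 78) (nat_lit 76) (nat_lit 0) (XT.lf (nat_lit 0) (nat_lit 2018219482) (nat_lit 76) (nat_lit 7180688785) (nat_lit 152) (nat_lit 13344307375) (nat_lit 22) (nat_lit 5) (nat_lit 23) (nat_lit 5) (nat_lit 24) (nat_lit 4) (nat_lit 376) (nat_lit 340) (nat_lit 304)) (XT.nd (nat_lit 78) (nat_lit 76) (nat_lit 0) (XT.lf (nat_lit 0) (nat_lit 15494924617) (nat_lit 76) (nat_lit 223890331) (nat_lit 152) (nat_lit 8055203188) (nat_lit 22) (nat_lit 5) (nat_lit 23) (nat_lit 5) (nat_lit 24) (nat_lit 4) (nat_lit 377) (nat_lit 340) (nat_lit 303)) (XT.lf (nat_lit 0) (nat_lit 4907379178) (nat_lit 76) (nat_lit 18087929007) (nat_lit 76) (nat_lit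 2089190946) (nat_lit 21) (nat_lit 4) (nat_lit 22) (nat_lit 5) (nat_lit 22) (nat_lit 4) (nat_lit 378) (nat_lit 340) (nat_lit 302)))))) (XT.nd (nat_lit 390) (nat_lit 304) (nat_lit 0) (XT.nd (nat_lit 156) (nat_lit 152) (nat_lit 0) (XT.nd (nat_lit 78) (nat_lit 76) (nat_lit 0) (XT.lf (nat_lit 0) (nat_lit 4316290536) (nat_lit 152) (nat_lit 7088091939) (nat_lit 76) (nat_lit 15072670833) (nat_lit 20) (nat_lit 5) (nat_lit 22) (nat_lit 5) (nat_lit 21) (nat_lit 4) (nat_lit 379) (nat_lit 340) (nat_lit 301)) (XT.lf (nat_lit 0) (nat_lit 7255268173) (nat_lit 76) (nat_lit 3986800103) (nat_lit 152) (nat_lit 16724955076) (nat_lit 19) (nat_lit 5) (nat_lit 20) (nat_lit 5) (nat_lit 21) (nat_lit 4) (nat_lit 380) (nat_lit 340) (nat_lit 300))) (XT.nd (nat_lit 78) (nat_lit 152) (nat_lit 0) (XT.lf (nat_lit 0) (nat_lit 18964243648) (nat_lit 152) (nat_lit 6615252733) (nat_lit 0) (nat_lit 3977317947) (nat_lit 19)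 (nat_lit 5) (nat_lit 21) (nat_lit 4) (nat_lit 19) (nat_lit 4) (nat_lit 381) (nat_lit 340) (nat_lit 299)) (XT.nd (nat_lit 78) (nat_lit 76) (nat_lit 0) (XT.lf (nat_lit 0) (nat_lit 8853924578) (nat_lit 76) (nat_lit 18717424360) (nat_lit 76) (nat_lit 3681076579) (nat_lit 18) (nat_lit 4) (nat_lit 19) (nat_lit 5) (nat_lit 19) (nat_lit 4) (nat_lit 382) (nat_lit 340) (nat_lit 298)) (XT.lf (nat_lit 0) (nat_lit 3730504756) (nat_lit 152) (nat_lit 7322659071) (nat_lit 76) (nat_lit 22012336651) (nat_lit 17) (nat_lit 5) (nat_lit 19) (nat_lit 5) (nat_lit 18) (nat_lit 4) (nat_lit 383) (nat_lit 340) (nat_lit 297))))) (XT.nd (nat_lit 234) (nat_lit 152) (nat_lit 0) (XT.nd (nat_lit 78) (nat_lit 76) (nat_lit 0) (XT.lf (nat_lit 0) (nat_lit 9238169041) (nat_lit 76) (nat_lit 2474643206) (nat_lit 152) (nat_lit 23289033795) (nat_lit 16) (nat_lit 5) (nat_lit 17) (nat_lit 5) (nat_lit 18) (nat_lit 4) (nat_lit 384)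 (nat_lit 340) (nat_lit 296)) (XT.nd (nat_lit 78) (nat_lit 76) (nat_lit 0) (XT.lf (nat_lit 0) (nat_lit 20657244460) (nat_lit 152) (nat_lit 9793209292) (nat_lit 0) (nat_lit 6616769205) (nat_lit 16) (nat_lit 5) (nat_lit 18) (nat_lit 4) (nat_lit 16) (nat_lit 4) (nat_lit 385) (nat_lit 340) (nat_lit 295)) (XT.lf (nat_lit 0) (nat_lit 7694089608) (nat_lit 76) (nat_lit 22830629443) (nat_lit 76) (nat_lit 8756518352) (nat_lit 15) (nat_lit 4) (nat_lit 16) (nat_lit 5) (nat_lit 16) (nat_lit 4) (nat_lit 386) (nat_lit 340) (nat_lit 294)))) (XT.nd (nat_lit 78) (nat_lit 152) (nat_lit 0) (XT.lf (nat_lit 0) (nat_lit 27057962857) (nat_lit 76) (nat_lit 14350750847) (nat_lit 76) (nat_lit 245495462) (nat_lit 15) (nat_lit 4) (nat_lit 16) (nat_lit 5) (nat_lit 16) (nat_lit 4) (nat_lit 387) (nat_lit 340) (nat_lit 293)) (XT.nd (nat_lit 78) (nat_lit 0) (nat_lit 0) (XT.lf (nat_lit 0) (nat_lit 3645616335) (nat_lit 76)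 (nat_lit 4902320698) (nat_lit 152) (nat_lit 35647948741) (nat_lit 13) (nat_lit 5) (nat_lit 14) (nat_lit 5) (nat_lit 15) (nat_lit 4) (nat_lit 388) (nat_lit 340) (nat_lit 292)) (XT.lf (nat_lit 0) (nat_lit 18530155480) (nat_lit 152) (nat_lit 22952040387) (nat_lit 0) (nat_lit 5418309270) (nat_lit 13) (nat_lit 5) (nat_lit 15) (nat_lit 4) (nat_lit 13) (nat_lit 4) (nat_lit 389) (nat_lit 340) (nat_lit 291))))))))
noncomputable def xc95 : XT := (XT.nd (nat_lit 1638) (nat_lit 228) (nat_lit 0) (XT.nd (nat_lit 780) (nat_lit 228) (nat_lit 0) (XT.nd (nat_lit 390) (nat_lit 228) (nat_lit 0) (XT.nd (nat_lit 156) (nat_lit 152) (nat_lit 0) (XT.nd (nat_lit 78) (nat_lit 76) (nat_lit 0) (XT.lf (nat_lit 0) (nat_lit 29402736722) (nat_lit 152) (nat_lit 4143420333) (nat_lit 0) (nat_lit 16267998526) (nat_lit 13) (nat_lit 5) (nat_lit 15) (nat_lit 4) (nat_lit 13) (nat_lit 4) (nat_lit 390) (nat_lit 340) (nat_lit 290))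 (XT.lf (nat_lit 0) (nat_lit 16953008276) (nat_lit 76) (nat_lit 24566921920) (nat_lit 76) (nat_lit 11410987441) (nat_lit 12) (nat_lit 4) (nat_lit 13) (nat_lit 5) (nat_lit 13) (nat_lit 4) (nat_lit 391) (nat_lit 340) (nat_lit 289))) (XT.nd (nat_lit 78) (nat_lit 152) (nat_lit 0) (XT.lf (nat_lit 0) (nat_lit 39909496009) (nat_lit 76) (nat_lit 14778292934) (nat_lit 76) (nat_lit 1602732268) (nat_lit 12) (nat_lit 4) (nat_lit 13) (nat_lit 5) (nat_lit 13) (nat_lit 4) (nat_lit 392) (nat_lit 340) (nat_lit 288)) (XT.nd (nat_lit 78) (nat_lit 0) (nat_lit 0) (XT.lf (nat_lit 0) (nat_lit 4744525229) (nat_lit 76) (nat_lit 3879637410) (nat_lit 152) (nat_lit 51270740128) (nat_lit 10) (nat_lit 5) (nat_lit 11) (nat_lit 5) (nat_lit 12) (nat_lit 4) (nat_lit 393) (nat_lit 340) (nat_lit 287)) (XT.lf (nat_lit 0) (nat_lit 20201655044) (nat_lit 152) (nat_lit 35563473970) (nat_lit 0) (nat_lit 7969655641) (nat_lit 10)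 (nat_lit 5) (nat_lit 12) (nat_lit 4) (nat_lit 10) (nat_lit 4) (nat_lit 394) (nat_lit 340) (nat_lit 286))))) (XT.nd (nat_lit 156) (nat_lit 152) (nat_lit 0) (XT.nd (nat_lit 78) (nat_lit 76) (nat_lit 0) (XT.lf (nat_lit 0) (nat_lit 32778097030) (nat_lit 152) (nat_lit 14566271002) (nat_lit 0) (nat_lit 20531671793) (nat_lit 10) (nat_lit 5) (nat_lit 12) (nat_lit 4) (nat_lit 10) (nat_lit 4) (nat_lit 395) (nat_lit 340) (nat_lit 285)) (XT.lf (nat_lit 0) (nat_lit 8483335402) (nat_lit 76) (nat_lit 38055399307) (nat_lit 76) (nat_lit 25795616816) (nat_lit 9) (nat_lit 4) (nat_lit 10) (nat_lit 5) (nat_lit 10) (nat_lit 4) (nat_lit 396) (nat_lit 340) (nat_lit 284))) (XT.nd (nat_lit 78) (nat_lit 152) (nat_lit 0) (XT.lf (nat_lit 0) (nat_lit 34154873428) (nat_lit 76) (nat_lit 27618382406) (nat_lit 76) (nat_lit 15346232087) (nat_lit 9) (nat_lit 4) (nat_lit 10) (nat_lit 5) (nat_lit 10) (nat_lit 4) (nat_lit 397)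 (nat_lit 340) (nat_lit 283)) (XT.nd (nat_lit 78) (nat_lit 152) (nat_lit 0) (XT.lf (nat_lit 0) (nat_lit 61833436689) (nat_lit 76) (nat_lit 16369736003) (nat_lit 76) (nat_lit 4086133992) (nat_lit 9) (nat_lit 4) (nat_lit 10) (nat_lit 5) (nat_lit 10) (nat_lit 4) (nat_lit 398) (nat_lit 340) (nat_lit 282)) (XT.lf (nat_lit 0) (nat_lit 3805323768) (nat_lit 76) (nat_lit 3934834499) (nat_lit 152) (nat_lit 80111473144) (nat_lit 7) (nat_lit 5) (nat_lit 8) (nat_lit 5) (nat_lit 9) (nat_lit 4) (nat_lit 399) (nat_lit 340) (nat_lit 281)))))) (XT.nd (nat_lit 390) (nat_lit 152) (nat_lit 0) (XT.nd (nat_lit 156) (nat_lit 76) (nat_lit 0) (XT.nd (nat_lit 78) (nat_lit 0) (nat_lit 0) (XT.lf (nat_lit 0) (nat_lit 21071857845) (nat_lit 152) (nat_lit 63036946854) (nat_lit 0) (nat_lit 9679243577) (nat_lit 7) (nat_lit 5) (nat_lit 9) (nat_lit 4) (nat_lit 7) (nat_lit 4) (nat_lit 400) (nat_lit 340) (nat_lit 280)) (XT.lf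 (nat_lit 0) (nat_lit 35551817911) (nat_lit 152) (nat_lit 40490237912) (nat_lit 0) (nat_lit 24150786307) (nat_lit 7) (nat_lit 5) (nat_lit 9) (nat_lit 4) (nat_lit 7) (nat_lit 4) (nat_lit 401) (nat_lit 340) (nat_lit 279))) (XT.nd (nat_lit 78) (nat_lit 76) (nat_lit 0) (XT.lf (nat_lit 0) (nat_lit 51171212772) (nat_lit 152) (nat_lit 16177937825) (nat_lit 0) (nat_lit 39762387339) (nat_lit 7) (nat_lit 5) (nat_lit 9) (nat_lit 4) (nat_lit 7) (nat_lit 4) (nat_lit 402) (nat_lit 340) (nat_lit 278)) (XT.nd (nat_lit 78) (nat_lit 0) (nat_lit 0) (XT.lf (nat_lit 0) (nat_lit 10572926918) (nat_lit 76) (nat_lit 57703954034) (nat_lit 76) (nat_lit 46287912092) (nat_lit 6) (nat_lit 4) (nat_lit 7) (nat_lit 5) (nat_lit 7) (nat_lit 4) (nat_lit 403) (nat_lit 340) (nat_lit 277)) (XT.lf (nat_lit 0) (nat_lit 40349488704) (nat_lit 76) (nat_lit 46826762563) (nat_lit 76) (nat_lit 35404038669) (nat_lit 6) (nat_lit 4) (nat_lit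 7) (nat_lit 5) (nat_lit 7) (nat_lit 4) (nat_lit 404) (nat_lit 340) (nat_lit 276))))) (XT.nd (nat_lit 234) (nat_lit 76) (nat_lit 0) (XT.nd (nat_lit 78) (nat_lit 76) (nat_lit 0) (XT.lf (nat_lit 0) (nat_lit 72476299695) (nat_lit 76) (nat_lit 35095452246) (nat_lit 76) (nat_lit 23666541359) (nat_lit 6) (nat_lit 4) (nat_lit 7) (nat_lit 5) (nat_lit 7) (nat_lit 4) (nat_lit 405) (nat_lit 340) (nat_lit 275)) (XT.nd (nat_lit 78) (nat_lit 76) (nat_lit 0) (XT.lf (nat_lit 0) (nat_lit 107143740993) (nat_lit 76) (nat_lit 22440504206) (nat_lit 76) (nat_lit 11005864621) (nat_lit 6) (nat_lit 4) (nat_lit 7) (nat_lit 5) (nat_lit 7) (nat_lit 4) (nat_lit 406) (nat_lit 340) (nat_lit 274)) (XT.lf (nat_lit 0) (nat_lit 2520303081) (nat_lit 152) (nat_lit 6197713525) (nat_lit 76) (nat_lit 141968036654) (nat_lit 5) (nat_lit 5) (nat_lit 7) (nat_lit 5) (nat_lit 6) (nat_lit 4) (nat_lit 407) (nat_lit 340) (nat_lit 273))))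 (XT.nd (nat_lit 78) (nat_lit 0) (nat_lit 0) (XT.lf (nat_lit 0) (nat_lit 17270244854) (nat_lit 152) (nat_lit 137564499647) (nat_lit 0) (nat_lit 6673156551) (nat_lit 4) (nat_lit 5) (nat_lit 6) (nat_lit 4) (nat_lit 4) (nat_lit 4) (nat_lit 408) (nat_lit 340) (nat_lit 272)) (XT.nd (nat_lit 78) (nat_lit 0) (nat_lit 0) (XT.lf (nat_lit 0) (nat_lit 33587634842) (nat_lit 152) (nat_lit 116590530624) (nat_lit 0) (nat_lit 22986335775) (nat_lit 4) (nat_lit 5) (nat_lit 6) (nat_lit 4) (nat_lit 4) (nat_lit 4) (nat_lit 409) (nat_lit 340) (nat_lit 271)) (XT.lf (nat_lit 0) (nat_lit 51198520606) (nat_lit 152) (nat_lit 93962738530) (nat_lit 0) (nat_lit 40593322684) (nat_lit 4) (nat_lit 5) (nat_lit 6) (nat_lit 4) (nat_lit 4) (nat_lit 4) (nat_lit 410) (nat_lit 340) (nat_lit 270))))))) (XT.nd (nat_lit 780) (nat_lit 152) (nat_lit 0) (XT.nd (nat_lit 390) (nat_lit 0) (nat_lit 0) (XT.nd (nat_lit 156) (nat_lit 76)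 (nat_lit 0) (XT.nd (nat_lit 78) (nat_lit 0) (nat_lit 0) (XT.lf (nat_lit 0) (nat_lit 70207262952) (nat_lit 152) (nat_lit 69547032745) (nat_lit 0) (nat_lit 59598454978) (nat_lit 4) (nat_lit 5) (nat_lit 6) (nat_lit 4) (nat_lit 4) (nat_lit 4) (nat_lit 411) (nat_lit 340) (nat_lit 269)) (XT.lf (nat_lit 0) (nat_lit 90726506278) (nat_lit 152) (nat_lit 43198727606) (nat_lit 0) (nat_lit 80114355665) (nat_lit 4) (nat_lit 5) (nat_lit 6) (nat_lit 4) (nat_lit 4) (nat_lit 4) (nat_lit 412) (nat_lit 340) (nat_lit 268))) (XT.nd (nat_lit 78) (nat_lit 76) (nat_lit 0) (XT.lf (nat_lit 0) (nat_lit 112877846101) (nat_lit 152) (nat_lit 14761685007) (nat_lit 0) (nat_lit 102262600451) (nat_lit 4) (nat_lit 5) (nat_lit 6) (nat_lit 4) (nat_lit 4) (nat_lit 4) (nat_lit 413) (nat_lit 340) (nat_lit 267)) (XT.nd (nat_lit 78) (nat_lit 0) (nat_lit 0) (XT.lf (nat_lit 0) (nat_lit 16771593911) (nat_lit 76) (nat_lit 120424312944)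 (nat_lit 76) (nat_lit 109806201519) (nat_lit 3) (nat_lit 4) (nat_lit 4) (nat_lit 5) (nat_lit 4) (nat_lit 4) (nat_lit 414) (nat_lit 340) (nat_lit 266)) (XT.lf (nat_lit 0) (nat_lit 51649783467) (nat_lit 76) (nat_lit 112204728661) (nat_lit 76) (nat_lit 101583963741) (nat_lit 3) (nat_lit 4) (nat_lit 4) (nat_lit 5) (nat_lit 4) (nat_lit 4) (nat_lit 415) (nat_lit 340) (nat_lit 265))))) (XT.nd (nat_lit 156) (nat_lit 0) (nat_lit 0) (XT.nd (nat_lit 78) (nat_lit 0) (nat_lit 0) (XT.lf (nat_lit 0) (nat_lit 89302245056) (nat_lit 76) (nat_lit 103335680238) (nat_lit 76) (nat_lit 92712458378) (nat_lit 3) (nat_lit 4) (nat_lit 4) (nat_lit 5) (nat_lit 4) (nat_lit 4) (nat_lit 416) (nat_lit 340) (nat_lit 264)) (XT.lf (nat_lit 0) (nat_lit 129952104375) (nat_lit 76) (nat_lit 93764610352) (nat_lit 76) (nat_lit 83139113548) (nat_lit 3) (nat_lit 4) (nat_lit 4) (nat_lit 5) (nat_lit 4) (nat_lit 4) (nat_lit 417) (nat_lit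 340) (nat_lit 263))) (XT.nd (nat_lit 78) (nat_lit 0) (nat_lit 0) (XT.lf (nat_lit 0) (nat_lit 173840249480) (nat_lit 76) (nat_lit 83434801553) (nat_lit 76) (nat_lit 72807198318) (nat_lit 3) (nat_lit 4) (nat_lit 4) (nat_lit 5) (nat_lit 4) (nat_lit 4) (nat_lit 418) (nat_lit 340) (nat_lit 262)) (XT.nd (nat_lit 78) (nat_lit 0) (nat_lit 0) (XT.lf (nat_lit 0) (nat_lit 221226758269) (nat_lit 76) (nat_lit 72285040157) (nat_lit 76) (nat_lit 61655486524) (nat_lit 3) (nat_lit 4) (nat_lit 4) (nat_lit 5) (nat_lit 4) (nat_lit 4) (nat_lit 419) (nat_lit 340) (nat_lit 261)) (XT.lf (nat_lit 0) (nat_lit 272392439681) (nat_lit 76) (nat_lit 60249253505) (nat_lit 76) (nat_lit 49617893948) (nat_lit 3) (nat_lit 4) (nat_lit 4) (nat_lit 5) (nat_lit 4) (nat_lit 4) (nat_lit 420) (nat_lit 340) (nat_lit 260)))))) (XT.nd (nat_lit 390) (nat_lit 0) (nat_lit 0) (XT.nd (nat_lit 156) (nat_lit 152) (nat_lit 0) (XT.nd (nat_lit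 78) (nat_lit 0) (nat_lit 0) (XT.lf (nat_lit 0) (nat_lit 327640497755) (nat_lit 76) (nat_lit 47256118416) (nat_lit 76) (nat_lit 36623086707) (nat_lit 3) (nat_lit 4) (nat_lit 4) (nat_lit 5) (nat_lit 4) (nat_lit 4) (nat_lit 421) (nat_lit 340) (nat_lit 259)) (XT.lf (nat_lit 0) (nat_lit 387298328390) (nat_lit 76) (nat_lit 33228638536) (nat_lit 76) (nat_lit 22594058538) (nat_lit 3) (nat_lit 4) (nat_lit 4) (nat_lit 5) (nat_lit 4) (nat_lit 4) (nat_lit 422) (nat_lit 340) (nat_lit 258))) (XT.nd (nat_lit 78) (nat_lit 152) (nat_lit 0) (XT.lf (nat_lit 0) (nat_lit 451719459472) (nat_lit 76) (nat_lit 18083688056) (nat_lit 76) (nat_lit 7447674457) (nat_lit 3) (nat_lit 4) (nat_lit 4) (nat_lit 5) (nat_lit 4) (nat_lit 4) (nat_lit 423) (nat_lit 340) (nat_lit 257)) (XT.nd (nat_lit 78) (nat_lit 0) (nat_lit 0) (XT.lf (nat_lit 0) (nat_lit 7326624984) (nat_lit 76) (nat_lit 1309897126) (nat_lit 152) (nat_lit 505443589721)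 (nat_lit 1) (nat_lit 5) (nat_lit 2) (nat_lit 5) (nat_lit 3) (nat_lit 4) (nat_lit 424) (nat_lit 340) (nat_lit 256)) (XT.lf (nat_lit 0) (nat_lit 26721112617) (nat_lit 152) (nat_lit 510159289933) (nat_lit 0) (nat_lit 16870584757) (nat_lit 1) (nat_lit 5) (nat_lit 3) (nat_lit 4) (nat_lit 1) (nat_lit 4) (nat_lit 425) (nat_lit 340) (nat_lit 255))))) (XT.nd (nat_lit 234) (nat_lit 0) (nat_lit 0) (XT.nd (nat_lit 78) (nat_lit 0) (nat_lit 0) (XT.lf (nat_lit 0) (nat_lit 46282458295) (nat_lit 152) (nat_lit 513879798998) (nat_lit 0) (nat_lit 36430876696) (nat_lit 1) (nat_lit 5) (nat_lit 3) (nat_lit 4) (nat_lit 1) (nat_lit 4) (nat_lit 426) (nat_lit 340) (nat_lit 254)) (XT.nd (nat_lit 78) (nat_lit 0) (nat_lit 0) (XT.lf (nat_lit 0) (nat_lit 67404975173) (nat_lit 152) (nat_lit 517905558445) (nat_lit 0) (nat_lit 57552417889) (nat_lit 1) (nat_lit 5) (nat_lit 3) (nat_lit 4) (nat_lit 1) (nat_lit 4) (nat_lit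 427) (nat_lit 340) (nat_lit 253)) (XT.lf (nat_lit 0) (nat_lit 90213833720) (nat_lit 152) (nat_lit 522260424627) (nat_lit 0) (nat_lit 80360373024) (nat_lit 1) (nat_lit 5) (nat_lit 3) (nat_lit 4) (nat_lit 1) (nat_lit 4) (nat_lit 428) (nat_lit 340) (nat_lit 252)))) (XT.nd (nat_lit 78) (nat_lit 0) (nat_lit 0) (XT.lf (nat_lit 0) (nat_lit 114844197544) (nat_lit 152) (nat_lit 526970204158) (nat_lit 0) (nat_lit 104989900356) (nat_lit 1) (nat_lit 5) (nat_lit 3) (nat_lit 4) (nat_lit 1) (nat_lit 4) (nat_lit 429) (nat_lit 340) (nat_lit 251)) (XT.nd (nat_lit 78) (nat_lit 0) (nat_lit 0) (XT.lf (nat_lit 0) (nat_lit 141442024356) (nat_lit 152) (nat_lit 532062806842) (nat_lit 0) (nat_lit 131586952637) (nat_lit 1) (nat_lit 5) (nat_lit 3) (nat_lit 4) (nat_lit 1) (nat_lit 4) (nat_lit 430) (nat_lit 340) (nat_lit 250)) (XT.lf (nat_lit 0) (nat_lit 170164930907) (nat_lit 152) (nat_lit 537568411067) (nat_lit 0)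 (nat_lit 160309142031) (nat_lit 1) (nat_lit 5) (nat_lit 3) (nat_lit 4) (nat_lit 1) (nat_lit 4) (nat_lit 431) (nat_lit 340) (nat_lit 249))))))))
noncomputable def xc96 : XT := (XT.nd (nat_lit 1560) (nat_lit 0) (nat_lit 0) (XT.nd (nat_lit 780) (nat_lit 0) (nat_lit 0) (XT.nd (nat_lit 390) (nat_lit 0) (nat_lit 0) (XT.nd (nat_lit 156) (nat_lit 0) (nat_lit 0) (XT.nd (nat_lit 78) (nat_lit 0) (nat_lit 0) (XT.lf (nat_lit 0) (nat_lit 201183127014) (nat_lit 152) (nat_lit 543519642635) (nat_lit 0) (nat_lit 191326674103) (nat_lit 1) (nat_lit 5) (nat_lit 3) (nat_lit 4) (nat_lit 1) (nat_lit 4) (nat_lit 432) (nat_lit 340) (nat_lit 248)) (XT.lf (nat_lit 0) (nat_lit 234680424209) (nat_lit 152) (nat_lit 549951768103) (nat_lit 0) (nat_lit 224823356451) (nat_lit 1) (nat_lit 5) (nat_lit 3) (nat_lit 4) (nat_lit 1) (nat_lit 4) (nat_lit 433) (nat_lit 340) (nat_lit 247))) (XT.nd (nat_lit 78) (nat_lit 0) (nat_lit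 0) (XT.lf (nat_lit 0) (nat_lit 270855324994) (nat_lit 152) (nat_lit 556902903771) (nat_lit 0) (nat_lit 260997687934) (nat_lit 1) (nat_lit 5) (nat_lit 3) (nat_lit 4) (nat_lit 1) (nat_lit 4) (nat_lit 434) (nat_lit 340) (nat_lit 246)) (XT.nd (nat_lit 78) (nat_lit 0) (nat_lit 0) (XT.lf (nat_lit 0) (nat_lit 309922199152) (nat_lit 152) (nat_lit 564414241553) (nat_lit 0) (nat_lit 300064034960) (nat_lit 1) (nat_lit 5) (nat_lit 3) (nat_lit 4) (nat_lit 1) (nat_lit 4) (nat_lit 435) (nat_lit 340) (nat_lit 245)) (XT.lf (nat_lit 0) (nat_lit 352112554085) (nat_lit 152) (nat_lit 572530293080) (nat_lit 0) (nat_lit 342253901808) (nat_lit 1) (nat_lit 5) (nat_lit 3) (nat_lit 4) (nat_lit 1) (nat_lit 4) (nat_lit 436) (nat_lit 340) (nat_lit 244))))) (XT.nd (nat_lit 156) (nat_lit 0) (nat_lit 0) (XT.nd (nat_lit 78) (nat_lit 0) (nat_lit 0) (XT.lf (nat_lit 0) (nat_lit 397676406712) (nat_lit 152) (nat_lit 581299153474)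 (nat_lit 0) (nat_lit 387817302504) (nat_lit 1) (nat_lit 5) (nat_lit 3) (nat_lit 4) (nat_lit 1) (nat_lit 4) (nat_lit 437) (nat_lit 340) (nat_lit 243)) (XT.lf (nat_lit 0) (nat_lit 446883765047) (nat_lit 152) (nat_lit 590772786351) (nat_lit 0) (nat_lit 437024242384) (nat_lit 1) (nat_lit 5) (nat_lit 3) (nat_lit 4) (nat_lit 1) (nat_lit 4) (nat_lit 438) (nat_lit 340) (nat_lit 242))) (XT.nd (nat_lit 78) (nat_lit 0) (nat_lit 0) (XT.lf (nat_lit 0) (nat_lit 500026228251) (nat_lit 152) (nat_lit 601007331757) (nat_lit 0) (nat_lit 490166318131) (nat_lit 1) (nat_lit 5) (nat_lit 3) (nat_lit 4) (nat_lit 1) (nat_lit 4) (nat_lit 439) (nat_lit 340) (nat_lit 241)) (XT.nd (nat_lit 78) (nat_lit 0) (nat_lit 0) (XT.lf (nat_lit 0) (nat_lit 557418714626) (nat_lit 152) (nat_lit 612063438851) (nat_lit 0) (nat_lit 547558445748) (nat_lit 1) (nat_lit 5) (nat_lit 3) (nat_lit 4) (nat_lit 1) (nat_lit 4) (nat_lit 440) (nat_lit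 340) (nat_lit 240)) (XT.lf (nat_lit 0) (nat_lit 619401327793) (nat_lit 152) (nat_lit 624006625305) (nat_lit 0) (nat_lit 609540726733) (nat_lit 1) (nat_lit 5) (nat_lit 3) (nat_lit 4) (nat_lit 1) (nat_lit 4) (nat_lit 441) (nat_lit 340) (nat_lit 239)))))) (XT.nd (nat_lit 390) (nat_lit 0) (nat_lit 0) (XT.nd (nat_lit 156) (nat_lit 0) (nat_lit 0) (XT.nd (nat_lit 78) (nat_lit 0) (nat_lit 0) (XT.lf (nat_lit 0) (nat_lit 686341372127) (nat_lit 152) (nat_lit 636907665556) (nat_lit 0) (nat_lit 676480463490) (nat_lit 1) (nat_lit 5) (nat_lit 3) (nat_lit 4) (nat_lit 1) (nat_lit 4) (nat_lit 442) (nat_lit 340) (nat_lit 238)) (XT.lf (nat_lit 0) (nat_lit 758635529372) (nat_lit 152) (nat_lit 650843010214) (nat_lit 0) (nat_lit 748774335942) (nat_lit 1) (nat_lit 5) (nat_lit 3) (nat_lit 4) (nat_lit 1) (nat_lit 4) (nat_lit 443) (nat_lit 340) (nat_lit 237))) (XT.nd (nat_lit 78) (nat_lit 0) (nat_lit 0) (XT.lf (nat_lit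 0) (nat_lit 836712209349) (nat_lit 152) (nat_lit 665895239099) (nat_lit 0) (nat_lit 826850752222) (nat_lit 1) (nat_lit 5) (nat_lit 3) (nat_lit 4) (nat_lit 1) (nat_lit 4) (nat_lit 444) (nat_lit 340) (nat_lit 236)) (XT.nd (nat_lit 78) (nat_lit 0) (nat_lit 0) (XT.lf (nat_lit 0) (nat_lit 921034088681) (nat_lit 152) (nat_lit 682153550603) (nat_lit 0) (nat_lit 911172387389) (nat_lit 1) (nat_lit 5) (nat_lit 3) (nat_lit 4) (nat_lit 1) (nat_lit 4) (nat_lit 445) (nat_lit 340) (nat_lit 235)) (XT.lf (nat_lit 0) (nat_lit 1012100852577) (nat_lit 152) (nat_lit 699714290278) (nat_lit 0) (nat_lit 1002238925208) (nat_lit 1) (nat_lit 5) (nat_lit 3) (nat_lit 4) (nat_lit 1) (nat_lit 4) (nat_lit 446) (nat_lit 340) (nat_lit 234))))) (XT.nd (nat_lit 156) (nat_lit 0) (nat_lit 0) (XT.nd (nat_lit 78) (nat_lit 0) (nat_lit 0) (XT.lf (nat_lit 0) (nat_lit 1110452155935) (nat_lit 152) (nat_lit 718681521764) (nat_lit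 0) (nat_lit 1100590019235) (nat_lit 1) (nat_lit 5) (nat_lit 3) (nat_lit 4) (nat_lit 1) (nat_lit 4) (nat_lit 447) (nat_lit 340) (nat_lit 233)) (XT.lf (nat_lit 0) (nat_lit 1216670821294) (nat_lit 152) (nat_lit 739167643472) (nat_lit 0) (nat_lit 1206808490768) (nat_lit 1) (nat_lit 5) (nat_lit 3) (nat_lit 4) (nat_lit 1) (nat_lit 4) (nat_lit 448) (nat_lit 340) (nat_lit 232))) (XT.nd (nat_lit 78) (nat_lit 0) (nat_lit 0) (XT.lf (nat_lit 0) (nat_lit 1331386292596) (nat_lit 152) (nat_lit 761294054641) (nat_lit 0) (nat_lit 1321523782602) (nat_lit 1) (nat_lit 5) (nat_lit 3) (nat_lit 4) (nat_lit 1) (nat_lit 4) (nat_lit 449) (nat_lit 340) (nat_lit 231)) (XT.nd (nat_lit 78) (nat_lit 0) (nat_lit 0) (XT.lf (nat_lit 0) (nat_lit 1455278365227) (nat_lit 152) (nat_lit 785191874744) (nat_lit 0) (nat_lit 1445415689059) (nat_lit 1) (nat_lit 5) (nat_lit 3) (nat_lit 4) (nat_lit 1) (nat_lit 4) (nat_lit 450) (nat_lit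 340) (nat_lit 230)) (XT.lf (nat_lit 0) (nat_lit 1589081214432) (nat_lit 152) (nat_lit 811002720493) (nat_lit 0) (nat_lit 1579218384399) (nat_lit 1) (nat_lit 5) (nat_lit 3) (nat_lit 4) (nat_lit 1) (nat_lit 4) (nat_lit 451) (nat_lit 340) (nat_lit 229))))))) (XT.nd (nat_lit 780) (nat_lit 0) (nat_lit 0) (XT.nd (nat_lit 390) (nat_lit 0) (nat_lit 0) (XT.nd (nat_lit 156) (nat_lit 0) (nat_lit 0) (XT.nd (nat_lit 78) (nat_lit 0) (nat_lit 0) (XT.lf (nat_lit 0) (nat_lit 1733587745984) (nat_lit 152) (nat_lit 838879545048) (nat_lit 0) (nat_lit 1723724773484) (nat_lit 1) (nat_lit 5) (nat_lit 3) (nat_lit 4) (nat_lit 1) (nat_lit 4) (nat_lit 452) (nat_lit 340) (nat_lit 228)) (XT.lf (nat_lit 0) (nat_lit 1889654294885) (nat_lit 152) (nat_lit 868987544407) (nat_lit 0) (nat_lit 1879791190471) (nat_lit 1) (nat_lit 5) (nat_lit 3) (nat_lit 4) (nat_lit 1) (nat_lit 4) (nat_lit 453) (nat_lit 340) (nat_lit 227)))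 (XT.nd (nat_lit 78) (nat_lit 0) (nat_lit 0) (XT.lf (nat_lit 0) (nat_lit 2058205699943) (nat_lit 152) (nat_lit 901505136344) (nat_lit 0) (nat_lit 2048342473386) (nat_lit 1) (nat_lit 5) (nat_lit 3) (nat_lit 4) (nat_lit 1) (nat_lit 4) (nat_lit 454) (nat_lit 340) (nat_lit 226)) (XT.nd (nat_lit 78) (nat_lit 0) (nat_lit 0) (XT.lf (nat_lit 0) (nat_lit 2240240784300) (nat_lit 152) (nat_lit 936625017699) (nat_lit 0) (nat_lit 2230377444648) (nat_lit 1) (nat_lit 5) (nat_lit 3) (nat_lit 4) (nat_lit 1) (nat_lit 4) (nat_lit 455) (nat_lit 340) (nat_lit 225)) (XT.lf (nat_lit 0) (nat_lit 2436838274381) (nat_lit 152) (nat_lit 974555306288) (nat_lit 0) (nat_lit 2426974830011) (nat_lit 1) (nat_lit 5) (nat_lit 3) (nat_lit 4) (nat_lit 1) (nat_lit 4) (nat_lit 456) (nat_lit 340) (nat_lit 224))))) (XT.nd (nat_lit 156) (nat_lit 0) (nat_lit 0) (XT.nd (nat_lit 78) (nat_lit 0) (nat_lit 0) (XT.lf (nat_lit 0) (nat_lit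 2649163192349) (nat_lit 152) (nat_lit 1015520774191) (nat_lit 0) (nat_lit 2639299651018) (nat_lit 1) (nat_lit 5) (nat_lit 3) (nat_lit 4) (nat_lit 1) (nat_lit 4) (nat_lit 457) (nat_lit 340) (nat_lit 223)) (XT.lf (nat_lit 0) (nat_lit 2878473759941) (nat_lit 152) (nat_lit 1059764179738) (nat_lit 0) (nat_lit 2868610128831) (nat_lit 1) (nat_lit 5) (nat_lit 3) (nat_lit 4) (nat_lit 1) (nat_lit 4) (nat_lit 458) (nat_lit 340) (nat_lit 222))) (XT.nd (nat_lit 78) (nat_lit 0) (nat_lit 0) (XT.lf (nat_lit 0) (nat_lit 3126128854594) (nat_lit 152) (nat_lit 1107547706071) (nat_lit 0) (nat_lit 3116265140356) (nat_lit 1) (nat_lit 5) (nat_lit 3) (nat_lit 4) (nat_lit 1) (nat_lit 4) (nat_lit 459) (nat_lit 340) (nat_lit 221)) (XT.nd (nat_lit 78) (nat_lit 0) (nat_lit 0) (XT.lf (nat_lit 0) (nat_lit 3393596062055) (nat_lit 152) (nat_lit 1159154514829) (nat_lit 0) (nat_lit 3383732270846) (nat_lit 1) (nat_lit 5)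 (nat_lit 3) (nat_lit 4) (nat_lit 1) (nat_lit 4) (nat_lit 460) (nat_lit 340) (nat_lit 220)) (XT.lf (nat_lit 0) (nat_lit 3682460373182) (nat_lit 152) (nat_lit 1214890424137) (nat_lit 0) (nat_lit 3672596510704) (nat_lit 1) (nat_lit 5) (nat_lit 3) (nat_lit 4) (nat_lit 1) (nat_lit 4) (nat_lit 461) (nat_lit 340) (nat_lit 219)))))) (XT.nd (nat_lit 43914) (nat_lit 0) (nat_lit 5548) (XT.nd (nat_lit 43680) (nat_lit 0) (nat_lit 6308) (XT.nd (nat_lit 78) (nat_lit 0) (nat_lit 0) (XT.lf (nat_lit 0) (nat_lit 3994433576486) (nat_lit 152) (nat_lit 1275085720866) (nat_lit 0) (nat_lit 3984569648018) (nat_lit 1) (nat_lit 5) (nat_lit 3) (nat_lit 4) (nat_lit 1) (nat_lit 4) (nat_lit 462) (nat_lit 340) (nat_lit 218)) (XT.lf (nat_lit 0) (nat_lit 4331364402060) (nat_lit 152) (nat_lit 1340097117884) (nat_lit 0) (nat_lit 4321500412490) (nat_lit 1) (nat_lit 5) (nat_lit 3) (nat_lit 4) (nat_lit 1) (nat_lit 4) (nat_lit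 463) (nat_lit 340) (nat_lit 217))) (XT.nd (nat_lit 78) (nat_lit 228) (nat_lit 0) (XT.lf (nat_lit 0) (nat_lit 1499909349) (nat_lit 0) (nat_lit 1499909349) (nat_lit 76) (nat_lit 234098620) (nat_lit 87) (nat_lit 5) (nat_lit 87) (nat_lit 3) (nat_lit 88) (nat_lit 0) (nat_lit 341) (nat_lit 341) (nat_lit 338)) (XT.nd (nat_lit 78) (nat_lit 0) (nat_lit 0) (XT.lf (nat_lit 0) (nat_lit 2245309043) (nat_lit 228) (nat_lit 291563261) (nat_lit 228) (nat_lit 3969898666) (nat_lit 84) (nat_lit 3) (nat_lit 87) (nat_lit 3) (nat_lit 87) (nat_lit 5) (nat_lit 342) (nat_lit 341) (nat_lit 337)) (XT.lf (nat_lit 76) (nat_lit 3137284399) (nat_lit 0) (nat_lit 1817850515) (nat_lit 228) (nat_lit 1608760281) (nat_lit 85) (nat_lit 5) (nat_lit 84) (nat_lit 3) (nat_lit 87) (nat_lit 5) (nat_lit 343) (nat_lit 341) (nat_lit 336))))) (XT.nd (nat_lit 234) (nat_lit 380) (nat_lit 0) (XT.nd (nat_lit 78) (nat_lit 152) (nat_lit 0)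 (XT.lf (nat_lit 76) (nat_lit 47110467) (nat_lit 0) (nat_lit 894272695) (nat_lit 304) (nat_lit 5702294535) (nat_lit 82) (nat_lit 5) (nat_lit 81) (nat_lit 5) (nat_lit 85) (nat_lit 5) (nat_lit 344) (nat_lit 341) (nat_lit 335)) (XT.nd (nat_lit 78) (nat_lit 228) (nat_lit 0) (XT.lf (nat_lit 0) (nat_lit 3463881959) (nat_lit 228) (nat_lit 2950569643) (nat_lit 76) (nat_lit 323951961) (nat_lit 82) (nat_lit 5) (nat_lit 85) (nat_lit 5) (nat_lit 83) (nat_lit 5) (nat_lit 345) (nat_lit 341) (nat_lit 334)) (XT.lf (nat_lit 0) (nat_lit 843945022) (nat_lit 228) (nat_lit 5162439895) (nat_lit 304) (nat_lit 849166559) (nat_lit 79) (nat_lit 5) (nat_lit 82) (nat_lit 5) (nat_lit 83) (nat_lit 5) (nat_lit 346) (nat_lit 341) (nat_lit 333)))) (XT.nd (nat_lit 78) (nat_lit 304) (nat_lit 0) (XT.lf (nat_lit 0) (nat_lit 1546219708) (nat_lit 304) (nat_lit 2080259600) (nat_lit 76) (nat_lit 3363278986) (nat_lit 78) (nat_lit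 5) (nat_lit 82) (nat_lit 5) (nat_lit 79) (nat_lit 5) (nat_lit 347) (nat_lit 341) (nat_lit 332)) (XT.nd (nat_lit 78) (nat_lit 0) (nat_lit 0) (XT.lf (nat_lit 0) (nat_lit 2090916828) (nat_lit 304) (nat_lit 1844680535) (nat_lit 380) (nat_lit 3209719190) (nat_lit 74) (nat_lit 5) (nat_lit 78) (nat_lit 5) (nat_lit 79) (nat_lit 5) (nat_lit 348) (nat_lit 341) (nat_lit 331)) (XT.lf (nat_lit 0) (nat_lit 6386531201) (nat_lit 380) (nat_lit 767691476) (nat_lit 76) (nat_lit 169685062) (nat_lit 74) (nat_lit 5) (nat_lit 79) (nat_lit 5) (nat_lit 75) (nat_lit 5) (nat_lit 349) (nat_lit 341) (nat_lit 330))))))))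
noncomputable def xc97 : XT := (XT.nd (nat_lit 1560) (nat_lit 1292) (nat_lit 0) (XT.nd (nat_lit 780) (nat_lit 1064) (nat_lit 0) (XT.nd (nat_lit 390) (nat_lit 684) (nat_lit 0) (XT.nd (nat_lit 156) (nat_lit 684) (nat_lit 0) (XT.nd (nat_lit 78) (nat_lit 456) (nat_lit 0) (XT.lf (nat_lit 0) (nat_lit 1404462624) (nat_lit 456) (nat_lit 3705819193) (nat_lit 76) (nat_lit 2406688753) (nat_lit 68) (nat_lit 5) (nat_lit 74) (nat_lit 5) (nat_lit 69) (nat_lit 5) (nat_lit 350) (nat_lit 341) (nat_lit 329)) (XT.lf (nat_lit 0) (nat_lit 935823056) (nat_lit 456) (nat_lit 2820261095) (nat_lit 532) (nat_lit 3977775480) (nat_lit 62) (nat_lit 5) (nat_lit 68) (nat_lit 5) (nat_lit 69) (nat_lit 5) (nat_lit 351) (nat_lit 341) (nat_lit 328))) (XT.nd (nat_lit 78) (nat_lit 684) (nat_lit 0) (XT.lf (nat_lit 0) (nat_lit 6001398057) (nat_lit 456) (nat_lit 233657551) (nat_lit 532) (nat_lit 1738068846) (nat_lit 62) (nat_lit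 5) (nat_lit 68) (nat_lit 5) (nat_lit 69) (nat_lit 5) (nat_lit 352) (nat_lit 341) (nat_lit 327)) (XT.nd (nat_lit 78) (nat_lit 228) (nat_lit 0) (XT.lf (nat_lit 0) (nat_lit 634327543) (nat_lit 456) (nat_lit 5069205869) (nat_lit 76) (nat_lit 2527820641) (nat_lit 56) (nat_lit 5) (nat_lit 62) (nat_lit 5) (nat_lit 57) (nat_lit 5) (nat_lit 353) (nat_lit 341) (nat_lit 326)) (XT.lf (nat_lit 0) (nat_lit 102968090) (nat_lit 228) (nat_lit 2917050597) (nat_lit 304) (nat_lit 5493348248) (nat_lit 53) (nat_lit 5) (nat_lit 56) (nat_lit 5) (nat_lit 57) (nat_lit 5) (nat_lit 354) (nat_lit 341) (nat_lit 325))))) (XT.nd (nat_lit 156) (nat_lit 456) (nat_lit 0) (XT.nd (nat_lit 78) (nat_lit 228) (nat_lit 0) (XT.lf (nat_lit 0) (nat_lit 5601117532) (nat_lit 304) (nat_lit 3004675658) (nat_lit 76) (nat_lit 211902726) (nat_lit 53) (nat_lit 5) (nat_lit 57) (nat_lit 5) (nat_lit 54) (nat_lit 5) (nat_lit 355) (nat_lit 341)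 (nat_lit 324)) (XT.lf (nat_lit 0) (nat_lit 2738031146) (nat_lit 228) (nat_lit 5662781388) (nat_lit 304) (nat_lit 744700446) (nat_lit 50) (nat_lit 5) (nat_lit 53) (nat_lit 5) (nat_lit 54) (nat_lit 5) (nat_lit 356) (nat_lit 341) (nat_lit 323))) (XT.nd (nat_lit 78) (nat_lit 380) (nat_lit 0) (XT.lf (nat_lit 0) (nat_lit 1786026459) (nat_lit 304) (nat_lit 589862934) (nat_lit 76) (nat_lit 7123465812) (nat_lit 49) (nat_lit 5) (nat_lit 53) (nat_lit 5) (nat_lit 50) (nat_lit 5) (nat_lit 357) (nat_lit 341) (nat_lit 322)) (XT.nd (nat_lit 78) (nat_lit 228) (nat_lit 0) (XT.lf (nat_lit 0) (nat_lit 4533029169) (nat_lit 228) (nat_lit 4092747463) (nat_lit 76) (nat_lit 1249944339) (nat_lit 47) (nat_lit 5) (nat_lit 50) (nat_lit 5) (nat_lit 48) (nat_lit 5) (nat_lit 358) (nat_lit 341) (nat_lit 321)) (XT.lf (nat_lit 0) (nat_lit 2319969158) (nat_lit 228) (nat_lit 5200860515) (nat_lit 304) (nat_lit 2759764486)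 (nat_lit 44) (nat_lit 5) (nat_lit 47) (nat_lit 5) (nat_lit 48) (nat_lit 5) (nat_lit 359) (nat_lit 341) (nat_lit 320)))))) (XT.nd (nat_lit 390) (nat_lit 456) (nat_lit 0) (XT.nd (nat_lit 156) (nat_lit 380) (nat_lit 0) (XT.nd (nat_lit 78) (nat_lit 152) (nat_lit 0) (XT.lf (nat_lit 0) (nat_lit 32020974) (nat_lit 304) (nat_lit 1388364454) (nat_lit 76) (nat_lit 9297186868) (nat_lit 43) (nat_lit 5) (nat_lit 47) (nat_lit 5) (nat_lit 44) (nat_lit 5) (nat_lit 360) (nat_lit 341) (nat_lit 319)) (XT.lf (nat_lit 0) (nat_lit 3002848788) (nat_lit 228) (nat_lit 5464995299) (nat_lit 76) (nat_lit 2707610577) (nat_lit 41) (nat_lit 5) (nat_lit 44) (nat_lit 5) (nat_lit 42) (nat_lit 5) (nat_lit 361) (nat_lit 341) (nat_lit 318))) (XT.nd (nat_lit 78) (nat_lit 228) (nat_lit 0) (XT.lf (nat_lit 0) (nat_lit 1689638566) (nat_lit 152) (nat_lit 4538606719) (nat_lit 228) (nat_lit 5440429799) (nat_lit 39) (nat_lit 5) (nat_lit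 41) (nat_lit 5) (nat_lit 42) (nat_lit 5) (nat_lit 362) (nat_lit 341) (nat_lit 317)) (XT.nd (nat_lit 78) (nat_lit 228) (nat_lit 0) (XT.lf (nat_lit 0) (nat_lit 9584923354) (nat_lit 152) (nat_lit 180548144) (nat_lit 228) (nat_lit 2431633039) (nat_lit 39) (nat_lit 5) (nat_lit 41) (nat_lit 5) (nat_lit 42) (nat_lit 5) (nat_lit 363) (nat_lit 341) (nat_lit 316)) (XT.lf (nat_lit 0) (nat_lit 929067459) (nat_lit 228) (nat_lit 7413994034) (nat_lit 76) (nat_lit 4411051593) (nat_lit 36) (nat_lit 5) (nat_lit 39) (nat_lit 5) (nat_lit 37) (nat_lit 5) (nat_lit 364) (nat_lit 341) (nat_lit 315))))) (XT.nd (nat_lit 156) (nat_lit 304) (nat_lit 0) (XT.nd (nat_lit 78) (nat_lit 0) (nat_lit 0) (XT.lf (nat_lit 0) (nat_lit 545517144) (nat_lit 152) (nat_lit 3884352212) (nat_lit 228) (nat_lit 8920594732) (nat_lit 34) (nat_lit 5) (nat_lit 36) (nat_lit 5) (nat_lit 37) (nat_lit 5) (nat_lit 365) (nat_lit 341) (nat_lit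 314)) (XT.lf (nat_lit 0) (nat_lit 8354707976) (nat_lit 228) (nat_lit 4583907020) (nat_lit 76) (nat_lit 1044430973) (nat_lit 34) (nat_lit 5) (nat_lit 37) (nat_lit 5) (nat_lit 35) (nat_lit 4) (nat_lit 366) (nat_lit 341) (nat_lit 313))) (XT.nd (nat_lit 78) (nat_lit 228) (nat_lit 0) (XT.lf (nat_lit 0) (nat_lit 4276974194) (nat_lit 76) (nat_lit 8440316541) (nat_lit 152) (nat_lit 1939080698) (nat_lit 33) (nat_lit 5) (nat_lit 34) (nat_lit 5) (nat_lit 35) (nat_lit 4) (nat_lit 367) (nat_lit 341) (nat_lit 312)) (XT.nd (nat_lit 78) (nat_lit 152) (nat_lit 0) (XT.lf (nat_lit 0) (nat_lit 1992413609) (nat_lit 152) (nat_lit 1450353668) (nat_lit 76) (nat_lit 11932939775) (nat_lit 32) (nat_lit 5) (nat_lit 34) (nat_lit 5) (nat_lit 33) (nat_lit 5) (nat_lit 368) (nat_lit 341) (nat_lit 311)) (XT.lf (nat_lit 0) (nat_lit 6315827837) (nat_lit 228) (nat_lit 7747656542) (nat_lit 76) (nat_lit 2070532842) (nat_lit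 30) (nat_lit 5) (nat_lit 33) (nat_lit 5) (nat_lit 31) (nat_lit 4) (nat_lit 369) (nat_lit 341) (nat_lit 310))))))) (XT.nd (nat_lit 780) (nat_lit 608) (nat_lit 0) (XT.nd (nat_lit 390) (nat_lit 304) (nat_lit 0) (XT.nd (nat_lit 156) (nat_lit 304) (nat_lit 0) (XT.nd (nat_lit 78) (nat_lit 0) (nat_lit 0) (XT.lf (nat_lit 0) (nat_lit 2030322564) (nat_lit 76) (nat_lit 9061829457) (nat_lit 152) (nat_lit 5852304869) (nat_lit 29) (nat_lit 5) (nat_lit 30) (nat_lit 5) (nat_lit 31) (nat_lit 4) (nat_lit 370) (nat_lit 341) (nat_lit 309)) (XT.lf (nat_lit 0) (nat_lit 12910816640) (nat_lit 76) (nat_lit 3482131676) (nat_lit 152) (nat_lit 1415419710) (nat_lit 29) (nat_lit 5) (nat_lit 30) (nat_lit 5) (nat_lit 31) (nat_lit 4) (nat_lit 371) (nat_lit 341) (nat_lit 308))) (XT.nd (nat_lit 78) (nat_lit 76) (nat_lit 0) (XT.lf (nat_lit 0) (nat_lit 3352294491) (nat_lit 228) (nat_lit 12768824977) (nat_lit 76) (nat_lit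 2602215871) (nat_lit 26) (nat_lit 5) (nat_lit 29) (nat_lit 5) (nat_lit 27) (nat_lit 4) (nat_lit 372) (nat_lit 341) (nat_lit 307)) (XT.nd (nat_lit 78) (nat_lit 76) (nat_lit 0) (XT.lf (nat_lit 0) (nat_lit 8587808387) (nat_lit 228) (nat_lit 1994190521) (nat_lit 76) (nat_lit 9113552148) (nat_lit 26) (nat_lit 5) (nat_lit 29) (nat_lit 5) (nat_lit 27) (nat_lit 4) (nat_lit 373) (nat_lit 341) (nat_lit 306)) (XT.lf (nat_lit 0) (nat_lit 10037122395) (nat_lit 76) (nat_lit 4386268435) (nat_lit 152) (nat_lit 6307673816) (nat_lit 25) (nat_lit 5) (nat_lit 26) (nat_lit 5) (nat_lit 27) (nat_lit 4) (nat_lit 374) (nat_lit 341) (nat_lit 305))))) (XT.nd (nat_lit 156) (nat_lit 152) (nat_lit 0) (XT.nd (nat_lit 78) (nat_lit 76) (nat_lit 0) (XT.lf (nat_lit 0) (nat_lit 1193935869) (nat_lit 76) (nat_lit 19612634087) (nat_lit 76) (nat_lit 1036406772) (nat_lit 24) (nat_lit 4) (nat_lit 25) (nat_lit 5) (nat_lit 25) (nat_lit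 4) (nat_lit 375) (nat_lit 341) (nat_lit 304)) (XT.lf (nat_lit 0) (nat_lit 4778543640) (nat_lit 152) (nat_lit 8721557302) (nat_lit 76) (nat_lit 9506402765) (nat_lit 23) (nat_lit 5) (nat_lit 25) (nat_lit 5) (nat_lit 24) (nat_lit 4) (nat_lit 376) (nat_lit 341) (nat_lit 303))) (XT.nd (nat_lit 78) (nat_lit 76) (nat_lit 0) (XT.lf (nat_lit 0) (nat_lit 4244991201) (nat_lit 76) (nat_lit 6805175099) (nat_lit 152) (nat_lit 13207009267) (nat_lit 22) (nat_lit 5) (nat_lit 23) (nat_lit 5) (nat_lit 24) (nat_lit 4) (nat_lit 377) (nat_lit 341) (nat_lit 302)) (XT.nd (nat_lit 78) (nat_lit 76) (nat_lit 0) (XT.lf (nat_lit 0) (nat_lit 18024386425) (nat_lit 152) (nat_lit 6961564265) (nat_lit 0) (nat_lit 605893875) (nat_lit 22) (nat_lit 5) (nat_lit 24) (nat_lit 4) (nat_lit 22) (nat_lit 4) (nat_lit 378) (nat_lit 341) (nat_lit 301)) (XT.lf (nat_lit 0) (nat_lit 7224035184) (nat_lit 76) (nat_lit 18632987791) (nat_lit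 76) (nat_lit 1152237653) (nat_lit 21) (nat_lit 4) (nat_lit 22) (nat_lit 5) (nat_lit 22) (nat_lit 4) (nat_lit 379) (nat_lit 341) (nat_lit 300)))))) (XT.nd (nat_lit 390) (nat_lit 304) (nat_lit 0) (XT.nd (nat_lit 156) (nat_lit 152) (nat_lit 0) (XT.nd (nat_lit 78) (nat_lit 76) (nat_lit 0) (XT.lf (nat_lit 0) (nat_lit 5632758211) (nat_lit 152) (nat_lit 5822258972) (nat_lit 76) (nat_lit 17062308999) (nat_lit 20) (nat_lit 5) (nat_lit 22) (nat_lit 5) (nat_lit 21) (nat_lit 4) (nat_lit 380) (nat_lit 341) (nat_lit 299)) (XT.lf (nat_lit 0) (nat_lit 9622167916) (nat_lit 76) (nat_lit 3461456994) (nat_lit 152) (nat_lit 17045201465) (nat_lit 19) (nat_lit 5) (nat_lit 20) (nat_lit 5) (nat_lit 21) (nat_lit 4) (nat_lit 381) (nat_lit 341) (nat_lit 298))) (XT.nd (nat_lit 78) (nat_lit 152) (nat_lit 0) (XT.lf (nat_lit 0) (nat_lit 21372583415) (nat_lit 152) (nat_lit 5439165536) (nat_lit 0) (nat_lit 5038144546)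 (nat_lit 19) (nat_lit 5) (nat_lit 21) (nat_lit 4) (nat_lit 19) (nat_lit 4) (nat_lit 382) (nat_lit 341) (nat_lit 297)) (XT.nd (nat_lit 78) (nat_lit 76) (nat_lit 0) (XT.lf (nat_lit 0) (nat_lit 11224373620) (nat_lit 76) (nat_lit 19417843062) (nat_lit 76) (nat_lit 3041032725) (nat_lit 18) (nat_lit 4) (nat_lit 19) (nat_lit 5) (nat_lit 19) (nat_lit 4) (nat_lit 383) (nat_lit 341) (nat_lit 296)) (XT.lf (nat_lit 0) (nat_lit 4850964587) (nat_lit 152) (nat_lit 6326036835) (nat_lit 76) (nat_lit 24467842623) (nat_lit 17) (nat_lit 5) (nat_lit 19) (nat_lit 5) (nat_lit 18) (nat_lit 4) (nat_lit 384) (nat_lit 341) (nat_lit 295))))) (XT.nd (nat_lit 234) (nat_lit 152) (nat_lit 0) (XT.nd (nat_lit 78) (nat_lit 76) (nat_lit 0) (XT.lf (nat_lit 0) (nat_lit 11519595882) (nat_lit 76) (nat_lit 1928464581) (nat_lit 152) (nat_lit 24289950482) (nat_lit 16) (nat_lit 5) (nat_lit 17) (nat_lit 5) (nat_lit 18) (nat_lit 4)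 (nat_lit 385) (nat_lit 341) (nat_lit 294)) (XT.nd (nat_lit 78) (nat_lit 76) (nat_lit 0) (XT.lf (nat_lit 0) (nat_lit 23065490742) (nat_lit 152) (nat_lit 9105870413) (nat_lit 0) (nat_lit 7800670632) (nat_lit 16) (nat_lit 5) (nat_lit 18) (nat_lit 4) (nat_lit 16) (nat_lit 4) (nat_lit 386) (nat_lit 341) (nat_lit 293)) (XT.lf (nat_lit 0) (nat_lit 9743177067) (nat_lit 76) (nat_lit 23957688081) (nat_lit 76) (nat_lit 8664030662) (nat_lit 15) (nat_lit 4) (nat_lit 16) (nat_lit 5) (nat_lit 16) (nat_lit 4) (nat_lit 387) (nat_lit 341) (nat_lit 292)))) (XT.nd (nat_lit 78) (nat_lit 76) (nat_lit 0) (XT.lf (nat_lit 0) (nat_lit 445664724) (nat_lit 152) (nat_lit 14393376003) (nat_lit 76) (nat_lit 30092120536) (nat_lit 14) (nat_lit 5) (nat_lit 16) (nat_lit 5) (nat_lit 15) (nat_lit 4) (nat_lit 388) (nat_lit 341) (nat_lit 291)) (XT.nd (nat_lit 78) (nat_lit 0) (nat_lit 0) (XT.lf (nat_lit 0) (nat_lit 5266922603)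 (nat_lit 76) (nat_lit 4642694982) (nat_lit 152) (nat_lit 37767626383) (nat_lit 13) (nat_lit 5) (nat_lit 14) (nat_lit 5) (nat_lit 15) (nat_lit 4) (nat_lit 389) (nat_lit 341) (nat_lit 290)) (XT.lf (nat_lit 0) (nat_lit 20654717612) (nat_lit 152) (nat_lit 23521265146) (nat_lit 0) (nat_lit 6425112092) (nat_lit 13) (nat_lit 5) (nat_lit 15) (nat_lit 4) (nat_lit 13) (nat_lit 4) (nat_lit 390) (nat_lit 341) (nat_lit 289))))))))
noncomputable def xc98 : XT := (XT.nd (nat_lit 1560) (nat_lit 228) (nat_lit 0) (XT.nd (nat_lit 780) (nat_lit 228) (nat_lit 0) (XT.nd (nat_lit 390) (nat_lit 228) (nat_lit 0) (XT.nd (nat_lit 156) (nat_lit 152) (nat_lit 0) (XT.nd (nat_lit 78) (nat_lit 76) (nat_lit 0) (XT.lf (nat_lit 0) (nat_lit 32349538709) (nat_lit 152) (nat_lit 3301802782) (nat_lit 0) (nat_lit 18100307002) (nat_lit 13) (nat_lit 5) (nat_lit 15) (nat_lit 4) (nat_lit 13) (nat_lit 4) (nat_lit 391) (nat_lit 341)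 (nat_lit 288)) (XT.lf (nat_lit 0) (nat_lit 19452641606) (nat_lit 76) (nat_lit 25966921488) (nat_lit 76) (nat_lit 11699517384) (nat_lit 12) (nat_lit 4) (nat_lit 13) (nat_lit 5) (nat_lit 13) (nat_lit 4) (nat_lit 392) (nat_lit 341) (nat_lit 287))) (XT.nd (nat_lit 78) (nat_lit 152) (nat_lit 0) (XT.lf (nat_lit 0) (nat_lit 44160952604) (nat_lit 76) (nat_lit 15437080272) (nat_lit 76) (nat_lit 1152849875) (nat_lit 12) (nat_lit 4) (nat_lit 13) (nat_lit 5) (nat_lit 13) (nat_lit 4) (nat_lit 393) (nat_lit 341) (nat_lit 286)) (XT.nd (nat_lit 78) (nat_lit 0) (nat_lit 0) (XT.lf (nat_lit 0) (nat_lit 6184224933) (nat_lit 76) (nat_lit 3663868927) (nat_lit 152) (nat_lit 54795627695) (nat_lit 10) (nat_lit 5) (nat_lit 11) (nat_lit 5) (nat_lit 12) (nat_lit 4) (nat_lit 394) (nat_lit 341) (nat_lit 285)) (XT.lf (nat_lit 0) (nat_lit 22323946593) (nat_lit 152) (nat_lit 37399054247) (nat_lit 0) (nat_lit 9070024248)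 (nat_lit 10) (nat_lit 5) (nat_lit 12) (nat_lit 4) (nat_lit 10) (nat_lit 4) (nat_lit 395) (nat_lit 341) (nat_lit 284))))) (XT.nd (nat_lit 156) (nat_lit 152) (nat_lit 0) (XT.nd (nat_lit 78) (nat_lit 76) (nat_lit 0) (XT.lf (nat_lit 0) (nat_lit 35869010668) (nat_lit 152) (nat_lit 14796852644) (nat_lit 0) (nat_lit 22602720496) (nat_lit 10) (nat_lit 5) (nat_lit 12) (nat_lit 4) (nat_lit 10) (nat_lit 4) (nat_lit 396) (nat_lit 341) (nat_lit 283)) (XT.lf (nat_lit 0) (nat_lit 10073058474) (nat_lit 76) (nat_lit 40644635821) (nat_lit 76) (nat_lit 27366893957) (nat_lit 9) (nat_lit 4) (nat_lit 10) (nat_lit 5) (nat_lit 10) (nat_lit 4) (nat_lit 397) (nat_lit 341) (nat_lit 282))) (XT.nd (nat_lit 78) (nat_lit 152) (nat_lit 0) (XT.lf (nat_lit 0) (nat_lit 37730833894) (nat_lit 76) (nat_lit 29406375747) (nat_lit 76) (nat_lit 16118030465) (nat_lit 9) (nat_lit 4) (nat_lit 10) (nat_lit 5) (nat_lit 10) (nat_lit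 4) (nat_lit 398) (nat_lit 341) (nat_lit 281)) (XT.nd (nat_lit 78) (nat_lit 152) (nat_lit 0) (XT.lf (nat_lit 0) (nat_lit 67561195505) (nat_lit 76) (nat_lit 17289058170) (nat_lit 76) (nat_lit 3990894907) (nat_lit 9) (nat_lit 4) (nat_lit 10) (nat_lit 5) (nat_lit 10) (nat_lit 4) (nat_lit 399) (nat_lit 341) (nat_lit 280)) (XT.lf (nat_lit 0) (nat_lit 4891674228) (nat_lit 76) (nat_lit 3857810489) (nat_lit 152) (nat_lit 86099036843) (nat_lit 7) (nat_lit 5) (nat_lit 8) (nat_lit 5) (nat_lit 9) (nat_lit 4) (nat_lit 400) (nat_lit 341) (nat_lit 279)))))) (XT.nd (nat_lit 390) (nat_lit 152) (nat_lit 0) (XT.nd (nat_lit 156) (nat_lit 76) (nat_lit 0) (XT.nd (nat_lit 78) (nat_lit 0) (nat_lit 0) (XT.lf (nat_lit 0) (nat_lit 23127547997) (nat_lit 152) (nat_lit 67335697173) (nat_lit 0) (nat_lit 10798222700) (nat_lit 7) (nat_lit 5) (nat_lit 9) (nat_lit 4) (nat_lit 7) (nat_lit 4) (nat_lit 401) (nat_lit 341) (nat_lit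 278)) (XT.lf (nat_lit 0) (nat_lit 38738501793) (nat_lit 152) (nat_lit 43040377843) (nat_lit 0) (nat_lit 26401959987) (nat_lit 7) (nat_lit 5) (nat_lit 9) (nat_lit 4) (nat_lit 7) (nat_lit 4) (nat_lit 402) (nat_lit 341) (nat_lit 277))) (XT.nd (nat_lit 78) (nat_lit 76) (nat_lit 0) (XT.lf (nat_lit 0) (nat_lit 55582075024) (nat_lit 152) (nat_lit 16834136646) (nat_lit 0) (nat_lit 43238851266) (nat_lit 7) (nat_lit 5) (nat_lit 9) (nat_lit 4) (nat_lit 7) (nat_lit 4) (nat_lit 403) (nat_lit 341) (nat_lit 276)) (XT.nd (nat_lit 78) (nat_lit 0) (nat_lit 0) (XT.lf (nat_lit 0) (nat_lit 12040644461) (nat_lit 76) (nat_lit 62007014787) (nat_lit 76) (nat_lit 49657604035) (nat_lit 6) (nat_lit 4) (nat_lit 7) (nat_lit 5) (nat_lit 7) (nat_lit 4) (nat_lit 404) (nat_lit 341) (nat_lit 275)) (XT.lf (nat_lit 0) (nat_lit 44153265754) (nat_lit 76) (nat_lit 50282852115) (nat_lit 76) (nat_lit 37927712666) (nat_lit 6) (nat_lit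 4) (nat_lit 7) (nat_lit 5) (nat_lit 7) (nat_lit 4) (nat_lit 405) (nat_lit 341) (nat_lit 274))))) (XT.nd (nat_lit 156) (nat_lit 152) (nat_lit 0) (XT.nd (nat_lit 78) (nat_lit 0) (nat_lit 0) (XT.lf (nat_lit 0) (nat_lit 78807568443) (nat_lit 76) (nat_lit 37634522265) (nat_lit 76) (nat_lit 25274078467) (nat_lit 6) (nat_lit 4) (nat_lit 7) (nat_lit 5) (nat_lit 7) (nat_lit 4) (nat_lit 406) (nat_lit 341) (nat_lit 273)) (XT.lf (nat_lit 0) (nat_lit 116208911358) (nat_lit 76) (nat_lit 23987072171) (nat_lit 76) (nat_lit 11621716939) (nat_lit 6) (nat_lit 4) (nat_lit 7) (nat_lit 5) (nat_lit 7) (nat_lit 4) (nat_lit 407) (nat_lit 341) (nat_lit 272))) (XT.nd (nat_lit 78) (nat_lit 76) (nat_lit 0) (XT.lf (nat_lit 0) (nat_lit 2954686258) (nat_lit 152) (nat_lit 6224155439) (nat_lit 76) (nat_lit 153543459470) (nat_lit 5) (nat_lit 5) (nat_lit 7) (nat_lit 5) (nat_lit 6) (nat_lit 4) (nat_lit 408) (nat_lit 341)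 (nat_lit 271)) (XT.nd (nat_lit 78) (nat_lit 0) (nat_lit 0) (XT.lf (nat_lit 0) (nat_lit 18883939554) (nat_lit 152) (nat_lit 148099586151) (nat_lit 0) (nat_lit 7426426943) (nat_lit 4) (nat_lit 5) (nat_lit 6) (nat_lit 4) (nat_lit 4) (nat_lit 4) (nat_lit 409) (nat_lit 341) (nat_lit 270)) (XT.lf (nat_lit 0) (nat_lit 36489529991) (nat_lit 152) (nat_lit 125482519863) (nat_lit 0) (nat_lit 25028407329) (nat_lit 4) (nat_lit 5) (nat_lit 6) (nat_lit 4) (nat_lit 4) (nat_lit 4) (nat_lit 410) (nat_lit 341) (nat_lit 269))))))) (XT.nd (nat_lit 780) (nat_lit 152) (nat_lit 0) (XT.nd (nat_lit 390) (nat_lit 0) (nat_lit 0) (XT.nd (nat_lit 156) (nat_lit 76) (nat_lit 0) (XT.nd (nat_lit 78) (nat_lit 0) (nat_lit 0) (XT.lf (nat_lit 0) (nat_lit 55493369256) (nat_lit 152) (nat_lit 101076745380) (nat_lit 0) (nat_lit 44028903955) (nat_lit 4) (nat_lit 5) (nat_lit 6) (nat_lit 4) (nat_lit 4) (nat_lit 4) (nat_lit 411) (nat_lit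 341) (nat_lit 268)) (XT.lf (nat_lit 0) (nat_lit 76008072693) (nat_lit 152) (nat_lit 74737635891) (nat_lit 0) (nat_lit 64540512355) (nat_lit 4) (nat_lit 5) (nat_lit 6) (nat_lit 4) (nat_lit 4) (nat_lit 4) (nat_lit 412) (nat_lit 341) (nat_lit 267))) (XT.nd (nat_lit 78) (nat_lit 76) (nat_lit 0) (XT.lf (nat_lit 0) (nat_lit 98155208915) (nat_lit 152) (nat_lit 46309107782) (nat_lit 0) (nat_lit 86684782801) (nat_lit 4) (nat_lit 5) (nat_lit 6) (nat_lit 4) (nat_lit 4) (nat_lit 4) (nat_lit 413) (nat_lit 341) (nat_lit 266)) (XT.nd (nat_lit 78) (nat_lit 76) (nat_lit 0) (XT.lf (nat_lit 0) (nat_lit 122066020210) (nat_lit 152) (nat_lit 15622695704) (nat_lit 0) (nat_lit 110592940601) (nat_lit 4) (nat_lit 5) (nat_lit 6) (nat_lit 4) (nat_lit 4) (nat_lit 4) (nat_lit 414) (nat_lit 341) (nat_lit 265)) (XT.lf (nat_lit 0) (nat_lit 18425146183) (nat_lit 76) (nat_lit 129900179299) (nat_lit 76) (nat_lit 118424642751)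 (nat_lit 3) (nat_lit 4) (nat_lit 4) (nat_lit 5) (nat_lit 4) (nat_lit 4) (nat_lit 415) (nat_lit 341) (nat_lit 264))))) (XT.nd (nat_lit 156) (nat_lit 0) (nat_lit 0) (XT.nd (nat_lit 78) (nat_lit 0) (nat_lit 0) (XT.lf (nat_lit 0) (nat_lit 56070492773) (nat_lit 76) (nat_lit 121034737805) (nat_lit 76) (nat_lit 109556926312) (nat_lit 3) (nat_lit 4) (nat_lit 4) (nat_lit 5) (nat_lit 4) (nat_lit 4) (nat_lit 416) (nat_lit 341) (nat_lit 263)) (XT.lf (nat_lit 0) (nat_lit 96713764131) (nat_lit 76) (nat_lit 111467007668) (nat_lit 76) (nat_lit 99987089744) (nat_lit 3) (nat_lit 4) (nat_lit 4) (nat_lit 5) (nat_lit 4) (nat_lit 4) (nat_lit 417) (nat_lit 341) (nat_lit 262))) (XT.nd (nat_lit 78) (nat_lit 0) (nat_lit 0) (XT.lf (nat_lit 0) (nat_lit 140595809273) (nat_lit 76) (nat_lit 101140291228) (nat_lit 76) (nat_lit 89658422906) (nat_lit 3) (nat_lit 4) (nat_lit 4) (nat_lit 5) (nat_lit 4) (nat_lit 4) (nat_lit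 418) (nat_lit 341) (nat_lit 261)) (XT.nd (nat_lit 78) (nat_lit 0) (nat_lit 0) (XT.lf (nat_lit 0) (nat_lit 187976669946) (nat_lit 76) (nat_lit 89993393128) (nat_lit 76) (nat_lit 78509718882) (nat_lit 3) (nat_lit 4) (nat_lit 4) (nat_lit 5) (nat_lit 4) (nat_lit 4) (nat_lit 419) (nat_lit 341) (nat_lit 260)) (XT.lf (nat_lit 0) (nat_lit 239137121622) (nat_lit 76) (nat_lit 77960257676) (nat_lit 76) (nat_lit 66474911278) (nat_lit 3) (nat_lit 4) (nat_lit 4) (nat_lit 5) (nat_lit 4) (nat_lit 4) (nat_lit 420) (nat_lit 341) (nat_lit 259)))))) (XT.nd (nat_lit 390) (nat_lit 0) (nat_lit 0) (XT.nd (nat_lit 156) (nat_lit 152) (nat_lit 0) (XT.nd (nat_lit 78) (nat_lit 0) (nat_lit 0) (XT.lf (nat_lit 0) (nat_lit 294380337347) (nat_lit 76) (nat_lit 64969577402) (nat_lit 76) (nat_lit 53482682715) (nat_lit 3) (nat_lit 4) (nat_lit 4) (nat_lit 5) (nat_lit 4) (nat_lit 4) (nat_lit 421) (nat_lit 341) (nat_lit 258))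 (XT.lf (nat_lit 0) (nat_lit 354033684327) (nat_lit 76) (nat_lit 50944370498) (nat_lit 76) (nat_lit 39456042210) (nat_lit 3) (nat_lit 4) (nat_lit 4) (nat_lit 5) (nat_lit 4) (nat_lit 4) (nat_lit 422) (nat_lit 341) (nat_lit 257))) (XT.nd (nat_lit 78) (nat_lit 152) (nat_lit 0) (XT.lf (nat_lit 0) (nat_lit 418450663876) (nat_lit 76) (nat_lit 35801524627) (nat_lit 76) (nat_lit 24311868930) (nat_lit 3) (nat_lit 4) (nat_lit 4) (nat_lit 5) (nat_lit 4) (nat_lit 4) (nat_lit 423) (nat_lit 341) (nat_lit 256)) (XT.nd (nat_lit 78) (nat_lit 152) (nat_lit 0) (XT.lf (nat_lit 0) (nat_lit 488013006244) (nat_lit 76) (nat_lit 19451304404) (nat_lit 76) (nat_lit 7960419626) (nat_lit 3) (nat_lit 4) (nat_lit 4) (nat_lit 5) (nat_lit 4) (nat_lit 4) (nat_lit 424) (nat_lit 341) (nat_lit 255)) (XT.lf (nat_lit 0) (nat_lit 8068850239) (nat_lit 76) (nat_lit 1335415652) (nat_lit 152) (nat_lit 545796105212) (nat_lit 1) (nat_lit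 5) (nat_lit 2) (nat_lit 5) (nat_lit 3) (nat_lit 4) (nat_lit 425) (nat_lit 341) (nat_lit 254))))) (XT.nd (nat_lit 234) (nat_lit 0) (nat_lit 0) (XT.nd (nat_lit 78) (nat_lit 0) (nat_lit 0) (XT.lf (nat_lit 0) (nat_lit 28931698419) (nat_lit 152) (nat_lit 550823571640) (nat_lit 0) (nat_lit 18289960867) (nat_lit 1) (nat_lit 5) (nat_lit 3) (nat_lit 4) (nat_lit 1) (nat_lit 4) (nat_lit 426) (nat_lit 341) (nat_lit 253)) (XT.nd (nat_lit 78) (nat_lit 0) (nat_lit 0) (XT.lf (nat_lit 0) (nat_lit 50052551988) (nat_lit 152) (nat_lit 554852718577) (nat_lit 0) (nat_lit 39409911025) (nat_lit 1) (nat_lit 5) (nat_lit 3) (nat_lit 4) (nat_lit 1) (nat_lit 4) (nat_lit 427) (nat_lit 341) (nat_lit 252)) (XT.lf (nat_lit 0) (nat_lit 72859870436) (nat_lit 152) (nat_lit 559210721324) (nat_lit 0) (nat_lit 62216392980) (nat_lit 1) (nat_lit 5) (nat_lit 3) (nat_lit 4) (nat_lit 1) (nat_lit 4) (nat_lit 428) (nat_lit 341) (nat_lit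 251)))) (XT.nd (nat_lit 78) (nat_lit 0) (nat_lit 0) (XT.lf (nat_lit 0) (nat_lit 97488808242) (nat_lit 152) (nat_lit 563923405081) (nat_lit 0) (nat_lit 86844556256) (nat_lit 1) (nat_lit 5) (nat_lit 3) (nat_lit 4) (nat_lit 1) (nat_lit 4) (nat_lit 429) (nat_lit 341) (nat_lit 250)) (XT.nd (nat_lit 78) (nat_lit 0) (nat_lit 0) (XT.lf (nat_lit 0) (nat_lit 124085314666) (nat_lit 152) (nat_lit 569018696865) (nat_lit 0) (nat_lit 113440345523) (nat_lit 1) (nat_lit 5) (nat_lit 3) (nat_lit 4) (nat_lit 1) (nat_lit 4) (nat_lit 430) (nat_lit 341) (nat_lit 249)) (XT.lf (nat_lit 0) (nat_lit 152806998636) (nat_lit 152) (nat_lit 574526790996) (nat_lit 0) (nat_lit 142161365458) (nat_lit 1) (nat_lit 5) (nat_lit 3) (nat_lit 4) (nat_lit 1) (nat_lit 4) (nat_lit 431) (nat_lit 341) (nat_lit 248))))))))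
noncomputable def xc99 : XT := (XT.nd (nat_lit 1638) (nat_lit 0) (nat_lit 0) (XT.nd (nat_lit 780) (nat_lit 0) (nat_lit 0) (XT.nd (nat_lit 390) (nat_lit 0) (nat_lit 0) (XT.nd (nat_lit 156) (nat_lit 0) (nat_lit 0) (XT.nd (nat_lit 78) (nat_lit 0) (nat_lit 0) (XT.lf (nat_lit 0) (nat_lit 183824062723) (nat_lit 152) (nat_lit 580480328033) (nat_lit 0) (nat_lit 173177814699) (nat_lit 1) (nat_lit 5) (nat_lit 3) (nat_lit 4) (nat_lit 1) (nat_lit 4) (nat_lit 432) (nat_lit 341) (nat_lit 247)) (XT.lf (nat_lit 0) (nat_lit 217320311752) (nat_lit 152) (nat_lit 586914588194) (nat_lit 0) (nat_lit 206673494425) (nat_lit 1) (nat_lit 5) (nat_lit 3) (nat_lit 4) (nat_lit 1) (nat_lit 4) (nat_lit 433) (nat_lit 341) (nat_lit 246))) (XT.nd (nat_lit 78) (nat_lit 0) (nat_lit 0) (XT.lf (nat_lit 0) (nat_lit 253494242014) (nat_lit 152) (nat_lit 593867700429) (nat_lit 0) (nat_lit 242846897554) (nat_lit 1) (nat_lit 5) (nat_lit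 3) (nat_lit 4) (nat_lit 1) (nat_lit 4) (nat_lit 434) (nat_lit 341) (nat_lit 245)) (XT.nd (nat_lit 78) (nat_lit 0) (nat_lit 0) (XT.lf (nat_lit 0) (nat_lit 292560217538) (nat_lit 152) (nat_lit 601380868367) (nat_lit 0) (nat_lit 281912384994) (nat_lit 1) (nat_lit 5) (nat_lit 3) (nat_lit 4) (nat_lit 1) (nat_lit 4) (nat_lit 435) (nat_lit 341) (nat_lit 244)) (XT.lf (nat_lit 0) (nat_lit 334749740404) (nat_lit 152) (nat_lit 609498614483) (nat_lit 0) (nat_lit 324101455928) (nat_lit 1) (nat_lit 5) (nat_lit 3) (nat_lit 4) (nat_lit 1) (nat_lit 4) (nat_lit 436) (nat_lit 341) (nat_lit 243))))) (XT.nd (nat_lit 156) (nat_lit 0) (nat_lit 0) (XT.nd (nat_lit 78) (nat_lit 0) (nat_lit 0) (XT.lf (nat_lit 0) (nat_lit 380312822597) (nat_lit 152) (nat_lit 618269043940) (nat_lit 0) (nat_lit 369664119667) (nat_lit 1) (nat_lit 5) (nat_lit 3) (nat_lit 4) (nat_lit 1) (nat_lit 4) (nat_lit 437) (nat_lit 341) (nat_lit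 242)) (XT.lf (nat_lit 0) (nat_lit 429519467568) (nat_lit 152) (nat_lit 627744129653) (nat_lit 0) (nat_lit 418870377180) (nat_lit 1) (nat_lit 5) (nat_lit 3) (nat_lit 4) (nat_lit 1) (nat_lit 4) (nat_lit 438) (nat_lit 341) (nat_lit 241))) (XT.nd (nat_lit 78) (nat_lit 0) (nat_lit 0) (XT.lf (nat_lit 0) (nat_lit 482661270250) (nat_lit 152) (nat_lit 637980020278) (nat_lit 0) (nat_lit 472011821105) (nat_lit 1) (nat_lit 5) (nat_lit 3) (nat_lit 4) (nat_lit 1) (nat_lit 4) (nat_lit 439) (nat_lit 341) (nat_lit 240)) (XT.nd (nat_lit 78) (nat_lit 0) (nat_lit 0) (XT.lf (nat_lit 0) (nat_lit 540053145029) (nat_lit 152) (nat_lit 649037372945) (nat_lit 0) (nat_lit 529403363702) (nat_lit 1) (nat_lit 5) (nat_lit 3) (nat_lit 4) (nat_lit 1) (nat_lit 4) (nat_lit 440) (nat_lit 341) (nat_lit 239)) (XT.lf (nat_lit 0) (nat_lit 602035191905) (nat_lit 152) (nat_lit 660981712707) (nat_lit 0) (nat_lit 591385103001) (nat_lit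 1) (nat_lit 5) (nat_lit 3) (nat_lit 4) (nat_lit 1) (nat_lit 4) (nat_lit 441) (nat_lit 341) (nat_lit 238)))))) (XT.nd (nat_lit 390) (nat_lit 0) (nat_lit 0) (XT.nd (nat_lit 156) (nat_lit 0) (nat_lit 0) (XT.nd (nat_lit 78) (nat_lit 0) (nat_lit 0) (XT.lf (nat_lit 0) (nat_lit 668974711895) (nat_lit 152) (nat_lit 673883820837) (nat_lit 0) (nat_lit 658324338198) (nat_lit 1) (nat_lit 5) (nat_lit 3) (nat_lit 4) (nat_lit 1) (nat_lit 4) (nat_lit 442) (nat_lit 341) (nat_lit 237)) (XT.lf (nat_lit 0) (nat_lit 741268383636) (nat_lit 152) (nat_lit 687820154270) (nat_lit 0) (nat_lit 730617746242) (nat_lit 1) (nat_lit 5) (nat_lit 3) (nat_lit 4) (nat_lit 1) (nat_lit 4) (nat_lit 443) (nat_lit 341) (nat_lit 236))) (XT.nd (nat_lit 78) (nat_lit 0) (nat_lit 0) (XT.lf (nat_lit 0) (nat_lit 819344614073) (nat_lit 152) (nat_lit 702873298688) (nat_lit 0) (nat_lit 808693732515) (nat_lit 1) (nat_lit 5) (nat_lit 3) (nat_lit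 4) (nat_lit 1) (nat_lit 4) (nat_lit 444) (nat_lit 341) (nat_lit 235)) (XT.nd (nat_lit 78) (nat_lit 0) (nat_lit 0) (XT.lf (nat_lit 0) (nat_lit 903666077163) (nat_lit 152) (nat_lit 719132457909) (nat_lit 0) (nat_lit 893014969527) (nat_lit 1) (nat_lit 5) (nat_lit 3) (nat_lit 4) (nat_lit 1) (nat_lit 4) (nat_lit 445) (nat_lit 341) (nat_lit 234)) (XT.lf (nat_lit 0) (nat_lit 994732455651) (nat_lit 152) (nat_lit 736693982506) (nat_lit 0) (nat_lit 984081138683) (nat_lit 1) (nat_lit 5) (nat_lit 3) (nat_lit 4) (nat_lit 1) (nat_lit 4) (nat_lit 446) (nat_lit 341) (nat_lit 233))))) (XT.nd (nat_lit 234) (nat_lit 0) (nat_lit 0) (XT.nd (nat_lit 78) (nat_lit 0) (nat_lit 0) (XT.lf (nat_lit 0) (nat_lit 1093083402150) (nat_lit 152) (nat_lit 755661940772) (nat_lit 0) (nat_lit 1082431891356) (nat_lit 1) (nat_lit 5) (nat_lit 3) (nat_lit 4) (nat_lit 1) (nat_lit 4) (nat_lit 447) (nat_lit 341) (nat_lit 232)) (XT.nd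 (nat_lit 78) (nat_lit 0) (nat_lit 0) (XT.lf (nat_lit 0) (nat_lit 1199301737083) (nat_lit 152) (nat_lit 776148735424) (nat_lit 0) (nat_lit 1188650046821) (nat_lit 1) (nat_lit 5) (nat_lit 3) (nat_lit 4) (nat_lit 1) (nat_lit 4) (nat_lit 448) (nat_lit 341) (nat_lit 231)) (XT.lf (nat_lit 0) (nat_lit 1314016902435) (nat_lit 152) (nat_lit 798275769689) (nat_lit 0) (nat_lit 1303365046000) (nat_lit 1) (nat_lit 5) (nat_lit 3) (nat_lit 4) (nat_lit 1) (nat_lit 4) (nat_lit 449) (nat_lit 341) (nat_lit 230)))) (XT.nd (nat_lit 78) (nat_lit 0) (nat_lit 0) (XT.lf (nat_lit 0) (nat_lit 1437908691779) (nat_lit 152) (nat_lit 822174166734) (nat_lit 0) (nat_lit 1427256681479) (nat_lit 1) (nat_lit 5) (nat_lit 3) (nat_lit 4) (nat_lit 1) (nat_lit 4) (nat_lit 450) (nat_lit 341) (nat_lit 229)) (XT.nd (nat_lit 78) (nat_lit 0) (nat_lit 0) (XT.lf (nat_lit 0) (nat_lit 1571711278682) (nat_lit 152) (nat_lit 847985546688)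 (nat_lit 0) (nat_lit 1561059125914) (nat_lit 1) (nat_lit 5) (nat_lit 3) (nat_lit 4) (nat_lit 1) (nat_lit 4) (nat_lit 451) (nat_lit 341) (nat_lit 228)) (XT.lf (nat_lit 0) (nat_lit 1716217567361) (nat_lit 152) (nat_lit 875862865877) (nat_lit 0) (nat_lit 1705565282680) (nat_lit 1) (nat_lit 5) (nat_lit 3) (nat_lit 4) (nat_lit 1) (nat_lit 4) (nat_lit 452) (nat_lit 341) (nat_lit 227))))))) (XT.nd (nat_lit 780) (nat_lit 0) (nat_lit 0) (XT.nd (nat_lit 390) (nat_lit 0) (nat_lit 0) (XT.nd (nat_lit 156) (nat_lit 0) (nat_lit 0) (XT.nd (nat_lit 78) (nat_lit 0) (nat_lit 0) (XT.lf (nat_lit 0) (nat_lit 1872283891380) (nat_lit 152) (nat_lit 905971323231) (nat_lit 0) (nat_lit 1861631484556) (nat_lit 1) (nat_lit 5) (nat_lit 3) (nat_lit 4) (nat_lit 1) (nat_lit 4) (nat_lit 453) (nat_lit 341) (nat_lit 226)) (XT.lf (nat_lit 0) (nat_lit 2040835088214) (nat_lit 152) (nat_lit 938489339236) (nat_lit 0) (nat_lit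 2030182568294) (nat_lit 1) (nat_lit 5) (nat_lit 3) (nat_lit 4) (nat_lit 1) (nat_lit 4) (nat_lit 454) (nat_lit 341) (nat_lit 225))) (XT.nd (nat_lit 78) (nat_lit 0) (nat_lit 0) (XT.lf (nat_lit 0) (nat_lit 2222869979771) (nat_lit 152) (nat_lit 973609613248) (nat_lit 0) (nat_lit 2212217355133) (nat_lit 1) (nat_lit 5) (nat_lit 3) (nat_lit 4) (nat_lit 1) (nat_lit 4) (nat_lit 455) (nat_lit 341) (nat_lit 224)) (XT.nd (nat_lit 78) (nat_lit 0) (nat_lit 0) (XT.lf (nat_lit 0) (nat_lit 2419467291333) (nat_lit 152) (nat_lit 1011540265408) (nat_lit 0) (nat_lit 2408814569734) (nat_lit 1) (nat_lit 5) (nat_lit 3) (nat_lit 4) (nat_lit 1) (nat_lit 4) (nat_lit 456) (nat_lit 341) (nat_lit 223)) (XT.lf (nat_lit 0) (nat_lit 2631792044006) (nat_lit 152) (nat_lit 1052506069951) (nat_lit 0) (nat_lit 2621139232629) (nat_lit 1) (nat_lit 5) (nat_lit 3) (nat_lit 4) (nat_lit 1) (nat_lit 4) (nat_lit 457) (nat_lit 341)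 (nat_lit 222))))) (XT.nd (nat_lit 156) (nat_lit 0) (nat_lit 0) (XT.nd (nat_lit 78) (nat_lit 0) (nat_lit 0) (XT.lf (nat_lit 0) (nat_lit 2861102458547) (nat_lit 152) (nat_lit 1096749787201) (nat_lit 0) (nat_lit 2850449564041) (nat_lit 1) (nat_lit 5) (nat_lit 3) (nat_lit 4) (nat_lit 1) (nat_lit 4) (nat_lit 458) (nat_lit 341) (nat_lit 221)) (XT.lf (nat_lit 0) (nat_lit 3108757411486) (nat_lit 152) (nat_lit 1144533602149) (nat_lit 0) (nat_lit 3098104440010) (nat_lit 1) (nat_lit 5) (nat_lit 3) (nat_lit 4) (nat_lit 1) (nat_lit 4) (nat_lit 459) (nat_lit 341) (nat_lit 220))) (XT.nd (nat_lit 78) (nat_lit 0) (nat_lit 0) (XT.lf (nat_lit 0) (nat_lit 3376224487731) (nat_lit 152) (nat_lit 1196140678142) (nat_lit 0) (nat_lit 3365571444985) (nat_lit 1) (nat_lit 5) (nat_lit 3) (nat_lit 4) (nat_lit 1) (nat_lit 4) (nat_lit 460) (nat_lit 341) (nat_lit 219)) (XT.nd (nat_lit 78) (nat_lit 0) (nat_lit 0) (XT.lf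 (nat_lit 0) (nat_lit 3665088677361) (nat_lit 152) (nat_lit 1251876834890) (nat_lit 0) (nat_lit 3654435568625) (nat_lit 1) (nat_lit 5) (nat_lit 3) (nat_lit 4) (nat_lit 1) (nat_lit 4) (nat_lit 461) (nat_lit 341) (nat_lit 218)) (XT.lf (nat_lit 0) (nat_lit 3977061768167) (nat_lit 152) (nat_lit 1312072360730) (nat_lit 0) (nat_lit 3966408598330) (nat_lit 1) (nat_lit 5) (nat_lit 3) (nat_lit 4) (nat_lit 1) (nat_lit 4) (nat_lit 462) (nat_lit 341) (nat_lit 217)))))) (XT.nd (nat_lit 43992) (nat_lit 0) (nat_lit 5092) (XT.nd (nat_lit 43758) (nat_lit 0) (nat_lit 6080) (XT.nd (nat_lit 43680) (nat_lit 0) (nat_lit 6308) (XT.lf (nat_lit 0) (nat_lit 4313992489578) (nat_lit 152) (nat_lit 1377083969889) (nat_lit 0) (nat_lit 4303339263165) (nat_lit 1) (nat_lit 5) (nat_lit 3) (nat_lit 4) (nat_lit 1) (nat_lit 4) (nat_lit 463) (nat_lit 341) (nat_lit 216)) (XT.lf (nat_lit 0) (nat_lit 2402572615) (nat_lit 228) (nat_lit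 437569402) (nat_lit 228) (nat_lit 437569402) (nat_lit 84) (nat_lit 3) (nat_lit 87) (nat_lit 3) (nat_lit 87) (nat_lit 5) (nat_lit 342) (nat_lit 342) (nat_lit 336))) (XT.nd (nat_lit 78) (nat_lit 0) (nat_lit 0) (XT.lf (nat_lit 0) (nat_lit 716523243) (nat_lit 228) (nat_lit 4187501606) (nat_lit 304) (nat_lit 1718214987) (nat_lit 81) (nat_lit 5) (nat_lit 84) (nat_lit 3) (nat_lit 85) (nat_lit 5) (nat_lit 343) (nat_lit 342) (nat_lit 335)) (XT.nd (nat_lit 78) (nat_lit 0) (nat_lit 0) (XT.lf (nat_lit 0) (nat_lit 3068760600) (nat_lit 228) (nat_lit 824672021) (nat_lit 304) (nat_lit 2815044743) (nat_lit 81) (nat_lit 5) (nat_lit 84) (nat_lit 3) (nat_lit 85) (nat_lit 5) (nat_lit 344) (nat_lit 342) (nat_lit 334)) (XT.lf (nat_lit 76) (nat_lit 2813406997) (nat_lit 0) (nat_lit 2639454252) (nat_lit 304) (nat_lit 1361558216) (nat_lit 82) (nat_lit 5) (nat_lit 81) (nat_lit 5) (nat_lit 85) (nat_lit 5) (nat_lit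 345) (nat_lit 342) (nat_lit 333))))) (XT.nd (nat_lit 234) (nat_lit 456) (nat_lit 0) (XT.nd (nat_lit 78) (nat_lit 228) (nat_lit 0) (XT.lf (nat_lit 0) (nat_lit 850744439) (nat_lit 304) (nat_lit 307369573) (nat_lit 380) (nat_lit 5784317360) (nat_lit 77) (nat_lit 5) (nat_lit 81) (nat_lit 5) (nat_lit 82) (nat_lit 5) (nat_lit 346) (nat_lit 342) (nat_lit 332)) (XT.nd (nat_lit 78) (nat_lit 304) (nat_lit 0) (XT.lf (nat_lit 0) (nat_lit 3070676689) (nat_lit 304) (nat_lit 3403215429) (nat_lit 76) (nat_lit 611864911) (nat_lit 78) (nat_lit 5) (nat_lit 82) (nat_lit 5) (nat_lit 79) (nat_lit 5) (nat_lit 347) (nat_lit 342) (nat_lit 331)) (XT.lf (nat_lit 0) (nat_lit 624624458) (nat_lit 304) (nat_lit 4710222026) (nat_lit 380) (nat_lit 1916591559) (nat_lit 74) (nat_lit 5) (nat_lit 78) (nat_lit 5) (nat_lit 79) (nat_lit 5) (nat_lit 348) (nat_lit 342) (nat_lit 330)))) (XT.nd (nat_lit 78) (nat_lit 380) (nat_lit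 0) (XT.lf (nat_lit 0) (nat_lit 246326892) (nat_lit 380) (nat_lit 2417152470) (nat_lit 76) (nat_lit 4773286632) (nat_lit 73) (nat_lit 5) (nat_lit 78) (nat_lit 5) (nat_lit 74) (nat_lit 5) (nat_lit 349) (nat_lit 342) (nat_lit 329)) (XT.nd (nat_lit 78) (nat_lit 0) (nat_lit 0) (XT.lf (nat_lit 0) (nat_lit 2041212104) (nat_lit 380) (nat_lit 318631611) (nat_lit 456) (nat_lit 5282780320) (nat_lit 68) (nat_lit 5) (nat_lit 73) (nat_lit 5) (nat_lit 74) (nat_lit 5) (nat_lit 350) (nat_lit 342) (nat_lit 328)) (XT.lf (nat_lit 0) (nat_lit 4605189857) (nat_lit 456) (nat_lit 1071151231) (nat_lit 76) (nat_lit 2191752046) (nat_lit 68) (nat_lit 5) (nat_lit 74) (nat_lit 5) (nat_lit 69) (nat_lit 5) (nat_lit 351) (nat_lit 342) (nat_lit 327))))))))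
noncomputable def xc100 : XT := (XT.nd (nat_lit 1560) (nat_lit 1216) (nat_lit 0) (XT.nd (nat_lit 780) (nat_lit 912) (nat_lit 0) (XT.nd (nat_lit 390) (nat_lit 912) (nat_lit 0) (XT.nd (nat_lit 156) (nat_lit 228) (nat_lit 0) (XT.nd (nat_lit 78) (nat_lit 456) (nat_lit 0) (XT.lf (nat_lit 0) (nat_lit 3867616487) (nat_lit 456) (nat_lit 3117265632) (nat_lit 532) (nat_lit 1130490399) (nat_lit 62) (nat_lit 5) (nat_lit 68) (nat_lit 5) (nat_lit 69) (nat_lit 5) (nat_lit 352) (nat_lit 342) (nat_lit 326)) (XT.lf (nat_lit 0) (nat_lit 747511608) (nat_lit 380) (nat_lit 271655935) (nat_lit 456) (nat_lit 7368715108) (nat_lit 56) (nat_lit 5) (nat_lit 61) (nat_lit 5) (nat_lit 62) (nat_lit 5) (nat_lit 353) (nat_lit 342) (nat_lit 325))) (XT.nd (nat_lit 78) (nat_lit 228) (nat_lit 0) (XT.lf (nat_lit 0) (nat_lit 3330654762) (nat_lit 456) (nat_lit 2539155367) (nat_lit 76) (nat_lit 2806079056) (nat_lit 56) (nat_lit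 5) (nat_lit 62) (nat_lit 5) (nat_lit 57) (nat_lit 5) (nat_lit 354) (nat_lit 342) (nat_lit 324)) (XT.nd (nat_lit 78) (nat_lit 0) (nat_lit 0) (XT.lf (nat_lit 0) (nat_lit 2972473852) (nat_lit 228) (nat_lit 2807571954) (nat_lit 304) (nat_lit 3210762073) (nat_lit 53) (nat_lit 5) (nat_lit 56) (nat_lit 5) (nat_lit 57) (nat_lit 5) (nat_lit 355) (nat_lit 342) (nat_lit 323)) (XT.lf (nat_lit 0) (nat_lit 8388717118) (nat_lit 304) (nat_lit 414816979) (nat_lit 76) (nat_lit 530421898) (nat_lit 53) (nat_lit 5) (nat_lit 57) (nat_lit 5) (nat_lit 54) (nat_lit 5) (nat_lit 356) (nat_lit 342) (nat_lit 322))))) (XT.nd (nat_lit 156) (nat_lit 456) (nat_lit 0) (XT.nd (nat_lit 78) (nat_lit 152) (nat_lit 0) (XT.lf (nat_lit 0) (nat_lit 1528256882) (nat_lit 304) (nat_lit 4019737575) (nat_lit 76) (nat_lit 4145612774) (nat_lit 49) (nat_lit 5) (nat_lit 53) (nat_lit 5) (nat_lit 50) (nat_lit 5) (nat_lit 357) (nat_lit 342)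 (nat_lit 321)) (XT.lf (nat_lit 0) (nat_lit 2137465234) (nat_lit 152) (nat_lit 1965349614) (nat_lit 228) (nat_lit 5980992751) (nat_lit 47) (nat_lit 5) (nat_lit 49) (nat_lit 5) (nat_lit 50) (nat_lit 5) (nat_lit 358) (nat_lit 342) (nat_lit 320))) (XT.nd (nat_lit 78) (nat_lit 456) (nat_lit 0) (XT.lf (nat_lit 0) (nat_lit 6937243525) (nat_lit 228) (nat_lit 1670180343) (nat_lit 76) (nat_lit 1893562797) (nat_lit 47) (nat_lit 5) (nat_lit 50) (nat_lit 5) (nat_lit 48) (nat_lit 5) (nat_lit 359) (nat_lit 342) (nat_lit 319)) (XT.nd (nat_lit 78) (nat_lit 228) (nat_lit 0) (XT.lf (nat_lit 0) (nat_lit 5185933686) (nat_lit 228) (nat_lit 4891369718) (nat_lit 304) (nat_lit 867996087) (nat_lit 44) (nat_lit 5) (nat_lit 47) (nat_lit 5) (nat_lit 48) (nat_lit 5) (nat_lit 360) (nat_lit 342) (nat_lit 318)) (XT.lf (nat_lit 0) (nat_lit 1138346585) (nat_lit 152) (nat_lit 781827471) (nat_lit 228) (nat_lit 9502792777)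 (nat_lit 41) (nat_lit 5) (nat_lit 43) (nat_lit 5) (nat_lit 44) (nat_lit 5) (nat_lit 361) (nat_lit 342) (nat_lit 317)))))) (XT.nd (nat_lit 390) (nat_lit 380) (nat_lit 0) (XT.nd (nat_lit 156) (nat_lit 380) (nat_lit 0) (XT.nd (nat_lit 78) (nat_lit 152) (nat_lit 0) (XT.lf (nat_lit 0) (nat_lit 5041806219) (nat_lit 228) (nat_lit 3260797102) (nat_lit 76) (nat_lit 3621911636) (nat_lit 41) (nat_lit 5) (nat_lit 44) (nat_lit 5) (nat_lit 42) (nat_lit 5) (nat_lit 362) (nat_lit 342) (nat_lit 316)) (XT.lf (nat_lit 0) (nat_lit 4399336641) (nat_lit 152) (nat_lit 4054576008) (nat_lit 228) (nat_lit 4009065937) (nat_lit 39) (nat_lit 5) (nat_lit 41) (nat_lit 5) (nat_lit 42) (nat_lit 5) (nat_lit 363) (nat_lit 342) (nat_lit 315))) (XT.nd (nat_lit 78) (nat_lit 380) (nat_lit 0) (XT.lf (nat_lit 0) (nat_lit 12160335377) (nat_lit 228) (nat_lit 322628842) (nat_lit 76) (nat_lit 559894620) (nat_lit 39) (nat_lit 5) (nat_lit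 42) (nat_lit 5) (nat_lit 40) (nat_lit 4) (nat_lit 364) (nat_lit 342) (nat_lit 314)) (XT.nd (nat_lit 78) (nat_lit 152) (nat_lit 0) (XT.lf (nat_lit 0) (nat_lit 2601543446) (nat_lit 228) (nat_lit 5491463470) (nat_lit 76) (nat_lit 5552791014) (nat_lit 36) (nat_lit 5) (nat_lit 39) (nat_lit 5) (nat_lit 37) (nat_lit 5) (nat_lit 365) (nat_lit 342) (nat_lit 313)) (XT.lf (nat_lit 0) (nat_lit 3041121258) (nat_lit 152) (nat_lit 3281876475) (nat_lit 228) (nat_lit 7971670900) (nat_lit 34) (nat_lit 5) (nat_lit 36) (nat_lit 5) (nat_lit 37) (nat_lit 5) (nat_lit 366) (nat_lit 342) (nat_lit 312))))) (XT.nd (nat_lit 156) (nat_lit 304) (nat_lit 0) (XT.nd (nat_lit 78) (nat_lit 76) (nat_lit 0) (XT.lf (nat_lit 0) (nat_lit 10468178953) (nat_lit 228) (nat_lit 2585960075) (nat_lit 76) (nat_lit 1931263928) (nat_lit 34) (nat_lit 5) (nat_lit 37) (nat_lit 5) (nat_lit 35) (nat_lit 4) (nat_lit 367) (nat_lit 342) (nat_lit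 311)) (XT.lf (nat_lit 0) (nat_lit 6923926838) (nat_lit 76) (nat_lit 8204227836) (nat_lit 152) (nat_lit 588619181) (nat_lit 33) (nat_lit 5) (nat_lit 34) (nat_lit 5) (nat_lit 35) (nat_lit 4) (nat_lit 368) (nat_lit 342) (nat_lit 310))) (XT.nd (nat_lit 78) (nat_lit 76) (nat_lit 0) (XT.lf (nat_lit 0) (nat_lit 671557015) (nat_lit 152) (nat_lit 2820726909) (nat_lit 228) (nat_lit 13005702388) (nat_lit 30) (nat_lit 5) (nat_lit 32) (nat_lit 5) (nat_lit 33) (nat_lit 5) (nat_lit 369) (nat_lit 342) (nat_lit 309)) (XT.nd (nat_lit 78) (nat_lit 76) (nat_lit 0) (XT.lf (nat_lit 0) (nat_lit 8119933369) (nat_lit 228) (nat_lit 6137137938) (nat_lit 76) (nat_lit 3063260956) (nat_lit 30) (nat_lit 5) (nat_lit 33) (nat_lit 5) (nat_lit 31) (nat_lit 4) (nat_lit 370) (nat_lit 342) (nat_lit 308)) (XT.lf (nat_lit 0) (nat_lit 4366615417) (nat_lit 76) (nat_lit 8867819306) (nat_lit 152) (nat_lit 4964723661) (nat_lit 29)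 (nat_lit 5) (nat_lit 30) (nat_lit 5) (nat_lit 31) (nat_lit 4) (nat_lit 371) (nat_lit 342) (nat_lit 307))))))) (XT.nd (nat_lit 780) (nat_lit 532) (nat_lit 0) (XT.nd (nat_lit 390) (nat_lit 228) (nat_lit 0) (XT.nd (nat_lit 156) (nat_lit 228) (nat_lit 0) (XT.nd (nat_lit 78) (nat_lit 228) (nat_lit 0) (XT.lf (nat_lit 0) (nat_lit 15956521830) (nat_lit 76) (nat_lit 2909816555) (nat_lit 152) (nat_lit 273314770) (nat_lit 29) (nat_lit 5) (nat_lit 30) (nat_lit 5) (nat_lit 31) (nat_lit 4) (nat_lit 372) (nat_lit 342) (nat_lit 306)) (XT.lf (nat_lit 0) (nat_lit 4794285774) (nat_lit 228) (nat_lit 11695197128) (nat_lit 76) (nat_lit 3637447725) (nat_lit 26) (nat_lit 5) (nat_lit 29) (nat_lit 5) (nat_lit 27) (nat_lit 4) (nat_lit 373) (nat_lit 342) (nat_lit 305))) (XT.nd (nat_lit 78) (nat_lit 228) (nat_lit 0) (XT.lf (nat_lit 0) (nat_lit 10361692062) (nat_lit 228) (nat_lit 213787016) (nat_lit 76) (nat_lit 10608427602)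 (nat_lit 26) (nat_lit 5) (nat_lit 29) (nat_lit 5) (nat_lit 27) (nat_lit 4) (nat_lit 374) (nat_lit 342) (nat_lit 304)) (XT.nd (nat_lit 78) (nat_lit 152) (nat_lit 0) (XT.lf (nat_lit 0) (nat_lit 12730918560) (nat_lit 76) (nat_lit 3898168885) (nat_lit 152) (nat_lit 5676001769) (nat_lit 25) (nat_lit 5) (nat_lit 26) (nat_lit 5) (nat_lit 27) (nat_lit 4) (nat_lit 375) (nat_lit 342) (nat_lit 303)) (XT.lf (nat_lit 0) (nat_lit 2348086) (nat_lit 152) (nat_lit 20312045691) (nat_lit 76) (nat_lit 3192651003) (nat_lit 23) (nat_lit 5) (nat_lit 25) (nat_lit 5) (nat_lit 24) (nat_lit 4) (nat_lit 376) (nat_lit 342) (nat_lit 302))))) (XT.nd (nat_lit 156) (nat_lit 152) (nat_lit 0) (XT.nd (nat_lit 78) (nat_lit 76) (nat_lit 0) (XT.lf (nat_lit 0) (nat_lit 6147562794) (nat_lit 152) (nat_lit 7602616348) (nat_lit 76) (nat_lit 11017656289) (nat_lit 23) (nat_lit 5) (nat_lit 25) (nat_lit 5) (nat_lit 24) (nat_lit 4) (nat_lit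 377) (nat_lit 342) (nat_lit 301)) (XT.lf (nat_lit 0) (nat_lit 6355264503) (nat_lit 76) (nat_lit 6535143985) (nat_lit 152) (nat_lit 13230611591) (nat_lit 22) (nat_lit 5) (nat_lit 23) (nat_lit 5) (nat_lit 24) (nat_lit 4) (nat_lit 378) (nat_lit 342) (nat_lit 300))) (XT.nd (nat_lit 78) (nat_lit 152) (nat_lit 0) (XT.lf (nat_lit 0) (nat_lit 20369870959) (nat_lit 152) (nat_lit 5826067078) (nat_lit 0) (nat_lit 1370757308) (nat_lit 22) (nat_lit 5) (nat_lit 24) (nat_lit 4) (nat_lit 22) (nat_lit 4) (nat_lit 379) (nat_lit 342) (nat_lit 299)) (XT.nd (nat_lit 78) (nat_lit 76) (nat_lit 0) (XT.lf (nat_lit 0) (nat_lit 9451534191) (nat_lit 76) (nat_lit 19350328172) (nat_lit 76) (nat_lit 297838675) (nat_lit 21) (nat_lit 4) (nat_lit 22) (nat_lit 5) (nat_lit 22) (nat_lit 4) (nat_lit 380) (nat_lit 342) (nat_lit 298)) (XT.lf (nat_lit 0) (nat_lit 6915995836) (nat_lit 152) (nat_lit 4716640236) (nat_lit 76) (nat_lit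 19099296892) (nat_lit 20) (nat_lit 5) (nat_lit 22) (nat_lit 5) (nat_lit 21) (nat_lit 4) (nat_lit 381) (nat_lit 342) (nat_lit 297)))))) (XT.nd (nat_lit 390) (nat_lit 228) (nat_lit 0) (XT.nd (nat_lit 156) (nat_lit 228) (nat_lit 0) (XT.nd (nat_lit 78) (nat_lit 0) (nat_lit 0) (XT.lf (nat_lit 0) (nat_lit 11923558538) (nat_lit 76) (nat_lit 3014533433) (nat_lit 152) (nat_lit 17536260983) (nat_lit 19) (nat_lit 5) (nat_lit 20) (nat_lit 5) (nat_lit 21) (nat_lit 4) (nat_lit 382) (nat_lit 342) (nat_lit 296)) (XT.lf (nat_lit 0) (nat_lit 23846450680) (nat_lit 152) (nat_lit 4412272531) (nat_lit 0) (nat_lit 6077891208) (nat_lit 19) (nat_lit 5) (nat_lit 21) (nat_lit 4) (nat_lit 19) (nat_lit 4) (nat_lit 383) (nat_lit 342) (nat_lit 295))) (XT.nd (nat_lit 78) (nat_lit 152) (nat_lit 0) (XT.lf (nat_lit 0) (nat_lit 13547336435) (nat_lit 76) (nat_lit 20287992688) (nat_lit 76) (nat_lit 2483106512) (nat_lit 18)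 (nat_lit 4) (nat_lit 19) (nat_lit 5) (nat_lit 19) (nat_lit 4) (nat_lit 384) (nat_lit 342) (nat_lit 294)) (XT.nd (nat_lit 78) (nat_lit 76) (nat_lit 0) (XT.lf (nat_lit 0) (nat_lit 5943790940) (nat_lit 152) (nat_lit 5475436857) (nat_lit 76) (nat_lit 27020708168) (nat_lit 17) (nat_lit 5) (nat_lit 19) (nat_lit 5) (nat_lit 18) (nat_lit 4) (nat_lit 385) (nat_lit 342) (nat_lit 293)) (XT.lf (nat_lit 0) (nat_lit 13763500073) (nat_lit 76) (nat_lit 1444752994) (nat_lit 152) (nat_lit 25493943831) (nat_lit 16) (nat_lit 5) (nat_lit 17) (nat_lit 5) (nat_lit 18) (nat_lit 4) (nat_lit 386) (nat_lit 342) (nat_lit 292))))) (XT.nd (nat_lit 234) (nat_lit 76) (nat_lit 0) (XT.nd (nat_lit 78) (nat_lit 152) (nat_lit 0) (XT.lf (nat_lit 0) (nat_lit 25558592420) (nat_lit 152) (nat_lit 8573369863) (nat_lit 0) (nat_lit 8985903886) (nat_lit 16) (nat_lit 5) (nat_lit 18) (nat_lit 4) (nat_lit 16) (nat_lit 4) (nat_lit 387)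 (nat_lit 342) (nat_lit 291)) (XT.nd (nat_lit 78) (nat_lit 76) (nat_lit 0) (XT.lf (nat_lit 0) (nat_lit 11751678120) (nat_lit 76) (nat_lit 25274687457) (nat_lit 76) (nat_lit 8677275579) (nat_lit 15) (nat_lit 4) (nat_lit 16) (nat_lit 5) (nat_lit 16) (nat_lit 4) (nat_lit 388) (nat_lit 342) (nat_lit 290)) (XT.lf (nat_lit 0) (nat_lit 1079343188) (nat_lit 152) (nat_lit 14375270032) (nat_lit 76) (nat_lit 33023120200) (nat_lit 14) (nat_lit 5) (nat_lit 16) (nat_lit 5) (nat_lit 15) (nat_lit 4) (nat_lit 389) (nat_lit 342) (nat_lit 289)))) (XT.nd (nat_lit 78) (nat_lit 0) (nat_lit 0) (XT.lf (nat_lit 0) (nat_lit 6828242943) (nat_lit 76) (nat_lit 4455287388) (nat_lit 152) (nat_lit 40161328797) (nat_lit 13) (nat_lit 5) (nat_lit 14) (nat_lit 5) (nat_lit 15) (nat_lit 4) (nat_lit 390) (nat_lit 342) (nat_lit 288)) (XT.nd (nat_lit 78) (nat_lit 0) (nat_lit 0) (XT.lf (nat_lit 0) (nat_lit 22857634882) (nat_lit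 152) (nat_lit 24316770823) (nat_lit 0) (nat_lit 7430666053) (nat_lit 13) (nat_lit 5) (nat_lit 15) (nat_lit 4) (nat_lit 13) (nat_lit 4) (nat_lit 391) (nat_lit 342) (nat_lit 287)) (XT.lf (nat_lit 0) (nat_lit 35447260937) (nat_lit 152) (nat_lit 2560210398) (nat_lit 0) (nat_lit 20003465815) (nat_lit 13) (nat_lit 5) (nat_lit 15) (nat_lit 4) (nat_lit 13) (nat_lit 4) (nat_lit 392) (nat_lit 342) (nat_lit 286))))))))
noncomputable def xc101 : XT := (XT.nd (nat_lit 1560) (nat_lit 228) (nat_lit 0) (XT.nd (nat_lit 780) (nat_lit 228) (nat_lit 0) (XT.nd (nat_lit 390) (nat_lit 228) (nat_lit 0) (XT.nd (nat_lit 156) (nat_lit 152) (nat_lit 0) (XT.nd (nat_lit 78) (nat_lit 0) (nat_lit 0) (XT.lf (nat_lit 0) (nat_lit 21989127854) (nat_lit 76) (nat_lit 27559575118) (nat_lit 76) (nat_lit 12100200095) (nat_lit 12) (nat_lit 4) (nat_lit 13) (nat_lit 5) (nat_lit 13) (nat_lit 4) (nat_lit 393) (nat_lit 342) (nat_lit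 285)) (XT.lf (nat_lit 0) (nat_lit 48601490775) (nat_lit 76) (nat_lit 16223250314) (nat_lit 76) (nat_lit 749449458) (nat_lit 12) (nat_lit 4) (nat_lit 13) (nat_lit 5) (nat_lit 13) (nat_lit 4) (nat_lit 394) (nat_lit 342) (nat_lit 284))) (XT.nd (nat_lit 78) (nat_lit 0) (nat_lit 0) (XT.lf (nat_lit 0) (nat_lit 7587860120) (nat_lit 76) (nat_lit 3505898644) (nat_lit 152) (nat_lit 58684789191) (nat_lit 10) (nat_lit 5) (nat_lit 11) (nat_lit 5) (nat_lit 12) (nat_lit 4) (nat_lit 395) (nat_lit 342) (nat_lit 283)) (XT.nd (nat_lit 78) (nat_lit 0) (nat_lit 0) (XT.lf (nat_lit 0) (nat_lit 24543812204) (nat_lit 152) (nat_lit 39525497070) (nat_lit 0) (nat_lit 10192399299) (nat_lit 10) (nat_lit 5) (nat_lit 12) (nat_lit 4) (nat_lit 10) (nat_lit 4) (nat_lit 396) (nat_lit 342) (nat_lit 282)) (XT.lf (nat_lit 0) (nat_lit 39140336969) (nat_lit 152) (nat_lit 15179229081) (nat_lit 0) (nat_lit 24778320645) (nat_lit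 10) (nat_lit 5) (nat_lit 12) (nat_lit 4) (nat_lit 10) (nat_lit 4) (nat_lit 397) (nat_lit 342) (nat_lit 281))))) (XT.nd (nat_lit 156) (nat_lit 152) (nat_lit 0) (XT.nd (nat_lit 78) (nat_lit 0) (nat_lit 0) (XT.lf (nat_lit 0) (nat_lit 11659987033) (nat_lit 76) (nat_lit 43505949973) (nat_lit 76) (nat_lit 29134115669) (nat_lit 9) (nat_lit 4) (nat_lit 10) (nat_lit 5) (nat_lit 10) (nat_lit 4) (nat_lit 398) (nat_lit 342) (nat_lit 280)) (XT.lf (nat_lit 0) (nat_lit 41472526421) (nat_lit 76) (nat_lit 31397536998) (nat_lit 76) (nat_lit 17016611972) (nat_lit 9) (nat_lit 4) (nat_lit 10) (nat_lit 5) (nat_lit 10) (nat_lit 4) (nat_lit 399) (nat_lit 342) (nat_lit 279))) (XT.nd (nat_lit 78) (nat_lit 152) (nat_lit 0) (XT.lf (nat_lit 0) (nat_lit 73635744679) (nat_lit 76) (nat_lit 18337600593) (nat_lit 76) (nat_lit 3948258231) (nat_lit 9) (nat_lit 4) (nat_lit 10) (nat_lit 5) (nat_lit 10) (nat_lit 4) (nat_lit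 400) (nat_lit 342) (nat_lit 278)) (XT.nd (nat_lit 78) (nat_lit 0) (nat_lit 0) (XT.lf (nat_lit 0) (nat_lit 5953382444) (nat_lit 76) (nat_lit 3830520746) (nat_lit 152) (nat_lit 92625716519) (nat_lit 7) (nat_lit 5) (nat_lit 8) (nat_lit 5) (nat_lit 9) (nat_lit 4) (nat_lit 401) (nat_lit 342) (nat_lit 277)) (XT.lf (nat_lit 0) (nat_lit 25294917067) (nat_lit 152) (nat_lit 72084516742) (nat_lit 0) (nat_lit 11957553456) (nat_lit 7) (nat_lit 5) (nat_lit 9) (nat_lit 4) (nat_lit 7) (nat_lit 4) (nat_lit 402) (nat_lit 342) (nat_lit 276)))))) (XT.nd (nat_lit 390) (nat_lit 152) (nat_lit 0) (XT.nd (nat_lit 156) (nat_lit 76) (nat_lit 0) (XT.nd (nat_lit 78) (nat_lit 0) (nat_lit 0) (XT.lf (nat_lit 0) (nat_lit 42131253446) (nat_lit 152) (nat_lit 45892833807) (nat_lit 0) (nat_lit 28787702842) (nat_lit 7) (nat_lit 5) (nat_lit 9) (nat_lit 4) (nat_lit 7) (nat_lit 4) (nat_lit 403) (nat_lit 342) (nat_lit 275)) (XT.lf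 (nat_lit 0) (nat_lit 60300559091) (nat_lit 152) (nat_lit 17633854371) (nat_lit 0) (nat_lit 46951279789) (nat_lit 7) (nat_lit 5) (nat_lit 9) (nat_lit 4) (nat_lit 7) (nat_lit 4) (nat_lit 404) (nat_lit 342) (nat_lit 274))) (XT.nd (nat_lit 78) (nat_lit 0) (nat_lit 0) (XT.lf (nat_lit 0) (nat_lit 13537060790) (nat_lit 76) (nat_lit 66699009809) (nat_lit 76) (nat_lit 53344426158) (nat_lit 6) (nat_lit 4) (nat_lit 7) (nat_lit 5) (nat_lit 7) (nat_lit 4) (nat_lit 405) (nat_lit 342) (nat_lit 273)) (XT.nd (nat_lit 78) (nat_lit 0) (nat_lit 0) (XT.lf (nat_lit 0) (nat_lit 48179198099) (nat_lit 76) (nat_lit 54056807913) (nat_lit 76) (nat_lit 40697312828) (nat_lit 6) (nat_lit 4) (nat_lit 7) (nat_lit 5) (nat_lit 7) (nat_lit 4) (nat_lit 406) (nat_lit 342) (nat_lit 272)) (XT.lf (nat_lit 0) (nat_lit 85569276775) (nat_lit 76) (nat_lit 40415031851) (nat_lit 76) (nat_lit 27050989141) (nat_lit 6) (nat_lit 4) (nat_lit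 7) (nat_lit 5) (nat_lit 7) (nat_lit 4) (nat_lit 407) (nat_lit 342) (nat_lit 271))))) (XT.nd (nat_lit 156) (nat_lit 76) (nat_lit 0) (XT.nd (nat_lit 78) (nat_lit 76) (nat_lit 0) (XT.lf (nat_lit 0) (nat_lit 125928867652) (nat_lit 76) (nat_lit 25692841468) (nat_lit 76) (nat_lit 12324587995) (nat_lit 6) (nat_lit 4) (nat_lit 7) (nat_lit 5) (nat_lit 7) (nat_lit 4) (nat_lit 408) (nat_lit 342) (nat_lit 270)) (XT.lf (nat_lit 0) (nat_lit 3390614426) (nat_lit 152) (nat_lit 6319674321) (nat_lit 76) (nat_lit 166013818844) (nat_lit 5) (nat_lit 5) (nat_lit 7) (nat_lit 5) (nat_lit 6) (nat_lit 4) (nat_lit 409) (nat_lit 342) (nat_lit 269))) (XT.nd (nat_lit 78) (nat_lit 0) (nat_lit 0) (XT.lf (nat_lit 0) (nat_lit 20593621720) (nat_lit 152) (nat_lit 159544540811) (nat_lit 0) (nat_lit 8208656554) (nat_lit 4) (nat_lit 5) (nat_lit 6) (nat_lit 4) (nat_lit 4) (nat_lit 4) (nat_lit 410) (nat_lit 342) (nat_lit 268))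 (XT.nd (nat_lit 78) (nat_lit 0) (nat_lit 0) (XT.lf (nat_lit 0) (nat_lit 39592921096) (nat_lit 152) (nat_lit 135147961978) (nat_lit 0) (nat_lit 27204860893) (nat_lit 4) (nat_lit 5) (nat_lit 6) (nat_lit 4) (nat_lit 4) (nat_lit 4) (nat_lit 411) (nat_lit 342) (nat_lit 267)) (XT.lf (nat_lit 0) (nat_lit 60103420932) (nat_lit 152) (nat_lit 108817366979) (nat_lit 0) (nat_lit 47712494954) (nat_lit 4) (nat_lit 5) (nat_lit 6) (nat_lit 4) (nat_lit 4) (nat_lit 4) (nat_lit 412) (nat_lit 342) (nat_lit 266))))))) (XT.nd (nat_lit 780) (nat_lit 152) (nat_lit 0) (XT.nd (nat_lit 390) (nat_lit 0) (nat_lit 0) (XT.nd (nat_lit 156) (nat_lit 76) (nat_lit 0) (XT.nd (nat_lit 78) (nat_lit 0) (nat_lit 0) (XT.lf (nat_lit 0) (nat_lit 82246664930) (nat_lit 152) (nat_lit 80396722658) (nat_lit 0) (nat_lit 69853085457) (nat_lit 4) (nat_lit 5) (nat_lit 6) (nat_lit 4) (nat_lit 4) (nat_lit 4) (nat_lit 413) (nat_lit 342) (nat_lit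 265)) (XT.lf (nat_lit 0) (nat_lit 106153872314) (nat_lit 152) (nat_lit 49717610383) (nat_lit 0) (nat_lit 93757835901) (nat_lit 4) (nat_lit 5) (nat_lit 6) (nat_lit 4) (nat_lit 4) (nat_lit 4) (nat_lit 414) (nat_lit 342) (nat_lit 264))) (XT.nd (nat_lit 78) (nat_lit 76) (nat_lit 0) (XT.lf (nat_lit 0) (nat_lit 131966715425) (nat_lit 152) (nat_lit 16598228007) (nat_lit 0) (nat_lit 119568404067) (nat_lit 4) (nat_lit 5) (nat_lit 6) (nat_lit 4) (nat_lit 4) (nat_lit 4) (nat_lit 415) (nat_lit 342) (nat_lit 263)) (XT.nd (nat_lit 78) (nat_lit 0) (nat_lit 0) (XT.lf (nat_lit 0) (nat_lit 20166497349) (nat_lit 76) (nat_lit 140156666654) (nat_lit 76) (nat_lit 127756248867) (nat_lit 3) (nat_lit 4) (nat_lit 4) (nat_lit 5) (nat_lit 4) (nat_lit 4) (nat_lit 416) (nat_lit 342) (nat_lit 262)) (XT.lf (nat_lit 0) (nat_lit 60803668743) (nat_lit 76) (nat_lit 130592028877) (nat_lit 76) (nat_lit 118189660691) (nat_lit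 3) (nat_lit 4) (nat_lit 4) (nat_lit 5) (nat_lit 4) (nat_lit 4) (nat_lit 417) (nat_lit 342) (nat_lit 261))))) (XT.nd (nat_lit 156) (nat_lit 0) (nat_lit 0) (XT.nd (nat_lit 78) (nat_lit 0) (nat_lit 0) (XT.lf (nat_lit 0) (nat_lit 104680065769) (nat_lit 76) (nat_lit 120268175732) (nat_lit 76) (nat_lit 107864001622) (nat_lit 3) (nat_lit 4) (nat_lit 4) (nat_lit 5) (nat_lit 4) (nat_lit 4) (nat_lit 418) (nat_lit 342) (nat_lit 260)) (XT.lf (nat_lit 0) (nat_lit 152055696706) (nat_lit 76) (nat_lit 109123928832) (nat_lit 76) (nat_lit 96718082570) (nat_lit 3) (nat_lit 4) (nat_lit 4) (nat_lit 5) (nat_lit 4) (nat_lit 4) (nat_lit 419) (nat_lit 342) (nat_lit 259))) (XT.nd (nat_lit 78) (nat_lit 0) (nat_lit 0) (XT.lf (nat_lit 0) (nat_lit 203211306034) (nat_lit 76) (nat_lit 97093248195) (nat_lit 76) (nat_lit 84685853644) (nat_lit 3) (nat_lit 4) (nat_lit 4) (nat_lit 5) (nat_lit 4) (nat_lit 4) (nat_lit 420)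 (nat_lit 342) (nat_lit 258)) (XT.nd (nat_lit 78) (nat_lit 0) (nat_lit 0) (XT.lf (nat_lit 0) (nat_lit 258450038103) (nat_lit 76) (nat_lit 84104840898) (nat_lit 76) (nat_lit 71696012746) (nat_lit 3) (nat_lit 4) (nat_lit 4) (nat_lit 5) (nat_lit 4) (nat_lit 4) (nat_lit 421) (nat_lit 342) (nat_lit 257)) (XT.lf (nat_lit 0) (nat_lit 318099233550) (nat_lit 76) (nat_lit 70081738602) (nat_lit 76) (nat_lit 57671583042) (nat_lit 3) (nat_lit 4) (nat_lit 4) (nat_lit 5) (nat_lit 4) (nat_lit 4) (nat_lit 422) (nat_lit 342) (nat_lit 256)))))) (XT.nd (nat_lit 390) (nat_lit 0) (nat_lit 0) (XT.nd (nat_lit 156) (nat_lit 152) (nat_lit 0) (XT.nd (nat_lit 78) (nat_lit 0) (nat_lit 0) (XT.lf (nat_lit 0) (nat_lit 382512369087) (nat_lit 76) (nat_lit 54940841442) (nat_lit 76) (nat_lit 42529456800) (nat_lit 3) (nat_lit 4) (nat_lit 4) (nat_lit 5) (nat_lit 4) (nat_lit 4) (nat_lit 423) (nat_lit 342) (nat_lit 255)) (XT.lf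 (nat_lit 0) (nat_lit 452071152184) (nat_lit 76) (nat_lit 38592425581) (nat_lit 76) (nat_lit 26179902901) (nat_lit 3) (nat_lit 4) (nat_lit 4) (nat_lit 5) (nat_lit 4) (nat_lit 4) (nat_lit 424) (nat_lit 342) (nat_lit 254))) (XT.nd (nat_lit 78) (nat_lit 152) (nat_lit 0) (XT.lf (nat_lit 0) (nat_lit 527187783038) (nat_lit 76) (nat_lit 20939611520) (nat_lit 76) (nat_lit 8526035100) (nat_lit 3) (nat_lit 4) (nat_lit 4) (nat_lit 5) (nat_lit 4) (nat_lit 4) (nat_lit 425) (nat_lit 342) (nat_lit 253)) (XT.nd (nat_lit 78) (nat_lit 0) (nat_lit 0) (XT.lf (nat_lit 0) (nat_lit 8848184780) (nat_lit 76) (nat_lit 1374284875) (nat_lit 152) (nat_lit 589388658782) (nat_lit 1) (nat_lit 5) (nat_lit 2) (nat_lit 5) (nat_lit 3) (nat_lit 4) (nat_lit 426) (nat_lit 342) (nat_lit 252)) (XT.lf (nat_lit 0) (nat_lit 31308731541) (nat_lit 152) (nat_lit 594762175575) (nat_lit 0) (nat_lit 19812939397) (nat_lit 1) (nat_lit 5)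 (nat_lit 3) (nat_lit 4) (nat_lit 1) (nat_lit 4) (nat_lit 427) (nat_lit 342) (nat_lit 251))))) (XT.nd (nat_lit 234) (nat_lit 0) (nat_lit 0) (XT.nd (nat_lit 78) (nat_lit 0) (nat_lit 0) (XT.lf (nat_lit 0) (nat_lit 54114623971) (nat_lit 152) (nat_lit 599123082548) (nat_lit 0) (nat_lit 42618057296) (nat_lit 1) (nat_lit 5) (nat_lit 3) (nat_lit 4) (nat_lit 1) (nat_lit 4) (nat_lit 428) (nat_lit 342) (nat_lit 250)) (XT.nd (nat_lit 78) (nat_lit 0) (nat_lit 0) (XT.lf (nat_lit 0) (nat_lit 78742241389) (nat_lit 152) (nat_lit 603838455405) (nat_lit 0) (nat_lit 67244957557) (nat_lit 1) (nat_lit 5) (nat_lit 3) (nat_lit 4) (nat_lit 1) (nat_lit 4) (nat_lit 429) (nat_lit 342) (nat_lit 249)) (XT.lf (nat_lit 0) (nat_lit 105337525232) (nat_lit 152) (nat_lit 608936237094) (nat_lit 0) (nat_lit 93839577366) (nat_lit 1) (nat_lit 5) (nat_lit 3) (nat_lit 4) (nat_lit 1) (nat_lit 4) (nat_lit 430) (nat_lit 342) (nat_lit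 248)))) (XT.nd (nat_lit 78) (nat_lit 0) (nat_lit 0) (XT.lf (nat_lit 0) (nat_lit 134058077183) (nat_lit 152) (nat_lit 614446636694) (nat_lit 0) (nat_lit 122559514470) (nat_lit 1) (nat_lit 5) (nat_lit 3) (nat_lit 4) (nat_lit 1) (nat_lit 4) (nat_lit 431) (nat_lit 342) (nat_lit 247)) (XT.nd (nat_lit 78) (nat_lit 0) (nat_lit 0) (XT.lf (nat_lit 0) (nat_lit 165074093105) (nat_lit 152) (nat_lit 620402308424) (nat_lit 0) (nat_lit 153574961088) (nat_lit 1) (nat_lit 5) (nat_lit 3) (nat_lit 4) (nat_lit 1) (nat_lit 4) (nat_lit 432) (nat_lit 342) (nat_lit 246)) (XT.lf (nat_lit 0) (nat_lit 198569371610) (nat_lit 152) (nat_lit 626838545153) (nat_lit 0) (nat_lit 187069712461) (nat_lit 1) (nat_lit 5) (nat_lit 3) (nat_lit 4) (nat_lit 1) (nat_lit 4) (nat_lit 433) (nat_lit 342) (nat_lit 245))))))))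
noncomputable def xc102 : XT := (XT.nd (nat_lit 1560) (nat_lit 0) (nat_lit 0) (XT.nd (nat_lit 780) (nat_lit 0) (nat_lit 0) (XT.nd (nat_lit 390) (nat_lit 0) (nat_lit 0) (XT.nd (nat_lit 156) (nat_lit 0) (nat_lit 0) (XT.nd (nat_lit 78) (nat_lit 0) (nat_lit 0) (XT.lf (nat_lit 0) (nat_lit 234742403237) (nat_lit 152) (nat_lit 633793487544) (nat_lit 0) (nat_lit 223242256004) (nat_lit 1) (nat_lit 5) (nat_lit 3) (nat_lit 4) (nat_lit 1) (nat_lit 4) (nat_lit 434) (nat_lit 342) (nat_lit 244)) (XT.lf (nat_lit 0) (nat_lit 273807546694) (nat_lit 152) (nat_lit 641308350069) (nat_lit 0) (nat_lit 262306947530) (nat_lit 1) (nat_lit 5) (nat_lit 3) (nat_lit 4) (nat_lit 1) (nat_lit 4) (nat_lit 435) (nat_lit 342) (nat_lit 243))) (XT.nd (nat_lit 78) (nat_lit 0) (nat_lit 0) (XT.lf (nat_lit 0) (nat_lit 315996299126) (nat_lit 152) (nat_lit 649427665249) (nat_lit 0) (nat_lit 304495281507) (nat_lit 1) (nat_lit 5)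 (nat_lit 3) (nat_lit 4) (nat_lit 1) (nat_lit 4) (nat_lit 436) (nat_lit 342) (nat_lit 242)) (XT.nd (nat_lit 78) (nat_lit 0) (nat_lit 0) (XT.lf (nat_lit 0) (nat_lit 361558667955) (nat_lit 152) (nat_lit 658199547542) (nat_lit 0) (nat_lit 350057262878) (nat_lit 1) (nat_lit 5) (nat_lit 3) (nat_lit 4) (nat_lit 1) (nat_lit 4) (nat_lit 437) (nat_lit 342) (nat_lit 241)) (XT.lf (nat_lit 0) (nat_lit 410764652403) (nat_lit 152) (nat_lit 667675978474) (nat_lit 0) (nat_lit 399262888570) (nat_lit 1) (nat_lit 5) (nat_lit 3) (nat_lit 4) (nat_lit 1) (nat_lit 4) (nat_lit 438) (nat_lit 342) (nat_lit 240))))) (XT.nd (nat_lit 156) (nat_lit 0) (nat_lit 0) (XT.nd (nat_lit 78) (nat_lit 0) (nat_lit 0) (XT.lf (nat_lit 0) (nat_lit 463905843491) (nat_lit 152) (nat_lit 677913114672) (nat_lit 0) (nat_lit 452403747474) (nat_lit 1) (nat_lit 5) (nat_lit 3) (nat_lit 4) (nat_lit 1) (nat_lit 4) (nat_lit 439) (nat_lit 342)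 (nat_lit 239)) (XT.lf (nat_lit 0) (nat_lit 521297151979) (nat_lit 152) (nat_lit 688971620648) (nat_lit 0) (nat_lit 509794748386) (nat_lit 1) (nat_lit 5) (nat_lit 3) (nat_lit 4) (nat_lit 1) (nat_lit 4) (nat_lit 440) (nat_lit 342) (nat_lit 238))) (XT.nd (nat_lit 78) (nat_lit 0) (nat_lit 0) (XT.lf (nat_lit 0) (nat_lit 583278674510) (nat_lit 152) (nat_lit 700917028288) (nat_lit 0) (nat_lit 571775986124) (nat_lit 1) (nat_lit 5) (nat_lit 3) (nat_lit 4) (nat_lit 1) (nat_lit 4) (nat_lit 441) (nat_lit 342) (nat_lit 237)) (XT.nd (nat_lit 78) (nat_lit 0) (nat_lit 0) (XT.lf (nat_lit 0) (nat_lit 650217708996) (nat_lit 152) (nat_lit 713820125193) (nat_lit 0) (nat_lit 638714756913) (nat_lit 1) (nat_lit 5) (nat_lit 3) (nat_lit 4) (nat_lit 1) (nat_lit 4) (nat_lit 442) (nat_lit 342) (nat_lit 236)) (XT.lf (nat_lit 0) (nat_lit 722510931198) (nat_lit 152) (nat_lit 727757374160) (nat_lit 0) (nat_lit 711007734950)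 (nat_lit 1) (nat_lit 5) (nat_lit 3) (nat_lit 4) (nat_lit 1) (nat_lit 4) (nat_lit 443) (nat_lit 342) (nat_lit 235)))))) (XT.nd (nat_lit 390) (nat_lit 0) (nat_lit 0) (XT.nd (nat_lit 156) (nat_lit 0) (nat_lit 0) (XT.nd (nat_lit 78) (nat_lit 0) (nat_lit 0) (XT.lf (nat_lit 0) (nat_lit 800586745393) (nat_lit 152) (nat_lit 742811366294) (nat_lit 0) (nat_lit 789083323068) (nat_lit 1) (nat_lit 5) (nat_lit 3) (nat_lit 4) (nat_lit 1) (nat_lit 4) (nat_lit 444) (nat_lit 342) (nat_lit 234)) (XT.lf (nat_lit 0) (nat_lit 884907823075) (nat_lit 152) (nat_lit 759071310437) (nat_lit 0) (nat_lit 873404191418) (nat_lit 1) (nat_lit 5) (nat_lit 3) (nat_lit 4) (nat_lit 1) (nat_lit 4) (nat_lit 445) (nat_lit 342) (nat_lit 233))) (XT.nd (nat_lit 78) (nat_lit 0) (nat_lit 0) (XT.lf (nat_lit 0) (nat_lit 975973844703) (nat_lit 152) (nat_lit 776633561814) (nat_lit 0) (nat_lit 964470019221) (nat_lit 1) (nat_lit 5) (nat_lit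 3) (nat_lit 4) (nat_lit 1) (nat_lit 4) (nat_lit 446) (nat_lit 342) (nat_lit 232)) (XT.nd (nat_lit 78) (nat_lit 0) (nat_lit 0) (XT.lf (nat_lit 0) (nat_lit 1074324460776) (nat_lit 152) (nat_lit 795602193025) (nat_lit 0) (nat_lit 1062820455826) (nat_lit 1) (nat_lit 5) (nat_lit 3) (nat_lit 4) (nat_lit 1) (nat_lit 4) (nat_lit 447) (nat_lit 342) (nat_lit 231)) (XT.lf (nat_lit 0) (nat_lit 1180542489759) (nat_lit 152) (nat_lit 816089610773) (nat_lit 0) (nat_lit 1169038318635) (nat_lit 1) (nat_lit 5) (nat_lit 3) (nat_lit 4) (nat_lit 1) (nat_lit 4) (nat_lit 448) (nat_lit 342) (nat_lit 230))))) (XT.nd (nat_lit 156) (nat_lit 0) (nat_lit 0) (XT.nd (nat_lit 78) (nat_lit 0) (nat_lit 0) (XT.lf (nat_lit 0) (nat_lit 1295257371825) (nat_lit 152) (nat_lit 838217221980) (nat_lit 0) (nat_lit 1283753046836) (nat_lit 1) (nat_lit 5) (nat_lit 3) (nat_lit 4) (nat_lit 1) (nat_lit 4) (nat_lit 449) (nat_lit 342) (nat_lit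 229)) (XT.lf (nat_lit 0) (nat_lit 1419148898867) (nat_lit 152) (nat_lit 862116153229) (nat_lit 0) (nat_lit 1407644431410) (nat_lit 1) (nat_lit 5) (nat_lit 3) (nat_lit 4) (nat_lit 1) (nat_lit 4) (nat_lit 450) (nat_lit 342) (nat_lit 228))) (XT.nd (nat_lit 78) (nat_lit 0) (nat_lit 0) (XT.lf (nat_lit 0) (nat_lit 1552951242897) (nat_lit 152) (nat_lit 887928027818) (nat_lit 0) (nat_lit 1541446643526) (nat_lit 1) (nat_lit 5) (nat_lit 3) (nat_lit 4) (nat_lit 1) (nat_lit 4) (nat_lit 451) (nat_lit 342) (nat_lit 227)) (XT.nd (nat_lit 78) (nat_lit 0) (nat_lit 0) (XT.lf (nat_lit 0) (nat_lit 1697457306694) (nat_lit 152) (nat_lit 915805805002) (nat_lit 0) (nat_lit 1685952585180) (nat_lit 1) (nat_lit 5) (nat_lit 3) (nat_lit 4) (nat_lit 1) (nat_lit 4) (nat_lit 452) (nat_lit 342) (nat_lit 226)) (XT.lf (nat_lit 0) (nat_lit 1853523422489) (nat_lit 152) (nat_lit 945914686424) (nat_lit 0) (nat_lit 1842018587880)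 (nat_lit 1) (nat_lit 5) (nat_lit 3) (nat_lit 4) (nat_lit 1) (nat_lit 4) (nat_lit 453) (nat_lit 342) (nat_lit 225))))))) (XT.nd (nat_lit 44538) (nat_lit 0) (nat_lit 4180) (XT.nd (nat_lit 390) (nat_lit 0) (nat_lit 0) (XT.nd (nat_lit 156) (nat_lit 0) (nat_lit 0) (XT.nd (nat_lit 78) (nat_lit 0) (nat_lit 0) (XT.lf (nat_lit 0) (nat_lit 2022074426523) (nat_lit 152) (nat_lit 978433095086) (nat_lit 0) (nat_lit 2010569487196) (nat_lit 1) (nat_lit 5) (nat_lit 3) (nat_lit 4) (nat_lit 1) (nat_lit 4) (nat_lit 454) (nat_lit 342) (nat_lit 224)) (XT.lf (nat_lit 0) (nat_lit 2204109139560) (nat_lit 152) (nat_lit 1013553732669) (nat_lit 0) (nat_lit 2192604103273) (nat_lit 1) (nat_lit 5) (nat_lit 3) (nat_lit 4) (nat_lit 1) (nat_lit 4) (nat_lit 455) (nat_lit 342) (nat_lit 223))) (XT.nd (nat_lit 78) (nat_lit 0) (nat_lit 0) (XT.lf (nat_lit 0) (nat_lit 2400706285827) (nat_lit 152) (nat_lit 1051484721468) (nat_lit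 0) (nat_lit 2389201159761) (nat_lit 1) (nat_lit 5) (nat_lit 3) (nat_lit 4) (nat_lit 1) (nat_lit 4) (nat_lit 456) (nat_lit 342) (nat_lit 222)) (XT.nd (nat_lit 78) (nat_lit 0) (nat_lit 0) (XT.lf (nat_lit 0) (nat_lit 2613030885449) (nat_lit 152) (nat_lit 1092450837715) (nat_lit 0) (nat_lit 2601525676255) (nat_lit 1) (nat_lit 5) (nat_lit 3) (nat_lit 4) (nat_lit 1) (nat_lit 4) (nat_lit 457) (nat_lit 342) (nat_lit 221)) (XT.lf (nat_lit 0) (nat_lit 2842341158277) (nat_lit 152) (nat_lit 1136694843579) (nat_lit 0) (nat_lit 2830835872111) (nat_lit 1) (nat_lit 5) (nat_lit 3) (nat_lit 4) (nat_lit 1) (nat_lit 4) (nat_lit 458) (nat_lit 342) (nat_lit 220))))) (XT.nd (nat_lit 156) (nat_lit 0) (nat_lit 0) (XT.nd (nat_lit 78) (nat_lit 0) (nat_lit 0) (XT.lf (nat_lit 0) (nat_lit 3089995979999) (nat_lit 152) (nat_lit 1184478925763) (nat_lit 0) (nat_lit 3078490622565) (nat_lit 1) (nat_lit 5) (nat_lit 3) (nat_lit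 4) (nat_lit 1) (nat_lit 4) (nat_lit 459) (nat_lit 342) (nat_lit 219)) (XT.lf (nat_lit 0) (nat_lit 3357462934747) (nat_lit 152) (nat_lit 1236086249196) (nat_lit 0) (nat_lit 3345957511322) (nat_lit 1) (nat_lit 5) (nat_lit 3) (nat_lit 4) (nat_lit 1) (nat_lit 4) (nat_lit 460) (nat_lit 342) (nat_lit 218))) (XT.nd (nat_lit 78) (nat_lit 0) (nat_lit 0) (XT.lf (nat_lit 0) (nat_lit 3646327011880) (nat_lit 152) (nat_lit 1291822635056) (nat_lit 0) (nat_lit 3634821527353) (nat_lit 1) (nat_lit 5) (nat_lit 3) (nat_lit 4) (nat_lit 1) (nat_lit 4) (nat_lit 461) (nat_lit 342) (nat_lit 217)) (XT.nd (nat_lit 43836) (nat_lit 0) (nat_lit 6080) (XT.lf (nat_lit 0) (nat_lit 3958299998523) (nat_lit 152) (nat_lit 1352018373036) (nat_lit 0) (nat_lit 3946794457420) (nat_lit 1) (nat_lit 5) (nat_lit 3) (nat_lit 4) (nat_lit 1) (nat_lit 4) (nat_lit 462) (nat_lit 342) (nat_lit 216)) (XT.lf (nat_lit 0) (nat_lit 733575795)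 (nat_lit 0) (nat_lit 733575795) (nat_lit 228) (nat_lit 1882229622) (nat_lit 81) (nat_lit 5) (nat_lit 81) (nat_lit 3) (nat_lit 84) (nat_lit 3) (nat_lit 343) (nat_lit 343) (nat_lit 334)))))) (XT.nd (nat_lit 390) (nat_lit 1596) (nat_lit 0) (XT.nd (nat_lit 156) (nat_lit 0) (nat_lit 0) (XT.nd (nat_lit 78) (nat_lit 304) (nat_lit 0) (XT.lf (nat_lit 0) (nat_lit 4891711741) (nat_lit 0) (nat_lit 258068491) (nat_lit 228) (nat_lit 1646304928) (nat_lit 81) (nat_lit 5) (nat_lit 81) (nat_lit 3) (nat_lit 84) (nat_lit 3) (nat_lit 344) (nat_lit 343) (nat_lit 333)) (XT.lf (nat_lit 0) (nat_lit 462017519) (nat_lit 304) (nat_lit 5304275596) (nat_lit 380) (nat_lit 1145700503) (nat_lit 77) (nat_lit 5) (nat_lit 81) (nat_lit 5) (nat_lit 82) (nat_lit 5) (nat_lit 345) (nat_lit 343) (nat_lit 332))) (XT.nd (nat_lit 78) (nat_lit 0) (nat_lit 0) (XT.lf (nat_lit 0) (nat_lit 2509934077) (nat_lit 304) (nat_lit 1706926791)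 (nat_lit 380) (nat_lit 2828341666) (nat_lit 77) (nat_lit 5) (nat_lit 81) (nat_lit 5) (nat_lit 82) (nat_lit 5) (nat_lit 346) (nat_lit 343) (nat_lit 331)) (XT.nd (nat_lit 78) (nat_lit 0) (nat_lit 0) (XT.lf (nat_lit 76) (nat_lit 2164075892) (nat_lit 0) (nat_lit 2424234774) (nat_lit 380) (nat_lit 2611648104) (nat_lit 78) (nat_lit 5) (nat_lit 77) (nat_lit 5) (nat_lit 82) (nat_lit 5) (nat_lit 347) (nat_lit 343) (nat_lit 330)) (XT.lf (nat_lit 76) (nat_lit 6322541843) (nat_lit 0) (nat_lit 382532382) (nat_lit 380) (nat_lit 672456323) (nat_lit 78) (nat_lit 5) (nat_lit 77) (nat_lit 5) (nat_lit 82) (nat_lit 5) (nat_lit 348) (nat_lit 343) (nat_lit 329))))) (XT.nd (nat_lit 234) (nat_lit 912) (nat_lit 0) (XT.nd (nat_lit 78) (nat_lit 380) (nat_lit 0) (XT.lf (nat_lit 0) (nat_lit 1310863334) (nat_lit 380) (nat_lit 4368075311) (nat_lit 76) (nat_lit 1890999349) (nat_lit 73) (nat_lit 5) (nat_lit 78) (nat_lit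 5) (nat_lit 74) (nat_lit 5) (nat_lit 349) (nat_lit 343) (nat_lit 328)) (XT.nd (nat_lit 78) (nat_lit 380) (nat_lit 0) (XT.lf (nat_lit 0) (nat_lit 3300511278) (nat_lit 380) (nat_lit 74319332) (nat_lit 76) (nat_lit 4410952942) (nat_lit 73) (nat_lit 5) (nat_lit 78) (nat_lit 5) (nat_lit 74) (nat_lit 5) (nat_lit 350) (nat_lit 343) (nat_lit 327)) (XT.lf (nat_lit 0) (nat_lit 4676506679) (nat_lit 380) (nat_lit 741278205) (nat_lit 456) (nat_lit 2603785796) (nat_lit 68) (nat_lit 5) (nat_lit 73) (nat_lit 5) (nat_lit 74) (nat_lit 5) (nat_lit 351) (nat_lit 343) (nat_lit 326)))) (XT.nd (nat_lit 78) (nat_lit 456) (nat_lit 0) (XT.lf (nat_lit 0) (nat_lit 1427542670) (nat_lit 456) (nat_lit 6228174494) (nat_lit 532) (nat_lit 624540577) (nat_lit 62) (nat_lit 5) (nat_lit 68) (nat_lit 5) (nat_lit 69) (nat_lit 5) (nat_lit 352) (nat_lit 343) (nat_lit 325)) (XT.nd (nat_lit 78) (nat_lit 380) (nat_lit 0) (XT.lf (nat_lit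 0) (nat_lit 1418297475) (nat_lit 532) (nat_lit 1970770614) (nat_lit 76) (nat_lit 5169304490) (nat_lit 61) (nat_lit 5) (nat_lit 68) (nat_lit 5) (nat_lit 62) (nat_lit 5) (nat_lit 353) (nat_lit 343) (nat_lit 324)) (XT.lf (nat_lit 0) (nat_lit 3329250176) (nat_lit 380) (nat_lit 219280526) (nat_lit 456) (nat_lit 5312401819) (nat_lit 56) (nat_lit 5) (nat_lit 61) (nat_lit 5) (nat_lit 62) (nat_lit 5) (nat_lit 354) (nat_lit 343) (nat_lit 323))))))))
noncomputable def xc103 : XT := (XT.nd (nat_lit 1638) (nat_lit 1140) (nat_lit 0) (XT.nd (nat_lit 780) (nat_lit 1064) (nat_lit 0) (XT.nd (nat_lit 390) (nat_lit 608) (nat_lit 0) (XT.nd (nat_lit 156) (nat_lit 456) (nat_lit 0) (XT.nd (nat_lit 78) (nat_lit 228) (nat_lit 0) (XT.lf (nat_lit 0) (nat_lit 5865266451) (nat_lit 456) (nat_lit 225495125) (nat_lit 76) (nat_lit 3095751220) (nat_lit 56) (nat_lit 5) (nat_lit 62) (nat_lit 5) (nat_lit 57) (nat_lit 5) (nat_lit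 355) (nat_lit 343) (nat_lit 322)) (XT.lf (nat_lit 0) (nat_lit 5663348161) (nat_lit 228) (nat_lit 2738245363) (nat_lit 304) (nat_lit 1133900443) (nat_lit 53) (nat_lit 5) (nat_lit 56) (nat_lit 5) (nat_lit 57) (nat_lit 5) (nat_lit 356) (nat_lit 343) (nat_lit 321))) (XT.nd (nat_lit 78) (nat_lit 152) (nat_lit 0) (XT.lf (nat_lit 0) (nat_lit 1141073221) (nat_lit 304) (nat_lit 7860734382) (nat_lit 76) (nat_lit 910376384) (nat_lit 49) (nat_lit 5) (nat_lit 53) (nat_lit 5) (nat_lit 50) (nat_lit 5) (nat_lit 357) (nat_lit 343) (nat_lit 320)) (XT.nd (nat_lit 78) (nat_lit 152) (nat_lit 0) (XT.lf (nat_lit 0) (nat_lit 3615795379) (nat_lit 304) (nat_lit 1871323492) (nat_lit 76) (nat_lit 4823288480) (nat_lit 49) (nat_lit 5) (nat_lit 53) (nat_lit 5) (nat_lit 50) (nat_lit 5) (nat_lit 358) (nat_lit 343) (nat_lit 319)) (XT.lf (nat_lit 0) (nat_lit 4715924070) (nat_lit 152) (nat_lit 1592717278) (nat_lit 228) (nat_lit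 4430305141) (nat_lit 47) (nat_lit 5) (nat_lit 49) (nat_lit 5) (nat_lit 50) (nat_lit 5) (nat_lit 359) (nat_lit 343) (nat_lit 318))))) (XT.nd (nat_lit 156) (nat_lit 304) (nat_lit 0) (XT.nd (nat_lit 78) (nat_lit 76) (nat_lit 0) (XT.lf (nat_lit 0) (nat_lit 583041885) (nat_lit 228) (nat_lit 8673522243) (nat_lit 304) (nat_lit 1942097131) (nat_lit 44) (nat_lit 5) (nat_lit 47) (nat_lit 5) (nat_lit 48) (nat_lit 5) (nat_lit 360) (nat_lit 343) (nat_lit 317)) (XT.lf (nat_lit 0) (nat_lit 830027209) (nat_lit 304) (nat_lit 3807907225) (nat_lit 76) (nat_lit 7046069434) (nat_lit 43) (nat_lit 5) (nat_lit 47) (nat_lit 5) (nat_lit 44) (nat_lit 5) (nat_lit 361) (nat_lit 343) (nat_lit 316))) (XT.nd (nat_lit 78) (nat_lit 152) (nat_lit 0) (XT.lf (nat_lit 0) (nat_lit 3558579018) (nat_lit 152) (nat_lit 164344550) (nat_lit 228) (nat_lit 8480951879) (nat_lit 41) (nat_lit 5) (nat_lit 43) (nat_lit 5) (nat_lit 44) (nat_lit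 5) (nat_lit 362) (nat_lit 343) (nat_lit 315)) (XT.nd (nat_lit 78) (nat_lit 152) (nat_lit 0) (XT.lf (nat_lit 0) (nat_lit 6987271369) (nat_lit 228) (nat_lit 1257087979) (nat_lit 76) (nat_lit 4509823186) (nat_lit 41) (nat_lit 5) (nat_lit 44) (nat_lit 5) (nat_lit 42) (nat_lit 5) (nat_lit 363) (nat_lit 343) (nat_lit 314)) (XT.lf (nat_lit 0) (nat_lit 6958525504) (nat_lit 152) (nat_lit 3652673870) (nat_lit 228) (nat_lit 2729484074) (nat_lit 39) (nat_lit 5) (nat_lit 41) (nat_lit 5) (nat_lit 42) (nat_lit 5) (nat_lit 364) (nat_lit 343) (nat_lit 313)))))) (XT.nd (nat_lit 390) (nat_lit 532) (nat_lit 0) (XT.nd (nat_lit 156) (nat_lit 304) (nat_lit 0) (XT.nd (nat_lit 78) (nat_lit 0) (nat_lit 0) (XT.lf (nat_lit 0) (nat_lit 565272547) (nat_lit 228) (nat_lit 12101323139) (nat_lit 76) (nat_lit 1303134704) (nat_lit 36) (nat_lit 5) (nat_lit 39) (nat_lit 5) (nat_lit 37) (nat_lit 5) (nat_lit 365) (nat_lit 343)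 (nat_lit 312)) (XT.lf (nat_lit 0) (nat_lit 4179823464) (nat_lit 228) (nat_lit 3774016071) (nat_lit 76) (nat_lit 6673330563) (nat_lit 36) (nat_lit 5) (nat_lit 39) (nat_lit 5) (nat_lit 37) (nat_lit 5) (nat_lit 366) (nat_lit 343) (nat_lit 311))) (XT.nd (nat_lit 78) (nat_lit 152) (nat_lit 0) (XT.lf (nat_lit 0) (nat_lit 5386573803) (nat_lit 152) (nat_lit 2761484280) (nat_lit 228) (nat_lit 7184017561) (nat_lit 34) (nat_lit 5) (nat_lit 36) (nat_lit 5) (nat_lit 37) (nat_lit 5) (nat_lit 367) (nat_lit 343) (nat_lit 310)) (XT.nd (nat_lit 78) (nat_lit 152) (nat_lit 0) (XT.lf (nat_lit 0) (nat_lit 12544568744) (nat_lit 228) (nat_lit 765522489) (nat_lit 76) (nat_lit 2774446865) (nat_lit 34) (nat_lit 5) (nat_lit 37) (nat_lit 5) (nat_lit 35) (nat_lit 4) (nat_lit 368) (nat_lit 343) (nat_lit 309)) (XT.lf (nat_lit 0) (nat_lit 622320030) (nat_lit 152) (nat_lit 7439925806) (nat_lit 76) (nat_lit 8814495599)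 (nat_lit 32) (nat_lit 5) (nat_lit 34) (nat_lit 5) (nat_lit 33) (nat_lit 5) (nat_lit 369) (nat_lit 343) (nat_lit 308))))) (XT.nd (nat_lit 234) (nat_lit 304) (nat_lit 0) (XT.nd (nat_lit 78) (nat_lit 76) (nat_lit 0) (XT.lf (nat_lit 0) (nat_lit 2714669330) (nat_lit 152) (nat_lit 2240238448) (nat_lit 228) (nat_lit 12767795934) (nat_lit 30) (nat_lit 5) (nat_lit 32) (nat_lit 5) (nat_lit 33) (nat_lit 5) (nat_lit 370) (nat_lit 343) (nat_lit 307)) (XT.nd (nat_lit 78) (nat_lit 76) (nat_lit 0) (XT.lf (nat_lit 0) (nat_lit 9883073395) (nat_lit 228) (nat_lit 4715959515) (nat_lit 76) (nat_lit 4017414328) (nat_lit 30) (nat_lit 5) (nat_lit 33) (nat_lit 5) (nat_lit 31) (nat_lit 4) (nat_lit 371) (nat_lit 343) (nat_lit 306)) (XT.lf (nat_lit 0) (nat_lit 6579685261) (nat_lit 76) (nat_lit 8789387762) (nat_lit 152) (nat_lit 4199551076) (nat_lit 29) (nat_lit 5) (nat_lit 30) (nat_lit 5) (nat_lit 31) (nat_lit 4)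 (nat_lit 372) (nat_lit 343) (nat_lit 305)))) (XT.nd (nat_lit 78) (nat_lit 228) (nat_lit 0) (XT.lf (nat_lit 0) (nat_lit 741998181) (nat_lit 152) (nat_lit 1650818849) (nat_lit 76) (nat_lit 18196443600) (nat_lit 28) (nat_lit 5) (nat_lit 30) (nat_lit 5) (nat_lit 29) (nat_lit 5) (nat_lit 373) (nat_lit 343) (nat_lit 304)) (XT.nd (nat_lit 78) (nat_lit 76) (nat_lit 0) (XT.lf (nat_lit 0) (nat_lit 6184179565) (nat_lit 228) (nat_lit 10834573318) (nat_lit 76) (nat_lit 4637509545) (nat_lit 26) (nat_lit 5) (nat_lit 29) (nat_lit 5) (nat_lit 27) (nat_lit 4) (nat_lit 374) (nat_lit 343) (nat_lit 303)) (XT.lf (nat_lit 0) (nat_lit 1507716926) (nat_lit 76) (nat_lit 10650977545) (nat_lit 152) (nat_lit 10642188107) (nat_lit 25) (nat_lit 5) (nat_lit 26) (nat_lit 5) (nat_lit 27) (nat_lit 4) (nat_lit 375) (nat_lit 343) (nat_lit 302))))))) (XT.nd (nat_lit 780) (nat_lit 608) (nat_lit 0) (XT.nd (nat_lit 390) (nat_lit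 304) (nat_lit 0) (XT.nd (nat_lit 156) (nat_lit 76) (nat_lit 0) (XT.nd (nat_lit 78) (nat_lit 152) (nat_lit 0) (XT.lf (nat_lit 0) (nat_lit 15370470898) (nat_lit 76) (nat_lit 3490714247) (nat_lit 152) (nat_lit 5155899852) (nat_lit 25) (nat_lit 5) (nat_lit 26) (nat_lit 5) (nat_lit 27) (nat_lit 4) (nat_lit 376) (nat_lit 343) (nat_lit 301)) (XT.lf (nat_lit 0) (nat_lit 916180065) (nat_lit 152) (nat_lit 20254911625) (nat_lit 76) (nat_lit 4143193919) (nat_lit 23) (nat_lit 5) (nat_lit 25) (nat_lit 5) (nat_lit 24) (nat_lit 4) (nat_lit 377) (nat_lit 343) (nat_lit 300))) (XT.nd (nat_lit 78) (nat_lit 76) (nat_lit 0) (XT.lf (nat_lit 0) (nat_lit 7485334606) (nat_lit 152) (nat_lit 6653327766) (nat_lit 76) (nat_lit 12542708455) (nat_lit 23) (nat_lit 5) (nat_lit 25) (nat_lit 5) (nat_lit 24) (nat_lit 4) (nat_lit 378) (nat_lit 343) (nat_lit 299)) (XT.nd (nat_lit 78) (nat_lit 0) (nat_lit 0) (XT.lf (nat_lit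 0) (nat_lit 8381753227) (nat_lit 76) (nat_lit 6359700085) (nat_lit 152) (nat_lit 13403465167) (nat_lit 22) (nat_lit 5) (nat_lit 23) (nat_lit 5) (nat_lit 24) (nat_lit 4) (nat_lit 379) (nat_lit 343) (nat_lit 298)) (XT.lf (nat_lit 0) (nat_lit 22774095083) (nat_lit 152) (nat_lit 4841173083) (nat_lit 0) (nat_lit 2094608500) (nat_lit 22) (nat_lit 5) (nat_lit 24) (nat_lit 4) (nat_lit 22) (nat_lit 4) (nat_lit 380) (nat_lit 343) (nat_lit 297))))) (XT.nd (nat_lit 156) (nat_lit 152) (nat_lit 0) (XT.nd (nat_lit 78) (nat_lit 0) (nat_lit 0) (XT.lf (nat_lit 0) (nat_lit 465366892) (nat_lit 152) (nat_lit 19757284632) (nat_lit 76) (nat_lit 11143811786) (nat_lit 20) (nat_lit 5) (nat_lit 22) (nat_lit 5) (nat_lit 21) (nat_lit 4) (nat_lit 381) (nat_lit 343) (nat_lit 296)) (XT.lf (nat_lit 0) (nat_lit 8183110352) (nat_lit 152) (nat_lit 3746749702) (nat_lit 76) (nat_lit 21203375050) (nat_lit 20) (nat_lit 5) (nat_lit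 22) (nat_lit 5) (nat_lit 21) (nat_lit 4) (nat_lit 382) (nat_lit 343) (nat_lit 295))) (XT.nd (nat_lit 78) (nat_lit 76) (nat_lit 0) (XT.lf (nat_lit 0) (nat_lit 14190558094) (nat_lit 76) (nat_lit 2635119872) (nat_lit 152) (nat_lit 18191085217) (nat_lit 19) (nat_lit 5) (nat_lit 20) (nat_lit 5) (nat_lit 21) (nat_lit 4) (nat_lit 383) (nat_lit 343) (nat_lit 294)) (XT.nd (nat_lit 78) (nat_lit 76) (nat_lit 0) (XT.lf (nat_lit 0) (nat_lit 26409225542) (nat_lit 152) (nat_lit 3511802475) (nat_lit 0) (nat_lit 7109985930) (nat_lit 19) (nat_lit 5) (nat_lit 21) (nat_lit 4) (nat_lit 19) (nat_lit 4) (nat_lit 384) (nat_lit 343) (nat_lit 293)) (XT.lf (nat_lit 0) (nat_lit 15852842250) (nat_lit 76) (nat_lit 21325231505) (nat_lit 76) (nat_lit 1994847599) (nat_lit 18) (nat_lit 4) (nat_lit 19) (nat_lit 5) (nat_lit 19) (nat_lit 4) (nat_lit 385) (nat_lit 343) (nat_lit 292)))))) (XT.nd (nat_lit 390) (nat_lit 304)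 (nat_lit 0) (XT.nd (nat_lit 156) (nat_lit 152) (nat_lit 0) (XT.nd (nat_lit 78) (nat_lit 76) (nat_lit 0) (XT.lf (nat_lit 0) (nat_lit 7023503050) (nat_lit 152) (nat_lit 4750334869) (nat_lit 76) (nat_lit 29692857049) (nat_lit 17) (nat_lit 5) (nat_lit 19) (nat_lit 5) (nat_lit 18) (nat_lit 4) (nat_lit 386) (nat_lit 343) (nat_lit 291)) (XT.lf (nat_lit 0) (nat_lit 15998270512) (nat_lit 76) (nat_lit 1013360708) (nat_lit 152) (nat_lit 26899712176) (nat_lit 16) (nat_lit 5) (nat_lit 17) (nat_lit 5) (nat_lit 18) (nat_lit 4) (nat_lit 387) (nat_lit 343) (nat_lit 290))) (XT.nd (nat_lit 78) (nat_lit 152) (nat_lit 0) (XT.lf (nat_lit 0) (nat_lit 28158717415) (nat_lit 152) (nat_lit 8178160763) (nat_lit 0) (nat_lit 10185897256) (nat_lit 16) (nat_lit 5) (nat_lit 18) (nat_lit 4) (nat_lit 16) (nat_lit 4) (nat_lit 388) (nat_lit 343) (nat_lit 289)) (XT.nd (nat_lit 78) (nat_lit 76) (nat_lit 0) (XT.lf (nat_lit 0)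 (nat_lit 13745521978) (nat_lit 76) (nat_lit 26782588662) (nat_lit 76) (nat_lit 8788572220) (nat_lit 15) (nat_lit 4) (nat_lit 16) (nat_lit 5) (nat_lit 16) (nat_lit 4) (nat_lit 389) (nat_lit 343) (nat_lit 288)) (XT.lf (nat_lit 0) (nat_lit 1678400935) (nat_lit 152) (nat_lit 14522568682) (nat_lit 76) (nat_lit 36113898161) (nat_lit 14) (nat_lit 5) (nat_lit 16) (nat_lit 5) (nat_lit 15) (nat_lit 4) (nat_lit 390) (nat_lit 343) (nat_lit 287))))) (XT.nd (nat_lit 234) (nat_lit 228) (nat_lit 0) (XT.nd (nat_lit 78) (nat_lit 0) (nat_lit 0) (XT.lf (nat_lit 0) (nat_lit 8351839939) (nat_lit 76) (nat_lit 4332609563) (nat_lit 152) (nat_lit 42836076925) (nat_lit 13) (nat_lit 5) (nat_lit 14) (nat_lit 5) (nat_lit 15) (nat_lit 4) (nat_lit 391) (nat_lit 343) (nat_lit 286)) (XT.nd (nat_lit 78) (nat_lit 0) (nat_lit 0) (XT.lf (nat_lit 0) (nat_lit 25158244867) (nat_lit 152) (nat_lit 25330874890) (nat_lit 0) (nat_lit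 8446539942) (nat_lit 13) (nat_lit 5) (nat_lit 15) (nat_lit 4) (nat_lit 13) (nat_lit 4) (nat_lit 392) (nat_lit 343) (nat_lit 285)) (XT.lf (nat_lit 0) (nat_lit 38720078103) (nat_lit 152) (nat_lit 1902770194) (nat_lit 0) (nat_lit 21993947344) (nat_lit 13) (nat_lit 5) (nat_lit 15) (nat_lit 4) (nat_lit 13) (nat_lit 4) (nat_lit 393) (nat_lit 343) (nat_lit 284)))) (XT.nd (nat_lit 78) (nat_lit 152) (nat_lit 0) (XT.lf (nat_lit 0) (nat_lit 24588685826) (nat_lit 76) (nat_lit 29348788924) (nat_lit 76) (nat_lit 12609300911) (nat_lit 12) (nat_lit 4) (nat_lit 13) (nat_lit 5) (nat_lit 13) (nat_lit 4) (nat_lit 394) (nat_lit 343) (nat_lit 283)) (XT.nd (nat_lit 78) (nat_lit 152) (nat_lit 0) (XT.lf (nat_lit 0) (nat_lit 53267783874) (nat_lit 76) (nat_lit 17136339781) (nat_lit 76) (nat_lit 384483940) (nat_lit 12) (nat_lit 4) (nat_lit 13) (nat_lit 5) (nat_lit 13) (nat_lit 4) (nat_lit 395) (nat_lit 343) (nat_lit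 282)) (XT.lf (nat_lit 0) (nat_lit 8974121776) (nat_lit 76) (nat_lit 3399642314) (nat_lit 152) (nat_lit 62955627950) (nat_lit 10) (nat_lit 5) (nat_lit 11) (nat_lit 5) (nat_lit 12) (nat_lit 4) (nat_lit 396) (nat_lit 343) (nat_lit 281))))))))
noncomputable def xc104 : XT := (XT.nd (nat_lit 1560) (nat_lit 228) (nat_lit 0) (XT.nd (nat_lit 780) (nat_lit 152) (nat_lit 0) (XT.nd (nat_lit 390) (nat_lit 228) (nat_lit 0) (XT.nd (nat_lit 156) (nat_lit 76) (nat_lit 0) (XT.nd (nat_lit 78) (nat_lit 0) (nat_lit 0) (XT.lf (nat_lit 0) (nat_lit 26879359262) (nat_lit 152) (nat_lit 41945525934) (nat_lit 0) (nat_lit 11347960233) (nat_lit 10) (nat_lit 5) (nat_lit 12) (nat_lit 4) (nat_lit 10) (nat_lit 4) (nat_lit 397) (nat_lit 343) (nat_lit 280)) (XT.lf (nat_lit 0) (nat_lit 42616047336) (nat_lit 152) (nat_lit 15706520276) (nat_lit 0) (nat_lit 27075557584) (nat_lit 10) (nat_lit 5) (nat_lit 12) (nat_lit 4) (nat_lit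 10) (nat_lit 4) (nat_lit 398) (nat_lit 343) (nat_lit 279))) (XT.nd (nat_lit 78) (nat_lit 0) (nat_lit 0) (XT.lf (nat_lit 0) (nat_lit 13262439529) (nat_lit 76) (nat_lit 46651843740) (nat_lit 76) (nat_lit 31102936653) (nat_lit 9) (nat_lit 4) (nat_lit 10) (nat_lit 5) (nat_lit 10) (nat_lit 4) (nat_lit 399) (nat_lit 343) (nat_lit 278)) (XT.nd (nat_lit 78) (nat_lit 0) (nat_lit 0) (XT.lf (nat_lit 0) (nat_lit 45410378103) (nat_lit 76) (nat_lit 33599541597) (nat_lit 76) (nat_lit 18042840681) (nat_lit 9) (nat_lit 4) (nat_lit 10) (nat_lit 5) (nat_lit 10) (nat_lit 4) (nat_lit 400) (nat_lit 343) (nat_lit 277)) (XT.lf (nat_lit 0) (nat_lit 80100724224) (nat_lit 76) (nat_lit 19517758306) (nat_lit 76) (nat_lit 3953840881) (nat_lit 9) (nat_lit 4) (nat_lit 10) (nat_lit 5) (nat_lit 10) (nat_lit 4) (nat_lit 401) (nat_lit 343) (nat_lit 276))))) (XT.nd (nat_lit 156) (nat_lit 76) (nat_lit 0) (XT.nd (nat_lit 78)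 (nat_lit 0) (nat_lit 0) (XT.lf (nat_lit 0) (nat_lit 7004390932) (nat_lit 76) (nat_lit 3848969793) (nat_lit 152) (nat_lit 99726065959) (nat_lit 7) (nat_lit 5) (nat_lit 8) (nat_lit 5) (nat_lit 9) (nat_lit 4) (nat_lit 402) (nat_lit 343) (nat_lit 275)) (XT.lf (nat_lit 0) (nat_lit 27590428497) (nat_lit 152) (nat_lit 77304264874) (nat_lit 0) (nat_lit 13167478154) (nat_lit 7) (nat_lit 5) (nat_lit 9) (nat_lit 4) (nat_lit 7) (nat_lit 4) (nat_lit 403) (nat_lit 343) (nat_lit 274))) (XT.nd (nat_lit 78) (nat_lit 76) (nat_lit 0) (XT.lf (nat_lit 0) (nat_lit 45753529707) (nat_lit 152) (nat_lit 49057766801) (nat_lit 0) (nat_lit 31325275015) (nat_lit 7) (nat_lit 5) (nat_lit 9) (nat_lit 4) (nat_lit 7) (nat_lit 4) (nat_lit 404) (nat_lit 343) (nat_lit 273)) (XT.nd (nat_lit 78) (nat_lit 76) (nat_lit 0) (XT.lf (nat_lit 0) (nat_lit 65357729731) (nat_lit 152) (nat_lit 18575587063) (nat_lit 0) (nat_lit 50924563604)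 (nat_lit 7) (nat_lit 5) (nat_lit 9) (nat_lit 4) (nat_lit 7) (nat_lit 4) (nat_lit 405) (nat_lit 343) (nat_lit 272)) (XT.lf (nat_lit 0) (nat_lit 15077128510) (nat_lit 76) (nat_lit 71804678398) (nat_lit 76) (nat_lit 57366964647) (nat_lit 6) (nat_lit 4) (nat_lit 7) (nat_lit 5) (nat_lit 7) (nat_lit 4) (nat_lit 406) (nat_lit 343) (nat_lit 271)))))) (XT.nd (nat_lit 390) (nat_lit 0) (nat_lit 0) (XT.nd (nat_lit 156) (nat_lit 152) (nat_lit 0) (XT.nd (nat_lit 78) (nat_lit 0) (nat_lit 0) (XT.lf (nat_lit 0) (nat_lit 52456777333) (nat_lit 76) (nat_lit 58168156069) (nat_lit 76) (nat_lit 43726231554) (nat_lit 6) (nat_lit 4) (nat_lit 7) (nat_lit 5) (nat_lit 7) (nat_lit 4) (nat_lit 407) (nat_lit 343) (nat_lit 270)) (XT.lf (nat_lit 0) (nat_lit 92806710940) (nat_lit 76) (nat_lit 43450830253) (nat_lit 76) (nat_lit 29005006884) (nat_lit 6) (nat_lit 4) (nat_lit 7) (nat_lit 5) (nat_lit 7) (nat_lit 4) (nat_lit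 408) (nat_lit 343) (nat_lit 269))) (XT.nd (nat_lit 78) (nat_lit 152) (nat_lit 0) (XT.lf (nat_lit 0) (nat_lit 136366040049) (nat_lit 76) (nat_lit 27565487169) (nat_lit 76) (nat_lit 13116053749) (nat_lit 6) (nat_lit 4) (nat_lit 7) (nat_lit 5) (nat_lit 7) (nat_lit 4) (nat_lit 409) (nat_lit 343) (nat_lit 268)) (XT.nd (nat_lit 78) (nat_lit 76) (nat_lit 0) (XT.lf (nat_lit 0) (nat_lit 3832948342) (nat_lit 152) (nat_lit 6480243506) (nat_lit 76) (nat_lit 179455146074) (nat_lit 5) (nat_lit 5) (nat_lit 7) (nat_lit 5) (nat_lit 6) (nat_lit 4) (nat_lit 410) (nat_lit 343) (nat_lit 267)) (XT.lf (nat_lit 0) (nat_lit 22411693592) (nat_lit 152) (nat_lit 171962586044) (nat_lit 0) (nat_lit 9026627762) (nat_lit 4) (nat_lit 5) (nat_lit 6) (nat_lit 4) (nat_lit 4) (nat_lit 4) (nat_lit 411) (nat_lit 343) (nat_lit 266))))) (XT.nd (nat_lit 156) (nat_lit 0) (nat_lit 0) (XT.nd (nat_lit 78) (nat_lit 0) (nat_lit 0) (XT.lf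 (nat_lit 0) (nat_lit 42918301205) (nat_lit 152) (nat_lit 145639874832) (nat_lit 0) (nat_lit 29530581879) (nat_lit 4) (nat_lit 5) (nat_lit 6) (nat_lit 4) (nat_lit 4) (nat_lit 4) (nat_lit 412) (nat_lit 343) (nat_lit 265)) (XT.lf (nat_lit 0) (nat_lit 65057941292) (nat_lit 152) (nat_lit 117226530315) (nat_lit 0) (nat_lit 51667765026) (nat_lit 4) (nat_lit 5) (nat_lit 6) (nat_lit 4) (nat_lit 4) (nat_lit 4) (nat_lit 413) (nat_lit 343) (nat_lit 264))) (XT.nd (nat_lit 78) (nat_lit 0) (nat_lit 0) (XT.lf (nat_lit 0) (nat_lit 88961811722) (nat_lit 152) (nat_lit 86554177117) (nat_lit 0) (nat_lit 75569360512) (nat_lit 4) (nat_lit 5) (nat_lit 6) (nat_lit 4) (nat_lit 4) (nat_lit 4) (nat_lit 414) (nat_lit 343) (nat_lit 263)) (XT.nd (nat_lit 78) (nat_lit 0) (nat_lit 0) (XT.lf (nat_lit 0) (nat_lit 114771565061) (nat_lit 152) (nat_lit 53441053146) (nat_lit 0) (nat_lit 101377007420) (nat_lit 4) (nat_lit 5)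 (nat_lit 6) (nat_lit 4) (nat_lit 4) (nat_lit 4) (nat_lit 415) (nat_lit 343) (nat_lit 262)) (XT.lf (nat_lit 0) (nat_lit 142640147993) (nat_lit 152) (nat_lit 17690932481) (nat_lit 0) (nat_lit 129243639955) (nat_lit 4) (nat_lit 5) (nat_lit 6) (nat_lit 4) (nat_lit 4) (nat_lit 4) (nat_lit 416) (nat_lit 343) (nat_lit 261))))))) (XT.nd (nat_lit 780) (nat_lit 152) (nat_lit 0) (XT.nd (nat_lit 390) (nat_lit 0) (nat_lit 0) (XT.nd (nat_lit 156) (nat_lit 0) (nat_lit 0) (XT.nd (nat_lit 78) (nat_lit 0) (nat_lit 0) (XT.lf (nat_lit 0) (nat_lit 22009017644) (nat_lit 76) (nat_lit 151253007438) (nat_lit 76) (nat_lit 137854693475) (nat_lit 3) (nat_lit 4) (nat_lit 4) (nat_lit 5) (nat_lit 4) (nat_lit 4) (nat_lit 417) (nat_lit 343) (nat_lit 260)) (XT.lf (nat_lit 0) (nat_lit 65880184934) (nat_lit 76) (nat_lit 140931805493) (nat_lit 76) (nat_lit 127531819378) (nat_lit 3) (nat_lit 4) (nat_lit 4) (nat_lit 5) (nat_lit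 4) (nat_lit 4) (nat_lit 418) (nat_lit 343) (nat_lit 259))) (XT.nd (nat_lit 78) (nat_lit 0) (nat_lit 0) (XT.lf (nat_lit 0) (nat_lit 113250973523) (nat_lit 76) (nat_lit 129790013408) (nat_lit 76) (nat_lit 116388479004) (nat_lit 3) (nat_lit 4) (nat_lit 4) (nat_lit 5) (nat_lit 4) (nat_lit 4) (nat_lit 419) (nat_lit 343) (nat_lit 258)) (XT.nd (nat_lit 78) (nat_lit 0) (nat_lit 0) (XT.lf (nat_lit 0) (nat_lit 164402099195) (nat_lit 76) (nat_lit 117761605747) (nat_lit 76) (nat_lit 104358637742) (nat_lit 3) (nat_lit 4) (nat_lit 4) (nat_lit 5) (nat_lit 4) (nat_lit 4) (nat_lit 420) (nat_lit 343) (nat_lit 257)) (XT.lf (nat_lit 0) (nat_lit 219636679731) (nat_lit 76) (nat_lit 104775303058) (nat_lit 76) (nat_lit 91371007645) (nat_lit 3) (nat_lit 4) (nat_lit 4) (nat_lit 5) (nat_lit 4) (nat_lit 4) (nat_lit 421) (nat_lit 343) (nat_lit 256))))) (XT.nd (nat_lit 156) (nat_lit 0) (nat_lit 0) (XT.nd (nat_lit 78)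 (nat_lit 0) (nat_lit 0) (XT.lf (nat_lit 0) (nat_lit 279282031166) (nat_lit 76) (nat_lit 90754149474) (nat_lit 76) (nat_lit 77348624979) (nat_lit 3) (nat_lit 4) (nat_lit 4) (nat_lit 5) (nat_lit 4) (nat_lit 4) (nat_lit 422) (nat_lit 343) (nat_lit 255)) (XT.lf (nat_lit 0) (nat_lit 343691607432) (nat_lit 76) (nat_lit 75615056675) (nat_lit 76) (nat_lit 62208394142) (nat_lit 3) (nat_lit 4) (nat_lit 4) (nat_lit 5) (nat_lit 4) (nat_lit 4) (nat_lit 423) (nat_lit 343) (nat_lit 254))) (XT.nd (nat_lit 78) (nat_lit 0) (nat_lit 0) (XT.lf (nat_lit 0) (nat_lit 413247094908) (nat_lit 76) (nat_lit 59268311521) (nat_lit 76) (nat_lit 45860595248) (nat_lit 3) (nat_lit 4) (nat_lit 4) (nat_lit 5) (nat_lit 4) (nat_lit 4) (nat_lit 424) (nat_lit 343) (nat_lit 253)) (XT.nd (nat_lit 78) (nat_lit 0) (nat_lit 0) (XT.lf (nat_lit 0) (nat_lit 488360674261) (nat_lit 76) (nat_lit 41617044409) (nat_lit 76) (nat_lit 28208352452)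 (nat_lit 3) (nat_lit 4) (nat_lit 4) (nat_lit 5) (nat_lit 4) (nat_lit 4) (nat_lit 425) (nat_lit 343) (nat_lit 252)) (XT.lf (nat_lit 0) (nat_lit 569477462997) (nat_lit 76) (nat_lit 22556655239) (nat_lit 76) (nat_lit 9147059870) (nat_lit 3) (nat_lit 4) (nat_lit 4) (nat_lit 5) (nat_lit 4) (nat_lit 4) (nat_lit 426) (nat_lit 343) (nat_lit 251)))))) (XT.nd (nat_lit 390) (nat_lit 0) (nat_lit 0) (XT.nd (nat_lit 156) (nat_lit 0) (nat_lit 0) (XT.nd (nat_lit 78) (nat_lit 0) (nat_lit 0) (XT.lf (nat_lit 0) (nat_lit 9670774235) (nat_lit 76) (nat_lit 1425959465) (nat_lit 152) (nat_lit 636478764818) (nat_lit 1) (nat_lit 5) (nat_lit 2) (nat_lit 5) (nat_lit 3) (nat_lit 4) (nat_lit 427) (nat_lit 343) (nat_lit 250)) (XT.lf (nat_lit 0) (nat_lit 33867011383) (nat_lit 152) (nat_lit 642234025996) (nat_lit 0) (nat_lit 21449227687) (nat_lit 1) (nat_lit 5) (nat_lit 3) (nat_lit 4) (nat_lit 1) (nat_lit 4) (nat_lit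 428) (nat_lit 343) (nat_lit 249))) (XT.nd (nat_lit 78) (nat_lit 0) (nat_lit 0) (XT.lf (nat_lit 0) (nat_lit 58493406220) (nat_lit 152) (nat_lit 646951888759) (nat_lit 0) (nat_lit 46074958489) (nat_lit 1) (nat_lit 5) (nat_lit 3) (nat_lit 4) (nat_lit 1) (nat_lit 4) (nat_lit 429) (nat_lit 343) (nat_lit 248)) (XT.nd (nat_lit 78) (nat_lit 0) (nat_lit 0) (XT.lf (nat_lit 0) (nat_lit 85087558044) (nat_lit 152) (nat_lit 652051975917) (nat_lit 0) (nat_lit 72668495467) (nat_lit 1) (nat_lit 5) (nat_lit 3) (nat_lit 4) (nat_lit 1) (nat_lit 4) (nat_lit 430) (nat_lit 343) (nat_lit 247)) (XT.lf (nat_lit 0) (nat_lit 113807061829) (nat_lit 152) (nat_lit 657564510210) (nat_lit 0) (nat_lit 101387429949) (nat_lit 1) (nat_lit 5) (nat_lit 3) (nat_lit 4) (nat_lit 1) (nat_lit 4) (nat_lit 431) (nat_lit 343) (nat_lit 246))))) (XT.nd (nat_lit 234) (nat_lit 0) (nat_lit 0) (XT.nd (nat_lit 78) (nat_lit 0) (nat_lit 0)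 (XT.lf (nat_lit 0) (nat_lit 144822107226) (nat_lit 152) (nat_lit 663522158508) (nat_lit 0) (nat_lit 132401948214) (nat_lit 1) (nat_lit 5) (nat_lit 3) (nat_lit 4) (nat_lit 1) (nat_lit 4) (nat_lit 432) (nat_lit 343) (nat_lit 245)) (XT.nd (nat_lit 78) (nat_lit 0) (nat_lit 0) (XT.lf (nat_lit 0) (nat_lit 178316487098) (nat_lit 152) (nat_lit 669960225392) (nat_lit 0) (nat_lit 165895840000) (nat_lit 1) (nat_lit 5) (nat_lit 3) (nat_lit 4) (nat_lit 1) (nat_lit 4) (nat_lit 433) (nat_lit 343) (nat_lit 244)) (XT.lf (nat_lit 0) (nat_lit 214488686657) (nat_lit 152) (nat_lit 676916862371) (nat_lit 0) (nat_lit 202067587629) (nat_lit 1) (nat_lit 5) (nat_lit 3) (nat_lit 4) (nat_lit 1) (nat_lit 4) (nat_lit 434) (nat_lit 343) (nat_lit 243)))) (XT.nd (nat_lit 78) (nat_lit 0) (nat_lit 0) (XT.lf (nat_lit 0) (nat_lit 253553059681) (nat_lit 152) (nat_lit 684433293960) (nat_lit 0) (nat_lit 241131542198) (nat_lit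 1) (nat_lit 5) (nat_lit 3) (nat_lit 4) (nat_lit 1) (nat_lit 4) (nat_lit 435) (nat_lit 343) (nat_lit 242)) (XT.nd (nat_lit 78) (nat_lit 0) (nat_lit 0) (XT.lf (nat_lit 0) (nat_lit 295741098748) (nat_lit 152) (nat_lit 692554061976) (nat_lit 0) (nat_lit 283319193808) (nat_lit 1) (nat_lit 5) (nat_lit 3) (nat_lit 4) (nat_lit 1) (nat_lit 4) (nat_lit 436) (nat_lit 343) (nat_lit 241)) (XT.lf (nat_lit 0) (nat_lit 341302807055) (nat_lit 152) (nat_lit 701327289488) (nat_lit 0) (nat_lit 328880543357) (nat_lit 1) (nat_lit 5) (nat_lit 3) (nat_lit 4) (nat_lit 1) (nat_lit 4) (nat_lit 437) (nat_lit 343) (nat_lit 240))))))))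
noncomputable def xc105 : XT := (XT.nd (nat_lit 1560) (nat_lit 0) (nat_lit 0) (XT.nd (nat_lit 780) (nat_lit 0) (nat_lit 0) (XT.nd (nat_lit 390) (nat_lit 0) (nat_lit 0) (XT.nd (nat_lit 156) (nat_lit 0) (nat_lit 0) (XT.nd (nat_lit 78) (nat_lit 0) (nat_lit 0) (XT.lf (nat_lit 0) (nat_lit 390508179909) (nat_lit 152) (nat_lit 710804965993) (nat_lit 0) (nat_lit 378085584028) (nat_lit 1) (nat_lit 5) (nat_lit 3) (nat_lit 4) (nat_lit 1) (nat_lit 4) (nat_lit 438) (nat_lit 343) (nat_lit 239)) (XT.lf (nat_lit 0) (nat_lit 443648804705) (nat_lit 152) (nat_lit 721043255499) (nat_lit 0) (nat_lit 431225901248) (nat_lit 1) (nat_lit 5) (nat_lit 3) (nat_lit 4) (nat_lit 1) (nat_lit 4) (nat_lit 439) (nat_lit 343) (nat_lit 238))) (XT.nd (nat_lit 78) (nat_lit 0) (nat_lit 0) (XT.lf (nat_lit 0) (nat_lit 501039588848) (nat_lit 152) (nat_lit 732102829353) (nat_lit 0) (nat_lit 488616400599) (nat_lit 1) (nat_lit 5)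 (nat_lit 3) (nat_lit 4) (nat_lit 1) (nat_lit 4) (nat_lit 440) (nat_lit 343) (nat_lit 237)) (XT.nd (nat_lit 78) (nat_lit 0) (nat_lit 0) (XT.lf (nat_lit 0) (nat_lit 563020625876) (nat_lit 152) (nat_lit 744049225769) (nat_lit 0) (nat_lit 550597173929) (nat_lit 1) (nat_lit 5) (nat_lit 3) (nat_lit 4) (nat_lit 1) (nat_lit 4) (nat_lit 441) (nat_lit 343) (nat_lit 236)) (XT.lf (nat_lit 0) (nat_lit 629959210822) (nat_lit 152) (nat_lit 756953238208) (nat_lit 0) (nat_lit 617535514711) (nat_lit 1) (nat_lit 5) (nat_lit 3) (nat_lit 4) (nat_lit 1) (nat_lit 4) (nat_lit 442) (nat_lit 343) (nat_lit 235))))) (XT.nd (nat_lit 156) (nat_lit 0) (nat_lit 0) (XT.nd (nat_lit 78) (nat_lit 0) (nat_lit 0) (XT.lf (nat_lit 0) (nat_lit 702252016782) (nat_lit 152) (nat_lit 770891334891) (nat_lit 0) (nat_lit 689828094593) (nat_lit 1) (nat_lit 5) (nat_lit 3) (nat_lit 4) (nat_lit 1) (nat_lit 4) (nat_lit 443) (nat_lit 343)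 (nat_lit 234)) (XT.lf (nat_lit 0) (nat_lit 780327445569) (nat_lit 152) (nat_lit 785946111947) (nat_lit 0) (nat_lit 767903314049) (nat_lit 1) (nat_lit 5) (nat_lit 3) (nat_lit 4) (nat_lit 1) (nat_lit 4) (nat_lit 444) (nat_lit 343) (nat_lit 233))) (XT.nd (nat_lit 78) (nat_lit 0) (nat_lit 0) (XT.lf (nat_lit 0) (nat_lit 864648166391) (nat_lit 152) (nat_lit 802206782870) (nat_lit 0) (nat_lit 852223841045) (nat_lit 1) (nat_lit 5) (nat_lit 3) (nat_lit 4) (nat_lit 1) (nat_lit 4) (nat_lit 445) (nat_lit 343) (nat_lit 232)) (XT.nd (nat_lit 78) (nat_lit 0) (nat_lit 0) (XT.lf (nat_lit 0) (nat_lit 955713857594) (nat_lit 152) (nat_lit 819769707191) (nat_lit 0) (nat_lit 943289352780) (nat_lit 1) (nat_lit 5) (nat_lit 3) (nat_lit 4) (nat_lit 1) (nat_lit 4) (nat_lit 446) (nat_lit 343) (nat_lit 231)) (XT.lf (nat_lit 0) (nat_lit 1054064167717) (nat_lit 152) (nat_lit 838738961499) (nat_lit 0) (nat_lit 1041639496729)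 (nat_lit 1) (nat_lit 5) (nat_lit 3) (nat_lit 4) (nat_lit 1) (nat_lit 4) (nat_lit 447) (nat_lit 343) (nat_lit 230)))))) (XT.nd (nat_lit 390) (nat_lit 0) (nat_lit 0) (XT.nd (nat_lit 156) (nat_lit 0) (nat_lit 0) (XT.nd (nat_lit 78) (nat_lit 0) (nat_lit 0) (XT.lf (nat_lit 0) (nat_lit 1160281913414) (nat_lit 152) (nat_lit 859226956189) (nat_lit 0) (nat_lit 1147857088561) (nat_lit 1) (nat_lit 5) (nat_lit 3) (nat_lit 4) (nat_lit 1) (nat_lit 4) (nat_lit 448) (nat_lit 343) (nat_lit 229)) (XT.lf (nat_lit 0) (nat_lit 1274996533177) (nat_lit 152) (nat_lit 881355101600) (nat_lit 0) (nat_lit 1262571565857) (nat_lit 1) (nat_lit 5) (nat_lit 3) (nat_lit 4) (nat_lit 1) (nat_lit 4) (nat_lit 449) (nat_lit 343) (nat_lit 228))) (XT.nd (nat_lit 78) (nat_lit 0) (nat_lit 0) (XT.lf (nat_lit 0) (nat_lit 1398887817346) (nat_lit 152) (nat_lit 905254527483) (nat_lit 0) (nat_lit 1386462718111) (nat_lit 1) (nat_lit 5)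 (nat_lit 3) (nat_lit 4) (nat_lit 1) (nat_lit 4) (nat_lit 450) (nat_lit 343) (nat_lit 227)) (XT.nd (nat_lit 78) (nat_lit 0) (nat_lit 0) (XT.lf (nat_lit 0) (nat_lit 1532689936494) (nat_lit 152) (nat_lit 931066860066) (nat_lit 0) (nat_lit 1520264715116) (nat_lit 1) (nat_lit 5) (nat_lit 3) (nat_lit 4) (nat_lit 1) (nat_lit 4) (nat_lit 451) (nat_lit 343) (nat_lit 226)) (XT.lf (nat_lit 0) (nat_lit 1677195792067) (nat_lit 152) (nat_lit 958945061320) (nat_lit 0) (nat_lit 1664770457594) (nat_lit 1) (nat_lit 5) (nat_lit 3) (nat_lit 4) (nat_lit 1) (nat_lit 4) (nat_lit 452) (nat_lit 343) (nat_lit 225))))) (XT.nd (nat_lit 156) (nat_lit 0) (nat_lit 0) (XT.nd (nat_lit 78) (nat_lit 0) (nat_lit 0) (XT.lf (nat_lit 0) (nat_lit 1833261715061) (nat_lit 152) (nat_lit 989054335399) (nat_lit 0) (nat_lit 1820836275871) (nat_lit 1) (nat_lit 5) (nat_lit 3) (nat_lit 4) (nat_lit 1) (nat_lit 4) (nat_lit 453) (nat_lit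 343) (nat_lit 224)) (XT.lf (nat_lit 0) (nat_lit 2001812540576) (nat_lit 152) (nat_lit 1021573107632) (nat_lit 0) (nat_lit 1989387004425) (nat_lit 1) (nat_lit 5) (nat_lit 3) (nat_lit 4) (nat_lit 1) (nat_lit 4) (nat_lit 454) (nat_lit 343) (nat_lit 223))) (XT.nd (nat_lit 78) (nat_lit 0) (nat_lit 0) (XT.lf (nat_lit 0) (nat_lit 2183847088319) (nat_lit 152) (nat_lit 1056694081854) (nat_lit 0) (nat_lit 2171421462389) (nat_lit 1) (nat_lit 5) (nat_lit 3) (nat_lit 4) (nat_lit 1) (nat_lit 4) (nat_lit 455) (nat_lit 343) (nat_lit 222)) (XT.nd (nat_lit 78) (nat_lit 0) (nat_lit 0) (XT.lf (nat_lit 0) (nat_lit 2380444081535) (nat_lit 152) (nat_lit 1094625382357) (nat_lit 0) (nat_lit 2368018372477) (nat_lit 1) (nat_lit 5) (nat_lit 3) (nat_lit 4) (nat_lit 1) (nat_lit 4) (nat_lit 456) (nat_lit 343) (nat_lit 221)) (XT.lf (nat_lit 0) (nat_lit 2592768539443) (nat_lit 152) (nat_lit 1135591787218) (nat_lit 0)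 (nat_lit 2580342753414) (nat_lit 1) (nat_lit 5) (nat_lit 3) (nat_lit 4) (nat_lit 1) (nat_lit 4) (nat_lit 457) (nat_lit 343) (nat_lit 220))))))) (XT.nd (nat_lit 44616) (nat_lit 0) (nat_lit 3496) (XT.nd (nat_lit 44226) (nat_lit 0) (nat_lit 5396) (XT.nd (nat_lit 156) (nat_lit 0) (nat_lit 0) (XT.nd (nat_lit 78) (nat_lit 0) (nat_lit 0) (XT.lf (nat_lit 0) (nat_lit 2822078681054) (nat_lit 152) (nat_lit 1179836060318) (nat_lit 0) (nat_lit 2809652823756) (nat_lit 1) (nat_lit 5) (nat_lit 3) (nat_lit 4) (nat_lit 1) (nat_lit 4) (nat_lit 458) (nat_lit 343) (nat_lit 219)) (XT.lf (nat_lit 0) (nat_lit 3069733381280) (nat_lit 152) (nat_lit 1227620389941) (nat_lit 0) (nat_lit 3057307457992) (nat_lit 1) (nat_lit 5) (nat_lit 3) (nat_lit 4) (nat_lit 1) (nat_lit 4) (nat_lit 459) (nat_lit 343) (nat_lit 218))) (XT.nd (nat_lit 78) (nat_lit 0) (nat_lit 0) (XT.lf (nat_lit 0) (nat_lit 3337200223530) (nat_lit 152)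 (nat_lit 1279227942486) (nat_lit 0) (nat_lit 3324774239140) (nat_lit 1) (nat_lit 5) (nat_lit 3) (nat_lit 4) (nat_lit 1) (nat_lit 4) (nat_lit 460) (nat_lit 343) (nat_lit 217)) (XT.nd (nat_lit 78) (nat_lit 0) (nat_lit 0) (XT.lf (nat_lit 0) (nat_lit 3626064196499) (nat_lit 152) (nat_lit 1334964540486) (nat_lit 0) (nat_lit 3613638155533) (nat_lit 1) (nat_lit 5) (nat_lit 3) (nat_lit 4) (nat_lit 1) (nat_lit 4) (nat_lit 461) (nat_lit 343) (nat_lit 216)) (XT.lf (nat_lit 0) (nat_lit 3938037086694) (nat_lit 152) (nat_lit 1395160474892) (nat_lit 0) (nat_lit 3925610993343) (nat_lit 1) (nat_lit 5) (nat_lit 3) (nat_lit 4) (nat_lit 1) (nat_lit 4) (nat_lit 462) (nat_lit 343) (nat_lit 215))))) (XT.nd (nat_lit 156) (nat_lit 304) (nat_lit 0) (XT.nd (nat_lit 78) (nat_lit 0) (nat_lit 0) (XT.lf (nat_lit 0) (nat_lit 172289175) (nat_lit 380) (nat_lit 1639084717) (nat_lit 380) (nat_lit 1639084717) (nat_lit 76)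 (nat_lit 3) (nat_lit 81) (nat_lit 3) (nat_lit 81) (nat_lit 5) (nat_lit 344) (nat_lit 344) (nat_lit 332)) (XT.lf (nat_lit 76) (nat_lit 96603819) (nat_lit 0) (nat_lit 2111853185) (nat_lit 380) (nat_lit 4818282909) (nat_lit 77) (nat_lit 5) (nat_lit 76) (nat_lit 3) (nat_lit 81) (nat_lit 5) (nat_lit 345) (nat_lit 344) (nat_lit 331))) (XT.nd (nat_lit 78) (nat_lit 304) (nat_lit 0) (XT.lf (nat_lit 76) (nat_lit 3822590709) (nat_lit 0) (nat_lit 301090028) (nat_lit 380) (nat_lit 3046989646) (nat_lit 77) (nat_lit 5) (nat_lit 76) (nat_lit 3) (nat_lit 81) (nat_lit 5) (nat_lit 346) (nat_lit 344) (nat_lit 330)) (XT.nd (nat_lit 78) (nat_lit 380) (nat_lit 0) (XT.lf (nat_lit 76) (nat_lit 386773710) (nat_lit 0) (nat_lit 5682757560) (nat_lit 380) (nat_lit 1266595697) (nat_lit 78) (nat_lit 5) (nat_lit 77) (nat_lit 5) (nat_lit 82) (nat_lit 5) (nat_lit 347) (nat_lit 344) (nat_lit 329)) (XT.lf (nat_lit 0) (nat_lit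 559141704) (nat_lit 380) (nat_lit 3042025210) (nat_lit 456) (nat_lit 3917706672) (nat_lit 72) (nat_lit 5) (nat_lit 77) (nat_lit 5) (nat_lit 78) (nat_lit 5) (nat_lit 348) (nat_lit 344) (nat_lit 328)))))) (XT.nd (nat_lit 390) (nat_lit 1064) (nat_lit 0) (XT.nd (nat_lit 156) (nat_lit 836) (nat_lit 0) (XT.nd (nat_lit 78) (nat_lit 0) (nat_lit 76) (XT.lf (nat_lit 76) (nat_lit 1088934162) (nat_lit 0) (nat_lit 1246058698) (nat_lit 456) (nat_lit 5388978734) (nat_lit 73) (nat_lit 5) (nat_lit 72) (nat_lit 5) (nat_lit 78) (nat_lit 5) (nat_lit 349) (nat_lit 344) (nat_lit 327)) (XT.lf (nat_lit 0) (nat_lit 4225434470) (nat_lit 380) (nat_lit 2369183062) (nat_lit 76) (nat_lit 1353208352) (nat_lit 73) (nat_lit 5) (nat_lit 78) (nat_lit 5) (nat_lit 74) (nat_lit 5) (nat_lit 350) (nat_lit 344) (nat_lit 326))) (XT.nd (nat_lit 78) (nat_lit 532) (nat_lit 0) (XT.lf (nat_lit 0) (nat_lit 2204395187) (nat_lit 380)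 (nat_lit 4014748741) (nat_lit 456) (nat_lit 1974421094) (nat_lit 68) (nat_lit 5) (nat_lit 73) (nat_lit 5) (nat_lit 74) (nat_lit 5) (nat_lit 351) (nat_lit 344) (nat_lit 325)) (XT.nd (nat_lit 78) (nat_lit 532) (nat_lit 0) (XT.lf (nat_lit 0) (nat_lit 7169966724) (nat_lit 380) (nat_lit 1141077774) (nat_lit 456) (nat_lit 152952043) (nat_lit 68) (nat_lit 5) (nat_lit 73) (nat_lit 5) (nat_lit 74) (nat_lit 5) (nat_lit 352) (nat_lit 344) (nat_lit 324)) (XT.lf (nat_lit 0) (nat_lit 1746414684) (nat_lit 532) (nat_lit 4988930339) (nat_lit 76) (nat_lit 2015502555) (nat_lit 61) (nat_lit 5) (nat_lit 68) (nat_lit 5) (nat_lit 62) (nat_lit 5) (nat_lit 353) (nat_lit 344) (nat_lit 323))))) (XT.nd (nat_lit 234) (nat_lit 456) (nat_lit 0) (XT.nd (nat_lit 78) (nat_lit 228) (nat_lit 0) (XT.lf (nat_lit 0) (nat_lit 94615708) (nat_lit 380) (nat_lit 3649770236) (nat_lit 456) (nat_lit 5319651689) (nat_lit 56) (nat_lit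 5) (nat_lit 61) (nat_lit 5) (nat_lit 62) (nat_lit 5) (nat_lit 354) (nat_lit 344) (nat_lit 322)) (XT.nd (nat_lit 78) (nat_lit 228) (nat_lit 0) (XT.lf (nat_lit 0) (nat_lit 5757745231) (nat_lit 380) (nat_lit 173287403) (nat_lit 456) (nat_lit 3469037914) (nat_lit 56) (nat_lit 5) (nat_lit 61) (nat_lit 5) (nat_lit 62) (nat_lit 5) (nat_lit 355) (nat_lit 344) (nat_lit 321)) (XT.lf (nat_lit 0) (nat_lit 2015008195) (nat_lit 228) (nat_lit 6312521592) (nat_lit 304) (nat_lit 1432750469) (nat_lit 53) (nat_lit 5) (nat_lit 56) (nat_lit 5) (nat_lit 57) (nat_lit 5) (nat_lit 356) (nat_lit 344) (nat_lit 320)))) (XT.nd (nat_lit 78) (nat_lit 380) (nat_lit 0) (XT.lf (nat_lit 0) (nat_lit 737350905) (nat_lit 304) (nat_lit 1947793994) (nat_lit 76) (nat_lit 7462022255) (nat_lit 52) (nat_lit 5) (nat_lit 56) (nat_lit 5) (nat_lit 53) (nat_lit 5) (nat_lit 357) (nat_lit 344) (nat_lit 319)) (XT.nd (nat_lit 78) (nat_lit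 152) (nat_lit 0) (XT.lf (nat_lit 0) (nat_lit 3052060881) (nat_lit 304) (nat_lit 6202562495) (nat_lit 76) (nat_lit 1303601572) (nat_lit 49) (nat_lit 5) (nat_lit 53) (nat_lit 5) (nat_lit 50) (nat_lit 5) (nat_lit 358) (nat_lit 344) (nat_lit 318)) (XT.lf (nat_lit 0) (nat_lit 101677930) (nat_lit 152) (nat_lit 5490735513) (nat_lit 228) (nat_lit 5406581093) (nat_lit 47) (nat_lit 5) (nat_lit 49) (nat_lit 5) (nat_lit 50) (nat_lit 5) (nat_lit 359) (nat_lit 344) (nat_lit 317))))))))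
noncomputable def xc106 : XT := (XT.nd (nat_lit 1560) (nat_lit 1064) (nat_lit 0) (XT.nd (nat_lit 780) (nat_lit 760) (nat_lit 0) (XT.nd (nat_lit 390) (nat_lit 456) (nat_lit 0) (XT.nd (nat_lit 156) (nat_lit 380) (nat_lit 0) (XT.nd (nat_lit 78) (nat_lit 228) (nat_lit 0) (XT.lf (nat_lit 0) (nat_lit 7157208299) (nat_lit 152) (nat_lit 1265864851) (nat_lit 228) (nat_lit 3045045884) (nat_lit 47) (nat_lit 5) (nat_lit 49) (nat_lit 5) (nat_lit 50) (nat_lit 5) (nat_lit 360) (nat_lit 344) (nat_lit 316)) (XT.lf (nat_lit 0) (nat_lit 2757446974) (nat_lit 228) (nat_lit 8791431388) (nat_lit 304) (nat_lit 420454952) (nat_lit 44) (nat_lit 5) (nat_lit 47) (nat_lit 5) (nat_lit 48) (nat_lit 5) (nat_lit 361) (nat_lit 344) (nat_lit 315))) (XT.nd (nat_lit 78) (nat_lit 304) (nat_lit 0) (XT.lf (nat_lit 0) (nat_lit 2371539682) (nat_lit 304) (nat_lit 2063789383) (nat_lit 76) (nat_lit 8064462320) (nat_lit 43) (nat_lit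 5) (nat_lit 47) (nat_lit 5) (nat_lit 44) (nat_lit 5) (nat_lit 362) (nat_lit 344) (nat_lit 314)) (XT.nd (nat_lit 78) (nat_lit 152) (nat_lit 0) (XT.lf (nat_lit 0) (nat_lit 5444378257) (nat_lit 228) (nat_lit 7235824703) (nat_lit 76) (nat_lit 385237332) (nat_lit 41) (nat_lit 5) (nat_lit 44) (nat_lit 5) (nat_lit 42) (nat_lit 5) (nat_lit 363) (nat_lit 344) (nat_lit 313)) (XT.lf (nat_lit 0) (nat_lit 614595804) (nat_lit 152) (nat_lit 8268558218) (nat_lit 228) (nat_lit 4783618885) (nat_lit 39) (nat_lit 5) (nat_lit 41) (nat_lit 5) (nat_lit 42) (nat_lit 5) (nat_lit 364) (nat_lit 344) (nat_lit 312))))) (XT.nd (nat_lit 156) (nat_lit 228) (nat_lit 0) (XT.nd (nat_lit 78) (nat_lit 228) (nat_lit 0) (XT.lf (nat_lit 0) (nat_lit 9407561739) (nat_lit 152) (nat_lit 3322229842) (nat_lit 228) (nat_lit 1575837367) (nat_lit 39) (nat_lit 5) (nat_lit 41) (nat_lit 5) (nat_lit 42) (nat_lit 5) (nat_lit 365) (nat_lit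 344) (nat_lit 311)) (XT.lf (nat_lit 0) (nat_lit 1879157815) (nat_lit 228) (nat_lit 11072424845) (nat_lit 76) (nat_lit 2033604246) (nat_lit 36) (nat_lit 5) (nat_lit 39) (nat_lit 5) (nat_lit 37) (nat_lit 5) (nat_lit 366) (nat_lit 344) (nat_lit 310))) (XT.nd (nat_lit 78) (nat_lit 228) (nat_lit 0) (XT.lf (nat_lit 0) (nat_lit 5688897734) (nat_lit 228) (nat_lit 2226859445) (nat_lit 76) (nat_lit 7787029199) (nat_lit 36) (nat_lit 5) (nat_lit 39) (nat_lit 5) (nat_lit 37) (nat_lit 5) (nat_lit 367) (nat_lit 344) (nat_lit 309)) (XT.nd (nat_lit 78) (nat_lit 76) (nat_lit 0) (XT.lf (nat_lit 0) (nat_lit 7619765521) (nat_lit 152) (nat_lit 2311156183) (nat_lit 228) (nat_lit 6536699347) (nat_lit 34) (nat_lit 5) (nat_lit 36) (nat_lit 5) (nat_lit 37) (nat_lit 5) (nat_lit 368) (nat_lit 344) (nat_lit 308)) (XT.lf (nat_lit 0) (nat_lit 959320118) (nat_lit 76) (nat_lit 13674073276) (nat_lit 152) (nat_lit 2650587828)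 (nat_lit 33) (nat_lit 5) (nat_lit 34) (nat_lit 5) (nat_lit 35) (nat_lit 4) (nat_lit 369) (nat_lit 344) (nat_lit 307)))))) (XT.nd (nat_lit 390) (nat_lit 380) (nat_lit 0) (XT.nd (nat_lit 156) (nat_lit 152) (nat_lit 0) (XT.nd (nat_lit 78) (nat_lit 152) (nat_lit 0) (XT.lf (nat_lit 0) (nat_lit 1723398519) (nat_lit 152) (nat_lit 6285239758) (nat_lit 76) (nat_lit 10133711066) (nat_lit 32) (nat_lit 5) (nat_lit 34) (nat_lit 5) (nat_lit 33) (nat_lit 5) (nat_lit 370) (nat_lit 344) (nat_lit 306)) (XT.lf (nat_lit 0) (nat_lit 4637422226) (nat_lit 152) (nat_lit 1728316737) (nat_lit 228) (nat_lit 12693229686) (nat_lit 30) (nat_lit 5) (nat_lit 32) (nat_lit 5) (nat_lit 33) (nat_lit 5) (nat_lit 371) (nat_lit 344) (nat_lit 305))) (XT.nd (nat_lit 78) (nat_lit 152) (nat_lit 0) (XT.lf (nat_lit 0) (nat_lit 11628404930) (nat_lit 228) (nat_lit 3453876317) (nat_lit 76) (nat_lit 4946739998) (nat_lit 30) (nat_lit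 5) (nat_lit 33) (nat_lit 5) (nat_lit 31) (nat_lit 4) (nat_lit 372) (nat_lit 344) (nat_lit 304)) (XT.nd (nat_lit 78) (nat_lit 76) (nat_lit 0) (XT.lf (nat_lit 0) (nat_lit 8703917258) (nat_lit 76) (nat_lit 8817078317) (nat_lit 152) (nat_lit 3538986974) (nat_lit 29) (nat_lit 5) (nat_lit 30) (nat_lit 5) (nat_lit 31) (nat_lit 4) (nat_lit 373) (nat_lit 344) (nat_lit 303)) (XT.lf (nat_lit 0) (nat_lit 1677911565) (nat_lit 152) (nat_lit 256937943) (nat_lit 76) (nat_lit 20231136417) (nat_lit 28) (nat_lit 5) (nat_lit 30) (nat_lit 5) (nat_lit 29) (nat_lit 5) (nat_lit 374) (nat_lit 344) (nat_lit 302))))) (XT.nd (nat_lit 156) (nat_lit 152) (nat_lit 0) (XT.nd (nat_lit 78) (nat_lit 76) (nat_lit 0) (XT.lf (nat_lit 0) (nat_lit 7541697649) (nat_lit 228) (nat_lit 10161353260) (nat_lit 76) (nat_lit 5616420118) (nat_lit 26) (nat_lit 5) (nat_lit 29) (nat_lit 5) (nat_lit 27) (nat_lit 4) (nat_lit 375) (nat_lit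 344) (nat_lit 301)) (XT.lf (nat_lit 0) (nat_lit 3129333218) (nat_lit 76) (nat_lit 10837029685) (nat_lit 152) (nat_lit 10591542732) (nat_lit 25) (nat_lit 5) (nat_lit 26) (nat_lit 5) (nat_lit 27) (nat_lit 4) (nat_lit 376) (nat_lit 344) (nat_lit 300))) (XT.nd (nat_lit 78) (nat_lit 152) (nat_lit 0) (XT.lf (nat_lit 0) (nat_lit 17989922401) (nat_lit 76) (nat_lit 3153280587) (nat_lit 152) (nat_lit 4733167744) (nat_lit 25) (nat_lit 5) (nat_lit 26) (nat_lit 5) (nat_lit 27) (nat_lit 4) (nat_lit 377) (nat_lit 344) (nat_lit 299)) (XT.nd (nat_lit 78) (nat_lit 0) (nat_lit 0) (XT.lf (nat_lit 0) (nat_lit 1772777053) (nat_lit 152) (nat_lit 20433176879) (nat_lit 76) (nat_lit 5070612084) (nat_lit 23) (nat_lit 5) (nat_lit 25) (nat_lit 5) (nat_lit 24) (nat_lit 4) (nat_lit 378) (nat_lit 344) (nat_lit 298)) (XT.lf (nat_lit 0) (nat_lit 8809441544) (nat_lit 152) (nat_lit 5850290584) (nat_lit 76) (nat_lit 14097942400)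 (nat_lit 23) (nat_lit 5) (nat_lit 25) (nat_lit 5) (nat_lit 24) (nat_lit 4) (nat_lit 379) (nat_lit 344) (nat_lit 297))))))) (XT.nd (nat_lit 780) (nat_lit 532) (nat_lit 0) (XT.nd (nat_lit 390) (nat_lit 228) (nat_lit 0) (XT.nd (nat_lit 156) (nat_lit 228) (nat_lit 0) (XT.nd (nat_lit 78) (nat_lit 0) (nat_lit 0) (XT.lf (nat_lit 0) (nat_lit 10353791739) (nat_lit 76) (nat_lit 6269834614) (nat_lit 152) (nat_lit 13716487107) (nat_lit 22) (nat_lit 5) (nat_lit 23) (nat_lit 5) (nat_lit 24) (nat_lit 4) (nat_lit 380) (nat_lit 344) (nat_lit 296)) (XT.lf (nat_lit 0) (nat_lit 25260146873) (nat_lit 152) (nat_lit 3984485995) (nat_lit 0) (nat_lit 2788746630) (nat_lit 22) (nat_lit 5) (nat_lit 24) (nat_lit 4) (nat_lit 22) (nat_lit 4) (nat_lit 381) (nat_lit 344) (nat_lit 295))) (XT.nd (nat_lit 78) (nat_lit 76) (nat_lit 0) (XT.lf (nat_lit 0) (nat_lit 1163554437) (nat_lit 152) (nat_lit 20090439853) (nat_lit 76)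 (nat_lit 12568774514) (nat_lit 20) (nat_lit 5) (nat_lit 22) (nat_lit 5) (nat_lit 21) (nat_lit 4) (nat_lit 382) (nat_lit 344) (nat_lit 294)) (XT.nd (nat_lit 78) (nat_lit 76) (nat_lit 0) (XT.lf (nat_lit 0) (nat_lit 9449757508) (nat_lit 152) (nat_lit 2891464169) (nat_lit 76) (nat_lit 23393587447) (nat_lit 20) (nat_lit 5) (nat_lit 22) (nat_lit 5) (nat_lit 21) (nat_lit 4) (nat_lit 383) (nat_lit 344) (nat_lit 293)) (XT.lf (nat_lit 0) (nat_lit 16451587098) (nat_lit 76) (nat_lit 2313885364) (nat_lit 152) (nat_lit 19005016886) (nat_lit 19) (nat_lit 5) (nat_lit 20) (nat_lit 5) (nat_lit 21) (nat_lit 4) (nat_lit 384) (nat_lit 344) (nat_lit 292))))) (XT.nd (nat_lit 156) (nat_lit 152) (nat_lit 0) (XT.nd (nat_lit 78) (nat_lit 76) (nat_lit 0) (XT.lf (nat_lit 0) (nat_lit 29083570930) (nat_lit 152) (nat_lit 2718113736) (nat_lit 0) (nat_lit 8146774709) (nat_lit 19) (nat_lit 5) (nat_lit 21) (nat_lit 4) (nat_lit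 19) (nat_lit 4) (nat_lit 385) (nat_lit 344) (nat_lit 291)) (XT.lf (nat_lit 0) (nat_lit 18168496671) (nat_lit 76) (nat_lit 22529020431) (nat_lit 76) (nat_lit 1565522998) (nat_lit 18) (nat_lit 4) (nat_lit 19) (nat_lit 5) (nat_lit 19) (nat_lit 4) (nat_lit 386) (nat_lit 344) (nat_lit 290))) (XT.nd (nat_lit 78) (nat_lit 76) (nat_lit 0) (XT.lf (nat_lit 0) (nat_lit 8103394985) (nat_lit 152) (nat_lit 4133159208) (nat_lit 76) (nat_lit 32505950418) (nat_lit 17) (nat_lit 5) (nat_lit 19) (nat_lit 5) (nat_lit 18) (nat_lit 4) (nat_lit 387) (nat_lit 344) (nat_lit 289)) (XT.nd (nat_lit 78) (nat_lit 0) (nat_lit 0) (XT.lf (nat_lit 0) (nat_lit 18250088971) (nat_lit 76) (nat_lit 625488785) (nat_lit 152) (nat_lit 28508353106) (nat_lit 16) (nat_lit 5) (nat_lit 17) (nat_lit 5) (nat_lit 18) (nat_lit 4) (nat_lit 388) (nat_lit 344) (nat_lit 288)) (XT.lf (nat_lit 0) (nat_lit 30887613027) (nat_lit 152) (nat_lit 7905562896)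 (nat_lit 0) (nat_lit 11413252799) (nat_lit 16) (nat_lit 5) (nat_lit 18) (nat_lit 4) (nat_lit 16) (nat_lit 4) (nat_lit 389) (nat_lit 344) (nat_lit 287)))))) (XT.nd (nat_lit 390) (nat_lit 304) (nat_lit 0) (XT.nd (nat_lit 156) (nat_lit 76) (nat_lit 0) (XT.nd (nat_lit 78) (nat_lit 76) (nat_lit 0) (XT.lf (nat_lit 0) (nat_lit 15748549889) (nat_lit 76) (nat_lit 28484460337) (nat_lit 76) (nat_lit 8991927713) (nat_lit 15) (nat_lit 4) (nat_lit 16) (nat_lit 5) (nat_lit 16) (nat_lit 4) (nat_lit 390) (nat_lit 344) (nat_lit 286)) (XT.lf (nat_lit 0) (nat_lit 2252239448) (nat_lit 152) (nat_lit 14824700864) (nat_lit 76) (nat_lit 39387893711) (nat_lit 14) (nat_lit 5) (nat_lit 16) (nat_lit 5) (nat_lit 15) (nat_lit 4) (nat_lit 391) (nat_lit 344) (nat_lit 285))) (XT.nd (nat_lit 78) (nat_lit 0) (nat_lit 0) (XT.lf (nat_lit 0) (nat_lit 9857896566) (nat_lit 76) (nat_lit 4268466599) (nat_lit 152) (nat_lit 45801579184)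 (nat_lit 13) (nat_lit 5) (nat_lit 14) (nat_lit 5) (nat_lit 15) (nat_lit 4) (nat_lit 392) (nat_lit 344) (nat_lit 284)) (XT.nd (nat_lit 78) (nat_lit 0) (nat_lit 0) (XT.lf (nat_lit 0) (nat_lit 27575567690) (nat_lit 152) (nat_lit 26558958737) (nat_lit 0) (nat_lit 9483563382) (nat_lit 13) (nat_lit 5) (nat_lit 15) (nat_lit 4) (nat_lit 13) (nat_lit 4) (nat_lit 393) (nat_lit 344) (nat_lit 283)) (XT.lf (nat_lit 0) (nat_lit 42192372530) (nat_lit 152) (nat_lit 1315745380) (nat_lit 0) (nat_lit 24088000395) (nat_lit 13) (nat_lit 5) (nat_lit 15) (nat_lit 4) (nat_lit 13) (nat_lit 4) (nat_lit 394) (nat_lit 344) (nat_lit 282))))) (XT.nd (nat_lit 234) (nat_lit 76) (nat_lit 0) (XT.nd (nat_lit 78) (nat_lit 152) (nat_lit 0) (XT.lf (nat_lit 0) (nat_lit 27276312023) (nat_lit 76) (nat_lit 31340423002) (nat_lit 76) (nat_lit 13224599175) (nat_lit 12) (nat_lit 4) (nat_lit 13) (nat_lit 5) (nat_lit 13) (nat_lit 4)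 (nat_lit 395) (nat_lit 344) (nat_lit 281)) (XT.nd (nat_lit 78) (nat_lit 152) (nat_lit 0) (XT.lf (nat_lit 0) (nat_lit 58196365223) (nat_lit 76) (nat_lit 18177368226) (nat_lit 76) (nat_lit 50940980) (nat_lit 12) (nat_lit 4) (nat_lit 13) (nat_lit 5) (nat_lit 13) (nat_lit 4) (nat_lit 396) (nat_lit 344) (nat_lit 280)) (XT.lf (nat_lit 0) (nat_lit 10360118088) (nat_lit 76) (nat_lit 3340056581) (nat_lit 152) (nat_lit 67628614215) (nat_lit 10) (nat_lit 5) (nat_lit 11) (nat_lit 5) (nat_lit 12) (nat_lit 4) (nat_lit 397) (nat_lit 344) (nat_lit 279)))) (XT.nd (nat_lit 78) (nat_lit 76) (nat_lit 0) (XT.lf (nat_lit 0) (nat_lit 29348674122) (nat_lit 152) (nat_lit 44665013257) (nat_lit 0) (nat_lit 12547437133) (nat_lit 10) (nat_lit 5) (nat_lit 12) (nat_lit 4) (nat_lit 10) (nat_lit 4) (nat_lit 398) (nat_lit 344) (nat_lit 278)) (XT.nd (nat_lit 78) (nat_lit 76) (nat_lit 0) (XT.lf (nat_lit 0) (nat_lit 46320670122)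 (nat_lit 152) (nat_lit 16374009721) (nat_lit 0) (nat_lit 29511639303) (nat_lit 10) (nat_lit 5) (nat_lit 12) (nat_lit 4) (nat_lit 10) (nat_lit 4) (nat_lit 399) (nat_lit 344) (nat_lit 277)) (XT.lf (nat_lit 0) (nat_lit 14897554662) (nat_lit 76) (nat_lit 50097140905) (nat_lit 76) (nat_lit 33280893577) (nat_lit 9) (nat_lit 4) (nat_lit 10) (nat_lit 5) (nat_lit 10) (nat_lit 4) (nat_lit 400) (nat_lit 344) (nat_lit 276))))))))
noncomputable def xc107 : XT := (XT.nd (nat_lit 1638) (nat_lit 152) (nat_lit 0) (XT.nd (nat_lit 780) (nat_lit 228) (nat_lit 0) (XT.nd (nat_lit 390) (nat_lit 76) (nat_lit 0) (XT.nd (nat_lit 156) (nat_lit 152) (nat_lit 0) (XT.nd (nat_lit 78) (nat_lit 0) (nat_lit 0) (XT.lf (nat_lit 0) (nat_lit 49574800917) (nat_lit 76) (nat_lit 36021902763) (nat_lit 76) (nat_lit 19198973483) (nat_lit 9) (nat_lit 4) (nat_lit 10) (nat_lit 5) (nat_lit 10) (nat_lit 4) (nat_lit 401) (nat_lit 344)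 (nat_lit 275)) (XT.lf (nat_lit 0) (nat_lit 87000997500) (nat_lit 76) (nat_lit 20833251042) (nat_lit 76) (nat_lit 4004134770) (nat_lit 9) (nat_lit 4) (nat_lit 10) (nat_lit 5) (nat_lit 10) (nat_lit 4) (nat_lit 402) (nat_lit 344) (nat_lit 274))) (XT.nd (nat_lit 78) (nat_lit 0) (nat_lit 0) (XT.lf (nat_lit 0) (nat_lit 8057487313) (nat_lit 76) (nat_lit 3909980130) (nat_lit 152) (nat_lit 107438626647) (nat_lit 7) (nat_lit 5) (nat_lit 8) (nat_lit 5) (nat_lit 9) (nat_lit 4) (nat_lit 403) (nat_lit 344) (nat_lit 273)) (XT.nd (nat_lit 78) (nat_lit 0) (nat_lit 0) (XT.lf (nat_lit 0) (nat_lit 30030788689) (nat_lit 152) (nat_lit 83019630406) (nat_lit 0) (nat_lit 14438057838) (nat_lit 7) (nat_lit 5) (nat_lit 9) (nat_lit 4) (nat_lit 7) (nat_lit 4) (nat_lit 404) (nat_lit 344) (nat_lit 272)) (XT.lf (nat_lit 0) (nat_lit 49629669410) (nat_lit 152) (nat_lit 52548151425) (nat_lit 0) (nat_lit 34032390934) (nat_lit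 7) (nat_lit 5) (nat_lit 9) (nat_lit 4) (nat_lit 7) (nat_lit 4) (nat_lit 405) (nat_lit 344) (nat_lit 271))))) (XT.nd (nat_lit 156) (nat_lit 0) (nat_lit 0) (XT.nd (nat_lit 78) (nat_lit 76) (nat_lit 0) (XT.lf (nat_lit 0) (nat_lit 70786216004) (nat_lit 152) (nat_lit 19659562990) (nat_lit 0) (nat_lit 55184726765) (nat_lit 7) (nat_lit 5) (nat_lit 9) (nat_lit 4) (nat_lit 7) (nat_lit 4) (nat_lit 406) (nat_lit 344) (nat_lit 270)) (XT.lf (nat_lit 0) (nat_lit 16675190814) (nat_lit 76) (nat_lit 77351648525) (nat_lit 76) (nat_lit 61746260431) (nat_lit 6) (nat_lit 4) (nat_lit 7) (nat_lit 5) (nat_lit 7) (nat_lit 4) (nat_lit 407) (nat_lit 344) (nat_lit 269))) (XT.nd (nat_lit 78) (nat_lit 0) (nat_lit 0) (XT.lf (nat_lit 0) (nat_lit 57016182505) (nat_lit 76) (nat_lit 62638826938) (nat_lit 76) (nat_lit 47029828793) (nat_lit 6) (nat_lit 4) (nat_lit 7) (nat_lit 5) (nat_lit 7) (nat_lit 4) (nat_lit 408) (nat_lit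 344) (nat_lit 268)) (XT.nd (nat_lit 78) (nat_lit 0) (nat_lit 0) (XT.lf (nat_lit 0) (nat_lit 100567232061) (nat_lit 76) (nat_lit 46757654436) (nat_lit 76) (nat_lit 31145313652) (nat_lit 6) (nat_lit 4) (nat_lit 7) (nat_lit 5) (nat_lit 7) (nat_lit 4) (nat_lit 409) (nat_lit 344) (nat_lit 267)) (XT.lf (nat_lit 0) (nat_lit 147586419776) (nat_lit 76) (nat_lit 29614020367) (nat_lit 76) (nat_lit 13998584546) (nat_lit 6) (nat_lit 4) (nat_lit 7) (nat_lit 5) (nat_lit 7) (nat_lit 4) (nat_lit 410) (nat_lit 344) (nat_lit 266)))))) (XT.nd (nat_lit 390) (nat_lit 76) (nat_lit 0) (XT.nd (nat_lit 156) (nat_lit 0) (nat_lit 0) (XT.nd (nat_lit 78) (nat_lit 76) (nat_lit 0) (XT.lf (nat_lit 0) (nat_lit 4286261818) (nat_lit 152) (nat_lit 6702877013) (nat_lit 76) (nat_lit 193948922062) (nat_lit 5) (nat_lit 5) (nat_lit 7) (nat_lit 5) (nat_lit 6) (nat_lit 4) (nat_lit 411) (nat_lit 344) (nat_lit 265)) (XT.lf (nat_lit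 0) (nat_lit 24350875766) (nat_lit 152) (nat_lit 185423366905) (nat_lit 0) (nat_lit 9887028458) (nat_lit 4) (nat_lit 5) (nat_lit 6) (nat_lit 4) (nat_lit 4) (nat_lit 4) (nat_lit 412) (nat_lit 344) (nat_lit 264))) (XT.nd (nat_lit 78) (nat_lit 0) (nat_lit 0) (XT.lf (nat_lit 0) (nat_lit 46487178899) (nat_lit 152) (nat_lit 157016781465) (nat_lit 0) (nat_lit 32021056648) (nat_lit 4) (nat_lit 5) (nat_lit 6) (nat_lit 4) (nat_lit 4) (nat_lit 4) (nat_lit 413) (nat_lit 344) (nat_lit 263)) (XT.nd (nat_lit 78) (nat_lit 0) (nat_lit 0) (XT.lf (nat_lit 0) (nat_lit 70387959557) (nat_lit 152) (nat_lit 126350686672) (nat_lit 0) (nat_lit 55919730875) (nat_lit 4) (nat_lit 5) (nat_lit 6) (nat_lit 4) (nat_lit 4) (nat_lit 4) (nat_lit 414) (nat_lit 344) (nat_lit 262)) (XT.lf (nat_lit 0) (nat_lit 96194851995) (nat_lit 152) (nat_lit 93243357520) (nat_lit 0) (nat_lit 81724672915) (nat_lit 4) (nat_lit 5) (nat_lit 6)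 (nat_lit 4) (nat_lit 4) (nat_lit 4) (nat_lit 415) (nat_lit 344) (nat_lit 261))))) (XT.nd (nat_lit 234) (nat_lit 0) (nat_lit 0) (XT.nd (nat_lit 78) (nat_lit 76) (nat_lit 0) (XT.lf (nat_lit 0) (nat_lit 124060785946) (nat_lit 152) (nat_lit 57498602428) (nat_lit 0) (nat_lit 109588800941) (nat_lit 4) (nat_lit 5) (nat_lit 6) (nat_lit 4) (nat_lit 4) (nat_lit 4) (nat_lit 416) (nat_lit 344) (nat_lit 260)) (XT.nd (nat_lit 78) (nat_lit 76) (nat_lit 0) (XT.lf (nat_lit 0) (nat_lit 154150892870) (nat_lit 152) (nat_lit 18904600626) (nat_lit 0) (nat_lit 139677235713) (nat_lit 4) (nat_lit 5) (nat_lit 6) (nat_lit 4) (nat_lit 4) (nat_lit 4) (nat_lit 417) (nat_lit 344) (nat_lit 259)) (XT.lf (nat_lit 0) (nat_lit 23966241548) (nat_lit 76) (nat_lit 163253631650) (nat_lit 76) (nat_lit 148778426204) (nat_lit 3) (nat_lit 4) (nat_lit 4) (nat_lit 5) (nat_lit 4) (nat_lit 4) (nat_lit 418) (nat_lit 344) (nat_lit 258))))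 (XT.nd (nat_lit 78) (nat_lit 0) (nat_lit 0) (XT.lf (nat_lit 0) (nat_lit 71332546481) (nat_lit 76) (nat_lit 152114112541) (nat_lit 76) (nat_lit 137637473495) (nat_lit 3) (nat_lit 4) (nat_lit 4) (nat_lit 5) (nat_lit 4) (nat_lit 4) (nat_lit 419) (nat_lit 344) (nat_lit 257)) (XT.nd (nat_lit 78) (nat_lit 0) (nat_lit 0) (XT.lf (nat_lit 0) (nat_lit 122479520619) (nat_lit 76) (nat_lit 140087809488) (nat_lit 76) (nat_lit 125609843034) (nat_lit 3) (nat_lit 4) (nat_lit 4) (nat_lit 5) (nat_lit 4) (nat_lit 4) (nat_lit 420) (nat_lit 344) (nat_lit 256)) (XT.lf (nat_lit 0) (nat_lit 177710257144) (nat_lit 76) (nat_lit 127103455511) (nat_lit 76) (nat_lit 112624259974) (nat_lit 3) (nat_lit 4) (nat_lit 4) (nat_lit 5) (nat_lit 4) (nat_lit 4) (nat_lit 421) (nat_lit 344) (nat_lit 255))))))) (XT.nd (nat_lit 780) (nat_lit 0) (nat_lit 0) (XT.nd (nat_lit 390) (nat_lit 152) (nat_lit 0) (XT.nd (nat_lit 156) (nat_lit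 0) (nat_lit 0) (XT.nd (nat_lit 78) (nat_lit 0) (nat_lit 0) (XT.lf (nat_lit 0) (nat_lit 237352049308) (nat_lit 76) (nat_lit 113084106288) (nat_lit 76) (nat_lit 98603772713) (nat_lit 3) (nat_lit 4) (nat_lit 4) (nat_lit 5) (nat_lit 4) (nat_lit 4) (nat_lit 422) (nat_lit 344) (nat_lit 254)) (XT.lf (nat_lit 0) (nat_lit 301758329953) (nat_lit 76) (nat_lit 97946684195) (nat_lit 76) (nat_lit 83465296881) (nat_lit 3) (nat_lit 4) (nat_lit 4) (nat_lit 5) (nat_lit 4) (nat_lit 4) (nat_lit 423) (nat_lit 344) (nat_lit 253))) (XT.nd (nat_lit 78) (nat_lit 0) (nat_lit 0) (XT.lf (nat_lit 0) (nat_lit 371310765929) (nat_lit 76) (nat_lit 81601485990) (nat_lit 76) (nat_lit 67119122991) (nat_lit 3) (nat_lit 4) (nat_lit 4) (nat_lit 5) (nat_lit 4) (nat_lit 4) (nat_lit 424) (nat_lit 344) (nat_lit 252)) (XT.nd (nat_lit 78) (nat_lit 0) (nat_lit 0) (XT.lf (nat_lit 0) (nat_lit 446421519818) (nat_lit 76) (nat_lit 63951651240)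 (nat_lit 76) (nat_lit 49468384829) (nat_lit 3) (nat_lit 4) (nat_lit 4) (nat_lit 5) (nat_lit 4) (nat_lit 4) (nat_lit 425) (nat_lit 344) (nat_lit 251)) (XT.lf (nat_lit 0) (nat_lit 527535692384) (nat_lit 76) (nat_lit 44892588330) (nat_lit 76) (nat_lit 30408485427) (nat_lit 3) (nat_lit 4) (nat_lit 4) (nat_lit 5) (nat_lit 4) (nat_lit 4) (nat_lit 426) (nat_lit 344) (nat_lit 250))))) (XT.nd (nat_lit 156) (nat_lit 0) (nat_lit 0) (XT.nd (nat_lit 78) (nat_lit 152) (nat_lit 0) (XT.lf (nat_lit 0) (nat_lit 615133960206) (nat_lit 76) (nat_lit 24311354666) (nat_lit 76) (nat_lit 9826477233) (nat_lit 3) (nat_lit 4) (nat_lit 4) (nat_lit 5) (nat_lit 4) (nat_lit 4) (nat_lit 427) (nat_lit 344) (nat_lit 249)) (XT.lf (nat_lit 0) (nat_lit 10542802662) (nat_lit 76) (nat_lit 1490080631) (nat_lit 152) (nat_lit 687344779768) (nat_lit 1) (nat_lit 5) (nat_lit 2) (nat_lit 5) (nat_lit 3) (nat_lit 4) (nat_lit 428) (nat_lit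 344) (nat_lit 248))) (XT.nd (nat_lit 78) (nat_lit 0) (nat_lit 0) (XT.lf (nat_lit 0) (nat_lit 36622309637) (nat_lit 152) (nat_lit 693519192156) (nat_lit 0) (nat_lit 23209107207) (nat_lit 1) (nat_lit 5) (nat_lit 3) (nat_lit 4) (nat_lit 1) (nat_lit 4) (nat_lit 429) (nat_lit 344) (nat_lit 247)) (XT.nd (nat_lit 78) (nat_lit 0) (nat_lit 0) (XT.lf (nat_lit 0) (nat_lit 63215413295) (nat_lit 152) (nat_lit 698621414007) (nat_lit 0) (nat_lit 49801641562) (nat_lit 1) (nat_lit 5) (nat_lit 3) (nat_lit 4) (nat_lit 1) (nat_lit 4) (nat_lit 430) (nat_lit 344) (nat_lit 246)) (XT.lf (nat_lit 0) (nat_lit 91933946556) (nat_lit 152) (nat_lit 704135924868) (nat_lit 0) (nat_lit 78519647691) (nat_lit 1) (nat_lit 5) (nat_lit 3) (nat_lit 4) (nat_lit 1) (nat_lit 4) (nat_lit 431) (nat_lit 344) (nat_lit 245)))))) (XT.nd (nat_lit 390) (nat_lit 0) (nat_lit 0) (XT.nd (nat_lit 156) (nat_lit 0) (nat_lit 0) (XT.nd (nat_lit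 78) (nat_lit 0) (nat_lit 0) (XT.lf (nat_lit 0) (nat_lit 122948093320) (nat_lit 152) (nat_lit 710095403321) (nat_lit 0) (nat_lit 109533306369) (nat_lit 1) (nat_lit 5) (nat_lit 3) (nat_lit 4) (nat_lit 1) (nat_lit 4) (nat_lit 432) (nat_lit 344) (nat_lit 244)) (XT.lf (nat_lit 0) (nat_lit 156441641123) (nat_lit 152) (nat_lit 716535164794) (nat_lit 0) (nat_lit 143026402242) (nat_lit 1) (nat_lit 5) (nat_lit 3) (nat_lit 4) (nat_lit 1) (nat_lit 4) (nat_lit 433) (nat_lit 344) (nat_lit 243))) (XT.nd (nat_lit 78) (nat_lit 0) (nat_lit 0) (XT.lf (nat_lit 0) (nat_lit 192613070250) (nat_lit 152) (nat_lit 723493370836) (nat_lit 0) (nat_lit 179197412914) (nat_lit 1) (nat_lit 5) (nat_lit 3) (nat_lit 4) (nat_lit 1) (nat_lit 4) (nat_lit 434) (nat_lit 344) (nat_lit 242)) (XT.nd (nat_lit 78) (nat_lit 0) (nat_lit 0) (XT.lf (nat_lit 0) (nat_lit 231676729909) (nat_lit 152) (nat_lit 731011255262) (nat_lit 0) (nat_lit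 218260685115) (nat_lit 1) (nat_lit 5) (nat_lit 3) (nat_lit 4) (nat_lit 1) (nat_lit 4) (nat_lit 435) (nat_lit 344) (nat_lit 241)) (XT.lf (nat_lit 0) (nat_lit 273864108454) (nat_lit 152) (nat_lit 739133368496) (nat_lit 0) (nat_lit 260447704903) (nat_lit 1) (nat_lit 5) (nat_lit 3) (nat_lit 4) (nat_lit 1) (nat_lit 4) (nat_lit 436) (nat_lit 344) (nat_lit 240))))) (XT.nd (nat_lit 234) (nat_lit 0) (nat_lit 0) (XT.nd (nat_lit 78) (nat_lit 0) (nat_lit 0) (XT.lf (nat_lit 0) (nat_lit 319425205166) (nat_lit 152) (nat_lit 747907841581) (nat_lit 0) (nat_lit 306008469433) (nat_lit 1) (nat_lit 5) (nat_lit 3) (nat_lit 4) (nat_lit 1) (nat_lit 4) (nat_lit 437) (nat_lit 344) (nat_lit 239)) (XT.nd (nat_lit 78) (nat_lit 0) (nat_lit 0) (XT.lf (nat_lit 0) (nat_lit 368630011728) (nat_lit 152) (nat_lit 757386671395) (nat_lit 0) (nat_lit 355212968418) (nat_lit 1) (nat_lit 5) (nat_lit 3) (nat_lit 4) (nat_lit 1) (nat_lit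 4) (nat_lit 438) (nat_lit 344) (nat_lit 238)) (XT.lf (nat_lit 0) (nat_lit 421770112180) (nat_lit 152) (nat_lit 767626028779) (nat_lit 0) (nat_lit 408352784077) (nat_lit 1) (nat_lit 5) (nat_lit 3) (nat_lit 4) (nat_lit 1) (nat_lit 4) (nat_lit 439) (nat_lit 344) (nat_lit 237)))) (XT.nd (nat_lit 78) (nat_lit 0) (nat_lit 0) (XT.lf (nat_lit 0) (nat_lit 479160410820) (nat_lit 152) (nat_lit 778686591409) (nat_lit 0) (nat_lit 465742819020) (nat_lit 1) (nat_lit 5) (nat_lit 3) (nat_lit 4) (nat_lit 1) (nat_lit 4) (nat_lit 440) (nat_lit 344) (nat_lit 236)) (XT.nd (nat_lit 78) (nat_lit 0) (nat_lit 0) (XT.lf (nat_lit 0) (nat_lit 541140998308) (nat_lit 152) (nat_lit 790633903358) (nat_lit 0) (nat_lit 527723162343) (nat_lit 1) (nat_lit 5) (nat_lit 3) (nat_lit 4) (nat_lit 1) (nat_lit 4) (nat_lit 441) (nat_lit 344) (nat_lit 235)) (XT.lf (nat_lit 0) (nat_lit 608079167013) (nat_lit 152) (nat_lit 803538763513)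 (nat_lit 0) (nat_lit 594661104970) (nat_lit 1) (nat_lit 5) (nat_lit 3) (nat_lit 4) (nat_lit 1) (nat_lit 4) (nat_lit 442) (nat_lit 344) (nat_lit 234))))))))
noncomputable def xc108 : XT := (XT.nd (nat_lit 45474) (nat_lit 0) (nat_lit 2888) (XT.nd (nat_lit 780) (nat_lit 0) (nat_lit 0) (XT.nd (nat_lit 390) (nat_lit 0) (nat_lit 0) (XT.nd (nat_lit 156) (nat_lit 0) (nat_lit 0) (XT.nd (nat_lit 78) (nat_lit 0) (nat_lit 0) (XT.lf (nat_lit 0) (nat_lit 680371587564) (nat_lit 152) (nat_lit 817477645119) (nat_lit 0) (nat_lit 666953316190) (nat_lit 1) (nat_lit 5) (nat_lit 3) (nat_lit 4) (nat_lit 1) (nat_lit 4) (nat_lit 443) (nat_lit 344) (nat_lit 233)) (XT.lf (nat_lit 0) (nat_lit 758446659492) (nat_lit 152) (nat_lit 832533148955) (nat_lit 0) (nat_lit 745028194292) (nat_lit 1) (nat_lit 5) (nat_lit 3) (nat_lit 4) (nat_lit 1) (nat_lit 4) (nat_lit 444) (nat_lit 344) (nat_lit 232))) (XT.nd (nat_lit 78) (nat_lit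 0) (nat_lit 0) (XT.lf (nat_lit 0) (nat_lit 842767049888) (nat_lit 152) (nat_lit 848794492822) (nat_lit 0) (nat_lit 829348405221) (nat_lit 1) (nat_lit 5) (nat_lit 3) (nat_lit 4) (nat_lit 1) (nat_lit 4) (nat_lit 445) (nat_lit 344) (nat_lit 231)) (XT.nd (nat_lit 78) (nat_lit 0) (nat_lit 0) (XT.lf (nat_lit 0) (nat_lit 933832435141) (nat_lit 152) (nat_lit 866358040239) (nat_lit 0) (nat_lit 920413624300) (nat_lit 1) (nat_lit 5) (nat_lit 3) (nat_lit 4) (nat_lit 1) (nat_lit 4) (nat_lit 446) (nat_lit 344) (nat_lit 230)) (XT.lf (nat_lit 0) (nat_lit 1032182461977) (nat_lit 152) (nat_lit 885327871488) (nat_lit 0) (nat_lit 1018763497271) (nat_lit 1) (nat_lit 5) (nat_lit 3) (nat_lit 4) (nat_lit 1) (nat_lit 4) (nat_lit 447) (nat_lit 344) (nat_lit 229))))) (XT.nd (nat_lit 156) (nat_lit 0) (nat_lit 0) (XT.nd (nat_lit 78) (nat_lit 0) (nat_lit 0) (XT.lf (nat_lit 0) (nat_lit 1138399945371) (nat_lit 152) (nat_lit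 905816400383) (nat_lit 0) (nat_lit 1124980838198) (nat_lit 1) (nat_lit 5) (nat_lit 3) (nat_lit 4) (nat_lit 1) (nat_lit 4) (nat_lit 448) (nat_lit 344) (nat_lit 228)) (XT.lf (nat_lit 0) (nat_lit 1253114322262) (nat_lit 152) (nat_lit 927945040429) (nat_lit 0) (nat_lit 1239695083174) (nat_lit 1) (nat_lit 5) (nat_lit 3) (nat_lit 4) (nat_lit 1) (nat_lit 4) (nat_lit 449) (nat_lit 344) (nat_lit 227))) (XT.nd (nat_lit 78) (nat_lit 0) (nat_lit 0) (XT.lf (nat_lit 0) (nat_lit 1377005381549) (nat_lit 152) (nat_lit 951844924307) (nat_lit 0) (nat_lit 1363586020318) (nat_lit 1) (nat_lit 5) (nat_lit 3) (nat_lit 4) (nat_lit 1) (nat_lit 4) (nat_lit 450) (nat_lit 344) (nat_lit 226)) (XT.nd (nat_lit 78) (nat_lit 0) (nat_lit 0) (XT.lf (nat_lit 0) (nat_lit 1510807292472) (nat_lit 152) (nat_lit 977657680959) (nat_lit 0) (nat_lit 1497387818146) (nat_lit 1) (nat_lit 5) (nat_lit 3) (nat_lit 4) (nat_lit 1) (nat_lit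 4) (nat_lit 451) (nat_lit 344) (nat_lit 225)) (XT.lf (nat_lit 0) (nat_lit 1655312955245) (nat_lit 152) (nat_lit 1005536274869) (nat_lit 0) (nat_lit 1641893376201) (nat_lit 1) (nat_lit 5) (nat_lit 3) (nat_lit 4) (nat_lit 1) (nat_lit 4) (nat_lit 452) (nat_lit 344) (nat_lit 224)))))) (XT.nd (nat_lit 390) (nat_lit 0) (nat_lit 0) (XT.nd (nat_lit 156) (nat_lit 0) (nat_lit 0) (XT.nd (nat_lit 78) (nat_lit 0) (nat_lit 0) (XT.lf (nat_lit 0) (nat_lit 1811378699721) (nat_lit 152) (nat_lit 1035645912519) (nat_lit 0) (nat_lit 1797959023716) (nat_lit 1) (nat_lit 5) (nat_lit 3) (nat_lit 4) (nat_lit 1) (nat_lit 4) (nat_lit 453) (nat_lit 344) (nat_lit 223)) (XT.lf (nat_lit 0) (nat_lit 1979929359941) (nat_lit 152) (nat_lit 1068165021391) (nat_lit 0) (nat_lit 1966509594158) (nat_lit 1) (nat_lit 5) (nat_lit 3) (nat_lit 4) (nat_lit 1) (nat_lit 4) (nat_lit 454) (nat_lit 344) (nat_lit 222))) (XT.nd (nat_lit 78)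 (nat_lit 0) (nat_lit 0) (XT.lf (nat_lit 0) (nat_lit 2161963754632) (nat_lit 152) (nat_lit 1103286307317) (nat_lit 0) (nat_lit 2148543905721) (nat_lit 1) (nat_lit 5) (nat_lit 3) (nat_lit 4) (nat_lit 1) (nat_lit 4) (nat_lit 455) (nat_lit 344) (nat_lit 221)) (XT.nd (nat_lit 78) (nat_lit 0) (nat_lit 0) (XT.lf (nat_lit 0) (nat_lit 2358560606135) (nat_lit 152) (nat_lit 1141217896434) (nat_lit 0) (nat_lit 2345140680252) (nat_lit 1) (nat_lit 5) (nat_lit 3) (nat_lit 4) (nat_lit 1) (nat_lit 4) (nat_lit 456) (nat_lit 344) (nat_lit 220)) (XT.lf (nat_lit 0) (nat_lit 2570884932826) (nat_lit 152) (nat_lit 1182184568531) (nat_lit 0) (nat_lit 2557464935675) (nat_lit 1) (nat_lit 5) (nat_lit 3) (nat_lit 4) (nat_lit 1) (nat_lit 4) (nat_lit 457) (nat_lit 344) (nat_lit 219))))) (XT.nd (nat_lit 156) (nat_lit 0) (nat_lit 0) (XT.nd (nat_lit 78) (nat_lit 0) (nat_lit 0) (XT.lf (nat_lit 0) (nat_lit 2800194952940)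 (nat_lit 152) (nat_lit 1226429089071) (nat_lit 0) (nat_lit 2786774889799) (nat_lit 1) (nat_lit 5) (nat_lit 3) (nat_lit 4) (nat_lit 1) (nat_lit 4) (nat_lit 458) (nat_lit 344) (nat_lit 218)) (XT.lf (nat_lit 0) (nat_lit 3047849540669) (nat_lit 152) (nat_lit 1274213647805) (nat_lit 0) (nat_lit 3034429416426) (nat_lit 1) (nat_lit 5) (nat_lit 3) (nat_lit 4) (nat_lit 1) (nat_lit 4) (nat_lit 459) (nat_lit 344) (nat_lit 217))) (XT.nd (nat_lit 78) (nat_lit 0) (nat_lit 0) (XT.lf (nat_lit 0) (nat_lit 3315316278755) (nat_lit 152) (nat_lit 1325821412490) (nat_lit 0) (nat_lit 3301896097936) (nat_lit 1) (nat_lit 5) (nat_lit 3) (nat_lit 4) (nat_lit 1) (nat_lit 4) (nat_lit 460) (nat_lit 344) (nat_lit 216)) (XT.nd (nat_lit 78) (nat_lit 0) (nat_lit 0) (XT.lf (nat_lit 0) (nat_lit 3604180155276) (nat_lit 152) (nat_lit 1381558206916) (nat_lit 0) (nat_lit 3590759922072) (nat_lit 1) (nat_lit 5) (nat_lit 3) (nat_lit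 4) (nat_lit 1) (nat_lit 4) (nat_lit 461) (nat_lit 344) (nat_lit 215)) (XT.lf (nat_lit 0) (nat_lit 3916152956167) (nat_lit 152) (nat_lit 1441754323198) (nat_lit 0) (nat_lit 3902732674459) (nat_lit 1) (nat_lit 5) (nat_lit 3) (nat_lit 4) (nat_lit 1) (nat_lit 4) (nat_lit 462) (nat_lit 344) (nat_lit 214))))))) (XT.nd (nat_lit 780) (nat_lit 1672) (nat_lit 0) (XT.nd (nat_lit 390) (nat_lit 760) (nat_lit 0) (XT.nd (nat_lit 156) (nat_lit 380) (nat_lit 0) (XT.nd (nat_lit 78) (nat_lit 0) (nat_lit 0) (XT.lf (nat_lit 0) (nat_lit 1989405539) (nat_lit 380) (nat_lit 795334905) (nat_lit 380) (nat_lit 795334905) (nat_lit 76) (nat_lit 3) (nat_lit 81) (nat_lit 3) (nat_lit 81) (nat_lit 5) (nat_lit 345) (nat_lit 345) (nat_lit 330)) (XT.lf (nat_lit 76) (nat_lit 2004724462) (nat_lit 0) (nat_lit 3765619565) (nat_lit 380) (nat_lit 1543730670) (nat_lit 77) (nat_lit 5) (nat_lit 76) (nat_lit 3) (nat_lit 81) (nat_lit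 5) (nat_lit 346) (nat_lit 345) (nat_lit 329))) (XT.nd (nat_lit 78) (nat_lit 0) (nat_lit 76) (XT.lf (nat_lit 0) (nat_lit 93243789) (nat_lit 380) (nat_lit 1604215589) (nat_lit 456) (nat_lit 5792227261) (nat_lit 71) (nat_lit 5) (nat_lit 76) (nat_lit 3) (nat_lit 77) (nat_lit 5) (nat_lit 347) (nat_lit 345) (nat_lit 328)) (XT.nd (nat_lit 78) (nat_lit 0) (nat_lit 0) (XT.lf (nat_lit 0) (nat_lit 1699232402) (nat_lit 380) (nat_lit 5316020259) (nat_lit 456) (nat_lit 667332752) (nat_lit 72) (nat_lit 5) (nat_lit 77) (nat_lit 5) (nat_lit 78) (nat_lit 5) (nat_lit 348) (nat_lit 345) (nat_lit 327)) (XT.lf (nat_lit 0) (nat_lit 3380471827) (nat_lit 380) (nat_lit 1288736608) (nat_lit 456) (nat_lit 3226116152) (nat_lit 72) (nat_lit 5) (nat_lit 77) (nat_lit 5) (nat_lit 78) (nat_lit 5) (nat_lit 349) (nat_lit 345) (nat_lit 326))))) (XT.nd (nat_lit 156) (nat_lit 836) (nat_lit 0) (XT.nd (nat_lit 78) (nat_lit 0)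 (nat_lit 76) (XT.lf (nat_lit 76) (nat_lit 3122151397) (nat_lit 0) (nat_lit 2017369505) (nat_lit 456) (nat_lit 2990236254) (nat_lit 73) (nat_lit 5) (nat_lit 72) (nat_lit 5) (nat_lit 78) (nat_lit 5) (nat_lit 350) (nat_lit 345) (nat_lit 325)) (XT.lf (nat_lit 0) (nat_lit 6972335885) (nat_lit 380) (nat_lit 545396141) (nat_lit 76) (nat_lit 870697749) (nat_lit 73) (nat_lit 5) (nat_lit 78) (nat_lit 5) (nat_lit 74) (nat_lit 5) (nat_lit 351) (nat_lit 345) (nat_lit 324))) (XT.nd (nat_lit 78) (nat_lit 456) (nat_lit 0) (XT.lf (nat_lit 0) (nat_lit 313291382) (nat_lit 456) (nat_lit 4329346605) (nat_lit 76) (nat_lit 4021240877) (nat_lit 67) (nat_lit 5) (nat_lit 73) (nat_lit 5) (nat_lit 68) (nat_lit 5) (nat_lit 352) (nat_lit 345) (nat_lit 323)) (XT.nd (nat_lit 78) (nat_lit 0) (nat_lit 0) (XT.lf (nat_lit 0) (nat_lit 567857821) (nat_lit 456) (nat_lit 1454611517) (nat_lit 532) (nat_lit 6942618438) (nat_lit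 61) (nat_lit 5) (nat_lit 67) (nat_lit 5) (nat_lit 68) (nat_lit 5) (nat_lit 353) (nat_lit 345) (nat_lit 322)) (XT.lf (nat_lit 0) (nat_lit 3932747453) (nat_lit 532) (nat_lit 3334049477) (nat_lit 76) (nat_lit 2018541868) (nat_lit 61) (nat_lit 5) (nat_lit 68) (nat_lit 5) (nat_lit 62) (nat_lit 5) (nat_lit 354) (nat_lit 345) (nat_lit 321)))))) (XT.nd (nat_lit 390) (nat_lit 760) (nat_lit 0) (XT.nd (nat_lit 156) (nat_lit 532) (nat_lit 0) (XT.nd (nat_lit 78) (nat_lit 0) (nat_lit 0) (XT.lf (nat_lit 0) (nat_lit 2104180373) (nat_lit 380) (nat_lit 3882922628) (nat_lit 456) (nat_lit 3644894147) (nat_lit 56) (nat_lit 5) (nat_lit 61) (nat_lit 5) (nat_lit 62) (nat_lit 5) (nat_lit 355) (nat_lit 345) (nat_lit 320)) (XT.lf (nat_lit 0) (nat_lit 8072064302) (nat_lit 380) (nat_lit 132678888) (nat_lit 456) (nat_lit 1801811247) (nat_lit 56) (nat_lit 5) (nat_lit 61) (nat_lit 5) (nat_lit 62) (nat_lit 5) (nat_lit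 356) (nat_lit 345) (nat_lit 319))) (XT.nd (nat_lit 78) (nat_lit 228) (nat_lit 0) (XT.lf (nat_lit 0) (nat_lit 289945703) (nat_lit 304) (nat_lit 6286317013) (nat_lit 76) (nat_lit 3825666655) (nat_lit 52) (nat_lit 5) (nat_lit 56) (nat_lit 5) (nat_lit 53) (nat_lit 5) (nat_lit 357) (nat_lit 345) (nat_lit 318)) (XT.nd (nat_lit 78) (nat_lit 228) (nat_lit 0) (XT.lf (nat_lit 0) (nat_lit 2425885710) (nat_lit 304) (nat_lit 213467035) (nat_lit 76) (nat_lit 8187966994) (nat_lit 52) (nat_lit 5) (nat_lit 56) (nat_lit 5) (nat_lit 53) (nat_lit 5) (nat_lit 358) (nat_lit 345) (nat_lit 317)) (XT.lf (nat_lit 0) (nat_lit 4856326749) (nat_lit 304) (nat_lit 4738007346) (nat_lit 76) (nat_lit 1682576836) (nat_lit 49) (nat_lit 5) (nat_lit 53) (nat_lit 5) (nat_lit 50) (nat_lit 5) (nat_lit 359) (nat_lit 345) (nat_lit 316))))) (XT.nd (nat_lit 234) (nat_lit 304) (nat_lit 0) (XT.nd (nat_lit 78) (nat_lit 304) (nat_lit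 0) (XT.lf (nat_lit 0) (nat_lit 2020932815) (nat_lit 152) (nat_lit 5509374161) (nat_lit 228) (nat_lit 4228289370) (nat_lit 47) (nat_lit 5) (nat_lit 49) (nat_lit 5) (nat_lit 50) (nat_lit 5) (nat_lit 360) (nat_lit 345) (nat_lit 315)) (XT.nd (nat_lit 78) (nat_lit 304) (nat_lit 0) (XT.lf (nat_lit 0) (nat_lit 9499341121) (nat_lit 152) (nat_lit 977670898) (nat_lit 228) (nat_lit 1797151211) (nat_lit 47) (nat_lit 5) (nat_lit 49) (nat_lit 5) (nat_lit 50) (nat_lit 5) (nat_lit 361) (nat_lit 345) (nat_lit 314)) (XT.lf (nat_lit 0) (nat_lit 934467006) (nat_lit 304) (nat_lit 8040925210) (nat_lit 76) (nat_lit 3842238481) (nat_lit 43) (nat_lit 5) (nat_lit 47) (nat_lit 5) (nat_lit 44) (nat_lit 5) (nat_lit 362) (nat_lit 345) (nat_lit 313)))) (XT.nd (nat_lit 78) (nat_lit 304) (nat_lit 0) (XT.lf (nat_lit 0) (nat_lit 3825932179) (nat_lit 304) (nat_lit 472419265) (nat_lit 76) (nat_lit 9099457553) (nat_lit 43)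 (nat_lit 5) (nat_lit 47) (nat_lit 5) (nat_lit 44) (nat_lit 5) (nat_lit 363) (nat_lit 345) (nat_lit 312)) (XT.nd (nat_lit 78) (nat_lit 152) (nat_lit 0) (XT.lf (nat_lit 0) (nat_lit 7104113611) (nat_lit 228) (nat_lit 6016999706) (nat_lit 76) (nat_lit 890893915) (nat_lit 41) (nat_lit 5) (nat_lit 44) (nat_lit 5) (nat_lit 42) (nat_lit 5) (nat_lit 364) (nat_lit 345) (nat_lit 311)) (XT.lf (nat_lit 0) (nat_lit 2415943278) (nat_lit 152) (nat_lit 8353507749) (nat_lit 228) (nat_lit 3895932994) (nat_lit 39) (nat_lit 5) (nat_lit 41) (nat_lit 5) (nat_lit 42) (nat_lit 5) (nat_lit 365) (nat_lit 345) (nat_lit 310))))))))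
noncomputable def xc109 : XT := (XT.nd (nat_lit 1560) (nat_lit 912) (nat_lit 0) (XT.nd (nat_lit 780) (nat_lit 532) (nat_lit 0) (XT.nd (nat_lit 390) (nat_lit 532) (nat_lit 0) (XT.nd (nat_lit 156) (nat_lit 228) (nat_lit 0) (XT.nd (nat_lit 78) (nat_lit 228) (nat_lit 0) (XT.lf (nat_lit 0) (nat_lit 11782555390) (nat_lit 152) (nat_lit 3054179409) (nat_lit 228) (nat_lit 525630836) (nat_lit 39) (nat_lit 5) (nat_lit 41) (nat_lit 5) (nat_lit 42) (nat_lit 5) (nat_lit 366) (nat_lit 345) (nat_lit 309)) (XT.lf (nat_lit 0) (nat_lit 3117164878) (nat_lit 228) (nat_lit 10246109654) (nat_lit 76) (nat_lit 2733174244) (nat_lit 36) (nat_lit 5) (nat_lit 39) (nat_lit 5) (nat_lit 37) (nat_lit 5) (nat_lit 367) (nat_lit 345) (nat_lit 308))) (XT.nd (nat_lit 78) (nat_lit 228) (nat_lit 0) (XT.lf (nat_lit 0) (nat_lit 7151115514) (nat_lit 228) (nat_lit 819721924) (nat_lit 76) (nat_lit 8907104181) (nat_lit 36) (nat_lit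 5) (nat_lit 39) (nat_lit 5) (nat_lit 37) (nat_lit 5) (nat_lit 368) (nat_lit 345) (nat_lit 307)) (XT.nd (nat_lit 78) (nat_lit 76) (nat_lit 0) (XT.lf (nat_lit 0) (nat_lit 9774499209) (nat_lit 152) (nat_lit 1920562705) (nat_lit 228) (nat_lit 6011933289) (nat_lit 34) (nat_lit 5) (nat_lit 36) (nat_lit 5) (nat_lit 37) (nat_lit 5) (nat_lit 369) (nat_lit 345) (nat_lit 306)) (XT.lf (nat_lit 0) (nat_lit 2604670279) (nat_lit 76) (nat_lit 14147774123) (nat_lit 152) (nat_lit 1837956978) (nat_lit 33) (nat_lit 5) (nat_lit 34) (nat_lit 5) (nat_lit 35) (nat_lit 4) (nat_lit 370) (nat_lit 345) (nat_lit 305))))) (XT.nd (nat_lit 156) (nat_lit 304) (nat_lit 0) (XT.nd (nat_lit 78) (nat_lit 152) (nat_lit 0) (XT.lf (nat_lit 0) (nat_lit 2762584603) (nat_lit 152) (nat_lit 5287818788) (nat_lit 76) (nat_lit 11470861843) (nat_lit 32) (nat_lit 5) (nat_lit 34) (nat_lit 5) (nat_lit 33) (nat_lit 5) (nat_lit 371) (nat_lit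 345) (nat_lit 304)) (XT.lf (nat_lit 0) (nat_lit 6470675392) (nat_lit 152) (nat_lit 1274040250) (nat_lit 228) (nat_lit 12769053353) (nat_lit 30) (nat_lit 5) (nat_lit 32) (nat_lit 5) (nat_lit 33) (nat_lit 5) (nat_lit 372) (nat_lit 345) (nat_lit 303))) (XT.nd (nat_lit 78) (nat_lit 304) (nat_lit 0) (XT.lf (nat_lit 0) (nat_lit 13377166404) (nat_lit 228) (nat_lit 2324699488) (nat_lit 76) (nat_lit 5863683350) (nat_lit 30) (nat_lit 5) (nat_lit 33) (nat_lit 5) (nat_lit 31) (nat_lit 4) (nat_lit 373) (nat_lit 345) (nat_lit 302)) (XT.nd (nat_lit 78) (nat_lit 228) (nat_lit 0) (XT.lf (nat_lit 0) (nat_lit 10770135625) (nat_lit 76) (nat_lit 8943346103) (nat_lit 152) (nat_lit 2967743631) (nat_lit 29) (nat_lit 5) (nat_lit 30) (nat_lit 5) (nat_lit 31) (nat_lit 4) (nat_lit 374) (nat_lit 345) (nat_lit 301)) (XT.lf (nat_lit 0) (nat_lit 1085038120) (nat_lit 152) (nat_lit 1504704931) (nat_lit 228) (nat_lit 21287064143)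 (nat_lit 26) (nat_lit 5) (nat_lit 28) (nat_lit 5) (nat_lit 29) (nat_lit 5) (nat_lit 375) (nat_lit 345) (nat_lit 300)))))) (XT.nd (nat_lit 390) (nat_lit 304) (nat_lit 0) (XT.nd (nat_lit 156) (nat_lit 152) (nat_lit 0) (XT.nd (nat_lit 78) (nat_lit 76) (nat_lit 0) (XT.lf (nat_lit 0) (nat_lit 8884731436) (nat_lit 228) (nat_lit 9653971806) (nat_lit 76) (nat_lit 6586918407) (nat_lit 26) (nat_lit 5) (nat_lit 29) (nat_lit 5) (nat_lit 27) (nat_lit 4) (nat_lit 376) (nat_lit 345) (nat_lit 299)) (XT.lf (nat_lit 0) (nat_lit 4666544534) (nat_lit 76) (nat_lit 11132982060) (nat_lit 152) (nat_lit 10665529024) (nat_lit 25) (nat_lit 5) (nat_lit 26) (nat_lit 5) (nat_lit 27) (nat_lit 4) (nat_lit 377) (nat_lit 345) (nat_lit 298))) (XT.nd (nat_lit 78) (nat_lit 152) (nat_lit 0) (XT.lf (nat_lit 0) (nat_lit 20620657544) (nat_lit 76) (nat_lit 2876830071) (nat_lit 152) (nat_lit 4395768269) (nat_lit 25) (nat_lit 5)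 (nat_lit 26) (nat_lit 5) (nat_lit 27) (nat_lit 4) (nat_lit 378) (nat_lit 345) (nat_lit 297)) (XT.nd (nat_lit 78) (nat_lit 0) (nat_lit 0) (XT.lf (nat_lit 0) (nat_lit 2586154929) (nat_lit 152) (nat_lit 20831438990) (nat_lit 76) (nat_lit 5987202966) (nat_lit 23) (nat_lit 5) (nat_lit 25) (nat_lit 5) (nat_lit 24) (nat_lit 4) (nat_lit 379) (nat_lit 345) (nat_lit 296)) (XT.lf (nat_lit 0) (nat_lit 10136007712) (nat_lit 152) (nat_lit 5173506386) (nat_lit 76) (nat_lit 15698872159) (nat_lit 23) (nat_lit 5) (nat_lit 25) (nat_lit 5) (nat_lit 24) (nat_lit 4) (nat_lit 380) (nat_lit 345) (nat_lit 295))))) (XT.nd (nat_lit 156) (nat_lit 228) (nat_lit 0) (XT.nd (nat_lit 78) (nat_lit 0) (nat_lit 0) (XT.lf (nat_lit 0) (nat_lit 12297920056) (nat_lit 76) (nat_lit 6258182805) (nat_lit 152) (nat_lit 14162867055) (nat_lit 22) (nat_lit 5) (nat_lit 23) (nat_lit 5) (nat_lit 24) (nat_lit 4) (nat_lit 381) (nat_lit 345)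 (nat_lit 294)) (XT.lf (nat_lit 0) (nat_lit 27850338067) (nat_lit 152) (nat_lit 3236731728) (nat_lit 0) (nat_lit 3463294792) (nat_lit 22) (nat_lit 5) (nat_lit 24) (nat_lit 4) (nat_lit 22) (nat_lit 4) (nat_lit 382) (nat_lit 345) (nat_lit 293))) (XT.nd (nat_lit 78) (nat_lit 76) (nat_lit 0) (XT.lf (nat_lit 0) (nat_lit 1823303910) (nat_lit 152) (nat_lit 20628206978) (nat_lit 76) (nat_lit 14031630542) (nat_lit 20) (nat_lit 5) (nat_lit 22) (nat_lit 5) (nat_lit 21) (nat_lit 4) (nat_lit 383) (nat_lit 345) (nat_lit 292)) (XT.nd (nat_lit 78) (nat_lit 76) (nat_lit 0) (XT.lf (nat_lit 0) (nat_lit 10730428033) (nat_lit 152) (nat_lit 2132533096) (nat_lit 76) (nat_lit 25688550431) (nat_lit 20) (nat_lit 5) (nat_lit 22) (nat_lit 5) (nat_lit 21) (nat_lit 4) (nat_lit 384) (nat_lit 345) (nat_lit 291)) (XT.lf (nat_lit 0) (nat_lit 18732892699) (nat_lit 76) (nat_lit 2042854134) (nat_lit 152) (nat_lit 19975559570)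 (nat_lit 19) (nat_lit 5) (nat_lit 20) (nat_lit 5) (nat_lit 21) (nat_lit 4) (nat_lit 385) (nat_lit 345) (nat_lit 290))))))) (XT.nd (nat_lit 780) (nat_lit 456) (nat_lit 0) (XT.nd (nat_lit 390) (nat_lit 228) (nat_lit 0) (XT.nd (nat_lit 156) (nat_lit 152) (nat_lit 0) (XT.nd (nat_lit 78) (nat_lit 76) (nat_lit 0) (XT.lf (nat_lit 0) (nat_lit 31891744383) (nat_lit 152) (nat_lit 2014238300) (nat_lit 0) (nat_lit 9199742598) (nat_lit 19) (nat_lit 5) (nat_lit 21) (nat_lit 4) (nat_lit 19) (nat_lit 4) (nat_lit 386) (nat_lit 345) (nat_lit 289)) (XT.lf (nat_lit 0) (nat_lit 20519976267) (nat_lit 76) (nat_lit 23900761138) (nat_lit 76) (nat_lit 1185867368) (nat_lit 18) (nat_lit 4) (nat_lit 19) (nat_lit 5) (nat_lit 19) (nat_lit 4) (nat_lit 387) (nat_lit 345) (nat_lit 288))) (XT.nd (nat_lit 78) (nat_lit 76) (nat_lit 0) (XT.lf (nat_lit 0) (nat_lit 9195778115) (nat_lit 152) (nat_lit 3608871573) (nat_lit 76)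 (nat_lit 35481653479) (nat_lit 17) (nat_lit 5) (nat_lit 19) (nat_lit 5) (nat_lit 18) (nat_lit 4) (nat_lit 388) (nat_lit 345) (nat_lit 287)) (XT.nd (nat_lit 78) (nat_lit 0) (nat_lit 0) (XT.lf (nat_lit 0) (nat_lit 20543392401) (nat_lit 76) (nat_lit 273486753) (nat_lit 152) (nat_lit 30323198272) (nat_lit 16) (nat_lit 5) (nat_lit 17) (nat_lit 5) (nat_lit 18) (nat_lit 4) (nat_lit 389) (nat_lit 345) (nat_lit 286)) (XT.lf (nat_lit 0) (nat_lit 33766885287) (nat_lit 152) (nat_lit 7743382817) (nat_lit 0) (nat_lit 12679951364) (nat_lit 16) (nat_lit 5) (nat_lit 18) (nat_lit 4) (nat_lit 16) (nat_lit 4) (nat_lit 390) (nat_lit 345) (nat_lit 285))))) (XT.nd (nat_lit 156) (nat_lit 76) (nat_lit 0) (XT.nd (nat_lit 78) (nat_lit 76) (nat_lit 0) (XT.lf (nat_lit 0) (nat_lit 17782941899) (nat_lit 76) (nat_lit 30385357581) (nat_lit 76) (nat_lit 9282843757) (nat_lit 15) (nat_lit 4) (nat_lit 16) (nat_lit 5) (nat_lit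 16) (nat_lit 4) (nat_lit 391) (nat_lit 345) (nat_lit 284)) (XT.lf (nat_lit 0) (nat_lit 2809275975) (nat_lit 152) (nat_lit 15273645630) (nat_lit 76) (nat_lit 42868900943) (nat_lit 14) (nat_lit 5) (nat_lit 16) (nat_lit 5) (nat_lit 15) (nat_lit 4) (nat_lit 392) (nat_lit 345) (nat_lit 283))) (XT.nd (nat_lit 78) (nat_lit 0) (nat_lit 0) (XT.lf (nat_lit 0) (nat_lit 11364900574) (nat_lit 76) (nat_lit 4257790524) (nat_lit 152) (nat_lit 49070143193) (nat_lit 13) (nat_lit 5) (nat_lit 14) (nat_lit 5) (nat_lit 15) (nat_lit 4) (nat_lit 393) (nat_lit 345) (nat_lit 282)) (XT.nd (nat_lit 78) (nat_lit 0) (nat_lit 0) (XT.lf (nat_lit 0) (nat_lit 30128546603) (nat_lit 152) (nat_lit 27999188002) (nat_lit 0) (nat_lit 10552005178) (nat_lit 13) (nat_lit 5) (nat_lit 15) (nat_lit 4) (nat_lit 13) (nat_lit 4) (nat_lit 394) (nat_lit 345) (nat_lit 281)) (XT.lf (nat_lit 0) (nat_lit 45888997054) (nat_lit 152) (nat_lit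 787220348) (nat_lit 0) (nat_lit 26301852209) (nat_lit 13) (nat_lit 5) (nat_lit 15) (nat_lit 4) (nat_lit 13) (nat_lit 4) (nat_lit 395) (nat_lit 345) (nat_lit 280)))))) (XT.nd (nat_lit 390) (nat_lit 228) (nat_lit 0) (XT.nd (nat_lit 156) (nat_lit 76) (nat_lit 0) (XT.nd (nat_lit 78) (nat_lit 76) (nat_lit 0) (XT.lf (nat_lit 0) (nat_lit 30076156465) (nat_lit 76) (nat_lit 33542213567) (nat_lit 76) (nat_lit 13945250743) (nat_lit 12) (nat_lit 4) (nat_lit 13) (nat_lit 5) (nat_lit 13) (nat_lit 4) (nat_lit 396) (nat_lit 345) (nat_lit 279)) (XT.lf (nat_lit 0) (nat_lit 244441835) (nat_lit 152) (nat_lit 19097614529) (nat_lit 76) (nat_lit 63172930133) (nat_lit 11) (nat_lit 5) (nat_lit 13) (nat_lit 5) (nat_lit 12) (nat_lit 4) (nat_lit 397) (nat_lit 345) (nat_lit 278))) (XT.nd (nat_lit 78) (nat_lit 0) (nat_lit 0) (XT.lf (nat_lit 0) (nat_lit 11761686940) (nat_lit 76) (nat_lit 3323004320) (nat_lit 152) (nat_lit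 72727291580) (nat_lit 10) (nat_lit 5) (nat_lit 11) (nat_lit 5) (nat_lit 12) (nat_lit 4) (nat_lit 398) (nat_lit 345) (nat_lit 277)) (XT.nd (nat_lit 78) (nat_lit 0) (nat_lit 0) (XT.lf (nat_lit 0) (nat_lit 31970030089) (nat_lit 152) (nat_lit 47692814153) (nat_lit 0) (nat_lit 13801266466) (nat_lit 10) (nat_lit 5) (nat_lit 12) (nat_lit 4) (nat_lit 10) (nat_lit 4) (nat_lit 399) (nat_lit 345) (nat_lit 276)) (XT.lf (nat_lit 0) (nat_lit 50279529321) (nat_lit 152) (nat_lit 17178930347) (nat_lit 0) (nat_lit 32104083747) (nat_lit 10) (nat_lit 5) (nat_lit 12) (nat_lit 4) (nat_lit 10) (nat_lit 4) (nat_lit 400) (nat_lit 345) (nat_lit 275))))) (XT.nd (nat_lit 234) (nat_lit 152) (nat_lit 0) (XT.nd (nat_lit 78) (nat_lit 0) (nat_lit 0) (XT.lf (nat_lit 0) (nat_lit 16581574373) (nat_lit 76) (nat_lit 53858984249) (nat_lit 76) (nat_lit 35677351682) (nat_lit 9) (nat_lit 4) (nat_lit 10) (nat_lit 5) (nat_lit 10)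 (nat_lit 4) (nat_lit 401) (nat_lit 345) (nat_lit 274)) (XT.nd (nat_lit 78) (nat_lit 0) (nat_lit 0) (XT.lf (nat_lit 0) (nat_lit 53996539933) (nat_lit 76) (nat_lit 38675943940) (nat_lit 76) (nat_lit 20488582675) (nat_lit 9) (nat_lit 4) (nat_lit 10) (nat_lit 5) (nat_lit 10) (nat_lit 4) (nat_lit 402) (nat_lit 345) (nat_lit 273)) (XT.lf (nat_lit 0) (nat_lit 94383072617) (nat_lit 76) (nat_lit 22289067566) (nat_lit 76) (nat_lit 4096401953) (nat_lit 9) (nat_lit 4) (nat_lit 10) (nat_lit 5) (nat_lit 10) (nat_lit 4) (nat_lit 403) (nat_lit 345) (nat_lit 272)))) (XT.nd (nat_lit 78) (nat_lit 0) (nat_lit 0) (XT.lf (nat_lit 0) (nat_lit 9124535807) (nat_lit 76) (nat_lit 4011095373) (nat_lit 152) (nat_lit 115806072241) (nat_lit 7) (nat_lit 5) (nat_lit 8) (nat_lit 5) (nat_lit 9) (nat_lit 4) (nat_lit 404) (nat_lit 345) (nat_lit 271)) (XT.nd (nat_lit 78) (nat_lit 0) (nat_lit 0) (XT.lf (nat_lit 0) (nat_lit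 32633119679) (nat_lit 152) (nat_lit 89259129801) (nat_lit 0) (nat_lit 15779300538) (nat_lit 7) (nat_lit 5) (nat_lit 9) (nat_lit 4) (nat_lit 7) (nat_lit 4) (nat_lit 405) (nat_lit 345) (nat_lit 270)) (XT.lf (nat_lit 0) (nat_lit 53785105828) (nat_lit 152) (nat_lit 56379715541) (nat_lit 0) (nat_lit 36927387832) (nat_lit 7) (nat_lit 5) (nat_lit 9) (nat_lit 4) (nat_lit 7) (nat_lit 4) (nat_lit 406) (nat_lit 345) (nat_lit 269))))))))
noncomputable def xc110 : XT := (XT.nd (nat_lit 1560) (nat_lit 152) (nat_lit 0) (XT.nd (nat_lit 780) (nat_lit 76) (nat_lit 0) (XT.nd (nat_lit 390) (nat_lit 152) (nat_lit 0) (XT.nd (nat_lit 156) (nat_lit 0) (nat_lit 0) (XT.nd (nat_lit 78) (nat_lit 76) (nat_lit 0) (XT.lf (nat_lit 0) (nat_lit 76620467789) (nat_lit 152) (nat_lit 20887616921) (nat_lit 0) (nat_lit 59759139742) (nat_lit 7) (nat_lit 5) (nat_lit 9) (nat_lit 4) (nat_lit 7) (nat_lit 4) (nat_lit 407) (nat_lit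 345) (nat_lit 268)) (XT.lf (nat_lit 0) (nat_lit 18345190325) (nat_lit 76) (nat_lit 83370538169) (nat_lit 76) (nat_lit 66505867482) (nat_lit 6) (nat_lit 4) (nat_lit 7) (nat_lit 5) (nat_lit 7) (nat_lit 4) (nat_lit 408) (nat_lit 345) (nat_lit 267))) (XT.nd (nat_lit 78) (nat_lit 0) (nat_lit 0) (XT.lf (nat_lit 0) (nat_lit 61888573628) (nat_lit 76) (nat_lit 67493227318) (nat_lit 76) (nat_lit 50625461594) (nat_lit 6) (nat_lit 4) (nat_lit 7) (nat_lit 5) (nat_lit 7) (nat_lit 4) (nat_lit 409) (nat_lit 345) (nat_lit 266)) (XT.nd (nat_lit 78) (nat_lit 0) (nat_lit 0) (XT.lf (nat_lit 0) (nat_lit 108900662962) (nat_lit 76) (nat_lit 50353168851) (nat_lit 76) (nat_lit 33482537352) (nat_lit 6) (nat_lit 4) (nat_lit 7) (nat_lit 5) (nat_lit 7) (nat_lit 4) (nat_lit 410) (nat_lit 345) (nat_lit 265)) (XT.lf (nat_lit 0) (nat_lit 159660048485) (nat_lit 76) (nat_lit 31848792052) (nat_lit 76) (nat_lit 14975507058)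 (nat_lit 6) (nat_lit 4) (nat_lit 7) (nat_lit 5) (nat_lit 7) (nat_lit 4) (nat_lit 411) (nat_lit 345) (nat_lit 264))))) (XT.nd (nat_lit 156) (nat_lit 0) (nat_lit 0) (XT.nd (nat_lit 78) (nat_lit 76) (nat_lit 0) (XT.lf (nat_lit 0) (nat_lit 4754915172) (nat_lit 152) (nat_lit 6985518375) (nat_lit 76) (nat_lit 209582603575) (nat_lit 5) (nat_lit 5) (nat_lit 7) (nat_lit 5) (nat_lit 6) (nat_lit 4) (nat_lit 412) (nat_lit 345) (nat_lit 263)) (XT.lf (nat_lit 0) (nat_lit 26424328788) (nat_lit 152) (nat_lit 200003270190) (nat_lit 0) (nat_lit 10796535382) (nat_lit 4) (nat_lit 5) (nat_lit 6) (nat_lit 4) (nat_lit 4) (nat_lit 4) (nat_lit 413) (nat_lit 345) (nat_lit 262))) (XT.nd (nat_lit 78) (nat_lit 0) (nat_lit 0) (XT.lf (nat_lit 0) (nat_lit 50322248546) (nat_lit 152) (nat_lit 169342970216) (nat_lit 0) (nat_lit 34692504741) (nat_lit 4) (nat_lit 5) (nat_lit 6) (nat_lit 4) (nat_lit 4) (nat_lit 4) (nat_lit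 414) (nat_lit 345) (nat_lit 261)) (XT.nd (nat_lit 78) (nat_lit 0) (nat_lit 0) (XT.lf (nat_lit 0) (nat_lit 76126492002) (nat_lit 152) (nat_lit 136241006637) (nat_lit 0) (nat_lit 60494942273) (nat_lit 4) (nat_lit 5) (nat_lit 6) (nat_lit 4) (nat_lit 4) (nat_lit 4) (nat_lit 415) (nat_lit 345) (nat_lit 260)) (XT.lf (nat_lit 0) (nat_lit 103989973192) (nat_lit 152) (nat_lit 100501219669) (nat_lit 0) (nat_lit 88356751311) (nat_lit 4) (nat_lit 5) (nat_lit 6) (nat_lit 4) (nat_lit 4) (nat_lit 4) (nat_lit 416) (nat_lit 345) (nat_lit 259)))))) (XT.nd (nat_lit 390) (nat_lit 0) (nat_lit 0) (XT.nd (nat_lit 156) (nat_lit 76) (nat_lit 0) (XT.nd (nat_lit 78) (nat_lit 0) (nat_lit 0) (XT.lf (nat_lit 0) (nat_lit 134077809041) (nat_lit 152) (nat_lit 61911817981) (nat_lit 0) (nat_lit 118443038871) (nat_lit 4) (nat_lit 5) (nat_lit 6) (nat_lit 4) (nat_lit 4) (nat_lit 4) (nat_lit 417) (nat_lit 345) (nat_lit 258))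 (XT.lf (nat_lit 0) (nat_lit 166568297836) (nat_lit 152) (nat_lit 20244123637) (nat_lit 0) (nat_lit 150932094065) (nat_lit 4) (nat_lit 5) (nat_lit 6) (nat_lit 4) (nat_lit 4) (nat_lit 4) (nat_lit 418) (nat_lit 345) (nat_lit 257))) (XT.nd (nat_lit 78) (nat_lit 0) (nat_lit 0) (XT.lf (nat_lit 0) (nat_lit 26052010086) (nat_lit 76) (nat_lit 176228517189) (nat_lit 76) (nat_lit 160590986010) (nat_lit 3) (nat_lit 4) (nat_lit 4) (nat_lit 5) (nat_lit 4) (nat_lit 4) (nat_lit 419) (nat_lit 345) (nat_lit 256)) (XT.nd (nat_lit 78) (nat_lit 0) (nat_lit 0) (XT.lf (nat_lit 0) (nat_lit 77195140213) (nat_lit 76) (nat_lit 164204162848) (nat_lit 76) (nat_lit 148565402587) (nat_lit 3) (nat_lit 4) (nat_lit 4) (nat_lit 5) (nat_lit 4) (nat_lit 4) (nat_lit 420) (nat_lit 345) (nat_lit 255)) (XT.lf (nat_lit 0) (nat_lit 132422317467) (nat_lit 76) (nat_lit 151221613232) (nat_lit 76) (nat_lit 135581714933) (nat_lit 3)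 (nat_lit 4) (nat_lit 4) (nat_lit 5) (nat_lit 4) (nat_lit 4) (nat_lit 421) (nat_lit 345) (nat_lit 254))))) (XT.nd (nat_lit 156) (nat_lit 0) (nat_lit 0) (XT.nd (nat_lit 78) (nat_lit 0) (nat_lit 0) (XT.lf (nat_lit 0) (nat_lit 192060814010) (nat_lit 76) (nat_lit 137203934715) (nat_lit 76) (nat_lit 121562982676) (nat_lit 3) (nat_lit 4) (nat_lit 4) (nat_lit 5) (nat_lit 4) (nat_lit 4) (nat_lit 422) (nat_lit 345) (nat_lit 253)) (XT.lf (nat_lit 0) (nat_lit 256464043154) (nat_lit 76) (nat_lit 122068059572) (nat_lit 76) (nat_lit 106426131849) (nat_lit 3) (nat_lit 4) (nat_lit 4) (nat_lit 5) (nat_lit 4) (nat_lit 4) (nat_lit 423) (nat_lit 345) (nat_lit 252))) (XT.nd (nat_lit 78) (nat_lit 0) (nat_lit 0) (XT.lf (nat_lit 0) (nat_lit 326013653666) (nat_lit 76) (nat_lit 105724293728) (nat_lit 76) (nat_lit 90081462593) (nat_lit 3) (nat_lit 4) (nat_lit 4) (nat_lit 5) (nat_lit 4) (nat_lit 4) (nat_lit 424) (nat_lit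 345) (nat_lit 251)) (XT.nd (nat_lit 78) (nat_lit 0) (nat_lit 0) (XT.lf (nat_lit 0) (nat_lit 401121791385) (nat_lit 76) (nat_lit 88075785237) (nat_lit 76) (nat_lit 72432117610) (nat_lit 3) (nat_lit 4) (nat_lit 4) (nat_lit 5) (nat_lit 4) (nat_lit 4) (nat_lit 425) (nat_lit 345) (nat_lit 250)) (XT.lf (nat_lit 0) (nat_lit 482233541572) (nat_lit 76) (nat_lit 69017950346) (nat_lit 76) (nat_lit 53373508189) (nat_lit 3) (nat_lit 4) (nat_lit 4) (nat_lit 5) (nat_lit 4) (nat_lit 4) (nat_lit 426) (nat_lit 345) (nat_lit 249))))))) (XT.nd (nat_lit 780) (nat_lit 0) (nat_lit 0) (XT.nd (nat_lit 390) (nat_lit 0) (nat_lit 0) (XT.nd (nat_lit 156) (nat_lit 152) (nat_lit 0) (XT.nd (nat_lit 78) (nat_lit 0) (nat_lit 0) (XT.lf (nat_lit 0) (nat_lit 569829566450) (nat_lit 76) (nat_lit 48437853736) (nat_lit 76) (nat_lit 32792694421) (nat_lit 3) (nat_lit 4) (nat_lit 4) (nat_lit 5) (nat_lit 4) (nat_lit 4) (nat_lit 427)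 (nat_lit 345) (nat_lit 248)) (XT.lf (nat_lit 0) (nat_lit 664428953573) (nat_lit 76) (nat_lit 26213539280) (nat_lit 76) (nat_lit 10567715930) (nat_lit 3) (nat_lit 4) (nat_lit 4) (nat_lit 5) (nat_lit 4) (nat_lit 4) (nat_lit 428) (nat_lit 345) (nat_lit 247))) (XT.nd (nat_lit 78) (nat_lit 0) (nat_lit 0) (XT.lf (nat_lit 0) (nat_lit 11470560285) (nat_lit 76) (nat_lit 1566458215) (nat_lit 152) (nat_lit 742287535129) (nat_lit 1) (nat_lit 5) (nat_lit 2) (nat_lit 5) (nat_lit 3) (nat_lit 4) (nat_lit 429) (nat_lit 345) (nat_lit 246)) (XT.nd (nat_lit 78) (nat_lit 0) (nat_lit 0) (XT.lf (nat_lit 0) (nat_lit 39591478277) (nat_lit 152) (nat_lit 748920518406) (nat_lit 0) (nat_lit 25103508370) (nat_lit 1) (nat_lit 5) (nat_lit 3) (nat_lit 4) (nat_lit 1) (nat_lit 4) (nat_lit 430) (nat_lit 345) (nat_lit 245)) (XT.lf (nat_lit 0) (nat_lit 68309112904) (nat_lit 152) (nat_lit 754436859422) (nat_lit 0) (nat_lit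 53820654912) (nat_lit 1) (nat_lit 5) (nat_lit 3) (nat_lit 4) (nat_lit 1) (nat_lit 4) (nat_lit 431) (nat_lit 345) (nat_lit 244))))) (XT.nd (nat_lit 156) (nat_lit 0) (nat_lit 0) (XT.nd (nat_lit 78) (nat_lit 0) (nat_lit 0) (XT.lf (nat_lit 0) (nat_lit 99322427600) (nat_lit 152) (nat_lit 760398032463) (nat_lit 0) (nat_lit 84833517677) (nat_lit 1) (nat_lit 5) (nat_lit 3) (nat_lit 4) (nat_lit 1) (nat_lit 4) (nat_lit 432) (nat_lit 345) (nat_lit 243)) (XT.lf (nat_lit 0) (nat_lit 132815204970) (nat_lit 152) (nat_lit 766839363000) (nat_lit 0) (nat_lit 118325876593) (nat_lit 1) (nat_lit 5) (nat_lit 3) (nat_lit 4) (nat_lit 1) (nat_lit 4) (nat_lit 433) (nat_lit 345) (nat_lit 242))) (XT.nd (nat_lit 78) (nat_lit 0) (nat_lit 0) (XT.lf (nat_lit 0) (nat_lit 168985920732) (nat_lit 152) (nat_lit 773799021878) (nat_lit 0) (nat_lit 154496204897) (nat_lit 1) (nat_lit 5) (nat_lit 3) (nat_lit 4) (nat_lit 1) (nat_lit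 4) (nat_lit 434) (nat_lit 345) (nat_lit 241)) (XT.nd (nat_lit 78) (nat_lit 0) (nat_lit 0) (XT.lf (nat_lit 0) (nat_lit 208048919869) (nat_lit 152) (nat_lit 781318251522) (nat_lit 0) (nat_lit 193558845277) (nat_lit 1) (nat_lit 5) (nat_lit 3) (nat_lit 4) (nat_lit 1) (nat_lit 4) (nat_lit 435) (nat_lit 345) (nat_lit 240)) (XT.lf (nat_lit 0) (nat_lit 250235686819) (nat_lit 152) (nat_lit 789441610330) (nat_lit 0) (nat_lit 235745280045) (nat_lit 1) (nat_lit 5) (nat_lit 3) (nat_lit 4) (nat_lit 1) (nat_lit 4) (nat_lit 436) (nat_lit 345) (nat_lit 239)))))) (XT.nd (nat_lit 390) (nat_lit 0) (nat_lit 0) (XT.nd (nat_lit 156) (nat_lit 0) (nat_lit 0) (XT.nd (nat_lit 78) (nat_lit 0) (nat_lit 0) (XT.lf (nat_lit 0) (nat_lit 295796217240) (nat_lit 152) (nat_lit 798217236723) (nat_lit 0) (nat_lit 281305502888) (nat_lit 1) (nat_lit 5) (nat_lit 3) (nat_lit 4) (nat_lit 1) (nat_lit 4) (nat_lit 437) (nat_lit 345)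 (nat_lit 238)) (XT.lf (nat_lit 0) (nat_lit 345000499458) (nat_lit 152) (nat_lit 807697134415) (nat_lit 0) (nat_lit 330509500314) (nat_lit 1) (nat_lit 5) (nat_lit 3) (nat_lit 4) (nat_lit 1) (nat_lit 4) (nat_lit 438) (nat_lit 345) (nat_lit 237))) (XT.nd (nat_lit 78) (nat_lit 0) (nat_lit 0) (XT.lf (nat_lit 0) (nat_lit 398140114406) (nat_lit 152) (nat_lit 817937480576) (nat_lit 0) (nat_lit 383648851564) (nat_lit 1) (nat_lit 5) (nat_lit 3) (nat_lit 4) (nat_lit 1) (nat_lit 4) (nat_lit 439) (nat_lit 345) (nat_lit 236)) (XT.nd (nat_lit 78) (nat_lit 0) (nat_lit 0) (XT.lf (nat_lit 0) (nat_lit 455529963506) (nat_lit 152) (nat_lit 828998958739) (nat_lit 0) (nat_lit 441038456500) (nat_lit 1) (nat_lit 5) (nat_lit 3) (nat_lit 4) (nat_lit 1) (nat_lit 4) (nat_lit 440) (nat_lit 345) (nat_lit 235)) (XT.lf (nat_lit 0) (nat_lit 517510134752) (nat_lit 152) (nat_lit 840947118404) (nat_lit 0) (nat_lit 503018401668)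 (nat_lit 1) (nat_lit 5) (nat_lit 3) (nat_lit 4) (nat_lit 1) (nat_lit 4) (nat_lit 441) (nat_lit 345) (nat_lit 234))))) (XT.nd (nat_lit 234) (nat_lit 0) (nat_lit 0) (XT.nd (nat_lit 78) (nat_lit 0) (nat_lit 0) (XT.lf (nat_lit 0) (nat_lit 584447918048) (nat_lit 152) (nat_lit 853852763481) (nat_lit 0) (nat_lit 569955975633) (nat_lit 1) (nat_lit 5) (nat_lit 3) (nat_lit 4) (nat_lit 1) (nat_lit 4) (nat_lit 442) (nat_lit 345) (nat_lit 233)) (XT.nd (nat_lit 78) (nat_lit 0) (nat_lit 0) (XT.lf (nat_lit 0) (nat_lit 656739981740) (nat_lit 152) (nat_lit 867792371866) (nat_lit 0) (nat_lit 642247845500) (nat_lit 1) (nat_lit 5) (nat_lit 3) (nat_lit 4) (nat_lit 1) (nat_lit 4) (nat_lit 443) (nat_lit 345) (nat_lit 232)) (XT.lf (nat_lit 0) (nat_lit 734814723242) (nat_lit 152) (nat_lit 882848548647) (nat_lit 0) (nat_lit 720322407534) (nat_lit 1) (nat_lit 5) (nat_lit 3) (nat_lit 4) (nat_lit 1) (nat_lit 4) (nat_lit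 444) (nat_lit 345) (nat_lit 231)))) (XT.nd (nat_lit 78) (nat_lit 0) (nat_lit 0) (XT.lf (nat_lit 0) (nat_lit 819134807689) (nat_lit 152) (nat_lit 899110515611) (nat_lit 0) (nat_lit 804642325806) (nat_lit 1) (nat_lit 5) (nat_lit 3) (nat_lit 4) (nat_lit 1) (nat_lit 4) (nat_lit 445) (nat_lit 345) (nat_lit 230)) (XT.nd (nat_lit 78) (nat_lit 0) (nat_lit 0) (XT.lf (nat_lit 0) (nat_lit 910199909655) (nat_lit 152) (nat_lit 916674639969) (nat_lit 0) (nat_lit 895707273907) (nat_lit 1) (nat_lit 5) (nat_lit 3) (nat_lit 4) (nat_lit 1) (nat_lit 4) (nat_lit 446) (nat_lit 345) (nat_lit 229)) (XT.lf (nat_lit 0) (nat_lit 1008549674189) (nat_lit 152) (nat_lit 935645005423) (nat_lit 0) (nat_lit 994056895974) (nat_lit 1) (nat_lit 5) (nat_lit 3) (nat_lit 4) (nat_lit 1) (nat_lit 4) (nat_lit 447) (nat_lit 345) (nat_lit 228))))))))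
noncomputable def xc111 : XT := (XT.nd (nat_lit 45630) (nat_lit 0) (nat_lit 2356) (XT.nd (nat_lit 780) (nat_lit 0) (nat_lit 0) (XT.nd (nat_lit 390) (nat_lit 0) (nat_lit 0) (XT.nd (nat_lit 156) (nat_lit 0) (nat_lit 0) (XT.nd (nat_lit 78) (nat_lit 0) (nat_lit 0) (XT.lf (nat_lit 0) (nat_lit 1114766914710) (nat_lit 152) (nat_lit 956134028952) (nat_lit 0) (nat_lit 1100274004581) (nat_lit 1) (nat_lit 5) (nat_lit 3) (nat_lit 4) (nat_lit 1) (nat_lit 4) (nat_lit 448) (nat_lit 345) (nat_lit 227)) (XT.lf (nat_lit 0) (nat_lit 1229481066718) (nat_lit 152) (nat_lit 978263126993) (nat_lit 0) (nat_lit 1214988034447) (nat_lit 1) (nat_lit 5) (nat_lit 3) (nat_lit 4) (nat_lit 1) (nat_lit 4) (nat_lit 449) (nat_lit 345) (nat_lit 226))) (XT.nd (nat_lit 78) (nat_lit 0) (nat_lit 0) (XT.lf (nat_lit 0) (nat_lit 1353371917781) (nat_lit 152) (nat_lit 1002163434940) (nat_lit 0) (nat_lit 1338878772414) (nat_lit 1) (nat_lit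 5) (nat_lit 3) (nat_lit 4) (nat_lit 1) (nat_lit 4) (nat_lit 450) (nat_lit 345) (nat_lit 225)) (XT.nd (nat_lit 78) (nat_lit 0) (nat_lit 0) (XT.lf (nat_lit 0) (nat_lit 1487173635904) (nat_lit 152) (nat_lit 1027976584248) (nat_lit 0) (nat_lit 1472680385819) (nat_lit 1) (nat_lit 5) (nat_lit 3) (nat_lit 4) (nat_lit 1) (nat_lit 4) (nat_lit 451) (nat_lit 345) (nat_lit 224)) (XT.lf (nat_lit 0) (nat_lit 1631679120158) (nat_lit 152) (nat_lit 1055855541729) (nat_lit 0) (nat_lit 1617185773113) (nat_lit 1) (nat_lit 5) (nat_lit 3) (nat_lit 4) (nat_lit 1) (nat_lit 4) (nat_lit 452) (nat_lit 345) (nat_lit 223))))) (XT.nd (nat_lit 156) (nat_lit 0) (nat_lit 0) (XT.nd (nat_lit 78) (nat_lit 0) (nat_lit 0) (XT.lf (nat_lit 0) (nat_lit 1787744699339) (nat_lit 152) (nat_lit 1085965516019) (nat_lit 0) (nat_lit 1773251262515) (nat_lit 1) (nat_lit 5) (nat_lit 3) (nat_lit 4) (nat_lit 1) (nat_lit 4) (nat_lit 453) (nat_lit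 345) (nat_lit 222)) (XT.lf (nat_lit 0) (nat_lit 1956295206508) (nat_lit 152) (nat_lit 1118484936595) (nat_lit 0) (nat_lit 1941801686556) (nat_lit 1) (nat_lit 5) (nat_lit 3) (nat_lit 4) (nat_lit 1) (nat_lit 4) (nat_lit 454) (nat_lit 345) (nat_lit 221))) (XT.nd (nat_lit 78) (nat_lit 0) (nat_lit 0) (XT.lf (nat_lit 0) (nat_lit 2138329459486) (nat_lit 152) (nat_lit 1153606511135) (nat_lit 0) (nat_lit 2123835862563) (nat_lit 1) (nat_lit 5) (nat_lit 3) (nat_lit 4) (nat_lit 1) (nat_lit 4) (nat_lit 455) (nat_lit 345) (nat_lit 220)) (XT.nd (nat_lit 78) (nat_lit 0) (nat_lit 0) (XT.lf (nat_lit 0) (nat_lit 2334926179772) (nat_lit 152) (nat_lit 1191538367488) (nat_lit 0) (nat_lit 2320432511579) (nat_lit 1) (nat_lit 5) (nat_lit 3) (nat_lit 4) (nat_lit 1) (nat_lit 4) (nat_lit 456) (nat_lit 345) (nat_lit 219)) (XT.lf (nat_lit 0) (nat_lit 2547250384967) (nat_lit 152) (nat_lit 1232505287024) (nat_lit 0)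 (nat_lit 2532756650784) (nat_lit 1) (nat_lit 5) (nat_lit 3) (nat_lit 4) (nat_lit 1) (nat_lit 4) (nat_lit 457) (nat_lit 345) (nat_lit 218)))))) (XT.nd (nat_lit 44382) (nat_lit 0) (nat_lit 5320) (XT.nd (nat_lit 156) (nat_lit 0) (nat_lit 0) (XT.nd (nat_lit 78) (nat_lit 0) (nat_lit 0) (XT.lf (nat_lit 0) (nat_lit 2776560292583) (nat_lit 152) (nat_lit 1276750036675) (nat_lit 0) (nat_lit 2762066497299) (nat_lit 1) (nat_lit 5) (nat_lit 3) (nat_lit 4) (nat_lit 1) (nat_lit 4) (nat_lit 458) (nat_lit 345) (nat_lit 217)) (XT.lf (nat_lit 0) (nat_lit 3024214776148) (nat_lit 152) (nat_lit 1324534807550) (nat_lit 0) (nat_lit 3009720924288) (nat_lit 1) (nat_lit 5) (nat_lit 3) (nat_lit 4) (nat_lit 1) (nat_lit 4) (nat_lit 459) (nat_lit 345) (nat_lit 216))) (XT.nd (nat_lit 78) (nat_lit 0) (nat_lit 0) (XT.lf (nat_lit 0) (nat_lit 3291681417786) (nat_lit 152) (nat_lit 1376142768661) (nat_lit 0) (nat_lit 3277187513541)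 (nat_lit 1) (nat_lit 5) (nat_lit 3) (nat_lit 4) (nat_lit 1) (nat_lit 4) (nat_lit 460) (nat_lit 345) (nat_lit 215)) (XT.nd (nat_lit 78) (nat_lit 0) (nat_lit 0) (XT.lf (nat_lit 0) (nat_lit 3580545205004) (nat_lit 152) (nat_lit 1431879744963) (nat_lit 0) (nat_lit 3566051252254) (nat_lit 1) (nat_lit 5) (nat_lit 3) (nat_lit 4) (nat_lit 1) (nat_lit 4) (nat_lit 461) (nat_lit 345) (nat_lit 214)) (XT.lf (nat_lit 0) (nat_lit 3892517923206) (nat_lit 152) (nat_lit 1492076029649) (nat_lit 0) (nat_lit 3878023925544) (nat_lit 1) (nat_lit 5) (nat_lit 3) (nat_lit 4) (nat_lit 1) (nat_lit 4) (nat_lit 462) (nat_lit 345) (nat_lit 213))))) (XT.nd (nat_lit 234) (nat_lit 0) (nat_lit 0) (XT.nd (nat_lit 78) (nat_lit 380) (nat_lit 0) (XT.lf (nat_lit 0) (nat_lit 3694625566) (nat_lit 380) (nat_lit 23162153) (nat_lit 380) (nat_lit 23162153) (nat_lit 76) (nat_lit 3) (nat_lit 81) (nat_lit 3) (nat_lit 81) (nat_lit 5)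 (nat_lit 346) (nat_lit 346) (nat_lit 328)) (XT.nd (nat_lit 78) (nat_lit 0) (nat_lit 0) (XT.lf (nat_lit 0) (nat_lit 1397076154) (nat_lit 380) (nat_lit 3904586658) (nat_lit 456) (nat_lit 2359107851) (nat_lit 71) (nat_lit 5) (nat_lit 76) (nat_lit 3) (nat_lit 77) (nat_lit 5) (nat_lit 347) (nat_lit 346) (nat_lit 327)) (XT.lf (nat_lit 0) (nat_lit 2860799334) (nat_lit 380) (nat_lit 75687376) (nat_lit 456) (nat_lit 4928636191) (nat_lit 71) (nat_lit 5) (nat_lit 76) (nat_lit 3) (nat_lit 77) (nat_lit 5) (nat_lit 348) (nat_lit 346) (nat_lit 326)))) (XT.nd (nat_lit 78) (nat_lit 0) (nat_lit 76) (XT.lf (nat_lit 76) (nat_lit 4190515610) (nat_lit 0) (nat_lit 220892660) (nat_lit 456) (nat_lit 3676971120) (nat_lit 72) (nat_lit 5) (nat_lit 71) (nat_lit 5) (nat_lit 77) (nat_lit 5) (nat_lit 349) (nat_lit 346) (nat_lit 325)) (XT.nd (nat_lit 78) (nat_lit 0) (nat_lit 0) (XT.lf (nat_lit 76) (nat_lit 336819632)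 (nat_lit 0) (nat_lit 5702676389) (nat_lit 456) (nat_lit 2293854769) (nat_lit 73) (nat_lit 5) (nat_lit 72) (nat_lit 5) (nat_lit 78) (nat_lit 5) (nat_lit 350) (nat_lit 346) (nat_lit 324)) (XT.lf (nat_lit 76) (nat_lit 5040392733) (nat_lit 0) (nat_lit 2754570203) (nat_lit 456) (nat_lit 803305654) (nat_lit 73) (nat_lit 5) (nat_lit 72) (nat_lit 5) (nat_lit 78) (nat_lit 5) (nat_lit 351) (nat_lit 346) (nat_lit 323))))))) (XT.nd (nat_lit 780) (nat_lit 1140) (nat_lit 0) (XT.nd (nat_lit 390) (nat_lit 684) (nat_lit 0) (XT.nd (nat_lit 156) (nat_lit 836) (nat_lit 0) (XT.nd (nat_lit 78) (nat_lit 0) (nat_lit 0) (XT.lf (nat_lit 0) (nat_lit 697562193) (nat_lit 456) (nat_lit 7710542437) (nat_lit 76) (nat_lit 480312261) (nat_lit 67) (nat_lit 5) (nat_lit 73) (nat_lit 5) (nat_lit 68) (nat_lit 5) (nat_lit 352) (nat_lit 346) (nat_lit 322)) (XT.lf (nat_lit 0) (nat_lit 2343666886) (nat_lit 456) (nat_lit 2885851095)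 (nat_lit 76) (nat_lit 3965199199) (nat_lit 67) (nat_lit 5) (nat_lit 73) (nat_lit 5) (nat_lit 68) (nat_lit 5) (nat_lit 353) (nat_lit 346) (nat_lit 321))) (XT.nd (nat_lit 78) (nat_lit 380) (nat_lit 0) (XT.lf (nat_lit 0) (nat_lit 2357817197) (nat_lit 456) (nat_lit 1725176243) (nat_lit 532) (nat_lit 5445693031) (nat_lit 61) (nat_lit 5) (nat_lit 67) (nat_lit 5) (nat_lit 68) (nat_lit 5) (nat_lit 354) (nat_lit 346) (nat_lit 320)) (XT.nd (nat_lit 78) (nat_lit 380) (nat_lit 0) (XT.lf (nat_lit 0) (nat_lit 6002013678) (nat_lit 532) (nat_lit 1839803537) (nat_lit 76) (nat_lit 2044393453) (nat_lit 61) (nat_lit 5) (nat_lit 68) (nat_lit 5) (nat_lit 62) (nat_lit 5) (nat_lit 355) (nat_lit 346) (nat_lit 319)) (XT.lf (nat_lit 0) (nat_lit 3988903185) (nat_lit 380) (nat_lit 4143119858) (nat_lit 456) (nat_lit 2135791512) (nat_lit 56) (nat_lit 5) (nat_lit 61) (nat_lit 5) (nat_lit 62) (nat_lit 5) (nat_lit 356)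 (nat_lit 346) (nat_lit 318))))) (XT.nd (nat_lit 156) (nat_lit 380) (nat_lit 0) (XT.nd (nat_lit 78) (nat_lit 304) (nat_lit 0) (XT.lf (nat_lit 0) (nat_lit 10307077947) (nat_lit 380) (nat_lit 96592662) (nat_lit 456) (nat_lit 278646732) (nat_lit 56) (nat_lit 5) (nat_lit 61) (nat_lit 5) (nat_lit 62) (nat_lit 5) (nat_lit 357) (nat_lit 346) (nat_lit 317)) (XT.lf (nat_lit 0) (nat_lit 1821980926) (nat_lit 304) (nat_lit 5039083042) (nat_lit 76) (nat_lit 4251148652) (nat_lit 52) (nat_lit 5) (nat_lit 56) (nat_lit 5) (nat_lit 53) (nat_lit 5) (nat_lit 358) (nat_lit 346) (nat_lit 316))) (XT.nd (nat_lit 78) (nat_lit 152) (nat_lit 0) (XT.lf (nat_lit 0) (nat_lit 1463147549) (nat_lit 228) (nat_lit 2589071425) (nat_lit 304) (nat_lit 7525627635) (nat_lit 49) (nat_lit 5) (nat_lit 52) (nat_lit 5) (nat_lit 53) (nat_lit 5) (nat_lit 359) (nat_lit 346) (nat_lit 315)) (XT.nd (nat_lit 78) (nat_lit 152) (nat_lit 0)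 (XT.lf (nat_lit 0) (nat_lit 6582368037) (nat_lit 304) (nat_lit 3436012141) (nat_lit 76) (nat_lit 2052682929) (nat_lit 49) (nat_lit 5) (nat_lit 53) (nat_lit 5) (nat_lit 50) (nat_lit 5) (nat_lit 360) (nat_lit 346) (nat_lit 314)) (XT.lf (nat_lit 0) (nat_lit 3821085365) (nat_lit 152) (nat_lit 5589510073) (nat_lit 228) (nat_lit 3185535534) (nat_lit 47) (nat_lit 5) (nat_lit 49) (nat_lit 5) (nat_lit 50) (nat_lit 5) (nat_lit 361) (nat_lit 346) (nat_lit 313)))))) (XT.nd (nat_lit 390) (nat_lit 532) (nat_lit 0) (XT.nd (nat_lit 156) (nat_lit 304) (nat_lit 0) (XT.nd (nat_lit 78) (nat_lit 304) (nat_lit 0) (XT.lf (nat_lit 0) (nat_lit 11776397600) (nat_lit 152) (nat_lit 721982699) (nat_lit 228) (nat_lit 662203877) (nat_lit 47) (nat_lit 5) (nat_lit 49) (nat_lit 5) (nat_lit 50) (nat_lit 5) (nat_lit 362) (nat_lit 346) (nat_lit 312)) (XT.lf (nat_lit 0) (nat_lit 2180214479) (nat_lit 304) (nat_lit 7057835089)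 (nat_lit 76) (nat_lit 4510578899) (nat_lit 43) (nat_lit 5) (nat_lit 47) (nat_lit 5) (nat_lit 44) (nat_lit 5) (nat_lit 363) (nat_lit 346) (nat_lit 311))) (XT.nd (nat_lit 78) (nat_lit 152) (nat_lit 0) (XT.lf (nat_lit 0) (nat_lit 1048110653) (nat_lit 152) (nat_lit 4193353290) (nat_lit 228) (nat_lit 9138734054) (nat_lit 41) (nat_lit 5) (nat_lit 43) (nat_lit 5) (nat_lit 44) (nat_lit 5) (nat_lit 364) (nat_lit 346) (nat_lit 310)) (XT.nd (nat_lit 78) (nat_lit 152) (nat_lit 0) (XT.lf (nat_lit 0) (nat_lit 8721984103) (nat_lit 228) (nat_lit 4957129425) (nat_lit 76) (nat_lit 1369262133) (nat_lit 41) (nat_lit 5) (nat_lit 44) (nat_lit 5) (nat_lit 42) (nat_lit 5) (nat_lit 365) (nat_lit 346) (nat_lit 309)) (XT.lf (nat_lit 0) (nat_lit 4111430511) (nat_lit 152) (nat_lit 8527502423) (nat_lit 228) (nat_lit 3118465486) (nat_lit 39) (nat_lit 5) (nat_lit 41) (nat_lit 5) (nat_lit 42) (nat_lit 5) (nat_lit 366)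 (nat_lit 346) (nat_lit 308))))) (XT.nd (nat_lit 234) (nat_lit 152) (nat_lit 0) (XT.nd (nat_lit 78) (nat_lit 304) (nat_lit 0) (XT.lf (nat_lit 0) (nat_lit 418733865) (nat_lit 228) (nat_lit 2410658798) (nat_lit 76) (nat_lit 13685913855) (nat_lit 38) (nat_lit 5) (nat_lit 41) (nat_lit 5) (nat_lit 39) (nat_lit 5) (nat_lit 367) (nat_lit 346) (nat_lit 307)) (XT.nd (nat_lit 78) (nat_lit 152) (nat_lit 0) (XT.lf (nat_lit 0) (nat_lit 4299043588) (nat_lit 228) (nat_lit 9597940764) (nat_lit 76) (nat_lit 3412117671) (nat_lit 36) (nat_lit 5) (nat_lit 39) (nat_lit 5) (nat_lit 37) (nat_lit 5) (nat_lit 368) (nat_lit 346) (nat_lit 306)) (XT.lf (nat_lit 0) (nat_lit 498778718) (nat_lit 152) (nat_lit 8099852713) (nat_lit 228) (nat_lit 9559083407) (nat_lit 34) (nat_lit 5) (nat_lit 36) (nat_lit 5) (nat_lit 37) (nat_lit 5) (nat_lit 369) (nat_lit 346) (nat_lit 305)))) (XT.nd (nat_lit 78) (nat_lit 152) (nat_lit 0)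 (XT.lf (nat_lit 0) (nat_lit 11881178321) (nat_lit 152) (nat_lit 1580821256) (nat_lit 228) (nat_lit 5594652351) (nat_lit 34) (nat_lit 5) (nat_lit 36) (nat_lit 5) (nat_lit 37) (nat_lit 5) (nat_lit 370) (nat_lit 346) (nat_lit 304)) (XT.nd (nat_lit 78) (nat_lit 76) (nat_lit 0) (XT.lf (nat_lit 0) (nat_lit 4157869477) (nat_lit 76) (nat_lit 14747853071) (nat_lit 152) (nat_lit 1106497415) (nat_lit 33) (nat_lit 5) (nat_lit 34) (nat_lit 5) (nat_lit 35) (nat_lit 4) (nat_lit 371) (nat_lit 346) (nat_lit 303)) (XT.lf (nat_lit 0) (nat_lit 3756323027) (nat_lit 152) (nat_lit 4424630170) (nat_lit 76) (nat_lit 12839880149) (nat_lit 32) (nat_lit 5) (nat_lit 34) (nat_lit 5) (nat_lit 33) (nat_lit 5) (nat_lit 372) (nat_lit 346) (nat_lit 302))))))))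
noncomputable def xc112 : XT := (XT.nd (nat_lit 1560) (nat_lit 760) (nat_lit 0) (XT.nd (nat_lit 780) (nat_lit 532) (nat_lit 0) (XT.nd (nat_lit 390) (nat_lit 304) (nat_lit 0) (XT.nd (nat_lit 156) (nat_lit 304) (nat_lit 0) (XT.nd (nat_lit 78) (nat_lit 0) (nat_lit 0) (XT.lf (nat_lit 0) (nat_lit 8241981162) (nat_lit 152) (nat_lit 867954359) (nat_lit 228) (nat_lit 12984992310) (nat_lit 30) (nat_lit 5) (nat_lit 32) (nat_lit 5) (nat_lit 33) (nat_lit 5) (nat_lit 373) (nat_lit 346) (nat_lit 301)) (XT.lf (nat_lit 0) (nat_lit 15149062179) (nat_lit 228) (nat_lit 1305696937) (nat_lit 76) (nat_lit 6779626571) (nat_lit 30) (nat_lit 5) (nat_lit 33) (nat_lit 5) (nat_lit 31) (nat_lit 4) (nat_lit 374) (nat_lit 346) (nat_lit 300))) (XT.nd (nat_lit 78) (nat_lit 228) (nat_lit 0) (XT.lf (nat_lit 0) (nat_lit 12806219200) (nat_lit 76) (nat_lit 9162330184) (nat_lit 152) (nat_lit 2472685154) (nat_lit 29) (nat_lit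 5) (nat_lit 30) (nat_lit 5) (nat_lit 31) (nat_lit 4) (nat_lit 375) (nat_lit 346) (nat_lit 299)) (XT.nd (nat_lit 78) (nat_lit 0) (nat_lit 0) (XT.lf (nat_lit 0) (nat_lit 2352519658) (nat_lit 152) (nat_lit 1117091196) (nat_lit 228) (nat_lit 22263311753) (nat_lit 26) (nat_lit 5) (nat_lit 28) (nat_lit 5) (nat_lit 29) (nat_lit 5) (nat_lit 376) (nat_lit 346) (nat_lit 298)) (XT.lf (nat_lit 0) (nat_lit 10229681741) (nat_lit 228) (nat_lit 9294353924) (nat_lit 76) (nat_lit 7560703737) (nat_lit 26) (nat_lit 5) (nat_lit 29) (nat_lit 5) (nat_lit 27) (nat_lit 4) (nat_lit 377) (nat_lit 346) (nat_lit 297))))) (XT.nd (nat_lit 156) (nat_lit 228) (nat_lit 0) (XT.nd (nat_lit 78) (nat_lit 0) (nat_lit 0) (XT.lf (nat_lit 0) (nat_lit 6143147125) (nat_lit 76) (nat_lit 11534071585) (nat_lit 152) (nat_lit 10855759407) (nat_lit 25) (nat_lit 5) (nat_lit 26) (nat_lit 5) (nat_lit 27) (nat_lit 4) (nat_lit 378) (nat_lit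 346) (nat_lit 296)) (XT.lf (nat_lit 0) (nat_lit 23291864803) (nat_lit 76) (nat_lit 2653690329) (nat_lit 152) (nat_lit 4133529787) (nat_lit 25) (nat_lit 5) (nat_lit 26) (nat_lit 5) (nat_lit 27) (nat_lit 4) (nat_lit 379) (nat_lit 346) (nat_lit 295))) (XT.nd (nat_lit 78) (nat_lit 76) (nat_lit 0) (XT.lf (nat_lit 0) (nat_lit 3368798105) (nat_lit 152) (nat_lit 21437947216) (nat_lit 76) (nat_lit 6904229543) (nat_lit 23) (nat_lit 5) (nat_lit 25) (nat_lit 5) (nat_lit 24) (nat_lit 4) (nat_lit 380) (nat_lit 346) (nat_lit 294)) (XT.nd (nat_lit 78) (nat_lit 76) (nat_lit 0) (XT.lf (nat_lit 0) (nat_lit 11479990905) (nat_lit 152) (nat_lit 4605899033) (nat_lit 76) (nat_lit 17360384098) (nat_lit 23) (nat_lit 5) (nat_lit 25) (nat_lit 5) (nat_lit 24) (nat_lit 4) (nat_lit 381) (nat_lit 346) (nat_lit 293)) (XT.lf (nat_lit 0) (nat_lit 14238393730) (nat_lit 76) (nat_lit 6318818072) (nat_lit 152) (nat_lit 14737821127)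 (nat_lit 22) (nat_lit 5) (nat_lit 23) (nat_lit 5) (nat_lit 24) (nat_lit 4) (nat_lit 382) (nat_lit 346) (nat_lit 292)))))) (XT.nd (nat_lit 390) (nat_lit 304) (nat_lit 0) (XT.nd (nat_lit 156) (nat_lit 76) (nat_lit 0) (XT.nd (nat_lit 78) (nat_lit 152) (nat_lit 0) (XT.lf (nat_lit 0) (nat_lit 30566516213) (nat_lit 152) (nat_lit 2581307143) (nat_lit 0) (nat_lit 4127402641) (nat_lit 22) (nat_lit 5) (nat_lit 24) (nat_lit 4) (nat_lit 22) (nat_lit 4) (nat_lit 383) (nat_lit 346) (nat_lit 291)) (XT.lf (nat_lit 0) (nat_lit 2454992227) (nat_lit 152) (nat_lit 21361567048) (nat_lit 76) (nat_lit 15546268382) (nat_lit 20) (nat_lit 5) (nat_lit 22) (nat_lit 5) (nat_lit 21) (nat_lit 4) (nat_lit 384) (nat_lit 346) (nat_lit 290))) (XT.nd (nat_lit 78) (nat_lit 76) (nat_lit 0) (XT.lf (nat_lit 0) (nat_lit 12038699316) (nat_lit 152) (nat_lit 1454157514) (nat_lit 76) (nat_lit 28106696869) (nat_lit 20) (nat_lit 5)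 (nat_lit 22) (nat_lit 5) (nat_lit 21) (nat_lit 4) (nat_lit 385) (nat_lit 346) (nat_lit 289)) (XT.nd (nat_lit 78) (nat_lit 0) (nat_lit 0) (XT.lf (nat_lit 0) (nat_lit 21059009224) (nat_lit 76) (nat_lit 1815214170) (nat_lit 152) (nat_lit 21102189156) (nat_lit 19) (nat_lit 5) (nat_lit 20) (nat_lit 5) (nat_lit 21) (nat_lit 4) (nat_lit 386) (nat_lit 346) (nat_lit 288)) (XT.lf (nat_lit 0) (nat_lit 34855882097) (nat_lit 152) (nat_lit 1385490074) (nat_lit 0) (nat_lit 10279708557) (nat_lit 19) (nat_lit 5) (nat_lit 21) (nat_lit 4) (nat_lit 19) (nat_lit 4) (nat_lit 387) (nat_lit 346) (nat_lit 287))))) (XT.nd (nat_lit 156) (nat_lit 152) (nat_lit 0) (XT.nd (nat_lit 78) (nat_lit 76) (nat_lit 0) (XT.lf (nat_lit 0) (nat_lit 22931464512) (nat_lit 76) (nat_lit 25443668284) (nat_lit 76) (nat_lit 847868556) (nat_lit 18) (nat_lit 4) (nat_lit 19) (nat_lit 5) (nat_lit 19) (nat_lit 4) (nat_lit 388) (nat_lit 346)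 (nat_lit 286)) (XT.lf (nat_lit 0) (nat_lit 10312194420) (nat_lit 152) (nat_lit 3164607729) (nat_lit 76) (nat_lit 38641882454) (nat_lit 17) (nat_lit 5) (nat_lit 19) (nat_lit 5) (nat_lit 18) (nat_lit 4) (nat_lit 389) (nat_lit 346) (nat_lit 285))) (XT.nd (nat_lit 78) (nat_lit 76) (nat_lit 0) (XT.lf (nat_lit 0) (nat_lit 22853147434) (nat_lit 152) (nat_lit 32301552285) (nat_lit 0) (nat_lit 46852603) (nat_lit 16) (nat_lit 5) (nat_lit 18) (nat_lit 4) (nat_lit 16) (nat_lit 4) (nat_lit 390) (nat_lit 346) (nat_lit 284)) (XT.nd (nat_lit 78) (nat_lit 76) (nat_lit 0) (XT.lf (nat_lit 0) (nat_lit 36818256017) (nat_lit 152) (nat_lit 7681590489) (nat_lit 0) (nat_lit 13997535352) (nat_lit 16) (nat_lit 5) (nat_lit 18) (nat_lit 4) (nat_lit 16) (nat_lit 4) (nat_lit 391) (nat_lit 346) (nat_lit 283)) (XT.lf (nat_lit 0) (nat_lit 19869593041) (nat_lit 76) (nat_lit 32492232498) (nat_lit 76) (nat_lit 9658154579)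 (nat_lit 15) (nat_lit 4) (nat_lit 16) (nat_lit 5) (nat_lit 16) (nat_lit 4) (nat_lit 392) (nat_lit 346) (nat_lit 282))))))) (XT.nd (nat_lit 780) (nat_lit 304) (nat_lit 0) (XT.nd (nat_lit 390) (nat_lit 228) (nat_lit 0) (XT.nd (nat_lit 156) (nat_lit 76) (nat_lit 0) (XT.nd (nat_lit 78) (nat_lit 76) (nat_lit 0) (XT.lf (nat_lit 0) (nat_lit 3357112506) (nat_lit 152) (nat_lit 15863651732) (nat_lit 76) (nat_lit 46581314025) (nat_lit 14) (nat_lit 5) (nat_lit 16) (nat_lit 5) (nat_lit 15) (nat_lit 4) (nat_lit 393) (nat_lit 346) (nat_lit 281)) (XT.lf (nat_lit 0) (nat_lit 12889981066) (nat_lit 76) (nat_lit 4296498983) (nat_lit 152) (nat_lit 52656623712) (nat_lit 13) (nat_lit 5) (nat_lit 14) (nat_lit 5) (nat_lit 15) (nat_lit 4) (nat_lit 394) (nat_lit 346) (nat_lit 280))) (XT.nd (nat_lit 78) (nat_lit 76) (nat_lit 0) (XT.lf (nat_lit 0) (nat_lit 32836269888) (nat_lit 152) (nat_lit 29652285392) (nat_lit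 0) (nat_lit 11661732058) (nat_lit 13) (nat_lit 5) (nat_lit 15) (nat_lit 4) (nat_lit 13) (nat_lit 4) (nat_lit 395) (nat_lit 346) (nat_lit 279)) (XT.nd (nat_lit 78) (nat_lit 76) (nat_lit 0) (XT.lf (nat_lit 0) (nat_lit 49835523815) (nat_lit 152) (nat_lit 306829782) (nat_lit 0) (nat_lit 28651895261) (nat_lit 13) (nat_lit 5) (nat_lit 15) (nat_lit 4) (nat_lit 13) (nat_lit 4) (nat_lit 396) (nat_lit 346) (nat_lit 278)) (XT.lf (nat_lit 0) (nat_lit 33011861020) (nat_lit 76) (nat_lit 35963722276) (nat_lit 76) (nat_lit 14771676387) (nat_lit 12) (nat_lit 4) (nat_lit 13) (nat_lit 5) (nat_lit 13) (nat_lit 4) (nat_lit 397) (nat_lit 346) (nat_lit 277))))) (XT.nd (nat_lit 156) (nat_lit 76) (nat_lit 0) (XT.nd (nat_lit 78) (nat_lit 76) (nat_lit 0) (XT.lf (nat_lit 0) (nat_lit 518374718) (nat_lit 152) (nat_lit 20121620303) (nat_lit 76) (nat_lit 68455813391) (nat_lit 11) (nat_lit 5) (nat_lit 13) (nat_lit 5)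 (nat_lit 12) (nat_lit 4) (nat_lit 398) (nat_lit 346) (nat_lit 276)) (XT.lf (nat_lit 0) (nat_lit 13193670767) (nat_lit 76) (nat_lit 3345140287) (nat_lit 152) (nat_lit 78278318037) (nat_lit 10) (nat_lit 5) (nat_lit 11) (nat_lit 5) (nat_lit 12) (nat_lit 4) (nat_lit 399) (nat_lit 346) (nat_lit 275))) (XT.nd (nat_lit 78) (nat_lit 76) (nat_lit 0) (XT.lf (nat_lit 0) (nat_lit 34762082115) (nat_lit 152) (nat_lit 51040646552) (nat_lit 0) (nat_lit 15119731950) (nat_lit 10) (nat_lit 5) (nat_lit 12) (nat_lit 4) (nat_lit 10) (nat_lit 4) (nat_lit 400) (nat_lit 346) (nat_lit 274)) (XT.nd (nat_lit 78) (nat_lit 76) (nat_lit 0) (XT.lf (nat_lit 0) (nat_lit 54518974648) (nat_lit 152) (nat_lit 18120288540) (nat_lit 0) (nat_lit 34870895785) (nat_lit 10) (nat_lit 5) (nat_lit 12) (nat_lit 4) (nat_lit 10) (nat_lit 4) (nat_lit 401) (nat_lit 346) (nat_lit 273)) (XT.lf (nat_lit 0) (nat_lit 18330095640) (nat_lit 76)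 (nat_lit 57956859430) (nat_lit 76) (nat_lit 38303476218) (nat_lit 9) (nat_lit 4) (nat_lit 10) (nat_lit 5) (nat_lit 10) (nat_lit 4) (nat_lit 402) (nat_lit 346) (nat_lit 272)))))) (XT.nd (nat_lit 390) (nat_lit 152) (nat_lit 0) (XT.nd (nat_lit 156) (nat_lit 152) (nat_lit 0) (XT.nd (nat_lit 78) (nat_lit 0) (nat_lit 0) (XT.lf (nat_lit 0) (nat_lit 58706999532) (nat_lit 76) (nat_lit 41574793937) (nat_lit 76) (nat_lit 21916499290) (nat_lit 9) (nat_lit 4) (nat_lit 10) (nat_lit 5) (nat_lit 10) (nat_lit 4) (nat_lit 403) (nat_lit 346) (nat_lit 271)) (XT.lf (nat_lit 0) (nat_lit 102295511394) (nat_lit 76) (nat_lit 23891428603) (nat_lit 76) (nat_lit 4228586332) (nat_lit 9) (nat_lit 4) (nat_lit 10) (nat_lit 5) (nat_lit 10) (nat_lit 4) (nat_lit 404) (nat_lit 346) (nat_lit 270))) (XT.nd (nat_lit 78) (nat_lit 0) (nat_lit 0) (XT.lf (nat_lit 0) (nat_lit 10216681035) (nat_lit 76) (nat_lit 4150498806) (nat_lit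 152) (nat_lit 124875389520) (nat_lit 7) (nat_lit 5) (nat_lit 8) (nat_lit 5) (nat_lit 9) (nat_lit 4) (nat_lit 405) (nat_lit 346) (nat_lit 269)) (XT.nd (nat_lit 78) (nat_lit 0) (nat_lit 0) (XT.lf (nat_lit 0) (nat_lit 35415123759) (nat_lit 152) (nat_lit 96055149076) (nat_lit 0) (nat_lit 17201279417) (nat_lit 7) (nat_lit 5) (nat_lit 9) (nat_lit 4) (nat_lit 7) (nat_lit 4) (nat_lit 406) (nat_lit 346) (nat_lit 268)) (XT.lf (nat_lit 0) (nat_lit 58246575873) (nat_lit 152) (nat_lit 60570915832) (nat_lit 0) (nat_lit 40029388891) (nat_lit 7) (nat_lit 5) (nat_lit 9) (nat_lit 4) (nat_lit 7) (nat_lit 4) (nat_lit 407) (nat_lit 346) (nat_lit 267))))) (XT.nd (nat_lit 234) (nat_lit 76) (nat_lit 0) (XT.nd (nat_lit 78) (nat_lit 76) (nat_lit 0) (XT.lf (nat_lit 0) (nat_lit 82897014082) (nat_lit 152) (nat_lit 22263092059) (nat_lit 0) (nat_lit 64676732063) (nat_lit 7) (nat_lit 5) (nat_lit 9) (nat_lit 4) (nat_lit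 7) (nat_lit 4) (nat_lit 408) (nat_lit 346) (nat_lit 266)) (XT.nd (nat_lit 78) (nat_lit 0) (nat_lit 0) (XT.lf (nat_lit 0) (nat_lit 20100857887) (nat_lit 76) (nat_lit 89895083283) (nat_lit 76) (nat_lit 71671935489) (nat_lit 6) (nat_lit 4) (nat_lit 7) (nat_lit 5) (nat_lit 7) (nat_lit 4) (nat_lit 409) (nat_lit 346) (nat_lit 265)) (XT.lf (nat_lit 0) (nat_lit 67106374645) (nat_lit 76) (nat_lit 72758335559) (nat_lit 76) (nat_lit 54532534270) (nat_lit 6) (nat_lit 4) (nat_lit 7) (nat_lit 5) (nat_lit 7) (nat_lit 4) (nat_lit 410) (nat_lit 346) (nat_lit 264)))) (XT.nd (nat_lit 78) (nat_lit 76) (nat_lit 0) (XT.lf (nat_lit 0) (nat_lit 117859674449) (nat_lit 76) (nat_lit 54257024263) (nat_lit 76) (nat_lit 36028766034) (nat_lit 6) (nat_lit 4) (nat_lit 7) (nat_lit 5) (nat_lit 7) (nat_lit 4) (nat_lit 411) (nat_lit 346) (nat_lit 263)) (XT.nd (nat_lit 78) (nat_lit 76) (nat_lit 0) (XT.lf (nat_lit 0) (nat_lit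 172661517595) (nat_lit 76) (nat_lit 34281511994) (nat_lit 76) (nat_lit 16050978820) (nat_lit 6) (nat_lit 4) (nat_lit 7) (nat_lit 5) (nat_lit 7) (nat_lit 4) (nat_lit 412) (nat_lit 346) (nat_lit 262)) (XT.lf (nat_lit 0) (nat_lit 5243120807) (nat_lit 152) (nat_lit 7326948324) (nat_lit 76) (nat_lit 226450178724) (nat_lit 5) (nat_lit 5) (nat_lit 7) (nat_lit 5) (nat_lit 6) (nat_lit 4) (nat_lit 413) (nat_lit 346) (nat_lit 261))))))))
noncomputable def xc113 : XT := (XT.nd (nat_lit 1560) (nat_lit 0) (nat_lit 0) (XT.nd (nat_lit 780) (nat_lit 152) (nat_lit 0) (XT.nd (nat_lit 390) (nat_lit 76) (nat_lit 0) (XT.nd (nat_lit 156) (nat_lit 0) (nat_lit 0) (XT.nd (nat_lit 78) (nat_lit 0) (nat_lit 0) (XT.lf (nat_lit 0) (nat_lit 28645770771) (nat_lit 152) (nat_lit 215785796836) (nat_lit 0) (nat_lit 11761891140) (nat_lit 4) (nat_lit 5) (nat_lit 6) (nat_lit 4) (nat_lit 4) (nat_lit 4) (nat_lit 414) (nat_lit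 346) (nat_lit 260)) (XT.lf (nat_lit 0) (nat_lit 54447561467) (nat_lit 152) (nat_lit 182688801380) (nat_lit 0) (nat_lit 37562009683) (nat_lit 4) (nat_lit 5) (nat_lit 6) (nat_lit 4) (nat_lit 4) (nat_lit 4) (nat_lit 415) (nat_lit 346) (nat_lit 259))) (XT.nd (nat_lit 78) (nat_lit 0) (nat_lit 0) (XT.lf (nat_lit 0) (nat_lit 82308771582) (nat_lit 152) (nat_lit 146953614526) (nat_lit 0) (nat_lit 65421671509) (nat_lit 4) (nat_lit 5) (nat_lit 6) (nat_lit 4) (nat_lit 4) (nat_lit 4) (nat_lit 416) (nat_lit 346) (nat_lit 258)) (XT.nd (nat_lit 78) (nat_lit 0) (nat_lit 0) (XT.lf (nat_lit 0) (nat_lit 112394504584) (nat_lit 152) (nat_lit 108368472204) (nat_lit 0) (nat_lit 95505970910) (nat_lit 4) (nat_lit 5) (nat_lit 6) (nat_lit 4) (nat_lit 4) (nat_lit 4) (nat_lit 417) (nat_lit 346) (nat_lit 257)) (XT.lf (nat_lit 0) (nat_lit 144883046298) (nat_lit 152) (nat_lit 66704721717) (nat_lit 0) (nat_lit 127993185217)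 (nat_lit 4) (nat_lit 5) (nat_lit 6) (nat_lit 4) (nat_lit 4) (nat_lit 4) (nat_lit 418) (nat_lit 346) (nat_lit 256))))) (XT.nd (nat_lit 156) (nat_lit 0) (nat_lit 0) (XT.nd (nat_lit 78) (nat_lit 76) (nat_lit 0) (XT.lf (nat_lit 0) (nat_lit 179966921417) (nat_lit 152) (nat_lit 21715466767) (nat_lit 0) (nat_lit 163075831253) (nat_lit 4) (nat_lit 5) (nat_lit 6) (nat_lit 4) (nat_lit 4) (nat_lit 4) (nat_lit 419) (nat_lit 346) (nat_lit 255)) (XT.lf (nat_lit 0) (nat_lit 28280606091) (nat_lit 76) (nat_lit 190253577549) (nat_lit 76) (nat_lit 173361349347) (nat_lit 3) (nat_lit 4) (nat_lit 4) (nat_lit 5) (nat_lit 4) (nat_lit 4) (nat_lit 420) (nat_lit 346) (nat_lit 254))) (XT.nd (nat_lit 78) (nat_lit 0) (nat_lit 0) (XT.lf (nat_lit 0) (nat_lit 83504487724) (nat_lit 76) (nat_lit 177272698639) (nat_lit 76) (nat_lit 160379416698) (nat_lit 3) (nat_lit 4) (nat_lit 4) (nat_lit 5) (nat_lit 4) (nat_lit 4) (nat_lit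 421) (nat_lit 346) (nat_lit 253)) (XT.nd (nat_lit 78) (nat_lit 0) (nat_lit 0) (XT.lf (nat_lit 0) (nat_lit 143139932766) (nat_lit 76) (nat_lit 163256567072) (nat_lit 76) (nat_lit 146362309446) (nat_lit 3) (nat_lit 4) (nat_lit 4) (nat_lit 5) (nat_lit 4) (nat_lit 4) (nat_lit 422) (nat_lit 346) (nat_lit 252)) (XT.lf (nat_lit 0) (nat_lit 207540336447) (nat_lit 76) (nat_lit 148122124290) (nat_lit 76) (nat_lit 131226963252) (nat_lit 3) (nat_lit 4) (nat_lit 4) (nat_lit 5) (nat_lit 4) (nat_lit 4) (nat_lit 423) (nat_lit 346) (nat_lit 251)))))) (XT.nd (nat_lit 390) (nat_lit 152) (nat_lit 0) (XT.nd (nat_lit 156) (nat_lit 0) (nat_lit 0) (XT.nd (nat_lit 78) (nat_lit 0) (nat_lit 0) (XT.lf (nat_lit 0) (nat_lit 277087330789) (nat_lit 76) (nat_lit 131779684706) (nat_lit 76) (nat_lit 114883687176) (nat_lit 3) (nat_lit 4) (nat_lit 4) (nat_lit 5) (nat_lit 4) (nat_lit 4) (nat_lit 424) (nat_lit 346) (nat_lit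 250)) (XT.lf (nat_lit 0) (nat_lit 352193046128) (nat_lit 76) (nat_lit 114132404234) (nat_lit 76) (nat_lit 97235632174) (nat_lit 3) (nat_lit 4) (nat_lit 4) (nat_lit 5) (nat_lit 4) (nat_lit 4) (nat_lit 425) (nat_lit 346) (nat_lit 249))) (XT.nd (nat_lit 78) (nat_lit 0) (nat_lit 0) (XT.lf (nat_lit 0) (nat_lit 433302553371) (nat_lit 76) (nat_lit 95075706397) (nat_lit 76) (nat_lit 78178217179) (nat_lit 3) (nat_lit 4) (nat_lit 4) (nat_lit 5) (nat_lit 4) (nat_lit 4) (nat_lit 426) (nat_lit 346) (nat_lit 248)) (XT.nd (nat_lit 78) (nat_lit 0) (nat_lit 0) (XT.lf (nat_lit 0) (nat_lit 520896501448) (nat_lit 76) (nat_lit 74496662615) (nat_lit 76) (nat_lit 57598509363) (nat_lit 3) (nat_lit 4) (nat_lit 4) (nat_lit 5) (nat_lit 4) (nat_lit 4) (nat_lit 427) (nat_lit 346) (nat_lit 247)) (XT.lf (nat_lit 0) (nat_lit 615493965609) (nat_lit 76) (nat_lit 52273322999) (nat_lit 76) (nat_lit 35374554900) (nat_lit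 3) (nat_lit 4) (nat_lit 4) (nat_lit 5) (nat_lit 4) (nat_lit 4) (nat_lit 428) (nat_lit 346) (nat_lit 246))))) (XT.nd (nat_lit 156) (nat_lit 0) (nat_lit 0) (XT.nd (nat_lit 78) (nat_lit 152) (nat_lit 0) (XT.lf (nat_lit 0) (nat_lit 717655523418) (nat_lit 76) (nat_lit 28273993685) (nat_lit 76) (nat_lit 11374656283) (nat_lit 3) (nat_lit 4) (nat_lit 4) (nat_lit 5) (nat_lit 4) (nat_lit 4) (nat_lit 429) (nat_lit 346) (nat_lit 245)) (XT.lf (nat_lit 0) (nat_lit 12460507414) (nat_lit 76) (nat_lit 1655056022) (nat_lit 152) (nat_lit 801632105994) (nat_lit 1) (nat_lit 5) (nat_lit 2) (nat_lit 5) (nat_lit 3) (nat_lit 4) (nat_lit 430) (nat_lit 346) (nat_lit 244))) (XT.nd (nat_lit 78) (nat_lit 0) (nat_lit 0) (XT.lf (nat_lit 0) (nat_lit 42792561858) (nat_lit 152) (nat_lit 808765393484) (nat_lit 0) (nat_lit 27144087211) (nat_lit 1) (nat_lit 5) (nat_lit 3) (nat_lit 4) (nat_lit 1) (nat_lit 4) (nat_lit 431) (nat_lit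 346) (nat_lit 243)) (XT.nd (nat_lit 78) (nat_lit 0) (nat_lit 0) (XT.lf (nat_lit 0) (nat_lit 73805106120) (nat_lit 152) (nat_lit 814728135589) (nat_lit 0) (nat_lit 58156213019) (nat_lit 1) (nat_lit 5) (nat_lit 3) (nat_lit 4) (nat_lit 1) (nat_lit 4) (nat_lit 432) (nat_lit 346) (nat_lit 242)) (XT.lf (nat_lit 0) (nat_lit 107297170127) (nat_lit 152) (nat_lit 821170918961) (nat_lit 0) (nat_lit 91647889567) (nat_lit 1) (nat_lit 5) (nat_lit 3) (nat_lit 4) (nat_lit 1) (nat_lit 4) (nat_lit 433) (nat_lit 346) (nat_lit 241))))))) (XT.nd (nat_lit 780) (nat_lit 0) (nat_lit 0) (XT.nd (nat_lit 390) (nat_lit 0) (nat_lit 0) (XT.nd (nat_lit 156) (nat_lit 0) (nat_lit 0) (XT.nd (nat_lit 78) (nat_lit 0) (nat_lit 0) (XT.lf (nat_lit 0) (nat_lit 143467225366) (nat_lit 152) (nat_lit 828131923059) (nat_lit 0) (nat_lit 127817586050) (nat_lit 1) (nat_lit 5) (nat_lit 3) (nat_lit 4) (nat_lit 1) (nat_lit 4) (nat_lit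 434) (nat_lit 346) (nat_lit 240)) (XT.lf (nat_lit 0) (nat_lit 182529612908) (nat_lit 152) (nat_lit 835652398276) (nat_lit 0) (nat_lit 166879641409) (nat_lit 1) (nat_lit 5) (nat_lit 3) (nat_lit 4) (nat_lit 1) (nat_lit 4) (nat_lit 435) (nat_lit 346) (nat_lit 239))) (XT.nd (nat_lit 78) (nat_lit 0) (nat_lit 0) (XT.lf (nat_lit 0) (nat_lit 224715813567) (nat_lit 152) (nat_lit 843776910392) (nat_lit 0) (nat_lit 209065534491) (nat_lit 1) (nat_lit 5) (nat_lit 3) (nat_lit 4) (nat_lit 1) (nat_lit 4) (nat_lit 436) (nat_lit 346) (nat_lit 238)) (XT.nd (nat_lit 78) (nat_lit 0) (nat_lit 0) (XT.lf (nat_lit 0) (nat_lit 270275819644) (nat_lit 152) (nat_lit 852553604663) (nat_lit 0) (nat_lit 254625255775) (nat_lit 1) (nat_lit 5) (nat_lit 3) (nat_lit 4) (nat_lit 1) (nat_lit 4) (nat_lit 437) (nat_lit 346) (nat_lit 237)) (XT.lf (nat_lit 0) (nat_lit 319479616358) (nat_lit 152) (nat_lit 862034491131) (nat_lit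 0) (nat_lit 303828788792) (nat_lit 1) (nat_lit 5) (nat_lit 3) (nat_lit 4) (nat_lit 1) (nat_lit 4) (nat_lit 438) (nat_lit 346) (nat_lit 236))))) (XT.nd (nat_lit 156) (nat_lit 0) (nat_lit 0) (XT.nd (nat_lit 78) (nat_lit 0) (nat_lit 0) (XT.lf (nat_lit 0) (nat_lit 372618781766) (nat_lit 152) (nat_lit 872275752825) (nat_lit 0) (nat_lit 356967710036) (nat_lit 1) (nat_lit 5) (nat_lit 3) (nat_lit 4) (nat_lit 1) (nat_lit 4) (nat_lit 439) (nat_lit 346) (nat_lit 235)) (XT.lf (nat_lit 0) (nat_lit 430008214625) (nat_lit 152) (nat_lit 883338078704) (nat_lit 0) (nat_lit 414356916816) (nat_lit 1) (nat_lit 5) (nat_lit 3) (nat_lit 4) (nat_lit 1) (nat_lit 4) (nat_lit 440) (nat_lit 346) (nat_lit 234))) (XT.nd (nat_lit 78) (nat_lit 0) (nat_lit 0) (XT.lf (nat_lit 0) (nat_lit 491988000462) (nat_lit 152) (nat_lit 895287023292) (nat_lit 0) (nat_lit 476336493323) (nat_lit 1) (nat_lit 5) (nat_lit 3) (nat_lit 4)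 (nat_lit 1) (nat_lit 4) (nat_lit 441) (nat_lit 346) (nat_lit 233)) (XT.nd (nat_lit 78) (nat_lit 0) (nat_lit 0) (XT.lf (nat_lit 0) (nat_lit 558925426899) (nat_lit 152) (nat_lit 908193395149) (nat_lit 0) (nat_lit 543273725934) (nat_lit 1) (nat_lit 5) (nat_lit 3) (nat_lit 4) (nat_lit 1) (nat_lit 4) (nat_lit 442) (nat_lit 346) (nat_lit 232)) (XT.lf (nat_lit 0) (nat_lit 631217160165) (nat_lit 152) (nat_lit 922133676478) (nat_lit 0) (nat_lit 615565279732) (nat_lit 1) (nat_lit 5) (nat_lit 3) (nat_lit 4) (nat_lit 1) (nat_lit 4) (nat_lit 443) (nat_lit 346) (nat_lit 231)))))) (XT.nd (nat_lit 390) (nat_lit 0) (nat_lit 0) (XT.nd (nat_lit 156) (nat_lit 0) (nat_lit 0) (XT.nd (nat_lit 78) (nat_lit 0) (nat_lit 0) (XT.lf (nat_lit 0) (nat_lit 709291595717) (nat_lit 152) (nat_lit 937190476355) (nat_lit 0) (nat_lit 693639549110) (nat_lit 1) (nat_lit 5) (nat_lit 3) (nat_lit 4) (nat_lit 1) (nat_lit 4) (nat_lit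 444) (nat_lit 346) (nat_lit 230)) (XT.lf (nat_lit 0) (nat_lit 793611396877) (nat_lit 152) (nat_lit 953453020260) (nat_lit 0) (nat_lit 777959196405) (nat_lit 1) (nat_lit 5) (nat_lit 3) (nat_lit 4) (nat_lit 1) (nat_lit 4) (nat_lit 445) (nat_lit 346) (nat_lit 229))) (XT.nd (nat_lit 78) (nat_lit 0) (nat_lit 0) (XT.lf (nat_lit 0) (nat_lit 884676236541) (nat_lit 152) (nat_lit 971017678824) (nat_lit 0) (nat_lit 869023893601) (nat_lit 1) (nat_lit 5) (nat_lit 3) (nat_lit 4) (nat_lit 1) (nat_lit 4) (nat_lit 446) (nat_lit 346) (nat_lit 228)) (XT.nd (nat_lit 78) (nat_lit 0) (nat_lit 0) (XT.lf (nat_lit 0) (nat_lit 983025758202) (nat_lit 152) (nat_lit 989988538912) (nat_lit 0) (nat_lit 967373283348) (nat_lit 1) (nat_lit 5) (nat_lit 3) (nat_lit 4) (nat_lit 1) (nat_lit 4) (nat_lit 447) (nat_lit 346) (nat_lit 227)) (XT.lf (nat_lit 0) (nat_lit 1089242773841) (nat_lit 152) (nat_lit 1010478020436) (nat_lit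 0) (nat_lit 1073590176845) (nat_lit 1) (nat_lit 5) (nat_lit 3) (nat_lit 4) (nat_lit 1) (nat_lit 4) (nat_lit 448) (nat_lit 346) (nat_lit 226))))) (XT.nd (nat_lit 234) (nat_lit 0) (nat_lit 0) (XT.nd (nat_lit 78) (nat_lit 0) (nat_lit 0) (XT.lf (nat_lit 0) (nat_lit 1203956717625) (nat_lit 152) (nat_lit 1032607542545) (nat_lit 0) (nat_lit 1188304007534) (nat_lit 1) (nat_lit 5) (nat_lit 3) (nat_lit 4) (nat_lit 1) (nat_lit 4) (nat_lit 449) (nat_lit 346) (nat_lit 225)) (XT.nd (nat_lit 78) (nat_lit 0) (nat_lit 0) (XT.lf (nat_lit 0) (nat_lit 1327847375888) (nat_lit 152) (nat_lit 1056508243149) (nat_lit 0) (nat_lit 1312194561078) (nat_lit 1) (nat_lit 5) (nat_lit 3) (nat_lit 4) (nat_lit 1) (nat_lit 4) (nat_lit 450) (nat_lit 346) (nat_lit 224)) (XT.lf (nat_lit 0) (nat_lit 1461648915492) (nat_lit 152) (nat_lit 1082321756028) (nat_lit 0) (nat_lit 1445996003722) (nat_lit 1) (nat_lit 5) (nat_lit 3) (nat_lit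 4) (nat_lit 1) (nat_lit 4) (nat_lit 451) (nat_lit 346) (nat_lit 223)))) (XT.nd (nat_lit 78) (nat_lit 0) (nat_lit 0) (XT.lf (nat_lit 0) (nat_lit 1606154234451) (nat_lit 152) (nat_lit 1110201050149) (nat_lit 0) (nat_lit 1590501232902) (nat_lit 1) (nat_lit 5) (nat_lit 3) (nat_lit 4) (nat_lit 1) (nat_lit 4) (nat_lit 452) (nat_lit 346) (nat_lit 222)) (XT.nd (nat_lit 78) (nat_lit 0) (nat_lit 0) (XT.lf (nat_lit 0) (nat_lit 1762219660581) (nat_lit 152) (nat_lit 1140311336142) (nat_lit 0) (nat_lit 1746566575904) (nat_lit 1) (nat_lit 5) (nat_lit 3) (nat_lit 4) (nat_lit 1) (nat_lit 4) (nat_lit 453) (nat_lit 346) (nat_lit 221)) (XT.lf (nat_lit 0) (nat_lit 1930770026036) (nat_lit 152) (nat_lit 1172831045332) (nat_lit 0) (nat_lit 1915116864388) (nat_lit 1) (nat_lit 5) (nat_lit 3) (nat_lit 4) (nat_lit 1) (nat_lit 4) (nat_lit 454) (nat_lit 346) (nat_lit 220))))))))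
noncomputable def xc114 : XT := (XT.nd (nat_lit 45630) (nat_lit 0) (nat_lit 1824) (XT.nd (nat_lit 44850) (nat_lit 0) (nat_lit 3876) (XT.nd (nat_lit 390) (nat_lit 0) (nat_lit 0) (XT.nd (nat_lit 156) (nat_lit 0) (nat_lit 0) (XT.nd (nat_lit 78) (nat_lit 0) (nat_lit 0) (XT.lf (nat_lit 0) (nat_lit 2112804147798) (nat_lit 152) (nat_lit 1207952887108) (nat_lit 0) (nat_lit 2097150914880) (nat_lit 1) (nat_lit 5) (nat_lit 3) (nat_lit 4) (nat_lit 1) (nat_lit 4) (nat_lit 455) (nat_lit 346) (nat_lit 219)) (XT.lf (nat_lit 0) (nat_lit 2309400746586) (nat_lit 152) (nat_lit 1245884990901) (nat_lit 0) (nat_lit 2293747447679) (nat_lit 1) (nat_lit 5) (nat_lit 3) (nat_lit 4) (nat_lit 1) (nat_lit 4) (nat_lit 456) (nat_lit 346) (nat_lit 218))) (XT.nd (nat_lit 78) (nat_lit 0) (nat_lit 0) (XT.lf (nat_lit 0) (nat_lit 2521724839284) (nat_lit 152) (nat_lit 1286852139549) (nat_lit 0) (nat_lit 2506071479275) (nat_lit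 1) (nat_lit 5) (nat_lit 3) (nat_lit 4) (nat_lit 1) (nat_lit 4) (nat_lit 457) (nat_lit 346) (nat_lit 217)) (XT.nd (nat_lit 78) (nat_lit 0) (nat_lit 0) (XT.lf (nat_lit 0) (nat_lit 2751034642737) (nat_lit 152) (nat_lit 1331097101340) (nat_lit 0) (nat_lit 2735381226152) (nat_lit 1) (nat_lit 5) (nat_lit 3) (nat_lit 4) (nat_lit 1) (nat_lit 4) (nat_lit 458) (nat_lit 346) (nat_lit 216)) (XT.lf (nat_lit 0) (nat_lit 2998689029854) (nat_lit 152) (nat_lit 1378882068641) (nat_lit 0) (nat_lit 2983035560884) (nat_lit 1) (nat_lit 5) (nat_lit 3) (nat_lit 4) (nat_lit 1) (nat_lit 4) (nat_lit 459) (nat_lit 346) (nat_lit 215))))) (XT.nd (nat_lit 156) (nat_lit 0) (nat_lit 0) (XT.nd (nat_lit 78) (nat_lit 0) (nat_lit 0) (XT.lf (nat_lit 0) (nat_lit 3266155582188) (nat_lit 152) (nat_lit 1430490211628) (nat_lit 0) (nat_lit 3250502064713) (nat_lit 1) (nat_lit 5) (nat_lit 3) (nat_lit 4) (nat_lit 1) (nat_lit 4) (nat_lit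 460) (nat_lit 346) (nat_lit 214)) (XT.lf (nat_lit 0) (nat_lit 3555019286717) (nat_lit 152) (nat_lit 1486227356333) (nat_lit 0) (nat_lit 3539365724330) (nat_lit 1) (nat_lit 5) (nat_lit 3) (nat_lit 4) (nat_lit 1) (nat_lit 4) (nat_lit 461) (nat_lit 346) (nat_lit 213))) (XT.nd (nat_lit 44148) (nat_lit 0) (nat_lit 5320) (XT.lf (nat_lit 0) (nat_lit 3866991928355) (nat_lit 152) (nat_lit 1546423796948) (nat_lit 0) (nat_lit 3851338324384) (nat_lit 1) (nat_lit 5) (nat_lit 3) (nat_lit 4) (nat_lit 1) (nat_lit 4) (nat_lit 462) (nat_lit 346) (nat_lit 212)) (XT.nd (nat_lit 78) (nat_lit 0) (nat_lit 0) (XT.lf (nat_lit 0) (nat_lit 674040718) (nat_lit 0) (nat_lit 674040718) (nat_lit 380) (nat_lit 2579126475) (nat_lit 71) (nat_lit 5) (nat_lit 71) (nat_lit 3) (nat_lit 76) (nat_lit 3) (nat_lit 347) (nat_lit 347) (nat_lit 326)) (XT.lf (nat_lit 0) (nat_lit 4064486730) (nat_lit 380) (nat_lit 2682818906) (nat_lit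 456) (nat_lit 1319161247) (nat_lit 71) (nat_lit 5) (nat_lit 76) (nat_lit 3) (nat_lit 77) (nat_lit 5) (nat_lit 348) (nat_lit 347) (nat_lit 325)))))) (XT.nd (nat_lit 390) (nat_lit 1064) (nat_lit 0) (XT.nd (nat_lit 156) (nat_lit 380) (nat_lit 0) (XT.nd (nat_lit 78) (nat_lit 0) (nat_lit 0) (XT.lf (nat_lit 76) (nat_lit 1409249056) (nat_lit 0) (nat_lit 4080644182) (nat_lit 456) (nat_lit 2809908251) (nat_lit 72) (nat_lit 5) (nat_lit 71) (nat_lit 5) (nat_lit 77) (nat_lit 5) (nat_lit 349) (nat_lit 347) (nat_lit 324)) (XT.lf (nat_lit 76) (nat_lit 5910290036) (nat_lit 0) (nat_lit 1078382177) (nat_lit 456) (nat_lit 1566502714) (nat_lit 72) (nat_lit 5) (nat_lit 71) (nat_lit 5) (nat_lit 77) (nat_lit 5) (nat_lit 350) (nat_lit 347) (nat_lit 323))) (XT.nd (nat_lit 78) (nat_lit 456) (nat_lit 0) (XT.lf (nat_lit 76) (nat_lit 1908644113) (nat_lit 0) (nat_lit 6692048961) (nat_lit 456) (nat_lit 230928428) (nat_lit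 73) (nat_lit 5) (nat_lit 72) (nat_lit 5) (nat_lit 78) (nat_lit 5) (nat_lit 351) (nat_lit 347) (nat_lit 322)) (XT.nd (nat_lit 78) (nat_lit 0) (nat_lit 76) (XT.lf (nat_lit 0) (nat_lit 1151809782) (nat_lit 456) (nat_lit 2285298758) (nat_lit 532) (nat_lit 5690765285) (nat_lit 66) (nat_lit 5) (nat_lit 72) (nat_lit 5) (nat_lit 73) (nat_lit 5) (nat_lit 352) (nat_lit 347) (nat_lit 321)) (XT.lf (nat_lit 0) (nat_lit 2610137718) (nat_lit 456) (nat_lit 6670123575) (nat_lit 76) (nat_lit 168977104) (nat_lit 67) (nat_lit 5) (nat_lit 73) (nat_lit 5) (nat_lit 68) (nat_lit 5) (nat_lit 353) (nat_lit 347) (nat_lit 320))))) (XT.nd (nat_lit 156) (nat_lit 684) (nat_lit 0) (XT.nd (nat_lit 78) (nat_lit 456) (nat_lit 0) (XT.lf (nat_lit 0) (nat_lit 4250392227) (nat_lit 456) (nat_lit 1582217093) (nat_lit 76) (nat_lit 3958563155) (nat_lit 67) (nat_lit 5) (nat_lit 73) (nat_lit 5) (nat_lit 68) (nat_lit 5) (nat_lit 354)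 (nat_lit 347) (nat_lit 319)) (XT.lf (nat_lit 0) (nat_lit 4042096509) (nat_lit 456) (nat_lit 1995388392) (nat_lit 532) (nat_lit 4121802107) (nat_lit 61) (nat_lit 5) (nat_lit 67) (nat_lit 5) (nat_lit 68) (nat_lit 5) (nat_lit 355) (nat_lit 347) (nat_lit 318))) (XT.nd (nat_lit 78) (nat_lit 684) (nat_lit 0) (XT.lf (nat_lit 0) (nat_lit 7986501272) (nat_lit 532) (nat_lit 477239966) (nat_lit 76) (nat_lit 2091662552) (nat_lit 61) (nat_lit 5) (nat_lit 68) (nat_lit 5) (nat_lit 62) (nat_lit 5) (nat_lit 356) (nat_lit 347) (nat_lit 317)) (XT.nd (nat_lit 78) (nat_lit 304) (nat_lit 0) (XT.lf (nat_lit 0) (nat_lit 5779541830) (nat_lit 380) (nat_lit 4431328208) (nat_lit 456) (nat_lit 762849820) (nat_lit 56) (nat_lit 5) (nat_lit 61) (nat_lit 5) (nat_lit 62) (nat_lit 5) (nat_lit 357) (nat_lit 347) (nat_lit 316)) (XT.lf (nat_lit 0) (nat_lit 1091699232) (nat_lit 228) (nat_lit 6614103) (nat_lit 304) (nat_lit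 10327354871) (nat_lit 52) (nat_lit 5) (nat_lit 55) (nat_lit 5) (nat_lit 56) (nat_lit 5) (nat_lit 358) (nat_lit 347) (nat_lit 315))))))) (XT.nd (nat_lit 780) (nat_lit 988) (nat_lit 0) (XT.nd (nat_lit 390) (nat_lit 608) (nat_lit 0) (XT.nd (nat_lit 156) (nat_lit 228) (nat_lit 0) (XT.nd (nat_lit 78) (nat_lit 228) (nat_lit 0) (XT.lf (nat_lit 0) (nat_lit 3261326135) (nat_lit 304) (nat_lit 3941747295) (nat_lit 76) (nat_lit 4693631375) (nat_lit 52) (nat_lit 5) (nat_lit 56) (nat_lit 5) (nat_lit 53) (nat_lit 5) (nat_lit 359) (nat_lit 347) (nat_lit 314)) (XT.lf (nat_lit 0) (nat_lit 3042675353) (nat_lit 228) (nat_lit 2566659217) (nat_lit 304) (nat_lit 6795180753) (nat_lit 49) (nat_lit 5) (nat_lit 52) (nat_lit 5) (nat_lit 53) (nat_lit 5) (nat_lit 360) (nat_lit 347) (nat_lit 313))) (XT.nd (nat_lit 78) (nat_lit 228) (nat_lit 0) (XT.lf (nat_lit 0) (nat_lit 8255678286) (nat_lit 304) (nat_lit 2269675869)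 (nat_lit 76) (nat_lit 2418800810) (nat_lit 49) (nat_lit 5) (nat_lit 53) (nat_lit 5) (nat_lit 50) (nat_lit 5) (nat_lit 361) (nat_lit 347) (nat_lit 312)) (XT.nd (nat_lit 78) (nat_lit 76) (nat_lit 0) (XT.lf (nat_lit 0) (nat_lit 5531502925) (nat_lit 152) (nat_lit 5727502480) (nat_lit 228) (nat_lit 2256378904) (nat_lit 47) (nat_lit 5) (nat_lit 49) (nat_lit 5) (nat_lit 50) (nat_lit 5) (nat_lit 362) (nat_lit 347) (nat_lit 311)) (XT.lf (nat_lit 0) (nat_lit 362050673) (nat_lit 228) (nat_lit 121524498) (nat_lit 76) (nat_lit 13647236231) (nat_lit 46) (nat_lit 5) (nat_lit 49) (nat_lit 5) (nat_lit 47) (nat_lit 5) (nat_lit 363) (nat_lit 347) (nat_lit 310))))) (XT.nd (nat_lit 156) (nat_lit 228) (nat_lit 0) (XT.nd (nat_lit 78) (nat_lit 152) (nat_lit 0) (XT.lf (nat_lit 0) (nat_lit 3358566919) (nat_lit 304) (nat_lit 6228116785) (nat_lit 76) (nat_lit 5180891381) (nat_lit 43) (nat_lit 5) (nat_lit 47) (nat_lit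 5) (nat_lit 44) (nat_lit 5) (nat_lit 364) (nat_lit 347) (nat_lit 309)) (XT.lf (nat_lit 0) (nat_lit 2491004741) (nat_lit 152) (nat_lit 4132031093) (nat_lit 228) (nat_lit 8830015363) (nat_lit 41) (nat_lit 5) (nat_lit 43) (nat_lit 5) (nat_lit 44) (nat_lit 5) (nat_lit 365) (nat_lit 347) (nat_lit 308))) (XT.nd (nat_lit 78) (nat_lit 228) (nat_lit 0) (XT.lf (nat_lit 0) (nat_lit 10319555420) (nat_lit 228) (nat_lit 4032343247) (nat_lit 76) (nat_lit 1827822913) (nat_lit 41) (nat_lit 5) (nat_lit 44) (nat_lit 5) (nat_lit 42) (nat_lit 5) (nat_lit 366) (nat_lit 347) (nat_lit 307)) (XT.nd (nat_lit 78) (nat_lit 76) (nat_lit 0) (XT.lf (nat_lit 0) (nat_lit 5728249419) (nat_lit 152) (nat_lit 8785932087) (nat_lit 228) (nat_lit 2434178881) (nat_lit 39) (nat_lit 5) (nat_lit 41) (nat_lit 5) (nat_lit 42) (nat_lit 5) (nat_lit 367) (nat_lit 347) (nat_lit 306)) (XT.lf (nat_lit 0) (nat_lit 1273578125) (nat_lit 228)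 (nat_lit 1367328788) (nat_lit 76) (nat_lit 15129488506) (nat_lit 38) (nat_lit 5) (nat_lit 41) (nat_lit 5) (nat_lit 39) (nat_lit 5) (nat_lit 368) (nat_lit 347) (nat_lit 305)))))) (XT.nd (nat_lit 390) (nat_lit 532) (nat_lit 0) (XT.nd (nat_lit 156) (nat_lit 152) (nat_lit 0) (XT.nd (nat_lit 78) (nat_lit 152) (nat_lit 0) (XT.lf (nat_lit 0) (nat_lit 5442440257) (nat_lit 228) (nat_lit 9107324668) (nat_lit 76) (nat_lit 4079711131) (nat_lit 36) (nat_lit 5) (nat_lit 39) (nat_lit 5) (nat_lit 37) (nat_lit 5) (nat_lit 369) (nat_lit 347) (nat_lit 304)) (XT.lf (nat_lit 0) (nat_lit 1765272845) (nat_lit 152) (nat_lit 8291001610) (nat_lit 228) (nat_lit 9492110449) (nat_lit 34) (nat_lit 5) (nat_lit 36) (nat_lit 5) (nat_lit 37) (nat_lit 5) (nat_lit 370) (nat_lit 347) (nat_lit 303))) (XT.nd (nat_lit 78) (nat_lit 152) (nat_lit 0) (XT.lf (nat_lit 0) (nat_lit 13967405762) (nat_lit 152) (nat_lit 1284287587) (nat_lit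 228) (nat_lit 5272132289) (nat_lit 34) (nat_lit 5) (nat_lit 36) (nat_lit 5) (nat_lit 37) (nat_lit 5) (nat_lit 371) (nat_lit 347) (nat_lit 302)) (XT.nd (nat_lit 78) (nat_lit 76) (nat_lit 0) (XT.lf (nat_lit 0) (nat_lit 5643470208) (nat_lit 76) (nat_lit 15471797415) (nat_lit 152) (nat_lit 441848380) (nat_lit 33) (nat_lit 5) (nat_lit 34) (nat_lit 5) (nat_lit 35) (nat_lit 4) (nat_lit 372) (nat_lit 347) (nat_lit 301)) (XT.lf (nat_lit 0) (nat_lit 4719321715) (nat_lit 152) (nat_lit 3675879286) (nat_lit 76) (nat_lit 14254029887) (nat_lit 32) (nat_lit 5) (nat_lit 34) (nat_lit 5) (nat_lit 33) (nat_lit 5) (nat_lit 373) (nat_lit 347) (nat_lit 300))))) (XT.nd (nat_lit 234) (nat_lit 304) (nat_lit 0) (XT.nd (nat_lit 78) (nat_lit 76) (nat_lit 0) (XT.lf (nat_lit 0) (nat_lit 9976143958) (nat_lit 152) (nat_lit 501854776) (nat_lit 228) (nat_lit 13333132134) (nat_lit 30) (nat_lit 5) (nat_lit 32) (nat_lit 5)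 (nat_lit 33) (nat_lit 5) (nat_lit 374) (nat_lit 347) (nat_lit 299)) (XT.nd (nat_lit 78) (nat_lit 76) (nat_lit 0) (XT.lf (nat_lit 0) (nat_lit 16962601061) (nat_lit 228) (nat_lit 377077838) (nat_lit 76) (nat_lit 7705097309) (nat_lit 30) (nat_lit 5) (nat_lit 33) (nat_lit 5) (nat_lit 31) (nat_lit 4) (nat_lit 375) (nat_lit 347) (nat_lit 298)) (XT.lf (nat_lit 0) (nat_lit 14837637797) (nat_lit 76) (nat_lit 9469661929) (nat_lit 152) (nat_lit 2042518170) (nat_lit 29) (nat_lit 5) (nat_lit 30) (nat_lit 5) (nat_lit 31) (nat_lit 4) (nat_lit 376) (nat_lit 347) (nat_lit 297)))) (XT.nd (nat_lit 78) (nat_lit 76) (nat_lit 0) (XT.lf (nat_lit 0) (nat_lit 3552962733) (nat_lit 152) (nat_lit 770938832) (nat_lit 228) (nat_lit 23421333551) (nat_lit 26) (nat_lit 5) (nat_lit 28) (nat_lit 5) (nat_lit 29) (nat_lit 5) (nat_lit 377) (nat_lit 347) (nat_lit 296)) (XT.nd (nat_lit 78) (nat_lit 76) (nat_lit 0) (XT.lf (nat_lit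 0) (nat_lit 11591756374) (nat_lit 228) (nat_lit 9067449884) (nat_lit 76) (nat_lit 8548646334) (nat_lit 26) (nat_lit 5) (nat_lit 29) (nat_lit 5) (nat_lit 27) (nat_lit 4) (nat_lit 378) (nat_lit 347) (nat_lit 295)) (XT.lf (nat_lit 0) (nat_lit 7580482835) (nat_lit 76) (nat_lit 12037087915) (nat_lit 152) (nat_lit 11155794285) (nat_lit 25) (nat_lit 5) (nat_lit 26) (nat_lit 5) (nat_lit 27) (nat_lit 4) (nat_lit 379) (nat_lit 347) (nat_lit 294))))))))
noncomputable def xc115 : XT := (XT.nd (nat_lit 1638) (nat_lit 532) (nat_lit 0) (XT.nd (nat_lit 780) (nat_lit 608) (nat_lit 0) (XT.nd (nat_lit 390) (nat_lit 304) (nat_lit 0) (XT.nd (nat_lit 156) (nat_lit 76) (nat_lit 0) (XT.nd (nat_lit 78) (nat_lit 152) (nat_lit 0) (XT.lf (nat_lit 0) (nat_lit 26031032451) (nat_lit 76) (nat_lit 2477365744) (nat_lit 152) (nat_lit 3937891916) (nat_lit 25) (nat_lit 5) (nat_lit 26) (nat_lit 5) (nat_lit 27) (nat_lit 4)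 (nat_lit 380) (nat_lit 347) (nat_lit 293)) (XT.lf (nat_lit 0) (nat_lit 4131915450) (nat_lit 152) (nat_lit 22244197934) (nat_lit 76) (nat_lit 7832125468) (nat_lit 23) (nat_lit 5) (nat_lit 25) (nat_lit 5) (nat_lit 24) (nat_lit 4) (nat_lit 381) (nat_lit 347) (nat_lit 292))) (XT.nd (nat_lit 78) (nat_lit 76) (nat_lit 0) (XT.lf (nat_lit 0) (nat_lit 12855439710) (nat_lit 152) (nat_lit 4132903309) (nat_lit 76) (nat_lit 19096953308) (nat_lit 23) (nat_lit 5) (nat_lit 25) (nat_lit 5) (nat_lit 24) (nat_lit 4) (nat_lit 382) (nat_lit 347) (nat_lit 291)) (XT.nd (nat_lit 78) (nat_lit 0) (nat_lit 0) (XT.lf (nat_lit 0) (nat_lit 16197629898) (nat_lit 76) (nat_lit 6447077842) (nat_lit 152) (nat_lit 15438387205) (nat_lit 22) (nat_lit 5) (nat_lit 23) (nat_lit 5) (nat_lit 24) (nat_lit 4) (nat_lit 383) (nat_lit 347) (nat_lit 290)) (XT.lf (nat_lit 0) (nat_lit 33430348400) (nat_lit 152) (nat_lit 2003892713) (nat_lit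 0) (nat_lit 4789422927) (nat_lit 22) (nat_lit 5) (nat_lit 24) (nat_lit 4) (nat_lit 22) (nat_lit 4) (nat_lit 384) (nat_lit 347) (nat_lit 289))))) (XT.nd (nat_lit 156) (nat_lit 152) (nat_lit 0) (XT.nd (nat_lit 78) (nat_lit 0) (nat_lit 0) (XT.lf (nat_lit 0) (nat_lit 3067907383) (nat_lit 152) (nat_lit 22284401459) (nat_lit 76) (nat_lit 17126138745) (nat_lit 20) (nat_lit 5) (nat_lit 22) (nat_lit 5) (nat_lit 21) (nat_lit 4) (nat_lit 385) (nat_lit 347) (nat_lit 288)) (XT.lf (nat_lit 0) (nat_lit 13387458019) (nat_lit 152) (nat_lit 842628121) (nat_lit 76) (nat_lit 30666500112) (nat_lit 20) (nat_lit 5) (nat_lit 22) (nat_lit 5) (nat_lit 21) (nat_lit 4) (nat_lit 386) (nat_lit 347) (nat_lit 287))) (XT.nd (nat_lit 78) (nat_lit 76) (nat_lit 0) (XT.lf (nat_lit 0) (nat_lit 23453165070) (nat_lit 76) (nat_lit 1625153273) (nat_lit 152) (nat_lit 22386201753) (nat_lit 19) (nat_lit 5) (nat_lit 20) (nat_lit 5)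 (nat_lit 21) (nat_lit 4) (nat_lit 387) (nat_lit 347) (nat_lit 286)) (XT.nd (nat_lit 78) (nat_lit 76) (nat_lit 0) (XT.lf (nat_lit 0) (nat_lit 37998260556) (nat_lit 152) (nat_lit 819128242) (nat_lit 0) (nat_lit 11396998265) (nat_lit 19) (nat_lit 5) (nat_lit 21) (nat_lit 4) (nat_lit 19) (nat_lit 4) (nat_lit 388) (nat_lit 347) (nat_lit 285)) (XT.lf (nat_lit 0) (nat_lit 25426038381) (nat_lit 76) (nat_lit 27162671910) (nat_lit 76) (nat_lit 544583327) (nat_lit 18) (nat_lit 4) (nat_lit 19) (nat_lit 5) (nat_lit 19) (nat_lit 4) (nat_lit 389) (nat_lit 347) (nat_lit 284)))))) (XT.nd (nat_lit 390) (nat_lit 304) (nat_lit 0) (XT.nd (nat_lit 156) (nat_lit 152) (nat_lit 0) (XT.nd (nat_lit 78) (nat_lit 76) (nat_lit 0) (XT.lf (nat_lit 0) (nat_lit 11463605207) (nat_lit 152) (nat_lit 2789369651) (nat_lit 76) (nat_lit 42009036117) (nat_lit 17) (nat_lit 5) (nat_lit 19) (nat_lit 5) (nat_lit 18) (nat_lit 4) (nat_lit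 390) (nat_lit 347) (nat_lit 283)) (XT.lf (nat_lit 0) (nat_lit 25005491734) (nat_lit 152) (nat_lit 34254877436) (nat_lit 0) (nat_lit 331330328) (nat_lit 16) (nat_lit 5) (nat_lit 18) (nat_lit 4) (nat_lit 16) (nat_lit 4) (nat_lit 391) (nat_lit 347) (nat_lit 282))) (XT.nd (nat_lit 78) (nat_lit 152) (nat_lit 0) (XT.lf (nat_lit 0) (nat_lit 40063802152) (nat_lit 152) (nat_lit 7712044550) (nat_lit 0) (nat_lit 15377272918) (nat_lit 16) (nat_lit 5) (nat_lit 18) (nat_lit 4) (nat_lit 16) (nat_lit 4) (nat_lit 392) (nat_lit 347) (nat_lit 281)) (XT.nd (nat_lit 78) (nat_lit 76) (nat_lit 0) (XT.lf (nat_lit 0) (nat_lit 22028447000) (nat_lit 76) (nat_lit 34813873024) (nat_lit 76) (nat_lit 10115892098) (nat_lit 15) (nat_lit 4) (nat_lit 16) (nat_lit 5) (nat_lit 16) (nat_lit 4) (nat_lit 393) (nat_lit 347) (nat_lit 280)) (XT.lf (nat_lit 0) (nat_lit 3902682925) (nat_lit 152) (nat_lit 16591003859) (nat_lit 76)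 (nat_lit 50550361163) (nat_lit 14) (nat_lit 5) (nat_lit 16) (nat_lit 5) (nat_lit 15) (nat_lit 4) (nat_lit 394) (nat_lit 347) (nat_lit 279))))) (XT.nd (nat_lit 234) (nat_lit 152) (nat_lit 0) (XT.nd (nat_lit 78) (nat_lit 76) (nat_lit 0) (XT.lf (nat_lit 0) (nat_lit 14449204625) (nat_lit 76) (nat_lit 4381375638) (nat_lit 152) (nat_lit 56578403491) (nat_lit 13) (nat_lit 5) (nat_lit 14) (nat_lit 5) (nat_lit 15) (nat_lit 4) (nat_lit 395) (nat_lit 347) (nat_lit 278)) (XT.nd (nat_lit 78) (nat_lit 76) (nat_lit 0) (XT.lf (nat_lit 0) (nat_lit 35718177958) (nat_lit 152) (nat_lit 31521349524) (nat_lit 0) (nat_lit 12822351062) (nat_lit 13) (nat_lit 5) (nat_lit 15) (nat_lit 4) (nat_lit 13) (nat_lit 4) (nat_lit 396) (nat_lit 347) (nat_lit 277)) (XT.lf (nat_lit 0) (nat_lit 141555669) (nat_lit 76) (nat_lit 53920331577) (nat_lit 76) (nat_lit 31016710852) (nat_lit 12) (nat_lit 4) (nat_lit 13) (nat_lit 5) (nat_lit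 13) (nat_lit 4) (nat_lit 397) (nat_lit 347) (nat_lit 276)))) (XT.nd (nat_lit 78) (nat_lit 152) (nat_lit 0) (XT.lf (nat_lit 0) (nat_lit 36106866861) (nat_lit 76) (nat_lit 38616310133) (nat_lit 76) (nat_lit 15705472899) (nat_lit 12) (nat_lit 4) (nat_lit 13) (nat_lit 5) (nat_lit 13) (nat_lit 4) (nat_lit 398) (nat_lit 347) (nat_lit 275)) (XT.nd (nat_lit 78) (nat_lit 76) (nat_lit 0) (XT.lf (nat_lit 0) (nat_lit 777932432) (nat_lit 152) (nat_lit 21299419725) (nat_lit 76) (nat_lit 74128650931) (nat_lit 11) (nat_lit 5) (nat_lit 13) (nat_lit 5) (nat_lit 12) (nat_lit 4) (nat_lit 399) (nat_lit 347) (nat_lit 274)) (XT.lf (nat_lit 0) (nat_lit 14670159690) (nat_lit 76) (nat_lit 3403814285) (nat_lit 152) (nat_lit 84311539525) (nat_lit 10) (nat_lit 5) (nat_lit 11) (nat_lit 5) (nat_lit 12) (nat_lit 4) (nat_lit 400) (nat_lit 347) (nat_lit 273))))))) (XT.nd (nat_lit 780) (nat_lit 228) (nat_lit 0) (XT.nd (nat_lit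 390) (nat_lit 228) (nat_lit 0) (XT.nd (nat_lit 156) (nat_lit 76) (nat_lit 0) (XT.nd (nat_lit 78) (nat_lit 0) (nat_lit 0) (XT.lf (nat_lit 0) (nat_lit 37744051445) (nat_lit 152) (nat_lit 54723012874) (nat_lit 0) (nat_lit 16513093227) (nat_lit 10) (nat_lit 5) (nat_lit 12) (nat_lit 4) (nat_lit 10) (nat_lit 4) (nat_lit 401) (nat_lit 347) (nat_lit 272)) (XT.lf (nat_lit 0) (nat_lit 59066606287) (nat_lit 152) (nat_lit 19198721436) (nat_lit 0) (nat_lit 37830736634) (nat_lit 10) (nat_lit 5) (nat_lit 12) (nat_lit 4) (nat_lit 10) (nat_lit 4) (nat_lit 402) (nat_lit 347) (nat_lit 271))) (XT.nd (nat_lit 78) (nat_lit 0) (nat_lit 0) (XT.lf (nat_lit 0) (nat_lit 20158296259) (nat_lit 76) (nat_lit 62412643816) (nat_lit 76) (nat_lit 41172226539) (nat_lit 9) (nat_lit 4) (nat_lit 10) (nat_lit 5) (nat_lit 10) (nat_lit 4) (nat_lit 403) (nat_lit 347) (nat_lit 270)) (XT.nd (nat_lit 78) (nat_lit 0) (nat_lit 0) (XT.lf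 (nat_lit 0) (nat_lit 63738552983) (nat_lit 76) (nat_lit 44733403037) (nat_lit 76) (nat_lit 23488774996) (nat_lit 9) (nat_lit 4) (nat_lit 10) (nat_lit 5) (nat_lit 10) (nat_lit 4) (nat_lit 404) (nat_lit 347) (nat_lit 269)) (XT.lf (nat_lit 0) (nat_lit 110789331462) (nat_lit 76) (nat_lit 25647766581) (nat_lit 76) (nat_lit 4399239685) (nat_lit 9) (nat_lit 4) (nat_lit 10) (nat_lit 5) (nat_lit 10) (nat_lit 4) (nat_lit 405) (nat_lit 347) (nat_lit 268))))) (XT.nd (nat_lit 156) (nat_lit 76) (nat_lit 0) (XT.nd (nat_lit 78) (nat_lit 0) (nat_lit 0) (XT.lf (nat_lit 0) (nat_lit 11344528517) (nat_lit 76) (nat_lit 4326945263) (nat_lit 152) (nat_lit 134698095150) (nat_lit 7) (nat_lit 5) (nat_lit 8) (nat_lit 5) (nat_lit 9) (nat_lit 4) (nat_lit 406) (nat_lit 347) (nat_lit 267)) (XT.lf (nat_lit 0) (nat_lit 38395242529) (nat_lit 152) (nat_lit 103444026787) (nat_lit 0) (nat_lit 18714242912) (nat_lit 7) (nat_lit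 5) (nat_lit 9) (nat_lit 4) (nat_lit 7) (nat_lit 4) (nat_lit 407) (nat_lit 347) (nat_lit 266))) (XT.nd (nat_lit 78) (nat_lit 76) (nat_lit 0) (XT.lf (nat_lit 0) (nat_lit 63042328674) (nat_lit 152) (nat_lit 65142946307) (nat_lit 0) (nat_lit 43358463282) (nat_lit 7) (nat_lit 5) (nat_lit 9) (nat_lit 4) (nat_lit 7) (nat_lit 4) (nat_lit 408) (nat_lit 347) (nat_lit 265)) (XT.nd (nat_lit 78) (nat_lit 76) (nat_lit 0) (XT.lf (nat_lit 0) (nat_lit 89654725885) (nat_lit 152) (nat_lit 23790766468) (nat_lit 0) (nat_lit 69968206998) (nat_lit 7) (nat_lit 5) (nat_lit 9) (nat_lit 4) (nat_lit 7) (nat_lit 4) (nat_lit 409) (nat_lit 347) (nat_lit 264)) (XT.lf (nat_lit 0) (nat_lit 21955884969) (nat_lit 76) (nat_lit 96962291849) (nat_lit 76) (nat_lit 77273316021) (nat_lit 6) (nat_lit 4) (nat_lit 7) (nat_lit 5) (nat_lit 7) (nat_lit 4) (nat_lit 410) (nat_lit 347) (nat_lit 263)))))) (XT.nd (nat_lit 390) (nat_lit 76)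 (nat_lit 0) (XT.nd (nat_lit 156) (nat_lit 152) (nat_lit 0) (XT.nd (nat_lit 78) (nat_lit 0) (nat_lit 0) (XT.lf (nat_lit 0) (nat_lit 72703549849) (nat_lit 76) (nat_lit 78463818981) (nat_lit 76) (nat_lit 58772568209) (nat_lit 6) (nat_lit 4) (nat_lit 7) (nat_lit 5) (nat_lit 7) (nat_lit 4) (nat_lit 411) (nat_lit 347) (nat_lit 262)) (XT.lf (nat_lit 0) (nat_lit 127500175472) (nat_lit 76) (nat_lit 58490934886) (nat_lit 76) (nat_lit 38797577684) (nat_lit 6) (nat_lit 4) (nat_lit 7) (nat_lit 5) (nat_lit 7) (nat_lit 4) (nat_lit 412) (nat_lit 347) (nat_lit 261))) (XT.nd (nat_lit 78) (nat_lit 152) (nat_lit 0) (XT.lf (nat_lit 0) (nat_lit 186670482583) (nat_lit 76) (nat_lit 36925281733) (nat_lit 76) (nat_lit 17229974133) (nat_lit 6) (nat_lit 4) (nat_lit 7) (nat_lit 5) (nat_lit 7) (nat_lit 4) (nat_lit 413) (nat_lit 347) (nat_lit 260)) (XT.nd (nat_lit 78) (nat_lit 76) (nat_lit 0) (XT.lf (nat_lit 0) (nat_lit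 5755002245) (nat_lit 152) (nat_lit 7726708853) (nat_lit 76) (nat_lit 244652755833) (nat_lit 5) (nat_lit 5) (nat_lit 7) (nat_lit 5) (nat_lit 6) (nat_lit 4) (nat_lit 414) (nat_lit 347) (nat_lit 259)) (XT.lf (nat_lit 0) (nat_lit 31029592653) (nat_lit 152) (nat_lit 232861987941) (nat_lit 0) (nat_lit 12789976286) (nat_lit 4) (nat_lit 5) (nat_lit 6) (nat_lit 4) (nat_lit 4) (nat_lit 4) (nat_lit 415) (nat_lit 347) (nat_lit 258))))) (XT.nd (nat_lit 234) (nat_lit 76) (nat_lit 0) (XT.nd (nat_lit 78) (nat_lit 0) (nat_lit 0) (XT.lf (nat_lit 0) (nat_lit 58888699921) (nat_lit 152) (nat_lit 197131060452) (nat_lit 0) (nat_lit 40647649952) (nat_lit 4) (nat_lit 5) (nat_lit 6) (nat_lit 4) (nat_lit 4) (nat_lit 4) (nat_lit 416) (nat_lit 347) (nat_lit 257)) (XT.nd (nat_lit 78) (nat_lit 0) (nat_lit 0) (XT.lf (nat_lit 0) (nat_lit 88972485842) (nat_lit 152) (nat_lit 158549861986) (nat_lit 0) (nat_lit 70730108466)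 (nat_lit 4) (nat_lit 5) (nat_lit 6) (nat_lit 4) (nat_lit 4) (nat_lit 4) (nat_lit 417) (nat_lit 347) (nat_lit 256)) (XT.lf (nat_lit 0) (nat_lit 121459224704) (nat_lit 152) (nat_lit 116889763218) (nat_lit 0) (nat_lit 103215618246) (nat_lit 4) (nat_lit 5) (nat_lit 6) (nat_lit 4) (nat_lit 4) (nat_lit 4) (nat_lit 418) (nat_lit 347) (nat_lit 255)))) (XT.nd (nat_lit 78) (nat_lit 76) (nat_lit 0) (XT.lf (nat_lit 0) (nat_lit 156541430515) (nat_lit 152) (nat_lit 71903889490) (nat_lit 0) (nat_lit 138296686018) (nat_lit 4) (nat_lit 5) (nat_lit 6) (nat_lit 4) (nat_lit 4) (nat_lit 4) (nat_lit 419) (nat_lit 347) (nat_lit 254)) (XT.nd (nat_lit 78) (nat_lit 76) (nat_lit 0) (XT.lf (nat_lit 0) (nat_lit 194426997827) (nat_lit 152) (nat_lit 23325657845) (nat_lit 0) (nat_lit 176181199591) (nat_lit 4) (nat_lit 5) (nat_lit 6) (nat_lit 4) (nat_lit 4) (nat_lit 4) (nat_lit 420) (nat_lit 347) (nat_lit 253)) (XT.lf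 (nat_lit 0) (nat_lit 30666884481) (nat_lit 76) (nat_lit 205411088534) (nat_lit 76) (nat_lit 187164314614) (nat_lit 3) (nat_lit 4) (nat_lit 4) (nat_lit 5) (nat_lit 4) (nat_lit 4) (nat_lit 421) (nat_lit 347) (nat_lit 252))))))))
noncomputable def xc116 : XT := (XT.nd (nat_lit 1560) (nat_lit 0) (nat_lit 0) (XT.nd (nat_lit 780) (nat_lit 0) (nat_lit 0) (XT.nd (nat_lit 390) (nat_lit 152) (nat_lit 0) (XT.nd (nat_lit 156) (nat_lit 0) (nat_lit 0) (XT.nd (nat_lit 78) (nat_lit 0) (nat_lit 0) (XT.lf (nat_lit 0) (nat_lit 90299504059) (nat_lit 76) (nat_lit 191396389328) (nat_lit 76) (nat_lit 173148711995) (nat_lit 3) (nat_lit 4) (nat_lit 4) (nat_lit 5) (nat_lit 4) (nat_lit 4) (nat_lit 422) (nat_lit 347) (nat_lit 251)) (XT.lf (nat_lit 0) (nat_lit 154697291570) (nat_lit 76) (nat_lit 176263272806) (nat_lit 76) (nat_lit 158014758981) (nat_lit 3) (nat_lit 4) (nat_lit 4) (nat_lit 5) (nat_lit 4) (nat_lit 4)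 (nat_lit 423) (nat_lit 347) (nat_lit 250))) (XT.nd (nat_lit 78) (nat_lit 0) (nat_lit 0) (XT.lf (nat_lit 0) (nat_lit 224241863532) (nat_lit 76) (nat_lit 159922061240) (nat_lit 76) (nat_lit 141672772885) (nat_lit 3) (nat_lit 4) (nat_lit 4) (nat_lit 5) (nat_lit 4) (nat_lit 4) (nat_lit 424) (nat_lit 347) (nat_lit 249)) (XT.nd (nat_lit 78) (nat_lit 0) (nat_lit 0) (XT.lf (nat_lit 0) (nat_lit 299345335927) (nat_lit 76) (nat_lit 142275917822) (nat_lit 76) (nat_lit 124025912310) (nat_lit 3) (nat_lit 4) (nat_lit 4) (nat_lit 5) (nat_lit 4) (nat_lit 4) (nat_lit 425) (nat_lit 347) (nat_lit 248)) (XT.lf (nat_lit 0) (nat_lit 380452766369) (nat_lit 76) (nat_lit 123220272813) (nat_lit 76) (nat_lit 104969603266) (nat_lit 3) (nat_lit 4) (nat_lit 4) (nat_lit 5) (nat_lit 4) (nat_lit 4) (nat_lit 426) (nat_lit 347) (nat_lit 247))))) (XT.nd (nat_lit 156) (nat_lit 152) (nat_lit 0) (XT.nd (nat_lit 78) (nat_lit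 0) (nat_lit 0) (XT.lf (nat_lit 0) (nat_lit 468044791484) (nat_lit 76) (nat_lit 102642203872) (nat_lit 76) (nat_lit 84390919478) (nat_lit 3) (nat_lit 4) (nat_lit 4) (nat_lit 5) (nat_lit 4) (nat_lit 4) (nat_lit 427) (nat_lit 347) (nat_lit 246)) (XT.lf (nat_lit 0) (nat_lit 562640475123) (nat_lit 76) (nat_lit 80419766887) (nat_lit 76) (nat_lit 62167913190) (nat_lit 3) (nat_lit 4) (nat_lit 4) (nat_lit 5) (nat_lit 4) (nat_lit 4) (nat_lit 428) (nat_lit 347) (nat_lit 245))) (XT.nd (nat_lit 78) (nat_lit 152) (nat_lit 0) (XT.lf (nat_lit 0) (nat_lit 664800384301) (nat_lit 76) (nat_lit 56421273342) (nat_lit 76) (nat_lit 38168892513) (nat_lit 3) (nat_lit 4) (nat_lit 4) (nat_lit 5) (nat_lit 4) (nat_lit 4) (nat_lit 429) (nat_lit 347) (nat_lit 244)) (XT.nd (nat_lit 78) (nat_lit 152) (nat_lit 0) (XT.lf (nat_lit 0) (nat_lit 775129911072) (nat_lit 76) (nat_lit 30504509942) (nat_lit 76) (nat_lit 12251641028)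 (nat_lit 3) (nat_lit 4) (nat_lit 4) (nat_lit 5) (nat_lit 4) (nat_lit 4) (nat_lit 430) (nat_lit 347) (nat_lit 243)) (XT.lf (nat_lit 0) (nat_lit 13519335580) (nat_lit 76) (nat_lit 1755980008) (nat_lit 152) (nat_lit 865729725276) (nat_lit 1) (nat_lit 5) (nat_lit 2) (nat_lit 5) (nat_lit 3) (nat_lit 4) (nat_lit 431) (nat_lit 347) (nat_lit 242)))))) (XT.nd (nat_lit 390) (nat_lit 0) (nat_lit 0) (XT.nd (nat_lit 156) (nat_lit 0) (nat_lit 0) (XT.nd (nat_lit 78) (nat_lit 0) (nat_lit 0) (XT.lf (nat_lit 0) (nat_lit 46244915125) (nat_lit 152) (nat_lit 873407668864) (nat_lit 0) (nat_lit 29343304663) (nat_lit 1) (nat_lit 5) (nat_lit 3) (nat_lit 4) (nat_lit 1) (nat_lit 4) (nat_lit 432) (nat_lit 347) (nat_lit 241)) (XT.lf (nat_lit 0) (nat_lit 79736318609) (nat_lit 152) (nat_lit 879851797455) (nat_lit 0) (nat_lit 62834349390) (nat_lit 1) (nat_lit 5) (nat_lit 3) (nat_lit 4) (nat_lit 1) (nat_lit 4) (nat_lit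 433) (nat_lit 347) (nat_lit 240))) (XT.nd (nat_lit 78) (nat_lit 0) (nat_lit 0) (XT.lf (nat_lit 0) (nat_lit 115905762254) (nat_lit 152) (nat_lit 886814047126) (nat_lit 0) (nat_lit 99003460852) (nat_lit 1) (nat_lit 5) (nat_lit 3) (nat_lit 4) (nat_lit 1) (nat_lit 4) (nat_lit 434) (nat_lit 347) (nat_lit 239)) (XT.nd (nat_lit 78) (nat_lit 0) (nat_lit 0) (XT.lf (nat_lit 0) (nat_lit 154967583505) (nat_lit 152) (nat_lit 894335675651) (nat_lit 0) (nat_lit 138064974526) (nat_lit 1) (nat_lit 5) (nat_lit 3) (nat_lit 4) (nat_lit 1) (nat_lit 4) (nat_lit 435) (nat_lit 347) (nat_lit 238)) (XT.lf (nat_lit 0) (nat_lit 197153259820) (nat_lit 152) (nat_lit 902461255645) (nat_lit 0) (nat_lit 180250366048) (nat_lit 1) (nat_lit 5) (nat_lit 3) (nat_lit 4) (nat_lit 1) (nat_lit 4) (nat_lit 436) (nat_lit 347) (nat_lit 237))))) (XT.nd (nat_lit 156) (nat_lit 0) (nat_lit 0) (XT.nd (nat_lit 78) (nat_lit 0) (nat_lit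 0) (XT.lf (nat_lit 0) (nat_lit 242712780392) (nat_lit 152) (nat_lit 911238938693) (nat_lit 0) (nat_lit 225809622923) (nat_lit 1) (nat_lit 5) (nat_lit 3) (nat_lit 4) (nat_lit 1) (nat_lit 4) (nat_lit 437) (nat_lit 347) (nat_lit 236)) (XT.lf (nat_lit 0) (nat_lit 291916127566) (nat_lit 152) (nat_lit 920720740693) (nat_lit 0) (nat_lit 275012725933) (nat_lit 1) (nat_lit 5) (nat_lit 3) (nat_lit 4) (nat_lit 1) (nat_lit 4) (nat_lit 438) (nat_lit 347) (nat_lit 235))) (XT.nd (nat_lit 78) (nat_lit 0) (nat_lit 0) (XT.lf (nat_lit 0) (nat_lit 345054876733) (nat_lit 152) (nat_lit 930962850104) (nat_lit 0) (nat_lit 328151249022) (nat_lit 1) (nat_lit 5) (nat_lit 3) (nat_lit 4) (nat_lit 1) (nat_lit 4) (nat_lit 439) (nat_lit 347) (nat_lit 234)) (XT.nd (nat_lit 78) (nat_lit 0) (nat_lit 0) (XT.lf (nat_lit 0) (nat_lit 402443924183) (nat_lit 152) (nat_lit 942025960905) (nat_lit 0) (nat_lit 385540087141) (nat_lit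 1) (nat_lit 5) (nat_lit 3) (nat_lit 4) (nat_lit 1) (nat_lit 4) (nat_lit 440) (nat_lit 347) (nat_lit 233)) (XT.lf (nat_lit 0) (nat_lit 464423353161) (nat_lit 152) (nat_lit 953975632273) (nat_lit 0) (nat_lit 447519322294) (nat_lit 1) (nat_lit 5) (nat_lit 3) (nat_lit 4) (nat_lit 1) (nat_lit 4) (nat_lit 441) (nat_lit 347) (nat_lit 232))))))) (XT.nd (nat_lit 780) (nat_lit 0) (nat_lit 0) (XT.nd (nat_lit 390) (nat_lit 0) (nat_lit 0) (XT.nd (nat_lit 156) (nat_lit 0) (nat_lit 0) (XT.nd (nat_lit 78) (nat_lit 0) (nat_lit 0) (XT.lf (nat_lit 0) (nat_lit 531360449172) (nat_lit 152) (nat_lit 966882677074) (nat_lit 0) (nat_lit 514456238837) (nat_lit 1) (nat_lit 5) (nat_lit 3) (nat_lit 4) (nat_lit 1) (nat_lit 4) (nat_lit 442) (nat_lit 347) (nat_lit 231)) (XT.lf (nat_lit 0) (nat_lit 603651876489) (nat_lit 152) (nat_lit 980823581500) (nat_lit 0) (nat_lit 586747499979) (nat_lit 1) (nat_lit 5) (nat_lit 3)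 (nat_lit 4) (nat_lit 1) (nat_lit 4) (nat_lit 443) (nat_lit 347) (nat_lit 230))) (XT.nd (nat_lit 78) (nat_lit 0) (nat_lit 0) (XT.lf (nat_lit 0) (nat_lit 681726028754) (nat_lit 152) (nat_lit 995880958318) (nat_lit 0) (nat_lit 664821498380) (nat_lit 1) (nat_lit 5) (nat_lit 3) (nat_lit 4) (nat_lit 1) (nat_lit 4) (nat_lit 444) (nat_lit 347) (nat_lit 229)) (XT.nd (nat_lit 78) (nat_lit 0) (nat_lit 0) (XT.lf (nat_lit 0) (nat_lit 766045567611) (nat_lit 152) (nat_lit 1012144036429) (nat_lit 0) (nat_lit 749140894770) (nat_lit 1) (nat_lit 5) (nat_lit 3) (nat_lit 4) (nat_lit 1) (nat_lit 4) (nat_lit 445) (nat_lit 347) (nat_lit 228)) (XT.lf (nat_lit 0) (nat_lit 857110164402) (nat_lit 152) (nat_lit 1029709189626) (nat_lit 0) (nat_lit 840205359646) (nat_lit 1) (nat_lit 5) (nat_lit 3) (nat_lit 4) (nat_lit 1) (nat_lit 4) (nat_lit 446) (nat_lit 347) (nat_lit 227))))) (XT.nd (nat_lit 156) (nat_lit 0) (nat_lit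 0) (XT.nd (nat_lit 78) (nat_lit 0) (nat_lit 0) (XT.lf (nat_lit 0) (nat_lit 955459461181) (nat_lit 152) (nat_lit 1048680507709) (nat_lit 0) (nat_lit 938554534282) (nat_lit 1) (nat_lit 5) (nat_lit 3) (nat_lit 4) (nat_lit 1) (nat_lit 4) (nat_lit 447) (nat_lit 347) (nat_lit 226)) (XT.lf (nat_lit 0) (nat_lit 1061676268596) (nat_lit 152) (nat_lit 1069170413302) (nat_lit 0) (nat_lit 1044771228602) (nat_lit 1) (nat_lit 5) (nat_lit 3) (nat_lit 4) (nat_lit 1) (nat_lit 4) (nat_lit 448) (nat_lit 347) (nat_lit 225))) (XT.nd (nat_lit 78) (nat_lit 0) (nat_lit 0) (XT.lf (nat_lit 0) (nat_lit 1176390019580) (nat_lit 152) (nat_lit 1091300328068) (nat_lit 0) (nat_lit 1159484874868) (nat_lit 1) (nat_lit 5) (nat_lit 3) (nat_lit 4) (nat_lit 1) (nat_lit 4) (nat_lit 449) (nat_lit 347) (nat_lit 224)) (XT.nd (nat_lit 78) (nat_lit 0) (nat_lit 0) (XT.lf (nat_lit 0) (nat_lit 1300280499324) (nat_lit 152) (nat_lit 1115201392242)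 (nat_lit 0) (nat_lit 1283375257651) (nat_lit 1) (nat_lit 5) (nat_lit 3) (nat_lit 4) (nat_lit 1) (nat_lit 4) (nat_lit 450) (nat_lit 347) (nat_lit 223)) (XT.lf (nat_lit 0) (nat_lit 1434081873633) (nat_lit 152) (nat_lit 1141015241761) (nat_lit 0) (nat_lit 1417176542182) (nat_lit 1) (nat_lit 5) (nat_lit 3) (nat_lit 4) (nat_lit 1) (nat_lit 4) (nat_lit 451) (nat_lit 347) (nat_lit 222)))))) (XT.nd (nat_lit 390) (nat_lit 0) (nat_lit 0) (XT.nd (nat_lit 156) (nat_lit 0) (nat_lit 0) (XT.nd (nat_lit 78) (nat_lit 0) (nat_lit 0) (XT.lf (nat_lit 0) (nat_lit 1578587039542) (nat_lit 152) (nat_lit 1168894847585) (nat_lit 0) (nat_lit 1561681624962) (nat_lit 1) (nat_lit 5) (nat_lit 3) (nat_lit 4) (nat_lit 1) (nat_lit 4) (nat_lit 452) (nat_lit 347) (nat_lit 221)) (XT.lf (nat_lit 0) (nat_lit 1734652323957) (nat_lit 152) (nat_lit 1199005422193) (nat_lit 0) (nat_lit 1717746832407) (nat_lit 1) (nat_lit 5) (nat_lit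 3) (nat_lit 4) (nat_lit 1) (nat_lit 4) (nat_lit 453) (nat_lit 347) (nat_lit 220))) (XT.nd (nat_lit 78) (nat_lit 0) (nat_lit 0) (XT.lf (nat_lit 0) (nat_lit 1903202558196) (nat_lit 152) (nat_lit 1231525398619) (nat_lit 0) (nat_lit 1886296995376) (nat_lit 1) (nat_lit 5) (nat_lit 3) (nat_lit 4) (nat_lit 1) (nat_lit 4) (nat_lit 454) (nat_lit 347) (nat_lit 219)) (XT.nd (nat_lit 78) (nat_lit 0) (nat_lit 0) (XT.lf (nat_lit 0) (nat_lit 2085236558460) (nat_lit 152) (nat_lit 1266647487834) (nat_lit 0) (nat_lit 2068330929651) (nat_lit 1) (nat_lit 5) (nat_lit 3) (nat_lit 4) (nat_lit 1) (nat_lit 4) (nat_lit 455) (nat_lit 347) (nat_lit 218)) (XT.lf (nat_lit 0) (nat_lit 2281833044752) (nat_lit 152) (nat_lit 1304579820738) (nat_lit 0) (nat_lit 2264927354840) (nat_lit 1) (nat_lit 5) (nat_lit 3) (nat_lit 4) (nat_lit 1) (nat_lit 4) (nat_lit 456) (nat_lit 347) (nat_lit 217))))) (XT.nd (nat_lit 234) (nat_lit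 0) (nat_lit 0) (XT.nd (nat_lit 78) (nat_lit 0) (nat_lit 0) (XT.lf (nat_lit 0) (nat_lit 2494157033286) (nat_lit 152) (nat_lit 1345547181527) (nat_lit 0) (nat_lit 2477251286798) (nat_lit 1) (nat_lit 5) (nat_lit 3) (nat_lit 4) (nat_lit 1) (nat_lit 4) (nat_lit 457) (nat_lit 347) (nat_lit 216)) (XT.nd (nat_lit 78) (nat_lit 0) (nat_lit 0) (XT.lf (nat_lit 0) (nat_lit 2723466740291) (nat_lit 152) (nat_lit 1389792339744) (nat_lit 0) (nat_lit 2706560941418) (nat_lit 1) (nat_lit 5) (nat_lit 3) (nat_lit 4) (nat_lit 1) (nat_lit 4) (nat_lit 458) (nat_lit 347) (nat_lit 215)) (XT.lf (nat_lit 0) (nat_lit 2971121038104) (nat_lit 152) (nat_lit 1437577488921) (nat_lit 0) (nat_lit 2954215190727) (nat_lit 1) (nat_lit 5) (nat_lit 3) (nat_lit 4) (nat_lit 1) (nat_lit 4) (nat_lit 459) (nat_lit 347) (nat_lit 214)))) (XT.nd (nat_lit 78) (nat_lit 0) (nat_lit 0) (XT.lf (nat_lit 0) (nat_lit 3238587507749) (nat_lit 152)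 (nat_lit 1489185800311) (nat_lit 0) (nat_lit 3221681615461) (nat_lit 1) (nat_lit 5) (nat_lit 3) (nat_lit 4) (nat_lit 1) (nat_lit 4) (nat_lit 460) (nat_lit 347) (nat_lit 213)) (XT.nd (nat_lit 78) (nat_lit 0) (nat_lit 0) (XT.lf (nat_lit 0) (nat_lit 3527451135714) (nat_lit 152) (nat_lit 1544923100946) (nat_lit 0) (nat_lit 3510545201841) (nat_lit 1) (nat_lit 5) (nat_lit 3) (nat_lit 4) (nat_lit 1) (nat_lit 4) (nat_lit 461) (nat_lit 347) (nat_lit 212)) (XT.lf (nat_lit 0) (nat_lit 3839423706461) (nat_lit 152) (nat_lit 1605119685940) (nat_lit 0) (nat_lit 3822517734082) (nat_lit 1) (nat_lit 5) (nat_lit 3) (nat_lit 4) (nat_lit 1) (nat_lit 4) (nat_lit 462) (nat_lit 347) (nat_lit 211))))))))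
noncomputable def xc117 : XT := (XT.nd (nat_lit 1560) (nat_lit 1672) (nat_lit 0) (XT.nd (nat_lit 780) (nat_lit 1140) (nat_lit 0) (XT.nd (nat_lit 390) (nat_lit 684) (nat_lit 0) (XT.nd (nat_lit 156) (nat_lit 456) (nat_lit 0) (XT.nd (nat_lit 78) (nat_lit 0) (nat_lit 0) (XT.lf (nat_lit 0) (nat_lit 1326748740) (nat_lit 0) (nat_lit 1326748740) (nat_lit 380) (nat_lit 1490825076) (nat_lit 71) (nat_lit 5) (nat_lit 71) (nat_lit 3) (nat_lit 76) (nat_lit 3) (nat_lit 348) (nat_lit 348) (nat_lit 324)) (XT.lf (nat_lit 0) (nat_lit 6580698894) (nat_lit 380) (nat_lit 1582171198) (nat_lit 456) (nat_lit 371303173) (nat_lit 71) (nat_lit 5) (nat_lit 76) (nat_lit 3) (nat_lit 77) (nat_lit 5) (nat_lit 349) (nat_lit 348) (nat_lit 323))) (XT.nd (nat_lit 78) (nat_lit 456) (nat_lit 0) (XT.lf (nat_lit 76) (nat_lit 2803964145) (nat_lit 0) (nat_lit 5184705073) (nat_lit 456) (nat_lit 808195267) (nat_lit 72) (nat_lit 5)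 (nat_lit 71) (nat_lit 5) (nat_lit 77) (nat_lit 5) (nat_lit 350) (nat_lit 348) (nat_lit 322)) (XT.nd (nat_lit 78) (nat_lit 0) (nat_lit 76) (XT.lf (nat_lit 0) (nat_lit 351259657) (nat_lit 456) (nat_lit 1523797696) (nat_lit 532) (nat_lit 7209263561) (nat_lit 65) (nat_lit 5) (nat_lit 71) (nat_lit 5) (nat_lit 72) (nat_lit 5) (nat_lit 351) (nat_lit 348) (nat_lit 321)) (XT.lf (nat_lit 0) (nat_lit 1592685022) (nat_lit 456) (nat_lit 6048278470) (nat_lit 532) (nat_lit 1749588452) (nat_lit 66) (nat_lit 5) (nat_lit 72) (nat_lit 5) (nat_lit 73) (nat_lit 5) (nat_lit 352) (nat_lit 348) (nat_lit 320))))) (XT.nd (nat_lit 156) (nat_lit 760) (nat_lit 0) (XT.nd (nat_lit 78) (nat_lit 0) (nat_lit 0) (XT.lf (nat_lit 0) (nat_lit 2938039372) (nat_lit 456) (nat_lit 1150956947) (nat_lit 532) (nat_lit 5631997108) (nat_lit 66) (nat_lit 5) (nat_lit 72) (nat_lit 5) (nat_lit 73) (nat_lit 5) (nat_lit 353) (nat_lit 348)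 (nat_lit 319)) (XT.lf (nat_lit 76) (nat_lit 4290253497) (nat_lit 0) (nat_lit 123548044) (nat_lit 532) (nat_lit 5662321482) (nat_lit 67) (nat_lit 5) (nat_lit 66) (nat_lit 5) (nat_lit 73) (nat_lit 5) (nat_lit 354) (nat_lit 348) (nat_lit 318))) (XT.nd (nat_lit 78) (nat_lit 836) (nat_lit 0) (XT.lf (nat_lit 0) (nat_lit 6064387931) (nat_lit 456) (nat_lit 393206249) (nat_lit 76) (nat_lit 3997597334) (nat_lit 67) (nat_lit 5) (nat_lit 73) (nat_lit 5) (nat_lit 68) (nat_lit 5) (nat_lit 355) (nat_lit 348) (nat_lit 317)) (XT.nd (nat_lit 78) (nat_lit 380) (nat_lit 0) (XT.lf (nat_lit 0) (nat_lit 5647746411) (nat_lit 456) (nat_lit 2268357983) (nat_lit 532) (nat_lit 2943018870) (nat_lit 61) (nat_lit 5) (nat_lit 67) (nat_lit 5) (nat_lit 68) (nat_lit 5) (nat_lit 356) (nat_lit 348) (nat_lit 316)) (XT.lf (nat_lit 0) (nat_lit 819964212) (nat_lit 380) (nat_lit 9114894827) (nat_lit 456) (nat_lit 1359058106) (nat_lit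 56) (nat_lit 5) (nat_lit 61) (nat_lit 5) (nat_lit 62) (nat_lit 5) (nat_lit 357) (nat_lit 348) (nat_lit 315)))))) (XT.nd (nat_lit 390) (nat_lit 608) (nat_lit 0) (XT.nd (nat_lit 156) (nat_lit 228) (nat_lit 0) (XT.nd (nat_lit 78) (nat_lit 228) (nat_lit 0) (XT.lf (nat_lit 0) (nat_lit 474689837) (nat_lit 456) (nat_lit 4261093374) (nat_lit 76) (nat_lit 7015833176) (nat_lit 55) (nat_lit 5) (nat_lit 61) (nat_lit 5) (nat_lit 56) (nat_lit 5) (nat_lit 358) (nat_lit 348) (nat_lit 314)) (XT.lf (nat_lit 0) (nat_lit 2383772103) (nat_lit 304) (nat_lit 9771197669) (nat_lit 76) (nat_lit 88020426) (nat_lit 52) (nat_lit 5) (nat_lit 56) (nat_lit 5) (nat_lit 53) (nat_lit 5) (nat_lit 359) (nat_lit 348) (nat_lit 313))) (XT.nd (nat_lit 78) (nat_lit 228) (nat_lit 0) (XT.lf (nat_lit 0) (nat_lit 4631274351) (nat_lit 304) (nat_lit 2970682424) (nat_lit 76) (nat_lit 5156905518) (nat_lit 52) (nat_lit 5) (nat_lit 56)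 (nat_lit 5) (nat_lit 53) (nat_lit 5) (nat_lit 360) (nat_lit 348) (nat_lit 312)) (XT.nd (nat_lit 78) (nat_lit 0) (nat_lit 0) (XT.lf (nat_lit 0) (nat_lit 4539926830) (nat_lit 228) (nat_lit 2575200182) (nat_lit 304) (nat_lit 6196393727) (nat_lit 49) (nat_lit 5) (nat_lit 52) (nat_lit 5) (nat_lit 53) (nat_lit 5) (nat_lit 361) (nat_lit 348) (nat_lit 311)) (XT.lf (nat_lit 0) (nat_lit 9899260812) (nat_lit 304) (nat_lit 1215638448) (nat_lit 76) (nat_lit 2785404365) (nat_lit 49) (nat_lit 5) (nat_lit 53) (nat_lit 5) (nat_lit 50) (nat_lit 5) (nat_lit 362) (nat_lit 348) (nat_lit 310))))) (XT.nd (nat_lit 156) (nat_lit 152) (nat_lit 0) (XT.nd (nat_lit 78) (nat_lit 304) (nat_lit 0) (XT.lf (nat_lit 0) (nat_lit 7178353346) (nat_lit 152) (nat_lit 5920640608) (nat_lit 228) (nat_lit 1421800505) (nat_lit 47) (nat_lit 5) (nat_lit 49) (nat_lit 5) (nat_lit 50) (nat_lit 5) (nat_lit 363) (nat_lit 348) (nat_lit 309))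 (XT.lf (nat_lit 0) (nat_lit 1085789377) (nat_lit 228) (nat_lit 224218113) (nat_lit 304) (nat_lit 13877167146) (nat_lit 43) (nat_lit 5) (nat_lit 46) (nat_lit 5) (nat_lit 47) (nat_lit 5) (nat_lit 364) (nat_lit 348) (nat_lit 308))) (XT.nd (nat_lit 78) (nat_lit 152) (nat_lit 0) (XT.lf (nat_lit 0) (nat_lit 4487964962) (nat_lit 304) (nat_lit 5530939935) (nat_lit 76) (nat_lit 5860680052) (nat_lit 43) (nat_lit 5) (nat_lit 47) (nat_lit 5) (nat_lit 44) (nat_lit 5) (nat_lit 365) (nat_lit 348) (nat_lit 307)) (XT.nd (nat_lit 78) (nat_lit 0) (nat_lit 0) (XT.lf (nat_lit 0) (nat_lit 3855447358) (nat_lit 152) (nat_lit 4122409717) (nat_lit 228) (nat_lit 8644940757) (nat_lit 41) (nat_lit 5) (nat_lit 43) (nat_lit 5) (nat_lit 44) (nat_lit 5) (nat_lit 366) (nat_lit 348) (nat_lit 306)) (XT.lf (nat_lit 0) (nat_lit 11916564117) (nat_lit 228) (nat_lit 3222080457) (nat_lit 76) (nat_lit 2273276977) (nat_lit 41) (nat_lit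 5) (nat_lit 44) (nat_lit 5) (nat_lit 42) (nat_lit 5) (nat_lit 367) (nat_lit 348) (nat_lit 305))))))) (XT.nd (nat_lit 780) (nat_lit 760) (nat_lit 0) (XT.nd (nat_lit 390) (nat_lit 380) (nat_lit 0) (XT.nd (nat_lit 156) (nat_lit 304) (nat_lit 0) (XT.nd (nat_lit 78) (nat_lit 76) (nat_lit 0) (XT.lf (nat_lit 0) (nat_lit 7290679869) (nat_lit 152) (nat_lit 9125491728) (nat_lit 228) (nat_lit 1828361198) (nat_lit 39) (nat_lit 5) (nat_lit 41) (nat_lit 5) (nat_lit 42) (nat_lit 5) (nat_lit 368) (nat_lit 348) (nat_lit 304)) (XT.lf (nat_lit 0) (nat_lit 2079635801) (nat_lit 228) (nat_lit 416887662) (nat_lit 76) (nat_lit 16638802956) (nat_lit 38) (nat_lit 5) (nat_lit 41) (nat_lit 5) (nat_lit 39) (nat_lit 5) (nat_lit 369) (nat_lit 348) (nat_lit 303))) (XT.nd (nat_lit 78) (nat_lit 152) (nat_lit 0) (XT.lf (nat_lit 0) (nat_lit 6563254873) (nat_lit 228) (nat_lit 8756991439) (nat_lit 76) (nat_lit 4744414536)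 (nat_lit 36) (nat_lit 5) (nat_lit 39) (nat_lit 5) (nat_lit 37) (nat_lit 5) (nat_lit 370) (nat_lit 348) (nat_lit 302)) (XT.nd (nat_lit 78) (nat_lit 0) (nat_lit 0) (XT.lf (nat_lit 0) (nat_lit 2958099464) (nat_lit 152) (nat_lit 8562615656) (nat_lit 228) (nat_lit 9538430904) (nat_lit 34) (nat_lit 5) (nat_lit 36) (nat_lit 5) (nat_lit 37) (nat_lit 5) (nat_lit 371) (nat_lit 348) (nat_lit 301)) (XT.lf (nat_lit 0) (nat_lit 16058506363) (nat_lit 152) (nat_lit 1024376813) (nat_lit 228) (nat_lit 5033672890) (nat_lit 34) (nat_lit 5) (nat_lit 36) (nat_lit 5) (nat_lit 37) (nat_lit 5) (nat_lit 372) (nat_lit 348) (nat_lit 300))))) (XT.nd (nat_lit 156) (nat_lit 228) (nat_lit 0) (XT.nd (nat_lit 78) (nat_lit 0) (nat_lit 0) (XT.lf (nat_lit 0) (nat_lit 160094340) (nat_lit 152) (nat_lit 16154222639) (nat_lit 76) (nat_lit 6918963166) (nat_lit 32) (nat_lit 5) (nat_lit 34) (nat_lit 5) (nat_lit 33) (nat_lit 5) (nat_lit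 373) (nat_lit 348) (nat_lit 299)) (XT.lf (nat_lit 0) (nat_lit 5664848287) (nat_lit 152) (nat_lit 3024543852) (nat_lit 76) (nat_lit 15726107531) (nat_lit 32) (nat_lit 5) (nat_lit 34) (nat_lit 5) (nat_lit 33) (nat_lit 5) (nat_lit 374) (nat_lit 348) (nat_lit 298))) (XT.nd (nat_lit 78) (nat_lit 76) (nat_lit 0) (XT.lf (nat_lit 0) (nat_lit 11695706927) (nat_lit 152) (nat_lit 168601296) (nat_lit 228) (nat_lit 13807653452) (nat_lit 30) (nat_lit 5) (nat_lit 32) (nat_lit 5) (nat_lit 33) (nat_lit 5) (nat_lit 375) (nat_lit 348) (nat_lit 297)) (XT.nd (nat_lit 78) (nat_lit 0) (nat_lit 0) (XT.lf (nat_lit 0) (nat_lit 503645499) (nat_lit 76) (nat_lit 18343863291) (nat_lit 152) (nat_lit 8158419306) (nat_lit 29) (nat_lit 5) (nat_lit 30) (nat_lit 5) (nat_lit 31) (nat_lit 4) (nat_lit 376) (nat_lit 348) (nat_lit 296)) (XT.lf (nat_lit 0) (nat_lit 16887921335) (nat_lit 76) (nat_lit 9862304610) (nat_lit 152) (nat_lit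 1667526451) (nat_lit 29) (nat_lit 5) (nat_lit 30) (nat_lit 5) (nat_lit 31) (nat_lit 4) (nat_lit 377) (nat_lit 348) (nat_lit 295)))))) (XT.nd (nat_lit 390) (nat_lit 304) (nat_lit 0) (XT.nd (nat_lit 156) (nat_lit 228) (nat_lit 0) (XT.nd (nat_lit 78) (nat_lit 0) (nat_lit 0) (XT.lf (nat_lit 0) (nat_lit 4705033687) (nat_lit 152) (nat_lit 459226029) (nat_lit 228) (nat_lit 24760881163) (nat_lit 26) (nat_lit 5) (nat_lit 28) (nat_lit 5) (nat_lit 29) (nat_lit 5) (nat_lit 378) (nat_lit 348) (nat_lit 294)) (XT.lf (nat_lit 0) (nat_lit 12985232081) (nat_lit 228) (nat_lit 8960839397) (nat_lit 76) (nat_lit 9560972796) (nat_lit 26) (nat_lit 5) (nat_lit 29) (nat_lit 5) (nat_lit 27) (nat_lit 4) (nat_lit 379) (nat_lit 348) (nat_lit 293))) (XT.nd (nat_lit 78) (nat_lit 152) (nat_lit 0) (XT.lf (nat_lit 0) (nat_lit 8997864484) (nat_lit 76) (nat_lit 12640221790) (nat_lit 152) (nat_lit 11560924260) (nat_lit 25)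 (nat_lit 5) (nat_lit 26) (nat_lit 5) (nat_lit 27) (nat_lit 4) (nat_lit 380) (nat_lit 348) (nat_lit 292)) (XT.nd (nat_lit 78) (nat_lit 152) (nat_lit 0) (XT.lf (nat_lit 0) (nat_lit 28864388215) (nat_lit 76) (nat_lit 2342376153) (nat_lit 152) (nat_lit 3801688484) (nat_lit 25) (nat_lit 5) (nat_lit 26) (nat_lit 5) (nat_lit 27) (nat_lit 4) (nat_lit 381) (nat_lit 348) (nat_lit 291)) (XT.lf (nat_lit 0) (nat_lit 4885662698) (nat_lit 152) (nat_lit 23244597058) (nat_lit 76) (nat_lit 8780675582) (nat_lit 23) (nat_lit 5) (nat_lit 25) (nat_lit 5) (nat_lit 24) (nat_lit 4) (nat_lit 382) (nat_lit 348) (nat_lit 290))))) (XT.nd (nat_lit 234) (nat_lit 228) (nat_lit 0) (XT.nd (nat_lit 78) (nat_lit 76) (nat_lit 0) (XT.lf (nat_lit 0) (nat_lit 14275721195) (nat_lit 152) (nat_lit 3742112693) (nat_lit 76) (nat_lit 20922839273) (nat_lit 23) (nat_lit 5) (nat_lit 25) (nat_lit 5) (nat_lit 24) (nat_lit 4) (nat_lit 383)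 (nat_lit 348) (nat_lit 289)) (XT.nd (nat_lit 78) (nat_lit 0) (nat_lit 0) (XT.lf (nat_lit 0) (nat_lit 18196599299) (nat_lit 76) (nat_lit 6639416706) (nat_lit 152) (nat_lit 16263256182) (nat_lit 22) (nat_lit 5) (nat_lit 23) (nat_lit 5) (nat_lit 24) (nat_lit 4) (nat_lit 384) (nat_lit 348) (nat_lit 288)) (XT.lf (nat_lit 0) (nat_lit 36463581903) (nat_lit 152) (nat_lit 1492119938) (nat_lit 0) (nat_lit 5457065850) (nat_lit 22) (nat_lit 5) (nat_lit 24) (nat_lit 4) (nat_lit 22) (nat_lit 4) (nat_lit 385) (nat_lit 348) (nat_lit 287)))) (XT.nd (nat_lit 78) (nat_lit 76) (nat_lit 0) (XT.lf (nat_lit 0) (nat_lit 3670435120) (nat_lit 152) (nat_lit 23393207285) (nat_lit 76) (nat_lit 18784440487) (nat_lit 20) (nat_lit 5) (nat_lit 22) (nat_lit 5) (nat_lit 21) (nat_lit 4) (nat_lit 386) (nat_lit 348) (nat_lit 286)) (XT.nd (nat_lit 78) (nat_lit 76) (nat_lit 0) (XT.lf (nat_lit 0) (nat_lit 14789098315) (nat_lit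 152) (nat_lit 286014028) (nat_lit 76) (nat_lit 33386681827) (nat_lit 20) (nat_lit 5) (nat_lit 22) (nat_lit 5) (nat_lit 21) (nat_lit 4) (nat_lit 387) (nat_lit 348) (nat_lit 285)) (XT.lf (nat_lit 0) (nat_lit 25937644535) (nat_lit 76) (nat_lit 1467718664) (nat_lit 152) (nat_lit 23830593663) (nat_lit 19) (nat_lit 5) (nat_lit 20) (nat_lit 5) (nat_lit 21) (nat_lit 4) (nat_lit 388) (nat_lit 348) (nat_lit 284))))))))
noncomputable def xc118 : XT := (XT.nd (nat_lit 1560) (nat_lit 304) (nat_lit 0) (XT.nd (nat_lit 780) (nat_lit 380) (nat_lit 0) (XT.nd (nat_lit 390) (nat_lit 304) (nat_lit 0) (XT.nd (nat_lit 156) (nat_lit 152) (nat_lit 0) (XT.nd (nat_lit 78) (nat_lit 76) (nat_lit 0) (XT.lf (nat_lit 0) (nat_lit 41341540374) (nat_lit 152) (nat_lit 304067763) (nat_lit 0) (nat_lit 12561598510) (nat_lit 19) (nat_lit 5) (nat_lit 21) (nat_lit 4) (nat_lit 19) (nat_lit 4) (nat_lit 389) (nat_lit 348) (nat_lit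 283)) (XT.lf (nat_lit 0) (nat_lit 28026013690) (nat_lit 76) (nat_lit 29064346641) (nat_lit 76) (nat_lit 269978943) (nat_lit 18) (nat_lit 4) (nat_lit 19) (nat_lit 5) (nat_lit 19) (nat_lit 4) (nat_lit 390) (nat_lit 348) (nat_lit 282))) (XT.nd (nat_lit 78) (nat_lit 76) (nat_lit 0) (XT.lf (nat_lit 0) (nat_lit 12660559222) (nat_lit 152) (nat_lit 2473761768) (nat_lit 76) (nat_lit 45606215682) (nat_lit 17) (nat_lit 5) (nat_lit 19) (nat_lit 5) (nat_lit 18) (nat_lit 4) (nat_lit 391) (nat_lit 348) (nat_lit 281)) (XT.nd (nat_lit 78) (nat_lit 0) (nat_lit 0) (XT.lf (nat_lit 0) (nat_lit 27283788160) (nat_lit 152) (nat_lit 36454459133) (nat_lit 0) (nat_lit 598517068) (nat_lit 16) (nat_lit 5) (nat_lit 18) (nat_lit 4) (nat_lit 16) (nat_lit 4) (nat_lit 392) (nat_lit 348) (nat_lit 280)) (XT.lf (nat_lit 0) (nat_lit 43526181404) (nat_lit 152) (nat_lit 7828259505) (nat_lit 0) (nat_lit 16830306893) (nat_lit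 16) (nat_lit 5) (nat_lit 18) (nat_lit 4) (nat_lit 16) (nat_lit 4) (nat_lit 393) (nat_lit 348) (nat_lit 279))))) (XT.nd (nat_lit 156) (nat_lit 152) (nat_lit 0) (XT.nd (nat_lit 78) (nat_lit 76) (nat_lit 0) (XT.lf (nat_lit 0) (nat_lit 24278794189) (nat_lit 76) (nat_lit 37360867233) (nat_lit 76) (nat_lit 10655174742) (nat_lit 15) (nat_lit 4) (nat_lit 16) (nat_lit 5) (nat_lit 16) (nat_lit 4) (nat_lit 394) (nat_lit 348) (nat_lit 278)) (XT.lf (nat_lit 0) (nat_lit 4452381628) (nat_lit 152) (nat_lit 17453829426) (nat_lit 76) (nat_lit 54802330742) (nat_lit 14) (nat_lit 5) (nat_lit 16) (nat_lit 5) (nat_lit 15) (nat_lit 4) (nat_lit 395) (nat_lit 348) (nat_lit 277))) (XT.nd (nat_lit 78) (nat_lit 76) (nat_lit 0) (XT.lf (nat_lit 0) (nat_lit 16057837389) (nat_lit 76) (nat_lit 4509969311) (nat_lit 152) (nat_lit 60855404408) (nat_lit 13) (nat_lit 5) (nat_lit 14) (nat_lit 5) (nat_lit 15) (nat_lit 4) (nat_lit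 396) (nat_lit 348) (nat_lit 276)) (XT.nd (nat_lit 78) (nat_lit 76) (nat_lit 0) (XT.lf (nat_lit 0) (nat_lit 38794259148) (nat_lit 152) (nat_lit 33611714295) (nat_lit 0) (nat_lit 14043338427) (nat_lit 13) (nat_lit 5) (nat_lit 15) (nat_lit 4) (nat_lit 13) (nat_lit 4) (nat_lit 397) (nat_lit 348) (nat_lit 275)) (XT.lf (nat_lit 0) (nat_lit 573303234) (nat_lit 76) (nat_lit 58026078543) (nat_lit 76) (nat_lit 33268475870) (nat_lit 12) (nat_lit 4) (nat_lit 13) (nat_lit 5) (nat_lit 13) (nat_lit 4) (nat_lit 398) (nat_lit 348) (nat_lit 274)))))) (XT.nd (nat_lit 390) (nat_lit 228) (nat_lit 0) (XT.nd (nat_lit 156) (nat_lit 76) (nat_lit 0) (XT.nd (nat_lit 78) (nat_lit 76) (nat_lit 0) (XT.lf (nat_lit 0) (nat_lit 39384696868) (nat_lit 76) (nat_lit 41513133869) (nat_lit 76) (nat_lit 16749344203) (nat_lit 12) (nat_lit 4) (nat_lit 13) (nat_lit 5) (nat_lit 13) (nat_lit 4) (nat_lit 399) (nat_lit 348) (nat_lit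 273)) (XT.lf (nat_lit 0) (nat_lit 1027142110) (nat_lit 152) (nat_lit 22633062772) (nat_lit 76) (nat_lit 80227300746) (nat_lit 11) (nat_lit 5) (nat_lit 13) (nat_lit 5) (nat_lit 12) (nat_lit 4) (nat_lit 400) (nat_lit 348) (nat_lit 272))) (XT.nd (nat_lit 78) (nat_lit 0) (nat_lit 0) (XT.lf (nat_lit 0) (nat_lit 16204708045) (nat_lit 76) (nat_lit 3496989434) (nat_lit 152) (nat_lit 90860094413) (nat_lit 10) (nat_lit 5) (nat_lit 11) (nat_lit 5) (nat_lit 12) (nat_lit 4) (nat_lit 401) (nat_lit 348) (nat_lit 271)) (XT.nd (nat_lit 78) (nat_lit 0) (nat_lit 0) (XT.lf (nat_lit 0) (nat_lit 40935903030) (nat_lit 152) (nat_lit 58757159286) (nat_lit 0) (nat_lit 17991704746) (nat_lit 10) (nat_lit 5) (nat_lit 12) (nat_lit 4) (nat_lit 10) (nat_lit 4) (nat_lit 402) (nat_lit 348) (nat_lit 270)) (XT.lf (nat_lit 0) (nat_lit 63951497262) (nat_lit 152) (nat_lit 20416383393) (nat_lit 0) (nat_lit 41003088214) (nat_lit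 10) (nat_lit 5) (nat_lit 12) (nat_lit 4) (nat_lit 10) (nat_lit 4) (nat_lit 403) (nat_lit 348) (nat_lit 269))))) (XT.nd (nat_lit 156) (nat_lit 152) (nat_lit 0) (XT.nd (nat_lit 78) (nat_lit 0) (nat_lit 0) (XT.lf (nat_lit 0) (nat_lit 22081139116) (nat_lit 76) (nat_lit 67250679011) (nat_lit 76) (nat_lit 44298371108) (nat_lit 9) (nat_lit 4) (nat_lit 10) (nat_lit 5) (nat_lit 10) (nat_lit 4) (nat_lit 404) (nat_lit 348) (nat_lit 268)) (XT.lf (nat_lit 0) (nat_lit 69124840144) (nat_lit 76) (nat_lit 48168578696) (nat_lit 76) (nat_lit 25212660742) (nat_lit 9) (nat_lit 4) (nat_lit 10) (nat_lit 5) (nat_lit 10) (nat_lit 4) (nat_lit 405) (nat_lit 348) (nat_lit 267))) (XT.nd (nat_lit 78) (nat_lit 152) (nat_lit 0) (XT.lf (nat_lit 0) (nat_lit 119918406611) (nat_lit 76) (nat_lit 27566720701) (nat_lit 76) (nat_lit 4607460107) (nat_lit 9) (nat_lit 4) (nat_lit 10) (nat_lit 5) (nat_lit 10) (nat_lit 4) (nat_lit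 406) (nat_lit 348) (nat_lit 266)) (XT.nd (nat_lit 78) (nat_lit 0) (nat_lit 0) (XT.lf (nat_lit 0) (nat_lit 12518305648) (nat_lit 76) (nat_lit 4539704581) (nat_lit 152) (nat_lit 145330488089) (nat_lit 7) (nat_lit 5) (nat_lit 8) (nat_lit 5) (nat_lit 9) (nat_lit 4) (nat_lit 407) (nat_lit 348) (nat_lit 265)) (XT.lf (nat_lit 0) (nat_lit 41592812608) (nat_lit 152) (nat_lit 111466175975) (nat_lit 0) (nat_lit 20328718714) (nat_lit 7) (nat_lit 5) (nat_lit 9) (nat_lit 4) (nat_lit 7) (nat_lit 4) (nat_lit 408) (nat_lit 348) (nat_lit 264))))))) (XT.nd (nat_lit 780) (nat_lit 76) (nat_lit 0) (XT.nd (nat_lit 390) (nat_lit 152) (nat_lit 0) (XT.nd (nat_lit 156) (nat_lit 76) (nat_lit 0) (XT.nd (nat_lit 78) (nat_lit 0) (nat_lit 0) (XT.lf (nat_lit 0) (nat_lit 68202335965) (nat_lit 152) (nat_lit 70119777423) (nat_lit 0) (nat_lit 46935785131) (nat_lit 7) (nat_lit 5) (nat_lit 9) (nat_lit 4) (nat_lit 7) (nat_lit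 4) (nat_lit 409) (nat_lit 348) (nat_lit 263)) (XT.lf (nat_lit 0) (nat_lit 96935086360) (nat_lit 152) (nat_lit 25476801315) (nat_lit 0) (nat_lit 75666260582) (nat_lit 7) (nat_lit 5) (nat_lit 9) (nat_lit 4) (nat_lit 7) (nat_lit 4) (nat_lit 410) (nat_lit 348) (nat_lit 262))) (XT.nd (nat_lit 78) (nat_lit 0) (nat_lit 0) (XT.lf (nat_lit 0) (nat_lit 23924082833) (nat_lit 76) (nat_lit 104612623879) (nat_lit 76) (nat_lit 83341691671) (nat_lit 6) (nat_lit 4) (nat_lit 7) (nat_lit 5) (nat_lit 7) (nat_lit 4) (nat_lit 411) (nat_lit 348) (nat_lit 261)) (XT.nd (nat_lit 78) (nat_lit 0) (nat_lit 0) (XT.lf (nat_lit 0) (nat_lit 78715877417) (nat_lit 76) (nat_lit 84642173279) (nat_lit 76) (nat_lit 63369290673) (nat_lit 6) (nat_lit 4) (nat_lit 7) (nat_lit 5) (nat_lit 7) (nat_lit 4) (nat_lit 412) (nat_lit 348) (nat_lit 260)) (XT.lf (nat_lit 0) (nat_lit 137881711343) (nat_lit 76) (nat_lit 63078773362) (nat_lit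 76) (nat_lit 41804084832) (nat_lit 6) (nat_lit 4) (nat_lit 7) (nat_lit 5) (nat_lit 7) (nat_lit 4) (nat_lit 413) (nat_lit 348) (nat_lit 259))))) (XT.nd (nat_lit 156) (nat_lit 76) (nat_lit 0) (XT.nd (nat_lit 78) (nat_lit 76) (nat_lit 0) (XT.lf (nat_lit 0) (nat_lit 201772196961) (nat_lit 76) (nat_lit 39794641018) (nat_lit 76) (nat_lit 18518280335) (nat_lit 6) (nat_lit 4) (nat_lit 7) (nat_lit 5) (nat_lit 7) (nat_lit 4) (nat_lit 414) (nat_lit 348) (nat_lit 258)) (XT.lf (nat_lit 0) (nat_lit 6294647773) (nat_lit 152) (nat_lit 8185041603) (nat_lit 76) (nat_lit 264299189958) (nat_lit 5) (nat_lit 5) (nat_lit 7) (nat_lit 5) (nat_lit 6) (nat_lit 4) (nat_lit 415) (nat_lit 348) (nat_lit 257))) (XT.nd (nat_lit 78) (nat_lit 0) (nat_lit 0) (XT.lf (nat_lit 0) (nat_lit 33590972599) (nat_lit 152) (nat_lit 251330905274) (nat_lit 0) (nat_lit 13887877624) (nat_lit 4) (nat_lit 5) (nat_lit 6) (nat_lit 4) (nat_lit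 4) (nat_lit 4) (nat_lit 416) (nat_lit 348) (nat_lit 256)) (XT.nd (nat_lit 78) (nat_lit 0) (nat_lit 0) (XT.lf (nat_lit 0) (nat_lit 63672955668) (nat_lit 152) (nat_lit 212753358527) (nat_lit 0) (nat_lit 43968631611) (nat_lit 4) (nat_lit 5) (nat_lit 6) (nat_lit 4) (nat_lit 4) (nat_lit 4) (nat_lit 417) (nat_lit 348) (nat_lit 255)) (XT.lf (nat_lit 0) (nat_lit 96158025222) (nat_lit 152) (nat_lit 171096640981) (nat_lit 0) (nat_lit 76452563127) (nat_lit 4) (nat_lit 5) (nat_lit 6) (nat_lit 4) (nat_lit 4) (nat_lit 4) (nat_lit 418) (nat_lit 348) (nat_lit 254)))))) (XT.nd (nat_lit 390) (nat_lit 0) (nat_lit 0) (XT.nd (nat_lit 156) (nat_lit 76) (nat_lit 0) (XT.nd (nat_lit 78) (nat_lit 0) (nat_lit 0) (XT.lf (nat_lit 0) (nat_lit 131238685377) (nat_lit 152) (nat_lit 126113898013) (nat_lit 0) (nat_lit 111532169543) (nat_lit 4) (nat_lit 5) (nat_lit 6) (nat_lit 4) (nat_lit 4) (nat_lit 4) (nat_lit 419) (nat_lit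 348) (nat_lit 253)) (XT.lf (nat_lit 0) (nat_lit 169122821527) (nat_lit 152) (nat_lit 77538565220) (nat_lit 0) (nat_lit 149415330008) (nat_lit 4) (nat_lit 5) (nat_lit 6) (nat_lit 4) (nat_lit 4) (nat_lit 4) (nat_lit 420) (nat_lit 348) (nat_lit 252))) (XT.nd (nat_lit 78) (nat_lit 76) (nat_lit 0) (XT.lf (nat_lit 0) (nat_lit 210034932256) (nat_lit 152) (nat_lit 25082788779) (nat_lit 0) (nat_lit 190326537325) (nat_lit 4) (nat_lit 5) (nat_lit 6) (nat_lit 4) (nat_lit 4) (nat_lit 4) (nat_lit 421) (nat_lit 348) (nat_lit 251)) (XT.nd (nat_lit 78) (nat_lit 0) (nat_lit 0) (XT.lf (nat_lit 0) (nat_lit 33226399421) (nat_lit 76) (nat_lit 221790155985) (nat_lit 76) (nat_lit 202080924562) (nat_lit 3) (nat_lit 4) (nat_lit 4) (nat_lit 5) (nat_lit 4) (nat_lit 4) (nat_lit 422) (nat_lit 348) (nat_lit 250)) (XT.lf (nat_lit 0) (nat_lit 97621764553) (nat_lit 76) (nat_lit 206658267482) (nat_lit 76) (nat_lit 186948261528)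 (nat_lit 3) (nat_lit 4) (nat_lit 4) (nat_lit 5) (nat_lit 4) (nat_lit 4) (nat_lit 423) (nat_lit 348) (nat_lit 249))))) (XT.nd (nat_lit 234) (nat_lit 0) (nat_lit 0) (XT.nd (nat_lit 78) (nat_lit 0) (nat_lit 0) (XT.lf (nat_lit 0) (nat_lit 167164093570) (nat_lit 76) (nat_lit 190318192970) (nat_lit 76) (nat_lit 170607469860) (nat_lit 3) (nat_lit 4) (nat_lit 4) (nat_lit 5) (nat_lit 4) (nat_lit 4) (nat_lit 424) (nat_lit 348) (nat_lit 248)) (XT.nd (nat_lit 78) (nat_lit 0) (nat_lit 0) (XT.lf (nat_lit 0) (nat_lit 242265489165) (nat_lit 76) (nat_lit 172673102380) (nat_lit 76) (nat_lit 152961715235) (nat_lit 3) (nat_lit 4) (nat_lit 4) (nat_lit 5) (nat_lit 4) (nat_lit 4) (nat_lit 425) (nat_lit 348) (nat_lit 247)) (XT.lf (nat_lit 0) (nat_lit 323370996645) (nat_lit 76) (nat_lit 153618432212) (nat_lit 76) (nat_lit 133906430220) (nat_lit 3) (nat_lit 4) (nat_lit 4) (nat_lit 5) (nat_lit 4) (nat_lit 4) (nat_lit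 426) (nat_lit 348) (nat_lit 246)))) (XT.nd (nat_lit 78) (nat_lit 0) (nat_lit 0) (XT.lf (nat_lit 0) (nat_lit 410961241238) (nat_lit 76) (nat_lit 133041265901) (nat_lit 76) (nat_lit 113328694606) (nat_lit 3) (nat_lit 4) (nat_lit 4) (nat_lit 5) (nat_lit 4) (nat_lit 4) (nat_lit 427) (nat_lit 348) (nat_lit 245)) (XT.nd (nat_lit 78) (nat_lit 0) (nat_lit 0) (XT.lf (nat_lit 0) (nat_lit 505555276246) (nat_lit 76) (nat_lit 110819664685) (nat_lit 76) (nat_lit 91106566258) (nat_lit 3) (nat_lit 4) (nat_lit 4) (nat_lit 5) (nat_lit 4) (nat_lit 4) (nat_lit 428) (nat_lit 348) (nat_lit 244)) (XT.lf (nat_lit 0) (nat_lit 607713658913) (nat_lit 76) (nat_lit 86821944999) (nat_lit 76) (nat_lit 67108358487) (nat_lit 3) (nat_lit 4) (nat_lit 4) (nat_lit 5) (nat_lit 4) (nat_lit 4) (nat_lit 429) (nat_lit 348) (nat_lit 243))))))))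
noncomputable def xc119 : XT := (XT.nd (nat_lit 1638) (nat_lit 0) (nat_lit 0) (XT.nd (nat_lit 780) (nat_lit 0) (nat_lit 0) (XT.nd (nat_lit 390) (nat_lit 0) (nat_lit 0) (XT.nd (nat_lit 156) (nat_lit 152) (nat_lit 0) (XT.nd (nat_lit 78) (nat_lit 0) (nat_lit 0) (XT.lf (nat_lit 0) (nat_lit 718041772249) (nat_lit 76) (nat_lit 60905898136) (nat_lit 76) (nat_lit 41191859693) (nat_lit 3) (nat_lit 4) (nat_lit 4) (nat_lit 5) (nat_lit 4) (nat_lit 4) (nat_lit 430) (nat_lit 348) (nat_lit 242)) (XT.lf (nat_lit 0) (nat_lit 837193412480) (nat_lit 76) (nat_lit 32917947522) (nat_lit 76) (nat_lit 13203490624) (nat_lit 3) (nat_lit 4) (nat_lit 4) (nat_lit 5) (nat_lit 4) (nat_lit 4) (nat_lit 431) (nat_lit 348) (nat_lit 241))) (XT.nd (nat_lit 78) (nat_lit 0) (nat_lit 0) (XT.lf (nat_lit 0) (nat_lit 14654026780) (nat_lit 76) (nat_lit 1869468957) (nat_lit 152) (nat_lit 934959854672) (nat_lit 1) (nat_lit 5) (nat_lit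 2) (nat_lit 5) (nat_lit 3) (nat_lit 4) (nat_lit 432) (nat_lit 348) (nat_lit 240)) (XT.nd (nat_lit 78) (nat_lit 0) (nat_lit 0) (XT.lf (nat_lit 0) (nat_lit 49969326853) (nat_lit 152) (nat_lit 943229737020) (nat_lit 0) (nat_lit 31714509156) (nat_lit 1) (nat_lit 5) (nat_lit 3) (nat_lit 4) (nat_lit 1) (nat_lit 4) (nat_lit 433) (nat_lit 348) (nat_lit 239)) (XT.lf (nat_lit 0) (nat_lit 86138204207) (nat_lit 152) (nat_lit 950193139999) (nat_lit 0) (nat_lit 67883078934) (nat_lit 1) (nat_lit 5) (nat_lit 3) (nat_lit 4) (nat_lit 1) (nat_lit 4) (nat_lit 434) (nat_lit 348) (nat_lit 238))))) (XT.nd (nat_lit 156) (nat_lit 0) (nat_lit 0) (XT.nd (nat_lit 78) (nat_lit 0) (nat_lit 0) (XT.lf (nat_lit 0) (nat_lit 125199501113) (nat_lit 152) (nat_lit 957715836403) (nat_lit 0) (nat_lit 106944091047) (nat_lit 1) (nat_lit 5) (nat_lit 3) (nat_lit 4) (nat_lit 1) (nat_lit 4) (nat_lit 435) (nat_lit 348) (nat_lit 237))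 (XT.lf (nat_lit 0) (nat_lit 167384691925) (nat_lit 152) (nat_lit 965842405173) (nat_lit 0) (nat_lit 149129018161) (nat_lit 1) (nat_lit 5) (nat_lit 3) (nat_lit 4) (nat_lit 1) (nat_lit 4) (nat_lit 436) (nat_lit 348) (nat_lit 236))) (XT.nd (nat_lit 78) (nat_lit 0) (nat_lit 0) (XT.lf (nat_lit 0) (nat_lit 212943762957) (nat_lit 152) (nat_lit 974621003754) (nat_lit 0) (nat_lit 194687845029) (nat_lit 1) (nat_lit 5) (nat_lit 3) (nat_lit 4) (nat_lit 1) (nat_lit 4) (nat_lit 437) (nat_lit 348) (nat_lit 235)) (XT.nd (nat_lit 78) (nat_lit 0) (nat_lit 0) (XT.lf (nat_lit 0) (nat_lit 262146693890) (nat_lit 152) (nat_lit 984103653470) (nat_lit 0) (nat_lit 243890549884) (nat_lit 1) (nat_lit 5) (nat_lit 3) (nat_lit 4) (nat_lit 1) (nat_lit 4) (nat_lit 438) (nat_lit 348) (nat_lit 234)) (XT.lf (nat_lit 0) (nat_lit 315285057648) (nat_lit 152) (nat_lit 994346547803) (nat_lit 0) (nat_lit 297028704311) (nat_lit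 1) (nat_lit 5) (nat_lit 3) (nat_lit 4) (nat_lit 1) (nat_lit 4) (nat_lit 439) (nat_lit 348) (nat_lit 233)))))) (XT.nd (nat_lit 390) (nat_lit 0) (nat_lit 0) (XT.nd (nat_lit 156) (nat_lit 0) (nat_lit 0) (XT.nd (nat_lit 78) (nat_lit 0) (nat_lit 0) (XT.lf (nat_lit 0) (nat_lit 372673748238) (nat_lit 152) (nat_lit 1005410385384) (nat_lit 0) (nat_lit 354417201076) (nat_lit 1) (nat_lit 5) (nat_lit 3) (nat_lit 4) (nat_lit 1) (nat_lit 4) (nat_lit 440) (nat_lit 348) (nat_lit 232)) (XT.lf (nat_lit 0) (nat_lit 434652846791) (nat_lit 152) (nat_lit 1017360729696) (nat_lit 0) (nat_lit 416396120160) (nat_lit 1) (nat_lit 5) (nat_lit 3) (nat_lit 4) (nat_lit 1) (nat_lit 4) (nat_lit 441) (nat_lit 348) (nat_lit 231))) (XT.nd (nat_lit 78) (nat_lit 0) (nat_lit 0) (XT.lf (nat_lit 0) (nat_lit 501589636852) (nat_lit 152) (nat_lit 1030268397594) (nat_lit 0) (nat_lit 483332744048) (nat_lit 1) (nat_lit 5) (nat_lit 3)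 (nat_lit 4) (nat_lit 1) (nat_lit 4) (nat_lit 442) (nat_lit 348) (nat_lit 230)) (XT.nd (nat_lit 78) (nat_lit 0) (nat_lit 0) (XT.lf (nat_lit 0) (nat_lit 573880780882) (nat_lit 152) (nat_lit 1044209878962) (nat_lit 0) (nat_lit 555623734213) (nat_lit 1) (nat_lit 5) (nat_lit 3) (nat_lit 4) (nat_lit 1) (nat_lit 4) (nat_lit 443) (nat_lit 348) (nat_lit 229)) (XT.lf (nat_lit 0) (nat_lit 651954670845) (nat_lit 152) (nat_lit 1059267789985) (nat_lit 0) (nat_lit 633697481708) (nat_lit 1) (nat_lit 5) (nat_lit 3) (nat_lit 4) (nat_lit 1) (nat_lit 4) (nat_lit 444) (nat_lit 348) (nat_lit 228))))) (XT.nd (nat_lit 234) (nat_lit 0) (nat_lit 0) (XT.nd (nat_lit 78) (nat_lit 0) (nat_lit 0) (XT.lf (nat_lit 0) (nat_lit 736273966829) (nat_lit 152) (nat_lit 1075531362729) (nat_lit 0) (nat_lit 718016645778) (nat_lit 1) (nat_lit 5) (nat_lit 3) (nat_lit 4) (nat_lit 1) (nat_lit 4) (nat_lit 445) (nat_lit 348) (nat_lit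 227)) (XT.nd (nat_lit 78) (nat_lit 0) (nat_lit 0) (XT.lf (nat_lit 0) (nat_lit 827338338738) (nat_lit 152) (nat_lit 1093096973922) (nat_lit 0) (nat_lit 809080895544) (nat_lit 1) (nat_lit 5) (nat_lit 3) (nat_lit 4) (nat_lit 1) (nat_lit 4) (nat_lit 446) (nat_lit 348) (nat_lit 226)) (XT.lf (nat_lit 0) (nat_lit 925687427293) (nat_lit 152) (nat_lit 1112068716073) (nat_lit 0) (nat_lit 907429871004) (nat_lit 1) (nat_lit 5) (nat_lit 3) (nat_lit 4) (nat_lit 1) (nat_lit 4) (nat_lit 447) (nat_lit 348) (nat_lit 225)))) (XT.nd (nat_lit 78) (nat_lit 0) (nat_lit 0) (XT.lf (nat_lit 0) (nat_lit 1031904041908) (nat_lit 152) (nat_lit 1132559014323) (nat_lit 0) (nat_lit 1013646380901) (nat_lit 1) (nat_lit 5) (nat_lit 3) (nat_lit 4) (nat_lit 1) (nat_lit 4) (nat_lit 448) (nat_lit 348) (nat_lit 224)) (XT.nd (nat_lit 78) (nat_lit 0) (nat_lit 0) (XT.lf (nat_lit 0) (nat_lit 1146617614373) (nat_lit 152) (nat_lit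 1154689292659) (nat_lit 0) (nat_lit 1128359856405) (nat_lit 1) (nat_lit 5) (nat_lit 3) (nat_lit 4) (nat_lit 1) (nat_lit 4) (nat_lit 449) (nat_lit 348) (nat_lit 223)) (XT.lf (nat_lit 0) (nat_lit 1270507928821) (nat_lit 152) (nat_lit 1178590693474) (nat_lit 0) (nat_lit 1252250081075) (nat_lit 1) (nat_lit 5) (nat_lit 3) (nat_lit 4) (nat_lit 1) (nat_lit 4) (nat_lit 450) (nat_lit 348) (nat_lit 222))))))) (XT.nd (nat_lit 780) (nat_lit 0) (nat_lit 0) (XT.nd (nat_lit 390) (nat_lit 0) (nat_lit 0) (XT.nd (nat_lit 156) (nat_lit 0) (nat_lit 0) (XT.nd (nat_lit 78) (nat_lit 0) (nat_lit 0) (XT.lf (nat_lit 0) (nat_lit 1404309150080) (nat_lit 152) (nat_lit 1204404854696) (nat_lit 0) (nat_lit 1386051219205) (nat_lit 1) (nat_lit 5) (nat_lit 3) (nat_lit 4) (nat_lit 1) (nat_lit 4) (nat_lit 451) (nat_lit 348) (nat_lit 221)) (XT.lf (nat_lit 0) (nat_lit 1548814174274) (nat_lit 152) (nat_lit 1232284749134) (nat_lit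 0) (nat_lit 1530556166429) (nat_lit 1) (nat_lit 5) (nat_lit 3) (nat_lit 4) (nat_lit 1) (nat_lit 4) (nat_lit 452) (nat_lit 348) (nat_lit 220))) (XT.nd (nat_lit 78) (nat_lit 0) (nat_lit 0) (XT.lf (nat_lit 0) (nat_lit 1704879327473) (nat_lit 152) (nat_lit 1262395590977) (nat_lit 0) (nat_lit 1686621248359) (nat_lit 1) (nat_lit 5) (nat_lit 3) (nat_lit 4) (nat_lit 1) (nat_lit 4) (nat_lit 453) (nat_lit 348) (nat_lit 219)) (XT.nd (nat_lit 78) (nat_lit 0) (nat_lit 0) (XT.lf (nat_lit 0) (nat_lit 1873429440215) (nat_lit 152) (nat_lit 1294915814843) (nat_lit 0) (nat_lit 1855171295111) (nat_lit 1) (nat_lit 5) (nat_lit 3) (nat_lit 4) (nat_lit 1) (nat_lit 4) (nat_lit 454) (nat_lit 348) (nat_lit 218)) (XT.lf (nat_lit 0) (nat_lit 2055463327983) (nat_lit 152) (nat_lit 1330038133170) (nat_lit 0) (nat_lit 2037205121776) (nat_lit 1) (nat_lit 5) (nat_lit 3) (nat_lit 4) (nat_lit 1) (nat_lit 4) (nat_lit 455)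 (nat_lit 348) (nat_lit 217))))) (XT.nd (nat_lit 156) (nat_lit 0) (nat_lit 0) (XT.nd (nat_lit 78) (nat_lit 0) (nat_lit 0) (XT.lf (nat_lit 0) (nat_lit 2252059710110) (nat_lit 152) (nat_lit 1367970678215) (nat_lit 0) (nat_lit 2233801447328) (nat_lit 1) (nat_lit 5) (nat_lit 3) (nat_lit 4) (nat_lit 1) (nat_lit 4) (nat_lit 456) (nat_lit 348) (nat_lit 216)) (XT.lf (nat_lit 0) (nat_lit 2464383602196) (nat_lit 152) (nat_lit 1408938235429) (nat_lit 0) (nat_lit 2446125287029) (nat_lit 1) (nat_lit 5) (nat_lit 3) (nat_lit 4) (nat_lit 1) (nat_lit 4) (nat_lit 457) (nat_lit 348) (nat_lit 215))) (XT.nd (nat_lit 78) (nat_lit 0) (nat_lit 0) (XT.lf (nat_lit 0) (nat_lit 2693693219897) (nat_lit 152) (nat_lit 1453183575522) (nat_lit 0) (nat_lit 2675434856225) (nat_lit 1) (nat_lit 5) (nat_lit 3) (nat_lit 4) (nat_lit 1) (nat_lit 4) (nat_lit 458) (nat_lit 348) (nat_lit 214)) (XT.nd (nat_lit 78) (nat_lit 0) (nat_lit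 0) (XT.lf (nat_lit 0) (nat_lit 2941347435021) (nat_lit 152) (nat_lit 1500968893103) (nat_lit 0) (nat_lit 2923089026438) (nat_lit 1) (nat_lit 5) (nat_lit 3) (nat_lit 4) (nat_lit 1) (nat_lit 4) (nat_lit 459) (nat_lit 348) (nat_lit 213)) (XT.lf (nat_lit 0) (nat_lit 3208813828103) (nat_lit 152) (nat_lit 1552577360423) (nat_lit 0) (nat_lit 3190555377935) (nat_lit 1) (nat_lit 5) (nat_lit 3) (nat_lit 4) (nat_lit 1) (nat_lit 4) (nat_lit 460) (nat_lit 348) (nat_lit 212)))))) (XT.nd (nat_lit 44616) (nat_lit 0) (nat_lit 4560) (XT.nd (nat_lit 44382) (nat_lit 0) (nat_lit 4864) (XT.nd (nat_lit 78) (nat_lit 0) (nat_lit 0) (XT.lf (nat_lit 0) (nat_lit 3497677385176) (nat_lit 152) (nat_lit 1608314805437) (nat_lit 0) (nat_lit 3479418896503) (nat_lit 1) (nat_lit 5) (nat_lit 3) (nat_lit 4) (nat_lit 1) (nat_lit 4) (nat_lit 461) (nat_lit 348) (nat_lit 211)) (XT.lf (nat_lit 0) (nat_lit 3809649890281) (nat_lit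 152) (nat_lit 1668511524115) (nat_lit 0) (nat_lit 3791391365956) (nat_lit 1) (nat_lit 5) (nat_lit 3) (nat_lit 4) (nat_lit 1) (nat_lit 4) (nat_lit 462) (nat_lit 348) (nat_lit 210))) (XT.nd (nat_lit 78) (nat_lit 456) (nat_lit 0) (XT.lf (nat_lit 0) (nat_lit 1946250064) (nat_lit 0) (nat_lit 1946250064) (nat_lit 380) (nat_lit 500153226) (nat_lit 71) (nat_lit 5) (nat_lit 71) (nat_lit 3) (nat_lit 76) (nat_lit 3) (nat_lit 349) (nat_lit 349) (nat_lit 322)) (XT.nd (nat_lit 78) (nat_lit 456) (nat_lit 0) (XT.lf (nat_lit 0) (nat_lit 8469795791) (nat_lit 0) (nat_lit 528545536) (nat_lit 380) (nat_lit 65276099) (nat_lit 71) (nat_lit 5) (nat_lit 71) (nat_lit 3) (nat_lit 76) (nat_lit 3) (nat_lit 350) (nat_lit 349) (nat_lit 321)) (XT.lf (nat_lit 0) (nat_lit 984192975) (nat_lit 456) (nat_lit 5255053612) (nat_lit 532) (nat_lit 3116265796) (nat_lit 65) (nat_lit 5) (nat_lit 71) (nat_lit 5) (nat_lit 72) (nat_lit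 5) (nat_lit 351) (nat_lit 349) (nat_lit 320))))) (XT.nd (nat_lit 234) (nat_lit 304) (nat_lit 0) (XT.nd (nat_lit 78) (nat_lit 0) (nat_lit 76) (XT.lf (nat_lit 0) (nat_lit 2058416288) (nat_lit 456) (nat_lit 538028669) (nat_lit 532) (nat_lit 7078713642) (nat_lit 65) (nat_lit 5) (nat_lit 71) (nat_lit 5) (nat_lit 72) (nat_lit 5) (nat_lit 352) (nat_lit 349) (nat_lit 319)) (XT.nd (nat_lit 78) (nat_lit 0) (nat_lit 0) (XT.lf (nat_lit 0) (nat_lit 3288696867) (nat_lit 456) (nat_lit 5312542867) (nat_lit 532) (nat_lit 1413602381) (nat_lit 66) (nat_lit 5) (nat_lit 72) (nat_lit 5) (nat_lit 73) (nat_lit 5) (nat_lit 353) (nat_lit 349) (nat_lit 318)) (XT.lf (nat_lit 0) (nat_lit 4625487192) (nat_lit 456) (nat_lit 113776205) (nat_lit 532) (nat_lit 5641859517) (nat_lit 66) (nat_lit 5) (nat_lit 72) (nat_lit 5) (nat_lit 73) (nat_lit 5) (nat_lit 354) (nat_lit 349) (nat_lit 317)))) (XT.nd (nat_lit 78) (nat_lit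 380) (nat_lit 0) (XT.lf (nat_lit 76) (nat_lit 5734142282) (nat_lit 0) (nat_lit 404053625) (nat_lit 532) (nat_lit 4633056689) (nat_lit 67) (nat_lit 5) (nat_lit 66) (nat_lit 5) (nat_lit 73) (nat_lit 5) (nat_lit 355) (nat_lit 349) (nat_lit 316)) (XT.nd (nat_lit 78) (nat_lit 0) (nat_lit 0) (XT.lf (nat_lit 0) (nat_lit 740273578) (nat_lit 456) (nat_lit 7090755821) (nat_lit 532) (nat_lit 3356894267) (nat_lit 61) (nat_lit 5) (nat_lit 67) (nat_lit 5) (nat_lit 68) (nat_lit 5) (nat_lit 356) (nat_lit 349) (nat_lit 315)) (XT.lf (nat_lit 0) (nat_lit 7198916416) (nat_lit 456) (nat_lit 2546996135) (nat_lit 532) (nat_lit 1885141273) (nat_lit 61) (nat_lit 5) (nat_lit 67) (nat_lit 5) (nat_lit 68) (nat_lit 5) (nat_lit 357) (nat_lit 349) (nat_lit 314))))))))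
noncomputable def xc120 : XT := (XT.nd (nat_lit 1560) (nat_lit 1216) (nat_lit 0) (XT.nd (nat_lit 780) (nat_lit 912) (nat_lit 0) (XT.nd (nat_lit 390) (nat_lit 608) (nat_lit 0) (XT.nd (nat_lit 156) (nat_lit 456) (nat_lit 0) (XT.nd (nat_lit 78) (nat_lit 76) (nat_lit 0) (XT.lf (nat_lit 0) (nat_lit 2053706441) (nat_lit 380) (nat_lit 9809760124) (nat_lit 456) (nat_lit 242260562) (nat_lit 56) (nat_lit 5) (nat_lit 61) (nat_lit 5) (nat_lit 62) (nat_lit 5) (nat_lit 358) (nat_lit 349) (nat_lit 313)) (XT.lf (nat_lit 0) (nat_lit 1590643366) (nat_lit 456) (nat_lit 3462745062) (nat_lit 76) (nat_lit 7551263476) (nat_lit 55) (nat_lit 5) (nat_lit 61) (nat_lit 5) (nat_lit 56) (nat_lit 5) (nat_lit 359) (nat_lit 349) (nat_lit 312))) (XT.nd (nat_lit 78) (nat_lit 228) (nat_lit 0) (XT.lf (nat_lit 0) (nat_lit 3601364727) (nat_lit 304) (nat_lit 9361778061) (nat_lit 76) (nat_lit 176343203) (nat_lit 52) (nat_lit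 5) (nat_lit 56) (nat_lit 5) (nat_lit 53) (nat_lit 5) (nat_lit 360) (nat_lit 349) (nat_lit 311)) (XT.nd (nat_lit 78) (nat_lit 228) (nat_lit 0) (XT.lf (nat_lit 0) (nat_lit 5952601166) (nat_lit 304) (nat_lit 2105452368) (nat_lit 76) (nat_lit 5644718277) (nat_lit 52) (nat_lit 5) (nat_lit 56) (nat_lit 5) (nat_lit 53) (nat_lit 5) (nat_lit 361) (nat_lit 349) (nat_lit 310)) (XT.lf (nat_lit 0) (nat_lit 5978084496) (nat_lit 228) (nat_lit 2612498972) (nat_lit 304) (nat_lit 5712680084) (nat_lit 49) (nat_lit 5) (nat_lit 52) (nat_lit 5) (nat_lit 53) (nat_lit 5) (nat_lit 362) (nat_lit 349) (nat_lit 309))))) (XT.nd (nat_lit 156) (nat_lit 456) (nat_lit 0) (XT.nd (nat_lit 78) (nat_lit 152) (nat_lit 0) (XT.lf (nat_lit 0) (nat_lit 11534075702) (nat_lit 304) (nat_lit 253551825) (nat_lit 76) (nat_lit 3156641628) (nat_lit 49) (nat_lit 5) (nat_lit 53) (nat_lit 5) (nat_lit 50) (nat_lit 5) (nat_lit 363) (nat_lit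 349) (nat_lit 308)) (XT.lf (nat_lit 0) (nat_lit 8785140637) (nat_lit 152) (nat_lit 6167043854) (nat_lit 228) (nat_lit 665269588) (nat_lit 47) (nat_lit 5) (nat_lit 49) (nat_lit 5) (nat_lit 50) (nat_lit 5) (nat_lit 364) (nat_lit 349) (nat_lit 307))) (XT.nd (nat_lit 78) (nat_lit 152) (nat_lit 0) (XT.lf (nat_lit 0) (nat_lit 2205940437) (nat_lit 304) (nat_lit 14116796129) (nat_lit 76) (nat_lit 15622262) (nat_lit 43) (nat_lit 5) (nat_lit 47) (nat_lit 5) (nat_lit 44) (nat_lit 5) (nat_lit 365) (nat_lit 349) (nat_lit 306)) (XT.nd (nat_lit 78) (nat_lit 152) (nat_lit 0) (XT.lf (nat_lit 0) (nat_lit 5584924562) (nat_lit 304) (nat_lit 4948529848) (nat_lit 76) (nat_lit 6557001330) (nat_lit 43) (nat_lit 5) (nat_lit 47) (nat_lit 5) (nat_lit 44) (nat_lit 5) (nat_lit 366) (nat_lit 349) (nat_lit 305)) (XT.lf (nat_lit 0) (nat_lit 5162821966) (nat_lit 152) (nat_lit 4160549661) (nat_lit 228) (nat_lit 8572239176)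 (nat_lit 41) (nat_lit 5) (nat_lit 43) (nat_lit 5) (nat_lit 44) (nat_lit 5) (nat_lit 367) (nat_lit 349) (nat_lit 304)))))) (XT.nd (nat_lit 390) (nat_lit 380) (nat_lit 0) (XT.nd (nat_lit 156) (nat_lit 380) (nat_lit 0) (XT.nd (nat_lit 78) (nat_lit 152) (nat_lit 0) (XT.lf (nat_lit 0) (nat_lit 13531278361) (nat_lit 228) (nat_lit 2508610397) (nat_lit 76) (nat_lit 2711679114) (nat_lit 41) (nat_lit 5) (nat_lit 44) (nat_lit 5) (nat_lit 42) (nat_lit 5) (nat_lit 368) (nat_lit 349) (nat_lit 303)) (XT.lf (nat_lit 0) (nat_lit 8820582490) (nat_lit 152) (nat_lit 9544047076) (nat_lit 228) (nat_lit 1288285793) (nat_lit 39) (nat_lit 5) (nat_lit 41) (nat_lit 5) (nat_lit 42) (nat_lit 5) (nat_lit 369) (nat_lit 349) (nat_lit 302))) (XT.nd (nat_lit 78) (nat_lit 152) (nat_lit 0) (XT.lf (nat_lit 0) (nat_lit 482530660) (nat_lit 152) (nat_lit 2378794377) (nat_lit 228) (nat_lit 17755287449) (nat_lit 36) (nat_lit 5)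 (nat_lit 38) (nat_lit 5) (nat_lit 39) (nat_lit 5) (nat_lit 370) (nat_lit 349) (nat_lit 301)) (XT.nd (nat_lit 78) (nat_lit 152) (nat_lit 0) (XT.lf (nat_lit 0) (nat_lit 7675951918) (nat_lit 228) (nat_lit 8532551439) (nat_lit 76) (nat_lit 5414028153) (nat_lit 36) (nat_lit 5) (nat_lit 39) (nat_lit 5) (nat_lit 37) (nat_lit 5) (nat_lit 371) (nat_lit 349) (nat_lit 300)) (XT.lf (nat_lit 0) (nat_lit 4096329033) (nat_lit 152) (nat_lit 8911834370) (nat_lit 228) (nat_lit 9690181320) (nat_lit 34) (nat_lit 5) (nat_lit 36) (nat_lit 5) (nat_lit 37) (nat_lit 5) (nat_lit 372) (nat_lit 349) (nat_lit 299))))) (XT.nd (nat_lit 156) (nat_lit 228) (nat_lit 0) (XT.nd (nat_lit 78) (nat_lit 152) (nat_lit 0) (XT.lf (nat_lit 0) (nat_lit 18177984661) (nat_lit 152) (nat_lit 795409793) (nat_lit 228) (nat_lit 4870325928) (nat_lit 34) (nat_lit 5) (nat_lit 36) (nat_lit 5) (nat_lit 37) (nat_lit 5) (nat_lit 373) (nat_lit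 349) (nat_lit 298)) (XT.lf (nat_lit 0) (nat_lit 698810067) (nat_lit 152) (nat_lit 16571184732) (nat_lit 76) (nat_lit 7779661009) (nat_lit 32) (nat_lit 5) (nat_lit 34) (nat_lit 5) (nat_lit 33) (nat_lit 5) (nat_lit 374) (nat_lit 349) (nat_lit 297))) (XT.nd (nat_lit 78) (nat_lit 228) (nat_lit 0) (XT.lf (nat_lit 0) (nat_lit 6604988168) (nat_lit 152) (nat_lit 2455974288) (nat_lit 76) (nat_lit 17268622790) (nat_lit 32) (nat_lit 5) (nat_lit 34) (nat_lit 5) (nat_lit 33) (nat_lit 5) (nat_lit 375) (nat_lit 349) (nat_lit 296)) (XT.nd (nat_lit 78) (nat_lit 76) (nat_lit 0) (XT.lf (nat_lit 0) (nat_lit 13286654144) (nat_lit 228) (nat_lit 14269887747) (nat_lit 76) (nat_lit 131137065) (nat_lit 30) (nat_lit 5) (nat_lit 33) (nat_lit 5) (nat_lit 31) (nat_lit 4) (nat_lit 376) (nat_lit 349) (nat_lit 295)) (XT.lf (nat_lit 0) (nat_lit 1343263541) (nat_lit 76) (nat_lit 19473473953) (nat_lit 152) (nat_lit 8312580654)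 (nat_lit 29) (nat_lit 5) (nat_lit 30) (nat_lit 5) (nat_lit 31) (nat_lit 4) (nat_lit 377) (nat_lit 349) (nat_lit 294))))))) (XT.nd (nat_lit 780) (nat_lit 532) (nat_lit 0) (XT.nd (nat_lit 390) (nat_lit 380) (nat_lit 0) (XT.nd (nat_lit 156) (nat_lit 76) (nat_lit 0) (XT.nd (nat_lit 78) (nat_lit 228) (nat_lit 0) (XT.lf (nat_lit 0) (nat_lit 18979072080) (nat_lit 76) (nat_lit 10338420090) (nat_lit 152) (nat_lit 1339343200) (nat_lit 29) (nat_lit 5) (nat_lit 30) (nat_lit 5) (nat_lit 31) (nat_lit 4) (nat_lit 378) (nat_lit 349) (nat_lit 293)) (XT.lf (nat_lit 0) (nat_lit 5825464104) (nat_lit 152) (nat_lit 175844160) (nat_lit 228) (nat_lit 26283796346) (nat_lit 26) (nat_lit 5) (nat_lit 28) (nat_lit 5) (nat_lit 29) (nat_lit 5) (nat_lit 379) (nat_lit 349) (nat_lit 292))) (XT.nd (nat_lit 78) (nat_lit 76) (nat_lit 0) (XT.lf (nat_lit 0) (nat_lit 14423686447) (nat_lit 228) (nat_lit 8964395098) (nat_lit 76)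 (nat_lit 10607430485) (nat_lit 26) (nat_lit 5) (nat_lit 29) (nat_lit 5) (nat_lit 27) (nat_lit 4) (nat_lit 380) (nat_lit 349) (nat_lit 291)) (XT.nd (nat_lit 78) (nat_lit 0) (nat_lit 0) (XT.lf (nat_lit 0) (nat_lit 10412946577) (nat_lit 76) (nat_lit 13342940598) (nat_lit 152) (nat_lit 12067988214) (nat_lit 25) (nat_lit 5) (nat_lit 26) (nat_lit 5) (nat_lit 27) (nat_lit 4) (nat_lit 381) (nat_lit 349) (nat_lit 290)) (XT.lf (nat_lit 0) (nat_lit 31817291989) (nat_lit 76) (nat_lit 2244119082) (nat_lit 152) (nat_lit 3718962465) (nat_lit 25) (nat_lit 5) (nat_lit 26) (nat_lit 5) (nat_lit 27) (nat_lit 4) (nat_lit 382) (nat_lit 349) (nat_lit 289))))) (XT.nd (nat_lit 156) (nat_lit 228) (nat_lit 0) (XT.nd (nat_lit 78) (nat_lit 0) (nat_lit 0) (XT.lf (nat_lit 0) (nat_lit 5639336369) (nat_lit 152) (nat_lit 24436180675) (nat_lit 76) (nat_lit 9759175647) (nat_lit 23) (nat_lit 5) (nat_lit 25) (nat_lit 5) (nat_lit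 24) (nat_lit 4) (nat_lit 383) (nat_lit 349) (nat_lit 288)) (XT.lf (nat_lit 0) (nat_lit 15753723942) (nat_lit 152) (nat_lit 3422977868) (nat_lit 76) (nat_lit 22852264581) (nat_lit 23) (nat_lit 5) (nat_lit 25) (nat_lit 5) (nat_lit 24) (nat_lit 4) (nat_lit 384) (nat_lit 349) (nat_lit 287))) (XT.nd (nat_lit 78) (nat_lit 152) (nat_lit 0) (XT.lf (nat_lit 0) (nat_lit 20255172759) (nat_lit 76) (nat_lit 6893283208) (nat_lit 152) (nat_lit 17212634578) (nat_lit 22) (nat_lit 5) (nat_lit 23) (nat_lit 5) (nat_lit 24) (nat_lit 4) (nat_lit 385) (nat_lit 349) (nat_lit 286)) (XT.nd (nat_lit 78) (nat_lit 152) (nat_lit 0) (XT.lf (nat_lit 0) (nat_lit 39688286453) (nat_lit 152) (nat_lit 1035285665) (nat_lit 0) (nat_lit 6137534659) (nat_lit 22) (nat_lit 5) (nat_lit 24) (nat_lit 4) (nat_lit 22) (nat_lit 4) (nat_lit 386) (nat_lit 349) (nat_lit 285)) (XT.lf (nat_lit 0) (nat_lit 4270221461) (nat_lit 152) (nat_lit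 24686863550) (nat_lit 76) (nat_lit 20534289898) (nat_lit 20) (nat_lit 5) (nat_lit 22) (nat_lit 5) (nat_lit 21) (nat_lit 4) (nat_lit 387) (nat_lit 349) (nat_lit 284)))))) (XT.nd (nat_lit 390) (nat_lit 304) (nat_lit 0) (XT.nd (nat_lit 156) (nat_lit 152) (nat_lit 0) (XT.nd (nat_lit 78) (nat_lit 0) (nat_lit 0) (XT.lf (nat_lit 0) (nat_lit 238011439) (nat_lit 76) (nat_lit 16023412561) (nat_lit 152) (nat_lit 36054120014) (nat_lit 19) (nat_lit 5) (nat_lit 20) (nat_lit 5) (nat_lit 21) (nat_lit 4) (nat_lit 388) (nat_lit 349) (nat_lit 283)) (XT.lf (nat_lit 0) (nat_lit 28534112080) (nat_lit 76) (nat_lit 1338696796) (nat_lit 152) (nat_lit 25439969628) (nat_lit 19) (nat_lit 5) (nat_lit 20) (nat_lit 5) (nat_lit 21) (nat_lit 4) (nat_lit 389) (nat_lit 349) (nat_lit 282))) (XT.nd (nat_lit 78) (nat_lit 76) (nat_lit 0) (XT.lf (nat_lit 0) (nat_lit 178288507) (nat_lit 76) (nat_lit 44734995805) (nat_lit 76)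 (nat_lit 13609295603) (nat_lit 18) (nat_lit 4) (nat_lit 19) (nat_lit 5) (nat_lit 19) (nat_lit 4) (nat_lit 390) (nat_lit 349) (nat_lit 281)) (XT.nd (nat_lit 78) (nat_lit 76) (nat_lit 0) (XT.lf (nat_lit 0) (nat_lit 30753256170) (nat_lit 76) (nat_lit 31156864894) (nat_lit 76) (nat_lit 18796865) (nat_lit 18) (nat_lit 4) (nat_lit 19) (nat_lit 5) (nat_lit 19) (nat_lit 4) (nat_lit 391) (nat_lit 349) (nat_lit 280)) (XT.lf (nat_lit 0) (nat_lit 13913343602) (nat_lit 152) (nat_lit 2209765029) (nat_lit 76) (nat_lit 49457436424) (nat_lit 17) (nat_lit 5) (nat_lit 19) (nat_lit 5) (nat_lit 18) (nat_lit 4) (nat_lit 392) (nat_lit 349) (nat_lit 279))))) (XT.nd (nat_lit 234) (nat_lit 152) (nat_lit 0) (XT.nd (nat_lit 78) (nat_lit 76) (nat_lit 0) (XT.lf (nat_lit 0) (nat_lit 29704708879) (nat_lit 152) (nat_lit 38907159744) (nat_lit 0) (nat_lit 852743009) (nat_lit 16) (nat_lit 5) (nat_lit 18) (nat_lit 4) (nat_lit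 16) (nat_lit 4) (nat_lit 393) (nat_lit 349) (nat_lit 278)) (XT.nd (nat_lit 78) (nat_lit 76) (nat_lit 0) (XT.lf (nat_lit 0) (nat_lit 47228847830) (nat_lit 152) (nat_lit 8025209044) (nat_lit 0) (nat_lit 18367791237) (nat_lit 16) (nat_lit 5) (nat_lit 18) (nat_lit 4) (nat_lit 16) (nat_lit 4) (nat_lit 394) (nat_lit 349) (nat_lit 277)) (XT.lf (nat_lit 0) (nat_lit 26639540307) (nat_lit 76) (nat_lit 40145590836) (nat_lit 76) (nat_lit 11276116908) (nat_lit 15) (nat_lit 4) (nat_lit 16) (nat_lit 5) (nat_lit 16) (nat_lit 4) (nat_lit 395) (nat_lit 349) (nat_lit 276)))) (XT.nd (nat_lit 78) (nat_lit 76) (nat_lit 0) (XT.lf (nat_lit 0) (nat_lit 5012176469) (nat_lit 152) (nat_lit 18451940700) (nat_lit 76) (nat_lit 59364792824) (nat_lit 14) (nat_lit 5) (nat_lit 16) (nat_lit 5) (nat_lit 15) (nat_lit 4) (nat_lit 396) (nat_lit 349) (nat_lit 275)) (XT.nd (nat_lit 78) (nat_lit 0) (nat_lit 0) (XT.lf (nat_lit 0)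 (nat_lit 17730578573) (nat_lit 76) (nat_lit 4680509330) (nat_lit 152) (nat_lit 65510126745) (nat_lit 13) (nat_lit 5) (nat_lit 14) (nat_lit 5) (nat_lit 15) (nat_lit 4) (nat_lit 397) (nat_lit 349) (nat_lit 274)) (XT.lf (nat_lit 0) (nat_lit 42085237254) (nat_lit 152) (nat_lit 35930844176) (nat_lit 0) (nat_lit 15334157422) (nat_lit 13) (nat_lit 5) (nat_lit 15) (nat_lit 4) (nat_lit 13) (nat_lit 4) (nat_lit 398) (nat_lit 349) (nat_lit 273))))))))
noncomputable def xc121 : XT := (XT.nd (nat_lit 1560) (nat_lit 228) (nat_lit 0) (XT.nd (nat_lit 780) (nat_lit 228) (nat_lit 0) (XT.nd (nat_lit 390) (nat_lit 228) (nat_lit 0) (XT.nd (nat_lit 156) (nat_lit 152) (nat_lit 0) (XT.nd (nat_lit 78) (nat_lit 0) (nat_lit 0) (XT.lf (nat_lit 0) (nat_lit 979612546) (nat_lit 76) (nat_lit 62489941609) (nat_lit 76) (nat_lit 35733133080) (nat_lit 12) (nat_lit 4) (nat_lit 13) (nat_lit 5) (nat_lit 13) (nat_lit 4) (nat_lit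 399) (nat_lit 349) (nat_lit 272)) (XT.lf (nat_lit 0) (nat_lit 42869218038) (nat_lit 76) (nat_lit 44669163081) (nat_lit 76) (nat_lit 17907050202) (nat_lit 12) (nat_lit 4) (nat_lit 13) (nat_lit 5) (nat_lit 13) (nat_lit 4) (nat_lit 400) (nat_lit 349) (nat_lit 271))) (XT.nd (nat_lit 78) (nat_lit 76) (nat_lit 0) (XT.lf (nat_lit 0) (nat_lit 1269614476) (nat_lit 152) (nat_lit 24126226201) (nat_lit 76) (nat_lit 86789824432) (nat_lit 11) (nat_lit 5) (nat_lit 13) (nat_lit 5) (nat_lit 12) (nat_lit 4) (nat_lit 401) (nat_lit 349) (nat_lit 270)) (XT.nd (nat_lit 78) (nat_lit 0) (nat_lit 0) (XT.lf (nat_lit 0) (nat_lit 17810528773) (nat_lit 76) (nat_lit 3623173491) (nat_lit 152) (nat_lit 97960547822) (nat_lit 10) (nat_lit 5) (nat_lit 11) (nat_lit 5) (nat_lit 12) (nat_lit 4) (nat_lit 402) (nat_lit 349) (nat_lit 269)) (XT.lf (nat_lit 0) (nat_lit 44358518302) (nat_lit 152) (nat_lit 63163069291) (nat_lit 0)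 (nat_lit 19566126912) (nat_lit 10) (nat_lit 5) (nat_lit 12) (nat_lit 4) (nat_lit 10) (nat_lit 4) (nat_lit 403) (nat_lit 349) (nat_lit 268))))) (XT.nd (nat_lit 156) (nat_lit 152) (nat_lit 0) (XT.nd (nat_lit 78) (nat_lit 76) (nat_lit 0) (XT.lf (nat_lit 0) (nat_lit 69204416144) (nat_lit 152) (nat_lit 21776858196) (nat_lit 0) (nat_lit 44408414703) (nat_lit 10) (nat_lit 5) (nat_lit 12) (nat_lit 4) (nat_lit 10) (nat_lit 4) (nat_lit 404) (nat_lit 349) (nat_lit 267)) (XT.lf (nat_lit 0) (nat_lit 24113558877) (nat_lit 76) (nat_lit 72497866125) (nat_lit 76) (nat_lit 47698522044) (nat_lit 9) (nat_lit 4) (nat_lit 10) (nat_lit 5) (nat_lit 10) (nat_lit 4) (nat_lit 405) (nat_lit 349) (nat_lit 266))) (XT.nd (nat_lit 78) (nat_lit 152) (nat_lit 0) (XT.lf (nat_lit 0) (nat_lit 74901057570) (nat_lit 76) (nat_lit 51899039800) (nat_lit 76) (nat_lit 27096600682) (nat_lit 9) (nat_lit 4) (nat_lit 10) (nat_lit 5)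 (nat_lit 10) (nat_lit 4) (nat_lit 406) (nat_lit 349) (nat_lit 265)) (XT.nd (nat_lit 78) (nat_lit 152) (nat_lit 0) (XT.lf (nat_lit 0) (nat_lit 129739870079) (nat_lit 76) (nat_lit 29658146142) (nat_lit 76) (nat_lit 4852841250) (nat_lit 9) (nat_lit 4) (nat_lit 10) (nat_lit 5) (nat_lit 10) (nat_lit 4) (nat_lit 407) (nat_lit 349) (nat_lit 264)) (XT.lf (nat_lit 0) (nat_lit 13748006425) (nat_lit 76) (nat_lit 4788515119) (nat_lit 152) (nat_lit 156833937875) (nat_lit 7) (nat_lit 5) (nat_lit 8) (nat_lit 5) (nat_lit 9) (nat_lit 4) (nat_lit 408) (nat_lit 349) (nat_lit 263)))))) (XT.nd (nat_lit 390) (nat_lit 152) (nat_lit 0) (XT.nd (nat_lit 156) (nat_lit 76) (nat_lit 0) (XT.nd (nat_lit 78) (nat_lit 0) (nat_lit 0) (XT.lf (nat_lit 0) (nat_lit 45028220021) (nat_lit 152) (nat_lit 120166243582) (nat_lit 0) (nat_lit 22055613236) (nat_lit 7) (nat_lit 5) (nat_lit 9) (nat_lit 4) (nat_lit 7) (nat_lit 4) (nat_lit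 409) (nat_lit 349) (nat_lit 262)) (XT.lf (nat_lit 0) (nat_lit 73758506550) (nat_lit 152) (nat_lit 75528223995) (nat_lit 0) (nat_lit 50783793335) (nat_lit 7) (nat_lit 5) (nat_lit 9) (nat_lit 4) (nat_lit 7) (nat_lit 4) (nat_lit 410) (nat_lit 349) (nat_lit 261))) (XT.nd (nat_lit 78) (nat_lit 76) (nat_lit 0) (XT.lf (nat_lit 0) (nat_lit 104782470777) (nat_lit 152) (nat_lit 27328708734) (nat_lit 0) (nat_lit 81805807163) (nat_lit 7) (nat_lit 5) (nat_lit 9) (nat_lit 4) (nat_lit 7) (nat_lit 4) (nat_lit 411) (nat_lit 349) (nat_lit 260)) (XT.nd (nat_lit 78) (nat_lit 0) (nat_lit 0) (XT.lf (nat_lit 0) (nat_lit 26019531293) (nat_lit 76) (nat_lit 112890197475) (nat_lit 76) (nat_lit 89911727937) (nat_lit 6) (nat_lit 4) (nat_lit 7) (nat_lit 5) (nat_lit 7) (nat_lit 4) (nat_lit 412) (nat_lit 349) (nat_lit 259)) (XT.lf (nat_lit 0) (nat_lit 85181223382) (nat_lit 76) (nat_lit 91328883887) (nat_lit 76) (nat_lit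 68348742198) (nat_lit 6) (nat_lit 4) (nat_lit 7) (nat_lit 5) (nat_lit 7) (nat_lit 4) (nat_lit 413) (nat_lit 349) (nat_lit 258))))) (XT.nd (nat_lit 156) (nat_lit 152) (nat_lit 0) (XT.nd (nat_lit 78) (nat_lit 0) (nat_lit 0) (XT.lf (nat_lit 0) (nat_lit 149067873965) (nat_lit 76) (nat_lit 68046683329) (nat_lit 76) (nat_lit 45064993351) (nat_lit 6) (nat_lit 4) (nat_lit 7) (nat_lit 5) (nat_lit 7) (nat_lit 4) (nat_lit 414) (nat_lit 349) (nat_lit 257)) (XT.lf (nat_lit 0) (nat_lit 218058070602) (nat_lit 76) (nat_lit 42905627204) (nat_lit 76) (nat_lit 19922503625) (nat_lit 6) (nat_lit 4) (nat_lit 7) (nat_lit 5) (nat_lit 7) (nat_lit 4) (nat_lit 415) (nat_lit 349) (nat_lit 256))) (XT.nd (nat_lit 78) (nat_lit 76) (nat_lit 0) (XT.lf (nat_lit 0) (nat_lit 6866159708) (nat_lit 152) (nat_lit 8702838794) (nat_lit 76) (nat_lit 285506751405) (nat_lit 5) (nat_lit 5) (nat_lit 7) (nat_lit 5) (nat_lit 6) (nat_lit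 4) (nat_lit 416) (nat_lit 349) (nat_lit 255)) (XT.nd (nat_lit 78) (nat_lit 0) (nat_lit 0) (XT.lf (nat_lit 0) (nat_lit 36345990920) (nat_lit 152) (nat_lit 271300167731) (nat_lit 0) (nat_lit 15062953818) (nat_lit 4) (nat_lit 5) (nat_lit 6) (nat_lit 4) (nat_lit 4) (nat_lit 4) (nat_lit 417) (nat_lit 349) (nat_lit 254)) (XT.lf (nat_lit 0) (nat_lit 68829514818) (nat_lit 152) (nat_lit 229646580946) (nat_lit 0) (nat_lit 47545423978) (nat_lit 4) (nat_lit 5) (nat_lit 6) (nat_lit 4) (nat_lit 4) (nat_lit 4) (nat_lit 418) (nat_lit 349) (nat_lit 253))))))) (XT.nd (nat_lit 780) (nat_lit 152) (nat_lit 0) (XT.nd (nat_lit 390) (nat_lit 0) (nat_lit 0) (XT.nd (nat_lit 156) (nat_lit 76) (nat_lit 0) (XT.nd (nat_lit 78) (nat_lit 0) (nat_lit 0) (XT.lf (nat_lit 0) (nat_lit 103908743811) (nat_lit 152) (nat_lit 184666736830) (nat_lit 0) (nat_lit 82623677286) (nat_lit 4) (nat_lit 5) (nat_lit 6) (nat_lit 4) (nat_lit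 4) (nat_lit 4) (nat_lit 419) (nat_lit 349) (nat_lit 252)) (XT.lf (nat_lit 0) (nat_lit 141791554810) (nat_lit 152) (nat_lit 136094088160) (nat_lit 0) (nat_lit 120505584873) (nat_lit 4) (nat_lit 5) (nat_lit 6) (nat_lit 4) (nat_lit 4) (nat_lit 4) (nat_lit 420) (nat_lit 349) (nat_lit 251))) (XT.nd (nat_lit 78) (nat_lit 76) (nat_lit 0) (XT.lf (nat_lit 0) (nat_lit 182702438548) (nat_lit 152) (nat_lit 83640797018) (nat_lit 0) (nat_lit 161415632119) (nat_lit 4) (nat_lit 5) (nat_lit 6) (nat_lit 4) (nat_lit 4) (nat_lit 4) (nat_lit 421) (nat_lit 349) (nat_lit 250)) (XT.nd (nat_lit 78) (nat_lit 76) (nat_lit 0) (XT.lf (nat_lit 0) (nat_lit 226883829891) (nat_lit 152) (nat_lit 26996029086) (nat_lit 0) (nat_lit 205596248932) (nat_lit 4) (nat_lit 5) (nat_lit 6) (nat_lit 4) (nat_lit 4) (nat_lit 4) (nat_lit 422) (nat_lit 349) (nat_lit 249)) (XT.lf (nat_lit 0) (nat_lit 35975530050) (nat_lit 76) (nat_lit 239487226804)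 (nat_lit 76) (nat_lit 218198928687) (nat_lit 3) (nat_lit 4) (nat_lit 4) (nat_lit 5) (nat_lit 4) (nat_lit 4) (nat_lit 423) (nat_lit 349) (nat_lit 248))))) (XT.nd (nat_lit 156) (nat_lit 0) (nat_lit 0) (XT.nd (nat_lit 78) (nat_lit 0) (nat_lit 0) (XT.lf (nat_lit 0) (nat_lit 105515782268) (nat_lit 76) (nat_lit 223148205121) (nat_lit 76) (nat_lit 201859242969) (nat_lit 3) (nat_lit 4) (nat_lit 4) (nat_lit 5) (nat_lit 4) (nat_lit 4) (nat_lit 424) (nat_lit 349) (nat_lit 247)) (XT.lf (nat_lit 0) (nat_lit 180615254899) (nat_lit 76) (nat_lit 205504089372) (nat_lit 76) (nat_lit 184214512373) (nat_lit 3) (nat_lit 4) (nat_lit 4) (nat_lit 5) (nat_lit 4) (nat_lit 4) (nat_lit 425) (nat_lit 349) (nat_lit 246))) (XT.nd (nat_lit 78) (nat_lit 0) (nat_lit 0) (XT.lf (nat_lit 0) (nat_lit 261718981857) (nat_lit 76) (nat_lit 186450321834) (nat_lit 76) (nat_lit 165160175533) (nat_lit 3) (nat_lit 4) (nat_lit 4) (nat_lit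 5) (nat_lit 4) (nat_lit 4) (nat_lit 426) (nat_lit 349) (nat_lit 245)) (XT.nd (nat_lit 78) (nat_lit 0) (nat_lit 0) (XT.lf (nat_lit 0) (nat_lit 349307577819) (nat_lit 76) (nat_lit 165873991292) (nat_lit 76) (nat_lit 144583317858) (nat_lit 3) (nat_lit 4) (nat_lit 4) (nat_lit 5) (nat_lit 4) (nat_lit 4) (nat_lit 427) (nat_lit 349) (nat_lit 244)) (XT.lf (nat_lit 0) (nat_lit 443900086317) (nat_lit 76) (nat_lit 143653163935) (nat_lit 76) (nat_lit 122362002417) (nat_lit 3) (nat_lit 4) (nat_lit 4) (nat_lit 5) (nat_lit 4) (nat_lit 4) (nat_lit 428) (nat_lit 349) (nat_lit 243)))))) (XT.nd (nat_lit 390) (nat_lit 0) (nat_lit 0) (XT.nd (nat_lit 156) (nat_lit 152) (nat_lit 0) (XT.nd (nat_lit 78) (nat_lit 0) (nat_lit 0) (XT.lf (nat_lit 0) (nat_lit 546057055550) (nat_lit 76) (nat_lit 119656160787) (nat_lit 76) (nat_lit 98364547338) (nat_lit 3) (nat_lit 4) (nat_lit 4) (nat_lit 5) (nat_lit 4) (nat_lit 4) (nat_lit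 429) (nat_lit 349) (nat_lit 242)) (XT.lf (nat_lit 0) (nat_lit 656383860149) (nat_lit 76) (nat_lit 93740777384) (nat_lit 76) (nat_lit 72448745480) (nat_lit 3) (nat_lit 4) (nat_lit 4) (nat_lit 5) (nat_lit 4) (nat_lit 4) (nat_lit 430) (nat_lit 349) (nat_lit 241))) (XT.nd (nat_lit 78) (nat_lit 152) (nat_lit 0) (XT.lf (nat_lit 0) (nat_lit 775534288587) (nat_lit 76) (nat_lit 65753441084) (nat_lit 76) (nat_lit 44461021723) (nat_lit 3) (nat_lit 4) (nat_lit 4) (nat_lit 5) (nat_lit 4) (nat_lit 4) (nat_lit 431) (nat_lit 349) (nat_lit 240)) (XT.nd (nat_lit 78) (nat_lit 152) (nat_lit 0) (XT.lf (nat_lit 0) (nat_lit 904214417477) (nat_lit 76) (nat_lit 35528301006) (nat_lit 76) (nat_lit 14235522887) (nat_lit 3) (nat_lit 4) (nat_lit 4) (nat_lit 5) (nat_lit 4) (nat_lit 4) (nat_lit 432) (nat_lit 349) (nat_lit 239)) (XT.lf (nat_lit 0) (nat_lit 15871911639) (nat_lit 76) (nat_lit 1995887370) (nat_lit 152) (nat_lit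 1009732424401) (nat_lit 1) (nat_lit 5) (nat_lit 2) (nat_lit 5) (nat_lit 3) (nat_lit 4) (nat_lit 433) (nat_lit 349) (nat_lit 238))))) (XT.nd (nat_lit 234) (nat_lit 0) (nat_lit 0) (XT.nd (nat_lit 78) (nat_lit 0) (nat_lit 0) (XT.lf (nat_lit 0) (nat_lit 53988150880) (nat_lit 152) (nat_lit 1018644781489) (nat_lit 0) (nat_lit 34272023215) (nat_lit 1) (nat_lit 5) (nat_lit 3) (nat_lit 4) (nat_lit 1) (nat_lit 4) (nat_lit 434) (nat_lit 349) (nat_lit 237)) (XT.nd (nat_lit 78) (nat_lit 0) (nat_lit 0) (XT.lf (nat_lit 0) (nat_lit 93048962283) (nat_lit 152) (nat_lit 1026168466669) (nat_lit 0) (nat_lit 73332570921) (nat_lit 1) (nat_lit 5) (nat_lit 3) (nat_lit 4) (nat_lit 1) (nat_lit 4) (nat_lit 435) (nat_lit 349) (nat_lit 236)) (XT.lf (nat_lit 0) (nat_lit 135233703554) (nat_lit 152) (nat_lit 1034295950972) (nat_lit 0) (nat_lit 115517068028) (nat_lit 1) (nat_lit 5) (nat_lit 3) (nat_lit 4) (nat_lit 1) (nat_lit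 4) (nat_lit 436) (nat_lit 349) (nat_lit 235)))) (XT.nd (nat_lit 78) (nat_lit 0) (nat_lit 0) (XT.lf (nat_lit 0) (nat_lit 180792358345) (nat_lit 152) (nat_lit 1043075397269) (nat_lit 0) (nat_lit 161075496741) (nat_lit 1) (nat_lit 5) (nat_lit 3) (nat_lit 4) (nat_lit 1) (nat_lit 4) (nat_lit 437) (nat_lit 349) (nat_lit 234)) (XT.nd (nat_lit 78) (nat_lit 0) (nat_lit 0) (XT.lf (nat_lit 0) (nat_lit 229994903869) (nat_lit 152) (nat_lit 1052558831908) (nat_lit 0) (nat_lit 210277832934) (nat_lit 1) (nat_lit 5) (nat_lit 3) (nat_lit 4) (nat_lit 1) (nat_lit 4) (nat_lit 438) (nat_lit 349) (nat_lit 233)) (XT.lf (nat_lit 0) (nat_lit 283132910767) (nat_lit 152) (nat_lit 1062802453020) (nat_lit 0) (nat_lit 263415646007) (nat_lit 1) (nat_lit 5) (nat_lit 3) (nat_lit 4) (nat_lit 1) (nat_lit 4) (nat_lit 439) (nat_lit 349) (nat_lit 232))))))))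
noncomputable def xc122 : XT := (XT.nd (nat_lit 1560) (nat_lit 0) (nat_lit 0) (XT.nd (nat_lit 780) (nat_lit 0) (nat_lit 0) (XT.nd (nat_lit 390) (nat_lit 0) (nat_lit 0) (XT.nd (nat_lit 156) (nat_lit 0) (nat_lit 0) (XT.nd (nat_lit 78) (nat_lit 0) (nat_lit 0) (XT.lf (nat_lit 0) (nat_lit 340521270932) (nat_lit 152) (nat_lit 1073866963546) (nat_lit 0) (nat_lit 320803826704) (nat_lit 1) (nat_lit 5) (nat_lit 3) (nat_lit 4) (nat_lit 1) (nat_lit 4) (nat_lit 440) (nat_lit 349) (nat_lit 231)) (XT.lf (nat_lit 0) (nat_lit 402500063535) (nat_lit 152) (nat_lit 1085817930955) (nat_lit 0) (nat_lit 382782453132) (nat_lit 1) (nat_lit 5) (nat_lit 3) (nat_lit 4) (nat_lit 1) (nat_lit 4) (nat_lit 441) (nat_lit 349) (nat_lit 230))) (XT.nd (nat_lit 78) (nat_lit 0) (nat_lit 0) (XT.lf (nat_lit 0) (nat_lit 469436570310) (nat_lit 152) (nat_lit 1098726175794) (nat_lit 0) (nat_lit 449718806042) (nat_lit 1) (nat_lit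 5) (nat_lit 3) (nat_lit 4) (nat_lit 1) (nat_lit 4) (nat_lit 442) (nat_lit 349) (nat_lit 229)) (XT.nd (nat_lit 78) (nat_lit 0) (nat_lit 0) (XT.lf (nat_lit 0) (nat_lit 541727452037) (nat_lit 152) (nat_lit 1112668191366) (nat_lit 0) (nat_lit 522009545302) (nat_lit 1) (nat_lit 5) (nat_lit 3) (nat_lit 4) (nat_lit 1) (nat_lit 4) (nat_lit 443) (nat_lit 349) (nat_lit 228)) (XT.lf (nat_lit 0) (nat_lit 619801099127) (nat_lit 152) (nat_lit 1127726597024) (nat_lit 0) (nat_lit 600083060478) (nat_lit 1) (nat_lit 5) (nat_lit 3) (nat_lit 4) (nat_lit 1) (nat_lit 4) (nat_lit 444) (nat_lit 349) (nat_lit 227))))) (XT.nd (nat_lit 156) (nat_lit 0) (nat_lit 0) (XT.nd (nat_lit 78) (nat_lit 0) (nat_lit 0) (XT.lf (nat_lit 0) (nat_lit 704120170230) (nat_lit 152) (nat_lit 1143990627762) (nat_lit 0) (nat_lit 684402009437) (nat_lit 1) (nat_lit 5) (nat_lit 3) (nat_lit 4) (nat_lit 1) (nat_lit 4) (nat_lit 445) (nat_lit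 349) (nat_lit 226)) (XT.lf (nat_lit 0) (nat_lit 795184333914) (nat_lit 152) (nat_lit 1161556663024) (nat_lit 0) (nat_lit 775466060027) (nat_lit 1) (nat_lit 5) (nat_lit 3) (nat_lit 4) (nat_lit 1) (nat_lit 4) (nat_lit 446) (nat_lit 349) (nat_lit 225))) (XT.nd (nat_lit 78) (nat_lit 0) (nat_lit 0) (XT.lf (nat_lit 0) (nat_lit 893533229669) (nat_lit 152) (nat_lit 1180528797832) (nat_lit 0) (nat_lit 873814851063) (nat_lit 1) (nat_lit 5) (nat_lit 3) (nat_lit 4) (nat_lit 1) (nat_lit 4) (nat_lit 447) (nat_lit 349) (nat_lit 224)) (XT.nd (nat_lit 78) (nat_lit 0) (nat_lit 0) (XT.lf (nat_lit 0) (nat_lit 999749665765) (nat_lit 152) (nat_lit 1201019459652) (nat_lit 0) (nat_lit 980031190199) (nat_lit 1) (nat_lit 5) (nat_lit 3) (nat_lit 4) (nat_lit 1) (nat_lit 4) (nat_lit 448) (nat_lit 349) (nat_lit 223)) (XT.lf (nat_lit 0) (nat_lit 1114463072935) (nat_lit 152) (nat_lit 1223150074629) (nat_lit 0) (nat_lit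 1094744507590) (nat_lit 1) (nat_lit 5) (nat_lit 3) (nat_lit 4) (nat_lit 1) (nat_lit 4) (nat_lit 449) (nat_lit 349) (nat_lit 222)))))) (XT.nd (nat_lit 390) (nat_lit 0) (nat_lit 0) (XT.nd (nat_lit 156) (nat_lit 0) (nat_lit 0) (XT.nd (nat_lit 78) (nat_lit 0) (nat_lit 0) (XT.lf (nat_lit 0) (nat_lit 1238353234333) (nat_lit 152) (nat_lit 1247051787147) (nat_lit 0) (nat_lit 1218634585860) (nat_lit 1) (nat_lit 5) (nat_lit 3) (nat_lit 4) (nat_lit 1) (nat_lit 4) (nat_lit 450) (nat_lit 349) (nat_lit 221)) (XT.lf (nat_lit 0) (nat_lit 1372154313877) (nat_lit 152) (nat_lit 1272866236984) (nat_lit 0) (nat_lit 1352435588433) (nat_lit 1) (nat_lit 5) (nat_lit 3) (nat_lit 4) (nat_lit 1) (nat_lit 4) (nat_lit 451) (nat_lit 349) (nat_lit 220))) (XT.nd (nat_lit 78) (nat_lit 0) (nat_lit 0) (XT.lf (nat_lit 0) (nat_lit 1516659206855) (nat_lit 152) (nat_lit 1300746398657) (nat_lit 0) (nat_lit 1496940410142) (nat_lit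 1) (nat_lit 5) (nat_lit 3) (nat_lit 4) (nat_lit 1) (nat_lit 4) (nat_lit 452) (nat_lit 349) (nat_lit 219)) (XT.nd (nat_lit 78) (nat_lit 0) (nat_lit 0) (XT.lf (nat_lit 0) (nat_lit 1672724238557) (nat_lit 152) (nat_lit 1330857487940) (nat_lit 0) (nat_lit 1653005375854) (nat_lit 1) (nat_lit 5) (nat_lit 3) (nat_lit 4) (nat_lit 1) (nat_lit 4) (nat_lit 453) (nat_lit 349) (nat_lit 218)) (XT.lf (nat_lit 0) (nat_lit 1841274238802) (nat_lit 152) (nat_lit 1363377940918) (nat_lit 0) (nat_lit 1821555314997) (nat_lit 1) (nat_lit 5) (nat_lit 3) (nat_lit 4) (nat_lit 1) (nat_lit 4) (nat_lit 454) (nat_lit 349) (nat_lit 217))))) (XT.nd (nat_lit 156) (nat_lit 0) (nat_lit 0) (XT.nd (nat_lit 78) (nat_lit 0) (nat_lit 0) (XT.lf (nat_lit 0) (nat_lit 2023308022405) (nat_lit 152) (nat_lit 1398500471385) (nat_lit 0) (nat_lit 2003589042025) (nat_lit 1) (nat_lit 5) (nat_lit 3) (nat_lit 4) (nat_lit 1) (nat_lit 4) (nat_lit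 455) (nat_lit 349) (nat_lit 216)) (XT.lf (nat_lit 0) (nat_lit 2219904308085) (nat_lit 152) (nat_lit 1436433212855) (nat_lit 0) (nat_lit 2200185275319) (nat_lit 1) (nat_lit 5) (nat_lit 3) (nat_lit 4) (nat_lit 1) (nat_lit 4) (nat_lit 456) (nat_lit 349) (nat_lit 215))) (XT.nd (nat_lit 78) (nat_lit 0) (nat_lit 0) (XT.lf (nat_lit 0) (nat_lit 2432228110867) (nat_lit 152) (nat_lit 1477400951945) (nat_lit 0) (nat_lit 2412509029597) (nat_lit 1) (nat_lit 5) (nat_lit 3) (nat_lit 4) (nat_lit 1) (nat_lit 4) (nat_lit 457) (nat_lit 349) (nat_lit 214)) (XT.nd (nat_lit 78) (nat_lit 0) (nat_lit 0) (XT.lf (nat_lit 0) (nat_lit 2661537645879) (nat_lit 152) (nat_lit 1521646460443) (nat_lit 0) (nat_lit 2641818519697) (nat_lit 1) (nat_lit 5) (nat_lit 3) (nat_lit 4) (nat_lit 1) (nat_lit 4) (nat_lit 458) (nat_lit 349) (nat_lit 213)) (XT.lf (nat_lit 0) (nat_lit 2909191784440) (nat_lit 152) (nat_lit 1569431933952)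 (nat_lit 0) (nat_lit 2889472616673) (nat_lit 1) (nat_lit 5) (nat_lit 3) (nat_lit 4) (nat_lit 1) (nat_lit 4) (nat_lit 459) (nat_lit 349) (nat_lit 212))))))) (XT.nd (nat_lit 45084) (nat_lit 0) (nat_lit 3192) (XT.nd (nat_lit 44694) (nat_lit 0) (nat_lit 4864) (XT.nd (nat_lit 156) (nat_lit 0) (nat_lit 0) (XT.nd (nat_lit 78) (nat_lit 0) (nat_lit 0) (XT.lf (nat_lit 0) (nat_lit 3176658106630) (nat_lit 152) (nat_lit 1621040545651) (nat_lit 0) (nat_lit 3156938900358) (nat_lit 1) (nat_lit 5) (nat_lit 3) (nat_lit 4) (nat_lit 1) (nat_lit 4) (nat_lit 460) (nat_lit 349) (nat_lit 211)) (XT.lf (nat_lit 0) (nat_lit 3465521598061) (nat_lit 152) (nat_lit 1676778124349) (nat_lit 0) (nat_lit 3445802356138) (nat_lit 1) (nat_lit 5) (nat_lit 3) (nat_lit 4) (nat_lit 1) (nat_lit 4) (nat_lit 461) (nat_lit 349) (nat_lit 210))) (XT.nd (nat_lit 44382) (nat_lit 0) (nat_lit 4788) (XT.lf (nat_lit 0) (nat_lit 3777494042388)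 (nat_lit 152) (nat_lit 1736974966809) (nat_lit 0) (nat_lit 3757774767453) (nat_lit 1) (nat_lit 5) (nat_lit 3) (nat_lit 4) (nat_lit 1) (nat_lit 4) (nat_lit 462) (nat_lit 349) (nat_lit 209)) (XT.nd (nat_lit 78) (nat_lit 0) (nat_lit 0) (XT.lf (nat_lit 0) (nat_lit 390846067) (nat_lit 532) (nat_lit 2140542256) (nat_lit 532) (nat_lit 2140542256) (nat_lit 64) (nat_lit 3) (nat_lit 71) (nat_lit 3) (nat_lit 71) (nat_lit 5) (nat_lit 350) (nat_lit 350) (nat_lit 320)) (XT.lf (nat_lit 76) (nat_lit 279112500) (nat_lit 0) (nat_lit 1334684665) (nat_lit 532) (nat_lit 8039000274) (nat_lit 65) (nat_lit 5) (nat_lit 64) (nat_lit 3) (nat_lit 71) (nat_lit 5) (nat_lit 351) (nat_lit 350) (nat_lit 319))))) (XT.nd (nat_lit 156) (nat_lit 0) (nat_lit 76) (XT.nd (nat_lit 78) (nat_lit 0) (nat_lit 0) (XT.lf (nat_lit 0) (nat_lit 2617609764) (nat_lit 456) (nat_lit 4649834898) (nat_lit 532) (nat_lit 2710667982) (nat_lit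 65) (nat_lit 5) (nat_lit 71) (nat_lit 5) (nat_lit 72) (nat_lit 5) (nat_lit 352) (nat_lit 350) (nat_lit 318)) (XT.lf (nat_lit 76) (nat_lit 387988734) (nat_lit 0) (nat_lit 3283951765) (nat_lit 532) (nat_lit 6659965103) (nat_lit 66) (nat_lit 5) (nat_lit 65) (nat_lit 5) (nat_lit 72) (nat_lit 5) (nat_lit 353) (nat_lit 350) (nat_lit 317))) (XT.nd (nat_lit 78) (nat_lit 0) (nat_lit 0) (XT.lf (nat_lit 0) (nat_lit 4896611755) (nat_lit 456) (nat_lit 4691937687) (nat_lit 532) (nat_lit 1118637461) (nat_lit 66) (nat_lit 5) (nat_lit 72) (nat_lit 5) (nat_lit 73) (nat_lit 5) (nat_lit 354) (nat_lit 350) (nat_lit 316)) (XT.nd (nat_lit 78) (nat_lit 0) (nat_lit 0) (XT.lf (nat_lit 76) (nat_lit 889788649) (nat_lit 0) (nat_lit 5372339862) (nat_lit 532) (nat_lit 4846992114) (nat_lit 67) (nat_lit 5) (nat_lit 66) (nat_lit 5) (nat_lit 73) (nat_lit 5) (nat_lit 355) (nat_lit 350) (nat_lit 315)) (XT.lf (nat_lit 76)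 (nat_lit 7136519502) (nat_lit 0) (nat_lit 668392436) (nat_lit 532) (nat_lit 3732910320) (nat_lit 67) (nat_lit 5) (nat_lit 66) (nat_lit 5) (nat_lit 73) (nat_lit 5) (nat_lit 356) (nat_lit 350) (nat_lit 314)))))) (XT.nd (nat_lit 390) (nat_lit 684) (nat_lit 0) (XT.nd (nat_lit 156) (nat_lit 684) (nat_lit 0) (XT.nd (nat_lit 78) (nat_lit 0) (nat_lit 0) (XT.lf (nat_lit 0) (nat_lit 1817412402) (nat_lit 456) (nat_lit 7747988058) (nat_lit 532) (nat_lit 2427928117) (nat_lit 61) (nat_lit 5) (nat_lit 67) (nat_lit 5) (nat_lit 68) (nat_lit 5) (nat_lit 357) (nat_lit 350) (nat_lit 313)) (XT.lf (nat_lit 0) (nat_lit 8717345412) (nat_lit 456) (nat_lit 2834063021) (nat_lit 532) (nat_lit 927139898) (nat_lit 61) (nat_lit 5) (nat_lit 67) (nat_lit 5) (nat_lit 68) (nat_lit 5) (nat_lit 358) (nat_lit 350) (nat_lit 312))) (XT.nd (nat_lit 78) (nat_lit 228) (nat_lit 0) (XT.lf (nat_lit 0) (nat_lit 749575050) (nat_lit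 456) (nat_lit 9795041913) (nat_lit 76) (nat_lit 2449429330) (nat_lit 55) (nat_lit 5) (nat_lit 61) (nat_lit 5) (nat_lit 56) (nat_lit 5) (nat_lit 359) (nat_lit 350) (nat_lit 311)) (XT.nd (nat_lit 78) (nat_lit 228) (nat_lit 0) (XT.lf (nat_lit 0) (nat_lit 2642087516) (nat_lit 456) (nat_lit 2763053606) (nat_lit 76) (nat_lit 8133214044) (nat_lit 55) (nat_lit 5) (nat_lit 61) (nat_lit 5) (nat_lit 56) (nat_lit 5) (nat_lit 360) (nat_lit 350) (nat_lit 310)) (XT.lf (nat_lit 0) (nat_lit 4769867301) (nat_lit 304) (nat_lit 9089530816) (nat_lit 76) (nat_lit 260136138) (nat_lit 52) (nat_lit 5) (nat_lit 56) (nat_lit 5) (nat_lit 53) (nat_lit 5) (nat_lit 361) (nat_lit 350) (nat_lit 309))))) (XT.nd (nat_lit 234) (nat_lit 304) (nat_lit 0) (XT.nd (nat_lit 78) (nat_lit 380) (nat_lit 0) (XT.lf (nat_lit 0) (nat_lit 7243988329) (nat_lit 304) (nat_lit 1328342733) (nat_lit 76) (nat_lit 6160819331) (nat_lit 52) (nat_lit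 5) (nat_lit 56) (nat_lit 5) (nat_lit 53) (nat_lit 5) (nat_lit 362) (nat_lit 350) (nat_lit 308)) (XT.nd (nat_lit 78) (nat_lit 152) (nat_lit 0) (XT.lf (nat_lit 0) (nat_lit 7377939212) (nat_lit 228) (nat_lit 2676851062) (nat_lit 304) (nat_lit 5329995294) (nat_lit 49) (nat_lit 5) (nat_lit 52) (nat_lit 5) (nat_lit 53) (nat_lit 5) (nat_lit 363) (nat_lit 350) (nat_lit 307)) (XT.lf (nat_lit 0) (nat_lit 667780442) (nat_lit 152) (nat_lit 12527710074) (nat_lit 228) (nat_lit 2884685945) (nat_lit 47) (nat_lit 5) (nat_lit 49) (nat_lit 5) (nat_lit 50) (nat_lit 5) (nat_lit 364) (nat_lit 350) (nat_lit 306)))) (XT.nd (nat_lit 78) (nat_lit 228) (nat_lit 0) (XT.lf (nat_lit 0) (nat_lit 26247218) (nat_lit 228) (nat_lit 6438613964) (nat_lit 76) (nat_lit 10346205664) (nat_lit 46) (nat_lit 5) (nat_lit 49) (nat_lit 5) (nat_lit 47) (nat_lit 5) (nat_lit 365) (nat_lit 350) (nat_lit 305)) (XT.nd (nat_lit 78) (nat_lit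 0) (nat_lit 0) (XT.lf (nat_lit 0) (nat_lit 3065677155) (nat_lit 304) (nat_lit 14297171966) (nat_lit 76) (nat_lit 227489518) (nat_lit 43) (nat_lit 5) (nat_lit 47) (nat_lit 5) (nat_lit 44) (nat_lit 5) (nat_lit 366) (nat_lit 350) (nat_lit 304)) (XT.lf (nat_lit 0) (nat_lit 6664368048) (nat_lit 304) (nat_lit 4465738297) (nat_lit 76) (nat_lit 7276577617) (nat_lit 43) (nat_lit 5) (nat_lit 47) (nat_lit 5) (nat_lit 44) (nat_lit 5) (nat_lit 367) (nat_lit 350) (nat_lit 303))))))))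
noncomputable def xc123 : XT := (XT.nd (nat_lit 1638) (nat_lit 988) (nat_lit 0) (XT.nd (nat_lit 780) (nat_lit 760) (nat_lit 0) (XT.nd (nat_lit 390) (nat_lit 456) (nat_lit 0) (XT.nd (nat_lit 156) (nat_lit 380) (nat_lit 0) (XT.nd (nat_lit 78) (nat_lit 0) (nat_lit 0) (XT.lf (nat_lit 0) (nat_lit 6432276752) (nat_lit 152) (nat_lit 4243348338) (nat_lit 228) (nat_lit 8602756958) (nat_lit 41) (nat_lit 5) (nat_lit 43) (nat_lit 5) (nat_lit 44) (nat_lit 5) (nat_lit 368) (nat_lit 350) (nat_lit 302)) (XT.lf (nat_lit 0) (nat_lit 15180815194) (nat_lit 228) (nat_lit 1876620476) (nat_lit 76) (nat_lit 3148555126) (nat_lit 41) (nat_lit 5) (nat_lit 44) (nat_lit 5) (nat_lit 42) (nat_lit 5) (nat_lit 369) (nat_lit 350) (nat_lit 301))) (XT.nd (nat_lit 78) (nat_lit 228) (nat_lit 0) (XT.lf (nat_lit 0) (nat_lit 10337827367) (nat_lit 152) (nat_lit 10040523526) (nat_lit 228) (nat_lit 802919043) (nat_lit 39) (nat_lit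 5) (nat_lit 41) (nat_lit 5) (nat_lit 42) (nat_lit 5) (nat_lit 370) (nat_lit 350) (nat_lit 300)) (XT.nd (nat_lit 78) (nat_lit 0) (nat_lit 0) (XT.lf (nat_lit 0) (nat_lit 1341158925) (nat_lit 152) (nat_lit 2286380775) (nat_lit 228) (nat_lit 18595147395) (nat_lit 36) (nat_lit 5) (nat_lit 38) (nat_lit 5) (nat_lit 39) (nat_lit 5) (nat_lit 371) (nat_lit 350) (nat_lit 299)) (XT.lf (nat_lit 0) (nat_lit 8793831788) (nat_lit 228) (nat_lit 8422117732) (nat_lit 76) (nat_lit 6095830494) (nat_lit 36) (nat_lit 5) (nat_lit 39) (nat_lit 5) (nat_lit 37) (nat_lit 5) (nat_lit 372) (nat_lit 350) (nat_lit 298))))) (XT.nd (nat_lit 156) (nat_lit 304) (nat_lit 0) (XT.nd (nat_lit 78) (nat_lit 0) (nat_lit 0) (XT.lf (nat_lit 0) (nat_lit 5196996271) (nat_lit 152) (nat_lit 9336894856) (nat_lit 228) (nat_lit 9941283979) (nat_lit 34) (nat_lit 5) (nat_lit 36) (nat_lit 5) (nat_lit 37) (nat_lit 5) (nat_lit 373) (nat_lit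 350) (nat_lit 297)) (XT.lf (nat_lit 0) (nat_lit 20347927985) (nat_lit 152) (nat_lit 592481221) (nat_lit 228) (nat_lit 4774663256) (nat_lit 34) (nat_lit 5) (nat_lit 36) (nat_lit 5) (nat_lit 37) (nat_lit 5) (nat_lit 374) (nat_lit 350) (nat_lit 296))) (XT.nd (nat_lit 78) (nat_lit 152) (nat_lit 0) (XT.lf (nat_lit 0) (nat_lit 1205596372) (nat_lit 152) (nat_lit 17146385924) (nat_lit 76) (nat_lit 8665391905) (nat_lit 32) (nat_lit 5) (nat_lit 34) (nat_lit 5) (nat_lit 33) (nat_lit 5) (nat_lit 375) (nat_lit 350) (nat_lit 295)) (XT.nd (nat_lit 78) (nat_lit 152) (nat_lit 0) (XT.lf (nat_lit 0) (nat_lit 7550870091) (nat_lit 152) (nat_lit 1957550762) (nat_lit 76) (nat_lit 18893962628) (nat_lit 32) (nat_lit 5) (nat_lit 34) (nat_lit 5) (nat_lit 33) (nat_lit 5) (nat_lit 376) (nat_lit 350) (nat_lit 294)) (XT.lf (nat_lit 0) (nat_lit 14759034793) (nat_lit 228) (nat_lit 14708385380) (nat_lit 76) (nat_lit 402359870)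 (nat_lit 30) (nat_lit 5) (nat_lit 33) (nat_lit 5) (nat_lit 31) (nat_lit 4) (nat_lit 377) (nat_lit 350) (nat_lit 293)))))) (XT.nd (nat_lit 390) (nat_lit 380) (nat_lit 0) (XT.nd (nat_lit 156) (nat_lit 304) (nat_lit 0) (XT.nd (nat_lit 78) (nat_lit 0) (nat_lit 0) (XT.lf (nat_lit 0) (nat_lit 2136018179) (nat_lit 76) (nat_lit 20741658454) (nat_lit 152) (nat_lit 8550193248) (nat_lit 29) (nat_lit 5) (nat_lit 30) (nat_lit 5) (nat_lit 31) (nat_lit 4) (nat_lit 378) (nat_lit 350) (nat_lit 292)) (XT.lf (nat_lit 0) (nat_lit 21131928916) (nat_lit 76) (nat_lit 10897259052) (nat_lit 152) (nat_lit 1050755601) (nat_lit 29) (nat_lit 5) (nat_lit 30) (nat_lit 5) (nat_lit 31) (nat_lit 4) (nat_lit 379) (nat_lit 350) (nat_lit 291))) (XT.nd (nat_lit 78) (nat_lit 76) (nat_lit 0) (XT.lf (nat_lit 0) (nat_lit 6846878693) (nat_lit 228) (nat_lit 27911370801) (nat_lit 76) (nat_lit 80310555) (nat_lit 26) (nat_lit 5) (nat_lit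 29) (nat_lit 5) (nat_lit 27) (nat_lit 4) (nat_lit 380) (nat_lit 350) (nat_lit 290)) (XT.nd (nat_lit 78) (nat_lit 76) (nat_lit 0) (XT.lf (nat_lit 0) (nat_lit 15920204649) (nat_lit 228) (nat_lit 9069997108) (nat_lit 76) (nat_lit 11697434273) (nat_lit 26) (nat_lit 5) (nat_lit 29) (nat_lit 5) (nat_lit 27) (nat_lit 4) (nat_lit 381) (nat_lit 350) (nat_lit 289)) (XT.lf (nat_lit 0) (nat_lit 11842049633) (nat_lit 76) (nat_lit 14145887732) (nat_lit 152) (nat_lit 12675222550) (nat_lit 25) (nat_lit 5) (nat_lit 26) (nat_lit 5) (nat_lit 27) (nat_lit 4) (nat_lit 382) (nat_lit 350) (nat_lit 288))))) (XT.nd (nat_lit 234) (nat_lit 228) (nat_lit 0) (XT.nd (nat_lit 78) (nat_lit 152) (nat_lit 0) (XT.lf (nat_lit 0) (nat_lit 34914589543) (nat_lit 76) (nat_lit 2178752208) (nat_lit 152) (nat_lit 3684808424) (nat_lit 25) (nat_lit 5) (nat_lit 26) (nat_lit 5) (nat_lit 27) (nat_lit 4) (nat_lit 383) (nat_lit 350) (nat_lit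 287)) (XT.nd (nat_lit 78) (nat_lit 0) (nat_lit 0) (XT.lf (nat_lit 0) (nat_lit 6401543512) (nat_lit 152) (nat_lit 25818386387) (nat_lit 76) (nat_lit 10776574668) (nat_lit 23) (nat_lit 5) (nat_lit 25) (nat_lit 5) (nat_lit 24) (nat_lit 4) (nat_lit 384) (nat_lit 350) (nat_lit 286)) (XT.lf (nat_lit 0) (nat_lit 17302040591) (nat_lit 152) (nat_lit 3166548744) (nat_lit 76) (nat_lit 24899579977) (nat_lit 23) (nat_lit 5) (nat_lit 25) (nat_lit 5) (nat_lit 24) (nat_lit 4) (nat_lit 385) (nat_lit 350) (nat_lit 285)))) (XT.nd (nat_lit 78) (nat_lit 152) (nat_lit 0) (XT.lf (nat_lit 0) (nat_lit 22392429443) (nat_lit 76) (nat_lit 7207017098) (nat_lit 152) (nat_lit 18288134629) (nat_lit 22) (nat_lit 5) (nat_lit 23) (nat_lit 5) (nat_lit 24) (nat_lit 4) (nat_lit 386) (nat_lit 350) (nat_lit 284)) (XT.nd (nat_lit 78) (nat_lit 152) (nat_lit 0) (XT.lf (nat_lit 0) (nat_lit 43127082220) (nat_lit 152) (nat_lit 624106573)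 (nat_lit 0) (nat_lit 6837645405) (nat_lit 22) (nat_lit 5) (nat_lit 24) (nat_lit 4) (nat_lit 22) (nat_lit 4) (nat_lit 387) (nat_lit 350) (nat_lit 283)) (XT.lf (nat_lit 0) (nat_lit 4874314771) (nat_lit 152) (nat_lit 26166441991) (nat_lit 76) (nat_lit 22388876515) (nat_lit 20) (nat_lit 5) (nat_lit 22) (nat_lit 5) (nat_lit 21) (nat_lit 4) (nat_lit 388) (nat_lit 350) (nat_lit 282))))))) (XT.nd (nat_lit 780) (nat_lit 456) (nat_lit 0) (XT.nd (nat_lit 390) (nat_lit 304) (nat_lit 0) (XT.nd (nat_lit 156) (nat_lit 152) (nat_lit 0) (XT.nd (nat_lit 78) (nat_lit 0) (nat_lit 0) (XT.lf (nat_lit 0) (nat_lit 739881968) (nat_lit 76) (nat_lit 17077100972) (nat_lit 152) (nat_lit 38663383385) (nat_lit 19) (nat_lit 5) (nat_lit 20) (nat_lit 5) (nat_lit 21) (nat_lit 4) (nat_lit 389) (nat_lit 350) (nat_lit 281)) (XT.lf (nat_lit 0) (nat_lit 31263905504) (nat_lit 76) (nat_lit 1234510508) (nat_lit 152) (nat_lit 27220476245)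 (nat_lit 19) (nat_lit 5) (nat_lit 20) (nat_lit 5) (nat_lit 21) (nat_lit 4) (nat_lit 390) (nat_lit 350) (nat_lit 280))) (XT.nd (nat_lit 78) (nat_lit 76) (nat_lit 0) (XT.lf (nat_lit 0) (nat_lit 641775092) (nat_lit 76) (nat_lit 48098397805) (nat_lit 76) (nat_lit 14445464813) (nat_lit 18) (nat_lit 4) (nat_lit 19) (nat_lit 5) (nat_lit 19) (nat_lit 4) (nat_lit 391) (nat_lit 350) (nat_lit 279)) (XT.nd (nat_lit 78) (nat_lit 0) (nat_lit 0) (XT.lf (nat_lit 0) (nat_lit 202881238) (nat_lit 152) (nat_lit 33241543432) (nat_lit 76) (nat_lit 33421035981) (nat_lit 17) (nat_lit 5) (nat_lit 19) (nat_lit 5) (nat_lit 18) (nat_lit 4) (nat_lit 392) (nat_lit 350) (nat_lit 278)) (XT.lf (nat_lit 0) (nat_lit 15232120659) (nat_lit 152) (nat_lit 1990543418) (nat_lit 76) (nat_lit 53587834053) (nat_lit 17) (nat_lit 5) (nat_lit 19) (nat_lit 5) (nat_lit 18) (nat_lit 4) (nat_lit 393) (nat_lit 350) (nat_lit 277))))) (XT.nd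 (nat_lit 156) (nat_lit 228) (nat_lit 0) (XT.nd (nat_lit 78) (nat_lit 0) (nat_lit 0) (XT.lf (nat_lit 0) (nat_lit 32285318843) (nat_lit 152) (nat_lit 41622222133) (nat_lit 0) (nat_lit 1097869665) (nat_lit 16) (nat_lit 5) (nat_lit 18) (nat_lit 4) (nat_lit 16) (nat_lit 4) (nat_lit 394) (nat_lit 350) (nat_lit 276)) (XT.lf (nat_lit 0) (nat_lit 51196260521) (nat_lit 152) (nat_lit 8299160591) (nat_lit 0) (nat_lit 20001017513) (nat_lit 16) (nat_lit 5) (nat_lit 18) (nat_lit 4) (nat_lit 16) (nat_lit 4) (nat_lit 395) (nat_lit 350) (nat_lit 275))) (XT.nd (nat_lit 78) (nat_lit 152) (nat_lit 0) (XT.lf (nat_lit 0) (nat_lit 29129450602) (nat_lit 76) (nat_lit 43182216005) (nat_lit 76) (nat_lit 11979756488) (nat_lit 15) (nat_lit 4) (nat_lit 16) (nat_lit 5) (nat_lit 16) (nat_lit 4) (nat_lit 396) (nat_lit 350) (nat_lit 274)) (XT.nd (nat_lit 78) (nat_lit 76) (nat_lit 0) (XT.lf (nat_lit 0) (nat_lit 5587708467)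 (nat_lit 152) (nat_lit 19586707856) (nat_lit 76) (nat_lit 64266818861) (nat_lit 14) (nat_lit 5) (nat_lit 16) (nat_lit 5) (nat_lit 15) (nat_lit 4) (nat_lit 397) (nat_lit 350) (nat_lit 273)) (XT.lf (nat_lit 0) (nat_lit 19481770222) (nat_lit 76) (nat_lit 4891834913) (nat_lit 152) (nat_lit 70567714991) (nat_lit 13) (nat_lit 5) (nat_lit 14) (nat_lit 5) (nat_lit 15) (nat_lit 4) (nat_lit 398) (nat_lit 350) (nat_lit 272)))))) (XT.nd (nat_lit 390) (nat_lit 228) (nat_lit 0) (XT.nd (nat_lit 156) (nat_lit 152) (nat_lit 0) (XT.nd (nat_lit 78) (nat_lit 76) (nat_lit 0) (XT.lf (nat_lit 0) (nat_lit 45612753572) (nat_lit 152) (nat_lit 38488261587) (nat_lit 0) (nat_lit 16704367314) (nat_lit 13) (nat_lit 5) (nat_lit 15) (nat_lit 4) (nat_lit 13) (nat_lit 4) (nat_lit 399) (nat_lit 350) (nat_lit 271)) (XT.lf (nat_lit 0) (nat_lit 1367005087) (nat_lit 76) (nat_lit 67336339255) (nat_lit 76) (nat_lit 38423041562)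 (nat_lit 12) (nat_lit 4) (nat_lit 13) (nat_lit 5) (nat_lit 13) (nat_lit 4) (nat_lit 400) (nat_lit 350) (nat_lit 270))) (XT.nd (nat_lit 78) (nat_lit 152) (nat_lit 0) (XT.lf (nat_lit 0) (nat_lit 46584888386) (nat_lit 76) (nat_lit 48101216792) (nat_lit 76) (nat_lit 19183371474) (nat_lit 12) (nat_lit 4) (nat_lit 13) (nat_lit 5) (nat_lit 13) (nat_lit 4) (nat_lit 401) (nat_lit 350) (nat_lit 269)) (XT.nd (nat_lit 78) (nat_lit 76) (nat_lit 0) (XT.lf (nat_lit 0) (nat_lit 1508615902) (nat_lit 152) (nat_lit 25784135002) (nat_lit 76) (nat_lit 93856758352) (nat_lit 11) (nat_lit 5) (nat_lit 13) (nat_lit 5) (nat_lit 12) (nat_lit 4) (nat_lit 402) (nat_lit 350) (nat_lit 268)) (XT.lf (nat_lit 0) (nat_lit 19500669502) (nat_lit 76) (nat_lit 3781361477) (nat_lit 152) (nat_lit 105653055104) (nat_lit 10) (nat_lit 5) (nat_lit 11) (nat_lit 5) (nat_lit 12) (nat_lit 4) (nat_lit 403) (nat_lit 350) (nat_lit 267)))))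 (XT.nd (nat_lit 234) (nat_lit 152) (nat_lit 0) (XT.nd (nat_lit 78) (nat_lit 76) (nat_lit 0) (XT.lf (nat_lit 0) (nat_lit 48033865601) (nat_lit 152) (nat_lit 67963489030) (nat_lit 0) (nat_lit 21247231354) (nat_lit 10) (nat_lit 5) (nat_lit 12) (nat_lit 4) (nat_lit 10) (nat_lit 4) (nat_lit 404) (nat_lit 350) (nat_lit 266)) (XT.nd (nat_lit 78) (nat_lit 76) (nat_lit 0) (XT.lf (nat_lit 0) (nat_lit 74858052616) (nat_lit 152) (nat_lit 23285094070) (nat_lit 0) (nat_lit 48068323332) (nat_lit 10) (nat_lit 5) (nat_lit 12) (nat_lit 4) (nat_lit 10) (nat_lit 4) (nat_lit 405) (nat_lit 350) (nat_lit 265)) (XT.lf (nat_lit 0) (nat_lit 26270634526) (nat_lit 76) (nat_lit 78183783200) (nat_lit 76) (nat_lit 51391188142) (nat_lit 9) (nat_lit 4) (nat_lit 10) (nat_lit 5) (nat_lit 10) (nat_lit 4) (nat_lit 406) (nat_lit 350) (nat_lit 264)))) (XT.nd (nat_lit 78) (nat_lit 152) (nat_lit 0) (XT.lf (nat_lit 0) (nat_lit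 81104244898) (nat_lit 76) (nat_lit 55945488711) (nat_lit 76) (nat_lit 29150240157) (nat_lit 9) (nat_lit 4) (nat_lit 10) (nat_lit 5) (nat_lit 10) (nat_lit 4) (nat_lit 407) (nat_lit 350) (nat_lit 263)) (XT.nd (nat_lit 78) (nat_lit 152) (nat_lit 0) (XT.lf (nat_lit 0) (nat_lit 140314525168) (nat_lit 76) (nat_lit 31933136470) (nat_lit 76) (nat_lit 5135430976) (nat_lit 9) (nat_lit 4) (nat_lit 10) (nat_lit 5) (nat_lit 10) (nat_lit 4) (nat_lit 408) (nat_lit 350) (nat_lit 262)) (XT.lf (nat_lit 0) (nat_lit 15043522800) (nat_lit 76) (nat_lit 5073546064) (nat_lit 152) (nat_lit 169275209438) (nat_lit 7) (nat_lit 5) (nat_lit 8) (nat_lit 5) (nat_lit 9) (nat_lit 4) (nat_lit 409) (nat_lit 350) (nat_lit 261))))))))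
noncomputable def xc124 : XT := (XT.nd (nat_lit 1560) (nat_lit 152) (nat_lit 0) (XT.nd (nat_lit 780) (nat_lit 76) (nat_lit 0) (XT.nd (nat_lit 390) (nat_lit 152) (nat_lit 0) (XT.nd (nat_lit 156) (nat_lit 76) (nat_lit 0) (XT.nd (nat_lit 78) (nat_lit 0) (nat_lit 0) (XT.lf (nat_lit 0) (nat_lit 48723055130) (nat_lit 152) (nat_lit 129593306382) (nat_lit 0) (nat_lit 23906308030) (nat_lit 7) (nat_lit 5) (nat_lit 9) (nat_lit 4) (nat_lit 7) (nat_lit 4) (nat_lit 410) (nat_lit 350) (nat_lit 260)) (XT.lf (nat_lit 0) (nat_lit 79744906988) (nat_lit 152) (nat_lit 81398040539) (nat_lit 0) (nat_lit 54926353964) (nat_lit 7) (nat_lit 5) (nat_lit 9) (nat_lit 4) (nat_lit 7) (nat_lit 4) (nat_lit 411) (nat_lit 350) (nat_lit 259))) (XT.nd (nat_lit 78) (nat_lit 76) (nat_lit 0) (XT.lf (nat_lit 0) (nat_lit 113244438730) (nat_lit 152) (nat_lit 29355337492) (nat_lit 0) (nat_lit 88424213553) (nat_lit 7) (nat_lit 5)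 (nat_lit 9) (nat_lit 4) (nat_lit 7) (nat_lit 4) (nat_lit 412) (nat_lit 350) (nat_lit 258)) (XT.nd (nat_lit 78) (nat_lit 0) (nat_lit 0) (XT.lf (nat_lit 0) (nat_lit 28256719511) (nat_lit 76) (nat_lit 121843021371) (nat_lit 76) (nat_lit 97021247905) (nat_lit 6) (nat_lit 4) (nat_lit 7) (nat_lit 5) (nat_lit 7) (nat_lit 4) (nat_lit 413) (nat_lit 350) (nat_lit 257)) (XT.lf (nat_lit 0) (nat_lit 92139819136) (nat_lit 76) (nat_lit 98562609504) (nat_lit 76) (nat_lit 73739402437) (nat_lit 6) (nat_lit 4) (nat_lit 7) (nat_lit 5) (nat_lit 7) (nat_lit 4) (nat_lit 414) (nat_lit 350) (nat_lit 256))))) (XT.nd (nat_lit 156) (nat_lit 152) (nat_lit 0) (XT.nd (nat_lit 78) (nat_lit 0) (nat_lit 0) (XT.lf (nat_lit 0) (nat_lit 161126727849) (nat_lit 76) (nat_lit 73423209575) (nat_lit 76) (nat_lit 48598675100) (nat_lit 6) (nat_lit 4) (nat_lit 7) (nat_lit 5) (nat_lit 7) (nat_lit 4) (nat_lit 415) (nat_lit 350) (nat_lit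 255)) (XT.lf (nat_lit 0) (nat_lit 235626256960) (nat_lit 76) (nat_lit 46275847361) (nat_lit 76) (nat_lit 21450083805) (nat_lit 6) (nat_lit 4) (nat_lit 7) (nat_lit 5) (nat_lit 7) (nat_lit 4) (nat_lit 416) (nat_lit 350) (nat_lit 254))) (XT.nd (nat_lit 78) (nat_lit 76) (nat_lit 0) (XT.lf (nat_lit 0) (nat_lit 7473700181) (nat_lit 152) (nat_lit 9281605218) (nat_lit 76) (nat_lit 308401840772) (nat_lit 5) (nat_lit 5) (nat_lit 7) (nat_lit 5) (nat_lit 6) (nat_lit 4) (nat_lit 417) (nat_lit 350) (nat_lit 253)) (XT.nd (nat_lit 78) (nat_lit 0) (nat_lit 0) (XT.lf (nat_lit 0) (nat_lit 39311746764) (nat_lit 152) (nat_lit 292886545721) (nat_lit 0) (nat_lit 16322899232) (nat_lit 4) (nat_lit 5) (nat_lit 6) (nat_lit 4) (nat_lit 4) (nat_lit 4) (nat_lit 418) (nat_lit 350) (nat_lit 252)) (XT.lf (nat_lit 0) (nat_lit 74389650607) (nat_lit 152) (nat_lit 247909385728) (nat_lit 0) (nat_lit 51399899663) (nat_lit 4)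 (nat_lit 5) (nat_lit 6) (nat_lit 4) (nat_lit 4) (nat_lit 4) (nat_lit 419) (nat_lit 350) (nat_lit 251)))))) (XT.nd (nat_lit 390) (nat_lit 0) (nat_lit 0) (XT.nd (nat_lit 156) (nat_lit 76) (nat_lit 0) (XT.nd (nat_lit 78) (nat_lit 0) (nat_lit 0) (XT.lf (nat_lit 0) (nat_lit 112271234615) (nat_lit 152) (nat_lit 199339222357) (nat_lit 0) (nat_lit 89280647179) (nat_lit 4) (nat_lit 5) (nat_lit 6) (nat_lit 4) (nat_lit 4) (nat_lit 4) (nat_lit 420) (nat_lit 350) (nat_lit 250)) (XT.lf (nat_lit 0) (nat_lit 153180982250) (nat_lit 152) (nat_lit 146888232417) (nat_lit 0) (nat_lit 130189620284) (nat_lit 4) (nat_lit 5) (nat_lit 6) (nat_lit 4) (nat_lit 4) (nat_lit 4) (nat_lit 421) (nat_lit 350) (nat_lit 249))) (XT.nd (nat_lit 78) (nat_lit 76) (nat_lit 0) (XT.lf (nat_lit 0) (nat_lit 197361321646) (nat_lit 152) (nat_lit 90245595227) (nat_lit 0) (nat_lit 174369242522) (nat_lit 4) (nat_lit 5) (nat_lit 6) (nat_lit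 4) (nat_lit 4) (nat_lit 4) (nat_lit 422) (nat_lit 350) (nat_lit 248)) (XT.nd (nat_lit 78) (nat_lit 76) (nat_lit 0) (XT.lf (nat_lit 0) (nat_lit 245074062221) (nat_lit 152) (nat_lit 29075650716) (nat_lit 0) (nat_lit 222081319063) (nat_lit 4) (nat_lit 5) (nat_lit 6) (nat_lit 4) (nat_lit 4) (nat_lit 4) (nat_lit 423) (nat_lit 350) (nat_lit 247)) (XT.lf (nat_lit 0) (nat_lit 38931606297) (nat_lit 76) (nat_lit 258606645912) (nat_lit 76) (nat_lit 235613287907) (nat_lit 3) (nat_lit 4) (nat_lit 4) (nat_lit 5) (nat_lit 4) (nat_lit 4) (nat_lit 424) (nat_lit 350) (nat_lit 246))))) (XT.nd (nat_lit 156) (nat_lit 0) (nat_lit 0) (XT.nd (nat_lit 78) (nat_lit 0) (nat_lit 0) (XT.lf (nat_lit 0) (nat_lit 114029298408) (nat_lit 76) (nat_lit 240963432793) (nat_lit 76) (nat_lit 217969505486) (nat_lit 3) (nat_lit 4) (nat_lit 4) (nat_lit 5) (nat_lit 4) (nat_lit 4) (nat_lit 425) (nat_lit 350) (nat_lit 245)) (XT.lf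 (nat_lit 0) (nat_lit 195131376734) (nat_lit 76) (nat_lit 221910501024) (nat_lit 76) (nat_lit 198916046584) (nat_lit 3) (nat_lit 4) (nat_lit 4) (nat_lit 5) (nat_lit 4) (nat_lit 4) (nat_lit 426) (nat_lit 350) (nat_lit 244))) (XT.nd (nat_lit 78) (nat_lit 0) (nat_lit 0) (XT.lf (nat_lit 0) (nat_lit 282718446186) (nat_lit 76) (nat_lit 201334944342) (nat_lit 76) (nat_lit 178340001817) (nat_lit 3) (nat_lit 4) (nat_lit 4) (nat_lit 5) (nat_lit 4) (nat_lit 4) (nat_lit 427) (nat_lit 350) (nat_lit 243)) (XT.nd (nat_lit 78) (nat_lit 0) (nat_lit 0) (XT.lf (nat_lit 0) (nat_lit 377309541249) (nat_lit 76) (nat_lit 179114833522) (nat_lit 76) (nat_lit 156119439066) (nat_lit 3) (nat_lit 4) (nat_lit 4) (nat_lit 5) (nat_lit 4) (nat_lit 4) (nat_lit 428) (nat_lit 350) (nat_lit 242)) (XT.lf (nat_lit 0) (nat_lit 479465201745) (nat_lit 76) (nat_lit 155118493834) (nat_lit 76) (nat_lit 132122680924) (nat_lit 3) (nat_lit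 4) (nat_lit 4) (nat_lit 5) (nat_lit 4) (nat_lit 4) (nat_lit 429) (nat_lit 350) (nat_lit 241))))))) (XT.nd (nat_lit 780) (nat_lit 0) (nat_lit 0) (XT.nd (nat_lit 390) (nat_lit 0) (nat_lit 0) (XT.nd (nat_lit 156) (nat_lit 152) (nat_lit 0) (XT.nd (nat_lit 78) (nat_lit 0) (nat_lit 0) (XT.lf (nat_lit 0) (nat_lit 589790794552) (nat_lit 76) (nat_lit 129203724747) (nat_lit 76) (nat_lit 106207524378) (nat_lit 3) (nat_lit 4) (nat_lit 4) (nat_lit 5) (nat_lit 4) (nat_lit 4) (nat_lit 430) (nat_lit 350) (nat_lit 240)) (XT.lf (nat_lit 0) (nat_lit 708940100959) (nat_lit 76) (nat_lit 101216957257) (nat_lit 76) (nat_lit 78220398132) (nat_lit 3) (nat_lit 4) (nat_lit 4) (nat_lit 5) (nat_lit 4) (nat_lit 4) (nat_lit 431) (nat_lit 350) (nat_lit 239))) (XT.nd (nat_lit 78) (nat_lit 152) (nat_lit 0) (XT.lf (nat_lit 0) (nat_lit 837619190932) (nat_lit 76) (nat_lit 70992343855) (nat_lit 76) (nat_lit 47995452547) (nat_lit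 3) (nat_lit 4) (nat_lit 4) (nat_lit 5) (nat_lit 4) (nat_lit 4) (nat_lit 432) (nat_lit 350) (nat_lit 238)) (XT.nd (nat_lit 78) (nat_lit 152) (nat_lit 0) (XT.lf (nat_lit 0) (nat_lit 976590607224) (nat_lit 76) (nat_lit 38350775719) (nat_lit 76) (nat_lit 15353576835) (nat_lit 3) (nat_lit 4) (nat_lit 4) (nat_lit 5) (nat_lit 4) (nat_lit 4) (nat_lit 433) (nat_lit 350) (nat_lit 237)) (XT.lf (nat_lit 0) (nat_lit 17180727257) (nat_lit 76) (nat_lit 2135720307) (nat_lit 152) (nat_lit 1090490254769) (nat_lit 1) (nat_lit 5) (nat_lit 2) (nat_lit 5) (nat_lit 3) (nat_lit 4) (nat_lit 434) (nat_lit 350) (nat_lit 236))))) (XT.nd (nat_lit 156) (nat_lit 0) (nat_lit 0) (XT.nd (nat_lit 78) (nat_lit 0) (nat_lit 0) (XT.lf (nat_lit 0) (nat_lit 58325445302) (nat_lit 152) (nat_lit 1100099211665) (nat_lit 0) (nat_lit 37031234770) (nat_lit 1) (nat_lit 5) (nat_lit 3) (nat_lit 4) (nat_lit 1) (nat_lit 4) (nat_lit 435)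 (nat_lit 350) (nat_lit 235)) (XT.lf (nat_lit 0) (nat_lit 100509770331) (nat_lit 152) (nat_lit 1108227543685) (nat_lit 0) (nat_lit 79215333721) (nat_lit 1) (nat_lit 5) (nat_lit 3) (nat_lit 4) (nat_lit 1) (nat_lit 4) (nat_lit 436) (nat_lit 350) (nat_lit 234))) (XT.nd (nat_lit 78) (nat_lit 0) (nat_lit 0) (XT.lf (nat_lit 0) (nat_lit 146068039714) (nat_lit 152) (nat_lit 1117007774904) (nat_lit 0) (nat_lit 124773393772) (nat_lit 1) (nat_lit 5) (nat_lit 3) (nat_lit 4) (nat_lit 1) (nat_lit 4) (nat_lit 437) (nat_lit 350) (nat_lit 233)) (XT.nd (nat_lit 78) (nat_lit 0) (nat_lit 0) (XT.lf (nat_lit 0) (nat_lit 195270228379) (nat_lit 152) (nat_lit 1126491936323) (nat_lit 0) (nat_lit 173975388612) (nat_lit 1) (nat_lit 5) (nat_lit 3) (nat_lit 4) (nat_lit 1) (nat_lit 4) (nat_lit 438) (nat_lit 350) (nat_lit 232)) (XT.lf (nat_lit 0) (nat_lit 248407904851) (nat_lit 152) (nat_lit 1136736230379) (nat_lit 0)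 (nat_lit 227112885617) (nat_lit 1) (nat_lit 5) (nat_lit 3) (nat_lit 4) (nat_lit 1) (nat_lit 4) (nat_lit 439) (nat_lit 350) (nat_lit 231)))))) (XT.nd (nat_lit 390) (nat_lit 0) (nat_lit 0) (XT.nd (nat_lit 156) (nat_lit 0) (nat_lit 0) (XT.nd (nat_lit 78) (nat_lit 0) (nat_lit 0) (XT.lf (nat_lit 0) (nat_lit 305795959067) (nat_lit 152) (nat_lit 1147801364002) (nat_lit 0) (nat_lit 284500773658) (nat_lit 1) (nat_lit 5) (nat_lit 3) (nat_lit 4) (nat_lit 1) (nat_lit 4) (nat_lit 440) (nat_lit 350) (nat_lit 230)) (XT.lf (nat_lit 0) (nat_lit 367774468383) (nat_lit 152) (nat_lit 1159752908352) (nat_lit 0) (nat_lit 346479129109) (nat_lit 1) (nat_lit 5) (nat_lit 3) (nat_lit 4) (nat_lit 1) (nat_lit 4) (nat_lit 441) (nat_lit 350) (nat_lit 229))) (XT.nd (nat_lit 78) (nat_lit 0) (nat_lit 0) (XT.lf (nat_lit 0) (nat_lit 434710712855) (nat_lit 152) (nat_lit 1172661687396) (nat_lit 0) (nat_lit 413415231114) (nat_lit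 1) (nat_lit 5) (nat_lit 3) (nat_lit 4) (nat_lit 1) (nat_lit 4) (nat_lit 442) (nat_lit 350) (nat_lit 228)) (XT.nd (nat_lit 78) (nat_lit 0) (nat_lit 0) (XT.lf (nat_lit 0) (nat_lit 507001351709) (nat_lit 152) (nat_lit 1186604197602) (nat_lit 0) (nat_lit 485705738054) (nat_lit 1) (nat_lit 5) (nat_lit 3) (nat_lit 4) (nat_lit 1) (nat_lit 4) (nat_lit 443) (nat_lit 350) (nat_lit 227)) (XT.lf (nat_lit 0) (nat_lit 585074773917) (nat_lit 152) (nat_lit 1201663061254) (nat_lit 0) (nat_lit 563779038119) (nat_lit 1) (nat_lit 5) (nat_lit 3) (nat_lit 4) (nat_lit 1) (nat_lit 4) (nat_lit 444) (nat_lit 350) (nat_lit 226))))) (XT.nd (nat_lit 234) (nat_lit 0) (nat_lit 0) (XT.nd (nat_lit 78) (nat_lit 0) (nat_lit 0) (XT.lf (nat_lit 0) (nat_lit 669393636796) (nat_lit 152) (nat_lit 1217927516062) (nat_lit 0) (nat_lit 648097787902) (nat_lit 1) (nat_lit 5) (nat_lit 3) (nat_lit 4) (nat_lit 1) (nat_lit 4) (nat_lit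 445) (nat_lit 350) (nat_lit 225)) (XT.nd (nat_lit 78) (nat_lit 0) (nat_lit 0) (XT.lf (nat_lit 0) (nat_lit 760457607680) (nat_lit 152) (nat_lit 1235493943980) (nat_lit 0) (nat_lit 739161654068) (nat_lit 1) (nat_lit 5) (nat_lit 3) (nat_lit 4) (nat_lit 1) (nat_lit 4) (nat_lit 446) (nat_lit 350) (nat_lit 224)) (XT.lf (nat_lit 0) (nat_lit 858806324916) (nat_lit 152) (nat_lit 1254466442359) (nat_lit 0) (nat_lit 837510274343) (nat_lit 1) (nat_lit 5) (nat_lit 3) (nat_lit 4) (nat_lit 1) (nat_lit 4) (nat_lit 447) (nat_lit 350) (nat_lit 223)))) (XT.nd (nat_lit 78) (nat_lit 0) (nat_lit 0) (XT.lf (nat_lit 0) (nat_lit 965022595717) (nat_lit 152) (nat_lit 1274957440819) (nat_lit 0) (nat_lit 943726455366) (nat_lit 1) (nat_lit 5) (nat_lit 3) (nat_lit 4) (nat_lit 1) (nat_lit 4) (nat_lit 448) (nat_lit 350) (nat_lit 222)) (XT.nd (nat_lit 78) (nat_lit 0) (nat_lit 0) (XT.lf (nat_lit 0) (nat_lit 1079735849836)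 (nat_lit 152) (nat_lit 1297088367499) (nat_lit 0) (nat_lit 1058439626357) (nat_lit 1) (nat_lit 5) (nat_lit 3) (nat_lit 4) (nat_lit 1) (nat_lit 4) (nat_lit 449) (nat_lit 350) (nat_lit 221)) (XT.lf (nat_lit 0) (nat_lit 1203625869520) (nat_lit 152) (nat_lit 1320990368631) (nat_lit 0) (nat_lit 1182329569070) (nat_lit 1) (nat_lit 5) (nat_lit 3) (nat_lit 4) (nat_lit 1) (nat_lit 4) (nat_lit 450) (nat_lit 350) (nat_lit 220))))))))
noncomputable def xc125 : XT := (XT.nd (nat_lit 45942) (nat_lit 0) (nat_lit 2128) (XT.nd (nat_lit 780) (nat_lit 0) (nat_lit 0) (XT.nd (nat_lit 390) (nat_lit 0) (nat_lit 0) (XT.nd (nat_lit 156) (nat_lit 0) (nat_lit 0) (XT.nd (nat_lit 78) (nat_lit 0) (nat_lit 0) (XT.lf (nat_lit 0) (nat_lit 1337426817848) (nat_lit 152) (nat_lit 1346805085704) (nat_lit 0) (nat_lit 1316130446128) (nat_lit 1) (nat_lit 5) (nat_lit 3) (nat_lit 4) (nat_lit 1) (nat_lit 4) (nat_lit 451) (nat_lit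 350) (nat_lit 219)) (XT.lf (nat_lit 0) (nat_lit 1481931589329) (nat_lit 152) (nat_lit 1374685494818) (nat_lit 0) (nat_lit 1460635151619) (nat_lit 1) (nat_lit 5) (nat_lit 3) (nat_lit 4) (nat_lit 1) (nat_lit 4) (nat_lit 452) (nat_lit 350) (nat_lit 218))) (XT.nd (nat_lit 78) (nat_lit 0) (nat_lit 0) (XT.lf (nat_lit 0) (nat_lit 1637996508534) (nat_lit 152) (nat_lit 1404796813212) (nat_lit 0) (nat_lit 1616700009723) (nat_lit 1) (nat_lit 5) (nat_lit 3) (nat_lit 4) (nat_lit 1) (nat_lit 4) (nat_lit 453) (nat_lit 350) (nat_lit 217)) (XT.nd (nat_lit 78) (nat_lit 0) (nat_lit 0) (XT.lf (nat_lit 0) (nat_lit 1806546404615) (nat_lit 152) (nat_lit 1437317478330) (nat_lit 0) (nat_lit 1785249849228) (nat_lit 1) (nat_lit 5) (nat_lit 3) (nat_lit 4) (nat_lit 1) (nat_lit 4) (nat_lit 454) (nat_lit 350) (nat_lit 216)) (XT.lf (nat_lit 0) (nat_lit 1988580091770) (nat_lit 152) (nat_lit 1472440205223) (nat_lit 0)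 (nat_lit 1967283483998) (nat_lit 1) (nat_lit 5) (nat_lit 3) (nat_lit 4) (nat_lit 1) (nat_lit 4) (nat_lit 455) (nat_lit 350) (nat_lit 215))))) (XT.nd (nat_lit 156) (nat_lit 0) (nat_lit 0) (XT.nd (nat_lit 78) (nat_lit 0) (nat_lit 0) (XT.lf (nat_lit 0) (nat_lit 2185176288146) (nat_lit 152) (nat_lit 1510373128569) (nat_lit 0) (nat_lit 2163879631869) (nat_lit 1) (nat_lit 5) (nat_lit 3) (nat_lit 4) (nat_lit 1) (nat_lit 4) (nat_lit 456) (nat_lit 350) (nat_lit 214)) (XT.lf (nat_lit 0) (nat_lit 2397500008239) (nat_lit 152) (nat_lit 1551341036063) (nat_lit 0) (nat_lit 2376203307051) (nat_lit 1) (nat_lit 5) (nat_lit 3) (nat_lit 4) (nat_lit 1) (nat_lit 4) (nat_lit 457) (nat_lit 350) (nat_lit 213))) (XT.nd (nat_lit 78) (nat_lit 0) (nat_lit 0) (XT.lf (nat_lit 0) (nat_lit 2626809466688) (nat_lit 152) (nat_lit 1595586700489) (nat_lit 0) (nat_lit 2605512723915) (nat_lit 1) (nat_lit 5) (nat_lit 3) (nat_lit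 4) (nat_lit 1) (nat_lit 4) (nat_lit 458) (nat_lit 350) (nat_lit 212)) (XT.nd (nat_lit 78) (nat_lit 0) (nat_lit 0) (XT.lf (nat_lit 0) (nat_lit 2874463534356) (nat_lit 152) (nat_lit 1643372318378) (nat_lit 0) (nat_lit 2853166753079) (nat_lit 1) (nat_lit 5) (nat_lit 3) (nat_lit 4) (nat_lit 1) (nat_lit 4) (nat_lit 459) (nat_lit 350) (nat_lit 211)) (XT.lf (nat_lit 0) (nat_lit 3141929790905) (nat_lit 152) (nat_lit 1694981063761) (nat_lit 0) (nat_lit 3120632973975) (nat_lit 1) (nat_lit 5) (nat_lit 3) (nat_lit 4) (nat_lit 1) (nat_lit 4) (nat_lit 460) (nat_lit 350) (nat_lit 210)))))) (XT.nd (nat_lit 44772) (nat_lit 0) (nat_lit 4560) (XT.nd (nat_lit 44538) (nat_lit 0) (nat_lit 4788) (XT.nd (nat_lit 78) (nat_lit 0) (nat_lit 0) (XT.lf (nat_lit 0) (nat_lit 3430793221558) (nat_lit 152) (nat_lit 1750718766241) (nat_lit 0) (nat_lit 3409496371617) (nat_lit 1) (nat_lit 5) (nat_lit 3) (nat_lit 4) (nat_lit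 1) (nat_lit 4) (nat_lit 461) (nat_lit 350) (nat_lit 209)) (XT.lf (nat_lit 0) (nat_lit 3742765609608) (nat_lit 152) (nat_lit 1810915723314) (nat_lit 0) (nat_lit 3721468729101) (nat_lit 1) (nat_lit 5) (nat_lit 3) (nat_lit 4) (nat_lit 1) (nat_lit 4) (nat_lit 462) (nat_lit 350) (nat_lit 208))) (XT.nd (nat_lit 78) (nat_lit 0) (nat_lit 0) (XT.lf (nat_lit 0) (nat_lit 1197139718) (nat_lit 532) (nat_lit 1892905059) (nat_lit 532) (nat_lit 1892905059) (nat_lit 64) (nat_lit 3) (nat_lit 71) (nat_lit 3) (nat_lit 71) (nat_lit 5) (nat_lit 351) (nat_lit 351) (nat_lit 318)) (XT.nd (nat_lit 78) (nat_lit 0) (nat_lit 76) (XT.lf (nat_lit 76) (nat_lit 1117993510) (nat_lit 0) (nat_lit 2079778792) (nat_lit 532) (nat_lit 7109501609) (nat_lit 65) (nat_lit 5) (nat_lit 64) (nat_lit 3) (nat_lit 71) (nat_lit 5) (nat_lit 352) (nat_lit 351) (nat_lit 317)) (XT.lf (nat_lit 0) (nat_lit 4159907220) (nat_lit 456) (nat_lit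 4142515274) (nat_lit 532) (nat_lit 2366051018) (nat_lit 65) (nat_lit 5) (nat_lit 71) (nat_lit 5) (nat_lit 72) (nat_lit 5) (nat_lit 353) (nat_lit 351) (nat_lit 316))))) (XT.nd (nat_lit 156) (nat_lit 304) (nat_lit 0) (XT.nd (nat_lit 78) (nat_lit 0) (nat_lit 76) (XT.lf (nat_lit 76) (nat_lit 1276073326) (nat_lit 0) (nat_lit 3944390558) (nat_lit 532) (nat_lit 5836448780) (nat_lit 66) (nat_lit 5) (nat_lit 65) (nat_lit 5) (nat_lit 72) (nat_lit 5) (nat_lit 354) (nat_lit 351) (nat_lit 315)) (XT.lf (nat_lit 0) (nat_lit 6441306350) (nat_lit 456) (nat_lit 4170851851) (nat_lit 532) (nat_lit 858288685) (nat_lit 66) (nat_lit 5) (nat_lit 72) (nat_lit 5) (nat_lit 73) (nat_lit 5) (nat_lit 355) (nat_lit 351) (nat_lit 314))) (XT.nd (nat_lit 78) (nat_lit 380) (nat_lit 0) (XT.lf (nat_lit 76) (nat_lit 1834717887) (nat_lit 0) (nat_lit 6016955312) (nat_lit 532) (nat_lit 4058093238) (nat_lit 67) (nat_lit 5) (nat_lit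 66) (nat_lit 5) (nat_lit 73) (nat_lit 5) (nat_lit 356) (nat_lit 351) (nat_lit 313)) (XT.nd (nat_lit 78) (nat_lit 380) (nat_lit 0) (XT.lf (nat_lit 76) (nat_lit 8516465272) (nat_lit 0) (nat_lit 920778887) (nat_lit 532) (nat_lit 2942044770) (nat_lit 67) (nat_lit 5) (nat_lit 66) (nat_lit 5) (nat_lit 73) (nat_lit 5) (nat_lit 357) (nat_lit 351) (nat_lit 312)) (XT.lf (nat_lit 0) (nat_lit 2835505101) (nat_lit 456) (nat_lit 8444963395) (nat_lit 532) (nat_lit 1595483961) (nat_lit 61) (nat_lit 5) (nat_lit 67) (nat_lit 5) (nat_lit 68) (nat_lit 5) (nat_lit 358) (nat_lit 351) (nat_lit 311))))))) (XT.nd (nat_lit 780) (nat_lit 1064) (nat_lit 0) (XT.nd (nat_lit 390) (nat_lit 684) (nat_lit 0) (XT.nd (nat_lit 156) (nat_lit 228) (nat_lit 0) (XT.nd (nat_lit 78) (nat_lit 456) (nat_lit 0) (XT.lf (nat_lit 0) (nat_lit 10222788329) (nat_lit 456) (nat_lit 3132210556) (nat_lit 532) (nat_lit 50682937) (nat_lit 61)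 (nat_lit 5) (nat_lit 67) (nat_lit 5) (nat_lit 68) (nat_lit 5) (nat_lit 359) (nat_lit 351) (nat_lit 310)) (XT.lf (nat_lit 0) (nat_lit 1665275017) (nat_lit 456) (nat_lit 9674283172) (nat_lit 76) (nat_lit 2624873946) (nat_lit 55) (nat_lit 5) (nat_lit 61) (nat_lit 5) (nat_lit 56) (nat_lit 5) (nat_lit 360) (nat_lit 351) (nat_lit 309))) (XT.nd (nat_lit 78) (nat_lit 228) (nat_lit 0) (XT.lf (nat_lit 0) (nat_lit 3645800779) (nat_lit 456) (nat_lit 2146725586) (nat_lit 76) (nat_lit 8764880676) (nat_lit 55) (nat_lit 5) (nat_lit 61) (nat_lit 5) (nat_lit 56) (nat_lit 5) (nat_lit 361) (nat_lit 351) (nat_lit 308)) (XT.nd (nat_lit 78) (nat_lit 0) (nat_lit 0) (XT.lf (nat_lit 0) (nat_lit 5906252120) (nat_lit 304) (nat_lit 8941187888) (nat_lit 76) (nat_lit 340691095) (nat_lit 52) (nat_lit 5) (nat_lit 56) (nat_lit 5) (nat_lit 53) (nat_lit 5) (nat_lit 362) (nat_lit 351) (nat_lit 307)) (XT.lf (nat_lit 0) (nat_lit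 8522392058) (nat_lit 304) (nat_lit 623957010) (nat_lit 76) (nat_lit 6709003457) (nat_lit 52) (nat_lit 5) (nat_lit 56) (nat_lit 5) (nat_lit 53) (nat_lit 5) (nat_lit 363) (nat_lit 351) (nat_lit 306))))) (XT.nd (nat_lit 156) (nat_lit 304) (nat_lit 0) (XT.nd (nat_lit 78) (nat_lit 152) (nat_lit 0) (XT.lf (nat_lit 0) (nat_lit 8758304626) (nat_lit 228) (nat_lit 2766986950) (nat_lit 304) (nat_lit 5036488200) (nat_lit 49) (nat_lit 5) (nat_lit 52) (nat_lit 5) (nat_lit 53) (nat_lit 5) (nat_lit 364) (nat_lit 351) (nat_lit 305)) (XT.lf (nat_lit 0) (nat_lit 1540849767) (nat_lit 152) (nat_lit 13349530088) (nat_lit 228) (nat_lit 2424608500) (nat_lit 47) (nat_lit 5) (nat_lit 49) (nat_lit 5) (nat_lit 50) (nat_lit 5) (nat_lit 365) (nat_lit 351) (nat_lit 304))) (XT.nd (nat_lit 78) (nat_lit 228) (nat_lit 0) (XT.lf (nat_lit 0) (nat_lit 636025782) (nat_lit 228) (nat_lit 6162375214) (nat_lit 76) (nat_lit 11308540621)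 (nat_lit 46) (nat_lit 5) (nat_lit 49) (nat_lit 5) (nat_lit 47) (nat_lit 5) (nat_lit 366) (nat_lit 351) (nat_lit 303)) (XT.nd (nat_lit 78) (nat_lit 0) (nat_lit 0) (XT.lf (nat_lit 0) (nat_lit 3896717922) (nat_lit 304) (nat_lit 14627358743) (nat_lit 76) (nat_lit 426259217) (nat_lit 43) (nat_lit 5) (nat_lit 47) (nat_lit 5) (nat_lit 44) (nat_lit 5) (nat_lit 367) (nat_lit 351) (nat_lit 302)) (XT.lf (nat_lit 0) (nat_lit 7739912487) (nat_lit 304) (nat_lit 4069676083) (nat_lit 76) (nat_lit 8025898769) (nat_lit 43) (nat_lit 5) (nat_lit 47) (nat_lit 5) (nat_lit 44) (nat_lit 5) (nat_lit 368) (nat_lit 351) (nat_lit 301)))))) (XT.nd (nat_lit 390) (nat_lit 532) (nat_lit 0) (XT.nd (nat_lit 156) (nat_lit 380) (nat_lit 0) (XT.nd (nat_lit 78) (nat_lit 0) (nat_lit 0) (XT.lf (nat_lit 0) (nat_lit 7681108746) (nat_lit 152) (nat_lit 4368442667) (nat_lit 228) (nat_lit 8729196520) (nat_lit 41) (nat_lit 5) (nat_lit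 43) (nat_lit 5) (nat_lit 44) (nat_lit 5) (nat_lit 369) (nat_lit 351) (nat_lit 300)) (XT.lf (nat_lit 0) (nat_lit 16881421153) (nat_lit 228) (nat_lit 1312862295) (nat_lit 76) (nat_lit 3589004079) (nat_lit 41) (nat_lit 5) (nat_lit 44) (nat_lit 5) (nat_lit 42) (nat_lit 5) (nat_lit 370) (nat_lit 351) (nat_lit 299))) (XT.nd (nat_lit 78) (nat_lit 228) (nat_lit 0) (XT.lf (nat_lit 0) (nat_lit 11860668266) (nat_lit 152) (nat_lit 10614815377) (nat_lit 228) (nat_lit 362669016) (nat_lit 39) (nat_lit 5) (nat_lit 41) (nat_lit 5) (nat_lit 42) (nat_lit 5) (nat_lit 371) (nat_lit 351) (nat_lit 298)) (XT.nd (nat_lit 78) (nat_lit 0) (nat_lit 0) (XT.lf (nat_lit 0) (nat_lit 2151491601) (nat_lit 152) (nat_lit 2226906848) (nat_lit 228) (nat_lit 19585019946) (nat_lit 36) (nat_lit 5) (nat_lit 38) (nat_lit 5) (nat_lit 39) (nat_lit 5) (nat_lit 372) (nat_lit 351) (nat_lit 297)) (XT.lf (nat_lit 0) (nat_lit 9929268816)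 (nat_lit 228) (nat_lit 8415985039) (nat_lit 76) (nat_lit 6796700026) (nat_lit 36) (nat_lit 5) (nat_lit 39) (nat_lit 5) (nat_lit 37) (nat_lit 5) (nat_lit 373) (nat_lit 351) (nat_lit 296))))) (XT.nd (nat_lit 234) (nat_lit 228) (nat_lit 0) (XT.nd (nat_lit 78) (nat_lit 152) (nat_lit 0) (XT.lf (nat_lit 0) (nat_lit 6275445372) (nat_lit 152) (nat_lit 9837030375) (nat_lit 228) (nat_lit 10287245266) (nat_lit 34) (nat_lit 5) (nat_lit 36) (nat_lit 5) (nat_lit 37) (nat_lit 5) (nat_lit 374) (nat_lit 351) (nat_lit 295)) (XT.nd (nat_lit 78) (nat_lit 152) (nat_lit 0) (XT.lf (nat_lit 0) (nat_lit 22589363519) (nat_lit 152) (nat_lit 411346321) (nat_lit 228) (nat_lit 4740579435) (nat_lit 34) (nat_lit 5) (nat_lit 36) (nat_lit 5) (nat_lit 37) (nat_lit 5) (nat_lit 375) (nat_lit 351) (nat_lit 294)) (XT.lf (nat_lit 0) (nat_lit 1688602294) (nat_lit 152) (nat_lit 17874669512) (nat_lit 76) (nat_lit 9584410308) (nat_lit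 32) (nat_lit 5) (nat_lit 34) (nat_lit 5) (nat_lit 33) (nat_lit 5) (nat_lit 376) (nat_lit 351) (nat_lit 293)))) (XT.nd (nat_lit 78) (nat_lit 228) (nat_lit 0) (XT.lf (nat_lit 0) (nat_lit 8512863969) (nat_lit 152) (nat_lit 1518388818) (nat_lit 76) (nat_lit 20614541722) (nat_lit 32) (nat_lit 5) (nat_lit 34) (nat_lit 5) (nat_lit 33) (nat_lit 5) (nat_lit 377) (nat_lit 351) (nat_lit 292)) (XT.nd (nat_lit 78) (nat_lit 76) (nat_lit 0) (XT.lf (nat_lit 0) (nat_lit 16290793513) (nat_lit 228) (nat_lit 15282266955) (nat_lit 76) (nat_lit 658084187) (nat_lit 30) (nat_lit 5) (nat_lit 33) (nat_lit 5) (nat_lit 31) (nat_lit 4) (nat_lit 378) (nat_lit 351) (nat_lit 291)) (XT.lf (nat_lit 0) (nat_lit 2894428401) (nat_lit 76) (nat_lit 22152625718) (nat_lit 152) (nat_lit 8867787361) (nat_lit 29) (nat_lit 5) (nat_lit 30) (nat_lit 5) (nat_lit 31) (nat_lit 4) (nat_lit 379) (nat_lit 351) (nat_lit 290))))))))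
noncomputable def xc126 : XT := (XT.nd (nat_lit 1560) (nat_lit 684) (nat_lit 0) (XT.nd (nat_lit 780) (nat_lit 532) (nat_lit 0) (XT.nd (nat_lit 390) (nat_lit 380) (nat_lit 0) (XT.nd (nat_lit 156) (nat_lit 76) (nat_lit 0) (XT.nd (nat_lit 78) (nat_lit 228) (nat_lit 0) (XT.lf (nat_lit 0) (nat_lit 23366491347) (nat_lit 76) (nat_lit 11539071802) (nat_lit 152) (nat_lit 795537025) (nat_lit 29) (nat_lit 5) (nat_lit 30) (nat_lit 5) (nat_lit 31) (nat_lit 4) (nat_lit 380) (nat_lit 351) (nat_lit 289)) (XT.lf (nat_lit 0) (nat_lit 7711872772) (nat_lit 228) (nat_lit 29578030837) (nat_lit 76) (nat_lit 310262575) (nat_lit 26) (nat_lit 5) (nat_lit 29) (nat_lit 5) (nat_lit 27) (nat_lit 4) (nat_lit 381) (nat_lit 351) (nat_lit 288))) (XT.nd (nat_lit 78) (nat_lit 76) (nat_lit 0) (XT.lf (nat_lit 0) (nat_lit 17487565264) (nat_lit 228) (nat_lit 9271291665) (nat_lit 76) (nat_lit 12840198621) (nat_lit 26) (nat_lit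 5) (nat_lit 29) (nat_lit 5) (nat_lit 27) (nat_lit 4) (nat_lit 382) (nat_lit 351) (nat_lit 287)) (XT.nd (nat_lit 78) (nat_lit 0) (nat_lit 0) (XT.lf (nat_lit 0) (nat_lit 13300445265) (nat_lit 76) (nat_lit 15050802823) (nat_lit 152) (nat_lit 13382137542) (nat_lit 25) (nat_lit 5) (nat_lit 26) (nat_lit 5) (nat_lit 27) (nat_lit 4) (nat_lit 383) (nat_lit 351) (nat_lit 286)) (XT.lf (nat_lit 0) (nat_lit 38180934170) (nat_lit 76) (nat_lit 2143093192) (nat_lit 152) (nat_lit 3695238642) (nat_lit 25) (nat_lit 5) (nat_lit 26) (nat_lit 5) (nat_lit 27) (nat_lit 4) (nat_lit 384) (nat_lit 351) (nat_lit 285))))) (XT.nd (nat_lit 156) (nat_lit 228) (nat_lit 0) (XT.nd (nat_lit 78) (nat_lit 0) (nat_lit 0) (XT.lf (nat_lit 0) (nat_lit 7180351005) (nat_lit 152) (nat_lit 27392869008) (nat_lit 76) (nat_lit 11841602706) (nat_lit 23) (nat_lit 5) (nat_lit 25) (nat_lit 5) (nat_lit 24) (nat_lit 4) (nat_lit 385) (nat_lit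 351) (nat_lit 284)) (XT.lf (nat_lit 0) (nat_lit 18933133480) (nat_lit 152) (nat_lit 2965253856) (nat_lit 76) (nat_lit 27079418658) (nat_lit 23) (nat_lit 5) (nat_lit 25) (nat_lit 5) (nat_lit 24) (nat_lit 4) (nat_lit 386) (nat_lit 351) (nat_lit 283))) (XT.nd (nat_lit 78) (nat_lit 152) (nat_lit 0) (XT.lf (nat_lit 0) (nat_lit 24626933250) (nat_lit 76) (nat_lit 7579764365) (nat_lit 152) (nat_lit 19492688558) (nat_lit 22) (nat_lit 5) (nat_lit 23) (nat_lit 5) (nat_lit 24) (nat_lit 4) (nat_lit 387) (nat_lit 351) (nat_lit 282)) (XT.nd (nat_lit 78) (nat_lit 152) (nat_lit 0) (XT.lf (nat_lit 0) (nat_lit 46803357208) (nat_lit 152) (nat_lit 250508055) (nat_lit 0) (nat_lit 7563933421) (nat_lit 22) (nat_lit 5) (nat_lit 24) (nat_lit 4) (nat_lit 22) (nat_lit 4) (nat_lit 388) (nat_lit 351) (nat_lit 281)) (XT.lf (nat_lit 0) (nat_lit 5489290467) (nat_lit 152) (nat_lit 27835056868) (nat_lit 76) (nat_lit 24361608229)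 (nat_lit 20) (nat_lit 5) (nat_lit 22) (nat_lit 5) (nat_lit 21) (nat_lit 4) (nat_lit 389) (nat_lit 351) (nat_lit 280)))))) (XT.nd (nat_lit 390) (nat_lit 304) (nat_lit 0) (XT.nd (nat_lit 156) (nat_lit 152) (nat_lit 0) (XT.nd (nat_lit 78) (nat_lit 0) (nat_lit 0) (XT.lf (nat_lit 0) (nat_lit 1213021097) (nat_lit 76) (nat_lit 18247637539) (nat_lit 152) (nat_lit 41520629099) (nat_lit 19) (nat_lit 5) (nat_lit 20) (nat_lit 5) (nat_lit 21) (nat_lit 4) (nat_lit 390) (nat_lit 351) (nat_lit 279)) (XT.lf (nat_lit 0) (nat_lit 34148303659) (nat_lit 76) (nat_lit 1152131061) (nat_lit 152) (nat_lit 29179757902) (nat_lit 19) (nat_lit 5) (nat_lit 20) (nat_lit 5) (nat_lit 21) (nat_lit 4) (nat_lit 391) (nat_lit 351) (nat_lit 278))) (XT.nd (nat_lit 78) (nat_lit 76) (nat_lit 0) (XT.lf (nat_lit 0) (nat_lit 1078253848) (nat_lit 76) (nat_lit 51761600849) (nat_lit 76) (nat_lit 15384560128) (nat_lit 18) (nat_lit 4)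 (nat_lit 19) (nat_lit 5) (nat_lit 19) (nat_lit 4) (nat_lit 392) (nat_lit 351) (nat_lit 277)) (XT.nd (nat_lit 78) (nat_lit 0) (nat_lit 0) (XT.lf (nat_lit 0) (nat_lit 409583561) (nat_lit 152) (nat_lit 35534197636) (nat_lit 76) (nat_lit 36255647299) (nat_lit 17) (nat_lit 5) (nat_lit 19) (nat_lit 5) (nat_lit 18) (nat_lit 4) (nat_lit 393) (nat_lit 351) (nat_lit 276)) (XT.lf (nat_lit 0) (nat_lit 16627053111) (nat_lit 152) (nat_lit 1810278307) (nat_lit 76) (nat_lit 58023868593) (nat_lit 17) (nat_lit 5) (nat_lit 19) (nat_lit 5) (nat_lit 18) (nat_lit 4) (nat_lit 394) (nat_lit 351) (nat_lit 275))))) (XT.nd (nat_lit 156) (nat_lit 228) (nat_lit 0) (XT.nd (nat_lit 78) (nat_lit 0) (nat_lit 0) (XT.lf (nat_lit 0) (nat_lit 35043241447) (nat_lit 152) (nat_lit 44611198815) (nat_lit 0) (nat_lit 1337368661) (nat_lit 16) (nat_lit 5) (nat_lit 18) (nat_lit 4) (nat_lit 16) (nat_lit 4) (nat_lit 395) (nat_lit 351)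 (nat_lit 274)) (XT.lf (nat_lit 0) (nat_lit 55454088304) (nat_lit 152) (nat_lit 8647536874) (nat_lit 0) (nat_lit 21741533565) (nat_lit 16) (nat_lit 5) (nat_lit 18) (nat_lit 4) (nat_lit 16) (nat_lit 4) (nat_lit 396) (nat_lit 351) (nat_lit 273))) (XT.nd (nat_lit 78) (nat_lit 152) (nat_lit 0) (XT.lf (nat_lit 0) (nat_lit 31767374441) (nat_lit 76) (nat_lit 46486740046) (nat_lit 76) (nat_lit 12767998314) (nat_lit 15) (nat_lit 4) (nat_lit 16) (nat_lit 5) (nat_lit 16) (nat_lit 4) (nat_lit 397) (nat_lit 351) (nat_lit 272)) (XT.nd (nat_lit 78) (nat_lit 76) (nat_lit 0) (XT.lf (nat_lit 0) (nat_lit 6184380392) (nat_lit 152) (nat_lit 20860959213) (nat_lit 76) (nat_lit 69539202275) (nat_lit 14) (nat_lit 5) (nat_lit 16) (nat_lit 5) (nat_lit 15) (nat_lit 4) (nat_lit 398) (nat_lit 351) (nat_lit 271)) (XT.lf (nat_lit 0) (nat_lit 21325587358) (nat_lit 76) (nat_lit 5143336745) (nat_lit 152) (nat_lit 76056048949)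 (nat_lit 13) (nat_lit 5) (nat_lit 14) (nat_lit 5) (nat_lit 15) (nat_lit 4) (nat_lit 399) (nat_lit 351) (nat_lit 270))))))) (XT.nd (nat_lit 780) (nat_lit 380) (nat_lit 0) (XT.nd (nat_lit 390) (nat_lit 76) (nat_lit 0) (XT.nd (nat_lit 156) (nat_lit 152) (nat_lit 0) (XT.nd (nat_lit 78) (nat_lit 76) (nat_lit 0) (XT.lf (nat_lit 0) (nat_lit 49399545923) (nat_lit 152) (nat_lit 41295503136) (nat_lit 0) (nat_lit 18163725356) (nat_lit 13) (nat_lit 5) (nat_lit 15) (nat_lit 4) (nat_lit 13) (nat_lit 4) (nat_lit 400) (nat_lit 351) (nat_lit 269)) (XT.lf (nat_lit 0) (nat_lit 1741303369) (nat_lit 76) (nat_lit 72592247010) (nat_lit 76) (nat_lit 41352215680) (nat_lit 12) (nat_lit 4) (nat_lit 13) (nat_lit 5) (nat_lit 13) (nat_lit 4) (nat_lit 401) (nat_lit 351) (nat_lit 268))) (XT.nd (nat_lit 78) (nat_lit 152) (nat_lit 0) (XT.lf (nat_lit 0) (nat_lit 50556992304) (nat_lit 76) (nat_lit 51828018408) (nat_lit 76)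 (nat_lit 20584088222) (nat_lit 12) (nat_lit 4) (nat_lit 13) (nat_lit 5) (nat_lit 13) (nat_lit 4) (nat_lit 402) (nat_lit 351) (nat_lit 267)) (XT.nd (nat_lit 78) (nat_lit 76) (nat_lit 0) (XT.lf (nat_lit 0) (nat_lit 1747131193) (nat_lit 152) (nat_lit 27613507354) (nat_lit 76) (nat_lit 101471392955) (nat_lit 11) (nat_lit 5) (nat_lit 13) (nat_lit 5) (nat_lit 12) (nat_lit 4) (nat_lit 403) (nat_lit 351) (nat_lit 266)) (XT.lf (nat_lit 0) (nat_lit 21288173702) (nat_lit 76) (nat_lit 3970988114) (nat_lit 152) (nat_lit 113981554190) (nat_lit 10) (nat_lit 5) (nat_lit 11) (nat_lit 5) (nat_lit 12) (nat_lit 4) (nat_lit 404) (nat_lit 351) (nat_lit 265))))) (XT.nd (nat_lit 156) (nat_lit 76) (nat_lit 0) (XT.nd (nat_lit 78) (nat_lit 0) (nat_lit 0) (XT.lf (nat_lit 0) (nat_lit 51985170386) (nat_lit 152) (nat_lit 73183982243) (nat_lit 0) (nat_lit 23046301948) (nat_lit 10) (nat_lit 5) (nat_lit 12) (nat_lit 4)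 (nat_lit 10) (nat_lit 4) (nat_lit 405) (nat_lit 351) (nat_lit 264)) (XT.lf (nat_lit 0) (nat_lit 80947248248) (nat_lit 152) (nat_lit 24947359087) (nat_lit 0) (nat_lit 52005726315) (nat_lit 10) (nat_lit 5) (nat_lit 12) (nat_lit 4) (nat_lit 10) (nat_lit 4) (nat_lit 406) (nat_lit 351) (nat_lit 263))) (XT.nd (nat_lit 78) (nat_lit 0) (nat_lit 0) (XT.lf (nat_lit 0) (nat_lit 28567750771) (nat_lit 76) (nat_lit 84340824493) (nat_lit 76) (nat_lit 55396845619) (nat_lit 9) (nat_lit 4) (nat_lit 10) (nat_lit 5) (nat_lit 10) (nat_lit 4) (nat_lit 407) (nat_lit 351) (nat_lit 262)) (XT.nd (nat_lit 78) (nat_lit 0) (nat_lit 0) (XT.lf (nat_lit 0) (nat_lit 87773571048) (nat_lit 76) (nat_lit 60330700620) (nat_lit 76) (nat_lit 31384446802) (nat_lit 9) (nat_lit 4) (nat_lit 10) (nat_lit 5) (nat_lit 10) (nat_lit 4) (nat_lit 408) (nat_lit 351) (nat_lit 261)) (XT.lf (nat_lit 0) (nat_lit 151707267328) (nat_lit 76) (nat_lit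 34404058509) (nat_lit 76) (nat_lit 5455698261) (nat_lit 9) (nat_lit 4) (nat_lit 10) (nat_lit 5) (nat_lit 10) (nat_lit 4) (nat_lit 409) (nat_lit 351) (nat_lit 260)))))) (XT.nd (nat_lit 390) (nat_lit 152) (nat_lit 0) (XT.nd (nat_lit 156) (nat_lit 76) (nat_lit 0) (XT.nd (nat_lit 78) (nat_lit 0) (nat_lit 0) (XT.lf (nat_lit 0) (nat_lit 16414765136) (nat_lit 76) (nat_lit 5395367451) (nat_lit 152) (nat_lit 182726825415) (nat_lit 7) (nat_lit 5) (nat_lit 8) (nat_lit 5) (nat_lit 9) (nat_lit 4) (nat_lit 410) (nat_lit 351) (nat_lit 259)) (XT.lf (nat_lit 0) (nat_lit 52700269832) (nat_lit 152) (nat_lit 139801102952) (nat_lit 0) (nat_lit 25892754489) (nat_lit 7) (nat_lit 5) (nat_lit 9) (nat_lit 4) (nat_lit 7) (nat_lit 4) (nat_lit 411) (nat_lit 351) (nat_lit 258))) (XT.nd (nat_lit 78) (nat_lit 76) (nat_lit 0) (XT.lf (nat_lit 0) (nat_lit 86197990558) (nat_lit 152) (nat_lit 87762043096) (nat_lit 0) (nat_lit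 59388926925) (nat_lit 7) (nat_lit 5) (nat_lit 9) (nat_lit 4) (nat_lit 7) (nat_lit 4) (nat_lit 412) (nat_lit 351) (nat_lit 257)) (XT.nd (nat_lit 78) (nat_lit 76) (nat_lit 0) (XT.lf (nat_lit 0) (nat_lit 122372041060) (nat_lit 152) (nat_lit 31566874968) (nat_lit 0) (nat_lit 95561543827) (nat_lit 7) (nat_lit 5) (nat_lit 9) (nat_lit 4) (nat_lit 7) (nat_lit 4) (nat_lit 413) (nat_lit 351) (nat_lit 256)) (XT.lf (nat_lit 0) (nat_lit 30650681038) (nat_lit 76) (nat_lit 131523254659) (nat_lit 76) (nat_lit 104711430018) (nat_lit 6) (nat_lit 4) (nat_lit 7) (nat_lit 5) (nat_lit 7) (nat_lit 4) (nat_lit 414) (nat_lit 351) (nat_lit 255))))) (XT.nd (nat_lit 234) (nat_lit 152) (nat_lit 0) (XT.nd (nat_lit 78) (nat_lit 0) (nat_lit 0) (XT.lf (nat_lit 0) (nat_lit 99634545377) (nat_lit 76) (nat_lit 106385388245) (nat_lit 76) (nat_lit 79572334522) (nat_lit 6) (nat_lit 4) (nat_lit 7) (nat_lit 5) (nat_lit 7) (nat_lit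 4) (nat_lit 415) (nat_lit 351) (nat_lit 254)) (XT.nd (nat_lit 78) (nat_lit 0) (nat_lit 0) (XT.lf (nat_lit 0) (nat_lit 174131255623) (nat_lit 76) (nat_lit 79239445952) (nat_lit 76) (nat_lit 52425254191) (nat_lit 6) (nat_lit 4) (nat_lit 7) (nat_lit 5) (nat_lit 7) (nat_lit 4) (nat_lit 416) (nat_lit 351) (nat_lit 253)) (XT.lf (nat_lit 0) (nat_lit 254582273763) (nat_lit 76) (nat_lit 49924562939) (nat_lit 76) (nat_lit 23109317438) (nat_lit 6) (nat_lit 4) (nat_lit 7) (nat_lit 5) (nat_lit 7) (nat_lit 4) (nat_lit 417) (nat_lit 351) (nat_lit 252)))) (XT.nd (nat_lit 78) (nat_lit 76) (nat_lit 0) (XT.lf (nat_lit 0) (nat_lit 8121534207) (nat_lit 152) (nat_lit 9923430034) (nat_lit 76) (nat_lit 333120755227) (nat_lit 5) (nat_lit 5) (nat_lit 7) (nat_lit 5) (nat_lit 6) (nat_lit 4) (nat_lit 418) (nat_lit 351) (nat_lit 251)) (XT.nd (nat_lit 78) (nat_lit 0) (nat_lit 0) (XT.lf (nat_lit 0) (nat_lit 42506477805)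 (nat_lit 152) (nat_lit 316216615959) (nat_lit 0) (nat_lit 17675806881) (nat_lit 4) (nat_lit 5) (nat_lit 6) (nat_lit 4) (nat_lit 4) (nat_lit 4) (nat_lit 419) (nat_lit 351) (nat_lit 250)) (XT.lf (nat_lit 0) (nat_lit 80386925710) (nat_lit 152) (nat_lit 267648753790) (nat_lit 0) (nat_lit 55555480256) (nat_lit 4) (nat_lit 5) (nat_lit 6) (nat_lit 4) (nat_lit 4) (nat_lit 4) (nat_lit 420) (nat_lit 351) (nat_lit 249))))))))
noncomputable def xc127 : XT := (XT.nd (nat_lit 1638) (nat_lit 0) (nat_lit 0) (XT.nd (nat_lit 780) (nat_lit 152) (nat_lit 0) (XT.nd (nat_lit 390) (nat_lit 0) (nat_lit 0) (XT.nd (nat_lit 156) (nat_lit 76) (nat_lit 0) (XT.nd (nat_lit 78) (nat_lit 0) (nat_lit 0) (XT.lf (nat_lit 0) (nat_lit 121295621398) (nat_lit 152) (nat_lit 215199894593) (nat_lit 0) (nat_lit 96463458787) (nat_lit 4) (nat_lit 5) (nat_lit 6) (nat_lit 4) (nat_lit 4) (nat_lit 4) (nat_lit 421) (nat_lit 351) (nat_lit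 248)) (XT.lf (nat_lit 0) (nat_lit 165474986769) (nat_lit 152) (nat_lit 158559230314) (nat_lit 0) (nat_lit 140642160123) (nat_lit 4) (nat_lit 5) (nat_lit 6) (nat_lit 4) (nat_lit 4) (nat_lit 4) (nat_lit 422) (nat_lit 351) (nat_lit 247))) (XT.nd (nat_lit 78) (nat_lit 76) (nat_lit 0) (XT.lf (nat_lit 0) (nat_lit 213186825469) (nat_lit 152) (nat_lit 97391112571) (nat_lit 0) (nat_lit 188353383976) (nat_lit 4) (nat_lit 5) (nat_lit 6) (nat_lit 4) (nat_lit 4) (nat_lit 4) (nat_lit 423) (nat_lit 351) (nat_lit 246)) (XT.nd (nat_lit 78) (nat_lit 76) (nat_lit 0) (XT.lf (nat_lit 0) (nat_lit 264713874320) (nat_lit 152) (nat_lit 31333063630) (nat_lit 0) (nat_lit 239879863525) (nat_lit 4) (nat_lit 5) (nat_lit 6) (nat_lit 4) (nat_lit 4) (nat_lit 4) (nat_lit 424) (nat_lit 351) (nat_lit 245)) (XT.lf (nat_lit 0) (nat_lit 42113036244) (nat_lit 76) (nat_lit 279261262088) (nat_lit 76) (nat_lit 254426724161) (nat_lit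 3) (nat_lit 4) (nat_lit 4) (nat_lit 5) (nat_lit 4) (nat_lit 4) (nat_lit 425) (nat_lit 351) (nat_lit 244))))) (XT.nd (nat_lit 156) (nat_lit 0) (nat_lit 0) (XT.nd (nat_lit 78) (nat_lit 0) (nat_lit 0) (XT.lf (nat_lit 0) (nat_lit 123213588061) (nat_lit 76) (nat_lit 260209104178) (nat_lit 76) (nat_lit 235374078166) (nat_lit 3) (nat_lit 4) (nat_lit 4) (nat_lit 5) (nat_lit 4) (nat_lit 4) (nat_lit 426) (nat_lit 351) (nat_lit 243)) (XT.lf (nat_lit 0) (nat_lit 210799244078) (nat_lit 76) (nat_lit 239634264033) (nat_lit 76) (nat_lit 214798786090) (nat_lit 3) (nat_lit 4) (nat_lit 4) (nat_lit 5) (nat_lit 4) (nat_lit 4) (nat_lit 427) (nat_lit 351) (nat_lit 242))) (XT.nd (nat_lit 78) (nat_lit 0) (nat_lit 0) (XT.lf (nat_lit 0) (nat_lit 305389030404) (nat_lit 76) (nat_lit 217414816674) (nat_lit 76) (nat_lit 192578920276) (nat_lit 3) (nat_lit 4) (nat_lit 4) (nat_lit 5) (nat_lit 4) (nat_lit 4) (nat_lit 428)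 (nat_lit 351) (nat_lit 241)) (XT.nd (nat_lit 78) (nat_lit 0) (nat_lit 0) (XT.lf (nat_lit 0) (nat_lit 407543479107) (nat_lit 76) (nat_lit 193419091301) (nat_lit 76) (nat_lit 168582807446) (nat_lit 3) (nat_lit 4) (nat_lit 4) (nat_lit 5) (nat_lit 4) (nat_lit 4) (nat_lit 429) (nat_lit 351) (nat_lit 240)) (XT.lf (nat_lit 0) (nat_lit 517867949883) (nat_lit 76) (nat_lit 167504891023) (nat_lit 76) (nat_lit 142668248411) (nat_lit 3) (nat_lit 4) (nat_lit 4) (nat_lit 5) (nat_lit 4) (nat_lit 4) (nat_lit 430) (nat_lit 351) (nat_lit 239)))))) (XT.nd (nat_lit 390) (nat_lit 0) (nat_lit 0) (XT.nd (nat_lit 156) (nat_lit 152) (nat_lit 0) (XT.nd (nat_lit 78) (nat_lit 0) (nat_lit 0) (XT.lf (nat_lit 0) (nat_lit 637016217373) (nat_lit 76) (nat_lit 139518650210) (nat_lit 76) (nat_lit 114681675415) (nat_lit 3) (nat_lit 4) (nat_lit 4) (nat_lit 5) (nat_lit 4) (nat_lit 4) (nat_lit 431) (nat_lit 351) (nat_lit 238))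 (XT.lf (nat_lit 0) (nat_lit 765694345385) (nat_lit 76) (nat_lit 109294524471) (nat_lit 76) (nat_lit 84457242099) (nat_lit 3) (nat_lit 4) (nat_lit 4) (nat_lit 5) (nat_lit 4) (nat_lit 4) (nat_lit 432) (nat_lit 351) (nat_lit 237))) (XT.nd (nat_lit 78) (nat_lit 152) (nat_lit 0) (XT.lf (nat_lit 0) (nat_lit 904664870974) (nat_lit 76) (nat_lit 76653407875) (nat_lit 76) (nat_lit 51815840710) (nat_lit 3) (nat_lit 4) (nat_lit 4) (nat_lit 5) (nat_lit 4) (nat_lit 4) (nat_lit 433) (nat_lit 351) (nat_lit 236)) (XT.nd (nat_lit 78) (nat_lit 152) (nat_lit 0) (XT.lf (nat_lit 0) (nat_lit 1054751323180) (nat_lit 76) (nat_lit 41401871584) (nat_lit 76) (nat_lit 16564040722) (nat_lit 3) (nat_lit 4) (nat_lit 4) (nat_lit 5) (nat_lit 4) (nat_lit 4) (nat_lit 434) (nat_lit 351) (nat_lit 235)) (XT.lf (nat_lit 0) (nat_lit 18588675394) (nat_lit 76) (nat_lit 2289569999) (nat_lit 152) (nat_lit 1177711673724) (nat_lit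 1) (nat_lit 5) (nat_lit 2) (nat_lit 5) (nat_lit 3) (nat_lit 4) (nat_lit 435) (nat_lit 351) (nat_lit 234))))) (XT.nd (nat_lit 234) (nat_lit 0) (nat_lit 0) (XT.nd (nat_lit 78) (nat_lit 0) (nat_lit 0) (XT.lf (nat_lit 0) (nat_lit 63007120802) (nat_lit 152) (nat_lit 1188075296452) (nat_lit 0) (nat_lit 40008693854) (nat_lit 1) (nat_lit 5) (nat_lit 3) (nat_lit 4) (nat_lit 1) (nat_lit 4) (nat_lit 436) (nat_lit 351) (nat_lit 233)) (XT.nd (nat_lit 78) (nat_lit 0) (nat_lit 0) (XT.lf (nat_lit 0) (nat_lit 108565033325) (nat_lit 152) (nat_lit 1196856254452) (nat_lit 0) (nat_lit 85566412551) (nat_lit 1) (nat_lit 5) (nat_lit 3) (nat_lit 4) (nat_lit 1) (nat_lit 4) (nat_lit 437) (nat_lit 351) (nat_lit 232)) (XT.lf (nat_lit 0) (nat_lit 157766891564) (nat_lit 152) (nat_lit 1206341088815) (nat_lit 0) (nat_lit 134768091322) (nat_lit 1) (nat_lit 5) (nat_lit 3) (nat_lit 4) (nat_lit 1) (nat_lit 4) (nat_lit 438)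 (nat_lit 351) (nat_lit 231)))) (XT.nd (nat_lit 78) (nat_lit 0) (nat_lit 0) (XT.lf (nat_lit 0) (nat_lit 210904262087) (nat_lit 152) (nat_lit 1216586005968) (nat_lit 0) (nat_lit 187905295671) (nat_lit 1) (nat_lit 5) (nat_lit 3) (nat_lit 4) (nat_lit 1) (nat_lit 4) (nat_lit 439) (nat_lit 351) (nat_lit 230)) (XT.nd (nat_lit 78) (nat_lit 0) (nat_lit 0) (XT.lf (nat_lit 0) (nat_lit 268292033015) (nat_lit 152) (nat_lit 1227651716532) (nat_lit 0) (nat_lit 245292912735) (nat_lit 1) (nat_lit 5) (nat_lit 3) (nat_lit 4) (nat_lit 1) (nat_lit 4) (nat_lit 440) (nat_lit 351) (nat_lit 229)) (XT.lf (nat_lit 0) (nat_lit 330270280029) (nat_lit 152) (nat_lit 1239603795086) (nat_lit 0) (nat_lit 307271017281) (nat_lit 1) (nat_lit 5) (nat_lit 3) (nat_lit 4) (nat_lit 1) (nat_lit 4) (nat_lit 441) (nat_lit 351) (nat_lit 228))))))) (XT.nd (nat_lit 780) (nat_lit 0) (nat_lit 0) (XT.nd (nat_lit 390) (nat_lit 0) (nat_lit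 0) (XT.nd (nat_lit 156) (nat_lit 0) (nat_lit 0) (XT.nd (nat_lit 78) (nat_lit 0) (nat_lit 0) (XT.lf (nat_lit 0) (nat_lit 397206281628) (nat_lit 152) (nat_lit 1252513068765) (nat_lit 0) (nat_lit 374206886966) (nat_lit 1) (nat_lit 5) (nat_lit 3) (nat_lit 4) (nat_lit 1) (nat_lit 4) (nat_lit 442) (nat_lit 351) (nat_lit 227)) (XT.lf (nat_lit 0) (nat_lit 469496695601) (nat_lit 152) (nat_lit 1266456036966) (nat_lit 0) (nat_lit 446497178795) (nat_lit 1) (nat_lit 5) (nat_lit 3) (nat_lit 4) (nat_lit 1) (nat_lit 4) (nat_lit 443) (nat_lit 351) (nat_lit 226))) (XT.nd (nat_lit 78) (nat_lit 0) (nat_lit 0) (XT.lf (nat_lit 0) (nat_lit 547569909584) (nat_lit 152) (nat_lit 1281515324687) (nat_lit 0) (nat_lit 524570279684) (nat_lit 1) (nat_lit 5) (nat_lit 3) (nat_lit 4) (nat_lit 1) (nat_lit 4) (nat_lit 444) (nat_lit 351) (nat_lit 225)) (XT.nd (nat_lit 78) (nat_lit 0) (nat_lit 0) (XT.lf (nat_lit 0) (nat_lit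 631888579662) (nat_lit 152) (nat_lit 1297780172152) (nat_lit 0) (nat_lit 608888845044) (nat_lit 1) (nat_lit 5) (nat_lit 3) (nat_lit 4) (nat_lit 1) (nat_lit 4) (nat_lit 445) (nat_lit 351) (nat_lit 224)) (XT.lf (nat_lit 0) (nat_lit 722952372028) (nat_lit 152) (nat_lit 1315346963641) (nat_lit 0) (nat_lit 699952540449) (nat_lit 1) (nat_lit 5) (nat_lit 3) (nat_lit 4) (nat_lit 1) (nat_lit 4) (nat_lit 446) (nat_lit 351) (nat_lit 223))))) (XT.nd (nat_lit 156) (nat_lit 0) (nat_lit 0) (XT.nd (nat_lit 78) (nat_lit 0) (nat_lit 0) (XT.lf (nat_lit 0) (nat_lit 821300923969) (nat_lit 152) (nat_lit 1334319798659) (nat_lit 0) (nat_lit 798301002611) (nat_lit 1) (nat_lit 5) (nat_lit 3) (nat_lit 4) (nat_lit 1) (nat_lit 4) (nat_lit 447) (nat_lit 351) (nat_lit 222)) (XT.lf (nat_lit 0) (nat_lit 927517041719) (nat_lit 152) (nat_lit 1354811108823) (nat_lit 0) (nat_lit 904517037233) (nat_lit 1) (nat_lit 5) (nat_lit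 3) (nat_lit 4) (nat_lit 1) (nat_lit 4) (nat_lit 448) (nat_lit 351) (nat_lit 221))) (XT.nd (nat_lit 78) (nat_lit 0) (nat_lit 0) (XT.lf (nat_lit 0) (nat_lit 1042230154124) (nat_lit 152) (nat_lit 1376942324117) (nat_lit 0) (nat_lit 1019230072667) (nat_lit 1) (nat_lit 5) (nat_lit 3) (nat_lit 4) (nat_lit 1) (nat_lit 4) (nat_lit 449) (nat_lit 351) (nat_lit 220)) (XT.nd (nat_lit 78) (nat_lit 0) (nat_lit 0) (XT.lf (nat_lit 0) (nat_lit 1166120042591) (nat_lit 152) (nat_lit 1400844592484) (nat_lit 0) (nat_lit 1143119889865) (nat_lit 1) (nat_lit 5) (nat_lit 3) (nat_lit 4) (nat_lit 1) (nat_lit 4) (nat_lit 450) (nat_lit 351) (nat_lit 219)) (XT.lf (nat_lit 0) (nat_lit 1299920869423) (nat_lit 152) (nat_lit 1426659556997) (nat_lit 0) (nat_lit 1276920650707) (nat_lit 1) (nat_lit 5) (nat_lit 3) (nat_lit 4) (nat_lit 1) (nat_lit 4) (nat_lit 451) (nat_lit 351) (nat_lit 218)))))) (XT.nd (nat_lit 390) (nat_lit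 0) (nat_lit 0) (XT.nd (nat_lit 156) (nat_lit 0) (nat_lit 0) (XT.nd (nat_lit 78) (nat_lit 0) (nat_lit 0) (XT.lf (nat_lit 0) (nat_lit 1444425528406) (nat_lit 152) (nat_lit 1454540195222) (nat_lit 0) (nat_lit 1421425248588) (nat_lit 1) (nat_lit 5) (nat_lit 3) (nat_lit 4) (nat_lit 1) (nat_lit 4) (nat_lit 452) (nat_lit 351) (nat_lit 217)) (XT.lf (nat_lit 0) (nat_lit 1600490343448) (nat_lit 152) (nat_lit 1484651725757) (nat_lit 0) (nat_lit 1577490007054) (nat_lit 1) (nat_lit 5) (nat_lit 3) (nat_lit 4) (nat_lit 1) (nat_lit 4) (nat_lit 453) (nat_lit 351) (nat_lit 216))) (XT.nd (nat_lit 78) (nat_lit 0) (nat_lit 0) (XT.lf (nat_lit 0) (nat_lit 1769040143080) (nat_lit 152) (nat_lit 1517172587300) (nat_lit 0) (nat_lit 1746039754302) (nat_lit 1) (nat_lit 5) (nat_lit 3) (nat_lit 4) (nat_lit 1) (nat_lit 4) (nat_lit 454) (nat_lit 351) (nat_lit 215)) (XT.nd (nat_lit 78) (nat_lit 0) (nat_lit 0) (XT.lf (nat_lit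 0) (nat_lit 1951073740932) (nat_lit 152) (nat_lit 1552295496069) (nat_lit 0) (nat_lit 1928073303649) (nat_lit 1) (nat_lit 5) (nat_lit 3) (nat_lit 4) (nat_lit 1) (nat_lit 4) (nat_lit 455) (nat_lit 351) (nat_lit 214)) (XT.lf (nat_lit 0) (nat_lit 2147669854619) (nat_lit 152) (nat_lit 1590228587820) (nat_lit 0) (nat_lit 2124669372424) (nat_lit 1) (nat_lit 5) (nat_lit 3) (nat_lit 4) (nat_lit 1) (nat_lit 4) (nat_lit 456) (nat_lit 351) (nat_lit 213))))) (XT.nd (nat_lit 234) (nat_lit 0) (nat_lit 0) (XT.nd (nat_lit 78) (nat_lit 0) (nat_lit 0) (XT.lf (nat_lit 0) (nat_lit 2359993498149) (nat_lit 152) (nat_lit 1631196651243) (nat_lit 0) (nat_lit 2336992974369) (nat_lit 1) (nat_lit 5) (nat_lit 3) (nat_lit 4) (nat_lit 1) (nat_lit 4) (nat_lit 457) (nat_lit 351) (nat_lit 212)) (XT.nd (nat_lit 78) (nat_lit 0) (nat_lit 0) (XT.lf (nat_lit 0) (nat_lit 2589302885705) (nat_lit 152) (nat_lit 1675442460048) (nat_lit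 0) (nat_lit 2566302323421) (nat_lit 1) (nat_lit 5) (nat_lit 3) (nat_lit 4) (nat_lit 1) (nat_lit 4) (nat_lit 458) (nat_lit 351) (nat_lit 211)) (XT.lf (nat_lit 0) (nat_lit 2836956887733) (nat_lit 152) (nat_lit 1723228211621) (nat_lit 0) (nat_lit 2813956289796) (nat_lit 1) (nat_lit 5) (nat_lit 3) (nat_lit 4) (nat_lit 1) (nat_lit 4) (nat_lit 459) (nat_lit 351) (nat_lit 210)))) (XT.nd (nat_lit 78) (nat_lit 0) (nat_lit 0) (XT.lf (nat_lit 0) (nat_lit 3104423083503) (nat_lit 152) (nat_lit 1774837080786) (nat_lit 0) (nat_lit 3081422452555) (nat_lit 1) (nat_lit 5) (nat_lit 3) (nat_lit 4) (nat_lit 1) (nat_lit 4) (nat_lit 460) (nat_lit 351) (nat_lit 209)) (XT.nd (nat_lit 78) (nat_lit 0) (nat_lit 0) (XT.lf (nat_lit 0) (nat_lit 3393286457879) (nat_lit 152) (nat_lit 1830574897879) (nat_lit 0) (nat_lit 3370285796365) (nat_lit 1) (nat_lit 5) (nat_lit 3) (nat_lit 4) (nat_lit 1) (nat_lit 4) (nat_lit 461)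 (nat_lit 351) (nat_lit 208)) (XT.lf (nat_lit 0) (nat_lit 3705258793822) (nat_lit 152) (nat_lit 1890771961074) (nat_lit 0) (nat_lit 3682258104006) (nat_lit 1) (nat_lit 5) (nat_lit 3) (nat_lit 4) (nat_lit 1) (nat_lit 4) (nat_lit 462) (nat_lit 351) (nat_lit 207))))))))
noncomputable def xc128 : XT := (XT.nd (nat_lit 1560) (nat_lit 1672) (nat_lit 0) (XT.nd (nat_lit 780) (nat_lit 1064) (nat_lit 0) (XT.nd (nat_lit 390) (nat_lit 684) (nat_lit 0) (XT.nd (nat_lit 156) (nat_lit 0) (nat_lit 76) (XT.nd (nat_lit 78) (nat_lit 0) (nat_lit 0) (XT.lf (nat_lit 0) (nat_lit 1957370742) (nat_lit 532) (nat_lit 1685214884) (nat_lit 532) (nat_lit 1685214884) (nat_lit 64) (nat_lit 3) (nat_lit 71) (nat_lit 3) (nat_lit 71) (nat_lit 5) (nat_lit 352) (nat_lit 352) (nat_lit 316)) (XT.lf (nat_lit 76) (nat_lit 1907494729) (nat_lit 0) (nat_lit 2793417058) (nat_lit 532) (nat_lit 6329994687) (nat_lit 65) (nat_lit 5) (nat_lit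 64) (nat_lit 3) (nat_lit 71) (nat_lit 5) (nat_lit 353) (nat_lit 352) (nat_lit 315))) (XT.nd (nat_lit 78) (nat_lit 0) (nat_lit 0) (XT.lf (nat_lit 0) (nat_lit 5635437002) (nat_lit 456) (nat_lit 3720052971) (nat_lit 532) (nat_lit 2073964727) (nat_lit 65) (nat_lit 5) (nat_lit 71) (nat_lit 5) (nat_lit 72) (nat_lit 5) (nat_lit 354) (nat_lit 352) (nat_lit 314)) (XT.nd (nat_lit 78) (nat_lit 0) (nat_lit 76) (XT.lf (nat_lit 76) (nat_lit 2112937565) (nat_lit 0) (nat_lit 4600924872) (nat_lit 532) (nat_lit 5140544439) (nat_lit 66) (nat_lit 5) (nat_lit 65) (nat_lit 5) (nat_lit 72) (nat_lit 5) (nat_lit 355) (nat_lit 352) (nat_lit 313)) (XT.lf (nat_lit 0) (nat_lit 7945093072) (nat_lit 456) (nat_lit 3735966458) (nat_lit 532) (nat_lit 627020563) (nat_lit 66) (nat_lit 5) (nat_lit 72) (nat_lit 5) (nat_lit 73) (nat_lit 5) (nat_lit 356) (nat_lit 352) (nat_lit 312))))) (XT.nd (nat_lit 156) (nat_lit 836) (nat_lit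 0) (XT.nd (nat_lit 78) (nat_lit 0) (nat_lit 0) (XT.lf (nat_lit 76) (nat_lit 2730591808) (nat_lit 0) (nat_lit 6682492344) (nat_lit 532) (nat_lit 3373945905) (nat_lit 67) (nat_lit 5) (nat_lit 66) (nat_lit 5) (nat_lit 73) (nat_lit 5) (nat_lit 357) (nat_lit 352) (nat_lit 311)) (XT.lf (nat_lit 76) (nat_lit 9891390355) (nat_lit 0) (nat_lit 1164978798) (nat_lit 532) (nat_lit 2243339100) (nat_lit 67) (nat_lit 5) (nat_lit 66) (nat_lit 5) (nat_lit 73) (nat_lit 5) (nat_lit 358) (nat_lit 352) (nat_lit 310))) (XT.nd (nat_lit 78) (nat_lit 456) (nat_lit 0) (XT.lf (nat_lit 0) (nat_lit 3810544845) (nat_lit 456) (nat_lit 9186692404) (nat_lit 532) (nat_lit 842911426) (nat_lit 61) (nat_lit 5) (nat_lit 67) (nat_lit 5) (nat_lit 68) (nat_lit 5) (nat_lit 359) (nat_lit 352) (nat_lit 309)) (XT.nd (nat_lit 78) (nat_lit 380) (nat_lit 0) (XT.lf (nat_lit 0) (nat_lit 722240919) (nat_lit 532) (nat_lit 2702032410) (nat_lit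 76) (nat_lit 10991400292) (nat_lit 60) (nat_lit 5) (nat_lit 67) (nat_lit 5) (nat_lit 61) (nat_lit 5) (nat_lit 360) (nat_lit 352) (nat_lit 308)) (XT.lf (nat_lit 0) (nat_lit 2532150965) (nat_lit 456) (nat_lit 9672881095) (nat_lit 76) (nat_lit 2817280072) (nat_lit 55) (nat_lit 5) (nat_lit 61) (nat_lit 5) (nat_lit 56) (nat_lit 5) (nat_lit 361) (nat_lit 352) (nat_lit 307)))))) (XT.nd (nat_lit 390) (nat_lit 456) (nat_lit 0) (XT.nd (nat_lit 156) (nat_lit 380) (nat_lit 0) (XT.nd (nat_lit 78) (nat_lit 228) (nat_lit 0) (XT.lf (nat_lit 0) (nat_lit 4616774052) (nat_lit 456) (nat_lit 1600551845) (nat_lit 76) (nat_lit 9449789844) (nat_lit 55) (nat_lit 5) (nat_lit 61) (nat_lit 5) (nat_lit 56) (nat_lit 5) (nat_lit 362) (nat_lit 352) (nat_lit 306)) (XT.lf (nat_lit 0) (nat_lit 7025867718) (nat_lit 304) (nat_lit 8905878158) (nat_lit 76) (nat_lit 419167290) (nat_lit 52) (nat_lit 5) (nat_lit 56) (nat_lit 5)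 (nat_lit 53) (nat_lit 5) (nat_lit 363) (nat_lit 352) (nat_lit 305))) (XT.nd (nat_lit 78) (nat_lit 152) (nat_lit 0) (XT.lf (nat_lit 0) (nat_lit 22243549) (nat_lit 228) (nat_lit 9781655782) (nat_lit 304) (nat_lit 7271441908) (nat_lit 49) (nat_lit 5) (nat_lit 52) (nat_lit 5) (nat_lit 53) (nat_lit 5) (nat_lit 364) (nat_lit 352) (nat_lit 304)) (XT.nd (nat_lit 78) (nat_lit 152) (nat_lit 0) (XT.lf (nat_lit 0) (nat_lit 10136378356) (nat_lit 228) (nat_lit 2882025435) (nat_lit 304) (nat_lit 4822203280) (nat_lit 49) (nat_lit 5) (nat_lit 52) (nat_lit 5) (nat_lit 53) (nat_lit 5) (nat_lit 365) (nat_lit 352) (nat_lit 303)) (XT.lf (nat_lit 0) (nat_lit 2366832846) (nat_lit 152) (nat_lit 14262831323) (nat_lit 228) (nat_lit 2026282666) (nat_lit 47) (nat_lit 5) (nat_lit 49) (nat_lit 5) (nat_lit 50) (nat_lit 5) (nat_lit 366) (nat_lit 352) (nat_lit 302))))) (XT.nd (nat_lit 156) (nat_lit 152) (nat_lit 0) (XT.nd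 (nat_lit 78) (nat_lit 228) (nat_lit 0) (XT.lf (nat_lit 0) (nat_lit 1207894459) (nat_lit 228) (nat_lit 5976929130) (nat_lit 76) (nat_lit 12328654686) (nat_lit 46) (nat_lit 5) (nat_lit 49) (nat_lit 5) (nat_lit 47) (nat_lit 5) (nat_lit 367) (nat_lit 352) (nat_lit 301)) (XT.lf (nat_lit 0) (nat_lit 4710672943) (nat_lit 304) (nat_lit 15100027741) (nat_lit 76) (nat_lit 615170086) (nat_lit 43) (nat_lit 5) (nat_lit 47) (nat_lit 5) (nat_lit 44) (nat_lit 5) (nat_lit 368) (nat_lit 352) (nat_lit 300))) (XT.nd (nat_lit 78) (nat_lit 152) (nat_lit 0) (XT.lf (nat_lit 0) (nat_lit 8824121771) (nat_lit 304) (nat_lit 3749398594) (nat_lit 76) (nat_lit 8811313385) (nat_lit 43) (nat_lit 5) (nat_lit 47) (nat_lit 5) (nat_lit 44) (nat_lit 5) (nat_lit 369) (nat_lit 352) (nat_lit 299)) (XT.nd (nat_lit 78) (nat_lit 0) (nat_lit 0) (XT.lf (nat_lit 0) (nat_lit 8925098348) (nat_lit 152) (nat_lit 4534127323) (nat_lit 228)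 (nat_lit 8945895586) (nat_lit 41) (nat_lit 5) (nat_lit 43) (nat_lit 5) (nat_lit 44) (nat_lit 5) (nat_lit 370) (nat_lit 352) (nat_lit 298)) (XT.lf (nat_lit 0) (nat_lit 18648722177) (nat_lit 228) (nat_lit 805847538) (nat_lit 76) (nat_lit 4037788108) (nat_lit 41) (nat_lit 5) (nat_lit 44) (nat_lit 5) (nat_lit 42) (nat_lit 5) (nat_lit 371) (nat_lit 352) (nat_lit 297))))))) (XT.nd (nat_lit 780) (nat_lit 760) (nat_lit 0) (XT.nd (nat_lit 390) (nat_lit 380) (nat_lit 0) (XT.nd (nat_lit 156) (nat_lit 152) (nat_lit 0) (XT.nd (nat_lit 78) (nat_lit 152) (nat_lit 0) (XT.lf (nat_lit 0) (nat_lit 38788272) (nat_lit 228) (nat_lit 11227864045) (nat_lit 76) (nat_lit 13366221878) (nat_lit 38) (nat_lit 5) (nat_lit 41) (nat_lit 5) (nat_lit 39) (nat_lit 5) (nat_lit 372) (nat_lit 352) (nat_lit 296)) (XT.lf (nat_lit 0) (nat_lit 2926354381) (nat_lit 152) (nat_lit 2197253849) (nat_lit 228) (nat_lit 20725090368) (nat_lit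 36) (nat_lit 5) (nat_lit 38) (nat_lit 5) (nat_lit 39) (nat_lit 5) (nat_lit 373) (nat_lit 352) (nat_lit 295))) (XT.nd (nat_lit 78) (nat_lit 152) (nat_lit 0) (XT.lf (nat_lit 0) (nat_lit 11093921093) (nat_lit 228) (nat_lit 8506357369) (nat_lit 76) (nat_lit 7523223317) (nat_lit 36) (nat_lit 5) (nat_lit 39) (nat_lit 5) (nat_lit 37) (nat_lit 5) (nat_lit 374) (nat_lit 352) (nat_lit 294)) (XT.nd (nat_lit 78) (nat_lit 0) (nat_lit 0) (XT.lf (nat_lit 0) (nat_lit 7345630350) (nat_lit 152) (nat_lit 10412387807) (nat_lit 228) (nat_lit 10724987034) (nat_lit 34) (nat_lit 5) (nat_lit 36) (nat_lit 5) (nat_lit 37) (nat_lit 5) (nat_lit 375) (nat_lit 352) (nat_lit 293)) (XT.lf (nat_lit 0) (nat_lit 24922576812) (nat_lit 152) (nat_lit 248323473) (nat_lit 228) (nat_lit 4763124074) (nat_lit 34) (nat_lit 5) (nat_lit 36) (nat_lit 5) (nat_lit 37) (nat_lit 5) (nat_lit 376) (nat_lit 352) (nat_lit 292))))) (XT.nd (nat_lit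 156) (nat_lit 228) (nat_lit 0) (XT.nd (nat_lit 78) (nat_lit 0) (nat_lit 0) (XT.lf (nat_lit 0) (nat_lit 2155101839) (nat_lit 152) (nat_lit 18753007883) (nat_lit 76) (nat_lit 10544739136) (nat_lit 32) (nat_lit 5) (nat_lit 34) (nat_lit 5) (nat_lit 33) (nat_lit 5) (nat_lit 377) (nat_lit 352) (nat_lit 291)) (XT.lf (nat_lit 0) (nat_lit 9500755459) (nat_lit 152) (nat_lit 1129086599) (nat_lit 76) (nat_lit 22442942099) (nat_lit 32) (nat_lit 5) (nat_lit 34) (nat_lit 5) (nat_lit 33) (nat_lit 5) (nat_lit 378) (nat_lit 352) (nat_lit 290))) (XT.nd (nat_lit 78) (nat_lit 76) (nat_lit 0) (XT.lf (nat_lit 0) (nat_lit 17895013730) (nat_lit 228) (nat_lit 15988053683) (nat_lit 76) (nat_lit 902376607) (nat_lit 30) (nat_lit 5) (nat_lit 33) (nat_lit 5) (nat_lit 31) (nat_lit 4) (nat_lit 379) (nat_lit 352) (nat_lit 289)) (XT.nd (nat_lit 78) (nat_lit 0) (nat_lit 0) (XT.lf (nat_lit 0) (nat_lit 3629693894) (nat_lit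 76) (nat_lit 23711902467) (nat_lit 152) (nat_lit 9263063105) (nat_lit 29) (nat_lit 5) (nat_lit 30) (nat_lit 5) (nat_lit 31) (nat_lit 4) (nat_lit 380) (nat_lit 352) (nat_lit 288)) (XT.lf (nat_lit 0) (nat_lit 25702209933) (nat_lit 76) (nat_lit 12265037075) (nat_lit 152) (nat_lit 568302908) (nat_lit 29) (nat_lit 5) (nat_lit 30) (nat_lit 5) (nat_lit 31) (nat_lit 4) (nat_lit 381) (nat_lit 352) (nat_lit 287)))))) (XT.nd (nat_lit 390) (nat_lit 304) (nat_lit 0) (XT.nd (nat_lit 156) (nat_lit 228) (nat_lit 0) (XT.nd (nat_lit 78) (nat_lit 0) (nat_lit 0) (XT.lf (nat_lit 0) (nat_lit 8600808004) (nat_lit 228) (nat_lit 31458805516) (nat_lit 76) (nat_lit 526722106) (nat_lit 26) (nat_lit 5) (nat_lit 29) (nat_lit 5) (nat_lit 27) (nat_lit 4) (nat_lit 382) (nat_lit 352) (nat_lit 286)) (XT.lf (nat_lit 0) (nat_lit 19138408828) (nat_lit 228) (nat_lit 9563487787) (nat_lit 76) (nat_lit 14044857590) (nat_lit 26)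 (nat_lit 5) (nat_lit 29) (nat_lit 5) (nat_lit 27) (nat_lit 4) (nat_lit 383) (nat_lit 352) (nat_lit 285))) (XT.nd (nat_lit 78) (nat_lit 152) (nat_lit 0) (XT.lf (nat_lit 0) (nat_lit 14802608168) (nat_lit 76) (nat_lit 16060460390) (nat_lit 152) (nat_lit 14189417382) (nat_lit 25) (nat_lit 5) (nat_lit 26) (nat_lit 5) (nat_lit 27) (nat_lit 4) (nat_lit 384) (nat_lit 352) (nat_lit 284)) (XT.nd (nat_lit 78) (nat_lit 152) (nat_lit 0) (XT.lf (nat_lit 0) (nat_lit 41641082313) (nat_lit 76) (nat_lit 2134534482) (nat_lit 152) (nat_lit 3747069619) (nat_lit 25) (nat_lit 5) (nat_lit 26) (nat_lit 5) (nat_lit 27) (nat_lit 4) (nat_lit 385) (nat_lit 352) (nat_lit 283)) (XT.lf (nat_lit 0) (nat_lit 7983417643) (nat_lit 152) (nat_lit 29163355207) (nat_lit 76) (nat_lit 12962886739) (nat_lit 23) (nat_lit 5) (nat_lit 25) (nat_lit 5) (nat_lit 24) (nat_lit 4) (nat_lit 386) (nat_lit 352) (nat_lit 282))))) (XT.nd (nat_lit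 234) (nat_lit 152) (nat_lit 0) (XT.nd (nat_lit 78) (nat_lit 152) (nat_lit 0) (XT.lf (nat_lit 0) (nat_lit 20659486526) (nat_lit 152) (nat_lit 2812711830) (nat_lit 76) (nat_lit 29406842351) (nat_lit 23) (nat_lit 5) (nat_lit 25) (nat_lit 5) (nat_lit 24) (nat_lit 4) (nat_lit 387) (nat_lit 352) (nat_lit 281)) (XT.nd (nat_lit 78) (nat_lit 76) (nat_lit 0) (XT.lf (nat_lit 0) (nat_lit 26976982844) (nat_lit 76) (nat_lit 8011407773) (nat_lit 152) (nat_lit 20830484266) (nat_lit 22) (nat_lit 5) (nat_lit 23) (nat_lit 5) (nat_lit 24) (nat_lit 4) (nat_lit 388) (nat_lit 352) (nat_lit 280)) (XT.lf (nat_lit 0) (nat_lit 97431389) (nat_lit 76) (nat_lit 50646389141) (nat_lit 76) (nat_lit 8227660536) (nat_lit 21) (nat_lit 4) (nat_lit 22) (nat_lit 5) (nat_lit 22) (nat_lit 4) (nat_lit 389) (nat_lit 352) (nat_lit 279)))) (XT.nd (nat_lit 78) (nat_lit 76) (nat_lit 0) (XT.lf (nat_lit 0) (nat_lit 6121361101) (nat_lit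 152) (nat_lit 29697749207) (nat_lit 76) (nat_lit 26466248130) (nat_lit 20) (nat_lit 5) (nat_lit 22) (nat_lit 5) (nat_lit 21) (nat_lit 4) (nat_lit 390) (nat_lit 352) (nat_lit 278)) (XT.nd (nat_lit 78) (nat_lit 0) (nat_lit 0) (XT.lf (nat_lit 0) (nat_lit 1664956965) (nat_lit 76) (nat_lit 19539726054) (nat_lit 152) (nat_lit 44640097537) (nat_lit 19) (nat_lit 5) (nat_lit 20) (nat_lit 5) (nat_lit 21) (nat_lit 4) (nat_lit 391) (nat_lit 352) (nat_lit 277)) (XT.lf (nat_lit 0) (nat_lit 37208773674) (nat_lit 76) (nat_lit 1089002946) (nat_lit 152) (nat_lit 31326933081) (nat_lit 19) (nat_lit 5) (nat_lit 20) (nat_lit 5) (nat_lit 21) (nat_lit 4) (nat_lit 392) (nat_lit 352) (nat_lit 276))))))))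
noncomputable def xc129 : XT := (XT.nd (nat_lit 1560) (nat_lit 304) (nat_lit 0) (XT.nd (nat_lit 780) (nat_lit 380) (nat_lit 0) (XT.nd (nat_lit 390) (nat_lit 304) (nat_lit 0) (XT.nd (nat_lit 156) (nat_lit 76) (nat_lit 0) (XT.nd (nat_lit 78) (nat_lit 76) (nat_lit 0) (XT.lf (nat_lit 0) (nat_lit 1494706842) (nat_lit 76) (nat_lit 55744205204) (nat_lit 76) (nat_lit 16429675186) (nat_lit 18) (nat_lit 4) (nat_lit 19) (nat_lit 5) (nat_lit 19) (nat_lit 4) (nat_lit 393) (nat_lit 352) (nat_lit 275)) (XT.lf (nat_lit 0) (nat_lit 605649134) (nat_lit 152) (nat_lit 38062573646) (nat_lit 76) (nat_lit 39294069283) (nat_lit 17) (nat_lit 5) (nat_lit 19) (nat_lit 5) (nat_lit 18) (nat_lit 4) (nat_lit 394) (nat_lit 352) (nat_lit 274))) (XT.nd (nat_lit 78) (nat_lit 76) (nat_lit 0) (XT.lf (nat_lit 0) (nat_lit 18108420035) (nat_lit 152) (nat_lit 1664026682) (nat_lit 76) (nat_lit 62793528265) (nat_lit 17) (nat_lit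 5) (nat_lit 19) (nat_lit 5) (nat_lit 18) (nat_lit 4) (nat_lit 395) (nat_lit 352) (nat_lit 273)) (XT.nd (nat_lit 78) (nat_lit 0) (nat_lit 0) (XT.lf (nat_lit 0) (nat_lit 37996818301) (nat_lit 152) (nat_lit 47887912716) (nat_lit 0) (nat_lit 1574390238) (nat_lit 16) (nat_lit 5) (nat_lit 18) (nat_lit 4) (nat_lit 16) (nat_lit 4) (nat_lit 396) (nat_lit 352) (nat_lit 272)) (XT.lf (nat_lit 0) (nat_lit 60029413089) (nat_lit 152) (nat_lit 9068800932) (nat_lit 0) (nat_lit 23601256329) (nat_lit 16) (nat_lit 5) (nat_lit 18) (nat_lit 4) (nat_lit 16) (nat_lit 4) (nat_lit 397) (nat_lit 352) (nat_lit 271))))) (XT.nd (nat_lit 156) (nat_lit 152) (nat_lit 0) (XT.nd (nat_lit 78) (nat_lit 76) (nat_lit 0) (XT.lf (nat_lit 0) (nat_lit 34572454203) (nat_lit 76) (nat_lit 50077032782) (nat_lit 76) (nat_lit 13643571673) (nat_lit 15) (nat_lit 4) (nat_lit 16) (nat_lit 5) (nat_lit 16) (nat_lit 4) (nat_lit 398) (nat_lit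 352) (nat_lit 270)) (XT.lf (nat_lit 0) (nat_lit 6807436076) (nat_lit 152) (nat_lit 22278905505) (nat_lit 76) (nat_lit 75214682339) (nat_lit 14) (nat_lit 5) (nat_lit 16) (nat_lit 5) (nat_lit 15) (nat_lit 4) (nat_lit 399) (nat_lit 352) (nat_lit 269))) (XT.nd (nat_lit 78) (nat_lit 76) (nat_lit 0) (XT.lf (nat_lit 0) (nat_lit 23276212122) (nat_lit 76) (nat_lit 5434909171) (nat_lit 152) (nat_lit 82005859304) (nat_lit 13) (nat_lit 5) (nat_lit 14) (nat_lit 5) (nat_lit 15) (nat_lit 4) (nat_lit 400) (nat_lit 352) (nat_lit 268)) (XT.nd (nat_lit 78) (nat_lit 76) (nat_lit 0) (XT.lf (nat_lit 0) (nat_lit 53469626938) (nat_lit 152) (nat_lit 44366102082) (nat_lit 0) (nat_lit 19722283482) (nat_lit 13) (nat_lit 5) (nat_lit 15) (nat_lit 4) (nat_lit 13) (nat_lit 4) (nat_lit 401) (nat_lit 352) (nat_lit 267)) (XT.lf (nat_lit 0) (nat_lit 2107749164) (nat_lit 76) (nat_lit 78287315913) (nat_lit 76) (nat_lit 44536362406)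 (nat_lit 12) (nat_lit 4) (nat_lit 13) (nat_lit 5) (nat_lit 13) (nat_lit 4) (nat_lit 402) (nat_lit 352) (nat_lit 266)))))) (XT.nd (nat_lit 390) (nat_lit 228) (nat_lit 0) (XT.nd (nat_lit 156) (nat_lit 76) (nat_lit 0) (XT.nd (nat_lit 78) (nat_lit 76) (nat_lit 0) (XT.lf (nat_lit 0) (nat_lit 54811867915) (nat_lit 76) (nat_lit 55870268345) (nat_lit 76) (nat_lit 22115972199) (nat_lit 12) (nat_lit 4) (nat_lit 13) (nat_lit 5) (nat_lit 13) (nat_lit 4) (nat_lit 403) (nat_lit 352) (nat_lit 265)) (XT.lf (nat_lit 0) (nat_lit 1987918508) (nat_lit 152) (nat_lit 29622520685) (nat_lit 76) (nat_lit 109680062840) (nat_lit 11) (nat_lit 5) (nat_lit 13) (nat_lit 5) (nat_lit 12) (nat_lit 4) (nat_lit 404) (nat_lit 352) (nat_lit 264))) (XT.nd (nat_lit 78) (nat_lit 0) (nat_lit 0) (XT.lf (nat_lit 0) (nat_lit 23186229862) (nat_lit 76) (nat_lit 4191888801) (nat_lit 152) (nat_lit 122993986857) (nat_lit 10) (nat_lit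 5) (nat_lit 11) (nat_lit 5) (nat_lit 12) (nat_lit 4) (nat_lit 405) (nat_lit 352) (nat_lit 263)) (XT.nd (nat_lit 78) (nat_lit 0) (nat_lit 0) (XT.lf (nat_lit 0) (nat_lit 56237087187) (nat_lit 152) (nat_lit 78853013314) (nat_lit 0) (nat_lit 24975133063) (nat_lit 10) (nat_lit 5) (nat_lit 12) (nat_lit 4) (nat_lit 10) (nat_lit 4) (nat_lit 406) (nat_lit 352) (nat_lit 262)) (XT.lf (nat_lit 0) (nat_lit 87509234747) (nat_lit 152) (nat_lit 26771214936) (nat_lit 0) (nat_lit 56245005679) (nat_lit 10) (nat_lit 5) (nat_lit 12) (nat_lit 4) (nat_lit 10) (nat_lit 4) (nat_lit 407) (nat_lit 352) (nat_lit 261))))) (XT.nd (nat_lit 156) (nat_lit 152) (nat_lit 0) (XT.nd (nat_lit 78) (nat_lit 0) (nat_lit 0) (XT.lf (nat_lit 0) (nat_lit 31020750979) (nat_lit 76) (nat_lit 91004361574) (nat_lit 76) (nat_lit 59738026076) (nat_lit 9) (nat_lit 4) (nat_lit 10) (nat_lit 5) (nat_lit 10) (nat_lit 4) (nat_lit 408) (nat_lit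 352) (nat_lit 260)) (XT.lf (nat_lit 0) (nat_lit 94950623534) (nat_lit 76) (nat_lit 65079629930) (nat_lit 76) (nat_lit 33811344034) (nat_lit 9) (nat_lit 4) (nat_lit 10) (nat_lit 5) (nat_lit 10) (nat_lit 4) (nat_lit 409) (nat_lit 352) (nat_lit 259))) (XT.nd (nat_lit 78) (nat_lit 152) (nat_lit 0) (XT.lf (nat_lit 0) (nat_lit 163987521680) (nat_lit 76) (nat_lit 37084599172) (nat_lit 76) (nat_lit 5814507352) (nat_lit 9) (nat_lit 4) (nat_lit 10) (nat_lit 5) (nat_lit 10) (nat_lit 4) (nat_lit 410) (nat_lit 352) (nat_lit 258)) (XT.nd (nat_lit 78) (nat_lit 0) (nat_lit 0) (XT.lf (nat_lit 0) (nat_lit 17871773947) (nat_lit 76) (nat_lit 5754926975) (nat_lit 152) (nat_lit 197267467352) (nat_lit 7) (nat_lit 5) (nat_lit 8) (nat_lit 5) (nat_lit 9) (nat_lit 4) (nat_lit 411) (nat_lit 352) (nat_lit 257)) (XT.lf (nat_lit 0) (nat_lit 56984338650) (nat_lit 152) (nat_lit 150848301664) (nat_lit 0) (nat_lit 28027568037)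 (nat_lit 7) (nat_lit 5) (nat_lit 9) (nat_lit 4) (nat_lit 7) (nat_lit 4) (nat_lit 412) (nat_lit 352) (nat_lit 256))))))) (XT.nd (nat_lit 780) (nat_lit 76) (nat_lit 0) (XT.nd (nat_lit 390) (nat_lit 152) (nat_lit 0) (XT.nd (nat_lit 156) (nat_lit 76) (nat_lit 0) (XT.nd (nat_lit 78) (nat_lit 0) (nat_lit 0) (XT.lf (nat_lit 0) (nat_lit 93156836498) (nat_lit 152) (nat_lit 94656256985) (nat_lit 0) (nat_lit 64198738477) (nat_lit 7) (nat_lit 5) (nat_lit 9) (nat_lit 4) (nat_lit 7) (nat_lit 4) (nat_lit 413) (nat_lit 352) (nat_lit 255)) (XT.lf (nat_lit 0) (nat_lit 132220143878) (nat_lit 152) (nat_lit 33974864262) (nat_lit 0) (nat_lit 103260816775) (nat_lit 7) (nat_lit 5) (nat_lit 9) (nat_lit 4) (nat_lit 7) (nat_lit 4) (nat_lit 414) (nat_lit 352) (nat_lit 254))) (XT.nd (nat_lit 78) (nat_lit 0) (nat_lit 0) (XT.lf (nat_lit 0) (nat_lit 33217125067) (nat_lit 76) (nat_lit 141987494644) (nat_lit 76) (nat_lit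 113027029503) (nat_lit 6) (nat_lit 4) (nat_lit 7) (nat_lit 5) (nat_lit 7) (nat_lit 4) (nat_lit 415) (nat_lit 352) (nat_lit 253)) (XT.nd (nat_lit 78) (nat_lit 0) (nat_lit 0) (XT.lf (nat_lit 0) (nat_lit 107711225253) (nat_lit 76) (nat_lit 114842867093) (nat_lit 76) (nat_lit 85881348212) (nat_lit 6) (nat_lit 4) (nat_lit 7) (nat_lit 5) (nat_lit 7) (nat_lit 4) (nat_lit 416) (nat_lit 352) (nat_lit 252)) (XT.lf (nat_lit 0) (nat_lit 188159826671) (nat_lit 76) (nat_lit 85529201433) (nat_lit 76) (nat_lit 56566706868) (nat_lit 6) (nat_lit 4) (nat_lit 7) (nat_lit 5) (nat_lit 7) (nat_lit 4) (nat_lit 417) (nat_lit 352) (nat_lit 251))))) (XT.nd (nat_lit 156) (nat_lit 76) (nat_lit 0) (XT.nd (nat_lit 78) (nat_lit 76) (nat_lit 0) (XT.lf (nat_lit 0) (nat_lit 275039661774) (nat_lit 76) (nat_lit 53872787052) (nat_lit 76) (nat_lit 24909389075) (nat_lit 6) (nat_lit 4) (nat_lit 7) (nat_lit 5) (nat_lit 7) (nat_lit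 4) (nat_lit 418) (nat_lit 352) (nat_lit 250)) (XT.lf (nat_lit 0) (nat_lit 8814070739) (nat_lit 152) (nat_lit 10630967331) (nat_lit 76) (nat_lit 359810510976) (nat_lit 5) (nat_lit 5) (nat_lit 7) (nat_lit 5) (nat_lit 6) (nat_lit 4) (nat_lit 419) (nat_lit 352) (nat_lit 249))) (XT.nd (nat_lit 78) (nat_lit 0) (nat_lit 0) (XT.lf (nat_lit 0) (nat_lit 45949684043) (nat_lit 152) (nat_lit 341427479683) (nat_lit 0) (nat_lit 19130231265) (nat_lit 4) (nat_lit 5) (nat_lit 6) (nat_lit 4) (nat_lit 4) (nat_lit 4) (nat_lit 420) (nat_lit 352) (nat_lit 248)) (XT.nd (nat_lit 78) (nat_lit 0) (nat_lit 0) (XT.lf (nat_lit 0) (nat_lit 86857405705) (nat_lit 152) (nat_lit 288980593397) (nat_lit 0) (nat_lit 60037288894) (nat_lit 4) (nat_lit 5) (nat_lit 6) (nat_lit 4) (nat_lit 4) (nat_lit 4) (nat_lit 421) (nat_lit 352) (nat_lit 247)) (XT.lf (nat_lit 0) (nat_lit 131035869201) (nat_lit 152) (nat_lit 232341755886) (nat_lit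 0) (nat_lit 104215137542) (nat_lit 4) (nat_lit 5) (nat_lit 6) (nat_lit 4) (nat_lit 4) (nat_lit 4) (nat_lit 422) (nat_lit 352) (nat_lit 246)))))) (XT.nd (nat_lit 390) (nat_lit 0) (nat_lit 0) (XT.nd (nat_lit 156) (nat_lit 76) (nat_lit 0) (XT.nd (nat_lit 78) (nat_lit 0) (nat_lit 0) (XT.lf (nat_lit 0) (nat_lit 178746872832) (nat_lit 152) (nat_lit 171175329596) (nat_lit 0) (nat_lit 151925571870) (nat_lit 4) (nat_lit 5) (nat_lit 6) (nat_lit 4) (nat_lit 4) (nat_lit 4) (nat_lit 423) (nat_lit 352) (nat_lit 245)) (XT.lf (nat_lit 0) (nat_lit 230273148471) (nat_lit 152) (nat_lit 105118846815) (nat_lit 0) (nat_lit 203451320377) (nat_lit 4) (nat_lit 5) (nat_lit 6) (nat_lit 4) (nat_lit 4) (nat_lit 4) (nat_lit 424) (nat_lit 352) (nat_lit 244))) (XT.nd (nat_lit 78) (nat_lit 76) (nat_lit 0) (XT.lf (nat_lit 0) (nat_lit 285920037011) (nat_lit 152) (nat_lit 33780861719) (nat_lit 0) (nat_lit 259097720832) (nat_lit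 4) (nat_lit 5) (nat_lit 6) (nat_lit 4) (nat_lit 4) (nat_lit 4) (nat_lit 425) (nat_lit 352) (nat_lit 243)) (XT.nd (nat_lit 78) (nat_lit 0) (nat_lit 0) (XT.lf (nat_lit 0) (nat_lit 45539436348) (nat_lit 76) (nat_lit 301573085982) (nat_lit 76) (nat_lit 274750317873) (nat_lit 3) (nat_lit 4) (nat_lit 4) (nat_lit 5) (nat_lit 4) (nat_lit 4) (nat_lit 426) (nat_lit 352) (nat_lit 242)) (XT.lf (nat_lit 0) (nat_lit 133123783628) (nat_lit 76) (nat_lit 280998909297) (nat_lit 76) (nat_lit 254175722734) (nat_lit 3) (nat_lit 4) (nat_lit 4) (nat_lit 5) (nat_lit 4) (nat_lit 4) (nat_lit 427) (nat_lit 352) (nat_lit 241))))) (XT.nd (nat_lit 234) (nat_lit 0) (nat_lit 0) (XT.nd (nat_lit 78) (nat_lit 0) (nat_lit 0) (XT.lf (nat_lit 0) (nat_lit 227712358162) (nat_lit 76) (nat_lit 258780076253) (nat_lit 76) (nat_lit 231956502231) (nat_lit 3) (nat_lit 4) (nat_lit 4) (nat_lit 5) (nat_lit 4) (nat_lit 4) (nat_lit 428)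 (nat_lit 352) (nat_lit 240)) (XT.nd (nat_lit 78) (nat_lit 0) (nat_lit 0) (XT.lf (nat_lit 0) (nat_lit 329865684834) (nat_lit 76) (nat_lit 234784919690) (nat_lit 76) (nat_lit 207960986911) (nat_lit 3) (nat_lit 4) (nat_lit 4) (nat_lit 5) (nat_lit 4) (nat_lit 4) (nat_lit 429) (nat_lit 352) (nat_lit 239)) (XT.lf (nat_lit 0) (nat_lit 440189116693) (nat_lit 76) (nat_lit 208871246089) (nat_lit 76) (nat_lit 182046981127) (nat_lit 3) (nat_lit 4) (nat_lit 4) (nat_lit 5) (nat_lit 4) (nat_lit 4) (nat_lit 430) (nat_lit 352) (nat_lit 238)))) (XT.nd (nat_lit 78) (nat_lit 0) (nat_lit 0) (XT.lf (nat_lit 0) (nat_lit 559336422223) (nat_lit 76) (nat_lit 180885492938) (nat_lit 76) (nat_lit 154060920400) (nat_lit 3) (nat_lit 4) (nat_lit 4) (nat_lit 5) (nat_lit 4) (nat_lit 4) (nat_lit 431) (nat_lit 352) (nat_lit 237)) (XT.nd (nat_lit 78) (nat_lit 0) (nat_lit 0) (XT.lf (nat_lit 0) (nat_lit 688013659531) (nat_lit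 76) (nat_lit 150661818739) (nat_lit 76) (nat_lit 123836961408) (nat_lit 3) (nat_lit 4) (nat_lit 4) (nat_lit 5) (nat_lit 4) (nat_lit 4) (nat_lit 432) (nat_lit 352) (nat_lit 236)) (XT.lf (nat_lit 0) (nat_lit 826983360394) (nat_lit 76) (nat_lit 118021120236) (nat_lit 76) (nat_lit 91195999207) (nat_lit 3) (nat_lit 4) (nat_lit 4) (nat_lit 5) (nat_lit 4) (nat_lit 4) (nat_lit 433) (nat_lit 352) (nat_lit 235))))))))
noncomputable def xc130 : XT := (XT.nd (nat_lit 1560) (nat_lit 0) (nat_lit 0) (XT.nd (nat_lit 780) (nat_lit 0) (nat_lit 0) (XT.nd (nat_lit 390) (nat_lit 0) (nat_lit 0) (XT.nd (nat_lit 156) (nat_lit 152) (nat_lit 0) (XT.nd (nat_lit 78) (nat_lit 0) (nat_lit 0) (XT.lf (nat_lit 0) (nat_lit 977069048965) (nat_lit 76) (nat_lit 82769971067) (nat_lit 76) (nat_lit 55944605875) (nat_lit 3) (nat_lit 4) (nat_lit 4) (nat_lit 5) (nat_lit 4) (nat_lit 4) (nat_lit 434) (nat_lit 352) (nat_lit 234))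 (XT.lf (nat_lit 0) (nat_lit 1139160121917) (nat_lit 76) (nat_lit 44699475535) (nat_lit 76) (nat_lit 17873884265) (nat_lit 3) (nat_lit 4) (nat_lit 4) (nat_lit 5) (nat_lit 4) (nat_lit 4) (nat_lit 435) (nat_lit 352) (nat_lit 233))) (XT.nd (nat_lit 78) (nat_lit 0) (nat_lit 0) (XT.lf (nat_lit 0) (nat_lit 20104481666) (nat_lit 76) (nat_lit 2458154039) (nat_lit 152) (nat_lit 1271913345768) (nat_lit 1) (nat_lit 5) (nat_lit 2) (nat_lit 5) (nat_lit 3) (nat_lit 4) (nat_lit 436) (nat_lit 352) (nat_lit 232)) (XT.nd (nat_lit 78) (nat_lit 0) (nat_lit 0) (XT.lf (nat_lit 0) (nat_lit 68061099139) (nat_lit 152) (nat_lit 1283094012087) (nat_lit 0) (nat_lit 43222215410) (nat_lit 1) (nat_lit 5) (nat_lit 3) (nat_lit 4) (nat_lit 1) (nat_lit 4) (nat_lit 437) (nat_lit 352) (nat_lit 231)) (XT.lf (nat_lit 0) (nat_lit 117262651428) (nat_lit 152) (nat_lit 1292579469547) (nat_lit 0) (nat_lit 92423601526) (nat_lit 1)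 (nat_lit 5) (nat_lit 3) (nat_lit 4) (nat_lit 1) (nat_lit 4) (nat_lit 438) (nat_lit 352) (nat_lit 230))))) (XT.nd (nat_lit 156) (nat_lit 0) (nat_lit 0) (XT.nd (nat_lit 78) (nat_lit 0) (nat_lit 0) (XT.lf (nat_lit 0) (nat_lit 170399738665) (nat_lit 152) (nat_lit 1302824963642) (nat_lit 0) (nat_lit 145560534897) (nat_lit 1) (nat_lit 5) (nat_lit 3) (nat_lit 4) (nat_lit 1) (nat_lit 4) (nat_lit 439) (nat_lit 352) (nat_lit 229)) (XT.lf (nat_lit 0) (nat_lit 227787247291) (nat_lit 152) (nat_lit 1313891208410) (nat_lit 0) (nat_lit 202947901056) (nat_lit 1) (nat_lit 5) (nat_lit 3) (nat_lit 4) (nat_lit 1) (nat_lit 4) (nat_lit 440) (nat_lit 352) (nat_lit 228))) (XT.nd (nat_lit 78) (nat_lit 0) (nat_lit 0) (XT.lf (nat_lit 0) (nat_lit 289765251431) (nat_lit 152) (nat_lit 1325843781599) (nat_lit 0) (nat_lit 264925773282) (nat_lit 1) (nat_lit 5) (nat_lit 3) (nat_lit 4) (nat_lit 1) (nat_lit 4) (nat_lit 441)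 (nat_lit 352) (nat_lit 227)) (XT.nd (nat_lit 78) (nat_lit 0) (nat_lit 0) (XT.lf (nat_lit 0) (nat_lit 356701028149) (nat_lit 152) (nat_lit 1338753513272) (nat_lit 0) (nat_lit 331861427856) (nat_lit 1) (nat_lit 5) (nat_lit 3) (nat_lit 4) (nat_lit 1) (nat_lit 4) (nat_lit 442) (nat_lit 352) (nat_lit 226)) (XT.lf (nat_lit 0) (nat_lit 428991233897) (nat_lit 152) (nat_lit 1352696905543) (nat_lit 0) (nat_lit 404151520509) (nat_lit 1) (nat_lit 5) (nat_lit 3) (nat_lit 4) (nat_lit 1) (nat_lit 4) (nat_lit 443) (nat_lit 352) (nat_lit 225)))))) (XT.nd (nat_lit 390) (nat_lit 0) (nat_lit 0) (XT.nd (nat_lit 156) (nat_lit 0) (nat_lit 0) (XT.nd (nat_lit 78) (nat_lit 0) (nat_lit 0) (XT.lf (nat_lit 0) (nat_lit 507064255080) (nat_lit 152) (nat_lit 1367756585920) (nat_lit 0) (nat_lit 482224436975) (nat_lit 1) (nat_lit 5) (nat_lit 3) (nat_lit 4) (nat_lit 1) (nat_lit 4) (nat_lit 444) (nat_lit 352) (nat_lit 224))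 (XT.lf (nat_lit 0) (nat_lit 591382746640) (nat_lit 152) (nat_lit 1384021796956) (nat_lit 0) (nat_lit 566542831574) (nat_lit 1) (nat_lit 5) (nat_lit 3) (nat_lit 4) (nat_lit 1) (nat_lit 4) (nat_lit 445) (nat_lit 352) (nat_lit 223))) (XT.nd (nat_lit 78) (nat_lit 0) (nat_lit 0) (XT.lf (nat_lit 0) (nat_lit 682446373710) (nat_lit 152) (nat_lit 1401588925084) (nat_lit 0) (nat_lit 657606368865) (nat_lit 1) (nat_lit 5) (nat_lit 3) (nat_lit 4) (nat_lit 1) (nat_lit 4) (nat_lit 446) (nat_lit 352) (nat_lit 222)) (XT.nd (nat_lit 78) (nat_lit 0) (nat_lit 0) (XT.lf (nat_lit 0) (nat_lit 780794772600) (nat_lit 152) (nat_lit 1420562071807) (nat_lit 0) (nat_lit 755954684627) (nat_lit 1) (nat_lit 5) (nat_lit 3) (nat_lit 4) (nat_lit 1) (nat_lit 4) (nat_lit 447) (nat_lit 352) (nat_lit 221)) (XT.lf (nat_lit 0) (nat_lit 887010748636) (nat_lit 152) (nat_lit 1441053670584) (nat_lit 0) (nat_lit 862170583692) (nat_lit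 1) (nat_lit 5) (nat_lit 3) (nat_lit 4) (nat_lit 1) (nat_lit 4) (nat_lit 448) (nat_lit 352) (nat_lit 220))))) (XT.nd (nat_lit 156) (nat_lit 0) (nat_lit 0) (XT.nd (nat_lit 78) (nat_lit 0) (nat_lit 0) (XT.lf (nat_lit 0) (nat_lit 1001723729825) (nat_lit 152) (nat_lit 1463185153114) (nat_lit 0) (nat_lit 976883493612) (nat_lit 1) (nat_lit 5) (nat_lit 3) (nat_lit 4) (nat_lit 1) (nat_lit 4) (nat_lit 449) (nat_lit 352) (nat_lit 219)) (XT.lf (nat_lit 0) (nat_lit 1125613496795) (nat_lit 152) (nat_lit 1487087668922) (nat_lit 0) (nat_lit 1100773194592) (nat_lit 1) (nat_lit 5) (nat_lit 3) (nat_lit 4) (nat_lit 1) (nat_lit 4) (nat_lit 450) (nat_lit 352) (nat_lit 218))) (XT.nd (nat_lit 78) (nat_lit 0) (nat_lit 0) (XT.lf (nat_lit 0) (nat_lit 1259414211129) (nat_lit 152) (nat_lit 1512902862546) (nat_lit 0) (nat_lit 1234573847824) (nat_lit 1) (nat_lit 5) (nat_lit 3) (nat_lit 4) (nat_lit 1) (nat_lit 4) (nat_lit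 451) (nat_lit 352) (nat_lit 217)) (XT.nd (nat_lit 78) (nat_lit 0) (nat_lit 0) (XT.lf (nat_lit 0) (nat_lit 1403918765949) (nat_lit 152) (nat_lit 1540783712911) (nat_lit 0) (nat_lit 1379078346068) (nat_lit 1) (nat_lit 5) (nat_lit 3) (nat_lit 4) (nat_lit 1) (nat_lit 4) (nat_lit 452) (nat_lit 352) (nat_lit 216)) (XT.lf (nat_lit 0) (nat_lit 1559983484543) (nat_lit 152) (nat_lit 1570895439871) (nat_lit 0) (nat_lit 1535143012277) (nat_lit 1) (nat_lit 5) (nat_lit 3) (nat_lit 4) (nat_lit 1) (nat_lit 4) (nat_lit 453) (nat_lit 352) (nat_lit 215))))))) (XT.nd (nat_lit 45318) (nat_lit 0) (nat_lit 3876) (XT.nd (nat_lit 390) (nat_lit 0) (nat_lit 0) (XT.nd (nat_lit 156) (nat_lit 0) (nat_lit 0) (XT.nd (nat_lit 78) (nat_lit 0) (nat_lit 0) (XT.lf (nat_lit 0) (nat_lit 1728533194872) (nat_lit 152) (nat_lit 1603416483291) (nat_lit 0) (nat_lit 1703692674101) (nat_lit 1) (nat_lit 5) (nat_lit 3) (nat_lit 4) (nat_lit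 1) (nat_lit 4) (nat_lit 454) (nat_lit 352) (nat_lit 214)) (XT.lf (nat_lit 0) (nat_lit 1910566710034) (nat_lit 152) (nat_lit 1638539560464) (nat_lit 0) (nat_lit 1885726144352) (nat_lit 1) (nat_lit 5) (nat_lit 3) (nat_lit 4) (nat_lit 1) (nat_lit 4) (nat_lit 455) (nat_lit 352) (nat_lit 213))) (XT.nd (nat_lit 78) (nat_lit 0) (nat_lit 0) (XT.lf (nat_lit 0) (nat_lit 2107162747158) (nat_lit 152) (nat_lit 1676472808143) (nat_lit 0) (nat_lit 2082322139891) (nat_lit 1) (nat_lit 5) (nat_lit 3) (nat_lit 4) (nat_lit 1) (nat_lit 4) (nat_lit 456) (nat_lit 352) (nat_lit 212)) (XT.nd (nat_lit 78) (nat_lit 0) (nat_lit 0) (XT.lf (nat_lit 0) (nat_lit 2319486319795) (nat_lit 152) (nat_lit 1717441015945) (nat_lit 0) (nat_lit 2294645674024) (nat_lit 1) (nat_lit 5) (nat_lit 3) (nat_lit 4) (nat_lit 1) (nat_lit 4) (nat_lit 457) (nat_lit 352) (nat_lit 211)) (XT.lf (nat_lit 0) (nat_lit 2548795641711) (nat_lit 152)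 (nat_lit 1761686958435) (nat_lit 0) (nat_lit 2523954960287) (nat_lit 1) (nat_lit 5) (nat_lit 3) (nat_lit 4) (nat_lit 1) (nat_lit 4) (nat_lit 458) (nat_lit 352) (nat_lit 210))))) (XT.nd (nat_lit 156) (nat_lit 0) (nat_lit 0) (XT.nd (nat_lit 78) (nat_lit 0) (nat_lit 0) (XT.lf (nat_lit 0) (nat_lit 2796449582960) (nat_lit 152) (nat_lit 1809472833790) (nat_lit 0) (nat_lit 2771608868524) (nat_lit 1) (nat_lit 5) (nat_lit 3) (nat_lit 4) (nat_lit 1) (nat_lit 4) (nat_lit 459) (nat_lit 352) (nat_lit 209)) (XT.lf (nat_lit 0) (nat_lit 3063915722453) (nat_lit 152) (nat_lit 1861081817567) (nat_lit 0) (nat_lit 3039074977452) (nat_lit 1) (nat_lit 5) (nat_lit 3) (nat_lit 4) (nat_lit 1) (nat_lit 4) (nat_lit 460) (nat_lit 352) (nat_lit 208))) (XT.nd (nat_lit 78) (nat_lit 0) (nat_lit 0) (XT.lf (nat_lit 0) (nat_lit 3352779044722) (nat_lit 152) (nat_lit 1916819740783) (nat_lit 0) (nat_lit 3327938271418) (nat_lit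 1) (nat_lit 5) (nat_lit 3) (nat_lit 4) (nat_lit 1) (nat_lit 4) (nat_lit 461) (nat_lit 352) (nat_lit 207)) (XT.nd (nat_lit 44616) (nat_lit 0) (nat_lit 4788) (XT.lf (nat_lit 0) (nat_lit 3664751332416) (nat_lit 152) (nat_lit 1977016902240) (nat_lit 0) (nat_lit 3639910532907) (nat_lit 1) (nat_lit 5) (nat_lit 3) (nat_lit 4) (nat_lit 1) (nat_lit 4) (nat_lit 462) (nat_lit 352) (nat_lit 206)) (XT.lf (nat_lit 0) (nat_lit 2683627623) (nat_lit 532) (nat_lit 1512142346) (nat_lit 532) (nat_lit 1512142346) (nat_lit 64) (nat_lit 3) (nat_lit 71) (nat_lit 3) (nat_lit 71) (nat_lit 5) (nat_lit 353) (nat_lit 353) (nat_lit 314)))))) (XT.nd (nat_lit 390) (nat_lit 912) (nat_lit 0) (XT.nd (nat_lit 156) (nat_lit 0) (nat_lit 76) (XT.nd (nat_lit 78) (nat_lit 0) (nat_lit 76) (XT.lf (nat_lit 76) (nat_lit 2660284412) (nat_lit 0) (nat_lit 3486074204) (nat_lit 532) (nat_lit 5680472580) (nat_lit 65) (nat_lit 5) (nat_lit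 64) (nat_lit 3) (nat_lit 71) (nat_lit 5) (nat_lit 354) (nat_lit 353) (nat_lit 313)) (XT.lf (nat_lit 0) (nat_lit 7065984929) (nat_lit 456) (nat_lit 3371340744) (nat_lit 532) (nat_lit 1827184397) (nat_lit 65) (nat_lit 5) (nat_lit 71) (nat_lit 5) (nat_lit 72) (nat_lit 5) (nat_lit 355) (nat_lit 353) (nat_lit 312))) (XT.nd (nat_lit 78) (nat_lit 0) (nat_lit 76) (XT.lf (nat_lit 76) (nat_lit 2911926593) (nat_lit 0) (nat_lit 5261336884) (nat_lit 532) (nat_lit 4554857058) (nat_lit 66) (nat_lit 5) (nat_lit 65) (nat_lit 5) (nat_lit 72) (nat_lit 5) (nat_lit 356) (nat_lit 353) (nat_lit 311)) (XT.nd (nat_lit 78) (nat_lit 0) (nat_lit 0) (XT.lf (nat_lit 0) (nat_lit 9428164692) (nat_lit 456) (nat_lit 3375932987) (nat_lit 532) (nat_lit 420039532) (nat_lit 66) (nat_lit 5) (nat_lit 72) (nat_lit 5) (nat_lit 73) (nat_lit 5) (nat_lit 357) (nat_lit 353) (nat_lit 310)) (XT.lf (nat_lit 76) (nat_lit 3591268654) (nat_lit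 0) (nat_lit 7374996917) (nat_lit 532) (nat_lit 2778982641) (nat_lit 67) (nat_lit 5) (nat_lit 66) (nat_lit 5) (nat_lit 73) (nat_lit 5) (nat_lit 358) (nat_lit 353) (nat_lit 309))))) (XT.nd (nat_lit 234) (nat_lit 608) (nat_lit 0) (XT.nd (nat_lit 78) (nat_lit 456) (nat_lit 0) (XT.lf (nat_lit 76) (nat_lit 11277358529) (nat_lit 0) (nat_lit 1404385606) (nat_lit 532) (nat_lit 1621992398) (nat_lit 67) (nat_lit 5) (nat_lit 66) (nat_lit 5) (nat_lit 73) (nat_lit 5) (nat_lit 359) (nat_lit 353) (nat_lit 308)) (XT.nd (nat_lit 78) (nat_lit 76) (nat_lit 0) (XT.lf (nat_lit 0) (nat_lit 4756848770) (nat_lit 456) (nat_lit 9978325274) (nat_lit 532) (nat_lit 155705063) (nat_lit 61) (nat_lit 5) (nat_lit 67) (nat_lit 5) (nat_lit 68) (nat_lit 5) (nat_lit 360) (nat_lit 353) (nat_lit 307)) (XT.lf (nat_lit 0) (nat_lit 1443806455) (nat_lit 532) (nat_lit 2288757311) (nat_lit 76) (nat_lit 11782721716) (nat_lit 60) (nat_lit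 5) (nat_lit 67) (nat_lit 5) (nat_lit 61) (nat_lit 5) (nat_lit 361) (nat_lit 353) (nat_lit 306)))) (XT.nd (nat_lit 78) (nat_lit 228) (nat_lit 0) (XT.lf (nat_lit 0) (nat_lit 3363713051) (nat_lit 456) (nat_lit 9781978447) (nat_lit 76) (nat_lit 3027587213) (nat_lit 55) (nat_lit 5) (nat_lit 61) (nat_lit 5) (nat_lit 56) (nat_lit 5) (nat_lit 362) (nat_lit 353) (nat_lit 305)) (XT.nd (nat_lit 78) (nat_lit 228) (nat_lit 0) (XT.lf (nat_lit 0) (nat_lit 5568514132) (nat_lit 456) (nat_lit 1113102348) (nat_lit 76) (nat_lit 10191814453) (nat_lit 55) (nat_lit 5) (nat_lit 61) (nat_lit 5) (nat_lit 56) (nat_lit 5) (nat_lit 363) (nat_lit 353) (nat_lit 304)) (XT.lf (nat_lit 0) (nat_lit 8142734313) (nat_lit 304) (nat_lit 8974825810) (nat_lit 76) (nat_lit 496614345) (nat_lit 52) (nat_lit 5) (nat_lit 56) (nat_lit 5) (nat_lit 53) (nat_lit 5) (nat_lit 364) (nat_lit 353) (nat_lit 303))))))))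
noncomputable def xc131 : XT := (XT.nd (nat_lit 1560) (nat_lit 1140) (nat_lit 0) (XT.nd (nat_lit 780) (nat_lit 760) (nat_lit 0) (XT.nd (nat_lit 390) (nat_lit 532) (nat_lit 0) (XT.nd (nat_lit 156) (nat_lit 456) (nat_lit 0) (XT.nd (nat_lit 78) (nat_lit 0) (nat_lit 0) (XT.lf (nat_lit 0) (nat_lit 651253922) (nat_lit 228) (nat_lit 10465743365) (nat_lit 304) (nat_lit 7281672097) (nat_lit 49) (nat_lit 5) (nat_lit 52) (nat_lit 5) (nat_lit 53) (nat_lit 5) (nat_lit 365) (nat_lit 353) (nat_lit 302)) (XT.lf (nat_lit 0) (nat_lit 11528057966) (nat_lit 228) (nat_lit 3021434803) (nat_lit 304) (nat_lit 4678826613) (nat_lit 49) (nat_lit 5) (nat_lit 52) (nat_lit 5) (nat_lit 53) (nat_lit 5) (nat_lit 366) (nat_lit 353) (nat_lit 301))) (XT.nd (nat_lit 78) (nat_lit 304) (nat_lit 0) (XT.lf (nat_lit 0) (nat_lit 3158644406) (nat_lit 152) (nat_lit 15271260802) (nat_lit 228) (nat_lit 1680588201) (nat_lit 47) (nat_lit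 5) (nat_lit 49) (nat_lit 5) (nat_lit 50) (nat_lit 5) (nat_lit 367) (nat_lit 353) (nat_lit 300)) (XT.nd (nat_lit 78) (nat_lit 228) (nat_lit 0) (XT.lf (nat_lit 0) (nat_lit 1751188064) (nat_lit 228) (nat_lit 5873433855) (nat_lit 76) (nat_lit 13413910381) (nat_lit 46) (nat_lit 5) (nat_lit 49) (nat_lit 5) (nat_lit 47) (nat_lit 5) (nat_lit 368) (nat_lit 353) (nat_lit 299)) (XT.lf (nat_lit 0) (nat_lit 5518097413) (nat_lit 304) (nat_lit 15710019242) (nat_lit 76) (nat_lit 797108429) (nat_lit 43) (nat_lit 5) (nat_lit 47) (nat_lit 5) (nat_lit 44) (nat_lit 5) (nat_lit 369) (nat_lit 353) (nat_lit 298))))) (XT.nd (nat_lit 156) (nat_lit 380) (nat_lit 0) (XT.nd (nat_lit 78) (nat_lit 152) (nat_lit 0) (XT.lf (nat_lit 0) (nat_lit 9928728026) (nat_lit 304) (nat_lit 3495636853) (nat_lit 76) (nat_lit 9639111729) (nat_lit 43) (nat_lit 5) (nat_lit 47) (nat_lit 5) (nat_lit 44) (nat_lit 5) (nat_lit 370) (nat_lit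 353) (nat_lit 297)) (XT.lf (nat_lit 0) (nat_lit 10178801778) (nat_lit 152) (nat_lit 4739286558) (nat_lit 228) (nat_lit 9248641431) (nat_lit 41) (nat_lit 5) (nat_lit 43) (nat_lit 5) (nat_lit 44) (nat_lit 5) (nat_lit 371) (nat_lit 353) (nat_lit 296))) (XT.nd (nat_lit 78) (nat_lit 380) (nat_lit 0) (XT.lf (nat_lit 0) (nat_lit 20497947910) (nat_lit 228) (nat_lit 345586482) (nat_lit 76) (nat_lit 4499411725) (nat_lit 41) (nat_lit 5) (nat_lit 44) (nat_lit 5) (nat_lit 42) (nat_lit 5) (nat_lit 372) (nat_lit 353) (nat_lit 295)) (XT.nd (nat_lit 78) (nat_lit 152) (nat_lit 0) (XT.lf (nat_lit 0) (nat_lit 394152362) (nat_lit 228) (nat_lit 11595915591) (nat_lit 76) (nat_lit 14585071743) (nat_lit 38) (nat_lit 5) (nat_lit 41) (nat_lit 5) (nat_lit 39) (nat_lit 5) (nat_lit 373) (nat_lit 353) (nat_lit 294)) (XT.lf (nat_lit 0) (nat_lit 3677218092) (nat_lit 152) (nat_lit 2194874395) (nat_lit 228) (nat_lit 22017244397)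 (nat_lit 36) (nat_lit 5) (nat_lit 38) (nat_lit 5) (nat_lit 39) (nat_lit 5) (nat_lit 374) (nat_lit 353) (nat_lit 293)))))) (XT.nd (nat_lit 390) (nat_lit 456) (nat_lit 0) (XT.nd (nat_lit 156) (nat_lit 152) (nat_lit 0) (XT.nd (nat_lit 78) (nat_lit 152) (nat_lit 0) (XT.lf (nat_lit 0) (nat_lit 12298916581) (nat_lit 228) (nat_lit 8687117610) (nat_lit 76) (nat_lit 8281791821) (nat_lit 36) (nat_lit 5) (nat_lit 39) (nat_lit 5) (nat_lit 37) (nat_lit 5) (nat_lit 375) (nat_lit 353) (nat_lit 292)) (XT.lf (nat_lit 0) (nat_lit 8420377269) (nat_lit 152) (nat_lit 11063961653) (nat_lit 228) (nat_lit 11252706630) (nat_lit 34) (nat_lit 5) (nat_lit 36) (nat_lit 5) (nat_lit 37) (nat_lit 5) (nat_lit 376) (nat_lit 353) (nat_lit 291))) (XT.nd (nat_lit 78) (nat_lit 152) (nat_lit 0) (XT.lf (nat_lit 0) (nat_lit 27367398227) (nat_lit 152) (nat_lit 100210481) (nat_lit 228) (nat_lit 4838359772) (nat_lit 34) (nat_lit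 5) (nat_lit 36) (nat_lit 5) (nat_lit 37) (nat_lit 5) (nat_lit 377) (nat_lit 353) (nat_lit 290)) (XT.nd (nat_lit 78) (nat_lit 0) (nat_lit 0) (XT.lf (nat_lit 0) (nat_lit 2611641812) (nat_lit 152) (nat_lit 19780310251) (nat_lit 76) (nat_lit 11554278490) (nat_lit 32) (nat_lit 5) (nat_lit 34) (nat_lit 5) (nat_lit 33) (nat_lit 5) (nat_lit 378) (nat_lit 353) (nat_lit 289)) (XT.lf (nat_lit 0) (nat_lit 10523900920) (nat_lit 152) (nat_lit 781507728) (nat_lit 76) (nat_lit 24392044340) (nat_lit 32) (nat_lit 5) (nat_lit 34) (nat_lit 5) (nat_lit 33) (nat_lit 5) (nat_lit 379) (nat_lit 353) (nat_lit 288))))) (XT.nd (nat_lit 156) (nat_lit 228) (nat_lit 0) (XT.nd (nat_lit 78) (nat_lit 76) (nat_lit 0) (XT.lf (nat_lit 0) (nat_lit 19584636722) (nat_lit 228) (nat_lit 16824029880) (nat_lit 76) (nat_lit 1138872021) (nat_lit 30) (nat_lit 5) (nat_lit 33) (nat_lit 5) (nat_lit 31) (nat_lit 4) (nat_lit 380) (nat_lit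 353) (nat_lit 287)) (XT.lf (nat_lit 0) (nat_lit 4351920589) (nat_lit 76) (nat_lit 25426298672) (nat_lit 152) (nat_lit 9734777525) (nat_lit 29) (nat_lit 5) (nat_lit 30) (nat_lit 5) (nat_lit 31) (nat_lit 4) (nat_lit 381) (nat_lit 353) (nat_lit 286))) (XT.nd (nat_lit 78) (nat_lit 228) (nat_lit 0) (XT.lf (nat_lit 0) (nat_lit 28158248935) (nat_lit 76) (nat_lit 13077206715) (nat_lit 152) (nat_lit 364386929) (nat_lit 29) (nat_lit 5) (nat_lit 30) (nat_lit 5) (nat_lit 31) (nat_lit 4) (nat_lit 382) (nat_lit 353) (nat_lit 285)) (XT.nd (nat_lit 78) (nat_lit 0) (nat_lit 0) (XT.lf (nat_lit 0) (nat_lit 9522056295) (nat_lit 228) (nat_lit 33559299576) (nat_lit 76) (nat_lit 733159022) (nat_lit 26) (nat_lit 5) (nat_lit 29) (nat_lit 5) (nat_lit 27) (nat_lit 4) (nat_lit 383) (nat_lit 353) (nat_lit 284)) (XT.lf (nat_lit 0) (nat_lit 20885392322) (nat_lit 228) (nat_lit 9943186828) (nat_lit 76) (nat_lit 15320575037)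 (nat_lit 26) (nat_lit 5) (nat_lit 29) (nat_lit 5) (nat_lit 27) (nat_lit 4) (nat_lit 384) (nat_lit 353) (nat_lit 283))))))) (XT.nd (nat_lit 780) (nat_lit 532) (nat_lit 0) (XT.nd (nat_lit 390) (nat_lit 304) (nat_lit 0) (XT.nd (nat_lit 156) (nat_lit 228) (nat_lit 0) (XT.nd (nat_lit 78) (nat_lit 0) (nat_lit 0) (XT.lf (nat_lit 0) (nat_lit 16362440348) (nat_lit 76) (nat_lit 17178624845) (nat_lit 152) (nat_lit 15098841037) (nat_lit 25) (nat_lit 5) (nat_lit 26) (nat_lit 5) (nat_lit 27) (nat_lit 4) (nat_lit 385) (nat_lit 353) (nat_lit 282)) (XT.lf (nat_lit 0) (nat_lit 45320168460) (nat_lit 76) (nat_lit 2150970966) (nat_lit 152) (nat_lit 3837826174) (nat_lit 25) (nat_lit 5) (nat_lit 26) (nat_lit 5) (nat_lit 27) (nat_lit 4) (nat_lit 386) (nat_lit 353) (nat_lit 281))) (XT.nd (nat_lit 78) (nat_lit 76) (nat_lit 0) (XT.lf (nat_lit 0) (nat_lit 8818111765) (nat_lit 152) (nat_lit 31135532573) (nat_lit 76)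 (nat_lit 14149056753) (nat_lit 23) (nat_lit 5) (nat_lit 25) (nat_lit 5) (nat_lit 24) (nat_lit 4) (nat_lit 387) (nat_lit 353) (nat_lit 280)) (XT.nd (nat_lit 78) (nat_lit 76) (nat_lit 0) (XT.lf (nat_lit 0) (nat_lit 22493746107) (nat_lit 152) (nat_lit 2703570396) (nat_lit 76) (nat_lit 31897481475) (nat_lit 23) (nat_lit 5) (nat_lit 25) (nat_lit 5) (nat_lit 24) (nat_lit 4) (nat_lit 388) (nat_lit 353) (nat_lit 279)) (XT.lf (nat_lit 0) (nat_lit 29460840145) (nat_lit 76) (nat_lit 8502510946) (nat_lit 152) (nat_lit 22306920112) (nat_lit 22) (nat_lit 5) (nat_lit 23) (nat_lit 5) (nat_lit 24) (nat_lit 4) (nat_lit 389) (nat_lit 353) (nat_lit 278))))) (XT.nd (nat_lit 156) (nat_lit 152) (nat_lit 0) (XT.nd (nat_lit 78) (nat_lit 76) (nat_lit 0) (XT.lf (nat_lit 0) (nat_lit 432923692) (nat_lit 76) (nat_lit 54544480053) (nat_lit 76) (nat_lit 8697830220) (nat_lit 21) (nat_lit 4) (nat_lit 22) (nat_lit 5) (nat_lit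 22) (nat_lit 4) (nat_lit 390) (nat_lit 353) (nat_lit 277)) (XT.lf (nat_lit 0) (nat_lit 6776474135) (nat_lit 152) (nat_lit 31761401610) (nat_lit 76) (nat_lit 28717045273) (nat_lit 20) (nat_lit 5) (nat_lit 22) (nat_lit 5) (nat_lit 21) (nat_lit 4) (nat_lit 391) (nat_lit 353) (nat_lit 276))) (XT.nd (nat_lit 78) (nat_lit 76) (nat_lit 0) (XT.lf (nat_lit 0) (nat_lit 2102418080) (nat_lit 76) (nat_lit 20959109138) (nat_lit 152) (nat_lit 48037966956) (nat_lit 19) (nat_lit 5) (nat_lit 20) (nat_lit 5) (nat_lit 21) (nat_lit 4) (nat_lit 392) (nat_lit 353) (nat_lit 275)) (XT.nd (nat_lit 78) (nat_lit 76) (nat_lit 0) (XT.lf (nat_lit 0) (nat_lit 40467202010) (nat_lit 76) (nat_lit 1042979663) (nat_lit 152) (nat_lit 33672589224) (nat_lit 19) (nat_lit 5) (nat_lit 20) (nat_lit 5) (nat_lit 21) (nat_lit 4) (nat_lit 393) (nat_lit 353) (nat_lit 274)) (XT.lf (nat_lit 0) (nat_lit 1897370397) (nat_lit 76) (nat_lit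 60068004554) (nat_lit 76) (nat_lit 17584884461) (nat_lit 18) (nat_lit 4) (nat_lit 19) (nat_lit 5) (nat_lit 19) (nat_lit 4) (nat_lit 394) (nat_lit 353) (nat_lit 273)))))) (XT.nd (nat_lit 390) (nat_lit 304) (nat_lit 0) (XT.nd (nat_lit 156) (nat_lit 152) (nat_lit 0) (XT.nd (nat_lit 78) (nat_lit 0) (nat_lit 0) (XT.lf (nat_lit 0) (nat_lit 794103541) (nat_lit 152) (nat_lit 40838066677) (nat_lit 76) (nat_lit 42555882033) (nat_lit 17) (nat_lit 5) (nat_lit 19) (nat_lit 5) (nat_lit 18) (nat_lit 4) (nat_lit 395) (nat_lit 353) (nat_lit 272)) (XT.lf (nat_lit 0) (nat_lit 19686725560) (nat_lit 152) (nat_lit 1547599872) (nat_lit 76) (nat_lit 67926535718) (nat_lit 17) (nat_lit 5) (nat_lit 19) (nat_lit 5) (nat_lit 18) (nat_lit 4) (nat_lit 396) (nat_lit 353) (nat_lit 271))) (XT.nd (nat_lit 78) (nat_lit 76) (nat_lit 0) (XT.lf (nat_lit 0) (nat_lit 41165265359) (nat_lit 152) (nat_lit 51468446759) (nat_lit 0)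 (nat_lit 1811823011) (nat_lit 16) (nat_lit 5) (nat_lit 18) (nat_lit 4) (nat_lit 16) (nat_lit 4) (nat_lit 397) (nat_lit 353) (nat_lit 270)) (XT.nd (nat_lit 78) (nat_lit 76) (nat_lit 0) (XT.lf (nat_lit 0) (nat_lit 64950934278) (nat_lit 152) (nat_lit 9562361511) (nat_lit 0) (nat_lit 25592580496) (nat_lit 16) (nat_lit 5) (nat_lit 18) (nat_lit 4) (nat_lit 16) (nat_lit 4) (nat_lit 398) (nat_lit 353) (nat_lit 269)) (XT.lf (nat_lit 0) (nat_lit 37564322047) (nat_lit 76) (nat_lit 53972901795) (nat_lit 76) (nat_lit 14610000388) (nat_lit 15) (nat_lit 4) (nat_lit 16) (nat_lit 5) (nat_lit 16) (nat_lit 4) (nat_lit 399) (nat_lit 353) (nat_lit 268))))) (XT.nd (nat_lit 234) (nat_lit 152) (nat_lit 0) (XT.nd (nat_lit 78) (nat_lit 76) (nat_lit 0) (XT.lf (nat_lit 0) (nat_lit 7462032036) (nat_lit 152) (nat_lit 23846085533) (nat_lit 76) (nat_lit 81328173698) (nat_lit 14) (nat_lit 5) (nat_lit 16) (nat_lit 5) (nat_lit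 15) (nat_lit 4) (nat_lit 400) (nat_lit 353) (nat_lit 267)) (XT.nd (nat_lit 78) (nat_lit 0) (nat_lit 0) (XT.lf (nat_lit 0) (nat_lit 25347995114) (nat_lit 76) (nat_lit 5766911683) (nat_lit 152) (nat_lit 88450867176) (nat_lit 13) (nat_lit 5) (nat_lit 14) (nat_lit 5) (nat_lit 15) (nat_lit 4) (nat_lit 401) (nat_lit 353) (nat_lit 266)) (XT.lf (nat_lit 0) (nat_lit 57848463674) (nat_lit 152) (nat_lit 47715594891) (nat_lit 0) (nat_lit 21390481196) (nat_lit 13) (nat_lit 5) (nat_lit 15) (nat_lit 4) (nat_lit 13) (nat_lit 4) (nat_lit 402) (nat_lit 353) (nat_lit 265)))) (XT.nd (nat_lit 78) (nat_lit 76) (nat_lit 0) (XT.lf (nat_lit 0) (nat_lit 2471106344) (nat_lit 76) (nat_lit 84454012727) (nat_lit 76) (nat_lit 47992935213) (nat_lit 12) (nat_lit 4) (nat_lit 13) (nat_lit 5) (nat_lit 13) (nat_lit 4) (nat_lit 403) (nat_lit 353) (nat_lit 264)) (XT.nd (nat_lit 78) (nat_lit 76) (nat_lit 0) (XT.lf (nat_lit 0)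 (nat_lit 59377129614) (nat_lit 76) (nat_lit 60250733833) (nat_lit 76) (nat_lit 23786790543) (nat_lit 12) (nat_lit 4) (nat_lit 13) (nat_lit 5) (nat_lit 13) (nat_lit 4) (nat_lit 404) (nat_lit 353) (nat_lit 263)) (XT.lf (nat_lit 0) (nat_lit 2233557630) (nat_lit 152) (nat_lit 31820796913) (nat_lit 76) (nat_lit 118532450076) (nat_lit 11) (nat_lit 5) (nat_lit 13) (nat_lit 5) (nat_lit 12) (nat_lit 4) (nat_lit 405) (nat_lit 353) (nat_lit 262))))))))
noncomputable def xc132 : XT := (XT.nd (nat_lit 1560) (nat_lit 228) (nat_lit 0) (XT.nd (nat_lit 780) (nat_lit 228) (nat_lit 0) (XT.nd (nat_lit 390) (nat_lit 152) (nat_lit 0) (XT.nd (nat_lit 156) (nat_lit 76) (nat_lit 0) (XT.nd (nat_lit 78) (nat_lit 0) (nat_lit 0) (XT.lf (nat_lit 0) (nat_lit 25208311261) (nat_lit 76) (nat_lit 4444268058) (nat_lit 152) (nat_lit 132742549300) (nat_lit 10) (nat_lit 5) (nat_lit 11) (nat_lit 5) (nat_lit 12) (nat_lit 4) (nat_lit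 406) (nat_lit 353) (nat_lit 261)) (XT.lf (nat_lit 0) (nat_lit 60815875124) (nat_lit 152) (nat_lit 85002057271) (nat_lit 0) (nat_lit 27046126356) (nat_lit 10) (nat_lit 5) (nat_lit 12) (nat_lit 4) (nat_lit 10) (nat_lit 4) (nat_lit 407) (nat_lit 353) (nat_lit 260))) (XT.nd (nat_lit 78) (nat_lit 76) (nat_lit 0) (XT.lf (nat_lit 0) (nat_lit 94583881825) (nat_lit 152) (nat_lit 28765507401) (nat_lit 0) (nat_lit 60812182658) (nat_lit 10) (nat_lit 5) (nat_lit 12) (nat_lit 4) (nat_lit 10) (nat_lit 4) (nat_lit 408) (nat_lit 353) (nat_lit 259)) (XT.nd (nat_lit 78) (nat_lit 0) (nat_lit 0) (XT.lf (nat_lit 0) (nat_lit 33646084023) (nat_lit 76) (nat_lit 98212926482) (nat_lit 76) (nat_lit 64439421392) (nat_lit 9) (nat_lit 4) (nat_lit 10) (nat_lit 5) (nat_lit 10) (nat_lit 4) (nat_lit 409) (nat_lit 353) (nat_lit 258)) (XT.lf (nat_lit 0) (nat_lit 102679703940) (nat_lit 76) (nat_lit 70219533641) (nat_lit 76)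 (nat_lit 36444356399) (nat_lit 9) (nat_lit 4) (nat_lit 10) (nat_lit 5) (nat_lit 10) (nat_lit 4) (nat_lit 410) (nat_lit 353) (nat_lit 257))))) (XT.nd (nat_lit 156) (nat_lit 0) (nat_lit 0) (XT.nd (nat_lit 78) (nat_lit 152) (nat_lit 0) (XT.lf (nat_lit 0) (nat_lit 177229699825) (nat_lit 76) (nat_lit 39989823881) (nat_lit 76) (nat_lit 6213098350) (nat_lit 9) (nat_lit 4) (nat_lit 10) (nat_lit 5) (nat_lit 10) (nat_lit 4) (nat_lit 411) (nat_lit 353) (nat_lit 256)) (XT.lf (nat_lit 0) (nat_lit 19424824847) (nat_lit 76) (nat_lit 6153532835) (nat_lit 152) (nat_lit 212982417469) (nat_lit 7) (nat_lit 5) (nat_lit 8) (nat_lit 5) (nat_lit 9) (nat_lit 4) (nat_lit 412) (nat_lit 353) (nat_lit 255))) (XT.nd (nat_lit 78) (nat_lit 0) (nat_lit 0) (XT.lf (nat_lit 0) (nat_lit 61601425275) (nat_lit 152) (nat_lit 162798805094) (nat_lit 0) (nat_lit 30324122923) (nat_lit 7) (nat_lit 5) (nat_lit 9) (nat_lit 4) (nat_lit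 7) (nat_lit 4) (nat_lit 413) (nat_lit 353) (nat_lit 254)) (XT.nd (nat_lit 78) (nat_lit 0) (nat_lit 0) (XT.lf (nat_lit 0) (nat_lit 100663401504) (nat_lit 152) (nat_lit 102120090226) (nat_lit 0) (nat_lit 69384961113) (nat_lit 7) (nat_lit 5) (nat_lit 9) (nat_lit 4) (nat_lit 7) (nat_lit 4) (nat_lit 414) (nat_lit 353) (nat_lit 253)) (XT.lf (nat_lit 0) (nat_lit 142847772135) (nat_lit 152) (nat_lit 36592235516) (nat_lit 0) (nat_lit 111568278004) (nat_lit 7) (nat_lit 5) (nat_lit 9) (nat_lit 4) (nat_lit 7) (nat_lit 4) (nat_lit 415) (nat_lit 353) (nat_lit 252)))))) (XT.nd (nat_lit 390) (nat_lit 76) (nat_lit 0) (XT.nd (nat_lit 156) (nat_lit 76) (nat_lit 0) (XT.nd (nat_lit 78) (nat_lit 0) (nat_lit 0) (XT.lf (nat_lit 0) (nat_lit 35972565671) (nat_lit 76) (nat_lit 153297094020) (nat_lit 76) (nat_lit 122016624205) (nat_lit 6) (nat_lit 4) (nat_lit 7) (nat_lit 5) (nat_lit 7) (nat_lit 4) (nat_lit 416) (nat_lit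 353) (nat_lit 251)) (XT.lf (nat_lit 0) (nat_lit 116418929383) (nat_lit 76) (nat_lit 123984555538) (nat_lit 76) (nat_lit 92703182312) (nat_lit 6) (nat_lit 4) (nat_lit 7) (nat_lit 5) (nat_lit 7) (nat_lit 4) (nat_lit 417) (nat_lit 353) (nat_lit 250))) (XT.nd (nat_lit 78) (nat_lit 76) (nat_lit 0) (XT.lf (nat_lit 0) (nat_lit 203296692536) (nat_lit 76) (nat_lit 92329184842) (nat_lit 76) (nat_lit 61046975123) (nat_lit 6) (nat_lit 4) (nat_lit 7) (nat_lit 5) (nat_lit 7) (nat_lit 4) (nat_lit 418) (nat_lit 353) (nat_lit 249)) (XT.nd (nat_lit 78) (nat_lit 76) (nat_lit 0) (XT.lf (nat_lit 0) (nat_lit 297120686319) (nat_lit 76) (nat_lit 58143394548) (nat_lit 76) (nat_lit 26860410299) (nat_lit 6) (nat_lit 4) (nat_lit 7) (nat_lit 5) (nat_lit 7) (nat_lit 4) (nat_lit 419) (nat_lit 353) (nat_lit 248)) (XT.lf (nat_lit 0) (nat_lit 9555902327) (nat_lit 152) (nat_lit 11407424564) (nat_lit 76) (nat_lit 388629727137)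 (nat_lit 5) (nat_lit 5) (nat_lit 7) (nat_lit 5) (nat_lit 6) (nat_lit 4) (nat_lit 420) (nat_lit 353) (nat_lit 247))))) (XT.nd (nat_lit 156) (nat_lit 0) (nat_lit 0) (XT.nd (nat_lit 78) (nat_lit 0) (nat_lit 0) (XT.lf (nat_lit 0) (nat_lit 49662256857) (nat_lit 152) (nat_lit 368667547784) (nat_lit 0) (nat_lit 20695251819) (nat_lit 4) (nat_lit 5) (nat_lit 6) (nat_lit 4) (nat_lit 4) (nat_lit 4) (nat_lit 421) (nat_lit 353) (nat_lit 246)) (XT.lf (nat_lit 0) (nat_lit 93839885283) (nat_lit 152) (nat_lit 312030401726) (nat_lit 0) (nat_lit 64872310942) (nat_lit 4) (nat_lit 5) (nat_lit 6) (nat_lit 4) (nat_lit 4) (nat_lit 4) (nat_lit 422) (nat_lit 353) (nat_lit 245))) (XT.nd (nat_lit 78) (nat_lit 0) (nat_lit 0) (XT.lf (nat_lit 0) (nat_lit 141550115701) (nat_lit 152) (nat_lit 250865541595) (nat_lit 0) (nat_lit 112582014228) (nat_lit 4) (nat_lit 5) (nat_lit 6) (nat_lit 4) (nat_lit 4) (nat_lit 4) (nat_lit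 423) (nat_lit 353) (nat_lit 244)) (XT.nd (nat_lit 78) (nat_lit 0) (nat_lit 0) (XT.lf (nat_lit 0) (nat_lit 193075675403) (nat_lit 152) (nat_lit 184810508962) (nat_lit 0) (nat_lit 164107085845) (nat_lit 4) (nat_lit 5) (nat_lit 6) (nat_lit 4) (nat_lit 4) (nat_lit 4) (nat_lit 424) (nat_lit 353) (nat_lit 243)) (XT.lf (nat_lit 0) (nat_lit 248721901038) (nat_lit 152) (nat_lit 113473866596) (nat_lit 0) (nat_lit 219752859549) (nat_lit 4) (nat_lit 5) (nat_lit 6) (nat_lit 4) (nat_lit 4) (nat_lit 4) (nat_lit 425) (nat_lit 353) (nat_lit 242))))))) (XT.nd (nat_lit 780) (nat_lit 152) (nat_lit 0) (XT.nd (nat_lit 390) (nat_lit 0) (nat_lit 0) (XT.nd (nat_lit 156) (nat_lit 0) (nat_lit 0) (XT.nd (nat_lit 78) (nat_lit 76) (nat_lit 0) (XT.lf (nat_lit 0) (nat_lit 308818548018) (nat_lit 152) (nat_lit 36432878838) (nat_lit 0) (nat_lit 279849088074) (nat_lit 4) (nat_lit 5) (nat_lit 6) (nat_lit 4) (nat_lit 4) (nat_lit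 4) (nat_lit 426) (nat_lit 353) (nat_lit 241)) (XT.lf (nat_lit 0) (nat_lit 49231765814) (nat_lit 76) (nat_lit 325674003958) (nat_lit 76) (nat_lit 296704156557) (nat_lit 3) (nat_lit 4) (nat_lit 4) (nat_lit 5) (nat_lit 4) (nat_lit 4) (nat_lit 427) (nat_lit 353) (nat_lit 240))) (XT.nd (nat_lit 78) (nat_lit 0) (nat_lit 0) (XT.lf (nat_lit 0) (nat_lit 143819218317) (nat_lit 76) (nat_lit 303455739724) (nat_lit 76) (nat_lit 274485533565) (nat_lit 3) (nat_lit 4) (nat_lit 4) (nat_lit 5) (nat_lit 4) (nat_lit 4) (nat_lit 428) (nat_lit 353) (nat_lit 239)) (XT.nd (nat_lit 78) (nat_lit 0) (nat_lit 0) (XT.lf (nat_lit 0) (nat_lit 245971506072) (nat_lit 76) (nat_lit 279461109837) (nat_lit 76) (nat_lit 250490571496) (nat_lit 3) (nat_lit 4) (nat_lit 4) (nat_lit 5) (nat_lit 4) (nat_lit 4) (nat_lit 429) (nat_lit 353) (nat_lit 238)) (XT.lf (nat_lit 0) (nat_lit 356293975971) (nat_lit 76) (nat_lit 253547923899)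 (nat_lit 76) (nat_lit 224577077981) (nat_lit 3) (nat_lit 4) (nat_lit 4) (nat_lit 5) (nat_lit 4) (nat_lit 4) (nat_lit 430) (nat_lit 353) (nat_lit 237))))) (XT.nd (nat_lit 156) (nat_lit 0) (nat_lit 0) (XT.nd (nat_lit 78) (nat_lit 0) (nat_lit 0) (XT.lf (nat_lit 0) (nat_lit 475440390797) (nat_lit 76) (nat_lit 225562622288) (nat_lit 76) (nat_lit 196591491577) (nat_lit 3) (nat_lit 4) (nat_lit 4) (nat_lit 5) (nat_lit 4) (nat_lit 4) (nat_lit 431) (nat_lit 353) (nat_lit 236)) (XT.lf (nat_lit 0) (nat_lit 604116803379) (nat_lit 76) (nat_lit 195339366181) (nat_lit 76) (nat_lit 166367971773) (nat_lit 3) (nat_lit 4) (nat_lit 4) (nat_lit 5) (nat_lit 4) (nat_lit 4) (nat_lit 432) (nat_lit 353) (nat_lit 235))) (XT.nd (nat_lit 78) (nat_lit 0) (nat_lit 0) (XT.lf (nat_lit 0) (nat_lit 743085740607) (nat_lit 76) (nat_lit 162699054800) (nat_lit 76) (nat_lit 133727416228) (nat_lit 3) (nat_lit 4) (nat_lit 4) (nat_lit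 5) (nat_lit 4) (nat_lit 4) (nat_lit 433) (nat_lit 353) (nat_lit 234)) (XT.nd (nat_lit 78) (nat_lit 0) (nat_lit 0) (XT.lf (nat_lit 0) (nat_lit 893170722108) (nat_lit 76) (nat_lit 127448264079) (nat_lit 76) (nat_lit 98476399429) (nat_lit 3) (nat_lit 4) (nat_lit 4) (nat_lit 5) (nat_lit 4) (nat_lit 4) (nat_lit 434) (nat_lit 353) (nat_lit 233)) (XT.lf (nat_lit 0) (nat_lit 1055261140366) (nat_lit 76) (nat_lit 89378100442) (nat_lit 76) (nat_lit 60406026461) (nat_lit 3) (nat_lit 4) (nat_lit 4) (nat_lit 5) (nat_lit 4) (nat_lit 4) (nat_lit 435) (nat_lit 353) (nat_lit 232)))))) (XT.nd (nat_lit 390) (nat_lit 0) (nat_lit 0) (XT.nd (nat_lit 156) (nat_lit 0) (nat_lit 0) (XT.nd (nat_lit 78) (nat_lit 152) (nat_lit 0) (XT.lf (nat_lit 0) (nat_lit 1230317531192) (nat_lit 76) (nat_lit 48262962920) (nat_lit 76) (nat_lit 19290695113) (nat_lit 3) (nat_lit 4) (nat_lit 4) (nat_lit 5) (nat_lit 4) (nat_lit 4) (nat_lit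 436) (nat_lit 353) (nat_lit 231)) (XT.lf (nat_lit 0) (nat_lit 21737456318) (nat_lit 76) (nat_lit 2642305024) (nat_lit 152) (nat_lit 1373653328850) (nat_lit 1) (nat_lit 5) (nat_lit 2) (nat_lit 5) (nat_lit 3) (nat_lit 4) (nat_lit 437) (nat_lit 353) (nat_lit 230))) (XT.nd (nat_lit 78) (nat_lit 0) (nat_lit 0) (XT.lf (nat_lit 0) (nat_lit 73517482846) (nat_lit 152) (nat_lit 1385718120776) (nat_lit 0) (nat_lit 46690988912) (nat_lit 1) (nat_lit 5) (nat_lit 3) (nat_lit 4) (nat_lit 1) (nat_lit 4) (nat_lit 438) (nat_lit 353) (nat_lit 229)) (XT.nd (nat_lit 78) (nat_lit 0) (nat_lit 0) (XT.lf (nat_lit 0) (nat_lit 126654307780) (nat_lit 152) (nat_lit 1395964149076) (nat_lit 0) (nat_lit 99827671378) (nat_lit 1) (nat_lit 5) (nat_lit 3) (nat_lit 4) (nat_lit 1) (nat_lit 4) (nat_lit 439) (nat_lit 353) (nat_lit 228)) (XT.lf (nat_lit 0) (nat_lit 184041573533) (nat_lit 152) (nat_lit 1407030888478) (nat_lit 0)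 (nat_lit 157214805217) (nat_lit 1) (nat_lit 5) (nat_lit 3) (nat_lit 4) (nat_lit 1) (nat_lit 4) (nat_lit 440) (nat_lit 353) (nat_lit 227))))) (XT.nd (nat_lit 234) (nat_lit 0) (nat_lit 0) (XT.nd (nat_lit 78) (nat_lit 0) (nat_lit 0) (XT.lf (nat_lit 0) (nat_lit 246019352791) (nat_lit 152) (nat_lit 1418983919662) (nat_lit 0) (nat_lit 219192462333) (nat_lit 1) (nat_lit 5) (nat_lit 3) (nat_lit 4) (nat_lit 1) (nat_lit 4) (nat_lit 441) (nat_lit 353) (nat_lit 226)) (XT.nd (nat_lit 78) (nat_lit 0) (nat_lit 0) (XT.lf (nat_lit 0) (nat_lit 312954921284) (nat_lit 152) (nat_lit 1431894075404) (nat_lit 0) (nat_lit 286127917731) (nat_lit 1) (nat_lit 5) (nat_lit 3) (nat_lit 4) (nat_lit 1) (nat_lit 4) (nat_lit 442) (nat_lit 353) (nat_lit 225)) (XT.lf (nat_lit 0) (nat_lit 385244934232) (nat_lit 152) (nat_lit 1445837860331) (nat_lit 0) (nat_lit 358417825961) (nat_lit 1) (nat_lit 5) (nat_lit 3) (nat_lit 4) (nat_lit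 1) (nat_lit 4) (nat_lit 443) (nat_lit 353) (nat_lit 224)))) (XT.nd (nat_lit 78) (nat_lit 0) (nat_lit 0) (XT.lf (nat_lit 0) (nat_lit 463317776897) (nat_lit 152) (nat_lit 1460897904279) (nat_lit 0) (nat_lit 436490571665) (nat_lit 1) (nat_lit 5) (nat_lit 3) (nat_lit 4) (nat_lit 1) (nat_lit 4) (nat_lit 444) (nat_lit 353) (nat_lit 223)) (XT.nd (nat_lit 78) (nat_lit 0) (nat_lit 0) (XT.lf (nat_lit 0) (nat_lit 547636103162) (nat_lit 152) (nat_lit 1477163451954) (nat_lit 0) (nat_lit 520808808150) (nat_lit 1) (nat_lit 5) (nat_lit 3) (nat_lit 4) (nat_lit 1) (nat_lit 4) (nat_lit 445) (nat_lit 353) (nat_lit 222)) (XT.lf (nat_lit 0) (nat_lit 638699577181) (nat_lit 152) (nat_lit 1494730891787) (nat_lit 0) (nat_lit 611872199041) (nat_lit 1) (nat_lit 5) (nat_lit 3) (nat_lit 4) (nat_lit 1) (nat_lit 4) (nat_lit 446) (nat_lit 353) (nat_lit 221))))))))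
noncomputable def xc133 : XT := (XT.nd (nat_lit 46176) (nat_lit 0) (nat_lit 2508) (XT.nd (nat_lit 780) (nat_lit 0) (nat_lit 0) (XT.nd (nat_lit 390) (nat_lit 0) (nat_lit 0) (XT.nd (nat_lit 156) (nat_lit 0) (nat_lit 0) (XT.nd (nat_lit 78) (nat_lit 0) (nat_lit 0) (XT.lf (nat_lit 0) (nat_lit 737047834357) (nat_lit 152) (nat_lit 1513704327123) (nat_lit 0) (nat_lit 710220379247) (nat_lit 1) (nat_lit 5) (nat_lit 3) (nat_lit 4) (nat_lit 1) (nat_lit 4) (nat_lit 447) (nat_lit 353) (nat_lit 220)) (XT.lf (nat_lit 0) (nat_lit 843263679177) (nat_lit 152) (nat_lit 1534196193136) (nat_lit 0) (nat_lit 816436152797) (nat_lit 1) (nat_lit 5) (nat_lit 3) (nat_lit 4) (nat_lit 1) (nat_lit 4) (nat_lit 448) (nat_lit 353) (nat_lit 219))) (XT.nd (nat_lit 78) (nat_lit 0) (nat_lit 0) (XT.lf (nat_lit 0) (nat_lit 957976538868) (nat_lit 152) (nat_lit 1556327923106) (nat_lit 0) (nat_lit 931148946499) (nat_lit 1) (nat_lit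 5) (nat_lit 3) (nat_lit 4) (nat_lit 1) (nat_lit 4) (nat_lit 449) (nat_lit 353) (nat_lit 218)) (XT.nd (nat_lit 78) (nat_lit 0) (nat_lit 0) (XT.lf (nat_lit 0) (nat_lit 1081866193342) (nat_lit 152) (nat_lit 1580230668025) (nat_lit 0) (nat_lit 1055038539870) (nat_lit 1) (nat_lit 5) (nat_lit 3) (nat_lit 4) (nat_lit 1) (nat_lit 4) (nat_lit 450) (nat_lit 353) (nat_lit 217)) (XT.lf (nat_lit 0) (nat_lit 1215666803512) (nat_lit 152) (nat_lit 1606046073789) (nat_lit 0) (nat_lit 1188839093465) (nat_lit 1) (nat_lit 5) (nat_lit 3) (nat_lit 4) (nat_lit 1) (nat_lit 4) (nat_lit 451) (nat_lit 353) (nat_lit 216))))) (XT.nd (nat_lit 156) (nat_lit 0) (nat_lit 0) (XT.nd (nat_lit 78) (nat_lit 0) (nat_lit 0) (XT.lf (nat_lit 0) (nat_lit 1360171261884) (nat_lit 152) (nat_lit 1633927120581) (nat_lit 0) (nat_lit 1333343499452) (nat_lit 1) (nat_lit 5) (nat_lit 3) (nat_lit 4) (nat_lit 1) (nat_lit 4) (nat_lit 452) (nat_lit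 353) (nat_lit 215)) (XT.lf (nat_lit 0) (nat_lit 1516235891173) (nat_lit 152) (nat_lit 1664039029417) (nat_lit 0) (nat_lit 1489408080236) (nat_lit 1) (nat_lit 5) (nat_lit 3) (nat_lit 4) (nat_lit 1) (nat_lit 4) (nat_lit 453) (nat_lit 353) (nat_lit 214))) (XT.nd (nat_lit 78) (nat_lit 0) (nat_lit 0) (XT.lf (nat_lit 0) (nat_lit 1684785518813) (nat_lit 152) (nat_lit 1696560241240) (nat_lit 0) (nat_lit 1657957662965) (nat_lit 1) (nat_lit 5) (nat_lit 3) (nat_lit 4) (nat_lit 1) (nat_lit 4) (nat_lit 454) (nat_lit 353) (nat_lit 213)) (XT.nd (nat_lit 78) (nat_lit 0) (nat_lit 0) (XT.lf (nat_lit 0) (nat_lit 1866818957413) (nat_lit 152) (nat_lit 1731683474342) (nat_lit 0) (nat_lit 1839991059979) (nat_lit 1) (nat_lit 5) (nat_lit 3) (nat_lit 4) (nat_lit 1) (nat_lit 4) (nat_lit 455) (nat_lit 353) (nat_lit 212)) (XT.lf (nat_lit 0) (nat_lit 2063414923644) (nat_lit 152) (nat_lit 1769616866401) (nat_lit 0)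 (nat_lit 2036586987706) (nat_lit 1) (nat_lit 5) (nat_lit 3) (nat_lit 4) (nat_lit 1) (nat_lit 4) (nat_lit 456) (nat_lit 353) (nat_lit 211)))))) (XT.nd (nat_lit 390) (nat_lit 0) (nat_lit 0) (XT.nd (nat_lit 156) (nat_lit 0) (nat_lit 0) (XT.nd (nat_lit 78) (nat_lit 0) (nat_lit 0) (XT.lf (nat_lit 0) (nat_lit 2275738430640) (nat_lit 152) (nat_lit 1810585207887) (nat_lit 0) (nat_lit 2248910459050) (nat_lit 1) (nat_lit 5) (nat_lit 3) (nat_lit 4) (nat_lit 1) (nat_lit 4) (nat_lit 457) (nat_lit 353) (nat_lit 210)) (XT.lf (nat_lit 0) (nat_lit 2505047691777) (nat_lit 152) (nat_lit 1854831274159) (nat_lit 0) (nat_lit 2478219687175) (nat_lit 1) (nat_lit 5) (nat_lit 3) (nat_lit 4) (nat_lit 1) (nat_lit 4) (nat_lit 458) (nat_lit 353) (nat_lit 209))) (XT.nd (nat_lit 78) (nat_lit 0) (nat_lit 0) (XT.lf (nat_lit 0) (nat_lit 2752701576749) (nat_lit 152) (nat_lit 1902617264126) (nat_lit 0) (nat_lit 2725873541582)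 (nat_lit 1) (nat_lit 5) (nat_lit 3) (nat_lit 4) (nat_lit 1) (nat_lit 4) (nat_lit 459) (nat_lit 353) (nat_lit 208)) (XT.nd (nat_lit 78) (nat_lit 0) (nat_lit 0) (XT.lf (nat_lit 0) (nat_lit 3020167664135) (nat_lit 152) (nat_lit 1954226354027) (nat_lit 0) (nat_lit 2993339600666) (nat_lit 1) (nat_lit 5) (nat_lit 3) (nat_lit 4) (nat_lit 1) (nat_lit 4) (nat_lit 460) (nat_lit 353) (nat_lit 207)) (XT.lf (nat_lit 0) (nat_lit 3309030938156) (nat_lit 152) (nat_lit 2009964375504) (nat_lit 0) (nat_lit 3282202848481) (nat_lit 1) (nat_lit 5) (nat_lit 3) (nat_lit 4) (nat_lit 1) (nat_lit 4) (nat_lit 461) (nat_lit 353) (nat_lit 206))))) (XT.nd (nat_lit 44772) (nat_lit 0) (nat_lit 4788) (XT.nd (nat_lit 44694) (nat_lit 0) (nat_lit 4788) (XT.lf (nat_lit 0) (nat_lit 3621003181176) (nat_lit 152) (nat_lit 2070161627945) (nat_lit 0) (nat_lit 3594175067236) (nat_lit 1) (nat_lit 5) (nat_lit 3) (nat_lit 4) (nat_lit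 1) (nat_lit 4) (nat_lit 462) (nat_lit 353) (nat_lit 205)) (XT.lf (nat_lit 0) (nat_lit 3386715657) (nat_lit 532) (nat_lit 1369147917) (nat_lit 532) (nat_lit 1369147917) (nat_lit 64) (nat_lit 3) (nat_lit 71) (nat_lit 3) (nat_lit 71) (nat_lit 5) (nat_lit 354) (nat_lit 354) (nat_lit 312))) (XT.nd (nat_lit 78) (nat_lit 0) (nat_lit 76) (XT.lf (nat_lit 76) (nat_lit 3387673441) (nat_lit 0) (nat_lit 4167209609) (nat_lit 532) (nat_lit 5143893855) (nat_lit 65) (nat_lit 5) (nat_lit 64) (nat_lit 3) (nat_lit 71) (nat_lit 5) (nat_lit 355) (nat_lit 354) (nat_lit 311)) (XT.nd (nat_lit 78) (nat_lit 0) (nat_lit 0) (XT.lf (nat_lit 0) (nat_lit 8471209683) (nat_lit 456) (nat_lit 3086935807) (nat_lit 532) (nat_lit 1619537555) (nat_lit 65) (nat_lit 5) (nat_lit 71) (nat_lit 5) (nat_lit 72) (nat_lit 5) (nat_lit 356) (nat_lit 354) (nat_lit 310)) (XT.lf (nat_lit 76) (nat_lit 3684964760) (nat_lit 0) (nat_lit 5932876570)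 (nat_lit 532) (nat_lit 4064538031) (nat_lit 66) (nat_lit 5) (nat_lit 65) (nat_lit 5) (nat_lit 72) (nat_lit 5) (nat_lit 357) (nat_lit 354) (nat_lit 309))))))) (XT.nd (nat_lit 780) (nat_lit 1140) (nat_lit 0) (XT.nd (nat_lit 390) (nat_lit 836) (nat_lit 0) (XT.nd (nat_lit 156) (nat_lit 456) (nat_lit 0) (XT.nd (nat_lit 78) (nat_lit 0) (nat_lit 0) (XT.lf (nat_lit 0) (nat_lit 10908981804) (nat_lit 456) (nat_lit 3081097830) (nat_lit 532) (nat_lit 233184295) (nat_lit 66) (nat_lit 5) (nat_lit 72) (nat_lit 5) (nat_lit 73) (nat_lit 5) (nat_lit 358) (nat_lit 354) (nat_lit 308)) (XT.lf (nat_lit 76) (nat_lit 4429178429) (nat_lit 0) (nat_lit 8100374915) (nat_lit 532) (nat_lit 2259806965) (nat_lit 67) (nat_lit 5) (nat_lit 66) (nat_lit 5) (nat_lit 73) (nat_lit 5) (nat_lit 359) (nat_lit 354) (nat_lit 307))) (XT.nd (nat_lit 78) (nat_lit 456) (nat_lit 0) (XT.lf (nat_lit 76) (nat_lit 12689369695) (nat_lit 0)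 (nat_lit 1642086681) (nat_lit 532) (nat_lit 1065183005) (nat_lit 67) (nat_lit 5) (nat_lit 66) (nat_lit 5) (nat_lit 73) (nat_lit 5) (nat_lit 360) (nat_lit 354) (nat_lit 306)) (XT.nd (nat_lit 78) (nat_lit 0) (nat_lit 0) (XT.lf (nat_lit 0) (nat_lit 454867558) (nat_lit 532) (nat_lit 10357895800) (nat_lit 76) (nat_lit 5220041076) (nat_lit 60) (nat_lit 5) (nat_lit 67) (nat_lit 5) (nat_lit 61) (nat_lit 5) (nat_lit 361) (nat_lit 354) (nat_lit 305)) (XT.lf (nat_lit 0) (nat_lit 2128400703) (nat_lit 532) (nat_lit 1932216528) (nat_lit 76) (nat_lit 12649901697) (nat_lit 60) (nat_lit 5) (nat_lit 67) (nat_lit 5) (nat_lit 61) (nat_lit 5) (nat_lit 362) (nat_lit 354) (nat_lit 304))))) (XT.nd (nat_lit 156) (nat_lit 456) (nat_lit 0) (XT.nd (nat_lit 78) (nat_lit 0) (nat_lit 0) (XT.lf (nat_lit 0) (nat_lit 4172067648) (nat_lit 456) (nat_lit 9994635199) (nat_lit 76) (nat_lit 3256869581) (nat_lit 55) (nat_lit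 5) (nat_lit 61) (nat_lit 5) (nat_lit 56) (nat_lit 5) (nat_lit 363) (nat_lit 354) (nat_lit 303)) (XT.lf (nat_lit 0) (nat_lit 6513307811) (nat_lit 456) (nat_lit 674463940) (nat_lit 76) (nat_lit 10995192378) (nat_lit 55) (nat_lit 5) (nat_lit 61) (nat_lit 5) (nat_lit 56) (nat_lit 5) (nat_lit 364) (nat_lit 354) (nat_lit 302))) (XT.nd (nat_lit 78) (nat_lit 228) (nat_lit 0) (XT.lf (nat_lit 0) (nat_lit 9269802215) (nat_lit 304) (nat_lit 9141094968) (nat_lit 76) (nat_lit 573992389) (nat_lit 52) (nat_lit 5) (nat_lit 56) (nat_lit 5) (nat_lit 53) (nat_lit 5) (nat_lit 365) (nat_lit 354) (nat_lit 301)) (XT.nd (nat_lit 78) (nat_lit 0) (nat_lit 0) (XT.lf (nat_lit 0) (nat_lit 1241103626) (nat_lit 228) (nat_lit 11218602216) (nat_lit 304) (nat_lit 7374249449) (nat_lit 49) (nat_lit 5) (nat_lit 52) (nat_lit 5) (nat_lit 53) (nat_lit 5) (nat_lit 366) (nat_lit 354) (nat_lit 300)) (XT.lf (nat_lit 0) (nat_lit 12948218705)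 (nat_lit 228) (nat_lit 3185000867) (nat_lit 304) (nat_lit 4599469394) (nat_lit 49) (nat_lit 5) (nat_lit 52) (nat_lit 5) (nat_lit 53) (nat_lit 5) (nat_lit 367) (nat_lit 354) (nat_lit 299)))))) (XT.nd (nat_lit 390) (nat_lit 532) (nat_lit 0) (XT.nd (nat_lit 156) (nat_lit 380) (nat_lit 0) (XT.nd (nat_lit 78) (nat_lit 76) (nat_lit 0) (XT.lf (nat_lit 0) (nat_lit 3927852533) (nat_lit 152) (nat_lit 16379281088) (nat_lit 228) (nat_lit 1379681108) (nat_lit 47) (nat_lit 5) (nat_lit 49) (nat_lit 5) (nat_lit 50) (nat_lit 5) (nat_lit 368) (nat_lit 354) (nat_lit 298)) (XT.lf (nat_lit 0) (nat_lit 2274223823) (nat_lit 228) (nat_lit 5844637777) (nat_lit 76) (nat_lit 14571868307) (nat_lit 46) (nat_lit 5) (nat_lit 49) (nat_lit 5) (nat_lit 47) (nat_lit 5) (nat_lit 369) (nat_lit 354) (nat_lit 297))) (XT.nd (nat_lit 78) (nat_lit 152) (nat_lit 0) (XT.lf (nat_lit 0) (nat_lit 6328690126) (nat_lit 304) (nat_lit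 16454122977) (nat_lit 76) (nat_lit 974667172) (nat_lit 43) (nat_lit 5) (nat_lit 47) (nat_lit 5) (nat_lit 44) (nat_lit 5) (nat_lit 370) (nat_lit 354) (nat_lit 296)) (XT.nd (nat_lit 78) (nat_lit 152) (nat_lit 0) (XT.lf (nat_lit 0) (nat_lit 11064827119) (nat_lit 304) (nat_lit 3300567613) (nat_lit 76) (nat_lit 10515601842) (nat_lit 43) (nat_lit 5) (nat_lit 47) (nat_lit 5) (nat_lit 44) (nat_lit 5) (nat_lit 371) (nat_lit 354) (nat_lit 295)) (XT.lf (nat_lit 0) (nat_lit 11455807876) (nat_lit 152) (nat_lit 4983337790) (nat_lit 228) (nat_lit 9634515426) (nat_lit 41) (nat_lit 5) (nat_lit 43) (nat_lit 5) (nat_lit 44) (nat_lit 5) (nat_lit 372) (nat_lit 354) (nat_lit 294))))) (XT.nd (nat_lit 234) (nat_lit 152) (nat_lit 0) (XT.nd (nat_lit 78) (nat_lit 228) (nat_lit 0) (XT.lf (nat_lit 0) (nat_lit 80672589) (nat_lit 152) (nat_lit 22365402462) (nat_lit 228) (nat_lit 4899459899) (nat_lit 39) (nat_lit 5)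 (nat_lit 41) (nat_lit 5) (nat_lit 42) (nat_lit 5) (nat_lit 373) (nat_lit 354) (nat_lit 293)) (XT.nd (nat_lit 78) (nat_lit 152) (nat_lit 0) (XT.lf (nat_lit 0) (nat_lit 727691606) (nat_lit 228) (nat_lit 12069047020) (nat_lit 76) (nat_lit 15880094316) (nat_lit 38) (nat_lit 5) (nat_lit 41) (nat_lit 5) (nat_lit 39) (nat_lit 5) (nat_lit 374) (nat_lit 354) (nat_lit 292)) (XT.lf (nat_lit 0) (nat_lit 4414429970) (nat_lit 152) (nat_lit 2217721066) (nat_lit 228) (nat_lit 23464963797) (nat_lit 36) (nat_lit 5) (nat_lit 38) (nat_lit 5) (nat_lit 39) (nat_lit 5) (nat_lit 375) (nat_lit 354) (nat_lit 291)))) (XT.nd (nat_lit 78) (nat_lit 152) (nat_lit 0) (XT.lf (nat_lit 0) (nat_lit 13555019379) (nat_lit 228) (nat_lit 8953633359) (nat_lit 76) (nat_lit 9078689280) (nat_lit 36) (nat_lit 5) (nat_lit 39) (nat_lit 5) (nat_lit 37) (nat_lit 5) (nat_lit 376) (nat_lit 354) (nat_lit 290)) (XT.nd (nat_lit 78) (nat_lit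 0) (nat_lit 0) (XT.lf (nat_lit 0) (nat_lit 9511614182) (nat_lit 152) (nat_lit 11793542594) (nat_lit 228) (nat_lit 11869761838) (nat_lit 34) (nat_lit 5) (nat_lit 36) (nat_lit 5) (nat_lit 37) (nat_lit 5) (nat_lit 377) (nat_lit 354) (nat_lit 289)) (XT.lf (nat_lit 0) (nat_lit 29908536188) (nat_lit 228) (nat_lit 4928315348) (nat_lit 76) (nat_lit 33997251) (nat_lit 34) (nat_lit 5) (nat_lit 37) (nat_lit 5) (nat_lit 35) (nat_lit 4) (nat_lit 378) (nat_lit 354) (nat_lit 288))))))))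
noncomputable def xc134 : XT := (XT.nd (nat_lit 1560) (nat_lit 760) (nat_lit 0) (XT.nd (nat_lit 780) (nat_lit 532) (nat_lit 0) (XT.nd (nat_lit 390) (nat_lit 456) (nat_lit 0) (XT.nd (nat_lit 156) (nat_lit 228) (nat_lit 0) (XT.nd (nat_lit 78) (nat_lit 0) (nat_lit 0) (XT.lf (nat_lit 0) (nat_lit 3064170402) (nat_lit 152) (nat_lit 20957266738) (nat_lit 76) (nat_lit 12620904910) (nat_lit 32) (nat_lit 5) (nat_lit 34) (nat_lit 5) (nat_lit 33) (nat_lit 5) (nat_lit 379) (nat_lit 354) (nat_lit 287)) (XT.lf (nat_lit 0) (nat_lit 11591365998) (nat_lit 152) (nat_lit 468594705) (nat_lit 76) (nat_lit 26475152463) (nat_lit 32) (nat_lit 5) (nat_lit 34) (nat_lit 5) (nat_lit 33) (nat_lit 5) (nat_lit 380) (nat_lit 354) (nat_lit 286))) (XT.nd (nat_lit 78) (nat_lit 76) (nat_lit 0) (XT.lf (nat_lit 0) (nat_lit 21372619845) (nat_lit 228) (nat_lit 17790092791) (nat_lit 76) (nat_lit 1370847083) (nat_lit 30) (nat_lit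 5) (nat_lit 33) (nat_lit 5) (nat_lit 31) (nat_lit 4) (nat_lit 381) (nat_lit 354) (nat_lit 285)) (XT.nd (nat_lit 78) (nat_lit 0) (nat_lit 0) (XT.lf (nat_lit 0) (nat_lit 5070317020) (nat_lit 76) (nat_lit 27303890227) (nat_lit 152) (nat_lit 10282652124) (nat_lit 29) (nat_lit 5) (nat_lit 30) (nat_lit 5) (nat_lit 31) (nat_lit 4) (nat_lit 382) (nat_lit 354) (nat_lit 284)) (XT.lf (nat_lit 0) (nat_lit 30753726243) (nat_lit 76) (nat_lit 13978464421) (nat_lit 152) (nat_lit 179734547) (nat_lit 29) (nat_lit 5) (nat_lit 30) (nat_lit 5) (nat_lit 31) (nat_lit 4) (nat_lit 383) (nat_lit 354) (nat_lit 283))))) (XT.nd (nat_lit 156) (nat_lit 228) (nat_lit 0) (XT.nd (nat_lit 78) (nat_lit 0) (nat_lit 0) (XT.lf (nat_lit 0) (nat_lit 10483738195) (nat_lit 228) (nat_lit 35887210226) (nat_lit 76) (nat_lit 932671780) (nat_lit 26) (nat_lit 5) (nat_lit 29) (nat_lit 5) (nat_lit 27) (nat_lit 4) (nat_lit 384) (nat_lit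 354) (nat_lit 282)) (XT.lf (nat_lit 0) (nat_lit 22741332408) (nat_lit 228) (nat_lit 10408240555) (nat_lit 76) (nat_lit 16676647000) (nat_lit 26) (nat_lit 5) (nat_lit 29) (nat_lit 5) (nat_lit 27) (nat_lit 4) (nat_lit 385) (nat_lit 354) (nat_lit 281))) (XT.nd (nat_lit 78) (nat_lit 152) (nat_lit 0) (XT.lf (nat_lit 0) (nat_lit 17993472207) (nat_lit 76) (nat_lit 18410020135) (nat_lit 152) (nat_lit 16113221455) (nat_lit 25) (nat_lit 5) (nat_lit 26) (nat_lit 5) (nat_lit 27) (nat_lit 4) (nat_lit 386) (nat_lit 354) (nat_lit 280)) (XT.nd (nat_lit 78) (nat_lit 152) (nat_lit 0) (XT.lf (nat_lit 0) (nat_lit 49243964003) (nat_lit 76) (nat_lit 2190738738) (nat_lit 152) (nat_lit 3965660726) (nat_lit 25) (nat_lit 5) (nat_lit 26) (nat_lit 5) (nat_lit 27) (nat_lit 4) (nat_lit 387) (nat_lit 354) (nat_lit 279)) (XT.lf (nat_lit 0) (nat_lit 9691616871) (nat_lit 152) (nat_lit 33316969271) (nat_lit 76) (nat_lit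 15408844011) (nat_lit 23) (nat_lit 5) (nat_lit 25) (nat_lit 5) (nat_lit 24) (nat_lit 4) (nat_lit 388) (nat_lit 354) (nat_lit 278)))))) (XT.nd (nat_lit 390) (nat_lit 228) (nat_lit 0) (XT.nd (nat_lit 156) (nat_lit 228) (nat_lit 0) (XT.nd (nat_lit 78) (nat_lit 76) (nat_lit 0) (XT.lf (nat_lit 0) (nat_lit 24448853355) (nat_lit 152) (nat_lit 2633369076) (nat_lit 76) (nat_lit 34567671399) (nat_lit 23) (nat_lit 5) (nat_lit 25) (nat_lit 5) (nat_lit 24) (nat_lit 4) (nat_lit 389) (nat_lit 354) (nat_lit 277)) (XT.lf (nat_lit 0) (nat_lit 32096941474) (nat_lit 76) (nat_lit 9054274366) (nat_lit 152) (nat_lit 23928576863) (nat_lit 22) (nat_lit 5) (nat_lit 23) (nat_lit 5) (nat_lit 24) (nat_lit 4) (nat_lit 390) (nat_lit 354) (nat_lit 276))) (XT.nd (nat_lit 78) (nat_lit 152) (nat_lit 0) (XT.lf (nat_lit 0) (nat_lit 748505626) (nat_lit 76) (nat_lit 58776333879) (nat_lit 76) (nat_lit 9232439938) (nat_lit 21)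 (nat_lit 4) (nat_lit 22) (nat_lit 5) (nat_lit 22) (nat_lit 4) (nat_lit 391) (nat_lit 354) (nat_lit 275)) (XT.nd (nat_lit 78) (nat_lit 76) (nat_lit 0) (XT.lf (nat_lit 0) (nat_lit 7460399462) (nat_lit 152) (nat_lit 34034680394) (nat_lit 76) (nat_lit 31128861306) (nat_lit 20) (nat_lit 5) (nat_lit 22) (nat_lit 5) (nat_lit 21) (nat_lit 4) (nat_lit 392) (nat_lit 354) (nat_lit 274)) (XT.lf (nat_lit 0) (nat_lit 2531469344) (nat_lit 76) (nat_lit 22512556833) (nat_lit 152) (nat_lit 51732394587) (nat_lit 19) (nat_lit 5) (nat_lit 20) (nat_lit 5) (nat_lit 21) (nat_lit 4) (nat_lit 393) (nat_lit 354) (nat_lit 273))))) (XT.nd (nat_lit 156) (nat_lit 152) (nat_lit 0) (XT.nd (nat_lit 78) (nat_lit 76) (nat_lit 0) (XT.lf (nat_lit 0) (nat_lit 43946113187) (nat_lit 76) (nat_lit 1012268928) (nat_lit 152) (nat_lit 36228794764) (nat_lit 19) (nat_lit 5) (nat_lit 20) (nat_lit 5) (nat_lit 21) (nat_lit 4) (nat_lit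 394) (nat_lit 354) (nat_lit 272)) (XT.lf (nat_lit 0) (nat_lit 2291861511) (nat_lit 76) (nat_lit 64757072263) (nat_lit 76) (nat_lit 18855217109) (nat_lit 18) (nat_lit 4) (nat_lit 19) (nat_lit 5) (nat_lit 19) (nat_lit 4) (nat_lit 395) (nat_lit 354) (nat_lit 271))) (XT.nd (nat_lit 78) (nat_lit 76) (nat_lit 0) (XT.lf (nat_lit 0) (nat_lit 977661383) (nat_lit 152) (nat_lit 43874048174) (nat_lit 76) (nat_lit 46061764811) (nat_lit 17) (nat_lit 5) (nat_lit 19) (nat_lit 5) (nat_lit 18) (nat_lit 4) (nat_lit 396) (nat_lit 354) (nat_lit 270)) (XT.nd (nat_lit 78) (nat_lit 76) (nat_lit 0) (XT.lf (nat_lit 0) (nat_lit 21372802084) (nat_lit 152) (nat_lit 1457459864) (nat_lit 76) (nat_lit 73454558775) (nat_lit 17) (nat_lit 5) (nat_lit 19) (nat_lit 5) (nat_lit 18) (nat_lit 4) (nat_lit 397) (nat_lit 354) (nat_lit 269)) (XT.lf (nat_lit 0) (nat_lit 44568827459) (nat_lit 152) (nat_lit 55371160004) (nat_lit 0)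 (nat_lit 2052346316) (nat_lit 16) (nat_lit 5) (nat_lit 18) (nat_lit 4) (nat_lit 16) (nat_lit 4) (nat_lit 398) (nat_lit 354) (nat_lit 268))))))) (XT.nd (nat_lit 780) (nat_lit 304) (nat_lit 0) (XT.nd (nat_lit 390) (nat_lit 228) (nat_lit 0) (XT.nd (nat_lit 156) (nat_lit 152) (nat_lit 0) (XT.nd (nat_lit 78) (nat_lit 76) (nat_lit 0) (XT.lf (nat_lit 0) (nat_lit 70249176494) (nat_lit 152) (nat_lit 10128496270) (nat_lit 0) (nat_lit 27728484587) (nat_lit 16) (nat_lit 5) (nat_lit 18) (nat_lit 4) (nat_lit 16) (nat_lit 4) (nat_lit 399) (nat_lit 354) (nat_lit 267)) (XT.lf (nat_lit 0) (nat_lit 40763287690) (nat_lit 76) (nat_lit 58196174944) (nat_lit 76) (nat_lit 15671584182) (nat_lit 15) (nat_lit 4) (nat_lit 16) (nat_lit 5) (nat_lit 16) (nat_lit 4) (nat_lit 400) (nat_lit 354) (nat_lit 266))) (XT.nd (nat_lit 78) (nat_lit 76) (nat_lit 0) (XT.lf (nat_lit 0) (nat_lit 8153302790) (nat_lit 152) (nat_lit 25569331008)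 (nat_lit 76) (nat_lit 87917003701) (nat_lit 14) (nat_lit 5) (nat_lit 16) (nat_lit 5) (nat_lit 15) (nat_lit 4) (nat_lit 401) (nat_lit 354) (nat_lit 265)) (XT.nd (nat_lit 78) (nat_lit 0) (nat_lit 0) (XT.lf (nat_lit 0) (nat_lit 27555606689) (nat_lit 76) (nat_lit 6140138571) (nat_lit 152) (nat_lit 95427947463) (nat_lit 13) (nat_lit 5) (nat_lit 14) (nat_lit 5) (nat_lit 15) (nat_lit 4) (nat_lit 402) (nat_lit 354) (nat_lit 264)) (XT.lf (nat_lit 0) (nat_lit 62563160539) (nat_lit 152) (nat_lit 51361550167) (nat_lit 0) (nat_lit 23179236011) (nat_lit 13) (nat_lit 5) (nat_lit 15) (nat_lit 4) (nat_lit 13) (nat_lit 4) (nat_lit 403) (nat_lit 354) (nat_lit 263))))) (XT.nd (nat_lit 156) (nat_lit 152) (nat_lit 0) (XT.nd (nat_lit 78) (nat_lit 0) (nat_lit 0) (XT.lf (nat_lit 0) (nat_lit 2835750653) (nat_lit 76) (nat_lit 91127781912) (nat_lit 76) (nat_lit 51741203889) (nat_lit 12) (nat_lit 4) (nat_lit 13) (nat_lit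 5) (nat_lit 13) (nat_lit 4) (nat_lit 404) (nat_lit 354) (nat_lit 262)) (XT.lf (nat_lit 0) (nat_lit 64281888689) (nat_lit 76) (nat_lit 64994355656) (nat_lit 76) (nat_lit 25605320694) (nat_lit 12) (nat_lit 4) (nat_lit 13) (nat_lit 5) (nat_lit 13) (nat_lit 4) (nat_lit 405) (nat_lit 354) (nat_lit 261))) (XT.nd (nat_lit 78) (nat_lit 76) (nat_lit 0) (XT.lf (nat_lit 0) (nat_lit 2486492618) (nat_lit 152) (nat_lit 34219405260) (nat_lit 76) (nat_lit 128081903257) (nat_lit 11) (nat_lit 5) (nat_lit 13) (nat_lit 5) (nat_lit 12) (nat_lit 4) (nat_lit 406) (nat_lit 354) (nat_lit 260)) (XT.nd (nat_lit 78) (nat_lit 0) (nat_lit 0) (XT.lf (nat_lit 0) (nat_lit 27368308647) (nat_lit 76) (nat_lit 4728674518) (nat_lit 152) (nat_lit 143283972701) (nat_lit 10) (nat_lit 5) (nat_lit 11) (nat_lit 5) (nat_lit 12) (nat_lit 4) (nat_lit 407) (nat_lit 354) (nat_lit 259)) (XT.lf (nat_lit 0) (nat_lit 65749578743) (nat_lit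 152) (nat_lit 91665735991) (nat_lit 0) (nat_lit 29272387321) (nat_lit 10) (nat_lit 5) (nat_lit 12) (nat_lit 4) (nat_lit 10) (nat_lit 4) (nat_lit 408) (nat_lit 354) (nat_lit 258)))))) (XT.nd (nat_lit 390) (nat_lit 76) (nat_lit 0) (XT.nd (nat_lit 156) (nat_lit 152) (nat_lit 0) (XT.nd (nat_lit 78) (nat_lit 76) (nat_lit 0) (XT.lf (nat_lit 0) (nat_lit 102213956823) (nat_lit 152) (nat_lit 30940372195) (nat_lit 0) (nat_lit 65735093250) (nat_lit 10) (nat_lit 5) (nat_lit 12) (nat_lit 4) (nat_lit 10) (nat_lit 4) (nat_lit 409) (nat_lit 354) (nat_lit 257)) (XT.lf (nat_lit 0) (nat_lit 36460947155) (nat_lit 76) (nat_lit 106008417375) (nat_lit 76) (nat_lit 69528005512) (nat_lit 9) (nat_lit 4) (nat_lit 10) (nat_lit 5) (nat_lit 10) (nat_lit 4) (nat_lit 410) (nat_lit 354) (nat_lit 256))) (XT.nd (nat_lit 78) (nat_lit 152) (nat_lit 0) (XT.lf (nat_lit 0) (nat_lit 111008132487) (nat_lit 76) (nat_lit 75780111865)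 (nat_lit 76) (nat_lit 39298266401) (nat_lit 9) (nat_lit 4) (nat_lit 10) (nat_lit 5) (nat_lit 10) (nat_lit 4) (nat_lit 411) (nat_lit 354) (nat_lit 255)) (XT.nd (nat_lit 78) (nat_lit 152) (nat_lit 0) (XT.lf (nat_lit 0) (nat_lit 191513679729) (nat_lit 76) (nat_lit 43136246396) (nat_lit 76) (nat_lit 6653073523) (nat_lit 9) (nat_lit 4) (nat_lit 10) (nat_lit 5) (nat_lit 10) (nat_lit 4) (nat_lit 412) (nat_lit 354) (nat_lit 254)) (XT.lf (nat_lit 0) (nat_lit 21084528414) (nat_lit 76) (nat_lit 6592841954) (nat_lit 152) (nat_lit 229964043042) (nat_lit 7) (nat_lit 5) (nat_lit 8) (nat_lit 5) (nat_lit 9) (nat_lit 4) (nat_lit 413) (nat_lit 354) (nat_lit 253))))) (XT.nd (nat_lit 234) (nat_lit 76) (nat_lit 0) (XT.nd (nat_lit 78) (nat_lit 0) (nat_lit 0) (XT.lf (nat_lit 0) (nat_lit 66579556044) (nat_lit 152) (nat_lit 175722091615) (nat_lit 0) (nat_lit 32796648643) (nat_lit 7) (nat_lit 5) (nat_lit 9) (nat_lit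 4) (nat_lit 7) (nat_lit 4) (nat_lit 414) (nat_lit 354) (nat_lit 252)) (XT.nd (nat_lit 78) (nat_lit 0) (nat_lit 0) (XT.lf (nat_lit 0) (nat_lit 108762785427) (nat_lit 152) (nat_lit 110196532734) (nat_lit 0) (nat_lit 74978902342) (nat_lit 7) (nat_lit 5) (nat_lit 9) (nat_lit 4) (nat_lit 7) (nat_lit 4) (nat_lit 415) (nat_lit 354) (nat_lit 251)) (XT.lf (nat_lit 0) (nat_lit 154318475204) (nat_lit 152) (nat_lit 39433350737) (nat_lit 0) (nat_lit 120533688707) (nat_lit 7) (nat_lit 5) (nat_lit 9) (nat_lit 4) (nat_lit 7) (nat_lit 4) (nat_lit 416) (nat_lit 354) (nat_lit 250)))) (XT.nd (nat_lit 78) (nat_lit 0) (nat_lit 0) (XT.lf (nat_lit 0) (nat_lit 38934450656) (nat_lit 76) (nat_lit 165518508836) (nat_lit 76) (nat_lit 131732885847) (nat_lit 6) (nat_lit 4) (nat_lit 7) (nat_lit 5) (nat_lit 7) (nat_lit 4) (nat_lit 417) (nat_lit 354) (nat_lit 249)) (XT.nd (nat_lit 78) (nat_lit 0) (nat_lit 0) (XT.lf (nat_lit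 0) (nat_lit 125810295337) (nat_lit 76) (nat_lit 133864104513) (nat_lit 76) (nat_lit 100077706994) (nat_lit 6) (nat_lit 4) (nat_lit 7) (nat_lit 5) (nat_lit 7) (nat_lit 4) (nat_lit 418) (nat_lit 354) (nat_lit 248)) (XT.lf (nat_lit 0) (nat_lit 219632512756) (nat_lit 76) (nat_lit 99679209011) (nat_lit 76) (nat_lit 65892094334) (nat_lit 6) (nat_lit 4) (nat_lit 7) (nat_lit 5) (nat_lit 7) (nat_lit 4) (nat_lit 419) (nat_lit 354) (nat_lit 247))))))))
noncomputable def xc135 : XT := (XT.nd (nat_lit 1638) (nat_lit 0) (nat_lit 0) (XT.nd (nat_lit 780) (nat_lit 152) (nat_lit 0) (XT.nd (nat_lit 390) (nat_lit 76) (nat_lit 0) (XT.nd (nat_lit 156) (nat_lit 76) (nat_lit 0) (XT.nd (nat_lit 78) (nat_lit 76) (nat_lit 0) (XT.lf (nat_lit 0) (nat_lit 320957086426) (nat_lit 76) (nat_lit 62761245169) (nat_lit 76) (nat_lit 28973466458) (nat_lit 6) (nat_lit 4) (nat_lit 7) (nat_lit 5) (nat_lit 7) (nat_lit 4) (nat_lit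 420) (nat_lit 354) (nat_lit 246)) (XT.lf (nat_lit 0) (nat_lit 10351843932) (nat_lit 152) (nat_lit 12256558179) (nat_lit 76) (nat_lit 419749576573) (nat_lit 5) (nat_lit 5) (nat_lit 7) (nat_lit 5) (nat_lit 6) (nat_lit 4) (nat_lit 421) (nat_lit 354) (nat_lit 245))) (XT.nd (nat_lit 78) (nat_lit 0) (nat_lit 0) (XT.lf (nat_lit 0) (nat_lit 53666614370) (nat_lit 152) (nat_lit 398097396844) (nat_lit 0) (nat_lit 22380537647) (nat_lit 4) (nat_lit 5) (nat_lit 6) (nat_lit 4) (nat_lit 4) (nat_lit 4) (nat_lit 422) (nat_lit 354) (nat_lit 244)) (XT.nd (nat_lit 78) (nat_lit 0) (nat_lit 0) (XT.lf (nat_lit 0) (nat_lit 101376128851) (nat_lit 152) (nat_lit 336933986862) (nat_lit 0) (nat_lit 70089564043) (nat_lit 4) (nat_lit 5) (nat_lit 6) (nat_lit 4) (nat_lit 4) (nat_lit 4) (nat_lit 423) (nat_lit 354) (nat_lit 243)) (XT.lf (nat_lit 0) (nat_lit 152901025647) (nat_lit 152) (nat_lit 270880296958) (nat_lit 0) (nat_lit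 121614008908) (nat_lit 4) (nat_lit 5) (nat_lit 6) (nat_lit 4) (nat_lit 4) (nat_lit 4) (nat_lit 424) (nat_lit 354) (nat_lit 242))))) (XT.nd (nat_lit 156) (nat_lit 76) (nat_lit 0) (XT.nd (nat_lit 78) (nat_lit 0) (nat_lit 0) (XT.lf (nat_lit 0) (nat_lit 208546637481) (nat_lit 152) (nat_lit 199544897860) (nat_lit 0) (nat_lit 177259202288) (nat_lit 4) (nat_lit 5) (nat_lit 6) (nat_lit 4) (nat_lit 4) (nat_lit 4) (nat_lit 425) (nat_lit 354) (nat_lit 241)) (XT.lf (nat_lit 0) (nat_lit 268642716126) (nat_lit 152) (nat_lit 122505061276) (nat_lit 0) (nat_lit 237354893475) (nat_lit 4) (nat_lit 5) (nat_lit 6) (nat_lit 4) (nat_lit 4) (nat_lit 4) (nat_lit 426) (nat_lit 354) (nat_lit 240))) (XT.nd (nat_lit 78) (nat_lit 76) (nat_lit 0) (XT.lf (nat_lit 0) (nat_lit 333545386494) (nat_lit 152) (nat_lit 39304254842) (nat_lit 0) (nat_lit 302257205085) (nat_lit 4) (nat_lit 5) (nat_lit 6) (nat_lit 4) (nat_lit 4)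 (nat_lit 4) (nat_lit 427) (nat_lit 354) (nat_lit 239)) (XT.nd (nat_lit 78) (nat_lit 0) (nat_lit 0) (XT.lf (nat_lit 0) (nat_lit 53212466336) (nat_lit 76) (nat_lit 351706551758) (nat_lit 76) (nat_lit 320418038167) (nat_lit 3) (nat_lit 4) (nat_lit 4) (nat_lit 5) (nat_lit 4) (nat_lit 4) (nat_lit 428) (nat_lit 354) (nat_lit 238)) (XT.lf (nat_lit 0) (nat_lit 155363792132) (nat_lit 76) (nat_lit 327712409534) (nat_lit 76) (nat_lit 296423588367) (nat_lit 3) (nat_lit 4) (nat_lit 4) (nat_lit 5) (nat_lit 4) (nat_lit 4) (nat_lit 429) (nat_lit 354) (nat_lit 237)))))) (XT.nd (nat_lit 390) (nat_lit 152) (nat_lit 0) (XT.nd (nat_lit 156) (nat_lit 0) (nat_lit 0) (XT.nd (nat_lit 78) (nat_lit 0) (nat_lit 0) (XT.lf (nat_lit 0) (nat_lit 265685371326) (nat_lit 76) (nat_lit 301799675136) (nat_lit 76) (nat_lit 270510569175) (nat_lit 3) (nat_lit 4) (nat_lit 4) (nat_lit 5) (nat_lit 4) (nat_lit 4) (nat_lit 430) (nat_lit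 354) (nat_lit 236)) (XT.lf (nat_lit 0) (nat_lit 384830961426) (nat_lit 76) (nat_lit 273814791618) (nat_lit 76) (nat_lit 242525421960) (nat_lit 3) (nat_lit 4) (nat_lit 4) (nat_lit 5) (nat_lit 4) (nat_lit 4) (nat_lit 431) (nat_lit 354) (nat_lit 235))) (XT.nd (nat_lit 78) (nat_lit 0) (nat_lit 0) (XT.lf (nat_lit 0) (nat_lit 513506610373) (nat_lit 76) (nat_lit 243591922633) (nat_lit 76) (nat_lit 212302308812) (nat_lit 3) (nat_lit 4) (nat_lit 4) (nat_lit 5) (nat_lit 4) (nat_lit 4) (nat_lit 432) (nat_lit 354) (nat_lit 234)) (XT.nd (nat_lit 78) (nat_lit 0) (nat_lit 0) (XT.lf (nat_lit 0) (nat_lit 652474840531) (nat_lit 76) (nat_lit 210951969700) (nat_lit 76) (nat_lit 179662129800) (nat_lit 3) (nat_lit 4) (nat_lit 4) (nat_lit 5) (nat_lit 4) (nat_lit 4) (nat_lit 433) (nat_lit 354) (nat_lit 233)) (XT.lf (nat_lit 0) (nat_lit 802559167339) (nat_lit 76) (nat_lit 175701510874) (nat_lit 76) (nat_lit 144411461643)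 (nat_lit 3) (nat_lit 4) (nat_lit 4) (nat_lit 5) (nat_lit 4) (nat_lit 4) (nat_lit 434) (nat_lit 354) (nat_lit 232))))) (XT.nd (nat_lit 234) (nat_lit 152) (nat_lit 0) (XT.nd (nat_lit 78) (nat_lit 0) (nat_lit 0) (XT.lf (nat_lit 0) (nat_lit 964648979398) (nat_lit 76) (nat_lit 137631654547) (nat_lit 76) (nat_lit 106341411491) (nat_lit 3) (nat_lit 4) (nat_lit 4) (nat_lit 5) (nat_lit 4) (nat_lit 4) (nat_lit 435) (nat_lit 354) (nat_lit 231)) (XT.nd (nat_lit 78) (nat_lit 0) (nat_lit 0) (XT.lf (nat_lit 0) (nat_lit 1139704808930) (nat_lit 76) (nat_lit 96516801572) (nat_lit 76) (nat_lit 65226379047) (nat_lit 3) (nat_lit 4) (nat_lit 4) (nat_lit 5) (nat_lit 4) (nat_lit 4) (nat_lit 436) (nat_lit 354) (nat_lit 230)) (XT.lf (nat_lit 0) (nat_lit 1328764023812) (nat_lit 76) (nat_lit 52113308375) (nat_lit 76) (nat_lit 20822719676) (nat_lit 3) (nat_lit 4) (nat_lit 4) (nat_lit 5) (nat_lit 4) (nat_lit 4) (nat_lit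 437) (nat_lit 354) (nat_lit 229)))) (XT.nd (nat_lit 78) (nat_lit 0) (nat_lit 0) (XT.lf (nat_lit 0) (nat_lit 23497557177) (nat_lit 76) (nat_lit 2842971543) (nat_lit 152) (nat_lit 1483534377240) (nat_lit 1) (nat_lit 5) (nat_lit 2) (nat_lit 5) (nat_lit 3) (nat_lit 4) (nat_lit 438) (nat_lit 354) (nat_lit 228)) (XT.nd (nat_lit 78) (nat_lit 0) (nat_lit 0) (XT.lf (nat_lit 0) (nat_lit 79408737248) (nat_lit 152) (nat_lit 1496555498183) (nat_lit 0) (nat_lit 50435695553) (nat_lit 1) (nat_lit 5) (nat_lit 3) (nat_lit 4) (nat_lit 1) (nat_lit 4) (nat_lit 439) (nat_lit 354) (nat_lit 227)) (XT.lf (nat_lit 0) (nat_lit 136795778119) (nat_lit 152) (nat_lit 1507622695581) (nat_lit 0) (nat_lit 107822614281) (nat_lit 1) (nat_lit 5) (nat_lit 3) (nat_lit 4) (nat_lit 1) (nat_lit 4) (nat_lit 440) (nat_lit 354) (nat_lit 226))))))) (XT.nd (nat_lit 780) (nat_lit 0) (nat_lit 0) (XT.nd (nat_lit 390) (nat_lit 0) (nat_lit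 0) (XT.nd (nat_lit 156) (nat_lit 0) (nat_lit 0) (XT.nd (nat_lit 78) (nat_lit 0) (nat_lit 0) (XT.lf (nat_lit 0) (nat_lit 198773349154) (nat_lit 152) (nat_lit 1519576150833) (nat_lit 0) (nat_lit 169800072220) (nat_lit 1) (nat_lit 5) (nat_lit 3) (nat_lit 4) (nat_lit 1) (nat_lit 4) (nat_lit 441) (nat_lit 354) (nat_lit 225)) (XT.lf (nat_lit 0) (nat_lit 265708724847) (nat_lit 152) (nat_lit 1532486699232) (nat_lit 0) (nat_lit 236735343195) (nat_lit 1) (nat_lit 5) (nat_lit 3) (nat_lit 4) (nat_lit 1) (nat_lit 4) (nat_lit 442) (nat_lit 354) (nat_lit 224))) (XT.nd (nat_lit 78) (nat_lit 0) (nat_lit 0) (XT.lf (nat_lit 0) (nat_lit 337998559276) (nat_lit 152) (nat_lit 1546430847730) (nat_lit 0) (nat_lit 309025080664) (nat_lit 1) (nat_lit 5) (nat_lit 3) (nat_lit 4) (nat_lit 1) (nat_lit 4) (nat_lit 443) (nat_lit 354) (nat_lit 223)) (XT.nd (nat_lit 78) (nat_lit 0) (nat_lit 0) (XT.lf (nat_lit 0) (nat_lit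 416071236646) (nat_lit 152) (nat_lit 1561491228318) (nat_lit 0) (nat_lit 387097668255) (nat_lit 1) (nat_lit 5) (nat_lit 3) (nat_lit 4) (nat_lit 1) (nat_lit 4) (nat_lit 444) (nat_lit 354) (nat_lit 222)) (XT.lf (nat_lit 0) (nat_lit 500389409859) (nat_lit 152) (nat_lit 1577757087696) (nat_lit 0) (nat_lit 471415758340) (nat_lit 1) (nat_lit 5) (nat_lit 3) (nat_lit 4) (nat_lit 1) (nat_lit 4) (nat_lit 445) (nat_lit 354) (nat_lit 221))))) (XT.nd (nat_lit 156) (nat_lit 0) (nat_lit 0) (XT.nd (nat_lit 78) (nat_lit 0) (nat_lit 0) (XT.lf (nat_lit 0) (nat_lit 591452742164) (nat_lit 152) (nat_lit 1595324816143) (nat_lit 0) (nat_lit 562479013675) (nat_lit 1) (nat_lit 5) (nat_lit 3) (nat_lit 4) (nat_lit 1) (nat_lit 4) (nat_lit 446) (nat_lit 354) (nat_lit 220)) (XT.lf (nat_lit 0) (nat_lit 689800868124) (nat_lit 152) (nat_lit 1614298518715) (nat_lit 0) (nat_lit 660827068365) (nat_lit 1) (nat_lit 5) (nat_lit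 3) (nat_lit 4) (nat_lit 1) (nat_lit 4) (nat_lit 447) (nat_lit 354) (nat_lit 219))) (XT.nd (nat_lit 78) (nat_lit 0) (nat_lit 0) (XT.lf (nat_lit 0) (nat_lit 796016591447) (nat_lit 152) (nat_lit 1634790632168) (nat_lit 0) (nat_lit 767042725698) (nat_lit 1) (nat_lit 5) (nat_lit 3) (nat_lit 4) (nat_lit 1) (nat_lit 4) (nat_lit 448) (nat_lit 354) (nat_lit 218)) (XT.nd (nat_lit 78) (nat_lit 0) (nat_lit 0) (XT.lf (nat_lit 0) (nat_lit 910729338642) (nat_lit 152) (nat_lit 1656922591249) (nat_lit 0) (nat_lit 881755411791) (nat_lit 1) (nat_lit 5) (nat_lit 3) (nat_lit 4) (nat_lit 1) (nat_lit 4) (nat_lit 449) (nat_lit 354) (nat_lit 217)) (XT.lf (nat_lit 0) (nat_lit 1034618888951) (nat_lit 152) (nat_lit 1680825548309) (nat_lit 0) (nat_lit 1005644905524) (nat_lit 1) (nat_lit 5) (nat_lit 3) (nat_lit 4) (nat_lit 1) (nat_lit 4) (nat_lit 450) (nat_lit 354) (nat_lit 216)))))) (XT.nd (nat_lit 390) (nat_lit 0)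 (nat_lit 0) (XT.nd (nat_lit 156) (nat_lit 0) (nat_lit 0) (XT.nd (nat_lit 78) (nat_lit 0) (nat_lit 0) (XT.lf (nat_lit 0) (nat_lit 1168419402673) (nat_lit 152) (nat_lit 1706641150499) (nat_lit 0) (nat_lit 1139445366861) (nat_lit 1) (nat_lit 5) (nat_lit 3) (nat_lit 4) (nat_lit 1) (nat_lit 4) (nat_lit 451) (nat_lit 354) (nat_lit 215)) (XT.lf (nat_lit 0) (nat_lit 1312923771741) (nat_lit 152) (nat_lit 1734522379166) (nat_lit 0) (nat_lit 1283949687425) (nat_lit 1) (nat_lit 5) (nat_lit 3) (nat_lit 4) (nat_lit 1) (nat_lit 4) (nat_lit 452) (nat_lit 354) (nat_lit 214))) (XT.nd (nat_lit 78) (nat_lit 0) (nat_lit 0) (XT.lf (nat_lit 0) (nat_lit 1468988318342) (nat_lit 152) (nat_lit 1764634456406) (nat_lit 0) (nat_lit 1440014189114) (nat_lit 1) (nat_lit 5) (nat_lit 3) (nat_lit 4) (nat_lit 1) (nat_lit 4) (nat_lit 453) (nat_lit 354) (nat_lit 213)) (XT.nd (nat_lit 78) (nat_lit 0) (nat_lit 0) (XT.lf (nat_lit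 0) (nat_lit 1637537869418) (nat_lit 152) (nat_lit 1797155824159) (nat_lit 0) (nat_lit 1608563698606) (nat_lit 1) (nat_lit 5) (nat_lit 3) (nat_lit 4) (nat_lit 1) (nat_lit 4) (nat_lit 454) (nat_lit 354) (nat_lit 212)) (XT.lf (nat_lit 0) (nat_lit 1819571237125) (nat_lit 152) (nat_lit 1832279201640) (nat_lit 0) (nat_lit 1790597027808) (nat_lit 1) (nat_lit 5) (nat_lit 3) (nat_lit 4) (nat_lit 1) (nat_lit 4) (nat_lit 455) (nat_lit 354) (nat_lit 211))))) (XT.nd (nat_lit 234) (nat_lit 0) (nat_lit 0) (XT.nd (nat_lit 78) (nat_lit 0) (nat_lit 0) (XT.lf (nat_lit 0) (nat_lit 2016167137716) (nat_lit 152) (nat_lit 1870212727383) (nat_lit 0) (nat_lit 1987192892746) (nat_lit 1) (nat_lit 5) (nat_lit 3) (nat_lit 4) (nat_lit 1) (nat_lit 4) (nat_lit 456) (nat_lit 354) (nat_lit 210)) (XT.nd (nat_lit 78) (nat_lit 0) (nat_lit 0) (XT.lf (nat_lit 0) (nat_lit 2228490583933) (nat_lit 152) (nat_lit 1911181192651) (nat_lit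 0) (nat_lit 2199516305952) (nat_lit 1) (nat_lit 5) (nat_lit 3) (nat_lit 4) (nat_lit 1) (nat_lit 4) (nat_lit 457) (nat_lit 354) (nat_lit 209)) (XT.lf (nat_lit 0) (nat_lit 2457799788794) (nat_lit 152) (nat_lit 1955427373535) (nat_lit 0) (nat_lit 2428825480246) (nat_lit 1) (nat_lit 5) (nat_lit 3) (nat_lit 4) (nat_lit 1) (nat_lit 4) (nat_lit 458) (nat_lit 354) (nat_lit 208)))) (XT.nd (nat_lit 78) (nat_lit 0) (nat_lit 0) (XT.lf (nat_lit 0) (nat_lit 2705453621658) (nat_lit 152) (nat_lit 2003213469625) (nat_lit 0) (nat_lit 2676479284809) (nat_lit 1) (nat_lit 5) (nat_lit 3) (nat_lit 4) (nat_lit 1) (nat_lit 4) (nat_lit 459) (nat_lit 354) (nat_lit 207)) (XT.nd (nat_lit 78) (nat_lit 0) (nat_lit 0) (XT.lf (nat_lit 0) (nat_lit 2972919660796) (nat_lit 152) (nat_lit 2054822657787) (nat_lit 0) (nat_lit 2943945297741) (nat_lit 1) (nat_lit 5) (nat_lit 3) (nat_lit 4) (nat_lit 1) (nat_lit 4) (nat_lit 460)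 (nat_lit 354) (nat_lit 206)) (XT.lf (nat_lit 0) (nat_lit 3261782890142) (nat_lit 152) (nat_lit 2110560770248) (nat_lit 0) (nat_lit 3232808502823) (nat_lit 1) (nat_lit 5) (nat_lit 3) (nat_lit 4) (nat_lit 1) (nat_lit 4) (nat_lit 461) (nat_lit 354) (nat_lit 205))))))))
noncomputable def xc136 : XT := (XT.nd (nat_lit 46254) (nat_lit 0) (nat_lit 1368) (XT.nd (nat_lit 45474) (nat_lit 0) (nat_lit 3040) (XT.nd (nat_lit 45084) (nat_lit 0) (nat_lit 4484) (XT.nd (nat_lit 44850) (nat_lit 0) (nat_lit 4788) (XT.nd (nat_lit 44772) (nat_lit 0) (nat_lit 4788) (XT.lf (nat_lit 0) (nat_lit 3573755091797) (nat_lit 152) (nat_lit 2170758106932) (nat_lit 0) (nat_lit 3544780682011) (nat_lit 1) (nat_lit 5) (nat_lit 3) (nat_lit 4) (nat_lit 1) (nat_lit 4) (nat_lit 462) (nat_lit 354) (nat_lit 204)) (XT.lf (nat_lit 0) (nat_lit 4076375323) (nat_lit 532) (nat_lit 1252371608) (nat_lit 532) (nat_lit 1252371608) (nat_lit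 64) (nat_lit 3) (nat_lit 71) (nat_lit 3) (nat_lit 71) (nat_lit 5) (nat_lit 355) (nat_lit 355) (nat_lit 310))) (XT.nd (nat_lit 78) (nat_lit 0) (nat_lit 76) (XT.lf (nat_lit 76) (nat_lit 4099844960) (nat_lit 0) (nat_lit 4845450464) (nat_lit 532) (nat_lit 4705768419) (nat_lit 65) (nat_lit 5) (nat_lit 64) (nat_lit 3) (nat_lit 71) (nat_lit 5) (nat_lit 356) (nat_lit 355) (nat_lit 309)) (XT.nd (nat_lit 78) (nat_lit 0) (nat_lit 0) (XT.lf (nat_lit 0) (nat_lit 9869024735) (nat_lit 456) (nat_lit 2858828775) (nat_lit 532) (nat_lit 1445755571) (nat_lit 65) (nat_lit 5) (nat_lit 71) (nat_lit 5) (nat_lit 72) (nat_lit 5) (nat_lit 357) (nat_lit 355) (nat_lit 308)) (XT.lf (nat_lit 76) (nat_lit 4442796954) (nat_lit 0) (nat_lit 6622383869) (nat_lit 532) (nat_lit 3656927074) (nat_lit 66) (nat_lit 5) (nat_lit 65) (nat_lit 5) (nat_lit 72) (nat_lit 5) (nat_lit 358) (nat_lit 355) (nat_lit 307))))) (XT.nd (nat_lit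 156) (nat_lit 456) (nat_lit 0) (XT.nd (nat_lit 78) (nat_lit 0) (nat_lit 0) (XT.lf (nat_lit 0) (nat_lit 12404611816) (nat_lit 456) (nat_lit 2843266557) (nat_lit 532) (nat_lit 62831496) (nat_lit 66) (nat_lit 5) (nat_lit 72) (nat_lit 5) (nat_lit 73) (nat_lit 5) (nat_lit 359) (nat_lit 355) (nat_lit 306)) (XT.lf (nat_lit 76) (nat_lit 5255570559) (nat_lit 0) (nat_lit 8864469933) (nat_lit 532) (nat_lit 1804879684) (nat_lit 67) (nat_lit 5) (nat_lit 66) (nat_lit 5) (nat_lit 73) (nat_lit 5) (nat_lit 360) (nat_lit 355) (nat_lit 305))) (XT.nd (nat_lit 78) (nat_lit 456) (nat_lit 0) (XT.lf (nat_lit 76) (nat_lit 14141609878) (nat_lit 0) (nat_lit 1880921231) (nat_lit 532) (nat_lit 561775573) (nat_lit 67) (nat_lit 5) (nat_lit 66) (nat_lit 5) (nat_lit 73) (nat_lit 5) (nat_lit 361) (nat_lit 355) (nat_lit 304)) (XT.nd (nat_lit 78) (nat_lit 0) (nat_lit 0) (XT.lf (nat_lit 0) (nat_lit 1018191899) (nat_lit 532)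 (nat_lit 10686859531) (nat_lit 76) (nat_lit 5567794587) (nat_lit 60) (nat_lit 5) (nat_lit 67) (nat_lit 5) (nat_lit 61) (nat_lit 5) (nat_lit 362) (nat_lit 355) (nat_lit 303)) (XT.lf (nat_lit 0) (nat_lit 2786575479) (nat_lit 532) (nat_lit 1624138357) (nat_lit 76) (nat_lit 13597218116) (nat_lit 60) (nat_lit 5) (nat_lit 67) (nat_lit 5) (nat_lit 61) (nat_lit 5) (nat_lit 363) (nat_lit 355) (nat_lit 302)))))) (XT.nd (nat_lit 390) (nat_lit 608) (nat_lit 0) (XT.nd (nat_lit 156) (nat_lit 456) (nat_lit 0) (XT.nd (nat_lit 78) (nat_lit 0) (nat_lit 0) (XT.lf (nat_lit 0) (nat_lit 4968159494) (nat_lit 456) (nat_lit 10305607316) (nat_lit 76) (nat_lit 3506338378) (nat_lit 55) (nat_lit 5) (nat_lit 61) (nat_lit 5) (nat_lit 56) (nat_lit 5) (nat_lit 364) (nat_lit 355) (nat_lit 301)) (XT.lf (nat_lit 0) (nat_lit 7462452468) (nat_lit 456) (nat_lit 276014852) (nat_lit 76) (nat_lit 11864547797) (nat_lit 55) (nat_lit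 5) (nat_lit 61) (nat_lit 5) (nat_lit 56) (nat_lit 5) (nat_lit 365) (nat_lit 355) (nat_lit 300))) (XT.nd (nat_lit 78) (nat_lit 228) (nat_lit 0) (XT.lf (nat_lit 0) (nat_lit 10419178880) (nat_lit 304) (nat_lit 9399374244) (nat_lit 76) (nat_lit 652189640) (nat_lit 52) (nat_lit 5) (nat_lit 56) (nat_lit 5) (nat_lit 53) (nat_lit 5) (nat_lit 366) (nat_lit 355) (nat_lit 299)) (XT.nd (nat_lit 78) (nat_lit 0) (nat_lit 0) (XT.lf (nat_lit 0) (nat_lit 1801425344) (nat_lit 228) (nat_lit 12043730467) (nat_lit 304) (nat_lit 7544130750) (nat_lit 49) (nat_lit 5) (nat_lit 52) (nat_lit 5) (nat_lit 53) (nat_lit 5) (nat_lit 367) (nat_lit 355) (nat_lit 298)) (XT.lf (nat_lit 0) (nat_lit 14410959005) (nat_lit 228) (nat_lit 3372801005) (nat_lit 304) (nat_lit 4578483747) (nat_lit 49) (nat_lit 5) (nat_lit 52) (nat_lit 5) (nat_lit 53) (nat_lit 5) (nat_lit 368) (nat_lit 355) (nat_lit 297))))) (XT.nd (nat_lit 156) (nat_lit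 380) (nat_lit 0) (XT.nd (nat_lit 78) (nat_lit 76) (nat_lit 0) (XT.lf (nat_lit 0) (nat_lit 4684910446) (nat_lit 152) (nat_lit 17592160802) (nat_lit 228) (nat_lit 1116809584) (nat_lit 47) (nat_lit 5) (nat_lit 49) (nat_lit 5) (nat_lit 50) (nat_lit 5) (nat_lit 369) (nat_lit 355) (nat_lit 296)) (XT.lf (nat_lit 0) (nat_lit 2784471669) (nat_lit 228) (nat_lit 5884678975) (nat_lit 76) (nat_lit 15810358766) (nat_lit 46) (nat_lit 5) (nat_lit 49) (nat_lit 5) (nat_lit 47) (nat_lit 5) (nat_lit 370) (nat_lit 355) (nat_lit 295))) (XT.nd (nat_lit 78) (nat_lit 152) (nat_lit 0) (XT.lf (nat_lit 0) (nat_lit 7151467605) (nat_lit 304) (nat_lit 17330897085) (nat_lit 76) (nat_lit 1150197188) (nat_lit 43) (nat_lit 5) (nat_lit 47) (nat_lit 5) (nat_lit 44) (nat_lit 5) (nat_lit 371) (nat_lit 355) (nat_lit 294)) (XT.nd (nat_lit 78) (nat_lit 152) (nat_lit 0) (XT.lf (nat_lit 0) (nat_lit 12243052428) (nat_lit 304) (nat_lit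 3157616976) (nat_lit 76) (nat_lit 11447180214) (nat_lit 43) (nat_lit 5) (nat_lit 47) (nat_lit 5) (nat_lit 44) (nat_lit 5) (nat_lit 372) (nat_lit 355) (nat_lit 293)) (XT.lf (nat_lit 0) (nat_lit 12768964855) (nat_lit 152) (nat_lit 5266185461) (nat_lit 228) (nat_lit 10101763868) (nat_lit 41) (nat_lit 5) (nat_lit 43) (nat_lit 5) (nat_lit 44) (nat_lit 5) (nat_lit 373) (nat_lit 355) (nat_lit 292))))))) (XT.nd (nat_lit 780) (nat_lit 760) (nat_lit 0) (XT.nd (nat_lit 390) (nat_lit 380) (nat_lit 0) (XT.nd (nat_lit 156) (nat_lit 304) (nat_lit 0) (XT.nd (nat_lit 78) (nat_lit 76) (nat_lit 0) (XT.lf (nat_lit 0) (nat_lit 493127596) (nat_lit 152) (nat_lit 24021044515) (nat_lit 228) (nat_lit 4997055384) (nat_lit 39) (nat_lit 5) (nat_lit 41) (nat_lit 5) (nat_lit 42) (nat_lit 5) (nat_lit 374) (nat_lit 355) (nat_lit 291)) (XT.lf (nat_lit 0) (nat_lit 1044829306) (nat_lit 228) (nat_lit 12644874435) (nat_lit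 76) (nat_lit 17260427130) (nat_lit 38) (nat_lit 5) (nat_lit 41) (nat_lit 5) (nat_lit 39) (nat_lit 5) (nat_lit 375) (nat_lit 355) (nat_lit 290))) (XT.nd (nat_lit 78) (nat_lit 152) (nat_lit 0) (XT.lf (nat_lit 0) (nat_lit 5147414983) (nat_lit 152) (nat_lit 2264186008) (nat_lit 228) (nat_lit 25073247876) (nat_lit 36) (nat_lit 5) (nat_lit 38) (nat_lit 5) (nat_lit 39) (nat_lit 5) (nat_lit 376) (nat_lit 355) (nat_lit 289)) (XT.nd (nat_lit 78) (nat_lit 152) (nat_lit 0) (XT.lf (nat_lit 0) (nat_lit 14872779530) (nat_lit 228) (nat_lit 9302594073) (nat_lit 76) (nat_lit 9920171420) (nat_lit 36) (nat_lit 5) (nat_lit 39) (nat_lit 5) (nat_lit 37) (nat_lit 5) (nat_lit 377) (nat_lit 355) (nat_lit 288)) (XT.lf (nat_lit 0) (nat_lit 10630573779) (nat_lit 152) (nat_lit 12603678959) (nat_lit 228) (nat_lit 12576577591) (nat_lit 34) (nat_lit 5) (nat_lit 36) (nat_lit 5) (nat_lit 37) (nat_lit 5) (nat_lit 378) (nat_lit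 355) (nat_lit 287))))) (XT.nd (nat_lit 156) (nat_lit 228) (nat_lit 0) (XT.nd (nat_lit 78) (nat_lit 152) (nat_lit 0) (XT.lf (nat_lit 0) (nat_lit 32512228731) (nat_lit 228) (nat_lit 4977297948) (nat_lit 76) (nat_lit 154010071) (nat_lit 34) (nat_lit 5) (nat_lit 37) (nat_lit 5) (nat_lit 35) (nat_lit 4) (nat_lit 379) (nat_lit 355) (nat_lit 286)) (XT.lf (nat_lit 0) (nat_lit 3518149408) (nat_lit 152) (nat_lit 22286224336) (nat_lit 76) (nat_lit 13752563021) (nat_lit 32) (nat_lit 5) (nat_lit 34) (nat_lit 5) (nat_lit 33) (nat_lit 5) (nat_lit 380) (nat_lit 355) (nat_lit 285))) (XT.nd (nat_lit 78) (nat_lit 228) (nat_lit 0) (XT.lf (nat_lit 0) (nat_lit 12712050624) (nat_lit 152) (nat_lit 184208446) (nat_lit 76) (nat_lit 28706114398) (nat_lit 32) (nat_lit 5) (nat_lit 34) (nat_lit 5) (nat_lit 33) (nat_lit 5) (nat_lit 381) (nat_lit 355) (nat_lit 284)) (XT.nd (nat_lit 78) (nat_lit 76) (nat_lit 0) (XT.lf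 (nat_lit 0) (nat_lit 23272083227) (nat_lit 228) (nat_lit 18887631936) (nat_lit 76) (nat_lit 1601284139) (nat_lit 30) (nat_lit 5) (nat_lit 33) (nat_lit 5) (nat_lit 31) (nat_lit 4) (nat_lit 382) (nat_lit 355) (nat_lit 283)) (XT.lf (nat_lit 0) (nat_lit 5793365894) (nat_lit 76) (nat_lit 29354017341) (nat_lit 152) (nat_lit 10907298242) (nat_lit 29) (nat_lit 5) (nat_lit 30) (nat_lit 5) (nat_lit 31) (nat_lit 4) (nat_lit 383) (nat_lit 355) (nat_lit 282)))))) (XT.nd (nat_lit 390) (nat_lit 456) (nat_lit 0) (XT.nd (nat_lit 156) (nat_lit 76) (nat_lit 0) (XT.nd (nat_lit 78) (nat_lit 228) (nat_lit 0) (XT.lf (nat_lit 0) (nat_lit 33507935001) (nat_lit 76) (nat_lit 14972497034) (nat_lit 152) (nat_lit 10811411) (nat_lit 29) (nat_lit 5) (nat_lit 30) (nat_lit 5) (nat_lit 31) (nat_lit 4) (nat_lit 384) (nat_lit 355) (nat_lit 281)) (XT.lf (nat_lit 0) (nat_lit 11493834195) (nat_lit 228) (nat_lit 38452259989)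 (nat_lit 76) (nat_lit 1128050300) (nat_lit 26) (nat_lit 5) (nat_lit 29) (nat_lit 5) (nat_lit 27) (nat_lit 4) (nat_lit 385) (nat_lit 355) (nat_lit 280))) (XT.nd (nat_lit 78) (nat_lit 76) (nat_lit 0) (XT.lf (nat_lit 0) (nat_lit 24719339875) (nat_lit 228) (nat_lit 10957634008) (nat_lit 76) (nat_lit 18122597998) (nat_lit 26) (nat_lit 5) (nat_lit 29) (nat_lit 5) (nat_lit 27) (nat_lit 4) (nat_lit 386) (nat_lit 355) (nat_lit 279)) (XT.nd (nat_lit 78) (nat_lit 0) (nat_lit 0) (XT.lf (nat_lit 0) (nat_lit 19709044490) (nat_lit 76) (nat_lit 19760312574) (nat_lit 152) (nat_lit 17236361077) (nat_lit 25) (nat_lit 5) (nat_lit 26) (nat_lit 5) (nat_lit 27) (nat_lit 4) (nat_lit 387) (nat_lit 355) (nat_lit 278)) (XT.lf (nat_lit 0) (nat_lit 53439124184) (nat_lit 76) (nat_lit 2252563419) (nat_lit 152) (nat_lit 4129285720) (nat_lit 25) (nat_lit 5) (nat_lit 26) (nat_lit 5) (nat_lit 27) (nat_lit 4) (nat_lit 388)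 (nat_lit 355) (nat_lit 277))))) (XT.nd (nat_lit 234) (nat_lit 228) (nat_lit 0) (XT.nd (nat_lit 78) (nat_lit 76) (nat_lit 0) (XT.lf (nat_lit 0) (nat_lit 10611027295) (nat_lit 152) (nat_lit 35717061117) (nat_lit 76) (nat_lit 16751173205) (nat_lit 23) (nat_lit 5) (nat_lit 25) (nat_lit 5) (nat_lit 24) (nat_lit 4) (nat_lit 389) (nat_lit 355) (nat_lit 276)) (XT.nd (nat_lit 78) (nat_lit 76) (nat_lit 0) (XT.lf (nat_lit 0) (nat_lit 26538170026) (nat_lit 152) (nat_lit 2598422217) (nat_lit 76) (nat_lit 37434586659) (nat_lit 23) (nat_lit 5) (nat_lit 25) (nat_lit 5) (nat_lit 24) (nat_lit 4) (nat_lit 390) (nat_lit 355) (nat_lit 275)) (XT.lf (nat_lit 0) (nat_lit 34904095041) (nat_lit 76) (nat_lit 9668501899) (nat_lit 152) (nat_lit 25703205212) (nat_lit 22) (nat_lit 5) (nat_lit 23) (nat_lit 5) (nat_lit 24) (nat_lit 4) (nat_lit 391) (nat_lit 355) (nat_lit 274)))) (XT.nd (nat_lit 78) (nat_lit 152) (nat_lit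 0) (XT.lf (nat_lit 0) (nat_lit 1049253735) (nat_lit 76) (nat_lit 63365525142) (nat_lit 76) (nat_lit 9832817798) (nat_lit 21) (nat_lit 4) (nat_lit 22) (nat_lit 5) (nat_lit 22) (nat_lit 4) (nat_lit 392) (nat_lit 355) (nat_lit 273)) (XT.nd (nat_lit 78) (nat_lit 76) (nat_lit 0) (XT.lf (nat_lit 0) (nat_lit 8178808404) (nat_lit 152) (nat_lit 36528002370) (nat_lit 76) (nat_lit 33717294706) (nat_lit 20) (nat_lit 5) (nat_lit 22) (nat_lit 5) (nat_lit 21) (nat_lit 4) (nat_lit 393) (nat_lit 355) (nat_lit 272)) (XT.lf (nat_lit 0) (nat_lit 2957630424) (nat_lit 76) (nat_lit 24207867762) (nat_lit 152) (nat_lit 55743577268) (nat_lit 19) (nat_lit 5) (nat_lit 20) (nat_lit 5) (nat_lit 21) (nat_lit 4) (nat_lit 394) (nat_lit 355) (nat_lit 271))))))))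
noncomputable def xc137 : XT := (XT.nd (nat_lit 1560) (nat_lit 304) (nat_lit 0) (XT.nd (nat_lit 780) (nat_lit 456) (nat_lit 0) (XT.nd (nat_lit 390) (nat_lit 228) (nat_lit 0) (XT.nd (nat_lit 156) (nat_lit 152) (nat_lit 0) (XT.nd (nat_lit 78) (nat_lit 76) (nat_lit 0) (XT.lf (nat_lit 0) (nat_lit 47668879587) (nat_lit 76) (nat_lit 995385982) (nat_lit 152) (nat_lit 39009127154) (nat_lit 19) (nat_lit 5) (nat_lit 20) (nat_lit 5) (nat_lit 21) (nat_lit 4) (nat_lit 395) (nat_lit 355) (nat_lit 270)) (XT.lf (nat_lit 0) (nat_lit 2683287833) (nat_lit 76) (nat_lit 69837867248) (nat_lit 76) (nat_lit 20246643642) (nat_lit 18) (nat_lit 4) (nat_lit 19) (nat_lit 5) (nat_lit 19) (nat_lit 4) (nat_lit 396) (nat_lit 355) (nat_lit 269))) (XT.nd (nat_lit 78) (nat_lit 76) (nat_lit 0) (XT.lf (nat_lit 0) (nat_lit 1158780293) (nat_lit 152) (nat_lit 47185872030) (nat_lit 76) (nat_lit 49833650625) (nat_lit 17) (nat_lit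 5) (nat_lit 19) (nat_lit 5) (nat_lit 18) (nat_lit 4) (nat_lit 397) (nat_lit 355) (nat_lit 268)) (XT.nd (nat_lit 78) (nat_lit 76) (nat_lit 0) (XT.lf (nat_lit 0) (nat_lit 23177909584) (nat_lit 152) (nat_lit 1390630729) (nat_lit 76) (nat_lit 79411427763) (nat_lit 17) (nat_lit 5) (nat_lit 19) (nat_lit 5) (nat_lit 18) (nat_lit 4) (nat_lit 398) (nat_lit 355) (nat_lit 267)) (XT.lf (nat_lit 0) (nat_lit 48228933169) (nat_lit 152) (nat_lit 59616728580) (nat_lit 0) (nat_lit 2298476291) (nat_lit 16) (nat_lit 5) (nat_lit 18) (nat_lit 4) (nat_lit 16) (nat_lit 4) (nat_lit 399) (nat_lit 355) (nat_lit 266))))) (XT.nd (nat_lit 156) (nat_lit 152) (nat_lit 0) (XT.nd (nat_lit 78) (nat_lit 76) (nat_lit 0) (XT.lf (nat_lit 0) (nat_lit 75956702756) (nat_lit 152) (nat_lit 10768290579) (nat_lit 0) (nat_lit 30022635826) (nat_lit 16) (nat_lit 5) (nat_lit 18) (nat_lit 4) (nat_lit 16) (nat_lit 4) (nat_lit 400) (nat_lit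 355) (nat_lit 265)) (XT.lf (nat_lit 0) (nat_lit 44190520013) (nat_lit 76) (nat_lit 62770799844) (nat_lit 76) (nat_lit 16833390275) (nat_lit 15) (nat_lit 4) (nat_lit 16) (nat_lit 5) (nat_lit 16) (nat_lit 4) (nat_lit 401) (nat_lit 355) (nat_lit 264))) (XT.nd (nat_lit 78) (nat_lit 76) (nat_lit 0) (XT.lf (nat_lit 0) (nat_lit 8886421087) (nat_lit 152) (nat_lit 27456748743) (nat_lit 76) (nat_lit 95021159699) (nat_lit 14) (nat_lit 5) (nat_lit 16) (nat_lit 5) (nat_lit 15) (nat_lit 4) (nat_lit 402) (nat_lit 355) (nat_lit 263)) (XT.nd (nat_lit 78) (nat_lit 0) (nat_lit 0) (XT.lf (nat_lit 0) (nat_lit 29914180710) (nat_lit 76) (nat_lit 6555795775) (nat_lit 152) (nat_lit 102977316072) (nat_lit 13) (nat_lit 5) (nat_lit 14) (nat_lit 5) (nat_lit 15) (nat_lit 4) (nat_lit 403) (nat_lit 355) (nat_lit 262)) (XT.lf (nat_lit 0) (nat_lit 67642647342) (nat_lit 152) (nat_lit 55323618628) (nat_lit 0) (nat_lit 25100032643)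 (nat_lit 13) (nat_lit 5) (nat_lit 15) (nat_lit 4) (nat_lit 13) (nat_lit 4) (nat_lit 404) (nat_lit 355) (nat_lit 261)))))) (XT.nd (nat_lit 390) (nat_lit 228) (nat_lit 0) (XT.nd (nat_lit 156) (nat_lit 152) (nat_lit 0) (XT.nd (nat_lit 78) (nat_lit 0) (nat_lit 0) (XT.lf (nat_lit 0) (nat_lit 3205748395) (nat_lit 76) (nat_lit 98347229573) (nat_lit 76) (nat_lit 55802339929) (nat_lit 12) (nat_lit 4) (nat_lit 13) (nat_lit 5) (nat_lit 13) (nat_lit 4) (nat_lit 405) (nat_lit 355) (nat_lit 260)) (XT.lf (nat_lit 0) (nat_lit 69556974682) (nat_lit 76) (nat_lit 70128371802) (nat_lit 76) (nat_lit 27581375728) (nat_lit 12) (nat_lit 4) (nat_lit 13) (nat_lit 5) (nat_lit 13) (nat_lit 4) (nat_lit 406) (nat_lit 355) (nat_lit 259))) (XT.nd (nat_lit 78) (nat_lit 76) (nat_lit 0) (XT.lf (nat_lit 0) (nat_lit 2749069759) (nat_lit 152) (nat_lit 36830881372) (nat_lit 76) (nat_lit 138385774770) (nat_lit 11) (nat_lit 5)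 (nat_lit 13) (nat_lit 5) (nat_lit 12) (nat_lit 4) (nat_lit 407) (nat_lit 355) (nat_lit 258)) (XT.nd (nat_lit 78) (nat_lit 0) (nat_lit 0) (XT.lf (nat_lit 0) (nat_lit 29680657842) (nat_lit 76) (nat_lit 5045981695) (nat_lit 152) (nat_lit 154679834769) (nat_lit 10) (nat_lit 5) (nat_lit 11) (nat_lit 5) (nat_lit 12) (nat_lit 4) (nat_lit 408) (nat_lit 355) (nat_lit 257)) (XT.lf (nat_lit 0) (nat_lit 71068215832) (nat_lit 152) (nat_lit 98881980242) (nat_lit 0) (nat_lit 31667822731) (nat_lit 10) (nat_lit 5) (nat_lit 12) (nat_lit 4) (nat_lit 10) (nat_lit 4) (nat_lit 409) (nat_lit 355) (nat_lit 256))))) (XT.nd (nat_lit 156) (nat_lit 152) (nat_lit 0) (XT.nd (nat_lit 78) (nat_lit 76) (nat_lit 0) (XT.lf (nat_lit 0) (nat_lit 110445398175) (nat_lit 152) (nat_lit 33307255093) (nat_lit 0) (nat_lit 71043571473) (nat_lit 10) (nat_lit 5) (nat_lit 12) (nat_lit 4) (nat_lit 10) (nat_lit 4) (nat_lit 410) (nat_lit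 355) (nat_lit 255)) (XT.lf (nat_lit 0) (nat_lit 39483426846) (nat_lit 76) (nat_lit 114436327369) (nat_lit 76) (nat_lit 75033173259) (nat_lit 9) (nat_lit 4) (nat_lit 10) (nat_lit 5) (nat_lit 10) (nat_lit 4) (nat_lit 411) (nat_lit 355) (nat_lit 254))) (XT.nd (nat_lit 78) (nat_lit 152) (nat_lit 0) (XT.lf (nat_lit 0) (nat_lit 119986564492) (nat_lit 76) (nat_lit 81793665818) (nat_lit 76) (nat_lit 42389282626) (nat_lit 9) (nat_lit 4) (nat_lit 10) (nat_lit 5) (nat_lit 10) (nat_lit 4) (nat_lit 412) (nat_lit 355) (nat_lit 253)) (XT.nd (nat_lit 78) (nat_lit 152) (nat_lit 0) (XT.lf (nat_lit 0) (nat_lit 206925312446) (nat_lit 76) (nat_lit 46541910000) (nat_lit 76) (nat_lit 7136388769) (nat_lit 9) (nat_lit 4) (nat_lit 10) (nat_lit 5) (nat_lit 10) (nat_lit 4) (nat_lit 413) (nat_lit 355) (nat_lit 252)) (XT.lf (nat_lit 0) (nat_lit 22861926472) (nat_lit 76) (nat_lit 7074853066) (nat_lit 152) (nat_lit 248312325758)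 (nat_lit 7) (nat_lit 5) (nat_lit 8) (nat_lit 5) (nat_lit 9) (nat_lit 4) (nat_lit 414) (nat_lit 355) (nat_lit 251))))))) (XT.nd (nat_lit 780) (nat_lit 76) (nat_lit 0) (XT.nd (nat_lit 390) (nat_lit 152) (nat_lit 0) (XT.nd (nat_lit 156) (nat_lit 76) (nat_lit 0) (XT.nd (nat_lit 78) (nat_lit 0) (nat_lit 0) (XT.lf (nat_lit 0) (nat_lit 71948801826) (nat_lit 152) (nat_lit 189693595324) (nat_lit 0) (nat_lit 35460328998) (nat_lit 7) (nat_lit 5) (nat_lit 9) (nat_lit 4) (nat_lit 7) (nat_lit 4) (nat_lit 415) (nat_lit 355) (nat_lit 250)) (XT.lf (nat_lit 0) (nat_lit 117503513167) (nat_lit 152) (nat_lit 118932381630) (nat_lit 0) (nat_lit 81014203847) (nat_lit 7) (nat_lit 5) (nat_lit 9) (nat_lit 4) (nat_lit 7) (nat_lit 4) (nat_lit 416) (nat_lit 355) (nat_lit 249))) (XT.nd (nat_lit 78) (nat_lit 76) (nat_lit 0) (XT.lf (nat_lit 0) (nat_lit 166700717022) (nat_lit 152) (nat_lit 42514061646) (nat_lit 0) (nat_lit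 130210633172) (nat_lit 7) (nat_lit 5) (nat_lit 9) (nat_lit 4) (nat_lit 7) (nat_lit 4) (nat_lit 417) (nat_lit 355) (nat_lit 248)) (XT.nd (nat_lit 78) (nat_lit 0) (nat_lit 0) (XT.lf (nat_lit 0) (nat_lit 42121291526) (nat_lit 76) (nat_lit 178723678924) (nat_lit 76) (nat_lit 142232877916) (nat_lit 6) (nat_lit 4) (nat_lit 7) (nat_lit 5) (nat_lit 7) (nat_lit 4) (nat_lit 418) (nat_lit 355) (nat_lit 247)) (XT.lf (nat_lit 0) (nat_lit 135941864165) (nat_lit 76) (nat_lit 144539611931) (nat_lit 76) (nat_lit 108048146889) (nat_lit 6) (nat_lit 4) (nat_lit 7) (nat_lit 5) (nat_lit 7) (nat_lit 4) (nat_lit 419) (nat_lit 355) (nat_lit 246))))) (XT.nd (nat_lit 156) (nat_lit 152) (nat_lit 0) (XT.nd (nat_lit 78) (nat_lit 0) (nat_lit 0) (XT.lf (nat_lit 0) (nat_lit 237264914889) (nat_lit 76) (nat_lit 107622415229) (nat_lit 76) (nat_lit 71130335339) (nat_lit 6) (nat_lit 4) (nat_lit 7) (nat_lit 5) (nat_lit 7) (nat_lit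 4) (nat_lit 420) (nat_lit 355) (nat_lit 245)) (XT.lf (nat_lit 0) (nat_lit 346690876592) (nat_lit 76) (nat_lit 67753320243) (nat_lit 76) (nat_lit 31260671051) (nat_lit 6) (nat_lit 4) (nat_lit 7) (nat_lit 5) (nat_lit 7) (nat_lit 4) (nat_lit 421) (nat_lit 355) (nat_lit 244))) (XT.nd (nat_lit 78) (nat_lit 76) (nat_lit 0) (XT.lf (nat_lit 0) (nat_lit 11206971400) (nat_lit 152) (nat_lit 13182675811) (nat_lit 76) (nat_lit 453354809558) (nat_lit 5) (nat_lit 5) (nat_lit 7) (nat_lit 5) (nat_lit 6) (nat_lit 4) (nat_lit 422) (nat_lit 355) (nat_lit 243)) (XT.nd (nat_lit 78) (nat_lit 0) (nat_lit 0) (XT.lf (nat_lit 0) (nat_lit 57986844209) (nat_lit 152) (nat_lit 429890700627) (nat_lit 0) (nat_lit 24196414201) (nat_lit 4) (nat_lit 5) (nat_lit 6) (nat_lit 4) (nat_lit 4) (nat_lit 4) (nat_lit 423) (nat_lit 355) (nat_lit 242)) (XT.lf (nat_lit 0) (nat_lit 109511127205) (nat_lit 152) (nat_lit 363838253992) (nat_lit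 0) (nat_lit 75720278742) (nat_lit 4) (nat_lit 5) (nat_lit 6) (nat_lit 4) (nat_lit 4) (nat_lit 4) (nat_lit 424) (nat_lit 355) (nat_lit 241)))))) (XT.nd (nat_lit 390) (nat_lit 0) (nat_lit 0) (XT.nd (nat_lit 156) (nat_lit 76) (nat_lit 0) (XT.nd (nat_lit 78) (nat_lit 0) (nat_lit 0) (XT.lf (nat_lit 0) (nat_lit 165156170704) (nat_lit 152) (nat_lit 292504006068) (nat_lit 0) (nat_lit 131364934783) (nat_lit 4) (nat_lit 5) (nat_lit 6) (nat_lit 4) (nat_lit 4) (nat_lit 4) (nat_lit 425) (nat_lit 355) (nat_lit 240)) (XT.lf (nat_lit 0) (nat_lit 225251723114) (nat_lit 152) (nat_lit 215465235386) (nat_lit 0) (nat_lit 191460128436) (nat_lit 4) (nat_lit 5) (nat_lit 6) (nat_lit 4) (nat_lit 4) (nat_lit 4) (nat_lit 426) (nat_lit 355) (nat_lit 239))) (XT.nd (nat_lit 78) (nat_lit 76) (nat_lit 0) (XT.lf (nat_lit 0) (nat_lit 290153906226) (nat_lit 152) (nat_lit 132265415897) (nat_lit 0) (nat_lit 256361979366) (nat_lit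 4) (nat_lit 5) (nat_lit 6) (nat_lit 4) (nat_lit 4) (nat_lit 4) (nat_lit 427) (nat_lit 355) (nat_lit 238)) (XT.nd (nat_lit 78) (nat_lit 76) (nat_lit 0) (XT.lf (nat_lit 0) (nat_lit 360247325571) (nat_lit 152) (nat_lit 42411511636) (nat_lit 0) (nat_lit 326455091133) (nat_lit 4) (nat_lit 5) (nat_lit 6) (nat_lit 4) (nat_lit 4) (nat_lit 4) (nat_lit 428) (nat_lit 355) (nat_lit 237)) (XT.lf (nat_lit 0) (nat_lit 57505608411) (nat_lit 76) (nat_lit 379824752411) (nat_lit 76) (nat_lit 346032233180) (nat_lit 3) (nat_lit 4) (nat_lit 4) (nat_lit 5) (nat_lit 4) (nat_lit 4) (nat_lit 429) (nat_lit 355) (nat_lit 236))))) (XT.nd (nat_lit 234) (nat_lit 0) (nat_lit 0) (XT.nd (nat_lit 78) (nat_lit 0) (nat_lit 0) (XT.lf (nat_lit 0) (nat_lit 167826362880) (nat_lit 76) (nat_lit 353912436105) (nat_lit 76) (nat_lit 320119653177) (nat_lit 3) (nat_lit 4) (nat_lit 4) (nat_lit 5) (nat_lit 4) (nat_lit 4) (nat_lit 430)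 (nat_lit 355) (nat_lit 235)) (XT.nd (nat_lit 78) (nat_lit 0) (nat_lit 0) (XT.lf (nat_lit 0) (nat_lit 286971189345) (nat_lit 76) (nat_lit 325927939709) (nat_lit 76) (nat_lit 292134912617) (nat_lit 3) (nat_lit 4) (nat_lit 4) (nat_lit 5) (nat_lit 4) (nat_lit 4) (nat_lit 431) (nat_lit 355) (nat_lit 234)) (XT.lf (nat_lit 0) (nat_lit 415646131222) (nat_lit 76) (nat_lit 295705429172) (nat_lit 76) (nat_lit 261912176002) (nat_lit 3) (nat_lit 4) (nat_lit 4) (nat_lit 5) (nat_lit 4) (nat_lit 4) (nat_lit 432) (nat_lit 355) (nat_lit 233)))) (XT.nd (nat_lit 78) (nat_lit 0) (nat_lit 0) (XT.lf (nat_lit 0) (nat_lit 554613706687) (nat_lit 76) (nat_lit 263065808134) (nat_lit 76) (nat_lit 229272345632) (nat_lit 3) (nat_lit 4) (nat_lit 4) (nat_lit 5) (nat_lit 4) (nat_lit 4) (nat_lit 433) (nat_lit 355) (nat_lit 232)) (XT.nd (nat_lit 78) (nat_lit 0) (nat_lit 0) (XT.lf (nat_lit 0) (nat_lit 704697427296) (nat_lit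 76) (nat_lit 227815656618) (nat_lit 76) (nat_lit 194022000291) (nat_lit 3) (nat_lit 4) (nat_lit 4) (nat_lit 5) (nat_lit 4) (nat_lit 4) (nat_lit 434) (nat_lit 355) (nat_lit 231)) (XT.lf (nat_lit 0) (nat_lit 866786678061) (nat_lit 76) (nat_lit 189746084838) (nat_lit 76) (nat_lit 155952249044) (nat_lit 3) (nat_lit 4) (nat_lit 4) (nat_lit 5) (nat_lit 4) (nat_lit 4) (nat_lit 435) (nat_lit 355) (nat_lit 230))))))))
noncomputable def xc138 : XT := (XT.nd (nat_lit 1560) (nat_lit 0) (nat_lit 0) (XT.nd (nat_lit 780) (nat_lit 0) (nat_lit 0) (XT.nd (nat_lit 390) (nat_lit 0) (nat_lit 0) (XT.nd (nat_lit 156) (nat_lit 152) (nat_lit 0) (XT.nd (nat_lit 78) (nat_lit 0) (nat_lit 0) (XT.lf (nat_lit 0) (nat_lit 1041841987875) (nat_lit 76) (nat_lit 148631495332) (nat_lit 76) (nat_lit 114837493363) (nat_lit 3) (nat_lit 4) (nat_lit 4) (nat_lit 5) (nat_lit 4) (nat_lit 4) (nat_lit 436) (nat_lit 355) (nat_lit 229))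 (XT.lf (nat_lit 0) (nat_lit 1230900721538) (nat_lit 76) (nat_lit 104228246087) (nat_lit 76) (nat_lit 70434090254) (nat_lit 3) (nat_lit 4) (nat_lit 4) (nat_lit 5) (nat_lit 4) (nat_lit 4) (nat_lit 437) (nat_lit 355) (nat_lit 228))) (XT.nd (nat_lit 78) (nat_lit 152) (nat_lit 0) (XT.lf (nat_lit 0) (nat_lit 1435083227100) (nat_lit 76) (nat_lit 56273206739) (nat_lit 76) (nat_lit 22478908438) (nat_lit 3) (nat_lit 4) (nat_lit 4) (nat_lit 5) (nat_lit 4) (nat_lit 4) (nat_lit 438) (nat_lit 355) (nat_lit 227)) (XT.nd (nat_lit 78) (nat_lit 0) (nat_lit 0) (XT.lf (nat_lit 0) (nat_lit 25395455333) (nat_lit 76) (nat_lit 3061220410) (nat_lit 152) (nat_lit 1602207509862) (nat_lit 1) (nat_lit 5) (nat_lit 2) (nat_lit 5) (nat_lit 3) (nat_lit 4) (nat_lit 439) (nat_lit 355) (nat_lit 226)) (XT.lf (nat_lit 0) (nat_lit 85769885967) (nat_lit 152) (nat_lit 1616262729315) (nat_lit 0) (nat_lit 54478633783) (nat_lit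 1) (nat_lit 5) (nat_lit 3) (nat_lit 4) (nat_lit 1) (nat_lit 4) (nat_lit 440) (nat_lit 355) (nat_lit 225))))) (XT.nd (nat_lit 156) (nat_lit 0) (nat_lit 0) (XT.nd (nat_lit 78) (nat_lit 0) (nat_lit 0) (XT.lf (nat_lit 0) (nat_lit 147747264201) (nat_lit 152) (nat_lit 1628216577224) (nat_lit 0) (nat_lit 116455907300) (nat_lit 1) (nat_lit 5) (nat_lit 3) (nat_lit 4) (nat_lit 1) (nat_lit 4) (nat_lit 441) (nat_lit 355) (nat_lit 224)) (XT.lf (nat_lit 0) (nat_lit 214682461375) (nat_lit 152) (nat_lit 1641127489193) (nat_lit 0) (nat_lit 183391007513) (nat_lit 1) (nat_lit 5) (nat_lit 3) (nat_lit 4) (nat_lit 1) (nat_lit 4) (nat_lit 442) (nat_lit 355) (nat_lit 223))) (XT.nd (nat_lit 78) (nat_lit 0) (nat_lit 0) (XT.lf (nat_lit 0) (nat_lit 286972130509) (nat_lit 152) (nat_lit 1655071974331) (nat_lit 0) (nat_lit 255680586868) (nat_lit 1) (nat_lit 5) (nat_lit 3) (nat_lit 4) (nat_lit 1) (nat_lit 4) (nat_lit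 443) (nat_lit 355) (nat_lit 222)) (XT.nd (nat_lit 78) (nat_lit 0) (nat_lit 0) (XT.lf (nat_lit 0) (nat_lit 365044654828) (nat_lit 152) (nat_lit 1670132666623) (nat_lit 0) (nat_lit 333753028059) (nat_lit 1) (nat_lit 5) (nat_lit 3) (nat_lit 4) (nat_lit 1) (nat_lit 4) (nat_lit 444) (nat_lit 355) (nat_lit 221)) (XT.lf (nat_lit 0) (nat_lit 449362686327) (nat_lit 152) (nat_lit 1686398814615) (nat_lit 0) (nat_lit 418070982588) (nat_lit 1) (nat_lit 5) (nat_lit 3) (nat_lit 4) (nat_lit 1) (nat_lit 4) (nat_lit 445) (nat_lit 355) (nat_lit 220)))))) (XT.nd (nat_lit 390) (nat_lit 0) (nat_lit 0) (XT.nd (nat_lit 156) (nat_lit 0) (nat_lit 0) (XT.nd (nat_lit 78) (nat_lit 0) (nat_lit 0) (XT.lf (nat_lit 0) (nat_lit 540425887416) (nat_lit 152) (nat_lit 1703966810297) (nat_lit 0) (nat_lit 509134112407) (nat_lit 1) (nat_lit 5) (nat_lit 3) (nat_lit 4) (nat_lit 1) (nat_lit 4) (nat_lit 446) (nat_lit 355) (nat_lit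 219)) (XT.lf (nat_lit 0) (nat_lit 638773891879) (nat_lit 152) (nat_lit 1722940760310) (nat_lit 0) (nat_lit 607482050880) (nat_lit 1) (nat_lit 5) (nat_lit 3) (nat_lit 4) (nat_lit 1) (nat_lit 4) (nat_lit 447) (nat_lit 355) (nat_lit 218))) (XT.nd (nat_lit 78) (nat_lit 0) (nat_lit 0) (XT.lf (nat_lit 0) (nat_lit 744989502705) (nat_lit 152) (nat_lit 1743433102874) (nat_lit 0) (nat_lit 713697600604) (nat_lit 1) (nat_lit 5) (nat_lit 3) (nat_lit 4) (nat_lit 1) (nat_lit 4) (nat_lit 448) (nat_lit 355) (nat_lit 217)) (XT.nd (nat_lit 78) (nat_lit 0) (nat_lit 0) (XT.lf (nat_lit 0) (nat_lit 859702145735) (nat_lit 152) (nat_lit 1765565274096) (nat_lit 0) (nat_lit 828410187059) (nat_lit 1) (nat_lit 5) (nat_lit 3) (nat_lit 4) (nat_lit 1) (nat_lit 4) (nat_lit 449) (nat_lit 355) (nat_lit 216)) (XT.lf (nat_lit 0) (nat_lit 983591599597) (nat_lit 152) (nat_lit 1789468427581) (nat_lit 0) (nat_lit 952299588535)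 (nat_lit 1) (nat_lit 5) (nat_lit 3) (nat_lit 4) (nat_lit 1) (nat_lit 4) (nat_lit 450) (nat_lit 355) (nat_lit 215))))) (XT.nd (nat_lit 156) (nat_lit 0) (nat_lit 0) (XT.nd (nat_lit 78) (nat_lit 0) (nat_lit 0) (XT.lf (nat_lit 0) (nat_lit 1117392024015) (nat_lit 152) (nat_lit 1815284211647) (nat_lit 0) (nat_lit 1086099964449) (nat_lit 1) (nat_lit 5) (nat_lit 3) (nat_lit 4) (nat_lit 1) (nat_lit 4) (nat_lit 451) (nat_lit 355) (nat_lit 214)) (XT.lf (nat_lit 0) (nat_lit 1261896310394) (nat_lit 152) (nat_lit 1843165608718) (nat_lit 0) (nat_lit 1230604205916) (nat_lit 1) (nat_lit 5) (nat_lit 3) (nat_lit 4) (nat_lit 1) (nat_lit 4) (nat_lit 452) (nat_lit 355) (nat_lit 213))) (XT.nd (nat_lit 78) (nat_lit 0) (nat_lit 0) (XT.lf (nat_lit 0) (nat_lit 1417960780431) (nat_lit 152) (nat_lit 1873277841887) (nat_lit 0) (nat_lit 1386668634369) (nat_lit 1) (nat_lit 5) (nat_lit 3) (nat_lit 4) (nat_lit 1) (nat_lit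 4) (nat_lit 453) (nat_lit 355) (nat_lit 212)) (XT.nd (nat_lit 78) (nat_lit 0) (nat_lit 0) (XT.lf (nat_lit 0) (nat_lit 1586510260616) (nat_lit 152) (nat_lit 1905799354019) (nat_lit 0) (nat_lit 1555218076049) (nat_lit 1) (nat_lit 5) (nat_lit 3) (nat_lit 4) (nat_lit 1) (nat_lit 4) (nat_lit 454) (nat_lit 355) (nat_lit 211)) (XT.lf (nat_lit 0) (nat_lit 1768543562682) (nat_lit 152) (nat_lit 1940922865184) (nat_lit 0) (nat_lit 1737251342462) (nat_lit 1) (nat_lit 5) (nat_lit 3) (nat_lit 4) (nat_lit 1) (nat_lit 4) (nat_lit 455) (nat_lit 355) (nat_lit 210))))))) (XT.nd (nat_lit 45552) (nat_lit 0) (nat_lit 3648) (XT.nd (nat_lit 390) (nat_lit 0) (nat_lit 0) (XT.nd (nat_lit 156) (nat_lit 0) (nat_lit 0) (XT.nd (nat_lit 78) (nat_lit 0) (nat_lit 0) (XT.lf (nat_lit 0) (nat_lit 1965139402493) (nat_lit 152) (nat_lit 1978856514709) (nat_lit 0) (nat_lit 1933847149262) (nat_lit 1) (nat_lit 5) (nat_lit 3) (nat_lit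 4) (nat_lit 1) (nat_lit 4) (nat_lit 456) (nat_lit 355) (nat_lit 209)) (XT.lf (nat_lit 0) (nat_lit 2177462792435) (nat_lit 152) (nat_lit 2019825094590) (nat_lit 0) (nat_lit 2146170508638) (nat_lit 1) (nat_lit 5) (nat_lit 3) (nat_lit 4) (nat_lit 1) (nat_lit 4) (nat_lit 457) (nat_lit 355) (nat_lit 208))) (XT.nd (nat_lit 78) (nat_lit 0) (nat_lit 0) (XT.lf (nat_lit 0) (nat_lit 2406771945187) (nat_lit 152) (nat_lit 2064071381596) (nat_lit 0) (nat_lit 2375479633088) (nat_lit 1) (nat_lit 5) (nat_lit 3) (nat_lit 4) (nat_lit 1) (nat_lit 4) (nat_lit 458) (nat_lit 355) (nat_lit 207)) (XT.nd (nat_lit 78) (nat_lit 0) (nat_lit 0) (XT.lf (nat_lit 0) (nat_lit 2654425729803) (nat_lit 152) (nat_lit 2111857575949) (nat_lit 0) (nat_lit 2623133391499) (nat_lit 1) (nat_lit 5) (nat_lit 3) (nat_lit 4) (nat_lit 1) (nat_lit 4) (nat_lit 459) (nat_lit 355) (nat_lit 206)) (XT.lf (nat_lit 0) (nat_lit 2921891724267)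 (nat_lit 152) (nat_lit 2163466855094) (nat_lit 0) (nat_lit 2890599361698) (nat_lit 1) (nat_lit 5) (nat_lit 3) (nat_lit 4) (nat_lit 1) (nat_lit 4) (nat_lit 460) (nat_lit 355) (nat_lit 205))))) (XT.nd (nat_lit 44928) (nat_lit 0) (nat_lit 4788) (XT.nd (nat_lit 78) (nat_lit 0) (nat_lit 0) (XT.lf (nat_lit 0) (nat_lit 3210754912248) (nat_lit 152) (nat_lit 2219205051799) (nat_lit 0) (nat_lit 3179462527212) (nat_lit 1) (nat_lit 5) (nat_lit 3) (nat_lit 4) (nat_lit 1) (nat_lit 4) (nat_lit 461) (nat_lit 355) (nat_lit 204)) (XT.lf (nat_lit 0) (nat_lit 3522727075603) (nat_lit 152) (nat_lit 2279402466487) (nat_lit 0) (nat_lit 3491434669764) (nat_lit 1) (nat_lit 5) (nat_lit 3) (nat_lit 4) (nat_lit 1) (nat_lit 4) (nat_lit 462) (nat_lit 355) (nat_lit 203))) (XT.nd (nat_lit 78) (nat_lit 0) (nat_lit 0) (XT.lf (nat_lit 0) (nat_lit 4761472329) (nat_lit 532) (nat_lit 1158538581) (nat_lit 532) (nat_lit 1158538581)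 (nat_lit 64) (nat_lit 3) (nat_lit 71) (nat_lit 3) (nat_lit 71) (nat_lit 5) (nat_lit 356) (nat_lit 356) (nat_lit 308)) (XT.nd (nat_lit 78) (nat_lit 0) (nat_lit 76) (XT.lf (nat_lit 76) (nat_lit 4806054131) (nat_lit 0) (nat_lit 5528751869) (nat_lit 532) (nat_lit 4353803157) (nat_lit 65) (nat_lit 5) (nat_lit 64) (nat_lit 3) (nat_lit 71) (nat_lit 5) (nat_lit 357) (nat_lit 356) (nat_lit 307)) (XT.lf (nat_lit 0) (nat_lit 11275932069) (nat_lit 456) (nat_lit 2680246072) (nat_lit 532) (nat_lit 1301346582) (nat_lit 65) (nat_lit 5) (nat_lit 71) (nat_lit 5) (nat_lit 72) (nat_lit 5) (nat_lit 358) (nat_lit 356) (nat_lit 306)))))) (XT.nd (nat_lit 390) (nat_lit 836) (nat_lit 0) (XT.nd (nat_lit 156) (nat_lit 380) (nat_lit 0) (XT.nd (nat_lit 78) (nat_lit 0) (nat_lit 0) (XT.lf (nat_lit 76) (nat_lit 5195198602) (nat_lit 0) (nat_lit 7336397121) (nat_lit 532) (nat_lit 3321245645) (nat_lit 66) (nat_lit 5) (nat_lit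 65) (nat_lit 5) (nat_lit 72) (nat_lit 5) (nat_lit 359) (nat_lit 356) (nat_lit 305)) (XT.lf (nat_lit 76) (nat_lit 13834266257) (nat_lit 0) (nat_lit 99145129) (nat_lit 532) (nat_lit 2558741631) (nat_lit 66) (nat_lit 5) (nat_lit 65) (nat_lit 5) (nat_lit 72) (nat_lit 5) (nat_lit 360) (nat_lit 356) (nat_lit 304))) (XT.nd (nat_lit 78) (nat_lit 456) (nat_lit 0) (XT.lf (nat_lit 76) (nat_lit 6080729729) (nat_lit 0) (nat_lit 9673134579) (nat_lit 532) (nat_lit 1404249622) (nat_lit 67) (nat_lit 5) (nat_lit 66) (nat_lit 5) (nat_lit 73) (nat_lit 5) (nat_lit 361) (nat_lit 356) (nat_lit 303)) (XT.nd (nat_lit 78) (nat_lit 456) (nat_lit 0) (XT.lf (nat_lit 76) (nat_lit 15647673414) (nat_lit 0) (nat_lit 2123531088) (nat_lit 532) (nat_lit 102069067) (nat_lit 67) (nat_lit 5) (nat_lit 66) (nat_lit 5) (nat_lit 73) (nat_lit 5) (nat_lit 362) (nat_lit 356) (nat_lit 302)) (XT.lf (nat_lit 0) (nat_lit 1551409028) (nat_lit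 532) (nat_lit 11113423578) (nat_lit 76) (nat_lit 5953333230) (nat_lit 60) (nat_lit 5) (nat_lit 67) (nat_lit 5) (nat_lit 61) (nat_lit 5) (nat_lit 363) (nat_lit 356) (nat_lit 301))))) (XT.nd (nat_lit 234) (nat_lit 228) (nat_lit 0) (XT.nd (nat_lit 78) (nat_lit 608) (nat_lit 0) (XT.lf (nat_lit 0) (nat_lit 3427799459) (nat_lit 532) (nat_lit 1357416911) (nat_lit 76) (nat_lit 14629546562) (nat_lit 60) (nat_lit 5) (nat_lit 67) (nat_lit 5) (nat_lit 61) (nat_lit 5) (nat_lit 364) (nat_lit 356) (nat_lit 300)) (XT.nd (nat_lit 78) (nat_lit 228) (nat_lit 0) (XT.lf (nat_lit 0) (nat_lit 5761982652) (nat_lit 456) (nat_lit 10711161268) (nat_lit 76) (nat_lit 3777345474) (nat_lit 55) (nat_lit 5) (nat_lit 61) (nat_lit 5) (nat_lit 56) (nat_lit 5) (nat_lit 365) (nat_lit 356) (nat_lit 299)) (XT.lf (nat_lit 0) (nat_lit 94496455) (nat_lit 228) (nat_lit 8334234481) (nat_lit 304) (nat_lit 12712691535) (nat_lit 52)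 (nat_lit 5) (nat_lit 55) (nat_lit 5) (nat_lit 56) (nat_lit 5) (nat_lit 366) (nat_lit 356) (nat_lit 298)))) (XT.nd (nat_lit 78) (nat_lit 228) (nat_lit 0) (XT.lf (nat_lit 0) (nat_lit 11602329521) (nat_lit 304) (nat_lit 9745795787) (nat_lit 76) (nat_lit 732037874) (nat_lit 52) (nat_lit 5) (nat_lit 56) (nat_lit 5) (nat_lit 53) (nat_lit 5) (nat_lit 367) (nat_lit 356) (nat_lit 297)) (XT.nd (nat_lit 78) (nat_lit 0) (nat_lit 0) (XT.lf (nat_lit 0) (nat_lit 2340801227) (nat_lit 228) (nat_lit 12945191931) (nat_lit 304) (nat_lit 7787528618) (nat_lit 49) (nat_lit 5) (nat_lit 52) (nat_lit 5) (nat_lit 53) (nat_lit 5) (nat_lit 368) (nat_lit 356) (nat_lit 296)) (XT.lf (nat_lit 0) (nat_lit 15929818925) (nat_lit 228) (nat_lit 3585183443) (nat_lit 304) (nat_lit 4611306343) (nat_lit 49) (nat_lit 5) (nat_lit 52) (nat_lit 5) (nat_lit 53) (nat_lit 5) (nat_lit 369) (nat_lit 356) (nat_lit 295))))))))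
noncomputable def xc139 : XT := (XT.nd (nat_lit 1638) (nat_lit 988) (nat_lit 0) (XT.nd (nat_lit 780) (nat_lit 836) (nat_lit 0) (XT.nd (nat_lit 390) (nat_lit 532) (nat_lit 0) (XT.nd (nat_lit 156) (nat_lit 380) (nat_lit 0) (XT.nd (nat_lit 78) (nat_lit 76) (nat_lit 0) (XT.lf (nat_lit 0) (nat_lit 5439358384) (nat_lit 152) (nat_lit 18915975047) (nat_lit 228) (nat_lit 886156055) (nat_lit 47) (nat_lit 5) (nat_lit 49) (nat_lit 5) (nat_lit 50) (nat_lit 5) (nat_lit 370) (nat_lit 356) (nat_lit 294)) (XT.lf (nat_lit 0) (nat_lit 3288702260) (nat_lit 228) (nat_lit 5988915378) (nat_lit 76) (nat_lit 17137551145) (nat_lit 46) (nat_lit 5) (nat_lit 49) (nat_lit 5) (nat_lit 47) (nat_lit 5) (nat_lit 371) (nat_lit 356) (nat_lit 293))) (XT.nd (nat_lit 78) (nat_lit 152) (nat_lit 0) (XT.lf (nat_lit 0) (nat_lit 7994917550) (nat_lit 304) (nat_lit 18340520661) (nat_lit 76) (nat_lit 1325852061) (nat_lit 43) (nat_lit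 5) (nat_lit 47) (nat_lit 5) (nat_lit 44) (nat_lit 5) (nat_lit 372) (nat_lit 356) (nat_lit 292)) (XT.nd (nat_lit 78) (nat_lit 152) (nat_lit 0) (XT.lf (nat_lit 0) (nat_lit 13473730451) (nat_lit 304) (nat_lit 3061292823) (nat_lit 76) (nat_lit 12440398240) (nat_lit 43) (nat_lit 5) (nat_lit 47) (nat_lit 5) (nat_lit 44) (nat_lit 5) (nat_lit 373) (nat_lit 356) (nat_lit 291)) (XT.lf (nat_lit 0) (nat_lit 14130581794) (nat_lit 152) (nat_lit 5588183870) (nat_lit 228) (nat_lit 10649691679) (nat_lit 41) (nat_lit 5) (nat_lit 43) (nat_lit 5) (nat_lit 44) (nat_lit 5) (nat_lit 374) (nat_lit 356) (nat_lit 290))))) (XT.nd (nat_lit 156) (nat_lit 304) (nat_lit 0) (XT.nd (nat_lit 78) (nat_lit 76) (nat_lit 0) (XT.lf (nat_lit 0) (nat_lit 880658394) (nat_lit 152) (nat_lit 25828196060) (nat_lit 228) (nat_lit 5144452440) (nat_lit 39) (nat_lit 5) (nat_lit 41) (nat_lit 5) (nat_lit 42) (nat_lit 5) (nat_lit 375) (nat_lit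 356) (nat_lit 289)) (XT.lf (nat_lit 0) (nat_lit 1350399851) (nat_lit 228) (nat_lit 13322362584) (nat_lit 76) (nat_lit 18735504500) (nat_lit 38) (nat_lit 5) (nat_lit 41) (nat_lit 5) (nat_lit 39) (nat_lit 5) (nat_lit 376) (nat_lit 356) (nat_lit 288))) (XT.nd (nat_lit 78) (nat_lit 152) (nat_lit 0) (XT.lf (nat_lit 0) (nat_lit 5884851714) (nat_lit 152) (nat_lit 2333050018) (nat_lit 228) (nat_lit 26848558131) (nat_lit 36) (nat_lit 5) (nat_lit 38) (nat_lit 5) (nat_lit 39) (nat_lit 5) (nat_lit 377) (nat_lit 356) (nat_lit 287)) (XT.nd (nat_lit 78) (nat_lit 152) (nat_lit 0) (XT.lf (nat_lit 0) (nat_lit 16262669280) (nat_lit 228) (nat_lit 9731875368) (nat_lit 76) (nat_lit 10812539418) (nat_lit 36) (nat_lit 5) (nat_lit 39) (nat_lit 5) (nat_lit 37) (nat_lit 5) (nat_lit 378) (nat_lit 356) (nat_lit 286)) (XT.lf (nat_lit 0) (nat_lit 11787973096) (nat_lit 152) (nat_lit 13497649680) (nat_lit 228) (nat_lit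 13374571774) (nat_lit 34) (nat_lit 5) (nat_lit 36) (nat_lit 5) (nat_lit 37) (nat_lit 5) (nat_lit 379) (nat_lit 356) (nat_lit 285)))))) (XT.nd (nat_lit 390) (nat_lit 456) (nat_lit 0) (XT.nd (nat_lit 156) (nat_lit 228) (nat_lit 0) (XT.nd (nat_lit 78) (nat_lit 152) (nat_lit 0) (XT.lf (nat_lit 0) (nat_lit 35294113792) (nat_lit 228) (nat_lit 5079457584) (nat_lit 76) (nat_lit 266890753) (nat_lit 34) (nat_lit 5) (nat_lit 37) (nat_lit 5) (nat_lit 35) (nat_lit 4) (nat_lit 380) (nat_lit 356) (nat_lit 284)) (XT.lf (nat_lit 0) (nat_lit 3978652607) (nat_lit 152) (nat_lit 23771090954) (nat_lit 76) (nat_lit 14957351154) (nat_lit 32) (nat_lit 5) (nat_lit 34) (nat_lit 5) (nat_lit 33) (nat_lit 5) (nat_lit 381) (nat_lit 356) (nat_lit 283))) (XT.nd (nat_lit 78) (nat_lit 76) (nat_lit 0) (XT.lf (nat_lit 0) (nat_lit 81065012) (nat_lit 152) (nat_lit 13815687469) (nat_lit 228) (nat_lit 31020324349) (nat_lit 30)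 (nat_lit 5) (nat_lit 32) (nat_lit 5) (nat_lit 33) (nat_lit 5) (nat_lit 382) (nat_lit 356) (nat_lit 282)) (XT.nd (nat_lit 78) (nat_lit 76) (nat_lit 0) (XT.lf (nat_lit 0) (nat_lit 25296447445) (nat_lit 228) (nat_lit 20119434433) (nat_lit 76) (nat_lit 1832927071) (nat_lit 30) (nat_lit 5) (nat_lit 33) (nat_lit 5) (nat_lit 31) (nat_lit 4) (nat_lit 383) (nat_lit 356) (nat_lit 281)) (XT.lf (nat_lit 0) (nat_lit 6528974664) (nat_lit 76) (nat_lit 31587297487) (nat_lit 152) (nat_lit 11610158120) (nat_lit 29) (nat_lit 5) (nat_lit 30) (nat_lit 5) (nat_lit 31) (nat_lit 4) (nat_lit 384) (nat_lit 356) (nat_lit 280))))) (XT.nd (nat_lit 234) (nat_lit 228) (nat_lit 0) (XT.nd (nat_lit 78) (nat_lit 152) (nat_lit 0) (XT.lf (nat_lit 0) (nat_lit 138198236) (nat_lit 152) (nat_lit 15921800307) (nat_lit 76) (nat_lit 36298573998) (nat_lit 28) (nat_lit 5) (nat_lit 30) (nat_lit 5) (nat_lit 29) (nat_lit 5) (nat_lit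 385) (nat_lit 356) (nat_lit 279)) (XT.nd (nat_lit 78) (nat_lit 0) (nat_lit 0) (XT.lf (nat_lit 0) (nat_lit 12560286185) (nat_lit 228) (nat_lit 41266157648) (nat_lit 76) (nat_lit 1321830656) (nat_lit 26) (nat_lit 5) (nat_lit 29) (nat_lit 5) (nat_lit 27) (nat_lit 4) (nat_lit 386) (nat_lit 356) (nat_lit 278)) (XT.lf (nat_lit 0) (nat_lit 26832947486) (nat_lit 228) (nat_lit 11591389969) (nat_lit 76) (nat_lit 19668272812) (nat_lit 26) (nat_lit 5) (nat_lit 29) (nat_lit 5) (nat_lit 27) (nat_lit 4) (nat_lit 387) (nat_lit 356) (nat_lit 277)))) (XT.nd (nat_lit 78) (nat_lit 152) (nat_lit 0) (XT.lf (nat_lit 0) (nat_lit 21522474587) (nat_lit 76) (nat_lit 21236105711) (nat_lit 152) (nat_lit 18473021940) (nat_lit 25) (nat_lit 5) (nat_lit 26) (nat_lit 5) (nat_lit 27) (nat_lit 4) (nat_lit 388) (nat_lit 356) (nat_lit 276)) (XT.nd (nat_lit 78) (nat_lit 152) (nat_lit 0) (XT.lf (nat_lit 0) (nat_lit 57933426839)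 (nat_lit 76) (nat_lit 2335516762) (nat_lit 152) (nat_lit 4327917445) (nat_lit 25) (nat_lit 5) (nat_lit 26) (nat_lit 5) (nat_lit 27) (nat_lit 4) (nat_lit 389) (nat_lit 356) (nat_lit 275)) (XT.lf (nat_lit 0) (nat_lit 11583435777) (nat_lit 152) (nat_lit 38347003427) (nat_lit 76) (nat_lit 18185249976) (nat_lit 23) (nat_lit 5) (nat_lit 25) (nat_lit 5) (nat_lit 24) (nat_lit 4) (nat_lit 390) (nat_lit 356) (nat_lit 274))))))) (XT.nd (nat_lit 780) (nat_lit 456) (nat_lit 0) (XT.nd (nat_lit 390) (nat_lit 228) (nat_lit 0) (XT.nd (nat_lit 156) (nat_lit 228) (nat_lit 0) (XT.nd (nat_lit 78) (nat_lit 76) (nat_lit 0) (XT.lf (nat_lit 0) (nat_lit 28775599830) (nat_lit 152) (nat_lit 2595719533) (nat_lit 76) (nat_lit 40516374809) (nat_lit 23) (nat_lit 5) (nat_lit 25) (nat_lit 5) (nat_lit 24) (nat_lit 4) (nat_lit 391) (nat_lit 356) (nat_lit 273)) (XT.lf (nat_lit 0) (nat_lit 37901668057) (nat_lit 76) (nat_lit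 10347576686) (nat_lit 152) (nat_lit 27639727576) (nat_lit 22) (nat_lit 5) (nat_lit 23) (nat_lit 5) (nat_lit 24) (nat_lit 4) (nat_lit 392) (nat_lit 356) (nat_lit 272))) (XT.nd (nat_lit 78) (nat_lit 152) (nat_lit 0) (XT.lf (nat_lit 0) (nat_lit 1339699229) (nat_lit 76) (nat_lit 68337960357) (nat_lit 76) (nat_lit 10500944135) (nat_lit 21) (nat_lit 4) (nat_lit 22) (nat_lit 5) (nat_lit 22) (nat_lit 4) (nat_lit 393) (nat_lit 356) (nat_lit 271)) (XT.nd (nat_lit 78) (nat_lit 76) (nat_lit 0) (XT.lf (nat_lit 0) (nat_lit 8937345746) (nat_lit 152) (nat_lit 39253524062) (nat_lit 76) (nat_lit 36498804221) (nat_lit 20) (nat_lit 5) (nat_lit 22) (nat_lit 5) (nat_lit 21) (nat_lit 4) (nat_lit 394) (nat_lit 356) (nat_lit 270)) (XT.lf (nat_lit 0) (nat_lit 3385979141) (nat_lit 76) (nat_lit 26053881941) (nat_lit 152) (nat_lit 60093830865) (nat_lit 19) (nat_lit 5) (nat_lit 20) (nat_lit 5) (nat_lit 21) (nat_lit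 4) (nat_lit 395) (nat_lit 356) (nat_lit 269))))) (XT.nd (nat_lit 156) (nat_lit 152) (nat_lit 0) (XT.nd (nat_lit 78) (nat_lit 76) (nat_lit 0) (XT.lf (nat_lit 0) (nat_lit 51659925401) (nat_lit 76) (nat_lit 991113859) (nat_lit 152) (nat_lit 42028716045) (nat_lit 19) (nat_lit 5) (nat_lit 20) (nat_lit 5) (nat_lit 21) (nat_lit 4) (nat_lit 396) (nat_lit 356) (nat_lit 268)) (XT.lf (nat_lit 0) (nat_lit 3076343694) (nat_lit 76) (nat_lit 75339359252) (nat_lit 76) (nat_lit 21766074349) (nat_lit 18) (nat_lit 4) (nat_lit 19) (nat_lit 5) (nat_lit 19) (nat_lit 4) (nat_lit 397) (nat_lit 356) (nat_lit 267))) (XT.nd (nat_lit 78) (nat_lit 76) (nat_lit 0) (XT.lf (nat_lit 0) (nat_lit 1339708025) (nat_lit 152) (nat_lit 50790902973) (nat_lit 76) (nat_lit 53894883681) (nat_lit 17) (nat_lit 5) (nat_lit 19) (nat_lit 5) (nat_lit 18) (nat_lit 4) (nat_lit 398) (nat_lit 356) (nat_lit 266)) (XT.nd (nat_lit 78) (nat_lit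 76) (nat_lit 0) (XT.lf (nat_lit 0) (nat_lit 25113832451) (nat_lit 152) (nat_lit 1344623021) (nat_lit 76) (nat_lit 85833361434) (nat_lit 17) (nat_lit 5) (nat_lit 19) (nat_lit 5) (nat_lit 18) (nat_lit 4) (nat_lit 399) (nat_lit 356) (nat_lit 265)) (XT.lf (nat_lit 0) (nat_lit 52168351658) (nat_lit 152) (nat_lit 64228210022) (nat_lit 0) (nat_lit 2552606683) (nat_lit 16) (nat_lit 5) (nat_lit 18) (nat_lit 4) (nat_lit 16) (nat_lit 4) (nat_lit 400) (nat_lit 356) (nat_lit 264)))))) (XT.nd (nat_lit 390) (nat_lit 228) (nat_lit 0) (XT.nd (nat_lit 156) (nat_lit 152) (nat_lit 0) (XT.nd (nat_lit 78) (nat_lit 76) (nat_lit 0) (XT.lf (nat_lit 0) (nat_lit 82108335119) (nat_lit 152) (nat_lit 11483590080) (nat_lit 0) (nat_lit 32489495108) (nat_lit 16) (nat_lit 5) (nat_lit 18) (nat_lit 4) (nat_lit 16) (nat_lit 4) (nat_lit 401) (nat_lit 356) (nat_lit 263)) (XT.lf (nat_lit 0) (nat_lit 47868225011) (nat_lit 76)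 (nat_lit 67722960148) (nat_lit 76) (nat_lit 18101254362) (nat_lit 15) (nat_lit 4) (nat_lit 16) (nat_lit 5) (nat_lit 16) (nat_lit 4) (nat_lit 402) (nat_lit 356) (nat_lit 262))) (XT.nd (nat_lit 78) (nat_lit 76) (nat_lit 0) (XT.lf (nat_lit 0) (nat_lit 9666654110) (nat_lit 152) (nat_lit 29517718731) (nat_lit 76) (nat_lit 102683548379) (nat_lit 14) (nat_lit 5) (nat_lit 16) (nat_lit 5) (nat_lit 15) (nat_lit 4) (nat_lit 403) (nat_lit 356) (nat_lit 261)) (XT.nd (nat_lit 78) (nat_lit 0) (nat_lit 0) (XT.lf (nat_lit 0) (nat_lit 32439452929) (nat_lit 76) (nat_lit 7015484162) (nat_lit 152) (nat_lit 111142741423) (nat_lit 13) (nat_lit 5) (nat_lit 14) (nat_lit 5) (nat_lit 15) (nat_lit 4) (nat_lit 404) (nat_lit 356) (nat_lit 260)) (XT.lf (nat_lit 0) (nat_lit 73117874254) (nat_lit 152) (nat_lit 59623603152) (nat_lit 0) (nat_lit 27165012063) (nat_lit 13) (nat_lit 5) (nat_lit 15) (nat_lit 4) (nat_lit 13)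 (nat_lit 4) (nat_lit 405) (nat_lit 356) (nat_lit 259))))) (XT.nd (nat_lit 234) (nat_lit 76) (nat_lit 0) (XT.nd (nat_lit 78) (nat_lit 76) (nat_lit 0) (XT.lf (nat_lit 0) (nat_lit 3584925765) (nat_lit 76) (nat_lit 106154329877) (nat_lit 76) (nat_lit 60199517289) (nat_lit 12) (nat_lit 4) (nat_lit 13) (nat_lit 5) (nat_lit 13) (nat_lit 4) (nat_lit 406) (nat_lit 356) (nat_lit 258)) (XT.nd (nat_lit 78) (nat_lit 76) (nat_lit 0) (XT.lf (nat_lit 0) (nat_lit 75235159970) (nat_lit 76) (nat_lit 75682458155) (nat_lit 76) (nat_lit 29725839642) (nat_lit 12) (nat_lit 4) (nat_lit 13) (nat_lit 5) (nat_lit 13) (nat_lit 4) (nat_lit 407) (nat_lit 356) (nat_lit 257)) (XT.lf (nat_lit 0) (nat_lit 3023571584) (nat_lit 152) (nat_lit 39669261768) (nat_lit 76) (nat_lit 149505778771) (nat_lit 11) (nat_lit 5) (nat_lit 13) (nat_lit 5) (nat_lit 12) (nat_lit 4) (nat_lit 408) (nat_lit 356) (nat_lit 256)))) (XT.nd (nat_lit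 78) (nat_lit 0) (nat_lit 0) (XT.lf (nat_lit 0) (nat_lit 32160464125) (nat_lit 76) (nat_lit 5397373893) (nat_lit 152) (nat_lit 166996903524) (nat_lit 10) (nat_lit 5) (nat_lit 11) (nat_lit 5) (nat_lit 12) (nat_lit 4) (nat_lit 409) (nat_lit 356) (nat_lit 255)) (XT.nd (nat_lit 78) (nat_lit 0) (nat_lit 0) (XT.lf (nat_lit 0) (nat_lit 76803973844) (nat_lit 152) (nat_lit 106692217479) (nat_lit 0) (nat_lit 34247239997) (nat_lit 10) (nat_lit 5) (nat_lit 12) (nat_lit 4) (nat_lit 10) (nat_lit 4) (nat_lit 410) (nat_lit 356) (nat_lit 254)) (XT.lf (nat_lit 0) (nat_lit 119327604793) (nat_lit 152) (nat_lit 35878945517) (nat_lit 0) (nat_lit 76769641864) (nat_lit 10) (nat_lit 5) (nat_lit 12) (nat_lit 4) (nat_lit 10) (nat_lit 4) (nat_lit 411) (nat_lit 356) (nat_lit 253))))))))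
noncomputable def xc140 : XT := (XT.nd (nat_lit 1560) (nat_lit 152) (nat_lit 0) (XT.nd (nat_lit 780) (nat_lit 228) (nat_lit 0) (XT.nd (nat_lit 390) (nat_lit 76) (nat_lit 0) (XT.nd (nat_lit 156) (nat_lit 152) (nat_lit 0) (XT.nd (nat_lit 78) (nat_lit 0) (nat_lit 0) (XT.lf (nat_lit 0) (nat_lit 42732639333) (nat_lit 76) (nat_lit 123545997451) (nat_lit 76) (nat_lit 80986896484) (nat_lit 9) (nat_lit 4) (nat_lit 10) (nat_lit 5) (nat_lit 10) (nat_lit 4) (nat_lit 412) (nat_lit 356) (nat_lit 252)) (XT.lf (nat_lit 0) (nat_lit 129669321447) (nat_lit 76) (nat_lit 88295273799) (nat_lit 76) (nat_lit 45735119092) (nat_lit 9) (nat_lit 4) (nat_lit 10) (nat_lit 5) (nat_lit 10) (nat_lit 4) (nat_lit 413) (nat_lit 356) (nat_lit 251))) (XT.nd (nat_lit 78) (nat_lit 152) (nat_lit 0) (XT.lf (nat_lit 0) (nat_lit 223556959475) (nat_lit 76) (nat_lit 50226480128) (nat_lit 76) (nat_lit 7665349737) (nat_lit 9) (nat_lit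 4) (nat_lit 10) (nat_lit 5) (nat_lit 10) (nat_lit 4) (nat_lit 414) (nat_lit 356) (nat_lit 250)) (XT.nd (nat_lit 78) (nat_lit 0) (nat_lit 0) (XT.lf (nat_lit 0) (nat_lit 24768586167) (nat_lit 76) (nat_lit 7601904203) (nat_lit 152) (nat_lit 268135438767) (nat_lit 7) (nat_lit 5) (nat_lit 8) (nat_lit 5) (nat_lit 9) (nat_lit 4) (nat_lit 415) (nat_lit 356) (nat_lit 249)) (XT.lf (nat_lit 0) (nat_lit 77741469774) (nat_lit 152) (nat_lit 204795125800) (nat_lit 0) (nat_lit 38331404685) (nat_lit 7) (nat_lit 5) (nat_lit 9) (nat_lit 4) (nat_lit 7) (nat_lit 4) (nat_lit 416) (nat_lit 356) (nat_lit 248))))) (XT.nd (nat_lit 156) (nat_lit 76) (nat_lit 0) (XT.nd (nat_lit 78) (nat_lit 0) (nat_lit 0) (XT.lf (nat_lit 0) (nat_lit 126937834778) (nat_lit 152) (nat_lit 128378493318) (nat_lit 0) (nat_lit 87527052532) (nat_lit 7) (nat_lit 5) (nat_lit 9) (nat_lit 4) (nat_lit 7) (nat_lit 4) (nat_lit 417) (nat_lit 356)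 (nat_lit 247)) (XT.lf (nat_lit 0) (nat_lit 180068293419) (nat_lit 152) (nat_lit 45851780241) (nat_lit 0) (nat_lit 140656847138) (nat_lit 7) (nat_lit 5) (nat_lit 9) (nat_lit 4) (nat_lit 7) (nat_lit 4) (nat_lit 418) (nat_lit 356) (nat_lit 246))) (XT.nd (nat_lit 78) (nat_lit 0) (nat_lit 0) (XT.lf (nat_lit 0) (nat_lit 45552795960) (nat_lit 76) (nat_lit 192990442735) (nat_lit 76) (nat_lit 153578381608) (nat_lit 6) (nat_lit 4) (nat_lit 7) (nat_lit 5) (nat_lit 7) (nat_lit 4) (nat_lit 419) (nat_lit 356) (nat_lit 245)) (XT.nd (nat_lit 78) (nat_lit 0) (nat_lit 0) (XT.lf (nat_lit 0) (nat_lit 146874436550) (nat_lit 76) (nat_lit 156073956346) (nat_lit 76) (nat_lit 116661325916) (nat_lit 6) (nat_lit 4) (nat_lit 7) (nat_lit 5) (nat_lit 7) (nat_lit 4) (nat_lit 420) (nat_lit 356) (nat_lit 244)) (XT.lf (nat_lit 0) (nat_lit 256299092573) (nat_lit 76) (nat_lit 116205519058) (nat_lit 76) (nat_lit 76792361496)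 (nat_lit 6) (nat_lit 4) (nat_lit 7) (nat_lit 5) (nat_lit 7) (nat_lit 4) (nat_lit 421) (nat_lit 356) (nat_lit 243)))))) (XT.nd (nat_lit 390) (nat_lit 76) (nat_lit 0) (XT.nd (nat_lit 156) (nat_lit 76) (nat_lit 0) (XT.nd (nat_lit 78) (nat_lit 76) (nat_lit 0) (XT.lf (nat_lit 0) (nat_lit 374475206435) (nat_lit 76) (nat_lit 73148873465) (nat_lit 76) (nat_lit 33735227818) (nat_lit 6) (nat_lit 4) (nat_lit 7) (nat_lit 5) (nat_lit 7) (nat_lit 4) (nat_lit 422) (nat_lit 356) (nat_lit 242)) (XT.lf (nat_lit 0) (nat_lit 12126660074) (nat_lit 152) (nat_lit 14190644624) (nat_lit 76) (nat_lit 489644856582) (nat_lit 5) (nat_lit 5) (nat_lit 7) (nat_lit 5) (nat_lit 6) (nat_lit 4) (nat_lit 423) (nat_lit 356) (nat_lit 241))) (XT.nd (nat_lit 78) (nat_lit 0) (nat_lit 0) (XT.lf (nat_lit 0) (nat_lit 62648854752) (nat_lit 152) (nat_lit 464235242030) (nat_lit 0) (nat_lit 26153932499) (nat_lit 4) (nat_lit 5) (nat_lit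 6) (nat_lit 4) (nat_lit 4) (nat_lit 4) (nat_lit 424) (nat_lit 356) (nat_lit 240)) (XT.nd (nat_lit 78) (nat_lit 0) (nat_lit 0) (XT.lf (nat_lit 0) (nat_lit 118293372016) (nat_lit 152) (nat_lit 392902060008) (nat_lit 0) (nat_lit 81798091006) (nat_lit 4) (nat_lit 5) (nat_lit 6) (nat_lit 4) (nat_lit 4) (nat_lit 4) (nat_lit 425) (nat_lit 356) (nat_lit 239)) (XT.lf (nat_lit 0) (nat_lit 178388437171) (nat_lit 152) (nat_lit 315864276272) (nat_lit 0) (nat_lit 141892823978) (nat_lit 4) (nat_lit 5) (nat_lit 6) (nat_lit 4) (nat_lit 4) (nat_lit 4) (nat_lit 426) (nat_lit 356) (nat_lit 238))))) (XT.nd (nat_lit 156) (nat_lit 76) (nat_lit 0) (XT.nd (nat_lit 78) (nat_lit 0) (nat_lit 0) (XT.lf (nat_lit 0) (nat_lit 243290169121) (nat_lit 152) (nat_lit 232665370623) (nat_lit 0) (nat_lit 206794248352) (nat_lit 4) (nat_lit 5) (nat_lit 6) (nat_lit 4) (nat_lit 4) (nat_lit 4) (nat_lit 427) (nat_lit 356) (nat_lit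 237)) (XT.lf (nat_lit 0) (nat_lit 313383170722) (nat_lit 152) (nat_lit 142812312509) (nat_lit 0) (nat_lit 276886965160) (nat_lit 4) (nat_lit 5) (nat_lit 6) (nat_lit 4) (nat_lit 4) (nat_lit 4) (nat_lit 428) (nat_lit 356) (nat_lit 236))) (XT.nd (nat_lit 78) (nat_lit 76) (nat_lit 0) (XT.lf (nat_lit 0) (nat_lit 389082807910) (nat_lit 152) (nat_lit 45772639363) (nat_lit 0) (nat_lit 352586338651) (nat_lit 4) (nat_lit 5) (nat_lit 6) (nat_lit 4) (nat_lit 4) (nat_lit 4) (nat_lit 429) (nat_lit 356) (nat_lit 235)) (XT.nd (nat_lit 78) (nat_lit 0) (nat_lit 0) (XT.lf (nat_lit 0) (nat_lit 62137045397) (nat_lit 76) (nat_lit 410195023166) (nat_lit 76) (nat_lit 373698309743) (nat_lit 3) (nat_lit 4) (nat_lit 4) (nat_lit 5) (nat_lit 4) (nat_lit 4) (nat_lit 430) (nat_lit 356) (nat_lit 234)) (XT.lf (nat_lit 0) (nat_lit 181281164793) (nat_lit 76) (nat_lit 382210885218) (nat_lit 76) (nat_lit 345713945716) (nat_lit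 3) (nat_lit 4) (nat_lit 4) (nat_lit 5) (nat_lit 4) (nat_lit 4) (nat_lit 431) (nat_lit 356) (nat_lit 233))))))) (XT.nd (nat_lit 780) (nat_lit 0) (nat_lit 0) (XT.nd (nat_lit 390) (nat_lit 152) (nat_lit 0) (XT.nd (nat_lit 156) (nat_lit 0) (nat_lit 0) (XT.nd (nat_lit 78) (nat_lit 0) (nat_lit 0) (XT.lf (nat_lit 0) (nat_lit 309955451976) (nat_lit 76) (nat_lit 351988706575) (nat_lit 76) (nat_lit 315491557743) (nat_lit 3) (nat_lit 4) (nat_lit 4) (nat_lit 5) (nat_lit 4) (nat_lit 4) (nat_lit 432) (nat_lit 356) (nat_lit 232)) (XT.lf (nat_lit 0) (nat_lit 448922421242) (nat_lit 76) (nat_lit 319349392848) (nat_lit 76) (nat_lit 282852050190) (nat_lit 3) (nat_lit 4) (nat_lit 4) (nat_lit 5) (nat_lit 4) (nat_lit 4) (nat_lit 433) (nat_lit 356) (nat_lit 231))) (XT.nd (nat_lit 78) (nat_lit 0) (nat_lit 0) (XT.lf (nat_lit 0) (nat_lit 599005580557) (nat_lit 76) (nat_lit 284099525879) (nat_lit 76) (nat_lit 247602003753)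 (nat_lit 3) (nat_lit 4) (nat_lit 4) (nat_lit 5) (nat_lit 4) (nat_lit 4) (nat_lit 434) (nat_lit 356) (nat_lit 230)) (XT.nd (nat_lit 78) (nat_lit 0) (nat_lit 0) (XT.lf (nat_lit 0) (nat_lit 761094311604) (nat_lit 76) (nat_lit 246030217568) (nat_lit 76) (nat_lit 209532529268) (nat_lit 3) (nat_lit 4) (nat_lit 4) (nat_lit 5) (nat_lit 4) (nat_lit 4) (nat_lit 435) (nat_lit 356) (nat_lit 229)) (XT.lf (nat_lit 0) (nat_lit 936149140199) (nat_lit 76) (nat_lit 204915872015) (nat_lit 76) (nat_lit 168418029850) (nat_lit 3) (nat_lit 4) (nat_lit 4) (nat_lit 5) (nat_lit 4) (nat_lit 4) (nat_lit 436) (nat_lit 356) (nat_lit 228))))) (XT.nd (nat_lit 156) (nat_lit 152) (nat_lit 0) (XT.nd (nat_lit 78) (nat_lit 0) (nat_lit 0) (XT.lf (nat_lit 0) (nat_lit 1125207428288) (nat_lit 76) (nat_lit 160512848653) (nat_lit 76) (nat_lit 124014864020) (nat_lit 3) (nat_lit 4) (nat_lit 4) (nat_lit 5) (nat_lit 4) (nat_lit 4)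 (nat_lit 437) (nat_lit 356) (nat_lit 227)) (XT.lf (nat_lit 0) (nat_lit 1329389521282) (nat_lit 76) (nat_lit 112558018454) (nat_lit 76) (nat_lit 76059901908) (nat_lit 3) (nat_lit 4) (nat_lit 4) (nat_lit 5) (nat_lit 4) (nat_lit 4) (nat_lit 438) (nat_lit 356) (nat_lit 226))) (XT.nd (nat_lit 78) (nat_lit 152) (nat_lit 0) (XT.lf (nat_lit 0) (nat_lit 1549905387140) (nat_lit 76) (nat_lit 60767204648) (nat_lit 76) (nat_lit 24268965958) (nat_lit 3) (nat_lit 4) (nat_lit 4) (nat_lit 5) (nat_lit 4) (nat_lit 4) (nat_lit 439) (nat_lit 356) (nat_lit 225)) (XT.nd (nat_lit 78) (nat_lit 0) (nat_lit 0) (XT.lf (nat_lit 0) (nat_lit 27442604090) (nat_lit 76) (nat_lit 3298240080) (nat_lit 152) (nat_lit 1730375865146) (nat_lit 1) (nat_lit 5) (nat_lit 2) (nat_lit 5) (nat_lit 3) (nat_lit 4) (nat_lit 440) (nat_lit 356) (nat_lit 224)) (XT.lf (nat_lit 0) (nat_lit 92638721133) (nat_lit 152) (nat_lit 1745548993953)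 (nat_lit 0) (nat_lit 58843854001) (nat_lit 1) (nat_lit 5) (nat_lit 3) (nat_lit 4) (nat_lit 1) (nat_lit 4) (nat_lit 441) (nat_lit 356) (nat_lit 223)))))) (XT.nd (nat_lit 390) (nat_lit 0) (nat_lit 0) (XT.nd (nat_lit 156) (nat_lit 0) (nat_lit 0) (XT.nd (nat_lit 78) (nat_lit 0) (nat_lit 0) (XT.lf (nat_lit 0) (nat_lit 159573753012) (nat_lit 152) (nat_lit 1758460242563) (nat_lit 0) (nat_lit 125778796101) (nat_lit 1) (nat_lit 5) (nat_lit 3) (nat_lit 4) (nat_lit 1) (nat_lit 4) (nat_lit 442) (nat_lit 356) (nat_lit 222)) (XT.lf (nat_lit 0) (nat_lit 231863269095) (nat_lit 152) (nat_lit 1772405039404) (nat_lit 0) (nat_lit 198068229056) (nat_lit 1) (nat_lit 5) (nat_lit 3) (nat_lit 4) (nat_lit 1) (nat_lit 4) (nat_lit 443) (nat_lit 356) (nat_lit 221))) (XT.nd (nat_lit 78) (nat_lit 0) (nat_lit 0) (XT.lf (nat_lit 0) (nat_lit 309935651700) (nat_lit 152) (nat_lit 1787466020309) (nat_lit 0) (nat_lit 276140534690)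 (nat_lit 1) (nat_lit 5) (nat_lit 3) (nat_lit 4) (nat_lit 1) (nat_lit 4) (nat_lit 444) (nat_lit 356) (nat_lit 220)) (XT.nd (nat_lit 78) (nat_lit 0) (nat_lit 0) (XT.lf (nat_lit 0) (nat_lit 394253551983) (nat_lit 152) (nat_lit 1803732435538) (nat_lit 0) (nat_lit 360458363704) (nat_lit 1) (nat_lit 5) (nat_lit 3) (nat_lit 4) (nat_lit 1) (nat_lit 4) (nat_lit 445) (nat_lit 356) (nat_lit 219)) (XT.lf (nat_lit 0) (nat_lit 485316631575) (nat_lit 152) (nat_lit 1821300678660) (nat_lit 0) (nat_lit 451521377306) (nat_lit 1) (nat_lit 5) (nat_lit 3) (nat_lit 4) (nat_lit 1) (nat_lit 4) (nat_lit 446) (nat_lit 356) (nat_lit 218))))) (XT.nd (nat_lit 234) (nat_lit 0) (nat_lit 0) (XT.nd (nat_lit 78) (nat_lit 0) (nat_lit 0) (XT.lf (nat_lit 0) (nat_lit 583664523540) (nat_lit 152) (nat_lit 1840274857783) (nat_lit 0) (nat_lit 549869208170) (nat_lit 1) (nat_lit 5) (nat_lit 3) (nat_lit 4) (nat_lit 1) (nat_lit 4)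 (nat_lit 447) (nat_lit 356) (nat_lit 217)) (XT.nd (nat_lit 78) (nat_lit 0) (nat_lit 0) (XT.lf (nat_lit 0) (nat_lit 689880030202) (nat_lit 152) (nat_lit 1860767412488) (nat_lit 0) (nat_lit 656084658256) (nat_lit 1) (nat_lit 5) (nat_lit 3) (nat_lit 4) (nat_lit 1) (nat_lit 4) (nat_lit 448) (nat_lit 356) (nat_lit 216)) (XT.lf (nat_lit 0) (nat_lit 804592576785) (nat_lit 152) (nat_lit 1882899780136) (nat_lit 0) (nat_lit 770797152453) (nat_lit 1) (nat_lit 5) (nat_lit 3) (nat_lit 4) (nat_lit 1) (nat_lit 4) (nat_lit 449) (nat_lit 356) (nat_lit 215)))) (XT.nd (nat_lit 78) (nat_lit 0) (nat_lit 0) (XT.lf (nat_lit 0) (nat_lit 928481941342) (nat_lit 152) (nat_lit 1906803115497) (nat_lit 0) (nat_lit 894686468506) (nat_lit 1) (nat_lit 5) (nat_lit 3) (nat_lit 4) (nat_lit 1) (nat_lit 4) (nat_lit 450) (nat_lit 356) (nat_lit 214)) (XT.nd (nat_lit 78) (nat_lit 0) (nat_lit 0) (XT.lf (nat_lit 0) (nat_lit 1062282283072)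 (nat_lit 152) (nat_lit 1932619067966) (nat_lit 0) (nat_lit 1028486765324) (nat_lit 1) (nat_lit 5) (nat_lit 3) (nat_lit 4) (nat_lit 1) (nat_lit 4) (nat_lit 451) (nat_lit 356) (nat_lit 213)) (XT.lf (nat_lit 0) (nat_lit 1206786492887) (nat_lit 152) (nat_lit 1960500620967) (nat_lit 0) (nat_lit 1172990933555) (nat_lit 1) (nat_lit 5) (nat_lit 3) (nat_lit 4) (nat_lit 1) (nat_lit 4) (nat_lit 452) (nat_lit 356) (nat_lit 212))))))))
noncomputable def xc141 : XT := (XT.nd (nat_lit 46410) (nat_lit 0) (nat_lit 1900) (XT.nd (nat_lit 45630) (nat_lit 0) (nat_lit 4104) (XT.nd (nat_lit 390) (nat_lit 0) (nat_lit 0) (XT.nd (nat_lit 156) (nat_lit 0) (nat_lit 0) (XT.nd (nat_lit 78) (nat_lit 0) (nat_lit 0) (XT.lf (nat_lit 0) (nat_lit 1362850892032) (nat_lit 152) (nat_lit 1990612998515) (nat_lit 0) (nat_lit 1329055294195) (nat_lit 1) (nat_lit 5) (nat_lit 3) (nat_lit 4) (nat_lit 1) (nat_lit 4) (nat_lit 453) (nat_lit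 356) (nat_lit 211)) (XT.lf (nat_lit 0) (nat_lit 1531400306576) (nat_lit 152) (nat_lit 2023134644331) (nat_lit 0) (nat_lit 1497604673086) (nat_lit 1) (nat_lit 5) (nat_lit 3) (nat_lit 4) (nat_lit 1) (nat_lit 4) (nat_lit 454) (nat_lit 356) (nat_lit 210))) (XT.nd (nat_lit 78) (nat_lit 0) (nat_lit 0) (XT.lf (nat_lit 0) (nat_lit 1713433547863) (nat_lit 152) (nat_lit 2058258279278) (nat_lit 0) (nat_lit 1679637881362) (nat_lit 1) (nat_lit 5) (nat_lit 3) (nat_lit 4) (nat_lit 1) (nat_lit 4) (nat_lit 455) (nat_lit 356) (nat_lit 209)) (XT.nd (nat_lit 78) (nat_lit 0) (nat_lit 0) (XT.lf (nat_lit 0) (nat_lit 1910029331398) (nat_lit 152) (nat_lit 2096192043415) (nat_lit 0) (nat_lit 1876233634331) (nat_lit 1) (nat_lit 5) (nat_lit 3) (nat_lit 4) (nat_lit 1) (nat_lit 4) (nat_lit 456) (nat_lit 356) (nat_lit 208)) (XT.lf (nat_lit 0) (nat_lit 2122352669232) (nat_lit 152) (nat_lit 2137160729419) (nat_lit 0)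 (nat_lit 2088556943863) (nat_lit 1) (nat_lit 5) (nat_lit 3) (nat_lit 4) (nat_lit 1) (nat_lit 4) (nat_lit 457) (nat_lit 356) (nat_lit 207))))) (XT.nd (nat_lit 156) (nat_lit 0) (nat_lit 0) (XT.nd (nat_lit 78) (nat_lit 0) (nat_lit 0) (XT.lf (nat_lit 0) (nat_lit 2351661773736) (nat_lit 152) (nat_lit 2181407114688) (nat_lit 0) (nat_lit 2317866022161) (nat_lit 1) (nat_lit 5) (nat_lit 3) (nat_lit 4) (nat_lit 1) (nat_lit 4) (nat_lit 458) (nat_lit 356) (nat_lit 206)) (XT.lf (nat_lit 0) (nat_lit 2599315513678) (nat_lit 152) (nat_lit 2229193400023) (nat_lit 0) (nat_lit 2565519737839) (nat_lit 1) (nat_lit 5) (nat_lit 3) (nat_lit 4) (nat_lit 1) (nat_lit 4) (nat_lit 459) (nat_lit 356) (nat_lit 205))) (XT.nd (nat_lit 78) (nat_lit 0) (nat_lit 0) (XT.lf (nat_lit 0) (nat_lit 2866781466777) (nat_lit 152) (nat_lit 2280802763413) (nat_lit 0) (nat_lit 2832985668471) (nat_lit 1) (nat_lit 5) (nat_lit 3) (nat_lit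 4) (nat_lit 1) (nat_lit 4) (nat_lit 460) (nat_lit 356) (nat_lit 204)) (XT.nd (nat_lit 78) (nat_lit 0) (nat_lit 0) (XT.lf (nat_lit 0) (nat_lit 3155644616457) (nat_lit 152) (nat_lit 2336541038121) (nat_lit 0) (nat_lit 3121848797349) (nat_lit 1) (nat_lit 5) (nat_lit 3) (nat_lit 4) (nat_lit 1) (nat_lit 4) (nat_lit 461) (nat_lit 356) (nat_lit 203)) (XT.lf (nat_lit 0) (nat_lit 3467616744348) (nat_lit 152) (nat_lit 2396738525034) (nat_lit 0) (nat_lit 3433820905977) (nat_lit 1) (nat_lit 5) (nat_lit 3) (nat_lit 4) (nat_lit 1) (nat_lit 4) (nat_lit 462) (nat_lit 356) (nat_lit 202)))))) (XT.nd (nat_lit 390) (nat_lit 684) (nat_lit 0) (XT.nd (nat_lit 156) (nat_lit 0) (nat_lit 76) (XT.nd (nat_lit 78) (nat_lit 0) (nat_lit 0) (XT.lf (nat_lit 0) (nat_lit 5450163590) (nat_lit 532) (nat_lit 1084878428) (nat_lit 532) (nat_lit 1084878428) (nat_lit 64) (nat_lit 3) (nat_lit 71) (nat_lit 3) (nat_lit 71) (nat_lit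 5) (nat_lit 357) (nat_lit 357) (nat_lit 306)) (XT.lf (nat_lit 76) (nat_lit 5514802500) (nat_lit 0) (nat_lit 6224537417) (nat_lit 532) (nat_lit 4077598892) (nat_lit 65) (nat_lit 5) (nat_lit 64) (nat_lit 3) (nat_lit 71) (nat_lit 5) (nat_lit 358) (nat_lit 357) (nat_lit 305))) (XT.nd (nat_lit 78) (nat_lit 0) (nat_lit 0) (XT.lf (nat_lit 0) (nat_lit 12707315066) (nat_lit 456) (nat_lit 2545481082) (nat_lit 532) (nat_lit 1182486687) (nat_lit 65) (nat_lit 5) (nat_lit 71) (nat_lit 5) (nat_lit 72) (nat_lit 5) (nat_lit 359) (nat_lit 357) (nat_lit 304)) (XT.nd (nat_lit 78) (nat_lit 0) (nat_lit 0) (XT.lf (nat_lit 76) (nat_lit 5951159047) (nat_lit 0) (nat_lit 8081250028) (nat_lit 532) (nat_lit 3048334532) (nat_lit 66) (nat_lit 5) (nat_lit 65) (nat_lit 5) (nat_lit 72) (nat_lit 5) (nat_lit 360) (nat_lit 357) (nat_lit 303)) (XT.lf (nat_lit 76) (nat_lit 15256141407) (nat_lit 0) (nat_lit 253318533) (nat_lit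 532) (nat_lit 2264727290) (nat_lit 66) (nat_lit 5) (nat_lit 65) (nat_lit 5) (nat_lit 72) (nat_lit 5) (nat_lit 361) (nat_lit 357) (nat_lit 302))))) (XT.nd (nat_lit 156) (nat_lit 304) (nat_lit 0) (XT.nd (nat_lit 78) (nat_lit 532) (nat_lit 0) (XT.lf (nat_lit 76) (nat_lit 6914164723) (nat_lit 0) (nat_lit 10532296603) (nat_lit 532) (nat_lit 1049322413) (nat_lit 67) (nat_lit 5) (nat_lit 66) (nat_lit 5) (nat_lit 73) (nat_lit 5) (nat_lit 362) (nat_lit 357) (nat_lit 301)) (XT.lf (nat_lit 0) (nat_lit 306291437) (nat_lit 532) (nat_lit 2057739492) (nat_lit 608) (nat_lit 16906095943) (nat_lit 59) (nat_lit 5) (nat_lit 66) (nat_lit 5) (nat_lit 67) (nat_lit 5) (nat_lit 363) (nat_lit 357) (nat_lit 300))) (XT.nd (nat_lit 78) (nat_lit 380) (nat_lit 0) (XT.lf (nat_lit 0) (nat_lit 2062834660) (nat_lit 532) (nat_lit 11635226617) (nat_lit 76) (nat_lit 6378258219) (nat_lit 60) (nat_lit 5) (nat_lit 67) (nat_lit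 5) (nat_lit 61) (nat_lit 5) (nat_lit 364) (nat_lit 357) (nat_lit 299)) (XT.nd (nat_lit 78) (nat_lit 380) (nat_lit 0) (XT.lf (nat_lit 0) (nat_lit 4060646479) (nat_lit 532) (nat_lit 1125944664) (nat_lit 76) (nat_lit 15752371704) (nat_lit 60) (nat_lit 5) (nat_lit 67) (nat_lit 5) (nat_lit 61) (nat_lit 5) (nat_lit 365) (nat_lit 357) (nat_lit 298)) (XT.lf (nat_lit 0) (nat_lit 6562764995) (nat_lit 456) (nat_lit 11208919540) (nat_lit 76) (nat_lit 4071388415) (nat_lit 55) (nat_lit 5) (nat_lit 61) (nat_lit 5) (nat_lit 56) (nat_lit 5) (nat_lit 366) (nat_lit 357) (nat_lit 297))))))) (XT.nd (nat_lit 780) (nat_lit 988) (nat_lit 0) (XT.nd (nat_lit 390) (nat_lit 608) (nat_lit 0) (XT.nd (nat_lit 156) (nat_lit 380) (nat_lit 0) (XT.nd (nat_lit 78) (nat_lit 0) (nat_lit 0) (XT.lf (nat_lit 0) (nat_lit 452098785) (nat_lit 228) (nat_lit 8974000761) (nat_lit 304) (nat_lit 13380541391) (nat_lit 52) (nat_lit 5)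 (nat_lit 55) (nat_lit 5) (nat_lit 56) (nat_lit 5) (nat_lit 367) (nat_lit 357) (nat_lit 296)) (XT.lf (nat_lit 0) (nat_lit 12830255535) (nat_lit 304) (nat_lit 10177784212) (nat_lit 76) (nat_lit 814326094) (nat_lit 52) (nat_lit 5) (nat_lit 56) (nat_lit 5) (nat_lit 53) (nat_lit 5) (nat_lit 368) (nat_lit 357) (nat_lit 295))) (XT.nd (nat_lit 78) (nat_lit 152) (nat_lit 0) (XT.lf (nat_lit 0) (nat_lit 2866938657) (nat_lit 228) (nat_lit 13927620580) (nat_lit 304) (nat_lit 8101775256) (nat_lit 49) (nat_lit 5) (nat_lit 52) (nat_lit 5) (nat_lit 53) (nat_lit 5) (nat_lit 369) (nat_lit 357) (nat_lit 294)) (XT.nd (nat_lit 78) (nat_lit 152) (nat_lit 0) (XT.lf (nat_lit 0) (nat_lit 17517976043) (nat_lit 228) (nat_lit 3822751169) (nat_lit 304) (nat_lit 4694325987) (nat_lit 49) (nat_lit 5) (nat_lit 52) (nat_lit 5) (nat_lit 53) (nat_lit 5) (nat_lit 370) (nat_lit 357) (nat_lit 293)) (XT.lf (nat_lit 0) (nat_lit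 6200000111) (nat_lit 152) (nat_lit 20357615003) (nat_lit 228) (nat_lit 682701577) (nat_lit 47) (nat_lit 5) (nat_lit 49) (nat_lit 5) (nat_lit 50) (nat_lit 5) (nat_lit 371) (nat_lit 357) (nat_lit 292))))) (XT.nd (nat_lit 156) (nat_lit 304) (nat_lit 0) (XT.nd (nat_lit 78) (nat_lit 228) (nat_lit 0) (XT.lf (nat_lit 0) (nat_lit 3793116047) (nat_lit 228) (nat_lit 6153781424) (nat_lit 76) (nat_lit 18562022039) (nat_lit 46) (nat_lit 5) (nat_lit 49) (nat_lit 5) (nat_lit 47) (nat_lit 5) (nat_lit 372) (nat_lit 357) (nat_lit 291)) (XT.lf (nat_lit 0) (nat_lit 8867134870) (nat_lit 304) (nat_lit 19484675730) (nat_lit 76) (nat_lit 1503627271) (nat_lit 43) (nat_lit 5) (nat_lit 47) (nat_lit 5) (nat_lit 44) (nat_lit 5) (nat_lit 373) (nat_lit 357) (nat_lit 290))) (XT.nd (nat_lit 78) (nat_lit 304) (nat_lit 0) (XT.lf (nat_lit 0) (nat_lit 14767021402) (nat_lit 304) (nat_lit 3007042005) (nat_lit 76) (nat_lit 13502025511)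 (nat_lit 43) (nat_lit 5) (nat_lit 47) (nat_lit 5) (nat_lit 44) (nat_lit 5) (nat_lit 374) (nat_lit 357) (nat_lit 289)) (XT.nd (nat_lit 78) (nat_lit 152) (nat_lit 0) (XT.lf (nat_lit 0) (nat_lit 15552609057) (nat_lit 152) (nat_lit 5950107898) (nat_lit 228) (nat_lit 11278576051) (nat_lit 41) (nat_lit 5) (nat_lit 43) (nat_lit 5) (nat_lit 44) (nat_lit 5) (nat_lit 375) (nat_lit 357) (nat_lit 288)) (XT.lf (nat_lit 0) (nat_lit 1249534068) (nat_lit 152) (nat_lit 27796259001) (nat_lit 228) (nat_lit 5339644288) (nat_lit 39) (nat_lit 5) (nat_lit 41) (nat_lit 5) (nat_lit 42) (nat_lit 5) (nat_lit 376) (nat_lit 357) (nat_lit 287)))))) (XT.nd (nat_lit 390) (nat_lit 608) (nat_lit 0) (XT.nd (nat_lit 156) (nat_lit 152) (nat_lit 0) (XT.nd (nat_lit 78) (nat_lit 152) (nat_lit 0) (XT.lf (nat_lit 0) (nat_lit 1648747512) (nat_lit 228) (nat_lit 14101713143) (nat_lit 76) (nat_lit 20315143215) (nat_lit 38) (nat_lit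 5) (nat_lit 41) (nat_lit 5) (nat_lit 39) (nat_lit 5) (nat_lit 377) (nat_lit 357) (nat_lit 286)) (XT.lf (nat_lit 0) (nat_lit 6634826693) (nat_lit 152) (nat_lit 2423439843) (nat_lit 228) (nat_lit 28798783681) (nat_lit 36) (nat_lit 5) (nat_lit 38) (nat_lit 5) (nat_lit 39) (nat_lit 5) (nat_lit 378) (nat_lit 357) (nat_lit 285))) (XT.nd (nat_lit 78) (nat_lit 152) (nat_lit 0) (XT.lf (nat_lit 0) (nat_lit 17735208361) (nat_lit 228) (nat_lit 10240426915) (nat_lit 76) (nat_lit 11762208453) (nat_lit 36) (nat_lit 5) (nat_lit 39) (nat_lit 5) (nat_lit 37) (nat_lit 5) (nat_lit 379) (nat_lit 357) (nat_lit 284)) (XT.nd (nat_lit 78) (nat_lit 0) (nat_lit 0) (XT.lf (nat_lit 0) (nat_lit 12994174022) (nat_lit 152) (nat_lit 14479447597) (nat_lit 228) (nat_lit 14266097851) (nat_lit 34) (nat_lit 5) (nat_lit 36) (nat_lit 5) (nat_lit 37) (nat_lit 5) (nat_lit 380) (nat_lit 357) (nat_lit 283)) (XT.lf (nat_lit 0) (nat_lit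 38272741285) (nat_lit 228) (nat_lit 5232021152) (nat_lit 76) (nat_lit 374455900) (nat_lit 34) (nat_lit 5) (nat_lit 37) (nat_lit 5) (nat_lit 35) (nat_lit 4) (nat_lit 381) (nat_lit 357) (nat_lit 282))))) (XT.nd (nat_lit 234) (nat_lit 304) (nat_lit 0) (XT.nd (nat_lit 78) (nat_lit 152) (nat_lit 0) (XT.lf (nat_lit 0) (nat_lit 4450452401) (nat_lit 152) (nat_lit 25417264402) (nat_lit 76) (nat_lit 16243602390) (nat_lit 32) (nat_lit 5) (nat_lit 34) (nat_lit 5) (nat_lit 33) (nat_lit 5) (nat_lit 382) (nat_lit 357) (nat_lit 281)) (XT.nd (nat_lit 78) (nat_lit 0) (nat_lit 0) (XT.lf (nat_lit 0) (nat_lit 336595336) (nat_lit 152) (nat_lit 14820023537) (nat_lit 228) (nat_lit 33341916145) (nat_lit 30) (nat_lit 5) (nat_lit 32) (nat_lit 5) (nat_lit 33) (nat_lit 5) (nat_lit 383) (nat_lit 357) (nat_lit 280)) (XT.lf (nat_lit 0) (nat_lit 27459564441) (nat_lit 228) (nat_lit 21489613281) (nat_lit 76) (nat_lit 2068330270)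 (nat_lit 30) (nat_lit 5) (nat_lit 33) (nat_lit 5) (nat_lit 31) (nat_lit 4) (nat_lit 384) (nat_lit 357) (nat_lit 279)))) (XT.nd (nat_lit 78) (nat_lit 228) (nat_lit 0) (XT.lf (nat_lit 0) (nat_lit 7284608395) (nat_lit 76) (nat_lit 34015651964) (nat_lit 152) (nat_lit 12393459811) (nat_lit 29) (nat_lit 5) (nat_lit 30) (nat_lit 5) (nat_lit 31) (nat_lit 4) (nat_lit 385) (nat_lit 357) (nat_lit 278)) (XT.nd (nat_lit 78) (nat_lit 152) (nat_lit 0) (XT.lf (nat_lit 0) (nat_lit 277246605) (nat_lit 152) (nat_lit 16972728834) (nat_lit 76) (nat_lit 39287000975) (nat_lit 28) (nat_lit 5) (nat_lit 30) (nat_lit 5) (nat_lit 29) (nat_lit 5) (nat_lit 386) (nat_lit 357) (nat_lit 277)) (XT.lf (nat_lit 0) (nat_lit 13691090951) (nat_lit 228) (nat_lit 44342584742) (nat_lit 76) (nat_lit 1516342826) (nat_lit 26) (nat_lit 5) (nat_lit 29) (nat_lit 5) (nat_lit 27) (nat_lit 4) (nat_lit 387) (nat_lit 357) (nat_lit 276))))))))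
noncomputable def xc142 : XT := (XT.nd (nat_lit 1560) (nat_lit 608) (nat_lit 0) (XT.nd (nat_lit 780) (nat_lit 532) (nat_lit 0) (XT.nd (nat_lit 390) (nat_lit 304) (nat_lit 0) (XT.nd (nat_lit 156) (nat_lit 152) (nat_lit 0) (XT.nd (nat_lit 78) (nat_lit 76) (nat_lit 0) (XT.lf (nat_lit 0) (nat_lit 29096233166) (nat_lit 228) (nat_lit 12310492354) (nat_lit 76) (nat_lit 21323925116) (nat_lit 26) (nat_lit 5) (nat_lit 29) (nat_lit 5) (nat_lit 27) (nat_lit 4) (nat_lit 388) (nat_lit 357) (nat_lit 275)) (XT.lf (nat_lit 0) (nat_lit 23447210257) (nat_lit 76) (nat_lit 22844946269) (nat_lit 152) (nat_lit 19828908943) (nat_lit 25) (nat_lit 5) (nat_lit 26) (nat_lit 5) (nat_lit 27) (nat_lit 4) (nat_lit 389) (nat_lit 357) (nat_lit 274))) (XT.nd (nat_lit 78) (nat_lit 152) (nat_lit 0) (XT.lf (nat_lit 0) (nat_lit 62756006268) (nat_lit 76) (nat_lit 2438980419) (nat_lit 152) (nat_lit 4561229773) (nat_lit 25) (nat_lit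 5) (nat_lit 26) (nat_lit 5) (nat_lit 27) (nat_lit 4) (nat_lit 390) (nat_lit 357) (nat_lit 273)) (XT.nd (nat_lit 78) (nat_lit 0) (nat_lit 0) (XT.lf (nat_lit 0) (nat_lit 12616014530) (nat_lit 152) (nat_lit 41219785496) (nat_lit 76) (nat_lit 19720645176) (nat_lit 23) (nat_lit 5) (nat_lit 25) (nat_lit 5) (nat_lit 24) (nat_lit 4) (nat_lit 391) (nat_lit 357) (nat_lit 272)) (XT.lf (nat_lit 0) (nat_lit 31175706975) (nat_lit 152) (nat_lit 2622841720) (nat_lit 76) (nat_lit 43832291462) (nat_lit 23) (nat_lit 5) (nat_lit 25) (nat_lit 5) (nat_lit 24) (nat_lit 4) (nat_lit 392) (nat_lit 357) (nat_lit 271))))) (XT.nd (nat_lit 156) (nat_lit 152) (nat_lit 0) (XT.nd (nat_lit 78) (nat_lit 76) (nat_lit 0) (XT.lf (nat_lit 0) (nat_lit 41109766361) (nat_lit 76) (nat_lit 11094445438) (nat_lit 152) (nat_lit 29748253130) (nat_lit 22) (nat_lit 5) (nat_lit 23) (nat_lit 5) (nat_lit 24) (nat_lit 4) (nat_lit 393) (nat_lit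 357) (nat_lit 270)) (XT.lf (nat_lit 0) (nat_lit 1623920088) (nat_lit 76) (nat_lit 73722000960) (nat_lit 76) (nat_lit 11239425799) (nat_lit 21) (nat_lit 4) (nat_lit 22) (nat_lit 5) (nat_lit 22) (nat_lit 4) (nat_lit 394) (nat_lit 357) (nat_lit 269))) (XT.nd (nat_lit 78) (nat_lit 76) (nat_lit 0) (XT.lf (nat_lit 0) (nat_lit 9741696119) (nat_lit 152) (nat_lit 42225151582) (nat_lit 76) (nat_lit 39490832992) (nat_lit 20) (nat_lit 5) (nat_lit 22) (nat_lit 5) (nat_lit 21) (nat_lit 4) (nat_lit 395) (nat_lit 357) (nat_lit 268)) (XT.nd (nat_lit 78) (nat_lit 0) (nat_lit 0) (XT.lf (nat_lit 0) (nat_lit 3821242145) (nat_lit 76) (nat_lit 28060504532) (nat_lit 152) (nat_lit 64807687999) (nat_lit 19) (nat_lit 5) (nat_lit 20) (nat_lit 5) (nat_lit 21) (nat_lit 4) (nat_lit 396) (nat_lit 357) (nat_lit 267)) (XT.lf (nat_lit 0) (nat_lit 55944927464) (nat_lit 76) (nat_lit 998469667) (nat_lit 152) (nat_lit 45304300981)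 (nat_lit 19) (nat_lit 5) (nat_lit 20) (nat_lit 5) (nat_lit 21) (nat_lit 4) (nat_lit 397) (nat_lit 357) (nat_lit 266)))))) (XT.nd (nat_lit 390) (nat_lit 304) (nat_lit 0) (XT.nd (nat_lit 156) (nat_lit 76) (nat_lit 0) (XT.nd (nat_lit 78) (nat_lit 76) (nat_lit 0) (XT.lf (nat_lit 0) (nat_lit 3475394292) (nat_lit 76) (nat_lit 81293173479) (nat_lit 76) (nat_lit 23421368541) (nat_lit 18) (nat_lit 4) (nat_lit 19) (nat_lit 5) (nat_lit 19) (nat_lit 4) (nat_lit 398) (nat_lit 357) (nat_lit 265)) (XT.lf (nat_lit 0) (nat_lit 1522523648) (nat_lit 152) (nat_lit 54708565799) (nat_lit 76) (nat_lit 58270381273) (nat_lit 17) (nat_lit 5) (nat_lit 19) (nat_lit 5) (nat_lit 18) (nat_lit 4) (nat_lit 399) (nat_lit 357) (nat_lit 264))) (XT.nd (nat_lit 78) (nat_lit 76) (nat_lit 0) (XT.lf (nat_lit 0) (nat_lit 27192975141) (nat_lit 152) (nat_lit 1317369333) (nat_lit 76) (nat_lit 92759203402) (nat_lit 17) (nat_lit 5)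 (nat_lit 19) (nat_lit 5) (nat_lit 18) (nat_lit 4) (nat_lit 400) (nat_lit 357) (nat_lit 263)) (XT.nd (nat_lit 78) (nat_lit 0) (nat_lit 0) (XT.lf (nat_lit 0) (nat_lit 56411353257) (nat_lit 152) (nat_lit 69231130022) (nat_lit 0) (nat_lit 2817045233) (nat_lit 16) (nat_lit 5) (nat_lit 18) (nat_lit 4) (nat_lit 16) (nat_lit 4) (nat_lit 401) (nat_lit 357) (nat_lit 262)) (XT.lf (nat_lit 0) (nat_lit 88741384768) (nat_lit 152) (nat_lit 12276965433) (nat_lit 0) (nat_lit 35144423249) (nat_lit 16) (nat_lit 5) (nat_lit 18) (nat_lit 4) (nat_lit 16) (nat_lit 4) (nat_lit 402) (nat_lit 357) (nat_lit 261))))) (XT.nd (nat_lit 156) (nat_lit 152) (nat_lit 0) (XT.nd (nat_lit 78) (nat_lit 76) (nat_lit 0) (XT.lf (nat_lit 0) (nat_lit 51819822413) (nat_lit 76) (nat_lit 73081208754) (nat_lit 76) (nat_lit 19481790295) (nat_lit 15) (nat_lit 4) (nat_lit 16) (nat_lit 5) (nat_lit 16) (nat_lit 4) (nat_lit 403) (nat_lit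 357) (nat_lit 260)) (XT.lf (nat_lit 0) (nat_lit 10499416596) (nat_lit 152) (nat_lit 31762906882) (nat_lit 76) (nat_lit 110950269204) (nat_lit 14) (nat_lit 5) (nat_lit 16) (nat_lit 5) (nat_lit 15) (nat_lit 4) (nat_lit 404) (nat_lit 357) (nat_lit 259))) (XT.nd (nat_lit 78) (nat_lit 76) (nat_lit 0) (XT.lf (nat_lit 0) (nat_lit 35147895997) (nat_lit 76) (nat_lit 7521188536) (nat_lit 152) (nat_lit 119971780821) (nat_lit 13) (nat_lit 5) (nat_lit 14) (nat_lit 5) (nat_lit 15) (nat_lit 4) (nat_lit 405) (nat_lit 357) (nat_lit 258)) (XT.nd (nat_lit 78) (nat_lit 76) (nat_lit 0) (XT.lf (nat_lit 0) (nat_lit 79022015377) (nat_lit 152) (nat_lit 64285548190) (nat_lit 0) (nat_lit 29387061459) (nat_lit 13) (nat_lit 5) (nat_lit 15) (nat_lit 4) (nat_lit 13) (nat_lit 4) (nat_lit 406) (nat_lit 357) (nat_lit 257)) (XT.lf (nat_lit 0) (nat_lit 3976930302) (nat_lit 76) (nat_lit 114594654609) (nat_lit 76) (nat_lit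 64958028539) (nat_lit 12) (nat_lit 4) (nat_lit 13) (nat_lit 5) (nat_lit 13) (nat_lit 4) (nat_lit 407) (nat_lit 357) (nat_lit 256))))))) (XT.nd (nat_lit 780) (nat_lit 228) (nat_lit 0) (XT.nd (nat_lit 390) (nat_lit 228) (nat_lit 0) (XT.nd (nat_lit 156) (nat_lit 76) (nat_lit 0) (XT.nd (nat_lit 78) (nat_lit 76) (nat_lit 0) (XT.lf (nat_lit 0) (nat_lit 81351389874) (nat_lit 76) (nat_lit 81688886606) (nat_lit 76) (nat_lit 32050712246) (nat_lit 12) (nat_lit 4) (nat_lit 13) (nat_lit 5) (nat_lit 13) (nat_lit 4) (nat_lit 408) (nat_lit 357) (nat_lit 255)) (XT.lf (nat_lit 0) (nat_lit 3312247644) (nat_lit 152) (nat_lit 42750132859) (nat_lit 76) (nat_lit 161508372434) (nat_lit 11) (nat_lit 5) (nat_lit 13) (nat_lit 5) (nat_lit 12) (nat_lit 4) (nat_lit 409) (nat_lit 357) (nat_lit 254))) (XT.nd (nat_lit 78) (nat_lit 0) (nat_lit 0) (XT.lf (nat_lit 0) (nat_lit 34823625033) (nat_lit 76) (nat_lit 5784336698)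 (nat_lit 152) (nat_lit 180307514836) (nat_lit 10) (nat_lit 5) (nat_lit 11) (nat_lit 5) (nat_lit 12) (nat_lit 4) (nat_lit 410) (nat_lit 357) (nat_lit 253)) (XT.nd (nat_lit 78) (nat_lit 0) (nat_lit 0) (XT.lf (nat_lit 0) (nat_lit 82991416534) (nat_lit 152) (nat_lit 115141585633) (nat_lit 0) (nat_lit 37026449450) (nat_lit 10) (nat_lit 5) (nat_lit 12) (nat_lit 4) (nat_lit 10) (nat_lit 4) (nat_lit 411) (nat_lit 357) (nat_lit 252)) (XT.lf (nat_lit 0) (nat_lit 128913743530) (nat_lit 152) (nat_lit 38669622969) (nat_lit 0) (nat_lit 82947722707) (nat_lit 10) (nat_lit 5) (nat_lit 12) (nat_lit 4) (nat_lit 10) (nat_lit 4) (nat_lit 412) (nat_lit 357) (nat_lit 251))))) (XT.nd (nat_lit 156) (nat_lit 152) (nat_lit 0) (XT.nd (nat_lit 78) (nat_lit 0) (nat_lit 0) (XT.lf (nat_lit 0) (nat_lit 46228872512) (nat_lit 76) (nat_lit 133390894576) (nat_lit 76) (nat_lit 87423898069) (nat_lit 9) (nat_lit 4) (nat_lit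 10) (nat_lit 5) (nat_lit 10) (nat_lit 4) (nat_lit 413) (nat_lit 357) (nat_lit 250)) (XT.lf (nat_lit 0) (nat_lit 140114739415) (nat_lit 76) (nat_lit 95322985822) (nat_lit 76) (nat_lit 49355085902) (nat_lit 9) (nat_lit 4) (nat_lit 10) (nat_lit 5) (nat_lit 10) (nat_lit 4) (nat_lit 414) (nat_lit 357) (nat_lit 249))) (XT.nd (nat_lit 78) (nat_lit 152) (nat_lit 0) (XT.lf (nat_lit 0) (nat_lit 241508064615) (nat_lit 76) (nat_lit 54211348649) (nat_lit 76) (nat_lit 8242612237) (nat_lit 9) (nat_lit 4) (nat_lit 10) (nat_lit 5) (nat_lit 10) (nat_lit 4) (nat_lit 415) (nat_lit 357) (nat_lit 248)) (XT.nd (nat_lit 78) (nat_lit 0) (nat_lit 0) (XT.lf (nat_lit 0) (nat_lit 26816693068) (nat_lit 76) (nat_lit 8176674244) (nat_lit 152) (nat_lit 289550374475) (nat_lit 7) (nat_lit 5) (nat_lit 8) (nat_lit 5) (nat_lit 9) (nat_lit 4) (nat_lit 416) (nat_lit 357) (nat_lit 247)) (XT.lf (nat_lit 0) (nat_lit 83992306390)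 (nat_lit 152) (nat_lit 221115329527) (nat_lit 0) (nat_lit 41427280373) (nat_lit 7) (nat_lit 5) (nat_lit 9) (nat_lit 4) (nat_lit 7) (nat_lit 4) (nat_lit 417) (nat_lit 357) (nat_lit 246)))))) (XT.nd (nat_lit 390) (nat_lit 152) (nat_lit 0) (XT.nd (nat_lit 156) (nat_lit 76) (nat_lit 0) (XT.nd (nat_lit 78) (nat_lit 0) (nat_lit 0) (XT.lf (nat_lit 0) (nat_lit 137122045852) (nat_lit 152) (nat_lit 138590063212) (nat_lit 0) (nat_lit 94556404987) (nat_lit 7) (nat_lit 5) (nat_lit 9) (nat_lit 4) (nat_lit 7) (nat_lit 4) (nat_lit 418) (nat_lit 357) (nat_lit 245)) (XT.lf (nat_lit 0) (nat_lit 194500779384) (nat_lit 152) (nat_lit 49465561947) (nat_lit 0) (nat_lit 151934569217) (nat_lit 7) (nat_lit 5) (nat_lit 9) (nat_lit 4) (nat_lit 7) (nat_lit 4) (nat_lit 419) (nat_lit 357) (nat_lit 244))) (XT.nd (nat_lit 78) (nat_lit 0) (nat_lit 0) (XT.lf (nat_lit 0) (nat_lit 49250004130) (nat_lit 76) (nat_lit 208402988765)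 (nat_lit 76) (nat_lit 165836251466) (nat_lit 6) (nat_lit 4) (nat_lit 7) (nat_lit 5) (nat_lit 7) (nat_lit 4) (nat_lit 420) (nat_lit 357) (nat_lit 243)) (XT.nd (nat_lit 78) (nat_lit 0) (nat_lit 0) (XT.lf (nat_lit 0) (nat_lit 158673451190) (nat_lit 76) (nat_lit 168535160457) (nat_lit 76) (nat_lit 125967935073) (nat_lit 6) (nat_lit 4) (nat_lit 7) (nat_lit 5) (nat_lit 7) (nat_lit 4) (nat_lit 421) (nat_lit 357) (nat_lit 242)) (XT.lf (nat_lit 0) (nat_lit 276848445642) (nat_lit 76) (nat_lit 125479078734) (nat_lit 76) (nat_lit 82911401419) (nat_lit 6) (nat_lit 4) (nat_lit 7) (nat_lit 5) (nat_lit 7) (nat_lit 4) (nat_lit 422) (nat_lit 357) (nat_lit 241))))) (XT.nd (nat_lit 234) (nat_lit 0) (nat_lit 0) (XT.nd (nat_lit 78) (nat_lit 152) (nat_lit 0) (XT.lf (nat_lit 0) (nat_lit 404475283749) (nat_lit 76) (nat_lit 78979596445) (nat_lit 76) (nat_lit 36411500675) (nat_lit 6) (nat_lit 4) (nat_lit 7) (nat_lit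 5) (nat_lit 7) (nat_lit 4) (nat_lit 423) (nat_lit 357) (nat_lit 240)) (XT.nd (nat_lit 78) (nat_lit 76) (nat_lit 0) (XT.lf (nat_lit 0) (nat_lit 13116623951) (nat_lit 152) (nat_lit 15285905408) (nat_lit 76) (nat_lit 528835017005) (nat_lit 5) (nat_lit 5) (nat_lit 7) (nat_lit 5) (nat_lit 6) (nat_lit 4) (nat_lit 424) (nat_lit 357) (nat_lit 239)) (XT.lf (nat_lit 0) (nat_lit 67680535942) (nat_lit 152) (nat_lit 501334011112) (nat_lit 0) (nat_lit 28264941511) (nat_lit 4) (nat_lit 5) (nat_lit 6) (nat_lit 4) (nat_lit 4) (nat_lit 4) (nat_lit 425) (nat_lit 357) (nat_lit 238)))) (XT.nd (nat_lit 78) (nat_lit 0) (nat_lit 0) (XT.lf (nat_lit 0) (nat_lit 127775149935) (nat_lit 152) (nat_lit 424297141216) (nat_lit 0) (nat_lit 88359247928) (nat_lit 4) (nat_lit 5) (nat_lit 6) (nat_lit 4) (nat_lit 4) (nat_lit 4) (nat_lit 426) (nat_lit 357) (nat_lit 237)) (XT.nd (nat_lit 78) (nat_lit 0) (nat_lit 0) (XT.lf (nat_lit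 0) (nat_lit 192676464142) (nat_lit 152) (nat_lit 341099081714) (nat_lit 0) (nat_lit 153260277342) (nat_lit 4) (nat_lit 5) (nat_lit 6) (nat_lit 4) (nat_lit 4) (nat_lit 4) (nat_lit 427) (nat_lit 357) (nat_lit 236)) (XT.lf (nat_lit 0) (nat_lit 262769078945) (nat_lit 152) (nat_lit 251246807069) (nat_lit 0) (nat_lit 223352628447) (nat_lit 4) (nat_lit 5) (nat_lit 6) (nat_lit 4) (nat_lit 4) (nat_lit 4) (nat_lit 428) (nat_lit 357) (nat_lit 235))))))))
noncomputable def xc143 : XT := (XT.nd (nat_lit 1638) (nat_lit 0) (nat_lit 0) (XT.nd (nat_lit 780) (nat_lit 152) (nat_lit 0) (XT.nd (nat_lit 390) (nat_lit 0) (nat_lit 0) (XT.nd (nat_lit 156) (nat_lit 76) (nat_lit 0) (XT.nd (nat_lit 78) (nat_lit 0) (nat_lit 0) (XT.lf (nat_lit 0) (nat_lit 338468357986) (nat_lit 152) (nat_lit 154207859358) (nat_lit 0) (nat_lit 299051663324) (nat_lit 4) (nat_lit 5) (nat_lit 6) (nat_lit 4) (nat_lit 4) (nat_lit 4) (nat_lit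 429) (nat_lit 357) (nat_lit 234)) (XT.lf (nat_lit 0) (nat_lit 420222889585) (nat_lit 152) (nat_lit 49407192964) (nat_lit 0) (nat_lit 380805968846) (nat_lit 4) (nat_lit 5) (nat_lit 6) (nat_lit 4) (nat_lit 4) (nat_lit 4) (nat_lit 430) (nat_lit 357) (nat_lit 233))) (XT.nd (nat_lit 78) (nat_lit 0) (nat_lit 0) (XT.lf (nat_lit 0) (nat_lit 67134576512) (nat_lit 76) (nat_lit 442997156709) (nat_lit 76) (nat_lit 403580026638) (nat_lit 3) (nat_lit 4) (nat_lit 4) (nat_lit 5) (nat_lit 4) (nat_lit 4) (nat_lit 431) (nat_lit 357) (nat_lit 232)) (XT.nd (nat_lit 78) (nat_lit 0) (nat_lit 0) (XT.lf (nat_lit 0) (nat_lit 195808257498) (nat_lit 76) (nat_lit 412775285377) (nat_lit 76) (nat_lit 373357961481) (nat_lit 3) (nat_lit 4) (nat_lit 4) (nat_lit 5) (nat_lit 4) (nat_lit 4) (nat_lit 432) (nat_lit 357) (nat_lit 231)) (XT.lf (nat_lit 0) (nat_lit 334774665469) (nat_lit 76) (nat_lit 380136256196) (nat_lit 76)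 (nat_lit 340718752832) (nat_lit 3) (nat_lit 4) (nat_lit 4) (nat_lit 5) (nat_lit 4) (nat_lit 4) (nat_lit 433) (nat_lit 357) (nat_lit 230))))) (XT.nd (nat_lit 156) (nat_lit 0) (nat_lit 0) (XT.nd (nat_lit 78) (nat_lit 0) (nat_lit 0) (XT.lf (nat_lit 0) (nat_lit 484857305066) (nat_lit 76) (nat_lit 344886652696) (nat_lit 76) (nat_lit 305468983158) (nat_lit 3) (nat_lit 4) (nat_lit 4) (nat_lit 5) (nat_lit 4) (nat_lit 4) (nat_lit 434) (nat_lit 357) (nat_lit 229)) (XT.lf (nat_lit 0) (nat_lit 646945554895) (nat_lit 76) (nat_lit 306817588339) (nat_lit 76) (nat_lit 267399764936) (nat_lit 3) (nat_lit 4) (nat_lit 4) (nat_lit 5) (nat_lit 4) (nat_lit 4) (nat_lit 435) (nat_lit 357) (nat_lit 228))) (XT.nd (nat_lit 78) (nat_lit 0) (nat_lit 0) (XT.lf (nat_lit 0) (nat_lit 821999937916) (nat_lit 76) (nat_lit 265703468668) (nat_lit 76) (nat_lit 226285502797) (nat_lit 3) (nat_lit 4) (nat_lit 4) (nat_lit 5) (nat_lit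 4) (nat_lit 4) (nat_lit 436) (nat_lit 357) (nat_lit 227)) (XT.nd (nat_lit 78) (nat_lit 0) (nat_lit 0) (XT.lf (nat_lit 0) (nat_lit 1011057813436) (nat_lit 76) (nat_lit 221300654456) (nat_lit 76) (nat_lit 181882556671) (nat_lit 3) (nat_lit 4) (nat_lit 4) (nat_lit 5) (nat_lit 4) (nat_lit 4) (nat_lit 437) (nat_lit 357) (nat_lit 226)) (XT.lf (nat_lit 0) (nat_lit 1215239524423) (nat_lit 76) (nat_lit 173346017915) (nat_lit 76) (nat_lit 133927797988) (nat_lit 3) (nat_lit 4) (nat_lit 4) (nat_lit 5) (nat_lit 4) (nat_lit 4) (nat_lit 438) (nat_lit 357) (nat_lit 225)))))) (XT.nd (nat_lit 390) (nat_lit 0) (nat_lit 0) (XT.nd (nat_lit 156) (nat_lit 152) (nat_lit 0) (XT.nd (nat_lit 78) (nat_lit 0) (nat_lit 0) (XT.lf (nat_lit 0) (nat_lit 1435755036570) (nat_lit 76) (nat_lit 121555383421) (nat_lit 76) (nat_lit 82137050399) (nat_lit 3) (nat_lit 4) (nat_lit 4) (nat_lit 5) (nat_lit 4) (nat_lit 4) (nat_lit 439)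 (nat_lit 357) (nat_lit 224)) (XT.lf (nat_lit 0) (nat_lit 1673911108467) (nat_lit 76) (nat_lit 65621843511) (nat_lit 76) (nat_lit 26203405771) (nat_lit 3) (nat_lit 4) (nat_lit 4) (nat_lit 5) (nat_lit 4) (nat_lit 4) (nat_lit 440) (nat_lit 357) (nat_lit 223))) (XT.nd (nat_lit 78) (nat_lit 0) (nat_lit 0) (XT.lf (nat_lit 0) (nat_lit 29651311740) (nat_lit 76) (nat_lit 3555345202) (nat_lit 152) (nat_lit 1868798865167) (nat_lit 1) (nat_lit 5) (nat_lit 2) (nat_lit 5) (nat_lit 3) (nat_lit 4) (nat_lit 441) (nat_lit 357) (nat_lit 222)) (XT.nd (nat_lit 78) (nat_lit 0) (nat_lit 0) (XT.lf (nat_lit 0) (nat_lit 100056029633) (nat_lit 152) (nat_lit 1885180264544) (nat_lit 0) (nat_lit 63557303263) (nat_lit 1) (nat_lit 5) (nat_lit 3) (nat_lit 4) (nat_lit 1) (nat_lit 4) (nat_lit 442) (nat_lit 357) (nat_lit 221)) (XT.lf (nat_lit 0) (nat_lit 172345404002) (nat_lit 152) (nat_lit 1899125350000) (nat_lit 0) (nat_lit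 135846600661) (nat_lit 1) (nat_lit 5) (nat_lit 3) (nat_lit 4) (nat_lit 1) (nat_lit 4) (nat_lit 443) (nat_lit 357) (nat_lit 220))))) (XT.nd (nat_lit 234) (nat_lit 0) (nat_lit 0) (XT.nd (nat_lit 78) (nat_lit 0) (nat_lit 0) (XT.lf (nat_lit 0) (nat_lit 250417655391) (nat_lit 152) (nat_lit 1914186598141) (nat_lit 0) (nat_lit 213918780780) (nat_lit 1) (nat_lit 5) (nat_lit 3) (nat_lit 4) (nat_lit 1) (nat_lit 4) (nat_lit 444) (nat_lit 357) (nat_lit 219)) (XT.nd (nat_lit 78) (nat_lit 0) (nat_lit 0) (XT.lf (nat_lit 0) (nat_lit 334735434177) (nat_lit 152) (nat_lit 1930453260809) (nat_lit 0) (nat_lit 298236493577) (nat_lit 1) (nat_lit 5) (nat_lit 3) (nat_lit 4) (nat_lit 1) (nat_lit 4) (nat_lit 445) (nat_lit 357) (nat_lit 218)) (XT.lf (nat_lit 0) (nat_lit 425798401272) (nat_lit 152) (nat_lit 1948021733043) (nat_lit 0) (nat_lit 389299399570) (nat_lit 1) (nat_lit 5) (nat_lit 3) (nat_lit 4) (nat_lit 1)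 (nat_lit 4) (nat_lit 446) (nat_lit 357) (nat_lit 217)))) (XT.nd (nat_lit 78) (nat_lit 0) (nat_lit 0) (XT.lf (nat_lit 0) (nat_lit 524146189074) (nat_lit 152) (nat_lit 1966996124307) (nat_lit 0) (nat_lit 487647130796) (nat_lit 1) (nat_lit 5) (nat_lit 3) (nat_lit 4) (nat_lit 1) (nat_lit 4) (nat_lit 447) (nat_lit 357) (nat_lit 216)) (XT.nd (nat_lit 78) (nat_lit 0) (nat_lit 0) (XT.lf (nat_lit 0) (nat_lit 630361599287) (nat_lit 152) (nat_lit 1987488875438) (nat_lit 0) (nat_lit 593862488624) (nat_lit 1) (nat_lit 5) (nat_lit 3) (nat_lit 4) (nat_lit 1) (nat_lit 4) (nat_lit 448) (nat_lit 357) (nat_lit 215)) (XT.lf (nat_lit 0) (nat_lit 745074056566) (nat_lit 152) (nat_lit 2009621424961) (nat_lit 0) (nat_lit 708574897399) (nat_lit 1) (nat_lit 5) (nat_lit 3) (nat_lit 4) (nat_lit 1) (nat_lit 4) (nat_lit 449) (nat_lit 357) (nat_lit 214))))))) (XT.nd (nat_lit 780) (nat_lit 0) (nat_lit 0) (XT.nd (nat_lit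 390) (nat_lit 0) (nat_lit 0) (XT.nd (nat_lit 156) (nat_lit 0) (nat_lit 0) (XT.nd (nat_lit 78) (nat_lit 0) (nat_lit 0) (XT.lf (nat_lit 0) (nat_lit 868963338435) (nat_lit 152) (nat_lit 2033524928726) (nat_lit 0) (nat_lit 832464134356) (nat_lit 1) (nat_lit 5) (nat_lit 3) (nat_lit 4) (nat_lit 1) (nat_lit 4) (nat_lit 450) (nat_lit 357) (nat_lit 213)) (XT.lf (nat_lit 0) (nat_lit 1002763603601) (nat_lit 152) (nat_lit 2059341037125) (nat_lit 0) (nat_lit 966264357937) (nat_lit 1) (nat_lit 5) (nat_lit 3) (nat_lit 4) (nat_lit 1) (nat_lit 4) (nat_lit 451) (nat_lit 357) (nat_lit 212))) (XT.nd (nat_lit 78) (nat_lit 0) (nat_lit 0) (XT.lf (nat_lit 0) (nat_lit 1147267742524) (nat_lit 152) (nat_lit 2087222734504) (nat_lit 0) (nat_lit 1110768458356) (nat_lit 1) (nat_lit 5) (nat_lit 3) (nat_lit 4) (nat_lit 1) (nat_lit 4) (nat_lit 452) (nat_lit 357) (nat_lit 211)) (XT.nd (nat_lit 78) (nat_lit 0) (nat_lit 0)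 (XT.lf (nat_lit 0) (nat_lit 1303332076028) (nat_lit 152) (nat_lit 2117335245737) (nat_lit 0) (nat_lit 1266832756207) (nat_lit 1) (nat_lit 5) (nat_lit 3) (nat_lit 4) (nat_lit 1) (nat_lit 4) (nat_lit 453) (nat_lit 357) (nat_lit 210)) (XT.lf (nat_lit 0) (nat_lit 1471881429793) (nat_lit 152) (nat_lit 2149857015334) (nat_lit 0) (nat_lit 1435382076961) (nat_lit 1) (nat_lit 5) (nat_lit 3) (nat_lit 4) (nat_lit 1) (nat_lit 4) (nat_lit 454) (nat_lit 357) (nat_lit 209))))) (XT.nd (nat_lit 156) (nat_lit 0) (nat_lit 0) (XT.nd (nat_lit 78) (nat_lit 0) (nat_lit 0) (XT.lf (nat_lit 0) (nat_lit 1653914614804) (nat_lit 152) (nat_lit 2184980764894) (nat_lit 0) (nat_lit 1617415231405) (nat_lit 1) (nat_lit 5) (nat_lit 3) (nat_lit 4) (nat_lit 1) (nat_lit 4) (nat_lit 455) (nat_lit 357) (nat_lit 208)) (XT.lf (nat_lit 0) (nat_lit 1850510346231) (nat_lit 152) (nat_lit 2222914635154) (nat_lit 0) (nat_lit 1814010934531)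 (nat_lit 1) (nat_lit 5) (nat_lit 3) (nat_lit 4) (nat_lit 1) (nat_lit 4) (nat_lit 456) (nat_lit 357) (nat_lit 207))) (XT.nd (nat_lit 78) (nat_lit 0) (nat_lit 0) (XT.lf (nat_lit 0) (nat_lit 2062833635816) (nat_lit 152) (nat_lit 2263883419420) (nat_lit 0) (nat_lit 2026334197910) (nat_lit 1) (nat_lit 5) (nat_lit 3) (nat_lit 4) (nat_lit 1) (nat_lit 4) (nat_lit 457) (nat_lit 357) (nat_lit 206)) (XT.nd (nat_lit 78) (nat_lit 0) (nat_lit 0) (XT.lf (nat_lit 0) (nat_lit 2292142695646) (nat_lit 152) (nat_lit 2308129895672) (nat_lit 0) (nat_lit 2255643233476) (nat_lit 1) (nat_lit 5) (nat_lit 3) (nat_lit 4) (nat_lit 1) (nat_lit 4) (nat_lit 458) (nat_lit 357) (nat_lit 205)) (XT.lf (nat_lit 0) (nat_lit 2539796394224) (nat_lit 152) (nat_lit 2355916265251) (nat_lit 0) (nat_lit 2503296909586) (nat_lit 1) (nat_lit 5) (nat_lit 3) (nat_lit 4) (nat_lit 1) (nat_lit 4) (nat_lit 459) (nat_lit 357) (nat_lit 204))))))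 (XT.nd (nat_lit 45396) (nat_lit 0) (nat_lit 4408) (XT.nd (nat_lit 45162) (nat_lit 0) (nat_lit 4788) (XT.nd (nat_lit 78) (nat_lit 0) (nat_lit 0) (XT.lf (nat_lit 0) (nat_lit 2807262309022) (nat_lit 152) (nat_lit 2407525706644) (nat_lit 0) (nat_lit 2770762803581) (nat_lit 1) (nat_lit 5) (nat_lit 3) (nat_lit 4) (nat_lit 1) (nat_lit 4) (nat_lit 460) (nat_lit 357) (nat_lit 203)) (XT.lf (nat_lit 0) (nat_lit 3096125423239) (nat_lit 152) (nat_lit 2463264053577) (nat_lit 0) (nat_lit 3059625898536) (nat_lit 1) (nat_lit 5) (nat_lit 3) (nat_lit 4) (nat_lit 1) (nat_lit 4) (nat_lit 461) (nat_lit 357) (nat_lit 202))) (XT.nd (nat_lit 78) (nat_lit 0) (nat_lit 0) (XT.lf (nat_lit 0) (nat_lit 6150042824) (nat_lit 532) (nat_lit 1029056184) (nat_lit 532) (nat_lit 1029056184) (nat_lit 64) (nat_lit 3) (nat_lit 71) (nat_lit 3) (nat_lit 71) (nat_lit 5) (nat_lit 358) (nat_lit 358) (nat_lit 304)) (XT.nd (nat_lit 78)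 (nat_lit 0) (nat_lit 76) (XT.lf (nat_lit 76) (nat_lit 6233990848) (nat_lit 0) (nat_lit 6939823282) (nat_lit 532) (nat_lit 3868391408) (nat_lit 65) (nat_lit 5) (nat_lit 64) (nat_lit 3) (nat_lit 71) (nat_lit 5) (nat_lit 359) (nat_lit 358) (nat_lit 303)) (XT.lf (nat_lit 0) (nat_lit 14177696938) (nat_lit 456) (nat_lit 2449749990) (nat_lit 532) (nat_lit 1085926824) (nat_lit 65) (nat_lit 5) (nat_lit 71) (nat_lit 5) (nat_lit 72) (nat_lit 5) (nat_lit 360) (nat_lit 358) (nat_lit 302))))) (XT.nd (nat_lit 234) (nat_lit 456) (nat_lit 0) (XT.nd (nat_lit 78) (nat_lit 0) (nat_lit 0) (XT.lf (nat_lit 76) (nat_lit 6719042372) (nat_lit 0) (nat_lit 8863159098) (nat_lit 532) (nat_lit 2830429377) (nat_lit 66) (nat_lit 5) (nat_lit 65) (nat_lit 5) (nat_lit 72) (nat_lit 5) (nat_lit 361) (nat_lit 358) (nat_lit 301)) (XT.nd (nat_lit 78) (nat_lit 0) (nat_lit 76) (XT.lf (nat_lit 76) (nat_lit 16746809202) (nat_lit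 0) (nat_lit 398962783) (nat_lit 532) (nat_lit 2018338883) (nat_lit 66) (nat_lit 5) (nat_lit 65) (nat_lit 5) (nat_lit 72) (nat_lit 5) (nat_lit 362) (nat_lit 358) (nat_lit 300)) (XT.lf (nat_lit 76) (nat_lit 7764774424) (nat_lit 0) (nat_lit 11448020985) (nat_lit 532) (nat_lit 732661915) (nat_lit 67) (nat_lit 5) (nat_lit 66) (nat_lit 5) (nat_lit 73) (nat_lit 5) (nat_lit 363) (nat_lit 358) (nat_lit 299)))) (XT.nd (nat_lit 78) (nat_lit 0) (nat_lit 76) (XT.lf (nat_lit 0) (nat_lit 683170995) (nat_lit 532) (nat_lit 1928070645) (nat_lit 608) (nat_lit 18172014009) (nat_lit 59) (nat_lit 5) (nat_lit 66) (nat_lit 5) (nat_lit 67) (nat_lit 5) (nat_lit 364) (nat_lit 358) (nat_lit 298)) (XT.nd (nat_lit 78) (nat_lit 0) (nat_lit 0) (XT.lf (nat_lit 0) (nat_lit 2559919825) (nat_lit 532) (nat_lit 12251169191) (nat_lit 76) (nat_lit 6844501670) (nat_lit 60) (nat_lit 5) (nat_lit 67) (nat_lit 5) (nat_lit 61) (nat_lit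 5) (nat_lit 365) (nat_lit 358) (nat_lit 297)) (XT.lf (nat_lit 0) (nat_lit 4692959672) (nat_lit 532) (nat_lit 924468798) (nat_lit 76) (nat_lit 16971804767) (nat_lit 60) (nat_lit 5) (nat_lit 67) (nat_lit 5) (nat_lit 61) (nat_lit 5) (nat_lit 366) (nat_lit 358) (nat_lit 296))))))))
noncomputable def xc144 : XT := (XT.nd (nat_lit 1560) (nat_lit 1216) (nat_lit 0) (XT.nd (nat_lit 780) (nat_lit 912) (nat_lit 0) (XT.nd (nat_lit 390) (nat_lit 608) (nat_lit 0) (XT.nd (nat_lit 156) (nat_lit 228) (nat_lit 0) (XT.nd (nat_lit 78) (nat_lit 228) (nat_lit 0) (XT.lf (nat_lit 0) (nat_lit 7379130271) (nat_lit 456) (nat_lit 11797733043) (nat_lit 76) (nat_lit 4390116724) (nat_lit 55) (nat_lit 5) (nat_lit 61) (nat_lit 5) (nat_lit 56) (nat_lit 5) (nat_lit 367) (nat_lit 358) (nat_lit 295)) (XT.lf (nat_lit 0) (nat_lit 788371810) (nat_lit 228) (nat_lit 9668796269) (nat_lit 304) (nat_lit 14151631594) (nat_lit 52)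 (nat_lit 5) (nat_lit 55) (nat_lit 5) (nat_lit 56) (nat_lit 5) (nat_lit 368) (nat_lit 358) (nat_lit 294))) (XT.nd (nat_lit 78) (nat_lit 228) (nat_lit 0) (XT.lf (nat_lit 0) (nat_lit 14113654418) (nat_lit 304) (nat_lit 10693931471) (nat_lit 76) (nat_lit 899812709) (nat_lit 52) (nat_lit 5) (nat_lit 56) (nat_lit 5) (nat_lit 53) (nat_lit 5) (nat_lit 369) (nat_lit 358) (nat_lit 293)) (XT.nd (nat_lit 78) (nat_lit 0) (nat_lit 0) (XT.lf (nat_lit 0) (nat_lit 3386823013) (nat_lit 228) (nat_lit 14996231199) (nat_lit 304) (nat_lit 8485209070) (nat_lit 49) (nat_lit 5) (nat_lit 52) (nat_lit 5) (nat_lit 53) (nat_lit 5) (nat_lit 370) (nat_lit 358) (nat_lit 292)) (XT.lf (nat_lit 0) (nat_lit 19188422704) (nat_lit 228) (nat_lit 4086349941) (nat_lit 304) (nat_lit 4824771875) (nat_lit 49) (nat_lit 5) (nat_lit 52) (nat_lit 5) (nat_lit 53) (nat_lit 5) (nat_lit 371) (nat_lit 358) (nat_lit 291))))) (XT.nd (nat_lit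 156) (nat_lit 380) (nat_lit 0) (XT.nd (nat_lit 78) (nat_lit 76) (nat_lit 0) (XT.lf (nat_lit 0) (nat_lit 6975057954) (nat_lit 152) (nat_lit 21924806124) (nat_lit 228) (nat_lit 502109403) (nat_lit 47) (nat_lit 5) (nat_lit 49) (nat_lit 5) (nat_lit 50) (nat_lit 5) (nat_lit 372) (nat_lit 358) (nat_lit 290)) (XT.lf (nat_lit 0) (nat_lit 4303456284) (nat_lit 228) (nat_lit 6376667628) (nat_lit 76) (nat_lit 20092822967) (nat_lit 46) (nat_lit 5) (nat_lit 49) (nat_lit 5) (nat_lit 47) (nat_lit 5) (nat_lit 373) (nat_lit 358) (nat_lit 289))) (XT.nd (nat_lit 78) (nat_lit 152) (nat_lit 0) (XT.lf (nat_lit 0) (nat_lit 9775943174) (nat_lit 304) (nat_lit 20766455118) (nat_lit 76) (nat_lit 1685394685) (nat_lit 43) (nat_lit 5) (nat_lit 47) (nat_lit 5) (nat_lit 44) (nat_lit 5) (nat_lit 374) (nat_lit 358) (nat_lit 288)) (XT.nd (nat_lit 78) (nat_lit 152) (nat_lit 0) (XT.lf (nat_lit 0) (nat_lit 16133047479) (nat_lit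 304) (nat_lit 2991128819) (nat_lit 76) (nat_lit 14639110916) (nat_lit 43) (nat_lit 5) (nat_lit 47) (nat_lit 5) (nat_lit 44) (nat_lit 5) (nat_lit 375) (nat_lit 358) (nat_lit 287)) (XT.lf (nat_lit 0) (nat_lit 17046801251) (nat_lit 152) (nat_lit 6353130692) (nat_lit 228) (nat_lit 11989597593) (nat_lit 41) (nat_lit 5) (nat_lit 43) (nat_lit 5) (nat_lit 44) (nat_lit 5) (nat_lit 376) (nat_lit 358) (nat_lit 286)))))) (XT.nd (nat_lit 390) (nat_lit 380) (nat_lit 0) (XT.nd (nat_lit 156) (nat_lit 304) (nat_lit 0) (XT.nd (nat_lit 78) (nat_lit 76) (nat_lit 0) (XT.lf (nat_lit 0) (nat_lit 1605346418) (nat_lit 152) (nat_lit 29935775269) (nat_lit 228) (nat_lit 5581318276) (nat_lit 39) (nat_lit 5) (nat_lit 41) (nat_lit 5) (nat_lit 42) (nat_lit 5) (nat_lit 377) (nat_lit 358) (nat_lit 285)) (XT.lf (nat_lit 0) (nat_lit 1943812328) (nat_lit 228) (nat_lit 14984275393) (nat_lit 76) (nat_lit 22009626237) (nat_lit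 38) (nat_lit 5) (nat_lit 41) (nat_lit 5) (nat_lit 39) (nat_lit 5) (nat_lit 378) (nat_lit 358) (nat_lit 284))) (XT.nd (nat_lit 78) (nat_lit 152) (nat_lit 0) (XT.lf (nat_lit 0) (nat_lit 7404970547) (nat_lit 152) (nat_lit 2534792589) (nat_lit 228) (nat_lit 30933225555) (nat_lit 36) (nat_lit 5) (nat_lit 38) (nat_lit 5) (nat_lit 39) (nat_lit 5) (nat_lit 379) (nat_lit 358) (nat_lit 283)) (XT.nd (nat_lit 78) (nat_lit 152) (nat_lit 0) (XT.lf (nat_lit 0) (nat_lit 19301080532) (nat_lit 228) (nat_lit 10828180888) (nat_lit 76) (nat_lit 12775772477) (nat_lit 36) (nat_lit 5) (nat_lit 39) (nat_lit 5) (nat_lit 37) (nat_lit 5) (nat_lit 380) (nat_lit 358) (nat_lit 282)) (XT.lf (nat_lit 0) (nat_lit 14259327867) (nat_lit 152) (nat_lit 15553772149) (nat_lit 228) (nat_lit 15254402427) (nat_lit 34) (nat_lit 5) (nat_lit 36) (nat_lit 5) (nat_lit 37) (nat_lit 5) (nat_lit 381) (nat_lit 358) (nat_lit 281))))) (XT.nd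 (nat_lit 156) (nat_lit 228) (nat_lit 0) (XT.nd (nat_lit 78) (nat_lit 152) (nat_lit 0) (XT.lf (nat_lit 0) (nat_lit 41467532459) (nat_lit 228) (nat_lit 5432996220) (nat_lit 76) (nat_lit 478326883) (nat_lit 34) (nat_lit 5) (nat_lit 37) (nat_lit 5) (nat_lit 35) (nat_lit 4) (nat_lit 382) (nat_lit 358) (nat_lit 280)) (XT.lf (nat_lit 0) (nat_lit 4938096604) (nat_lit 152) (nat_lit 27231583631) (nat_lit 76) (nat_lit 17619962276) (nat_lit 32) (nat_lit 5) (nat_lit 34) (nat_lit 5) (nat_lit 33) (nat_lit 5) (nat_lit 383) (nat_lit 358) (nat_lit 279))) (XT.nd (nat_lit 78) (nat_lit 76) (nat_lit 0) (XT.lf (nat_lit 0) (nat_lit 577039015) (nat_lit 152) (nat_lit 15919103703) (nat_lit 228) (nat_lit 35872065945) (nat_lit 30) (nat_lit 5) (nat_lit 32) (nat_lit 5) (nat_lit 33) (nat_lit 5) (nat_lit 384) (nat_lit 358) (nat_lit 278)) (XT.nd (nat_lit 78) (nat_lit 76) (nat_lit 0) (XT.lf (nat_lit 0) (nat_lit 29775843657)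 (nat_lit 228) (nat_lit 23003556086) (nat_lit 76) (nat_lit 2309901830) (nat_lit 30) (nat_lit 5) (nat_lit 33) (nat_lit 5) (nat_lit 31) (nat_lit 4) (nat_lit 385) (nat_lit 358) (nat_lit 277)) (XT.lf (nat_lit 0) (nat_lit 8067407722) (nat_lit 76) (nat_lit 36652345375) (nat_lit 152) (nat_lit 13260184403) (nat_lit 29) (nat_lit 5) (nat_lit 30) (nat_lit 5) (nat_lit 31) (nat_lit 4) (nat_lit 386) (nat_lit 358) (nat_lit 276))))))) (XT.nd (nat_lit 780) (nat_lit 532) (nat_lit 0) (XT.nd (nat_lit 390) (nat_lit 380) (nat_lit 0) (XT.nd (nat_lit 156) (nat_lit 76) (nat_lit 0) (XT.nd (nat_lit 78) (nat_lit 152) (nat_lit 0) (XT.lf (nat_lit 0) (nat_lit 409159280) (nat_lit 152) (nat_lit 18139518764) (nat_lit 76) (nat_lit 42502441383) (nat_lit 28) (nat_lit 5) (nat_lit 30) (nat_lit 5) (nat_lit 29) (nat_lit 5) (nat_lit 387) (nat_lit 358) (nat_lit 275)) (XT.lf (nat_lit 0) (nat_lit 14894387376) (nat_lit 228) (nat_lit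 47697205583) (nat_lit 76) (nat_lit 1713752547) (nat_lit 26) (nat_lit 5) (nat_lit 29) (nat_lit 5) (nat_lit 27) (nat_lit 4) (nat_lit 388) (nat_lit 358) (nat_lit 274))) (XT.nd (nat_lit 78) (nat_lit 76) (nat_lit 0) (XT.lf (nat_lit 0) (nat_lit 31523940290) (nat_lit 228) (nat_lit 13116826244) (nat_lit 76) (nat_lit 23100304213) (nat_lit 26) (nat_lit 5) (nat_lit 29) (nat_lit 5) (nat_lit 27) (nat_lit 4) (nat_lit 389) (nat_lit 358) (nat_lit 273)) (XT.nd (nat_lit 78) (nat_lit 0) (nat_lit 0) (XT.lf (nat_lit 0) (nat_lit 25496973450) (nat_lit 76) (nat_lit 24595340412) (nat_lit 152) (nat_lit 21310665115) (nat_lit 25) (nat_lit 5) (nat_lit 26) (nat_lit 5) (nat_lit 27) (nat_lit 4) (nat_lit 390) (nat_lit 358) (nat_lit 272)) (XT.lf (nat_lit 0) (nat_lit 67937585261) (nat_lit 76) (nat_lit 2562615928) (nat_lit 152) (nat_lit 4829316541) (nat_lit 25) (nat_lit 5) (nat_lit 26) (nat_lit 5) (nat_lit 27) (nat_lit 4)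 (nat_lit 391) (nat_lit 358) (nat_lit 271))))) (XT.nd (nat_lit 156) (nat_lit 228) (nat_lit 0) (XT.nd (nat_lit 78) (nat_lit 0) (nat_lit 0) (XT.lf (nat_lit 0) (nat_lit 13716091209) (nat_lit 152) (nat_lit 44350205952) (nat_lit 76) (nat_lit 21367377038) (nat_lit 23) (nat_lit 5) (nat_lit 25) (nat_lit 5) (nat_lit 24) (nat_lit 4) (nat_lit 392) (nat_lit 358) (nat_lit 270)) (XT.lf (nat_lit 0) (nat_lit 33753833455) (nat_lit 152) (nat_lit 2677889072) (nat_lit 76) (nat_lit 47402837972) (nat_lit 23) (nat_lit 5) (nat_lit 25) (nat_lit 5) (nat_lit 24) (nat_lit 4) (nat_lit 393) (nat_lit 358) (nat_lit 269))) (XT.nd (nat_lit 78) (nat_lit 152) (nat_lit 0) (XT.lf (nat_lit 0) (nat_lit 44549409175) (nat_lit 76) (nat_lit 11912610312) (nat_lit 152) (nat_lit 32040105276) (nat_lit 22) (nat_lit 5) (nat_lit 23) (nat_lit 5) (nat_lit 24) (nat_lit 4) (nat_lit 394) (nat_lit 358) (nat_lit 268)) (XT.nd (nat_lit 78) (nat_lit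 76) (nat_lit 0) (XT.lf (nat_lit 0) (nat_lit 1905621179) (nat_lit 76) (nat_lit 79548605152) (nat_lit 76) (nat_lit 12051479496) (nat_lit 21) (nat_lit 4) (nat_lit 22) (nat_lit 5) (nat_lit 22) (nat_lit 4) (nat_lit 395) (nat_lit 358) (nat_lit 267)) (XT.lf (nat_lit 0) (nat_lit 10597645932) (nat_lit 152) (nat_lit 45458569740) (nat_lit 76) (nat_lit 42711934709) (nat_lit 20) (nat_lit 5) (nat_lit 22) (nat_lit 5) (nat_lit 21) (nat_lit 4) (nat_lit 396) (nat_lit 358) (nat_lit 266)))))) (XT.nd (nat_lit 390) (nat_lit 304) (nat_lit 0) (XT.nd (nat_lit 156) (nat_lit 152) (nat_lit 0) (XT.nd (nat_lit 78) (nat_lit 0) (nat_lit 0) (XT.lf (nat_lit 0) (nat_lit 4267874879) (nat_lit 76) (nat_lit 30238739987) (nat_lit 152) (nat_lit 69912013829) (nat_lit 19) (nat_lit 5) (nat_lit 20) (nat_lit 5) (nat_lit 21) (nat_lit 4) (nat_lit 397) (nat_lit 358) (nat_lit 265)) (XT.lf (nat_lit 0) (nat_lit 60551015514) (nat_lit 76)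 (nat_lit 1016676029) (nat_lit 152) (nat_lit 48854303198) (nat_lit 19) (nat_lit 5) (nat_lit 20) (nat_lit 5) (nat_lit 21) (nat_lit 4) (nat_lit 398) (nat_lit 358) (nat_lit 264))) (XT.nd (nat_lit 78) (nat_lit 76) (nat_lit 0) (XT.lf (nat_lit 0) (nat_lit 3884549894) (nat_lit 76) (nat_lit 87733754833) (nat_lit 76) (nat_lit 25221353954) (nat_lit 18) (nat_lit 4) (nat_lit 19) (nat_lit 5) (nat_lit 19) (nat_lit 4) (nat_lit 399) (nat_lit 358) (nat_lit 263)) (XT.nd (nat_lit 78) (nat_lit 0) (nat_lit 0) (XT.lf (nat_lit 0) (nat_lit 1709173776) (nat_lit 152) (nat_lit 58960414461) (nat_lit 76) (nat_lit 62986801639) (nat_lit 17) (nat_lit 5) (nat_lit 19) (nat_lit 5) (nat_lit 18) (nat_lit 4) (nat_lit 400) (nat_lit 358) (nat_lit 262)) (XT.lf (nat_lit 0) (nat_lit 29428457815) (nat_lit 152) (nat_lit 1307169433) (nat_lit 76) (nat_lit 100230671030) (nat_lit 17) (nat_lit 5) (nat_lit 19) (nat_lit 5) (nat_lit 18) (nat_lit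 4) (nat_lit 401) (nat_lit 358) (nat_lit 261))))) (XT.nd (nat_lit 234) (nat_lit 152) (nat_lit 0) (XT.nd (nat_lit 78) (nat_lit 76) (nat_lit 0) (XT.lf (nat_lit 0) (nat_lit 60983875257) (nat_lit 152) (nat_lit 74653590930) (nat_lit 0) (nat_lit 3094046381) (nat_lit 16) (nat_lit 5) (nat_lit 18) (nat_lit 4) (nat_lit 16) (nat_lit 4) (nat_lit 402) (nat_lit 358) (nat_lit 260)) (XT.nd (nat_lit 78) (nat_lit 76) (nat_lit 0) (XT.lf (nat_lit 0) (nat_lit 95895893457) (nat_lit 152) (nat_lit 13151687951) (nat_lit 0) (nat_lit 38003789637) (nat_lit 16) (nat_lit 5) (nat_lit 18) (nat_lit 4) (nat_lit 16) (nat_lit 4) (nat_lit 403) (nat_lit 358) (nat_lit 259)) (XT.lf (nat_lit 0) (nat_lit 56070123057) (nat_lit 76) (nat_lit 78876618172) (nat_lit 76) (nat_lit 20982407922) (nat_lit 15) (nat_lit 4) (nat_lit 16) (nat_lit 5) (nat_lit 16) (nat_lit 4) (nat_lit 404) (nat_lit 358) (nat_lit 258)))) (XT.nd (nat_lit 78) (nat_lit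 76) (nat_lit 0) (XT.lf (nat_lit 0) (nat_lit 11390321705) (nat_lit 152) (nat_lit 34204291500) (nat_lit 76) (nat_lit 119870904042) (nat_lit 14) (nat_lit 5) (nat_lit 16) (nat_lit 5) (nat_lit 15) (nat_lit 4) (nat_lit 405) (nat_lit 358) (nat_lit 257)) (XT.nd (nat_lit 78) (nat_lit 0) (nat_lit 0) (XT.lf (nat_lit 0) (nat_lit 38056852876) (nat_lit 76) (nat_lit 8075271858) (nat_lit 152) (nat_lit 129516042562) (nat_lit 13) (nat_lit 5) (nat_lit 14) (nat_lit 5) (nat_lit 15) (nat_lit 4) (nat_lit 406) (nat_lit 358) (nat_lit 256)) (XT.lf (nat_lit 0) (nat_lit 85390682628) (nat_lit 152) (nat_lit 69335848136) (nat_lit 0) (nat_lit 31779906031) (nat_lit 13) (nat_lit 5) (nat_lit 15) (nat_lit 4) (nat_lit 13) (nat_lit 4) (nat_lit 407) (nat_lit 358) (nat_lit 255))))))))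
noncomputable def xc145 : XT := (XT.nd (nat_lit 1560) (nat_lit 228) (nat_lit 0) (XT.nd (nat_lit 780) (nat_lit 228) (nat_lit 0) (XT.nd (nat_lit 390) (nat_lit 228) (nat_lit 0) (XT.nd (nat_lit 156) (nat_lit 152) (nat_lit 0) (XT.nd (nat_lit 78) (nat_lit 0) (nat_lit 0) (XT.lf (nat_lit 0) (nat_lit 4385285751) (nat_lit 76) (nat_lit 123717626791) (nat_lit 76) (nat_lit 70105416593) (nat_lit 12) (nat_lit 4) (nat_lit 13) (nat_lit 5) (nat_lit 13) (nat_lit 4) (nat_lit 408) (nat_lit 358) (nat_lit 254)) (XT.lf (nat_lit 0) (nat_lit 87943020532) (nat_lit 76) (nat_lit 88182701065) (nat_lit 76) (nat_lit 34569163459) (nat_lit 12) (nat_lit 4) (nat_lit 13) (nat_lit 5) (nat_lit 13) (nat_lit 4) (nat_lit 409) (nat_lit 358) (nat_lit 253))) (XT.nd (nat_lit 78) (nat_lit 76) (nat_lit 0) (XT.lf (nat_lit 0) (nat_lit 3617342625) (nat_lit 152) (nat_lit 46090694027) (nat_lit 76) (nat_lit 174465163080) (nat_lit 11) (nat_lit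 5) (nat_lit 13) (nat_lit 5) (nat_lit 12) (nat_lit 4) (nat_lit 410) (nat_lit 358) (nat_lit 252)) (XT.nd (nat_lit 78) (nat_lit 0) (nat_lit 0) (XT.lf (nat_lit 0) (nat_lit 37686953118) (nat_lit 76) (nat_lit 6208651614) (nat_lit 152) (nat_lit 194689985561) (nat_lit 10) (nat_lit 5) (nat_lit 11) (nat_lit 5) (nat_lit 12) (nat_lit 4) (nat_lit 411) (nat_lit 358) (nat_lit 251)) (XT.lf (nat_lit 0) (nat_lit 89667702406) (nat_lit 152) (nat_lit 124279173419) (nat_lit 0) (nat_lit 40022370493) (nat_lit 10) (nat_lit 5) (nat_lit 12) (nat_lit 4) (nat_lit 10) (nat_lit 4) (nat_lit 412) (nat_lit 358) (nat_lit 250))))) (XT.nd (nat_lit 156) (nat_lit 152) (nat_lit 0) (XT.nd (nat_lit 78) (nat_lit 76) (nat_lit 0) (XT.lf (nat_lit 0) (nat_lit 139261076855) (nat_lit 152) (nat_lit 41694915895) (nat_lit 0) (nat_lit 89614841530) (nat_lit 10) (nat_lit 5) (nat_lit 12) (nat_lit 4) (nat_lit 10) (nat_lit 4) (nat_lit 413) (nat_lit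 358) (nat_lit 249)) (XT.lf (nat_lit 0) (nat_lit 49993730695) (nat_lit 76) (nat_lit 144028916253) (nat_lit 76) (nat_lit 94381844436) (nat_lit 9) (nat_lit 4) (nat_lit 10) (nat_lit 5) (nat_lit 10) (nat_lit 4) (nat_lit 414) (nat_lit 358) (nat_lit 248))) (XT.nd (nat_lit 78) (nat_lit 152) (nat_lit 0) (XT.lf (nat_lit 0) (nat_lit 151385537440) (nat_lit 76) (nat_lit 102918037753) (nat_lit 76) (nat_lit 53270191406) (nat_lit 9) (nat_lit 4) (nat_lit 10) (nat_lit 5) (nat_lit 10) (nat_lit 4) (nat_lit 415) (nat_lit 358) (nat_lit 247)) (XT.nd (nat_lit 78) (nat_lit 152) (nat_lit 0) (XT.lf (nat_lit 0) (nat_lit 260885764295) (nat_lit 76) (nat_lit 58519750120) (nat_lit 76) (nat_lit 8871186615) (nat_lit 9) (nat_lit 4) (nat_lit 10) (nat_lit 5) (nat_lit 10) (nat_lit 4) (nat_lit 416) (nat_lit 358) (nat_lit 246)) (XT.lf (nat_lit 0) (nat_lit 29019144432) (nat_lit 76) (nat_lit 8802188246) (nat_lit 152) (nat_lit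 312683626490) (nat_lit 7) (nat_lit 5) (nat_lit 8) (nat_lit 5) (nat_lit 9) (nat_lit 4) (nat_lit 417) (nat_lit 358) (nat_lit 245)))))) (XT.nd (nat_lit 390) (nat_lit 152) (nat_lit 0) (XT.nd (nat_lit 156) (nat_lit 76) (nat_lit 0) (XT.nd (nat_lit 78) (nat_lit 0) (nat_lit 0) (XT.lf (nat_lit 0) (nat_lit 90738713394) (nat_lit 152) (nat_lit 238750195176) (nat_lit 0) (nat_lit 44766637110) (nat_lit 7) (nat_lit 5) (nat_lit 9) (nat_lit 4) (nat_lit 7) (nat_lit 4) (nat_lit 418) (nat_lit 358) (nat_lit 244)) (XT.lf (nat_lit 0) (nat_lit 148116830346) (nat_lit 152) (nat_lit 149626934276) (nat_lit 0) (nat_lit 102144226930) (nat_lit 7) (nat_lit 5) (nat_lit 9) (nat_lit 4) (nat_lit 7) (nat_lit 4) (nat_lit 419) (nat_lit 358) (nat_lit 243))) (XT.nd (nat_lit 78) (nat_lit 76) (nat_lit 0) (XT.lf (nat_lit 0) (nat_lit 210084009166) (nat_lit 152) (nat_lit 53376201353) (nat_lit 0) (nat_lit 164110917666) (nat_lit 7) (nat_lit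 5) (nat_lit 9) (nat_lit 4) (nat_lit 7) (nat_lit 4) (nat_lit 420) (nat_lit 358) (nat_lit 242)) (XT.nd (nat_lit 78) (nat_lit 0) (nat_lit 0) (XT.lf (nat_lit 0) (nat_lit 53235430123) (nat_lit 76) (nat_lit 225052346018) (nat_lit 76) (nat_lit 179078802586) (nat_lit 6) (nat_lit 4) (nat_lit 7) (nat_lit 5) (nat_lit 7) (nat_lit 4) (nat_lit 421) (nat_lit 358) (nat_lit 241)) (XT.lf (nat_lit 0) (nat_lit 171409388084) (nat_lit 76) (nat_lit 181996786396) (nat_lit 76) (nat_lit 136022824511) (nat_lit 6) (nat_lit 4) (nat_lit 7) (nat_lit 5) (nat_lit 7) (nat_lit 4) (nat_lit 422) (nat_lit 358) (nat_lit 240))))) (XT.nd (nat_lit 156) (nat_lit 152) (nat_lit 0) (XT.nd (nat_lit 78) (nat_lit 0) (nat_lit 0) (XT.lf (nat_lit 0) (nat_lit 299035266477) (nat_lit 76) (nat_lit 135497787535) (nat_lit 76) (nat_lit 89523438192) (nat_lit 6) (nat_lit 4) (nat_lit 7) (nat_lit 5) (nat_lit 7) (nat_lit 4) (nat_lit 423) (nat_lit 358)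 (nat_lit 239)) (XT.lf (nat_lit 0) (nat_lit 436869366804) (nat_lit 76) (nat_lit 85279799811) (nat_lit 76) (nat_lit 39305091711) (nat_lit 6) (nat_lit 4) (nat_lit 7) (nat_lit 5) (nat_lit 7) (nat_lit 4) (nat_lit 424) (nat_lit 358) (nat_lit 238))) (XT.nd (nat_lit 78) (nat_lit 76) (nat_lit 0) (XT.lf (nat_lit 0) (nat_lit 14182955814) (nat_lit 152) (nat_lit 16474492188) (nat_lit 76) (nat_lit 571157740772) (nat_lit 5) (nat_lit 5) (nat_lit 7) (nat_lit 5) (nat_lit 6) (nat_lit 4) (nat_lit 425) (nat_lit 358) (nat_lit 237)) (XT.nd (nat_lit 78) (nat_lit 0) (nat_lit 0) (XT.lf (nat_lit 0) (nat_lit 73111930815) (nat_lit 152) (nat_lit 541406395341) (nat_lit 0) (nat_lit 30542164278) (nat_lit 4) (nat_lit 5) (nat_lit 6) (nat_lit 4) (nat_lit 4) (nat_lit 4) (nat_lit 426) (nat_lit 358) (nat_lit 236)) (XT.lf (nat_lit 0) (nat_lit 138012858223) (nat_lit 152) (nat_lit 458209119309) (nat_lit 0) (nat_lit 95442827989)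 (nat_lit 4) (nat_lit 5) (nat_lit 6) (nat_lit 4) (nat_lit 4) (nat_lit 4) (nat_lit 427) (nat_lit 358) (nat_lit 235))))))) (XT.nd (nat_lit 780) (nat_lit 152) (nat_lit 0) (XT.nd (nat_lit 390) (nat_lit 0) (nat_lit 0) (XT.nd (nat_lit 156) (nat_lit 76) (nat_lit 0) (XT.nd (nat_lit 78) (nat_lit 0) (nat_lit 0) (XT.lf (nat_lit 0) (nat_lit 208105114879) (nat_lit 152) (nat_lit 368357570099) (nat_lit 0) (nat_lit 165534840480) (nat_lit 4) (nat_lit 5) (nat_lit 6) (nat_lit 4) (nat_lit 4) (nat_lit 4) (nat_lit 428) (nat_lit 358) (nat_lit 234)) (XT.lf (nat_lit 0) (nat_lit 283804062302) (nat_lit 152) (nat_lit 271319294087) (nat_lit 0) (nat_lit 241233561826) (nat_lit 4) (nat_lit 5) (nat_lit 6) (nat_lit 4) (nat_lit 4) (nat_lit 4) (nat_lit 429) (nat_lit 358) (nat_lit 233))) (XT.nd (nat_lit 78) (nat_lit 76) (nat_lit 0) (XT.lf (nat_lit 0) (nat_lit 365558286849) (nat_lit 152) (nat_lit 166519249636) (nat_lit 0) (nat_lit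 322987577041) (nat_lit 4) (nat_lit 5) (nat_lit 6) (nat_lit 4) (nat_lit 4) (nat_lit 4) (nat_lit 430) (nat_lit 358) (nat_lit 232)) (XT.nd (nat_lit 78) (nat_lit 76) (nat_lit 0) (XT.lf (nat_lit 0) (nat_lit 453852257997) (nat_lit 152) (nat_lit 53336399447) (nat_lit 0) (nat_lit 411281354364) (nat_lit 4) (nat_lit 5) (nat_lit 6) (nat_lit 4) (nat_lit 4) (nat_lit 4) (nat_lit 431) (nat_lit 358) (nat_lit 231)) (XT.lf (nat_lit 0) (nat_lit 72528119968) (nat_lit 76) (nat_lit 478425382340) (nat_lit 76) (nat_lit 435854299239) (nat_lit 3) (nat_lit 4) (nat_lit 4) (nat_lit 5) (nat_lit 4) (nat_lit 4) (nat_lit 432) (nat_lit 358) (nat_lit 230))))) (XT.nd (nat_lit 156) (nat_lit 0) (nat_lit 0) (XT.nd (nat_lit 78) (nat_lit 0) (nat_lit 0) (XT.lf (nat_lit 0) (nat_lit 211494008223) (nat_lit 76) (nat_lit 445786616628) (nat_lit 76) (nat_lit 403215367353) (nat_lit 3) (nat_lit 4) (nat_lit 4) (nat_lit 5) (nat_lit 4) (nat_lit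 4) (nat_lit 433) (nat_lit 358) (nat_lit 229)) (XT.lf (nat_lit 0) (nat_lit 361576166600) (nat_lit 76) (nat_lit 410537257081) (nat_lit 76) (nat_lit 367965853941) (nat_lit 3) (nat_lit 4) (nat_lit 4) (nat_lit 5) (nat_lit 4) (nat_lit 4) (nat_lit 434) (nat_lit 358) (nat_lit 228))) (XT.nd (nat_lit 78) (nat_lit 0) (nat_lit 0) (XT.lf (nat_lit 0) (nat_lit 523663970855) (nat_lit 76) (nat_lit 372468418606) (nat_lit 76) (nat_lit 329896872999) (nat_lit 3) (nat_lit 4) (nat_lit 4) (nat_lit 5) (nat_lit 4) (nat_lit 4) (nat_lit 435) (nat_lit 358) (nat_lit 227)) (XT.nd (nat_lit 78) (nat_lit 0) (nat_lit 0) (XT.lf (nat_lit 0) (nat_lit 698717941307) (nat_lit 76) (nat_lit 331354508085) (nat_lit 76) (nat_lit 288782830564) (nat_lit 3) (nat_lit 4) (nat_lit 4) (nat_lit 5) (nat_lit 4) (nat_lit 4) (nat_lit 436) (nat_lit 358) (nat_lit 226)) (XT.lf (nat_lit 0) (nat_lit 887775434820) (nat_lit 76) (nat_lit 286951887531)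 (nat_lit 76) (nat_lit 244380087867) (nat_lit 3) (nat_lit 4) (nat_lit 4) (nat_lit 5) (nat_lit 4) (nat_lit 4) (nat_lit 437) (nat_lit 358) (nat_lit 225)))))) (XT.nd (nat_lit 390) (nat_lit 0) (nat_lit 0) (XT.nd (nat_lit 156) (nat_lit 152) (nat_lit 0) (XT.nd (nat_lit 78) (nat_lit 0) (nat_lit 0) (XT.lf (nat_lit 0) (nat_lit 1091956792096) (nat_lit 76) (nat_lit 238997430303) (nat_lit 76) (nat_lit 196425517543) (nat_lit 3) (nat_lit 4) (nat_lit 4) (nat_lit 5) (nat_lit 4) (nat_lit 4) (nat_lit 438) (nat_lit 358) (nat_lit 224)) (XT.lf (nat_lit 0) (nat_lit 1312471976733) (nat_lit 76) (nat_lit 187206961840) (nat_lit 76) (nat_lit 144634944362) (nat_lit 3) (nat_lit 4) (nat_lit 4) (nat_lit 5) (nat_lit 4) (nat_lit 4) (nat_lit 439) (nat_lit 358) (nat_lit 223))) (XT.nd (nat_lit 78) (nat_lit 152) (nat_lit 0) (XT.lf (nat_lit 0) (nat_lit 1550627745380) (nat_lit 76) (nat_lit 131273575661) (nat_lit 76) (nat_lit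 88701461223) (nat_lit 3) (nat_lit 4) (nat_lit 4) (nat_lit 5) (nat_lit 4) (nat_lit 4) (nat_lit 440) (nat_lit 358) (nat_lit 222)) (XT.nd (nat_lit 78) (nat_lit 152) (nat_lit 0) (XT.lf (nat_lit 0) (nat_lit 1807835391483) (nat_lit 76) (nat_lit 70865814665) (nat_lit 76) (nat_lit 28293610447) (nat_lit 3) (nat_lit 4) (nat_lit 4) (nat_lit 5) (nat_lit 4) (nat_lit 4) (nat_lit 441) (nat_lit 358) (nat_lit 221)) (XT.lf (nat_lit 0) (nat_lit 32034818705) (nat_lit 76) (nat_lit 3833982280) (nat_lit 152) (nat_lit 2018296713688) (nat_lit 1) (nat_lit 5) (nat_lit 2) (nat_lit 5) (nat_lit 3) (nat_lit 4) (nat_lit 442) (nat_lit 358) (nat_lit 220))))) (XT.nd (nat_lit 234) (nat_lit 0) (nat_lit 0) (XT.nd (nat_lit 78) (nat_lit 0) (nat_lit 0) (XT.lf (nat_lit 0) (nat_lit 108065836772) (nat_lit 152) (nat_lit 2035983841293) (nat_lit 0) (nat_lit 68646980924) (nat_lit 1) (nat_lit 5) (nat_lit 3) (nat_lit 4) (nat_lit 1) (nat_lit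 4) (nat_lit 443) (nat_lit 358) (nat_lit 219)) (XT.nd (nat_lit 78) (nat_lit 0) (nat_lit 0) (XT.lf (nat_lit 0) (nat_lit 186137966664) (nat_lit 152) (nat_lit 2051045336875) (nat_lit 0) (nat_lit 146719044826) (nat_lit 1) (nat_lit 5) (nat_lit 3) (nat_lit 4) (nat_lit 1) (nat_lit 4) (nat_lit 444) (nat_lit 358) (nat_lit 218)) (XT.lf (nat_lit 0) (nat_lit 270455632953) (nat_lit 152) (nat_lit 2067312228655) (nat_lit 0) (nat_lit 231036650013) (nat_lit 1) (nat_lit 5) (nat_lit 3) (nat_lit 4) (nat_lit 1) (nat_lit 4) (nat_lit 445) (nat_lit 358) (nat_lit 217)))) (XT.nd (nat_lit 78) (nat_lit 0) (nat_lit 0) (XT.lf (nat_lit 0) (nat_lit 361518495884) (nat_lit 152) (nat_lit 2084880913028) (nat_lit 0) (nat_lit 322099456368) (nat_lit 1) (nat_lit 5) (nat_lit 3) (nat_lit 4) (nat_lit 1) (nat_lit 4) (nat_lit 446) (nat_lit 358) (nat_lit 216)) (XT.nd (nat_lit 78) (nat_lit 0) (nat_lit 0) (XT.lf (nat_lit 0) (nat_lit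 459866187237) (nat_lit 152) (nat_lit 2103855500718) (nat_lit 0) (nat_lit 420447095337) (nat_lit 1) (nat_lit 5) (nat_lit 3) (nat_lit 4) (nat_lit 1) (nat_lit 4) (nat_lit 447) (nat_lit 358) (nat_lit 215)) (XT.lf (nat_lit 0) (nat_lit 566081508147) (nat_lit 152) (nat_lit 2124348433725) (nat_lit 0) (nat_lit 526662367742) (nat_lit 1) (nat_lit 5) (nat_lit 3) (nat_lit 4) (nat_lit 1) (nat_lit 4) (nat_lit 448) (nat_lit 358) (nat_lit 214))))))))
noncomputable def xc146 : XT := (XT.nd (nat_lit 46644) (nat_lit 0) (nat_lit 2204) (XT.nd (nat_lit 780) (nat_lit 0) (nat_lit 0) (XT.nd (nat_lit 390) (nat_lit 0) (nat_lit 0) (XT.nd (nat_lit 156) (nat_lit 0) (nat_lit 0) (XT.nd (nat_lit 78) (nat_lit 0) (nat_lit 0) (XT.lf (nat_lit 0) (nat_lit 680793882738) (nat_lit 152) (nat_lit 2146481151652) (nat_lit 0) (nat_lit 641374697420) (nat_lit 1) (nat_lit 5) (nat_lit 3) (nat_lit 4) (nat_lit 1) (nat_lit 4) (nat_lit 449)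 (nat_lit 358) (nat_lit 213)) (XT.lf (nat_lit 0) (nat_lit 804683088043) (nat_lit 152) (nat_lit 2170384811346) (nat_lit 0) (nat_lit 765263861141) (nat_lit 1) (nat_lit 5) (nat_lit 3) (nat_lit 4) (nat_lit 1) (nat_lit 4) (nat_lit 450) (nat_lit 358) (nat_lit 212))) (XT.nd (nat_lit 78) (nat_lit 0) (nat_lit 0) (XT.lf (nat_lit 0) (nat_lit 938483282317) (nat_lit 152) (nat_lit 2196201064124) (nat_lit 0) (nat_lit 899064016910) (nat_lit 1) (nat_lit 5) (nat_lit 3) (nat_lit 4) (nat_lit 1) (nat_lit 4) (nat_lit 451) (nat_lit 358) (nat_lit 211)) (XT.nd (nat_lit 78) (nat_lit 0) (nat_lit 0) (XT.lf (nat_lit 0) (nat_lit 1082987355599) (nat_lit 152) (nat_lit 2224082895187) (nat_lit 0) (nat_lit 1043568054540) (nat_lit 1) (nat_lit 5) (nat_lit 3) (nat_lit 4) (nat_lit 1) (nat_lit 4) (nat_lit 452) (nat_lit 358) (nat_lit 210)) (XT.lf (nat_lit 0) (nat_lit 1239051628324) (nat_lit 152) (nat_lit 2254195530202) (nat_lit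 0) (nat_lit 1199632294254) (nat_lit 1) (nat_lit 5) (nat_lit 3) (nat_lit 4) (nat_lit 1) (nat_lit 4) (nat_lit 453) (nat_lit 358) (nat_lit 209))))) (XT.nd (nat_lit 156) (nat_lit 0) (nat_lit 0) (XT.nd (nat_lit 78) (nat_lit 0) (nat_lit 0) (XT.lf (nat_lit 0) (nat_lit 1407600925813) (nat_lit 152) (nat_lit 2286717414412) (nat_lit 0) (nat_lit 1368181561176) (nat_lit 1) (nat_lit 5) (nat_lit 3) (nat_lit 4) (nat_lit 1) (nat_lit 4) (nat_lit 454) (nat_lit 358) (nat_lit 208)) (XT.lf (nat_lit 0) (nat_lit 1589634058715) (nat_lit 152) (nat_lit 2321841270095) (nat_lit 0) (nat_lit 1550214665777) (nat_lit 1) (nat_lit 5) (nat_lit 3) (nat_lit 4) (nat_lit 1) (nat_lit 4) (nat_lit 455) (nat_lit 358) (nat_lit 207))) (XT.nd (nat_lit 78) (nat_lit 0) (nat_lit 0) (XT.lf (nat_lit 0) (nat_lit 1786229741895) (nat_lit 152) (nat_lit 2359775238617) (nat_lit 0) (nat_lit 1746810322751) (nat_lit 1) (nat_lit 5) (nat_lit 3) (nat_lit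 4) (nat_lit 1) (nat_lit 4) (nat_lit 456) (nat_lit 358) (nat_lit 206)) (XT.nd (nat_lit 78) (nat_lit 0) (nat_lit 0) (XT.lf (nat_lit 0) (nat_lit 1998552986806) (nat_lit 152) (nat_lit 2400744113866) (nat_lit 0) (nat_lit 1959133543397) (nat_lit 1) (nat_lit 5) (nat_lit 3) (nat_lit 4) (nat_lit 1) (nat_lit 4) (nat_lit 457) (nat_lit 358) (nat_lit 205)) (XT.lf (nat_lit 0) (nat_lit 2227862005271) (nat_lit 152) (nat_lit 2444990674362) (nat_lit 0) (nat_lit 2188442539395) (nat_lit 1) (nat_lit 5) (nat_lit 3) (nat_lit 4) (nat_lit 1) (nat_lit 4) (nat_lit 458) (nat_lit 358) (nat_lit 204)))))) (XT.nd (nat_lit 45474) (nat_lit 0) (nat_lit 4408) (XT.nd (nat_lit 156) (nat_lit 0) (nat_lit 0) (XT.nd (nat_lit 78) (nat_lit 0) (nat_lit 0) (XT.lf (nat_lit 0) (nat_lit 2475515665547) (nat_lit 152) (nat_lit 2492777121944) (nat_lit 0) (nat_lit 2436096178869) (nat_lit 1) (nat_lit 5) (nat_lit 3) (nat_lit 4) (nat_lit 1)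 (nat_lit 4) (nat_lit 459) (nat_lit 358) (nat_lit 203)) (XT.lf (nat_lit 0) (nat_lit 2742981544881) (nat_lit 152) (nat_lit 2544386635563) (nat_lit 0) (nat_lit 2703562038941) (nat_lit 1) (nat_lit 5) (nat_lit 3) (nat_lit 4) (nat_lit 1) (nat_lit 4) (nat_lit 460) (nat_lit 358) (nat_lit 202))) (XT.nd (nat_lit 45162) (nat_lit 0) (nat_lit 4788) (XT.lf (nat_lit 0) (nat_lit 3031844626262) (nat_lit 152) (nat_lit 2600125049371) (nat_lit 0) (nat_lit 2992425102486) (nat_lit 1) (nat_lit 5) (nat_lit 3) (nat_lit 4) (nat_lit 1) (nat_lit 4) (nat_lit 461) (nat_lit 358) (nat_lit 201)) (XT.nd (nat_lit 78) (nat_lit 0) (nat_lit 0) (XT.lf (nat_lit 0) (nat_lit 6868268942) (nat_lit 532) (nat_lit 989113432) (nat_lit 532) (nat_lit 989113432) (nat_lit 64) (nat_lit 3) (nat_lit 71) (nat_lit 3) (nat_lit 71) (nat_lit 5) (nat_lit 359) (nat_lit 359) (nat_lit 302)) (XT.lf (nat_lit 76) (nat_lit 6971053864) (nat_lit 0) (nat_lit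 7681328480) (nat_lit 532) (nat_lit 3718830316) (nat_lit 65) (nat_lit 5) (nat_lit 64) (nat_lit 3) (nat_lit 71) (nat_lit 5) (nat_lit 360) (nat_lit 359) (nat_lit 301))))) (XT.nd (nat_lit 156) (nat_lit 456) (nat_lit 0) (XT.nd (nat_lit 78) (nat_lit 0) (nat_lit 0) (XT.lf (nat_lit 0) (nat_lit 15700970192) (nat_lit 456) (nat_lit 2389068829) (nat_lit 532) (nat_lit 1008913111) (nat_lit 65) (nat_lit 5) (nat_lit 71) (nat_lit 5) (nat_lit 72) (nat_lit 5) (nat_lit 361) (nat_lit 359) (nat_lit 300)) (XT.lf (nat_lit 76) (nat_lit 7506729172) (nat_lit 0) (nat_lit 9688303277) (nat_lit 532) (nat_lit 2660968736) (nat_lit 66) (nat_lit 5) (nat_lit 65) (nat_lit 5) (nat_lit 72) (nat_lit 5) (nat_lit 362) (nat_lit 359) (nat_lit 299))) (XT.nd (nat_lit 78) (nat_lit 456) (nat_lit 0) (XT.lf (nat_lit 76) (nat_lit 18318186726) (nat_lit 0) (nat_lit 538371889) (nat_lit 532) (nat_lit 1813236558) (nat_lit 66) (nat_lit 5) (nat_lit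 65) (nat_lit 5) (nat_lit 72) (nat_lit 5) (nat_lit 363) (nat_lit 359) (nat_lit 298)) (XT.nd (nat_lit 78) (nat_lit 532) (nat_lit 0) (XT.lf (nat_lit 76) (nat_lit 8640994549) (nat_lit 0) (nat_lit 12426568985) (nat_lit 532) (nat_lit 447819543) (nat_lit 67) (nat_lit 5) (nat_lit 66) (nat_lit 5) (nat_lit 73) (nat_lit 5) (nat_lit 364) (nat_lit 359) (nat_lit 297)) (XT.lf (nat_lit 0) (nat_lit 1039930507) (nat_lit 532) (nat_lit 1830011764) (nat_lit 608) (nat_lit 19551555644) (nat_lit 59) (nat_lit 5) (nat_lit 66) (nat_lit 5) (nat_lit 67) (nat_lit 5) (nat_lit 365) (nat_lit 359) (nat_lit 296))))))) (XT.nd (nat_lit 780) (nat_lit 988) (nat_lit 0) (XT.nd (nat_lit 390) (nat_lit 684) (nat_lit 0) (XT.nd (nat_lit 156) (nat_lit 608) (nat_lit 0) (XT.nd (nat_lit 78) (nat_lit 0) (nat_lit 0) (XT.lf (nat_lit 0) (nat_lit 3049399961) (nat_lit 532) (nat_lit 12961307690) (nat_lit 76) (nat_lit 7354324144) (nat_lit 60)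 (nat_lit 5) (nat_lit 67) (nat_lit 5) (nat_lit 61) (nat_lit 5) (nat_lit 366) (nat_lit 359) (nat_lit 295)) (XT.lf (nat_lit 0) (nat_lit 5331995103) (nat_lit 532) (nat_lit 748467934) (nat_lit 76) (nat_lit 18294606871) (nat_lit 60) (nat_lit 5) (nat_lit 67) (nat_lit 5) (nat_lit 61) (nat_lit 5) (nat_lit 367) (nat_lit 359) (nat_lit 294))) (XT.nd (nat_lit 78) (nat_lit 228) (nat_lit 0) (XT.lf (nat_lit 0) (nat_lit 8219241279) (nat_lit 456) (nat_lit 12477577012) (nat_lit 76) (nat_lit 4735339467) (nat_lit 55) (nat_lit 5) (nat_lit 61) (nat_lit 5) (nat_lit 56) (nat_lit 5) (nat_lit 368) (nat_lit 359) (nat_lit 293)) (XT.nd (nat_lit 78) (nat_lit 0) (nat_lit 0) (XT.lf (nat_lit 0) (nat_lit 1108733326) (nat_lit 228) (nat_lit 10422474394) (nat_lit 304) (nat_lit 15027115080) (nat_lit 52) (nat_lit 5) (nat_lit 55) (nat_lit 5) (nat_lit 56) (nat_lit 5) (nat_lit 369) (nat_lit 359) (nat_lit 292)) (XT.lf (nat_lit 0)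 (nat_lit 15463064364) (nat_lit 304) (nat_lit 11293894311) (nat_lit 76) (nat_lit 989236449) (nat_lit 52) (nat_lit 5) (nat_lit 56) (nat_lit 5) (nat_lit 53) (nat_lit 5) (nat_lit 370) (nat_lit 359) (nat_lit 291))))) (XT.nd (nat_lit 156) (nat_lit 456) (nat_lit 0) (XT.nd (nat_lit 78) (nat_lit 0) (nat_lit 0) (XT.lf (nat_lit 0) (nat_lit 3906850870) (nat_lit 228) (nat_lit 16156835878) (nat_lit 304) (nat_lit 8937081174) (nat_lit 49) (nat_lit 5) (nat_lit 52) (nat_lit 5) (nat_lit 53) (nat_lit 5) (nat_lit 371) (nat_lit 359) (nat_lit 290)) (XT.lf (nat_lit 0) (nat_lit 20954128016) (nat_lit 228) (nat_lit 4377059958) (nat_lit 304) (nat_lit 5000619717) (nat_lit 49) (nat_lit 5) (nat_lit 52) (nat_lit 5) (nat_lit 53) (nat_lit 5) (nat_lit 372) (nat_lit 359) (nat_lit 289))) (XT.nd (nat_lit 78) (nat_lit 304) (nat_lit 0) (XT.lf (nat_lit 0) (nat_lit 7772309704) (nat_lit 152) (nat_lit 23626134510) (nat_lit 228)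 (nat_lit 340624949) (nat_lit 47) (nat_lit 5) (nat_lit 49) (nat_lit 5) (nat_lit 50) (nat_lit 5) (nat_lit 373) (nat_lit 359) (nat_lit 288)) (XT.nd (nat_lit 78) (nat_lit 228) (nat_lit 0) (XT.lf (nat_lit 0) (nat_lit 4825108432) (nat_lit 228) (nat_lit 6655819978) (nat_lit 76) (nat_lit 21739548500) (nat_lit 46) (nat_lit 5) (nat_lit 49) (nat_lit 5) (nat_lit 47) (nat_lit 5) (nat_lit 374) (nat_lit 359) (nat_lit 287)) (XT.lf (nat_lit 0) (nat_lit 10729004150) (nat_lit 304) (nat_lit 22190293244) (nat_lit 76) (nat_lit 1872933079) (nat_lit 43) (nat_lit 5) (nat_lit 47) (nat_lit 5) (nat_lit 44) (nat_lit 5) (nat_lit 375) (nat_lit 359) (nat_lit 286)))))) (XT.nd (nat_lit 390) (nat_lit 456) (nat_lit 0) (XT.nd (nat_lit 156) (nat_lit 380) (nat_lit 0) (XT.nd (nat_lit 78) (nat_lit 152) (nat_lit 0) (XT.lf (nat_lit 0) (nat_lit 17582011206) (nat_lit 304) (nat_lit 3010531824) (nat_lit 76) (nat_lit 15859042400) (nat_lit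 43) (nat_lit 5) (nat_lit 47) (nat_lit 5) (nat_lit 44) (nat_lit 5) (nat_lit 376) (nat_lit 359) (nat_lit 285)) (XT.lf (nat_lit 0) (nat_lit 18624865884) (nat_lit 152) (nat_lit 6798807555) (nat_lit 228) (nat_lit 12784786883) (nat_lit 41) (nat_lit 5) (nat_lit 43) (nat_lit 5) (nat_lit 44) (nat_lit 5) (nat_lit 377) (nat_lit 359) (nat_lit 284))) (XT.nd (nat_lit 78) (nat_lit 228) (nat_lit 0) (XT.lf (nat_lit 0) (nat_lit 1953123947) (nat_lit 152) (nat_lit 32258462693) (nat_lit 228) (nat_lit 5868789484) (nat_lit 39) (nat_lit 5) (nat_lit 41) (nat_lit 5) (nat_lit 42) (nat_lit 5) (nat_lit 378) (nat_lit 359) (nat_lit 283)) (XT.nd (nat_lit 78) (nat_lit 152) (nat_lit 0) (XT.lf (nat_lit 0) (nat_lit 2239205015) (nat_lit 228) (nat_lit 15972476615) (nat_lit 76) (nat_lit 23829785539) (nat_lit 38) (nat_lit 5) (nat_lit 41) (nat_lit 5) (nat_lit 39) (nat_lit 5) (nat_lit 379) (nat_lit 359) (nat_lit 282)) (XT.lf (nat_lit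 0) (nat_lit 8202578854) (nat_lit 152) (nat_lit 2666826304) (nat_lit 228) (nat_lit 33262598260) (nat_lit 36) (nat_lit 5) (nat_lit 38) (nat_lit 5) (nat_lit 39) (nat_lit 5) (nat_lit 380) (nat_lit 359) (nat_lit 281))))) (XT.nd (nat_lit 234) (nat_lit 304) (nat_lit 0) (XT.nd (nat_lit 78) (nat_lit 152) (nat_lit 0) (XT.lf (nat_lit 0) (nat_lit 20971243366) (nat_lit 228) (nat_lit 11495978414) (nat_lit 76) (nat_lit 13860066225) (nat_lit 36) (nat_lit 5) (nat_lit 39) (nat_lit 5) (nat_lit 37) (nat_lit 5) (nat_lit 381) (nat_lit 359) (nat_lit 280)) (XT.nd (nat_lit 78) (nat_lit 0) (nat_lit 0) (XT.lf (nat_lit 0) (nat_lit 15593506815) (nat_lit 152) (nat_lit 16726030663) (nat_lit 228) (nat_lit 16343596141) (nat_lit 34) (nat_lit 5) (nat_lit 36) (nat_lit 5) (nat_lit 37) (nat_lit 5) (nat_lit 382) (nat_lit 359) (nat_lit 279)) (XT.lf (nat_lit 0) (nat_lit 44898937003) (nat_lit 228) (nat_lit 5681090458) (nat_lit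 76) (nat_lit 579962814) (nat_lit 34) (nat_lit 5) (nat_lit 37) (nat_lit 5) (nat_lit 35) (nat_lit 4) (nat_lit 383) (nat_lit 359) (nat_lit 278)))) (XT.nd (nat_lit 78) (nat_lit 152) (nat_lit 0) (XT.lf (nat_lit 0) (nat_lit 5445976990) (nat_lit 152) (nat_lit 29222300030) (nat_lit 76) (nat_lit 19095464346) (nat_lit 32) (nat_lit 5) (nat_lit 34) (nat_lit 5) (nat_lit 33) (nat_lit 5) (nat_lit 384) (nat_lit 359) (nat_lit 277)) (XT.nd (nat_lit 78) (nat_lit 0) (nat_lit 0) (XT.lf (nat_lit 0) (nat_lit 806257737) (nat_lit 152) (nat_lit 17118453574) (nat_lit 228) (nat_lit 38624201342) (nat_lit 30) (nat_lit 5) (nat_lit 32) (nat_lit 5) (nat_lit 33) (nat_lit 5) (nat_lit 385) (nat_lit 359) (nat_lit 276)) (XT.lf (nat_lit 0) (nat_lit 32260375193) (nat_lit 228) (nat_lit 24667892135) (nat_lit 76) (nat_lit 2559941866) (nat_lit 30) (nat_lit 5) (nat_lit 33) (nat_lit 5) (nat_lit 31) (nat_lit 4) (nat_lit 386) (nat_lit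 359) (nat_lit 275))))))))
noncomputable def xc147 : XT := (XT.nd (nat_lit 1638) (nat_lit 684) (nat_lit 0) (XT.nd (nat_lit 780) (nat_lit 608) (nat_lit 0) (XT.nd (nat_lit 390) (nat_lit 304) (nat_lit 0) (XT.nd (nat_lit 156) (nat_lit 228) (nat_lit 0) (XT.nd (nat_lit 78) (nat_lit 76) (nat_lit 0) (XT.lf (nat_lit 0) (nat_lit 8884294387) (nat_lit 76) (nat_lit 39512037508) (nat_lit 152) (nat_lit 14214044257) (nat_lit 29) (nat_lit 5) (nat_lit 30) (nat_lit 5) (nat_lit 31) (nat_lit 4) (nat_lit 387) (nat_lit 359) (nat_lit 274)) (XT.lf (nat_lit 0) (nat_lit 535970339) (nat_lit 152) (nat_lit 19426904222) (nat_lit 76) (nat_lit 45964776894) (nat_lit 28) (nat_lit 5) (nat_lit 30) (nat_lit 5) (nat_lit 29) (nat_lit 5) (nat_lit 388) (nat_lit 359) (nat_lit 273))) (XT.nd (nat_lit 78) (nat_lit 76) (nat_lit 0) (XT.lf (nat_lit 0) (nat_lit 16178538802) (nat_lit 228) (nat_lit 51347699161) (nat_lit 76) (nat_lit 1916098202)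 (nat_lit 26) (nat_lit 5) (nat_lit 29) (nat_lit 5) (nat_lit 27) (nat_lit 4) (nat_lit 389) (nat_lit 359) (nat_lit 272)) (XT.nd (nat_lit 78) (nat_lit 76) (nat_lit 0) (XT.lf (nat_lit 0) (nat_lit 34131596657) (nat_lit 228) (nat_lit 14013132650) (nat_lit 76) (nat_lit 25008741005) (nat_lit 26) (nat_lit 5) (nat_lit 29) (nat_lit 5) (nat_lit 27) (nat_lit 4) (nat_lit 390) (nat_lit 359) (nat_lit 271)) (XT.lf (nat_lit 0) (nat_lit 27685896596) (nat_lit 76) (nat_lit 26496779751) (nat_lit 152) (nat_lit 22925877941) (nat_lit 25) (nat_lit 5) (nat_lit 26) (nat_lit 5) (nat_lit 27) (nat_lit 4) (nat_lit 391) (nat_lit 359) (nat_lit 270))))) (XT.nd (nat_lit 156) (nat_lit 152) (nat_lit 0) (XT.nd (nat_lit 78) (nat_lit 152) (nat_lit 0) (XT.lf (nat_lit 0) (nat_lit 73510708073) (nat_lit 76) (nat_lit 2706340115) (nat_lit 152) (nat_lit 5132661509) (nat_lit 25) (nat_lit 5) (nat_lit 26) (nat_lit 5) (nat_lit 27) (nat_lit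 4) (nat_lit 392) (nat_lit 359) (nat_lit 269)) (XT.lf (nat_lit 0) (nat_lit 14891221027) (nat_lit 152) (nat_lit 47754907626) (nat_lit 76) (nat_lit 23135992380) (nat_lit 23) (nat_lit 5) (nat_lit 25) (nat_lit 5) (nat_lit 24) (nat_lit 4) (nat_lit 393) (nat_lit 359) (nat_lit 268))) (XT.nd (nat_lit 78) (nat_lit 152) (nat_lit 0) (XT.lf (nat_lit 0) (nat_lit 36526216540) (nat_lit 152) (nat_lit 2759421308) (nat_lit 76) (nat_lit 51249903138) (nat_lit 23) (nat_lit 5) (nat_lit 25) (nat_lit 5) (nat_lit 24) (nat_lit 4) (nat_lit 394) (nat_lit 359) (nat_lit 267)) (XT.nd (nat_lit 78) (nat_lit 76) (nat_lit 0) (XT.lf (nat_lit 0) (nat_lit 48242701333) (nat_lit 76) (nat_lit 12806127743) (nat_lit 152) (nat_lit 34527860935) (nat_lit 22) (nat_lit 5) (nat_lit 23) (nat_lit 5) (nat_lit 24) (nat_lit 4) (nat_lit 395) (nat_lit 359) (nat_lit 266)) (XT.lf (nat_lit 0) (nat_lit 2188204175) (nat_lit 76) (nat_lit 85851488861)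 (nat_lit 76) (nat_lit 12940923331) (nat_lit 21) (nat_lit 4) (nat_lit 22) (nat_lit 5) (nat_lit 22) (nat_lit 4) (nat_lit 396) (nat_lit 359) (nat_lit 265)))))) (XT.nd (nat_lit 390) (nat_lit 304) (nat_lit 0) (XT.nd (nat_lit 156) (nat_lit 152) (nat_lit 0) (XT.nd (nat_lit 78) (nat_lit 76) (nat_lit 0) (XT.lf (nat_lit 0) (nat_lit 11511141869) (nat_lit 152) (nat_lit 48971289297) (nat_lit 76) (nat_lit 46181903097) (nat_lit 20) (nat_lit 5) (nat_lit 22) (nat_lit 5) (nat_lit 21) (nat_lit 4) (nat_lit 397) (nat_lit 359) (nat_lit 264)) (XT.lf (nat_lit 0) (nat_lit 4730132511) (nat_lit 76) (nat_lit 32600736213) (nat_lit 152) (nat_lit 75436139878) (nat_lit 19) (nat_lit 5) (nat_lit 20) (nat_lit 5) (nat_lit 21) (nat_lit 4) (nat_lit 398) (nat_lit 359) (nat_lit 263))) (XT.nd (nat_lit 78) (nat_lit 152) (nat_lit 0) (XT.lf (nat_lit 0) (nat_lit 65506974202) (nat_lit 76) (nat_lit 1045136989) (nat_lit 152) (nat_lit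 52698911290) (nat_lit 19) (nat_lit 5) (nat_lit 20) (nat_lit 5) (nat_lit 21) (nat_lit 4) (nat_lit 399) (nat_lit 359) (nat_lit 262)) (XT.nd (nat_lit 78) (nat_lit 76) (nat_lit 0) (XT.lf (nat_lit 0) (nat_lit 4307731631) (nat_lit 76) (nat_lit 94698552163) (nat_lit 76) (nat_lit 27175855762) (nat_lit 18) (nat_lit 4) (nat_lit 19) (nat_lit 5) (nat_lit 19) (nat_lit 4) (nat_lit 400) (nat_lit 359) (nat_lit 261)) (XT.lf (nat_lit 0) (nat_lit 1901504587) (nat_lit 152) (nat_lit 63570220352) (nat_lit 76) (nat_lit 68072719248) (nat_lit 17) (nat_lit 5) (nat_lit 19) (nat_lit 5) (nat_lit 18) (nat_lit 4) (nat_lit 401) (nat_lit 359) (nat_lit 260))))) (XT.nd (nat_lit 234) (nat_lit 228) (nat_lit 0) (XT.nd (nat_lit 78) (nat_lit 76) (nat_lit 0) (XT.lf (nat_lit 0) (nat_lit 31834213060) (nat_lit 152) (nat_lit 1312643669) (nat_lit 76) (nat_lit 108292618674) (nat_lit 17) (nat_lit 5) (nat_lit 19) (nat_lit 5) (nat_lit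 18) (nat_lit 4) (nat_lit 402) (nat_lit 359) (nat_lit 259)) (XT.nd (nat_lit 78) (nat_lit 0) (nat_lit 0) (XT.lf (nat_lit 0) (nat_lit 65913694451) (nat_lit 152) (nat_lit 80526401615) (nat_lit 0) (nat_lit 3385840951) (nat_lit 16) (nat_lit 5) (nat_lit 18) (nat_lit 4) (nat_lit 16) (nat_lit 4) (nat_lit 403) (nat_lit 359) (nat_lit 258)) (XT.lf (nat_lit 0) (nat_lit 103614888242) (nat_lit 152) (nat_lit 14111715034) (nat_lit 0) (nat_lit 41085084344) (nat_lit 16) (nat_lit 5) (nat_lit 18) (nat_lit 4) (nat_lit 16) (nat_lit 4) (nat_lit 404) (nat_lit 359) (nat_lit 257)))) (XT.nd (nat_lit 78) (nat_lit 152) (nat_lit 0) (XT.lf (nat_lit 0) (nat_lit 60645509007) (nat_lit 76) (nat_lit 85142948516) (nat_lit 76) (nat_lit 22611338693) (nat_lit 15) (nat_lit 4) (nat_lit 16) (nat_lit 5) (nat_lit 16) (nat_lit 4) (nat_lit 405) (nat_lit 359) (nat_lit 256)) (XT.nd (nat_lit 78) (nat_lit 76) (nat_lit 0) (XT.lf (nat_lit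 0) (nat_lit 12345230382) (nat_lit 152) (nat_lit 36855202779) (nat_lit 76) (nat_lit 129498825081) (nat_lit 14) (nat_lit 5) (nat_lit 16) (nat_lit 5) (nat_lit 15) (nat_lit 4) (nat_lit 406) (nat_lit 359) (nat_lit 255)) (XT.lf (nat_lit 0) (nat_lit 41184670311) (nat_lit 76) (nat_lit 8680474196) (nat_lit 152) (nat_lit 139831474866) (nat_lit 13) (nat_lit 5) (nat_lit 14) (nat_lit 5) (nat_lit 15) (nat_lit 4) (nat_lit 407) (nat_lit 359) (nat_lit 254))))))) (XT.nd (nat_lit 780) (nat_lit 380) (nat_lit 0) (XT.nd (nat_lit 390) (nat_lit 76) (nat_lit 0) (XT.nd (nat_lit 156) (nat_lit 152) (nat_lit 0) (XT.nd (nat_lit 78) (nat_lit 76) (nat_lit 0) (XT.lf (nat_lit 0) (nat_lit 92262151591) (nat_lit 152) (nat_lit 74803374502) (nat_lit 0) (nat_lit 34358203568) (nat_lit 13) (nat_lit 5) (nat_lit 15) (nat_lit 4) (nat_lit 13) (nat_lit 4) (nat_lit 408) (nat_lit 359) (nat_lit 253)) (XT.lf (nat_lit 0) (nat_lit 4813441451)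 (nat_lit 76) (nat_lit 133576799463) (nat_lit 76) (nat_lit 75671622358) (nat_lit 12) (nat_lit 4) (nat_lit 13) (nat_lit 5) (nat_lit 13) (nat_lit 4) (nat_lit 409) (nat_lit 359) (nat_lit 252))) (XT.nd (nat_lit 78) (nat_lit 152) (nat_lit 0) (XT.lf (nat_lit 0) (nat_lit 95050066656) (nat_lit 76) (nat_lit 95201912084) (nat_lit 76) (nat_lit 37295596940) (nat_lit 12) (nat_lit 4) (nat_lit 13) (nat_lit 5) (nat_lit 13) (nat_lit 4) (nat_lit 410) (nat_lit 359) (nat_lit 251)) (XT.nd (nat_lit 78) (nat_lit 76) (nat_lit 0) (XT.lf (nat_lit 0) (nat_lit 3941122326) (nat_lit 152) (nat_lit 49709834442) (nat_lit 76) (nat_lit 188453343934) (nat_lit 11) (nat_lit 5) (nat_lit 13) (nat_lit 5) (nat_lit 12) (nat_lit 4) (nat_lit 411) (nat_lit 359) (nat_lit 250)) (XT.lf (nat_lit 0) (nat_lit 40768300041) (nat_lit 76) (nat_lit 6672394482) (nat_lit 152) (nat_lit 210229064326) (nat_lit 10) (nat_lit 5) (nat_lit 11) (nat_lit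 5) (nat_lit 12) (nat_lit 4) (nat_lit 412) (nat_lit 359) (nat_lit 249))))) (XT.nd (nat_lit 156) (nat_lit 76) (nat_lit 0) (XT.nd (nat_lit 78) (nat_lit 0) (nat_lit 0) (XT.lf (nat_lit 0) (nat_lit 96872816601) (nat_lit 152) (nat_lit 134158287931) (nat_lit 0) (nat_lit 43253142546) (nat_lit 10) (nat_lit 5) (nat_lit 12) (nat_lit 4) (nat_lit 10) (nat_lit 4) (nat_lit 413) (nat_lit 359) (nat_lit 248)) (XT.lf (nat_lit 0) (nat_lit 150431313005) (nat_lit 152) (nat_lit 44971972720) (nat_lit 0) (nat_lit 96810864421) (nat_lit 10) (nat_lit 5) (nat_lit 12) (nat_lit 4) (nat_lit 10) (nat_lit 4) (nat_lit 414) (nat_lit 359) (nat_lit 247))) (XT.nd (nat_lit 78) (nat_lit 0) (nat_lit 0) (XT.lf (nat_lit 0) (nat_lit 54050283662) (nat_lit 76) (nat_lit 155522723132) (nat_lit 76) (nat_lit 101901557390) (nat_lit 9) (nat_lit 4) (nat_lit 10) (nat_lit 5) (nat_lit 10) (nat_lit 4) (nat_lit 415) (nat_lit 359) (nat_lit 246))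 (XT.nd (nat_lit 78) (nat_lit 0) (nat_lit 0) (XT.lf (nat_lit 0) (nat_lit 163549208687) (nat_lit 76) (nat_lit 111125085939) (nat_lit 76) (nat_lit 57503256162) (nat_lit 9) (nat_lit 4) (nat_lit 10) (nat_lit 5) (nat_lit 10) (nat_lit 4) (nat_lit 416) (nat_lit 359) (nat_lit 245)) (XT.lf (nat_lit 0) (nat_lit 281805540486) (nat_lit 76) (nat_lit 63176890468) (nat_lit 76) (nat_lit 9554445844) (nat_lit 9) (nat_lit 4) (nat_lit 10) (nat_lit 5) (nat_lit 10) (nat_lit 4) (nat_lit 417) (nat_lit 359) (nat_lit 244)))))) (XT.nd (nat_lit 390) (nat_lit 152) (nat_lit 0) (XT.nd (nat_lit 156) (nat_lit 76) (nat_lit 0) (XT.nd (nat_lit 78) (nat_lit 0) (nat_lit 0) (XT.lf (nat_lit 0) (nat_lit 31389643681) (nat_lit 76) (nat_lit 9481826322) (nat_lit 152) (nat_lit 337671929484) (nat_lit 7) (nat_lit 5) (nat_lit 8) (nat_lit 5) (nat_lit 9) (nat_lit 4) (nat_lit 418) (nat_lit 359) (nat_lit 243)) (XT.lf (nat_lit 0) (nat_lit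 98020977897) (nat_lit 152) (nat_lit 257803605240) (nat_lit 0) (nat_lit 48369550991) (nat_lit 7) (nat_lit 5) (nat_lit 9) (nat_lit 4) (nat_lit 7) (nat_lit 4) (nat_lit 419) (nat_lit 359) (nat_lit 242))) (XT.nd (nat_lit 78) (nat_lit 76) (nat_lit 0) (XT.lf (nat_lit 0) (nat_lit 159987628099) (nat_lit 152) (nat_lit 161553935731) (nat_lit 0) (nat_lit 110335749262) (nat_lit 7) (nat_lit 5) (nat_lit 9) (nat_lit 4) (nat_lit 7) (nat_lit 4) (nat_lit 420) (nat_lit 359) (nat_lit 241)) (XT.nd (nat_lit 78) (nat_lit 76) (nat_lit 0) (XT.lf (nat_lit 0) (nat_lit 226910592238) (nat_lit 152) (nat_lit 57606340714) (nat_lit 0) (nat_lit 177258294947) (nat_lit 7) (nat_lit 5) (nat_lit 9) (nat_lit 4) (nat_lit 7) (nat_lit 4) (nat_lit 421) (nat_lit 359) (nat_lit 240)) (XT.lf (nat_lit 0) (nat_lit 57533209717) (nat_lit 76) (nat_lit 243036916202) (nat_lit 76) (nat_lit 193384231453) (nat_lit 6) (nat_lit 4) (nat_lit 7) (nat_lit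 5) (nat_lit 7) (nat_lit 4) (nat_lit 422) (nat_lit 359) (nat_lit 239))))) (XT.nd (nat_lit 234) (nat_lit 152) (nat_lit 0) (XT.nd (nat_lit 78) (nat_lit 0) (nat_lit 0) (XT.lf (nat_lit 0) (nat_lit 185158199486) (nat_lit 76) (nat_lit 196538364959) (nat_lit 76) (nat_lit 146885321453) (nat_lit 6) (nat_lit 4) (nat_lit 7) (nat_lit 5) (nat_lit 7) (nat_lit 4) (nat_lit 423) (nat_lit 359) (nat_lit 238)) (XT.nd (nat_lit 78) (nat_lit 0) (nat_lit 0) (XT.lf (nat_lit 0) (nat_lit 322991477013) (nat_lit 76) (nat_lit 146320791696) (nat_lit 76) (nat_lit 96667416007) (nat_lit 6) (nat_lit 4) (nat_lit 7) (nat_lit 5) (nat_lit 7) (nat_lit 4) (nat_lit 424) (nat_lit 359) (nat_lit 237)) (XT.lf (nat_lit 0) (nat_lit 471849832091) (nat_lit 76) (nat_lit 92086610794) (nat_lit 76) (nat_lit 42432927529) (nat_lit 6) (nat_lit 4) (nat_lit 7) (nat_lit 5) (nat_lit 7) (nat_lit 4) (nat_lit 425) (nat_lit 359) (nat_lit 236)))) (XT.nd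 (nat_lit 78) (nat_lit 76) (nat_lit 0) (XT.lf (nat_lit 0) (nat_lit 15332168709) (nat_lit 152) (nat_lit 17763057142) (nat_lit 76) (nat_lit 616864010932) (nat_lit 5) (nat_lit 5) (nat_lit 7) (nat_lit 5) (nat_lit 6) (nat_lit 4) (nat_lit 426) (nat_lit 359) (nat_lit 235)) (XT.nd (nat_lit 78) (nat_lit 0) (nat_lit 0) (XT.lf (nat_lit 0) (nat_lit 78975418885) (nat_lit 152) (nat_lit 584689468816) (nat_lit 0) (nat_lit 32999278371) (nat_lit 4) (nat_lit 5) (nat_lit 6) (nat_lit 4) (nat_lit 4) (nat_lit 4) (nat_lit 427) (nat_lit 359) (nat_lit 234)) (XT.lf (nat_lit 0) (nat_lit 149067343923) (nat_lit 152) (nat_lit 494838591305) (nat_lit 0) (nat_lit 103090977331) (nat_lit 4) (nat_lit 5) (nat_lit 6) (nat_lit 4) (nat_lit 4) (nat_lit 4) (nat_lit 428) (nat_lit 359) (nat_lit 233))))))))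
noncomputable def xc148 : XT := (XT.nd (nat_lit 1560) (nat_lit 0) (nat_lit 0) (XT.nd (nat_lit 780) (nat_lit 152) (nat_lit 0) (XT.nd (nat_lit 390) (nat_lit 0) (nat_lit 0) (XT.nd (nat_lit 156) (nat_lit 76) (nat_lit 0) (XT.nd (nat_lit 78) (nat_lit 0) (nat_lit 0) (XT.lf (nat_lit 0) (nat_lit 224765984293) (nat_lit 152) (nat_lit 397800937237) (nat_lit 0) (nat_lit 178789408370) (nat_lit 4) (nat_lit 5) (nat_lit 6) (nat_lit 4) (nat_lit 4) (nat_lit 4) (nat_lit 429) (nat_lit 359) (nat_lit 232)) (XT.lf (nat_lit 0) (nat_lit 306519924531) (nat_lit 152) (nat_lit 293001468660) (nat_lit 0) (nat_lit 260543154782) (nat_lit 4) (nat_lit 5) (nat_lit 6) (nat_lit 4) (nat_lit 4) (nat_lit 4) (nat_lit 430) (nat_lit 359) (nat_lit 231))) (XT.nd (nat_lit 78) (nat_lit 76) (nat_lit 0) (XT.lf (nat_lit 0) (nat_lit 394813632431) (nat_lit 152) (nat_lit 179819151687) (nat_lit 0) (nat_lit 348836683213) (nat_lit 4) (nat_lit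 5) (nat_lit 6) (nat_lit 4) (nat_lit 4) (nat_lit 4) (nat_lit 431) (nat_lit 359) (nat_lit 230)) (XT.nd (nat_lit 78) (nat_lit 76) (nat_lit 0) (XT.lf (nat_lit 0) (nat_lit 490170329964) (nat_lit 152) (nat_lit 57583276291) (nat_lit 0) (nat_lit 444193214573) (nat_lit 4) (nat_lit 5) (nat_lit 6) (nat_lit 4) (nat_lit 4) (nat_lit 4) (nat_lit 432) (nat_lit 359) (nat_lit 229)) (XT.lf (nat_lit 0) (nat_lit 78349897459) (nat_lit 76) (nat_lit 516689513317) (nat_lit 76) (nat_lit 470712244061) (nat_lit 3) (nat_lit 4) (nat_lit 4) (nat_lit 5) (nat_lit 4) (nat_lit 4) (nat_lit 433) (nat_lit 359) (nat_lit 228))))) (XT.nd (nat_lit 156) (nat_lit 0) (nat_lit 0) (XT.nd (nat_lit 78) (nat_lit 0) (nat_lit 0) (XT.lf (nat_lit 0) (nat_lit 228431610263) (nat_lit 76) (nat_lit 481440379652) (nat_lit 76) (nat_lit 435462967929) (nat_lit 3) (nat_lit 4) (nat_lit 4) (nat_lit 5) (nat_lit 4) (nat_lit 4) (nat_lit 434) (nat_lit 359)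 (nat_lit 227)) (XT.lf (nat_lit 0) (nat_lit 390519001950) (nat_lit 76) (nat_lit 443371750327) (nat_lit 76) (nat_lit 397394206690) (nat_lit 3) (nat_lit 4) (nat_lit 4) (nat_lit 5) (nat_lit 4) (nat_lit 4) (nat_lit 435) (nat_lit 359) (nat_lit 226))) (XT.nd (nat_lit 78) (nat_lit 0) (nat_lit 0) (XT.lf (nat_lit 0) (nat_lit 565572590395) (nat_lit 76) (nat_lit 402258033465) (nat_lit 76) (nat_lit 356280367684) (nat_lit 3) (nat_lit 4) (nat_lit 4) (nat_lit 5) (nat_lit 4) (nat_lit 4) (nat_lit 436) (nat_lit 359) (nat_lit 225)) (XT.nd (nat_lit 78) (nat_lit 0) (nat_lit 0) (XT.lf (nat_lit 0) (nat_lit 754629730197) (nat_lit 76) (nat_lit 357855592223) (nat_lit 76) (nat_lit 311877813347) (nat_lit 3) (nat_lit 4) (nat_lit 4) (nat_lit 5) (nat_lit 4) (nat_lit 4) (nat_lit 437) (nat_lit 359) (nat_lit 224)) (XT.lf (nat_lit 0) (nat_lit 958810759962) (nat_lit 76) (nat_lit 309901301025) (nat_lit 76) (nat_lit 263923417432)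 (nat_lit 3) (nat_lit 4) (nat_lit 4) (nat_lit 5) (nat_lit 4) (nat_lit 4) (nat_lit 438) (nat_lit 359) (nat_lit 223)))))) (XT.nd (nat_lit 390) (nat_lit 0) (nat_lit 0) (XT.nd (nat_lit 156) (nat_lit 152) (nat_lit 0) (XT.nd (nat_lit 78) (nat_lit 0) (nat_lit 0) (XT.lf (nat_lit 0) (nat_lit 1179325641349) (nat_lit 76) (nat_lit 258110986294) (nat_lit 76) (nat_lit 212133005739) (nat_lit 3) (nat_lit 4) (nat_lit 4) (nat_lit 5) (nat_lit 4) (nat_lit 4) (nat_lit 439) (nat_lit 359) (nat_lit 222)) (XT.lf (nat_lit 0) (nat_lit 1417481129210) (nat_lit 76) (nat_lit 202177742459) (nat_lit 76) (nat_lit 156199672126) (nat_lit 3) (nat_lit 4) (nat_lit 4) (nat_lit 5) (nat_lit 4) (nat_lit 4) (nat_lit 440) (nat_lit 359) (nat_lit 221))) (XT.nd (nat_lit 78) (nat_lit 152) (nat_lit 0) (XT.lf (nat_lit 0) (nat_lit 1674688515324) (nat_lit 76) (nat_lit 141770113263) (nat_lit 76) (nat_lit 95791959801) (nat_lit 3) (nat_lit 4)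 (nat_lit 4) (nat_lit 5) (nat_lit 4) (nat_lit 4) (nat_lit 441) (nat_lit 359) (nat_lit 220)) (XT.nd (nat_lit 78) (nat_lit 152) (nat_lit 0) (XT.lf (nat_lit 0) (nat_lit 1952471991610) (nat_lit 76) (nat_lit 76530127568) (nat_lit 76) (nat_lit 30551897136) (nat_lit 3) (nat_lit 4) (nat_lit 4) (nat_lit 5) (nat_lit 4) (nat_lit 4) (nat_lit 442) (nat_lit 359) (nat_lit 219)) (XT.lf (nat_lit 0) (nat_lit 34607379601) (nat_lit 76) (nat_lit 4135736409) (nat_lit 152) (nat_lit 2179755254716) (nat_lit 1) (nat_lit 5) (nat_lit 2) (nat_lit 5) (nat_lit 3) (nat_lit 4) (nat_lit 443) (nat_lit 359) (nat_lit 218))))) (XT.nd (nat_lit 156) (nat_lit 0) (nat_lit 0) (XT.nd (nat_lit 78) (nat_lit 0) (nat_lit 0) (XT.lf (nat_lit 0) (nat_lit 116715668845) (nat_lit 152) (nat_lit 2198853251259) (nat_lit 0) (nat_lit 74143106168) (nat_lit 1) (nat_lit 5) (nat_lit 3) (nat_lit 4) (nat_lit 1) (nat_lit 4) (nat_lit 444) (nat_lit 359)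 (nat_lit 217)) (XT.lf (nat_lit 0) (nat_lit 201033230970) (nat_lit 152) (nat_lit 2215120355179) (nat_lit 0) (nat_lit 158460611717) (nat_lit 1) (nat_lit 5) (nat_lit 3) (nat_lit 4) (nat_lit 1) (nat_lit 4) (nat_lit 445) (nat_lit 359) (nat_lit 216))) (XT.nd (nat_lit 78) (nat_lit 0) (nat_lit 0) (XT.lf (nat_lit 0) (nat_lit 292095997453) (nat_lit 152) (nat_lit 2232689235978) (nat_lit 0) (nat_lit 249523325815) (nat_lit 1) (nat_lit 5) (nat_lit 3) (nat_lit 4) (nat_lit 1) (nat_lit 4) (nat_lit 446) (nat_lit 359) (nat_lit 215)) (XT.nd (nat_lit 78) (nat_lit 0) (nat_lit 0) (XT.lf (nat_lit 0) (nat_lit 390443599503) (nat_lit 152) (nat_lit 2251664005544) (nat_lit 0) (nat_lit 347870879360) (nat_lit 1) (nat_lit 5) (nat_lit 3) (nat_lit 4) (nat_lit 1) (nat_lit 4) (nat_lit 447) (nat_lit 359) (nat_lit 214)) (XT.lf (nat_lit 0) (nat_lit 496658837724) (nat_lit 152) (nat_lit 2272157106955) (nat_lit 0) (nat_lit 454086072670)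 (nat_lit 1) (nat_lit 5) (nat_lit 3) (nat_lit 4) (nat_lit 1) (nat_lit 4) (nat_lit 448) (nat_lit 359) (nat_lit 213))))))) (XT.nd (nat_lit 780) (nat_lit 0) (nat_lit 0) (XT.nd (nat_lit 390) (nat_lit 0) (nat_lit 0) (XT.nd (nat_lit 156) (nat_lit 0) (nat_lit 0) (XT.nd (nat_lit 78) (nat_lit 0) (nat_lit 0) (XT.lf (nat_lit 0) (nat_lit 611371135751) (nat_lit 152) (nat_lit 2294289980811) (nat_lit 0) (nat_lit 568798329111) (nat_lit 1) (nat_lit 5) (nat_lit 3) (nat_lit 4) (nat_lit 1) (nat_lit 4) (nat_lit 449) (nat_lit 359) (nat_lit 212)) (XT.lf (nat_lit 0) (nat_lit 735260270163) (nat_lit 152) (nat_lit 2318193784884) (nat_lit 0) (nat_lit 692687425020) (nat_lit 1) (nat_lit 5) (nat_lit 3) (nat_lit 4) (nat_lit 1) (nat_lit 4) (nat_lit 450) (nat_lit 359) (nat_lit 211))) (XT.nd (nat_lit 78) (nat_lit 0) (nat_lit 0) (XT.lf (nat_lit 0) (nat_lit 869060398796) (nat_lit 152) (nat_lit 2344010171346) (nat_lit 0) (nat_lit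 826487518000) (nat_lit 1) (nat_lit 5) (nat_lit 3) (nat_lit 4) (nat_lit 1) (nat_lit 4) (nat_lit 451) (nat_lit 359) (nat_lit 210)) (XT.nd (nat_lit 78) (nat_lit 0) (nat_lit 0) (XT.lf (nat_lit 0) (nat_lit 1013564411300) (nat_lit 152) (nat_lit 2371892126192) (nat_lit 0) (nat_lit 970991497492) (nat_lit 1) (nat_lit 5) (nat_lit 3) (nat_lit 4) (nat_lit 1) (nat_lit 4) (nat_lit 452) (nat_lit 359) (nat_lit 209)) (XT.lf (nat_lit 0) (nat_lit 1169628627749) (nat_lit 152) (nat_lit 2402004875819) (nat_lit 0) (nat_lit 1127055683375) (nat_lit 1) (nat_lit 5) (nat_lit 3) (nat_lit 4) (nat_lit 1) (nat_lit 4) (nat_lit 453) (nat_lit 359) (nat_lit 208))))) (XT.nd (nat_lit 156) (nat_lit 0) (nat_lit 0) (XT.nd (nat_lit 78) (nat_lit 0) (nat_lit 0) (XT.lf (nat_lit 0) (nat_lit 1338177873129) (nat_lit 152) (nat_lit 2434526866152) (nat_lit 0) (nat_lit 1295604900454) (nat_lit 1) (nat_lit 5) (nat_lit 3) (nat_lit 4) (nat_lit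 1) (nat_lit 4) (nat_lit 454) (nat_lit 359) (nat_lit 207)) (XT.lf (nat_lit 0) (nat_lit 1520210957784) (nat_lit 152) (nat_lit 2469650820096) (nat_lit 0) (nat_lit 1477637958903) (nat_lit 1) (nat_lit 5) (nat_lit 3) (nat_lit 4) (nat_lit 1) (nat_lit 4) (nat_lit 455) (nat_lit 359) (nat_lit 206))) (XT.nd (nat_lit 78) (nat_lit 0) (nat_lit 0) (XT.lf (nat_lit 0) (nat_lit 1716806596289) (nat_lit 152) (nat_lit 2507584879602) (nat_lit 0) (nat_lit 1674233573143) (nat_lit 1) (nat_lit 5) (nat_lit 3) (nat_lit 4) (nat_lit 1) (nat_lit 4) (nat_lit 456) (nat_lit 359) (nat_lit 205)) (XT.nd (nat_lit 78) (nat_lit 0) (nat_lit 0) (XT.lf (nat_lit 0) (nat_lit 1929129799835) (nat_lit 152) (nat_lit 2548553839094) (nat_lit 0) (nat_lit 1886556754223) (nat_lit 1) (nat_lit 5) (nat_lit 3) (nat_lit 4) (nat_lit 1) (nat_lit 4) (nat_lit 457) (nat_lit 359) (nat_lit 204)) (XT.lf (nat_lit 0) (nat_lit 2158438780000) (nat_lit 152)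 (nat_lit 2592800477594) (nat_lit 0) (nat_lit 2115865713584) (nat_lit 1) (nat_lit 5) (nat_lit 3) (nat_lit 4) (nat_lit 1) (nat_lit 4) (nat_lit 458) (nat_lit 359) (nat_lit 203)))))) (XT.nd (nat_lit 45552) (nat_lit 0) (nat_lit 4408) (XT.nd (nat_lit 156) (nat_lit 0) (nat_lit 0) (XT.nd (nat_lit 78) (nat_lit 0) (nat_lit 0) (XT.lf (nat_lit 0) (nat_lit 2406092404812) (nat_lit 152) (nat_lit 2640586997402) (nat_lit 0) (nat_lit 2363519319135) (nat_lit 1) (nat_lit 5) (nat_lit 3) (nat_lit 4) (nat_lit 1) (nat_lit 4) (nat_lit 459) (nat_lit 359) (nat_lit 202)) (XT.lf (nat_lit 0) (nat_lit 2673558251309) (nat_lit 152) (nat_lit 2692196577896) (nat_lit 0) (nat_lit 2630985147797) (nat_lit 1) (nat_lit 5) (nat_lit 3) (nat_lit 4) (nat_lit 1) (nat_lit 4) (nat_lit 460) (nat_lit 359) (nat_lit 201))) (XT.nd (nat_lit 45240) (nat_lit 0) (nat_lit 4788) (XT.lf (nat_lit 0) (nat_lit 2962421302285) (nat_lit 152) (nat_lit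 2747935053626) (nat_lit 0) (nat_lit 2919848182259) (nat_lit 1) (nat_lit 5) (nat_lit 3) (nat_lit 4) (nat_lit 1) (nat_lit 4) (nat_lit 461) (nat_lit 359) (nat_lit 200)) (XT.nd (nat_lit 78) (nat_lit 0) (nat_lit 0) (XT.lf (nat_lit 0) (nat_lit 7611679953) (nat_lit 532) (nat_lit 963418048) (nat_lit 532) (nat_lit 963418048) (nat_lit 64) (nat_lit 3) (nat_lit 71) (nat_lit 3) (nat_lit 71) (nat_lit 5) (nat_lit 360) (nat_lit 360) (nat_lit 300)) (XT.lf (nat_lit 76) (nat_lit 7733079521) (nat_lit 0) (nat_lit 8455573557) (nat_lit 532) (nat_lit 3622790442) (nat_lit 65) (nat_lit 5) (nat_lit 64) (nat_lit 3) (nat_lit 71) (nat_lit 5) (nat_lit 361) (nat_lit 360) (nat_lit 299))))) (XT.nd (nat_lit 234) (nat_lit 456) (nat_lit 0) (XT.nd (nat_lit 78) (nat_lit 0) (nat_lit 0) (XT.lf (nat_lit 0) (nat_lit 17290601904) (nat_lit 456) (nat_lit 2360148758) (nat_lit 532) (nat_lit 949118737) (nat_lit 65) (nat_lit 5) (nat_lit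 71) (nat_lit 5) (nat_lit 72) (nat_lit 5) (nat_lit 362) (nat_lit 360) (nat_lit 298)) (XT.nd (nat_lit 78) (nat_lit 0) (nat_lit 0) (XT.lf (nat_lit 76) (nat_lit 8321742309) (nat_lit 0) (nat_lit 10562897246) (nat_lit 532) (nat_lit 2534430091) (nat_lit 66) (nat_lit 5) (nat_lit 65) (nat_lit 5) (nat_lit 72) (nat_lit 5) (nat_lit 363) (nat_lit 360) (nat_lit 297)) (XT.lf (nat_lit 76) (nat_lit 19982229444) (nat_lit 0) (nat_lit 673598777) (nat_lit 532) (nat_lit 1644021275) (nat_lit 66) (nat_lit 5) (nat_lit 65) (nat_lit 5) (nat_lit 72) (nat_lit 5) (nat_lit 364) (nat_lit 360) (nat_lit 296)))) (XT.nd (nat_lit 78) (nat_lit 532) (nat_lit 0) (XT.lf (nat_lit 76) (nat_lit 9550928237) (nat_lit 0) (nat_lit 13474455067) (nat_lit 532) (nat_lit 189187523) (nat_lit 67) (nat_lit 5) (nat_lit 66) (nat_lit 5) (nat_lit 73) (nat_lit 5) (nat_lit 365) (nat_lit 360) (nat_lit 295)) (XT.nd (nat_lit 78) (nat_lit 0) (nat_lit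 76) (XT.lf (nat_lit 0) (nat_lit 1382132006) (nat_lit 532) (nat_lit 1760102235) (nat_lit 608) (nat_lit 21052048848) (nat_lit 59) (nat_lit 5) (nat_lit 66) (nat_lit 5) (nat_lit 67) (nat_lit 5) (nat_lit 366) (nat_lit 360) (nat_lit 294)) (XT.lf (nat_lit 0) (nat_lit 3537424789) (nat_lit 532) (nat_lit 13766769372) (nat_lit 76) (nat_lit 7910316115) (nat_lit 60) (nat_lit 5) (nat_lit 67) (nat_lit 5) (nat_lit 61) (nat_lit 5) (nat_lit 367) (nat_lit 360) (nat_lit 293))))))))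
noncomputable def xc149 : XT := (XT.nd (nat_lit 1560) (nat_lit 1292) (nat_lit 0) (XT.nd (nat_lit 780) (nat_lit 988) (nat_lit 0) (XT.nd (nat_lit 390) (nat_lit 456) (nat_lit 0) (XT.nd (nat_lit 156) (nat_lit 456) (nat_lit 0) (XT.nd (nat_lit 78) (nat_lit 380) (nat_lit 0) (XT.lf (nat_lit 0) (nat_lit 5984548074) (nat_lit 532) (nat_lit 594046357) (nat_lit 76) (nat_lit 19728218050) (nat_lit 60) (nat_lit 5) (nat_lit 67) (nat_lit 5) (nat_lit 61) (nat_lit 5) (nat_lit 368) (nat_lit 360) (nat_lit 292)) (XT.lf (nat_lit 0) (nat_lit 9090927175) (nat_lit 456) (nat_lit 13249467437) (nat_lit 76) (nat_lit 5109034084) (nat_lit 55) (nat_lit 5) (nat_lit 61) (nat_lit 5) (nat_lit 56) (nat_lit 5) (nat_lit 369) (nat_lit 360) (nat_lit 291))) (XT.nd (nat_lit 78) (nat_lit 228) (nat_lit 0) (XT.lf (nat_lit 0) (nat_lit 1418018216) (nat_lit 228) (nat_lit 11239275108) (nat_lit 304) (nat_lit 16009250814) (nat_lit 52) (nat_lit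 5) (nat_lit 55) (nat_lit 5) (nat_lit 56) (nat_lit 5) (nat_lit 370) (nat_lit 360) (nat_lit 290)) (XT.nd (nat_lit 78) (nat_lit 228) (nat_lit 0) (XT.lf (nat_lit 0) (nat_lit 16888996338) (nat_lit 304) (nat_lit 11978311481) (nat_lit 76) (nat_lit 1083326260) (nat_lit 52) (nat_lit 5) (nat_lit 56) (nat_lit 5) (nat_lit 53) (nat_lit 5) (nat_lit 371) (nat_lit 360) (nat_lit 289)) (XT.lf (nat_lit 0) (nat_lit 4432946621) (nat_lit 228) (nat_lit 17415866102) (nat_lit 304) (nat_lit 9457479235) (nat_lit 49) (nat_lit 5) (nat_lit 52) (nat_lit 5) (nat_lit 53) (nat_lit 5) (nat_lit 372) (nat_lit 360) (nat_lit 288))))) (XT.nd (nat_lit 156) (nat_lit 304) (nat_lit 0) (XT.nd (nat_lit 78) (nat_lit 152) (nat_lit 0) (XT.lf (nat_lit 0) (nat_lit 22828187592) (nat_lit 228) (nat_lit 4696190822) (nat_lit 304) (nat_lit 5220513337) (nat_lit 49) (nat_lit 5) (nat_lit 52) (nat_lit 5) (nat_lit 53) (nat_lit 5) (nat_lit 373) (nat_lit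 360) (nat_lit 287)) (XT.lf (nat_lit 0) (nat_lit 8599210318) (nat_lit 152) (nat_lit 25471081149) (nat_lit 228) (nat_lit 194989822) (nat_lit 47) (nat_lit 5) (nat_lit 49) (nat_lit 5) (nat_lit 50) (nat_lit 5) (nat_lit 374) (nat_lit 360) (nat_lit 286))) (XT.nd (nat_lit 78) (nat_lit 228) (nat_lit 0) (XT.lf (nat_lit 0) (nat_lit 5363188132) (nat_lit 228) (nat_lit 6990256545) (nat_lit 76) (nat_lit 23512405535) (nat_lit 46) (nat_lit 5) (nat_lit 49) (nat_lit 5) (nat_lit 47) (nat_lit 5) (nat_lit 375) (nat_lit 360) (nat_lit 285)) (XT.nd (nat_lit 78) (nat_lit 0) (nat_lit 0) (XT.lf (nat_lit 0) (nat_lit 11733917009) (nat_lit 304) (nat_lit 23761917351) (nat_lit 76) (nat_lit 2067955327) (nat_lit 43) (nat_lit 5) (nat_lit 47) (nat_lit 5) (nat_lit 44) (nat_lit 5) (nat_lit 376) (nat_lit 360) (nat_lit 284)) (XT.lf (nat_lit 0) (nat_lit 19124305924) (nat_lit 304) (nat_lit 3062856452) (nat_lit 76) (nat_lit 17169606164)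 (nat_lit 43) (nat_lit 5) (nat_lit 47) (nat_lit 5) (nat_lit 44) (nat_lit 5) (nat_lit 377) (nat_lit 360) (nat_lit 283)))))) (XT.nd (nat_lit 390) (nat_lit 456) (nat_lit 0) (XT.nd (nat_lit 156) (nat_lit 228) (nat_lit 0) (XT.nd (nat_lit 78) (nat_lit 152) (nat_lit 0) (XT.lf (nat_lit 0) (nat_lit 20298600467) (nat_lit 152) (nat_lit 7289065389) (nat_lit 228) (nat_lit 13666984685) (nat_lit 41) (nat_lit 5) (nat_lit 43) (nat_lit 5) (nat_lit 44) (nat_lit 5) (nat_lit 378) (nat_lit 360) (nat_lit 282)) (XT.lf (nat_lit 0) (nat_lit 2297430975) (nat_lit 152) (nat_lit 34777261623) (nat_lit 228) (nat_lit 6201946402) (nat_lit 39) (nat_lit 5) (nat_lit 41) (nat_lit 5) (nat_lit 42) (nat_lit 5) (nat_lit 379) (nat_lit 360) (nat_lit 281))) (XT.nd (nat_lit 78) (nat_lit 152) (nat_lit 0) (XT.lf (nat_lit 0) (nat_lit 2538272573) (nat_lit 228) (nat_lit 17069769934) (nat_lit 76) (nat_lit 25787085051) (nat_lit 38) (nat_lit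 5) (nat_lit 41) (nat_lit 5) (nat_lit 39) (nat_lit 5) (nat_lit 380) (nat_lit 360) (nat_lit 280)) (XT.nd (nat_lit 78) (nat_lit 0) (nat_lit 0) (XT.lf (nat_lit 0) (nat_lit 9034720230) (nat_lit 152) (nat_lit 2819515950) (nat_lit 228) (nat_lit 35799047359) (nat_lit 36) (nat_lit 5) (nat_lit 38) (nat_lit 5) (nat_lit 39) (nat_lit 5) (nat_lit 381) (nat_lit 360) (nat_lit 279)) (XT.lf (nat_lit 0) (nat_lit 22757033020) (nat_lit 228) (nat_lit 12245511844) (nat_lit 76) (nat_lit 15022225390) (nat_lit 36) (nat_lit 5) (nat_lit 39) (nat_lit 5) (nat_lit 37) (nat_lit 5) (nat_lit 382) (nat_lit 360) (nat_lit 278))))) (XT.nd (nat_lit 156) (nat_lit 304) (nat_lit 0) (XT.nd (nat_lit 78) (nat_lit 0) (nat_lit 0) (XT.lf (nat_lit 0) (nat_lit 17006824739) (nat_lit 152) (nat_lit 18002347634) (nat_lit 228) (nat_lit 17538636575) (nat_lit 34) (nat_lit 5) (nat_lit 36) (nat_lit 5) (nat_lit 37) (nat_lit 5) (nat_lit 383) (nat_lit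 360) (nat_lit 277)) (XT.lf (nat_lit 0) (nat_lit 48588590258) (nat_lit 228) (nat_lit 5975645031) (nat_lit 76) (nat_lit 680689212) (nat_lit 34) (nat_lit 5) (nat_lit 37) (nat_lit 5) (nat_lit 35) (nat_lit 4) (nat_lit 384) (nat_lit 360) (nat_lit 276))) (XT.nd (nat_lit 78) (nat_lit 152) (nat_lit 0) (XT.lf (nat_lit 0) (nat_lit 5978390967) (nat_lit 152) (nat_lit 31399066979) (nat_lit 76) (nat_lit 20679604484) (nat_lit 32) (nat_lit 5) (nat_lit 34) (nat_lit 5) (nat_lit 33) (nat_lit 5) (nat_lit 385) (nat_lit 360) (nat_lit 275)) (XT.nd (nat_lit 78) (nat_lit 0) (nat_lit 0) (XT.lf (nat_lit 0) (nat_lit 1027699028) (nat_lit 152) (nat_lit 18424333815) (nat_lit 228) (nat_lit 41613288787) (nat_lit 30) (nat_lit 5) (nat_lit 32) (nat_lit 5) (nat_lit 33) (nat_lit 5) (nat_lit 386) (nat_lit 360) (nat_lit 274)) (XT.lf (nat_lit 0) (nat_lit 34929051611) (nat_lit 228) (nat_lit 26490476080) (nat_lit 76) (nat_lit 2820676764)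 (nat_lit 30) (nat_lit 5) (nat_lit 33) (nat_lit 5) (nat_lit 31) (nat_lit 4) (nat_lit 387) (nat_lit 360) (nat_lit 273))))))) (XT.nd (nat_lit 780) (nat_lit 608) (nat_lit 0) (XT.nd (nat_lit 390) (nat_lit 304) (nat_lit 0) (XT.nd (nat_lit 156) (nat_lit 228) (nat_lit 0) (XT.nd (nat_lit 78) (nat_lit 76) (nat_lit 0) (XT.lf (nat_lit 0) (nat_lit 9742066442) (nat_lit 76) (nat_lit 42610847306) (nat_lit 152) (nat_lit 15259471211) (nat_lit 29) (nat_lit 5) (nat_lit 30) (nat_lit 5) (nat_lit 31) (nat_lit 4) (nat_lit 388) (nat_lit 360) (nat_lit 272)) (XT.lf (nat_lit 0) (nat_lit 659504958) (nat_lit 152) (nat_lit 20840645000) (nat_lit 76) (nat_lit 49695234251) (nat_lit 28) (nat_lit 5) (nat_lit 30) (nat_lit 5) (nat_lit 29) (nat_lit 5) (nat_lit 389) (nat_lit 360) (nat_lit 271))) (XT.nd (nat_lit 78) (nat_lit 76) (nat_lit 0) (XT.lf (nat_lit 0) (nat_lit 17552211854) (nat_lit 228) (nat_lit 55313811674) (nat_lit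 76) (nat_lit 2125323517) (nat_lit 26) (nat_lit 5) (nat_lit 29) (nat_lit 5) (nat_lit 27) (nat_lit 4) (nat_lit 390) (nat_lit 360) (nat_lit 270)) (XT.nd (nat_lit 78) (nat_lit 76) (nat_lit 0) (XT.lf (nat_lit 0) (nat_lit 36935633602) (nat_lit 228) (nat_lit 15002976392) (nat_lit 76) (nat_lit 27061234229) (nat_lit 26) (nat_lit 5) (nat_lit 29) (nat_lit 5) (nat_lit 27) (nat_lit 4) (nat_lit 391) (nat_lit 360) (nat_lit 269)) (XT.lf (nat_lit 0) (nat_lit 30028653501) (nat_lit 76) (nat_lit 28559776681) (nat_lit 152) (nat_lit 24683095996) (nat_lit 25) (nat_lit 5) (nat_lit 26) (nat_lit 5) (nat_lit 27) (nat_lit 4) (nat_lit 392) (nat_lit 360) (nat_lit 268))))) (XT.nd (nat_lit 156) (nat_lit 152) (nat_lit 0) (XT.nd (nat_lit 78) (nat_lit 152) (nat_lit 0) (XT.lf (nat_lit 0) (nat_lit 79509976920) (nat_lit 76) (nat_lit 2870305240) (nat_lit 152) (nat_lit 5472115003) (nat_lit 25) (nat_lit 5) (nat_lit 26) (nat_lit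 5) (nat_lit 27) (nat_lit 4) (nat_lit 393) (nat_lit 360) (nat_lit 267)) (XT.lf (nat_lit 0) (nat_lit 16149256125) (nat_lit 152) (nat_lit 51452430893) (nat_lit 76) (nat_lit 25037647815) (nat_lit 23) (nat_lit 5) (nat_lit 25) (nat_lit 5) (nat_lit 24) (nat_lit 4) (nat_lit 394) (nat_lit 360) (nat_lit 266))) (XT.nd (nat_lit 78) (nat_lit 152) (nat_lit 0) (XT.lf (nat_lit 0) (nat_lit 39510107767) (nat_lit 152) (nat_lit 2866407102) (nat_lit 76) (nat_lit 55396910246) (nat_lit 23) (nat_lit 5) (nat_lit 25) (nat_lit 5) (nat_lit 24) (nat_lit 4) (nat_lit 395) (nat_lit 360) (nat_lit 265)) (XT.nd (nat_lit 78) (nat_lit 76) (nat_lit 0) (XT.lf (nat_lit 0) (nat_lit 52213005150) (nat_lit 76) (nat_lit 13779613682) (nat_lit 152) (nat_lit 37225401226) (nat_lit 22) (nat_lit 5) (nat_lit 23) (nat_lit 5) (nat_lit 24) (nat_lit 4) (nat_lit 396) (nat_lit 360) (nat_lit 264)) (XT.lf (nat_lit 0) (nat_lit 2474828840) (nat_lit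 76) (nat_lit 92667306270) (nat_lit 76) (nat_lit 13912175828) (nat_lit 21) (nat_lit 4) (nat_lit 22) (nat_lit 5) (nat_lit 22) (nat_lit 4) (nat_lit 397) (nat_lit 360) (nat_lit 263)))))) (XT.nd (nat_lit 390) (nat_lit 304) (nat_lit 0) (XT.nd (nat_lit 156) (nat_lit 152) (nat_lit 0) (XT.nd (nat_lit 78) (nat_lit 76) (nat_lit 0) (XT.lf (nat_lit 0) (nat_lit 12488346886) (nat_lit 152) (nat_lit 52782711557) (nat_lit 76) (nat_lit 49921905972) (nat_lit 20) (nat_lit 5) (nat_lit 22) (nat_lit 5) (nat_lit 21) (nat_lit 4) (nat_lit 398) (nat_lit 360) (nat_lit 262)) (XT.lf (nat_lit 0) (nat_lit 5212133340) (nat_lit 76) (nat_lit 35159838514) (nat_lit 152) (nat_lit 81412016102) (nat_lit 19) (nat_lit 5) (nat_lit 20) (nat_lit 5) (nat_lit 21) (nat_lit 4) (nat_lit 399) (nat_lit 360) (nat_lit 261))) (XT.nd (nat_lit 78) (nat_lit 152) (nat_lit 0) (XT.lf (nat_lit 0) (nat_lit 70843449016) (nat_lit 76) (nat_lit 1083417767)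 (nat_lit 152) (nat_lit 56860180706) (nat_lit 19) (nat_lit 5) (nat_lit 20) (nat_lit 5) (nat_lit 21) (nat_lit 4) (nat_lit 400) (nat_lit 360) (nat_lit 260)) (XT.nd (nat_lit 78) (nat_lit 76) (nat_lit 0) (XT.lf (nat_lit 0) (nat_lit 4748730259) (nat_lit 76) (nat_lit 102228223153) (nat_lit 76) (nat_lit 29295734830) (nat_lit 18) (nat_lit 4) (nat_lit 19) (nat_lit 5) (nat_lit 19) (nat_lit 4) (nat_lit 401) (nat_lit 360) (nat_lit 259)) (XT.lf (nat_lit 0) (nat_lit 2101290343) (nat_lit 152) (nat_lit 68564079352) (nat_lit 76) (nat_lit 73558808974) (nat_lit 17) (nat_lit 5) (nat_lit 19) (nat_lit 5) (nat_lit 18) (nat_lit 4) (nat_lit 402) (nat_lit 360) (nat_lit 258))))) (XT.nd (nat_lit 234) (nat_lit 228) (nat_lit 0) (XT.nd (nat_lit 78) (nat_lit 76) (nat_lit 0) (XT.lf (nat_lit 0) (nat_lit 34425084725) (nat_lit 152) (nat_lit 1332693469) (nat_lit 76) (nat_lit 116993317229) (nat_lit 17) (nat_lit 5) (nat_lit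 19) (nat_lit 5) (nat_lit 18) (nat_lit 4) (nat_lit 403) (nat_lit 360) (nat_lit 257)) (XT.nd (nat_lit 78) (nat_lit 0) (nat_lit 0) (XT.lf (nat_lit 0) (nat_lit 71230607885) (nat_lit 152) (nat_lit 86883228603) (nat_lit 0) (nat_lit 3694663353) (nat_lit 16) (nat_lit 5) (nat_lit 18) (nat_lit 4) (nat_lit 16) (nat_lit 4) (nat_lit 404) (nat_lit 360) (nat_lit 256)) (XT.lf (nat_lit 0) (nat_lit 111944651411) (nat_lit 152) (nat_lit 15161684513) (nat_lit 0) (nat_lit 44407034726) (nat_lit 16) (nat_lit 5) (nat_lit 18) (nat_lit 4) (nat_lit 16) (nat_lit 4) (nat_lit 405) (nat_lit 360) (nat_lit 255)))) (XT.nd (nat_lit 78) (nat_lit 152) (nat_lit 0) (XT.lf (nat_lit 0) (nat_lit 65574118269) (nat_lit 76) (nat_lit 91916833719) (nat_lit 76) (nat_lit 24377668746) (nat_lit 15) (nat_lit 4) (nat_lit 16) (nat_lit 5) (nat_lit 16) (nat_lit 4) (nat_lit 406) (nat_lit 360) (nat_lit 254)) (XT.nd (nat_lit 78) (nat_lit 76) (nat_lit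 0) (XT.lf (nat_lit 0) (nat_lit 13370299893) (nat_lit 152) (nat_lit 39730374797) (nat_lit 76) (nat_lit 139891523195) (nat_lit 14) (nat_lit 5) (nat_lit 16) (nat_lit 5) (nat_lit 15) (nat_lit 4) (nat_lit 407) (nat_lit 360) (nat_lit 253)) (XT.lf (nat_lit 0) (nat_lit 44550833857) (nat_lit 76) (nat_lit 9339916065) (nat_lit 152) (nat_lit 150978682927) (nat_lit 13) (nat_lit 5) (nat_lit 14) (nat_lit 5) (nat_lit 15) (nat_lit 4) (nat_lit 408) (nat_lit 360) (nat_lit 252))))))))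
noncomputable def xc150 : XT := (XT.nd (nat_lit 1560) (nat_lit 228) (nat_lit 0) (XT.nd (nat_lit 780) (nat_lit 380) (nat_lit 0) (XT.nd (nat_lit 390) (nat_lit 76) (nat_lit 0) (XT.nd (nat_lit 156) (nat_lit 152) (nat_lit 0) (XT.nd (nat_lit 78) (nat_lit 76) (nat_lit 0) (XT.lf (nat_lit 0) (nat_lit 99677601044) (nat_lit 152) (nat_lit 80719621927) (nat_lit 0) (nat_lit 37137642650) (nat_lit 13) (nat_lit 5) (nat_lit 15) (nat_lit 4) (nat_lit 13) (nat_lit 4) (nat_lit 409) (nat_lit 360) (nat_lit 251)) (XT.lf (nat_lit 0) (nat_lit 5264817213) (nat_lit 76) (nat_lit 144230160951) (nat_lit 76) (nat_lit 81689148818) (nat_lit 12) (nat_lit 4) (nat_lit 13) (nat_lit 5) (nat_lit 13) (nat_lit 4) (nat_lit 410) (nat_lit 360) (nat_lit 250))) (XT.nd (nat_lit 78) (nat_lit 152) (nat_lit 0) (XT.lf (nat_lit 0) (nat_lit 102715461290) (nat_lit 76) (nat_lit 102787710912) (nat_lit 76) (nat_lit 40245723095) (nat_lit 12) (nat_lit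 4) (nat_lit 13) (nat_lit 5) (nat_lit 13) (nat_lit 4) (nat_lit 411) (nat_lit 360) (nat_lit 249)) (XT.nd (nat_lit 78) (nat_lit 76) (nat_lit 0) (XT.lf (nat_lit 0) (nat_lit 4285897959) (nat_lit 152) (nat_lit 53628223472) (nat_lit 76) (nat_lit 203556161353) (nat_lit 11) (nat_lit 5) (nat_lit 13) (nat_lit 5) (nat_lit 12) (nat_lit 4) (nat_lit 412) (nat_lit 360) (nat_lit 248)) (XT.lf (nat_lit 0) (nat_lit 44086683346) (nat_lit 76) (nat_lit 7177937359) (nat_lit 152) (nat_lit 227016422326) (nat_lit 10) (nat_lit 5) (nat_lit 11) (nat_lit 5) (nat_lit 12) (nat_lit 4) (nat_lit 413) (nat_lit 360) (nat_lit 247))))) (XT.nd (nat_lit 156) (nat_lit 76) (nat_lit 0) (XT.nd (nat_lit 78) (nat_lit 0) (nat_lit 0) (XT.lf (nat_lit 0) (nat_lit 104649817856) (nat_lit 152) (nat_lit 144836750552) (nat_lit 0) (nat_lit 46738241697) (nat_lit 10) (nat_lit 5) (nat_lit 12) (nat_lit 4) (nat_lit 10) (nat_lit 4) (nat_lit 414) (nat_lit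 360) (nat_lit 246)) (XT.lf (nat_lit 0) (nat_lit 162490980942) (nat_lit 152) (nat_lit 48519544970) (nat_lit 0) (nat_lit 104578740749) (nat_lit 10) (nat_lit 5) (nat_lit 12) (nat_lit 4) (nat_lit 10) (nat_lit 4) (nat_lit 415) (nat_lit 360) (nat_lit 245))) (XT.nd (nat_lit 78) (nat_lit 0) (nat_lit 0) (XT.lf (nat_lit 0) (nat_lit 58423221402) (nat_lit 76) (nat_lit 167940101321) (nat_lit 76) (nat_lit 110027246281) (nat_lit 9) (nat_lit 4) (nat_lit 10) (nat_lit 5) (nat_lit 10) (nat_lit 4) (nat_lit 416) (nat_lit 360) (nat_lit 244)) (XT.nd (nat_lit 78) (nat_lit 0) (nat_lit 0) (XT.lf (nat_lit 0) (nat_lit 176678437092) (nat_lit 76) (nat_lit 119992463498) (nat_lit 76) (nat_lit 62079039155) (nat_lit 9) (nat_lit 4) (nat_lit 10) (nat_lit 5) (nat_lit 10) (nat_lit 4) (nat_lit 417) (nat_lit 360) (nat_lit 243)) (XT.lf (nat_lit 0) (nat_lit 304391920494) (nat_lit 76) (nat_lit 68210088635) (nat_lit 76) (nat_lit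 10296137160) (nat_lit 9) (nat_lit 4) (nat_lit 10) (nat_lit 5) (nat_lit 10) (nat_lit 4) (nat_lit 418) (nat_lit 360) (nat_lit 242)))))) (XT.nd (nat_lit 390) (nat_lit 152) (nat_lit 0) (XT.nd (nat_lit 156) (nat_lit 76) (nat_lit 0) (XT.nd (nat_lit 78) (nat_lit 0) (nat_lit 0) (XT.lf (nat_lit 0) (nat_lit 33942797081) (nat_lit 76) (nat_lit 10219335919) (nat_lit 152) (nat_lit 364663061136) (nat_lit 7) (nat_lit 5) (nat_lit 8) (nat_lit 5) (nat_lit 9) (nat_lit 4) (nat_lit 419) (nat_lit 360) (nat_lit 241)) (XT.lf (nat_lit 0) (nat_lit 105882518467) (nat_lit 152) (nat_lit 278387936913) (nat_lit 0) (nat_lit 52257618938) (nat_lit 7) (nat_lit 5) (nat_lit 9) (nat_lit 4) (nat_lit 7) (nat_lit 4) (nat_lit 420) (nat_lit 360) (nat_lit 240))) (XT.nd (nat_lit 78) (nat_lit 76) (nat_lit 0) (XT.lf (nat_lit 0) (nat_lit 172805029401) (nat_lit 152) (nat_lit 174441253601) (nat_lit 0) (nat_lit 119179742414) (nat_lit 7)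 (nat_lit 5) (nat_lit 9) (nat_lit 4) (nat_lit 7) (nat_lit 4) (nat_lit 421) (nat_lit 360) (nat_lit 239)) (XT.nd (nat_lit 78) (nat_lit 76) (nat_lit 0) (XT.lf (nat_lit 0) (nat_lit 245080468370) (nat_lit 152) (nat_lit 62180591501) (nat_lit 0) (nat_lit 191454822627) (nat_lit 7) (nat_lit 5) (nat_lit 9) (nat_lit 4) (nat_lit 7) (nat_lit 4) (nat_lit 422) (nat_lit 360) (nat_lit 238)) (XT.lf (nat_lit 0) (nat_lit 62169255712) (nat_lit 76) (nat_lit 262463050656) (nat_lit 76) (nat_lit 208837072729) (nat_lit 6) (nat_lit 4) (nat_lit 7) (nat_lit 5) (nat_lit 7) (nat_lit 4) (nat_lit 423) (nat_lit 360) (nat_lit 237))))) (XT.nd (nat_lit 156) (nat_lit 152) (nat_lit 0) (XT.nd (nat_lit 78) (nat_lit 0) (nat_lit 0) (XT.lf (nat_lit 0) (nat_lit 200001771388) (nat_lit 76) (nat_lit 212245861154) (nat_lit 76) (nat_lit 158619575651) (nat_lit 6) (nat_lit 4) (nat_lit 7) (nat_lit 5) (nat_lit 7) (nat_lit 4) (nat_lit 424)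 (nat_lit 360) (nat_lit 236)) (XT.lf (nat_lit 0) (nat_lit 348859421047) (nat_lit 76) (nat_lit 158012035586) (nat_lit 76) (nat_lit 104385465290) (nat_lit 6) (nat_lit 4) (nat_lit 7) (nat_lit 5) (nat_lit 7) (nat_lit 4) (nat_lit 425) (nat_lit 360) (nat_lit 235))) (XT.nd (nat_lit 78) (nat_lit 152) (nat_lit 0) (XT.lf (nat_lit 0) (nat_lit 509624324096) (nat_lit 76) (nat_lit 99440188319) (nat_lit 76) (nat_lit 45813354326) (nat_lit 6) (nat_lit 4) (nat_lit 7) (nat_lit 5) (nat_lit 7) (nat_lit 4) (nat_lit 426) (nat_lit 360) (nat_lit 234)) (XT.nd (nat_lit 78) (nat_lit 76) (nat_lit 0) (XT.lf (nat_lit 0) (nat_lit 16571239145) (nat_lit 152) (nat_lit 19158900735) (nat_lit 76) (nat_lit 666224835252) (nat_lit 5) (nat_lit 5) (nat_lit 7) (nat_lit 5) (nat_lit 6) (nat_lit 4) (nat_lit 427) (nat_lit 360) (nat_lit 233)) (XT.lf (nat_lit 0) (nat_lit 85305912621) (nat_lit 152) (nat_lit 631439387851) (nat_lit 0) (nat_lit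 35651001291) (nat_lit 4) (nat_lit 5) (nat_lit 6) (nat_lit 4) (nat_lit 4) (nat_lit 4) (nat_lit 428) (nat_lit 360) (nat_lit 232))))))) (XT.nd (nat_lit 780) (nat_lit 152) (nat_lit 0) (XT.nd (nat_lit 390) (nat_lit 76) (nat_lit 0) (XT.nd (nat_lit 156) (nat_lit 0) (nat_lit 0) (XT.nd (nat_lit 78) (nat_lit 0) (nat_lit 0) (XT.lf (nat_lit 0) (nat_lit 161004268682) (nat_lit 152) (nat_lit 534402309656) (nat_lit 0) (nat_lit 111349163528) (nat_lit 4) (nat_lit 5) (nat_lit 6) (nat_lit 4) (nat_lit 4) (nat_lit 4) (nat_lit 429) (nat_lit 360) (nat_lit 231)) (XT.lf (nat_lit 0) (nat_lit 242757945671) (nat_lit 152) (nat_lit 429603374295) (nat_lit 0) (nat_lit 193102661049) (nat_lit 4) (nat_lit 5) (nat_lit 6) (nat_lit 4) (nat_lit 4) (nat_lit 4) (nat_lit 430) (nat_lit 360) (nat_lit 230))) (XT.nd (nat_lit 78) (nat_lit 0) (nat_lit 0) (XT.lf (nat_lit 0) (nat_lit 331051409821) (nat_lit 152) (nat_lit 316421551041) (nat_lit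 0) (nat_lit 281395959025) (nat_lit 4) (nat_lit 5) (nat_lit 6) (nat_lit 4) (nat_lit 4) (nat_lit 4) (nat_lit 431) (nat_lit 360) (nat_lit 229)) (XT.nd (nat_lit 78) (nat_lit 0) (nat_lit 0) (XT.lf (nat_lit 0) (nat_lit 426407881662) (nat_lit 152) (nat_lit 194186132792) (nat_lit 0) (nat_lit 376752277001) (nat_lit 4) (nat_lit 5) (nat_lit 6) (nat_lit 4) (nat_lit 4) (nat_lit 4) (nat_lit 432) (nat_lit 360) (nat_lit 228)) (XT.lf (nat_lit 0) (nat_lit 529392436581) (nat_lit 152) (nat_lit 62172761515) (nat_lit 0) (nat_lit 479736689452) (nat_lit 4) (nat_lit 5) (nat_lit 6) (nat_lit 4) (nat_lit 4) (nat_lit 4) (nat_lit 433) (nat_lit 360) (nat_lit 227))))) (XT.nd (nat_lit 156) (nat_lit 0) (nat_lit 0) (XT.nd (nat_lit 78) (nat_lit 0) (nat_lit 0) (XT.lf (nat_lit 0) (nat_lit 84634631277) (nat_lit 76) (nat_lit 558016187062) (nat_lit 76) (nat_lit 508360308019) (nat_lit 3) (nat_lit 4) (nat_lit 4) (nat_lit 5) (nat_lit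 4) (nat_lit 4) (nat_lit 434) (nat_lit 360) (nat_lit 226)) (XT.lf (nat_lit 0) (nat_lit 246721640956) (nat_lit 76) (nat_lit 519947751395) (nat_lit 76) (nat_lit 470291750209) (nat_lit 3) (nat_lit 4) (nat_lit 4) (nat_lit 5) (nat_lit 4) (nat_lit 4) (nat_lit 435) (nat_lit 360) (nat_lit 225))) (XT.nd (nat_lit 78) (nat_lit 0) (nat_lit 0) (XT.lf (nat_lit 0) (nat_lit 421774875690) (nat_lit 76) (nat_lit 478834213844) (nat_lit 76) (nat_lit 429178099563) (nat_lit 3) (nat_lit 4) (nat_lit 4) (nat_lit 5) (nat_lit 4) (nat_lit 4) (nat_lit 436) (nat_lit 360) (nat_lit 224)) (XT.nd (nat_lit 78) (nat_lit 0) (nat_lit 0) (XT.lf (nat_lit 0) (nat_lit 610831687982) (nat_lit 76) (nat_lit 434431938633) (nat_lit 76) (nat_lit 384775719634) (nat_lit 3) (nat_lit 4) (nat_lit 4) (nat_lit 5) (nat_lit 4) (nat_lit 4) (nat_lit 437) (nat_lit 360) (nat_lit 223)) (XT.lf (nat_lit 0) (nat_lit 815012414498) (nat_lit 76) (nat_lit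 386477801167) (nat_lit 76) (nat_lit 336821485207) (nat_lit 3) (nat_lit 4) (nat_lit 4) (nat_lit 5) (nat_lit 4) (nat_lit 4) (nat_lit 438) (nat_lit 360) (nat_lit 222)))))) (XT.nd (nat_lit 390) (nat_lit 152) (nat_lit 0) (XT.nd (nat_lit 156) (nat_lit 0) (nat_lit 0) (XT.nd (nat_lit 78) (nat_lit 0) (nat_lit 0) (XT.lf (nat_lit 0) (nat_lit 1035527015098) (nat_lit 76) (nat_lit 334687628780) (nat_lit 76) (nat_lit 285031223041) (nat_lit 3) (nat_lit 4) (nat_lit 4) (nat_lit 5) (nat_lit 4) (nat_lit 4) (nat_lit 439) (nat_lit 360) (nat_lit 221)) (XT.lf (nat_lit 0) (nat_lit 1273682242970) (nat_lit 76) (nat_lit 278754516746) (nat_lit 76) (nat_lit 229098027879) (nat_lit 3) (nat_lit 4) (nat_lit 4) (nat_lit 5) (nat_lit 4) (nat_lit 4) (nat_lit 440) (nat_lit 360) (nat_lit 220))) (XT.nd (nat_lit 78) (nat_lit 0) (nat_lit 0) (XT.lf (nat_lit 0) (nat_lit 1530889388355) (nat_lit 76) (nat_lit 218347009586) (nat_lit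 76) (nat_lit 168690443749) (nat_lit 3) (nat_lit 4) (nat_lit 4) (nat_lit 5) (nat_lit 4) (nat_lit 4) (nat_lit 441) (nat_lit 360) (nat_lit 219)) (XT.nd (nat_lit 78) (nat_lit 0) (nat_lit 0) (XT.lf (nat_lit 0) (nat_lit 1808672641743) (nat_lit 76) (nat_lit 153107136889) (nat_lit 76) (nat_lit 103450499782) (nat_lit 3) (nat_lit 4) (nat_lit 4) (nat_lit 5) (nat_lit 4) (nat_lit 4) (nat_lit 442) (nat_lit 360) (nat_lit 218)) (XT.lf (nat_lit 0) (nat_lit 2108678126118) (nat_lit 76) (nat_lit 82648292000) (nat_lit 76) (nat_lit 32991588903) (nat_lit 3) (nat_lit 4) (nat_lit 4) (nat_lit 5) (nat_lit 4) (nat_lit 4) (nat_lit 443) (nat_lit 360) (nat_lit 217))))) (XT.nd (nat_lit 234) (nat_lit 0) (nat_lit 0) (XT.nd (nat_lit 78) (nat_lit 0) (nat_lit 0) (XT.lf (nat_lit 0) (nat_lit 37384350798) (nat_lit 76) (nat_lit 4462339103) (nat_lit 152) (nat_lit 2354131220304) (nat_lit 1) (nat_lit 5) (nat_lit 2) (nat_lit 5) (nat_lit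 3) (nat_lit 4) (nat_lit 444) (nat_lit 360) (nat_lit 216)) (XT.nd (nat_lit 78) (nat_lit 0) (nat_lit 0) (XT.lf (nat_lit 0) (nat_lit 126056836216) (nat_lit 152) (nat_lit 2374753540391) (nat_lit 0) (nat_lit 80078298462) (nat_lit 1) (nat_lit 5) (nat_lit 3) (nat_lit 4) (nat_lit 1) (nat_lit 4) (nat_lit 445) (nat_lit 360) (nat_lit 215)) (XT.lf (nat_lit 0) (nat_lit 217119513395) (nat_lit 152) (nat_lit 2392322603067) (nat_lit 0) (nat_lit 171140927137) (nat_lit 1) (nat_lit 5) (nat_lit 3) (nat_lit 4) (nat_lit 1) (nat_lit 4) (nat_lit 446) (nat_lit 360) (nat_lit 214)))) (XT.nd (nat_lit 78) (nat_lit 0) (nat_lit 0) (XT.lf (nat_lit 0) (nat_lit 315467032757) (nat_lit 152) (nat_lit 2411297541036) (nat_lit 0) (nat_lit 269488401586) (nat_lit 1) (nat_lit 5) (nat_lit 3) (nat_lit 4) (nat_lit 1) (nat_lit 4) (nat_lit 447) (nat_lit 360) (nat_lit 213)) (XT.nd (nat_lit 78) (nat_lit 0) (nat_lit 0) (XT.lf (nat_lit 0)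 (nat_lit 421682194414) (nat_lit 152) (nat_lit 2431790798376) (nat_lit 0) (nat_lit 375703521659) (nat_lit 1) (nat_lit 5) (nat_lit 3) (nat_lit 4) (nat_lit 1) (nat_lit 4) (nat_lit 448) (nat_lit 360) (nat_lit 212)) (XT.lf (nat_lit 0) (nat_lit 536394421549) (nat_lit 152) (nat_lit 2453923816611) (nat_lit 0) (nat_lit 490415710289) (nat_lit 1) (nat_lit 5) (nat_lit 3) (nat_lit 4) (nat_lit 1) (nat_lit 4) (nat_lit 449) (nat_lit 360) (nat_lit 211))))))))
noncomputable def xc151 : XT := (XT.nd (nat_lit 46878) (nat_lit 0) (nat_lit 2052) (XT.nd (nat_lit 780) (nat_lit 0) (nat_lit 0) (XT.nd (nat_lit 390) (nat_lit 0) (nat_lit 0) (XT.nd (nat_lit 156) (nat_lit 0) (nat_lit 0) (XT.nd (nat_lit 78) (nat_lit 0) (nat_lit 0) (XT.lf (nat_lit 0) (nat_lit 660283490321) (nat_lit 152) (nat_lit 2477827754368) (nat_lit 0) (nat_lit 614304743408) (nat_lit 1) (nat_lit 5) (nat_lit 3) (nat_lit 4) (nat_lit 1) (nat_lit 4) (nat_lit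 450) (nat_lit 360) (nat_lit 210)) (XT.lf (nat_lit 0) (nat_lit 794083558175) (nat_lit 152) (nat_lit 2503644264612) (nat_lit 0) (nat_lit 748104778251) (nat_lit 1) (nat_lit 5) (nat_lit 3) (nat_lit 4) (nat_lit 1) (nat_lit 4) (nat_lit 451) (nat_lit 360) (nat_lit 209))) (XT.nd (nat_lit 78) (nat_lit 0) (nat_lit 0) (XT.lf (nat_lit 0) (nat_lit 938587514402) (nat_lit 152) (nat_lit 2531526334070) (nat_lit 0) (nat_lit 892608703912) (nat_lit 1) (nat_lit 5) (nat_lit 3) (nat_lit 4) (nat_lit 1) (nat_lit 4) (nat_lit 452) (nat_lit 360) (nat_lit 208)) (XT.nd (nat_lit 78) (nat_lit 0) (nat_lit 0) (XT.lf (nat_lit 0) (nat_lit 1094651678743) (nat_lit 152) (nat_lit 2561639189821) (nat_lit 0) (nat_lit 1048672839951) (nat_lit 1) (nat_lit 5) (nat_lit 3) (nat_lit 4) (nat_lit 1) (nat_lit 4) (nat_lit 453) (nat_lit 360) (nat_lit 207)) (XT.lf (nat_lit 0) (nat_lit 1263200875875) (nat_lit 152) (nat_lit 2594161278416) (nat_lit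 0) (nat_lit 1217222010878) (nat_lit 1) (nat_lit 5) (nat_lit 3) (nat_lit 4) (nat_lit 1) (nat_lit 4) (nat_lit 454) (nat_lit 360) (nat_lit 206))))) (XT.nd (nat_lit 156) (nat_lit 0) (nat_lit 0) (XT.nd (nat_lit 78) (nat_lit 0) (nat_lit 0) (XT.lf (nat_lit 0) (nat_lit 1445233915856) (nat_lit 152) (nat_lit 2629285323343) (nat_lit 0) (nat_lit 1399255026594) (nat_lit 1) (nat_lit 5) (nat_lit 3) (nat_lit 4) (nat_lit 1) (nat_lit 4) (nat_lit 455) (nat_lit 360) (nat_lit 205)) (XT.lf (nat_lit 0) (nat_lit 1641829512996) (nat_lit 152) (nat_lit 2667219467092) (nat_lit 0) (nat_lit 1595850601267) (nat_lit 1) (nat_lit 5) (nat_lit 3) (nat_lit 4) (nat_lit 1) (nat_lit 4) (nat_lit 456) (nat_lit 360) (nat_lit 204))) (XT.nd (nat_lit 78) (nat_lit 0) (nat_lit 0) (XT.lf (nat_lit 0) (nat_lit 1854152678241) (nat_lit 152) (nat_lit 2708188504589) (nat_lit 0) (nat_lit 1808173745710) (nat_lit 1) (nat_lit 5) (nat_lit 3) (nat_lit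 4) (nat_lit 1) (nat_lit 4) (nat_lit 457) (nat_lit 360) (nat_lit 203)) (XT.nd (nat_lit 78) (nat_lit 0) (nat_lit 0) (XT.lf (nat_lit 0) (nat_lit 2083461622942) (nat_lit 152) (nat_lit 2752435215313) (nat_lit 0) (nat_lit 2037482671149) (nat_lit 1) (nat_lit 5) (nat_lit 3) (nat_lit 4) (nat_lit 1) (nat_lit 4) (nat_lit 458) (nat_lit 360) (nat_lit 202)) (XT.lf (nat_lit 0) (nat_lit 2331115214918) (nat_lit 152) (nat_lit 2800221801997) (nat_lit 0) (nat_lit 2285136245289) (nat_lit 1) (nat_lit 5) (nat_lit 3) (nat_lit 4) (nat_lit 1) (nat_lit 4) (nat_lit 459) (nat_lit 360) (nat_lit 201)))))) (XT.nd (nat_lit 45630) (nat_lit 0) (nat_lit 4408) (XT.nd (nat_lit 45396) (nat_lit 0) (nat_lit 4788) (XT.nd (nat_lit 78) (nat_lit 0) (nat_lit 0) (XT.lf (nat_lit 0) (nat_lit 2598581031010) (nat_lit 152) (nat_lit 2851831444412) (nat_lit 0) (nat_lit 2552602044868) (nat_lit 1) (nat_lit 5) (nat_lit 3) (nat_lit 4) (nat_lit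 1) (nat_lit 4) (nat_lit 460) (nat_lit 360) (nat_lit 200)) (XT.lf (nat_lit 0) (nat_lit 2887444053834) (nat_lit 152) (nat_lit 2907569977478) (nat_lit 0) (nat_lit 2841465052401) (nat_lit 1) (nat_lit 5) (nat_lit 3) (nat_lit 4) (nat_lit 1) (nat_lit 4) (nat_lit 461) (nat_lit 360) (nat_lit 199))) (XT.nd (nat_lit 78) (nat_lit 0) (nat_lit 0) (XT.lf (nat_lit 0) (nat_lit 8386894781) (nat_lit 532) (nat_lit 950621416) (nat_lit 532) (nat_lit 950621416) (nat_lit 64) (nat_lit 3) (nat_lit 71) (nat_lit 3) (nat_lit 71) (nat_lit 5) (nat_lit 361) (nat_lit 361) (nat_lit 298)) (XT.nd (nat_lit 78) (nat_lit 0) (nat_lit 76) (XT.lf (nat_lit 76) (nat_lit 8526915653) (nat_lit 0) (nat_lit 9268969715) (nat_lit 532) (nat_lit 3575211157) (nat_lit 65) (nat_lit 5) (nat_lit 64) (nat_lit 3) (nat_lit 71) (nat_lit 5) (nat_lit 362) (nat_lit 361) (nat_lit 297)) (XT.lf (nat_lit 0) (nat_lit 18959818932) (nat_lit 456) (nat_lit 2360307044)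 (nat_lit 532) (nat_lit 904585768) (nat_lit 65) (nat_lit 5) (nat_lit 71) (nat_lit 5) (nat_lit 72) (nat_lit 5) (nat_lit 363) (nat_lit 361) (nat_lit 296))))) (XT.nd (nat_lit 234) (nat_lit 0) (nat_lit 0) (XT.nd (nat_lit 78) (nat_lit 456) (nat_lit 0) (XT.lf (nat_lit 76) (nat_lit 9171359268) (nat_lit 0) (nat_lit 11493259708) (nat_lit 532) (nat_lit 2446189861) (nat_lit 66) (nat_lit 5) (nat_lit 65) (nat_lit 5) (nat_lit 72) (nat_lit 5) (nat_lit 364) (nat_lit 361) (nat_lit 295)) (XT.nd (nat_lit 78) (nat_lit 456) (nat_lit 0) (XT.lf (nat_lit 76) (nat_lit 21751064813) (nat_lit 0) (nat_lit 806496570) (nat_lit 532) (nat_lit 1506103498) (nat_lit 66) (nat_lit 5) (nat_lit 65) (nat_lit 5) (nat_lit 72) (nat_lit 5) (nat_lit 365) (nat_lit 361) (nat_lit 294)) (XT.lf (nat_lit 0) (nat_lit 45719864) (nat_lit 532) (nat_lit 14551532564) (nat_lit 608) (nat_lit 10455493239) (nat_lit 59) (nat_lit 5) (nat_lit 66) (nat_lit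 5) (nat_lit 67) (nat_lit 5) (nat_lit 366) (nat_lit 361) (nat_lit 293)))) (XT.nd (nat_lit 78) (nat_lit 0) (nat_lit 76) (XT.lf (nat_lit 0) (nat_lit 1714759372) (nat_lit 532) (nat_lit 1715459050) (nat_lit 608) (nat_lit 22681659218) (nat_lit 59) (nat_lit 5) (nat_lit 66) (nat_lit 5) (nat_lit 67) (nat_lit 5) (nat_lit 367) (nat_lit 361) (nat_lit 292)) (XT.nd (nat_lit 78) (nat_lit 0) (nat_lit 0) (XT.lf (nat_lit 0) (nat_lit 4029671886) (nat_lit 532) (nat_lit 14669685911) (nat_lit 76) (nat_lit 8515403097) (nat_lit 60) (nat_lit 5) (nat_lit 67) (nat_lit 5) (nat_lit 61) (nat_lit 5) (nat_lit 368) (nat_lit 361) (nat_lit 291)) (XT.lf (nat_lit 0) (nat_lit 6657064803) (nat_lit 532) (nat_lit 457843204) (nat_lit 76) (nat_lit 21280791876) (nat_lit 60) (nat_lit 5) (nat_lit 67) (nat_lit 5) (nat_lit 61) (nat_lit 5) (nat_lit 369) (nat_lit 361) (nat_lit 290))))))) (XT.nd (nat_lit 780) (nat_lit 988) (nat_lit 0)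 (XT.nd (nat_lit 390) (nat_lit 608) (nat_lit 0) (XT.nd (nat_lit 156) (nat_lit 228) (nat_lit 0) (XT.nd (nat_lit 78) (nat_lit 228) (nat_lit 0) (XT.lf (nat_lit 0) (nat_lit 10001797537) (nat_lit 456) (nat_lit 14115395566) (nat_lit 76) (nat_lit 5513356485) (nat_lit 55) (nat_lit 5) (nat_lit 61) (nat_lit 5) (nat_lit 56) (nat_lit 5) (nat_lit 370) (nat_lit 361) (nat_lit 289)) (XT.lf (nat_lit 0) (nat_lit 1720576806) (nat_lit 228) (nat_lit 12123844726) (nat_lit 304) (nat_lit 17101347642) (nat_lit 52) (nat_lit 5) (nat_lit 55) (nat_lit 5) (nat_lit 56) (nat_lit 5) (nat_lit 371) (nat_lit 361) (nat_lit 288))) (XT.nd (nat_lit 78) (nat_lit 228) (nat_lit 0) (XT.lf (nat_lit 0) (nat_lit 18402056052) (nat_lit 304) (nat_lit 12748738287) (nat_lit 76) (nat_lit 1182810343) (nat_lit 52) (nat_lit 5) (nat_lit 56) (nat_lit 5) (nat_lit 53) (nat_lit 5) (nat_lit 372) (nat_lit 361) (nat_lit 287)) (XT.nd (nat_lit 78) (nat_lit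 0) (nat_lit 0) (XT.lf (nat_lit 0) (nat_lit 4970665069) (nat_lit 228) (nat_lit 18780400268) (nat_lit 304) (nat_lit 10047266502) (nat_lit 49) (nat_lit 5) (nat_lit 52) (nat_lit 5) (nat_lit 53) (nat_lit 5) (nat_lit 373) (nat_lit 361) (nat_lit 286)) (XT.lf (nat_lit 0) (nat_lit 24823963634) (nat_lit 228) (nat_lit 5045279494) (nat_lit 304) (nat_lit 5483699708) (nat_lit 49) (nat_lit 5) (nat_lit 52) (nat_lit 5) (nat_lit 53) (nat_lit 5) (nat_lit 374) (nat_lit 361) (nat_lit 285))))) (XT.nd (nat_lit 156) (nat_lit 380) (nat_lit 0) (XT.nd (nat_lit 78) (nat_lit 76) (nat_lit 0) (XT.lf (nat_lit 0) (nat_lit 9463000915) (nat_lit 152) (nat_lit 27470063832) (nat_lit 228) (nat_lit 62367881) (nat_lit 47) (nat_lit 5) (nat_lit 49) (nat_lit 5) (nat_lit 50) (nat_lit 5) (nat_lit 375) (nat_lit 361) (nat_lit 284)) (XT.lf (nat_lit 0) (nat_lit 5922619577) (nat_lit 228) (nat_lit 7379699094) (nat_lit 76) (nat_lit 25422284428)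 (nat_lit 46) (nat_lit 5) (nat_lit 49) (nat_lit 5) (nat_lit 47) (nat_lit 5) (nat_lit 376) (nat_lit 361) (nat_lit 283))) (XT.nd (nat_lit 78) (nat_lit 152) (nat_lit 0) (XT.lf (nat_lit 0) (nat_lit 12798309833) (nat_lit 304) (nat_lit 25488317111) (nat_lit 76) (nat_lit 2272132839) (nat_lit 43) (nat_lit 5) (nat_lit 47) (nat_lit 5) (nat_lit 44) (nat_lit 5) (nat_lit 377) (nat_lit 361) (nat_lit 282)) (XT.nd (nat_lit 78) (nat_lit 152) (nat_lit 0) (XT.lf (nat_lit 0) (nat_lit 20770620272) (nat_lit 304) (nat_lit 3146261238) (nat_lit 76) (nat_lit 18579046032) (nat_lit 43) (nat_lit 5) (nat_lit 47) (nat_lit 5) (nat_lit 44) (nat_lit 5) (nat_lit 378) (nat_lit 361) (nat_lit 281)) (XT.lf (nat_lit 0) (nat_lit 22080020495) (nat_lit 152) (nat_lit 7826197162) (nat_lit 228) (nat_lit 14639814355) (nat_lit 41) (nat_lit 5) (nat_lit 43) (nat_lit 5) (nat_lit 44) (nat_lit 5) (nat_lit 379) (nat_lit 361) (nat_lit 280))))))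 (XT.nd (nat_lit 390) (nat_lit 456) (nat_lit 0) (XT.nd (nat_lit 156) (nat_lit 304) (nat_lit 0) (XT.nd (nat_lit 78) (nat_lit 76) (nat_lit 0) (XT.lf (nat_lit 0) (nat_lit 2642454115) (nat_lit 152) (nat_lit 37506392069) (nat_lit 228) (nat_lit 6581207190) (nat_lit 39) (nat_lit 5) (nat_lit 41) (nat_lit 5) (nat_lit 42) (nat_lit 5) (nat_lit 380) (nat_lit 361) (nat_lit 279)) (XT.lf (nat_lit 0) (nat_lit 2844156015) (nat_lit 228) (nat_lit 18280597748) (nat_lit 76) (nat_lit 27893704691) (nat_lit 38) (nat_lit 5) (nat_lit 41) (nat_lit 5) (nat_lit 39) (nat_lit 5) (nat_lit 381) (nat_lit 361) (nat_lit 278))) (XT.nd (nat_lit 78) (nat_lit 152) (nat_lit 0) (XT.lf (nat_lit 0) (nat_lit 9908333812) (nat_lit 152) (nat_lit 2993074090) (nat_lit 228) (nat_lit 38556182086) (nat_lit 36) (nat_lit 5) (nat_lit 38) (nat_lit 5) (nat_lit 39) (nat_lit 5) (nat_lit 382) (nat_lit 361) (nat_lit 277)) (XT.nd (nat_lit 78) (nat_lit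 152) (nat_lit 0) (XT.lf (nat_lit 0) (nat_lit 24670265573) (nat_lit 228) (nat_lit 13079281012) (nat_lit 76) (nat_lit 16269745763) (nat_lit 36) (nat_lit 5) (nat_lit 39) (nat_lit 5) (nat_lit 37) (nat_lit 5) (nat_lit 383) (nat_lit 361) (nat_lit 276)) (XT.lf (nat_lit 0) (nat_lit 18509549541) (nat_lit 152) (nat_lit 19389581499) (nat_lit 228) (nat_lit 18845322102) (nat_lit 34) (nat_lit 5) (nat_lit 36) (nat_lit 5) (nat_lit 37) (nat_lit 5) (nat_lit 384) (nat_lit 361) (nat_lit 275))))) (XT.nd (nat_lit 234) (nat_lit 152) (nat_lit 0) (XT.nd (nat_lit 78) (nat_lit 304) (nat_lit 0) (XT.lf (nat_lit 0) (nat_lit 52559472313) (nat_lit 228) (nat_lit 6316580151) (nat_lit 76) (nat_lit 781723029) (nat_lit 34) (nat_lit 5) (nat_lit 37) (nat_lit 5) (nat_lit 35) (nat_lit 4) (nat_lit 385) (nat_lit 361) (nat_lit 274)) (XT.nd (nat_lit 78) (nat_lit 152) (nat_lit 0) (XT.lf (nat_lit 0) (nat_lit 6539597616) (nat_lit 152)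 (nat_lit 33772946166) (nat_lit 76) (nat_lit 22382415049) (nat_lit 32) (nat_lit 5) (nat_lit 34) (nat_lit 5) (nat_lit 33) (nat_lit 5) (nat_lit 386) (nat_lit 361) (nat_lit 273)) (XT.lf (nat_lit 0) (nat_lit 1244466281) (nat_lit 152) (nat_lit 19843757163) (nat_lit 228) (nat_lit 44855890417) (nat_lit 30) (nat_lit 5) (nat_lit 32) (nat_lit 5) (nat_lit 33) (nat_lit 5) (nat_lit 387) (nat_lit 361) (nat_lit 272)))) (XT.nd (nat_lit 78) (nat_lit 152) (nat_lit 0) (XT.lf (nat_lit 0) (nat_lit 37798689871) (nat_lit 228) (nat_lit 28480386813) (nat_lit 76) (nat_lit 3094290052) (nat_lit 30) (nat_lit 5) (nat_lit 33) (nat_lit 5) (nat_lit 31) (nat_lit 4) (nat_lit 388) (nat_lit 361) (nat_lit 271)) (XT.nd (nat_lit 78) (nat_lit 76) (nat_lit 0) (XT.lf (nat_lit 0) (nat_lit 10647485001) (nat_lit 76) (nat_lit 45966428737) (nat_lit 152) (nat_lit 16401613865) (nat_lit 29) (nat_lit 5) (nat_lit 30) (nat_lit 5) (nat_lit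 31) (nat_lit 4) (nat_lit 389) (nat_lit 361) (nat_lit 270)) (XT.lf (nat_lit 0) (nat_lit 781415725) (nat_lit 152) (nat_lit 22387516319) (nat_lit 76) (nat_lit 53716527894) (nat_lit 28) (nat_lit 5) (nat_lit 30) (nat_lit 5) (nat_lit 29) (nat_lit 5) (nat_lit 390) (nat_lit 361) (nat_lit 269))))))))
noncomputable def xc152 : XT := (XT.nd (nat_lit 1560) (nat_lit 684) (nat_lit 0) (XT.nd (nat_lit 780) (nat_lit 456) (nat_lit 0) (XT.nd (nat_lit 390) (nat_lit 304) (nat_lit 0) (XT.nd (nat_lit 156) (nat_lit 228) (nat_lit 0) (XT.nd (nat_lit 78) (nat_lit 0) (nat_lit 0) (XT.lf (nat_lit 0) (nat_lit 19024452888) (nat_lit 228) (nat_lit 59617428766) (nat_lit 76) (nat_lit 2343306753) (nat_lit 26) (nat_lit 5) (nat_lit 29) (nat_lit 5) (nat_lit 27) (nat_lit 4) (nat_lit 391) (nat_lit 361) (nat_lit 268)) (XT.lf (nat_lit 0) (nat_lit 39953506591) (nat_lit 228) (nat_lit 16090725760) (nat_lit 76) (nat_lit 29270537925)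 (nat_lit 26) (nat_lit 5) (nat_lit 29) (nat_lit 5) (nat_lit 27) (nat_lit 4) (nat_lit 392) (nat_lit 361) (nat_lit 267))) (XT.nd (nat_lit 78) (nat_lit 152) (nat_lit 0) (XT.lf (nat_lit 0) (nat_lit 32540586708) (nat_lit 76) (nat_lit 30795908737) (nat_lit 152) (nat_lit 26591855317) (nat_lit 25) (nat_lit 5) (nat_lit 26) (nat_lit 5) (nat_lit 27) (nat_lit 4) (nat_lit 393) (nat_lit 361) (nat_lit 266)) (XT.nd (nat_lit 78) (nat_lit 152) (nat_lit 0) (XT.lf (nat_lit 0) (nat_lit 85972294451) (nat_lit 76) (nat_lit 3054883291) (nat_lit 152) (nat_lit 5848876465) (nat_lit 25) (nat_lit 5) (nat_lit 26) (nat_lit 5) (nat_lit 27) (nat_lit 4) (nat_lit 394) (nat_lit 361) (nat_lit 265)) (XT.lf (nat_lit 0) (nat_lit 17498413192) (nat_lit 152) (nat_lit 55463284707) (nat_lit 76) (nat_lit 27084191914) (nat_lit 23) (nat_lit 5) (nat_lit 25) (nat_lit 5) (nat_lit 24) (nat_lit 4) (nat_lit 395) (nat_lit 361) (nat_lit 264)))))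 (XT.nd (nat_lit 156) (nat_lit 228) (nat_lit 0) (XT.nd (nat_lit 78) (nat_lit 76) (nat_lit 0) (XT.lf (nat_lit 0) (nat_lit 42723894700) (nat_lit 152) (nat_lit 2998182025) (nat_lit 76) (nat_lit 59868970727) (nat_lit 23) (nat_lit 5) (nat_lit 25) (nat_lit 5) (nat_lit 24) (nat_lit 4) (nat_lit 396) (nat_lit 361) (nat_lit 263)) (XT.lf (nat_lit 0) (nat_lit 56485113900) (nat_lit 76) (nat_lit 14838254827) (nat_lit 152) (nat_lit 40147973290) (nat_lit 22) (nat_lit 5) (nat_lit 23) (nat_lit 5) (nat_lit 24) (nat_lit 4) (nat_lit 397) (nat_lit 361) (nat_lit 262))) (XT.nd (nat_lit 78) (nat_lit 152) (nat_lit 0) (XT.lf (nat_lit 0) (nat_lit 2768467009) (nat_lit 76) (nat_lit 100035850493) (nat_lit 76) (nat_lit 14970261889) (nat_lit 21) (nat_lit 4) (nat_lit 22) (nat_lit 5) (nat_lit 22) (nat_lit 4) (nat_lit 398) (nat_lit 361) (nat_lit 261)) (XT.nd (nat_lit 78) (nat_lit 76) (nat_lit 0) (XT.lf (nat_lit 0) (nat_lit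 13535694531) (nat_lit 152) (nat_lit 56914209755) (nat_lit 76) (nat_lit 53954625037) (nat_lit 20) (nat_lit 5) (nat_lit 22) (nat_lit 5) (nat_lit 21) (nat_lit 4) (nat_lit 399) (nat_lit 361) (nat_lit 260)) (XT.lf (nat_lit 0) (nat_lit 5717915931) (nat_lit 76) (nat_lit 37930653206) (nat_lit 152) (nat_lit 87874381568) (nat_lit 19) (nat_lit 5) (nat_lit 20) (nat_lit 5) (nat_lit 21) (nat_lit 4) (nat_lit 400) (nat_lit 361) (nat_lit 259)))))) (XT.nd (nat_lit 390) (nat_lit 228) (nat_lit 0) (XT.nd (nat_lit 156) (nat_lit 152) (nat_lit 0) (XT.nd (nat_lit 78) (nat_lit 76) (nat_lit 0) (XT.lf (nat_lit 0) (nat_lit 76593158200) (nat_lit 76) (nat_lit 1131227864) (nat_lit 152) (nat_lit 61362147179) (nat_lit 19) (nat_lit 5) (nat_lit 20) (nat_lit 5) (nat_lit 21) (nat_lit 4) (nat_lit 401) (nat_lit 361) (nat_lit 258)) (XT.lf (nat_lit 0) (nat_lit 5211259079) (nat_lit 76) (nat_lit 110366860650) (nat_lit 76) (nat_lit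 31592934947) (nat_lit 18) (nat_lit 4) (nat_lit 19) (nat_lit 5) (nat_lit 19) (nat_lit 4) (nat_lit 402) (nat_lit 361) (nat_lit 257))) (XT.nd (nat_lit 78) (nat_lit 76) (nat_lit 0) (XT.lf (nat_lit 0) (nat_lit 2310258959) (nat_lit 152) (nat_lit 73970537465) (nat_lit 76) (nat_lit 79478040600) (nat_lit 17) (nat_lit 5) (nat_lit 19) (nat_lit 5) (nat_lit 18) (nat_lit 4) (nat_lit 403) (nat_lit 361) (nat_lit 256)) (XT.nd (nat_lit 78) (nat_lit 76) (nat_lit 0) (XT.lf (nat_lit 0) (nat_lit 37216929825) (nat_lit 152) (nat_lit 1366467988) (nat_lit 76) (nat_lit 126384751967) (nat_lit 17) (nat_lit 5) (nat_lit 19) (nat_lit 5) (nat_lit 18) (nat_lit 4) (nat_lit 404) (nat_lit 361) (nat_lit 255)) (XT.lf (nat_lit 0) (nat_lit 76966623285) (nat_lit 152) (nat_lit 93760768628) (nat_lit 0) (nat_lit 4022776824) (nat_lit 16) (nat_lit 5) (nat_lit 18) (nat_lit 4) (nat_lit 16) (nat_lit 4) (nat_lit 405) (nat_lit 361) (nat_lit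 254))))) (XT.nd (nat_lit 156) (nat_lit 152) (nat_lit 0) (XT.nd (nat_lit 78) (nat_lit 76) (nat_lit 0) (XT.lf (nat_lit 0) (nat_lit 120935007569) (nat_lit 152) (nat_lit 16306917179) (nat_lit 0) (nat_lit 47989727507) (nat_lit 16) (nat_lit 5) (nat_lit 18) (nat_lit 4) (nat_lit 16) (nat_lit 4) (nat_lit 406) (nat_lit 361) (nat_lit 253)) (XT.lf (nat_lit 0) (nat_lit 70886035849) (nat_lit 76) (nat_lit 99237986764) (nat_lit 76) (nat_lit 26291379294) (nat_lit 15) (nat_lit 4) (nat_lit 16) (nat_lit 5) (nat_lit 16) (nat_lit 4) (nat_lit 407) (nat_lit 361) (nat_lit 252))) (XT.nd (nat_lit 78) (nat_lit 76) (nat_lit 0) (XT.lf (nat_lit 0) (nat_lit 14472032149) (nat_lit 152) (nat_lit 42846009680) (nat_lit 76) (nat_lit 151110958999) (nat_lit 14) (nat_lit 5) (nat_lit 16) (nat_lit 5) (nat_lit 15) (nat_lit 4) (nat_lit 408) (nat_lit 361) (nat_lit 251)) (XT.nd (nat_lit 78) (nat_lit 0) (nat_lit 0) (XT.lf (nat_lit 0)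 (nat_lit 48176105916) (nat_lit 76) (nat_lit 10057105865) (nat_lit 152) (nat_lit 163023275633) (nat_lit 13) (nat_lit 5) (nat_lit 14) (nat_lit 5) (nat_lit 15) (nat_lit 4) (nat_lit 409) (nat_lit 361) (nat_lit 250)) (XT.lf (nat_lit 0) (nat_lit 107681367877) (nat_lit 152) (nat_lit 87118873320) (nat_lit 0) (nat_lit 40135045349) (nat_lit 13) (nat_lit 5) (nat_lit 15) (nat_lit 4) (nat_lit 13) (nat_lit 4) (nat_lit 410) (nat_lit 361) (nat_lit 249))))))) (XT.nd (nat_lit 780) (nat_lit 228) (nat_lit 0) (XT.nd (nat_lit 390) (nat_lit 228) (nat_lit 0) (XT.nd (nat_lit 156) (nat_lit 152) (nat_lit 0) (XT.nd (nat_lit 78) (nat_lit 0) (nat_lit 0) (XT.lf (nat_lit 0) (nat_lit 5742844536) (nat_lit 76) (nat_lit 155740468144) (nat_lit 76) (nat_lit 88193242204) (nat_lit 12) (nat_lit 4) (nat_lit 13) (nat_lit 5) (nat_lit 13) (nat_lit 4) (nat_lit 411) (nat_lit 361) (nat_lit 248)) (XT.lf (nat_lit 0) (nat_lit 110985329625)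 (nat_lit 76) (nat_lit 110984704005) (nat_lit 76) (nat_lit 43436641573) (nat_lit 12) (nat_lit 4) (nat_lit 13) (nat_lit 5) (nat_lit 13) (nat_lit 4) (nat_lit 412) (nat_lit 361) (nat_lit 247))) (XT.nd (nat_lit 78) (nat_lit 76) (nat_lit 0) (XT.lf (nat_lit 0) (nat_lit 4654049157) (nat_lit 152) (nat_lit 57868414713) (nat_lit 76) (nat_lit 219863416525) (nat_lit 11) (nat_lit 5) (nat_lit 13) (nat_lit 5) (nat_lit 12) (nat_lit 4) (nat_lit 413) (nat_lit 361) (nat_lit 246)) (XT.nd (nat_lit 78) (nat_lit 0) (nat_lit 0) (XT.lf (nat_lit 0) (nat_lit 47662417141) (nat_lit 76) (nat_lit 7727953656) (nat_lit 152) (nat_lit 245151186775) (nat_lit 10) (nat_lit 5) (nat_lit 11) (nat_lit 5) (nat_lit 12) (nat_lit 4) (nat_lit 414) (nat_lit 361) (nat_lit 245)) (XT.lf (nat_lit 0) (nat_lit 113045102263) (nat_lit 152) (nat_lit 156377222477) (nat_lit 0) (nat_lit 50498603972) (nat_lit 10) (nat_lit 5) (nat_lit 12) (nat_lit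 4) (nat_lit 10) (nat_lit 4) (nat_lit 415) (nat_lit 361) (nat_lit 244))))) (XT.nd (nat_lit 156) (nat_lit 152) (nat_lit 0) (XT.nd (nat_lit 78) (nat_lit 76) (nat_lit 0) (XT.lf (nat_lit 0) (nat_lit 175511832545) (nat_lit 152) (nat_lit 52358082531) (nat_lit 0) (nat_lit 112964764952) (nat_lit 10) (nat_lit 5) (nat_lit 12) (nat_lit 4) (nat_lit 10) (nat_lit 4) (nat_lit 416) (nat_lit 361) (nat_lit 243)) (XT.lf (nat_lit 0) (nat_lit 63139015883) (nat_lit 76) (nat_lit 181354356356) (nat_lit 76) (nat_lit 118806761631) (nat_lit 9) (nat_lit 4) (nat_lit 10) (nat_lit 5) (nat_lit 10) (nat_lit 4) (nat_lit 417) (nat_lit 361) (nat_lit 242))) (XT.nd (nat_lit 78) (nat_lit 152) (nat_lit 0) (XT.lf (nat_lit 0) (nat_lit 190851542401) (nat_lit 76) (nat_lit 129572459586) (nat_lit 76) (nat_lit 67024376776) (nat_lit 9) (nat_lit 4) (nat_lit 10) (nat_lit 5) (nat_lit 10) (nat_lit 4) (nat_lit 418) (nat_lit 361) (nat_lit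 241)) (XT.nd (nat_lit 78) (nat_lit 152) (nat_lit 0) (XT.lf (nat_lit 0) (nat_lit 328779228153) (nat_lit 76) (nat_lit 73648931845) (nat_lit 76) (nat_lit 11100397104) (nat_lit 9) (nat_lit 4) (nat_lit 10) (nat_lit 5) (nat_lit 10) (nat_lit 4) (nat_lit 419) (nat_lit 361) (nat_lit 240)) (XT.lf (nat_lit 0) (nat_lit 36694213564) (nat_lit 76) (nat_lit 11018847377) (nat_lit 152) (nat_lit 393816710702) (nat_lit 7) (nat_lit 5) (nat_lit 8) (nat_lit 5) (nat_lit 9) (nat_lit 4) (nat_lit 420) (nat_lit 361) (nat_lit 239)))))) (XT.nd (nat_lit 390) (nat_lit 152) (nat_lit 0) (XT.nd (nat_lit 156) (nat_lit 76) (nat_lit 0) (XT.nd (nat_lit 78) (nat_lit 0) (nat_lit 0) (XT.lf (nat_lit 0) (nat_lit 114370148698) (nat_lit 152) (nat_lit 300624715395) (nat_lit 0) (nat_lit 56454092537) (nat_lit 7) (nat_lit 5) (nat_lit 9) (nat_lit 4) (nat_lit 7) (nat_lit 4) (nat_lit 421) (nat_lit 361) (nat_lit 238)) (XT.lf (nat_lit 0) (nat_lit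 186645199117) (nat_lit 152) (nat_lit 188364834935) (nat_lit 0) (nat_lit 128728810774) (nat_lit 7) (nat_lit 5) (nat_lit 9) (nat_lit 4) (nat_lit 7) (nat_lit 4) (nat_lit 422) (nat_lit 361) (nat_lit 237))) (XT.nd (nat_lit 78) (nat_lit 76) (nat_lit 0) (XT.lf (nat_lit 0) (nat_lit 264701505252) (nat_lit 152) (nat_lit 67125669419) (nat_lit 0) (nat_lit 206784809332) (nat_lit 7) (nat_lit 5) (nat_lit 9) (nat_lit 4) (nat_lit 7) (nat_lit 4) (nat_lit 423) (nat_lit 361) (nat_lit 236)) (XT.nd (nat_lit 78) (nat_lit 0) (nat_lit 0) (XT.lf (nat_lit 0) (nat_lit 67171422042) (nat_lit 76) (nat_lit 283445675262) (nat_lit 76) (nat_lit 225528694549) (nat_lit 6) (nat_lit 4) (nat_lit 7) (nat_lit 5) (nat_lit 7) (nat_lit 4) (nat_lit 424) (nat_lit 361) (nat_lit 235)) (XT.lf (nat_lit 0) (nat_lit 216028418537) (nat_lit 76) (nat_lit 229212178707) (nat_lit 76) (nat_lit 171294934297) (nat_lit 6) (nat_lit 4) (nat_lit 7) (nat_lit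 5) (nat_lit 7) (nat_lit 4) (nat_lit 425) (nat_lit 361) (nat_lit 234))))) (XT.nd (nat_lit 234) (nat_lit 76) (nat_lit 0) (XT.nd (nat_lit 78) (nat_lit 76) (nat_lit 0) (XT.lf (nat_lit 0) (nat_lit 376792716803) (nat_lit 76) (nat_lit 170640636082) (nat_lit 76) (nat_lit 112723147507) (nat_lit 6) (nat_lit 4) (nat_lit 7) (nat_lit 5) (nat_lit 7) (nat_lit 4) (nat_lit 426) (nat_lit 361) (nat_lit 233)) (XT.nd (nat_lit 78) (nat_lit 76) (nat_lit 0) (XT.lf (nat_lit 0) (nat_lit 550416994165) (nat_lit 76) (nat_lit 107383956763) (nat_lit 76) (nat_lit 49466242111) (nat_lit 6) (nat_lit 4) (nat_lit 7) (nat_lit 5) (nat_lit 7) (nat_lit 4) (nat_lit 427) (nat_lit 361) (nat_lit 232)) (XT.lf (nat_lit 0) (nat_lit 17907652387) (nat_lit 152) (nat_lit 20670007017) (nat_lit 76) (nat_lit 719532855889) (nat_lit 5) (nat_lit 5) (nat_lit 7) (nat_lit 5) (nat_lit 6) (nat_lit 4) (nat_lit 428) (nat_lit 361) (nat_lit 231)))) (XT.nd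 (nat_lit 78) (nat_lit 0) (nat_lit 0) (XT.lf (nat_lit 0) (nat_lit 92141068264) (nat_lit 152) (nat_lit 681932900959) (nat_lit 0) (nat_lit 38513181404) (nat_lit 4) (nat_lit 5) (nat_lit 6) (nat_lit 4) (nat_lit 4) (nat_lit 4) (nat_lit 429) (nat_lit 361) (nat_lit 230)) (XT.nd (nat_lit 78) (nat_lit 0) (nat_lit 0) (XT.lf (nat_lit 0) (nat_lit 173894501504) (nat_lit 152) (nat_lit 577134459317) (nat_lit 0) (nat_lit 120266448470) (nat_lit 4) (nat_lit 5) (nat_lit 6) (nat_lit 4) (nat_lit 4) (nat_lit 4) (nat_lit 430) (nat_lit 361) (nat_lit 229)) (XT.lf (nat_lit 0) (nat_lit 262187739961) (nat_lit 152) (nat_lit 463953093210) (nat_lit 0) (nat_lit 208559533063) (nat_lit 4) (nat_lit 5) (nat_lit 6) (nat_lit 4) (nat_lit 4) (nat_lit 4) (nat_lit 431) (nat_lit 361) (nat_lit 228))))))))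
noncomputable def xc153 : XT := (XT.nd (nat_lit 1560) (nat_lit 0) (nat_lit 0) (XT.nd (nat_lit 780) (nat_lit 152) (nat_lit 0) (XT.nd (nat_lit 390) (nat_lit 0) (nat_lit 0) (XT.nd (nat_lit 156) (nat_lit 76) (nat_lit 0) (XT.nd (nat_lit 78) (nat_lit 0) (nat_lit 0) (XT.lf (nat_lit 0) (nat_lit 357544002826) (nat_lit 152) (nat_lit 341718098245) (nat_lit 0) (nat_lit 303915653460) (nat_lit 4) (nat_lit 5) (nat_lit 6) (nat_lit 4) (nat_lit 4) (nat_lit 4) (nat_lit 432) (nat_lit 361) (nat_lit 227)) (XT.lf (nat_lit 0) (nat_lit 460528364250) (nat_lit 152) (nat_lit 209705118898) (nat_lit 0) (nat_lit 406899882969) (nat_lit 4) (nat_lit 5) (nat_lit 6) (nat_lit 4) (nat_lit 4) (nat_lit 4) (nat_lit 433) (nat_lit 361) (nat_lit 226))) (XT.nd (nat_lit 78) (nat_lit 76) (nat_lit 0) (XT.lf (nat_lit 0) (nat_lit 571751101928) (nat_lit 152) (nat_lit 67131856031) (nat_lit 0) (nat_lit 518122498505) (nat_lit 4) (nat_lit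 5) (nat_lit 6) (nat_lit 4) (nat_lit 4) (nat_lit 4) (nat_lit 434) (nat_lit 361) (nat_lit 225)) (XT.nd (nat_lit 78) (nat_lit 0) (nat_lit 0) (XT.lf (nat_lit 0) (nat_lit 91419755364) (nat_lit 76) (nat_lit 602650205518) (nat_lit 76) (nat_lit 549021488999) (nat_lit 3) (nat_lit 4) (nat_lit 4) (nat_lit 5) (nat_lit 4) (nat_lit 4) (nat_lit 435) (nat_lit 361) (nat_lit 224)) (XT.lf (nat_lit 0) (nat_lit 266472662589) (nat_lit 76) (nat_lit 561536833998) (nat_lit 76) (nat_lit 507908012761) (nat_lit 3) (nat_lit 4) (nat_lit 4) (nat_lit 5) (nat_lit 4) (nat_lit 4) (nat_lit 436) (nat_lit 361) (nat_lit 223))))) (XT.nd (nat_lit 156) (nat_lit 0) (nat_lit 0) (XT.nd (nat_lit 78) (nat_lit 0) (nat_lit 0) (XT.lf (nat_lit 0) (nat_lit 455529171631) (nat_lit 76) (nat_lit 517134712518) (nat_lit 76) (nat_lit 463505794321) (nat_lit 3) (nat_lit 4) (nat_lit 4) (nat_lit 5) (nat_lit 4) (nat_lit 4) (nat_lit 437) (nat_lit 361)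 (nat_lit 222)) (XT.lf (nat_lit 0) (nat_lit 659709617359) (nat_lit 76) (nat_lit 469180717396) (nat_lit 76) (nat_lit 415551709420) (nat_lit 3) (nat_lit 4) (nat_lit 4) (nat_lit 5) (nat_lit 4) (nat_lit 4) (nat_lit 438) (nat_lit 361) (nat_lit 221))) (XT.nd (nat_lit 78) (nat_lit 0) (nat_lit 0) (XT.lf (nat_lit 0) (nat_lit 880223957971) (nat_lit 76) (nat_lit 417390676809) (nat_lit 76) (nat_lit 363761585705) (nat_lit 3) (nat_lit 4) (nat_lit 4) (nat_lit 5) (nat_lit 4) (nat_lit 4) (nat_lit 439) (nat_lit 361) (nat_lit 220)) (XT.nd (nat_lit 78) (nat_lit 0) (nat_lit 0) (XT.lf (nat_lit 0) (nat_lit 1118378945114) (nat_lit 76) (nat_lit 361457686812) (nat_lit 76) (nat_lit 307828518737) (nat_lit 3) (nat_lit 4) (nat_lit 4) (nat_lit 5) (nat_lit 4) (nat_lit 4) (nat_lit 440) (nat_lit 361) (nat_lit 219)) (XT.lf (nat_lit 0) (nat_lit 1375585867601) (nat_lit 76) (nat_lit 301050292650) (nat_lit 76) (nat_lit 247421053306)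 (nat_lit 3) (nat_lit 4) (nat_lit 4) (nat_lit 5) (nat_lit 4) (nat_lit 4) (nat_lit 441) (nat_lit 361) (nat_lit 218)))))) (XT.nd (nat_lit 390) (nat_lit 0) (nat_lit 0) (XT.nd (nat_lit 156) (nat_lit 152) (nat_lit 0) (XT.nd (nat_lit 78) (nat_lit 0) (nat_lit 0) (XT.lf (nat_lit 0) (nat_lit 1653368914602) (nat_lit 76) (nat_lit 235810524580) (nat_lit 76) (nat_lit 182181219246) (nat_lit 3) (nat_lit 4) (nat_lit 4) (nat_lit 5) (nat_lit 4) (nat_lit 4) (nat_lit 442) (nat_lit 361) (nat_lit 217)) (XT.lf (nat_lit 0) (nat_lit 1953374207878) (nat_lit 76) (nat_lit 165351776568) (nat_lit 76) (nat_lit 111722410132) (nat_lit 3) (nat_lit 4) (nat_lit 4) (nat_lit 5) (nat_lit 4) (nat_lit 4) (nat_lit 443) (nat_lit 361) (nat_lit 216))) (XT.nd (nat_lit 78) (nat_lit 152) (nat_lit 0) (XT.lf (nat_lit 0) (nat_lit 2277379556573) (nat_lit 76) (nat_lit 89256515294) (nat_lit 76) (nat_lit 35627092282) (nat_lit 3) (nat_lit 4)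 (nat_lit 4) (nat_lit 5) (nat_lit 4) (nat_lit 4) (nat_lit 444) (nat_lit 361) (nat_lit 215)) (XT.nd (nat_lit 78) (nat_lit 0) (nat_lit 0) (XT.lf (nat_lit 0) (nat_lit 40382284073) (nat_lit 76) (nat_lit 4815677210) (nat_lit 152) (nat_lit 2542457898664) (nat_lit 1) (nat_lit 5) (nat_lit 2) (nat_lit 5) (nat_lit 3) (nat_lit 4) (nat_lit 445) (nat_lit 361) (nat_lit 214)) (XT.lf (nat_lit 0) (nat_lit 136144738621) (nat_lit 152) (nat_lit 2564726989801) (nat_lit 0) (nat_lit 86487772045) (nat_lit 1) (nat_lit 5) (nat_lit 3) (nat_lit 4) (nat_lit 1) (nat_lit 4) (nat_lit 446) (nat_lit 361) (nat_lit 213))))) (XT.nd (nat_lit 156) (nat_lit 0) (nat_lit 0) (XT.nd (nat_lit 78) (nat_lit 0) (nat_lit 0) (XT.lf (nat_lit 0) (nat_lit 234492181418) (nat_lit 152) (nat_lit 2583702083700) (nat_lit 0) (nat_lit 184835173258) (nat_lit 1) (nat_lit 5) (nat_lit 3) (nat_lit 4) (nat_lit 1) (nat_lit 4) (nat_lit 447) (nat_lit 361)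 (nat_lit 212)) (XT.lf (nat_lit 0) (nat_lit 340707272184) (nat_lit 152) (nat_lit 2604195485419) (nat_lit 0) (nat_lit 291050225519) (nat_lit 1) (nat_lit 5) (nat_lit 3) (nat_lit 4) (nat_lit 1) (nat_lit 4) (nat_lit 448) (nat_lit 361) (nat_lit 211))) (XT.nd (nat_lit 78) (nat_lit 0) (nat_lit 0) (XT.lf (nat_lit 0) (nat_lit 455419433677) (nat_lit 152) (nat_lit 2626328637338) (nat_lit 0) (nat_lit 405762351360) (nat_lit 1) (nat_lit 5) (nat_lit 3) (nat_lit 4) (nat_lit 1) (nat_lit 4) (nat_lit 449) (nat_lit 361) (nat_lit 210)) (XT.nd (nat_lit 78) (nat_lit 0) (nat_lit 0) (XT.lf (nat_lit 0) (nat_lit 579308441671) (nat_lit 152) (nat_lit 2650232698878) (nat_lit 0) (nat_lit 529651326342) (nat_lit 1) (nat_lit 5) (nat_lit 3) (nat_lit 4) (nat_lit 1) (nat_lit 4) (nat_lit 450) (nat_lit 361) (nat_lit 209)) (XT.lf (nat_lit 0) (nat_lit 713108453248) (nat_lit 152) (nat_lit 2676049323734) (nat_lit 0) (nat_lit 663451307353)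 (nat_lit 1) (nat_lit 5) (nat_lit 3) (nat_lit 4) (nat_lit 1) (nat_lit 4) (nat_lit 451) (nat_lit 361) (nat_lit 208))))))) (XT.nd (nat_lit 46098) (nat_lit 0) (nat_lit 3876) (XT.nd (nat_lit 390) (nat_lit 0) (nat_lit 0) (XT.nd (nat_lit 156) (nat_lit 0) (nat_lit 0) (XT.nd (nat_lit 78) (nat_lit 0) (nat_lit 0) (XT.lf (nat_lit 0) (nat_lit 857612357367) (nat_lit 152) (nat_lit 2703931499315) (nat_lit 0) (nat_lit 807955183171) (nat_lit 1) (nat_lit 5) (nat_lit 3) (nat_lit 4) (nat_lit 1) (nat_lit 4) (nat_lit 452) (nat_lit 361) (nat_lit 207)) (XT.lf (nat_lit 0) (nat_lit 1013676473460) (nat_lit 152) (nat_lit 2734044453327) (nat_lit 0) (nat_lit 964019273058) (nat_lit 1) (nat_lit 5) (nat_lit 3) (nat_lit 4) (nat_lit 1) (nat_lit 4) (nat_lit 453) (nat_lit 361) (nat_lit 206))) (XT.nd (nat_lit 78) (nat_lit 0) (nat_lit 0) (XT.lf (nat_lit 0) (nat_lit 1182225625918) (nat_lit 152) (nat_lit 2766566632906) (nat_lit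 0) (nat_lit 1132568401252) (nat_lit 1) (nat_lit 5) (nat_lit 3) (nat_lit 4) (nat_lit 1) (nat_lit 4) (nat_lit 454) (nat_lit 361) (nat_lit 205)) (XT.nd (nat_lit 78) (nat_lit 0) (nat_lit 0) (XT.lf (nat_lit 0) (nat_lit 1364258624534) (nat_lit 152) (nat_lit 2801690762077) (nat_lit 0) (nat_lit 1314601377400) (nat_lit 1) (nat_lit 5) (nat_lit 3) (nat_lit 4) (nat_lit 1) (nat_lit 4) (nat_lit 455) (nat_lit 361) (nat_lit 204)) (XT.lf (nat_lit 0) (nat_lit 1560854183373) (nat_lit 152) (nat_lit 2839624983830) (nat_lit 0) (nat_lit 1511196915437) (nat_lit 1) (nat_lit 5) (nat_lit 3) (nat_lit 4) (nat_lit 1) (nat_lit 4) (nat_lit 456) (nat_lit 361) (nat_lit 203))))) (XT.nd (nat_lit 156) (nat_lit 0) (nat_lit 0) (XT.nd (nat_lit 78) (nat_lit 0) (nat_lit 0) (XT.lf (nat_lit 0) (nat_lit 1773177313155) (nat_lit 152) (nat_lit 2880594093551) (nat_lit 0) (nat_lit 1723520025957) (nat_lit 1) (nat_lit 5) (nat_lit 3) (nat_lit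 4) (nat_lit 1) (nat_lit 4) (nat_lit 457) (nat_lit 361) (nat_lit 202)) (XT.lf (nat_lit 0) (nat_lit 2002486225019) (nat_lit 152) (nat_lit 2924840871151) (nat_lit 0) (nat_lit 1952828919985) (nat_lit 1) (nat_lit 5) (nat_lit 3) (nat_lit 4) (nat_lit 1) (nat_lit 4) (nat_lit 458) (nat_lit 361) (nat_lit 201))) (XT.nd (nat_lit 78) (nat_lit 0) (nat_lit 0) (XT.lf (nat_lit 0) (nat_lit 2250139786590) (nat_lit 152) (nat_lit 2972627519757) (nat_lit 0) (nat_lit 2200482465043) (nat_lit 1) (nat_lit 5) (nat_lit 3) (nat_lit 4) (nat_lit 1) (nat_lit 4) (nat_lit 459) (nat_lit 361) (nat_lit 200)) (XT.nd (nat_lit 78) (nat_lit 0) (nat_lit 0) (XT.lf (nat_lit 0) (nat_lit 2517605574531) (nat_lit 152) (nat_lit 3024237219507) (nat_lit 0) (nat_lit 2467948237692) (nat_lit 1) (nat_lit 5) (nat_lit 3) (nat_lit 4) (nat_lit 1) (nat_lit 4) (nat_lit 460) (nat_lit 361) (nat_lit 199)) (XT.lf (nat_lit 0) (nat_lit 2806468571287)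 (nat_lit 152) (nat_lit 3079975805660) (nat_lit 0) (nat_lit 2756811220291) (nat_lit 1) (nat_lit 5) (nat_lit 3) (nat_lit 4) (nat_lit 1) (nat_lit 4) (nat_lit 461) (nat_lit 361) (nat_lit 198)))))) (XT.nd (nat_lit 390) (nat_lit 912) (nat_lit 0) (XT.nd (nat_lit 156) (nat_lit 0) (nat_lit 76) (XT.nd (nat_lit 78) (nat_lit 0) (nat_lit 0) (XT.lf (nat_lit 0) (nat_lit 9200405032) (nat_lit 532) (nat_lit 949622023) (nat_lit 532) (nat_lit 949622023) (nat_lit 64) (nat_lit 3) (nat_lit 71) (nat_lit 3) (nat_lit 71) (nat_lit 5) (nat_lit 362) (nat_lit 362) (nat_lit 296)) (XT.lf (nat_lit 76) (nat_lit 9359265896) (nat_lit 0) (nat_lit 10127900078) (nat_lit 532) (nat_lit 3571959771) (nat_lit 65) (nat_lit 5) (nat_lit 64) (nat_lit 3) (nat_lit 71) (nat_lit 5) (nat_lit 363) (nat_lit 362) (nat_lit 295))) (XT.nd (nat_lit 78) (nat_lit 0) (nat_lit 0) (XT.lf (nat_lit 0) (nat_lit 20721776666) (nat_lit 456) (nat_lit 2387391539)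 (nat_lit 532) (nat_lit 873675479) (nat_lit 65) (nat_lit 5) (nat_lit 71) (nat_lit 5) (nat_lit 72) (nat_lit 5) (nat_lit 364) (nat_lit 362) (nat_lit 294)) (XT.nd (nat_lit 78) (nat_lit 0) (nat_lit 0) (XT.lf (nat_lit 76) (nat_lit 10062713392) (nat_lit 0) (nat_lit 12485877791) (nat_lit 532) (nat_lit 2392404052) (nat_lit 66) (nat_lit 5) (nat_lit 65) (nat_lit 5) (nat_lit 72) (nat_lit 5) (nat_lit 365) (nat_lit 362) (nat_lit 293)) (XT.lf (nat_lit 76) (nat_lit 23637117945) (nat_lit 0) (nat_lit 938754542) (nat_lit 532) (nat_lit 1395590853) (nat_lit 66) (nat_lit 5) (nat_lit 65) (nat_lit 5) (nat_lit 72) (nat_lit 5) (nat_lit 366) (nat_lit 362) (nat_lit 292))))) (XT.nd (nat_lit 234) (nat_lit 532) (nat_lit 0) (XT.nd (nat_lit 78) (nat_lit 0) (nat_lit 0) (XT.lf (nat_lit 0) (nat_lit 254985607) (nat_lit 532) (nat_lit 15543940944) (nat_lit 608) (nat_lit 11241420163) (nat_lit 59) (nat_lit 5) (nat_lit 66) (nat_lit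 5) (nat_lit 67) (nat_lit 5) (nat_lit 367) (nat_lit 362) (nat_lit 291)) (XT.nd (nat_lit 78) (nat_lit 0) (nat_lit 76) (XT.lf (nat_lit 0) (nat_lit 2042318042) (nat_lit 532) (nat_lit 1693701121) (nat_lit 608) (nat_lit 24449421089) (nat_lit 59) (nat_lit 5) (nat_lit 66) (nat_lit 5) (nat_lit 67) (nat_lit 5) (nat_lit 368) (nat_lit 362) (nat_lit 290)) (XT.lf (nat_lit 0) (nat_lit 4531446454) (nat_lit 532) (nat_lit 15673143319) (nat_lit 76) (nat_lit 9172854218) (nat_lit 60) (nat_lit 5) (nat_lit 67) (nat_lit 5) (nat_lit 61) (nat_lit 5) (nat_lit 369) (nat_lit 362) (nat_lit 289)))) (XT.nd (nat_lit 78) (nat_lit 608) (nat_lit 0) (XT.lf (nat_lit 0) (nat_lit 7355741855) (nat_lit 532) (nat_lit 336954489) (nat_lit 76) (nat_lit 22961235664) (nat_lit 60) (nat_lit 5) (nat_lit 67) (nat_lit 5) (nat_lit 61) (nat_lit 5) (nat_lit 370) (nat_lit 362) (nat_lit 288)) (XT.nd (nat_lit 78) (nat_lit 228) (nat_lit 0) (XT.lf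 (nat_lit 0) (nat_lit 10959345479) (nat_lit 456) (nat_lit 15078278389) (nat_lit 76) (nat_lit 5950652433) (nat_lit 55) (nat_lit 5) (nat_lit 61) (nat_lit 5) (nat_lit 56) (nat_lit 5) (nat_lit 371) (nat_lit 362) (nat_lit 287)) (XT.lf (nat_lit 0) (nat_lit 2020360410) (nat_lit 228) (nat_lit 13081258828) (nat_lit 304) (nat_lit 18307724283) (nat_lit 52) (nat_lit 5) (nat_lit 55) (nat_lit 5) (nat_lit 56) (nat_lit 5) (nat_lit 372) (nat_lit 362) (nat_lit 286))))))))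
noncomputable def xc154 : XT := (XT.nd (nat_lit 1560) (nat_lit 1064) (nat_lit 0) (XT.nd (nat_lit 780) (nat_lit 912) (nat_lit 0) (XT.nd (nat_lit 390) (nat_lit 608) (nat_lit 0) (XT.nd (nat_lit 156) (nat_lit 228) (nat_lit 0) (XT.nd (nat_lit 78) (nat_lit 228) (nat_lit 0) (XT.lf (nat_lit 0) (nat_lit 20013057992) (nat_lit 304) (nat_lit 13607596444) (nat_lit 76) (nat_lit 1288424524) (nat_lit 52) (nat_lit 5) (nat_lit 56) (nat_lit 5) (nat_lit 53) (nat_lit 5) (nat_lit 373) (nat_lit 362) (nat_lit 285)) (XT.lf (nat_lit 0) (nat_lit 5525282195) (nat_lit 228) (nat_lit 20258196554) (nat_lit 304) (nat_lit 10708034215) (nat_lit 49) (nat_lit 5) (nat_lit 52) (nat_lit 5) (nat_lit 53) (nat_lit 5) (nat_lit 374) (nat_lit 362) (nat_lit 284))) (XT.nd (nat_lit 78) (nat_lit 228) (nat_lit 0) (XT.lf (nat_lit 0) (nat_lit 26955217689) (nat_lit 228) (nat_lit 5426090987) (nat_lit 304) (nat_lit 5789975678) (nat_lit 49)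 (nat_lit 5) (nat_lit 52) (nat_lit 5) (nat_lit 53) (nat_lit 5) (nat_lit 375) (nat_lit 362) (nat_lit 283)) (XT.nd (nat_lit 78) (nat_lit 0) (nat_lit 0) (XT.lf (nat_lit 0) (nat_lit 56731057) (nat_lit 228) (nat_lit 29576204477) (nat_lit 76) (nat_lit 10312525068) (nat_lit 46) (nat_lit 5) (nat_lit 49) (nat_lit 5) (nat_lit 47) (nat_lit 5) (nat_lit 376) (nat_lit 362) (nat_lit 282)) (XT.lf (nat_lit 0) (nat_lit 6508205888) (nat_lit 228) (nat_lit 7824517772) (nat_lit 76) (nat_lit 27480832657) (nat_lit 46) (nat_lit 5) (nat_lit 49) (nat_lit 5) (nat_lit 47) (nat_lit 5) (nat_lit 377) (nat_lit 362) (nat_lit 281))))) (XT.nd (nat_lit 156) (nat_lit 380) (nat_lit 0) (XT.nd (nat_lit 78) (nat_lit 0) (nat_lit 0) (XT.lf (nat_lit 0) (nat_lit 13929924503) (nat_lit 304) (nat_lit 27377730879) (nat_lit 76) (nat_lit 2487117702) (nat_lit 43) (nat_lit 5) (nat_lit 47) (nat_lit 5) (nat_lit 44) (nat_lit 5) (nat_lit 378)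 (nat_lit 362) (nat_lit 280)) (XT.lf (nat_lit 0) (nat_lit 22532038304) (nat_lit 304) (nat_lit 3259395840) (nat_lit 76) (nat_lit 20096123637) (nat_lit 43) (nat_lit 5) (nat_lit 47) (nat_lit 5) (nat_lit 44) (nat_lit 5) (nat_lit 379) (nat_lit 362) (nat_lit 279))) (XT.nd (nat_lit 78) (nat_lit 228) (nat_lit 0) (XT.lf (nat_lit 0) (nat_lit 23981480424) (nat_lit 152) (nat_lit 8412860957) (nat_lit 228) (nat_lit 15707665222) (nat_lit 41) (nat_lit 5) (nat_lit 43) (nat_lit 5) (nat_lit 44) (nat_lit 5) (nat_lit 380) (nat_lit 362) (nat_lit 278)) (XT.nd (nat_lit 78) (nat_lit 76) (nat_lit 0) (XT.lf (nat_lit 0) (nat_lit 2992078036) (nat_lit 152) (nat_lit 40461421195) (nat_lit 228) (nat_lit 7007485208) (nat_lit 39) (nat_lit 5) (nat_lit 41) (nat_lit 5) (nat_lit 42) (nat_lit 5) (nat_lit 381) (nat_lit 362) (nat_lit 277)) (XT.lf (nat_lit 0) (nat_lit 3159841477) (nat_lit 228) (nat_lit 19610369144) (nat_lit 76)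 (nat_lit 30162626338) (nat_lit 38) (nat_lit 5) (nat_lit 41) (nat_lit 5) (nat_lit 39) (nat_lit 5) (nat_lit 382) (nat_lit 362) (nat_lit 276)))))) (XT.nd (nat_lit 390) (nat_lit 456) (nat_lit 0) (XT.nd (nat_lit 156) (nat_lit 304) (nat_lit 0) (XT.nd (nat_lit 78) (nat_lit 0) (nat_lit 0) (XT.lf (nat_lit 0) (nat_lit 10830318044) (nat_lit 152) (nat_lit 3187935709) (nat_lit 228) (nat_lit 41549122245) (nat_lit 36) (nat_lit 5) (nat_lit 38) (nat_lit 5) (nat_lit 39) (nat_lit 5) (nat_lit 383) (nat_lit 362) (nat_lit 275)) (XT.lf (nat_lit 0) (nat_lit 26723336331) (nat_lit 228) (nat_lit 14000561954) (nat_lit 76) (nat_lit 17610542109) (nat_lit 36) (nat_lit 5) (nat_lit 39) (nat_lit 5) (nat_lit 37) (nat_lit 5) (nat_lit 384) (nat_lit 362) (nat_lit 274))) (XT.nd (nat_lit 78) (nat_lit 152) (nat_lit 0) (XT.lf (nat_lit 0) (nat_lit 20112208928) (nat_lit 152) (nat_lit 20895348546) (nat_lit 228) (nat_lit 20270295780)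 (nat_lit 34) (nat_lit 5) (nat_lit 36) (nat_lit 5) (nat_lit 37) (nat_lit 5) (nat_lit 385) (nat_lit 362) (nat_lit 273)) (XT.nd (nat_lit 78) (nat_lit 152) (nat_lit 0) (XT.lf (nat_lit 0) (nat_lit 56836070662) (nat_lit 228) (nat_lit 6704351281) (nat_lit 76) (nat_lit 884194582) (nat_lit 34) (nat_lit 5) (nat_lit 37) (nat_lit 5) (nat_lit 35) (nat_lit 4) (nat_lit 386) (nat_lit 362) (nat_lit 272)) (XT.lf (nat_lit 0) (nat_lit 7133869139) (nat_lit 152) (nat_lit 36356429519) (nat_lit 76) (nat_lit 24214539638) (nat_lit 32) (nat_lit 5) (nat_lit 34) (nat_lit 5) (nat_lit 33) (nat_lit 5) (nat_lit 387) (nat_lit 362) (nat_lit 271))))) (XT.nd (nat_lit 156) (nat_lit 304) (nat_lit 0) (XT.nd (nat_lit 78) (nat_lit 0) (nat_lit 0) (XT.lf (nat_lit 0) (nat_lit 1459379663) (nat_lit 152) (nat_lit 21384512745) (nat_lit 228) (nat_lit 48370234873) (nat_lit 30) (nat_lit 5) (nat_lit 32) (nat_lit 5) (nat_lit 33) (nat_lit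 5) (nat_lit 388) (nat_lit 362) (nat_lit 270)) (XT.lf (nat_lit 0) (nat_lit 40887154789) (nat_lit 228) (nat_lit 30647940396) (nat_lit 76) (nat_lit 3382950494) (nat_lit 30) (nat_lit 5) (nat_lit 33) (nat_lit 5) (nat_lit 31) (nat_lit 4) (nat_lit 389) (nat_lit 362) (nat_lit 269))) (XT.nd (nat_lit 78) (nat_lit 228) (nat_lit 0) (XT.lf (nat_lit 0) (nat_lit 11607354140) (nat_lit 76) (nat_lit 49598058576) (nat_lit 152) (nat_lit 17646343246) (nat_lit 29) (nat_lit 5) (nat_lit 30) (nat_lit 5) (nat_lit 31) (nat_lit 4) (nat_lit 390) (nat_lit 362) (nat_lit 268)) (XT.nd (nat_lit 78) (nat_lit 152) (nat_lit 0) (XT.lf (nat_lit 0) (nat_lit 903214280) (nat_lit 152) (nat_lit 24075310937) (nat_lit 76) (nat_lit 58053008992) (nat_lit 28) (nat_lit 5) (nat_lit 30) (nat_lit 5) (nat_lit 29) (nat_lit 5) (nat_lit 391) (nat_lit 362) (nat_lit 267)) (XT.lf (nat_lit 0) (nat_lit 20604763101) (nat_lit 228) (nat_lit 64282666823)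 (nat_lit 76) (nat_lit 2571886995) (nat_lit 26) (nat_lit 5) (nat_lit 29) (nat_lit 5) (nat_lit 27) (nat_lit 4) (nat_lit 392) (nat_lit 362) (nat_lit 266))))))) (XT.nd (nat_lit 780) (nat_lit 532) (nat_lit 0) (XT.nd (nat_lit 390) (nat_lit 304) (nat_lit 0) (XT.nd (nat_lit 156) (nat_lit 152) (nat_lit 0) (XT.nd (nat_lit 78) (nat_lit 76) (nat_lit 0) (XT.lf (nat_lit 0) (nat_lit 43203818583) (nat_lit 228) (nat_lit 17281542855) (nat_lit 76) (nat_lit 31650251054) (nat_lit 26) (nat_lit 5) (nat_lit 29) (nat_lit 5) (nat_lit 27) (nat_lit 4) (nat_lit 393) (nat_lit 362) (nat_lit 265)) (XT.lf (nat_lit 0) (nat_lit 35237833068) (nat_lit 76) (nat_lit 33217871836) (nat_lit 152) (nat_lit 28662715096) (nat_lit 25) (nat_lit 5) (nat_lit 26) (nat_lit 5) (nat_lit 27) (nat_lit 4) (nat_lit 394) (nat_lit 362) (nat_lit 264))) (XT.nd (nat_lit 78) (nat_lit 152) (nat_lit 0) (XT.lf (nat_lit 0) (nat_lit 92937114510) (nat_lit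 76) (nat_lit 3260653955) (nat_lit 152) (nat_lit 6264482279) (nat_lit 25) (nat_lit 5) (nat_lit 26) (nat_lit 5) (nat_lit 27) (nat_lit 4) (nat_lit 395) (nat_lit 362) (nat_lit 263)) (XT.nd (nat_lit 78) (nat_lit 0) (nat_lit 0) (XT.lf (nat_lit 0) (nat_lit 18947340240) (nat_lit 152) (nat_lit 59810034849) (nat_lit 76) (nat_lit 29288249176) (nat_lit 23) (nat_lit 5) (nat_lit 25) (nat_lit 5) (nat_lit 24) (nat_lit 4) (nat_lit 396) (nat_lit 362) (nat_lit 262)) (XT.lf (nat_lit 0) (nat_lit 46187226640) (nat_lit 152) (nat_lit 3154413776) (nat_lit 76) (nat_lit 64693045708) (nat_lit 23) (nat_lit 5) (nat_lit 25) (nat_lit 5) (nat_lit 24) (nat_lit 4) (nat_lit 397) (nat_lit 362) (nat_lit 261))))) (XT.nd (nat_lit 156) (nat_lit 152) (nat_lit 0) (XT.nd (nat_lit 78) (nat_lit 76) (nat_lit 0) (XT.lf (nat_lit 0) (nat_lit 61085428790) (nat_lit 76) (nat_lit 15987825544) (nat_lit 152) (nat_lit 43312263113) (nat_lit 22)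 (nat_lit 5) (nat_lit 23) (nat_lit 5) (nat_lit 24) (nat_lit 4) (nat_lit 398) (nat_lit 362) (nat_lit 260)) (XT.lf (nat_lit 0) (nat_lit 3071950424) (nat_lit 76) (nat_lit 108000275222) (nat_lit 76) (nat_lit 16120825222) (nat_lit 21) (nat_lit 4) (nat_lit 22) (nat_lit 5) (nat_lit 22) (nat_lit 4) (nat_lit 399) (nat_lit 362) (nat_lit 259))) (XT.nd (nat_lit 78) (nat_lit 76) (nat_lit 0) (XT.lf (nat_lit 0) (nat_lit 14659942320) (nat_lit 152) (nat_lit 61389226913) (nat_lit 76) (nat_lit 58304402608) (nat_lit 20) (nat_lit 5) (nat_lit 22) (nat_lit 5) (nat_lit 21) (nat_lit 4) (nat_lit 400) (nat_lit 362) (nat_lit 258)) (XT.nd (nat_lit 78) (nat_lit 0) (nat_lit 0) (XT.lf (nat_lit 0) (nat_lit 6251491116) (nat_lit 76) (nat_lit 40929120903) (nat_lit 152) (nat_lit 94860954331) (nat_lit 19) (nat_lit 5) (nat_lit 20) (nat_lit 5) (nat_lit 21) (nat_lit 4) (nat_lit 401) (nat_lit 362) (nat_lit 257)) (XT.lf (nat_lit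 0) (nat_lit 82791112625) (nat_lit 76) (nat_lit 1188407057) (nat_lit 152) (nat_lit 66230954359) (nat_lit 19) (nat_lit 5) (nat_lit 20) (nat_lit 5) (nat_lit 21) (nat_lit 4) (nat_lit 402) (nat_lit 362) (nat_lit 256)))))) (XT.nd (nat_lit 390) (nat_lit 304) (nat_lit 0) (XT.nd (nat_lit 156) (nat_lit 76) (nat_lit 0) (XT.nd (nat_lit 78) (nat_lit 76) (nat_lit 0) (XT.lf (nat_lit 0) (nat_lit 5699002054) (nat_lit 76) (nat_lit 119162241433) (nat_lit 76) (nat_lit 34080538921) (nat_lit 18) (nat_lit 4) (nat_lit 19) (nat_lit 5) (nat_lit 19) (nat_lit 4) (nat_lit 403) (nat_lit 362) (nat_lit 255)) (XT.lf (nat_lit 0) (nat_lit 2530115160) (nat_lit 152) (nat_lit 79820735130) (nat_lit 76) (nat_lit 85865885107) (nat_lit 17) (nat_lit 5) (nat_lit 19) (nat_lit 5) (nat_lit 18) (nat_lit 4) (nat_lit 404) (nat_lit 362) (nat_lit 254))) (XT.nd (nat_lit 78) (nat_lit 76) (nat_lit 0) (XT.lf (nat_lit 0) (nat_lit 40226724474)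 (nat_lit 152) (nat_lit 1413336046) (nat_lit 76) (nat_lit 136522940697) (nat_lit 17) (nat_lit 5) (nat_lit 19) (nat_lit 5) (nat_lit 18) (nat_lit 4) (nat_lit 405) (nat_lit 362) (nat_lit 253)) (XT.nd (nat_lit 78) (nat_lit 0) (nat_lit 0) (XT.lf (nat_lit 0) (nat_lit 83156160596) (nat_lit 152) (nat_lit 101198942993) (nat_lit 0) (nat_lit 4372497120) (nat_lit 16) (nat_lit 5) (nat_lit 18) (nat_lit 4) (nat_lit 16) (nat_lit 4) (nat_lit 406) (nat_lit 362) (nat_lit 252)) (XT.lf (nat_lit 0) (nat_lit 130639629886) (nat_lit 152) (nat_lit 17553426919) (nat_lit 0) (nat_lit 51854737328) (nat_lit 16) (nat_lit 5) (nat_lit 18) (nat_lit 4) (nat_lit 16) (nat_lit 4) (nat_lit 407) (nat_lit 362) (nat_lit 251))))) (XT.nd (nat_lit 234) (nat_lit 76) (nat_lit 0) (XT.nd (nat_lit 78) (nat_lit 152) (nat_lit 0) (XT.lf (nat_lit 0) (nat_lit 76613492892) (nat_lit 76) (nat_lit 107149424836) (nat_lit 76) (nat_lit 28363394240)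 (nat_lit 15) (nat_lit 4) (nat_lit 16) (nat_lit 5) (nat_lit 16) (nat_lit 4) (nat_lit 408) (nat_lit 362) (nat_lit 250)) (XT.nd (nat_lit 78) (nat_lit 76) (nat_lit 0) (XT.lf (nat_lit 0) (nat_lit 15657322383) (nat_lit 152) (nat_lit 46219853777) (nat_lit 76) (nat_lit 163223938897) (nat_lit 14) (nat_lit 5) (nat_lit 16) (nat_lit 5) (nat_lit 15) (nat_lit 4) (nat_lit 409) (nat_lit 362) (nat_lit 249)) (XT.lf (nat_lit 0) (nat_lit 52082668113) (nat_lit 76) (nat_lit 10835951181) (nat_lit 152) (nat_lit 176036243713) (nat_lit 13) (nat_lit 5) (nat_lit 14) (nat_lit 5) (nat_lit 15) (nat_lit 4) (nat_lit 410) (nat_lit 362) (nat_lit 248)))) (XT.nd (nat_lit 78) (nat_lit 76) (nat_lit 0) (XT.lf (nat_lit 0) (nat_lit 116321219171) (nat_lit 152) (nat_lit 94038384592) (nat_lit 0) (nat_lit 43368475252) (nat_lit 13) (nat_lit 5) (nat_lit 15) (nat_lit 4) (nat_lit 13) (nat_lit 4) (nat_lit 411) (nat_lit 362) (nat_lit 247))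 (XT.nd (nat_lit 78) (nat_lit 0) (nat_lit 0) (XT.lf (nat_lit 0) (nat_lit 6251004906) (nat_lit 76) (nat_lit 168175609502) (nat_lit 76) (nat_lit 95222091053) (nat_lit 12) (nat_lit 4) (nat_lit 13) (nat_lit 5) (nat_lit 13) (nat_lit 4) (nat_lit 412) (nat_lit 362) (nat_lit 246)) (XT.lf (nat_lit 0) (nat_lit 119909278965) (nat_lit 76) (nat_lit 119841169127) (nat_lit 76) (nat_lit 46886933522) (nat_lit 12) (nat_lit 4) (nat_lit 13) (nat_lit 5) (nat_lit 13) (nat_lit 4) (nat_lit 413) (nat_lit 362) (nat_lit 245))))))))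
noncomputable def xc155 : XT := (XT.nd (nat_lit 1638) (nat_lit 228) (nat_lit 0) (XT.nd (nat_lit 780) (nat_lit 228) (nat_lit 0) (XT.nd (nat_lit 390) (nat_lit 152) (nat_lit 0) (XT.nd (nat_lit 156) (nat_lit 76) (nat_lit 0) (XT.nd (nat_lit 78) (nat_lit 76) (nat_lit 0) (XT.lf (nat_lit 0) (nat_lit 5048046067) (nat_lit 152) (nat_lit 62454963819) (nat_lit 76) (nat_lit 237472004819) (nat_lit 11) (nat_lit 5) (nat_lit 13) (nat_lit 5) (nat_lit 12) (nat_lit 4) (nat_lit 414) (nat_lit 362) (nat_lit 244)) (XT.lf (nat_lit 0) (nat_lit 51517247898) (nat_lit 76) (nat_lit 8325426325) (nat_lit 152) (nat_lit 264740519940) (nat_lit 10) (nat_lit 5) (nat_lit 11) (nat_lit 5) (nat_lit 12) (nat_lit 4) (nat_lit 415) (nat_lit 362) (nat_lit 243))) (XT.nd (nat_lit 78) (nat_lit 76) (nat_lit 0) (XT.lf (nat_lit 0) (nat_lit 122108685562) (nat_lit 152) (nat_lit 168847561354) (nat_lit 0) (nat_lit 54556756127) (nat_lit 10) (nat_lit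 5) (nat_lit 12) (nat_lit 4) (nat_lit 10) (nat_lit 4) (nat_lit 416) (nat_lit 362) (nat_lit 242)) (XT.nd (nat_lit 78) (nat_lit 76) (nat_lit 0) (XT.lf (nat_lit 0) (nat_lit 189571274628) (nat_lit 152) (nat_lit 56509841243) (nat_lit 0) (nat_lit 122018857108) (nat_lit 10) (nat_lit 5) (nat_lit 12) (nat_lit 4) (nat_lit 10) (nat_lit 4) (nat_lit 417) (nat_lit 362) (nat_lit 241)) (XT.lf (nat_lit 0) (nat_lit 68226091174) (nat_lit 76) (nat_lit 195844740984) (nat_lit 76) (nat_lit 128291871533) (nat_lit 9) (nat_lit 4) (nat_lit 10) (nat_lit 5) (nat_lit 10) (nat_lit 4) (nat_lit 418) (nat_lit 362) (nat_lit 240))))) (XT.nd (nat_lit 156) (nat_lit 152) (nat_lit 0) (XT.nd (nat_lit 78) (nat_lit 0) (nat_lit 0) (XT.lf (nat_lit 0) (nat_lit 206152956553) (nat_lit 76) (nat_lit 139921623130) (nat_lit 76) (nat_lit 72368335224) (nat_lit 9) (nat_lit 4) (nat_lit 10) (nat_lit 5) (nat_lit 10) (nat_lit 4) (nat_lit 419) (nat_lit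 362) (nat_lit 239)) (XT.lf (nat_lit 0) (nat_lit 355112391183) (nat_lit 76) (nat_lit 79525445260) (nat_lit 76) (nat_lit 11971769897) (nat_lit 9) (nat_lit 4) (nat_lit 10) (nat_lit 5) (nat_lit 10) (nat_lit 4) (nat_lit 420) (nat_lit 362) (nat_lit 238))) (XT.nd (nat_lit 78) (nat_lit 0) (nat_lit 0) (XT.lf (nat_lit 0) (nat_lit 39660608603) (nat_lit 76) (nat_lit 11884892706) (nat_lit 152) (nat_lit 425305419193) (nat_lit 7) (nat_lit 5) (nat_lit 8) (nat_lit 5) (nat_lit 9) (nat_lit 4) (nat_lit 421) (nat_lit 362) (nat_lit 237)) (XT.nd (nat_lit 78) (nat_lit 0) (nat_lit 0) (XT.lf (nat_lit 0) (nat_lit 123534360005) (nat_lit 152) (nat_lit 324645323225) (nat_lit 0) (nat_lit 60984020835) (nat_lit 7) (nat_lit 5) (nat_lit 9) (nat_lit 4) (nat_lit 7) (nat_lit 4) (nat_lit 422) (nat_lit 362) (nat_lit 236)) (XT.lf (nat_lit 0) (nat_lit 201590333020) (nat_lit 152) (nat_lit 203406827839) (nat_lit 0) (nat_lit 139039709057)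 (nat_lit 7) (nat_lit 5) (nat_lit 9) (nat_lit 4) (nat_lit 7) (nat_lit 4) (nat_lit 423) (nat_lit 362) (nat_lit 235)))))) (XT.nd (nat_lit 390) (nat_lit 152) (nat_lit 0) (XT.nd (nat_lit 156) (nat_lit 0) (nat_lit 0) (XT.nd (nat_lit 78) (nat_lit 76) (nat_lit 0) (XT.lf (nat_lit 0) (nat_lit 285890142314) (nat_lit 152) (nat_lit 72470543444) (nat_lit 0) (nat_lit 223339254654) (nat_lit 7) (nat_lit 5) (nat_lit 9) (nat_lit 4) (nat_lit 7) (nat_lit 4) (nat_lit 424) (nat_lit 362) (nat_lit 234)) (XT.lf (nat_lit 0) (nat_lit 72569677878) (nat_lit 76) (nat_lit 306108966932) (nat_lit 76) (nat_lit 243557835108) (nat_lit 6) (nat_lit 4) (nat_lit 7) (nat_lit 5) (nat_lit 7) (nat_lit 4) (nat_lit 425) (nat_lit 362) (nat_lit 233))) (XT.nd (nat_lit 78) (nat_lit 0) (nat_lit 0) (XT.lf (nat_lit 0) (nat_lit 233333416161) (nat_lit 76) (nat_lit 247537706382) (nat_lit 76) (nat_lit 184986348480) (nat_lit 6) (nat_lit 4) (nat_lit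 7) (nat_lit 5) (nat_lit 7) (nat_lit 4) (nat_lit 426) (nat_lit 362) (nat_lit 232)) (XT.nd (nat_lit 78) (nat_lit 0) (nat_lit 0) (XT.lf (nat_lit 0) (nat_lit 406957175019) (nat_lit 76) (nat_lit 184281288245) (nat_lit 76) (nat_lit 121729721011) (nat_lit 6) (nat_lit 4) (nat_lit 7) (nat_lit 5) (nat_lit 7) (nat_lit 4) (nat_lit 427) (nat_lit 362) (nat_lit 231)) (XT.lf (nat_lit 0) (nat_lit 594469835986) (nat_lit 76) (nat_lit 115964859671) (nat_lit 76) (nat_lit 53413098612) (nat_lit 6) (nat_lit 4) (nat_lit 7) (nat_lit 5) (nat_lit 7) (nat_lit 4) (nat_lit 428) (nat_lit 362) (nat_lit 230))))) (XT.nd (nat_lit 234) (nat_lit 0) (nat_lit 0) (XT.nd (nat_lit 78) (nat_lit 76) (nat_lit 0) (XT.lf (nat_lit 0) (nat_lit 19349450201) (nat_lit 152) (nat_lit 22305084107) (nat_lit 76) (nat_lit 777104086742) (nat_lit 5) (nat_lit 5) (nat_lit 7) (nat_lit 5) (nat_lit 6) (nat_lit 4) (nat_lit 429) (nat_lit 362) (nat_lit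 229)) (XT.nd (nat_lit 78) (nat_lit 0) (nat_lit 0) (XT.lf (nat_lit 0) (nat_lit 99521512362) (nat_lit 152) (nat_lit 736468982006) (nat_lit 0) (nat_lit 41602895046) (nat_lit 4) (nat_lit 5) (nat_lit 6) (nat_lit 4) (nat_lit 4) (nat_lit 4) (nat_lit 430) (nat_lit 362) (nat_lit 228)) (XT.lf (nat_lit 0) (nat_lit 187814541844) (nat_lit 152) (nat_lit 623288039183) (nat_lit 0) (nat_lit 129895782061) (nat_lit 4) (nat_lit 5) (nat_lit 6) (nat_lit 4) (nat_lit 4) (nat_lit 4) (nat_lit 431) (nat_lit 362) (nat_lit 227)))) (XT.nd (nat_lit 78) (nat_lit 0) (nat_lit 0) (XT.lf (nat_lit 0) (nat_lit 283170611213) (nat_lit 152) (nat_lit 501053436149) (nat_lit 0) (nat_lit 225251719516) (nat_lit 4) (nat_lit 5) (nat_lit 6) (nat_lit 4) (nat_lit 4) (nat_lit 4) (nat_lit 432) (nat_lit 362) (nat_lit 226)) (XT.nd (nat_lit 78) (nat_lit 0) (nat_lit 0) (XT.lf (nat_lit 0) (nat_lit 386154793474) (nat_lit 152) (nat_lit 369040819700)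 (nat_lit 0) (nat_lit 328235779634) (nat_lit 4) (nat_lit 5) (nat_lit 6) (nat_lit 4) (nat_lit 4) (nat_lit 4) (nat_lit 433) (nat_lit 362) (nat_lit 225)) (XT.lf (nat_lit 0) (nat_lit 497377365261) (nat_lit 152) (nat_lit 226467892850) (nat_lit 0) (nat_lit 439458238326) (nat_lit 4) (nat_lit 5) (nat_lit 6) (nat_lit 4) (nat_lit 4) (nat_lit 4) (nat_lit 434) (nat_lit 362) (nat_lit 224))))))) (XT.nd (nat_lit 780) (nat_lit 152) (nat_lit 0) (XT.nd (nat_lit 390) (nat_lit 0) (nat_lit 0) (XT.nd (nat_lit 156) (nat_lit 0) (nat_lit 0) (XT.nd (nat_lit 78) (nat_lit 76) (nat_lit 0) (XT.lf (nat_lit 0) (nat_lit 617497423297) (nat_lit 152) (nat_lit 72489778995) (nat_lit 0) (nat_lit 559578191644) (nat_lit 4) (nat_lit 5) (nat_lit 6) (nat_lit 4) (nat_lit 4) (nat_lit 4) (nat_lit 435) (nat_lit 362) (nat_lit 223)) (XT.lf (nat_lit 0) (nat_lit 98745641679) (nat_lit 76) (nat_lit 650855983525) (nat_lit 76) (nat_lit 592936654911)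 (nat_lit 3) (nat_lit 4) (nat_lit 4) (nat_lit 5) (nat_lit 4) (nat_lit 4) (nat_lit 436) (nat_lit 362) (nat_lit 222))) (XT.nd (nat_lit 78) (nat_lit 0) (nat_lit 0) (XT.lf (nat_lit 0) (nat_lit 287801869934) (nat_lit 76) (nat_lit 606454004390) (nat_lit 76) (nat_lit 548534585997) (nat_lit 3) (nat_lit 4) (nat_lit 4) (nat_lit 5) (nat_lit 4) (nat_lit 4) (nat_lit 437) (nat_lit 362) (nat_lit 221)) (XT.nd (nat_lit 78) (nat_lit 0) (nat_lit 0) (XT.lf (nat_lit 0) (nat_lit 491982055675) (nat_lit 76) (nat_lit 558500141068) (nat_lit 76) (nat_lit 500580639547) (nat_lit 3) (nat_lit 4) (nat_lit 4) (nat_lit 5) (nat_lit 4) (nat_lit 4) (nat_lit 438) (nat_lit 362) (nat_lit 220)) (XT.lf (nat_lit 0) (nat_lit 712496155557) (nat_lit 76) (nat_lit 506710222518) (nat_lit 76) (nat_lit 448790644026) (nat_lit 3) (nat_lit 4) (nat_lit 4) (nat_lit 5) (nat_lit 4) (nat_lit 4) (nat_lit 439) (nat_lit 362) (nat_lit 219))))) (XT.nd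 (nat_lit 156) (nat_lit 0) (nat_lit 0) (XT.nd (nat_lit 78) (nat_lit 0) (nat_lit 0) (XT.lf (nat_lit 0) (nat_lit 950650919802) (nat_lit 76) (nat_lit 450777345519) (nat_lit 76) (nat_lit 392857695758) (nat_lit 3) (nat_lit 4) (nat_lit 4) (nat_lit 5) (nat_lit 4) (nat_lit 4) (nat_lit 440) (nat_lit 362) (nat_lit 218)) (XT.lf (nat_lit 0) (nat_lit 1207857635902) (nat_lit 76) (nat_lit 390370055984) (nat_lit 76) (nat_lit 332450340233) (nat_lit 3) (nat_lit 4) (nat_lit 4) (nat_lit 5) (nat_lit 4) (nat_lit 4) (nat_lit 441) (nat_lit 362) (nat_lit 217))) (XT.nd (nat_lit 78) (nat_lit 0) (nat_lit 0) (XT.lf (nat_lit 0) (nat_lit 1485640491804) (nat_lit 76) (nat_lit 325130384791) (nat_lit 76) (nat_lit 267210607938) (nat_lit 3) (nat_lit 4) (nat_lit 4) (nat_lit 5) (nat_lit 4) (nat_lit 4) (nat_lit 442) (nat_lit 362) (nat_lit 216)) (XT.nd (nat_lit 78) (nat_lit 0) (nat_lit 0) (XT.lf (nat_lit 0) (nat_lit 1785645608137)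 (nat_lit 76) (nat_lit 254671726480) (nat_lit 76) (nat_lit 196751893051) (nat_lit 3) (nat_lit 4) (nat_lit 4) (nat_lit 5) (nat_lit 4) (nat_lit 4) (nat_lit 443) (nat_lit 362) (nat_lit 215)) (XT.lf (nat_lit 0) (nat_lit 2109650792995) (nat_lit 76) (nat_lit 178576548262) (nat_lit 76) (nat_lit 120656662448) (nat_lit 3) (nat_lit 4) (nat_lit 4) (nat_lit 5) (nat_lit 4) (nat_lit 4) (nat_lit 444) (nat_lit 362) (nat_lit 214)))))) (XT.nd (nat_lit 390) (nat_lit 0) (nat_lit 0) (XT.nd (nat_lit 156) (nat_lit 0) (nat_lit 0) (XT.nd (nat_lit 78) (nat_lit 152) (nat_lit 0) (XT.lf (nat_lit 0) (nat_lit 2459576077106) (nat_lit 76) (nat_lit 96393915747) (nat_lit 76) (nat_lit 38473981429) (nat_lit 3) (nat_lit 4) (nat_lit 4) (nat_lit 5) (nat_lit 4) (nat_lit 4) (nat_lit 445) (nat_lit 362) (nat_lit 213)) (XT.lf (nat_lit 0) (nat_lit 43619026958) (nat_lit 76) (nat_lit 5197802939) (nat_lit 152) (nat_lit 2745851256154)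 (nat_lit 1) (nat_lit 5) (nat_lit 2) (nat_lit 5) (nat_lit 3) (nat_lit 4) (nat_lit 446) (nat_lit 362) (nat_lit 212))) (XT.nd (nat_lit 78) (nat_lit 0) (nat_lit 0) (XT.lf (nat_lit 0) (nat_lit 147039194517) (nat_lit 152) (nat_lit 2769899290086) (nat_lit 0) (nat_lit 93409545615) (nat_lit 1) (nat_lit 5) (nat_lit 3) (nat_lit 4) (nat_lit 1) (nat_lit 4) (nat_lit 447) (nat_lit 362) (nat_lit 211)) (XT.nd (nat_lit 78) (nat_lit 0) (nat_lit 0) (XT.lf (nat_lit 0) (nat_lit 253254219642) (nat_lit 152) (nat_lit 2790392825489) (nat_lit 0) (nat_lit 199624535087) (nat_lit 1) (nat_lit 5) (nat_lit 3) (nat_lit 4) (nat_lit 1) (nat_lit 4) (nat_lit 448) (nat_lit 362) (nat_lit 210)) (XT.lf (nat_lit 0) (nat_lit 367966320357) (nat_lit 152) (nat_lit 2812526101190) (nat_lit 0) (nat_lit 314336602790) (nat_lit 1) (nat_lit 5) (nat_lit 3) (nat_lit 4) (nat_lit 1) (nat_lit 4) (nat_lit 449) (nat_lit 362) (nat_lit 209))))) (XT.nd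 (nat_lit 234) (nat_lit 0) (nat_lit 0) (XT.nd (nat_lit 78) (nat_lit 0) (nat_lit 0) (XT.lf (nat_lit 0) (nat_lit 491855272073) (nat_lit 152) (nat_lit 2836430277342) (nat_lit 0) (nat_lit 438225523941) (nat_lit 1) (nat_lit 5) (nat_lit 3) (nat_lit 4) (nat_lit 1) (nat_lit 4) (nat_lit 450) (nat_lit 362) (nat_lit 208)) (XT.nd (nat_lit 78) (nat_lit 0) (nat_lit 0) (XT.lf (nat_lit 0) (nat_lit 625655231543) (nat_lit 152) (nat_lit 2862247008322) (nat_lit 0) (nat_lit 572025455108) (nat_lit 1) (nat_lit 5) (nat_lit 3) (nat_lit 4) (nat_lit 1) (nat_lit 4) (nat_lit 451) (nat_lit 362) (nat_lit 207)) (XT.lf (nat_lit 0) (nat_lit 770159087414) (nat_lit 152) (nat_lit 2890129282164) (nat_lit 0) (nat_lit 716529284774) (nat_lit 1) (nat_lit 5) (nat_lit 3) (nat_lit 4) (nat_lit 1) (nat_lit 4) (nat_lit 452) (nat_lit 362) (nat_lit 206)))) (XT.nd (nat_lit 78) (nat_lit 0) (nat_lit 0) (XT.lf (nat_lit 0) (nat_lit 926223158833)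 (nat_lit 152) (nat_lit 2920242327160) (nat_lit 0) (nat_lit 872593331929) (nat_lit 1) (nat_lit 5) (nat_lit 3) (nat_lit 4) (nat_lit 1) (nat_lit 4) (nat_lit 453) (nat_lit 362) (nat_lit 205)) (XT.nd (nat_lit 78) (nat_lit 0) (nat_lit 0) (XT.lf (nat_lit 0) (nat_lit 1094772269926) (nat_lit 152) (nat_lit 2952764590982) (nat_lit 0) (nat_lit 1041142420555) (nat_lit 1) (nat_lit 5) (nat_lit 3) (nat_lit 4) (nat_lit 1) (nat_lit 4) (nat_lit 454) (nat_lit 362) (nat_lit 204)) (XT.lf (nat_lit 0) (nat_lit 1276805230241) (nat_lit 152) (nat_lit 2987888798157) (nat_lit 0) (nat_lit 1223175360067) (nat_lit 1) (nat_lit 5) (nat_lit 3) (nat_lit 4) (nat_lit 1) (nat_lit 4) (nat_lit 455) (nat_lit 362) (nat_lit 203))))))))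
noncomputable def xc156 : XT := (XT.nd (nat_lit 46956) (nat_lit 0) (nat_lit 1672) (XT.nd (nat_lit 46176) (nat_lit 0) (nat_lit 3648) (XT.nd (nat_lit 390) (nat_lit 0) (nat_lit 0) (XT.nd (nat_lit 156) (nat_lit 0) (nat_lit 0) (XT.nd (nat_lit 78) (nat_lit 0) (nat_lit 0) (XT.lf (nat_lit 0) (nat_lit 1473400753617) (nat_lit 152) (nat_lit 3025823092135) (nat_lit 0) (nat_lit 1419770864180) (nat_lit 1) (nat_lit 5) (nat_lit 3) (nat_lit 4) (nat_lit 1) (nat_lit 4) (nat_lit 456) (nat_lit 362) (nat_lit 202)) (XT.lf (nat_lit 0) (nat_lit 1685723850561) (nat_lit 152) (nat_lit 3066792268732) (nat_lit 0) (nat_lit 1632093943290) (nat_lit 1) (nat_lit 5) (nat_lit 3) (nat_lit 4) (nat_lit 1) (nat_lit 4) (nat_lit 457) (nat_lit 362) (nat_lit 201))) (XT.nd (nat_lit 78) (nat_lit 0) (nat_lit 0) (XT.lf (nat_lit 0) (nat_lit 1915032732021) (nat_lit 152) (nat_lit 3111039108254) (nat_lit 0) (nat_lit 1861402808235) (nat_lit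 1) (nat_lit 5) (nat_lit 3) (nat_lit 4) (nat_lit 1) (nat_lit 4) (nat_lit 458) (nat_lit 362) (nat_lit 200)) (XT.nd (nat_lit 78) (nat_lit 0) (nat_lit 0) (XT.lf (nat_lit 0) (nat_lit 2162686265440) (nat_lit 152) (nat_lit 3158825814194) (nat_lit 0) (nat_lit 2109056326364) (nat_lit 1) (nat_lit 5) (nat_lit 3) (nat_lit 4) (nat_lit 1) (nat_lit 4) (nat_lit 459) (nat_lit 362) (nat_lit 199)) (XT.lf (nat_lit 0) (nat_lit 2430152027313) (nat_lit 152) (nat_lit 3210435567032) (nat_lit 0) (nat_lit 2376522074079) (nat_lit 1) (nat_lit 5) (nat_lit 3) (nat_lit 4) (nat_lit 1) (nat_lit 4) (nat_lit 460) (nat_lit 362) (nat_lit 198))))) (XT.nd (nat_lit 45552) (nat_lit 0) (nat_lit 4788) (XT.nd (nat_lit 45474) (nat_lit 0) (nat_lit 4788) (XT.lf (nat_lit 0) (nat_lit 2719014999934) (nat_lit 152) (nat_lit 3266174202340) (nat_lit 0) (nat_lit 2665385033591) (nat_lit 1) (nat_lit 5) (nat_lit 3) (nat_lit 4) (nat_lit 1) (nat_lit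 4) (nat_lit 461) (nat_lit 362) (nat_lit 197)) (XT.lf (nat_lit 0) (nat_lit 10058658516) (nat_lit 532) (nat_lit 959534596) (nat_lit 532) (nat_lit 959534596) (nat_lit 64) (nat_lit 3) (nat_lit 71) (nat_lit 3) (nat_lit 71) (nat_lit 5) (nat_lit 363) (nat_lit 363) (nat_lit 294))) (XT.nd (nat_lit 78) (nat_lit 0) (nat_lit 76) (XT.lf (nat_lit 76) (nat_lit 10236776878) (nat_lit 0) (nat_lit 11038794623) (nat_lit 532) (nat_lit 3609715628) (nat_lit 65) (nat_lit 5) (nat_lit 64) (nat_lit 3) (nat_lit 71) (nat_lit 5) (nat_lit 364) (nat_lit 363) (nat_lit 293)) (XT.nd (nat_lit 78) (nat_lit 0) (nat_lit 0) (XT.lf (nat_lit 0) (nat_lit 22589714460) (nat_lit 456) (nat_lit 2439716824) (nat_lit 532) (nat_lit 855026006) (nat_lit 65) (nat_lit 5) (nat_lit 71) (nat_lit 5) (nat_lit 72) (nat_lit 5) (nat_lit 365) (nat_lit 363) (nat_lit 292)) (XT.lf (nat_lit 76) (nat_lit 11002885970) (nat_lit 0) (nat_lit 13547468613) (nat_lit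 532) (nat_lit 2369906631) (nat_lit 66) (nat_lit 5) (nat_lit 65) (nat_lit 5) (nat_lit 72) (nat_lit 5) (nat_lit 366) (nat_lit 363) (nat_lit 291)))))) (XT.nd (nat_lit 390) (nat_lit 760) (nat_lit 0) (XT.nd (nat_lit 156) (nat_lit 0) (nat_lit 0) (XT.nd (nat_lit 78) (nat_lit 456) (nat_lit 0) (XT.lf (nat_lit 76) (nat_lit 25653231368) (nat_lit 0) (nat_lit 1071929534) (nat_lit 532) (nat_lit 1309192061) (nat_lit 66) (nat_lit 5) (nat_lit 65) (nat_lit 5) (nat_lit 72) (nat_lit 5) (nat_lit 367) (nat_lit 363) (nat_lit 290)) (XT.lf (nat_lit 0) (nat_lit 451660307) (nat_lit 532) (nat_lit 16640238948) (nat_lit 608) (nat_lit 12097427418) (nat_lit 59) (nat_lit 5) (nat_lit 66) (nat_lit 5) (nat_lit 67) (nat_lit 5) (nat_lit 368) (nat_lit 363) (nat_lit 289))) (XT.nd (nat_lit 78) (nat_lit 0) (nat_lit 76) (XT.lf (nat_lit 0) (nat_lit 2368921866) (nat_lit 532) (nat_lit 1692884922) (nat_lit 608) (nat_lit 26365276297)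 (nat_lit 59) (nat_lit 5) (nat_lit 66) (nat_lit 5) (nat_lit 67) (nat_lit 5) (nat_lit 369) (nat_lit 363) (nat_lit 288)) (XT.nd (nat_lit 78) (nat_lit 0) (nat_lit 0) (XT.lf (nat_lit 0) (nat_lit 5047769455) (nat_lit 532) (nat_lit 16781146478) (nat_lit 76) (nat_lit 9886294072) (nat_lit 60) (nat_lit 5) (nat_lit 67) (nat_lit 5) (nat_lit 61) (nat_lit 5) (nat_lit 370) (nat_lit 363) (nat_lit 287)) (XT.lf (nat_lit 0) (nat_lit 8086615356) (nat_lit 532) (nat_lit 228866120) (nat_lit 76) (nat_lit 24779256292) (nat_lit 60) (nat_lit 5) (nat_lit 67) (nat_lit 5) (nat_lit 61) (nat_lit 5) (nat_lit 371) (nat_lit 363) (nat_lit 286))))) (XT.nd (nat_lit 156) (nat_lit 228) (nat_lit 0) (XT.nd (nat_lit 78) (nat_lit 228) (nat_lit 0) (XT.lf (nat_lit 0) (nat_lit 11971041797) (nat_lit 456) (nat_lit 16141923358) (nat_lit 76) (nat_lit 6423470257) (nat_lit 55) (nat_lit 5) (nat_lit 61) (nat_lit 5) (nat_lit 56) (nat_lit 5)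 (nat_lit 372) (nat_lit 363) (nat_lit 285)) (XT.lf (nat_lit 0) (nat_lit 2320995981) (nat_lit 228) (nat_lit 14117048392) (nat_lit 304) (nat_lit 19633683815) (nat_lit 52) (nat_lit 5) (nat_lit 55) (nat_lit 5) (nat_lit 56) (nat_lit 5) (nat_lit 373) (nat_lit 363) (nat_lit 284))) (XT.nd (nat_lit 78) (nat_lit 228) (nat_lit 0) (XT.lf (nat_lit 0) (nat_lit 21733133371) (nat_lit 304) (nat_lit 14558137539) (nat_lit 76) (nat_lit 1400920086) (nat_lit 52) (nat_lit 5) (nat_lit 56) (nat_lit 5) (nat_lit 53) (nat_lit 5) (nat_lit 374) (nat_lit 363) (nat_lit 283)) (XT.nd (nat_lit 78) (nat_lit 0) (nat_lit 0) (XT.lf (nat_lit 0) (nat_lit 6101876034) (nat_lit 228) (nat_lit 21857731105) (nat_lit 304) (nat_lit 11442065835) (nat_lit 49) (nat_lit 5) (nat_lit 52) (nat_lit 5) (nat_lit 53) (nat_lit 5) (nat_lit 375) (nat_lit 363) (nat_lit 282)) (XT.lf (nat_lit 0) (nat_lit 29236238125) (nat_lit 228) (nat_lit 5840621624)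 (nat_lit 304) (nat_lit 6139644920) (nat_lit 49) (nat_lit 5) (nat_lit 52) (nat_lit 5) (nat_lit 53) (nat_lit 5) (nat_lit 376) (nat_lit 363) (nat_lit 281))))))) (XT.nd (nat_lit 780) (nat_lit 836) (nat_lit 0) (XT.nd (nat_lit 390) (nat_lit 532) (nat_lit 0) (XT.nd (nat_lit 156) (nat_lit 380) (nat_lit 0) (XT.nd (nat_lit 78) (nat_lit 0) (nat_lit 0) (XT.lf (nat_lit 0) (nat_lit 164766526) (nat_lit 228) (nat_lit 31807525605) (nat_lit 76) (nat_lit 11160458068) (nat_lit 46) (nat_lit 5) (nat_lit 49) (nat_lit 5) (nat_lit 47) (nat_lit 5) (nat_lit 377) (nat_lit 363) (nat_lit 280)) (XT.lf (nat_lit 0) (nat_lit 7124692901) (nat_lit 228) (nat_lit 8325687313) (nat_lit 76) (nat_lit 29700531672) (nat_lit 46) (nat_lit 5) (nat_lit 49) (nat_lit 5) (nat_lit 47) (nat_lit 5) (nat_lit 378) (nat_lit 363) (nat_lit 279))) (XT.nd (nat_lit 78) (nat_lit 152) (nat_lit 0) (XT.lf (nat_lit 0) (nat_lit 15136696621) (nat_lit 304)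 (nat_lit 29439647221) (nat_lit 76) (nat_lit 2714562972) (nat_lit 43) (nat_lit 5) (nat_lit 47) (nat_lit 5) (nat_lit 44) (nat_lit 5) (nat_lit 379) (nat_lit 363) (nat_lit 278)) (XT.nd (nat_lit 78) (nat_lit 152) (nat_lit 0) (XT.lf (nat_lit 0) (nat_lit 24420136699) (nat_lit 304) (nat_lit 3401349241) (nat_lit 76) (nat_lit 21730180059) (nat_lit 43) (nat_lit 5) (nat_lit 47) (nat_lit 5) (nat_lit 44) (nat_lit 5) (nat_lit 380) (nat_lit 363) (nat_lit 277)) (XT.lf (nat_lit 0) (nat_lit 26015789574) (nat_lit 152) (nat_lit 9052083269) (nat_lit 228) (nat_lit 16875685950) (nat_lit 41) (nat_lit 5) (nat_lit 43) (nat_lit 5) (nat_lit 44) (nat_lit 5) (nat_lit 381) (nat_lit 363) (nat_lit 276))))) (XT.nd (nat_lit 156) (nat_lit 304) (nat_lit 0) (XT.nd (nat_lit 78) (nat_lit 76) (nat_lit 0) (XT.lf (nat_lit 0) (nat_lit 3349952159) (nat_lit 152) (nat_lit 43659341201) (nat_lit 228) (nat_lit 7482162765) (nat_lit 39)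 (nat_lit 5) (nat_lit 41) (nat_lit 5) (nat_lit 42) (nat_lit 5) (nat_lit 382) (nat_lit 363) (nat_lit 275)) (XT.lf (nat_lit 0) (nat_lit 3488205767) (nat_lit 228) (nat_lit 21065450026) (nat_lit 76) (nat_lit 32607722583) (nat_lit 38) (nat_lit 5) (nat_lit 41) (nat_lit 5) (nat_lit 39) (nat_lit 5) (nat_lit 383) (nat_lit 363) (nat_lit 274))) (XT.nd (nat_lit 78) (nat_lit 152) (nat_lit 0) (XT.lf (nat_lit 0) (nat_lit 11807612424) (nat_lit 152) (nat_lit 3404746709) (nat_lit 228) (nat_lit 44794558876) (nat_lit 36) (nat_lit 5) (nat_lit 38) (nat_lit 5) (nat_lit 39) (nat_lit 5) (nat_lit 384) (nat_lit 363) (nat_lit 273)) (XT.nd (nat_lit 78) (nat_lit 152) (nat_lit 0) (XT.lf (nat_lit 0) (nat_lit 28929318388) (nat_lit 228) (nat_lit 15013386798) (nat_lit 76) (nat_lit 19053007465) (nat_lit 36) (nat_lit 5) (nat_lit 39) (nat_lit 5) (nat_lit 37) (nat_lit 5) (nat_lit 385) (nat_lit 363) (nat_lit 272)) (XT.lf (nat_lit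 0) (nat_lit 21825691321) (nat_lit 152) (nat_lit 22528053699) (nat_lit 228) (nat_lit 21821058596) (nat_lit 34) (nat_lit 5) (nat_lit 36) (nat_lit 5) (nat_lit 37) (nat_lit 5) (nat_lit 386) (nat_lit 363) (nat_lit 271)))))) (XT.nd (nat_lit 390) (nat_lit 456) (nat_lit 0) (XT.nd (nat_lit 156) (nat_lit 228) (nat_lit 0) (XT.nd (nat_lit 78) (nat_lit 152) (nat_lit 0) (XT.lf (nat_lit 0) (nat_lit 61444548020) (nat_lit 228) (nat_lit 7139914676) (nat_lit 76) (nat_lit 989166869) (nat_lit 34) (nat_lit 5) (nat_lit 37) (nat_lit 5) (nat_lit 35) (nat_lit 4) (nat_lit 387) (nat_lit 363) (nat_lit 270)) (XT.lf (nat_lit 0) (nat_lit 7765538644) (nat_lit 152) (nat_lit 39163475824) (nat_lit 76) (nat_lit 26187309277) (nat_lit 32) (nat_lit 5) (nat_lit 34) (nat_lit 5) (nat_lit 33) (nat_lit 5) (nat_lit 388) (nat_lit 363) (nat_lit 269))) (XT.nd (nat_lit 78) (nat_lit 76) (nat_lit 0) (XT.lf (nat_lit 0) (nat_lit 1675029281)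 (nat_lit 152) (nat_lit 23055197469) (nat_lit 228) (nat_lit 52176301899) (nat_lit 30) (nat_lit 5) (nat_lit 32) (nat_lit 5) (nat_lit 33) (nat_lit 5) (nat_lit 389) (nat_lit 363) (nat_lit 268)) (XT.nd (nat_lit 78) (nat_lit 76) (nat_lit 0) (XT.lf (nat_lit 0) (nat_lit 44213485306) (nat_lit 228) (nat_lit 33004716162) (nat_lit 76) (nat_lit 3688837938) (nat_lit 30) (nat_lit 5) (nat_lit 33) (nat_lit 5) (nat_lit 31) (nat_lit 4) (nat_lit 390) (nat_lit 363) (nat_lit 267)) (XT.lf (nat_lit 0) (nat_lit 12628595369) (nat_lit 76) (nat_lit 53526736201) (nat_lit 152) (nat_lit 19000266302) (nat_lit 29) (nat_lit 5) (nat_lit 30) (nat_lit 5) (nat_lit 31) (nat_lit 4) (nat_lit 391) (nat_lit 363) (nat_lit 266))))) (XT.nd (nat_lit 234) (nat_lit 228) (nat_lit 0) (XT.nd (nat_lit 78) (nat_lit 152) (nat_lit 0) (XT.lf (nat_lit 0) (nat_lit 1026299010) (nat_lit 152) (nat_lit 25912852712) (nat_lit 76) (nat_lit 62730822128)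 (nat_lit 28) (nat_lit 5) (nat_lit 30) (nat_lit 5) (nat_lit 29) (nat_lit 5) (nat_lit 392) (nat_lit 363) (nat_lit 265)) (XT.nd (nat_lit 78) (nat_lit 0) (nat_lit 0) (XT.lf (nat_lit 0) (nat_lit 22303173284) (nat_lit 228) (nat_lit 69335982978) (nat_lit 76) (nat_lit 2812888042) (nat_lit 26) (nat_lit 5) (nat_lit 29) (nat_lit 5) (nat_lit 27) (nat_lit 4) (nat_lit 393) (nat_lit 363) (nat_lit 264)) (XT.lf (nat_lit 0) (nat_lit 46706447342) (nat_lit 228) (nat_lit 18581383699) (nat_lit 76) (nat_lit 34214910108) (nat_lit 26) (nat_lit 5) (nat_lit 29) (nat_lit 5) (nat_lit 27) (nat_lit 4) (nat_lit 394) (nat_lit 363) (nat_lit 263)))) (XT.nd (nat_lit 78) (nat_lit 152) (nat_lit 0) (XT.lf (nat_lit 0) (nat_lit 38137449068) (nat_lit 76) (nat_lit 35839542324) (nat_lit 152) (nat_lit 30907302393) (nat_lit 25) (nat_lit 5) (nat_lit 26) (nat_lit 5) (nat_lit 27) (nat_lit 4) (nat_lit 395) (nat_lit 363) (nat_lit 262))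 (XT.nd (nat_lit 78) (nat_lit 152) (nat_lit 0) (XT.lf (nat_lit 0) (nat_lit 100446703443) (nat_lit 76) (nat_lit 3488395846) (nat_lit 152) (nat_lit 6720798352) (nat_lit 25) (nat_lit 5) (nat_lit 26) (nat_lit 5) (nat_lit 27) (nat_lit 4) (nat_lit 396) (nat_lit 363) (nat_lit 261)) (XT.lf (nat_lit 0) (nat_lit 20505183351) (nat_lit 152) (nat_lit 64517409109) (nat_lit 76) (nat_lit 31663306631) (nat_lit 23) (nat_lit 5) (nat_lit 25) (nat_lit 5) (nat_lit 24) (nat_lit 4) (nat_lit 397) (nat_lit 363) (nat_lit 260))))))))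
noncomputable def xc157 : XT := (XT.nd (nat_lit 1560) (nat_lit 532) (nat_lit 0) (XT.nd (nat_lit 780) (nat_lit 456) (nat_lit 0) (XT.nd (nat_lit 390) (nat_lit 228) (nat_lit 0) (XT.nd (nat_lit 156) (nat_lit 228) (nat_lit 0) (XT.nd (nat_lit 78) (nat_lit 76) (nat_lit 0) (XT.lf (nat_lit 0) (nat_lit 49921145412) (nat_lit 152) (nat_lit 3335073797) (nat_lit 76) (nat_lit 69898116699) (nat_lit 23) (nat_lit 5) (nat_lit 25) (nat_lit 5) (nat_lit 24) (nat_lit 4) (nat_lit 398) (nat_lit 363) (nat_lit 259)) (XT.lf (nat_lit 0) (nat_lit 66042141160) (nat_lit 76) (nat_lit 17234710239) (nat_lit 152) (nat_lit 46736479382) (nat_lit 22) (nat_lit 5) (nat_lit 23) (nat_lit 5) (nat_lit 24) (nat_lit 4) (nat_lit 399) (nat_lit 363) (nat_lit 258))) (XT.nd (nat_lit 78) (nat_lit 152) (nat_lit 0) (XT.lf (nat_lit 0) (nat_lit 3388013432) (nat_lit 76) (nat_lit 116607338297) (nat_lit 76) (nat_lit 17370146917) (nat_lit 21) (nat_lit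 4) (nat_lit 22) (nat_lit 5) (nat_lit 22) (nat_lit 4) (nat_lit 400) (nat_lit 363) (nat_lit 257)) (XT.nd (nat_lit 78) (nat_lit 76) (nat_lit 0) (XT.lf (nat_lit 0) (nat_lit 15868224869) (nat_lit 152) (nat_lit 66233390081) (nat_lit 76) (nat_lit 62997396421) (nat_lit 20) (nat_lit 5) (nat_lit 22) (nat_lit 5) (nat_lit 21) (nat_lit 4) (nat_lit 401) (nat_lit 363) (nat_lit 256)) (XT.lf (nat_lit 0) (nat_lit 6816889821) (nat_lit 76) (nat_lit 44172599615) (nat_lit 152) (nat_lit 102412641238) (nat_lit 19) (nat_lit 5) (nat_lit 20) (nat_lit 5) (nat_lit 21) (nat_lit 4) (nat_lit 402) (nat_lit 363) (nat_lit 255))))) (XT.nd (nat_lit 156) (nat_lit 152) (nat_lit 0) (XT.nd (nat_lit 78) (nat_lit 76) (nat_lit 0) (XT.lf (nat_lit 0) (nat_lit 89474845538) (nat_lit 76) (nat_lit 1254913918) (nat_lit 152) (nat_lit 71494996042) (nat_lit 19) (nat_lit 5) (nat_lit 20) (nat_lit 5) (nat_lit 21) (nat_lit 4) (nat_lit 403) (nat_lit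 363) (nat_lit 254)) (XT.lf (nat_lit 0) (nat_lit 6215658029) (nat_lit 76) (nat_lit 128666098603) (nat_lit 76) (nat_lit 36772833525) (nat_lit 18) (nat_lit 4) (nat_lit 19) (nat_lit 5) (nat_lit 19) (nat_lit 4) (nat_lit 404) (nat_lit 363) (nat_lit 253))) (XT.nd (nat_lit 78) (nat_lit 76) (nat_lit 0) (XT.lf (nat_lit 0) (nat_lit 2762561653) (nat_lit 152) (nat_lit 86148570440) (nat_lit 76) (nat_lit 92760534224) (nat_lit 17) (nat_lit 5) (nat_lit 19) (nat_lit 5) (nat_lit 18) (nat_lit 4) (nat_lit 405) (nat_lit 363) (nat_lit 252)) (XT.nd (nat_lit 78) (nat_lit 76) (nat_lit 0) (XT.lf (nat_lit 0) (nat_lit 43472674728) (nat_lit 152) (nat_lit 1472862651) (nat_lit 76) (nat_lit 147468274387) (nat_lit 17) (nat_lit 5) (nat_lit 19) (nat_lit 5) (nat_lit 18) (nat_lit 4) (nat_lit 406) (nat_lit 363) (nat_lit 251)) (XT.lf (nat_lit 0) (nat_lit 89836266140) (nat_lit 152) (nat_lit 109241114327) (nat_lit 0) (nat_lit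 4746215057) (nat_lit 16) (nat_lit 5) (nat_lit 18) (nat_lit 4) (nat_lit 16) (nat_lit 4) (nat_lit 407) (nat_lit 363) (nat_lit 250)))))) (XT.nd (nat_lit 390) (nat_lit 228) (nat_lit 0) (XT.nd (nat_lit 156) (nat_lit 152) (nat_lit 0) (XT.nd (nat_lit 78) (nat_lit 76) (nat_lit 0) (XT.lf (nat_lit 0) (nat_lit 141116367588) (nat_lit 152) (nat_lit 18907938011) (nat_lit 0) (nat_lit 56025262766) (nat_lit 16) (nat_lit 5) (nat_lit 18) (nat_lit 4) (nat_lit 16) (nat_lit 4) (nat_lit 408) (nat_lit 363) (nat_lit 249)) (XT.lf (nat_lit 0) (nat_lit 82791075560) (nat_lit 76) (nat_lit 115697715526) (nat_lit 76) (nat_lit 30605635020) (nat_lit 15) (nat_lit 4) (nat_lit 16) (nat_lit 5) (nat_lit 16) (nat_lit 4) (nat_lit 409) (nat_lit 363) (nat_lit 248))) (XT.nd (nat_lit 78) (nat_lit 76) (nat_lit 0) (XT.lf (nat_lit 0) (nat_lit 16933508707) (nat_lit 152) (nat_lit 49871285806) (nat_lit 76) (nat_lit 176302518599) (nat_lit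 14) (nat_lit 5) (nat_lit 16) (nat_lit 5) (nat_lit 15) (nat_lit 4) (nat_lit 410) (nat_lit 363) (nat_lit 247)) (XT.nd (nat_lit 78) (nat_lit 0) (nat_lit 0) (XT.lf (nat_lit 0) (nat_lit 56294269322) (nat_lit 76) (nat_lit 11680773818) (nat_lit 152) (nat_lit 190094371287) (nat_lit 13) (nat_lit 5) (nat_lit 14) (nat_lit 5) (nat_lit 15) (nat_lit 4) (nat_lit 411) (nat_lit 363) (nat_lit 246)) (XT.lf (nat_lit 0) (nat_lit 125648643268) (nat_lit 152) (nat_lit 101518589623) (nat_lit 0) (nat_lit 46857351656) (nat_lit 13) (nat_lit 5) (nat_lit 15) (nat_lit 4) (nat_lit 13) (nat_lit 4) (nat_lit 412) (nat_lit 363) (nat_lit 245))))) (XT.nd (nat_lit 156) (nat_lit 152) (nat_lit 0) (XT.nd (nat_lit 78) (nat_lit 0) (nat_lit 0) (XT.lf (nat_lit 0) (nat_lit 6792865826) (nat_lit 76) (nat_lit 181608999746) (nat_lit 76) (nat_lit 102817044099) (nat_lit 12) (nat_lit 4) (nat_lit 13) (nat_lit 5) (nat_lit 13) (nat_lit 4) (nat_lit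 413) (nat_lit 363) (nat_lit 244)) (XT.lf (nat_lit 0) (nat_lit 129540706955) (nat_lit 76) (nat_lit 129409334402) (nat_lit 76) (nat_lit 50616763909) (nat_lit 12) (nat_lit 4) (nat_lit 13) (nat_lit 5) (nat_lit 13) (nat_lit 4) (nat_lit 414) (nat_lit 363) (nat_lit 243))) (XT.nd (nat_lit 78) (nat_lit 76) (nat_lit 0) (XT.lf (nat_lit 0) (nat_lit 5470470838) (nat_lit 152) (nat_lit 67414560452) (nat_lit 76) (nat_lit 256486496148) (nat_lit 11) (nat_lit 5) (nat_lit 13) (nat_lit 5) (nat_lit 12) (nat_lit 4) (nat_lit 415) (nat_lit 363) (nat_lit 242)) (XT.nd (nat_lit 78) (nat_lit 0) (nat_lit 0) (XT.lf (nat_lit 0) (nat_lit 55674496545) (nat_lit 76) (nat_lit 8973658970) (nat_lit 152) (nat_lit 285900246980) (nat_lit 10) (nat_lit 5) (nat_lit 11) (nat_lit 5) (nat_lit 12) (nat_lit 4) (nat_lit 416) (nat_lit 363) (nat_lit 241)) (XT.lf (nat_lit 0) (nat_lit 131894505851) (nat_lit 152) (nat_lit 182321210808) (nat_lit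 0) (nat_lit 58936954913) (nat_lit 10) (nat_lit 5) (nat_lit 12) (nat_lit 4) (nat_lit 10) (nat_lit 4) (nat_lit 417) (nat_lit 363) (nat_lit 240))))))) (XT.nd (nat_lit 780) (nat_lit 228) (nat_lit 0) (XT.nd (nat_lit 390) (nat_lit 76) (nat_lit 0) (XT.nd (nat_lit 156) (nat_lit 152) (nat_lit 0) (XT.nd (nat_lit 78) (nat_lit 76) (nat_lit 0) (XT.lf (nat_lit 0) (nat_lit 204752833492) (nat_lit 152) (nat_lit 60999003122) (nat_lit 0) (nat_lit 131794864099) (nat_lit 10) (nat_lit 5) (nat_lit 12) (nat_lit 4) (nat_lit 10) (nat_lit 4) (nat_lit 418) (nat_lit 363) (nat_lit 239)) (XT.lf (nat_lit 0) (nat_lit 73715003245) (nat_lit 76) (nat_lit 211496919130) (nat_lit 76) (nat_lit 138538562280) (nat_lit 9) (nat_lit 4) (nat_lit 10) (nat_lit 5) (nat_lit 10) (nat_lit 4) (nat_lit 419) (nat_lit 363) (nat_lit 238))) (XT.nd (nat_lit 78) (nat_lit 152) (nat_lit 0) (XT.lf (nat_lit 0) (nat_lit 222673734537) (nat_lit 76) (nat_lit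 151101092673) (nat_lit 76) (nat_lit 78142377065) (nat_lit 9) (nat_lit 4) (nat_lit 10) (nat_lit 5) (nat_lit 10) (nat_lit 4) (nat_lit 420) (nat_lit 363) (nat_lit 237)) (XT.nd (nat_lit 78) (nat_lit 152) (nat_lit 0) (XT.lf (nat_lit 0) (nat_lit 383547809756) (nat_lit 76) (nat_lit 85874276893) (nat_lit 76) (nat_lit 12915229102) (nat_lit 9) (nat_lit 4) (nat_lit 10) (nat_lit 5) (nat_lit 10) (nat_lit 4) (nat_lit 421) (nat_lit 363) (nat_lit 236)) (XT.lf (nat_lit 0) (nat_lit 42859913013) (nat_lit 76) (nat_lit 12822427553) (nat_lit 152) (nat_lit 459315596586) (nat_lit 7) (nat_lit 5) (nat_lit 8) (nat_lit 5) (nat_lit 9) (nat_lit 4) (nat_lit 422) (nat_lit 363) (nat_lit 235))))) (XT.nd (nat_lit 156) (nat_lit 76) (nat_lit 0) (XT.nd (nat_lit 78) (nat_lit 0) (nat_lit 0) (XT.lf (nat_lit 0) (nat_lit 133429625448) (nat_lit 152) (nat_lit 350591769554) (nat_lit 0) (nat_lit 65874403077) (nat_lit 7) (nat_lit 5)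 (nat_lit 9) (nat_lit 4) (nat_lit 7) (nat_lit 4) (nat_lit 423) (nat_lit 363) (nat_lit 234)) (XT.lf (nat_lit 0) (nat_lit 217729149146) (nat_lit 152) (nat_lit 219656059688) (nat_lit 0) (nat_lit 150173682611) (nat_lit 7) (nat_lit 5) (nat_lit 9) (nat_lit 4) (nat_lit 7) (nat_lit 4) (nat_lit 424) (nat_lit 363) (nat_lit 233))) (XT.nd (nat_lit 78) (nat_lit 76) (nat_lit 0) (XT.lf (nat_lit 0) (nat_lit 308772084703) (nat_lit 152) (nat_lit 78246599533) (nat_lit 0) (nat_lit 241216392090) (nat_lit 7) (nat_lit 5) (nat_lit 9) (nat_lit 4) (nat_lit 7) (nat_lit 4) (nat_lit 425) (nat_lit 363) (nat_lit 232)) (XT.nd (nat_lit 78) (nat_lit 0) (nat_lit 0) (XT.lf (nat_lit 0) (nat_lit 78396292979) (nat_lit 76) (nat_lit 330587085563) (nat_lit 76) (nat_lit 263031183619) (nat_lit 6) (nat_lit 4) (nat_lit 7) (nat_lit 5) (nat_lit 7) (nat_lit 4) (nat_lit 426) (nat_lit 363) (nat_lit 231)) (XT.lf (nat_lit 0) (nat_lit 252019571741)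 (nat_lit 76) (nat_lit 267330909260) (nat_lit 76) (nat_lit 199774813491) (nat_lit 6) (nat_lit 4) (nat_lit 7) (nat_lit 5) (nat_lit 7) (nat_lit 4) (nat_lit 427) (nat_lit 363) (nat_lit 230)))))) (XT.nd (nat_lit 390) (nat_lit 76) (nat_lit 0) (XT.nd (nat_lit 156) (nat_lit 152) (nat_lit 0) (XT.nd (nat_lit 78) (nat_lit 0) (nat_lit 0) (XT.lf (nat_lit 0) (nat_lit 439531788176) (nat_lit 76) (nat_lit 199014704607) (nat_lit 76) (nat_lit 131458429370) (nat_lit 6) (nat_lit 4) (nat_lit 7) (nat_lit 5) (nat_lit 7) (nat_lit 4) (nat_lit 428) (nat_lit 363) (nat_lit 229)) (XT.lf (nat_lit 0) (nat_lit 642044125787) (nat_lit 76) (nat_lit 125233634837) (nat_lit 76) (nat_lit 57677193426) (nat_lit 6) (nat_lit 4) (nat_lit 7) (nat_lit 5) (nat_lit 7) (nat_lit 4) (nat_lit 429) (nat_lit 363) (nat_lit 228))) (XT.nd (nat_lit 78) (nat_lit 76) (nat_lit 0) (XT.lf (nat_lit 0) (nat_lit 20905281409) (nat_lit 152) (nat_lit 24073609944)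 (nat_lit 76) (nat_lit 839279788837) (nat_lit 5) (nat_lit 5) (nat_lit 7) (nat_lit 5) (nat_lit 6) (nat_lit 4) (nat_lit 430) (nat_lit 363) (nat_lit 227)) (XT.nd (nat_lit 78) (nat_lit 0) (nat_lit 0) (XT.lf (nat_lit 0) (nat_lit 107491085406) (nat_lit 152) (nat_lit 795370596049) (nat_lit 0) (nat_lit 44938550458) (nat_lit 4) (nat_lit 5) (nat_lit 6) (nat_lit 4) (nat_lit 4) (nat_lit 4) (nat_lit 431) (nat_lit 363) (nat_lit 226)) (XT.lf (nat_lit 0) (nat_lit 202846975613) (nat_lit 152) (nat_lit 673136355913) (nat_lit 0) (nat_lit 140294318522) (nat_lit 4) (nat_lit 5) (nat_lit 6) (nat_lit 4) (nat_lit 4) (nat_lit 4) (nat_lit 432) (nat_lit 363) (nat_lit 225))))) (XT.nd (nat_lit 234) (nat_lit 76) (nat_lit 0) (XT.nd (nat_lit 78) (nat_lit 0) (nat_lit 0) (XT.lf (nat_lit 0) (nat_lit 305830991982) (nat_lit 152) (nat_lit 541124075481) (nat_lit 0) (nat_lit 243278221796) (nat_lit 4) (nat_lit 5) (nat_lit 6) (nat_lit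 4) (nat_lit 4) (nat_lit 4) (nat_lit 433) (nat_lit 363) (nat_lit 224)) (XT.nd (nat_lit 78) (nat_lit 0) (nat_lit 0) (XT.lf (nat_lit 0) (nat_lit 417053410166) (nat_lit 152) (nat_lit 398551459757) (nat_lit 0) (nat_lit 354500535263) (nat_lit 4) (nat_lit 5) (nat_lit 6) (nat_lit 4) (nat_lit 4) (nat_lit 4) (nat_lit 434) (nat_lit 363) (nat_lit 223)) (XT.lf (nat_lit 0) (nat_lit 537173325977) (nat_lit 152) (nat_lit 244573633983) (nat_lit 0) (nat_lit 474620354112) (nat_lit 4) (nat_lit 5) (nat_lit 6) (nat_lit 4) (nat_lit 4) (nat_lit 4) (nat_lit 435) (nat_lit 363) (nat_lit 222)))) (XT.nd (nat_lit 78) (nat_lit 76) (nat_lit 0) (XT.lf (nat_lit 0) (nat_lit 666902561137) (nat_lit 152) (nat_lit 78278136968) (nat_lit 0) (nat_lit 604349499494) (nat_lit 4) (nat_lit 5) (nat_lit 6) (nat_lit 4) (nat_lit 4) (nat_lit 4) (nat_lit 436) (nat_lit 363) (nat_lit 221)) (XT.nd (nat_lit 78) (nat_lit 0) (nat_lit 0) (XT.lf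 (nat_lit 0) (nat_lit 106655843327) (nat_lit 76) (nat_lit 702919113756) (nat_lit 76) (nat_lit 640365968984) (nat_lit 3) (nat_lit 4) (nat_lit 4) (nat_lit 5) (nat_lit 4) (nat_lit 4) (nat_lit 437) (nat_lit 363) (nat_lit 220)) (XT.lf (nat_lit 0) (nat_lit 310835788337) (nat_lit 76) (nat_lit 654965372471) (nat_lit 76) (nat_lit 592412150729) (nat_lit 3) (nat_lit 4) (nat_lit 4) (nat_lit 5) (nat_lit 4) (nat_lit 4) (nat_lit 438) (nat_lit 363) (nat_lit 219))))))))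
noncomputable def xc158 : XT := (XT.nd (nat_lit 1560) (nat_lit 0) (nat_lit 0) (XT.nd (nat_lit 780) (nat_lit 0) (nat_lit 0) (XT.nd (nat_lit 390) (nat_lit 152) (nat_lit 0) (XT.nd (nat_lit 156) (nat_lit 0) (nat_lit 0) (XT.nd (nat_lit 78) (nat_lit 0) (nat_lit 0) (XT.lf (nat_lit 0) (nat_lit 531349665322) (nat_lit 76) (nat_lit 603175566919) (nat_lit 76) (nat_lit 540622273907) (nat_lit 3) (nat_lit 4) (nat_lit 4) (nat_lit 5) (nat_lit 4) (nat_lit 4) (nat_lit 439) (nat_lit 363) (nat_lit 218)) (XT.lf (nat_lit 0) (nat_lit 769504223180) (nat_lit 76) (nat_lit 547242794546) (nat_lit 76) (nat_lit 484689435545) (nat_lit 3) (nat_lit 4) (nat_lit 4) (nat_lit 5) (nat_lit 4) (nat_lit 4) (nat_lit 440) (nat_lit 363) (nat_lit 217))) (XT.nd (nat_lit 78) (nat_lit 0) (nat_lit 0) (XT.lf (nat_lit 0) (nat_lit 1026710748181) (nat_lit 76) (nat_lit 486835601889) (nat_lit 76) (nat_lit 424282181786) (nat_lit 3) (nat_lit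 4) (nat_lit 4) (nat_lit 5) (nat_lit 4) (nat_lit 4) (nat_lit 441) (nat_lit 363) (nat_lit 216)) (XT.nd (nat_lit 78) (nat_lit 0) (nat_lit 0) (XT.lf (nat_lit 0) (nat_lit 1304493427140) (nat_lit 76) (nat_lit 421596020397) (nat_lit 76) (nat_lit 359042543718) (nat_lit 3) (nat_lit 4) (nat_lit 4) (nat_lit 5) (nat_lit 4) (nat_lit 4) (nat_lit 442) (nat_lit 363) (nat_lit 215)) (XT.lf (nat_lit 0) (nat_lit 1604498379636) (nat_lit 76) (nat_lit 351137445142) (nat_lit 76) (nat_lit 288583916079) (nat_lit 3) (nat_lit 4) (nat_lit 4) (nat_lit 5) (nat_lit 4) (nat_lit 4) (nat_lit 443) (nat_lit 363) (nat_lit 214))))) (XT.nd (nat_lit 156) (nat_lit 152) (nat_lit 0) (XT.nd (nat_lit 78) (nat_lit 0) (nat_lit 0) (XT.lf (nat_lit 0) (nat_lit 1928503412794) (nat_lit 76) (nat_lit 275042343829) (nat_lit 76) (nat_lit 212488766260) (nat_lit 3) (nat_lit 4) (nat_lit 4) (nat_lit 5) (nat_lit 4) (nat_lit 4) (nat_lit 444) (nat_lit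 363) (nat_lit 213)) (XT.lf (nat_lit 0) (nat_lit 2278428556441) (nat_lit 76) (nat_lit 192859782521) (nat_lit 76) (nat_lit 130306160041) (nat_lit 3) (nat_lit 4) (nat_lit 4) (nat_lit 5) (nat_lit 4) (nat_lit 4) (nat_lit 445) (nat_lit 363) (nat_lit 212))) (XT.nd (nat_lit 78) (nat_lit 152) (nat_lit 0) (XT.lf (nat_lit 0) (nat_lit 2656347441057) (nat_lit 76) (nat_lit 104102753450) (nat_lit 76) (nat_lit 41549089385) (nat_lit 3) (nat_lit 4) (nat_lit 4) (nat_lit 5) (nat_lit 4) (nat_lit 4) (nat_lit 446) (nat_lit 363) (nat_lit 211)) (XT.nd (nat_lit 78) (nat_lit 0) (nat_lit 0) (XT.lf (nat_lit 0) (nat_lit 47113830459) (nat_lit 76) (nat_lit 5610945035) (nat_lit 152) (nat_lit 2965516549373) (nat_lit 1) (nat_lit 5) (nat_lit 2) (nat_lit 5) (nat_lit 3) (nat_lit 4) (nat_lit 447) (nat_lit 363) (nat_lit 210)) (XT.lf (nat_lit 0) (nat_lit 158804796477) (nat_lit 152) (nat_lit 2991486210230) (nat_lit 0) (nat_lit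 100884668494) (nat_lit 1) (nat_lit 5) (nat_lit 3) (nat_lit 4) (nat_lit 1) (nat_lit 4) (nat_lit 448) (nat_lit 363) (nat_lit 209)))))) (XT.nd (nat_lit 390) (nat_lit 0) (nat_lit 0) (XT.nd (nat_lit 156) (nat_lit 0) (nat_lit 0) (XT.nd (nat_lit 78) (nat_lit 0) (nat_lit 0) (XT.lf (nat_lit 0) (nat_lit 273516840915) (nat_lit 152) (nat_lit 3013619600544) (nat_lit 0) (nat_lit 215596682366) (nat_lit 1) (nat_lit 5) (nat_lit 3) (nat_lit 4) (nat_lit 1) (nat_lit 4) (nat_lit 449) (nat_lit 363) (nat_lit 208)) (XT.lf (nat_lit 0) (nat_lit 397405740524) (nat_lit 152) (nat_lit 3037523882819) (nat_lit 0) (nat_lit 339485553673) (nat_lit 1) (nat_lit 5) (nat_lit 3) (nat_lit 4) (nat_lit 1) (nat_lit 4) (nat_lit 450) (nat_lit 363) (nat_lit 207))) (XT.nd (nat_lit 78) (nat_lit 0) (nat_lit 0) (XT.lf (nat_lit 0) (nat_lit 531205651746) (nat_lit 152) (nat_lit 3063340712061) (nat_lit 0) (nat_lit 473285438689) (nat_lit 1)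 (nat_lit 5) (nat_lit 3) (nat_lit 4) (nat_lit 1) (nat_lit 4) (nat_lit 451) (nat_lit 363) (nat_lit 206)) (XT.nd (nat_lit 78) (nat_lit 0) (nat_lit 0) (XT.lf (nat_lit 0) (nat_lit 675709462943) (nat_lit 152) (nat_lit 3091223076887) (nat_lit 0) (nat_lit 617789225621) (nat_lit 1) (nat_lit 5) (nat_lit 3) (nat_lit 4) (nat_lit 1) (nat_lit 4) (nat_lit 452) (nat_lit 363) (nat_lit 205)) (XT.lf (nat_lit 0) (nat_lit 831773492997) (nat_lit 152) (nat_lit 3121336206126) (nat_lit 0) (nat_lit 773853233208) (nat_lit 1) (nat_lit 5) (nat_lit 3) (nat_lit 4) (nat_lit 1) (nat_lit 4) (nat_lit 453) (nat_lit 363) (nat_lit 204))))) (XT.nd (nat_lit 156) (nat_lit 0) (nat_lit 0) (XT.nd (nat_lit 78) (nat_lit 0) (nat_lit 0) (XT.lf (nat_lit 0) (nat_lit 1000322565789) (nat_lit 152) (nat_lit 3153858547951) (nat_lit 0) (nat_lit 942402285198) (nat_lit 1) (nat_lit 5) (nat_lit 3) (nat_lit 4) (nat_lit 1) (nat_lit 4) (nat_lit 454)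 (nat_lit 363) (nat_lit 203)) (XT.lf (nat_lit 0) (nat_lit 1182355490640) (nat_lit 152) (nat_lit 3188982827352) (nat_lit 0) (nat_lit 1124435190787) (nat_lit 1) (nat_lit 5) (nat_lit 3) (nat_lit 4) (nat_lit 1) (nat_lit 4) (nat_lit 455) (nat_lit 363) (nat_lit 202))) (XT.nd (nat_lit 78) (nat_lit 0) (nat_lit 0) (XT.lf (nat_lit 0) (nat_lit 1378950981179) (nat_lit 152) (nat_lit 3226917188205) (nat_lit 0) (nat_lit 1321030663491) (nat_lit 1) (nat_lit 5) (nat_lit 3) (nat_lit 4) (nat_lit 1) (nat_lit 4) (nat_lit 456) (nat_lit 363) (nat_lit 201)) (XT.nd (nat_lit 78) (nat_lit 0) (nat_lit 0) (XT.lf (nat_lit 0) (nat_lit 1591274047719) (nat_lit 152) (nat_lit 3267886426724) (nat_lit 0) (nat_lit 1533353713517) (nat_lit 1) (nat_lit 5) (nat_lit 3) (nat_lit 4) (nat_lit 1) (nat_lit 4) (nat_lit 457) (nat_lit 363) (nat_lit 200)) (XT.lf (nat_lit 0) (nat_lit 1820582901026) (nat_lit 152) (nat_lit 3312133323580) (nat_lit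 0) (nat_lit 1762662551533) (nat_lit 1) (nat_lit 5) (nat_lit 3) (nat_lit 4) (nat_lit 1) (nat_lit 4) (nat_lit 458) (nat_lit 363) (nat_lit 199))))))) (XT.nd (nat_lit 46254) (nat_lit 0) (nat_lit 3192) (XT.nd (nat_lit 45864) (nat_lit 0) (nat_lit 4408) (XT.nd (nat_lit 156) (nat_lit 0) (nat_lit 0) (XT.nd (nat_lit 78) (nat_lit 0) (nat_lit 0) (XT.lf (nat_lit 0) (nat_lit 2068236408378) (nat_lit 152) (nat_lit 3359920082609) (nat_lit 0) (nat_lit 2010316044728) (nat_lit 1) (nat_lit 5) (nat_lit 3) (nat_lit 4) (nat_lit 1) (nat_lit 4) (nat_lit 459) (nat_lit 363) (nat_lit 198)) (XT.lf (nat_lit 0) (nat_lit 2335702146116) (nat_lit 152) (nat_lit 3411529884602) (nat_lit 0) (nat_lit 2277781769356) (nat_lit 1) (nat_lit 5) (nat_lit 3) (nat_lit 4) (nat_lit 1) (nat_lit 4) (nat_lit 460) (nat_lit 363) (nat_lit 197))) (XT.nd (nat_lit 45552) (nat_lit 0) (nat_lit 4788) (XT.lf (nat_lit 0) (nat_lit 2624565096388) (nat_lit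 152) (nat_lit 3467268565425) (nat_lit 0) (nat_lit 2566644707490) (nat_lit 1) (nat_lit 5) (nat_lit 3) (nat_lit 4) (nat_lit 1) (nat_lit 4) (nat_lit 461) (nat_lit 363) (nat_lit 196)) (XT.nd (nat_lit 78) (nat_lit 0) (nat_lit 0) (XT.lf (nat_lit 0) (nat_lit 10968136075) (nat_lit 532) (nat_lit 979663970) (nat_lit 532) (nat_lit 979663970) (nat_lit 64) (nat_lit 3) (nat_lit 71) (nat_lit 3) (nat_lit 71) (nat_lit 5) (nat_lit 364) (nat_lit 364) (nat_lit 292)) (XT.lf (nat_lit 76) (nat_lit 11166118301) (nat_lit 0) (nat_lit 12008200095) (nat_lit 532) (nat_lit 3685872057) (nat_lit 65) (nat_lit 5) (nat_lit 64) (nat_lit 3) (nat_lit 71) (nat_lit 5) (nat_lit 365) (nat_lit 364) (nat_lit 291))))) (XT.nd (nat_lit 156) (nat_lit 456) (nat_lit 0) (XT.nd (nat_lit 78) (nat_lit 0) (nat_lit 0) (XT.lf (nat_lit 0) (nat_lit 24577100516) (nat_lit 456) (nat_lit 2516010391) (nat_lit 532) (nat_lit 847516298) (nat_lit 65) (nat_lit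 5) (nat_lit 71) (nat_lit 5) (nat_lit 72) (nat_lit 5) (nat_lit 366) (nat_lit 364) (nat_lit 290)) (XT.lf (nat_lit 76) (nat_lit 11998990910) (nat_lit 0) (nat_lit 14685038906) (nat_lit 532) (nat_lit 2376123179) (nat_lit 66) (nat_lit 5) (nat_lit 65) (nat_lit 5) (nat_lit 72) (nat_lit 5) (nat_lit 367) (nat_lit 364) (nat_lit 289))) (XT.nd (nat_lit 78) (nat_lit 456) (nat_lit 0) (XT.lf (nat_lit 76) (nat_lit 27812780676) (nat_lit 0) (nat_lit 1207473530) (nat_lit 532) (nat_lit 1244134851) (nat_lit 66) (nat_lit 5) (nat_lit 65) (nat_lit 5) (nat_lit 72) (nat_lit 5) (nat_lit 368) (nat_lit 364) (nat_lit 288)) (XT.nd (nat_lit 78) (nat_lit 0) (nat_lit 0) (XT.lf (nat_lit 0) (nat_lit 638921262) (nat_lit 532) (nat_lit 17845242982) (nat_lit 608) (nat_lit 13028093390) (nat_lit 59) (nat_lit 5) (nat_lit 66) (nat_lit 5) (nat_lit 67) (nat_lit 5) (nat_lit 369) (nat_lit 364) (nat_lit 287)) (XT.lf (nat_lit 0) (nat_lit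 2698369070) (nat_lit 532) (nat_lit 1711449900) (nat_lit 608) (nat_lit 28440120418) (nat_lit 59) (nat_lit 5) (nat_lit 66) (nat_lit 5) (nat_lit 67) (nat_lit 5) (nat_lit 370) (nat_lit 364) (nat_lit 286)))))) (XT.nd (nat_lit 390) (nat_lit 684) (nat_lit 0) (XT.nd (nat_lit 156) (nat_lit 608) (nat_lit 0) (XT.nd (nat_lit 78) (nat_lit 0) (nat_lit 0) (XT.lf (nat_lit 0) (nat_lit 5583455968) (nat_lit 532) (nat_lit 17998596781) (nat_lit 76) (nat_lit 10659717760) (nat_lit 60) (nat_lit 5) (nat_lit 67) (nat_lit 5) (nat_lit 61) (nat_lit 5) (nat_lit 371) (nat_lit 364) (nat_lit 285)) (XT.lf (nat_lit 0) (nat_lit 8855641766) (nat_lit 532) (nat_lit 131396321) (nat_lit 76) (nat_lit 26745411760) (nat_lit 60) (nat_lit 5) (nat_lit 67) (nat_lit 5) (nat_lit 61) (nat_lit 5) (nat_lit 372) (nat_lit 364) (nat_lit 284))) (XT.nd (nat_lit 78) (nat_lit 228) (nat_lit 0) (XT.lf (nat_lit 0) (nat_lit 13044421882) (nat_lit 456)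 (nat_lit 17311005876) (nat_lit 76) (nat_lit 6934574926) (nat_lit 55) (nat_lit 5) (nat_lit 61) (nat_lit 5) (nat_lit 56) (nat_lit 5) (nat_lit 373) (nat_lit 364) (nat_lit 283)) (XT.nd (nat_lit 78) (nat_lit 0) (nat_lit 0) (XT.lf (nat_lit 0) (nat_lit 2625851532) (nat_lit 228) (nat_lit 15237229185) (nat_lit 304) (nat_lit 21085501282) (nat_lit 52) (nat_lit 5) (nat_lit 55) (nat_lit 5) (nat_lit 56) (nat_lit 5) (nat_lit 374) (nat_lit 364) (nat_lit 282)) (XT.lf (nat_lit 0) (nat_lit 23573833715) (nat_lit 304) (nat_lit 15604418669) (nat_lit 76) (nat_lit 1521071196) (nat_lit 52) (nat_lit 5) (nat_lit 56) (nat_lit 5) (nat_lit 53) (nat_lit 5) (nat_lit 375) (nat_lit 364) (nat_lit 281))))) (XT.nd (nat_lit 234) (nat_lit 228) (nat_lit 0) (XT.nd (nat_lit 78) (nat_lit 228) (nat_lit 0) (XT.lf (nat_lit 0) (nat_lit 6705399284) (nat_lit 228) (nat_lit 23588241593) (nat_lit 304) (nat_lit 12252311831) (nat_lit 49)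 (nat_lit 5) (nat_lit 52) (nat_lit 5) (nat_lit 53) (nat_lit 5) (nat_lit 376) (nat_lit 364) (nat_lit 280)) (XT.nd (nat_lit 78) (nat_lit 228) (nat_lit 0) (XT.lf (nat_lit 0) (nat_lit 31681964182) (nat_lit 228) (nat_lit 6291104686) (nat_lit 304) (nat_lit 6533483856) (nat_lit 49) (nat_lit 5) (nat_lit 52) (nat_lit 5) (nat_lit 53) (nat_lit 5) (nat_lit 377) (nat_lit 364) (nat_lit 279)) (XT.lf (nat_lit 0) (nat_lit 266679832) (nat_lit 228) (nat_lit 34236579616) (nat_lit 76) (nat_lit 12072954346) (nat_lit 46) (nat_lit 5) (nat_lit 49) (nat_lit 5) (nat_lit 47) (nat_lit 5) (nat_lit 378) (nat_lit 364) (nat_lit 278)))) (XT.nd (nat_lit 78) (nat_lit 228) (nat_lit 0) (XT.lf (nat_lit 0) (nat_lit 7776827577) (nat_lit 228) (nat_lit 8884753375) (nat_lit 76) (nat_lit 32094777569) (nat_lit 46) (nat_lit 5) (nat_lit 49) (nat_lit 5) (nat_lit 47) (nat_lit 5) (nat_lit 379) (nat_lit 364) (nat_lit 277)) (XT.nd (nat_lit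 78) (nat_lit 0) (nat_lit 0) (XT.lf (nat_lit 0) (nat_lit 16426831732) (nat_lit 304) (nat_lit 31684820604) (nat_lit 76) (nat_lit 2956141465) (nat_lit 43) (nat_lit 5) (nat_lit 47) (nat_lit 5) (nat_lit 44) (nat_lit 5) (nat_lit 380) (nat_lit 364) (nat_lit 276)) (XT.lf (nat_lit 0) (nat_lit 26447080395) (nat_lit 304) (nat_lit 3571606814) (nat_lit 76) (nat_lit 23491199515) (nat_lit 43) (nat_lit 5) (nat_lit 47) (nat_lit 5) (nat_lit 44) (nat_lit 5) (nat_lit 381) (nat_lit 364) (nat_lit 275))))))))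
noncomputable def xc159 : XT := (XT.nd (nat_lit 1638) (nat_lit 988) (nat_lit 0) (XT.nd (nat_lit 780) (nat_lit 760) (nat_lit 0) (XT.nd (nat_lit 390) (nat_lit 456) (nat_lit 0) (XT.nd (nat_lit 156) (nat_lit 228) (nat_lit 0) (XT.nd (nat_lit 78) (nat_lit 152) (nat_lit 0) (XT.lf (nat_lit 0) (nat_lit 28196324615) (nat_lit 152) (nat_lit 9747266250) (nat_lit 228) (nat_lit 18149787044) (nat_lit 41) (nat_lit 5) (nat_lit 43) (nat_lit 5) (nat_lit 44) (nat_lit 5) (nat_lit 382) (nat_lit 364) (nat_lit 274)) (XT.lf (nat_lit 0) (nat_lit 3719549738) (nat_lit 152) (nat_lit 47118657693) (nat_lit 228) (nat_lit 8007072155) (nat_lit 39) (nat_lit 5) (nat_lit 41) (nat_lit 5) (nat_lit 42) (nat_lit 5) (nat_lit 383) (nat_lit 364) (nat_lit 273))) (XT.nd (nat_lit 78) (nat_lit 152) (nat_lit 0) (XT.lf (nat_lit 0) (nat_lit 3832057300) (nat_lit 228) (nat_lit 22653164896) (nat_lit 76) (nat_lit 35243849082) (nat_lit 38) (nat_lit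 5) (nat_lit 41) (nat_lit 5) (nat_lit 39) (nat_lit 5) (nat_lit 384) (nat_lit 364) (nat_lit 272)) (XT.nd (nat_lit 78) (nat_lit 0) (nat_lit 0) (XT.lf (nat_lit 0) (nat_lit 12847273661) (nat_lit 152) (nat_lit 3644355648) (nat_lit 228) (nat_lit 48310828363) (nat_lit 36) (nat_lit 5) (nat_lit 38) (nat_lit 5) (nat_lit 39) (nat_lit 5) (nat_lit 385) (nat_lit 364) (nat_lit 271)) (XT.lf (nat_lit 0) (nat_lit 31302061623) (nat_lit 228) (nat_lit 16122533777) (nat_lit 76) (nat_lit 20606073496) (nat_lit 36) (nat_lit 5) (nat_lit 39) (nat_lit 5) (nat_lit 37) (nat_lit 5) (nat_lit 386) (nat_lit 364) (nat_lit 270))))) (XT.nd (nat_lit 156) (nat_lit 304) (nat_lit 0) (XT.nd (nat_lit 78) (nat_lit 0) (nat_lit 0) (XT.lf (nat_lit 0) (nat_lit 23661343403) (nat_lit 152) (nat_lit 24296928028) (nat_lit 228) (nat_lit 23505991530) (nat_lit 34) (nat_lit 5) (nat_lit 36) (nat_lit 5) (nat_lit 37) (nat_lit 5) (nat_lit 387) (nat_lit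 364) (nat_lit 269)) (XT.lf (nat_lit 0) (nat_lit 66412916821) (nat_lit 228) (nat_lit 7624701208) (nat_lit 76) (nat_lit 1097652688) (nat_lit 34) (nat_lit 5) (nat_lit 37) (nat_lit 5) (nat_lit 35) (nat_lit 4) (nat_lit 388) (nat_lit 364) (nat_lit 268))) (XT.nd (nat_lit 78) (nat_lit 152) (nat_lit 0) (XT.lf (nat_lit 0) (nat_lit 8439045087) (nat_lit 152) (nat_lit 42209561386) (nat_lit 76) (nat_lit 28312820827) (nat_lit 32) (nat_lit 5) (nat_lit 34) (nat_lit 5) (nat_lit 33) (nat_lit 5) (nat_lit 389) (nat_lit 364) (nat_lit 267)) (XT.nd (nat_lit 78) (nat_lit 0) (nat_lit 0) (XT.lf (nat_lit 0) (nat_lit 1893821786) (nat_lit 152) (nat_lit 24865254303) (nat_lit 228) (nat_lit 56295920657) (nat_lit 30) (nat_lit 5) (nat_lit 32) (nat_lit 5) (nat_lit 33) (nat_lit 5) (nat_lit 390) (nat_lit 364) (nat_lit 266)) (XT.lf (nat_lit 0) (nat_lit 47798024809) (nat_lit 228) (nat_lit 35563595285) (nat_lit 76) (nat_lit 4014167371)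 (nat_lit 30) (nat_lit 5) (nat_lit 33) (nat_lit 5) (nat_lit 31) (nat_lit 4) (nat_lit 391) (nat_lit 364) (nat_lit 265)))))) (XT.nd (nat_lit 390) (nat_lit 380) (nat_lit 0) (XT.nd (nat_lit 156) (nat_lit 228) (nat_lit 0) (XT.nd (nat_lit 78) (nat_lit 76) (nat_lit 0) (XT.lf (nat_lit 0) (nat_lit 13718317924) (nat_lit 76) (nat_lit 57775295655) (nat_lit 152) (nat_lit 20470746794) (nat_lit 29) (nat_lit 5) (nat_lit 30) (nat_lit 5) (nat_lit 31) (nat_lit 4) (nat_lit 392) (nat_lit 364) (nat_lit 264)) (XT.lf (nat_lit 0) (nat_lit 1151979394) (nat_lit 152) (nat_lit 27910020932) (nat_lit 76) (nat_lit 67778070835) (nat_lit 28) (nat_lit 5) (nat_lit 30) (nat_lit 5) (nat_lit 29) (nat_lit 5) (nat_lit 393) (nat_lit 364) (nat_lit 263))) (XT.nd (nat_lit 78) (nat_lit 76) (nat_lit 0) (XT.lf (nat_lit 0) (nat_lit 24130319065) (nat_lit 228) (nat_lit 74806303668) (nat_lit 76) (nat_lit 3068140354) (nat_lit 26) (nat_lit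 5) (nat_lit 29) (nat_lit 5) (nat_lit 27) (nat_lit 4) (nat_lit 394) (nat_lit 364) (nat_lit 262)) (XT.nd (nat_lit 78) (nat_lit 76) (nat_lit 0) (XT.lf (nat_lit 0) (nat_lit 50482677870) (nat_lit 228) (nat_lit 19997007406) (nat_lit 76) (nat_lit 36980085573) (nat_lit 26) (nat_lit 5) (nat_lit 29) (nat_lit 5) (nat_lit 27) (nat_lit 4) (nat_lit 395) (nat_lit 364) (nat_lit 261)) (XT.lf (nat_lit 0) (nat_lit 41257537375) (nat_lit 76) (nat_lit 38676047908) (nat_lit 152) (nat_lit 33338365743) (nat_lit 25) (nat_lit 5) (nat_lit 26) (nat_lit 5) (nat_lit 27) (nat_lit 4) (nat_lit 396) (nat_lit 364) (nat_lit 260))))) (XT.nd (nat_lit 234) (nat_lit 228) (nat_lit 0) (XT.nd (nat_lit 78) (nat_lit 152) (nat_lit 0) (XT.lf (nat_lit 0) (nat_lit 108546414146) (nat_lit 76) (nat_lit 3739080660) (nat_lit 152) (nat_lit 7220016996) (nat_lit 25) (nat_lit 5) (nat_lit 26) (nat_lit 5) (nat_lit 27) (nat_lit 4) (nat_lit 397) (nat_lit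 364) (nat_lit 259)) (XT.nd (nat_lit 78) (nat_lit 0) (nat_lit 0) (XT.lf (nat_lit 0) (nat_lit 22181654168) (nat_lit 152) (nat_lit 69612419355) (nat_lit 76) (nat_lit 34223803879) (nat_lit 23) (nat_lit 5) (nat_lit 25) (nat_lit 5) (nat_lit 24) (nat_lit 4) (nat_lit 398) (nat_lit 364) (nat_lit 258)) (XT.lf (nat_lit 0) (nat_lit 53948222368) (nat_lit 152) (nat_lit 3540414439) (nat_lit 76) (nat_lit 75515366698) (nat_lit 23) (nat_lit 5) (nat_lit 25) (nat_lit 5) (nat_lit 24) (nat_lit 4) (nat_lit 399) (nat_lit 364) (nat_lit 257)))) (XT.nd (nat_lit 78) (nat_lit 152) (nat_lit 0) (XT.lf (nat_lit 0) (nat_lit 71385421632) (nat_lit 76) (nat_lit 18585931032) (nat_lit 152) (nat_lit 50440448504) (nat_lit 22) (nat_lit 5) (nat_lit 23) (nat_lit 5) (nat_lit 24) (nat_lit 4) (nat_lit 400) (nat_lit 364) (nat_lit 256)) (XT.nd (nat_lit 78) (nat_lit 76) (nat_lit 0) (XT.lf (nat_lit 0) (nat_lit 3719331404) (nat_lit 76)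 (nat_lit 125907668380) (nat_lit 76) (nat_lit 18725169917) (nat_lit 21) (nat_lit 4) (nat_lit 22) (nat_lit 5) (nat_lit 22) (nat_lit 4) (nat_lit 401) (nat_lit 364) (nat_lit 255)) (XT.lf (nat_lit 0) (nat_lit 17168107381) (nat_lit 152) (nat_lit 71474641034) (nat_lit 76) (nat_lit 68061743695) (nat_lit 20) (nat_lit 5) (nat_lit 22) (nat_lit 5) (nat_lit 21) (nat_lit 4) (nat_lit 402) (nat_lit 364) (nat_lit 254))))))) (XT.nd (nat_lit 780) (nat_lit 456) (nat_lit 0) (XT.nd (nat_lit 390) (nat_lit 304) (nat_lit 0) (XT.nd (nat_lit 156) (nat_lit 152) (nat_lit 0) (XT.nd (nat_lit 78) (nat_lit 0) (nat_lit 0) (XT.lf (nat_lit 0) (nat_lit 7418207583) (nat_lit 76) (nat_lit 47679957859) (nat_lit 152) (nat_lit 110573768587) (nat_lit 19) (nat_lit 5) (nat_lit 20) (nat_lit 5) (nat_lit 21) (nat_lit 4) (nat_lit 403) (nat_lit 364) (nat_lit 253)) (XT.lf (nat_lit 0) (nat_lit 96684654086) (nat_lit 76) (nat_lit 1330816545)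 (nat_lit 152) (nat_lit 77185073549) (nat_lit 19) (nat_lit 5) (nat_lit 20) (nat_lit 5) (nat_lit 21) (nat_lit 4) (nat_lit 404) (nat_lit 364) (nat_lit 252))) (XT.nd (nat_lit 78) (nat_lit 76) (nat_lit 0) (XT.lf (nat_lit 0) (nat_lit 6764981839) (nat_lit 76) (nat_lit 138934418947) (nat_lit 76) (nat_lit 39685383364) (nat_lit 18) (nat_lit 4) (nat_lit 19) (nat_lit 5) (nat_lit 19) (nat_lit 4) (nat_lit 405) (nat_lit 364) (nat_lit 251)) (XT.nd (nat_lit 78) (nat_lit 0) (nat_lit 0) (XT.lf (nat_lit 0) (nat_lit 3009318712) (nat_lit 152) (nat_lit 92990881743) (nat_lit 76) (nat_lit 100203134771) (nat_lit 17) (nat_lit 5) (nat_lit 19) (nat_lit 5) (nat_lit 18) (nat_lit 4) (nat_lit 406) (nat_lit 364) (nat_lit 250)) (XT.lf (nat_lit 0) (nat_lit 46974333268) (nat_lit 152) (nat_lit 1544789503) (nat_lit 76) (nat_lit 159285882457) (nat_lit 17) (nat_lit 5) (nat_lit 19) (nat_lit 5) (nat_lit 18) (nat_lit 4) (nat_lit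 407) (nat_lit 364) (nat_lit 249))))) (XT.nd (nat_lit 156) (nat_lit 228) (nat_lit 0) (XT.nd (nat_lit 78) (nat_lit 0) (nat_lit 0) (XT.lf (nat_lit 0) (nat_lit 97046840867) (nat_lit 152) (nat_lit 117934326565) (nat_lit 0) (nat_lit 5146418236) (nat_lit 16) (nat_lit 5) (nat_lit 18) (nat_lit 4) (nat_lit 16) (nat_lit 4) (nat_lit 408) (nat_lit 364) (nat_lit 248)) (XT.lf (nat_lit 0) (nat_lit 152427596844) (nat_lit 152) (nat_lit 20377909248) (nat_lit 0) (nat_lit 60526270800) (nat_lit 16) (nat_lit 5) (nat_lit 18) (nat_lit 4) (nat_lit 16) (nat_lit 4) (nat_lit 409) (nat_lit 364) (nat_lit 247))) (XT.nd (nat_lit 78) (nat_lit 152) (nat_lit 0) (XT.lf (nat_lit 0) (nat_lit 89455945312) (nat_lit 76) (nat_lit 124933245306) (nat_lit 76) (nat_lit 33031082770) (nat_lit 15) (nat_lit 4) (nat_lit 16) (nat_lit 5) (nat_lit 16) (nat_lit 4) (nat_lit 410) (nat_lit 364) (nat_lit 246)) (XT.nd (nat_lit 78) (nat_lit 76) (nat_lit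 0) (XT.lf (nat_lit 0) (nat_lit 18308423057) (nat_lit 152) (nat_lit 53821417106) (nat_lit 76) (nat_lit 190424436643) (nat_lit 14) (nat_lit 5) (nat_lit 16) (nat_lit 5) (nat_lit 15) (nat_lit 4) (nat_lit 411) (nat_lit 364) (nat_lit 245)) (XT.lf (nat_lit 0) (nat_lit 60836380621) (nat_lit 76) (nat_lit 12596328438) (nat_lit 152) (nat_lit 205280683059) (nat_lit 13) (nat_lit 5) (nat_lit 14) (nat_lit 5) (nat_lit 15) (nat_lit 4) (nat_lit 412) (nat_lit 364) (nat_lit 244)))))) (XT.nd (nat_lit 390) (nat_lit 228) (nat_lit 0) (XT.nd (nat_lit 156) (nat_lit 152) (nat_lit 0) (XT.nd (nat_lit 78) (nat_lit 76) (nat_lit 0) (XT.lf (nat_lit 0) (nat_lit 135719161756) (nat_lit 152) (nat_lit 109603326334) (nat_lit 0) (nat_lit 50622570776) (nat_lit 13) (nat_lit 5) (nat_lit 15) (nat_lit 4) (nat_lit 13) (nat_lit 4) (nat_lit 413) (nat_lit 364) (nat_lit 243)) (XT.lf (nat_lit 0) (nat_lit 7372115160) (nat_lit 76) (nat_lit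 196120008377) (nat_lit 76) (nat_lit 111022848095) (nat_lit 12) (nat_lit 4) (nat_lit 13) (nat_lit 5) (nat_lit 13) (nat_lit 4) (nat_lit 414) (nat_lit 364) (nat_lit 242))) (XT.nd (nat_lit 78) (nat_lit 152) (nat_lit 0) (XT.lf (nat_lit 0) (nat_lit 139937130241) (nat_lit 76) (nat_lit 139745681758) (nat_lit 76) (nat_lit 54647994344) (nat_lit 12) (nat_lit 4) (nat_lit 13) (nat_lit 5) (nat_lit 13) (nat_lit 4) (nat_lit 415) (nat_lit 364) (nat_lit 241)) (XT.nd (nat_lit 78) (nat_lit 76) (nat_lit 0) (XT.lf (nat_lit 0) (nat_lit 5924038790) (nat_lit 152) (nat_lit 72776174814) (nat_lit 76) (nat_lit 277019759927) (nat_lit 11) (nat_lit 5) (nat_lit 13) (nat_lit 5) (nat_lit 12) (nat_lit 4) (nat_lit 416) (nat_lit 364) (nat_lit 240)) (XT.lf (nat_lit 0) (nat_lit 60159207997) (nat_lit 76) (nat_lit 9676289804) (nat_lit 152) (nat_lit 308755536152) (nat_lit 10) (nat_lit 5) (nat_lit 11) (nat_lit 5) (nat_lit 12) (nat_lit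 4) (nat_lit 417) (nat_lit 364) (nat_lit 239))))) (XT.nd (nat_lit 234) (nat_lit 152) (nat_lit 0) (XT.nd (nat_lit 78) (nat_lit 76) (nat_lit 0) (XT.lf (nat_lit 0) (nat_lit 142460748628) (nat_lit 152) (nat_lit 196877624875) (nat_lit 0) (nat_lit 63665335771) (nat_lit 10) (nat_lit 5) (nat_lit 12) (nat_lit 4) (nat_lit 10) (nat_lit 4) (nat_lit 418) (nat_lit 364) (nat_lit 238)) (XT.nd (nat_lit 78) (nat_lit 76) (nat_lit 0) (XT.lf (nat_lit 0) (nat_lit 221146654901) (nat_lit 152) (nat_lit 65851809671) (nat_lit 0) (nat_lit 142350883287) (nat_lit 10) (nat_lit 5) (nat_lit 12) (nat_lit 4) (nat_lit 10) (nat_lit 4) (nat_lit 419) (nat_lit 364) (nat_lit 237)) (XT.lf (nat_lit 0) (nat_lit 79638630783) (nat_lit 76) (nat_lit 228403468672) (nat_lit 76) (nat_lit 149607364876) (nat_lit 9) (nat_lit 4) (nat_lit 10) (nat_lit 5) (nat_lit 10) (nat_lit 4) (nat_lit 420) (nat_lit 364) (nat_lit 236)))) (XT.nd (nat_lit 78)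 (nat_lit 152) (nat_lit 0) (XT.lf (nat_lit 0) (nat_lit 240512103002) (nat_lit 76) (nat_lit 163176954171) (nat_lit 76) (nat_lit 84380542799) (nat_lit 9) (nat_lit 4) (nat_lit 10) (nat_lit 5) (nat_lit 10) (nat_lit 4) (nat_lit 421) (nat_lit 364) (nat_lit 235)) (XT.nd (nat_lit 78) (nat_lit 152) (nat_lit 0) (XT.lf (nat_lit 0) (nat_lit 414254291667) (nat_lit 76) (nat_lit 92732898752) (nat_lit 76) (nat_lit 13936202586) (nat_lit 9) (nat_lit 4) (nat_lit 10) (nat_lit 5) (nat_lit 10) (nat_lit 4) (nat_lit 422) (nat_lit 364) (nat_lit 234)) (XT.lf (nat_lit 0) (nat_lit 46311387571) (nat_lit 76) (nat_lit 13836856387) (nat_lit 152) (nat_lit 496048621968) (nat_lit 7) (nat_lit 5) (nat_lit 8) (nat_lit 5) (nat_lit 9) (nat_lit 4) (nat_lit 423) (nat_lit 364) (nat_lit 233))))))))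
noncomputable def xc160 : XT := (XT.nd (nat_lit 1560) (nat_lit 152) (nat_lit 0) (XT.nd (nat_lit 780) (nat_lit 76) (nat_lit 0) (XT.nd (nat_lit 390) (nat_lit 152) (nat_lit 0) (XT.nd (nat_lit 156) (nat_lit 76) (nat_lit 0) (XT.nd (nat_lit 78) (nat_lit 0) (nat_lit 0) (XT.lf (nat_lit 0) (nat_lit 144114726487) (nat_lit 152) (nat_lit 378617523731) (nat_lit 0) (nat_lit 71154352388) (nat_lit 7) (nat_lit 5) (nat_lit 9) (nat_lit 4) (nat_lit 7) (nat_lit 4) (nat_lit 424) (nat_lit 364) (nat_lit 232)) (XT.lf (nat_lit 0) (nat_lit 235157417191) (nat_lit 152) (nat_lit 237208556142) (nat_lit 0) (nat_lit 162196833761) (nat_lit 7) (nat_lit 5) (nat_lit 9) (nat_lit 4) (nat_lit 7) (nat_lit 4) (nat_lit 425) (nat_lit 364) (nat_lit 231))) (XT.nd (nat_lit 78) (nat_lit 76) (nat_lit 0) (XT.lf (nat_lit 0) (nat_lit 333483051585) (nat_lit 152) (nat_lit 84487819790) (nat_lit 0) (nat_lit 260522274329) (nat_lit 7) (nat_lit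 5) (nat_lit 9) (nat_lit 4) (nat_lit 7) (nat_lit 4) (nat_lit 426) (nat_lit 364) (nat_lit 230)) (XT.nd (nat_lit 78) (nat_lit 0) (nat_lit 0) (XT.lf (nat_lit 0) (nat_lit 84686035573) (nat_lit 76) (nat_lit 357024965711) (nat_lit 76) (nat_lit 284064008987) (nat_lit 6) (nat_lit 4) (nat_lit 7) (nat_lit 5) (nat_lit 7) (nat_lit 4) (nat_lit 427) (nat_lit 364) (nat_lit 229)) (XT.lf (nat_lit 0) (nat_lit 272197840403) (nat_lit 76) (nat_lit 288708968392) (nat_lit 76) (nat_lit 215747845494) (nat_lit 6) (nat_lit 4) (nat_lit 7) (nat_lit 5) (nat_lit 7) (nat_lit 4) (nat_lit 428) (nat_lit 364) (nat_lit 228))))) (XT.nd (nat_lit 156) (nat_lit 152) (nat_lit 0) (XT.nd (nat_lit 78) (nat_lit 0) (nat_lit 0) (XT.lf (nat_lit 0) (nat_lit 474709796898) (nat_lit 76) (nat_lit 214928090598) (nat_lit 76) (nat_lit 141966813835) (nat_lit 6) (nat_lit 4) (nat_lit 7) (nat_lit 5) (nat_lit 7) (nat_lit 4) (nat_lit 429) (nat_lit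 364) (nat_lit 227)) (XT.lf (nat_lit 0) (nat_lit 693421975913) (nat_lit 76) (nat_lit 135245112311) (nat_lit 76) (nat_lit 62283693081) (nat_lit 6) (nat_lit 4) (nat_lit 7) (nat_lit 5) (nat_lit 7) (nat_lit 4) (nat_lit 430) (nat_lit 364) (nat_lit 226))) (XT.nd (nat_lit 78) (nat_lit 76) (nat_lit 0) (XT.lf (nat_lit 0) (nat_lit 22584455629) (nat_lit 152) (nat_lit 25985883435) (nat_lit 76) (nat_lit 906428494950) (nat_lit 5) (nat_lit 5) (nat_lit 7) (nat_lit 5) (nat_lit 6) (nat_lit 4) (nat_lit 431) (nat_lit 364) (nat_lit 225)) (XT.nd (nat_lit 78) (nat_lit 0) (nat_lit 0) (XT.lf (nat_lit 0) (nat_lit 116097104110) (nat_lit 152) (nat_lit 858986608173) (nat_lit 0) (nat_lit 48539999214) (nat_lit 4) (nat_lit 5) (nat_lit 6) (nat_lit 4) (nat_lit 4) (nat_lit 4) (nat_lit 432) (nat_lit 364) (nat_lit 224)) (XT.lf (nat_lit 0) (nat_lit 219080966876) (nat_lit 152) (nat_lit 726974638867) (nat_lit 0) (nat_lit 151523757263)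 (nat_lit 4) (nat_lit 5) (nat_lit 6) (nat_lit 4) (nat_lit 4) (nat_lit 4) (nat_lit 433) (nat_lit 364) (nat_lit 223)))))) (XT.nd (nat_lit 390) (nat_lit 0) (nat_lit 0) (XT.nd (nat_lit 156) (nat_lit 76) (nat_lit 0) (XT.nd (nat_lit 78) (nat_lit 0) (nat_lit 0) (XT.lf (nat_lit 0) (nat_lit 330303242835) (nat_lit 152) (nat_lit 584402311224) (nat_lit 0) (nat_lit 262745936261) (nat_lit 4) (nat_lit 5) (nat_lit 6) (nat_lit 4) (nat_lit 4) (nat_lit 4) (nat_lit 434) (nat_lit 364) (nat_lit 222)) (XT.lf (nat_lit 0) (nat_lit 450423026956) (nat_lit 152) (nat_lit 430424752191) (nat_lit 0) (nat_lit 382865630603) (nat_lit 4) (nat_lit 5) (nat_lit 6) (nat_lit 4) (nat_lit 4) (nat_lit 4) (nat_lit 435) (nat_lit 364) (nat_lit 221))) (XT.nd (nat_lit 78) (nat_lit 76) (nat_lit 0) (XT.lf (nat_lit 0) (nat_lit 580152140181) (nat_lit 152) (nat_lit 264129502158) (nat_lit 0) (nat_lit 512594660700) (nat_lit 4) (nat_lit 5) (nat_lit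 6) (nat_lit 4) (nat_lit 4) (nat_lit 4) (nat_lit 436) (nat_lit 364) (nat_lit 220)) (XT.nd (nat_lit 78) (nat_lit 76) (nat_lit 0) (XT.lf (nat_lit 0) (nat_lit 720259347627) (nat_lit 152) (nat_lit 84531107792) (nat_lit 0) (nat_lit 652701791175) (nat_lit 4) (nat_lit 5) (nat_lit 6) (nat_lit 4) (nat_lit 4) (nat_lit 4) (nat_lit 437) (nat_lit 364) (nat_lit 219)) (XT.lf (nat_lit 0) (nat_lit 115197355986) (nat_lit 76) (nat_lit 759148057421) (nat_lit 76) (nat_lit 691590429700) (nat_lit 3) (nat_lit 4) (nat_lit 4) (nat_lit 5) (nat_lit 4) (nat_lit 4) (nat_lit 438) (nat_lit 364) (nat_lit 218))))) (XT.nd (nat_lit 156) (nat_lit 0) (nat_lit 0) (XT.nd (nat_lit 78) (nat_lit 0) (nat_lit 0) (XT.lf (nat_lit 0) (nat_lit 335711026583) (nat_lit 76) (nat_lit 707358356496) (nat_lit 76) (nat_lit 639800662784) (nat_lit 3) (nat_lit 4) (nat_lit 4) (nat_lit 5) (nat_lit 4) (nat_lit 4) (nat_lit 439) (nat_lit 364) (nat_lit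 217)) (XT.lf (nat_lit 0) (nat_lit 573865393343) (nat_lit 76) (nat_lit 651425681001) (nat_lit 76) (nat_lit 583867926187) (nat_lit 3) (nat_lit 4) (nat_lit 4) (nat_lit 5) (nat_lit 4) (nat_lit 4) (nat_lit 440) (nat_lit 364) (nat_lit 216))) (XT.nd (nat_lit 78) (nat_lit 0) (nat_lit 0) (XT.lf (nat_lit 0) (nat_lit 831071741400) (nat_lit 76) (nat_lit 591018578044) (nat_lit 76) (nat_lit 523460766655) (nat_lit 3) (nat_lit 4) (nat_lit 4) (nat_lit 5) (nat_lit 4) (nat_lit 4) (nat_lit 441) (nat_lit 364) (nat_lit 215)) (XT.nd (nat_lit 78) (nat_lit 0) (nat_lit 0) (XT.lf (nat_lit 0) (nat_lit 1108854256523) (nat_lit 76) (nat_lit 525779079608) (nat_lit 76) (nat_lit 458221215834) (nat_lit 3) (nat_lit 4) (nat_lit 4) (nat_lit 5) (nat_lit 4) (nat_lit 4) (nat_lit 442) (nat_lit 364) (nat_lit 214)) (XT.lf (nat_lit 0) (nat_lit 1408859057318) (nat_lit 76) (nat_lit 455320581258) (nat_lit 76) (nat_lit 387762668980)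 (nat_lit 3) (nat_lit 4) (nat_lit 4) (nat_lit 5) (nat_lit 4) (nat_lit 4) (nat_lit 443) (nat_lit 364) (nat_lit 213))))))) (XT.nd (nat_lit 780) (nat_lit 0) (nat_lit 0) (XT.nd (nat_lit 390) (nat_lit 0) (nat_lit 0) (XT.nd (nat_lit 156) (nat_lit 152) (nat_lit 0) (XT.nd (nat_lit 78) (nat_lit 0) (nat_lit 0) (XT.lf (nat_lit 0) (nat_lit 1732863950013) (nat_lit 76) (nat_lit 379225551152) (nat_lit 76) (nat_lit 311667593962) (nat_lit 3) (nat_lit 4) (nat_lit 4) (nat_lit 5) (nat_lit 4) (nat_lit 4) (nat_lit 444) (nat_lit 364) (nat_lit 212)) (XT.lf (nat_lit 0) (nat_lit 2082788963601) (nat_lit 76) (nat_lit 297043055778) (nat_lit 76) (nat_lit 229485057002) (nat_lit 3) (nat_lit 4) (nat_lit 4) (nat_lit 5) (nat_lit 4) (nat_lit 4) (nat_lit 445) (nat_lit 364) (nat_lit 211))) (XT.nd (nat_lit 78) (nat_lit 152) (nat_lit 0) (XT.lf (nat_lit 0) (nat_lit 2460707727793) (nat_lit 76) (nat_lit 208286087755) (nat_lit 76)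 (nat_lit 140728050475) (nat_lit 3) (nat_lit 4) (nat_lit 4) (nat_lit 5) (nat_lit 4) (nat_lit 4) (nat_lit 446) (nat_lit 364) (nat_lit 210)) (XT.nd (nat_lit 78) (nat_lit 152) (nat_lit 0) (XT.lf (nat_lit 0) (nat_lit 2868859761191) (nat_lit 76) (nat_lit 112428679867) (nat_lit 76) (nat_lit 44870606935) (nat_lit 3) (nat_lit 4) (nat_lit 4) (nat_lit 5) (nat_lit 4) (nat_lit 4) (nat_lit 447) (nat_lit 364) (nat_lit 209)) (XT.lf (nat_lit 0) (nat_lit 50887464797) (nat_lit 76) (nat_lit 6057521135) (nat_lit 152) (nat_lit 3202755466539) (nat_lit 1) (nat_lit 5) (nat_lit 2) (nat_lit 5) (nat_lit 3) (nat_lit 4) (nat_lit 448) (nat_lit 364) (nat_lit 208))))) (XT.nd (nat_lit 156) (nat_lit 0) (nat_lit 0) (XT.nd (nat_lit 78) (nat_lit 0) (nat_lit 0) (XT.lf (nat_lit 0) (nat_lit 171511294734) (nat_lit 152) (nat_lit 3230800800582) (nat_lit 0) (nat_lit 108957464632) (nat_lit 1) (nat_lit 5) (nat_lit 3) (nat_lit 4) (nat_lit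 1) (nat_lit 4) (nat_lit 449) (nat_lit 364) (nat_lit 207)) (XT.lf (nat_lit 0) (nat_lit 295400146095) (nat_lit 152) (nat_lit 3254705181119) (nat_lit 0) (nat_lit 232846289788) (nat_lit 1) (nat_lit 5) (nat_lit 3) (nat_lit 4) (nat_lit 1) (nat_lit 4) (nat_lit 450) (nat_lit 364) (nat_lit 206))) (XT.nd (nat_lit 78) (nat_lit 0) (nat_lit 0) (XT.lf (nat_lit 0) (nat_lit 429200012642) (nat_lit 152) (nat_lit 3280522101344) (nat_lit 0) (nat_lit 366646132071) (nat_lit 1) (nat_lit 5) (nat_lit 3) (nat_lit 4) (nat_lit 1) (nat_lit 4) (nat_lit 451) (nat_lit 364) (nat_lit 205)) (XT.nd (nat_lit 78) (nat_lit 0) (nat_lit 0) (XT.lf (nat_lit 0) (nat_lit 573703782474) (nat_lit 152) (nat_lit 3308404550414) (nat_lit 0) (nat_lit 511149879436) (nat_lit 1) (nat_lit 5) (nat_lit 3) (nat_lit 4) (nat_lit 1) (nat_lit 4) (nat_lit 452) (nat_lit 364) (nat_lit 204)) (XT.lf (nat_lit 0) (nat_lit 729767774227) (nat_lit 152) (nat_lit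 3338517757656) (nat_lit 0) (nat_lit 667213850386) (nat_lit 1) (nat_lit 5) (nat_lit 3) (nat_lit 4) (nat_lit 1) (nat_lit 4) (nat_lit 453) (nat_lit 364) (nat_lit 203)))))) (XT.nd (nat_lit 390) (nat_lit 0) (nat_lit 0) (XT.nd (nat_lit 156) (nat_lit 0) (nat_lit 0) (XT.nd (nat_lit 78) (nat_lit 0) (nat_lit 0) (XT.lf (nat_lit 0) (nat_lit 898316811556) (nat_lit 152) (nat_lit 3371040171707) (nat_lit 0) (nat_lit 835762868453) (nat_lit 1) (nat_lit 5) (nat_lit 3) (nat_lit 4) (nat_lit 1) (nat_lit 4) (nat_lit 454) (nat_lit 364) (nat_lit 202)) (XT.lf (nat_lit 0) (nat_lit 1080349703570) (nat_lit 152) (nat_lit 3406164517983) (nat_lit 0) (nat_lit 1017795742632) (nat_lit 1) (nat_lit 5) (nat_lit 3) (nat_lit 4) (nat_lit 1) (nat_lit 4) (nat_lit 455) (nat_lit 364) (nat_lit 201))) (XT.nd (nat_lit 78) (nat_lit 0) (nat_lit 0) (XT.lf (nat_lit 0) (nat_lit 1276945163704) (nat_lit 152) (nat_lit 3444098940758) (nat_lit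 0) (nat_lit 1214391186252) (nat_lit 1) (nat_lit 5) (nat_lit 3) (nat_lit 4) (nat_lit 1) (nat_lit 4) (nat_lit 456) (nat_lit 364) (nat_lit 200)) (XT.nd (nat_lit 78) (nat_lit 0) (nat_lit 0) (XT.lf (nat_lit 0) (nat_lit 1489268202092) (nat_lit 152) (nat_lit 3485068236612) (nat_lit 0) (nat_lit 1426714209350) (nat_lit 1) (nat_lit 5) (nat_lit 3) (nat_lit 4) (nat_lit 1) (nat_lit 4) (nat_lit 457) (nat_lit 364) (nat_lit 199)) (XT.lf (nat_lit 0) (nat_lit 1718577029332) (nat_lit 152) (nat_lit 3529315186556) (nat_lit 0) (nat_lit 1656023022432) (nat_lit 1) (nat_lit 5) (nat_lit 3) (nat_lit 4) (nat_lit 1) (nat_lit 4) (nat_lit 458) (nat_lit 364) (nat_lit 198))))) (XT.nd (nat_lit 45786) (nat_lit 0) (nat_lit 4788) (XT.nd (nat_lit 78) (nat_lit 0) (nat_lit 0) (XT.lf (nat_lit 0) (nat_lit 1966230512549) (nat_lit 152) (nat_lit 3577101994740) (nat_lit 0) (nat_lit 1903676492539) (nat_lit 1) (nat_lit 5) (nat_lit 3)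 (nat_lit 4) (nat_lit 1) (nat_lit 4) (nat_lit 459) (nat_lit 364) (nat_lit 197)) (XT.nd (nat_lit 78) (nat_lit 0) (nat_lit 0) (XT.lf (nat_lit 0) (nat_lit 2233696227938) (nat_lit 152) (nat_lit 3628711842248) (nat_lit 0) (nat_lit 2171142195790) (nat_lit 1) (nat_lit 5) (nat_lit 3) (nat_lit 4) (nat_lit 1) (nat_lit 4) (nat_lit 460) (nat_lit 364) (nat_lit 196)) (XT.lf (nat_lit 0) (nat_lit 2522559157517) (nat_lit 152) (nat_lit 3684450565213) (nat_lit 0) (nat_lit 2460005114130) (nat_lit 1) (nat_lit 5) (nat_lit 3) (nat_lit 4) (nat_lit 1) (nat_lit 4) (nat_lit 461) (nat_lit 364) (nat_lit 195)))) (XT.nd (nat_lit 78) (nat_lit 0) (nat_lit 0) (XT.lf (nat_lit 0) (nat_lit 11935423104) (nat_lit 532) (nat_lit 1009483082) (nat_lit 532) (nat_lit 1009483082) (nat_lit 64) (nat_lit 3) (nat_lit 71) (nat_lit 3) (nat_lit 71) (nat_lit 5) (nat_lit 365) (nat_lit 365) (nat_lit 290)) (XT.nd (nat_lit 78) (nat_lit 0) (nat_lit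 76) (XT.lf (nat_lit 76) (nat_lit 12154057347) (nat_lit 0) (nat_lit 13042846074) (nat_lit 532) (nat_lit 3798453739) (nat_lit 65) (nat_lit 5) (nat_lit 64) (nat_lit 3) (nat_lit 71) (nat_lit 5) (nat_lit 366) (nat_lit 365) (nat_lit 289)) (XT.lf (nat_lit 0) (nat_lit 26697768643) (nat_lit 456) (nat_lit 2615367544) (nat_lit 532) (nat_lit 850235479) (nat_lit 65) (nat_lit 5) (nat_lit 71) (nat_lit 5) (nat_lit 72) (nat_lit 5) (nat_lit 367) (nat_lit 365) (nat_lit 288))))))))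
noncomputable def xc161 : XT := (XT.nd (nat_lit 1560) (nat_lit 1444) (nat_lit 0) (XT.nd (nat_lit 780) (nat_lit 988) (nat_lit 0) (XT.nd (nat_lit 390) (nat_lit 760) (nat_lit 0) (XT.nd (nat_lit 156) (nat_lit 456) (nat_lit 0) (XT.nd (nat_lit 78) (nat_lit 0) (nat_lit 0) (XT.lf (nat_lit 76) (nat_lit 13058253515) (nat_lit 0) (nat_lit 15905943531) (nat_lit 532) (nat_lit 2408997686) (nat_lit 66) (nat_lit 5) (nat_lit 65) (nat_lit 5) (nat_lit 72) (nat_lit 5) (nat_lit 368) (nat_lit 365) (nat_lit 287)) (XT.lf (nat_lit 76) (nat_lit 30129787697) (nat_lit 0) (nat_lit 1346757998) (nat_lit 532) (nat_lit 1198095872) (nat_lit 66) (nat_lit 5) (nat_lit 65) (nat_lit 5) (nat_lit 72) (nat_lit 5) (nat_lit 369) (nat_lit 365) (nat_lit 286))) (XT.nd (nat_lit 78) (nat_lit 0) (nat_lit 0) (XT.lf (nat_lit 0) (nat_lit 819602976) (nat_lit 532) (nat_lit 19164653331) (nat_lit 608) (nat_lit 14038509396) (nat_lit 59) (nat_lit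 5) (nat_lit 66) (nat_lit 5) (nat_lit 67) (nat_lit 5) (nat_lit 370) (nat_lit 365) (nat_lit 285)) (XT.nd (nat_lit 78) (nat_lit 0) (nat_lit 76) (XT.lf (nat_lit 0) (nat_lit 3034208978) (nat_lit 532) (nat_lit 1748172290) (nat_lit 608) (nat_lit 30685856472) (nat_lit 59) (nat_lit 5) (nat_lit 66) (nat_lit 5) (nat_lit 67) (nat_lit 5) (nat_lit 371) (nat_lit 365) (nat_lit 284)) (XT.lf (nat_lit 0) (nat_lit 6143185391) (nat_lit 532) (nat_lit 19331281665) (nat_lit 76) (nat_lit 11497509037) (nat_lit 60) (nat_lit 5) (nat_lit 67) (nat_lit 5) (nat_lit 61) (nat_lit 5) (nat_lit 372) (nat_lit 365) (nat_lit 283))))) (XT.nd (nat_lit 156) (nat_lit 456) (nat_lit 0) (XT.nd (nat_lit 78) (nat_lit 380) (nat_lit 0) (XT.lf (nat_lit 0) (nat_lit 9668771761) (nat_lit 532) (nat_lit 42646120) (nat_lit 76) (nat_lit 28871168642) (nat_lit 60) (nat_lit 5) (nat_lit 67) (nat_lit 5) (nat_lit 61) (nat_lit 5) (nat_lit 373) (nat_lit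 365) (nat_lit 282)) (XT.lf (nat_lit 0) (nat_lit 14187166940) (nat_lit 456) (nat_lit 18591058371) (nat_lit 76) (nat_lit 7486963561) (nat_lit 55) (nat_lit 5) (nat_lit 61) (nat_lit 5) (nat_lit 56) (nat_lit 5) (nat_lit 374) (nat_lit 365) (nat_lit 281))) (XT.nd (nat_lit 78) (nat_lit 228) (nat_lit 0) (XT.lf (nat_lit 0) (nat_lit 2938093757) (nat_lit 228) (nat_lit 16448334511) (nat_lit 304) (nat_lit 22670423314) (nat_lit 52) (nat_lit 5) (nat_lit 55) (nat_lit 5) (nat_lit 56) (nat_lit 5) (nat_lit 375) (nat_lit 365) (nat_lit 280)) (XT.nd (nat_lit 78) (nat_lit 228) (nat_lit 0) (XT.lf (nat_lit 0) (nat_lit 25547231559) (nat_lit 304) (nat_lit 16751289075) (nat_lit 76) (nat_lit 1649682048) (nat_lit 52) (nat_lit 5) (nat_lit 56) (nat_lit 5) (nat_lit 53) (nat_lit 5) (nat_lit 376) (nat_lit 365) (nat_lit 279)) (XT.lf (nat_lit 0) (nat_lit 7340745122) (nat_lit 228) (nat_lit 25459776228) (nat_lit 304) (nat_lit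 13142373946) (nat_lit 49) (nat_lit 5) (nat_lit 52) (nat_lit 5) (nat_lit 53) (nat_lit 5) (nat_lit 377) (nat_lit 365) (nat_lit 278)))))) (XT.nd (nat_lit 390) (nat_lit 532) (nat_lit 0) (XT.nd (nat_lit 156) (nat_lit 228) (nat_lit 0) (XT.nd (nat_lit 78) (nat_lit 228) (nat_lit 0) (XT.lf (nat_lit 0) (nat_lit 34308108257) (nat_lit 228) (nat_lit 6780018346) (nat_lit 304) (nat_lit 6972715498) (nat_lit 49) (nat_lit 5) (nat_lit 52) (nat_lit 5) (nat_lit 53) (nat_lit 5) (nat_lit 378) (nat_lit 365) (nat_lit 277)) (XT.lf (nat_lit 0) (nat_lit 364087592) (nat_lit 228) (nat_lit 36876442167) (nat_lit 76) (nat_lit 13055645660) (nat_lit 46) (nat_lit 5) (nat_lit 49) (nat_lit 5) (nat_lit 47) (nat_lit 5) (nat_lit 379) (nat_lit 365) (nat_lit 276))) (XT.nd (nat_lit 78) (nat_lit 228) (nat_lit 0) (XT.lf (nat_lit 0) (nat_lit 8469412092) (nat_lit 228) (nat_lit 9503807888) (nat_lit 76) (nat_lit 34677966224) (nat_lit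 46) (nat_lit 5) (nat_lit 49) (nat_lit 5) (nat_lit 47) (nat_lit 5) (nat_lit 380) (nat_lit 365) (nat_lit 275)) (XT.nd (nat_lit 78) (nat_lit 0) (nat_lit 0) (XT.lf (nat_lit 0) (nat_lit 17808878974) (nat_lit 304) (nat_lit 34125300359) (nat_lit 76) (nat_lit 3213563385) (nat_lit 43) (nat_lit 5) (nat_lit 47) (nat_lit 5) (nat_lit 44) (nat_lit 5) (nat_lit 381) (nat_lit 365) (nat_lit 274)) (XT.lf (nat_lit 0) (nat_lit 28625717849) (nat_lit 304) (nat_lit 3770015087) (nat_lit 76) (nat_lit 25389875664) (nat_lit 43) (nat_lit 5) (nat_lit 47) (nat_lit 5) (nat_lit 44) (nat_lit 5) (nat_lit 382) (nat_lit 365) (nat_lit 273))))) (XT.nd (nat_lit 156) (nat_lit 228) (nat_lit 0) (XT.nd (nat_lit 78) (nat_lit 152) (nat_lit 0) (XT.lf (nat_lit 0) (nat_lit 30537140216) (nat_lit 152) (nat_lit 10502198716) (nat_lit 228) (nat_lit 19536651882) (nat_lit 41) (nat_lit 5) (nat_lit 43) (nat_lit 5) (nat_lit 44) (nat_lit 5) (nat_lit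 383) (nat_lit 365) (nat_lit 272)) (XT.lf (nat_lit 0) (nat_lit 4104220547) (nat_lit 152) (nat_lit 50859488782) (nat_lit 228) (nat_lit 8584483237) (nat_lit 39) (nat_lit 5) (nat_lit 41) (nat_lit 5) (nat_lit 42) (nat_lit 5) (nat_lit 384) (nat_lit 365) (nat_lit 271))) (XT.nd (nat_lit 78) (nat_lit 152) (nat_lit 0) (XT.lf (nat_lit 0) (nat_lit 4194173215) (nat_lit 228) (nat_lit 24381809435) (nat_lit 76) (nat_lit 38086941278) (nat_lit 38) (nat_lit 5) (nat_lit 41) (nat_lit 5) (nat_lit 39) (nat_lit 5) (nat_lit 385) (nat_lit 365) (nat_lit 270)) (XT.nd (nat_lit 78) (nat_lit 0) (nat_lit 0) (XT.lf (nat_lit 0) (nat_lit 13956547531) (nat_lit 152) (nat_lit 3907808424) (nat_lit 228) (nat_lit 52117999825) (nat_lit 36) (nat_lit 5) (nat_lit 38) (nat_lit 5) (nat_lit 39) (nat_lit 5) (nat_lit 386) (nat_lit 365) (nat_lit 269)) (XT.lf (nat_lit 0) (nat_lit 33856293222) (nat_lit 228) (nat_lit 17333526496) (nat_lit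 76) (nat_lit 22279272540) (nat_lit 36) (nat_lit 5) (nat_lit 39) (nat_lit 5) (nat_lit 37) (nat_lit 5) (nat_lit 387) (nat_lit 365) (nat_lit 268))))))) (XT.nd (nat_lit 780) (nat_lit 608) (nat_lit 0) (XT.nd (nat_lit 390) (nat_lit 380) (nat_lit 0) (XT.nd (nat_lit 156) (nat_lit 304) (nat_lit 0) (XT.nd (nat_lit 78) (nat_lit 0) (nat_lit 0) (XT.lf (nat_lit 0) (nat_lit 25631065669) (nat_lit 152) (nat_lit 26212072901) (nat_lit 228) (nat_lit 25334386015) (nat_lit 34) (nat_lit 5) (nat_lit 36) (nat_lit 5) (nat_lit 37) (nat_lit 5) (nat_lit 388) (nat_lit 365) (nat_lit 267)) (XT.lf (nat_lit 0) (nat_lit 71771221908) (nat_lit 228) (nat_lit 8160597536) (nat_lit 76) (nat_lit 1210629914) (nat_lit 34) (nat_lit 5) (nat_lit 37) (nat_lit 5) (nat_lit 35) (nat_lit 4) (nat_lit 389) (nat_lit 365) (nat_lit 266))) (XT.nd (nat_lit 78) (nat_lit 152) (nat_lit 0) (XT.lf (nat_lit 0) (nat_lit 9158976095) (nat_lit 152) (nat_lit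 45511744246) (nat_lit 76) (nat_lit 30604018310) (nat_lit 32) (nat_lit 5) (nat_lit 34) (nat_lit 5) (nat_lit 33) (nat_lit 5) (nat_lit 390) (nat_lit 365) (nat_lit 265)) (XT.nd (nat_lit 78) (nat_lit 0) (nat_lit 0) (XT.lf (nat_lit 0) (nat_lit 2118021426) (nat_lit 152) (nat_lit 26825017374) (nat_lit 228) (nat_lit 60752881866) (nat_lit 30) (nat_lit 5) (nat_lit 32) (nat_lit 5) (nat_lit 33) (nat_lit 5) (nat_lit 391) (nat_lit 365) (nat_lit 264)) (XT.lf (nat_lit 0) (nat_lit 51662556675) (nat_lit 228) (nat_lit 38338811362) (nat_lit 76) (nat_lit 4361211595) (nat_lit 30) (nat_lit 5) (nat_lit 33) (nat_lit 5) (nat_lit 31) (nat_lit 4) (nat_lit 392) (nat_lit 365) (nat_lit 263))))) (XT.nd (nat_lit 156) (nat_lit 228) (nat_lit 0) (XT.nd (nat_lit 78) (nat_lit 76) (nat_lit 0) (XT.lf (nat_lit 0) (nat_lit 14883886004) (nat_lit 76) (nat_lit 62368530349) (nat_lit 152) (nat_lit 22065933276) (nat_lit 29) (nat_lit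 5) (nat_lit 30) (nat_lit 5) (nat_lit 31) (nat_lit 4) (nat_lit 393) (nat_lit 365) (nat_lit 262)) (XT.lf (nat_lit 0) (nat_lit 1281497539) (nat_lit 152) (nat_lit 30077784887) (nat_lit 76) (nat_lit 73224993230) (nat_lit 28) (nat_lit 5) (nat_lit 30) (nat_lit 5) (nat_lit 29) (nat_lit 5) (nat_lit 394) (nat_lit 365) (nat_lit 261))) (XT.nd (nat_lit 78) (nat_lit 76) (nat_lit 0) (XT.lf (nat_lit 0) (nat_lit 26097517498) (nat_lit 228) (nat_lit 80725171860) (nat_lit 76) (nat_lit 3339501449) (nat_lit 26) (nat_lit 5) (nat_lit 29) (nat_lit 5) (nat_lit 27) (nat_lit 4) (nat_lit 395) (nat_lit 365) (nat_lit 260)) (XT.nd (nat_lit 78) (nat_lit 76) (nat_lit 0) (XT.lf (nat_lit 0) (nat_lit 54555341087) (nat_lit 228) (nat_lit 21535993830) (nat_lit 76) (nat_lit 39962483036) (nat_lit 26) (nat_lit 5) (nat_lit 29) (nat_lit 5) (nat_lit 27) (nat_lit 4) (nat_lit 396) (nat_lit 365) (nat_lit 259)) (XT.lf (nat_lit 0) (nat_lit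 44617375946) (nat_lit 76) (nat_lit 41743847618) (nat_lit 152) (nat_lit 35969837572) (nat_lit 25) (nat_lit 5) (nat_lit 26) (nat_lit 5) (nat_lit 27) (nat_lit 4) (nat_lit 397) (nat_lit 365) (nat_lit 258)))))) (XT.nd (nat_lit 390) (nat_lit 304) (nat_lit 0) (XT.nd (nat_lit 156) (nat_lit 152) (nat_lit 0) (XT.nd (nat_lit 78) (nat_lit 152) (nat_lit 0) (XT.lf (nat_lit 0) (nat_lit 117284975038) (nat_lit 76) (nat_lit 4013869962) (nat_lit 152) (nat_lit 7764657773) (nat_lit 25) (nat_lit 5) (nat_lit 26) (nat_lit 5) (nat_lit 27) (nat_lit 4) (nat_lit 398) (nat_lit 365) (nat_lit 257)) (XT.lf (nat_lit 0) (nat_lit 23987098838) (nat_lit 152) (nat_lit 75124500624) (nat_lit 76) (nat_lit 36985227322) (nat_lit 23) (nat_lit 5) (nat_lit 25) (nat_lit 5) (nat_lit 24) (nat_lit 4) (nat_lit 399) (nat_lit 365) (nat_lit 256))) (XT.nd (nat_lit 78) (nat_lit 152) (nat_lit 0) (XT.lf (nat_lit 0) (nat_lit 58292702691) (nat_lit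 152) (nat_lit 3770951039) (nat_lit 76) (nat_lit 81578373010) (nat_lit 23) (nat_lit 5) (nat_lit 25) (nat_lit 5) (nat_lit 24) (nat_lit 4) (nat_lit 400) (nat_lit 365) (nat_lit 255)) (XT.nd (nat_lit 78) (nat_lit 76) (nat_lit 0) (XT.lf (nat_lit 0) (nat_lit 77147617827) (nat_lit 76) (nat_lit 20049180664) (nat_lit 152) (nat_lit 54445721053) (nat_lit 22) (nat_lit 5) (nat_lit 23) (nat_lit 5) (nat_lit 24) (nat_lit 4) (nat_lit 401) (nat_lit 365) (nat_lit 254)) (XT.lf (nat_lit 0) (nat_lit 4068555641) (nat_lit 76) (nat_lit 135956056043) (nat_lit 76) (nat_lit 20193529229) (nat_lit 21) (nat_lit 4) (nat_lit 22) (nat_lit 5) (nat_lit 22) (nat_lit 4) (nat_lit 402) (nat_lit 365) (nat_lit 253))))) (XT.nd (nat_lit 234) (nat_lit 152) (nat_lit 0) (XT.nd (nat_lit 78) (nat_lit 76) (nat_lit 0) (XT.lf (nat_lit 0) (nat_lit 18567640096) (nat_lit 152) (nat_lit 77143383703) (nat_lit 76) (nat_lit 73527735625) (nat_lit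 20) (nat_lit 5) (nat_lit 22) (nat_lit 5) (nat_lit 21) (nat_lit 4) (nat_lit 403) (nat_lit 365) (nat_lit 252)) (XT.nd (nat_lit 78) (nat_lit 0) (nat_lit 0) (XT.lf (nat_lit 0) (nat_lit 8059646509) (nat_lit 76) (nat_lit 51471678112) (nat_lit 152) (nat_lit 119392334726) (nat_lit 19) (nat_lit 5) (nat_lit 20) (nat_lit 5) (nat_lit 21) (nat_lit 4) (nat_lit 404) (nat_lit 365) (nat_lit 251)) (XT.lf (nat_lit 0) (nat_lit 104463854486) (nat_lit 76) (nat_lit 1416285224) (nat_lit 152) (nat_lit 83334568925) (nat_lit 19) (nat_lit 5) (nat_lit 20) (nat_lit 5) (nat_lit 21) (nat_lit 4) (nat_lit 405) (nat_lit 365) (nat_lit 250)))) (XT.nd (nat_lit 78) (nat_lit 76) (nat_lit 0) (XT.lf (nat_lit 0) (nat_lit 7350823020) (nat_lit 76) (nat_lit 150027766817) (nat_lit 76) (nat_lit 42835113860) (nat_lit 18) (nat_lit 4) (nat_lit 19) (nat_lit 5) (nat_lit 19) (nat_lit 4) (nat_lit 406) (nat_lit 365) (nat_lit 249)) (XT.nd (nat_lit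 78) (nat_lit 0) (nat_lit 0) (XT.lf (nat_lit 0) (nat_lit 3272142506) (nat_lit 152) (nat_lit 100387650283) (nat_lit 76) (nat_lit 108238039367) (nat_lit 17) (nat_lit 5) (nat_lit 19) (nat_lit 5) (nat_lit 18) (nat_lit 4) (nat_lit 407) (nat_lit 365) (nat_lit 248)) (XT.lf (nat_lit 0) (nat_lit 50752722798) (nat_lit 152) (nat_lit 1629018960) (nat_lit 76) (nat_lit 172046025104) (nat_lit 17) (nat_lit 5) (nat_lit 19) (nat_lit 5) (nat_lit 18) (nat_lit 4) (nat_lit 408) (nat_lit 365) (nat_lit 247))))))))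
noncomputable def xc162 : XT := (XT.nd (nat_lit 1560) (nat_lit 380) (nat_lit 0) (XT.nd (nat_lit 780) (nat_lit 304) (nat_lit 0) (XT.nd (nat_lit 390) (nat_lit 228) (nat_lit 0) (XT.nd (nat_lit 156) (nat_lit 228) (nat_lit 0) (XT.nd (nat_lit 78) (nat_lit 0) (nat_lit 0) (XT.lf (nat_lit 0) (nat_lit 104830884293) (nat_lit 152) (nat_lit 127329569167) (nat_lit 0) (nat_lit 5575712262) (nat_lit 16) (nat_lit 5) (nat_lit 18) (nat_lit 4) (nat_lit 16) (nat_lit 4) (nat_lit 409) (nat_lit 365) (nat_lit 246)) (XT.lf (nat_lit 0) (nat_lit 164640597328) (nat_lit 152) (nat_lit 21971564653) (nat_lit 0) (nat_lit 65384650767) (nat_lit 16) (nat_lit 5) (nat_lit 18) (nat_lit 4) (nat_lit 16) (nat_lit 4) (nat_lit 410) (nat_lit 365) (nat_lit 245))) (XT.nd (nat_lit 78) (nat_lit 152) (nat_lit 0) (XT.lf (nat_lit 0) (nat_lit 96648072264) (nat_lit 76) (nat_lit 134910511701) (nat_lit 76) (nat_lit 35653847982) (nat_lit 15) (nat_lit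 4) (nat_lit 16) (nat_lit 5) (nat_lit 16) (nat_lit 4) (nat_lit 411) (nat_lit 365) (nat_lit 244)) (XT.nd (nat_lit 78) (nat_lit 76) (nat_lit 0) (XT.lf (nat_lit 0) (nat_lit 19790443998) (nat_lit 152) (nat_lit 58093204235) (nat_lit 76) (nat_lit 205673580666) (nat_lit 14) (nat_lit 5) (nat_lit 16) (nat_lit 5) (nat_lit 15) (nat_lit 4) (nat_lit 412) (nat_lit 365) (nat_lit 243)) (XT.lf (nat_lit 0) (nat_lit 65736358418) (nat_lit 76) (nat_lit 13587824763) (nat_lit 152) (nat_lit 221684929600) (nat_lit 13) (nat_lit 5) (nat_lit 14) (nat_lit 5) (nat_lit 15) (nat_lit 4) (nat_lit 413) (nat_lit 365) (nat_lit 242))))) (XT.nd (nat_lit 156) (nat_lit 152) (nat_lit 0) (XT.nd (nat_lit 78) (nat_lit 76) (nat_lit 0) (XT.lf (nat_lit 0) (nat_lit 146592664369) (nat_lit 152) (nat_lit 118340084845) (nat_lit 0) (nat_lit 54686634830) (nat_lit 13) (nat_lit 5) (nat_lit 15) (nat_lit 4) (nat_lit 13) (nat_lit 4) (nat_lit 414)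 (nat_lit 365) (nat_lit 241)) (XT.lf (nat_lit 0) (nat_lit 7992594308) (nat_lit 76) (nat_lit 211794424422) (nat_lit 76) (nat_lit 119887906797) (nat_lit 12) (nat_lit 4) (nat_lit 13) (nat_lit 5) (nat_lit 13) (nat_lit 4) (nat_lit 415) (nat_lit 365) (nat_lit 240))) (XT.nd (nat_lit 78) (nat_lit 152) (nat_lit 0) (XT.lf (nat_lit 0) (nat_lit 151160535786) (nat_lit 76) (nat_lit 150911276460) (nat_lit 76) (nat_lit 59004306904) (nat_lit 12) (nat_lit 4) (nat_lit 13) (nat_lit 5) (nat_lit 13) (nat_lit 4) (nat_lit 416) (nat_lit 365) (nat_lit 239)) (XT.nd (nat_lit 78) (nat_lit 76) (nat_lit 0) (XT.lf (nat_lit 0) (nat_lit 6411619546) (nat_lit 152) (nat_lit 78571219353) (nat_lit 76) (nat_lit 299193638464) (nat_lit 11) (nat_lit 5) (nat_lit 13) (nat_lit 5) (nat_lit 12) (nat_lit 4) (nat_lit 417) (nat_lit 365) (nat_lit 238)) (XT.lf (nat_lit 0) (nat_lit 64998309286) (nat_lit 76) (nat_lit 10437308383) (nat_lit 152)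 (nat_lit 333441635264) (nat_lit 10) (nat_lit 5) (nat_lit 11) (nat_lit 5) (nat_lit 12) (nat_lit 4) (nat_lit 418) (nat_lit 365) (nat_lit 237)))))) (XT.nd (nat_lit 390) (nat_lit 228) (nat_lit 0) (XT.nd (nat_lit 156) (nat_lit 76) (nat_lit 0) (XT.nd (nat_lit 78) (nat_lit 0) (nat_lit 0) (XT.lf (nat_lit 0) (nat_lit 153870196231) (nat_lit 152) (nat_lit 212602729587) (nat_lit 0) (nat_lit 68770071948) (nat_lit 10) (nat_lit 5) (nat_lit 12) (nat_lit 4) (nat_lit 10) (nat_lit 4) (nat_lit 419) (nat_lit 365) (nat_lit 236)) (XT.lf (nat_lit 0) (nat_lit 238850042582) (nat_lit 152) (nat_lit 71096708817) (nat_lit 0) (nat_lit 153749610723) (nat_lit 10) (nat_lit 5) (nat_lit 12) (nat_lit 4) (nat_lit 10) (nat_lit 4) (nat_lit 420) (nat_lit 365) (nat_lit 235))) (XT.nd (nat_lit 78) (nat_lit 0) (nat_lit 0) (XT.lf (nat_lit 0) (nat_lit 86032378377) (nat_lit 76) (nat_lit 246664425874) (nat_lit 76) (nat_lit 161563709222)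 (nat_lit 9) (nat_lit 4) (nat_lit 10) (nat_lit 5) (nat_lit 10) (nat_lit 4) (nat_lit 421) (nat_lit 365) (nat_lit 234)) (XT.nd (nat_lit 78) (nat_lit 0) (nat_lit 0) (XT.lf (nat_lit 0) (nat_lit 259774050068) (nat_lit 76) (nat_lit 176220628753) (nat_lit 76) (nat_lit 91119648404) (nat_lit 9) (nat_lit 4) (nat_lit 10) (nat_lit 5) (nat_lit 10) (nat_lit 4) (nat_lit 422) (nat_lit 365) (nat_lit 233)) (XT.lf (nat_lit 0) (nat_lit 447414059839) (nat_lit 76) (nat_lit 100141825326) (nat_lit 76) (nat_lit 15040600813) (nat_lit 9) (nat_lit 4) (nat_lit 10) (nat_lit 5) (nat_lit 10) (nat_lit 4) (nat_lit 423) (nat_lit 365) (nat_lit 232))))) (XT.nd (nat_lit 156) (nat_lit 76) (nat_lit 0) (XT.nd (nat_lit 78) (nat_lit 0) (nat_lit 0) (XT.lf (nat_lit 0) (nat_lit 50035744322) (nat_lit 76) (nat_lit 14934060924) (nat_lit 152) (nat_lit 535722033035) (nat_lit 7) (nat_lit 5) (nat_lit 8) (nat_lit 5) (nat_lit 9) (nat_lit 4)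 (nat_lit 424) (nat_lit 365) (nat_lit 231)) (XT.lf (nat_lit 0) (nat_lit 155653104712) (nat_lit 152) (nat_lit 408888417925) (nat_lit 0) (nat_lit 76855271450) (nat_lit 7) (nat_lit 5) (nat_lit 9) (nat_lit 4) (nat_lit 7) (nat_lit 4) (nat_lit 425) (nat_lit 365) (nat_lit 230))) (XT.nd (nat_lit 78) (nat_lit 76) (nat_lit 0) (XT.lf (nat_lit 0) (nat_lit 253978529183) (nat_lit 152) (nat_lit 256168103869) (nat_lit 0) (nat_lit 175180516453) (nat_lit 7) (nat_lit 5) (nat_lit 9) (nat_lit 4) (nat_lit 7) (nat_lit 4) (nat_lit 426) (nat_lit 365) (nat_lit 229)) (XT.nd (nat_lit 78) (nat_lit 76) (nat_lit 0) (XT.lf (nat_lit 0) (nat_lit 360169583319) (nat_lit 152) (nat_lit 91230977999) (nat_lit 0) (nat_lit 281371404415) (nat_lit 7) (nat_lit 5) (nat_lit 9) (nat_lit 4) (nat_lit 7) (nat_lit 4) (nat_lit 427) (nat_lit 365) (nat_lit 228)) (XT.lf (nat_lit 0) (nat_lit 91476384087) (nat_lit 76) (nat_lit 385579172590) (nat_lit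 76) (nat_lit 306780839821) (nat_lit 6) (nat_lit 4) (nat_lit 7) (nat_lit 5) (nat_lit 7) (nat_lit 4) (nat_lit 428) (nat_lit 365) (nat_lit 227))))))) (XT.nd (nat_lit 780) (nat_lit 228) (nat_lit 0) (XT.nd (nat_lit 390) (nat_lit 0) (nat_lit 0) (XT.nd (nat_lit 156) (nat_lit 152) (nat_lit 0) (XT.nd (nat_lit 78) (nat_lit 0) (nat_lit 0) (XT.lf (nat_lit 0) (nat_lit 293987987698) (nat_lit 76) (nat_lit 311798472551) (nat_lit 76) (nat_lit 232999997315) (nat_lit 6) (nat_lit 4) (nat_lit 7) (nat_lit 5) (nat_lit 7) (nat_lit 4) (nat_lit 429) (nat_lit 365) (nat_lit 226)) (XT.lf (nat_lit 0) (nat_lit 512699839968) (nat_lit 76) (nat_lit 232115658852) (nat_lit 76) (nat_lit 153317051702) (nat_lit 6) (nat_lit 4) (nat_lit 7) (nat_lit 5) (nat_lit 7) (nat_lit 4) (nat_lit 430) (nat_lit 365) (nat_lit 225))) (XT.nd (nat_lit 78) (nat_lit 152) (nat_lit 0) (XT.lf (nat_lit 0) (nat_lit 748908011133) (nat_lit 76) (nat_lit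 146058537042) (nat_lit 76) (nat_lit 67259807749) (nat_lit 6) (nat_lit 4) (nat_lit 7) (nat_lit 5) (nat_lit 7) (nat_lit 4) (nat_lit 431) (nat_lit 365) (nat_lit 224)) (XT.nd (nat_lit 78) (nat_lit 76) (nat_lit 0) (XT.lf (nat_lit 0) (nat_lit 24397000580) (nat_lit 152) (nat_lit 28053081181) (nat_lit 76) (nat_lit 978948195506) (nat_lit 5) (nat_lit 5) (nat_lit 7) (nat_lit 5) (nat_lit 6) (nat_lit 4) (nat_lit 432) (nat_lit 365) (nat_lit 223)) (XT.lf (nat_lit 0) (nat_lit 125390643934) (nat_lit 152) (nat_lit 927693846532) (nat_lit 0) (nat_lit 52428655872) (nat_lit 4) (nat_lit 5) (nat_lit 6) (nat_lit 4) (nat_lit 4) (nat_lit 4) (nat_lit 433) (nat_lit 365) (nat_lit 222))))) (XT.nd (nat_lit 156) (nat_lit 0) (nat_lit 0) (XT.nd (nat_lit 78) (nat_lit 0) (nat_lit 0) (XT.lf (nat_lit 0) (nat_lit 236612788203) (nat_lit 152) (nat_lit 785121785629) (nat_lit 0) (nat_lit 163650710363) (nat_lit 4) (nat_lit 5) (nat_lit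 6) (nat_lit 4) (nat_lit 4) (nat_lit 4) (nat_lit 434) (nat_lit 365) (nat_lit 221)) (XT.lf (nat_lit 0) (nat_lit 356732450388) (nat_lit 152) (nat_lit 631144473578) (nat_lit 0) (nat_lit 283770289420) (nat_lit 4) (nat_lit 5) (nat_lit 6) (nat_lit 4) (nat_lit 4) (nat_lit 4) (nat_lit 435) (nat_lit 365) (nat_lit 220))) (XT.nd (nat_lit 78) (nat_lit 0) (nat_lit 0) (XT.lf (nat_lit 0) (nat_lit 486461450711) (nat_lit 152) (nat_lit 464849452233) (nat_lit 0) (nat_lit 413499212772) (nat_lit 4) (nat_lit 5) (nat_lit 6) (nat_lit 4) (nat_lit 4) (nat_lit 4) (nat_lit 436) (nat_lit 365) (nat_lit 219)) (XT.nd (nat_lit 78) (nat_lit 0) (nat_lit 0) (XT.lf (nat_lit 0) (nat_lit 626568553617) (nat_lit 152) (nat_lit 285251269614) (nat_lit 0) (nat_lit 553606244409) (nat_lit 4) (nat_lit 5) (nat_lit 6) (nat_lit 4) (nat_lit 4) (nat_lit 4) (nat_lit 437) (nat_lit 365) (nat_lit 218)) (XT.lf (nat_lit 0) (nat_lit 777884023420)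 (nat_lit 152) (nat_lit 91285640197) (nat_lit 0) (nat_lit 704921648221) (nat_lit 4) (nat_lit 5) (nat_lit 6) (nat_lit 4) (nat_lit 4) (nat_lit 4) (nat_lit 438) (nat_lit 365) (nat_lit 217)))))) (XT.nd (nat_lit 390) (nat_lit 152) (nat_lit 0) (XT.nd (nat_lit 156) (nat_lit 0) (nat_lit 0) (XT.nd (nat_lit 78) (nat_lit 0) (nat_lit 0) (XT.lf (nat_lit 0) (nat_lit 124420899260) (nat_lit 76) (nat_lit 819875970743) (nat_lit 76) (nat_lit 746913534443) (nat_lit 3) (nat_lit 4) (nat_lit 4) (nat_lit 5) (nat_lit 4) (nat_lit 4) (nat_lit 439) (nat_lit 365) (nat_lit 216)) (XT.lf (nat_lit 0) (nat_lit 362575089076) (nat_lit 76) (nat_lit 763943384949) (nat_lit 76) (nat_lit 690980892073) (nat_lit 3) (nat_lit 4) (nat_lit 4) (nat_lit 5) (nat_lit 4) (nat_lit 4) (nat_lit 440) (nat_lit 365) (nat_lit 215))) (XT.nd (nat_lit 78) (nat_lit 0) (nat_lit 0) (XT.lf (nat_lit 0) (nat_lit 619781273297) (nat_lit 76) (nat_lit 703536365049)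 (nat_lit 76) (nat_lit 630573819788) (nat_lit 3) (nat_lit 4) (nat_lit 4) (nat_lit 5) (nat_lit 4) (nat_lit 4) (nat_lit 441) (nat_lit 365) (nat_lit 214)) (XT.nd (nat_lit 78) (nat_lit 0) (nat_lit 0) (XT.lf (nat_lit 0) (nat_lit 897563636719) (nat_lit 76) (nat_lit 638296943518) (nat_lit 76) (nat_lit 565334349752) (nat_lit 3) (nat_lit 4) (nat_lit 4) (nat_lit 5) (nat_lit 4) (nat_lit 4) (nat_lit 442) (nat_lit 365) (nat_lit 213)) (XT.lf (nat_lit 0) (nat_lit 1197568297051) (nat_lit 76) (nat_lit 567838516375) (nat_lit 76) (nat_lit 494875877698) (nat_lit 3) (nat_lit 4) (nat_lit 4) (nat_lit 5) (nat_lit 4) (nat_lit 4) (nat_lit 443) (nat_lit 365) (nat_lit 212))))) (XT.nd (nat_lit 234) (nat_lit 152) (nat_lit 0) (XT.nd (nat_lit 78) (nat_lit 0) (nat_lit 0) (XT.lf (nat_lit 0) (nat_lit 1521573059687) (nat_lit 76) (nat_lit 491743552202) (nat_lit 76) (nat_lit 418780871940) (nat_lit 3) (nat_lit 4) (nat_lit 4)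 (nat_lit 5) (nat_lit 4) (nat_lit 4) (nat_lit 444) (nat_lit 365) (nat_lit 211)) (XT.nd (nat_lit 78) (nat_lit 0) (nat_lit 0) (XT.lf (nat_lit 0) (nat_lit 1871497952850) (nat_lit 76) (nat_lit 409561117876) (nat_lit 76) (nat_lit 336598399110) (nat_lit 3) (nat_lit 4) (nat_lit 4) (nat_lit 5) (nat_lit 4) (nat_lit 4) (nat_lit 445) (nat_lit 365) (nat_lit 210)) (XT.lf (nat_lit 0) (nat_lit 2249416605537) (nat_lit 76) (nat_lit 320804206381) (nat_lit 76) (nat_lit 247841451962) (nat_lit 3) (nat_lit 4) (nat_lit 4) (nat_lit 5) (nat_lit 4) (nat_lit 4) (nat_lit 446) (nat_lit 365) (nat_lit 209)))) (XT.nd (nat_lit 78) (nat_lit 152) (nat_lit 0) (XT.lf (nat_lit 0) (nat_lit 2657568535691) (nat_lit 76) (nat_lit 224946850832) (nat_lit 76) (nat_lit 151984063402) (nat_lit 3) (nat_lit 4) (nat_lit 4) (nat_lit 5) (nat_lit 4) (nat_lit 4) (nat_lit 447) (nat_lit 365) (nat_lit 208)) (XT.nd (nat_lit 78) (nat_lit 152) (nat_lit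 0) (XT.lf (nat_lit 0) (nat_lit 3098372421414) (nat_lit 76) (nat_lit 121421007642) (nat_lit 76) (nat_lit 48458189645) (nat_lit 3) (nat_lit 4) (nat_lit 4) (nat_lit 5) (nat_lit 4) (nat_lit 4) (nat_lit 448) (nat_lit 365) (nat_lit 207)) (XT.lf (nat_lit 0) (nat_lit 54962343926) (nat_lit 76) (nat_lit 6540151373) (nat_lit 152) (nat_lit 3458973840432) (nat_lit 1) (nat_lit 5) (nat_lit 2) (nat_lit 5) (nat_lit 3) (nat_lit 4) (nat_lit 449) (nat_lit 365) (nat_lit 206))))))))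
noncomputable def xc163 : XT := (XT.nd (nat_lit 47346) (nat_lit 0) (nat_lit 1900) (XT.nd (nat_lit 780) (nat_lit 0) (nat_lit 0) (XT.nd (nat_lit 390) (nat_lit 0) (nat_lit 0) (XT.nd (nat_lit 156) (nat_lit 0) (nat_lit 0) (XT.nd (nat_lit 78) (nat_lit 0) (nat_lit 0) (XT.lf (nat_lit 0) (nat_lit 185234011189) (nat_lit 152) (nat_lit 3489261172528) (nat_lit 0) (nat_lit 117675795907) (nat_lit 1) (nat_lit 5) (nat_lit 3) (nat_lit 4) (nat_lit 1) (nat_lit 4) (nat_lit 450) (nat_lit 365) (nat_lit 205)) (XT.lf (nat_lit 0) (nat_lit 319033836371) (nat_lit 152) (nat_lit 3515078176997) (nat_lit 0) (nat_lit 251475598623) (nat_lit 1) (nat_lit 5) (nat_lit 3) (nat_lit 4) (nat_lit 1) (nat_lit 4) (nat_lit 451) (nat_lit 365) (nat_lit 204))) (XT.nd (nat_lit 78) (nat_lit 0) (nat_lit 0) (XT.lf (nat_lit 0) (nat_lit 463537567903) (nat_lit 152) (nat_lit 3542960704070) (nat_lit 0) (nat_lit 395979309351) (nat_lit 1) (nat_lit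 5) (nat_lit 3) (nat_lit 4) (nat_lit 1) (nat_lit 4) (nat_lit 452) (nat_lit 365) (nat_lit 203)) (XT.nd (nat_lit 78) (nat_lit 0) (nat_lit 0) (XT.lf (nat_lit 0) (nat_lit 619601524192) (nat_lit 152) (nat_lit 3573073983538) (nat_lit 0) (nat_lit 552043246379) (nat_lit 1) (nat_lit 5) (nat_lit 3) (nat_lit 4) (nat_lit 1) (nat_lit 4) (nat_lit 453) (nat_lit 365) (nat_lit 202)) (XT.lf (nat_lit 0) (nat_lit 788150528684) (nat_lit 152) (nat_lit 3605596464465) (nat_lit 0) (nat_lit 720592233036) (nat_lit 1) (nat_lit 5) (nat_lit 3) (nat_lit 4) (nat_lit 1) (nat_lit 4) (nat_lit 454) (nat_lit 365) (nat_lit 201))))) (XT.nd (nat_lit 156) (nat_lit 0) (nat_lit 0) (XT.nd (nat_lit 78) (nat_lit 0) (nat_lit 0) (XT.lf (nat_lit 0) (nat_lit 970183390294) (nat_lit 152) (nat_lit 3640720872662) (nat_lit 0) (nat_lit 902625078131) (nat_lit 1) (nat_lit 5) (nat_lit 3) (nat_lit 4) (nat_lit 1) (nat_lit 4) (nat_lit 455) (nat_lit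 365) (nat_lit 200)) (XT.lf (nat_lit 0) (nat_lit 1166778822275) (nat_lit 152) (nat_lit 3678655352772) (nat_lit 0) (nat_lit 1099220494823) (nat_lit 1) (nat_lit 5) (nat_lit 3) (nat_lit 4) (nat_lit 1) (nat_lit 4) (nat_lit 456) (nat_lit 365) (nat_lit 199))) (XT.nd (nat_lit 78) (nat_lit 0) (nat_lit 0) (XT.lf (nat_lit 0) (nat_lit 1379101834597) (nat_lit 152) (nat_lit 3719624701713) (nat_lit 0) (nat_lit 1311543492986) (nat_lit 1) (nat_lit 5) (nat_lit 3) (nat_lit 4) (nat_lit 1) (nat_lit 4) (nat_lit 457) (nat_lit 365) (nat_lit 198)) (XT.nd (nat_lit 78) (nat_lit 0) (nat_lit 0) (XT.lf (nat_lit 0) (nat_lit 1608410637701) (nat_lit 152) (nat_lit 3763871700814) (nat_lit 0) (nat_lit 1540852282980) (nat_lit 1) (nat_lit 5) (nat_lit 3) (nat_lit 4) (nat_lit 1) (nat_lit 4) (nat_lit 458) (nat_lit 365) (nat_lit 197)) (XT.lf (nat_lit 0) (nat_lit 1856064098569) (nat_lit 152) (nat_lit 3811658554511) (nat_lit 0)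 (nat_lit 1788505731710) (nat_lit 1) (nat_lit 5) (nat_lit 3) (nat_lit 4) (nat_lit 1) (nat_lit 4) (nat_lit 459) (nat_lit 365) (nat_lit 196)))))) (XT.nd (nat_lit 46098) (nat_lit 0) (nat_lit 4104) (XT.nd (nat_lit 45864) (nat_lit 0) (nat_lit 4788) (XT.nd (nat_lit 45786) (nat_lit 0) (nat_lit 4788) (XT.lf (nat_lit 0) (nat_lit 2123529793265) (nat_lit 152) (nat_lit 3863268444162) (nat_lit 0) (nat_lit 2055971415168) (nat_lit 1) (nat_lit 5) (nat_lit 3) (nat_lit 4) (nat_lit 1) (nat_lit 4) (nat_lit 460) (nat_lit 365) (nat_lit 195)) (XT.lf (nat_lit 0) (nat_lit 12967276966) (nat_lit 532) (nat_lit 1048614494) (nat_lit 532) (nat_lit 1048614494) (nat_lit 64) (nat_lit 3) (nat_lit 71) (nat_lit 3) (nat_lit 71) (nat_lit 5) (nat_lit 366) (nat_lit 366) (nat_lit 288))) (XT.nd (nat_lit 78) (nat_lit 0) (nat_lit 76) (XT.lf (nat_lit 76) (nat_lit 13207528695) (nat_lit 0) (nat_lit 14149708235) (nat_lit 532) (nat_lit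 3946047388) (nat_lit 65) (nat_lit 5) (nat_lit 64) (nat_lit 3) (nat_lit 71) (nat_lit 5) (nat_lit 367) (nat_lit 366) (nat_lit 287)) (XT.nd (nat_lit 78) (nat_lit 0) (nat_lit 0) (XT.lf (nat_lit 0) (nat_lit 28966049056) (nat_lit 456) (nat_lit 2737213822) (nat_lit 532) (nat_lit 862456886) (nat_lit 65) (nat_lit 5) (nat_lit 71) (nat_lit 5) (nat_lit 72) (nat_lit 5) (nat_lit 368) (nat_lit 366) (nat_lit 286)) (XT.lf (nat_lit 76) (nat_lit 14188084691) (nat_lit 0) (nat_lit 17217943630) (nat_lit 532) (nat_lit 2466930680) (nat_lit 66) (nat_lit 5) (nat_lit 65) (nat_lit 5) (nat_lit 72) (nat_lit 5) (nat_lit 369) (nat_lit 366) (nat_lit 285))))) (XT.nd (nat_lit 234) (nat_lit 304) (nat_lit 0) (XT.nd (nat_lit 78) (nat_lit 456) (nat_lit 0) (XT.lf (nat_lit 76) (nat_lit 32619032652) (nat_lit 0) (nat_lit 1491095505) (nat_lit 532) (nat_lit 1169140930) (nat_lit 66) (nat_lit 5) (nat_lit 65) (nat_lit 5) (nat_lit 72)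 (nat_lit 5) (nat_lit 370) (nat_lit 366) (nat_lit 284)) (XT.nd (nat_lit 78) (nat_lit 0) (nat_lit 0) (XT.lf (nat_lit 0) (nat_lit 996254902) (nat_lit 532) (nat_lit 20605053745) (nat_lit 608) (nat_lit 15134299796) (nat_lit 59) (nat_lit 5) (nat_lit 66) (nat_lit 5) (nat_lit 67) (nat_lit 5) (nat_lit 371) (nat_lit 366) (nat_lit 283)) (XT.lf (nat_lit 0) (nat_lit 3379800962) (nat_lit 532) (nat_lit 1802126210) (nat_lit 608) (nat_lit 33115456146) (nat_lit 59) (nat_lit 5) (nat_lit 66) (nat_lit 5) (nat_lit 67) (nat_lit 5) (nat_lit 372) (nat_lit 366) (nat_lit 282)))) (XT.nd (nat_lit 78) (nat_lit 380) (nat_lit 0) (XT.lf (nat_lit 0) (nat_lit 6731564902) (nat_lit 532) (nat_lit 20785875025) (nat_lit 76) (nat_lit 12404461557) (nat_lit 60) (nat_lit 5) (nat_lit 67) (nat_lit 5) (nat_lit 61) (nat_lit 5) (nat_lit 373) (nat_lit 366) (nat_lit 281)) (XT.nd (nat_lit 78) (nat_lit 0) (nat_lit 0) (XT.lf (nat_lit 0) (nat_lit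 41099225) (nat_lit 380) (nat_lit 10491907788) (nat_lit 456) (nat_lit 31128854861) (nat_lit 55) (nat_lit 5) (nat_lit 60) (nat_lit 5) (nat_lit 61) (nat_lit 5) (nat_lit 374) (nat_lit 366) (nat_lit 280)) (XT.lf (nat_lit 0) (nat_lit 15407180854) (nat_lit 456) (nat_lit 19988469948) (nat_lit 76) (nat_lit 8083882443) (nat_lit 55) (nat_lit 5) (nat_lit 61) (nat_lit 5) (nat_lit 56) (nat_lit 5) (nat_lit 375) (nat_lit 366) (nat_lit 279))))))) (XT.nd (nat_lit 780) (nat_lit 988) (nat_lit 0) (XT.nd (nat_lit 390) (nat_lit 532) (nat_lit 0) (XT.nd (nat_lit 156) (nat_lit 456) (nat_lit 0) (XT.nd (nat_lit 78) (nat_lit 0) (nat_lit 0) (XT.lf (nat_lit 0) (nat_lit 3260739082) (nat_lit 228) (nat_lit 17757451435) (nat_lit 304) (nat_lit 24396678860) (nat_lit 52) (nat_lit 5) (nat_lit 55) (nat_lit 5) (nat_lit 56) (nat_lit 5) (nat_lit 376) (nat_lit 366) (nat_lit 278)) (XT.lf (nat_lit 0) (nat_lit 27666019641) (nat_lit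 304) (nat_lit 18004386810) (nat_lit 76) (nat_lit 1787593818) (nat_lit 52) (nat_lit 5) (nat_lit 56) (nat_lit 5) (nat_lit 53) (nat_lit 5) (nat_lit 377) (nat_lit 366) (nat_lit 277))) (XT.nd (nat_lit 78) (nat_lit 228) (nat_lit 0) (XT.lf (nat_lit 0) (nat_lit 8012807454) (nat_lit 228) (nat_lit 27483248404) (nat_lit 304) (nat_lit 14116498060) (nat_lit 49) (nat_lit 5) (nat_lit 52) (nat_lit 5) (nat_lit 53) (nat_lit 5) (nat_lit 378) (nat_lit 366) (nat_lit 276)) (XT.nd (nat_lit 78) (nat_lit 228) (nat_lit 0) (XT.lf (nat_lit 0) (nat_lit 37131277957) (nat_lit 228) (nat_lit 7310095812) (nat_lit 304) (nat_lit 7458990329) (nat_lit 49) (nat_lit 5) (nat_lit 52) (nat_lit 5) (nat_lit 53) (nat_lit 5) (nat_lit 379) (nat_lit 366) (nat_lit 275)) (XT.lf (nat_lit 0) (nat_lit 458435256) (nat_lit 228) (nat_lit 39741626284) (nat_lit 76) (nat_lit 14114547729) (nat_lit 46) (nat_lit 5) (nat_lit 49) (nat_lit 5) (nat_lit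 47) (nat_lit 5) (nat_lit 380) (nat_lit 366) (nat_lit 274))))) (XT.nd (nat_lit 156) (nat_lit 304) (nat_lit 0) (XT.nd (nat_lit 78) (nat_lit 228) (nat_lit 0) (XT.lf (nat_lit 0) (nat_lit 9207354556) (nat_lit 228) (nat_lit 10185472466) (nat_lit 76) (nat_lit 37465583538) (nat_lit 46) (nat_lit 5) (nat_lit 49) (nat_lit 5) (nat_lit 47) (nat_lit 5) (nat_lit 381) (nat_lit 366) (nat_lit 273)) (XT.lf (nat_lit 0) (nat_lit 19291803201) (nat_lit 304) (nat_lit 36774472284) (nat_lit 76) (nat_lit 3488593075) (nat_lit 43) (nat_lit 5) (nat_lit 47) (nat_lit 5) (nat_lit 44) (nat_lit 5) (nat_lit 382) (nat_lit 366) (nat_lit 272))) (XT.nd (nat_lit 78) (nat_lit 304) (nat_lit 0) (XT.lf (nat_lit 0) (nat_lit 30969677044) (nat_lit 304) (nat_lit 3996753235) (nat_lit 76) (nat_lit 27437681105) (nat_lit 43) (nat_lit 5) (nat_lit 47) (nat_lit 5) (nat_lit 44) (nat_lit 5) (nat_lit 383) (nat_lit 366) (nat_lit 271)) (XT.nd (nat_lit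 78) (nat_lit 152) (nat_lit 0) (XT.lf (nat_lit 0) (nat_lit 33053079226) (nat_lit 152) (nat_lit 11321070743) (nat_lit 228) (nat_lit 21043755736) (nat_lit 41) (nat_lit 5) (nat_lit 43) (nat_lit 5) (nat_lit 44) (nat_lit 5) (nat_lit 384) (nat_lit 366) (nat_lit 270)) (XT.lf (nat_lit 0) (nat_lit 4507238257) (nat_lit 152) (nat_lit 54903675246) (nat_lit 228) (nat_lit 9217096928) (nat_lit 39) (nat_lit 5) (nat_lit 41) (nat_lit 5) (nat_lit 42) (nat_lit 5) (nat_lit 385) (nat_lit 366) (nat_lit 269)))))) (XT.nd (nat_lit 390) (nat_lit 608) (nat_lit 0) (XT.nd (nat_lit 156) (nat_lit 152) (nat_lit 0) (XT.nd (nat_lit 78) (nat_lit 152) (nat_lit 0) (XT.lf (nat_lit 0) (nat_lit 4577333385) (nat_lit 228) (nat_lit 26260673247) (nat_lit 76) (nat_lit 41154116290) (nat_lit 38) (nat_lit 5) (nat_lit 41) (nat_lit 5) (nat_lit 39) (nat_lit 5) (nat_lit 386) (nat_lit 366) (nat_lit 268)) (XT.lf (nat_lit 0) (nat_lit 15142937570)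 (nat_lit 152) (nat_lit 4196345584) (nat_lit 228) (nat_lit 56237975813) (nat_lit 36) (nat_lit 5) (nat_lit 38) (nat_lit 5) (nat_lit 39) (nat_lit 5) (nat_lit 387) (nat_lit 366) (nat_lit 267))) (XT.nd (nat_lit 78) (nat_lit 152) (nat_lit 0) (XT.lf (nat_lit 0) (nat_lit 36607720779) (nat_lit 228) (nat_lit 18652641758) (nat_lit 76) (nat_lit 24082801897) (nat_lit 36) (nat_lit 5) (nat_lit 39) (nat_lit 5) (nat_lit 37) (nat_lit 5) (nat_lit 388) (nat_lit 366) (nat_lit 266)) (XT.nd (nat_lit 78) (nat_lit 0) (nat_lit 0) (XT.lf (nat_lit 0) (nat_lit 27747407227) (nat_lit 152) (nat_lit 28284510810) (nat_lit 228) (nat_lit 27316482543) (nat_lit 34) (nat_lit 5) (nat_lit 36) (nat_lit 5) (nat_lit 37) (nat_lit 5) (nat_lit 389) (nat_lit 366) (nat_lit 265)) (XT.lf (nat_lit 0) (nat_lit 77551732883) (nat_lit 228) (nat_lit 8749933877) (nat_lit 76) (nat_lit 1329055249) (nat_lit 34) (nat_lit 5) (nat_lit 37) (nat_lit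 5) (nat_lit 35) (nat_lit 4) (nat_lit 390) (nat_lit 366) (nat_lit 264))))) (XT.nd (nat_lit 234) (nat_lit 304) (nat_lit 0) (XT.nd (nat_lit 78) (nat_lit 152) (nat_lit 0) (XT.lf (nat_lit 0) (nat_lit 9930109307) (nat_lit 152) (nat_lit 49088741698) (nat_lit 76) (nat_lit 33074777890) (nat_lit 32) (nat_lit 5) (nat_lit 34) (nat_lit 5) (nat_lit 33) (nat_lit 5) (nat_lit 391) (nat_lit 366) (nat_lit 263)) (XT.nd (nat_lit 78) (nat_lit 0) (nat_lit 0) (XT.lf (nat_lit 0) (nat_lit 2349786441) (nat_lit 152) (nat_lit 28945763900) (nat_lit 228) (nat_lit 65573064024) (nat_lit 30) (nat_lit 5) (nat_lit 32) (nat_lit 5) (nat_lit 33) (nat_lit 5) (nat_lit 392) (nat_lit 366) (nat_lit 262)) (XT.lf (nat_lit 0) (nat_lit 55830446224) (nat_lit 228) (nat_lit 41346012683) (nat_lit 76) (nat_lit 4732322888) (nat_lit 30) (nat_lit 5) (nat_lit 33) (nat_lit 5) (nat_lit 31) (nat_lit 4) (nat_lit 393) (nat_lit 366) (nat_lit 261))))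 (XT.nd (nat_lit 78) (nat_lit 228) (nat_lit 0) (XT.lf (nat_lit 0) (nat_lit 16132983926) (nat_lit 76) (nat_lit 67333330885) (nat_lit 152) (nat_lit 23794793962) (nat_lit 29) (nat_lit 5) (nat_lit 30) (nat_lit 5) (nat_lit 31) (nat_lit 4) (nat_lit 394) (nat_lit 366) (nat_lit 260)) (XT.nd (nat_lit 78) (nat_lit 152) (nat_lit 0) (XT.lf (nat_lit 0) (nat_lit 1416047343) (nat_lit 152) (nat_lit 32428248316) (nat_lit 76) (nat_lit 79104149006) (nat_lit 28) (nat_lit 5) (nat_lit 30) (nat_lit 5) (nat_lit 29) (nat_lit 5) (nat_lit 395) (nat_lit 366) (nat_lit 259)) (XT.lf (nat_lit 0) (nat_lit 28216845738) (nat_lit 228) (nat_lit 87126913231) (nat_lit 76) (nat_lit 3628875100) (nat_lit 26) (nat_lit 5) (nat_lit 29) (nat_lit 5) (nat_lit 27) (nat_lit 4) (nat_lit 396) (nat_lit 366) (nat_lit 258))))))))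
noncomputable def xc164 : XT := (XT.nd (nat_lit 1560) (nat_lit 608) (nat_lit 0) (XT.nd (nat_lit 780) (nat_lit 532) (nat_lit 0) (XT.nd (nat_lit 390) (nat_lit 304) (nat_lit 0) (XT.nd (nat_lit 156) (nat_lit 152) (nat_lit 0) (XT.nd (nat_lit 78) (nat_lit 76) (nat_lit 0) (XT.lf (nat_lit 0) (nat_lit 58948959894) (nat_lit 228) (nat_lit 23206769284) (nat_lit 76) (nat_lit 43180049766) (nat_lit 26) (nat_lit 5) (nat_lit 29) (nat_lit 5) (nat_lit 27) (nat_lit 4) (nat_lit 397) (nat_lit 366) (nat_lit 257)) (XT.lf (nat_lit 0) (nat_lit 48237550985) (nat_lit 76) (nat_lit 45060821028) (nat_lit 152) (nat_lit 38816905520) (nat_lit 25) (nat_lit 5) (nat_lit 26) (nat_lit 5) (nat_lit 27) (nat_lit 4) (nat_lit 398) (nat_lit 366) (nat_lit 256))) (XT.nd (nat_lit 78) (nat_lit 152) (nat_lit 0) (XT.lf (nat_lit 0) (nat_lit 126714796156) (nat_lit 76) (nat_lit 4314114374) (nat_lit 152) (nat_lit 8357572007) (nat_lit 25) (nat_lit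 5) (nat_lit 26) (nat_lit 5) (nat_lit 27) (nat_lit 4) (nat_lit 399) (nat_lit 366) (nat_lit 255)) (XT.nd (nat_lit 78) (nat_lit 0) (nat_lit 0) (XT.lf (nat_lit 0) (nat_lit 25932569090) (nat_lit 152) (nat_lit 81085667567) (nat_lit 76) (nat_lit 39964209374) (nat_lit 23) (nat_lit 5) (nat_lit 25) (nat_lit 5) (nat_lit 24) (nat_lit 4) (nat_lit 400) (nat_lit 366) (nat_lit 254)) (XT.lf (nat_lit 0) (nat_lit 62980658115) (nat_lit 152) (nat_lit 4027448320) (nat_lit 76) (nat_lit 88123313097) (nat_lit 23) (nat_lit 5) (nat_lit 25) (nat_lit 5) (nat_lit 24) (nat_lit 4) (nat_lit 401) (nat_lit 366) (nat_lit 253))))) (XT.nd (nat_lit 156) (nat_lit 152) (nat_lit 0) (XT.nd (nat_lit 78) (nat_lit 76) (nat_lit 0) (XT.lf (nat_lit 0) (nat_lit 83363462289) (nat_lit 76) (nat_lit 21632860615) (nat_lit 152) (nat_lit 58775690011) (nat_lit 22) (nat_lit 5) (nat_lit 23) (nat_lit 5) (nat_lit 24) (nat_lit 4) (nat_lit 402) (nat_lit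 366) (nat_lit 252)) (XT.lf (nat_lit 0) (nat_lit 4438345412) (nat_lit 76) (nat_lit 146811770802) (nat_lit 76) (nat_lit 21783587800) (nat_lit 21) (nat_lit 4) (nat_lit 22) (nat_lit 5) (nat_lit 22) (nat_lit 4) (nat_lit 403) (nat_lit 366) (nat_lit 251))) (XT.nd (nat_lit 78) (nat_lit 76) (nat_lit 0) (XT.lf (nat_lit 0) (nat_lit 20075414236) (nat_lit 152) (nat_lit 83272648798) (nat_lit 76) (nat_lit 79428003544) (nat_lit 20) (nat_lit 5) (nat_lit 22) (nat_lit 5) (nat_lit 21) (nat_lit 4) (nat_lit 404) (nat_lit 366) (nat_lit 250)) (XT.nd (nat_lit 78) (nat_lit 0) (nat_lit 0) (XT.lf (nat_lit 0) (nat_lit 8745555335) (nat_lit 76) (nat_lit 55569971023) (nat_lit 152) (nat_lit 128920285849) (nat_lit 19) (nat_lit 5) (nat_lit 20) (nat_lit 5) (nat_lit 21) (nat_lit 4) (nat_lit 405) (nat_lit 366) (nat_lit 249)) (XT.lf (nat_lit 0) (nat_lit 112859052757) (nat_lit 76) (nat_lit 1511586804) (nat_lit 152) (nat_lit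 89979634759) (nat_lit 19) (nat_lit 5) (nat_lit 20) (nat_lit 5) (nat_lit 21) (nat_lit 4) (nat_lit 406) (nat_lit 366) (nat_lit 248)))))) (XT.nd (nat_lit 390) (nat_lit 304) (nat_lit 0) (XT.nd (nat_lit 156) (nat_lit 76) (nat_lit 0) (XT.nd (nat_lit 78) (nat_lit 76) (nat_lit 0) (XT.lf (nat_lit 0) (nat_lit 7977162724) (nat_lit 76) (nat_lit 162011636272) (nat_lit 76) (nat_lit 46240403615) (nat_lit 18) (nat_lit 4) (nat_lit 19) (nat_lit 5) (nat_lit 19) (nat_lit 4) (nat_lit 407) (nat_lit 366) (nat_lit 247)) (XT.lf (nat_lit 0) (nat_lit 3552842489) (nat_lit 152) (nat_lit 108382223691) (nat_lit 76) (nat_lit 116913075156) (nat_lit 17) (nat_lit 5) (nat_lit 19) (nat_lit 5) (nat_lit 18) (nat_lit 4) (nat_lit 408) (nat_lit 366) (nat_lit 246))) (XT.nd (nat_lit 78) (nat_lit 76) (nat_lit 0) (XT.lf (nat_lit 0) (nat_lit 54830467087) (nat_lit 152) (nat_lit 1725601020) (nat_lit 76) (nat_lit 185824515111) (nat_lit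 17) (nat_lit 5) (nat_lit 19) (nat_lit 5) (nat_lit 18) (nat_lit 4) (nat_lit 409) (nat_lit 366) (nat_lit 245)) (XT.nd (nat_lit 78) (nat_lit 0) (nat_lit 0) (XT.lf (nat_lit 0) (nat_lit 113234755719) (nat_lit 152) (nat_lit 137482066798) (nat_lit 0) (nat_lit 6036841745) (nat_lit 16) (nat_lit 5) (nat_lit 18) (nat_lit 4) (nat_lit 16) (nat_lit 4) (nat_lit 410) (nat_lit 366) (nat_lit 244)) (XT.lf (nat_lit 0) (nat_lit 177827956857) (nat_lit 152) (nat_lit 23697930655) (nat_lit 0) (nat_lit 70629378849) (nat_lit 16) (nat_lit 5) (nat_lit 18) (nat_lit 4) (nat_lit 16) (nat_lit 4) (nat_lit 411) (nat_lit 366) (nat_lit 243))))) (XT.nd (nat_lit 156) (nat_lit 152) (nat_lit 0) (XT.nd (nat_lit 78) (nat_lit 76) (nat_lit 0) (XT.lf (nat_lit 0) (nat_lit 104410483312) (nat_lit 76) (nat_lit 145688440746) (nat_lit 76) (nat_lit 38489247892) (nat_lit 15) (nat_lit 4) (nat_lit 16) (nat_lit 5) (nat_lit 16) (nat_lit 4) (nat_lit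 412) (nat_lit 366) (nat_lit 242)) (XT.lf (nat_lit 0) (nat_lit 21388551857) (nat_lit 152) (nat_lit 62711574293) (nat_lit 76) (nat_lit 222140489317) (nat_lit 14) (nat_lit 5) (nat_lit 16) (nat_lit 5) (nat_lit 15) (nat_lit 4) (nat_lit 413) (nat_lit 366) (nat_lit 241))) (XT.nd (nat_lit 78) (nat_lit 76) (nat_lit 0) (XT.lf (nat_lit 0) (nat_lit 71023617011) (nat_lit 76) (nat_lit 14660953325) (nat_lit 152) (nat_lit 239404113455) (nat_lit 13) (nat_lit 5) (nat_lit 14) (nat_lit 5) (nat_lit 15) (nat_lit 4) (nat_lit 414) (nat_lit 366) (nat_lit 240)) (XT.nd (nat_lit 78) (nat_lit 76) (nat_lit 0) (XT.lf (nat_lit 0) (nat_lit 158333768939) (nat_lit 152) (nat_lit 127780278948) (nat_lit 0) (nat_lit 59073789888) (nat_lit 13) (nat_lit 5) (nat_lit 15) (nat_lit 4) (nat_lit 13) (nat_lit 4) (nat_lit 415) (nat_lit 366) (nat_lit 239)) (XT.lf (nat_lit 0) (nat_lit 8658330672) (nat_lit 76) (nat_lit 228724960006) (nat_lit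 76) (nat_lit 129464562501) (nat_lit 12) (nat_lit 4) (nat_lit 13) (nat_lit 5) (nat_lit 13) (nat_lit 4) (nat_lit 416) (nat_lit 366) (nat_lit 238))))))) (XT.nd (nat_lit 780) (nat_lit 228) (nat_lit 0) (XT.nd (nat_lit 390) (nat_lit 228) (nat_lit 0) (XT.nd (nat_lit 156) (nat_lit 76) (nat_lit 0) (XT.nd (nat_lit 78) (nat_lit 76) (nat_lit 0) (XT.lf (nat_lit 0) (nat_lit 163277757185) (nat_lit 76) (nat_lit 162972124531) (nat_lit 76) (nat_lit 63711339568) (nat_lit 12) (nat_lit 4) (nat_lit 13) (nat_lit 5) (nat_lit 13) (nat_lit 4) (nat_lit 417) (nat_lit 366) (nat_lit 237)) (XT.lf (nat_lit 0) (nat_lit 6936258345) (nat_lit 152) (nat_lit 84833726362) (nat_lit 76) (nat_lit 323139672873) (nat_lit 11) (nat_lit 5) (nat_lit 13) (nat_lit 5) (nat_lit 12) (nat_lit 4) (nat_lit 418) (nat_lit 366) (nat_lit 236))) (XT.nd (nat_lit 78) (nat_lit 0) (nat_lit 0) (XT.lf (nat_lit 0) (nat_lit 70220777467) (nat_lit 76) (nat_lit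 11261075114) (nat_lit 152) (nat_lit 360104668605) (nat_lit 10) (nat_lit 5) (nat_lit 11) (nat_lit 5) (nat_lit 12) (nat_lit 4) (nat_lit 419) (nat_lit 366) (nat_lit 235)) (XT.nd (nat_lit 78) (nat_lit 0) (nat_lit 0) (XT.lf (nat_lit 0) (nat_lit 166190603864) (nat_lit 152) (nat_lit 229589424224) (nat_lit 0) (nat_lit 74281545087) (nat_lit 10) (nat_lit 5) (nat_lit 12) (nat_lit 4) (nat_lit 10) (nat_lit 4) (nat_lit 420) (nat_lit 366) (nat_lit 234)) (XT.lf (nat_lit 0) (nat_lit 257968038521) (nat_lit 152) (nat_lit 76764516142) (nat_lit 0) (nat_lit 166058716047) (nat_lit 10) (nat_lit 5) (nat_lit 12) (nat_lit 4) (nat_lit 10) (nat_lit 4) (nat_lit 421) (nat_lit 366) (nat_lit 233))))) (XT.nd (nat_lit 156) (nat_lit 152) (nat_lit 0) (XT.nd (nat_lit 78) (nat_lit 0) (nat_lit 0) (XT.lf (nat_lit 0) (nat_lit 92934393486) (nat_lit 76) (nat_lit 266387874618) (nat_lit 76) (nat_lit 174478307980) (nat_lit 9) (nat_lit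 4) (nat_lit 10) (nat_lit 5) (nat_lit 10) (nat_lit 4) (nat_lit 422) (nat_lit 366) (nat_lit 232)) (XT.lf (nat_lit 0) (nat_lit 280573960035) (nat_lit 76) (nat_lit 190309292641) (nat_lit 76) (nat_lit 98399499924) (nat_lit 9) (nat_lit 4) (nat_lit 10) (nat_lit 5) (nat_lit 10) (nat_lit 4) (nat_lit 423) (nat_lit 366) (nat_lit 231))) (XT.nd (nat_lit 78) (nat_lit 152) (nat_lit 0) (XT.lf (nat_lit 0) (nat_lit 483223838294) (nat_lit 76) (nat_lit 108144850600) (nat_lit 76) (nat_lit 16234848552) (nat_lit 9) (nat_lit 4) (nat_lit 10) (nat_lit 5) (nat_lit 10) (nat_lit 4) (nat_lit 424) (nat_lit 366) (nat_lit 230)) (XT.nd (nat_lit 78) (nat_lit 0) (nat_lit 0) (XT.lf (nat_lit 0) (nat_lit 54055275460) (nat_lit 76) (nat_lit 16120431911) (nat_lit 152) (nat_lit 578570811890) (nat_lit 7) (nat_lit 5) (nat_lit 8) (nat_lit 5) (nat_lit 9) (nat_lit 4) (nat_lit 425) (nat_lit 366) (nat_lit 229)) (XT.lf (nat_lit 0) (nat_lit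 168113240696) (nat_lit 152) (nat_lit 441583623985) (nat_lit 0) (nat_lit 83011041306) (nat_lit 7) (nat_lit 5) (nat_lit 9) (nat_lit 4) (nat_lit 7) (nat_lit 4) (nat_lit 426) (nat_lit 366) (nat_lit 228)))))) (XT.nd (nat_lit 390) (nat_lit 152) (nat_lit 0) (XT.nd (nat_lit 156) (nat_lit 76) (nat_lit 0) (XT.nd (nat_lit 78) (nat_lit 0) (nat_lit 0) (XT.lf (nat_lit 0) (nat_lit 274304114858) (nat_lit 152) (nat_lit 276646860166) (nat_lit 0) (nat_lit 189201761603) (nat_lit 7) (nat_lit 5) (nat_lit 9) (nat_lit 4) (nat_lit 7) (nat_lit 4) (nat_lit 427) (nat_lit 366) (nat_lit 227)) (XT.lf (nat_lit 0) (nat_lit 388989912337) (nat_lit 152) (nat_lit 98515852524) (nat_lit 0) (nat_lit 303887416615) (nat_lit 7) (nat_lit 5) (nat_lit 9) (nat_lit 4) (nat_lit 7) (nat_lit 4) (nat_lit 428) (nat_lit 366) (nat_lit 226))) (XT.nd (nat_lit 78) (nat_lit 0) (nat_lit 0) (XT.lf (nat_lit 0) (nat_lit 98807754132) (nat_lit 76) (nat_lit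 416418827403) (nat_lit 76) (nat_lit 331316199767) (nat_lit 6) (nat_lit 4) (nat_lit 7) (nat_lit 5) (nat_lit 7) (nat_lit 4) (nat_lit 429) (nat_lit 366) (nat_lit 225)) (XT.nd (nat_lit 78) (nat_lit 0) (nat_lit 0) (XT.lf (nat_lit 0) (nat_lit 317519303860) (nat_lit 76) (nat_lit 336736166101) (nat_lit 76) (nat_lit 251633416322) (nat_lit 6) (nat_lit 4) (nat_lit 7) (nat_lit 5) (nat_lit 7) (nat_lit 4) (nat_lit 430) (nat_lit 366) (nat_lit 224)) (XT.lf (nat_lit 0) (nat_lit 553727194894) (nat_lit 76) (nat_lit 250679185400) (nat_lit 76) (nat_lit 165576322525) (nat_lit 6) (nat_lit 4) (nat_lit 7) (nat_lit 5) (nat_lit 7) (nat_lit 4) (nat_lit 431) (nat_lit 366) (nat_lit 223))))) (XT.nd (nat_lit 234) (nat_lit 0) (nat_lit 0) (XT.nd (nat_lit 78) (nat_lit 152) (nat_lit 0) (XT.lf (nat_lit 0) (nat_lit 808831177697) (nat_lit 76) (nat_lit 157737918005) (nat_lit 76) (nat_lit 72634950413) (nat_lit 6) (nat_lit 4)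 (nat_lit 7) (nat_lit 5) (nat_lit 7) (nat_lit 4) (nat_lit 432) (nat_lit 366) (nat_lit 222)) (XT.nd (nat_lit 78) (nat_lit 76) (nat_lit 0) (XT.lf (nat_lit 0) (nat_lit 26353723332) (nat_lit 152) (nat_lit 30287320021) (nat_lit 76) (nat_lit 1057268698745) (nat_lit 5) (nat_lit 5) (nat_lit 7) (nat_lit 5) (nat_lit 6) (nat_lit 4) (nat_lit 433) (nat_lit 366) (nat_lit 221)) (XT.lf (nat_lit 0) (nat_lit 135426843575) (nat_lit 152) (nat_lit 1001899331710) (nat_lit 0) (nat_lit 56627626601) (nat_lit 4) (nat_lit 5) (nat_lit 6) (nat_lit 4) (nat_lit 4) (nat_lit 4) (nat_lit 434) (nat_lit 366) (nat_lit 220)))) (XT.nd (nat_lit 78) (nat_lit 0) (nat_lit 0) (XT.lf (nat_lit 0) (nat_lit 255546392858) (nat_lit 152) (nat_lit 847922248347) (nat_lit 0) (nat_lit 176747098913) (nat_lit 4) (nat_lit 5) (nat_lit 6) (nat_lit 4) (nat_lit 4) (nat_lit 4) (nat_lit 435) (nat_lit 366) (nat_lit 219)) (XT.nd (nat_lit 78) (nat_lit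 0) (nat_lit 0) (XT.lf (nat_lit 0) (nat_lit 385275288641) (nat_lit 152) (nat_lit 681627438749) (nat_lit 0) (nat_lit 306475923426) (nat_lit 4) (nat_lit 5) (nat_lit 6) (nat_lit 4) (nat_lit 4) (nat_lit 4) (nat_lit 436) (nat_lit 366) (nat_lit 218)) (XT.lf (nat_lit 0) (nat_lit 525382294750) (nat_lit 152) (nat_lit 502029452193) (nat_lit 0) (nat_lit 446582863546) (nat_lit 4) (nat_lit 5) (nat_lit 6) (nat_lit 4) (nat_lit 4) (nat_lit 4) (nat_lit 437) (nat_lit 366) (nat_lit 217))))))))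
noncomputable def xc165 : XT := (XT.nd (nat_lit 1560) (nat_lit 0) (nat_lit 0) (XT.nd (nat_lit 780) (nat_lit 152) (nat_lit 0) (XT.nd (nat_lit 390) (nat_lit 0) (nat_lit 0) (XT.nd (nat_lit 156) (nat_lit 76) (nat_lit 0) (XT.nd (nat_lit 78) (nat_lit 0) (nat_lit 0) (XT.lf (nat_lit 0) (nat_lit 676697674927) (nat_lit 152) (nat_lit 308064004315) (nat_lit 0) (nat_lit 597898182621) (nat_lit 4) (nat_lit 5) (nat_lit 6) (nat_lit 4) (nat_lit 4) (nat_lit 4) (nat_lit 438) (nat_lit 366) (nat_lit 216)) (XT.lf (nat_lit 0) (nat_lit 840118112905) (nat_lit 152) (nat_lit 98581670238) (nat_lit 0) (nat_lit 761318564023) (nat_lit 4) (nat_lit 5) (nat_lit 6) (nat_lit 4) (nat_lit 4) (nat_lit 4) (nat_lit 439) (nat_lit 366) (nat_lit 215))) (XT.nd (nat_lit 78) (nat_lit 0) (nat_lit 0) (XT.lf (nat_lit 0) (nat_lit 134381219688) (nat_lit 76) (nat_lit 885462677971) (nat_lit 76) (nat_lit 806663076705) (nat_lit 3) (nat_lit 4)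 (nat_lit 4) (nat_lit 5) (nat_lit 4) (nat_lit 4) (nat_lit 440) (nat_lit 366) (nat_lit 214)) (XT.nd (nat_lit 78) (nat_lit 0) (nat_lit 0) (XT.lf (nat_lit 0) (nat_lit 391587252208) (nat_lit 76) (nat_lit 825055734975) (nat_lit 76) (nat_lit 746256085204) (nat_lit 3) (nat_lit 4) (nat_lit 4) (nat_lit 5) (nat_lit 4) (nat_lit 4) (nat_lit 441) (nat_lit 366) (nat_lit 213)) (XT.lf (nat_lit 0) (nat_lit 669369475167) (nat_lit 76) (nat_lit 759816384651) (nat_lit 76) (nat_lit 681016689968) (nat_lit 3) (nat_lit 4) (nat_lit 4) (nat_lit 5) (nat_lit 4) (nat_lit 4) (nat_lit 442) (nat_lit 366) (nat_lit 212))))) (XT.nd (nat_lit 156) (nat_lit 0) (nat_lit 0) (XT.nd (nat_lit 78) (nat_lit 0) (nat_lit 0) (XT.lf (nat_lit 0) (nat_lit 969374005440) (nat_lit 76) (nat_lit 689358023442) (nat_lit 76) (nat_lit 610558287174) (nat_lit 3) (nat_lit 4) (nat_lit 4) (nat_lit 5) (nat_lit 4) (nat_lit 4) (nat_lit 443) (nat_lit 366)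 (nat_lit 211)) (XT.lf (nat_lit 0) (nat_lit 1293378647651) (nat_lit 76) (nat_lit 613263120317) (nat_lit 76) (nat_lit 534463345545) (nat_lit 3) (nat_lit 4) (nat_lit 4) (nat_lit 5) (nat_lit 4) (nat_lit 4) (nat_lit 444) (nat_lit 366) (nat_lit 210))) (XT.nd (nat_lit 78) (nat_lit 0) (nat_lit 0) (XT.lf (nat_lit 0) (nat_lit 1643303429310) (nat_lit 76) (nat_lit 531080742519) (nat_lit 76) (nat_lit 452280932094) (nat_lit 3) (nat_lit 4) (nat_lit 4) (nat_lit 5) (nat_lit 4) (nat_lit 4) (nat_lit 445) (nat_lit 366) (nat_lit 209)) (XT.nd (nat_lit 78) (nat_lit 0) (nat_lit 0) (XT.lf (nat_lit 0) (nat_lit 2021221978753) (nat_lit 76) (nat_lit 442323883363) (nat_lit 76) (nat_lit 363524039927) (nat_lit 3) (nat_lit 4) (nat_lit 4) (nat_lit 5) (nat_lit 4) (nat_lit 4) (nat_lit 446) (nat_lit 366) (nat_lit 208)) (XT.lf (nat_lit 0) (nat_lit 2429373813309) (nat_lit 76) (nat_lit 346466576277) (nat_lit 76) (nat_lit 267666702274)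 (nat_lit 3) (nat_lit 4) (nat_lit 4) (nat_lit 5) (nat_lit 4) (nat_lit 4) (nat_lit 447) (nat_lit 366) (nat_lit 207)))))) (XT.nd (nat_lit 390) (nat_lit 0) (nat_lit 0) (XT.nd (nat_lit 156) (nat_lit 152) (nat_lit 0) (XT.nd (nat_lit 78) (nat_lit 0) (nat_lit 0) (XT.lf (nat_lit 0) (nat_lit 2870177610516) (nat_lit 76) (nat_lit 242940777959) (nat_lit 76) (nat_lit 164140875655) (nat_lit 3) (nat_lit 4) (nat_lit 4) (nat_lit 5) (nat_lit 4) (nat_lit 4) (nat_lit 448) (nat_lit 366) (nat_lit 206)) (XT.lf (nat_lit 0) (nat_lit 3346245541026) (nat_lit 76) (nat_lit 131133002198) (nat_lit 76) (nat_lit 52333073688) (nat_lit 3) (nat_lit 4) (nat_lit 4) (nat_lit 5) (nat_lit 4) (nat_lit 4) (nat_lit 449) (nat_lit 366) (nat_lit 205))) (XT.nd (nat_lit 78) (nat_lit 0) (nat_lit 0) (XT.lf (nat_lit 0) (nat_lit 59362659583) (nat_lit 76) (nat_lit 7061673280) (nat_lit 152) (nat_lit 3735689978609) (nat_lit 1) (nat_lit 5) (nat_lit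 2) (nat_lit 5) (nat_lit 3) (nat_lit 4) (nat_lit 450) (nat_lit 366) (nat_lit 204)) (XT.nd (nat_lit 78) (nat_lit 0) (nat_lit 0) (XT.lf (nat_lit 0) (nat_lit 200054286333) (nat_lit 152) (nat_lit 3768398900949) (nat_lit 0) (nat_lit 127091346295) (nat_lit 1) (nat_lit 5) (nat_lit 3) (nat_lit 4) (nat_lit 1) (nat_lit 4) (nat_lit 451) (nat_lit 366) (nat_lit 203)) (XT.lf (nat_lit 0) (nat_lit 344557982401) (nat_lit 152) (nat_lit 3796281500248) (nat_lit 0) (nat_lit 271595023101) (nat_lit 1) (nat_lit 5) (nat_lit 3) (nat_lit 4) (nat_lit 1) (nat_lit 4) (nat_lit 452) (nat_lit 366) (nat_lit 202))))) (XT.nd (nat_lit 156) (nat_lit 0) (nat_lit 0) (XT.nd (nat_lit 78) (nat_lit 0) (nat_lit 0) (XT.lf (nat_lit 0) (nat_lit 500621905853) (nat_lit 152) (nat_lit 3826394846591) (nat_lit 0) (nat_lit 427658928718) (nat_lit 1) (nat_lit 5) (nat_lit 3) (nat_lit 4) (nat_lit 1) (nat_lit 4) (nat_lit 453) (nat_lit 366) (nat_lit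 201)) (XT.lf (nat_lit 0) (nat_lit 669170879940) (nat_lit 152) (nat_lit 3858917389440) (nat_lit 0) (nat_lit 596207886291) (nat_lit 1) (nat_lit 5) (nat_lit 3) (nat_lit 4) (nat_lit 1) (nat_lit 4) (nat_lit 454) (nat_lit 366) (nat_lit 200))) (XT.nd (nat_lit 78) (nat_lit 0) (nat_lit 0) (XT.lf (nat_lit 0) (nat_lit 851203713398) (nat_lit 152) (nat_lit 3894041854972) (nat_lit 0) (nat_lit 778240704458) (nat_lit 1) (nat_lit 5) (nat_lit 3) (nat_lit 4) (nat_lit 1) (nat_lit 4) (nat_lit 455) (nat_lit 366) (nat_lit 199)) (XT.nd (nat_lit 78) (nat_lit 0) (nat_lit 0) (XT.lf (nat_lit 0) (nat_lit 1047799119313) (nat_lit 152) (nat_lit 3931976388170) (nat_lit 0) (nat_lit 974836096215) (nat_lit 1) (nat_lit 5) (nat_lit 3) (nat_lit 4) (nat_lit 1) (nat_lit 4) (nat_lit 456) (nat_lit 366) (nat_lit 198)) (XT.lf (nat_lit 0) (nat_lit 1260122107498) (nat_lit 152) (nat_lit 3972945786267) (nat_lit 0) (nat_lit 1187159071291)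 (nat_lit 1) (nat_lit 5) (nat_lit 3) (nat_lit 4) (nat_lit 1) (nat_lit 4) (nat_lit 457) (nat_lit 366) (nat_lit 197))))))) (XT.nd (nat_lit 46566) (nat_lit 0) (nat_lit 3192) (XT.nd (nat_lit 46176) (nat_lit 0) (nat_lit 4408) (XT.nd (nat_lit 156) (nat_lit 0) (nat_lit 0) (XT.nd (nat_lit 78) (nat_lit 0) (nat_lit 0) (XT.lf (nat_lit 0) (nat_lit 1489430888254) (nat_lit 152) (nat_lit 4017192830881) (nat_lit 0) (nat_lit 1416467839909) (nat_lit 1) (nat_lit 5) (nat_lit 3) (nat_lit 4) (nat_lit 1) (nat_lit 4) (nat_lit 458) (nat_lit 366) (nat_lit 196)) (XT.lf (nat_lit 0) (nat_lit 1737084328429) (nat_lit 152) (nat_lit 4064979726722) (nat_lit 0) (nat_lit 1664121268845) (nat_lit 1) (nat_lit 5) (nat_lit 3) (nat_lit 4) (nat_lit 1) (nat_lit 4) (nat_lit 459) (nat_lit 366) (nat_lit 195))) (XT.nd (nat_lit 45864) (nat_lit 0) (nat_lit 4788) (XT.lf (nat_lit 0) (nat_lit 2004550003966) (nat_lit 152) (nat_lit 4116589655394)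 (nat_lit 0) (nat_lit 1931586933975) (nat_lit 1) (nat_lit 5) (nat_lit 3) (nat_lit 4) (nat_lit 1) (nat_lit 4) (nat_lit 460) (nat_lit 366) (nat_lit 194)) (XT.nd (nat_lit 78) (nat_lit 0) (nat_lit 0) (XT.lf (nat_lit 0) (nat_lit 14070691370) (nat_lit 532) (nat_lit 1096815010) (nat_lit 532) (nat_lit 1096815010) (nat_lit 64) (nat_lit 3) (nat_lit 71) (nat_lit 3) (nat_lit 71) (nat_lit 5) (nat_lit 367) (nat_lit 367) (nat_lit 286)) (XT.lf (nat_lit 76) (nat_lit 14333701259) (nat_lit 0) (nat_lit 15336069732) (nat_lit 532) (nat_lit 4127743996) (nat_lit 65) (nat_lit 5) (nat_lit 64) (nat_lit 3) (nat_lit 71) (nat_lit 5) (nat_lit 368) (nat_lit 367) (nat_lit 285))))) (XT.nd (nat_lit 156) (nat_lit 456) (nat_lit 0) (XT.nd (nat_lit 78) (nat_lit 0) (nat_lit 0) (XT.lf (nat_lit 0) (nat_lit 31396895156) (nat_lit 456) (nat_lit 2881273981) (nat_lit 532) (nat_lit 883616133) (nat_lit 65) (nat_lit 5) (nat_lit 71) (nat_lit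 5) (nat_lit 72) (nat_lit 5) (nat_lit 369) (nat_lit 367) (nat_lit 284)) (XT.lf (nat_lit 76) (nat_lit 15396151781) (nat_lit 0) (nat_lit 18629265108) (nat_lit 532) (nat_lit 2548727160) (nat_lit 66) (nat_lit 5) (nat_lit 65) (nat_lit 5) (nat_lit 72) (nat_lit 5) (nat_lit 370) (nat_lit 367) (nat_lit 283))) (XT.nd (nat_lit 78) (nat_lit 456) (nat_lit 0) (XT.lf (nat_lit 76) (nat_lit 35296166667) (nat_lit 0) (nat_lit 1641759060) (nat_lit 532) (nat_lit 1155674080) (nat_lit 66) (nat_lit 5) (nat_lit 65) (nat_lit 5) (nat_lit 72) (nat_lit 5) (nat_lit 371) (nat_lit 367) (nat_lit 282)) (XT.nd (nat_lit 78) (nat_lit 0) (nat_lit 0) (XT.lf (nat_lit 0) (nat_lit 1171191652) (nat_lit 532) (nat_lit 22173921133) (nat_lit 608) (nat_lit 16321646703) (nat_lit 59) (nat_lit 5) (nat_lit 66) (nat_lit 5) (nat_lit 67) (nat_lit 5) (nat_lit 372) (nat_lit 367) (nat_lit 281)) (XT.lf (nat_lit 0) (nat_lit 3738366852) (nat_lit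 532) (nat_lit 1872651019) (nat_lit 608) (nat_lit 35743028678) (nat_lit 59) (nat_lit 5) (nat_lit 66) (nat_lit 5) (nat_lit 67) (nat_lit 5) (nat_lit 373) (nat_lit 367) (nat_lit 280)))))) (XT.nd (nat_lit 390) (nat_lit 684) (nat_lit 0) (XT.nd (nat_lit 156) (nat_lit 228) (nat_lit 0) (XT.nd (nat_lit 78) (nat_lit 380) (nat_lit 0) (XT.lf (nat_lit 0) (nat_lit 7353187385) (nat_lit 532) (nat_lit 22369947725) (nat_lit 76) (nat_lit 13385803218) (nat_lit 60) (nat_lit 5) (nat_lit 67) (nat_lit 5) (nat_lit 61) (nat_lit 5) (nat_lit 374) (nat_lit 367) (nat_lit 279)) (XT.lf (nat_lit 0) (nat_lit 121189596) (nat_lit 380) (nat_lit 11333247013) (nat_lit 456) (nat_lit 33534008599) (nat_lit 55) (nat_lit 5) (nat_lit 60) (nat_lit 5) (nat_lit 61) (nat_lit 5) (nat_lit 375) (nat_lit 367) (nat_lit 278))) (XT.nd (nat_lit 78) (nat_lit 228) (nat_lit 0) (XT.lf (nat_lit 0) (nat_lit 16712663894) (nat_lit 456) (nat_lit 21510495853)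 (nat_lit 76) (nat_lit 8728845609) (nat_lit 55) (nat_lit 5) (nat_lit 61) (nat_lit 5) (nat_lit 56) (nat_lit 5) (nat_lit 376) (nat_lit 367) (nat_lit 277)) (XT.nd (nat_lit 78) (nat_lit 0) (nat_lit 0) (XT.lf (nat_lit 0) (nat_lit 3596699224) (nat_lit 228) (nat_lit 19172260653) (nat_lit 304) (nat_lit 26273500344) (nat_lit 52) (nat_lit 5) (nat_lit 55) (nat_lit 5) (nat_lit 56) (nat_lit 5) (nat_lit 377) (nat_lit 367) (nat_lit 276)) (XT.lf (nat_lit 0) (nat_lit 29943609817) (nat_lit 304) (nat_lit 19370144656) (nat_lit 76) (nat_lit 1935691521) (nat_lit 52) (nat_lit 5) (nat_lit 56) (nat_lit 5) (nat_lit 53) (nat_lit 5) (nat_lit 378) (nat_lit 367) (nat_lit 275))))) (XT.nd (nat_lit 234) (nat_lit 228) (nat_lit 0) (XT.nd (nat_lit 78) (nat_lit 228) (nat_lit 0) (XT.lf (nat_lit 0) (nat_lit 8726536717) (nat_lit 228) (nat_lit 29670497164) (nat_lit 304) (nat_lit 15179574933) (nat_lit 49) (nat_lit 5) (nat_lit 52)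 (nat_lit 5) (nat_lit 53) (nat_lit 5) (nat_lit 379) (nat_lit 367) (nat_lit 274)) (XT.nd (nat_lit 78) (nat_lit 228) (nat_lit 0) (XT.lf (nat_lit 0) (nat_lit 40169099329) (nat_lit 228) (nat_lit 7884337633) (nat_lit 304) (nat_lit 7994373470) (nat_lit 49) (nat_lit 5) (nat_lit 52) (nat_lit 5) (nat_lit 53) (nat_lit 5) (nat_lit 380) (nat_lit 367) (nat_lit 273)) (XT.lf (nat_lit 0) (nat_lit 551026277) (nat_lit 228) (nat_lit 42848141523) (nat_lit 76) (nat_lit 15256100451) (nat_lit 46) (nat_lit 5) (nat_lit 49) (nat_lit 5) (nat_lit 47) (nat_lit 5) (nat_lit 381) (nat_lit 367) (nat_lit 272)))) (XT.nd (nat_lit 78) (nat_lit 228) (nat_lit 0) (XT.lf (nat_lit 0) (nat_lit 9995717181) (nat_lit 228) (nat_lit 10932889094) (nat_lit 76) (nat_lit 40474301427) (nat_lit 46) (nat_lit 5) (nat_lit 49) (nat_lit 5) (nat_lit 47) (nat_lit 5) (nat_lit 382) (nat_lit 367) (nat_lit 271)) (XT.nd (nat_lit 78) (nat_lit 0) (nat_lit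 0) (XT.lf (nat_lit 0) (nat_lit 20885056502) (nat_lit 304) (nat_lit 39647112419) (nat_lit 76) (nat_lit 3783065138) (nat_lit 43) (nat_lit 5) (nat_lit 47) (nat_lit 5) (nat_lit 44) (nat_lit 5) (nat_lit 383) (nat_lit 367) (nat_lit 270)) (XT.lf (nat_lit 0) (nat_lit 33493463286) (nat_lit 304) (nat_lit 4252310487) (nat_lit 76) (nat_lit 29646940610) (nat_lit 43) (nat_lit 5) (nat_lit 47) (nat_lit 5) (nat_lit 44) (nat_lit 5) (nat_lit 384) (nat_lit 367) (nat_lit 269))))))))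
noncomputable def xc166 : XT := (XT.nd (nat_lit 1560) (nat_lit 912) (nat_lit 0) (XT.nd (nat_lit 780) (nat_lit 684) (nat_lit 0) (XT.nd (nat_lit 390) (nat_lit 456) (nat_lit 0) (XT.nd (nat_lit 156) (nat_lit 228) (nat_lit 0) (XT.nd (nat_lit 78) (nat_lit 152) (nat_lit 0) (XT.lf (nat_lit 0) (nat_lit 35759883684) (nat_lit 152) (nat_lit 12208491767) (nat_lit 228) (nat_lit 22679392429) (nat_lit 41) (nat_lit 5) (nat_lit 43) (nat_lit 5) (nat_lit 44) (nat_lit 5) (nat_lit 385) (nat_lit 367) (nat_lit 268)) (XT.lf (nat_lit 0) (nat_lit 4931843438) (nat_lit 152) (nat_lit 59274902188) (nat_lit 228) (nat_lit 9908044100) (nat_lit 39) (nat_lit 5) (nat_lit 41) (nat_lit 5) (nat_lit 42) (nat_lit 5) (nat_lit 386) (nat_lit 367) (nat_lit 267))) (XT.nd (nat_lit 78) (nat_lit 152) (nat_lit 0) (XT.lf (nat_lit 0) (nat_lit 4984351942) (nat_lit 228) (nat_lit 28300072251) (nat_lit 76) (nat_lit 44463780735) (nat_lit 38)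 (nat_lit 5) (nat_lit 41) (nat_lit 5) (nat_lit 39) (nat_lit 5) (nat_lit 387) (nat_lit 367) (nat_lit 266)) (XT.nd (nat_lit 78) (nat_lit 0) (nat_lit 0) (XT.lf (nat_lit 0) (nat_lit 16414271612) (nat_lit 152) (nat_lit 4511402069) (nat_lit 228) (nat_lit 60694606472) (nat_lit 36) (nat_lit 5) (nat_lit 38) (nat_lit 5) (nat_lit 39) (nat_lit 5) (nat_lit 388) (nat_lit 367) (nat_lit 265)) (XT.lf (nat_lit 0) (nat_lit 39573138938) (nat_lit 228) (nat_lit 20086925408) (nat_lit 76) (nat_lit 26027590962) (nat_lit 36) (nat_lit 5) (nat_lit 39) (nat_lit 5) (nat_lit 37) (nat_lit 5) (nat_lit 389) (nat_lit 367) (nat_lit 264))))) (XT.nd (nat_lit 156) (nat_lit 304) (nat_lit 0) (XT.nd (nat_lit 78) (nat_lit 0) (nat_lit 0) (XT.lf (nat_lit 0) (nat_lit 30023660972) (nat_lit 152) (nat_lit 30526242935) (nat_lit 228) (nat_lit 29463517236) (nat_lit 34) (nat_lit 5) (nat_lit 36) (nat_lit 5) (nat_lit 37) (nat_lit 5) (nat_lit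 390) (nat_lit 367) (nat_lit 263)) (XT.lf (nat_lit 0) (nat_lit 83789147595) (nat_lit 228) (nat_lit 9395477746) (nat_lit 76) (nat_lit 1453876704) (nat_lit 34) (nat_lit 5) (nat_lit 37) (nat_lit 5) (nat_lit 35) (nat_lit 4) (nat_lit 391) (nat_lit 367) (nat_lit 262))) (XT.nd (nat_lit 78) (nat_lit 152) (nat_lit 0) (XT.lf (nat_lit 0) (nat_lit 10757452828) (nat_lit 152) (nat_lit 52961021000) (nat_lit 76) (nat_lit 35739997188) (nat_lit 32) (nat_lit 5) (nat_lit 34) (nat_lit 5) (nat_lit 33) (nat_lit 5) (nat_lit 392) (nat_lit 367) (nat_lit 261)) (XT.nd (nat_lit 78) (nat_lit 0) (nat_lit 0) (XT.lf (nat_lit 0) (nat_lit 2591201541) (nat_lit 152) (nat_lit 31239773036) (nat_lit 228) (nat_lit 70784574106) (nat_lit 30) (nat_lit 5) (nat_lit 32) (nat_lit 5) (nat_lit 33) (nat_lit 5) (nat_lit 393) (nat_lit 367) (nat_lit 260)) (XT.lf (nat_lit 0) (nat_lit 60326790200) (nat_lit 228) (nat_lit 44602336026) (nat_lit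 76) (nat_lit 5129953956) (nat_lit 30) (nat_lit 5) (nat_lit 33) (nat_lit 5) (nat_lit 31) (nat_lit 4) (nat_lit 394) (nat_lit 367) (nat_lit 259)))))) (XT.nd (nat_lit 390) (nat_lit 304) (nat_lit 0) (XT.nd (nat_lit 156) (nat_lit 228) (nat_lit 0) (XT.nd (nat_lit 78) (nat_lit 76) (nat_lit 0) (XT.lf (nat_lit 0) (nat_lit 17473680117) (nat_lit 76) (nat_lit 72698836611) (nat_lit 152) (nat_lit 25667158364) (nat_lit 29) (nat_lit 5) (nat_lit 30) (nat_lit 5) (nat_lit 31) (nat_lit 4) (nat_lit 395) (nat_lit 367) (nat_lit 258)) (XT.lf (nat_lit 0) (nat_lit 1556791694) (nat_lit 152) (nat_lit 34974703515) (nat_lit 76) (nat_lit 85450619058) (nat_lit 28) (nat_lit 5) (nat_lit 30) (nat_lit 5) (nat_lit 29) (nat_lit 5) (nat_lit 396) (nat_lit 367) (nat_lit 257))) (XT.nd (nat_lit 78) (nat_lit 76) (nat_lit 0) (XT.lf (nat_lit 0) (nat_lit 30501222582) (nat_lit 228) (nat_lit 94048821796) (nat_lit 76) (nat_lit 3938229633)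 (nat_lit 26) (nat_lit 5) (nat_lit 29) (nat_lit 5) (nat_lit 27) (nat_lit 4) (nat_lit 397) (nat_lit 367) (nat_lit 256)) (XT.nd (nat_lit 78) (nat_lit 76) (nat_lit 0) (XT.lf (nat_lit 0) (nat_lit 63689903708) (nat_lit 228) (nat_lit 25018639999) (nat_lit 76) (nat_lit 46652087567) (nat_lit 26) (nat_lit 5) (nat_lit 29) (nat_lit 5) (nat_lit 27) (nat_lit 4) (nat_lit 398) (nat_lit 367) (nat_lit 255)) (XT.lf (nat_lit 0) (nat_lit 52140094985) (nat_lit 76) (nat_lit 48646367095) (nat_lit 152) (nat_lit 41896092788) (nat_lit 25) (nat_lit 5) (nat_lit 26) (nat_lit 5) (nat_lit 27) (nat_lit 4) (nat_lit 399) (nat_lit 367) (nat_lit 254))))) (XT.nd (nat_lit 156) (nat_lit 152) (nat_lit 0) (XT.nd (nat_lit 78) (nat_lit 152) (nat_lit 0) (XT.lf (nat_lit 0) (nat_lit 136892294590) (nat_lit 76) (nat_lit 4641354992) (nat_lit 152) (nat_lit 9001950755) (nat_lit 25) (nat_lit 5) (nat_lit 26) (nat_lit 5) (nat_lit 27) (nat_lit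 4) (nat_lit 400) (nat_lit 367) (nat_lit 253)) (XT.lf (nat_lit 0) (nat_lit 28029896108) (nat_lit 152) (nat_lit 87530688748) (nat_lit 76) (nat_lit 43178633389) (nat_lit 23) (nat_lit 5) (nat_lit 25) (nat_lit 5) (nat_lit 24) (nat_lit 4) (nat_lit 401) (nat_lit 367) (nat_lit 252))) (XT.nd (nat_lit 78) (nat_lit 152) (nat_lit 0) (XT.lf (nat_lit 0) (nat_lit 68040149181) (nat_lit 152) (nat_lit 4310910644) (nat_lit 76) (nat_lit 95189184871) (nat_lit 23) (nat_lit 5) (nat_lit 25) (nat_lit 5) (nat_lit 24) (nat_lit 4) (nat_lit 402) (nat_lit 367) (nat_lit 251)) (XT.nd (nat_lit 78) (nat_lit 76) (nat_lit 0) (XT.lf (nat_lit 0) (nat_lit 90070292217) (nat_lit 76) (nat_lit 23346124494) (nat_lit 152) (nat_lit 63455721269) (nat_lit 22) (nat_lit 5) (nat_lit 23) (nat_lit 5) (nat_lit 24) (nat_lit 4) (nat_lit 403) (nat_lit 367) (nat_lit 250)) (XT.lf (nat_lit 0) (nat_lit 4831397716) (nat_lit 76) (nat_lit 158538905775)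 (nat_lit 76) (nat_lit 23504478042) (nat_lit 21) (nat_lit 4) (nat_lit 22) (nat_lit 5) (nat_lit 22) (nat_lit 4) (nat_lit 404) (nat_lit 367) (nat_lit 249))))))) (XT.nd (nat_lit 780) (nat_lit 380) (nat_lit 0) (XT.nd (nat_lit 390) (nat_lit 228) (nat_lit 0) (XT.nd (nat_lit 156) (nat_lit 152) (nat_lit 0) (XT.nd (nat_lit 78) (nat_lit 76) (nat_lit 0) (XT.lf (nat_lit 0) (nat_lit 21700619985) (nat_lit 152) (nat_lit 89898276202) (nat_lit 76) (nat_lit 85797717996) (nat_lit 20) (nat_lit 5) (nat_lit 22) (nat_lit 5) (nat_lit 21) (nat_lit 4) (nat_lit 405) (nat_lit 367) (nat_lit 248)) (XT.lf (nat_lit 0) (nat_lit 9480468199) (nat_lit 76) (nat_lit 59998900892) (nat_lit 152) (nat_lit 139213816420) (nat_lit 19) (nat_lit 5) (nat_lit 20) (nat_lit 5) (nat_lit 21) (nat_lit 4) (nat_lit 406) (nat_lit 367) (nat_lit 247))) (XT.nd (nat_lit 78) (nat_lit 152) (nat_lit 0) (XT.lf (nat_lit 0) (nat_lit 121920432938) (nat_lit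 76) (nat_lit 1617080587) (nat_lit 152) (nat_lit 97159401561) (nat_lit 19) (nat_lit 5) (nat_lit 20) (nat_lit 5) (nat_lit 21) (nat_lit 4) (nat_lit 407) (nat_lit 367) (nat_lit 246)) (XT.nd (nat_lit 78) (nat_lit 76) (nat_lit 0) (XT.lf (nat_lit 0) (nat_lit 8648149410) (nat_lit 76) (nat_lit 174956833386) (nat_lit 76) (nat_lit 49921186527) (nat_lit 18) (nat_lit 4) (nat_lit 19) (nat_lit 5) (nat_lit 19) (nat_lit 4) (nat_lit 408) (nat_lit 367) (nat_lit 245)) (XT.lf (nat_lit 0) (nat_lit 3853298096) (nat_lit 152) (nat_lit 117021561348) (nat_lit 76) (nat_lit 126279832278) (nat_lit 17) (nat_lit 5) (nat_lit 19) (nat_lit 5) (nat_lit 18) (nat_lit 4) (nat_lit 409) (nat_lit 367) (nat_lit 244))))) (XT.nd (nat_lit 156) (nat_lit 152) (nat_lit 0) (XT.nd (nat_lit 78) (nat_lit 76) (nat_lit 0) (XT.lf (nat_lit 0) (nat_lit 59231930572) (nat_lit 152) (nat_lit 1834722955) (nat_lit 76) (nat_lit 200703171793) (nat_lit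 17) (nat_lit 5) (nat_lit 19) (nat_lit 5) (nat_lit 18) (nat_lit 4) (nat_lit 410) (nat_lit 367) (nat_lit 243)) (XT.lf (nat_lit 0) (nat_lit 122308454457) (nat_lit 152) (nat_lit 148451595873) (nat_lit 0) (nat_lit 6532711327) (nat_lit 16) (nat_lit 5) (nat_lit 18) (nat_lit 4) (nat_lit 16) (nat_lit 4) (nat_lit 411) (nat_lit 367) (nat_lit 242))) (XT.nd (nat_lit 78) (nat_lit 152) (nat_lit 0) (XT.lf (nat_lit 0) (nat_lit 192068006629) (nat_lit 152) (nat_lit 25566879674) (nat_lit 0) (nat_lit 76291694196) (nat_lit 16) (nat_lit 5) (nat_lit 18) (nat_lit 4) (nat_lit 16) (nat_lit 4) (nat_lit 412) (nat_lit 367) (nat_lit 241)) (XT.nd (nat_lit 78) (nat_lit 76) (nat_lit 0) (XT.lf (nat_lit 0) (nat_lit 112789526767) (nat_lit 76) (nat_lit 157330731463) (nat_lit 76) (nat_lit 41553891899) (nat_lit 15) (nat_lit 4) (nat_lit 16) (nat_lit 5) (nat_lit 16) (nat_lit 4) (nat_lit 413) (nat_lit 367) (nat_lit 240)) (XT.lf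 (nat_lit 0) (nat_lit 23112386640) (nat_lit 152) (nat_lit 67703563438) (nat_lit 76) (nat_lit 239922892897) (nat_lit 14) (nat_lit 5) (nat_lit 16) (nat_lit 5) (nat_lit 15) (nat_lit 4) (nat_lit 414) (nat_lit 367) (nat_lit 239)))))) (XT.nd (nat_lit 390) (nat_lit 152) (nat_lit 0) (XT.nd (nat_lit 156) (nat_lit 152) (nat_lit 0) (XT.nd (nat_lit 78) (nat_lit 0) (nat_lit 0) (XT.lf (nat_lit 0) (nat_lit 76729811859) (nat_lit 76) (nat_lit 15821914794) (nat_lit 152) (nat_lit 258543059032) (nat_lit 13) (nat_lit 5) (nat_lit 14) (nat_lit 5) (nat_lit 15) (nat_lit 4) (nat_lit 415) (nat_lit 367) (nat_lit 238)) (XT.lf (nat_lit 0) (nat_lit 171012208640) (nat_lit 152) (nat_lit 137979542241) (nat_lit 0) (nat_lit 63810173422) (nat_lit 13) (nat_lit 5) (nat_lit 15) (nat_lit 4) (nat_lit 13) (nat_lit 4) (nat_lit 416) (nat_lit 367) (nat_lit 237))) (XT.nd (nat_lit 78) (nat_lit 76) (nat_lit 0) (XT.lf (nat_lit 0) (nat_lit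 9373569845) (nat_lit 76) (nat_lit 247011795653) (nat_lit 76) (nat_lit 139809401678) (nat_lit 12) (nat_lit 4) (nat_lit 13) (nat_lit 5) (nat_lit 13) (nat_lit 4) (nat_lit 417) (nat_lit 367) (nat_lit 236)) (XT.nd (nat_lit 78) (nat_lit 76) (nat_lit 0) (XT.lf (nat_lit 0) (nat_lit 176360878425) (nat_lit 76) (nat_lit 175999560092) (nat_lit 76) (nat_lit 68796833934) (nat_lit 12) (nat_lit 4) (nat_lit 13) (nat_lit 5) (nat_lit 13) (nat_lit 4) (nat_lit 418) (nat_lit 367) (nat_lit 235)) (XT.lf (nat_lit 0) (nat_lit 7501197795) (nat_lit 152) (nat_lit 91600542320) (nat_lit 76) (nat_lit 348999885911) (nat_lit 11) (nat_lit 5) (nat_lit 13) (nat_lit 5) (nat_lit 12) (nat_lit 4) (nat_lit 419) (nat_lit 367) (nat_lit 234))))) (XT.nd (nat_lit 234) (nat_lit 76) (nat_lit 0) (XT.nd (nat_lit 78) (nat_lit 0) (nat_lit 0) (XT.lf (nat_lit 0) (nat_lit 75857818469) (nat_lit 76) (nat_lit 12152343548) (nat_lit 152) (nat_lit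 388902498986) (nat_lit 10) (nat_lit 5) (nat_lit 11) (nat_lit 5) (nat_lit 12) (nat_lit 4) (nat_lit 420) (nat_lit 367) (nat_lit 233)) (XT.nd (nat_lit 78) (nat_lit 0) (nat_lit 0) (XT.lf (nat_lit 0) (nat_lit 179495104518) (nat_lit 152) (nat_lit 247938125033) (nat_lit 0) (nat_lit 80232528384) (nat_lit 10) (nat_lit 5) (nat_lit 12) (nat_lit 4) (nat_lit 10) (nat_lit 4) (nat_lit 421) (nat_lit 367) (nat_lit 232)) (XT.lf (nat_lit 0) (nat_lit 278614048589) (nat_lit 152) (nat_lit 82888591203) (nat_lit 0) (nat_lit 179351246377) (nat_lit 10) (nat_lit 5) (nat_lit 12) (nat_lit 4) (nat_lit 10) (nat_lit 4) (nat_lit 422) (nat_lit 367) (nat_lit 231)))) (XT.nd (nat_lit 78) (nat_lit 0) (nat_lit 0) (XT.lf (nat_lit 0) (nat_lit 100385798632) (nat_lit 76) (nat_lit 287690583835) (nat_lit 76) (nat_lit 188427572292) (nat_lit 9) (nat_lit 4) (nat_lit 10) (nat_lit 5) (nat_lit 10) (nat_lit 4) (nat_lit 423) (nat_lit 367)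 (nat_lit 230)) (XT.nd (nat_lit 78) (nat_lit 0) (nat_lit 0) (XT.lf (nat_lit 0) (nat_lit 303035296900) (nat_lit 76) (nat_lit 205526331652) (nat_lit 76) (nat_lit 106263126283) (nat_lit 9) (nat_lit 4) (nat_lit 10) (nat_lit 5) (nat_lit 10) (nat_lit 4) (nat_lit 424) (nat_lit 367) (nat_lit 229)) (XT.lf (nat_lit 0) (nat_lit 521896023194) (nat_lit 76) (nat_lit 116789304944) (nat_lit 76) (nat_lit 17525920107) (nat_lit 9) (nat_lit 4) (nat_lit 10) (nat_lit 5) (nat_lit 10) (nat_lit 4) (nat_lit 425) (nat_lit 367) (nat_lit 228))))))))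
noncomputable def xc167 : XT := (XT.nd (nat_lit 1638) (nat_lit 152) (nat_lit 0) (XT.nd (nat_lit 780) (nat_lit 76) (nat_lit 0) (XT.nd (nat_lit 390) (nat_lit 152) (nat_lit 0) (XT.nd (nat_lit 156) (nat_lit 76) (nat_lit 0) (XT.nd (nat_lit 78) (nat_lit 0) (nat_lit 0) (XT.lf (nat_lit 0) (nat_lit 58393990700) (nat_lit 76) (nat_lit 17402904352) (nat_lit 152) (nat_lit 624848774691) (nat_lit 7) (nat_lit 5) (nat_lit 8) (nat_lit 5) (nat_lit 9) (nat_lit 4) (nat_lit 426) (nat_lit 367) (nat_lit 227)) (XT.lf (nat_lit 0) (nat_lit 181569062304) (nat_lit 152) (nat_lit 476896710188) (nat_lit 0) (nat_lit 89658224457) (nat_lit 7) (nat_lit 5) (nat_lit 9) (nat_lit 4) (nat_lit 7) (nat_lit 4) (nat_lit 427) (nat_lit 367) (nat_lit 226))) (XT.nd (nat_lit 78) (nat_lit 76) (nat_lit 0) (XT.lf (nat_lit 0) (nat_lit 296254705484) (nat_lit 152) (nat_lit 298766012946) (nat_lit 0) (nat_lit 204343735723) (nat_lit 7) (nat_lit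 5) (nat_lit 9) (nat_lit 4) (nat_lit 7) (nat_lit 4) (nat_lit 428) (nat_lit 367) (nat_lit 225)) (XT.nd (nat_lit 78) (nat_lit 76) (nat_lit 0) (XT.lf (nat_lit 0) (nat_lit 420114902951) (nat_lit 152) (nat_lit 106385457732) (nat_lit 0) (nat_lit 328203811047) (nat_lit 7) (nat_lit 5) (nat_lit 9) (nat_lit 4) (nat_lit 7) (nat_lit 4) (nat_lit 429) (nat_lit 367) (nat_lit 224)) (XT.lf (nat_lit 0) (nat_lit 106723742191) (nat_lit 76) (nat_lit 449726607435) (nat_lit 76) (nat_lit 357815402435) (nat_lit 6) (nat_lit 4) (nat_lit 7) (nat_lit 5) (nat_lit 7) (nat_lit 4) (nat_lit 430) (nat_lit 367) (nat_lit 223))))) (XT.nd (nat_lit 156) (nat_lit 152) (nat_lit 0) (XT.nd (nat_lit 78) (nat_lit 0) (nat_lit 0) (XT.lf (nat_lit 0) (nat_lit 342931373843) (nat_lit 76) (nat_lit 363669757389) (nat_lit 76) (nat_lit 271758447671) (nat_lit 6) (nat_lit 4) (nat_lit 7) (nat_lit 5) (nat_lit 7) (nat_lit 4) (nat_lit 431) (nat_lit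 367) (nat_lit 222)) (XT.lf (nat_lit 0) (nat_lit 598035116480) (nat_lit 76) (nat_lit 270728610972) (nat_lit 76) (nat_lit 178817204293) (nat_lit 6) (nat_lit 4) (nat_lit 7) (nat_lit 5) (nat_lit 7) (nat_lit 4) (nat_lit 432) (nat_lit 367) (nat_lit 221))) (XT.nd (nat_lit 78) (nat_lit 152) (nat_lit 0) (XT.lf (nat_lit 0) (nat_lit 873546695982) (nat_lit 76) (nat_lit 170352405835) (nat_lit 76) (nat_lit 78440909378) (nat_lit 6) (nat_lit 4) (nat_lit 7) (nat_lit 5) (nat_lit 7) (nat_lit 4) (nat_lit 433) (nat_lit 367) (nat_lit 220)) (XT.nd (nat_lit 78) (nat_lit 76) (nat_lit 0) (XT.lf (nat_lit 0) (nat_lit 28466275920) (nat_lit 152) (nat_lit 32701725671) (nat_lit 76) (nat_lit 1141854179212) (nat_lit 5) (nat_lit 5) (nat_lit 7) (nat_lit 5) (nat_lit 6) (nat_lit 4) (nat_lit 434) (nat_lit 367) (nat_lit 219)) (XT.lf (nat_lit 0) (nat_lit 146265233282) (nat_lit 152) (nat_lit 1082042685531) (nat_lit 0) (nat_lit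 61161847581) (nat_lit 4) (nat_lit 5) (nat_lit 6) (nat_lit 4) (nat_lit 4) (nat_lit 4) (nat_lit 435) (nat_lit 367) (nat_lit 218)))))) (XT.nd (nat_lit 390) (nat_lit 76) (nat_lit 0) (XT.nd (nat_lit 156) (nat_lit 0) (nat_lit 0) (XT.nd (nat_lit 78) (nat_lit 0) (nat_lit 0) (XT.lf (nat_lit 0) (nat_lit 275994032269) (nat_lit 152) (nat_lit 915748071996) (nat_lit 0) (nat_lit 190890580578) (nat_lit 4) (nat_lit 5) (nat_lit 6) (nat_lit 4) (nat_lit 4) (nat_lit 4) (nat_lit 436) (nat_lit 367) (nat_lit 217)) (XT.lf (nat_lit 0) (nat_lit 416100948752) (nat_lit 152) (nat_lit 736150266980) (nat_lit 0) (nat_lit 330997435960) (nat_lit 4) (nat_lit 5) (nat_lit 6) (nat_lit 4) (nat_lit 4) (nat_lit 4) (nat_lit 437) (nat_lit 367) (nat_lit 216))) (XT.nd (nat_lit 78) (nat_lit 0) (nat_lit 0) (XT.lf (nat_lit 0) (nat_lit 567416245942) (nat_lit 152) (nat_lit 542184987193) (nat_lit 0) (nat_lit 482312676574) (nat_lit 4) (nat_lit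 5) (nat_lit 6) (nat_lit 4) (nat_lit 4) (nat_lit 4) (nat_lit 438) (nat_lit 367) (nat_lit 215)) (XT.nd (nat_lit 78) (nat_lit 0) (nat_lit 0) (XT.lf (nat_lit 0) (nat_lit 730836607080) (nat_lit 152) (nat_lit 332702808757) (nat_lit 0) (nat_lit 645732985327) (nat_lit 4) (nat_lit 5) (nat_lit 6) (nat_lit 4) (nat_lit 4) (nat_lit 4) (nat_lit 439) (nat_lit 367) (nat_lit 214)) (XT.lf (nat_lit 0) (nat_lit 907330449122) (nat_lit 152) (nat_lit 106462355799) (nat_lit 0) (nat_lit 822226778864) (nat_lit 4) (nat_lit 5) (nat_lit 6) (nat_lit 4) (nat_lit 4) (nat_lit 4) (nat_lit 440) (nat_lit 367) (nat_lit 213))))) (XT.nd (nat_lit 234) (nat_lit 0) (nat_lit 0) (XT.nd (nat_lit 78) (nat_lit 0) (nat_lit 0) (XT.lf (nat_lit 0) (nat_lit 145137417269) (nat_lit 76) (nat_lit 956296802607) (nat_lit 76) (nat_lit 871193087438) (nat_lit 3) (nat_lit 4) (nat_lit 4) (nat_lit 5) (nat_lit 4) (nat_lit 4) (nat_lit 441) (nat_lit 367)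 (nat_lit 212)) (XT.nd (nat_lit 78) (nat_lit 0) (nat_lit 0) (XT.lf (nat_lit 0) (nat_lit 422919510168) (nat_lit 76) (nat_lit 891057518216) (nat_lit 76) (nat_lit 805953761462) (nat_lit 3) (nat_lit 4) (nat_lit 4) (nat_lit 5) (nat_lit 4) (nat_lit 4) (nat_lit 442) (nat_lit 367) (nat_lit 211)) (XT.lf (nat_lit 0) (nat_lit 722923920017) (nat_lit 76) (nat_lit 820599218055) (nat_lit 76) (nat_lit 735495422797) (nat_lit 3) (nat_lit 4) (nat_lit 4) (nat_lit 5) (nat_lit 4) (nat_lit 4) (nat_lit 443) (nat_lit 367) (nat_lit 210)))) (XT.nd (nat_lit 78) (nat_lit 0) (nat_lit 0) (XT.lf (nat_lit 0) (nat_lit 1046928450724) (nat_lit 76) (nat_lit 744504371458) (nat_lit 76) (nat_lit 659400540547) (nat_lit 3) (nat_lit 4) (nat_lit 4) (nat_lit 5) (nat_lit 4) (nat_lit 4) (nat_lit 444) (nat_lit 367) (nat_lit 209)) (XT.nd (nat_lit 78) (nat_lit 0) (nat_lit 0) (XT.lf (nat_lit 0) (nat_lit 1396853129138) (nat_lit 76) (nat_lit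 662322045999) (nat_lit 76) (nat_lit 577218182076) (nat_lit 3) (nat_lit 4) (nat_lit 4) (nat_lit 5) (nat_lit 4) (nat_lit 4) (nat_lit 445) (nat_lit 367) (nat_lit 208)) (XT.lf (nat_lit 0) (nat_lit 1774771582983) (nat_lit 76) (nat_lit 573565235306) (nat_lit 76) (nat_lit 488461340817) (nat_lit 3) (nat_lit 4) (nat_lit 4) (nat_lit 5) (nat_lit 4) (nat_lit 4) (nat_lit 446) (nat_lit 367) (nat_lit 207))))))) (XT.nd (nat_lit 780) (nat_lit 0) (nat_lit 0) (XT.nd (nat_lit 390) (nat_lit 0) (nat_lit 0) (XT.nd (nat_lit 156) (nat_lit 152) (nat_lit 0) (XT.nd (nat_lit 78) (nat_lit 0) (nat_lit 0) (XT.lf (nat_lit 0) (nat_lit 2182923329024) (nat_lit 76) (nat_lit 477707973092) (nat_lit 76) (nat_lit 392604050302) (nat_lit 3) (nat_lit 4) (nat_lit 4) (nat_lit 5) (nat_lit 4) (nat_lit 4) (nat_lit 447) (nat_lit 367) (nat_lit 206)) (XT.lf (nat_lit 0) (nat_lit 2623727044272) (nat_lit 76) (nat_lit 374182216324) (nat_lit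 76) (nat_lit 289078267328) (nat_lit 3) (nat_lit 4) (nat_lit 4) (nat_lit 5) (nat_lit 4) (nat_lit 4) (nat_lit 448) (nat_lit 367) (nat_lit 205))) (XT.nd (nat_lit 78) (nat_lit 152) (nat_lit 0) (XT.lf (nat_lit 0) (nat_lit 3099794898894) (nat_lit 76) (nat_lit 262374479034) (nat_lit 76) (nat_lit 177270505773) (nat_lit 3) (nat_lit 4) (nat_lit 4) (nat_lit 5) (nat_lit 4) (nat_lit 4) (nat_lit 449) (nat_lit 367) (nat_lit 204)) (XT.nd (nat_lit 78) (nat_lit 152) (nat_lit 0) (XT.lf (nat_lit 0) (nat_lit 3613948035730) (nat_lit 76) (nat_lit 141622196854) (nat_lit 76) (nat_lit 56518201126) (nat_lit 3) (nat_lit 4) (nat_lit 4) (nat_lit 5) (nat_lit 4) (nat_lit 4) (nat_lit 450) (nat_lit 367) (nat_lit 203)) (XT.lf (nat_lit 0) (nat_lit 64114525696) (nat_lit 76) (nat_lit 7625158066) (nat_lit 152) (nat_lit 4034543660215) (nat_lit 1) (nat_lit 5) (nat_lit 2) (nat_lit 5) (nat_lit 3) (nat_lit 4) (nat_lit 451) (nat_lit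 367) (nat_lit 202))))) (XT.nd (nat_lit 156) (nat_lit 0) (nat_lit 0) (XT.nd (nat_lit 78) (nat_lit 0) (nat_lit 0) (XT.lf (nat_lit 0) (nat_lit 216059961758) (nat_lit 152) (nat_lit 4069868099221) (nat_lit 0) (nat_lit 137259928617) (nat_lit 1) (nat_lit 5) (nat_lit 3) (nat_lit 4) (nat_lit 1) (nat_lit 4) (nat_lit 452) (nat_lit 367) (nat_lit 201)) (XT.lf (nat_lit 0) (nat_lit 372123854806) (nat_lit 152) (nat_lit 4099981507486) (nat_lit 0) (nat_lit 293323805151) (nat_lit 1) (nat_lit 5) (nat_lit 3) (nat_lit 4) (nat_lit 1) (nat_lit 4) (nat_lit 453) (nat_lit 367) (nat_lit 200))) (XT.nd (nat_lit 78) (nat_lit 0) (nat_lit 0) (XT.lf (nat_lit 0) (nat_lit 540672800741) (nat_lit 152) (nat_lit 4132504107669) (nat_lit 0) (nat_lit 461872735795) (nat_lit 1) (nat_lit 5) (nat_lit 3) (nat_lit 4) (nat_lit 1) (nat_lit 4) (nat_lit 454) (nat_lit 367) (nat_lit 199)) (XT.nd (nat_lit 78) (nat_lit 0) (nat_lit 0) (XT.lf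 (nat_lit 0) (nat_lit 722705608132) (nat_lit 152) (nat_lit 4167628626289) (nat_lit 0) (nat_lit 643905529028) (nat_lit 1) (nat_lit 5) (nat_lit 3) (nat_lit 4) (nat_lit 1) (nat_lit 4) (nat_lit 455) (nat_lit 367) (nat_lit 198)) (XT.lf (nat_lit 0) (nat_lit 919300989910) (nat_lit 152) (nat_lit 4205563208643) (nat_lit 0) (nat_lit 840500897698) (nat_lit 1) (nat_lit 5) (nat_lit 3) (nat_lit 4) (nat_lit 1) (nat_lit 4) (nat_lit 456) (nat_lit 367) (nat_lit 197)))))) (XT.nd (nat_lit 46254) (nat_lit 0) (nat_lit 4408) (XT.nd (nat_lit 156) (nat_lit 0) (nat_lit 0) (XT.nd (nat_lit 78) (nat_lit 0) (nat_lit 0) (XT.lf (nat_lit 0) (nat_lit 1131623955747) (nat_lit 152) (nat_lit 4246532652254) (nat_lit 0) (nat_lit 1052823851396) (nat_lit 1) (nat_lit 5) (nat_lit 3) (nat_lit 4) (nat_lit 1) (nat_lit 4) (nat_lit 457) (nat_lit 367) (nat_lit 196)) (XT.lf (nat_lit 0) (nat_lit 1360932715810) (nat_lit 152) (nat_lit 4290779739011)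 (nat_lit 0) (nat_lit 1282132600220) (nat_lit 1) (nat_lit 5) (nat_lit 3) (nat_lit 4) (nat_lit 1) (nat_lit 4) (nat_lit 458) (nat_lit 367) (nat_lit 195))) (XT.nd (nat_lit 78) (nat_lit 0) (nat_lit 0) (XT.lf (nat_lit 0) (nat_lit 1608586136826) (nat_lit 152) (nat_lit 4338566673873) (nat_lit 0) (nat_lit 1529786010829) (nat_lit 1) (nat_lit 5) (nat_lit 3) (nat_lit 4) (nat_lit 1) (nat_lit 4) (nat_lit 459) (nat_lit 367) (nat_lit 194)) (XT.nd (nat_lit 45942) (nat_lit 0) (nat_lit 4788) (XT.lf (nat_lit 0) (nat_lit 1876051794622) (nat_lit 152) (nat_lit 4390176638675) (nat_lit 0) (nat_lit 1797251658989) (nat_lit 1) (nat_lit 5) (nat_lit 3) (nat_lit 4) (nat_lit 1) (nat_lit 4) (nat_lit 460) (nat_lit 367) (nat_lit 193)) (XT.lf (nat_lit 0) (nat_lit 15252958689) (nat_lit 532) (nat_lit 1153962950) (nat_lit 532) (nat_lit 1153962950) (nat_lit 64) (nat_lit 3) (nat_lit 71) (nat_lit 3) (nat_lit 71) (nat_lit 5) (nat_lit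 368) (nat_lit 368) (nat_lit 284))))) (XT.nd (nat_lit 234) (nat_lit 380) (nat_lit 0) (XT.nd (nat_lit 78) (nat_lit 0) (nat_lit 76) (XT.lf (nat_lit 76) (nat_lit 15540042651) (nat_lit 0) (nat_lit 16609581543) (nat_lit 532) (nat_lit 4343091102) (nat_lit 65) (nat_lit 5) (nat_lit 64) (nat_lit 3) (nat_lit 71) (nat_lit 5) (nat_lit 369) (nat_lit 368) (nat_lit 283)) (XT.nd (nat_lit 78) (nat_lit 0) (nat_lit 0) (XT.lf (nat_lit 0) (nat_lit 34006008030) (nat_lit 456) (nat_lit 3047546693) (nat_lit 532) (nat_lit 913292647) (nat_lit 65) (nat_lit 5) (nat_lit 71) (nat_lit 5) (nat_lit 72) (nat_lit 5) (nat_lit 370) (nat_lit 368) (nat_lit 282)) (XT.lf (nat_lit 76) (nat_lit 16690447074) (nat_lit 0) (nat_lit 20148658089) (nat_lit 532) (nat_lit 2653552996) (nat_lit 66) (nat_lit 5) (nat_lit 65) (nat_lit 5) (nat_lit 72) (nat_lit 5) (nat_lit 371) (nat_lit 368) (nat_lit 281)))) (XT.nd (nat_lit 78) (nat_lit 456) (nat_lit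 0) (XT.lf (nat_lit 76) (nat_lit 38177825880) (nat_lit 0) (nat_lit 1799999574) (nat_lit 532) (nat_lit 1156394361) (nat_lit 66) (nat_lit 5) (nat_lit 65) (nat_lit 5) (nat_lit 72) (nat_lit 5) (nat_lit 372) (nat_lit 368) (nat_lit 280)) (XT.nd (nat_lit 78) (nat_lit 0) (nat_lit 0) (XT.lf (nat_lit 0) (nat_lit 1346536811) (nat_lit 532) (nat_lit 23879644743) (nat_lit 608) (nat_lit 17607319216) (nat_lit 59) (nat_lit 5) (nat_lit 66) (nat_lit 5) (nat_lit 67) (nat_lit 5) (nat_lit 373) (nat_lit 368) (nat_lit 279)) (XT.lf (nat_lit 0) (nat_lit 4113037892) (nat_lit 532) (nat_lit 1959324136) (nat_lit 608) (nat_lit 38583897617) (nat_lit 59) (nat_lit 5) (nat_lit 66) (nat_lit 5) (nat_lit 67) (nat_lit 5) (nat_lit 374) (nat_lit 368) (nat_lit 278))))))))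
noncomputable def xc168 : XT := (XT.nd (nat_lit 1560) (nat_lit 1216) (nat_lit 0) (XT.nd (nat_lit 780) (nat_lit 988) (nat_lit 0) (XT.nd (nat_lit 390) (nat_lit 684) (nat_lit 0) (XT.nd (nat_lit 156) (nat_lit 228) (nat_lit 0) (XT.nd (nat_lit 78) (nat_lit 380) (nat_lit 0) (XT.lf (nat_lit 0) (nat_lit 8012684908) (nat_lit 532) (nat_lit 24091987557) (nat_lit 76) (nat_lit 14447223663) (nat_lit 60) (nat_lit 5) (nat_lit 67) (nat_lit 5) (nat_lit 61) (nat_lit 5) (nat_lit 375) (nat_lit 368) (nat_lit 277)) (XT.lf (nat_lit 0) (nat_lit 196730472) (nat_lit 380) (nat_lit 12241609966) (nat_lit 456) (nat_lit 36143722899) (nat_lit 55) (nat_lit 5) (nat_lit 60) (nat_lit 5) (nat_lit 61) (nat_lit 5) (nat_lit 376) (nat_lit 368) (nat_lit 276))) (XT.nd (nat_lit 78) (nat_lit 228) (nat_lit 0) (XT.lf (nat_lit 0) (nat_lit 18112184355) (nat_lit 456) (nat_lit 23165276116) (nat_lit 76) (nat_lit 9425655118) (nat_lit 55) (nat_lit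 5) (nat_lit 61) (nat_lit 5) (nat_lit 56) (nat_lit 5) (nat_lit 377) (nat_lit 368) (nat_lit 275)) (XT.nd (nat_lit 78) (nat_lit 0) (nat_lit 0) (XT.lf (nat_lit 0) (nat_lit 3948822178) (nat_lit 228) (nat_lit 20701080174) (nat_lit 304) (nat_lit 28311154698) (nat_lit 52) (nat_lit 5) (nat_lit 55) (nat_lit 5) (nat_lit 56) (nat_lit 5) (nat_lit 378) (nat_lit 368) (nat_lit 274)) (XT.lf (nat_lit 0) (nat_lit 32394232866) (nat_lit 304) (nat_lit 20855804669) (nat_lit 76) (nat_lit 2094910866) (nat_lit 52) (nat_lit 5) (nat_lit 56) (nat_lit 5) (nat_lit 53) (nat_lit 5) (nat_lit 379) (nat_lit 368) (nat_lit 273))))) (XT.nd (nat_lit 156) (nat_lit 456) (nat_lit 0) (XT.nd (nat_lit 78) (nat_lit 0) (nat_lit 0) (XT.lf (nat_lit 0) (nat_lit 9486992187) (nat_lit 228) (nat_lit 32034353748) (nat_lit 304) (nat_lit 16337148256) (nat_lit 49) (nat_lit 5) (nat_lit 52) (nat_lit 5) (nat_lit 53) (nat_lit 5) (nat_lit 380) (nat_lit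 368) (nat_lit 272)) (XT.lf (nat_lit 0) (nat_lit 43440342584) (nat_lit 228) (nat_lit 8506026134) (nat_lit 304) (nat_lit 8581337541) (nat_lit 49) (nat_lit 5) (nat_lit 52) (nat_lit 5) (nat_lit 53) (nat_lit 5) (nat_lit 381) (nat_lit 368) (nat_lit 271))) (XT.nd (nat_lit 78) (nat_lit 228) (nat_lit 0) (XT.lf (nat_lit 0) (nat_lit 643047509) (nat_lit 228) (nat_lit 46213565836) (nat_lit 76) (nat_lit 16487209974) (nat_lit 46) (nat_lit 5) (nat_lit 49) (nat_lit 5) (nat_lit 47) (nat_lit 5) (nat_lit 382) (nat_lit 368) (nat_lit 270)) (XT.nd (nat_lit 78) (nat_lit 228) (nat_lit 0) (XT.lf (nat_lit 0) (nat_lit 10839762638) (nat_lit 228) (nat_lit 11749717435) (nat_lit 76) (nat_lit 43722080252) (nat_lit 46) (nat_lit 5) (nat_lit 49) (nat_lit 5) (nat_lit 47) (nat_lit 5) (nat_lit 383) (nat_lit 368) (nat_lit 269)) (XT.lf (nat_lit 0) (nat_lit 22598649983) (nat_lit 304) (nat_lit 42759452703) (nat_lit 76) (nat_lit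 4098900180) (nat_lit 43) (nat_lit 5) (nat_lit 47) (nat_lit 5) (nat_lit 44) (nat_lit 5) (nat_lit 384) (nat_lit 368) (nat_lit 268)))))) (XT.nd (nat_lit 390) (nat_lit 456) (nat_lit 0) (XT.nd (nat_lit 156) (nat_lit 380) (nat_lit 0) (XT.nd (nat_lit 78) (nat_lit 152) (nat_lit 0) (XT.lf (nat_lit 0) (nat_lit 36212559757) (nat_lit 304) (nat_lit 4537468743) (nat_lit 76) (nat_lit 32030908665) (nat_lit 43) (nat_lit 5) (nat_lit 47) (nat_lit 5) (nat_lit 44) (nat_lit 5) (nat_lit 385) (nat_lit 368) (nat_lit 267)) (XT.lf (nat_lit 0) (nat_lit 38674307884) (nat_lit 152) (nat_lit 13169512127) (nat_lit 228) (nat_lit 24452708359) (nat_lit 41) (nat_lit 5) (nat_lit 43) (nat_lit 5) (nat_lit 44) (nat_lit 5) (nat_lit 386) (nat_lit 368) (nat_lit 266))) (XT.nd (nat_lit 78) (nat_lit 228) (nat_lit 0) (XT.lf (nat_lit 0) (nat_lit 5381282991) (nat_lit 152) (nat_lit 63998832740) (nat_lit 228) (nat_lit 10660889460) (nat_lit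 39) (nat_lit 5) (nat_lit 41) (nat_lit 5) (nat_lit 42) (nat_lit 5) (nat_lit 387) (nat_lit 368) (nat_lit 265)) (XT.nd (nat_lit 78) (nat_lit 152) (nat_lit 0) (XT.lf (nat_lit 0) (nat_lit 5418106859) (nat_lit 228) (nat_lit 30511390398) (nat_lit 76) (nat_lit 48035745284) (nat_lit 38) (nat_lit 5) (nat_lit 41) (nat_lit 5) (nat_lit 39) (nat_lit 5) (nat_lit 388) (nat_lit 368) (nat_lit 264)) (XT.lf (nat_lit 0) (nat_lit 17778767110) (nat_lit 152) (nat_lit 4854609193) (nat_lit 228) (nat_lit 65513817474) (nat_lit 36) (nat_lit 5) (nat_lit 38) (nat_lit 5) (nat_lit 39) (nat_lit 5) (nat_lit 389) (nat_lit 368) (nat_lit 263))))) (XT.nd (nat_lit 156) (nat_lit 304) (nat_lit 0) (XT.nd (nat_lit 78) (nat_lit 152) (nat_lit 0) (XT.lf (nat_lit 0) (nat_lit 42770540548) (nat_lit 228) (nat_lit 21644215783) (nat_lit 76) (nat_lit 28125371725) (nat_lit 36) (nat_lit 5) (nat_lit 39) (nat_lit 5) (nat_lit 37) (nat_lit 5) (nat_lit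 390) (nat_lit 368) (nat_lit 262)) (XT.lf (nat_lit 0) (nat_lit 32473960200) (nat_lit 152) (nat_lit 32950313614) (nat_lit 228) (nat_lit 31787776333) (nat_lit 34) (nat_lit 5) (nat_lit 36) (nat_lit 5) (nat_lit 37) (nat_lit 5) (nat_lit 391) (nat_lit 368) (nat_lit 261))) (XT.nd (nat_lit 78) (nat_lit 304) (nat_lit 0) (XT.lf (nat_lit 0) (nat_lit 90520808279) (nat_lit 228) (nat_lit 10100433146) (nat_lit 76) (nat_lit 1586045066) (nat_lit 34) (nat_lit 5) (nat_lit 37) (nat_lit 5) (nat_lit 35) (nat_lit 4) (nat_lit 392) (nat_lit 368) (nat_lit 260)) (XT.nd (nat_lit 78) (nat_lit 152) (nat_lit 0) (XT.lf (nat_lit 0) (nat_lit 11646285318) (nat_lit 152) (nat_lit 57150903337) (nat_lit 76) (nat_lit 38615689647) (nat_lit 32) (nat_lit 5) (nat_lit 34) (nat_lit 5) (nat_lit 33) (nat_lit 5) (nat_lit 393) (nat_lit 368) (nat_lit 259)) (XT.lf (nat_lit 0) (nat_lit 2844307151) (nat_lit 152) (nat_lit 33720391800) (nat_lit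 228) (nat_lit 76417903271) (nat_lit 30) (nat_lit 5) (nat_lit 32) (nat_lit 5) (nat_lit 33) (nat_lit 5) (nat_lit 394) (nat_lit 368) (nat_lit 258))))))) (XT.nd (nat_lit 780) (nat_lit 608) (nat_lit 0) (XT.nd (nat_lit 390) (nat_lit 304) (nat_lit 0) (XT.nd (nat_lit 156) (nat_lit 228) (nat_lit 0) (XT.nd (nat_lit 78) (nat_lit 76) (nat_lit 0) (XT.lf (nat_lit 0) (nat_lit 65178574943) (nat_lit 228) (nat_lit 48126491982) (nat_lit 76) (nat_lit 5556678493) (nat_lit 30) (nat_lit 5) (nat_lit 33) (nat_lit 5) (nat_lit 31) (nat_lit 4) (nat_lit 395) (nat_lit 368) (nat_lit 257)) (XT.lf (nat_lit 0) (nat_lit 18914490745) (nat_lit 76) (nat_lit 78496601613) (nat_lit 152) (nat_lit 27693765673) (nat_lit 29) (nat_lit 5) (nat_lit 30) (nat_lit 5) (nat_lit 31) (nat_lit 4) (nat_lit 396) (nat_lit 368) (nat_lit 256))) (XT.nd (nat_lit 78) (nat_lit 152) (nat_lit 0) (XT.lf (nat_lit 0) (nat_lit 1704878037) (nat_lit 152) (nat_lit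 37731695001) (nat_lit 76) (nat_lit 92302219108) (nat_lit 28) (nat_lit 5) (nat_lit 30) (nat_lit 5) (nat_lit 29) (nat_lit 5) (nat_lit 397) (nat_lit 368) (nat_lit 255)) (XT.nd (nat_lit 78) (nat_lit 0) (nat_lit 0) (XT.lf (nat_lit 0) (nat_lit 32964493558) (nat_lit 228) (nat_lit 101531365662) (nat_lit 76) (nat_lit 4269615615) (nat_lit 26) (nat_lit 5) (nat_lit 29) (nat_lit 5) (nat_lit 27) (nat_lit 4) (nat_lit 398) (nat_lit 368) (nat_lit 254)) (XT.lf (nat_lit 0) (nat_lit 68806552643) (nat_lit 228) (nat_lit 26981833164) (nat_lit 76) (nat_lit 50399372731) (nat_lit 26) (nat_lit 5) (nat_lit 29) (nat_lit 5) (nat_lit 27) (nat_lit 4) (nat_lit 399) (nat_lit 368) (nat_lit 253))))) (XT.nd (nat_lit 156) (nat_lit 228) (nat_lit 0) (XT.nd (nat_lit 78) (nat_lit 0) (nat_lit 0) (XT.lf (nat_lit 0) (nat_lit 56348631048) (nat_lit 76) (nat_lit 52521513007) (nat_lit 152) (nat_lit 45225347792) (nat_lit 25) (nat_lit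 5) (nat_lit 26) (nat_lit 5) (nat_lit 27) (nat_lit 4) (nat_lit 400) (nat_lit 368) (nat_lit 252)) (XT.lf (nat_lit 0) (nat_lit 147878241550) (nat_lit 76) (nat_lit 4997326858) (nat_lit 152) (nat_lit 9701336058) (nat_lit 25) (nat_lit 5) (nat_lit 26) (nat_lit 5) (nat_lit 27) (nat_lit 4) (nat_lit 401) (nat_lit 368) (nat_lit 251))) (XT.nd (nat_lit 78) (nat_lit 76) (nat_lit 0) (XT.lf (nat_lit 0) (nat_lit 30291767812) (nat_lit 152) (nat_lit 94497279458) (nat_lit 76) (nat_lit 46647745104) (nat_lit 23) (nat_lit 5) (nat_lit 25) (nat_lit 5) (nat_lit 24) (nat_lit 4) (nat_lit 402) (nat_lit 368) (nat_lit 250)) (XT.nd (nat_lit 78) (nat_lit 76) (nat_lit 0) (XT.lf (nat_lit 0) (nat_lit 73501398167) (nat_lit 152) (nat_lit 4622575727) (nat_lit 76) (nat_lit 102818042849) (nat_lit 23) (nat_lit 5) (nat_lit 25) (nat_lit 5) (nat_lit 24) (nat_lit 4) (nat_lit 403) (nat_lit 368) (nat_lit 249)) (XT.lf (nat_lit 0) (nat_lit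 97308282660) (nat_lit 76) (nat_lit 25198926790) (nat_lit 152) (nat_lit 68513296990) (nat_lit 22) (nat_lit 5) (nat_lit 23) (nat_lit 5) (nat_lit 24) (nat_lit 4) (nat_lit 404) (nat_lit 368) (nat_lit 248)))))) (XT.nd (nat_lit 390) (nat_lit 304) (nat_lit 0) (XT.nd (nat_lit 156) (nat_lit 152) (nat_lit 0) (XT.nd (nat_lit 78) (nat_lit 76) (nat_lit 0) (XT.lf (nat_lit 0) (nat_lit 5250475265) (nat_lit 76) (nat_lit 171206751869) (nat_lit 76) (nat_lit 25366149058) (nat_lit 21) (nat_lit 4) (nat_lit 22) (nat_lit 5) (nat_lit 22) (nat_lit 4) (nat_lit 405) (nat_lit 368) (nat_lit 247)) (XT.lf (nat_lit 0) (nat_lit 23453107006) (nat_lit 152) (nat_lit 97059115921) (nat_lit 76) (nat_lit 92674802040) (nat_lit 20) (nat_lit 5) (nat_lit 22) (nat_lit 5) (nat_lit 21) (nat_lit 4) (nat_lit 406) (nat_lit 368) (nat_lit 246))) (XT.nd (nat_lit 78) (nat_lit 76) (nat_lit 0) (XT.lf (nat_lit 0) (nat_lit 10269142655) (nat_lit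 76) (nat_lit 64784523000) (nat_lit 152) (nat_lit 150333695828) (nat_lit 19) (nat_lit 5) (nat_lit 20) (nat_lit 5) (nat_lit 21) (nat_lit 4) (nat_lit 407) (nat_lit 368) (nat_lit 245)) (XT.nd (nat_lit 78) (nat_lit 76) (nat_lit 0) (XT.lf (nat_lit 0) (nat_lit 131702064795) (nat_lit 76) (nat_lit 1733215586) (nat_lit 152) (nat_lit 104916203772) (nat_lit 19) (nat_lit 5) (nat_lit 20) (nat_lit 5) (nat_lit 21) (nat_lit 4) (nat_lit 408) (nat_lit 368) (nat_lit 244)) (XT.lf (nat_lit 0) (nat_lit 9368133795) (nat_lit 76) (nat_lit 188939890869) (nat_lit 76) (nat_lit 53899064082) (nat_lit 18) (nat_lit 4) (nat_lit 19) (nat_lit 5) (nat_lit 19) (nat_lit 4) (nat_lit 409) (nat_lit 368) (nat_lit 243))))) (XT.nd (nat_lit 234) (nat_lit 152) (nat_lit 0) (XT.nd (nat_lit 78) (nat_lit 76) (nat_lit 0) (XT.lf (nat_lit 0) (nat_lit 4175475016) (nat_lit 152) (nat_lit 126356502787) (nat_lit 76) (nat_lit 136393973928) (nat_lit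 17) (nat_lit 5) (nat_lit 19) (nat_lit 5) (nat_lit 18) (nat_lit 4) (nat_lit 410) (nat_lit 368) (nat_lit 242)) (XT.nd (nat_lit 78) (nat_lit 76) (nat_lit 0) (XT.lf (nat_lit 0) (nat_lit 63983367493) (nat_lit 152) (nat_lit 1956701283) (nat_lit 76) (nat_lit 216770309858) (nat_lit 17) (nat_lit 5) (nat_lit 19) (nat_lit 5) (nat_lit 18) (nat_lit 4) (nat_lit 411) (nat_lit 368) (nat_lit 241)) (XT.lf (nat_lit 0) (nat_lit 132105920834) (nat_lit 152) (nat_lit 160302829623) (nat_lit 0) (nat_lit 7066406972) (nat_lit 16) (nat_lit 5) (nat_lit 18) (nat_lit 4) (nat_lit 16) (nat_lit 4) (nat_lit 412) (nat_lit 368) (nat_lit 240)))) (XT.nd (nat_lit 78) (nat_lit 152) (nat_lit 0) (XT.lf (nat_lit 0) (nat_lit 207445289771) (nat_lit 152) (nat_lit 27589180122) (nat_lit 0) (nat_lit 82405287824) (nat_lit 16) (nat_lit 5) (nat_lit 18) (nat_lit 4) (nat_lit 16) (nat_lit 4) (nat_lit 413) (nat_lit 368) (nat_lit 239)) (XT.nd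 (nat_lit 78) (nat_lit 76) (nat_lit 0) (XT.lf (nat_lit 0) (nat_lit 121835155292) (nat_lit 76) (nat_lit 169906229296) (nat_lit 76) (nat_lit 44865775418) (nat_lit 15) (nat_lit 4) (nat_lit 16) (nat_lit 5) (nat_lit 16) (nat_lit 4) (nat_lit 414) (nat_lit 368) (nat_lit 238)) (XT.lf (nat_lit 0) (nat_lit 24972309184) (nat_lit 152) (nat_lit 73098469228) (nat_lit 76) (nat_lit 259126296033) (nat_lit 14) (nat_lit 5) (nat_lit 16) (nat_lit 5) (nat_lit 15) (nat_lit 4) (nat_lit 415) (nat_lit 368) (nat_lit 237))))))))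
noncomputable def xc169 : XT := (XT.nd (nat_lit 1560) (nat_lit 304) (nat_lit 0) (XT.nd (nat_lit 780) (nat_lit 304) (nat_lit 0) (XT.nd (nat_lit 390) (nat_lit 152) (nat_lit 0) (XT.nd (nat_lit 156) (nat_lit 152) (nat_lit 0) (XT.nd (nat_lit 78) (nat_lit 0) (nat_lit 0) (XT.lf (nat_lit 0) (nat_lit 82889034845) (nat_lit 76) (nat_lit 17077452960) (nat_lit 152) (nat_lit 279215029561) (nat_lit 13) (nat_lit 5) (nat_lit 14) (nat_lit 5) (nat_lit 15) (nat_lit 4) (nat_lit 416) (nat_lit 368) (nat_lit 236)) (XT.lf (nat_lit 0) (nat_lit 184703248934) (nat_lit 152) (nat_lit 148998050491) (nat_lit 0) (nat_lit 68923972501) (nat_lit 13) (nat_lit 5) (nat_lit 15) (nat_lit 4) (nat_lit 13) (nat_lit 4) (nat_lit 417) (nat_lit 368) (nat_lit 235))) (XT.nd (nat_lit 78) (nat_lit 76) (nat_lit 0) (XT.lf (nat_lit 0) (nat_lit 10142807901) (nat_lit 76) (nat_lit 266763170415) (nat_lit 76) (nat_lit 150983586405) (nat_lit 12)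 (nat_lit 4) (nat_lit 13) (nat_lit 5) (nat_lit 13) (nat_lit 4) (nat_lit 418) (nat_lit 368) (nat_lit 234)) (XT.nd (nat_lit 78) (nat_lit 76) (nat_lit 0) (XT.lf (nat_lit 0) (nat_lit 190487667651) (nat_lit 76) (nat_lit 190070664816) (nat_lit 76) (nat_lit 74290796013) (nat_lit 12) (nat_lit 4) (nat_lit 13) (nat_lit 5) (nat_lit 13) (nat_lit 4) (nat_lit 419) (nat_lit 368) (nat_lit 233)) (XT.lf (nat_lit 0) (nat_lit 8109900256) (nat_lit 152) (nat_lit 98911539966) (nat_lit 76) (nat_lit 376927626448) (nat_lit 11) (nat_lit 5) (nat_lit 13) (nat_lit 5) (nat_lit 12) (nat_lit 4) (nat_lit 420) (nat_lit 368) (nat_lit 232))))) (XT.nd (nat_lit 156) (nat_lit 76) (nat_lit 0) (XT.nd (nat_lit 78) (nat_lit 0) (nat_lit 0) (XT.lf (nat_lit 0) (nat_lit 81943058148) (nat_lit 76) (nat_lit 13116285511) (nat_lit 152) (nat_lit 420005659890) (nat_lit 10) (nat_lit 5) (nat_lit 11) (nat_lit 5) (nat_lit 12) (nat_lit 4) (nat_lit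 421) (nat_lit 368) (nat_lit 231)) (XT.lf (nat_lit 0) (nat_lit 193862645273) (nat_lit 152) (nat_lit 267757354451) (nat_lit 0) (nat_lit 86658383475) (nat_lit 10) (nat_lit 5) (nat_lit 12) (nat_lit 4) (nat_lit 10) (nat_lit 4) (nat_lit 422) (nat_lit 368) (nat_lit 230))) (XT.nd (nat_lit 78) (nat_lit 76) (nat_lit 0) (XT.lf (nat_lit 0) (nat_lit 300910517285) (nat_lit 152) (nat_lit 89505029810) (nat_lit 0) (nat_lit 193706061662) (nat_lit 10) (nat_lit 5) (nat_lit 12) (nat_lit 4) (nat_lit 10) (nat_lit 4) (nat_lit 423) (nat_lit 368) (nat_lit 229)) (XT.nd (nat_lit 78) (nat_lit 0) (nat_lit 0) (XT.lf (nat_lit 0) (nat_lit 108430940359) (nat_lit 76) (nat_lit 310698696838) (nat_lit 76) (nat_lit 203494061746) (nat_lit 9) (nat_lit 4) (nat_lit 10) (nat_lit 5) (nat_lit 10) (nat_lit 4) (nat_lit 424) (nat_lit 368) (nat_lit 228)) (XT.lf (nat_lit 0) (nat_lit 327291340871) (nat_lit 76) (nat_lit 221961832902) (nat_lit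 76) (nat_lit 114757031637) (nat_lit 9) (nat_lit 4) (nat_lit 10) (nat_lit 5) (nat_lit 10) (nat_lit 4) (nat_lit 425) (nat_lit 368) (nat_lit 227)))))) (XT.nd (nat_lit 390) (nat_lit 152) (nat_lit 0) (XT.nd (nat_lit 156) (nat_lit 0) (nat_lit 0) (XT.nd (nat_lit 78) (nat_lit 152) (nat_lit 0) (XT.lf (nat_lit 0) (nat_lit 563659945993) (nat_lit 76) (nat_lit 126126333338) (nat_lit 76) (nat_lit 18921378208) (nat_lit 9) (nat_lit 4) (nat_lit 10) (nat_lit 5) (nat_lit 10) (nat_lit 4) (nat_lit 426) (nat_lit 368) (nat_lit 226)) (XT.lf (nat_lit 0) (nat_lit 63077764074) (nat_lit 76) (nat_lit 18788996344) (nat_lit 152) (nat_lit 674830073313) (nat_lit 7) (nat_lit 5) (nat_lit 8) (nat_lit 5) (nat_lit 9) (nat_lit 4) (nat_lit 427) (nat_lit 368) (nat_lit 225))) (XT.nd (nat_lit 78) (nat_lit 0) (nat_lit 0) (XT.lf (nat_lit 0) (nat_lit 196100384916) (nat_lit 152) (nat_lit 515036784009) (nat_lit 0) (nat_lit 96836283516)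 (nat_lit 7) (nat_lit 5) (nat_lit 9) (nat_lit 4) (nat_lit 7) (nat_lit 4) (nat_lit 428) (nat_lit 368) (nat_lit 224)) (XT.nd (nat_lit 78) (nat_lit 0) (nat_lit 0) (XT.lf (nat_lit 0) (nat_lit 319960450097) (nat_lit 152) (nat_lit 322656494913) (nat_lit 0) (nat_lit 220696235601) (nat_lit 7) (nat_lit 5) (nat_lit 9) (nat_lit 4) (nat_lit 7) (nat_lit 4) (nat_lit 429) (nat_lit 368) (nat_lit 223)) (XT.lf (nat_lit 0) (nat_lit 453729065718) (nat_lit 152) (nat_lit 114886295213) (nat_lit 0) (nat_lit 354464746505) (nat_lit 7) (nat_lit 5) (nat_lit 9) (nat_lit 4) (nat_lit 7) (nat_lit 4) (nat_lit 430) (nat_lit 368) (nat_lit 222))))) (XT.nd (nat_lit 156) (nat_lit 76) (nat_lit 0) (XT.nd (nat_lit 78) (nat_lit 0) (nat_lit 0) (XT.lf (nat_lit 0) (nat_lit 115271387561) (nat_lit 76) (nat_lit 485699826770) (nat_lit 76) (nat_lit 386435410596) (nat_lit 6) (nat_lit 4) (nat_lit 7) (nat_lit 5) (nat_lit 7) (nat_lit 4) (nat_lit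 431) (nat_lit 368) (nat_lit 221)) (XT.lf (nat_lit 0) (nat_lit 370374907820) (nat_lit 76) (nat_lit 392758792369) (nat_lit 76) (nat_lit 293494286417) (nat_lit 6) (nat_lit 4) (nat_lit 7) (nat_lit 5) (nat_lit 7) (nat_lit 4) (nat_lit 432) (nat_lit 368) (nat_lit 220))) (XT.nd (nat_lit 78) (nat_lit 76) (nat_lit 0) (XT.lf (nat_lit 0) (nat_lit 645886281417) (nat_lit 76) (nat_lit 292382690951) (nat_lit 76) (nat_lit 193118101870) (nat_lit 6) (nat_lit 4) (nat_lit 7) (nat_lit 5) (nat_lit 7) (nat_lit 4) (nat_lit 433) (nat_lit 368) (nat_lit 219)) (XT.nd (nat_lit 78) (nat_lit 76) (nat_lit 0) (XT.lf (nat_lit 0) (nat_lit 943438168345) (nat_lit 76) (nat_lit 183976701173) (nat_lit 76) (nat_lit 84712035121) (nat_lit 6) (nat_lit 4) (nat_lit 7) (nat_lit 5) (nat_lit 7) (nat_lit 4) (nat_lit 434) (nat_lit 368) (nat_lit 218)) (XT.lf (nat_lit 0) (nat_lit 30747225731) (nat_lit 152) (nat_lit 35310507799) (nat_lit 76)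 (nat_lit 1233205929673) (nat_lit 5) (nat_lit 5) (nat_lit 7) (nat_lit 5) (nat_lit 6) (nat_lit 4) (nat_lit 435) (nat_lit 368) (nat_lit 217))))))) (XT.nd (nat_lit 780) (nat_lit 152) (nat_lit 0) (XT.nd (nat_lit 390) (nat_lit 76) (nat_lit 0) (XT.nd (nat_lit 156) (nat_lit 0) (nat_lit 0) (XT.nd (nat_lit 78) (nat_lit 0) (nat_lit 0) (XT.lf (nat_lit 0) (nat_lit 157970088965) (nat_lit 152) (nat_lit 1168598733505) (nat_lit 0) (nat_lit 66058234047) (nat_lit 4) (nat_lit 5) (nat_lit 6) (nat_lit 4) (nat_lit 4) (nat_lit 4) (nat_lit 436) (nat_lit 368) (nat_lit 216)) (XT.lf (nat_lit 0) (nat_lit 298076922462) (nat_lit 152) (nat_lit 989001096581) (nat_lit 0) (nat_lit 206165010969) (nat_lit 4) (nat_lit 5) (nat_lit 6) (nat_lit 4) (nat_lit 4) (nat_lit 4) (nat_lit 437) (nat_lit 368) (nat_lit 215))) (XT.nd (nat_lit 78) (nat_lit 0) (nat_lit 0) (XT.lf (nat_lit 0) (nat_lit 449392142812) (nat_lit 152) (nat_lit 795035972435)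 (nat_lit 0) (nat_lit 357480178933) (nat_lit 4) (nat_lit 5) (nat_lit 6) (nat_lit 4) (nat_lit 4) (nat_lit 4) (nat_lit 438) (nat_lit 368) (nat_lit 214)) (XT.nd (nat_lit 78) (nat_lit 0) (nat_lit 0) (XT.lf (nat_lit 0) (nat_lit 612812432802) (nat_lit 152) (nat_lit 585553938111) (nat_lit 0) (nat_lit 520900420419) (nat_lit 4) (nat_lit 5) (nat_lit 6) (nat_lit 4) (nat_lit 4) (nat_lit 4) (nat_lit 439) (nat_lit 368) (nat_lit 213)) (XT.lf (nat_lit 0) (nat_lit 789306208965) (nat_lit 152) (nat_lit 359313618589) (nat_lit 0) (nat_lit 697394151671) (nat_lit 4) (nat_lit 5) (nat_lit 6) (nat_lit 4) (nat_lit 4) (nat_lit 4) (nat_lit 440) (nat_lit 368) (nat_lit 212))))) (XT.nd (nat_lit 156) (nat_lit 0) (nat_lit 0) (XT.nd (nat_lit 78) (nat_lit 76) (nat_lit 0) (XT.lf (nat_lit 0) (nat_lit 979919360346) (nat_lit 152) (nat_lit 114974330495) (nat_lit 0) (nat_lit 888007261467) (nat_lit 4) (nat_lit 5) (nat_lit 6) (nat_lit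 4) (nat_lit 4) (nat_lit 4) (nat_lit 441) (nat_lit 368) (nat_lit 211)) (XT.lf (nat_lit 0) (nat_lit 156753297487) (nat_lit 76) (nat_lit 1032798069448) (nat_lit 76) (nat_lit 940885932064) (nat_lit 3) (nat_lit 4) (nat_lit 4) (nat_lit 5) (nat_lit 4) (nat_lit 4) (nat_lit 442) (nat_lit 368) (nat_lit 210))) (XT.nd (nat_lit 78) (nat_lit 0) (nat_lit 0) (XT.lf (nat_lit 0) (nat_lit 456757595830) (nat_lit 76) (nat_lit 962339825814) (nat_lit 76) (nat_lit 870427652778) (nat_lit 3) (nat_lit 4) (nat_lit 4) (nat_lit 5) (nat_lit 4) (nat_lit 4) (nat_lit 443) (nat_lit 368) (nat_lit 209)) (XT.nd (nat_lit 78) (nat_lit 0) (nat_lit 0) (XT.lf (nat_lit 0) (nat_lit 780762023293) (nat_lit 76) (nat_lit 886245031556) (nat_lit 76) (nat_lit 794332825509) (nat_lit 3) (nat_lit 4) (nat_lit 4) (nat_lit 5) (nat_lit 4) (nat_lit 4) (nat_lit 444) (nat_lit 368) (nat_lit 208)) (XT.lf (nat_lit 0) (nat_lit 1130686606110) (nat_lit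 76) (nat_lit 804062754560) (nat_lit 76) (nat_lit 712150517946) (nat_lit 3) (nat_lit 4) (nat_lit 4) (nat_lit 5) (nat_lit 4) (nat_lit 4) (nat_lit 445) (nat_lit 368) (nat_lit 207)))))) (XT.nd (nat_lit 390) (nat_lit 152) (nat_lit 0) (XT.nd (nat_lit 156) (nat_lit 0) (nat_lit 0) (XT.nd (nat_lit 78) (nat_lit 0) (nat_lit 0) (XT.lf (nat_lit 0) (nat_lit 1508604971439) (nat_lit 76) (nat_lit 715305988740) (nat_lit 76) (nat_lit 623393723824) (nat_lit 3) (nat_lit 4) (nat_lit 4) (nat_lit 5) (nat_lit 4) (nat_lit 4) (nat_lit 446) (nat_lit 368) (nat_lit 206)) (XT.lf (nat_lit 0) (nat_lit 1916756635521) (nat_lit 76) (nat_lit 619448768075) (nat_lit 76) (nat_lit 527536476954) (nat_lit 3) (nat_lit 4) (nat_lit 4) (nat_lit 5) (nat_lit 4) (nat_lit 4) (nat_lit 447) (nat_lit 368) (nat_lit 205))) (XT.nd (nat_lit 78) (nat_lit 0) (nat_lit 0) (XT.lf (nat_lit 0) (nat_lit 2357560274881) (nat_lit 76) (nat_lit 515923049778)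 (nat_lit 76) (nat_lit 424010734392) (nat_lit 3) (nat_lit 4) (nat_lit 4) (nat_lit 5) (nat_lit 4) (nat_lit 4) (nat_lit 448) (nat_lit 368) (nat_lit 204)) (XT.nd (nat_lit 78) (nat_lit 0) (nat_lit 0) (XT.lf (nat_lit 0) (nat_lit 2833628059236) (nat_lit 76) (nat_lit 404115348109) (nat_lit 76) (nat_lit 312203010257) (nat_lit 3) (nat_lit 4) (nat_lit 4) (nat_lit 5) (nat_lit 4) (nat_lit 4) (nat_lit 449) (nat_lit 368) (nat_lit 203)) (XT.lf (nat_lit 0) (nat_lit 3347781131011) (nat_lit 76) (nat_lit 283363098912) (nat_lit 76) (nat_lit 191450740256) (nat_lit 3) (nat_lit 4) (nat_lit 4) (nat_lit 5) (nat_lit 4) (nat_lit 4) (nat_lit 450) (nat_lit 368) (nat_lit 202))))) (XT.nd (nat_lit 234) (nat_lit 0) (nat_lit 0) (XT.nd (nat_lit 78) (nat_lit 152) (nat_lit 0) (XT.lf (nat_lit 0) (nat_lit 3903066323224) (nat_lit 76) (nat_lit 152950733301) (nat_lit 76) (nat_lit 61038355384) (nat_lit 3) (nat_lit 4) (nat_lit 4)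 (nat_lit 5) (nat_lit 4) (nat_lit 4) (nat_lit 451) (nat_lit 368) (nat_lit 201)) (XT.nd (nat_lit 78) (nat_lit 0) (nat_lit 0) (XT.lf (nat_lit 0) (nat_lit 69246134035) (nat_lit 76) (nat_lit 8233928362) (nat_lit 152) (nat_lit 4357305852722) (nat_lit 1) (nat_lit 5) (nat_lit 2) (nat_lit 5) (nat_lit 3) (nat_lit 4) (nat_lit 452) (nat_lit 368) (nat_lit 200)) (XT.lf (nat_lit 0) (nat_lit 233345901118) (nat_lit 152) (nat_lit 4395455220509) (nat_lit 0) (nat_lit 148241815686) (nat_lit 1) (nat_lit 5) (nat_lit 3) (nat_lit 4) (nat_lit 1) (nat_lit 4) (nat_lit 453) (nat_lit 368) (nat_lit 199)))) (XT.nd (nat_lit 78) (nat_lit 0) (nat_lit 0) (XT.lf (nat_lit 0) (nat_lit 401894820986) (nat_lit 152) (nat_lit 4427977873780) (nat_lit 0) (nat_lit 316790721396) (nat_lit 1) (nat_lit 5) (nat_lit 3) (nat_lit 4) (nat_lit 1) (nat_lit 4) (nat_lit 454) (nat_lit 368) (nat_lit 198)) (XT.nd (nat_lit 78) (nat_lit 0) (nat_lit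 0) (XT.lf (nat_lit 0) (nat_lit 583927604241) (nat_lit 152) (nat_lit 4463102441556) (nat_lit 0) (nat_lit 498823491542) (nat_lit 1) (nat_lit 5) (nat_lit 3) (nat_lit 4) (nat_lit 1) (nat_lit 4) (nat_lit 455) (nat_lit 368) (nat_lit 197)) (XT.lf (nat_lit 0) (nat_lit 780522963672) (nat_lit 152) (nat_lit 4501037069423) (nat_lit 0) (nat_lit 695418838834) (nat_lit 1) (nat_lit 5) (nat_lit 3) (nat_lit 4) (nat_lit 1) (nat_lit 4) (nat_lit 456) (nat_lit 368) (nat_lit 196))))))))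
noncomputable def xc170 : XT := (XT.nd (nat_lit 47502) (nat_lit 0) (nat_lit 1596) (XT.nd (nat_lit 46722) (nat_lit 0) (nat_lit 3420) (XT.nd (nat_lit 46332) (nat_lit 0) (nat_lit 4408) (XT.nd (nat_lit 156) (nat_lit 0) (nat_lit 0) (XT.nd (nat_lit 78) (nat_lit 0) (nat_lit 0) (XT.lf (nat_lit 0) (nat_lit 992845908816) (nat_lit 152) (nat_lit 4542006555177) (nat_lit 0) (nat_lit 907741772739) (nat_lit 1) (nat_lit 5) (nat_lit 3) (nat_lit 4) (nat_lit 1) (nat_lit 4) (nat_lit 457) (nat_lit 368) (nat_lit 195)) (XT.lf (nat_lit 0) (nat_lit 1222154649719) (nat_lit 152) (nat_lit 4586253680955) (nat_lit 0) (nat_lit 1137050503236) (nat_lit 1) (nat_lit 5) (nat_lit 3) (nat_lit 4) (nat_lit 1) (nat_lit 4) (nat_lit 458) (nat_lit 368) (nat_lit 194))) (XT.nd (nat_lit 78) (nat_lit 0) (nat_lit 0) (XT.lf (nat_lit 0) (nat_lit 1469808052993) (nat_lit 152) (nat_lit 4634040651948) (nat_lit 0) (nat_lit 1384703896875) (nat_lit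 1) (nat_lit 5) (nat_lit 3) (nat_lit 4) (nat_lit 1) (nat_lit 4) (nat_lit 459) (nat_lit 368) (nat_lit 193)) (XT.nd (nat_lit 46020) (nat_lit 0) (nat_lit 4788) (XT.lf (nat_lit 0) (nat_lit 1737273694363) (nat_lit 152) (nat_lit 4685650650205) (nat_lit 0) (nat_lit 1652169529322) (nat_lit 1) (nat_lit 5) (nat_lit 3) (nat_lit 4) (nat_lit 1) (nat_lit 4) (nat_lit 460) (nat_lit 368) (nat_lit 192)) (XT.lf (nat_lit 0) (nat_lit 16521731057) (nat_lit 532) (nat_lit 1220047768) (nat_lit 532) (nat_lit 1220047768) (nat_lit 64) (nat_lit 3) (nat_lit 71) (nat_lit 3) (nat_lit 71) (nat_lit 5) (nat_lit 369) (nat_lit 369) (nat_lit 282))))) (XT.nd (nat_lit 156) (nat_lit 380) (nat_lit 0) (XT.nd (nat_lit 78) (nat_lit 0) (nat_lit 76) (XT.lf (nat_lit 76) (nat_lit 16834382287) (nat_lit 0) (nat_lit 17978322546) (nat_lit 532) (nat_lit 4592053811) (nat_lit 65) (nat_lit 5) (nat_lit 64) (nat_lit 3) (nat_lit 71) (nat_lit 5)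 (nat_lit 370) (nat_lit 369) (nat_lit 281)) (XT.lf (nat_lit 0) (nat_lit 36809960261) (nat_lit 456) (nat_lit 3236284237) (nat_lit 532) (nat_lit 951194212) (nat_lit 65) (nat_lit 5) (nat_lit 71) (nat_lit 5) (nat_lit 72) (nat_lit 5) (nat_lit 371) (nat_lit 369) (nat_lit 280))) (XT.nd (nat_lit 78) (nat_lit 456) (nat_lit 0) (XT.lf (nat_lit 76) (nat_lit 18079354951) (nat_lit 0) (nat_lit 21785457949) (nat_lit 532) (nat_lit 2780898675) (nat_lit 66) (nat_lit 5) (nat_lit 65) (nat_lit 5) (nat_lit 72) (nat_lit 5) (nat_lit 372) (nat_lit 369) (nat_lit 279)) (XT.nd (nat_lit 78) (nat_lit 456) (nat_lit 0) (XT.lf (nat_lit 76) (nat_lit 41281748350) (nat_lit 0) (nat_lit 1967061774) (nat_lit 532) (nat_lit 1170259095) (nat_lit 66) (nat_lit 5) (nat_lit 65) (nat_lit 5) (nat_lit 72) (nat_lit 5) (nat_lit 373) (nat_lit 369) (nat_lit 278)) (XT.lf (nat_lit 0) (nat_lit 1524261322) (nat_lit 532) (nat_lit 25731554318) (nat_lit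 608) (nat_lit 18998707203) (nat_lit 59) (nat_lit 5) (nat_lit 66) (nat_lit 5) (nat_lit 67) (nat_lit 5) (nat_lit 374) (nat_lit 369) (nat_lit 277)))))) (XT.nd (nat_lit 390) (nat_lit 456) (nat_lit 0) (XT.nd (nat_lit 156) (nat_lit 532) (nat_lit 0) (XT.nd (nat_lit 78) (nat_lit 0) (nat_lit 76) (XT.lf (nat_lit 0) (nat_lit 4506897188) (nat_lit 532) (nat_lit 2061938582) (nat_lit 608) (nat_lit 41654685769) (nat_lit 59) (nat_lit 5) (nat_lit 66) (nat_lit 5) (nat_lit 67) (nat_lit 5) (nat_lit 375) (nat_lit 369) (nat_lit 276)) (XT.lf (nat_lit 0) (nat_lit 8714778690) (nat_lit 532) (nat_lit 25961428192) (nat_lit 76) (nat_lit 15594905009) (nat_lit 60) (nat_lit 5) (nat_lit 67) (nat_lit 5) (nat_lit 61) (nat_lit 5) (nat_lit 376) (nat_lit 369) (nat_lit 275))) (XT.nd (nat_lit 78) (nat_lit 228) (nat_lit 0) (XT.lf (nat_lit 0) (nat_lit 268920991) (nat_lit 380) (nat_lit 13222398975) (nat_lit 456) (nat_lit 38972629521)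 (nat_lit 55) (nat_lit 5) (nat_lit 60) (nat_lit 5) (nat_lit 61) (nat_lit 5) (nat_lit 377) (nat_lit 369) (nat_lit 274)) (XT.nd (nat_lit 78) (nat_lit 228) (nat_lit 0) (XT.lf (nat_lit 0) (nat_lit 19614749081) (nat_lit 456) (nat_lit 24961862912) (nat_lit 76) (nat_lit 10178423114) (nat_lit 55) (nat_lit 5) (nat_lit 61) (nat_lit 5) (nat_lit 56) (nat_lit 5) (nat_lit 378) (nat_lit 369) (nat_lit 273)) (XT.lf (nat_lit 0) (nat_lit 4319929440) (nat_lit 228) (nat_lit 22352913046) (nat_lit 304) (nat_lit 30520983911) (nat_lit 52) (nat_lit 5) (nat_lit 55) (nat_lit 5) (nat_lit 56) (nat_lit 5) (nat_lit 379) (nat_lit 369) (nat_lit 272))))) (XT.nd (nat_lit 156) (nat_lit 228) (nat_lit 0) (XT.nd (nat_lit 78) (nat_lit 228) (nat_lit 0) (XT.lf (nat_lit 0) (nat_lit 35033040240) (nat_lit 304) (nat_lit 22469440888) (nat_lit 76) (nat_lit 2266245182) (nat_lit 52) (nat_lit 5) (nat_lit 56) (nat_lit 5) (nat_lit 53) (nat_lit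 5) (nat_lit 380) (nat_lit 369) (nat_lit 271)) (XT.lf (nat_lit 0) (nat_lit 10299391662) (nat_lit 228) (nat_lit 34588714540) (nat_lit 304) (nat_lit 17595429555) (nat_lit 49) (nat_lit 5) (nat_lit 52) (nat_lit 5) (nat_lit 53) (nat_lit 5) (nat_lit 381) (nat_lit 369) (nat_lit 270))) (XT.nd (nat_lit 78) (nat_lit 228) (nat_lit 0) (XT.lf (nat_lit 0) (nat_lit 46965051564) (nat_lit 228) (nat_lit 9178742014) (nat_lit 304) (nat_lit 9222760691) (nat_lit 49) (nat_lit 5) (nat_lit 52) (nat_lit 5) (nat_lit 53) (nat_lit 5) (nat_lit 382) (nat_lit 369) (nat_lit 269)) (XT.nd (nat_lit 78) (nat_lit 0) (nat_lit 0) (XT.lf (nat_lit 0) (nat_lit 735591387) (nat_lit 228) (nat_lit 49857130004) (nat_lit 76) (nat_lit 17815292986) (nat_lit 46) (nat_lit 5) (nat_lit 49) (nat_lit 5) (nat_lit 47) (nat_lit 5) (nat_lit 383) (nat_lit 369) (nat_lit 268)) (XT.lf (nat_lit 0) (nat_lit 11744999276) (nat_lit 228) (nat_lit 12640138257)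 (nat_lit 76) (nat_lit 47228278352) (nat_lit 46) (nat_lit 5) (nat_lit 49) (nat_lit 5) (nat_lit 47) (nat_lit 5) (nat_lit 384) (nat_lit 369) (nat_lit 267))))))) (XT.nd (nat_lit 780) (nat_lit 760) (nat_lit 0) (XT.nd (nat_lit 390) (nat_lit 456) (nat_lit 0) (XT.nd (nat_lit 156) (nat_lit 380) (nat_lit 0) (XT.nd (nat_lit 78) (nat_lit 0) (nat_lit 0) (XT.lf (nat_lit 0) (nat_lit 24443226619) (nat_lit 304) (nat_lit 46129258379) (nat_lit 76) (nat_lit 4438120348) (nat_lit 43) (nat_lit 5) (nat_lit 47) (nat_lit 5) (nat_lit 44) (nat_lit 5) (nat_lit 385) (nat_lit 369) (nat_lit 266)) (XT.lf (nat_lit 0) (nat_lit 39143531795) (nat_lit 304) (nat_lit 4853289816) (nat_lit 76) (nat_lit 34603851870) (nat_lit 43) (nat_lit 5) (nat_lit 47) (nat_lit 5) (nat_lit 44) (nat_lit 5) (nat_lit 386) (nat_lit 369) (nat_lit 265))) (XT.nd (nat_lit 78) (nat_lit 228) (nat_lit 0) (XT.lf (nat_lit 0) (nat_lit 41814234601) (nat_lit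 152) (nat_lit 14209648046) (nat_lit 228) (nat_lit 26373743731) (nat_lit 41) (nat_lit 5) (nat_lit 43) (nat_lit 5) (nat_lit 44) (nat_lit 5) (nat_lit 387) (nat_lit 369) (nat_lit 264)) (XT.nd (nat_lit 78) (nat_lit 76) (nat_lit 0) (XT.lf (nat_lit 0) (nat_lit 5858846740) (nat_lit 152) (nat_lit 69103254429) (nat_lit 228) (nat_lit 11479640103) (nat_lit 39) (nat_lit 5) (nat_lit 41) (nat_lit 5) (nat_lit 42) (nat_lit 5) (nat_lit 388) (nat_lit 369) (nat_lit 263)) (XT.lf (nat_lit 0) (nat_lit 5881568063) (nat_lit 228) (nat_lit 32907130476) (nat_lit 76) (nat_lit 51891346754) (nat_lit 38) (nat_lit 5) (nat_lit 41) (nat_lit 5) (nat_lit 39) (nat_lit 5) (nat_lit 389) (nat_lit 369) (nat_lit 262))))) (XT.nd (nat_lit 156) (nat_lit 304) (nat_lit 0) (XT.nd (nat_lit 78) (nat_lit 0) (nat_lit 0) (XT.lf (nat_lit 0) (nat_lit 19245096059) (nat_lit 152) (nat_lit 5227798709) (nat_lit 228) (nat_lit 70723752163) (nat_lit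 36) (nat_lit 5) (nat_lit 38) (nat_lit 5) (nat_lit 39) (nat_lit 5) (nat_lit 390) (nat_lit 369) (nat_lit 261)) (XT.lf (nat_lit 0) (nat_lit 46219233255) (nat_lit 228) (nat_lit 23333174464) (nat_lit 76) (nat_lit 30388753216) (nat_lit 36) (nat_lit 5) (nat_lit 39) (nat_lit 5) (nat_lit 37) (nat_lit 5) (nat_lit 391) (nat_lit 369) (nat_lit 260))) (XT.nd (nat_lit 78) (nat_lit 152) (nat_lit 0) (XT.lf (nat_lit 0) (nat_lit 35113377659) (nat_lit 152) (nat_lit 35570881952) (nat_lit 228) (nat_lit 34302658623) (nat_lit 34) (nat_lit 5) (nat_lit 36) (nat_lit 5) (nat_lit 37) (nat_lit 5) (nat_lit 392) (nat_lit 369) (nat_lit 259)) (XT.nd (nat_lit 78) (nat_lit 152) (nat_lit 0) (XT.lf (nat_lit 0) (nat_lit 97786931855) (nat_lit 228) (nat_lit 10868444803) (nat_lit 76) (nat_lit 1726524544) (nat_lit 34) (nat_lit 5) (nat_lit 37) (nat_lit 5) (nat_lit 35) (nat_lit 4) (nat_lit 393) (nat_lit 369) (nat_lit 258)) (XT.lf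 (nat_lit 0) (nat_lit 12602196187) (nat_lit 152) (nat_lit 61682681243) (nat_lit 76) (nat_lit 41719084637) (nat_lit 32) (nat_lit 5) (nat_lit 34) (nat_lit 5) (nat_lit 33) (nat_lit 5) (nat_lit 394) (nat_lit 369) (nat_lit 257)))))) (XT.nd (nat_lit 390) (nat_lit 304) (nat_lit 0) (XT.nd (nat_lit 156) (nat_lit 304) (nat_lit 0) (XT.nd (nat_lit 78) (nat_lit 0) (nat_lit 0) (XT.lf (nat_lit 0) (nat_lit 3111125974) (nat_lit 152) (nat_lit 36402108296) (nat_lit 228) (nat_lit 82506098253) (nat_lit 30) (nat_lit 5) (nat_lit 32) (nat_lit 5) (nat_lit 33) (nat_lit 5) (nat_lit 395) (nat_lit 369) (nat_lit 256)) (XT.lf (nat_lit 0) (nat_lit 70414844416) (nat_lit 228) (nat_lit 51938861919) (nat_lit 76) (nat_lit 6015211590) (nat_lit 30) (nat_lit 5) (nat_lit 33) (nat_lit 5) (nat_lit 31) (nat_lit 4) (nat_lit 396) (nat_lit 369) (nat_lit 255))) (XT.nd (nat_lit 78) (nat_lit 228) (nat_lit 0) (XT.lf (nat_lit 0) (nat_lit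 20464443745) (nat_lit 76) (nat_lit 84760775963) (nat_lit 152) (nat_lit 29886319946) (nat_lit 29) (nat_lit 5) (nat_lit 30) (nat_lit 5) (nat_lit 31) (nat_lit 4) (nat_lit 397) (nat_lit 369) (nat_lit 254)) (XT.nd (nat_lit 78) (nat_lit 152) (nat_lit 0) (XT.lf (nat_lit 0) (nat_lit 1861452614) (nat_lit 152) (nat_lit 40715092745) (nat_lit 76) (nat_lit 99699728705) (nat_lit 28) (nat_lit 5) (nat_lit 30) (nat_lit 5) (nat_lit 29) (nat_lit 5) (nat_lit 398) (nat_lit 369) (nat_lit 253)) (XT.lf (nat_lit 0) (nat_lit 35621520300) (nat_lit 228) (nat_lit 109618413772) (nat_lit 76) (nat_lit 4625183159) (nat_lit 26) (nat_lit 5) (nat_lit 29) (nat_lit 5) (nat_lit 27) (nat_lit 4) (nat_lit 399) (nat_lit 369) (nat_lit 252))))) (XT.nd (nat_lit 234) (nat_lit 228) (nat_lit 0) (XT.nd (nat_lit 78) (nat_lit 76) (nat_lit 0) (XT.lf (nat_lit 0) (nat_lit 74329472463) (nat_lit 228) (nat_lit 29107545425) (nat_lit 76) (nat_lit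 54444283933) (nat_lit 26) (nat_lit 5) (nat_lit 29) (nat_lit 5) (nat_lit 27) (nat_lit 4) (nat_lit 400) (nat_lit 369) (nat_lit 251)) (XT.nd (nat_lit 78) (nat_lit 0) (nat_lit 0) (XT.lf (nat_lit 0) (nat_lit 60888524673) (nat_lit 76) (nat_lit 56709033553) (nat_lit 152) (nat_lit 48824143432) (nat_lit 25) (nat_lit 5) (nat_lit 26) (nat_lit 5) (nat_lit 27) (nat_lit 4) (nat_lit 401) (nat_lit 369) (nat_lit 250)) (XT.lf (nat_lit 0) (nat_lit 159738133412) (nat_lit 76) (nat_lit 5383964401) (nat_lit 152) (nat_lit 10459635365) (nat_lit 25) (nat_lit 5) (nat_lit 26) (nat_lit 5) (nat_lit 27) (nat_lit 4) (nat_lit 402) (nat_lit 369) (nat_lit 249)))) (XT.nd (nat_lit 78) (nat_lit 76) (nat_lit 0) (XT.lf (nat_lit 0) (nat_lit 32731810210) (nat_lit 152) (nat_lit 102026313881) (nat_lit 76) (nat_lit 50392271368) (nat_lit 23) (nat_lit 5) (nat_lit 25) (nat_lit 5) (nat_lit 24) (nat_lit 4) (nat_lit 403) (nat_lit 369)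 (nat_lit 248)) (XT.nd (nat_lit 78) (nat_lit 76) (nat_lit 0) (XT.lf (nat_lit 0) (nat_lit 79396973884) (nat_lit 152) (nat_lit 4963911477) (nat_lit 76) (nat_lit 111055251700) (nat_lit 23) (nat_lit 5) (nat_lit 25) (nat_lit 5) (nat_lit 24) (nat_lit 4) (nat_lit 404) (nat_lit 369) (nat_lit 247)) (XT.lf (nat_lit 0) (nat_lit 105120694815) (nat_lit 76) (nat_lit 27202077161) (nat_lit 152) (nat_lit 73978172494) (nat_lit 22) (nat_lit 5) (nat_lit 23) (nat_lit 5) (nat_lit 24) (nat_lit 4) (nat_lit 405) (nat_lit 369) (nat_lit 246))))))))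
noncomputable def xc171 : XT := (XT.nd (nat_lit 1638) (nat_lit 456) (nat_lit 0) (XT.nd (nat_lit 780) (nat_lit 456) (nat_lit 0) (XT.nd (nat_lit 390) (nat_lit 228) (nat_lit 0) (XT.nd (nat_lit 156) (nat_lit 152) (nat_lit 0) (XT.nd (nat_lit 78) (nat_lit 76) (nat_lit 0) (XT.lf (nat_lit 0) (nat_lit 5698433153) (nat_lit 76) (nat_lit 184890203569) (nat_lit 76) (nat_lit 27379419697) (nat_lit 21) (nat_lit 4) (nat_lit 22) (nat_lit 5) (nat_lit 22) (nat_lit 4) (nat_lit 406) (nat_lit 369) (nat_lit 245)) (XT.lf (nat_lit 0) (nat_lit 25343448007) (nat_lit 152) (nat_lit 104797248507) (nat_lit 76) (nat_lit 100100160179) (nat_lit 20) (nat_lit 5) (nat_lit 22) (nat_lit 5) (nat_lit 21) (nat_lit 4) (nat_lit 407) (nat_lit 369) (nat_lit 244))) (XT.nd (nat_lit 78) (nat_lit 76) (nat_lit 0) (XT.lf (nat_lit 0) (nat_lit 11116597421) (nat_lit 76) (nat_lit 69955033499) (nat_lit 152) (nat_lit 162345623056) (nat_lit 19)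 (nat_lit 5) (nat_lit 20) (nat_lit 5) (nat_lit 21) (nat_lit 4) (nat_lit 408) (nat_lit 369) (nat_lit 243)) (XT.nd (nat_lit 78) (nat_lit 76) (nat_lit 0) (XT.lf (nat_lit 0) (nat_lit 142262233084) (nat_lit 76) (nat_lit 1860529000) (nat_lit 152) (nat_lit 113295825595) (nat_lit 19) (nat_lit 5) (nat_lit 20) (nat_lit 5) (nat_lit 21) (nat_lit 4) (nat_lit 409) (nat_lit 369) (nat_lit 242)) (XT.lf (nat_lit 0) (nat_lit 10141703524) (nat_lit 76) (nat_lit 204043517334) (nat_lit 76) (nat_lit 58197428366) (nat_lit 18) (nat_lit 4) (nat_lit 19) (nat_lit 5) (nat_lit 19) (nat_lit 4) (nat_lit 410) (nat_lit 369) (nat_lit 241))))) (XT.nd (nat_lit 156) (nat_lit 152) (nat_lit 0) (XT.nd (nat_lit 78) (nat_lit 0) (nat_lit 0) (XT.lf (nat_lit 0) (nat_lit 4521441235) (nat_lit 152) (nat_lit 136442060502) (nat_lit 76) (nat_lit 147315569918) (nat_lit 17) (nat_lit 5) (nat_lit 19) (nat_lit 5) (nat_lit 18) (nat_lit 4) (nat_lit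 411) (nat_lit 369) (nat_lit 240)) (XT.lf (nat_lit 0) (nat_lit 69113081538) (nat_lit 152) (nat_lit 2091975804) (nat_lit 76) (nat_lit 234121266198) (nat_lit 17) (nat_lit 5) (nat_lit 19) (nat_lit 5) (nat_lit 18) (nat_lit 4) (nat_lit 412) (nat_lit 369) (nat_lit 239))) (XT.nd (nat_lit 78) (nat_lit 76) (nat_lit 0) (XT.lf (nat_lit 0) (nat_lit 142685359883) (nat_lit 152) (nat_lit 173105713469) (nat_lit 0) (nat_lit 7641217763) (nat_lit 16) (nat_lit 5) (nat_lit 18) (nat_lit 4) (nat_lit 16) (nat_lit 4) (nat_lit 413) (nat_lit 369) (nat_lit 238)) (XT.nd (nat_lit 78) (nat_lit 76) (nat_lit 0) (XT.lf (nat_lit 0) (nat_lit 224051066084) (nat_lit 152) (nat_lit 29776552936) (nat_lit 0) (nat_lit 89006505510) (nat_lit 16) (nat_lit 5) (nat_lit 18) (nat_lit 4) (nat_lit 16) (nat_lit 4) (nat_lit 414) (nat_lit 369) (nat_lit 237)) (XT.lf (nat_lit 0) (nat_lit 131601229018) (nat_lit 76) (nat_lit 183489330619) (nat_lit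 76) (nat_lit 48444382587) (nat_lit 15) (nat_lit 4) (nat_lit 16) (nat_lit 5) (nat_lit 16) (nat_lit 4) (nat_lit 415) (nat_lit 369) (nat_lit 236)))))) (XT.nd (nat_lit 390) (nat_lit 228) (nat_lit 0) (XT.nd (nat_lit 156) (nat_lit 76) (nat_lit 0) (XT.nd (nat_lit 78) (nat_lit 76) (nat_lit 0) (XT.lf (nat_lit 0) (nat_lit 26979466016) (nat_lit 152) (nat_lit 78928017475) (nat_lit 76) (nat_lit 279864605909) (nat_lit 14) (nat_lit 5) (nat_lit 16) (nat_lit 5) (nat_lit 15) (nat_lit 4) (nat_lit 416) (nat_lit 369) (nat_lit 235)) (XT.lf (nat_lit 0) (nat_lit 89538022891) (nat_lit 76) (nat_lit 18434891465) (nat_lit 152) (nat_lit 301542394654) (nat_lit 13) (nat_lit 5) (nat_lit 14) (nat_lit 5) (nat_lit 15) (nat_lit 4) (nat_lit 417) (nat_lit 369) (nat_lit 234))) (XT.nd (nat_lit 78) (nat_lit 76) (nat_lit 0) (XT.lf (nat_lit 0) (nat_lit 199488136766) (nat_lit 152) (nat_lit 160900871956) (nat_lit 0) (nat_lit 74445593667)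 (nat_lit 13) (nat_lit 5) (nat_lit 15) (nat_lit 4) (nat_lit 13) (nat_lit 4) (nat_lit 418) (nat_lit 369) (nat_lit 233)) (XT.nd (nat_lit 78) (nat_lit 0) (nat_lit 0) (XT.lf (nat_lit 0) (nat_lit 10970824155) (nat_lit 76) (nat_lit 288096020267) (nat_lit 76) (nat_lit 163053213470) (nat_lit 12) (nat_lit 4) (nat_lit 13) (nat_lit 5) (nat_lit 13) (nat_lit 4) (nat_lit 419) (nat_lit 369) (nat_lit 232)) (XT.lf (nat_lit 0) (nat_lit 205742043677) (nat_lit 76) (nat_lit 205268721907) (nat_lit 76) (nat_lit 80225670946) (nat_lit 12) (nat_lit 4) (nat_lit 13) (nat_lit 5) (nat_lit 13) (nat_lit 4) (nat_lit 420) (nat_lit 369) (nat_lit 231))))) (XT.nd (nat_lit 234) (nat_lit 76) (nat_lit 0) (XT.nd (nat_lit 78) (nat_lit 76) (nat_lit 0) (XT.lf (nat_lit 0) (nat_lit 8766071081) (nat_lit 152) (nat_lit 106809849190) (nat_lit 76) (nat_lit 407088480651) (nat_lit 11) (nat_lit 5) (nat_lit 13) (nat_lit 5) (nat_lit 12) (nat_lit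 4) (nat_lit 421) (nat_lit 369) (nat_lit 230)) (XT.nd (nat_lit 78) (nat_lit 0) (nat_lit 0) (XT.lf (nat_lit 0) (nat_lit 88512746800) (nat_lit 76) (nat_lit 14158519146) (nat_lit 152) (nat_lit 453598363183) (nat_lit 10) (nat_lit 5) (nat_lit 11) (nat_lit 5) (nat_lit 12) (nat_lit 4) (nat_lit 422) (nat_lit 369) (nat_lit 229)) (XT.lf (nat_lit 0) (nat_lit 209378457645) (nat_lit 152) (nat_lit 289164379207) (nat_lit 0) (nat_lit 93597272278) (nat_lit 10) (nat_lit 5) (nat_lit 12) (nat_lit 4) (nat_lit 10) (nat_lit 4) (nat_lit 423) (nat_lit 369) (nat_lit 228)))) (XT.nd (nat_lit 78) (nat_lit 76) (nat_lit 0) (XT.lf (nat_lit 0) (nat_lit 324989655659) (nat_lit 152) (nat_lit 96652873306) (nat_lit 0) (nat_lit 209208304118) (nat_lit 10) (nat_lit 5) (nat_lit 12) (nat_lit 4) (nat_lit 10) (nat_lit 4) (nat_lit 424) (nat_lit 369) (nat_lit 227)) (XT.nd (nat_lit 78) (nat_lit 0) (nat_lit 0) (XT.lf (nat_lit 0) (nat_lit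 117117656531) (nat_lit 76) (nat_lit 335548476583) (nat_lit 76) (nat_lit 219766971178) (nat_lit 9) (nat_lit 4) (nat_lit 10) (nat_lit 5) (nat_lit 10) (nat_lit 4) (nat_lit 425) (nat_lit 369) (nat_lit 226)) (XT.lf (nat_lit 0) (nat_lit 353485982347) (nat_lit 76) (nat_lit 239713116570) (nat_lit 76) (nat_lit 123931468697) (nat_lit 9) (nat_lit 4) (nat_lit 10) (nat_lit 5) (nat_lit 10) (nat_lit 4) (nat_lit 426) (nat_lit 369) (nat_lit 225))))))) (XT.nd (nat_lit 780) (nat_lit 152) (nat_lit 0) (XT.nd (nat_lit 390) (nat_lit 152) (nat_lit 0) (XT.nd (nat_lit 156) (nat_lit 0) (nat_lit 0) (XT.nd (nat_lit 78) (nat_lit 152) (nat_lit 0) (XT.lf (nat_lit 0) (nat_lit 608763236308) (nat_lit 76) (nat_lit 136211196519) (nat_lit 76) (nat_lit 20429416732) (nat_lit 9) (nat_lit 4) (nat_lit 10) (nat_lit 5) (nat_lit 10) (nat_lit 4) (nat_lit 427) (nat_lit 369) (nat_lit 224)) (XT.lf (nat_lit 0) (nat_lit 68134491131) (nat_lit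 76) (nat_lit 20286851686) (nat_lit 152) (nat_lit 728810817868) (nat_lit 7) (nat_lit 5) (nat_lit 8) (nat_lit 5) (nat_lit 9) (nat_lit 4) (nat_lit 428) (nat_lit 369) (nat_lit 223))) (XT.nd (nat_lit 78) (nat_lit 0) (nat_lit 0) (XT.lf (nat_lit 0) (nat_lit 211793386240) (nat_lit 152) (nat_lit 556229727593) (nat_lit 0) (nat_lit 104587816772) (nat_lit 7) (nat_lit 5) (nat_lit 9) (nat_lit 4) (nat_lit 7) (nat_lit 4) (nat_lit 429) (nat_lit 369) (nat_lit 222)) (XT.nd (nat_lit 78) (nat_lit 0) (nat_lit 0) (XT.lf (nat_lit 0) (nat_lit 345561888448) (nat_lit 152) (nat_lit 348459756046) (nat_lit 0) (nat_lit 238356222019) (nat_lit 7) (nat_lit 5) (nat_lit 9) (nat_lit 4) (nat_lit 7) (nat_lit 4) (nat_lit 430) (nat_lit 369) (nat_lit 221)) (XT.lf (nat_lit 0) (nat_lit 490031652405) (nat_lit 152) (nat_lit 124068626182) (nat_lit 0) (nat_lit 382825896197) (nat_lit 7) (nat_lit 5) (nat_lit 9) (nat_lit 4) (nat_lit 7)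 (nat_lit 4) (nat_lit 431) (nat_lit 369) (nat_lit 220))))) (XT.nd (nat_lit 156) (nat_lit 76) (nat_lit 0) (XT.nd (nat_lit 78) (nat_lit 0) (nat_lit 0) (XT.lf (nat_lit 0) (nat_lit 124501454185) (nat_lit 76) (nat_lit 524551604013) (nat_lit 76) (nat_lit 417345764677) (nat_lit 6) (nat_lit 4) (nat_lit 7) (nat_lit 5) (nat_lit 7) (nat_lit 4) (nat_lit 432) (nat_lit 369) (nat_lit 219)) (XT.lf (nat_lit 0) (nat_lit 400012637130) (nat_lit 76) (nat_lit 424175598630) (nat_lit 76) (nat_lit 316969682324) (nat_lit 6) (nat_lit 4) (nat_lit 7) (nat_lit 5) (nat_lit 7) (nat_lit 4) (nat_lit 433) (nat_lit 369) (nat_lit 218))) (XT.nd (nat_lit 78) (nat_lit 76) (nat_lit 0) (XT.lf (nat_lit 0) (nat_lit 697564347528) (nat_lit 76) (nat_lit 315769697775) (nat_lit 76) (nat_lit 208563710199) (nat_lit 6) (nat_lit 4) (nat_lit 7) (nat_lit 5) (nat_lit 7) (nat_lit 4) (nat_lit 434) (nat_lit 369) (nat_lit 217)) (XT.nd (nat_lit 78)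 (nat_lit 76) (nat_lit 0) (XT.lf (nat_lit 0) (nat_lit 1018919854773) (nat_lit 76) (nat_lit 198691496107) (nat_lit 76) (nat_lit 91485442542) (nat_lit 6) (nat_lit 4) (nat_lit 7) (nat_lit 5) (nat_lit 7) (nat_lit 4) (nat_lit 435) (nat_lit 369) (nat_lit 216)) (XT.lf (nat_lit 0) (nat_lit 33210131136) (nat_lit 152) (nat_lit 38129041903) (nat_lit 76) (nat_lit 1331865332823) (nat_lit 5) (nat_lit 5) (nat_lit 7) (nat_lit 5) (nat_lit 6) (nat_lit 4) (nat_lit 436) (nat_lit 369) (nat_lit 215)))))) (XT.nd (nat_lit 390) (nat_lit 76) (nat_lit 0) (XT.nd (nat_lit 156) (nat_lit 0) (nat_lit 0) (XT.nd (nat_lit 78) (nat_lit 0) (nat_lit 0) (XT.lf (nat_lit 0) (nat_lit 170610814241) (nat_lit 152) (nat_lit 1262080316283) (nat_lit 0) (nat_lit 71345840868) (nat_lit 4) (nat_lit 5) (nat_lit 6) (nat_lit 4) (nat_lit 4) (nat_lit 4) (nat_lit 437) (nat_lit 369) (nat_lit 214)) (XT.lf (nat_lit 0) (nat_lit 321925963443) (nat_lit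 152) (nat_lit 1068115336249) (nat_lit 0) (nat_lit 222660941565) (nat_lit 4) (nat_lit 5) (nat_lit 6) (nat_lit 4) (nat_lit 4) (nat_lit 4) (nat_lit 438) (nat_lit 369) (nat_lit 213))) (XT.nd (nat_lit 78) (nat_lit 0) (nat_lit 0) (XT.lf (nat_lit 0) (nat_lit 485346187555) (nat_lit 152) (nat_lit 858633435362) (nat_lit 0) (nat_lit 386081120766) (nat_lit 4) (nat_lit 5) (nat_lit 6) (nat_lit 4) (nat_lit 4) (nat_lit 4) (nat_lit 439) (nat_lit 369) (nat_lit 212)) (XT.nd (nat_lit 78) (nat_lit 0) (nat_lit 0) (XT.lf (nat_lit 0) (nat_lit 661839902721) (nat_lit 152) (nat_lit 632393239393) (nat_lit 0) (nat_lit 562574794346) (nat_lit 4) (nat_lit 5) (nat_lit 6) (nat_lit 4) (nat_lit 4) (nat_lit 4) (nat_lit 440) (nat_lit 369) (nat_lit 211)) (XT.lf (nat_lit 0) (nat_lit 852452997623) (nat_lit 152) (nat_lit 388054065699) (nat_lit 0) (nat_lit 753187850743) (nat_lit 4) (nat_lit 5) (nat_lit 6) (nat_lit 4) (nat_lit 4)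 (nat_lit 4) (nat_lit 441) (nat_lit 369) (nat_lit 210))))) (XT.nd (nat_lit 234) (nat_lit 0) (nat_lit 0) (XT.nd (nat_lit 78) (nat_lit 76) (nat_lit 0) (XT.lf (nat_lit 0) (nat_lit 1058315031341) (nat_lit 152) (nat_lit 124167978438) (nat_lit 0) (nat_lit 959049848809) (nat_lit 4) (nat_lit 5) (nat_lit 6) (nat_lit 4) (nat_lit 4) (nat_lit 4) (nat_lit 442) (nat_lit 369) (nat_lit 209)) (XT.nd (nat_lit 78) (nat_lit 0) (nat_lit 0) (XT.lf (nat_lit 0) (nat_lit 169297750960) (nat_lit 76) (nat_lit 1115419791060) (nat_lit 76) (nat_lit 1016154575517) (nat_lit 3) (nat_lit 4) (nat_lit 4) (nat_lit 5) (nat_lit 4) (nat_lit 4) (nat_lit 443) (nat_lit 369) (nat_lit 208)) (XT.lf (nat_lit 0) (nat_lit 493302082825) (nat_lit 76) (nat_lit 1039325045265) (nat_lit 76) (nat_lit 940059799156) (nat_lit 3) (nat_lit 4) (nat_lit 4) (nat_lit 5) (nat_lit 4) (nat_lit 4) (nat_lit 444) (nat_lit 369) (nat_lit 207)))) (XT.nd (nat_lit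 78) (nat_lit 0) (nat_lit 0) (XT.lf (nat_lit 0) (nat_lit 843226577127) (nat_lit 76) (nat_lit 957142813141) (nat_lit 76) (nat_lit 857877538730) (nat_lit 3) (nat_lit 4) (nat_lit 4) (nat_lit 5) (nat_lit 4) (nat_lit 4) (nat_lit 445) (nat_lit 369) (nat_lit 206)) (XT.nd (nat_lit 78) (nat_lit 0) (nat_lit 0) (XT.lf (nat_lit 0) (nat_lit 1221144860497) (nat_lit 76) (nat_lit 868386088870) (nat_lit 76) (nat_lit 769120788253) (nat_lit 3) (nat_lit 4) (nat_lit 4) (nat_lit 5) (nat_lit 4) (nat_lit 4) (nat_lit 446) (nat_lit 369) (nat_lit 205)) (XT.lf (nat_lit 0) (nat_lit 1629296448690) (nat_lit 76) (nat_lit 772528906677) (nat_lit 76) (nat_lit 673263581796) (nat_lit 3) (nat_lit 4) (nat_lit 4) (nat_lit 5) (nat_lit 4) (nat_lit 4) (nat_lit 447) (nat_lit 369) (nat_lit 204))))))))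
noncomputable def xc172 : XT := (XT.nd (nat_lit 47580) (nat_lit 0) (nat_lit 2204) (XT.nd (nat_lit 780) (nat_lit 0) (nat_lit 0) (XT.nd (nat_lit 390) (nat_lit 152) (nat_lit 0) (XT.nd (nat_lit 156) (nat_lit 0) (nat_lit 0) (XT.nd (nat_lit 78) (nat_lit 0) (nat_lit 0) (XT.lf (nat_lit 0) (nat_lit 2070100017784) (nat_lit 76) (nat_lit 669003224001) (nat_lit 76) (nat_lit 569737876653) (nat_lit 3) (nat_lit 4) (nat_lit 4) (nat_lit 5) (nat_lit 4) (nat_lit 4) (nat_lit 448) (nat_lit 369) (nat_lit 203)) (XT.lf (nat_lit 0) (nat_lit 2546167737078) (nat_lit 76) (nat_lit 557195555315) (nat_lit 76) (nat_lit 457930187165) (nat_lit 3) (nat_lit 4) (nat_lit 4) (nat_lit 5) (nat_lit 4) (nat_lit 4) (nat_lit 449) (nat_lit 369) (nat_lit 202))) (XT.nd (nat_lit 78) (nat_lit 0) (nat_lit 0) (XT.lf (nat_lit 0) (nat_lit 3060320748610) (nat_lit 76) (nat_lit 436443336658) (nat_lit 76) (nat_lit 337177949245) (nat_lit 3) (nat_lit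 4) (nat_lit 4) (nat_lit 5) (nat_lit 4) (nat_lit 4) (nat_lit 450) (nat_lit 369) (nat_lit 201)) (XT.nd (nat_lit 78) (nat_lit 0) (nat_lit 0) (XT.lf (nat_lit 0) (nat_lit 3615605885043) (nat_lit 76) (nat_lit 306030999324) (nat_lit 76) (nat_lit 206765594077) (nat_lit 3) (nat_lit 4) (nat_lit 4) (nat_lit 5) (nat_lit 4) (nat_lit 4) (nat_lit 451) (nat_lit 369) (nat_lit 200)) (XT.lf (nat_lit 0) (nat_lit 4215313724962) (nat_lit 76) (nat_lit 165185729465) (nat_lit 76) (nat_lit 65920307703) (nat_lit 3) (nat_lit 4) (nat_lit 4) (nat_lit 5) (nat_lit 4) (nat_lit 4) (nat_lit 452) (nat_lit 369) (nat_lit 199))))) (XT.nd (nat_lit 156) (nat_lit 0) (nat_lit 0) (XT.nd (nat_lit 78) (nat_lit 0) (nat_lit 0) (XT.lf (nat_lit 0) (nat_lit 74787922053) (nat_lit 76) (nat_lit 8891577516) (nat_lit 152) (nat_lit 4705889206133) (nat_lit 1) (nat_lit 5) (nat_lit 2) (nat_lit 5) (nat_lit 3) (nat_lit 4) (nat_lit 453) (nat_lit 369)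 (nat_lit 198)) (XT.lf (nat_lit 0) (nat_lit 252014552648) (nat_lit 152) (nat_lit 4747089643423) (nat_lit 0) (nat_lit 160102097824) (nat_lit 1) (nat_lit 5) (nat_lit 3) (nat_lit 4) (nat_lit 1) (nat_lit 4) (nat_lit 454) (nat_lit 369) (nat_lit 197))) (XT.nd (nat_lit 78) (nat_lit 0) (nat_lit 0) (XT.lf (nat_lit 0) (nat_lit 434047313555) (nat_lit 152) (nat_lit 4782214256713) (nat_lit 0) (nat_lit 342134846592) (nat_lit 1) (nat_lit 5) (nat_lit 3) (nat_lit 4) (nat_lit 1) (nat_lit 4) (nat_lit 455) (nat_lit 369) (nat_lit 196)) (XT.nd (nat_lit 78) (nat_lit 0) (nat_lit 0) (XT.lf (nat_lit 0) (nat_lit 630642652293) (nat_lit 152) (nat_lit 4820148926723) (nat_lit 0) (nat_lit 538730174091) (nat_lit 1) (nat_lit 5) (nat_lit 3) (nat_lit 4) (nat_lit 1) (nat_lit 4) (nat_lit 456) (nat_lit 369) (nat_lit 195)) (XT.lf (nat_lit 0) (nat_lit 842965578277) (nat_lit 152) (nat_lit 4861118451498) (nat_lit 0) (nat_lit 751053089669)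 (nat_lit 1) (nat_lit 5) (nat_lit 3) (nat_lit 4) (nat_lit 1) (nat_lit 4) (nat_lit 457) (nat_lit 369) (nat_lit 194)))))) (XT.nd (nat_lit 46410) (nat_lit 0) (nat_lit 4408) (XT.nd (nat_lit 156) (nat_lit 0) (nat_lit 0) (XT.nd (nat_lit 78) (nat_lit 0) (nat_lit 0) (XT.lf (nat_lit 0) (nat_lit 1072274301439) (nat_lit 152) (nat_lit 4905365613407) (nat_lit 0) (nat_lit 980361803195) (nat_lit 1) (nat_lit 5) (nat_lit 3) (nat_lit 4) (nat_lit 1) (nat_lit 4) (nat_lit 458) (nat_lit 369) (nat_lit 193)) (XT.lf (nat_lit 0) (nat_lit 1319927688287) (nat_lit 152) (nat_lit 4953152617854) (nat_lit 0) (nat_lit 1228015181121) (nat_lit 1) (nat_lit 5) (nat_lit 3) (nat_lit 4) (nat_lit 1) (nat_lit 4) (nat_lit 459) (nat_lit 369) (nat_lit 192))) (XT.nd (nat_lit 46098) (nat_lit 0) (nat_lit 4788) (XT.lf (nat_lit 0) (nat_lit 1587393314447) (nat_lit 152) (nat_lit 5004762647087) (nat_lit 0) (nat_lit 1495480799020) (nat_lit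 1) (nat_lit 5) (nat_lit 3) (nat_lit 4) (nat_lit 1) (nat_lit 4) (nat_lit 460) (nat_lit 369) (nat_lit 191)) (XT.nd (nat_lit 78) (nat_lit 0) (nat_lit 0) (XT.lf (nat_lit 0) (nat_lit 17885081058) (nat_lit 532) (nat_lit 1295161690) (nat_lit 532) (nat_lit 1295161690) (nat_lit 64) (nat_lit 3) (nat_lit 71) (nat_lit 3) (nat_lit 71) (nat_lit 5) (nat_lit 370) (nat_lit 370) (nat_lit 280)) (XT.lf (nat_lit 76) (nat_lit 18224973940) (nat_lit 0) (nat_lit 19450860022) (nat_lit 532) (nat_lit 4874983462) (nat_lit 65) (nat_lit 5) (nat_lit 64) (nat_lit 3) (nat_lit 71) (nat_lit 5) (nat_lit 371) (nat_lit 370) (nat_lit 279))))) (XT.nd (nat_lit 156) (nat_lit 456) (nat_lit 0) (XT.nd (nat_lit 78) (nat_lit 0) (nat_lit 0) (XT.lf (nat_lit 0) (nat_lit 39826320515) (nat_lit 456) (nat_lit 3447976592) (nat_lit 532) (nat_lit 997144133) (nat_lit 65) (nat_lit 5) (nat_lit 71) (nat_lit 5) (nat_lit 72) (nat_lit 5) (nat_lit 372)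 (nat_lit 370) (nat_lit 278)) (XT.lf (nat_lit 76) (nat_lit 19571718532) (nat_lit 0) (nat_lit 23549648506) (nat_lit 532) (nat_lit 2930549444) (nat_lit 66) (nat_lit 5) (nat_lit 65) (nat_lit 5) (nat_lit 72) (nat_lit 5) (nat_lit 373) (nat_lit 370) (nat_lit 277))) (XT.nd (nat_lit 78) (nat_lit 456) (nat_lit 0) (XT.lf (nat_lit 76) (nat_lit 44626894870) (nat_lit 0) (nat_lit 2144198865) (nat_lit 532) (nat_lit 1196452855) (nat_lit 66) (nat_lit 5) (nat_lit 65) (nat_lit 5) (nat_lit 72) (nat_lit 5) (nat_lit 374) (nat_lit 370) (nat_lit 276)) (XT.nd (nat_lit 78) (nat_lit 0) (nat_lit 0) (XT.lf (nat_lit 0) (nat_lit 1706217287) (nat_lit 532) (nat_lit 27739956918) (nat_lit 608) (nat_lit 20503859652) (nat_lit 59) (nat_lit 5) (nat_lit 66) (nat_lit 5) (nat_lit 67) (nat_lit 5) (nat_lit 375) (nat_lit 370) (nat_lit 275)) (XT.lf (nat_lit 0) (nat_lit 4923018463) (nat_lit 532) (nat_lit 2180484645) (nat_lit 608) (nat_lit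 44973408661) (nat_lit 59) (nat_lit 5) (nat_lit 66) (nat_lit 5) (nat_lit 67) (nat_lit 5) (nat_lit 376) (nat_lit 370) (nat_lit 274))))))) (XT.nd (nat_lit 780) (nat_lit 988) (nat_lit 0) (XT.nd (nat_lit 390) (nat_lit 684) (nat_lit 0) (XT.nd (nat_lit 156) (nat_lit 228) (nat_lit 0) (XT.nd (nat_lit 78) (nat_lit 380) (nat_lit 0) (XT.lf (nat_lit 0) (nat_lit 9464326374) (nat_lit 532) (nat_lit 27988686782) (nat_lit 76) (nat_lit 16835555925) (nat_lit 60) (nat_lit 5) (nat_lit 67) (nat_lit 5) (nat_lit 61) (nat_lit 5) (nat_lit 377) (nat_lit 370) (nat_lit 273)) (XT.lf (nat_lit 0) (nat_lit 338833231) (nat_lit 380) (nat_lit 14281442789) (nat_lit 456) (nat_lit 42036778008) (nat_lit 55) (nat_lit 5) (nat_lit 60) (nat_lit 5) (nat_lit 61) (nat_lit 5) (nat_lit 378) (nat_lit 370) (nat_lit 272))) (XT.nd (nat_lit 78) (nat_lit 228) (nat_lit 0) (XT.lf (nat_lit 0) (nat_lit 21229873775) (nat_lit 456) (nat_lit 26910256309)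 (nat_lit 76) (nat_lit 10991595786) (nat_lit 55) (nat_lit 5) (nat_lit 61) (nat_lit 5) (nat_lit 56) (nat_lit 5) (nat_lit 379) (nat_lit 370) (nat_lit 271)) (XT.nd (nat_lit 78) (nat_lit 0) (nat_lit 0) (XT.lf (nat_lit 0) (nat_lit 4712850175) (nat_lit 228) (nat_lit 24137499363) (nat_lit 304) (nat_lit 32915454837) (nat_lit 52) (nat_lit 5) (nat_lit 55) (nat_lit 5) (nat_lit 56) (nat_lit 5) (nat_lit 380) (nat_lit 370) (nat_lit 270)) (XT.lf (nat_lit 0) (nat_lit 37876208789) (nat_lit 304) (nat_lit 24219989854) (nat_lit 76) (nat_lit 2450752484) (nat_lit 52) (nat_lit 5) (nat_lit 56) (nat_lit 5) (nat_lit 53) (nat_lit 5) (nat_lit 381) (nat_lit 370) (nat_lit 269))))) (XT.nd (nat_lit 156) (nat_lit 456) (nat_lit 0) (XT.nd (nat_lit 78) (nat_lit 0) (nat_lit 0) (XT.lf (nat_lit 0) (nat_lit 11169159267) (nat_lit 228) (nat_lit 37348620766) (nat_lit 304) (nat_lit 18961319611) (nat_lit 49) (nat_lit 5) (nat_lit 52)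 (nat_lit 5) (nat_lit 53) (nat_lit 5) (nat_lit 382) (nat_lit 370) (nat_lit 268)) (XT.lf (nat_lit 0) (nat_lit 50764678164) (nat_lit 228) (nat_lit 9906383101) (nat_lit 304) (nat_lit 9921929409) (nat_lit 49) (nat_lit 5) (nat_lit 52) (nat_lit 5) (nat_lit 53) (nat_lit 5) (nat_lit 383) (nat_lit 370) (nat_lit 267))) (XT.nd (nat_lit 78) (nat_lit 228) (nat_lit 0) (XT.lf (nat_lit 0) (nat_lit 829675389) (nat_lit 228) (nat_lit 53799814689) (nat_lit 76) (nat_lit 19248323535) (nat_lit 46) (nat_lit 5) (nat_lit 49) (nat_lit 5) (nat_lit 47) (nat_lit 5) (nat_lit 384) (nat_lit 370) (nat_lit 266)) (XT.nd (nat_lit 78) (nat_lit 228) (nat_lit 0) (XT.lf (nat_lit 0) (nat_lit 12717225784) (nat_lit 228) (nat_lit 13608862544) (nat_lit 76) (nat_lit 51013769426) (nat_lit 46) (nat_lit 5) (nat_lit 49) (nat_lit 5) (nat_lit 47) (nat_lit 5) (nat_lit 385) (nat_lit 370) (nat_lit 265)) (XT.lf (nat_lit 0) (nat_lit 26430135912)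 (nat_lit 304) (nat_lit 49775917173) (nat_lit 76) (nat_lit 4802864895) (nat_lit 43) (nat_lit 5) (nat_lit 47) (nat_lit 5) (nat_lit 44) (nat_lit 5) (nat_lit 386) (nat_lit 370) (nat_lit 264)))))) (XT.nd (nat_lit 390) (nat_lit 456) (nat_lit 0) (XT.nd (nat_lit 156) (nat_lit 380) (nat_lit 0) (XT.nd (nat_lit 78) (nat_lit 152) (nat_lit 0) (XT.lf (nat_lit 0) (nat_lit 42304135786) (nat_lit 304) (nat_lit 5201106820) (nat_lit 76) (nat_lit 37381136797) (nat_lit 43) (nat_lit 5) (nat_lit 47) (nat_lit 5) (nat_lit 44) (nat_lit 5) (nat_lit 387) (nat_lit 370) (nat_lit 263)) (XT.lf (nat_lit 0) (nat_lit 45198795597) (nat_lit 152) (nat_lit 15334910071) (nat_lit 228) (nat_lit 28453480938) (nat_lit 41) (nat_lit 5) (nat_lit 43) (nat_lit 5) (nat_lit 44) (nat_lit 5) (nat_lit 388) (nat_lit 370) (nat_lit 262))) (XT.nd (nat_lit 78) (nat_lit 228) (nat_lit 0) (XT.lf (nat_lit 0) (nat_lit 6367901796) (nat_lit 152) (nat_lit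 74618238951) (nat_lit 228) (nat_lit 12368758469) (nat_lit 39) (nat_lit 5) (nat_lit 41) (nat_lit 5) (nat_lit 42) (nat_lit 5) (nat_lit 389) (nat_lit 370) (nat_lit 261)) (XT.nd (nat_lit 78) (nat_lit 152) (nat_lit 0) (XT.lf (nat_lit 0) (nat_lit 6377824523) (nat_lit 228) (nat_lit 35500973931) (nat_lit 76) (nat_lit 56053578574) (nat_lit 38) (nat_lit 5) (nat_lit 41) (nat_lit 5) (nat_lit 39) (nat_lit 5) (nat_lit 390) (nat_lit 370) (nat_lit 260)) (XT.lf (nat_lit 0) (nat_lit 20822450297) (nat_lit 152) (nat_lit 5633008871) (nat_lit 228) (nat_lit 76354928477) (nat_lit 36) (nat_lit 5) (nat_lit 38) (nat_lit 5) (nat_lit 39) (nat_lit 5) (nat_lit 391) (nat_lit 370) (nat_lit 259))))) (XT.nd (nat_lit 234) (nat_lit 304) (nat_lit 0) (XT.nd (nat_lit 78) (nat_lit 152) (nat_lit 0) (XT.lf (nat_lit 0) (nat_lit 49939962471) (nat_lit 228) (nat_lit 25163324150) (nat_lit 76) (nat_lit 32831300450) (nat_lit 36) (nat_lit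 5) (nat_lit 39) (nat_lit 5) (nat_lit 37) (nat_lit 5) (nat_lit 392) (nat_lit 370) (nat_lit 258)) (XT.nd (nat_lit 78) (nat_lit 0) (nat_lit 0) (XT.lf (nat_lit 0) (nat_lit 37958027984) (nat_lit 152) (nat_lit 38403300834) (nat_lit 228) (nat_lit 37022745955) (nat_lit 34) (nat_lit 5) (nat_lit 36) (nat_lit 5) (nat_lit 37) (nat_lit 5) (nat_lit 393) (nat_lit 370) (nat_lit 257)) (XT.lf (nat_lit 0) (nat_lit 105630855979) (nat_lit 228) (nat_lit 11703607121) (nat_lit 76) (nat_lit 1876302777) (nat_lit 34) (nat_lit 5) (nat_lit 37) (nat_lit 5) (nat_lit 35) (nat_lit 4) (nat_lit 394) (nat_lit 370) (nat_lit 256)))) (XT.nd (nat_lit 78) (nat_lit 152) (nat_lit 0) (XT.lf (nat_lit 0) (nat_lit 13631126379) (nat_lit 152) (nat_lit 66582749822) (nat_lit 76) (nat_lit 45068734024) (nat_lit 32) (nat_lit 5) (nat_lit 34) (nat_lit 5) (nat_lit 33) (nat_lit 5) (nat_lit 395) (nat_lit 370) (nat_lit 255)) (XT.nd (nat_lit 78)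 (nat_lit 0) (nat_lit 0) (XT.lf (nat_lit 0) (nat_lit 3393687391) (nat_lit 152) (nat_lit 39300632542) (nat_lit 228) (nat_lit 89084949214) (nat_lit 30) (nat_lit 5) (nat_lit 32) (nat_lit 5) (nat_lit 33) (nat_lit 5) (nat_lit 396) (nat_lit 370) (nat_lit 254)) (XT.lf (nat_lit 0) (nat_lit 76066879257) (nat_lit 228) (nat_lit 56061606828) (nat_lit 76) (nat_lit 6508430247) (nat_lit 30) (nat_lit 5) (nat_lit 33) (nat_lit 5) (nat_lit 31) (nat_lit 4) (nat_lit 397) (nat_lit 370) (nat_lit 253))))))))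
noncomputable def xc173 : XT := (XT.nd (nat_lit 1560) (nat_lit 760) (nat_lit 0) (XT.nd (nat_lit 780) (nat_lit 532) (nat_lit 0) (XT.nd (nat_lit 390) (nat_lit 304) (nat_lit 0) (XT.nd (nat_lit 156) (nat_lit 228) (nat_lit 0) (XT.nd (nat_lit 78) (nat_lit 76) (nat_lit 0) (XT.lf (nat_lit 0) (nat_lit 22133143947) (nat_lit 76) (nat_lit 91528303182) (nat_lit 152) (nat_lit 32257552203) (nat_lit 29) (nat_lit 5) (nat_lit 30) (nat_lit 5) (nat_lit 31) (nat_lit 4) (nat_lit 398) (nat_lit 370) (nat_lit 252)) (XT.lf (nat_lit 0) (nat_lit 2027673636) (nat_lit 152) (nat_lit 43942175116) (nat_lit 76) (nat_lit 107687137101) (nat_lit 28) (nat_lit 5) (nat_lit 30) (nat_lit 5) (nat_lit 29) (nat_lit 5) (nat_lit 399) (nat_lit 370) (nat_lit 251))) (XT.nd (nat_lit 78) (nat_lit 76) (nat_lit 0) (XT.lf (nat_lit 0) (nat_lit 38488274895) (nat_lit 228) (nat_lit 118357484659) (nat_lit 76) (nat_lit 5007199093) (nat_lit 26) (nat_lit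 5) (nat_lit 29) (nat_lit 5) (nat_lit 27) (nat_lit 4) (nat_lit 400) (nat_lit 370) (nat_lit 250)) (XT.nd (nat_lit 78) (nat_lit 76) (nat_lit 0) (XT.lf (nat_lit 0) (nat_lit 80291601530) (nat_lit 228) (nat_lit 31407998861) (nat_lit 76) (nat_lit 58810938946) (nat_lit 26) (nat_lit 5) (nat_lit 29) (nat_lit 5) (nat_lit 27) (nat_lit 4) (nat_lit 401) (nat_lit 370) (nat_lit 249)) (XT.lf (nat_lit 0) (nat_lit 65787044182) (nat_lit 76) (nat_lit 61233581603) (nat_lit 152) (nat_lit 52713586409) (nat_lit 25) (nat_lit 5) (nat_lit 26) (nat_lit 5) (nat_lit 27) (nat_lit 4) (nat_lit 402) (nat_lit 370) (nat_lit 248))))) (XT.nd (nat_lit 156) (nat_lit 152) (nat_lit 0) (XT.nd (nat_lit 78) (nat_lit 152) (nat_lit 0) (XT.lf (nat_lit 0) (nat_lit 172542589210) (nat_lit 76) (nat_lit 5803408743) (nat_lit 152) (nat_lit 11281139067) (nat_lit 25) (nat_lit 5) (nat_lit 26) (nat_lit 5) (nat_lit 27) (nat_lit 4) (nat_lit 403)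 (nat_lit 370) (nat_lit 247)) (XT.lf (nat_lit 0) (nat_lit 35364673420) (nat_lit 152) (nat_lit 110162057594) (nat_lit 76) (nat_lit 54434546987) (nat_lit 23) (nat_lit 5) (nat_lit 25) (nat_lit 5) (nat_lit 24) (nat_lit 4) (nat_lit 404) (nat_lit 370) (nat_lit 246))) (XT.nd (nat_lit 78) (nat_lit 152) (nat_lit 0) (XT.lf (nat_lit 0) (nat_lit 85761989566) (nat_lit 152) (nat_lit 5336615694) (nat_lit 76) (nat_lit 119949758789) (nat_lit 23) (nat_lit 5) (nat_lit 25) (nat_lit 5) (nat_lit 24) (nat_lit 4) (nat_lit 405) (nat_lit 370) (nat_lit 245)) (XT.nd (nat_lit 78) (nat_lit 76) (nat_lit 0) (XT.lf (nat_lit 0) (nat_lit 113554141159) (nat_lit 76) (nat_lit 29367300457) (nat_lit 152) (nat_lit 79882547474) (nat_lit 22) (nat_lit 5) (nat_lit 23) (nat_lit 5) (nat_lit 24) (nat_lit 4) (nat_lit 406) (nat_lit 370) (nat_lit 244)) (XT.lf (nat_lit 0) (nat_lit 6178244591) (nat_lit 76) (nat_lit 199670198619) (nat_lit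 76) (nat_lit 29556037603) (nat_lit 21) (nat_lit 4) (nat_lit 22) (nat_lit 5) (nat_lit 22) (nat_lit 4) (nat_lit 407) (nat_lit 370) (nat_lit 243)))))) (XT.nd (nat_lit 390) (nat_lit 228) (nat_lit 0) (XT.nd (nat_lit 156) (nat_lit 152) (nat_lit 0) (XT.nd (nat_lit 78) (nat_lit 76) (nat_lit 0) (XT.lf (nat_lit 0) (nat_lit 27383005845) (nat_lit 152) (nat_lit 113158226015) (nat_lit 76) (nat_lit 108117924344) (nat_lit 20) (nat_lit 5) (nat_lit 22) (nat_lit 5) (nat_lit 21) (nat_lit 4) (nat_lit 408) (nat_lit 370) (nat_lit 242)) (XT.lf (nat_lit 0) (nat_lit 12028150313) (nat_lit 76) (nat_lit 75540932629) (nat_lit 152) (nat_lit 175320611345) (nat_lit 19) (nat_lit 5) (nat_lit 20) (nat_lit 5) (nat_lit 21) (nat_lit 4) (nat_lit 409) (nat_lit 370) (nat_lit 241))) (XT.nd (nat_lit 78) (nat_lit 152) (nat_lit 0) (XT.lf (nat_lit 0) (nat_lit 153663790525) (nat_lit 76) (nat_lit 1999645811) (nat_lit 152) (nat_lit 122347767980)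 (nat_lit 19) (nat_lit 5) (nat_lit 20) (nat_lit 5) (nat_lit 21) (nat_lit 4) (nat_lit 410) (nat_lit 370) (nat_lit 240)) (XT.nd (nat_lit 78) (nat_lit 76) (nat_lit 0) (XT.lf (nat_lit 0) (nat_lit 10973717984) (nat_lit 76) (nat_lit 220357083766) (nat_lit 76) (nat_lit 62841596398) (nat_lit 18) (nat_lit 4) (nat_lit 19) (nat_lit 5) (nat_lit 19) (nat_lit 4) (nat_lit 411) (nat_lit 370) (nat_lit 239)) (XT.lf (nat_lit 0) (nat_lit 4893383057) (nat_lit 152) (nat_lit 147337738693) (nat_lit 76) (nat_lit 159109455836) (nat_lit 17) (nat_lit 5) (nat_lit 19) (nat_lit 5) (nat_lit 18) (nat_lit 4) (nat_lit 412) (nat_lit 370) (nat_lit 238))))) (XT.nd (nat_lit 156) (nat_lit 152) (nat_lit 0) (XT.nd (nat_lit 78) (nat_lit 76) (nat_lit 0) (XT.lf (nat_lit 0) (nat_lit 74651597064) (nat_lit 152) (nat_lit 2241105489) (nat_lit 76) (nat_lit 252858967795) (nat_lit 17) (nat_lit 5) (nat_lit 19) (nat_lit 5) (nat_lit 18) (nat_lit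 4) (nat_lit 413) (nat_lit 370) (nat_lit 237)) (XT.lf (nat_lit 0) (nat_lit 154109589721) (nat_lit 152) (nat_lit 186935872773) (nat_lit 0) (nat_lit 8260658389) (nat_lit 16) (nat_lit 5) (nat_lit 18) (nat_lit 4) (nat_lit 16) (nat_lit 4) (nat_lit 414) (nat_lit 370) (nat_lit 236))) (XT.nd (nat_lit 78) (nat_lit 152) (nat_lit 0) (XT.lf (nat_lit 0) (nat_lit 241983856044) (nat_lit 152) (nat_lit 32141734787) (nat_lit 0) (nat_lit 96134565955) (nat_lit 16) (nat_lit 5) (nat_lit 18) (nat_lit 4) (nat_lit 16) (nat_lit 4) (nat_lit 415) (nat_lit 370) (nat_lit 235)) (XT.nd (nat_lit 78) (nat_lit 76) (nat_lit 0) (XT.lf (nat_lit 0) (nat_lit 142145840802) (nat_lit 76) (nat_lit 198160420638) (nat_lit 76) (nat_lit 52310798366) (nat_lit 15) (nat_lit 4) (nat_lit 16) (nat_lit 5) (nat_lit 16) (nat_lit 4) (nat_lit 416) (nat_lit 370) (nat_lit 234)) (XT.lf (nat_lit 0) (nat_lit 29145858359) (nat_lit 152) (nat_lit 85226544460)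 (nat_lit 76) (nat_lit 302260809870) (nat_lit 14) (nat_lit 5) (nat_lit 16) (nat_lit 5) (nat_lit 15) (nat_lit 4) (nat_lit 417) (nat_lit 370) (nat_lit 233))))))) (XT.nd (nat_lit 780) (nat_lit 380) (nat_lit 0) (XT.nd (nat_lit 390) (nat_lit 152) (nat_lit 0) (XT.nd (nat_lit 156) (nat_lit 152) (nat_lit 0) (XT.nd (nat_lit 78) (nat_lit 0) (nat_lit 0) (XT.lf (nat_lit 0) (nat_lit 96716381302) (nat_lit 76) (nat_lit 19902174439) (nat_lit 152) (nat_lit 325657352352) (nat_lit 13) (nat_lit 5) (nat_lit 14) (nat_lit 5) (nat_lit 15) (nat_lit 4) (nat_lit 418) (nat_lit 370) (nat_lit 232)) (XT.lf (nat_lit 0) (nat_lit 215454584756) (nat_lit 152) (nat_lit 173758347600) (nat_lit 0) (nat_lit 80407845554) (nat_lit 13) (nat_lit 5) (nat_lit 15) (nat_lit 4) (nat_lit 13) (nat_lit 4) (nat_lit 419) (nat_lit 370) (nat_lit 231))) (XT.nd (nat_lit 78) (nat_lit 76) (nat_lit 0) (XT.lf (nat_lit 0) (nat_lit 11862714729) (nat_lit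 76) (nat_lit 311136668469) (nat_lit 76) (nat_lit 176089703188) (nat_lit 12) (nat_lit 4) (nat_lit 13) (nat_lit 5) (nat_lit 13) (nat_lit 4) (nat_lit 420) (nat_lit 370) (nat_lit 230)) (XT.nd (nat_lit 78) (nat_lit 76) (nat_lit 0) (XT.lf (nat_lit 0) (nat_lit 222214578135) (nat_lit 76) (nat_lit 221683707234) (nat_lit 76) (nat_lit 86636532622) (nat_lit 12) (nat_lit 4) (nat_lit 13) (nat_lit 5) (nat_lit 13) (nat_lit 4) (nat_lit 421) (nat_lit 370) (nat_lit 229)) (XT.lf (nat_lit 0) (nat_lit 9473682903) (nat_lit 152) (nat_lit 115342107998) (nat_lit 76) (nat_lit 439661255338) (nat_lit 11) (nat_lit 5) (nat_lit 13) (nat_lit 5) (nat_lit 12) (nat_lit 4) (nat_lit 422) (nat_lit 370) (nat_lit 228))))) (XT.nd (nat_lit 156) (nat_lit 76) (nat_lit 0) (XT.nd (nat_lit 78) (nat_lit 0) (nat_lit 0) (XT.lf (nat_lit 0) (nat_lit 95605978479) (nat_lit 76) (nat_lit 15285139974) (nat_lit 152) (nat_lit 489879588292) (nat_lit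 10) (nat_lit 5) (nat_lit 11) (nat_lit 5) (nat_lit 12) (nat_lit 4) (nat_lit 423) (nat_lit 370) (nat_lit 227)) (XT.lf (nat_lit 0) (nat_lit 226134564803) (nat_lit 152) (nat_lit 312285900942) (nat_lit 0) (nat_lit 101090385100) (nat_lit 10) (nat_lit 5) (nat_lit 12) (nat_lit 4) (nat_lit 10) (nat_lit 4) (nat_lit 424) (nat_lit 370) (nat_lit 226))) (XT.nd (nat_lit 78) (nat_lit 76) (nat_lit 0) (XT.lf (nat_lit 0) (nat_lit 350994226766) (nat_lit 152) (nat_lit 104374335946) (nat_lit 0) (nat_lit 225949904595) (nat_lit 10) (nat_lit 5) (nat_lit 12) (nat_lit 4) (nat_lit 10) (nat_lit 4) (nat_lit 425) (nat_lit 370) (nat_lit 225)) (XT.nd (nat_lit 78) (nat_lit 0) (nat_lit 0) (XT.lf (nat_lit 0) (nat_lit 126497563689) (nat_lit 76) (nat_lit 362387111224) (nat_lit 76) (nat_lit 237342657140) (nat_lit 9) (nat_lit 4) (nat_lit 10) (nat_lit 5) (nat_lit 10) (nat_lit 4) (nat_lit 426) (nat_lit 370) (nat_lit 224)) (XT.lf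 (nat_lit 0) (nat_lit 381774578190) (nat_lit 76) (nat_lit 258885310816) (nat_lit 76) (nat_lit 133840734589) (nat_lit 9) (nat_lit 4) (nat_lit 10) (nat_lit 5) (nat_lit 10) (nat_lit 4) (nat_lit 427) (nat_lit 370) (nat_lit 223)))))) (XT.nd (nat_lit 390) (nat_lit 228) (nat_lit 0) (XT.nd (nat_lit 156) (nat_lit 0) (nat_lit 0) (XT.nd (nat_lit 78) (nat_lit 152) (nat_lit 0) (XT.lf (nat_lit 0) (nat_lit 657473292671) (nat_lit 76) (nat_lit 147103596797) (nat_lit 76) (nat_lit 22058907475) (nat_lit 9) (nat_lit 4) (nat_lit 10) (nat_lit 5) (nat_lit 10) (nat_lit 4) (nat_lit 428) (nat_lit 370) (nat_lit 222)) (XT.lf (nat_lit 0) (nat_lit 73594257564) (nat_lit 76) (nat_lit 21905286476) (nat_lit 152) (nat_lit 787110829636) (nat_lit 7) (nat_lit 5) (nat_lit 8) (nat_lit 5) (nat_lit 9) (nat_lit 4) (nat_lit 429) (nat_lit 370) (nat_lit 221))) (XT.nd (nat_lit 78) (nat_lit 0) (nat_lit 0) (XT.lf (nat_lit 0) (nat_lit 228741118569)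 (nat_lit 152) (nat_lit 600719533152) (nat_lit 0) (nat_lit 112958812086) (nat_lit 7) (nat_lit 5) (nat_lit 9) (nat_lit 4) (nat_lit 7) (nat_lit 4) (nat_lit 430) (nat_lit 370) (nat_lit 220)) (XT.nd (nat_lit 78) (nat_lit 0) (nat_lit 0) (XT.lf (nat_lit 0) (nat_lit 373210785291) (nat_lit 152) (nat_lit 376328598892) (nat_lit 0) (nat_lit 257428395680) (nat_lit 7) (nat_lit 5) (nat_lit 9) (nat_lit 4) (nat_lit 7) (nat_lit 4) (nat_lit 431) (nat_lit 370) (nat_lit 219)) (XT.lf (nat_lit 0) (nat_lit 529237838086) (nat_lit 152) (nat_lit 133986766612) (nat_lit 0) (nat_lit 413455371504) (nat_lit 7) (nat_lit 5) (nat_lit 9) (nat_lit 4) (nat_lit 7) (nat_lit 4) (nat_lit 432) (nat_lit 370) (nat_lit 218))))) (XT.nd (nat_lit 234) (nat_lit 152) (nat_lit 0) (XT.nd (nat_lit 78) (nat_lit 0) (nat_lit 0) (XT.lf (nat_lit 0) (nat_lit 134468734117) (nat_lit 76) (nat_lit 566512123882) (nat_lit 76) (nat_lit 450729586031) (nat_lit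 6) (nat_lit 4) (nat_lit 7) (nat_lit 5) (nat_lit 7) (nat_lit 4) (nat_lit 433) (nat_lit 370) (nat_lit 217)) (XT.nd (nat_lit 78) (nat_lit 0) (nat_lit 0) (XT.lf (nat_lit 0) (nat_lit 432020281060) (nat_lit 76) (nat_lit 458106305361) (nat_lit 76) (nat_lit 342323701520) (nat_lit 6) (nat_lit 4) (nat_lit 7) (nat_lit 5) (nat_lit 7) (nat_lit 4) (nat_lit 434) (nat_lit 370) (nat_lit 216)) (XT.lf (nat_lit 0) (nat_lit 753375636960) (nat_lit 76) (nat_lit 341028179930) (nat_lit 76) (nat_lit 225245514987) (nat_lit 6) (nat_lit 4) (nat_lit 7) (nat_lit 5) (nat_lit 7) (nat_lit 4) (nat_lit 435) (nat_lit 370) (nat_lit 215)))) (XT.nd (nat_lit 78) (nat_lit 152) (nat_lit 0) (XT.lf (nat_lit 0) (nat_lit 1100439129849) (nat_lit 76) (nat_lit 214583951290) (nat_lit 76) (nat_lit 98801229771) (nat_lit 6) (nat_lit 4) (nat_lit 7) (nat_lit 5) (nat_lit 7) (nat_lit 4) (nat_lit 436) (nat_lit 370) (nat_lit 214)) (XT.nd (nat_lit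 78) (nat_lit 76) (nat_lit 0) (XT.lf (nat_lit 0) (nat_lit 35869622823) (nat_lit 152) (nat_lit 41173958430) (nat_lit 76) (nat_lit 1438417070402) (nat_lit 5) (nat_lit 5) (nat_lit 7) (nat_lit 5) (nat_lit 6) (nat_lit 4) (nat_lit 437) (nat_lit 370) (nat_lit 213)) (XT.lf (nat_lit 0) (nat_lit 184262352699) (nat_lit 152) (nat_lit 1363041326717) (nat_lit 0) (nat_lit 77056035655) (nat_lit 4) (nat_lit 5) (nat_lit 6) (nat_lit 4) (nat_lit 4) (nat_lit 4) (nat_lit 438) (nat_lit 370) (nat_lit 212))))))))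
noncomputable def xc174 : XT := (XT.nd (nat_lit 1560) (nat_lit 0) (nat_lit 0) (XT.nd (nat_lit 780) (nat_lit 152) (nat_lit 0) (XT.nd (nat_lit 390) (nat_lit 76) (nat_lit 0) (XT.nd (nat_lit 156) (nat_lit 0) (nat_lit 0) (XT.nd (nat_lit 78) (nat_lit 0) (nat_lit 0) (XT.lf (nat_lit 0) (nat_lit 347682515814) (nat_lit 152) (nat_lit 1153559549382) (nat_lit 0) (nat_lit 240476157184) (nat_lit 4) (nat_lit 5) (nat_lit 6) (nat_lit 4) (nat_lit 4) (nat_lit 4) (nat_lit 439) (nat_lit 370) (nat_lit 211)) (XT.lf (nat_lit 0) (nat_lit 524176174500) (nat_lit 152) (nat_lit 927319467813) (nat_lit 0) (nat_lit 416969777366) (nat_lit 4) (nat_lit 5) (nat_lit 6) (nat_lit 4) (nat_lit 4) (nat_lit 4) (nat_lit 440) (nat_lit 370) (nat_lit 210))) (XT.nd (nat_lit 78) (nat_lit 0) (nat_lit 0) (XT.lf (nat_lit 0) (nat_lit 714789217106) (nat_lit 152) (nat_lit 682980400047) (nat_lit 0) (nat_lit 607582784319) (nat_lit 4) (nat_lit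 5) (nat_lit 6) (nat_lit 4) (nat_lit 4) (nat_lit 4) (nat_lit 441) (nat_lit 370) (nat_lit 209)) (XT.nd (nat_lit 78) (nat_lit 0) (nat_lit 0) (XT.lf (nat_lit 0) (nat_lit 920651202402) (nat_lit 152) (nat_lit 419094410865) (nat_lit 0) (nat_lit 813444736604) (nat_lit 4) (nat_lit 5) (nat_lit 6) (nat_lit 4) (nat_lit 4) (nat_lit 4) (nat_lit 442) (nat_lit 370) (nat_lit 208)) (XT.lf (nat_lit 0) (nat_lit 1142982053264) (nat_lit 152) (nat_lit 134097731444) (nat_lit 0) (nat_lit 1035775556900) (nat_lit 4) (nat_lit 5) (nat_lit 6) (nat_lit 4) (nat_lit 4) (nat_lit 4) (nat_lit 443) (nat_lit 370) (nat_lit 207))))) (XT.nd (nat_lit 156) (nat_lit 0) (nat_lit 0) (XT.nd (nat_lit 78) (nat_lit 0) (nat_lit 0) (XT.lf (nat_lit 0) (nat_lit 182845163008) (nat_lit 76) (nat_lit 1204651553406) (nat_lit 76) (nat_lit 1097445028740) (nat_lit 3) (nat_lit 4) (nat_lit 4) (nat_lit 5) (nat_lit 4) (nat_lit 4) (nat_lit 444) (nat_lit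 370) (nat_lit 206)) (XT.lf (nat_lit 0) (nat_lit 532769575350) (nat_lit 76) (nat_lit 1122469362831) (nat_lit 76) (nat_lit 1015262811960) (nat_lit 3) (nat_lit 4) (nat_lit 4) (nat_lit 5) (nat_lit 4) (nat_lit 4) (nat_lit 445) (nat_lit 370) (nat_lit 205))) (XT.nd (nat_lit 78) (nat_lit 0) (nat_lit 0) (XT.lf (nat_lit 0) (nat_lit 910687782833) (nat_lit 76) (nat_lit 1033712677031) (nat_lit 76) (nat_lit 926506101895) (nat_lit 3) (nat_lit 4) (nat_lit 4) (nat_lit 5) (nat_lit 4) (nat_lit 4) (nat_lit 446) (nat_lit 370) (nat_lit 204)) (XT.nd (nat_lit 78) (nat_lit 0) (nat_lit 0) (XT.lf (nat_lit 0) (nat_lit 1318839300759) (nat_lit 76) (nat_lit 937855530459) (nat_lit 76) (nat_lit 830648932856) (nat_lit 3) (nat_lit 4) (nat_lit 4) (nat_lit 5) (nat_lit 4) (nat_lit 4) (nat_lit 447) (nat_lit 370) (nat_lit 203)) (XT.lf (nat_lit 0) (nat_lit 1759642804791) (nat_lit 76) (nat_lit 834329880766) (nat_lit 76) (nat_lit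 727123262360) (nat_lit 3) (nat_lit 4) (nat_lit 4) (nat_lit 5) (nat_lit 4) (nat_lit 4) (nat_lit 448) (nat_lit 370) (nat_lit 202)))))) (XT.nd (nat_lit 390) (nat_lit 152) (nat_lit 0) (XT.nd (nat_lit 156) (nat_lit 0) (nat_lit 0) (XT.nd (nat_lit 78) (nat_lit 0) (nat_lit 0) (XT.lf (nat_lit 0) (nat_lit 2235710463842) (nat_lit 76) (nat_lit 722522242620) (nat_lit 76) (nat_lit 615315604953) (nat_lit 3) (nat_lit 4) (nat_lit 4) (nat_lit 5) (nat_lit 4) (nat_lit 4) (nat_lit 449) (nat_lit 370) (nat_lit 201)) (XT.lf (nat_lit 0) (nat_lit 2749863419595) (nat_lit 76) (nat_lit 601770052240) (nat_lit 76) (nat_lit 494563396737) (nat_lit 3) (nat_lit 4) (nat_lit 4) (nat_lit 5) (nat_lit 4) (nat_lit 4) (nat_lit 450) (nat_lit 370) (nat_lit 200))) (XT.nd (nat_lit 78) (nat_lit 0) (nat_lit 0) (XT.lf (nat_lit 0) (nat_lit 3305148504379) (nat_lit 76) (nat_lit 471357741090) (nat_lit 76) (nat_lit 364151069073) (nat_lit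 3) (nat_lit 4) (nat_lit 4) (nat_lit 5) (nat_lit 4) (nat_lit 4) (nat_lit 451) (nat_lit 370) (nat_lit 199)) (XT.nd (nat_lit 78) (nat_lit 0) (nat_lit 0) (XT.lf (nat_lit 0) (nat_lit 3904856296476) (nat_lit 76) (nat_lit 330512495473) (nat_lit 76) (nat_lit 223305808166) (nat_lit 3) (nat_lit 4) (nat_lit 4) (nat_lit 5) (nat_lit 4) (nat_lit 4) (nat_lit 452) (nat_lit 370) (nat_lit 198)) (XT.lf (nat_lit 0) (nat_lit 4552540619838) (nat_lit 76) (nat_lit 178399676899) (nat_lit 76) (nat_lit 71192975434) (nat_lit 3) (nat_lit 4) (nat_lit 4) (nat_lit 5) (nat_lit 4) (nat_lit 4) (nat_lit 453) (nat_lit 370) (nat_lit 197))))) (XT.nd (nat_lit 156) (nat_lit 0) (nat_lit 0) (XT.nd (nat_lit 78) (nat_lit 0) (nat_lit 0) (XT.lf (nat_lit 0) (nat_lit 80772753909) (nat_lit 76) (nat_lit 9601990554) (nat_lit 152) (nat_lit 5082359386856) (nat_lit 1) (nat_lit 5) (nat_lit 2) (nat_lit 5) (nat_lit 3) (nat_lit 4) (nat_lit 454)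 (nat_lit 370) (nat_lit 196)) (XT.lf (nat_lit 0) (nat_lit 272176556573) (nat_lit 152) (nat_lit 5126855104739) (nat_lit 0) (nat_lit 172911068876) (nat_lit 1) (nat_lit 5) (nat_lit 3) (nat_lit 4) (nat_lit 1) (nat_lit 4) (nat_lit 455) (nat_lit 370) (nat_lit 195))) (XT.nd (nat_lit 78) (nat_lit 0) (nat_lit 0) (XT.lf (nat_lit 0) (nat_lit 468771876151) (nat_lit 152) (nat_lit 5164789813771) (nat_lit 0) (nat_lit 369506378047) (nat_lit 1) (nat_lit 5) (nat_lit 3) (nat_lit 4) (nat_lit 1) (nat_lit 4) (nat_lit 456) (nat_lit 370) (nat_lit 194)) (XT.nd (nat_lit 78) (nat_lit 0) (nat_lit 0) (XT.lf (nat_lit 0) (nat_lit 681094784394) (nat_lit 152) (nat_lit 5205759374677) (nat_lit 0) (nat_lit 581829276655) (nat_lit 1) (nat_lit 5) (nat_lit 3) (nat_lit 4) (nat_lit 1) (nat_lit 4) (nat_lit 457) (nat_lit 370) (nat_lit 193)) (XT.lf (nat_lit 0) (nat_lit 910403491130) (nat_lit 152) (nat_lit 5250006570040) (nat_lit 0)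 (nat_lit 811137974469) (nat_lit 1) (nat_lit 5) (nat_lit 3) (nat_lit 4) (nat_lit 1) (nat_lit 4) (nat_lit 458) (nat_lit 370) (nat_lit 192))))))) (XT.nd (nat_lit 46878) (nat_lit 0) (nat_lit 3040) (XT.nd (nat_lit 46488) (nat_lit 0) (nat_lit 4408) (XT.nd (nat_lit 46254) (nat_lit 0) (nat_lit 4788) (XT.nd (nat_lit 78) (nat_lit 0) (nat_lit 0) (XT.lf (nat_lit 0) (nat_lit 1158056862768) (nat_lit 152) (nat_lit 5297793605463) (nat_lit 0) (nat_lit 1058791337846) (nat_lit 1) (nat_lit 5) (nat_lit 3) (nat_lit 4) (nat_lit 1) (nat_lit 4) (nat_lit 459) (nat_lit 370) (nat_lit 191)) (XT.lf (nat_lit 0) (nat_lit 1425522474844) (nat_lit 152) (nat_lit 5349403663378) (nat_lit 0) (nat_lit 1326256942273) (nat_lit 1) (nat_lit 5) (nat_lit 3) (nat_lit 4) (nat_lit 1) (nat_lit 4) (nat_lit 460) (nat_lit 370) (nat_lit 190))) (XT.nd (nat_lit 78) (nat_lit 0) (nat_lit 0) (XT.lf (nat_lit 0) (nat_lit 19351562711) (nat_lit 532)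 (nat_lit 1379493161) (nat_lit 532) (nat_lit 1379493161) (nat_lit 64) (nat_lit 3) (nat_lit 71) (nat_lit 3) (nat_lit 71) (nat_lit 5) (nat_lit 371) (nat_lit 371) (nat_lit 278)) (XT.nd (nat_lit 78) (nat_lit 0) (nat_lit 76) (XT.lf (nat_lit 76) (nat_lit 19720558507) (nat_lit 0) (nat_lit 21036311260) (nat_lit 532) (nat_lit 5192593034) (nat_lit 65) (nat_lit 5) (nat_lit 64) (nat_lit 3) (nat_lit 71) (nat_lit 5) (nat_lit 372) (nat_lit 371) (nat_lit 277)) (XT.lf (nat_lit 0) (nat_lit 43073780266) (nat_lit 456) (nat_lit 3683339424) (nat_lit 532) (nat_lit 1051070657) (nat_lit 65) (nat_lit 5) (nat_lit 71) (nat_lit 5) (nat_lit 72) (nat_lit 5) (nat_lit 373) (nat_lit 371) (nat_lit 276))))) (XT.nd (nat_lit 156) (nat_lit 456) (nat_lit 0) (XT.nd (nat_lit 78) (nat_lit 0) (nat_lit 0) (XT.lf (nat_lit 76) (nat_lit 21176906618) (nat_lit 0) (nat_lit 25451927931) (nat_lit 532) (nat_lit 3102561022) (nat_lit 66) (nat_lit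 5) (nat_lit 65) (nat_lit 5) (nat_lit 72) (nat_lit 5) (nat_lit 374) (nat_lit 371) (nat_lit 275)) (XT.lf (nat_lit 76) (nat_lit 48233574797) (nat_lit 0) (nat_lit 2332686204) (nat_lit 532) (nat_lit 1234361326) (nat_lit 66) (nat_lit 5) (nat_lit 65) (nat_lit 5) (nat_lit 72) (nat_lit 5) (nat_lit 375) (nat_lit 371) (nat_lit 274))) (XT.nd (nat_lit 78) (nat_lit 0) (nat_lit 0) (XT.lf (nat_lit 0) (nat_lit 1894167911) (nat_lit 532) (nat_lit 29916182153) (nat_lit 608) (nat_lit 22131527711) (nat_lit 59) (nat_lit 5) (nat_lit 66) (nat_lit 5) (nat_lit 67) (nat_lit 5) (nat_lit 376) (nat_lit 371) (nat_lit 273)) (XT.nd (nat_lit 78) (nat_lit 0) (nat_lit 76) (XT.lf (nat_lit 0) (nat_lit 5364501829) (nat_lit 532) (nat_lit 2315135159) (nat_lit 608) (nat_lit 48559576990) (nat_lit 59) (nat_lit 5) (nat_lit 66) (nat_lit 5) (nat_lit 67) (nat_lit 5) (nat_lit 377) (nat_lit 371) (nat_lit 272)) (XT.lf (nat_lit 0) (nat_lit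 10266367364) (nat_lit 532) (nat_lit 30185209994) (nat_lit 76) (nat_lit 18176449195) (nat_lit 60) (nat_lit 5) (nat_lit 67) (nat_lit 5) (nat_lit 61) (nat_lit 5) (nat_lit 378) (nat_lit 371) (nat_lit 271)))))) (XT.nd (nat_lit 390) (nat_lit 608) (nat_lit 0) (XT.nd (nat_lit 156) (nat_lit 456) (nat_lit 0) (XT.nd (nat_lit 78) (nat_lit 0) (nat_lit 0) (XT.lf (nat_lit 0) (nat_lit 407433855) (nat_lit 380) (nat_lit 15425031512) (nat_lit 456) (nat_lit 45353713840) (nat_lit 55) (nat_lit 5) (nat_lit 60) (nat_lit 5) (nat_lit 61) (nat_lit 5) (nat_lit 379) (nat_lit 371) (nat_lit 270)) (XT.lf (nat_lit 0) (nat_lit 22967653910) (nat_lit 456) (nat_lit 29021448183) (nat_lit 76) (nat_lit 11869979367) (nat_lit 55) (nat_lit 5) (nat_lit 61) (nat_lit 5) (nat_lit 56) (nat_lit 5) (nat_lit 380) (nat_lit 371) (nat_lit 269))) (XT.nd (nat_lit 78) (nat_lit 228) (nat_lit 0) (XT.lf (nat_lit 0) (nat_lit 5130452930) (nat_lit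 228) (nat_lit 26065372831) (nat_lit 304) (nat_lit 35508218156) (nat_lit 52) (nat_lit 5) (nat_lit 55) (nat_lit 5) (nat_lit 56) (nat_lit 5) (nat_lit 381) (nat_lit 371) (nat_lit 268)) (XT.nd (nat_lit 78) (nat_lit 228) (nat_lit 0) (XT.lf (nat_lit 0) (nat_lit 40941049431) (nat_lit 304) (nat_lit 26117288712) (nat_lit 76) (nat_lit 2649562758) (nat_lit 52) (nat_lit 5) (nat_lit 56) (nat_lit 5) (nat_lit 53) (nat_lit 5) (nat_lit 382) (nat_lit 371) (nat_lit 267)) (XT.lf (nat_lit 0) (nat_lit 12101972077) (nat_lit 228) (nat_lit 40330345359) (nat_lit 304) (nat_lit 20442436164) (nat_lit 49) (nat_lit 5) (nat_lit 52) (nat_lit 5) (nat_lit 53) (nat_lit 5) (nat_lit 383) (nat_lit 371) (nat_lit 266))))) (XT.nd (nat_lit 234) (nat_lit 380) (nat_lit 0) (XT.nd (nat_lit 78) (nat_lit 228) (nat_lit 0) (XT.lf (nat_lit 0) (nat_lit 54862222851) (nat_lit 228) (nat_lit 10693185351) (nat_lit 304) (nat_lit 10682545784) (nat_lit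 49) (nat_lit 5) (nat_lit 52) (nat_lit 5) (nat_lit 53) (nat_lit 5) (nat_lit 384) (nat_lit 371) (nat_lit 265)) (XT.nd (nat_lit 78) (nat_lit 0) (nat_lit 0) (XT.lf (nat_lit 0) (nat_lit 926259204) (nat_lit 228) (nat_lit 58064460259) (nat_lit 76) (nat_lit 20794882757) (nat_lit 46) (nat_lit 5) (nat_lit 49) (nat_lit 5) (nat_lit 47) (nat_lit 5) (nat_lit 385) (nat_lit 371) (nat_lit 264)) (XT.lf (nat_lit 0) (nat_lit 13762575868) (nat_lit 228) (nat_lit 14661145988) (nat_lit 76) (nat_lit 55101068516) (nat_lit 46) (nat_lit 5) (nat_lit 49) (nat_lit 5) (nat_lit 47) (nat_lit 5) (nat_lit 386) (nat_lit 371) (nat_lit 263)))) (XT.nd (nat_lit 78) (nat_lit 152) (nat_lit 0) (XT.lf (nat_lit 0) (nat_lit 28571511089) (nat_lit 304) (nat_lit 53720540379) (nat_lit 76) (nat_lit 5195405916) (nat_lit 43) (nat_lit 5) (nat_lit 47) (nat_lit 5) (nat_lit 44) (nat_lit 5) (nat_lit 387) (nat_lit 371) (nat_lit 262)) (XT.nd (nat_lit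 78) (nat_lit 152) (nat_lit 0) (XT.lf (nat_lit 0) (nat_lit 45713433597) (nat_lit 304) (nat_lit 5582519284) (nat_lit 76) (nat_lit 40379323880) (nat_lit 43) (nat_lit 5) (nat_lit 47) (nat_lit 5) (nat_lit 44) (nat_lit 5) (nat_lit 388) (nat_lit 371) (nat_lit 261)) (XT.lf (nat_lit 0) (nat_lit 48848497451) (nat_lit 152) (nat_lit 16551835063) (nat_lit 228) (nat_lit 30703900109) (nat_lit 41) (nat_lit 5) (nat_lit 43) (nat_lit 5) (nat_lit 44) (nat_lit 5) (nat_lit 389) (nat_lit 371) (nat_lit 260))))))))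
noncomputable def xc175 : XT := (XT.nd (nat_lit 1638) (nat_lit 912) (nat_lit 0) (XT.nd (nat_lit 780) (nat_lit 760) (nat_lit 0) (XT.nd (nat_lit 390) (nat_lit 380) (nat_lit 0) (XT.nd (nat_lit 156) (nat_lit 304) (nat_lit 0) (XT.nd (nat_lit 78) (nat_lit 76) (nat_lit 0) (XT.lf (nat_lit 0) (nat_lit 6911925260) (nat_lit 152) (nat_lit 80576316181) (nat_lit 228) (nat_lit 13333179550) (nat_lit 39) (nat_lit 5) (nat_lit 41) (nat_lit 5) (nat_lit 42) (nat_lit 5) (nat_lit 390) (nat_lit 371) (nat_lit 259)) (XT.lf (nat_lit 0) (nat_lit 6910110683) (nat_lit 228) (nat_lit 38307849699) (nat_lit 76) (nat_lit 60547230498) (nat_lit 38) (nat_lit 5) (nat_lit 41) (nat_lit 5) (nat_lit 39) (nat_lit 5) (nat_lit 391) (nat_lit 371) (nat_lit 258))) (XT.nd (nat_lit 78) (nat_lit 152) (nat_lit 0) (XT.lf (nat_lit 0) (nat_lit 22520607907) (nat_lit 152) (nat_lit 6072492401) (nat_lit 228) (nat_lit 82440411354) (nat_lit 36) (nat_lit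 5) (nat_lit 38) (nat_lit 5) (nat_lit 39) (nat_lit 5) (nat_lit 392) (nat_lit 371) (nat_lit 257)) (XT.nd (nat_lit 78) (nat_lit 152) (nat_lit 0) (XT.lf (nat_lit 0) (nat_lit 53955041632) (nat_lit 228) (nat_lit 27145093553) (nat_lit 76) (nat_lit 35467618423) (nat_lit 36) (nat_lit 5) (nat_lit 39) (nat_lit 5) (nat_lit 37) (nat_lit 5) (nat_lit 393) (nat_lit 371) (nat_lit 256)) (XT.lf (nat_lit 0) (nat_lit 41025174434) (nat_lit 152) (nat_lit 41464203727) (nat_lit 228) (nat_lit 39963882026) (nat_lit 34) (nat_lit 5) (nat_lit 36) (nat_lit 5) (nat_lit 37) (nat_lit 5) (nat_lit 394) (nat_lit 371) (nat_lit 255))))) (XT.nd (nat_lit 156) (nat_lit 228) (nat_lit 0) (XT.nd (nat_lit 78) (nat_lit 152) (nat_lit 0) (XT.lf (nat_lit 0) (nat_lit 114099302489) (nat_lit 228) (nat_lit 12610477595) (nat_lit 76) (nat_lit 2036400371) (nat_lit 34) (nat_lit 5) (nat_lit 37) (nat_lit 5) (nat_lit 35) (nat_lit 4) (nat_lit 395)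 (nat_lit 371) (nat_lit 254)) (XT.lf (nat_lit 0) (nat_lit 14739410124) (nat_lit 152) (nat_lit 71879752250) (nat_lit 76) (nat_lit 48684625934) (nat_lit 32) (nat_lit 5) (nat_lit 34) (nat_lit 5) (nat_lit 33) (nat_lit 5) (nat_lit 396) (nat_lit 371) (nat_lit 253))) (XT.nd (nat_lit 78) (nat_lit 76) (nat_lit 0) (XT.lf (nat_lit 0) (nat_lit 3694050130) (nat_lit 152) (nat_lit 42432985257) (nat_lit 228) (nat_lit 96193194997) (nat_lit 30) (nat_lit 5) (nat_lit 32) (nat_lit 5) (nat_lit 33) (nat_lit 5) (nat_lit 397) (nat_lit 371) (nat_lit 252)) (XT.nd (nat_lit 78) (nat_lit 76) (nat_lit 0) (XT.lf (nat_lit 0) (nat_lit 82168388110) (nat_lit 228) (nat_lit 60518788422) (nat_lit 76) (nat_lit 7039394216) (nat_lit 30) (nat_lit 5) (nat_lit 33) (nat_lit 5) (nat_lit 31) (nat_lit 4) (nat_lit 398) (nat_lit 371) (nat_lit 251)) (XT.lf (nat_lit 0) (nat_lit 23930839960) (nat_lit 76) (nat_lit 98839134945) (nat_lit 152)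 (nat_lit 34821289663) (nat_lit 29) (nat_lit 5) (nat_lit 30) (nat_lit 5) (nat_lit 31) (nat_lit 4) (nat_lit 399) (nat_lit 371) (nat_lit 250)))))) (XT.nd (nat_lit 390) (nat_lit 456) (nat_lit 0) (XT.nd (nat_lit 156) (nat_lit 76) (nat_lit 0) (XT.nd (nat_lit 78) (nat_lit 152) (nat_lit 0) (XT.lf (nat_lit 0) (nat_lit 2204723615) (nat_lit 152) (nat_lit 47431721752) (nat_lit 76) (nat_lit 116311907538) (nat_lit 28) (nat_lit 5) (nat_lit 30) (nat_lit 5) (nat_lit 29) (nat_lit 5) (nat_lit 400) (nat_lit 371) (nat_lit 249)) (XT.lf (nat_lit 0) (nat_lit 41581939914) (nat_lit 228) (nat_lit 127800018433) (nat_lit 76) (nat_lit 5418064185) (nat_lit 26) (nat_lit 5) (nat_lit 29) (nat_lit 5) (nat_lit 27) (nat_lit 4) (nat_lit 401) (nat_lit 371) (nat_lit 248))) (XT.nd (nat_lit 78) (nat_lit 76) (nat_lit 0) (XT.lf (nat_lit 0) (nat_lit 86728450974) (nat_lit 228) (nat_lit 33896504511) (nat_lit 76) (nat_lit 63525341065)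 (nat_lit 26) (nat_lit 5) (nat_lit 29) (nat_lit 5) (nat_lit 27) (nat_lit 4) (nat_lit 402) (nat_lit 371) (nat_lit 247)) (XT.nd (nat_lit 78) (nat_lit 0) (nat_lit 0) (XT.lf (nat_lit 0) (nat_lit 71073530981) (nat_lit 76) (nat_lit 66121830344) (nat_lit 152) (nat_lit 56916537093) (nat_lit 25) (nat_lit 5) (nat_lit 26) (nat_lit 5) (nat_lit 27) (nat_lit 4) (nat_lit 403) (nat_lit 371) (nat_lit 246)) (XT.lf (nat_lit 0) (nat_lit 186367777147) (nat_lit 76) (nat_lit 6258016825) (nat_lit 152) (nat_lit 12170541091) (nat_lit 25) (nat_lit 5) (nat_lit 26) (nat_lit 5) (nat_lit 27) (nat_lit 4) (nat_lit 404) (nat_lit 371) (nat_lit 245))))) (XT.nd (nat_lit 234) (nat_lit 228) (nat_lit 0) (XT.nd (nat_lit 78) (nat_lit 76) (nat_lit 0) (XT.lf (nat_lit 0) (nat_lit 38206123007) (nat_lit 152) (nat_lit 118952421552) (nat_lit 76) (nat_lit 58798650517) (nat_lit 23) (nat_lit 5) (nat_lit 25) (nat_lit 5) (nat_lit 24) (nat_lit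 4) (nat_lit 405) (nat_lit 371) (nat_lit 244)) (XT.nd (nat_lit 78) (nat_lit 76) (nat_lit 0) (XT.lf (nat_lit 0) (nat_lit 92634315134) (nat_lit 152) (nat_lit 5742618422) (nat_lit 76) (nat_lit 129554387428) (nat_lit 23) (nat_lit 5) (nat_lit 25) (nat_lit 5) (nat_lit 24) (nat_lit 4) (nat_lit 406) (nat_lit 371) (nat_lit 243)) (XT.lf (nat_lit 0) (nat_lit 122658869194) (nat_lit 76) (nat_lit 31707302741) (nat_lit 152) (nat_lit 86261252421) (nat_lit 22) (nat_lit 5) (nat_lit 23) (nat_lit 5) (nat_lit 24) (nat_lit 4) (nat_lit 407) (nat_lit 371) (nat_lit 242)))) (XT.nd (nat_lit 78) (nat_lit 152) (nat_lit 0) (XT.lf (nat_lit 0) (nat_lit 6693026094) (nat_lit 76) (nat_lit 215634194107) (nat_lit 76) (nat_lit 31908744488) (nat_lit 21) (nat_lit 4) (nat_lit 22) (nat_lit 5) (nat_lit 22) (nat_lit 4) (nat_lit 408) (nat_lit 371) (nat_lit 241)) (XT.nd (nat_lit 78) (nat_lit 76) (nat_lit 0) (XT.lf (nat_lit 0) (nat_lit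 29584004677) (nat_lit 152) (nat_lit 122191334737) (nat_lit 76) (nat_lit 116775718503) (nat_lit 20) (nat_lit 5) (nat_lit 22) (nat_lit 5) (nat_lit 21) (nat_lit 4) (nat_lit 409) (nat_lit 371) (nat_lit 240)) (XT.lf (nat_lit 0) (nat_lit 13009456777) (nat_lit 76) (nat_lit 81575202138) (nat_lit 152) (nat_lit 189335405010) (nat_lit 19) (nat_lit 5) (nat_lit 20) (nat_lit 5) (nat_lit 21) (nat_lit 4) (nat_lit 410) (nat_lit 371) (nat_lit 239))))))) (XT.nd (nat_lit 780) (nat_lit 456) (nat_lit 0) (XT.nd (nat_lit 390) (nat_lit 228) (nat_lit 0) (XT.nd (nat_lit 156) (nat_lit 152) (nat_lit 0) (XT.nd (nat_lit 78) (nat_lit 76) (nat_lit 0) (XT.lf (nat_lit 0) (nat_lit 165974536766) (nat_lit 76) (nat_lit 2151279419) (nat_lit 152) (nat_lit 132125538267) (nat_lit 19) (nat_lit 5) (nat_lit 20) (nat_lit 5) (nat_lit 21) (nat_lit 4) (nat_lit 411) (nat_lit 371) (nat_lit 238)) (XT.lf (nat_lit 0) (nat_lit 11869343626)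 (nat_lit 76) (nat_lit 237977149991) (nat_lit 76) (nat_lit 67858956485) (nat_lit 18) (nat_lit 4) (nat_lit 19) (nat_lit 5) (nat_lit 19) (nat_lit 4) (nat_lit 412) (nat_lit 371) (nat_lit 237))) (XT.nd (nat_lit 78) (nat_lit 76) (nat_lit 0) (XT.lf (nat_lit 0) (nat_lit 5293621298) (nat_lit 152) (nat_lit 159107879660) (nat_lit 76) (nat_lit 171845619990) (nat_lit 17) (nat_lit 5) (nat_lit 19) (nat_lit 5) (nat_lit 18) (nat_lit 4) (nat_lit 413) (nat_lit 371) (nat_lit 236)) (XT.nd (nat_lit 78) (nat_lit 76) (nat_lit 0) (XT.lf (nat_lit 0) (nat_lit 80631842974) (nat_lit 152) (nat_lit 2404766031) (nat_lit 76) (nat_lit 273094544187) (nat_lit 17) (nat_lit 5) (nat_lit 19) (nat_lit 5) (nat_lit 18) (nat_lit 4) (nat_lit 414) (nat_lit 371) (nat_lit 235)) (XT.lf (nat_lit 0) (nat_lit 166446416781) (nat_lit 152) (nat_lit 201875055202) (nat_lit 0) (nat_lit 8928492545) (nat_lit 16) (nat_lit 5) (nat_lit 18) (nat_lit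 4) (nat_lit 16) (nat_lit 4) (nat_lit 415) (nat_lit 371) (nat_lit 234))))) (XT.nd (nat_lit 156) (nat_lit 152) (nat_lit 0) (XT.nd (nat_lit 78) (nat_lit 76) (nat_lit 0) (XT.lf (nat_lit 0) (nat_lit 261350027382) (nat_lit 152) (nat_lit 34698548207) (nat_lit 0) (nat_lit 103831795570) (nat_lit 16) (nat_lit 5) (nat_lit 18) (nat_lit 4) (nat_lit 16) (nat_lit 4) (nat_lit 416) (nat_lit 371) (nat_lit 233)) (XT.lf (nat_lit 0) (nat_lit 153531665698) (nat_lit 76) (nat_lit 214006347198) (nat_lit 76) (nat_lit 56487830593) (nat_lit 15) (nat_lit 4) (nat_lit 16) (nat_lit 5) (nat_lit 16) (nat_lit 4) (nat_lit 417) (nat_lit 371) (nat_lit 232))) (XT.nd (nat_lit 78) (nat_lit 76) (nat_lit 0) (XT.lf (nat_lit 0) (nat_lit 31484415798) (nat_lit 152) (nat_lit 92031195441) (nat_lit 76) (nat_lit 326447706456) (nat_lit 14) (nat_lit 5) (nat_lit 16) (nat_lit 5) (nat_lit 15) (nat_lit 4) (nat_lit 418) (nat_lit 371) (nat_lit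 231)) (XT.nd (nat_lit 78) (nat_lit 0) (nat_lit 0) (XT.lf (nat_lit 0) (nat_lit 104466823305) (nat_lit 76) (nat_lit 21487911200) (nat_lit 152) (nat_lit 351702709852) (nat_lit 13) (nat_lit 5) (nat_lit 14) (nat_lit 5) (nat_lit 15) (nat_lit 4) (nat_lit 419) (nat_lit 371) (nat_lit 230)) (XT.lf (nat_lit 0) (nat_lit 232697293313) (nat_lit 152) (nat_lit 187646503308) (nat_lit 0) (nat_lit 86846135401) (nat_lit 13) (nat_lit 5) (nat_lit 15) (nat_lit 4) (nat_lit 13) (nat_lit 4) (nat_lit 420) (nat_lit 371) (nat_lit 229)))))) (XT.nd (nat_lit 390) (nat_lit 228) (nat_lit 0) (XT.nd (nat_lit 156) (nat_lit 152) (nat_lit 0) (XT.nd (nat_lit 78) (nat_lit 0) (nat_lit 0) (XT.lf (nat_lit 0) (nat_lit 12823927245) (nat_lit 76) (nat_lit 336021571922) (nat_lit 76) (nat_lit 190170220185) (nat_lit 12) (nat_lit 4) (nat_lit 13) (nat_lit 5) (nat_lit 13) (nat_lit 4) (nat_lit 421) (nat_lit 371) (nat_lit 228)) (XT.lf (nat_lit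 0) (nat_lit 240003036366) (nat_lit 76) (nat_lit 239412820457) (nat_lit 76) (nat_lit 93561289252) (nat_lit 12) (nat_lit 4) (nat_lit 13) (nat_lit 5) (nat_lit 13) (nat_lit 4) (nat_lit 422) (nat_lit 371) (nat_lit 227))) (XT.nd (nat_lit 78) (nat_lit 76) (nat_lit 0) (XT.lf (nat_lit 0) (nat_lit 10237001177) (nat_lit 152) (nat_lit 124558734930) (nat_lit 76) (nat_lit 474839039368) (nat_lit 11) (nat_lit 5) (nat_lit 13) (nat_lit 5) (nat_lit 12) (nat_lit 4) (nat_lit 423) (nat_lit 371) (nat_lit 226)) (XT.nd (nat_lit 78) (nat_lit 0) (nat_lit 0) (XT.lf (nat_lit 0) (nat_lit 103264926522) (nat_lit 76) (nat_lit 16502755095) (nat_lit 152) (nat_lit 529064259243) (nat_lit 10) (nat_lit 5) (nat_lit 11) (nat_lit 5) (nat_lit 12) (nat_lit 4) (nat_lit 424) (nat_lit 371) (nat_lit 225)) (XT.lf (nat_lit 0) (nat_lit 244230328741) (nat_lit 152) (nat_lit 337258803365) (nat_lit 0) (nat_lit 109182186416) (nat_lit 10) (nat_lit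 5) (nat_lit 12) (nat_lit 4) (nat_lit 10) (nat_lit 4) (nat_lit 425) (nat_lit 371) (nat_lit 224))))) (XT.nd (nat_lit 234) (nat_lit 152) (nat_lit 0) (XT.nd (nat_lit 78) (nat_lit 76) (nat_lit 0) (XT.lf (nat_lit 0) (nat_lit 379078393383) (nat_lit 152) (nat_lit 112715051663) (nat_lit 0) (nat_lit 244030128914) (nat_lit 10) (nat_lit 5) (nat_lit 12) (nat_lit 4) (nat_lit 10) (nat_lit 4) (nat_lit 426) (nat_lit 371) (nat_lit 223)) (XT.nd (nat_lit 78) (nat_lit 0) (nat_lit 0) (XT.lf (nat_lit 0) (nat_lit 136626366243) (nat_lit 76) (nat_lit 391373584679) (nat_lit 76) (nat_lit 256325207115) (nat_lit 9) (nat_lit 4) (nat_lit 10) (nat_lit 5) (nat_lit 10) (nat_lit 4) (nat_lit 427) (nat_lit 371) (nat_lit 222)) (XT.lf (nat_lit 0) (nat_lit 412324875426) (nat_lit 76) (nat_lit 279591973234) (nat_lit 76) (nat_lit 144543490952) (nat_lit 9) (nat_lit 4) (nat_lit 10) (nat_lit 5) (nat_lit 10) (nat_lit 4) (nat_lit 428)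 (nat_lit 371) (nat_lit 221)))) (XT.nd (nat_lit 78) (nat_lit 152) (nat_lit 0) (XT.lf (nat_lit 0) (nat_lit 710078869955) (nat_lit 76) (nat_lit 158868030423) (nat_lit 76) (nat_lit 23819451180) (nat_lit 9) (nat_lit 4) (nat_lit 10) (nat_lit 5) (nat_lit 10) (nat_lit 4) (nat_lit 429) (nat_lit 371) (nat_lit 220)) (XT.nd (nat_lit 78) (nat_lit 0) (nat_lit 0) (XT.lf (nat_lit 0) (nat_lit 79489520343) (nat_lit 76) (nat_lit 23653839928) (nat_lit 152) (nat_lit 850075534775) (nat_lit 7) (nat_lit 5) (nat_lit 8) (nat_lit 5) (nat_lit 9) (nat_lit 4) (nat_lit 430) (nat_lit 371) (nat_lit 219)) (XT.lf (nat_lit 0) (nat_lit 247044061543) (nat_lit 152) (nat_lit 648769746140) (nat_lit 0) (nat_lit 121998920663) (nat_lit 7) (nat_lit 5) (nat_lit 9) (nat_lit 4) (nat_lit 7) (nat_lit 4) (nat_lit 431) (nat_lit 371) (nat_lit 218))))))))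
noncomputable def xc176 : XT := (XT.nd (nat_lit 1560) (nat_lit 152) (nat_lit 0) (XT.nd (nat_lit 780) (nat_lit 76) (nat_lit 0) (XT.nd (nat_lit 390) (nat_lit 152) (nat_lit 0) (XT.nd (nat_lit 156) (nat_lit 76) (nat_lit 0) (XT.nd (nat_lit 78) (nat_lit 0) (nat_lit 0) (XT.lf (nat_lit 0) (nat_lit 403071030974) (nat_lit 152) (nat_lit 406428081559) (nat_lit 0) (nat_lit 278025818826) (nat_lit 7) (nat_lit 5) (nat_lit 9) (nat_lit 4) (nat_lit 7) (nat_lit 4) (nat_lit 432) (nat_lit 371) (nat_lit 217)) (XT.lf (nat_lit 0) (nat_lit 571579997410) (nat_lit 152) (nat_lit 144699406789) (nat_lit 0) (nat_lit 446534719272) (nat_lit 7) (nat_lit 5) (nat_lit 9) (nat_lit 4) (nat_lit 7) (nat_lit 4) (nat_lit 433) (nat_lit 371) (nat_lit 216))) (XT.nd (nat_lit 78) (nat_lit 0) (nat_lit 0) (XT.lf (nat_lit 0) (nat_lit 145232374476) (nat_lit 76) (nat_lit 611830000126) (nat_lit 76) (nat_lit 486784660886) (nat_lit 6) (nat_lit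 4) (nat_lit 7) (nat_lit 5) (nat_lit 7) (nat_lit 4) (nat_lit 434) (nat_lit 371) (nat_lit 215)) (XT.nd (nat_lit 78) (nat_lit 0) (nat_lit 0) (XT.lf (nat_lit 0) (nat_lit 466587590239) (nat_lit 76) (nat_lit 494751945284) (nat_lit 76) (nat_lit 369706549468) (nat_lit 6) (nat_lit 4) (nat_lit 7) (nat_lit 5) (nat_lit 7) (nat_lit 4) (nat_lit 435) (nat_lit 371) (nat_lit 214)) (XT.lf (nat_lit 0) (nat_lit 813650953374) (nat_lit 76) (nat_lit 368307782004) (nat_lit 76) (nat_lit 243262333804) (nat_lit 6) (nat_lit 4) (nat_lit 7) (nat_lit 5) (nat_lit 7) (nat_lit 4) (nat_lit 436) (nat_lit 371) (nat_lit 213))))) (XT.nd (nat_lit 156) (nat_lit 76) (nat_lit 0) (XT.nd (nat_lit 78) (nat_lit 76) (nat_lit 0) (XT.lf (nat_lit 0) (nat_lit 1188479135661) (nat_lit 76) (nat_lit 231748211541) (nat_lit 76) (nat_lit 106702714836) (nat_lit 6) (nat_lit 4) (nat_lit 7) (nat_lit 5) (nat_lit 7) (nat_lit 4) (nat_lit 437) (nat_lit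 371) (nat_lit 212)) (XT.lf (nat_lit 0) (nat_lit 38741491342) (nat_lit 152) (nat_lit 44463239624) (nat_lit 76) (nat_lit 1553492588771) (nat_lit 5) (nat_lit 5) (nat_lit 7) (nat_lit 5) (nat_lit 6) (nat_lit 4) (nat_lit 438) (nat_lit 371) (nat_lit 211))) (XT.nd (nat_lit 78) (nat_lit 0) (nat_lit 0) (XT.lf (nat_lit 0) (nat_lit 199005632855) (nat_lit 152) (nat_lit 1472079990477) (nat_lit 0) (nat_lit 83222685446) (nat_lit 4) (nat_lit 5) (nat_lit 6) (nat_lit 4) (nat_lit 4) (nat_lit 4) (nat_lit 439) (nat_lit 371) (nat_lit 210)) (XT.nd (nat_lit 78) (nat_lit 0) (nat_lit 0) (XT.lf (nat_lit 0) (nat_lit 375499239246) (nat_lit 152) (nat_lit 1245840014835) (nat_lit 0) (nat_lit 259716256184) (nat_lit 4) (nat_lit 5) (nat_lit 6) (nat_lit 4) (nat_lit 4) (nat_lit 4) (nat_lit 440) (nat_lit 371) (nat_lit 209)) (XT.lf (nat_lit 0) (nat_lit 566112233429) (nat_lit 152) (nat_lit 1001501045148) (nat_lit 0) (nat_lit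 450329217356) (nat_lit 4) (nat_lit 5) (nat_lit 6) (nat_lit 4) (nat_lit 4) (nat_lit 4) (nat_lit 441) (nat_lit 371) (nat_lit 208)))))) (XT.nd (nat_lit 390) (nat_lit 0) (nat_lit 0) (XT.nd (nat_lit 156) (nat_lit 76) (nat_lit 0) (XT.nd (nat_lit 78) (nat_lit 0) (nat_lit 0) (XT.lf (nat_lit 0) (nat_lit 771974173890) (nat_lit 152) (nat_lit 737615146782) (nat_lit 0) (nat_lit 656191127251) (nat_lit 4) (nat_lit 5) (nat_lit 6) (nat_lit 4) (nat_lit 4) (nat_lit 4) (nat_lit 442) (nat_lit 371) (nat_lit 207)) (XT.lf (nat_lit 0) (nat_lit 994304983238) (nat_lit 152) (nat_lit 452618551449) (nat_lit 0) (nat_lit 878521908297) (nat_lit 4) (nat_lit 5) (nat_lit 6) (nat_lit 4) (nat_lit 4) (nat_lit 4) (nat_lit 443) (nat_lit 371) (nat_lit 206))) (XT.nd (nat_lit 78) (nat_lit 76) (nat_lit 0) (XT.lf (nat_lit 0) (nat_lit 1234422177381) (nat_lit 152) (nat_lit 144822390436) (nat_lit 0) (nat_lit 1118639076234) (nat_lit 4)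 (nat_lit 5) (nat_lit 6) (nat_lit 4) (nat_lit 4) (nat_lit 4) (nat_lit 444) (nat_lit 371) (nat_lit 205)) (XT.nd (nat_lit 78) (nat_lit 0) (nat_lit 0) (XT.lf (nat_lit 0) (nat_lit 197475855584) (nat_lit 76) (nat_lit 1301022116516) (nat_lit 76) (nat_lit 1185238991105) (nat_lit 3) (nat_lit 4) (nat_lit 4) (nat_lit 5) (nat_lit 4) (nat_lit 4) (nat_lit 445) (nat_lit 371) (nat_lit 204)) (XT.lf (nat_lit 0) (nat_lit 575393992800) (nat_lit 76) (nat_lit 1212265466337) (nat_lit 76) (nat_lit 1096482318459) (nat_lit 3) (nat_lit 4) (nat_lit 4) (nat_lit 5) (nat_lit 4) (nat_lit 4) (nat_lit 446) (nat_lit 371) (nat_lit 203))))) (XT.nd (nat_lit 156) (nat_lit 0) (nat_lit 0) (XT.nd (nat_lit 78) (nat_lit 0) (nat_lit 0) (XT.lf (nat_lit 0) (nat_lit 983545445665) (nat_lit 76) (nat_lit 1116408352748) (nat_lit 76) (nat_lit 1000625184068) (nat_lit 3) (nat_lit 4) (nat_lit 4) (nat_lit 5) (nat_lit 4) (nat_lit 4) (nat_lit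 447) (nat_lit 371) (nat_lit 202)) (XT.lf (nat_lit 0) (nat_lit 1424348889455) (nat_lit 76) (nat_lit 1012882733595) (nat_lit 76) (nat_lit 897099545652) (nat_lit 3) (nat_lit 4) (nat_lit 4) (nat_lit 5) (nat_lit 4) (nat_lit 4) (nat_lit 448) (nat_lit 371) (nat_lit 201))) (XT.nd (nat_lit 78) (nat_lit 0) (nat_lit 0) (XT.lf (nat_lit 0) (nat_lit 1900416492726) (nat_lit 76) (nat_lit 901075123727) (nat_lit 76) (nat_lit 785291917949) (nat_lit 3) (nat_lit 4) (nat_lit 4) (nat_lit 5) (nat_lit 4) (nat_lit 4) (nat_lit 449) (nat_lit 371) (nat_lit 200)) (XT.nd (nat_lit 78) (nat_lit 0) (nat_lit 0) (XT.lf (nat_lit 0) (nat_lit 2414569396830) (nat_lit 76) (nat_lit 780322959529) (nat_lit 76) (nat_lit 664539737238) (nat_lit 3) (nat_lit 4) (nat_lit 4) (nat_lit 5) (nat_lit 4) (nat_lit 4) (nat_lit 450) (nat_lit 371) (nat_lit 199)) (XT.lf (nat_lit 0) (nat_lit 2969854433792) (nat_lit 76) (nat_lit 649910672622) (nat_lit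 76) (nat_lit 534127435040) (nat_lit 3) (nat_lit 4) (nat_lit 4) (nat_lit 5) (nat_lit 4) (nat_lit 4) (nat_lit 451) (nat_lit 371) (nat_lit 198))))))) (XT.nd (nat_lit 46956) (nat_lit 0) (nat_lit 3876) (XT.nd (nat_lit 390) (nat_lit 0) (nat_lit 0) (XT.nd (nat_lit 156) (nat_lit 152) (nat_lit 0) (XT.nd (nat_lit 78) (nat_lit 0) (nat_lit 0) (XT.lf (nat_lit 0) (nat_lit 3569562181609) (nat_lit 76) (nat_lit 509065449454) (nat_lit 76) (nat_lit 393282197713) (nat_lit 3) (nat_lit 4) (nat_lit 4) (nat_lit 5) (nat_lit 4) (nat_lit 4) (nat_lit 452) (nat_lit 371) (nat_lit 197)) (XT.lf (nat_lit 0) (nat_lit 4217246463972) (nat_lit 76) (nat_lit 356952651664) (nat_lit 76) (nat_lit 241169386814) (nat_lit 3) (nat_lit 4) (nat_lit 4) (nat_lit 5) (nat_lit 4) (nat_lit 4) (nat_lit 453) (nat_lit 371) (nat_lit 196))) (XT.nd (nat_lit 78) (nat_lit 152) (nat_lit 0) (XT.lf (nat_lit 0) (nat_lit 4916745409960) (nat_lit 76) (nat_lit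 192670870081) (nat_lit 76) (nat_lit 76887593093) (nat_lit 3) (nat_lit 4) (nat_lit 4) (nat_lit 5) (nat_lit 4) (nat_lit 4) (nat_lit 454) (nat_lit 371) (nat_lit 195)) (XT.nd (nat_lit 78) (nat_lit 0) (nat_lit 0) (XT.lf (nat_lit 0) (nat_lit 87236115796) (nat_lit 76) (nat_lit 10369366907) (nat_lit 152) (nat_lit 5488947318389) (nat_lit 1) (nat_lit 5) (nat_lit 2) (nat_lit 5) (nat_lit 3) (nat_lit 4) (nat_lit 455) (nat_lit 371) (nat_lit 194)) (XT.lf (nat_lit 0) (nat_lit 293951401017) (nat_lit 152) (nat_lit 5537002046935) (nat_lit 0) (nat_lit 186744643023) (nat_lit 1) (nat_lit 5) (nat_lit 3) (nat_lit 4) (nat_lit 1) (nat_lit 4) (nat_lit 456) (nat_lit 371) (nat_lit 193))))) (XT.nd (nat_lit 156) (nat_lit 0) (nat_lit 0) (XT.nd (nat_lit 78) (nat_lit 0) (nat_lit 0) (XT.lf (nat_lit 0) (nat_lit 506274292834) (nat_lit 152) (nat_lit 5577971641295) (nat_lit 0) (nat_lit 399067525918) (nat_lit 1) (nat_lit 5)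 (nat_lit 3) (nat_lit 4) (nat_lit 1) (nat_lit 4) (nat_lit 457) (nat_lit 371) (nat_lit 192)) (XT.lf (nat_lit 0) (nat_lit 735582984360) (nat_lit 152) (nat_lit 5622218867635) (nat_lit 0) (nat_lit 628376209182) (nat_lit 1) (nat_lit 5) (nat_lit 3) (nat_lit 4) (nat_lit 1) (nat_lit 4) (nat_lit 458) (nat_lit 371) (nat_lit 191))) (XT.nd (nat_lit 78) (nat_lit 0) (nat_lit 0) (XT.lf (nat_lit 0) (nat_lit 983236341915) (nat_lit 152) (nat_lit 5670005931739) (nat_lit 0) (nat_lit 876029559088) (nat_lit 1) (nat_lit 5) (nat_lit 3) (nat_lit 4) (nat_lit 1) (nat_lit 4) (nat_lit 459) (nat_lit 371) (nat_lit 190)) (XT.nd (nat_lit 46254) (nat_lit 0) (nat_lit 4788) (XT.lf (nat_lit 0) (nat_lit 1250701940951) (nat_lit 152) (nat_lit 5721616016211) (nat_lit 0) (nat_lit 1143495151042) (nat_lit 1) (nat_lit 5) (nat_lit 3) (nat_lit 4) (nat_lit 1) (nat_lit 4) (nat_lit 460) (nat_lit 371) (nat_lit 189)) (XT.lf (nat_lit 0) (nat_lit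 20930273435) (nat_lit 532) (nat_lit 1473321866) (nat_lit 532) (nat_lit 1473321866) (nat_lit 64) (nat_lit 3) (nat_lit 71) (nat_lit 3) (nat_lit 71) (nat_lit 5) (nat_lit 372) (nat_lit 372) (nat_lit 276)))))) (XT.nd (nat_lit 390) (nat_lit 532) (nat_lit 0) (XT.nd (nat_lit 156) (nat_lit 380) (nat_lit 0) (XT.nd (nat_lit 78) (nat_lit 0) (nat_lit 76) (XT.lf (nat_lit 76) (nat_lit 21330427683) (nat_lit 0) (nat_lit 22744406863) (nat_lit 532) (nat_lit 5545938486) (nat_lit 65) (nat_lit 5) (nat_lit 64) (nat_lit 3) (nat_lit 71) (nat_lit 5) (nat_lit 373) (nat_lit 372) (nat_lit 275)) (XT.lf (nat_lit 0) (nat_lit 46572283948) (nat_lit 456) (nat_lit 3943305537) (nat_lit 532) (nat_lit 1112998382) (nat_lit 65) (nat_lit 5) (nat_lit 71) (nat_lit 5) (nat_lit 72) (nat_lit 5) (nat_lit 374) (nat_lit 372) (nat_lit 274))) (XT.nd (nat_lit 78) (nat_lit 456) (nat_lit 0) (XT.lf (nat_lit 76) (nat_lit 22904881682) (nat_lit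 0) (nat_lit 27503777934) (nat_lit 532) (nat_lit 3297240202) (nat_lit 66) (nat_lit 5) (nat_lit 65) (nat_lit 5) (nat_lit 72) (nat_lit 5) (nat_lit 375) (nat_lit 372) (nat_lit 273)) (XT.nd (nat_lit 78) (nat_lit 456) (nat_lit 0) (XT.lf (nat_lit 76) (nat_lit 52123577942) (nat_lit 0) (nat_lit 2533834220) (nat_lit 532) (nat_lit 1283549398) (nat_lit 66) (nat_lit 5) (nat_lit 65) (nat_lit 5) (nat_lit 72) (nat_lit 5) (nat_lit 376) (nat_lit 372) (nat_lit 272)) (XT.lf (nat_lit 0) (nat_lit 2089814205) (nat_lit 532) (nat_lit 32272635746) (nat_lit 608) (nat_lit 23891212554) (nat_lit 59) (nat_lit 5) (nat_lit 66) (nat_lit 5) (nat_lit 67) (nat_lit 5) (nat_lit 377) (nat_lit 372) (nat_lit 271))))) (XT.nd (nat_lit 234) (nat_lit 228) (nat_lit 0) (XT.nd (nat_lit 78) (nat_lit 304) (nat_lit 0) (XT.lf (nat_lit 0) (nat_lit 5834507217) (nat_lit 532) (nat_lit 2466233953) (nat_lit 608) (nat_lit 52434308543) (nat_lit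 59) (nat_lit 5) (nat_lit 66) (nat_lit 5) (nat_lit 67) (nat_lit 5) (nat_lit 378) (nat_lit 372) (nat_lit 270)) (XT.nd (nat_lit 78) (nat_lit 380) (nat_lit 0) (XT.lf (nat_lit 0) (nat_lit 11126166877) (nat_lit 532) (nat_lit 32563528396) (nat_lit 76) (nat_lit 19625462933) (nat_lit 60) (nat_lit 5) (nat_lit 67) (nat_lit 5) (nat_lit 61) (nat_lit 5) (nat_lit 379) (nat_lit 372) (nat_lit 269)) (XT.lf (nat_lit 0) (nat_lit 475602950) (nat_lit 380) (nat_lit 16659954214) (nat_lit 456) (nat_lit 48942567868) (nat_lit 55) (nat_lit 5) (nat_lit 60) (nat_lit 5) (nat_lit 61) (nat_lit 5) (nat_lit 380) (nat_lit 372) (nat_lit 268)))) (XT.nd (nat_lit 78) (nat_lit 228) (nat_lit 0) (XT.lf (nat_lit 0) (nat_lit 24838836999) (nat_lit 456) (nat_lit 31307474196) (nat_lit 76) (nat_lit 12818768318) (nat_lit 55) (nat_lit 5) (nat_lit 61) (nat_lit 5) (nat_lit 56) (nat_lit 5) (nat_lit 381) (nat_lit 372) (nat_lit 267)) (XT.nd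 (nat_lit 78) (nat_lit 0) (nat_lit 0) (XT.lf (nat_lit 0) (nat_lit 5575675466) (nat_lit 228) (nat_lit 28147922205) (nat_lit 304) (nat_lit 38314176476) (nat_lit 52) (nat_lit 5) (nat_lit 55) (nat_lit 5) (nat_lit 56) (nat_lit 5) (nat_lit 382) (nat_lit 372) (nat_lit 266)) (XT.lf (nat_lit 0) (nat_lit 44246120712) (nat_lit 304) (nat_lit 28172120772) (nat_lit 76) (nat_lit 2863885525) (nat_lit 52) (nat_lit 5) (nat_lit 56) (nat_lit 5) (nat_lit 53) (nat_lit 5) (nat_lit 383) (nat_lit 372) (nat_lit 265))))))))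
noncomputable def xc177 : XT := (XT.nd (nat_lit 1560) (nat_lit 1140) (nat_lit 0) (XT.nd (nat_lit 780) (nat_lit 760) (nat_lit 0) (XT.nd (nat_lit 390) (nat_lit 532) (nat_lit 0) (XT.nd (nat_lit 156) (nat_lit 456) (nat_lit 0) (XT.nd (nat_lit 78) (nat_lit 0) (nat_lit 0) (XT.lf (nat_lit 0) (nat_lit 13103806172) (nat_lit 228) (nat_lit 43551487434) (nat_lit 304) (nat_lit 22047147744) (nat_lit 49) (nat_lit 5) (nat_lit 52) (nat_lit 5) (nat_lit 53) (nat_lit 5) (nat_lit 384) (nat_lit 372) (nat_lit 264)) (XT.lf (nat_lit 0) (nat_lit 59282382464) (nat_lit 228) (nat_lit 11543746149) (nat_lit 304) (nat_lit 11508738971) (nat_lit 49) (nat_lit 5) (nat_lit 52) (nat_lit 5) (nat_lit 53) (nat_lit 5) (nat_lit 385) (nat_lit 372) (nat_lit 263))) (XT.nd (nat_lit 78) (nat_lit 228) (nat_lit 0) (XT.lf (nat_lit 0) (nat_lit 1026259960) (nat_lit 228) (nat_lit 62675889709) (nat_lit 76) (nat_lit 22464211837) (nat_lit 46)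 (nat_lit 5) (nat_lit 49) (nat_lit 5) (nat_lit 47) (nat_lit 5) (nat_lit 386) (nat_lit 372) (nat_lit 262)) (XT.nd (nat_lit 78) (nat_lit 228) (nat_lit 0) (XT.lf (nat_lit 0) (nat_lit 14887563438) (nat_lit 228) (nat_lit 15802808620) (nat_lit 76) (nat_lit 59514467386) (nat_lit 46) (nat_lit 5) (nat_lit 49) (nat_lit 5) (nat_lit 47) (nat_lit 5) (nat_lit 387) (nat_lit 372) (nat_lit 261)) (XT.lf (nat_lit 0) (nat_lit 30880349520) (nat_lit 304) (nat_lit 57986076126) (nat_lit 76) (nat_lit 5618164445) (nat_lit 43) (nat_lit 5) (nat_lit 47) (nat_lit 5) (nat_lit 44) (nat_lit 5) (nat_lit 388) (nat_lit 372) (nat_lit 260))))) (XT.nd (nat_lit 156) (nat_lit 380) (nat_lit 0) (XT.nd (nat_lit 78) (nat_lit 152) (nat_lit 0) (XT.lf (nat_lit 0) (nat_lit 49391913419) (nat_lit 304) (nat_lit 5999391676) (nat_lit 76) (nat_lit 43616267989) (nat_lit 43) (nat_lit 5) (nat_lit 47) (nat_lit 5) (nat_lit 44) (nat_lit 5) (nat_lit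 389) (nat_lit 372) (nat_lit 259)) (XT.lf (nat_lit 0) (nat_lit 52785353761) (nat_lit 152) (nat_lit 17867521807) (nat_lit 228) (nat_lit 33138041933) (nat_lit 41) (nat_lit 5) (nat_lit 43) (nat_lit 5) (nat_lit 44) (nat_lit 5) (nat_lit 390) (nat_lit 372) (nat_lit 258))) (XT.nd (nat_lit 78) (nat_lit 228) (nat_lit 0) (XT.lf (nat_lit 0) (nat_lit 7494535763) (nat_lit 152) (nat_lit 87012663343) (nat_lit 228) (nat_lit 14378332203) (nat_lit 39) (nat_lit 5) (nat_lit 41) (nat_lit 5) (nat_lit 42) (nat_lit 5) (nat_lit 391) (nat_lit 372) (nat_lit 257)) (XT.nd (nat_lit 78) (nat_lit 152) (nat_lit 0) (XT.lf (nat_lit 0) (nat_lit 7481832601) (nat_lit 228) (nat_lit 41344012186) (nat_lit 76) (nat_lit 65399038463) (nat_lit 38) (nat_lit 5) (nat_lit 41) (nat_lit 5) (nat_lit 39) (nat_lit 5) (nat_lit 392) (nat_lit 372) (nat_lit 256)) (XT.lf (nat_lit 0) (nat_lit 24350001383) (nat_lit 152) (nat_lit 6548726310) (nat_lit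 228) (nat_lit 89016001428) (nat_lit 36) (nat_lit 5) (nat_lit 38) (nat_lit 5) (nat_lit 39) (nat_lit 5) (nat_lit 393) (nat_lit 372) (nat_lit 255)))))) (XT.nd (nat_lit 390) (nat_lit 304) (nat_lit 0) (XT.nd (nat_lit 156) (nat_lit 304) (nat_lit 0) (XT.nd (nat_lit 78) (nat_lit 152) (nat_lit 0) (XT.lf (nat_lit 0) (nat_lit 58288490713) (nat_lit 228) (nat_lit 29289869308) (nat_lit 76) (nat_lit 38313441767) (nat_lit 36) (nat_lit 5) (nat_lit 39) (nat_lit 5) (nat_lit 37) (nat_lit 5) (nat_lit 394) (nat_lit 372) (nat_lit 254)) (XT.lf (nat_lit 0) (nat_lit 44333340834) (nat_lit 152) (nat_lit 44771599650) (nat_lit 228) (nat_lit 43143259730) (nat_lit 34) (nat_lit 5) (nat_lit 36) (nat_lit 5) (nat_lit 37) (nat_lit 5) (nat_lit 395) (nat_lit 372) (nat_lit 253))) (XT.nd (nat_lit 78) (nat_lit 304) (nat_lit 0) (XT.lf (nat_lit 0) (nat_lit 123242659953) (nat_lit 228) (nat_lit 13594094528) (nat_lit 76) (nat_lit 2207880107)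 (nat_lit 34) (nat_lit 5) (nat_lit 37) (nat_lit 5) (nat_lit 35) (nat_lit 4) (nat_lit 396) (nat_lit 372) (nat_lit 252)) (XT.nd (nat_lit 78) (nat_lit 152) (nat_lit 0) (XT.lf (nat_lit 0) (nat_lit 15933818108) (nat_lit 152) (nat_lit 77604740147) (nat_lit 76) (nat_lit 52588306493) (nat_lit 32) (nat_lit 5) (nat_lit 34) (nat_lit 5) (nat_lit 33) (nat_lit 5) (nat_lit 397) (nat_lit 372) (nat_lit 251)) (XT.lf (nat_lit 0) (nat_lit 4014323580) (nat_lit 152) (nat_lit 45817595023) (nat_lit 228) (nat_lit 103872746830) (nat_lit 30) (nat_lit 5) (nat_lit 32) (nat_lit 5) (nat_lit 33) (nat_lit 5) (nat_lit 398) (nat_lit 372) (nat_lit 250))))) (XT.nd (nat_lit 156) (nat_lit 228) (nat_lit 0) (XT.nd (nat_lit 78) (nat_lit 76) (nat_lit 0) (XT.lf (nat_lit 0) (nat_lit 88755712478) (nat_lit 228) (nat_lit 65336502957) (nat_lit 76) (nat_lit 7611367383) (nat_lit 30) (nat_lit 5) (nat_lit 33) (nat_lit 5) (nat_lit 31) (nat_lit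 4) (nat_lit 399) (nat_lit 372) (nat_lit 249)) (XT.lf (nat_lit 0) (nat_lit 25868493455) (nat_lit 76) (nat_lit 106736464221) (nat_lit 152) (nat_lit 37592532345) (nat_lit 29) (nat_lit 5) (nat_lit 30) (nat_lit 5) (nat_lit 31) (nat_lit 4) (nat_lit 400) (nat_lit 372) (nat_lit 248))) (XT.nd (nat_lit 78) (nat_lit 152) (nat_lit 0) (XT.lf (nat_lit 0) (nat_lit 2393821059) (nat_lit 152) (nat_lit 51204116682) (nat_lit 76) (nat_lit 125625261606) (nat_lit 28) (nat_lit 5) (nat_lit 30) (nat_lit 5) (nat_lit 29) (nat_lit 5) (nat_lit 401) (nat_lit 372) (nat_lit 247)) (XT.nd (nat_lit 78) (nat_lit 0) (nat_lit 0) (XT.lf (nat_lit 0) (nat_lit 44921014850) (nat_lit 228) (nat_lit 138001673373) (nat_lit 76) (nat_lit 5860330620) (nat_lit 26) (nat_lit 5) (nat_lit 29) (nat_lit 5) (nat_lit 27) (nat_lit 4) (nat_lit 402) (nat_lit 372) (nat_lit 246)) (XT.lf (nat_lit 0) (nat_lit 93678319406) (nat_lit 228) (nat_lit 36587533636)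 (nat_lit 76) (nat_lit 68615536221) (nat_lit 26) (nat_lit 5) (nat_lit 29) (nat_lit 5) (nat_lit 27) (nat_lit 4) (nat_lit 403) (nat_lit 372) (nat_lit 245))))))) (XT.nd (nat_lit 780) (nat_lit 532) (nat_lit 0) (XT.nd (nat_lit 390) (nat_lit 304) (nat_lit 0) (XT.nd (nat_lit 156) (nat_lit 228) (nat_lit 0) (XT.nd (nat_lit 78) (nat_lit 0) (nat_lit 0) (XT.lf (nat_lit 0) (nat_lit 76779580868) (nat_lit 76) (nat_lit 71402628052) (nat_lit 152) (nat_lit 61457740522) (nat_lit 25) (nat_lit 5) (nat_lit 26) (nat_lit 5) (nat_lit 27) (nat_lit 4) (nat_lit 404) (nat_lit 372) (nat_lit 244)) (XT.lf (nat_lit 0) (nat_lit 201295872845) (nat_lit 76) (nat_lit 6750372319) (nat_lit 152) (nat_lit 13132962584) (nat_lit 25) (nat_lit 5) (nat_lit 26) (nat_lit 5) (nat_lit 27) (nat_lit 4) (nat_lit 405) (nat_lit 372) (nat_lit 243))) (XT.nd (nat_lit 78) (nat_lit 76) (nat_lit 0) (XT.lf (nat_lit 0) (nat_lit 41273137294) (nat_lit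 152) (nat_lit 128449238862) (nat_lit 76) (nat_lit 63510549907) (nat_lit 23) (nat_lit 5) (nat_lit 25) (nat_lit 5) (nat_lit 24) (nat_lit 4) (nat_lit 406) (nat_lit 372) (nat_lit 242)) (XT.nd (nat_lit 78) (nat_lit 76) (nat_lit 0) (XT.lf (nat_lit 0) (nat_lit 100054805202) (nat_lit 152) (nat_lit 6184086772) (nat_lit 76) (nat_lit 139926152634) (nat_lit 23) (nat_lit 5) (nat_lit 25) (nat_lit 5) (nat_lit 24) (nat_lit 4) (nat_lit 407) (nat_lit 372) (nat_lit 241)) (XT.lf (nat_lit 0) (nat_lit 132489065647) (nat_lit 76) (nat_lit 34235843619) (nat_lit 152) (nat_lit 93151951268) (nat_lit 22) (nat_lit 5) (nat_lit 23) (nat_lit 5) (nat_lit 24) (nat_lit 4) (nat_lit 408) (nat_lit 372) (nat_lit 240))))) (XT.nd (nat_lit 156) (nat_lit 152) (nat_lit 0) (XT.nd (nat_lit 78) (nat_lit 76) (nat_lit 0) (XT.lf (nat_lit 0) (nat_lit 7246062433) (nat_lit 76) (nat_lit 232876681692) (nat_lit 76) (nat_lit 34451347920) (nat_lit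 21) (nat_lit 4) (nat_lit 22) (nat_lit 5) (nat_lit 22) (nat_lit 4) (nat_lit 409) (nat_lit 372) (nat_lit 239)) (XT.lf (nat_lit 0) (nat_lit 31959605679) (nat_lit 152) (nat_lit 131949881091) (nat_lit 76) (nat_lit 126124943517) (nat_lit 20) (nat_lit 5) (nat_lit 22) (nat_lit 5) (nat_lit 21) (nat_lit 4) (nat_lit 410) (nat_lit 372) (nat_lit 238))) (XT.nd (nat_lit 78) (nat_lit 76) (nat_lit 0) (XT.lf (nat_lit 0) (nat_lit 14066549429) (nat_lit 76) (nat_lit 88093497887) (nat_lit 152) (nat_lit 204472930790) (nat_lit 19) (nat_lit 5) (nat_lit 20) (nat_lit 5) (nat_lit 21) (nat_lit 4) (nat_lit 411) (nat_lit 372) (nat_lit 237)) (XT.nd (nat_lit 78) (nat_lit 76) (nat_lit 0) (XT.lf (nat_lit 0) (nat_lit 179267625736) (nat_lit 76) (nat_lit 2316233233) (nat_lit 152) (nat_lit 142686964087) (nat_lit 19) (nat_lit 5) (nat_lit 20) (nat_lit 5) (nat_lit 21) (nat_lit 4) (nat_lit 412) (nat_lit 372) (nat_lit 236)) (XT.lf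 (nat_lit 0) (nat_lit 12834090194) (nat_lit 76) (nat_lit 257008034202) (nat_lit 76) (nat_lit 73279127373) (nat_lit 18) (nat_lit 4) (nat_lit 19) (nat_lit 5) (nat_lit 19) (nat_lit 4) (nat_lit 413) (nat_lit 372) (nat_lit 235)))))) (XT.nd (nat_lit 390) (nat_lit 304) (nat_lit 0) (XT.nd (nat_lit 156) (nat_lit 152) (nat_lit 0) (XT.nd (nat_lit 78) (nat_lit 0) (nat_lit 0) (XT.lf (nat_lit 0) (nat_lit 5724627802) (nat_lit 152) (nat_lit 171822039757) (nat_lit 76) (nat_lit 185599620486) (nat_lit 17) (nat_lit 5) (nat_lit 19) (nat_lit 5) (nat_lit 18) (nat_lit 4) (nat_lit 414) (nat_lit 372) (nat_lit 234)) (XT.lf (nat_lit 0) (nat_lit 87089350412) (nat_lit 152) (nat_lit 2583748911) (nat_lit 76) (nat_lit 294947988182) (nat_lit 17) (nat_lit 5) (nat_lit 19) (nat_lit 5) (nat_lit 18) (nat_lit 4) (nat_lit 415) (nat_lit 372) (nat_lit 233))) (XT.nd (nat_lit 78) (nat_lit 76) (nat_lit 0) (XT.lf (nat_lit 0) (nat_lit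 179769040174) (nat_lit 152) (nat_lit 218011610208) (nat_lit 0) (nat_lit 9648757447) (nat_lit 16) (nat_lit 5) (nat_lit 18) (nat_lit 4) (nat_lit 16) (nat_lit 4) (nat_lit 416) (nat_lit 372) (nat_lit 232)) (XT.nd (nat_lit 78) (nat_lit 76) (nat_lit 0) (XT.lf (nat_lit 0) (nat_lit 282264427768) (nat_lit 152) (nat_lit 37461978906) (nat_lit 0) (nat_lit 112143881343) (nat_lit 16) (nat_lit 5) (nat_lit 18) (nat_lit 4) (nat_lit 16) (nat_lit 4) (nat_lit 417) (nat_lit 372) (nat_lit 231)) (XT.lf (nat_lit 0) (nat_lit 165826336842) (nat_lit 76) (nat_lit 231120933257) (nat_lit 76) (nat_lit 61000142669) (nat_lit 15) (nat_lit 4) (nat_lit 16) (nat_lit 5) (nat_lit 16) (nat_lit 4) (nat_lit 418) (nat_lit 372) (nat_lit 230))))) (XT.nd (nat_lit 234) (nat_lit 152) (nat_lit 0) (XT.nd (nat_lit 78) (nat_lit 76) (nat_lit 0) (XT.lf (nat_lit 0) (nat_lit 34009075073) (nat_lit 152) (nat_lit 99382140513) (nat_lit 76) (nat_lit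 352568694267) (nat_lit 14) (nat_lit 5) (nat_lit 16) (nat_lit 5) (nat_lit 15) (nat_lit 4) (nat_lit 419) (nat_lit 372) (nat_lit 229)) (XT.nd (nat_lit 78) (nat_lit 0) (nat_lit 0) (XT.lf (nat_lit 0) (nat_lit 112835427313) (nat_lit 76) (nat_lit 23201425240) (nat_lit 152) (nat_lit 379832727491) (nat_lit 13) (nat_lit 5) (nat_lit 14) (nat_lit 5) (nat_lit 15) (nat_lit 4) (nat_lit 420) (nat_lit 372) (nat_lit 228)) (XT.lf (nat_lit 0) (nat_lit 251318513830) (nat_lit 152) (nat_lit 202647496464) (nat_lit 0) (nat_lit 93798680660) (nat_lit 13) (nat_lit 5) (nat_lit 15) (nat_lit 4) (nat_lit 13) (nat_lit 4) (nat_lit 421) (nat_lit 372) (nat_lit 227)))) (XT.nd (nat_lit 78) (nat_lit 76) (nat_lit 0) (XT.lf (nat_lit 0) (nat_lit 13860296961) (nat_lit 76) (nat_lit 362898127902) (nat_lit 76) (nat_lit 205378128559) (nat_lit 12) (nat_lit 4) (nat_lit 13) (nat_lit 5) (nat_lit 13) (nat_lit 4) (nat_lit 422) (nat_lit 372)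 (nat_lit 226)) (XT.nd (nat_lit 78) (nat_lit 76) (nat_lit 0) (XT.lf (nat_lit 0) (nat_lit 259212960327) (nat_lit 76) (nat_lit 258561059267) (nat_lit 76) (nat_lit 101040906058) (nat_lit 12) (nat_lit 4) (nat_lit 13) (nat_lit 5) (nat_lit 13) (nat_lit 4) (nat_lit 423) (nat_lit 372) (nat_lit 225)) (XT.lf (nat_lit 0) (nat_lit 11060611169) (nat_lit 152) (nat_lit 134514224442) (nat_lit 76) (nat_lit 512830349420) (nat_lit 11) (nat_lit 5) (nat_lit 13) (nat_lit 5) (nat_lit 12) (nat_lit 4) (nat_lit 424) (nat_lit 372) (nat_lit 224))))))))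
noncomputable def xc178 : XT := (XT.nd (nat_lit 1560) (nat_lit 228) (nat_lit 0) (XT.nd (nat_lit 780) (nat_lit 228) (nat_lit 0) (XT.nd (nat_lit 390) (nat_lit 152) (nat_lit 0) (XT.nd (nat_lit 156) (nat_lit 76) (nat_lit 0) (XT.nd (nat_lit 78) (nat_lit 0) (nat_lit 0) (XT.lf (nat_lit 0) (nat_lit 111535096780) (nat_lit 76) (nat_lit 17818520705) (nat_lit 152) (nat_lit 571384516484) (nat_lit 10) (nat_lit 5) (nat_lit 11) (nat_lit 5) (nat_lit 12) (nat_lit 4) (nat_lit 425) (nat_lit 372) (nat_lit 223)) (XT.lf (nat_lit 0) (nat_lit 263773040666) (nat_lit 152) (nat_lit 364230960265) (nat_lit 0) (nat_lit 117920679802) (nat_lit 10) (nat_lit 5) (nat_lit 12) (nat_lit 4) (nat_lit 10) (nat_lit 4) (nat_lit 426) (nat_lit 372) (nat_lit 222))) (XT.nd (nat_lit 78) (nat_lit 76) (nat_lit 0) (XT.lf (nat_lit 0) (nat_lit 409408633025) (nat_lit 152) (nat_lit 121724341566) (nat_lit 0) (nat_lit 263556167444) (nat_lit 10)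 (nat_lit 5) (nat_lit 12) (nat_lit 4) (nat_lit 10) (nat_lit 4) (nat_lit 427) (nat_lit 372) (nat_lit 221)) (XT.nd (nat_lit 78) (nat_lit 0) (nat_lit 0) (XT.lf (nat_lit 0) (nat_lit 147564189413) (nat_lit 76) (nat_lit 422679617335) (nat_lit 76) (nat_lit 276827054792) (nat_lit 9) (nat_lit 4) (nat_lit 10) (nat_lit 5) (nat_lit 10) (nat_lit 4) (nat_lit 428) (nat_lit 372) (nat_lit 220)) (XT.lf (nat_lit 0) (nat_lit 445318007933) (nat_lit 76) (nat_lit 301955762464) (nat_lit 76) (nat_lit 156103110143) (nat_lit 9) (nat_lit 4) (nat_lit 10) (nat_lit 5) (nat_lit 10) (nat_lit 4) (nat_lit 429) (nat_lit 372) (nat_lit 219))))) (XT.nd (nat_lit 156) (nat_lit 0) (nat_lit 0) (XT.nd (nat_lit 78) (nat_lit 152) (nat_lit 0) (XT.lf (nat_lit 0) (nat_lit 766891792953) (nat_lit 76) (nat_lit 171574168571) (nat_lit 76) (nat_lit 25721433121) (nat_lit 9) (nat_lit 4) (nat_lit 10) (nat_lit 5) (nat_lit 10) (nat_lit 4) (nat_lit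 430) (nat_lit 372) (nat_lit 218)) (XT.lf (nat_lit 0) (nat_lit 85855302489) (nat_lit 76) (nat_lit 25542829678) (nat_lit 152) (nat_lit 918078009971) (nat_lit 7) (nat_lit 5) (nat_lit 8) (nat_lit 5) (nat_lit 9) (nat_lit 4) (nat_lit 431) (nat_lit 372) (nat_lit 217))) (XT.nd (nat_lit 78) (nat_lit 0) (nat_lit 0) (XT.lf (nat_lit 0) (nat_lit 266810718744) (nat_lit 152) (nat_lit 700665024679) (nat_lit 0) (nat_lit 131761752364) (nat_lit 7) (nat_lit 5) (nat_lit 9) (nat_lit 4) (nat_lit 7) (nat_lit 4) (nat_lit 432) (nat_lit 372) (nat_lit 216)) (XT.nd (nat_lit 78) (nat_lit 0) (nat_lit 0) (XT.lf (nat_lit 0) (nat_lit 435319613709) (nat_lit 152) (nat_lit 438936493683) (nat_lit 0) (nat_lit 300270586228) (nat_lit 7) (nat_lit 5) (nat_lit 9) (nat_lit 4) (nat_lit 7) (nat_lit 4) (nat_lit 433) (nat_lit 372) (nat_lit 215)) (XT.lf (nat_lit 0) (nat_lit 617309082626) (nat_lit 152) (nat_lit 156269957109) (nat_lit 0)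 (nat_lit 482259998569) (nat_lit 7) (nat_lit 5) (nat_lit 9) (nat_lit 4) (nat_lit 7) (nat_lit 4) (nat_lit 434) (nat_lit 372) (nat_lit 214)))))) (XT.nd (nat_lit 390) (nat_lit 76) (nat_lit 0) (XT.nd (nat_lit 156) (nat_lit 76) (nat_lit 0) (XT.nd (nat_lit 78) (nat_lit 0) (nat_lit 0) (XT.lf (nat_lit 0) (nat_lit 156856229891) (nat_lit 76) (nat_lit 660773747816) (nat_lit 76) (nat_lit 525724611374) (nat_lit 6) (nat_lit 4) (nat_lit 7) (nat_lit 5) (nat_lit 7) (nat_lit 4) (nat_lit 435) (nat_lit 372) (nat_lit 213)) (XT.lf (nat_lit 0) (nat_lit 503919472882) (nat_lit 76) (nat_lit 534329645055) (nat_lit 76) (nat_lit 399280460108) (nat_lit 6) (nat_lit 4) (nat_lit 7) (nat_lit 5) (nat_lit 7) (nat_lit 4) (nat_lit 436) (nat_lit 372) (nat_lit 212))) (XT.nd (nat_lit 78) (nat_lit 76) (nat_lit 0) (XT.lf (nat_lit 0) (nat_lit 878747543925) (nat_lit 76) (nat_lit 397770130628) (nat_lit 76) (nat_lit 262720900769) (nat_lit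 6) (nat_lit 4) (nat_lit 7) (nat_lit 5) (nat_lit 7) (nat_lit 4) (nat_lit 437) (nat_lit 372) (nat_lit 211)) (XT.nd (nat_lit 78) (nat_lit 76) (nat_lit 0) (XT.lf (nat_lit 0) (nat_lit 1283561646404) (nat_lit 76) (nat_lit 250285962967) (nat_lit 76) (nat_lit 115236691524) (nat_lit 6) (nat_lit 4) (nat_lit 7) (nat_lit 5) (nat_lit 7) (nat_lit 4) (nat_lit 438) (nat_lit 372) (nat_lit 210)) (XT.lf (nat_lit 0) (nat_lit 41842781408) (nat_lit 152) (nat_lit 48016324616) (nat_lit 76) (nat_lit 1677773841498) (nat_lit 5) (nat_lit 5) (nat_lit 7) (nat_lit 5) (nat_lit 6) (nat_lit 4) (nat_lit 439) (nat_lit 372) (nat_lit 209))))) (XT.nd (nat_lit 156) (nat_lit 0) (nat_lit 0) (XT.nd (nat_lit 78) (nat_lit 0) (nat_lit 0) (XT.lf (nat_lit 0) (nat_lit 214928048453) (nat_lit 152) (nat_lit 1589842409625) (nat_lit 0) (nat_lit 89882358082) (nat_lit 4) (nat_lit 5) (nat_lit 6) (nat_lit 4) (nat_lit 4) (nat_lit 4) (nat_lit 440)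 (nat_lit 372) (nat_lit 208)) (XT.lf (nat_lit 0) (nat_lit 405540997801) (nat_lit 152) (nat_lit 1345503530753) (nat_lit 0) (nat_lit 280495276865) (nat_lit 4) (nat_lit 5) (nat_lit 6) (nat_lit 4) (nat_lit 4) (nat_lit 4) (nat_lit 441) (nat_lit 372) (nat_lit 207))) (XT.nd (nat_lit 78) (nat_lit 0) (nat_lit 0) (XT.lf (nat_lit 0) (nat_lit 611402896748) (nat_lit 152) (nat_lit 1081617716475) (nat_lit 0) (nat_lit 486357147509) (nat_lit 4) (nat_lit 5) (nat_lit 6) (nat_lit 4) (nat_lit 4) (nat_lit 4) (nat_lit 442) (nat_lit 372) (nat_lit 206)) (XT.nd (nat_lit 78) (nat_lit 0) (nat_lit 0) (XT.lf (nat_lit 0) (nat_lit 833733667657) (nat_lit 152) (nat_lit 796621199001) (nat_lit 0) (nat_lit 708687892213) (nat_lit 4) (nat_lit 5) (nat_lit 6) (nat_lit 4) (nat_lit 4) (nat_lit 4) (nat_lit 443) (nat_lit 372) (nat_lit 205)) (XT.lf (nat_lit 0) (nat_lit 1073850826208) (nat_lit 152) (nat_lit 488825110080) (nat_lit 0)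 (nat_lit 948805026500) (nat_lit 4) (nat_lit 5) (nat_lit 6) (nat_lit 4) (nat_lit 4) (nat_lit 4) (nat_lit 444) (nat_lit 372) (nat_lit 204))))))) (XT.nd (nat_lit 780) (nat_lit 152) (nat_lit 0) (XT.nd (nat_lit 390) (nat_lit 0) (nat_lit 0) (XT.nd (nat_lit 156) (nat_lit 0) (nat_lit 0) (XT.nd (nat_lit 78) (nat_lit 76) (nat_lit 0) (XT.lf (nat_lit 0) (nat_lit 1333177288897) (nat_lit 152) (nat_lit 156405472888) (nat_lit 0) (nat_lit 1208131466721) (nat_lit 4) (nat_lit 5) (nat_lit 6) (nat_lit 4) (nat_lit 4) (nat_lit 4) (nat_lit 445) (nat_lit 372) (nat_lit 203)) (XT.lf (nat_lit 0) (nat_lit 213276564237) (nat_lit 76) (nat_lit 1405102547393) (nat_lit 76) (nat_lit 1280056704414) (nat_lit 3) (nat_lit 4) (nat_lit 4) (nat_lit 5) (nat_lit 4) (nat_lit 4) (nat_lit 446) (nat_lit 372) (nat_lit 202))) (XT.nd (nat_lit 78) (nat_lit 0) (nat_lit 0) (XT.lf (nat_lit 0) (nat_lit 621427956859) (nat_lit 76) (nat_lit 1309245464344)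 (nat_lit 76) (nat_lit 1184199602103) (nat_lit 3) (nat_lit 4) (nat_lit 4) (nat_lit 5) (nat_lit 4) (nat_lit 4) (nat_lit 447) (nat_lit 372) (nat_lit 201)) (XT.nd (nat_lit 78) (nat_lit 0) (nat_lit 0) (XT.lf (nat_lit 0) (nat_lit 1062231344869) (nat_lit 76) (nat_lit 1205719873468) (nat_lit 76) (nat_lit 1080673993393) (nat_lit 3) (nat_lit 4) (nat_lit 4) (nat_lit 5) (nat_lit 4) (nat_lit 4) (nat_lit 448) (nat_lit 372) (nat_lit 200)) (XT.lf (nat_lit 0) (nat_lit 1538298896492) (nat_lit 76) (nat_lit 1093912289782) (nat_lit 76) (nat_lit 968866393193) (nat_lit 3) (nat_lit 4) (nat_lit 4) (nat_lit 5) (nat_lit 4) (nat_lit 4) (nat_lit 449) (nat_lit 372) (nat_lit 199))))) (XT.nd (nat_lit 156) (nat_lit 0) (nat_lit 0) (XT.nd (nat_lit 78) (nat_lit 0) (nat_lit 0) (XT.lf (nat_lit 0) (nat_lit 2052451752774) (nat_lit 76) (nat_lit 973160149828) (nat_lit 76) (nat_lit 848114237948) (nat_lit 3) (nat_lit 4) (nat_lit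 4) (nat_lit 5) (nat_lit 4) (nat_lit 4) (nat_lit 450) (nat_lit 372) (nat_lit 198)) (XT.lf (nat_lit 0) (nat_lit 2607736745456) (nat_lit 76) (nat_lit 842747885369) (nat_lit 76) (nat_lit 717701959331) (nat_lit 3) (nat_lit 4) (nat_lit 4) (nat_lit 5) (nat_lit 4) (nat_lit 4) (nat_lit 451) (nat_lit 372) (nat_lit 197))) (XT.nd (nat_lit 78) (nat_lit 0) (nat_lit 0) (XT.lf (nat_lit 0) (nat_lit 3207444452273) (nat_lit 76) (nat_lit 701902682985) (nat_lit 76) (nat_lit 576856743838) (nat_lit 3) (nat_lit 4) (nat_lit 4) (nat_lit 5) (nat_lit 4) (nat_lit 4) (nat_lit 452) (nat_lit 372) (nat_lit 196)) (XT.nd (nat_lit 78) (nat_lit 0) (nat_lit 0) (XT.lf (nat_lit 0) (nat_lit 3855128696672) (nat_lit 76) (nat_lit 549789904440) (nat_lit 76) (nat_lit 424743953155) (nat_lit 3) (nat_lit 4) (nat_lit 4) (nat_lit 5) (nat_lit 4) (nat_lit 4) (nat_lit 453) (nat_lit 372) (nat_lit 195)) (XT.lf (nat_lit 0) (nat_lit 4554627607510)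 (nat_lit 76) (nat_lit 385508140677) (nat_lit 76) (nat_lit 260462178153) (nat_lit 3) (nat_lit 4) (nat_lit 4) (nat_lit 5) (nat_lit 4) (nat_lit 4) (nat_lit 454) (nat_lit 372) (nat_lit 194)))))) (XT.nd (nat_lit 46722) (nat_lit 0) (nat_lit 4408) (XT.nd (nat_lit 156) (nat_lit 0) (nat_lit 0) (XT.nd (nat_lit 78) (nat_lit 152) (nat_lit 0) (XT.lf (nat_lit 0) (nat_lit 5310086363517) (nat_lit 76) (nat_lit 208083870132) (nat_lit 76) (nat_lit 83037897201) (nat_lit 3) (nat_lit 4) (nat_lit 4) (nat_lit 5) (nat_lit 4) (nat_lit 4) (nat_lit 455) (nat_lit 372) (nat_lit 193)) (XT.lf (nat_lit 0) (nat_lit 94216326710) (nat_lit 76) (nat_lit 11198245057) (nat_lit 152) (nat_lit 5928062401342) (nat_lit 1) (nat_lit 5) (nat_lit 2) (nat_lit 5) (nat_lit 3) (nat_lit 4) (nat_lit 456) (nat_lit 372) (nat_lit 192))) (XT.nd (nat_lit 78) (nat_lit 0) (nat_lit 0) (XT.lf (nat_lit 0) (nat_lit 317468130312) (nat_lit 152) (nat_lit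 5979960953673) (nat_lit 0) (nat_lit 201684804859) (nat_lit 1) (nat_lit 5) (nat_lit 3) (nat_lit 4) (nat_lit 1) (nat_lit 4) (nat_lit 457) (nat_lit 372) (nat_lit 191)) (XT.nd (nat_lit 78) (nat_lit 0) (nat_lit 0) (XT.lf (nat_lit 0) (nat_lit 546776807755) (nat_lit 152) (nat_lit 6024208208694) (nat_lit 0) (nat_lit 430993474653) (nat_lit 1) (nat_lit 5) (nat_lit 3) (nat_lit 4) (nat_lit 1) (nat_lit 4) (nat_lit 458) (nat_lit 372) (nat_lit 190)) (XT.lf (nat_lit 0) (nat_lit 794430152270) (nat_lit 152) (nat_lit 6071995299356) (nat_lit 0) (nat_lit 678646812086) (nat_lit 1) (nat_lit 5) (nat_lit 3) (nat_lit 4) (nat_lit 1) (nat_lit 4) (nat_lit 459) (nat_lit 372) (nat_lit 189))))) (XT.nd (nat_lit 234) (nat_lit 380) (nat_lit 0) (XT.nd (nat_lit 78) (nat_lit 0) (nat_lit 0) (XT.lf (nat_lit 0) (nat_lit 22630917624) (nat_lit 532) (nat_lit 1577015164) (nat_lit 532) (nat_lit 1577015164) (nat_lit 64) (nat_lit 3)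 (nat_lit 71) (nat_lit 3) (nat_lit 71) (nat_lit 5) (nat_lit 373) (nat_lit 373) (nat_lit 274)) (XT.nd (nat_lit 78) (nat_lit 0) (nat_lit 76) (XT.lf (nat_lit 76) (nat_lit 23064489208) (nat_lit 0) (nat_lit 24585556380) (nat_lit 532) (nat_lit 5936405411) (nat_lit 65) (nat_lit 5) (nat_lit 64) (nat_lit 3) (nat_lit 71) (nat_lit 5) (nat_lit 374) (nat_lit 373) (nat_lit 273)) (XT.lf (nat_lit 0) (nat_lit 50343163766) (nat_lit 456) (nat_lit 4229019430) (nat_lit 532) (nat_lit 1183041402) (nat_lit 65) (nat_lit 5) (nat_lit 71) (nat_lit 5) (nat_lit 72) (nat_lit 5) (nat_lit 375) (nat_lit 373) (nat_lit 272)))) (XT.nd (nat_lit 78) (nat_lit 456) (nat_lit 0) (XT.lf (nat_lit 76) (nat_lit 24766269588) (nat_lit 0) (nat_lit 29717536761) (nat_lit 532) (nat_lit 3515129757) (nat_lit 66) (nat_lit 5) (nat_lit 65) (nat_lit 5) (nat_lit 72) (nat_lit 5) (nat_lit 376) (nat_lit 373) (nat_lit 271)) (XT.nd (nat_lit 78) (nat_lit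 456) (nat_lit 0) (XT.lf (nat_lit 76) (nat_lit 56320313596) (nat_lit 0) (nat_lit 2749000765) (nat_lit 532) (nat_lit 1343742922) (nat_lit 66) (nat_lit 5) (nat_lit 65) (nat_lit 5) (nat_lit 72) (nat_lit 5) (nat_lit 377) (nat_lit 373) (nat_lit 270)) (XT.lf (nat_lit 0) (nat_lit 2294819009) (nat_lit 532) (nat_lit 34822861404) (nat_lit 608) (nat_lit 25793218257) (nat_lit 59) (nat_lit 5) (nat_lit 66) (nat_lit 5) (nat_lit 67) (nat_lit 5) (nat_lit 378) (nat_lit 373) (nat_lit 269))))))))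
noncomputable def xc179 : XT := (XT.nd (nat_lit 1638) (nat_lit 1216) (nat_lit 0) (XT.nd (nat_lit 780) (nat_lit 1216) (nat_lit 0) (XT.nd (nat_lit 390) (nat_lit 456) (nat_lit 0) (XT.nd (nat_lit 156) (nat_lit 532) (nat_lit 0) (XT.nd (nat_lit 78) (nat_lit 0) (nat_lit 76) (XT.lf (nat_lit 0) (nat_lit 6336286006) (nat_lit 532) (nat_lit 2634287113) (nat_lit 608) (nat_lit 56620450170) (nat_lit 59) (nat_lit 5) (nat_lit 66) (nat_lit 5) (nat_lit 67) (nat_lit 5) (nat_lit 379) (nat_lit 373) (nat_lit 268)) (XT.lf (nat_lit 0) (nat_lit 12049259304) (nat_lit 532) (nat_lit 35137319175) (nat_lit 76) (nat_lit 21191125655) (nat_lit 60) (nat_lit 5) (nat_lit 67) (nat_lit 5) (nat_lit 61) (nat_lit 5) (nat_lit 380) (nat_lit 373) (nat_lit 267))) (XT.nd (nat_lit 78) (nat_lit 228) (nat_lit 0) (XT.lf (nat_lit 0) (nat_lit 544150489) (nat_lit 380) (nat_lit 17993539458) (nat_lit 456) (nat_lit 52824157213) (nat_lit 55)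 (nat_lit 5) (nat_lit 60) (nat_lit 5) (nat_lit 61) (nat_lit 5) (nat_lit 381) (nat_lit 373) (nat_lit 266)) (XT.nd (nat_lit 78) (nat_lit 228) (nat_lit 0) (XT.lf (nat_lit 0) (nat_lit 26854896956) (nat_lit 456) (nat_lit 33781473845) (nat_lit 76) (nat_lit 13843575855) (nat_lit 55) (nat_lit 5) (nat_lit 61) (nat_lit 5) (nat_lit 56) (nat_lit 5) (nat_lit 382) (nat_lit 373) (nat_lit 265)) (XT.lf (nat_lit 0) (nat_lit 6051553150) (nat_lit 228) (nat_lit 30397457925) (nat_lit 304) (nat_lit 41349561681) (nat_lit 52) (nat_lit 5) (nat_lit 55) (nat_lit 5) (nat_lit 56) (nat_lit 5) (nat_lit 383) (nat_lit 373) (nat_lit 264))))) (XT.nd (nat_lit 156) (nat_lit 228) (nat_lit 0) (XT.nd (nat_lit 78) (nat_lit 228) (nat_lit 0) (XT.lf (nat_lit 0) (nat_lit 47811348201) (nat_lit 304) (nat_lit 30396268487) (nat_lit 76) (nat_lit 3095017755) (nat_lit 52) (nat_lit 5) (nat_lit 56) (nat_lit 5) (nat_lit 53) (nat_lit 5) (nat_lit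 384) (nat_lit 373) (nat_lit 263)) (XT.lf (nat_lit 0) (nat_lit 14180982689) (nat_lit 228) (nat_lit 47031074920) (nat_lit 304) (nat_lit 23784613568) (nat_lit 49) (nat_lit 5) (nat_lit 52) (nat_lit 5) (nat_lit 53) (nat_lit 5) (nat_lit 385) (nat_lit 373) (nat_lit 262))) (XT.nd (nat_lit 78) (nat_lit 228) (nat_lit 0) (XT.lf (nat_lit 0) (nat_lit 64051706416) (nat_lit 228) (nat_lit 12463049999) (nat_lit 304) (nat_lit 12405080686) (nat_lit 49) (nat_lit 5) (nat_lit 52) (nat_lit 5) (nat_lit 53) (nat_lit 5) (nat_lit 386) (nat_lit 373) (nat_lit 261)) (XT.nd (nat_lit 78) (nat_lit 0) (nat_lit 0) (XT.lf (nat_lit 0) (nat_lit 1130565850) (nat_lit 228) (nat_lit 67661045102) (nat_lit 76) (nat_lit 24266268587) (nat_lit 46) (nat_lit 5) (nat_lit 49) (nat_lit 5) (nat_lit 47) (nat_lit 5) (nat_lit 387) (nat_lit 373) (nat_lit 260)) (XT.lf (nat_lit 0) (nat_lit 16099128784) (nat_lit 228) (nat_lit 17040259435) (nat_lit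 76) (nat_lit 64280180150) (nat_lit 46) (nat_lit 5) (nat_lit 49) (nat_lit 5) (nat_lit 47) (nat_lit 5) (nat_lit 388) (nat_lit 373) (nat_lit 259)))))) (XT.nd (nat_lit 390) (nat_lit 608) (nat_lit 0) (XT.nd (nat_lit 156) (nat_lit 380) (nat_lit 0) (XT.nd (nat_lit 78) (nat_lit 0) (nat_lit 0) (XT.lf (nat_lit 0) (nat_lit 33370597050) (nat_lit 304) (nat_lit 62597435225) (nat_lit 76) (nat_lit 6073727044) (nat_lit 43) (nat_lit 5) (nat_lit 47) (nat_lit 5) (nat_lit 44) (nat_lit 5) (nat_lit 389) (nat_lit 373) (nat_lit 258)) (XT.lf (nat_lit 0) (nat_lit 53361617944) (nat_lit 304) (nat_lit 6453855055) (nat_lit 76) (nat_lit 47111226321) (nat_lit 43) (nat_lit 5) (nat_lit 47) (nat_lit 5) (nat_lit 44) (nat_lit 5) (nat_lit 390) (nat_lit 373) (nat_lit 257))) (XT.nd (nat_lit 78) (nat_lit 228) (nat_lit 0) (XT.lf (nat_lit 0) (nat_lit 57033024752) (nat_lit 152) (nat_lit 19289670414) (nat_lit 228) (nat_lit 35770077928)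 (nat_lit 41) (nat_lit 5) (nat_lit 43) (nat_lit 5) (nat_lit 44) (nat_lit 5) (nat_lit 391) (nat_lit 373) (nat_lit 256)) (XT.nd (nat_lit 78) (nat_lit 76) (nat_lit 0) (XT.lf (nat_lit 0) (nat_lit 8119524277) (nat_lit 152) (nat_lit 93965310384) (nat_lit 228) (nat_lit 15510164527) (nat_lit 39) (nat_lit 5) (nat_lit 41) (nat_lit 5) (nat_lit 42) (nat_lit 5) (nat_lit 392) (nat_lit 373) (nat_lit 255)) (XT.lf (nat_lit 0) (nat_lit 8096594113) (nat_lit 228) (nat_lit 44627128592) (nat_lit 76) (nat_lit 70637845563) (nat_lit 38) (nat_lit 5) (nat_lit 41) (nat_lit 5) (nat_lit 39) (nat_lit 5) (nat_lit 393) (nat_lit 373) (nat_lit 254))))) (XT.nd (nat_lit 234) (nat_lit 304) (nat_lit 0) (XT.nd (nat_lit 78) (nat_lit 152) (nat_lit 0) (XT.lf (nat_lit 0) (nat_lit 26321788225) (nat_lit 152) (nat_lit 7064423555) (nat_lit 228) (nat_lit 96120440978) (nat_lit 36) (nat_lit 5) (nat_lit 38) (nat_lit 5) (nat_lit 39) (nat_lit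 5) (nat_lit 394) (nat_lit 373) (nat_lit 253)) (XT.nd (nat_lit 78) (nat_lit 152) (nat_lit 0) (XT.lf (nat_lit 0) (nat_lit 62966183954) (nat_lit 228) (nat_lit 31610054970) (nat_lit 76) (nat_lit 41385730645) (nat_lit 36) (nat_lit 5) (nat_lit 39) (nat_lit 5) (nat_lit 37) (nat_lit 5) (nat_lit 395) (nat_lit 373) (nat_lit 252)) (XT.lf (nat_lit 0) (nat_lit 47902429607) (nat_lit 152) (nat_lit 48344976820) (nat_lit 228) (nat_lit 46579517441) (nat_lit 34) (nat_lit 5) (nat_lit 36) (nat_lit 5) (nat_lit 37) (nat_lit 5) (nat_lit 396) (nat_lit 373) (nat_lit 251)))) (XT.nd (nat_lit 78) (nat_lit 304) (nat_lit 0) (XT.lf (nat_lit 0) (nat_lit 133115287139) (nat_lit 228) (nat_lit 14659998912) (nat_lit 76) (nat_lit 2391855943) (nat_lit 34) (nat_lit 5) (nat_lit 37) (nat_lit 5) (nat_lit 35) (nat_lit 4) (nat_lit 397) (nat_lit 373) (nat_lit 250)) (XT.nd (nat_lit 78) (nat_lit 152) (nat_lit 0) (XT.lf (nat_lit 0) (nat_lit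 17221602410) (nat_lit 152) (nat_lit 83791349569) (nat_lit 76) (nat_lit 56803010316) (nat_lit 32) (nat_lit 5) (nat_lit 34) (nat_lit 5) (nat_lit 33) (nat_lit 5) (nat_lit 398) (nat_lit 373) (nat_lit 249)) (XT.lf (nat_lit 0) (nat_lit 4356688122) (nat_lit 152) (nat_lit 49474404328) (nat_lit 228) (nat_lit 112168931659) (nat_lit 30) (nat_lit 5) (nat_lit 32) (nat_lit 5) (nat_lit 33) (nat_lit 5) (nat_lit 399) (nat_lit 373) (nat_lit 248))))))) (XT.nd (nat_lit 780) (nat_lit 608) (nat_lit 0) (XT.nd (nat_lit 390) (nat_lit 304) (nat_lit 0) (XT.nd (nat_lit 156) (nat_lit 228) (nat_lit 0) (XT.nd (nat_lit 78) (nat_lit 76) (nat_lit 0) (XT.lf (nat_lit 0) (nat_lit 95868046465) (nat_lit 228) (nat_lit 70543028355) (nat_lit 76) (nat_lit 8227839900) (nat_lit 30) (nat_lit 5) (nat_lit 33) (nat_lit 5) (nat_lit 31) (nat_lit 4) (nat_lit 400) (nat_lit 373) (nat_lit 247)) (XT.lf (nat_lit 0) (nat_lit 27957851444) (nat_lit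 76) (nat_lit 115266978137) (nat_lit 152) (nat_lit 40587537393) (nat_lit 29) (nat_lit 5) (nat_lit 30) (nat_lit 5) (nat_lit 31) (nat_lit 4) (nat_lit 401) (nat_lit 373) (nat_lit 246))) (XT.nd (nat_lit 78) (nat_lit 152) (nat_lit 0) (XT.lf (nat_lit 0) (nat_lit 2596231711) (nat_lit 152) (nat_lit 55281462126) (nat_lit 76) (nat_lit 135682485436) (nat_lit 28) (nat_lit 5) (nat_lit 30) (nat_lit 5) (nat_lit 29) (nat_lit 5) (nat_lit 402) (nat_lit 373) (nat_lit 245)) (XT.nd (nat_lit 78) (nat_lit 0) (nat_lit 0) (XT.lf (nat_lit 0) (nat_lit 48525429699) (nat_lit 228) (nat_lit 149022648690) (nat_lit 76) (nat_lit 6336719913) (nat_lit 26) (nat_lit 5) (nat_lit 29) (nat_lit 5) (nat_lit 27) (nat_lit 4) (nat_lit 403) (nat_lit 373) (nat_lit 244)) (XT.lf (nat_lit 0) (nat_lit 101182523534) (nat_lit 228) (nat_lit 39496796926) (nat_lit 76) (nat_lit 74111781751) (nat_lit 26) (nat_lit 5) (nat_lit 29) (nat_lit 5) (nat_lit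 27) (nat_lit 4) (nat_lit 404) (nat_lit 373) (nat_lit 243))))) (XT.nd (nat_lit 156) (nat_lit 228) (nat_lit 0) (XT.nd (nat_lit 78) (nat_lit 0) (nat_lit 0) (XT.lf (nat_lit 0) (nat_lit 82939237639) (nat_lit 76) (nat_lit 77107166211) (nat_lit 152) (nat_lit 66363969214) (nat_lit 25) (nat_lit 5) (nat_lit 26) (nat_lit 5) (nat_lit 27) (nat_lit 4) (nat_lit 405) (nat_lit 373) (nat_lit 242)) (XT.lf (nat_lit 0) (nat_lit 217415552211) (nat_lit 76) (nat_lit 7283298322) (nat_lit 152) (nat_lit 14173978711) (nat_lit 25) (nat_lit 5) (nat_lit 26) (nat_lit 5) (nat_lit 27) (nat_lit 4) (nat_lit 406) (nat_lit 373) (nat_lit 241))) (XT.nd (nat_lit 78) (nat_lit 76) (nat_lit 0) (XT.lf (nat_lit 0) (nat_lit 44584011294) (nat_lit 152) (nat_lit 138708565820) (nat_lit 76) (nat_lit 68598258911) (nat_lit 23) (nat_lit 5) (nat_lit 25) (nat_lit 5) (nat_lit 24) (nat_lit 4) (nat_lit 407) (nat_lit 373) (nat_lit 240)) (XT.nd (nat_lit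 78) (nat_lit 76) (nat_lit 0) (XT.lf (nat_lit 0) (nat_lit 108067544263) (nat_lit 152) (nat_lit 6663432091) (nat_lit 76) (nat_lit 151126601336) (nat_lit 23) (nat_lit 5) (nat_lit 25) (nat_lit 5) (nat_lit 24) (nat_lit 4) (nat_lit 408) (nat_lit 373) (nat_lit 239)) (XT.lf (nat_lit 0) (nat_lit 143103183113) (nat_lit 76) (nat_lit 36967815239) (nat_lit 152) (nat_lit 100595361359) (nat_lit 22) (nat_lit 5) (nat_lit 23) (nat_lit 5) (nat_lit 24) (nat_lit 4) (nat_lit 409) (nat_lit 373) (nat_lit 238)))))) (XT.nd (nat_lit 390) (nat_lit 304) (nat_lit 0) (XT.nd (nat_lit 156) (nat_lit 152) (nat_lit 0) (XT.nd (nat_lit 78) (nat_lit 76) (nat_lit 0) (XT.lf (nat_lit 0) (nat_lit 7840831663) (nat_lit 76) (nat_lit 251499744946) (nat_lit 76) (nat_lit 37198799951) (nat_lit 21) (nat_lit 4) (nat_lit 22) (nat_lit 5) (nat_lit 22) (nat_lit 4) (nat_lit 410) (nat_lit 373) (nat_lit 237)) (XT.lf (nat_lit 0) (nat_lit 34523987841)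 (nat_lit 152) (nat_lit 142491502215) (nat_lit 76) (nat_lit 136221084003) (nat_lit 20) (nat_lit 5) (nat_lit 22) (nat_lit 5) (nat_lit 21) (nat_lit 4) (nat_lit 411) (nat_lit 373) (nat_lit 236))) (XT.nd (nat_lit 78) (nat_lit 76) (nat_lit 0) (XT.lf (nat_lit 0) (nat_lit 15205878965) (nat_lit 76) (nat_lit 95134358700) (nat_lit 152) (nat_lit 220822786325) (nat_lit 19) (nat_lit 5) (nat_lit 20) (nat_lit 5) (nat_lit 21) (nat_lit 4) (nat_lit 412) (nat_lit 373) (nat_lit 235)) (XT.nd (nat_lit 78) (nat_lit 76) (nat_lit 0) (XT.lf (nat_lit 0) (nat_lit 193622003926) (nat_lit 76) (nat_lit 2495403171) (nat_lit 152) (nat_lit 154094533318) (nat_lit 19) (nat_lit 5) (nat_lit 20) (nat_lit 5) (nat_lit 21) (nat_lit 4) (nat_lit 413) (nat_lit 373) (nat_lit 234)) (XT.lf (nat_lit 0) (nat_lit 13873848169) (nat_lit 76) (nat_lit 277562428834) (nat_lit 76) (nat_lit 79134131061) (nat_lit 18) (nat_lit 4) (nat_lit 19) (nat_lit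 5) (nat_lit 19) (nat_lit 4) (nat_lit 414) (nat_lit 373) (nat_lit 233))))) (XT.nd (nat_lit 234) (nat_lit 152) (nat_lit 0) (XT.nd (nat_lit 78) (nat_lit 76) (nat_lit 0) (XT.lf (nat_lit 0) (nat_lit 6189042470) (nat_lit 152) (nat_lit 185555397009) (nat_lit 76) (nat_lit 200453034995) (nat_lit 17) (nat_lit 5) (nat_lit 19) (nat_lit 5) (nat_lit 18) (nat_lit 4) (nat_lit 415) (nat_lit 373) (nat_lit 232)) (XT.nd (nat_lit 78) (nat_lit 76) (nat_lit 0) (XT.lf (nat_lit 0) (nat_lit 94062465523) (nat_lit 152) (nat_lit 2778961853) (nat_lit 76) (nat_lit 318548868784) (nat_lit 17) (nat_lit 5) (nat_lit 19) (nat_lit 5) (nat_lit 18) (nat_lit 4) (nat_lit 416) (nat_lit 373) (nat_lit 231)) (XT.lf (nat_lit 0) (nat_lit 194156487642) (nat_lit 152) (nat_lit 235441008323) (nat_lit 0) (nat_lit 10425789643) (nat_lit 16) (nat_lit 5) (nat_lit 18) (nat_lit 4) (nat_lit 16) (nat_lit 4) (nat_lit 417) (nat_lit 373) (nat_lit 230))))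 (XT.nd (nat_lit 78) (nat_lit 152) (nat_lit 0) (XT.lf (nat_lit 0) (nat_lit 304851067410) (nat_lit 152) (nat_lit 40448260643) (nat_lit 0) (nat_lit 121120143332) (nat_lit 16) (nat_lit 5) (nat_lit 18) (nat_lit 4) (nat_lit 16) (nat_lit 4) (nat_lit 418) (nat_lit 373) (nat_lit 229)) (XT.nd (nat_lit 78) (nat_lit 76) (nat_lit 0) (XT.lf (nat_lit 0) (nat_lit 179102850072) (nat_lit 76) (nat_lit 249605531000) (nat_lit 76) (nat_lit 65874397591) (nat_lit 15) (nat_lit 4) (nat_lit 16) (nat_lit 5) (nat_lit 16) (nat_lit 4) (nat_lit 419) (nat_lit 373) (nat_lit 228)) (XT.lf (nat_lit 0) (nat_lit 36734864531) (nat_lit 152) (nat_lit 107322809009) (nat_lit 76) (nat_lit 380778623359) (nat_lit 14) (nat_lit 5) (nat_lit 16) (nat_lit 5) (nat_lit 15) (nat_lit 4) (nat_lit 420) (nat_lit 373) (nat_lit 227))))))))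
noncomputable def xc180 : XT := (XT.nd (nat_lit 1560) (nat_lit 304) (nat_lit 0) (XT.nd (nat_lit 780) (nat_lit 304) (nat_lit 0) (XT.nd (nat_lit 390) (nat_lit 152) (nat_lit 0) (XT.nd (nat_lit 156) (nat_lit 152) (nat_lit 0) (XT.nd (nat_lit 78) (nat_lit 0) (nat_lit 0) (XT.lf (nat_lit 0) (nat_lit 121871913541) (nat_lit 76) (nat_lit 25052807729) (nat_lit 152) (nat_lit 410214030918) (nat_lit 13) (nat_lit 5) (nat_lit 14) (nat_lit 5) (nat_lit 15) (nat_lit 4) (nat_lit 421) (nat_lit 373) (nat_lit 226)) (XT.lf (nat_lit 0) (nat_lit 271428656332) (nat_lit 152) (nat_lit 218850099415) (nat_lit 0) (nat_lit 101306737002) (nat_lit 13) (nat_lit 5) (nat_lit 15) (nat_lit 4) (nat_lit 13) (nat_lit 4) (nat_lit 422) (nat_lit 373) (nat_lit 225))) (XT.nd (nat_lit 78) (nat_lit 76) (nat_lit 0) (XT.lf (nat_lit 0) (nat_lit 14978084655) (nat_lit 76) (nat_lit 391925545887) (nat_lit 76) (nat_lit 221803484090) (nat_lit 12)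 (nat_lit 4) (nat_lit 13) (nat_lit 5) (nat_lit 13) (nat_lit 4) (nat_lit 423) (nat_lit 373) (nat_lit 224)) (XT.nd (nat_lit 78) (nat_lit 76) (nat_lit 0) (XT.lf (nat_lit 0) (nat_lit 279958297095) (nat_lit 76) (nat_lit 279241840075) (nat_lit 76) (nat_lit 109119646363) (nat_lit 12) (nat_lit 4) (nat_lit 13) (nat_lit 5) (nat_lit 13) (nat_lit 4) (nat_lit 424) (nat_lit 373) (nat_lit 223)) (XT.lf (nat_lit 0) (nat_lit 11949446601) (nat_lit 152) (nat_lit 145267466922) (nat_lit 76) (nat_lit 553860366967) (nat_lit 11) (nat_lit 5) (nat_lit 13) (nat_lit 5) (nat_lit 12) (nat_lit 4) (nat_lit 425) (nat_lit 373) (nat_lit 222))))) (XT.nd (nat_lit 156) (nat_lit 76) (nat_lit 0) (XT.nd (nat_lit 78) (nat_lit 0) (nat_lit 0) (XT.lf (nat_lit 0) (nat_lit 120465600113) (nat_lit 76) (nat_lit 19240183090) (nat_lit 152) (nat_lit 617091090990) (nat_lit 10) (nat_lit 5) (nat_lit 11) (nat_lit 5) (nat_lit 12) (nat_lit 4) (nat_lit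 426) (nat_lit 373) (nat_lit 221)) (XT.lf (nat_lit 0) (nat_lit 284878558153) (nat_lit 152) (nat_lit 393362109095) (nat_lit 0) (nat_lit 127357693646) (nat_lit 10) (nat_lit 5) (nat_lit 12) (nat_lit 4) (nat_lit 10) (nat_lit 4) (nat_lit 427) (nat_lit 373) (nat_lit 220))) (XT.nd (nat_lit 78) (nat_lit 76) (nat_lit 0) (XT.lf (nat_lit 0) (nat_lit 442164725735) (nat_lit 152) (nat_lit 131455503713) (nat_lit 0) (nat_lit 284643771450) (nat_lit 10) (nat_lit 5) (nat_lit 12) (nat_lit 4) (nat_lit 10) (nat_lit 4) (nat_lit 428) (nat_lit 373) (nat_lit 219)) (XT.nd (nat_lit 78) (nat_lit 0) (nat_lit 0) (XT.lf (nat_lit 0) (nat_lit 159375937967) (nat_lit 76) (nat_lit 456490682436) (nat_lit 76) (nat_lit 298969645022) (nat_lit 9) (nat_lit 4) (nat_lit 10) (nat_lit 5) (nat_lit 10) (nat_lit 4) (nat_lit 429) (nat_lit 373) (nat_lit 218)) (XT.lf (nat_lit 0) (nat_lit 480949572087) (nat_lit 76) (nat_lit 326109163938) (nat_lit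 76) (nat_lit 168588049553) (nat_lit 9) (nat_lit 4) (nat_lit 10) (nat_lit 5) (nat_lit 10) (nat_lit 4) (nat_lit 430) (nat_lit 373) (nat_lit 217)))))) (XT.nd (nat_lit 390) (nat_lit 152) (nat_lit 0) (XT.nd (nat_lit 156) (nat_lit 0) (nat_lit 0) (XT.nd (nat_lit 78) (nat_lit 152) (nat_lit 0) (XT.lf (nat_lit 0) (nat_lit 828248806314) (nat_lit 76) (nat_lit 185297269165) (nat_lit 76) (nat_lit 27776083511) (nat_lit 9) (nat_lit 4) (nat_lit 10) (nat_lit 5) (nat_lit 10) (nat_lit 4) (nat_lit 431) (nat_lit 373) (nat_lit 216)) (XT.lf (nat_lit 0) (nat_lit 92729402716) (nat_lit 76) (nat_lit 27583411880) (nat_lit 152) (nat_lit 991521192139) (nat_lit 7) (nat_lit 5) (nat_lit 8) (nat_lit 5) (nat_lit 9) (nat_lit 4) (nat_lit 432) (nat_lit 373) (nat_lit 215))) (XT.nd (nat_lit 78) (nat_lit 0) (nat_lit 0) (XT.lf (nat_lit 0) (nat_lit 288158261666) (nat_lit 152) (nat_lit 756712824430) (nat_lit 0) (nat_lit 142305194309)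 (nat_lit 7) (nat_lit 5) (nat_lit 9) (nat_lit 4) (nat_lit 7) (nat_lit 4) (nat_lit 433) (nat_lit 373) (nat_lit 214)) (XT.nd (nat_lit 78) (nat_lit 0) (nat_lit 0) (XT.lf (nat_lit 0) (nat_lit 470147669309) (nat_lit 152) (nat_lit 474046411120) (nat_lit 0) (nat_lit 324294549567) (nat_lit 7) (nat_lit 5) (nat_lit 9) (nat_lit 4) (nat_lit 7) (nat_lit 4) (nat_lit 434) (nat_lit 373) (nat_lit 213)) (XT.lf (nat_lit 0) (nat_lit 666696111554) (nat_lit 152) (nat_lit 168766922143) (nat_lit 0) (nat_lit 520842943307) (nat_lit 7) (nat_lit 5) (nat_lit 9) (nat_lit 4) (nat_lit 7) (nat_lit 4) (nat_lit 435) (nat_lit 373) (nat_lit 212))))) (XT.nd (nat_lit 156) (nat_lit 76) (nat_lit 0) (XT.nd (nat_lit 78) (nat_lit 0) (nat_lit 0) (XT.lf (nat_lit 0) (nat_lit 169409242564) (nat_lit 76) (nat_lit 713633373704) (nat_lit 76) (nat_lit 567780160546) (nat_lit 6) (nat_lit 4) (nat_lit 7) (nat_lit 5) (nat_lit 7) (nat_lit 4) (nat_lit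 436) (nat_lit 373) (nat_lit 211)) (XT.lf (nat_lit 0) (nat_lit 544237210603) (nat_lit 76) (nat_lit 577073911162) (nat_lit 76) (nat_lit 431220656419) (nat_lit 6) (nat_lit 4) (nat_lit 7) (nat_lit 5) (nat_lit 7) (nat_lit 4) (nat_lit 437) (nat_lit 373) (nat_lit 210))) (XT.nd (nat_lit 78) (nat_lit 76) (nat_lit 0) (XT.lf (nat_lit 0) (nat_lit 949051217708) (nat_lit 76) (nat_lit 429589791543) (nat_lit 76) (nat_lit 283736498295) (nat_lit 6) (nat_lit 4) (nat_lit 7) (nat_lit 5) (nat_lit 7) (nat_lit 4) (nat_lit 438) (nat_lit 373) (nat_lit 209)) (XT.nd (nat_lit 78) (nat_lit 76) (nat_lit 0) (XT.lf (nat_lit 0) (nat_lit 1386250161698) (nat_lit 76) (nat_lit 270307034880) (nat_lit 76) (nat_lit 124453705980) (nat_lit 6) (nat_lit 4) (nat_lit 7) (nat_lit 5) (nat_lit 7) (nat_lit 4) (nat_lit 439) (nat_lit 373) (nat_lit 208)) (XT.lf (nat_lit 0) (nat_lit 45191893529) (nat_lit 152) (nat_lit 51854223369) (nat_lit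 76) (nat_lit 1811997331145) (nat_lit 5) (nat_lit 5) (nat_lit 7) (nat_lit 5) (nat_lit 6) (nat_lit 4) (nat_lit 440) (nat_lit 373) (nat_lit 207))))))) (XT.nd (nat_lit 780) (nat_lit 152) (nat_lit 0) (XT.nd (nat_lit 390) (nat_lit 76) (nat_lit 0) (XT.nd (nat_lit 156) (nat_lit 0) (nat_lit 0) (XT.nd (nat_lit 78) (nat_lit 0) (nat_lit 0) (XT.lf (nat_lit 0) (nat_lit 232123976973) (nat_lit 152) (nat_lit 1717026390109) (nat_lit 0) (nat_lit 97074539494) (nat_lit 4) (nat_lit 5) (nat_lit 6) (nat_lit 4) (nat_lit 4) (nat_lit 4) (nat_lit 441) (nat_lit 373) (nat_lit 206)) (XT.lf (nat_lit 0) (nat_lit 437985837481) (nat_lit 152) (nat_lit 1453140653690) (nat_lit 0) (nat_lit 302936373796) (nat_lit 4) (nat_lit 5) (nat_lit 6) (nat_lit 4) (nat_lit 4) (nat_lit 4) (nat_lit 442) (nat_lit 373) (nat_lit 205))) (XT.nd (nat_lit 78) (nat_lit 0) (nat_lit 0) (XT.lf (nat_lit 0) (nat_lit 660316572799) (nat_lit 152) (nat_lit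 1168144208308) (nat_lit 0) (nat_lit 525267084849) (nat_lit 4) (nat_lit 5) (nat_lit 6) (nat_lit 4) (nat_lit 4) (nat_lit 4) (nat_lit 443) (nat_lit 373) (nat_lit 204)) (XT.nd (nat_lit 78) (nat_lit 0) (nat_lit 0) (XT.lf (nat_lit 0) (nat_lit 900433698394) (nat_lit 152) (nat_lit 860348186138) (nat_lit 0) (nat_lit 765384187978) (nat_lit 4) (nat_lit 5) (nat_lit 6) (nat_lit 4) (nat_lit 4) (nat_lit 4) (nat_lit 444) (nat_lit 373) (nat_lit 203)) (XT.lf (nat_lit 0) (nat_lit 1159760130569) (nat_lit 152) (nat_lit 527928610754) (nat_lit 0) (nat_lit 1024710599349) (nat_lit 4) (nat_lit 5) (nat_lit 6) (nat_lit 4) (nat_lit 4) (nat_lit 4) (nat_lit 445) (nat_lit 373) (nat_lit 202))))) (XT.nd (nat_lit 156) (nat_lit 0) (nat_lit 0) (XT.nd (nat_lit 78) (nat_lit 76) (nat_lit 0) (XT.lf (nat_lit 0) (nat_lit 1439832618549) (nat_lit 152) (nat_lit 168915588375) (nat_lit 0) (nat_lit 1304783068068) (nat_lit 4) (nat_lit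 5) (nat_lit 6) (nat_lit 4) (nat_lit 4) (nat_lit 4) (nat_lit 446) (nat_lit 373) (nat_lit 201)) (XT.lf (nat_lit 0) (nat_lit 230340952926) (nat_lit 76) (nat_lit 1517509603683) (nat_lit 76) (nat_lit 1382460035367) (nat_lit 3) (nat_lit 4) (nat_lit 4) (nat_lit 5) (nat_lit 4) (nat_lit 4) (nat_lit 447) (nat_lit 373) (nat_lit 200))) (XT.nd (nat_lit 78) (nat_lit 0) (nat_lit 0) (XT.lf (nat_lit 0) (nat_lit 671144289288) (nat_lit 76) (nat_lit 1413984038990) (nat_lit 76) (nat_lit 1278934454160) (nat_lit 3) (nat_lit 4) (nat_lit 4) (nat_lit 5) (nat_lit 4) (nat_lit 4) (nat_lit 448) (nat_lit 373) (nat_lit 199)) (XT.nd (nat_lit 78) (nat_lit 0) (nat_lit 0) (XT.lf (nat_lit 0) (nat_lit 1147211793089) (nat_lit 76) (nat_lit 1302176479548) (nat_lit 76) (nat_lit 1167126879428) (nat_lit 3) (nat_lit 4) (nat_lit 4) (nat_lit 5) (nat_lit 4) (nat_lit 4) (nat_lit 449) (nat_lit 373) (nat_lit 198)) (XT.lf (nat_lit 0) (nat_lit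 1661364605091) (nat_lit 76) (nat_lit 1181424362042) (nat_lit 76) (nat_lit 1046374747763) (nat_lit 3) (nat_lit 4) (nat_lit 4) (nat_lit 5) (nat_lit 4) (nat_lit 4) (nat_lit 450) (nat_lit 373) (nat_lit 197)))))) (XT.nd (nat_lit 390) (nat_lit 152) (nat_lit 0) (XT.nd (nat_lit 156) (nat_lit 0) (nat_lit 0) (XT.nd (nat_lit 78) (nat_lit 0) (nat_lit 0) (XT.lf (nat_lit 0) (nat_lit 2216649556773) (nat_lit 76) (nat_lit 1051012118367) (nat_lit 76) (nat_lit 915962490979) (nat_lit 3) (nat_lit 4) (nat_lit 4) (nat_lit 5) (nat_lit 4) (nat_lit 4) (nat_lit 451) (nat_lit 373) (nat_lit 196)) (XT.lf (nat_lit 0) (nat_lit 2816357225627) (nat_lit 76) (nat_lit 910166935229) (nat_lit 76) (nat_lit 775117295702) (nat_lit 3) (nat_lit 4) (nat_lit 4) (nat_lit 5) (nat_lit 4) (nat_lit 4) (nat_lit 452) (nat_lit 373) (nat_lit 195))) (XT.nd (nat_lit 78) (nat_lit 0) (nat_lit 0) (XT.lf (nat_lit 0) (nat_lit 3464041434876) (nat_lit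 76) (nat_lit 758054174504) (nat_lit 76) (nat_lit 623004523738) (nat_lit 3) (nat_lit 4) (nat_lit 4) (nat_lit 5) (nat_lit 4) (nat_lit 4) (nat_lit 453) (nat_lit 373) (nat_lit 194)) (XT.nd (nat_lit 78) (nat_lit 0) (nat_lit 0) (XT.lf (nat_lit 0) (nat_lit 4163540313166) (nat_lit 76) (nat_lit 593772427240) (nat_lit 76) (nat_lit 458722766068) (nat_lit 3) (nat_lit 4) (nat_lit 4) (nat_lit 5) (nat_lit 4) (nat_lit 4) (nat_lit 454) (nat_lit 373) (nat_lit 193)) (XT.lf (nat_lit 0) (nat_lit 4918999039037) (nat_lit 76) (nat_lit 416348171972) (nat_lit 76) (nat_lit 281298501165) (nat_lit 3) (nat_lit 4) (nat_lit 4) (nat_lit 5) (nat_lit 4) (nat_lit 4) (nat_lit 455) (nat_lit 373) (nat_lit 192))))) (XT.nd (nat_lit 234) (nat_lit 0) (nat_lit 0) (XT.nd (nat_lit 78) (nat_lit 152) (nat_lit 0) (XT.lf (nat_lit 0) (nat_lit 5734894404938) (nat_lit 76) (nat_lit 224730005707) (nat_lit 76) (nat_lit 89680325977) (nat_lit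 3) (nat_lit 4) (nat_lit 4) (nat_lit 5) (nat_lit 4) (nat_lit 4) (nat_lit 456) (nat_lit 373) (nat_lit 191)) (XT.nd (nat_lit 78) (nat_lit 0) (nat_lit 0) (XT.lf (nat_lit 0) (nat_lit 101754765950) (nat_lit 76) (nat_lit 12093529213) (nat_lit 152) (nat_lit 6402306791154) (nat_lit 1) (nat_lit 5) (nat_lit 2) (nat_lit 5) (nat_lit 3) (nat_lit 4) (nat_lit 457) (nat_lit 373) (nat_lit 190)) (XT.lf (nat_lit 0) (nat_lit 342866109898) (nat_lit 152) (nat_lit 6458356752278) (nat_lit 0) (nat_lit 217820095417) (nat_lit 1) (nat_lit 5) (nat_lit 3) (nat_lit 4) (nat_lit 1) (nat_lit 4) (nat_lit 458) (nat_lit 373) (nat_lit 189)))) (XT.nd (nat_lit 46488) (nat_lit 0) (nat_lit 4788) (XT.lf (nat_lit 0) (nat_lit 590519442339) (nat_lit 152) (nat_lit 6506143867530) (nat_lit 0) (nat_lit 465473421300) (nat_lit 1) (nat_lit 5) (nat_lit 3) (nat_lit 4) (nat_lit 1) (nat_lit 4) (nat_lit 459) (nat_lit 373) (nat_lit 188)) (XT.nd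 (nat_lit 78) (nat_lit 0) (nat_lit 0) (XT.lf (nat_lit 0) (nat_lit 24463872441) (nat_lit 532) (nat_lit 1691025784) (nat_lit 532) (nat_lit 1691025784) (nat_lit 64) (nat_lit 3) (nat_lit 71) (nat_lit 3) (nat_lit 71) (nat_lit 5) (nat_lit 374) (nat_lit 374) (nat_lit 272)) (XT.lf (nat_lit 76) (nat_lit 24933334310) (nat_lit 0) (nat_lit 26570916809) (nat_lit 532) (nat_lit 6365700428) (nat_lit 65) (nat_lit 5) (nat_lit 64) (nat_lit 3) (nat_lit 71) (nat_lit 5) (nat_lit 375) (nat_lit 374) (nat_lit 271))))))))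
noncomputable def xc181 : XT := (XT.nd (nat_lit 1560) (nat_lit 1444) (nat_lit 0) (XT.nd (nat_lit 780) (nat_lit 1216) (nat_lit 0) (XT.nd (nat_lit 390) (nat_lit 532) (nat_lit 0) (XT.nd (nat_lit 156) (nat_lit 456) (nat_lit 0) (XT.nd (nat_lit 78) (nat_lit 0) (nat_lit 0) (XT.lf (nat_lit 0) (nat_lit 54409280364) (nat_lit 456) (nat_lit 4541834682) (nat_lit 532) (nat_lit 1261397976) (nat_lit 65) (nat_lit 5) (nat_lit 71) (nat_lit 5) (nat_lit 72) (nat_lit 5) (nat_lit 376) (nat_lit 374) (nat_lit 270)) (XT.lf (nat_lit 76) (nat_lit 26772431728) (nat_lit 0) (nat_lit 32106476561) (nat_lit 532) (nat_lit 3756997150) (nat_lit 66) (nat_lit 5) (nat_lit 65) (nat_lit 5) (nat_lit 72) (nat_lit 5) (nat_lit 377) (nat_lit 374) (nat_lit 269))) (XT.nd (nat_lit 78) (nat_lit 456) (nat_lit 0) (XT.lf (nat_lit 76) (nat_lit 60848957732) (nat_lit 0) (nat_lit 2979603103) (nat_lit 532) (nat_lit 1414813663) (nat_lit 66) (nat_lit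 5) (nat_lit 65) (nat_lit 5) (nat_lit 72) (nat_lit 5) (nat_lit 378) (nat_lit 374) (nat_lit 268)) (XT.nd (nat_lit 78) (nat_lit 0) (nat_lit 0) (XT.lf (nat_lit 0) (nat_lit 2510828799) (nat_lit 532) (nat_lit 37581611097) (nat_lit 608) (nat_lit 27848709924) (nat_lit 59) (nat_lit 5) (nat_lit 66) (nat_lit 5) (nat_lit 67) (nat_lit 5) (nat_lit 379) (nat_lit 374) (nat_lit 267)) (XT.lf (nat_lit 0) (nat_lit 6873211358) (nat_lit 532) (nat_lit 2819956730) (nat_lit 608) (nat_lit 61142710449) (nat_lit 59) (nat_lit 5) (nat_lit 66) (nat_lit 5) (nat_lit 67) (nat_lit 5) (nat_lit 380) (nat_lit 374) (nat_lit 266))))) (XT.nd (nat_lit 156) (nat_lit 228) (nat_lit 0) (XT.nd (nat_lit 78) (nat_lit 380) (nat_lit 0) (XT.lf (nat_lit 0) (nat_lit 13041491439) (nat_lit 532) (nat_lit 37921477298) (nat_lit 76) (nat_lit 22882665439) (nat_lit 60) (nat_lit 5) (nat_lit 67) (nat_lit 5) (nat_lit 61) (nat_lit 5) (nat_lit 381) (nat_lit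 374) (nat_lit 265)) (XT.lf (nat_lit 0) (nat_lit 613830765) (nat_lit 380) (nat_lit 19433698976) (nat_lit 456) (nat_lit 57021097949) (nat_lit 55) (nat_lit 5) (nat_lit 60) (nat_lit 5) (nat_lit 61) (nat_lit 5) (nat_lit 382) (nat_lit 374) (nat_lit 264))) (XT.nd (nat_lit 78) (nat_lit 228) (nat_lit 0) (XT.lf (nat_lit 0) (nat_lit 29028111241) (nat_lit 456) (nat_lit 36457758654) (nat_lit 76) (nat_lit 14950466991) (nat_lit 55) (nat_lit 5) (nat_lit 61) (nat_lit 5) (nat_lit 56) (nat_lit 5) (nat_lit 383) (nat_lit 374) (nat_lit 263)) (XT.nd (nat_lit 78) (nat_lit 0) (nat_lit 0) (XT.lf (nat_lit 0) (nat_lit 6561246372) (nat_lit 228) (nat_lit 32827284346) (nat_lit 304) (nat_lit 44632021717) (nat_lit 52) (nat_lit 5) (nat_lit 55) (nat_lit 5) (nat_lit 56) (nat_lit 5) (nat_lit 384) (nat_lit 374) (nat_lit 262)) (XT.lf (nat_lit 0) (nat_lit 51658150632) (nat_lit 304) (nat_lit 32802573922) (nat_lit 76) (nat_lit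 3344352189) (nat_lit 52) (nat_lit 5) (nat_lit 56) (nat_lit 5) (nat_lit 53) (nat_lit 5) (nat_lit 385) (nat_lit 374) (nat_lit 261)))))) (XT.nd (nat_lit 390) (nat_lit 532) (nat_lit 0) (XT.nd (nat_lit 156) (nat_lit 456) (nat_lit 0) (XT.nd (nat_lit 78) (nat_lit 0) (nat_lit 0) (XT.lf (nat_lit 0) (nat_lit 15340214410) (nat_lit 228) (nat_lit 50789675874) (nat_lit 304) (nat_lit 25664829502) (nat_lit 49) (nat_lit 5) (nat_lit 52) (nat_lit 5) (nat_lit 53) (nat_lit 5) (nat_lit 386) (nat_lit 374) (nat_lit 260)) (XT.lf (nat_lit 0) (nat_lit 69198762472) (nat_lit 228) (nat_lit 13456496740) (nat_lit 304) (nat_lit 13376604594) (nat_lit 49) (nat_lit 5) (nat_lit 52) (nat_lit 5) (nat_lit 53) (nat_lit 5) (nat_lit 387) (nat_lit 374) (nat_lit 259))) (XT.nd (nat_lit 78) (nat_lit 228) (nat_lit 0) (XT.lf (nat_lit 0) (nat_lit 1240048406) (nat_lit 228) (nat_lit 73049138086) (nat_lit 76) (nat_lit 26211788013) (nat_lit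 46) (nat_lit 5) (nat_lit 49) (nat_lit 5) (nat_lit 47) (nat_lit 5) (nat_lit 388) (nat_lit 374) (nat_lit 258)) (XT.nd (nat_lit 78) (nat_lit 228) (nat_lit 0) (XT.lf (nat_lit 0) (nat_lit 17404686205) (nat_lit 228) (nat_lit 18380525908) (nat_lit 76) (nat_lit 69426500062) (nat_lit 46) (nat_lit 5) (nat_lit 49) (nat_lit 5) (nat_lit 47) (nat_lit 5) (nat_lit 389) (nat_lit 374) (nat_lit 257)) (XT.lf (nat_lit 0) (nat_lit 36057236899) (nat_lit 304) (nat_lit 67581630085) (nat_lit 76) (nat_lit 6564863070) (nat_lit 43) (nat_lit 5) (nat_lit 47) (nat_lit 5) (nat_lit 44) (nat_lit 5) (nat_lit 390) (nat_lit 374) (nat_lit 256))))) (XT.nd (nat_lit 156) (nat_lit 380) (nat_lit 0) (XT.nd (nat_lit 78) (nat_lit 152) (nat_lit 0) (XT.lf (nat_lit 0) (nat_lit 57646280792) (nat_lit 304) (nat_lit 6948311647) (nat_lit 76) (nat_lit 50884974299) (nat_lit 43) (nat_lit 5) (nat_lit 47) (nat_lit 5) (nat_lit 44) (nat_lit 5) (nat_lit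 391) (nat_lit 374) (nat_lit 255)) (XT.lf (nat_lit 0) (nat_lit 61616965335) (nat_lit 152) (nat_lit 20826625651) (nat_lit 228) (nat_lit 38615388414) (nat_lit 41) (nat_lit 5) (nat_lit 43) (nat_lit 5) (nat_lit 44) (nat_lit 5) (nat_lit 392) (nat_lit 374) (nat_lit 254))) (XT.nd (nat_lit 78) (nat_lit 228) (nat_lit 0) (XT.lf (nat_lit 0) (nat_lit 8790884619) (nat_lit 152) (nat_lit 101475362696) (nat_lit 228) (nat_lit 16735173289) (nat_lit 39) (nat_lit 5) (nat_lit 41) (nat_lit 5) (nat_lit 42) (nat_lit 5) (nat_lit 393) (nat_lit 374) (nat_lit 253)) (XT.nd (nat_lit 78) (nat_lit 152) (nat_lit 0) (XT.lf (nat_lit 0) (nat_lit 8758223309) (nat_lit 228) (nat_lit 48176375896) (nat_lit 76) (nat_lit 76294775149) (nat_lit 38) (nat_lit 5) (nat_lit 41) (nat_lit 5) (nat_lit 39) (nat_lit 5) (nat_lit 394) (nat_lit 374) (nat_lit 252)) (XT.lf (nat_lit 0) (nat_lit 28447924571) (nat_lit 152) (nat_lit 7622546524) (nat_lit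 228) (nat_lit 103795638187) (nat_lit 36) (nat_lit 5) (nat_lit 38) (nat_lit 5) (nat_lit 39) (nat_lit 5) (nat_lit 395) (nat_lit 374) (nat_lit 251))))))) (XT.nd (nat_lit 780) (nat_lit 684) (nat_lit 0) (XT.nd (nat_lit 390) (nat_lit 304) (nat_lit 0) (XT.nd (nat_lit 156) (nat_lit 304) (nat_lit 0) (XT.nd (nat_lit 78) (nat_lit 152) (nat_lit 0) (XT.lf (nat_lit 0) (nat_lit 68016007806) (nat_lit 228) (nat_lit 34119137246) (nat_lit 76) (nat_lit 44702773542) (nat_lit 36) (nat_lit 5) (nat_lit 39) (nat_lit 5) (nat_lit 37) (nat_lit 5) (nat_lit 396) (nat_lit 374) (nat_lit 250)) (XT.lf (nat_lit 0) (nat_lit 51753846803) (nat_lit 152) (nat_lit 52205415499) (nat_lit 228) (nat_lit 50292844657) (nat_lit 34) (nat_lit 5) (nat_lit 36) (nat_lit 5) (nat_lit 37) (nat_lit 5) (nat_lit 397) (nat_lit 374) (nat_lit 249))) (XT.nd (nat_lit 78) (nat_lit 304) (nat_lit 0) (XT.lf (nat_lit 0) (nat_lit 143775839319) (nat_lit 228)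 (nat_lit 15814260435) (nat_lit 76) (nat_lit 2589501938) (nat_lit 34) (nat_lit 5) (nat_lit 37) (nat_lit 5) (nat_lit 35) (nat_lit 4) (nat_lit 398) (nat_lit 374) (nat_lit 248)) (XT.nd (nat_lit 78) (nat_lit 152) (nat_lit 0) (XT.lf (nat_lit 0) (nat_lit 18610543612) (nat_lit 152) (nat_lit 90475993449) (nat_lit 76) (nat_lit 61353800614) (nat_lit 32) (nat_lit 5) (nat_lit 34) (nat_lit 5) (nat_lit 33) (nat_lit 5) (nat_lit 399) (nat_lit 374) (nat_lit 247)) (XT.lf (nat_lit 0) (nat_lit 4723414749) (nat_lit 152) (nat_lit 53424985020) (nat_lit 228) (nat_lit 121130756448) (nat_lit 30) (nat_lit 5) (nat_lit 32) (nat_lit 5) (nat_lit 33) (nat_lit 5) (nat_lit 400) (nat_lit 374) (nat_lit 246))))) (XT.nd (nat_lit 156) (nat_lit 228) (nat_lit 0) (XT.nd (nat_lit 78) (nat_lit 76) (nat_lit 0) (XT.lf (nat_lit 0) (nat_lit 103547672785) (nat_lit 228) (nat_lit 76168985337) (nat_lit 76) (nat_lit 8892551253) (nat_lit 30)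 (nat_lit 5) (nat_lit 33) (nat_lit 5) (nat_lit 31) (nat_lit 4) (nat_lit 401) (nat_lit 374) (nat_lit 245)) (XT.lf (nat_lit 0) (nat_lit 30211522181) (nat_lit 76) (nat_lit 124481131978) (nat_lit 152) (nat_lit 43823911491) (nat_lit 29) (nat_lit 5) (nat_lit 30) (nat_lit 5) (nat_lit 31) (nat_lit 4) (nat_lit 402) (nat_lit 374) (nat_lit 244))) (XT.nd (nat_lit 78) (nat_lit 152) (nat_lit 0) (XT.lf (nat_lit 0) (nat_lit 2813279500) (nat_lit 152) (nat_lit 59687703470) (nat_lit 76) (nat_lit 146543259598) (nat_lit 28) (nat_lit 5) (nat_lit 30) (nat_lit 5) (nat_lit 29) (nat_lit 5) (nat_lit 403) (nat_lit 374) (nat_lit 243)) (XT.nd (nat_lit 78) (nat_lit 0) (nat_lit 0) (XT.lf (nat_lit 0) (nat_lit 52416666459) (nat_lit 228) (nat_lit 160928035215) (nat_lit 76) (nat_lit 6850141425) (nat_lit 26) (nat_lit 5) (nat_lit 29) (nat_lit 5) (nat_lit 27) (nat_lit 4) (nat_lit 404) (nat_lit 374) (nat_lit 242)) (XT.lf (nat_lit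 0) (nat_lit 109285646143) (nat_lit 228) (nat_lit 42641332004) (nat_lit 76) (nat_lit 80046727920) (nat_lit 26) (nat_lit 5) (nat_lit 29) (nat_lit 5) (nat_lit 27) (nat_lit 4) (nat_lit 405) (nat_lit 374) (nat_lit 241)))))) (XT.nd (nat_lit 390) (nat_lit 380) (nat_lit 0) (XT.nd (nat_lit 156) (nat_lit 228) (nat_lit 0) (XT.nd (nat_lit 78) (nat_lit 0) (nat_lit 0) (XT.lf (nat_lit 0) (nat_lit 89589200296) (nat_lit 76) (nat_lit 83269161932) (nat_lit 152) (nat_lit 71664178528) (nat_lit 25) (nat_lit 5) (nat_lit 26) (nat_lit 5) (nat_lit 27) (nat_lit 4) (nat_lit 406) (nat_lit 374) (nat_lit 240)) (XT.lf (nat_lit 0) (nat_lit 234822521987) (nat_lit 76) (nat_lit 7859871840) (nat_lit 152) (nat_lit 15299648654) (nat_lit 25) (nat_lit 5) (nat_lit 26) (nat_lit 5) (nat_lit 27) (nat_lit 4) (nat_lit 407) (nat_lit 374) (nat_lit 239))) (XT.nd (nat_lit 78) (nat_lit 76) (nat_lit 0) (XT.lf (nat_lit 0) (nat_lit 48158467980)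 (nat_lit 152) (nat_lit 149791008842) (nat_lit 76) (nat_lit 74092005264) (nat_lit 23) (nat_lit 5) (nat_lit 25) (nat_lit 5) (nat_lit 24) (nat_lit 4) (nat_lit 408) (nat_lit 374) (nat_lit 238)) (XT.nd (nat_lit 78) (nat_lit 76) (nat_lit 0) (XT.lf (nat_lit 0) (nat_lit 116720110565) (nat_lit 152) (nat_lit 7183319397) (nat_lit 76) (nat_lit 163222179110) (nat_lit 23) (nat_lit 5) (nat_lit 25) (nat_lit 5) (nat_lit 24) (nat_lit 4) (nat_lit 409) (nat_lit 374) (nat_lit 237)) (XT.lf (nat_lit 0) (nat_lit 154564291169) (nat_lit 76) (nat_lit 39919328363) (nat_lit 152) (nat_lit 108635491973) (nat_lit 22) (nat_lit 5) (nat_lit 23) (nat_lit 5) (nat_lit 24) (nat_lit 4) (nat_lit 410) (nat_lit 374) (nat_lit 236))))) (XT.nd (nat_lit 234) (nat_lit 152) (nat_lit 0) (XT.nd (nat_lit 78) (nat_lit 152) (nat_lit 0) (XT.lf (nat_lit 0) (nat_lit 8481030497) (nat_lit 76) (nat_lit 271613662057) (nat_lit 76) (nat_lit 40167282992)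 (nat_lit 21) (nat_lit 4) (nat_lit 22) (nat_lit 5) (nat_lit 22) (nat_lit 4) (nat_lit 411) (nat_lit 374) (nat_lit 235)) (XT.nd (nat_lit 78) (nat_lit 76) (nat_lit 0) (XT.lf (nat_lit 0) (nat_lit 37292434395) (nat_lit 152) (nat_lit 153878502980) (nat_lit 76) (nat_lit 147124039075) (nat_lit 20) (nat_lit 5) (nat_lit 22) (nat_lit 5) (nat_lit 21) (nat_lit 4) (nat_lit 412) (nat_lit 374) (nat_lit 234)) (XT.lf (nat_lit 0) (nat_lit 16434356811) (nat_lit 76) (nat_lit 102739432655) (nat_lit 152) (nat_lit 238481768587) (nat_lit 19) (nat_lit 5) (nat_lit 20) (nat_lit 5) (nat_lit 21) (nat_lit 4) (nat_lit 413) (nat_lit 374) (nat_lit 233)))) (XT.nd (nat_lit 78) (nat_lit 152) (nat_lit 0) (XT.lf (nat_lit 0) (nat_lit 209122882322) (nat_lit 76) (nat_lit 2689781035) (nat_lit 152) (nat_lit 166415762054) (nat_lit 19) (nat_lit 5) (nat_lit 20) (nat_lit 5) (nat_lit 21) (nat_lit 4) (nat_lit 414) (nat_lit 374) (nat_lit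 232)) (XT.nd (nat_lit 78) (nat_lit 76) (nat_lit 0) (XT.lf (nat_lit 0) (nat_lit 14994927798) (nat_lit 76) (nat_lit 299762066399) (nat_lit 76) (nat_lit 85458580252) (nat_lit 18) (nat_lit 4) (nat_lit 19) (nat_lit 5) (nat_lit 19) (nat_lit 4) (nat_lit 415) (nat_lit 374) (nat_lit 231)) (XT.lf (nat_lit 0) (nat_lit 6689690941) (nat_lit 152) (nat_lit 200389192686) (nat_lit 76) (nat_lit 216493945894) (nat_lit 17) (nat_lit 5) (nat_lit 19) (nat_lit 5) (nat_lit 18) (nat_lit 4) (nat_lit 416) (nat_lit 374) (nat_lit 230))))))))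
noncomputable def xc182 : XT := (XT.nd (nat_lit 1560) (nat_lit 304) (nat_lit 0) (XT.nd (nat_lit 780) (nat_lit 304) (nat_lit 0) (XT.nd (nat_lit 390) (nat_lit 228) (nat_lit 0) (XT.nd (nat_lit 156) (nat_lit 152) (nat_lit 0) (XT.nd (nat_lit 78) (nat_lit 76) (nat_lit 0) (XT.lf (nat_lit 0) (nat_lit 101592578573) (nat_lit 152) (nat_lit 2991430575) (nat_lit 76) (nat_lit 344037100600) (nat_lit 17) (nat_lit 5) (nat_lit 19) (nat_lit 5) (nat_lit 18) (nat_lit 4) (nat_lit 417) (nat_lit 374) (nat_lit 229)) (XT.lf (nat_lit 0) (nat_lit 209694085747) (nat_lit 152) (nat_lit 254266403271) (nat_lit 0) (nat_lit 11264252334) (nat_lit 16) (nat_lit 5) (nat_lit 18) (nat_lit 4) (nat_lit 16) (nat_lit 4) (nat_lit 418) (nat_lit 374) (nat_lit 228))) (XT.nd (nat_lit 78) (nat_lit 152) (nat_lit 0) (XT.lf (nat_lit 0) (nat_lit 329243855667) (nat_lit 152) (nat_lit 43674968052) (nat_lit 0) (nat_lit 130813828428) (nat_lit 16)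 (nat_lit 5) (nat_lit 18) (nat_lit 4) (nat_lit 16) (nat_lit 4) (nat_lit 419) (nat_lit 374) (nat_lit 227)) (XT.nd (nat_lit 78) (nat_lit 76) (nat_lit 0) (XT.lf (nat_lit 0) (nat_lit 193439999788) (nat_lit 76) (nat_lit 269569620841) (nat_lit 76) (nat_lit 71139414135) (nat_lit 15) (nat_lit 4) (nat_lit 16) (nat_lit 5) (nat_lit 16) (nat_lit 4) (nat_lit 420) (nat_lit 374) (nat_lit 226)) (XT.lf (nat_lit 0) (nat_lit 39677994787) (nat_lit 152) (nat_lit 115900143721) (nat_lit 76) (nat_lit 411244714283) (nat_lit 14) (nat_lit 5) (nat_lit 16) (nat_lit 5) (nat_lit 15) (nat_lit 4) (nat_lit 421) (nat_lit 374) (nat_lit 225))))) (XT.nd (nat_lit 156) (nat_lit 152) (nat_lit 0) (XT.nd (nat_lit 78) (nat_lit 0) (nat_lit 0) (XT.lf (nat_lit 0) (nat_lit 131629941696) (nat_lit 76) (nat_lit 27052975823) (nat_lit 152) (nat_lit 443026596832) (nat_lit 13) (nat_lit 5) (nat_lit 14) (nat_lit 5) (nat_lit 15) (nat_lit 4) (nat_lit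 422) (nat_lit 374) (nat_lit 224)) (XT.lf (nat_lit 0) (nat_lit 293146945233) (nat_lit 152) (nat_lit 236350222623) (nat_lit 0) (nat_lit 109414844110) (nat_lit 13) (nat_lit 5) (nat_lit 15) (nat_lit 4) (nat_lit 13) (nat_lit 4) (nat_lit 423) (nat_lit 374) (nat_lit 223))) (XT.nd (nat_lit 78) (nat_lit 76) (nat_lit 0) (XT.lf (nat_lit 0) (nat_lit 16184016559) (nat_lit 76) (nat_lit 423275789620) (nat_lit 76) (nat_lit 239543566354) (nat_lit 12) (nat_lit 4) (nat_lit 13) (nat_lit 5) (nat_lit 13) (nat_lit 4) (nat_lit 424) (nat_lit 374) (nat_lit 222)) (XT.nd (nat_lit 78) (nat_lit 76) (nat_lit 0) (XT.lf (nat_lit 0) (nat_lit 302362076725) (nat_lit 76) (nat_lit 301577668820) (nat_lit 76) (nat_lit 117845332459) (nat_lit 12) (nat_lit 4) (nat_lit 13) (nat_lit 5) (nat_lit 13) (nat_lit 4) (nat_lit 425) (nat_lit 374) (nat_lit 221)) (XT.lf (nat_lit 0) (nat_lit 12908820144) (nat_lit 152) (nat_lit 156882095178)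 (nat_lit 76) (nat_lit 598172273823) (nat_lit 11) (nat_lit 5) (nat_lit 13) (nat_lit 5) (nat_lit 12) (nat_lit 4) (nat_lit 426) (nat_lit 374) (nat_lit 220)))))) (XT.nd (nat_lit 390) (nat_lit 152) (nat_lit 0) (XT.nd (nat_lit 156) (nat_lit 76) (nat_lit 0) (XT.nd (nat_lit 78) (nat_lit 0) (nat_lit 0) (XT.lf (nat_lit 0) (nat_lit 130109445850) (nat_lit 76) (nat_lit 20776123327) (nat_lit 152) (nat_lit 666454788752) (nat_lit 10) (nat_lit 5) (nat_lit 11) (nat_lit 5) (nat_lit 12) (nat_lit 4) (nat_lit 427) (nat_lit 374) (nat_lit 219)) (XT.lf (nat_lit 0) (nat_lit 307671992868) (nat_lit 152) (nat_lit 424824795251) (nat_lit 0) (nat_lit 137549189333) (nat_lit 10) (nat_lit 5) (nat_lit 12) (nat_lit 4) (nat_lit 10) (nat_lit 4) (nat_lit 428) (nat_lit 374) (nat_lit 218))) (XT.nd (nat_lit 78) (nat_lit 76) (nat_lit 0) (XT.lf (nat_lit 0) (nat_lit 477540820519) (nat_lit 152) (nat_lit 141966126815) (nat_lit 0) (nat_lit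 307417940013) (nat_lit 10) (nat_lit 5) (nat_lit 12) (nat_lit 4) (nat_lit 10) (nat_lit 4) (nat_lit 429) (nat_lit 374) (nat_lit 217)) (XT.nd (nat_lit 78) (nat_lit 0) (nat_lit 0) (XT.lf (nat_lit 0) (nat_lit 172131682929) (nat_lit 76) (nat_lit 493007104139) (nat_lit 76) (nat_lit 322884152363) (nat_lit 9) (nat_lit 4) (nat_lit 10) (nat_lit 5) (nat_lit 10) (nat_lit 4) (nat_lit 430) (nat_lit 374) (nat_lit 216)) (XT.lf (nat_lit 0) (nat_lit 519430787784) (nat_lit 76) (nat_lit 352195274005) (nat_lit 76) (nat_lit 182072256239) (nat_lit 9) (nat_lit 4) (nat_lit 10) (nat_lit 5) (nat_lit 10) (nat_lit 4) (nat_lit 431) (nat_lit 374) (nat_lit 215))))) (XT.nd (nat_lit 156) (nat_lit 0) (nat_lit 0) (XT.nd (nat_lit 78) (nat_lit 152) (nat_lit 0) (XT.lf (nat_lit 0) (nat_lit 894513571866) (nat_lit 76) (nat_lit 200118621950) (nat_lit 76) (nat_lit 29995543082) (nat_lit 9) (nat_lit 4) (nat_lit 10) (nat_lit 5) (nat_lit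 10) (nat_lit 4) (nat_lit 432) (nat_lit 374) (nat_lit 214)) (XT.lf (nat_lit 0) (nat_lit 100152621212) (nat_lit 76) (nat_lit 29787646410) (nat_lit 152) (nat_lit 1070840265228) (nat_lit 7) (nat_lit 5) (nat_lit 8) (nat_lit 5) (nat_lit 9) (nat_lit 4) (nat_lit 433) (nat_lit 374) (nat_lit 213))) (XT.nd (nat_lit 78) (nat_lit 0) (nat_lit 0) (XT.lf (nat_lit 0) (nat_lit 311213224917) (nat_lit 152) (nat_lit 817245218849) (nat_lit 0) (nat_lit 153691754706) (nat_lit 7) (nat_lit 5) (nat_lit 9) (nat_lit 4) (nat_lit 7) (nat_lit 4) (nat_lit 434) (nat_lit 374) (nat_lit 212)) (XT.nd (nat_lit 78) (nat_lit 0) (nat_lit 0) (XT.lf (nat_lit 0) (nat_lit 507761614629) (nat_lit 152) (nat_lit 511965835551) (nat_lit 0) (nat_lit 350240099506) (nat_lit 7) (nat_lit 5) (nat_lit 9) (nat_lit 4) (nat_lit 7) (nat_lit 4) (nat_lit 435) (nat_lit 374) (nat_lit 211)) (XT.lf (nat_lit 0) (nat_lit 720033774345) (nat_lit 152) (nat_lit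 182264305119) (nat_lit 0) (nat_lit 562512217637) (nat_lit 7) (nat_lit 5) (nat_lit 9) (nat_lit 4) (nat_lit 7) (nat_lit 4) (nat_lit 436) (nat_lit 374) (nat_lit 210))))))) (XT.nd (nat_lit 780) (nat_lit 76) (nat_lit 0) (XT.nd (nat_lit 390) (nat_lit 76) (nat_lit 0) (XT.nd (nat_lit 156) (nat_lit 76) (nat_lit 0) (XT.nd (nat_lit 78) (nat_lit 0) (nat_lit 0) (XT.lf (nat_lit 0) (nat_lit 182965852238) (nat_lit 76) (nat_lit 770722094066) (nat_lit 76) (nat_lit 613200498854) (nat_lit 6) (nat_lit 4) (nat_lit 7) (nat_lit 5) (nat_lit 7) (nat_lit 4) (nat_lit 437) (nat_lit 374) (nat_lit 209)) (XT.lf (nat_lit 0) (nat_lit 587779771033) (nat_lit 76) (nat_lit 623238018930) (nat_lit 76) (nat_lit 465716388066) (nat_lit 6) (nat_lit 4) (nat_lit 7) (nat_lit 5) (nat_lit 7) (nat_lit 4) (nat_lit 438) (nat_lit 374) (nat_lit 208))) (XT.nd (nat_lit 78) (nat_lit 76) (nat_lit 0) (XT.lf (nat_lit 0) (nat_lit 1024978633256)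 (nat_lit 76) (nat_lit 463955303455) (nat_lit 76) (nat_lit 306433639579) (nat_lit 6) (nat_lit 4) (nat_lit 7) (nat_lit 5) (nat_lit 7) (nat_lit 4) (nat_lit 439) (nat_lit 374) (nat_lit 207)) (XT.nd (nat_lit 78) (nat_lit 76) (nat_lit 0) (XT.lf (nat_lit 0) (nat_lit 1497153246978) (nat_lit 76) (nat_lit 291930050067) (nat_lit 76) (nat_lit 134408355625) (nat_lit 6) (nat_lit 4) (nat_lit 7) (nat_lit 5) (nat_lit 7) (nat_lit 4) (nat_lit 440) (nat_lit 374) (nat_lit 206)) (XT.lf (nat_lit 0) (nat_lit 48808693578) (nat_lit 152) (nat_lit 55999640100) (nat_lit 76) (nat_lit 1956958474226) (nat_lit 5) (nat_lit 5) (nat_lit 7) (nat_lit 5) (nat_lit 6) (nat_lit 4) (nat_lit 441) (nat_lit 374) (nat_lit 205))))) (XT.nd (nat_lit 156) (nat_lit 0) (nat_lit 0) (XT.nd (nat_lit 78) (nat_lit 0) (nat_lit 0) (XT.lf (nat_lit 0) (nat_lit 250695339442) (nat_lit 152) (nat_lit 1854385575833) (nat_lit 0) (nat_lit 104841868192)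 (nat_lit 4) (nat_lit 5) (nat_lit 6) (nat_lit 4) (nat_lit 4) (nat_lit 4) (nat_lit 442) (nat_lit 374) (nat_lit 204)) (XT.lf (nat_lit 0) (nat_lit 473026041804) (nat_lit 152) (nat_lit 1569389197203) (nat_lit 0) (nat_lit 327172548088) (nat_lit 4) (nat_lit 5) (nat_lit 6) (nat_lit 4) (nat_lit 4) (nat_lit 4) (nat_lit 443) (nat_lit 374) (nat_lit 203))) (XT.nd (nat_lit 78) (nat_lit 0) (nat_lit 0) (XT.lf (nat_lit 0) (nat_lit 713143136886) (nat_lit 152) (nat_lit 1261593236840) (nat_lit 0) (nat_lit 567289622367) (nat_lit 4) (nat_lit 5) (nat_lit 6) (nat_lit 4) (nat_lit 4) (nat_lit 4) (nat_lit 444) (nat_lit 374) (nat_lit 202)) (XT.nd (nat_lit 78) (nat_lit 0) (nat_lit 0) (XT.lf (nat_lit 0) (nat_lit 972469540807) (nat_lit 152) (nat_lit 929173718685) (nat_lit 0) (nat_lit 826616007025) (nat_lit 4) (nat_lit 5) (nat_lit 6) (nat_lit 4) (nat_lit 4) (nat_lit 4) (nat_lit 445) (nat_lit 374) (nat_lit 201)) (XT.lf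 (nat_lit 0) (nat_lit 1252542002626) (nat_lit 152) (nat_lit 570160749296) (nat_lit 0) (nat_lit 1106688451009) (nat_lit 4) (nat_lit 5) (nat_lit 6) (nat_lit 4) (nat_lit 4) (nat_lit 4) (nat_lit 446) (nat_lit 374) (nat_lit 200)))))) (XT.nd (nat_lit 390) (nat_lit 0) (nat_lit 0) (XT.nd (nat_lit 156) (nat_lit 0) (nat_lit 0) (XT.nd (nat_lit 78) (nat_lit 76) (nat_lit 0) (XT.lf (nat_lit 0) (nat_lit 1555020211007) (nat_lit 152) (nat_lit 182426844409) (nat_lit 0) (nat_lit 1409166642876) (nat_lit 4) (nat_lit 5) (nat_lit 6) (nat_lit 4) (nat_lit 4) (nat_lit 4) (nat_lit 447) (nat_lit 374) (nat_lit 199)) (XT.lf (nat_lit 0) (nat_lit 248770169791) (nat_lit 76) (nat_lit 1638909388181) (nat_lit 76) (nat_lit 1493055804760) (nat_lit 3) (nat_lit 4) (nat_lit 4) (nat_lit 5) (nat_lit 4) (nat_lit 4) (nat_lit 448) (nat_lit 374) (nat_lit 198))) (XT.nd (nat_lit 78) (nat_lit 0) (nat_lit 0) (XT.lf (nat_lit 0) (nat_lit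 724837629311) (nat_lit 76) (nat_lit 1527101851187) (nat_lit 76) (nat_lit 1381248253608) (nat_lit 3) (nat_lit 4) (nat_lit 4) (nat_lit 5) (nat_lit 4) (nat_lit 4) (nat_lit 449) (nat_lit 374) (nat_lit 197)) (XT.nd (nat_lit 78) (nat_lit 0) (nat_lit 0) (XT.lf (nat_lit 0) (nat_lit 1238990400313) (nat_lit 76) (nat_lit 1406349754465) (nat_lit 76) (nat_lit 1260496143777) (nat_lit 3) (nat_lit 4) (nat_lit 4) (nat_lit 5) (nat_lit 4) (nat_lit 4) (nat_lit 450) (nat_lit 374) (nat_lit 196)) (XT.lf (nat_lit 0) (nat_lit 1794275314033) (nat_lit 76) (nat_lit 1275937530036) (nat_lit 76) (nat_lit 1130083907209) (nat_lit 3) (nat_lit 4) (nat_lit 4) (nat_lit 5) (nat_lit 4) (nat_lit 4) (nat_lit 451) (nat_lit 374) (nat_lit 195))))) (XT.nd (nat_lit 234) (nat_lit 0) (nat_lit 0) (XT.nd (nat_lit 78) (nat_lit 0) (nat_lit 0) (XT.lf (nat_lit 0) (nat_lit 2393982947736) (nat_lit 76) (nat_lit 1135092364717) (nat_lit 76) (nat_lit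 989238730651) (nat_lit 3) (nat_lit 4) (nat_lit 4) (nat_lit 5) (nat_lit 4) (nat_lit 4) (nat_lit 452) (nat_lit 374) (nat_lit 194)) (XT.nd (nat_lit 78) (nat_lit 0) (nat_lit 0) (XT.lf (nat_lit 0) (nat_lit 3041667124437) (nat_lit 76) (nat_lit 982979620491) (nat_lit 76) (nat_lit 837125976019) (nat_lit 3) (nat_lit 4) (nat_lit 4) (nat_lit 5) (nat_lit 4) (nat_lit 4) (nat_lit 453) (nat_lit 374) (nat_lit 193)) (XT.lf (nat_lit 0) (nat_lit 3741165972592) (nat_lit 76) (nat_lit 818697888505) (nat_lit 76) (nat_lit 672844234397) (nat_lit 3) (nat_lit 4) (nat_lit 4) (nat_lit 5) (nat_lit 4) (nat_lit 4) (nat_lit 454) (nat_lit 374) (nat_lit 192)))) (XT.nd (nat_lit 78) (nat_lit 0) (nat_lit 0) (XT.lf (nat_lit 0) (nat_lit 4496624670559) (nat_lit 76) (nat_lit 641273647383) (nat_lit 76) (nat_lit 495419984353) (nat_lit 3) (nat_lit 4) (nat_lit 4) (nat_lit 5) (nat_lit 4) (nat_lit 4) (nat_lit 455) (nat_lit 374) (nat_lit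 191)) (XT.nd (nat_lit 78) (nat_lit 0) (nat_lit 0) (XT.lf (nat_lit 0) (nat_lit 5312520010622) (nat_lit 76) (nat_lit 449655494215) (nat_lit 76) (nat_lit 303801822924) (nat_lit 3) (nat_lit 4) (nat_lit 4) (nat_lit 5) (nat_lit 4) (nat_lit 4) (nat_lit 456) (nat_lit 374) (nat_lit 190)) (XT.lf (nat_lit 0) (nat_lit 6193686928131) (nat_lit 76) (nat_lit 242707914020) (nat_lit 76) (nat_lit 96854235080) (nat_lit 3) (nat_lit 4) (nat_lit 4) (nat_lit 5) (nat_lit 4) (nat_lit 4) (nat_lit 457) (nat_lit 374) (nat_lit 189))))))))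
noncomputable def xc183 : XT := (XT.nd (nat_lit 48126) (nat_lit 0) (nat_lit 1368) (XT.nd (nat_lit 47268) (nat_lit 0) (nat_lit 3040) (XT.nd (nat_lit 46878) (nat_lit 0) (nat_lit 4408) (XT.nd (nat_lit 46644) (nat_lit 0) (nat_lit 4788) (XT.nd (nat_lit 78) (nat_lit 0) (nat_lit 0) (XT.lf (nat_lit 0) (nat_lit 109896118679) (nat_lit 76) (nat_lit 13060518196) (nat_lit 152) (nat_lit 6914490818075) (nat_lit 1) (nat_lit 5) (nat_lit 2) (nat_lit 5) (nat_lit 3) (nat_lit 4) (nat_lit 458) (nat_lit 374) (nat_lit 188)) (XT.lf (nat_lit 0) (nat_lit 370295852360) (nat_lit 152) (nat_lit 6975024368515) (nat_lit 0) (nat_lit 235246137008) (nat_lit 1) (nat_lit 5) (nat_lit 3) (nat_lit 4) (nat_lit 1) (nat_lit 4) (nat_lit 459) (nat_lit 374) (nat_lit 187))) (XT.nd (nat_lit 78) (nat_lit 0) (nat_lit 0) (XT.lf (nat_lit 0) (nat_lit 26440256420) (nat_lit 532) (nat_lit 1815890672) (nat_lit 532) (nat_lit 1815890672) (nat_lit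 64) (nat_lit 3) (nat_lit 71) (nat_lit 3) (nat_lit 71) (nat_lit 5) (nat_lit 375) (nat_lit 375) (nat_lit 270)) (XT.nd (nat_lit 78) (nat_lit 0) (nat_lit 76) (XT.lf (nat_lit 76) (nat_lit 26948307953) (nat_lit 0) (nat_lit 28712464569) (nat_lit 532) (nat_lit 6835846880) (nat_lit 65) (nat_lit 5) (nat_lit 64) (nat_lit 3) (nat_lit 71) (nat_lit 5) (nat_lit 376) (nat_lit 375) (nat_lit 269)) (XT.lf (nat_lit 0) (nat_lit 58795170509) (nat_lit 456) (nat_lit 4883313915) (nat_lit 532) (nat_lit 1348346561) (nat_lit 65) (nat_lit 5) (nat_lit 71) (nat_lit 5) (nat_lit 72) (nat_lit 5) (nat_lit 377) (nat_lit 375) (nat_lit 268))))) (XT.nd (nat_lit 156) (nat_lit 456) (nat_lit 0) (XT.nd (nat_lit 78) (nat_lit 0) (nat_lit 0) (XT.lf (nat_lit 76) (nat_lit 28935540200) (nat_lit 0) (nat_lit 34684885682) (nat_lit 532) (nat_lit 4023826650) (nat_lit 66) (nat_lit 5) (nat_lit 65) (nat_lit 5) (nat_lit 72) (nat_lit 5) (nat_lit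 378) (nat_lit 375) (nat_lit 267)) (XT.lf (nat_lit 76) (nat_lit 65736609475) (nat_lit 0) (nat_lit 3227129682) (nat_lit 532) (nat_lit 1496767024) (nat_lit 66) (nat_lit 5) (nat_lit 65) (nat_lit 5) (nat_lit 72) (nat_lit 5) (nat_lit 379) (nat_lit 375) (nat_lit 266))) (XT.nd (nat_lit 78) (nat_lit 0) (nat_lit 0) (XT.lf (nat_lit 0) (nat_lit 2739493688) (nat_lit 532) (nat_lit 40564923919) (nat_lit 608) (nat_lit 30069777334) (nat_lit 59) (nat_lit 5) (nat_lit 66) (nat_lit 5) (nat_lit 67) (nat_lit 5) (nat_lit 380) (nat_lit 375) (nat_lit 265)) (XT.nd (nat_lit 78) (nat_lit 0) (nat_lit 76) (XT.lf (nat_lit 0) (nat_lit 7448807697) (nat_lit 532) (nat_lit 3024056911) (nat_lit 608) (nat_lit 66027803781) (nat_lit 59) (nat_lit 5) (nat_lit 66) (nat_lit 5) (nat_lit 67) (nat_lit 5) (nat_lit 381) (nat_lit 375) (nat_lit 264)) (XT.lf (nat_lit 0) (nat_lit 14109066061) (nat_lit 532) (nat_lit 40932195300) (nat_lit 76)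 (nat_lit 24710063424) (nat_lit 60) (nat_lit 5) (nat_lit 67) (nat_lit 5) (nat_lit 61) (nat_lit 5) (nat_lit 382) (nat_lit 375) (nat_lit 263)))))) (XT.nd (nat_lit 390) (nat_lit 608) (nat_lit 0) (XT.nd (nat_lit 156) (nat_lit 456) (nat_lit 0) (XT.nd (nat_lit 78) (nat_lit 0) (nat_lit 0) (XT.lf (nat_lit 0) (nat_lit 685355125) (nat_lit 380) (nat_lit 20988974764) (nat_lit 456) (nat_lit 61557929955) (nat_lit 55) (nat_lit 5) (nat_lit 60) (nat_lit 5) (nat_lit 61) (nat_lit 5) (nat_lit 383) (nat_lit 375) (nat_lit 262)) (XT.lf (nat_lit 0) (nat_lit 31371641457) (nat_lit 456) (nat_lit 39351888692) (nat_lit 76) (nat_lit 16145994292) (nat_lit 55) (nat_lit 5) (nat_lit 61) (nat_lit 5) (nat_lit 56) (nat_lit 5) (nat_lit 384) (nat_lit 375) (nat_lit 261))) (XT.nd (nat_lit 78) (nat_lit 228) (nat_lit 0) (XT.lf (nat_lit 0) (nat_lit 7108067352) (nat_lit 228) (nat_lit 35451777954) (nat_lit 304) (nat_lit 48180717115)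 (nat_lit 52) (nat_lit 5) (nat_lit 55) (nat_lit 5) (nat_lit 56) (nat_lit 5) (nat_lit 385) (nat_lit 375) (nat_lit 260)) (XT.nd (nat_lit 78) (nat_lit 228) (nat_lit 0) (XT.lf (nat_lit 0) (nat_lit 55809573751) (nat_lit 304) (nat_lit 35405006822) (nat_lit 76) (nat_lit 3613386144) (nat_lit 52) (nat_lit 5) (nat_lit 56) (nat_lit 5) (nat_lit 53) (nat_lit 5) (nat_lit 386) (nat_lit 375) (nat_lit 259)) (XT.lf (nat_lit 0) (nat_lit 16588653362) (nat_lit 228) (nat_lit 54849519149) (nat_lit 304) (nat_lit 27698680170) (nat_lit 49) (nat_lit 5) (nat_lit 52) (nat_lit 5) (nat_lit 53) (nat_lit 5) (nat_lit 387) (nat_lit 375) (nat_lit 258))))) (XT.nd (nat_lit 234) (nat_lit 380) (nat_lit 0) (XT.nd (nat_lit 78) (nat_lit 228) (nat_lit 0) (XT.lf (nat_lit 0) (nat_lit 74754313284) (nat_lit 228) (nat_lit 14529932410) (nat_lit 304) (nat_lit 14428829543) (nat_lit 49) (nat_lit 5) (nat_lit 52) (nat_lit 5) (nat_lit 53) (nat_lit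 5) (nat_lit 388) (nat_lit 375) (nat_lit 257)) (XT.nd (nat_lit 78) (nat_lit 0) (nat_lit 0) (XT.lf (nat_lit 0) (nat_lit 1355573684) (nat_lit 228) (nat_lit 78871815168) (nat_lit 76) (nat_lit 28312347257) (nat_lit 46) (nat_lit 5) (nat_lit 49) (nat_lit 5) (nat_lit 47) (nat_lit 5) (nat_lit 389) (nat_lit 375) (nat_lit 256)) (XT.lf (nat_lit 0) (nat_lit 18812173515) (nat_lit 228) (nat_lit 19831288384) (nat_lit 76) (nat_lit 74983968402) (nat_lit 46) (nat_lit 5) (nat_lit 49) (nat_lit 5) (nat_lit 47) (nat_lit 5) (nat_lit 390) (nat_lit 375) (nat_lit 255)))) (XT.nd (nat_lit 78) (nat_lit 152) (nat_lit 0) (XT.lf (nat_lit 0) (nat_lit 38956383826) (nat_lit 304) (nat_lit 72967927331) (nat_lit 76) (nat_lit 7094542739) (nat_lit 43) (nat_lit 5) (nat_lit 47) (nat_lit 5) (nat_lit 44) (nat_lit 5) (nat_lit 391) (nat_lit 375) (nat_lit 254)) (XT.nd (nat_lit 78) (nat_lit 152) (nat_lit 0) (XT.lf (nat_lit 0) (nat_lit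 62271472120) (nat_lit 304) (nat_lit 7485442170) (nat_lit 76) (nat_lit 54959930228) (nat_lit 43) (nat_lit 5) (nat_lit 47) (nat_lit 5) (nat_lit 44) (nat_lit 5) (nat_lit 392) (nat_lit 375) (nat_lit 253)) (XT.lf (nat_lit 0) (nat_lit 66564582681) (nat_lit 152) (nat_lit 22487424430) (nat_lit 228) (nat_lit 41690648510) (nat_lit 41) (nat_lit 5) (nat_lit 43) (nat_lit 5) (nat_lit 44) (nat_lit 5) (nat_lit 393) (nat_lit 375) (nat_lit 252))))))) (XT.nd (nat_lit 780) (nat_lit 760) (nat_lit 0) (XT.nd (nat_lit 390) (nat_lit 380) (nat_lit 0) (XT.nd (nat_lit 156) (nat_lit 304) (nat_lit 0) (XT.nd (nat_lit 78) (nat_lit 76) (nat_lit 0) (XT.lf (nat_lit 0) (nat_lit 9512844003) (nat_lit 152) (nat_lit 109587242432) (nat_lit 228) (nat_lit 18060437426) (nat_lit 39) (nat_lit 5) (nat_lit 41) (nat_lit 5) (nat_lit 42) (nat_lit 5) (nat_lit 394) (nat_lit 375) (nat_lit 251)) (XT.lf (nat_lit 0) (nat_lit 9470799612) (nat_lit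 228) (nat_lit 52012547881) (nat_lit 76) (nat_lit 82403417124) (nat_lit 38) (nat_lit 5) (nat_lit 41) (nat_lit 5) (nat_lit 39) (nat_lit 5) (nat_lit 395) (nat_lit 375) (nat_lit 250))) (XT.nd (nat_lit 78) (nat_lit 152) (nat_lit 0) (XT.lf (nat_lit 0) (nat_lit 30741242495) (nat_lit 152) (nat_lit 8226322368) (nat_lit 228) (nat_lit 112086910924) (nat_lit 36) (nat_lit 5) (nat_lit 38) (nat_lit 5) (nat_lit 39) (nat_lit 5) (nat_lit 396) (nat_lit 375) (nat_lit 249)) (XT.nd (nat_lit 78) (nat_lit 152) (nat_lit 0) (XT.lf (nat_lit 0) (nat_lit 73468030144) (nat_lit 228) (nat_lit 36831759685) (nat_lit 76) (nat_lit 48284297590) (nat_lit 36) (nat_lit 5) (nat_lit 39) (nat_lit 5) (nat_lit 37) (nat_lit 5) (nat_lit 397) (nat_lit 375) (nat_lit 248)) (XT.lf (nat_lit 0) (nat_lit 55910635024) (nat_lit 152) (nat_lit 56375710650) (nat_lit 228) (nat_lit 54305097521) (nat_lit 34) (nat_lit 5) (nat_lit 36) (nat_lit 5) (nat_lit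 37) (nat_lit 5) (nat_lit 398) (nat_lit 375) (nat_lit 247))))) (XT.nd (nat_lit 156) (nat_lit 228) (nat_lit 0) (XT.nd (nat_lit 78) (nat_lit 152) (nat_lit 0) (XT.lf (nat_lit 0) (nat_lit 155287619436) (nat_lit 228) (nat_lit 17063507588) (nat_lit 76) (nat_lit 2802061201) (nat_lit 34) (nat_lit 5) (nat_lit 37) (nat_lit 5) (nat_lit 35) (nat_lit 4) (nat_lit 399) (nat_lit 375) (nat_lit 246)) (XT.lf (nat_lit 0) (nat_lit 20109000448) (nat_lit 152) (nat_lit 97698071480) (nat_lit 76) (nat_lit 66267719779) (nat_lit 32) (nat_lit 5) (nat_lit 34) (nat_lit 5) (nat_lit 33) (nat_lit 5) (nat_lit 400) (nat_lit 375) (nat_lit 245))) (XT.nd (nat_lit 78) (nat_lit 76) (nat_lit 0) (XT.lf (nat_lit 0) (nat_lit 5116884275) (nat_lit 152) (nat_lit 57692663816) (nat_lit 228) (nat_lit 130811194893) (nat_lit 30) (nat_lit 5) (nat_lit 32) (nat_lit 5) (nat_lit 33) (nat_lit 5) (nat_lit 401) (nat_lit 375) (nat_lit 244)) (XT.nd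 (nat_lit 78) (nat_lit 76) (nat_lit 0) (XT.lf (nat_lit 0) (nat_lit 111840216549) (nat_lit 228) (nat_lit 82247513349) (nat_lit 76) (nat_lit 9609514476) (nat_lit 30) (nat_lit 5) (nat_lit 33) (nat_lit 5) (nat_lit 31) (nat_lit 4) (nat_lit 402) (nat_lit 375) (nat_lit 243)) (XT.lf (nat_lit 0) (nat_lit 32643055256) (nat_lit 76) (nat_lit 134433445917) (nat_lit 152) (nat_lit 47320711849) (nat_lit 29) (nat_lit 5) (nat_lit 30) (nat_lit 5) (nat_lit 31) (nat_lit 4) (nat_lit 403) (nat_lit 375) (nat_lit 242)))))) (XT.nd (nat_lit 390) (nat_lit 456) (nat_lit 0) (XT.nd (nat_lit 156) (nat_lit 76) (nat_lit 0) (XT.nd (nat_lit 78) (nat_lit 152) (nat_lit 0) (XT.lf (nat_lit 0) (nat_lit 3046357337) (nat_lit 152) (nat_lit 64448766021) (nat_lit 76) (nat_lit 158272014714) (nat_lit 28) (nat_lit 5) (nat_lit 30) (nat_lit 5) (nat_lit 29) (nat_lit 5) (nat_lit 404) (nat_lit 375) (nat_lit 241)) (XT.lf (nat_lit 0) (nat_lit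 56617889338) (nat_lit 228) (nat_lit 173788195924) (nat_lit 76) (nat_lit 7403711654) (nat_lit 26) (nat_lit 5) (nat_lit 29) (nat_lit 5) (nat_lit 27) (nat_lit 4) (nat_lit 405) (nat_lit 375) (nat_lit 240))) (XT.nd (nat_lit 78) (nat_lit 76) (nat_lit 0) (XT.lf (nat_lit 0) (nat_lit 118035802983) (nat_lit 228) (nat_lit 46039599576) (nat_lit 76) (nat_lit 86455613298) (nat_lit 26) (nat_lit 5) (nat_lit 29) (nat_lit 5) (nat_lit 27) (nat_lit 4) (nat_lit 406) (nat_lit 375) (nat_lit 239)) (XT.nd (nat_lit 78) (nat_lit 0) (nat_lit 0) (XT.lf (nat_lit 0) (nat_lit 96769045208) (nat_lit 76) (nat_lit 89925055675) (nat_lit 152) (nat_lit 77389675446) (nat_lit 25) (nat_lit 5) (nat_lit 26) (nat_lit 5) (nat_lit 27) (nat_lit 4) (nat_lit 407) (nat_lit 375) (nat_lit 238)) (XT.lf (nat_lit 0) (nat_lit 253620091234) (nat_lit 76) (nat_lit 8483440095) (nat_lit 152) (nat_lit 16516548912) (nat_lit 25) (nat_lit 5) (nat_lit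 26) (nat_lit 5) (nat_lit 27) (nat_lit 4) (nat_lit 408) (nat_lit 375) (nat_lit 237))))) (XT.nd (nat_lit 234) (nat_lit 228) (nat_lit 0) (XT.nd (nat_lit 78) (nat_lit 76) (nat_lit 0) (XT.lf (nat_lit 0) (nat_lit 52017777604) (nat_lit 152) (nat_lit 161762079122) (nat_lit 76) (nat_lit 80024411673) (nat_lit 23) (nat_lit 5) (nat_lit 25) (nat_lit 5) (nat_lit 24) (nat_lit 4) (nat_lit 409) (nat_lit 375) (nat_lit 236)) (XT.nd (nat_lit 78) (nat_lit 76) (nat_lit 0) (XT.lf (nat_lit 0) (nat_lit 126063860323) (nat_lit 152) (nat_lit 7746678997) (nat_lit 76) (nat_lit 176284625650) (nat_lit 23) (nat_lit 5) (nat_lit 25) (nat_lit 5) (nat_lit 24) (nat_lit 4) (nat_lit 410) (nat_lit 375) (nat_lit 235)) (XT.lf (nat_lit 0) (nat_lit 166940454188) (nat_lit 76) (nat_lit 43107805962) (nat_lit 152) (nat_lit 117319902752) (nat_lit 22) (nat_lit 5) (nat_lit 23) (nat_lit 5) (nat_lit 24) (nat_lit 4) (nat_lit 411) (nat_lit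 375) (nat_lit 234)))) (XT.nd (nat_lit 78) (nat_lit 152) (nat_lit 0) (XT.lf (nat_lit 0) (nat_lit 9170600300) (nat_lit 76) (nat_lit 293337557418) (nat_lit 76) (nat_lit 43374303359) (nat_lit 21) (nat_lit 4) (nat_lit 22) (nat_lit 5) (nat_lit 22) (nat_lit 4) (nat_lit 412) (nat_lit 375) (nat_lit 233)) (XT.nd (nat_lit 78) (nat_lit 76) (nat_lit 0) (XT.lf (nat_lit 0) (nat_lit 40281425449) (nat_lit 152) (nat_lit 166178221307) (nat_lit 76) (nat_lit 158898478963) (nat_lit 20) (nat_lit 5) (nat_lit 22) (nat_lit 5) (nat_lit 21) (nat_lit 4) (nat_lit 413) (nat_lit 375) (nat_lit 232)) (XT.lf (nat_lit 0) (nat_lit 17759399877) (nat_lit 76) (nat_lit 110953722091) (nat_lit 152) (nat_lit 257554445324) (nat_lit 19) (nat_lit 5) (nat_lit 20) (nat_lit 5) (nat_lit 21) (nat_lit 4) (nat_lit 414) (nat_lit 375) (nat_lit 231))))))))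
noncomputable def xc184 : XT := (XT.nd (nat_lit 1560) (nat_lit 304) (nat_lit 0) (XT.nd (nat_lit 780) (nat_lit 456) (nat_lit 0) (XT.nd (nat_lit 390) (nat_lit 228) (nat_lit 0) (XT.nd (nat_lit 156) (nat_lit 152) (nat_lit 0) (XT.nd (nat_lit 78) (nat_lit 76) (nat_lit 0) (XT.lf (nat_lit 0) (nat_lit 225862244871) (nat_lit 76) (nat_lit 2900458725) (nat_lit 152) (nat_lit 179723592694) (nat_lit 19) (nat_lit 5) (nat_lit 20) (nat_lit 5) (nat_lit 21) (nat_lit 4) (nat_lit 415) (nat_lit 375) (nat_lit 230)) (XT.lf (nat_lit 0) (nat_lit 16204100019) (nat_lit 76) (nat_lit 323738439168) (nat_lit 76) (nat_lit 92289881475) (nat_lit 18) (nat_lit 4) (nat_lit 19) (nat_lit 5) (nat_lit 19) (nat_lit 4) (nat_lit 416) (nat_lit 375) (nat_lit 229))) (XT.nd (nat_lit 78) (nat_lit 76) (nat_lit 0) (XT.lf (nat_lit 0) (nat_lit 7229603075) (nat_lit 152) (nat_lit 216411209373) (nat_lit 76) (nat_lit 233817463708) (nat_lit 17)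 (nat_lit 5) (nat_lit 19) (nat_lit 5) (nat_lit 18) (nat_lit 4) (nat_lit 417) (nat_lit 375) (nat_lit 228)) (XT.nd (nat_lit 78) (nat_lit 76) (nat_lit 0) (XT.lf (nat_lit 0) (nat_lit 109724370839) (nat_lit 152) (nat_lit 3222301755) (nat_lit 76) (nat_lit 371563774336) (nat_lit 17) (nat_lit 5) (nat_lit 19) (nat_lit 5) (nat_lit 18) (nat_lit 4) (nat_lit 418) (nat_lit 375) (nat_lit 227)) (XT.lf (nat_lit 0) (nat_lit 226473967111) (nat_lit 152) (nat_lit 274599240123) (nat_lit 0) (nat_lit 12169164400) (nat_lit 16) (nat_lit 5) (nat_lit 18) (nat_lit 4) (nat_lit 16) (nat_lit 4) (nat_lit 419) (nat_lit 375) (nat_lit 226))))) (XT.nd (nat_lit 156) (nat_lit 152) (nat_lit 0) (XT.nd (nat_lit 78) (nat_lit 76) (nat_lit 0) (XT.lf (nat_lit 0) (nat_lit 355587396068) (nat_lit 152) (nat_lit 47161117894) (nat_lit 0) (nat_lit 141282427183) (nat_lit 16) (nat_lit 5) (nat_lit 18) (nat_lit 4) (nat_lit 16) (nat_lit 4) (nat_lit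 420) (nat_lit 375) (nat_lit 225)) (XT.lf (nat_lit 0) (nat_lit 208922848699) (nat_lit 76) (nat_lit 291131458823) (nat_lit 76) (nat_lit 76826336073) (nat_lit 15) (nat_lit 4) (nat_lit 16) (nat_lit 5) (nat_lit 16) (nat_lit 4) (nat_lit 421) (nat_lit 375) (nat_lit 224))) (XT.nd (nat_lit 78) (nat_lit 76) (nat_lit 0) (XT.lf (nat_lit 0) (nat_lit 42855956159) (nat_lit 152) (nat_lit 125164876405) (nat_lit 76) (nat_lit 444147550218) (nat_lit 14) (nat_lit 5) (nat_lit 16) (nat_lit 5) (nat_lit 15) (nat_lit 4) (nat_lit 422) (nat_lit 375) (nat_lit 223)) (XT.nd (nat_lit 78) (nat_lit 0) (nat_lit 0) (XT.lf (nat_lit 0) (nat_lit 142167431571) (nat_lit 76) (nat_lit 29213736074) (nat_lit 152) (nat_lit 478464818062) (nat_lit 13) (nat_lit 5) (nat_lit 14) (nat_lit 5) (nat_lit 15) (nat_lit 4) (nat_lit 423) (nat_lit 375) (nat_lit 222)) (XT.lf (nat_lit 0) (nat_lit 316602127117) (nat_lit 152) (nat_lit 255251480534)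 (nat_lit 0) (nat_lit 118171090751) (nat_lit 13) (nat_lit 5) (nat_lit 15) (nat_lit 4) (nat_lit 13) (nat_lit 4) (nat_lit 424) (nat_lit 375) (nat_lit 221)))))) (XT.nd (nat_lit 390) (nat_lit 228) (nat_lit 0) (XT.nd (nat_lit 156) (nat_lit 152) (nat_lit 0) (XT.nd (nat_lit 78) (nat_lit 0) (nat_lit 0) (XT.lf (nat_lit 0) (nat_lit 17485326645) (nat_lit 76) (nat_lit 457134594955) (nat_lit 76) (nat_lit 258703453872) (nat_lit 12) (nat_lit 4) (nat_lit 13) (nat_lit 5) (nat_lit 13) (nat_lit 4) (nat_lit 425) (nat_lit 375) (nat_lit 220)) (XT.lf (nat_lit 0) (nat_lit 326557143568) (nat_lit 76) (nat_lit 325700865812) (nat_lit 76) (nat_lit 127269627768) (nat_lit 12) (nat_lit 4) (nat_lit 13) (nat_lit 5) (nat_lit 13) (nat_lit 4) (nat_lit 426) (nat_lit 375) (nat_lit 219))) (XT.nd (nat_lit 78) (nat_lit 76) (nat_lit 0) (XT.lf (nat_lit 0) (nat_lit 13944455980) (nat_lit 152) (nat_lit 169426859383) (nat_lit 76) (nat_lit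 646028694187) (nat_lit 11) (nat_lit 5) (nat_lit 13) (nat_lit 5) (nat_lit 12) (nat_lit 4) (nat_lit 427) (nat_lit 375) (nat_lit 218)) (XT.nd (nat_lit 78) (nat_lit 0) (nat_lit 0) (XT.lf (nat_lit 0) (nat_lit 140523858006) (nat_lit 76) (nat_lit 22435405915) (nat_lit 152) (nat_lit 719768094419) (nat_lit 10) (nat_lit 5) (nat_lit 11) (nat_lit 5) (nat_lit 12) (nat_lit 4) (nat_lit 428) (nat_lit 375) (nat_lit 217)) (XT.lf (nat_lit 0) (nat_lit 332288452969) (nat_lit 152) (nat_lit 458805392579) (nat_lit 0) (nat_lit 148555593782) (nat_lit 10) (nat_lit 5) (nat_lit 12) (nat_lit 4) (nat_lit 10) (nat_lit 4) (nat_lit 429) (nat_lit 375) (nat_lit 216))))) (XT.nd (nat_lit 156) (nat_lit 152) (nat_lit 0) (XT.nd (nat_lit 78) (nat_lit 76) (nat_lit 0) (XT.lf (nat_lit 0) (nat_lit 515746586782) (nat_lit 152) (nat_lit 153318429652) (nat_lit 0) (nat_lit 332013661605) (nat_lit 10) (nat_lit 5) (nat_lit 12) (nat_lit 4)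 (nat_lit 10) (nat_lit 4) (nat_lit 430) (nat_lit 375) (nat_lit 215)) (XT.lf (nat_lit 0) (nat_lit 185907078611) (nat_lit 76) (nat_lit 532445243722) (nat_lit 76) (nat_lit 348712257443) (nat_lit 9) (nat_lit 4) (nat_lit 10) (nat_lit 5) (nat_lit 10) (nat_lit 4) (nat_lit 431) (nat_lit 375) (nat_lit 214))) (XT.nd (nat_lit 78) (nat_lit 152) (nat_lit 0) (XT.lf (nat_lit 0) (nat_lit 560989751776) (nat_lit 76) (nat_lit 380368647084) (nat_lit 76) (nat_lit 196635604230) (nat_lit 9) (nat_lit 4) (nat_lit 10) (nat_lit 5) (nat_lit 10) (nat_lit 4) (nat_lit 432) (nat_lit 375) (nat_lit 213)) (XT.nd (nat_lit 78) (nat_lit 152) (nat_lit 0) (XT.lf (nat_lit 0) (nat_lit 966078825180) (nat_lit 76) (nat_lit 216126029445) (nat_lit 76) (nat_lit 32392934206) (nat_lit 9) (nat_lit 4) (nat_lit 10) (nat_lit 5) (nat_lit 10) (nat_lit 4) (nat_lit 433) (nat_lit 375) (nat_lit 212)) (XT.lf (nat_lit 0) (nat_lit 108169002958) (nat_lit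 76) (nat_lit 32168567571) (nat_lit 152) (nat_lit 1156505238262) (nat_lit 7) (nat_lit 5) (nat_lit 8) (nat_lit 5) (nat_lit 9) (nat_lit 4) (nat_lit 434) (nat_lit 375) (nat_lit 211))))))) (XT.nd (nat_lit 780) (nat_lit 76) (nat_lit 0) (XT.nd (nat_lit 390) (nat_lit 152) (nat_lit 0) (XT.nd (nat_lit 156) (nat_lit 76) (nat_lit 0) (XT.nd (nat_lit 78) (nat_lit 0) (nat_lit 0) (XT.lf (nat_lit 0) (nat_lit 336112256777) (nat_lit 152) (nat_lit 882620865562) (nat_lit 0) (nat_lit 165988933947) (nat_lit 7) (nat_lit 5) (nat_lit 9) (nat_lit 4) (nat_lit 7) (nat_lit 4) (nat_lit 435) (nat_lit 375) (nat_lit 210)) (XT.lf (nat_lit 0) (nat_lit 548384371454) (nat_lit 152) (nat_lit 552919425733) (nat_lit 0) (nat_lit 378261010120) (nat_lit 7) (nat_lit 5) (nat_lit 9) (nat_lit 4) (nat_lit 7) (nat_lit 4) (nat_lit 436) (nat_lit 375) (nat_lit 209))) (XT.nd (nat_lit 78) (nat_lit 76) (nat_lit 0) (XT.lf (nat_lit 0) (nat_lit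 777638168564) (nat_lit 152) (nat_lit 196842045212) (nat_lit 0) (nat_lit 607514771578) (nat_lit 7) (nat_lit 5) (nat_lit 9) (nat_lit 4) (nat_lit 7) (nat_lit 4) (nat_lit 437) (nat_lit 375) (nat_lit 208)) (XT.nd (nat_lit 78) (nat_lit 0) (nat_lit 0) (XT.lf (nat_lit 0) (nat_lit 197606438548) (nat_lit 76) (nat_lit 832378190180) (nat_lit 76) (nat_lit 662254760182) (nat_lit 6) (nat_lit 4) (nat_lit 7) (nat_lit 5) (nat_lit 7) (nat_lit 4) (nat_lit 438) (nat_lit 375) (nat_lit 207)) (XT.lf (nat_lit 0) (nat_lit 634805225060) (nat_lit 76) (nat_lit 673095512841) (nat_lit 76) (nat_lit 502972052278) (nat_lit 6) (nat_lit 4) (nat_lit 7) (nat_lit 5) (nat_lit 7) (nat_lit 4) (nat_lit 439) (nat_lit 375) (nat_lit 206))))) (XT.nd (nat_lit 156) (nat_lit 152) (nat_lit 0) (XT.nd (nat_lit 78) (nat_lit 0) (nat_lit 0) (XT.lf (nat_lit 0) (nat_lit 1106979768679) (nat_lit 76) (nat_lit 501070294766) (nat_lit 76) (nat_lit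 330946805900) (nat_lit 6) (nat_lit 4) (nat_lit 7) (nat_lit 5) (nat_lit 7) (nat_lit 4) (nat_lit 440) (nat_lit 375) (nat_lit 205)) (XT.lf (nat_lit 0) (nat_lit 1616928140776) (nat_lit 76) (nat_lit 315283127252) (nat_lit 76) (nat_lit 145159612181) (nat_lit 6) (nat_lit 4) (nat_lit 7) (nat_lit 5) (nat_lit 7) (nat_lit 4) (nat_lit 441) (nat_lit 375) (nat_lit 204))) (XT.nd (nat_lit 78) (nat_lit 76) (nat_lit 0) (XT.lf (nat_lit 0) (nat_lit 52714630977) (nat_lit 152) (nat_lit 60477106902) (nat_lit 76) (nat_lit 2113516315221) (nat_lit 5) (nat_lit 5) (nat_lit 7) (nat_lit 5) (nat_lit 6) (nat_lit 4) (nat_lit 442) (nat_lit 375) (nat_lit 203)) (XT.nd (nat_lit 78) (nat_lit 0) (nat_lit 0) (XT.lf (nat_lit 0) (nat_lit 270752204862) (nat_lit 152) (nat_lit 2002733913768) (nat_lit 0) (nat_lit 113230388378) (nat_lit 4) (nat_lit 5) (nat_lit 6) (nat_lit 4) (nat_lit 4) (nat_lit 4) (nat_lit 443) (nat_lit 375) (nat_lit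 202)) (XT.lf (nat_lit 0) (nat_lit 510869271689) (nat_lit 152) (nat_lit 1694938010635) (nat_lit 0) (nat_lit 353347435944) (nat_lit 4) (nat_lit 5) (nat_lit 6) (nat_lit 4) (nat_lit 4) (nat_lit 4) (nat_lit 444) (nat_lit 375) (nat_lit 201)))))) (XT.nd (nat_lit 390) (nat_lit 0) (nat_lit 0) (XT.nd (nat_lit 156) (nat_lit 76) (nat_lit 0) (XT.nd (nat_lit 78) (nat_lit 0) (nat_lit 0) (XT.lf (nat_lit 0) (nat_lit 770195649449) (nat_lit 152) (nat_lit 1362518545469) (nat_lit 0) (nat_lit 612673795868) (nat_lit 4) (nat_lit 5) (nat_lit 6) (nat_lit 4) (nat_lit 4) (nat_lit 4) (nat_lit 445) (nat_lit 375) (nat_lit 200)) (XT.lf (nat_lit 0) (nat_lit 1050268087045) (nat_lit 152) (nat_lit 1003505625144) (nat_lit 0) (nat_lit 892746216950) (nat_lit 4) (nat_lit 5) (nat_lit 6) (nat_lit 4) (nat_lit 4) (nat_lit 4) (nat_lit 446) (nat_lit 375) (nat_lit 199))) (XT.nd (nat_lit 78) (nat_lit 76) (nat_lit 0) (XT.lf (nat_lit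 0) (nat_lit 1352746272997) (nat_lit 152) (nat_lit 615771765688) (nat_lit 0) (nat_lit 1195224387611) (nat_lit 4) (nat_lit 5) (nat_lit 6) (nat_lit 4) (nat_lit 4) (nat_lit 4) (nat_lit 447) (nat_lit 375) (nat_lit 198)) (XT.nd (nat_lit 78) (nat_lit 76) (nat_lit 0) (XT.lf (nat_lit 0) (nat_lit 1679422670629) (nat_lit 152) (nat_lit 197019284970) (nat_lit 0) (nat_lit 1521900771085) (nat_lit 4) (nat_lit 5) (nat_lit 6) (nat_lit 4) (nat_lit 4) (nat_lit 4) (nat_lit 448) (nat_lit 375) (nat_lit 197)) (XT.lf (nat_lit 0) (nat_lit 268673447151) (nat_lit 76) (nat_lit 1770021295788) (nat_lit 76) (nat_lit 1612499383136) (nat_lit 3) (nat_lit 4) (nat_lit 4) (nat_lit 5) (nat_lit 4) (nat_lit 4) (nat_lit 449) (nat_lit 375) (nat_lit 196))))) (XT.nd (nat_lit 234) (nat_lit 0) (nat_lit 0) (XT.nd (nat_lit 78) (nat_lit 0) (nat_lit 0) (XT.lf (nat_lit 0) (nat_lit 782826180190) (nat_lit 76) (nat_lit 1649269218312) (nat_lit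 76) (nat_lit 1491747293521) (nat_lit 3) (nat_lit 4) (nat_lit 4) (nat_lit 5) (nat_lit 4) (nat_lit 4) (nat_lit 450) (nat_lit 375) (nat_lit 195)) (XT.nd (nat_lit 78) (nat_lit 0) (nat_lit 0) (XT.lf (nat_lit 0) (nat_lit 1338111058759) (nat_lit 76) (nat_lit 1518857011702) (nat_lit 76) (nat_lit 1361335075672) (nat_lit 3) (nat_lit 4) (nat_lit 4) (nat_lit 5) (nat_lit 4) (nat_lit 4) (nat_lit 451) (nat_lit 375) (nat_lit 194)) (XT.lf (nat_lit 0) (nat_lit 1937818659915) (nat_lit 76) (nat_lit 1378011862883) (nat_lit 76) (nat_lit 1220489916446) (nat_lit 3) (nat_lit 4) (nat_lit 4) (nat_lit 5) (nat_lit 4) (nat_lit 4) (nat_lit 452) (nat_lit 375) (nat_lit 193)))) (XT.nd (nat_lit 78) (nat_lit 0) (nat_lit 0) (XT.lf (nat_lit 0) (nat_lit 2585502806481) (nat_lit 76) (nat_lit 1225899133935) (nat_lit 76) (nat_lit 1068377177863) (nat_lit 3) (nat_lit 4) (nat_lit 4) (nat_lit 5) (nat_lit 4) (nat_lit 4) (nat_lit 453)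 (nat_lit 375) (nat_lit 192)) (XT.nd (nat_lit 78) (nat_lit 0) (nat_lit 0) (XT.lf (nat_lit 0) (nat_lit 3285001626731) (nat_lit 76) (nat_lit 1061617416095) (nat_lit 76) (nat_lit 904095451100) (nat_lit 3) (nat_lit 4) (nat_lit 4) (nat_lit 5) (nat_lit 4) (nat_lit 4) (nat_lit 454) (nat_lit 375) (nat_lit 191)) (XT.lf (nat_lit 0) (nat_lit 4040460298861) (nat_lit 76) (nat_lit 884193188071) (nat_lit 76) (nat_lit 726671214815) (nat_lit 3) (nat_lit 4) (nat_lit 4) (nat_lit 5) (nat_lit 4) (nat_lit 4) (nat_lit 455) (nat_lit 375) (nat_lit 190))))))))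
noncomputable def xc185 : XT := (XT.nd (nat_lit 48126) (nat_lit 0) (nat_lit 1596) (XT.nd (nat_lit 47346) (nat_lit 0) (nat_lit 3420) (XT.nd (nat_lit 46956) (nat_lit 0) (nat_lit 4408) (XT.nd (nat_lit 156) (nat_lit 152) (nat_lit 0) (XT.nd (nat_lit 78) (nat_lit 0) (nat_lit 0) (XT.lf (nat_lit 0) (nat_lit 4856355615002) (nat_lit 76) (nat_lit 692575047031) (nat_lit 76) (nat_lit 535053066126) (nat_lit 3) (nat_lit 4) (nat_lit 4) (nat_lit 5) (nat_lit 4) (nat_lit 4) (nat_lit 456) (nat_lit 375) (nat_lit 189)) (XT.lf (nat_lit 0) (nat_lit 5737522510359) (nat_lit 76) (nat_lit 485627478064) (nat_lit 76) (nat_lit 328105490077) (nat_lit 3) (nat_lit 4) (nat_lit 4) (nat_lit 5) (nat_lit 4) (nat_lit 4) (nat_lit 457) (nat_lit 375) (nat_lit 188))) (XT.nd (nat_lit 78) (nat_lit 152) (nat_lit 0) (XT.lf (nat_lit 0) (nat_lit 6689182714684) (nat_lit 76) (nat_lit 262124125208) (nat_lit 76) (nat_lit 104602130663) (nat_lit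 3) (nat_lit 4) (nat_lit 4) (nat_lit 5) (nat_lit 4) (nat_lit 4) (nat_lit 458) (nat_lit 375) (nat_lit 187)) (XT.nd (nat_lit 46644) (nat_lit 0) (nat_lit 4788) (XT.lf (nat_lit 0) (nat_lit 118688641038) (nat_lit 76) (nat_lit 14104936680) (nat_lit 152) (nat_lit 7467649640816) (nat_lit 1) (nat_lit 5) (nat_lit 2) (nat_lit 5) (nat_lit 3) (nat_lit 4) (nat_lit 459) (nat_lit 375) (nat_lit 186)) (XT.lf (nat_lit 0) (nat_lit 28572001440) (nat_lit 532) (nat_lit 1952230878) (nat_lit 532) (nat_lit 1952230878) (nat_lit 64) (nat_lit 3) (nat_lit 71) (nat_lit 3) (nat_lit 71) (nat_lit 5) (nat_lit 376) (nat_lit 376) (nat_lit 268))))) (XT.nd (nat_lit 156) (nat_lit 380) (nat_lit 0) (XT.nd (nat_lit 78) (nat_lit 0) (nat_lit 76) (XT.lf (nat_lit 76) (nat_lit 29121582482) (nat_lit 0) (nat_lit 31023071488) (nat_lit 532) (nat_lit 7349184469) (nat_lit 65) (nat_lit 5) (nat_lit 64) (nat_lit 3) (nat_lit 71) (nat_lit 5) (nat_lit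 377) (nat_lit 376) (nat_lit 267)) (XT.lf (nat_lit 0) (nat_lit 63527202974) (nat_lit 456) (nat_lit 5255231135) (nat_lit 532) (nat_lit 1444243047) (nat_lit 65) (nat_lit 5) (nat_lit 71) (nat_lit 5) (nat_lit 72) (nat_lit 5) (nat_lit 378) (nat_lit 376) (nat_lit 266))) (XT.nd (nat_lit 78) (nat_lit 456) (nat_lit 0) (XT.lf (nat_lit 76) (nat_lit 31268656678) (nat_lit 0) (nat_lit 37468156473) (nat_lit 532) (nat_lit 4316814512) (nat_lit 66) (nat_lit 5) (nat_lit 65) (nat_lit 5) (nat_lit 72) (nat_lit 5) (nat_lit 379) (nat_lit 376) (nat_lit 265)) (XT.nd (nat_lit 78) (nat_lit 456) (nat_lit 0) (XT.lf (nat_lit 76) (nat_lit 71012457920) (nat_lit 0) (nat_lit 3493151849) (nat_lit 532) (nat_lit 1589732209) (nat_lit 66) (nat_lit 5) (nat_lit 65) (nat_lit 5) (nat_lit 72) (nat_lit 5) (nat_lit 380) (nat_lit 376) (nat_lit 264)) (XT.lf (nat_lit 0) (nat_lit 2982485989) (nat_lit 532) (nat_lit 43790213798) (nat_lit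 608) (nat_lit 32469504425) (nat_lit 59) (nat_lit 5) (nat_lit 66) (nat_lit 5) (nat_lit 67) (nat_lit 5) (nat_lit 381) (nat_lit 376) (nat_lit 263)))))) (XT.nd (nat_lit 390) (nat_lit 456) (nat_lit 0) (XT.nd (nat_lit 156) (nat_lit 532) (nat_lit 0) (XT.nd (nat_lit 78) (nat_lit 0) (nat_lit 76) (XT.lf (nat_lit 0) (nat_lit 8066779726) (nat_lit 532) (nat_lit 3247551802) (nat_lit 608) (nat_lit 71304606699) (nat_lit 59) (nat_lit 5) (nat_lit 66) (nat_lit 5) (nat_lit 67) (nat_lit 5) (nat_lit 382) (nat_lit 376) (nat_lit 262)) (XT.lf (nat_lit 0) (nat_lit 15258586362) (nat_lit 532) (nat_lit 44187051976) (nat_lit 76) (nat_lit 26684111939) (nat_lit 60) (nat_lit 5) (nat_lit 67) (nat_lit 5) (nat_lit 61) (nat_lit 5) (nat_lit 383) (nat_lit 376) (nat_lit 261))) (XT.nd (nat_lit 78) (nat_lit 228) (nat_lit 0) (XT.lf (nat_lit 0) (nat_lit 759403269) (nat_lit 380) (nat_lit 22668589891) (nat_lit 456) (nat_lit 66461254482)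 (nat_lit 55) (nat_lit 5) (nat_lit 60) (nat_lit 5) (nat_lit 61) (nat_lit 5) (nat_lit 384) (nat_lit 376) (nat_lit 260)) (XT.nd (nat_lit 78) (nat_lit 228) (nat_lit 0) (XT.lf (nat_lit 0) (nat_lit 33899618073) (nat_lit 456) (nat_lit 42480757676) (nat_lit 76) (nat_lit 17437236543) (nat_lit 55) (nat_lit 5) (nat_lit 61) (nat_lit 5) (nat_lit 56) (nat_lit 5) (nat_lit 385) (nat_lit 376) (nat_lit 259)) (XT.lf (nat_lit 0) (nat_lit 7695506697) (nat_lit 228) (nat_lit 38286472025) (nat_lit 304) (nat_lit 52016427622) (nat_lit 52) (nat_lit 5) (nat_lit 55) (nat_lit 5) (nat_lit 56) (nat_lit 5) (nat_lit 386) (nat_lit 376) (nat_lit 258))))) (XT.nd (nat_lit 156) (nat_lit 228) (nat_lit 0) (XT.nd (nat_lit 78) (nat_lit 228) (nat_lit 0) (XT.lf (nat_lit 0) (nat_lit 60290432817) (nat_lit 304) (nat_lit 38218740517) (nat_lit 76) (nat_lit 3903730852) (nat_lit 52) (nat_lit 5) (nat_lit 56) (nat_lit 5) (nat_lit 53) (nat_lit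 5) (nat_lit 387) (nat_lit 376) (nat_lit 257)) (XT.lf (nat_lit 0) (nat_lit 17933939903) (nat_lit 228) (nat_lit 59234625061) (nat_lit 304) (nat_lit 29897997345) (nat_lit 49) (nat_lit 5) (nat_lit 52) (nat_lit 5) (nat_lit 53) (nat_lit 5) (nat_lit 388) (nat_lit 376) (nat_lit 256))) (XT.nd (nat_lit 78) (nat_lit 228) (nat_lit 0) (XT.lf (nat_lit 0) (nat_lit 80751504895) (nat_lit 228) (nat_lit 15689682911) (nat_lit 304) (nat_lit 15567786610) (nat_lit 49) (nat_lit 5) (nat_lit 52) (nat_lit 5) (nat_lit 53) (nat_lit 5) (nat_lit 389) (nat_lit 376) (nat_lit 255)) (XT.nd (nat_lit 78) (nat_lit 0) (nat_lit 0) (XT.lf (nat_lit 0) (nat_lit 1478012554) (nat_lit 228) (nat_lit 85163338533) (nat_lit 76) (nat_lit 30580435349) (nat_lit 46) (nat_lit 5) (nat_lit 49) (nat_lit 5) (nat_lit 47) (nat_lit 5) (nat_lit 390) (nat_lit 376) (nat_lit 254)) (XT.lf (nat_lit 0) (nat_lit 20330103854) (nat_lit 228) (nat_lit 21400919373)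 (nat_lit 76) (nat_lit 80985556533) (nat_lit 46) (nat_lit 5) (nat_lit 49) (nat_lit 5) (nat_lit 47) (nat_lit 5) (nat_lit 391) (nat_lit 376) (nat_lit 253))))))) (XT.nd (nat_lit 780) (nat_lit 760) (nat_lit 0) (XT.nd (nat_lit 390) (nat_lit 456) (nat_lit 0) (XT.nd (nat_lit 156) (nat_lit 380) (nat_lit 0) (XT.nd (nat_lit 78) (nat_lit 0) (nat_lit 0) (XT.lf (nat_lit 0) (nat_lit 42085384222) (nat_lit 304) (nat_lit 78788014844) (nat_lit 76) (nat_lit 7665956144) (nat_lit 43) (nat_lit 5) (nat_lit 47) (nat_lit 5) (nat_lit 44) (nat_lit 5) (nat_lit 392) (nat_lit 376) (nat_lit 252)) (XT.lf (nat_lit 0) (nat_lit 67264754418) (nat_lit 304) (nat_lit 8068215809) (nat_lit 76) (nat_lit 59360289448) (nat_lit 43) (nat_lit 5) (nat_lit 47) (nat_lit 5) (nat_lit 44) (nat_lit 5) (nat_lit 393) (nat_lit 376) (nat_lit 251))) (XT.nd (nat_lit 78) (nat_lit 228) (nat_lit 0) (XT.lf (nat_lit 0) (nat_lit 71905404405) (nat_lit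 152) (nat_lit 24281847677) (nat_lit 228) (nat_lit 45013922530) (nat_lit 41) (nat_lit 5) (nat_lit 43) (nat_lit 5) (nat_lit 44) (nat_lit 5) (nat_lit 394) (nat_lit 376) (nat_lit 250)) (XT.nd (nat_lit 78) (nat_lit 76) (nat_lit 0) (XT.lf (nat_lit 0) (nat_lit 10289893997) (nat_lit 152) (nat_lit 118348949811) (nat_lit 228) (nat_lit 19493655715) (nat_lit 39) (nat_lit 5) (nat_lit 41) (nat_lit 5) (nat_lit 42) (nat_lit 5) (nat_lit 395) (nat_lit 376) (nat_lit 249)) (XT.lf (nat_lit 0) (nat_lit 10238681721) (nat_lit 228) (nat_lit 56158172694) (nat_lit 76) (nat_lit 89000028596) (nat_lit 38) (nat_lit 5) (nat_lit 41) (nat_lit 5) (nat_lit 39) (nat_lit 5) (nat_lit 396) (nat_lit 376) (nat_lit 248))))) (XT.nd (nat_lit 156) (nat_lit 304) (nat_lit 0) (XT.nd (nat_lit 78) (nat_lit 0) (nat_lit 0) (XT.lf (nat_lit 0) (nat_lit 33215531570) (nat_lit 152) (nat_lit 8879260225) (nat_lit 228) (nat_lit 121043251386) (nat_lit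 36) (nat_lit 5) (nat_lit 38) (nat_lit 5) (nat_lit 39) (nat_lit 5) (nat_lit 397) (nat_lit 376) (nat_lit 247)) (XT.lf (nat_lit 0) (nat_lit 79354681845) (nat_lit 228) (nat_lit 39763804112) (nat_lit 76) (nat_lit 52151587150) (nat_lit 36) (nat_lit 5) (nat_lit 39) (nat_lit 5) (nat_lit 37) (nat_lit 5) (nat_lit 398) (nat_lit 376) (nat_lit 246))) (XT.nd (nat_lit 78) (nat_lit 152) (nat_lit 0) (XT.lf (nat_lit 0) (nat_lit 60397615178) (nat_lit 152) (nat_lit 60880505080) (nat_lit 228) (nat_lit 58639924811) (nat_lit 34) (nat_lit 5) (nat_lit 36) (nat_lit 5) (nat_lit 37) (nat_lit 5) (nat_lit 399) (nat_lit 376) (nat_lit 245)) (XT.nd (nat_lit 78) (nat_lit 152) (nat_lit 0) (XT.lf (nat_lit 0) (nat_lit 167718956298) (nat_lit 228) (nat_lit 18414961925) (nat_lit 76) (nat_lit 3030854962) (nat_lit 34) (nat_lit 5) (nat_lit 37) (nat_lit 5) (nat_lit 35) (nat_lit 4) (nat_lit 400) (nat_lit 376) (nat_lit 244)) (XT.lf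 (nat_lit 0) (nat_lit 21725962380) (nat_lit 152) (nat_lit 105500198538) (nat_lit 76) (nat_lit 71573951419) (nat_lit 32) (nat_lit 5) (nat_lit 34) (nat_lit 5) (nat_lit 33) (nat_lit 5) (nat_lit 401) (nat_lit 376) (nat_lit 243)))))) (XT.nd (nat_lit 390) (nat_lit 304) (nat_lit 0) (XT.nd (nat_lit 156) (nat_lit 304) (nat_lit 0) (XT.nd (nat_lit 78) (nat_lit 0) (nat_lit 0) (XT.lf (nat_lit 0) (nat_lit 5539606369) (nat_lit 152) (nat_lit 62302658536) (nat_lit 228) (nat_lit 141267498174) (nat_lit 30) (nat_lit 5) (nat_lit 32) (nat_lit 5) (nat_lit 33) (nat_lit 5) (nat_lit 402) (nat_lit 376) (nat_lit 242)) (XT.lf (nat_lit 0) (nat_lit 120794918391) (nat_lit 228) (nat_lit 88814462210) (nat_lit 76) (nat_lit 10383041687) (nat_lit 30) (nat_lit 5) (nat_lit 33) (nat_lit 5) (nat_lit 31) (nat_lit 4) (nat_lit 403) (nat_lit 376) (nat_lit 241))) (XT.nd (nat_lit 78) (nat_lit 228) (nat_lit 0) (XT.lf (nat_lit 0) (nat_lit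 35267026511) (nat_lit 76) (nat_lit 145182826135) (nat_lit 152) (nat_lit 51098556243) (nat_lit 29) (nat_lit 5) (nat_lit 30) (nat_lit 5) (nat_lit 31) (nat_lit 4) (nat_lit 404) (nat_lit 376) (nat_lit 240)) (XT.nd (nat_lit 78) (nat_lit 152) (nat_lit 0) (XT.lf (nat_lit 0) (nat_lit 3296937903) (nat_lit 152) (nat_lit 69592704232) (nat_lit 76) (nat_lit 170938314941) (nat_lit 28) (nat_lit 5) (nat_lit 30) (nat_lit 5) (nat_lit 29) (nat_lit 5) (nat_lit 405) (nat_lit 376) (nat_lit 239)) (XT.lf (nat_lit 0) (nat_lit 61154084512) (nat_lit 228) (nat_lit 187679178461) (nat_lit 76) (nat_lit 8000774460) (nat_lit 26) (nat_lit 5) (nat_lit 29) (nat_lit 5) (nat_lit 27) (nat_lit 4) (nat_lit 406) (nat_lit 376) (nat_lit 238))))) (XT.nd (nat_lit 234) (nat_lit 228) (nat_lit 0) (XT.nd (nat_lit 78) (nat_lit 76) (nat_lit 0) (XT.lf (nat_lit 0) (nat_lit 127484930210) (nat_lit 228) (nat_lit 49711588711) (nat_lit 76) (nat_lit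 93376475208) (nat_lit 26) (nat_lit 5) (nat_lit 29) (nat_lit 5) (nat_lit 27) (nat_lit 4) (nat_lit 407) (nat_lit 376) (nat_lit 237)) (XT.nd (nat_lit 78) (nat_lit 0) (nat_lit 0) (XT.lf (nat_lit 0) (nat_lit 104521464647) (nat_lit 76) (nat_lit 97114225414) (nat_lit 152) (nat_lit 83574301673) (nat_lit 25) (nat_lit 5) (nat_lit 26) (nat_lit 5) (nat_lit 27) (nat_lit 4) (nat_lit 408) (nat_lit 376) (nat_lit 236)) (XT.lf (nat_lit 0) (nat_lit 273919787258) (nat_lit 76) (nat_lit 9157638715) (nat_lit 152) (nat_lit 17831810039) (nat_lit 25) (nat_lit 5) (nat_lit 26) (nat_lit 5) (nat_lit 27) (nat_lit 4) (nat_lit 409) (nat_lit 376) (nat_lit 235)))) (XT.nd (nat_lit 78) (nat_lit 76) (nat_lit 0) (XT.lf (nat_lit 0) (nat_lit 56184885843) (nat_lit 152) (nat_lit 174692576979) (nat_lit 76) (nat_lit 86430690728) (nat_lit 23) (nat_lit 5) (nat_lit 25) (nat_lit 5) (nat_lit 24) (nat_lit 4) (nat_lit 410) (nat_lit 376)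 (nat_lit 234)) (XT.nd (nat_lit 78) (nat_lit 76) (nat_lit 0) (XT.lf (nat_lit 0) (nat_lit 136154233993) (nat_lit 152) (nat_lit 8356720286) (nat_lit 76) (nat_lit 190391401370) (nat_lit 23) (nat_lit 5) (nat_lit 25) (nat_lit 5) (nat_lit 24) (nat_lit 4) (nat_lit 411) (nat_lit 376) (nat_lit 233)) (XT.lf (nat_lit 0) (nat_lit 180305138161) (nat_lit 76) (nat_lit 46552084872) (nat_lit 152) (nat_lit 126699983502) (nat_lit 22) (nat_lit 5) (nat_lit 23) (nat_lit 5) (nat_lit 24) (nat_lit 4) (nat_lit 412) (nat_lit 376) (nat_lit 232))))))))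
noncomputable def xc186 : XT := (XT.nd (nat_lit 1560) (nat_lit 456) (nat_lit 0) (XT.nd (nat_lit 780) (nat_lit 456) (nat_lit 0) (XT.nd (nat_lit 390) (nat_lit 228) (nat_lit 0) (XT.nd (nat_lit 156) (nat_lit 152) (nat_lit 0) (XT.nd (nat_lit 78) (nat_lit 76) (nat_lit 0) (XT.lf (nat_lit 0) (nat_lit 9913753951) (nat_lit 76) (nat_lit 316800105904) (nat_lit 76) (nat_lit 46838793004) (nat_lit 21) (nat_lit 4) (nat_lit 22) (nat_lit 5) (nat_lit 22) (nat_lit 4) (nat_lit 413) (nat_lit 376) (nat_lit 231)) (XT.lf (nat_lit 0) (nat_lit 43508737411) (nat_lit 152) (nat_lit 179463423876) (nat_lit 76) (nat_lit 171614229675) (nat_lit 20) (nat_lit 5) (nat_lit 22) (nat_lit 5) (nat_lit 21) (nat_lit 4) (nat_lit 414) (nat_lit 376) (nat_lit 230))) (XT.nd (nat_lit 78) (nat_lit 76) (nat_lit 0) (XT.lf (nat_lit 0) (nat_lit 19188977759) (nat_lit 76) (nat_lit 119825848754) (nat_lit 152) (nat_lit 278153772872) (nat_lit 19)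 (nat_lit 5) (nat_lit 20) (nat_lit 5) (nat_lit 21) (nat_lit 4) (nat_lit 415) (nat_lit 376) (nat_lit 229)) (XT.nd (nat_lit 78) (nat_lit 76) (nat_lit 0) (XT.lf (nat_lit 0) (nat_lit 243939396583) (nat_lit 76) (nat_lit 3128633290) (nat_lit 152) (nat_lit 194096824482) (nat_lit 19) (nat_lit 5) (nat_lit 20) (nat_lit 5) (nat_lit 21) (nat_lit 4) (nat_lit 416) (nat_lit 376) (nat_lit 228)) (XT.lf (nat_lit 0) (nat_lit 17508639609) (nat_lit 76) (nat_lit 349633576936) (nat_lit 76) (nat_lit 99668455054) (nat_lit 18) (nat_lit 4) (nat_lit 19) (nat_lit 5) (nat_lit 19) (nat_lit 4) (nat_lit 417) (nat_lit 376) (nat_lit 227))))) (XT.nd (nat_lit 156) (nat_lit 152) (nat_lit 0) (XT.nd (nat_lit 78) (nat_lit 0) (nat_lit 0) (XT.lf (nat_lit 0) (nat_lit 7812032415) (nat_lit 152) (nat_lit 233716288284) (nat_lit 76) (nat_lit 252526291997) (nat_lit 17) (nat_lit 5) (nat_lit 19) (nat_lit 5) (nat_lit 18) (nat_lit 4) (nat_lit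 418) (nat_lit 376) (nat_lit 226)) (XT.lf (nat_lit 0) (nat_lit 118506080778) (nat_lit 152) (nat_lit 3472847155) (nat_lit 76) (nat_lit 401292053313) (nat_lit 17) (nat_lit 5) (nat_lit 19) (nat_lit 5) (nat_lit 18) (nat_lit 4) (nat_lit 419) (nat_lit 376) (nat_lit 225))) (XT.nd (nat_lit 78) (nat_lit 76) (nat_lit 0) (XT.lf (nat_lit 0) (nat_lit 244595617765) (nat_lit 152) (nat_lit 296559913035) (nat_lit 0) (nat_lit 13145931330) (nat_lit 16) (nat_lit 5) (nat_lit 18) (nat_lit 4) (nat_lit 16) (nat_lit 4) (nat_lit 420) (nat_lit 376) (nat_lit 224)) (XT.nd (nat_lit 78) (nat_lit 76) (nat_lit 0) (XT.lf (nat_lit 0) (nat_lit 384037844499) (nat_lit 152) (nat_lit 50927279272) (nat_lit 0) (nat_lit 152588015597) (nat_lit 16) (nat_lit 5) (nat_lit 18) (nat_lit 4) (nat_lit 16) (nat_lit 4) (nat_lit 421) (nat_lit 376) (nat_lit 223)) (XT.lf (nat_lit 0) (nat_lit 225643234318) (nat_lit 76) (nat_lit 314418776209) (nat_lit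 76) (nat_lit 82968815393) (nat_lit 15) (nat_lit 4) (nat_lit 16) (nat_lit 5) (nat_lit 16) (nat_lit 4) (nat_lit 422) (nat_lit 376) (nat_lit 222)))))) (XT.nd (nat_lit 390) (nat_lit 228) (nat_lit 0) (XT.nd (nat_lit 156) (nat_lit 76) (nat_lit 0) (XT.nd (nat_lit 78) (nat_lit 76) (nat_lit 0) (XT.lf (nat_lit 0) (nat_lit 46287623485) (nat_lit 152) (nat_lit 135171826108) (nat_lit 76) (nat_lit 479682148124) (nat_lit 14) (nat_lit 5) (nat_lit 16) (nat_lit 5) (nat_lit 15) (nat_lit 4) (nat_lit 423) (nat_lit 376) (nat_lit 221)) (XT.lf (nat_lit 0) (nat_lit 153546908521) (nat_lit 76) (nat_lit 31547853293) (nat_lit 152) (nat_lit 516738654300) (nat_lit 13) (nat_lit 5) (nat_lit 14) (nat_lit 5) (nat_lit 15) (nat_lit 4) (nat_lit 424) (nat_lit 376) (nat_lit 220))) (XT.nd (nat_lit 78) (nat_lit 76) (nat_lit 0) (XT.lf (nat_lit 0) (nat_lit 341933234756) (nat_lit 152) (nat_lit 275665803454) (nat_lit 0) (nat_lit 127627400707)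 (nat_lit 13) (nat_lit 5) (nat_lit 15) (nat_lit 4) (nat_lit 13) (nat_lit 4) (nat_lit 425) (nat_lit 376) (nat_lit 219)) (XT.nd (nat_lit 78) (nat_lit 0) (nat_lit 0) (XT.lf (nat_lit 0) (nat_lit 18889801578) (nat_lit 76) (nat_lit 493702569484) (nat_lit 76) (nat_lit 279396645657) (nat_lit 12) (nat_lit 4) (nat_lit 13) (nat_lit 5) (nat_lit 13) (nat_lit 4) (nat_lit 426) (nat_lit 376) (nat_lit 218)) (XT.lf (nat_lit 0) (nat_lit 352686945425) (nat_lit 76) (nat_lit 351754348903) (nat_lit 76) (nat_lit 137448341948) (nat_lit 12) (nat_lit 4) (nat_lit 13) (nat_lit 5) (nat_lit 13) (nat_lit 4) (nat_lit 427) (nat_lit 376) (nat_lit 217))))) (XT.nd (nat_lit 156) (nat_lit 76) (nat_lit 0) (XT.nd (nat_lit 78) (nat_lit 76) (nat_lit 0) (XT.lf (nat_lit 0) (nat_lit 15062524654) (nat_lit 152) (nat_lit 182976032644) (nat_lit 76) (nat_lit 697713251775) (nat_lit 11) (nat_lit 5) (nat_lit 13) (nat_lit 5) (nat_lit 12) (nat_lit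 4) (nat_lit 428) (nat_lit 376) (nat_lit 216)) (XT.lf (nat_lit 0) (nat_lit 151770616174) (nat_lit 76) (nat_lit 24227831599) (nat_lit 152) (nat_lit 777346903571) (nat_lit 10) (nat_lit 5) (nat_lit 11) (nat_lit 5) (nat_lit 12) (nat_lit 4) (nat_lit 429) (nat_lit 376) (nat_lit 215))) (XT.nd (nat_lit 78) (nat_lit 76) (nat_lit 0) (XT.lf (nat_lit 0) (nat_lit 358873844597) (nat_lit 152) (nat_lit 495505206108) (nat_lit 0) (nat_lit 160442158314) (nat_lit 10) (nat_lit 5) (nat_lit 12) (nat_lit 4) (nat_lit 10) (nat_lit 4) (nat_lit 430) (nat_lit 376) (nat_lit 214)) (XT.nd (nat_lit 78) (nat_lit 76) (nat_lit 0) (XT.lf (nat_lit 0) (nat_lit 557008457605) (nat_lit 152) (nat_lit 165579628212) (nat_lit 0) (nat_lit 358576714746) (nat_lit 10) (nat_lit 5) (nat_lit 12) (nat_lit 4) (nat_lit 10) (nat_lit 4) (nat_lit 431) (nat_lit 376) (nat_lit 213)) (XT.lf (nat_lit 0) (nat_lit 200783812464) (nat_lit 76) (nat_lit 575038780959)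 (nat_lit 76) (nat_lit 376606985716) (nat_lit 9) (nat_lit 4) (nat_lit 10) (nat_lit 5) (nat_lit 10) (nat_lit 4) (nat_lit 432) (nat_lit 376) (nat_lit 212))))))) (XT.nd (nat_lit 780) (nat_lit 228) (nat_lit 0) (XT.nd (nat_lit 390) (nat_lit 76) (nat_lit 0) (XT.nd (nat_lit 156) (nat_lit 152) (nat_lit 0) (XT.nd (nat_lit 78) (nat_lit 0) (nat_lit 0) (XT.lf (nat_lit 0) (nat_lit 605872790774) (nat_lit 76) (nat_lit 410796210832) (nat_lit 76) (nat_lit 212364367084) (nat_lit 9) (nat_lit 4) (nat_lit 10) (nat_lit 5) (nat_lit 10) (nat_lit 4) (nat_lit 433) (nat_lit 376) (nat_lit 211)) (XT.lf (nat_lit 0) (nat_lit 1043368704209) (nat_lit 76) (nat_lit 233414326599) (nat_lit 76) (nat_lit 34982437939) (nat_lit 9) (nat_lit 4) (nat_lit 10) (nat_lit 5) (nat_lit 10) (nat_lit 4) (nat_lit 434) (nat_lit 376) (nat_lit 210))) (XT.nd (nat_lit 78) (nat_lit 0) (nat_lit 0) (XT.lf (nat_lit 0) (nat_lit 116826100055) (nat_lit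 76) (nat_lit 34740260665) (nat_lit 152) (nat_lit 1249023729867) (nat_lit 7) (nat_lit 5) (nat_lit 8) (nat_lit 5) (nat_lit 9) (nat_lit 4) (nat_lit 435) (nat_lit 376) (nat_lit 209)) (XT.nd (nat_lit 78) (nat_lit 0) (nat_lit 0) (XT.lf (nat_lit 0) (nat_lit 363002929591) (nat_lit 152) (nat_lit 953227130491) (nat_lit 0) (nat_lit 179269625194) (nat_lit 7) (nat_lit 5) (nat_lit 9) (nat_lit 4) (nat_lit 7) (nat_lit 4) (nat_lit 436) (nat_lit 376) (nat_lit 208)) (XT.lf (nat_lit 0) (nat_lit 592256688089) (nat_lit 152) (nat_lit 597149827647) (nat_lit 0) (nat_lit 408523350680) (nat_lit 7) (nat_lit 5) (nat_lit 9) (nat_lit 4) (nat_lit 7) (nat_lit 4) (nat_lit 437) (nat_lit 376) (nat_lit 207))))) (XT.nd (nat_lit 156) (nat_lit 0) (nat_lit 0) (XT.nd (nat_lit 78) (nat_lit 76) (nat_lit 0) (XT.lf (nat_lit 0) (nat_lit 839850672900) (nat_lit 152) (nat_lit 212586490176) (nat_lit 0) (nat_lit 656117304925) (nat_lit 7)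 (nat_lit 5) (nat_lit 9) (nat_lit 4) (nat_lit 7) (nat_lit 4) (nat_lit 438) (nat_lit 376) (nat_lit 206)) (XT.lf (nat_lit 0) (nat_lit 213417798395) (nat_lit 76) (nat_lit 898967012428) (nat_lit 76) (nat_lit 715233616151) (nat_lit 6) (nat_lit 4) (nat_lit 7) (nat_lit 5) (nat_lit 7) (nat_lit 4) (nat_lit 439) (nat_lit 376) (nat_lit 205))) (XT.nd (nat_lit 78) (nat_lit 0) (nat_lit 0) (XT.lf (nat_lit 0) (nat_lit 685592277104) (nat_lit 76) (nat_lit 726941827048) (nat_lit 76) (nat_lit 543208404566) (nat_lit 6) (nat_lit 4) (nat_lit 7) (nat_lit 5) (nat_lit 7) (nat_lit 4) (nat_lit 440) (nat_lit 376) (nat_lit 204)) (XT.nd (nat_lit 78) (nat_lit 0) (nat_lit 0) (XT.lf (nat_lit 0) (nat_lit 1195540589099) (nat_lit 76) (nat_lit 541154689809) (nat_lit 76) (nat_lit 357421243063) (nat_lit 6) (nat_lit 4) (nat_lit 7) (nat_lit 5) (nat_lit 7) (nat_lit 4) (nat_lit 441) (nat_lit 376) (nat_lit 203)) (XT.lf (nat_lit 0)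 (nat_lit 1746284650302) (nat_lit 76) (nat_lit 340504639898) (nat_lit 76) (nat_lit 156771170684) (nat_lit 6) (nat_lit 4) (nat_lit 7) (nat_lit 5) (nat_lit 7) (nat_lit 4) (nat_lit 442) (nat_lit 376) (nat_lit 202)))))) (XT.nd (nat_lit 390) (nat_lit 76) (nat_lit 0) (XT.nd (nat_lit 156) (nat_lit 0) (nat_lit 0) (XT.nd (nat_lit 78) (nat_lit 76) (nat_lit 0) (XT.lf (nat_lit 0) (nat_lit 56932866195) (nat_lit 152) (nat_lit 65313128329) (nat_lit 76) (nat_lit 2282598617573) (nat_lit 5) (nat_lit 5) (nat_lit 7) (nat_lit 5) (nat_lit 6) (nat_lit 4) (nat_lit 443) (nat_lit 376) (nat_lit 201)) (XT.lf (nat_lit 0) (nat_lit 292413442862) (nat_lit 152) (nat_lit 2162950476551) (nat_lit 0) (nat_lit 122289823160) (nat_lit 4) (nat_lit 5) (nat_lit 6) (nat_lit 4) (nat_lit 4) (nat_lit 4) (nat_lit 444) (nat_lit 376) (nat_lit 200))) (XT.nd (nat_lit 78) (nat_lit 0) (nat_lit 0) (XT.lf (nat_lit 0) (nat_lit 551739796398) (nat_lit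 152) (nat_lit 1830531060450) (nat_lit 0) (nat_lit 381616160182) (nat_lit 4) (nat_lit 5) (nat_lit 6) (nat_lit 4) (nat_lit 4) (nat_lit 4) (nat_lit 445) (nat_lit 376) (nat_lit 199)) (XT.nd (nat_lit 78) (nat_lit 0) (nat_lit 0) (XT.lf (nat_lit 0) (nat_lit 831812211566) (nat_lit 152) (nat_lit 1471518185555) (nat_lit 0) (nat_lit 661688560059) (nat_lit 4) (nat_lit 5) (nat_lit 6) (nat_lit 4) (nat_lit 4) (nat_lit 4) (nat_lit 446) (nat_lit 376) (nat_lit 198)) (XT.lf (nat_lit 0) (nat_lit 1134290376750) (nat_lit 152) (nat_lit 1083784368163) (nat_lit 0) (nat_lit 964166711085) (nat_lit 4) (nat_lit 5) (nat_lit 6) (nat_lit 4) (nat_lit 4) (nat_lit 4) (nat_lit 447) (nat_lit 376) (nat_lit 197))))) (XT.nd (nat_lit 234) (nat_lit 0) (nat_lit 0) (XT.nd (nat_lit 78) (nat_lit 76) (nat_lit 0) (XT.lf (nat_lit 0) (nat_lit 1460966755153) (nat_lit 152) (nat_lit 665031926394) (nat_lit 0) (nat_lit 1290843076379) (nat_lit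 4) (nat_lit 5) (nat_lit 6) (nat_lit 4) (nat_lit 4) (nat_lit 4) (nat_lit 448) (nat_lit 376) (nat_lit 196)) (XT.nd (nat_lit 78) (nat_lit 76) (nat_lit 0) (XT.lf (nat_lit 0) (nat_lit 1813777206794) (nat_lit 152) (nat_lit 212779364297) (nat_lit 0) (nat_lit 1643653515882) (nat_lit 4) (nat_lit 5) (nat_lit 6) (nat_lit 4) (nat_lit 4) (nat_lit 4) (nat_lit 449) (nat_lit 376) (nat_lit 195)) (XT.lf (nat_lit 0) (nat_lit 290168749344) (nat_lit 76) (nat_lit 1911622276331) (nat_lit 76) (nat_lit 1741498574180) (nat_lit 3) (nat_lit 4) (nat_lit 4) (nat_lit 5) (nat_lit 4) (nat_lit 4) (nat_lit 450) (nat_lit 376) (nat_lit 194)))) (XT.nd (nat_lit 78) (nat_lit 0) (nat_lit 0) (XT.lf (nat_lit 0) (nat_lit 845453595366) (nat_lit 76) (nat_lit 1781210086221) (nat_lit 76) (nat_lit 1611086373663) (nat_lit 3) (nat_lit 4) (nat_lit 4) (nat_lit 5) (nat_lit 4) (nat_lit 4) (nat_lit 451) (nat_lit 376) (nat_lit 193)) (XT.nd (nat_lit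 78) (nat_lit 0) (nat_lit 0) (XT.lf (nat_lit 0) (nat_lit 1445161166386) (nat_lit 76) (nat_lit 1640364952679) (nat_lit 76) (nat_lit 1470241230485) (nat_lit 3) (nat_lit 4) (nat_lit 4) (nat_lit 5) (nat_lit 4) (nat_lit 4) (nat_lit 452) (nat_lit 376) (nat_lit 192)) (XT.lf (nat_lit 0) (nat_lit 2092845285048) (nat_lit 76) (nat_lit 1488252237877) (nat_lit 76) (nat_lit 1318128506762) (nat_lit 3) (nat_lit 4) (nat_lit 4) (nat_lit 5) (nat_lit 4) (nat_lit 4) (nat_lit 453) (nat_lit 376) (nat_lit 191))))))))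
noncomputable def xc187 : XT := (XT.nd (nat_lit 48282) (nat_lit 0) (nat_lit 1520) (XT.nd (nat_lit 47424) (nat_lit 0) (nat_lit 3268) (XT.nd (nat_lit 390) (nat_lit 0) (nat_lit 0) (XT.nd (nat_lit 156) (nat_lit 0) (nat_lit 0) (XT.nd (nat_lit 78) (nat_lit 0) (nat_lit 0) (XT.lf (nat_lit 0) (nat_lit 2792344079461) (nat_lit 76) (nat_lit 1323970533135) (nat_lit 76) (nat_lit 1153846793758) (nat_lit 3) (nat_lit 4) (nat_lit 4) (nat_lit 5) (nat_lit 4) (nat_lit 4) (nat_lit 454) (nat_lit 376) (nat_lit 190)) (XT.lf (nat_lit 0) (nat_lit 3547802727668) (nat_lit 76) (nat_lit 1146546317239) (nat_lit 76) (nat_lit 976422570213) (nat_lit 3) (nat_lit 4) (nat_lit 4) (nat_lit 5) (nat_lit 4) (nat_lit 4) (nat_lit 455) (nat_lit 376) (nat_lit 189))) (XT.nd (nat_lit 78) (nat_lit 0) (nat_lit 0) (XT.lf (nat_lit 0) (nat_lit 4363698021657) (nat_lit 76) (nat_lit 954928187428) (nat_lit 76) (nat_lit 784804433319) (nat_lit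 3) (nat_lit 4) (nat_lit 4) (nat_lit 5) (nat_lit 4) (nat_lit 4) (nat_lit 456) (nat_lit 376) (nat_lit 188)) (XT.nd (nat_lit 78) (nat_lit 0) (nat_lit 0) (XT.lf (nat_lit 0) (nat_lit 5244864896505) (nat_lit 76) (nat_lit 747980628859) (nat_lit 76) (nat_lit 577856868193) (nat_lit 3) (nat_lit 4) (nat_lit 4) (nat_lit 5) (nat_lit 4) (nat_lit 4) (nat_lit 457) (nat_lit 376) (nat_lit 187)) (XT.lf (nat_lit 0) (nat_lit 6196525081839) (nat_lit 76) (nat_lit 524477285630) (nat_lit 76) (nat_lit 354353518892) (nat_lit 3) (nat_lit 4) (nat_lit 4) (nat_lit 5) (nat_lit 4) (nat_lit 4) (nat_lit 458) (nat_lit 376) (nat_lit 186))))) (XT.nd (nat_lit 46800) (nat_lit 0) (nat_lit 4636) (XT.nd (nat_lit 46722) (nat_lit 0) (nat_lit 4636) (XT.lf (nat_lit 0) (nat_lit 7224318045424) (nat_lit 76) (nat_lit 283093693484) (nat_lit 76) (nat_lit 112969921123) (nat_lit 3) (nat_lit 4) (nat_lit 4) (nat_lit 5) (nat_lit 4) (nat_lit 4)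 (nat_lit 459) (nat_lit 376) (nat_lit 185)) (XT.lf (nat_lit 0) (nat_lit 30871928655) (nat_lit 532) (nat_lit 2100752413) (nat_lit 532) (nat_lit 2100752413) (nat_lit 64) (nat_lit 3) (nat_lit 71) (nat_lit 3) (nat_lit 71) (nat_lit 5) (nat_lit 377) (nat_lit 377) (nat_lit 266))) (XT.nd (nat_lit 78) (nat_lit 0) (nat_lit 76) (XT.lf (nat_lit 76) (nat_lit 31466235257) (nat_lit 0) (nat_lit 33516585376) (nat_lit 532) (nat_lit 7908372516) (nat_lit 65) (nat_lit 5) (nat_lit 64) (nat_lit 3) (nat_lit 71) (nat_lit 5) (nat_lit 378) (nat_lit 377) (nat_lit 265)) (XT.nd (nat_lit 78) (nat_lit 0) (nat_lit 0) (XT.lf (nat_lit 0) (nat_lit 68633743773) (nat_lit 456) (nat_lit 5659576329) (nat_lit 532) (nat_lit 1549519083) (nat_lit 65) (nat_lit 5) (nat_lit 71) (nat_lit 5) (nat_lit 72) (nat_lit 5) (nat_lit 379) (nat_lit 377) (nat_lit 264)) (XT.lf (nat_lit 76) (nat_lit 33785815590) (nat_lit 0) (nat_lit 40472879168) (nat_lit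 532) (nat_lit 4637366917) (nat_lit 66) (nat_lit 5) (nat_lit 65) (nat_lit 5) (nat_lit 72) (nat_lit 5) (nat_lit 380) (nat_lit 377) (nat_lit 263)))))) (XT.nd (nat_lit 390) (nat_lit 684) (nat_lit 0) (XT.nd (nat_lit 156) (nat_lit 304) (nat_lit 0) (XT.nd (nat_lit 78) (nat_lit 456) (nat_lit 0) (XT.lf (nat_lit 76) (nat_lit 76707960459) (nat_lit 0) (nat_lit 3779335643) (nat_lit 532) (nat_lit 1693954530) (nat_lit 66) (nat_lit 5) (nat_lit 65) (nat_lit 5) (nat_lit 72) (nat_lit 5) (nat_lit 381) (nat_lit 377) (nat_lit 262)) (XT.lf (nat_lit 0) (nat_lit 3241517658) (nat_lit 532) (nat_lit 47276366400) (nat_lit 608) (nat_lit 35062044978) (nat_lit 59) (nat_lit 5) (nat_lit 66) (nat_lit 5) (nat_lit 67) (nat_lit 5) (nat_lit 382) (nat_lit 377) (nat_lit 261))) (XT.nd (nat_lit 78) (nat_lit 304) (nat_lit 0) (XT.lf (nat_lit 0) (nat_lit 8731041354) (nat_lit 532) (nat_lit 3491555482) (nat_lit 608) (nat_lit 77004327271)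 (nat_lit 59) (nat_lit 5) (nat_lit 66) (nat_lit 5) (nat_lit 67) (nat_lit 5) (nat_lit 383) (nat_lit 377) (nat_lit 260)) (XT.nd (nat_lit 78) (nat_lit 380) (nat_lit 0) (XT.lf (nat_lit 0) (nat_lit 16497101646) (nat_lit 532) (nat_lit 47705110314) (nat_lit 76) (nat_lit 28816477589) (nat_lit 60) (nat_lit 5) (nat_lit 67) (nat_lit 5) (nat_lit 61) (nat_lit 5) (nat_lit 384) (nat_lit 377) (nat_lit 259)) (XT.lf (nat_lit 0) (nat_lit 836633355) (nat_lit 380) (nat_lit 24482503304) (nat_lit 456) (nat_lit 71759885063) (nat_lit 55) (nat_lit 5) (nat_lit 60) (nat_lit 5) (nat_lit 61) (nat_lit 5) (nat_lit 385) (nat_lit 377) (nat_lit 258))))) (XT.nd (nat_lit 234) (nat_lit 456) (nat_lit 0) (XT.nd (nat_lit 78) (nat_lit 228) (nat_lit 0) (XT.lf (nat_lit 0) (nat_lit 36627229923) (nat_lit 456) (nat_lit 45862686988) (nat_lit 76) (nat_lit 18831840559) (nat_lit 55) (nat_lit 5) (nat_lit 61) (nat_lit 5) (nat_lit 56) (nat_lit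 5) (nat_lit 386) (nat_lit 377) (nat_lit 257)) (XT.nd (nat_lit 78) (nat_lit 0) (nat_lit 0) (XT.lf (nat_lit 0) (nat_lit 8327260021) (nat_lit 228) (nat_lit 41348148218) (nat_lit 304) (nat_lit 56161669420) (nat_lit 52) (nat_lit 5) (nat_lit 55) (nat_lit 5) (nat_lit 56) (nat_lit 5) (nat_lit 387) (nat_lit 377) (nat_lit 256)) (XT.lf (nat_lit 0) (nat_lit 65127464739) (nat_lit 304) (nat_lit 41260235942) (nat_lit 76) (nat_lit 4217121413) (nat_lit 52) (nat_lit 5) (nat_lit 56) (nat_lit 5) (nat_lit 53) (nat_lit 5) (nat_lit 388) (nat_lit 377) (nat_lit 255)))) (XT.nd (nat_lit 78) (nat_lit 228) (nat_lit 0) (XT.lf (nat_lit 0) (nat_lit 19384253751) (nat_lit 228) (nat_lit 63970946832) (nat_lit 304) (nat_lit 32275624822) (nat_lit 49) (nat_lit 5) (nat_lit 52) (nat_lit 5) (nat_lit 53) (nat_lit 5) (nat_lit 389) (nat_lit 377) (nat_lit 254)) (XT.nd (nat_lit 78) (nat_lit 228) (nat_lit 0) (XT.lf (nat_lit 0) (nat_lit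 87226068487) (nat_lit 228) (nat_lit 16942590660) (nat_lit 304) (nat_lit 16800049992) (nat_lit 49) (nat_lit 5) (nat_lit 52) (nat_lit 5) (nat_lit 53) (nat_lit 5) (nat_lit 390) (nat_lit 377) (nat_lit 253)) (XT.lf (nat_lit 0) (nat_lit 1608250279) (nat_lit 228) (nat_lit 91960783317) (nat_lit 76) (nat_lit 33029528194) (nat_lit 46) (nat_lit 5) (nat_lit 49) (nat_lit 5) (nat_lit 47) (nat_lit 5) (nat_lit 391) (nat_lit 377) (nat_lit 252))))))) (XT.nd (nat_lit 780) (nat_lit 836) (nat_lit 0) (XT.nd (nat_lit 390) (nat_lit 380) (nat_lit 0) (XT.nd (nat_lit 156) (nat_lit 304) (nat_lit 0) (XT.nd (nat_lit 78) (nat_lit 228) (nat_lit 0) (XT.lf (nat_lit 0) (nat_lit 21967620237) (nat_lit 228) (nat_lit 23098527831) (nat_lit 76) (nat_lit 87466862182) (nat_lit 46) (nat_lit 5) (nat_lit 49) (nat_lit 5) (nat_lit 47) (nat_lit 5) (nat_lit 392) (nat_lit 377) (nat_lit 251)) (XT.lf (nat_lit 0) (nat_lit 45462922855) (nat_lit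 304) (nat_lit 85076184054) (nat_lit 76) (nat_lit 8282533378) (nat_lit 43) (nat_lit 5) (nat_lit 47) (nat_lit 5) (nat_lit 44) (nat_lit 5) (nat_lit 393) (nat_lit 377) (nat_lit 250))) (XT.nd (nat_lit 78) (nat_lit 304) (nat_lit 0) (XT.lf (nat_lit 0) (nat_lit 72655849489) (nat_lit 304) (nat_lit 8699902725) (nat_lit 76) (nat_lit 64112168846) (nat_lit 43) (nat_lit 5) (nat_lit 47) (nat_lit 5) (nat_lit 44) (nat_lit 5) (nat_lit 394) (nat_lit 377) (nat_lit 249)) (XT.nd (nat_lit 78) (nat_lit 152) (nat_lit 0) (XT.lf (nat_lit 0) (nat_lit 77671258490) (nat_lit 152) (nat_lit 26220476847) (nat_lit 228) (nat_lit 48604767248) (nat_lit 41) (nat_lit 5) (nat_lit 43) (nat_lit 5) (nat_lit 44) (nat_lit 5) (nat_lit 395) (nat_lit 377) (nat_lit 248)) (XT.lf (nat_lit 0) (nat_lit 11126822206) (nat_lit 152) (nat_lit 127812345892) (nat_lit 228) (nat_lit 21043188719) (nat_lit 39) (nat_lit 5) (nat_lit 41) (nat_lit 5) (nat_lit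 42) (nat_lit 5) (nat_lit 396) (nat_lit 377) (nat_lit 247))))) (XT.nd (nat_lit 156) (nat_lit 152) (nat_lit 0) (XT.nd (nat_lit 78) (nat_lit 152) (nat_lit 0) (XT.lf (nat_lit 0) (nat_lit 11066536667) (nat_lit 228) (nat_lit 60637641480) (nat_lit 76) (nat_lit 96123750107) (nat_lit 38) (nat_lit 5) (nat_lit 41) (nat_lit 5) (nat_lit 39) (nat_lit 5) (nat_lit 397) (nat_lit 377) (nat_lit 246)) (XT.lf (nat_lit 0) (nat_lit 35885625327) (nat_lit 152) (nat_lit 9585170373) (nat_lit 228) (nat_lit 130717613064) (nat_lit 36) (nat_lit 5) (nat_lit 38) (nat_lit 5) (nat_lit 39) (nat_lit 5) (nat_lit 398) (nat_lit 377) (nat_lit 245))) (XT.nd (nat_lit 78) (nat_lit 152) (nat_lit 0) (XT.lf (nat_lit 0) (nat_lit 85710951873) (nat_lit 228) (nat_lit 42932480159) (nat_lit 76) (nat_lit 56327611371) (nat_lit 36) (nat_lit 5) (nat_lit 39) (nat_lit 5) (nat_lit 37) (nat_lit 5) (nat_lit 399) (nat_lit 377) (nat_lit 244)) (XT.nd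 (nat_lit 78) (nat_lit 0) (nat_lit 0) (XT.lf (nat_lit 0) (nat_lit 65241538034) (nat_lit 152) (nat_lit 65746433808) (nat_lit 228) (nat_lit 63322905052) (nat_lit 34) (nat_lit 5) (nat_lit 36) (nat_lit 5) (nat_lit 37) (nat_lit 5) (nat_lit 400) (nat_lit 377) (nat_lit 243)) (XT.lf (nat_lit 0) (nat_lit 181143612125) (nat_lit 228) (nat_lit 19876476548) (nat_lit 76) (nat_lit 3277291865) (nat_lit 34) (nat_lit 5) (nat_lit 37) (nat_lit 5) (nat_lit 35) (nat_lit 4) (nat_lit 401) (nat_lit 377) (nat_lit 242)))))) (XT.nd (nat_lit 390) (nat_lit 380) (nat_lit 0) (XT.nd (nat_lit 156) (nat_lit 152) (nat_lit 0) (XT.nd (nat_lit 78) (nat_lit 152) (nat_lit 0) (XT.lf (nat_lit 0) (nat_lit 23471105468) (nat_lit 152) (nat_lit 113928452881) (nat_lit 76) (nat_lit 77303994811) (nat_lit 32) (nat_lit 5) (nat_lit 34) (nat_lit 5) (nat_lit 33) (nat_lit 5) (nat_lit 402) (nat_lit 377) (nat_lit 241)) (XT.lf (nat_lit 0) (nat_lit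 5994238658) (nat_lit 152) (nat_lit 67282225826) (nat_lit 228) (nat_lit 152561531506) (nat_lit 30) (nat_lit 5) (nat_lit 32) (nat_lit 5) (nat_lit 33) (nat_lit 5) (nat_lit 403) (nat_lit 377) (nat_lit 240))) (XT.nd (nat_lit 78) (nat_lit 152) (nat_lit 0) (XT.lf (nat_lit 0) (nat_lit 130464928629) (nat_lit 228) (nat_lit 95908600490) (nat_lit 76) (nat_lit 11217771143) (nat_lit 30) (nat_lit 5) (nat_lit 33) (nat_lit 5) (nat_lit 31) (nat_lit 4) (nat_lit 404) (nat_lit 377) (nat_lit 239)) (XT.nd (nat_lit 78) (nat_lit 76) (nat_lit 0) (XT.lf (nat_lit 0) (nat_lit 38099128374) (nat_lit 76) (nat_lit 156792912226) (nat_lit 152) (nat_lit 55179742738) (nat_lit 29) (nat_lit 5) (nat_lit 30) (nat_lit 5) (nat_lit 31) (nat_lit 4) (nat_lit 405) (nat_lit 377) (nat_lit 238)) (XT.lf (nat_lit 0) (nat_lit 3566584550) (nat_lit 152) (nat_lit 75149864165) (nat_lit 76) (nat_lit 184617271640) (nat_lit 28) (nat_lit 5) (nat_lit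 30) (nat_lit 5) (nat_lit 29) (nat_lit 5) (nat_lit 406) (nat_lit 377) (nat_lit 237))))) (XT.nd (nat_lit 234) (nat_lit 152) (nat_lit 0) (XT.nd (nat_lit 78) (nat_lit 76) (nat_lit 0) (XT.lf (nat_lit 0) (nat_lit 66052210336) (nat_lit 228) (nat_lit 202683161968) (nat_lit 76) (nat_lit 8644922386) (nat_lit 26) (nat_lit 5) (nat_lit 29) (nat_lit 5) (nat_lit 27) (nat_lit 4) (nat_lit 407) (nat_lit 377) (nat_lit 236)) (XT.nd (nat_lit 78) (nat_lit 76) (nat_lit 0) (XT.lf (nat_lit 0) (nat_lit 137689094130) (nat_lit 228) (nat_lit 53678931762) (nat_lit 76) (nat_lit 100850376529) (nat_lit 26) (nat_lit 5) (nat_lit 29) (nat_lit 5) (nat_lit 27) (nat_lit 4) (nat_lit 408) (nat_lit 377) (nat_lit 235)) (XT.lf (nat_lit 0) (nat_lit 112892523231) (nat_lit 76) (nat_lit 104879218458) (nat_lit 152) (nat_lit 90254632115) (nat_lit 25) (nat_lit 5) (nat_lit 26) (nat_lit 5) (nat_lit 27) (nat_lit 4) (nat_lit 409) (nat_lit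 377) (nat_lit 234)))) (XT.nd (nat_lit 78) (nat_lit 152) (nat_lit 0) (XT.lf (nat_lit 0) (nat_lit 295842019694) (nat_lit 76) (nat_lit 9886411859) (nat_lit 152) (nat_lit 19253156980) (nat_lit 25) (nat_lit 5) (nat_lit 26) (nat_lit 5) (nat_lit 27) (nat_lit 4) (nat_lit 410) (nat_lit 377) (nat_lit 233)) (XT.nd (nat_lit 78) (nat_lit 0) (nat_lit 0) (XT.lf (nat_lit 0) (nat_lit 60684551566) (nat_lit 152) (nat_lit 188659008108) (nat_lit 76) (nat_lit 93348854938) (nat_lit 23) (nat_lit 5) (nat_lit 25) (nat_lit 5) (nat_lit 24) (nat_lit 4) (nat_lit 411) (nat_lit 377) (nat_lit 232)) (XT.lf (nat_lit 0) (nat_lit 147051086467) (nat_lit 152) (nat_lit 9016947697) (nat_lit 76) (nat_lit 205626147694) (nat_lit 23) (nat_lit 5) (nat_lit 25) (nat_lit 5) (nat_lit 24) (nat_lit 4) (nat_lit 412) (nat_lit 377) (nat_lit 231))))))))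
noncomputable def xc188 : XT := (XT.nd (nat_lit 1560) (nat_lit 532) (nat_lit 0) (XT.nd (nat_lit 780) (nat_lit 456) (nat_lit 0) (XT.nd (nat_lit 390) (nat_lit 228) (nat_lit 0) (XT.nd (nat_lit 156) (nat_lit 152) (nat_lit 0) (XT.nd (nat_lit 78) (nat_lit 76) (nat_lit 0) (XT.lf (nat_lit 0) (nat_lit 194737649040) (nat_lit 76) (nat_lit 50272526039) (nat_lit 152) (nat_lit 136831256985) (nat_lit 22) (nat_lit 5) (nat_lit 23) (nat_lit 5) (nat_lit 24) (nat_lit 4) (nat_lit 413) (nat_lit 377) (nat_lit 230)) (XT.lf (nat_lit 0) (nat_lit 10715003810) (nat_lit 76) (nat_lit 342140293983) (nat_lit 76) (nat_lit 50581219984) (nat_lit 21) (nat_lit 4) (nat_lit 22) (nat_lit 5) (nat_lit 22) (nat_lit 4) (nat_lit 414) (nat_lit 377) (nat_lit 229))) (XT.nd (nat_lit 78) (nat_lit 76) (nat_lit 0) (XT.lf (nat_lit 0) (nat_lit 46993549854) (nat_lit 152) (nat_lit 193812734466) (nat_lit 76) (nat_lit 185346688004) (nat_lit 20)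 (nat_lit 5) (nat_lit 22) (nat_lit 5) (nat_lit 21) (nat_lit 4) (nat_lit 415) (nat_lit 377) (nat_lit 228)) (XT.nd (nat_lit 78) (nat_lit 0) (nat_lit 0) (XT.lf (nat_lit 0) (nat_lit 20731662760) (nat_lit 76) (nat_lit 129408340605) (nat_lit 152) (nat_lit 300401763936) (nat_lit 19) (nat_lit 5) (nat_lit 20) (nat_lit 5) (nat_lit 21) (nat_lit 4) (nat_lit 416) (nat_lit 377) (nat_lit 227)) (XT.lf (nat_lit 0) (nat_lit 263461554588) (nat_lit 76) (nat_lit 3375612796) (nat_lit 152) (nat_lit 209620578990) (nat_lit 19) (nat_lit 5) (nat_lit 20) (nat_lit 5) (nat_lit 21) (nat_lit 4) (nat_lit 417) (nat_lit 377) (nat_lit 226))))) (XT.nd (nat_lit 156) (nat_lit 76) (nat_lit 0) (XT.nd (nat_lit 78) (nat_lit 76) (nat_lit 0) (XT.lf (nat_lit 0) (nat_lit 18916370891) (nat_lit 76) (nat_lit 377600887435) (nat_lit 76) (nat_lit 107637973178) (nat_lit 18) (nat_lit 4) (nat_lit 19) (nat_lit 5) (nat_lit 19) (nat_lit 4) (nat_lit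 418) (nat_lit 377) (nat_lit 225)) (XT.lf (nat_lit 0) (nat_lit 8440476741) (nat_lit 152) (nat_lit 252406888809) (nat_lit 76) (nat_lit 272731337051) (nat_lit 17) (nat_lit 5) (nat_lit 19) (nat_lit 5) (nat_lit 18) (nat_lit 4) (nat_lit 419) (nat_lit 377) (nat_lit 224))) (XT.nd (nat_lit 78) (nat_lit 76) (nat_lit 0) (XT.lf (nat_lit 0) (nat_lit 127989791067) (nat_lit 152) (nat_lit 3744468875) (nat_lit 76) (nat_lit 433398141369) (nat_lit 17) (nat_lit 5) (nat_lit 19) (nat_lit 5) (nat_lit 18) (nat_lit 4) (nat_lit 420) (nat_lit 377) (nat_lit 223)) (XT.nd (nat_lit 78) (nat_lit 0) (nat_lit 0) (XT.lf (nat_lit 0) (nat_lit 264166467876) (nat_lit 152) (nat_lit 320278476399) (nat_lit 0) (nat_lit 14200378280) (nat_lit 16) (nat_lit 5) (nat_lit 18) (nat_lit 4) (nat_lit 16) (nat_lit 4) (nat_lit 421) (nat_lit 377) (nat_lit 222)) (XT.lf (nat_lit 0) (nat_lit 414763835661) (nat_lit 152) (nat_lit 54995693393) (nat_lit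 0) (nat_lit 164797623923) (nat_lit 16) (nat_lit 5) (nat_lit 18) (nat_lit 4) (nat_lit 16) (nat_lit 4) (nat_lit 422) (nat_lit 377) (nat_lit 221)))))) (XT.nd (nat_lit 390) (nat_lit 152) (nat_lit 0) (XT.nd (nat_lit 156) (nat_lit 152) (nat_lit 0) (XT.nd (nat_lit 78) (nat_lit 76) (nat_lit 0) (XT.lf (nat_lit 0) (nat_lit 243700315254) (nat_lit 76) (nat_lit 339569535405) (nat_lit 76) (nat_lit 89603210571) (nat_lit 15) (nat_lit 4) (nat_lit 16) (nat_lit 5) (nat_lit 16) (nat_lit 4) (nat_lit 423) (nat_lit 377) (nat_lit 220)) (XT.lf (nat_lit 0) (nat_lit 49993368990) (nat_lit 152) (nat_lit 145980222051) (nat_lit 76) (nat_lit 518059115284) (nat_lit 14) (nat_lit 5) (nat_lit 16) (nat_lit 5) (nat_lit 15) (nat_lit 4) (nat_lit 424) (nat_lit 377) (nat_lit 219))) (XT.nd (nat_lit 78) (nat_lit 76) (nat_lit 0) (XT.lf (nat_lit 0) (nat_lit 165835875902) (nat_lit 76) (nat_lit 34069125258) (nat_lit 152) (nat_lit 558074875238)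 (nat_lit 13) (nat_lit 5) (nat_lit 14) (nat_lit 5) (nat_lit 15) (nat_lit 4) (nat_lit 425) (nat_lit 377) (nat_lit 218)) (XT.nd (nat_lit 78) (nat_lit 76) (nat_lit 0) (XT.lf (nat_lit 0) (nat_lit 369290411943) (nat_lit 152) (nat_lit 297714099004) (nat_lit 0) (nat_lit 137839841303) (nat_lit 13) (nat_lit 5) (nat_lit 15) (nat_lit 4) (nat_lit 13) (nat_lit 4) (nat_lit 426) (nat_lit 377) (nat_lit 217)) (XT.lf (nat_lit 0) (nat_lit 20405828641) (nat_lit 76) (nat_lit 533196380437) (nat_lit 76) (nat_lit 301745732826) (nat_lit 12) (nat_lit 4) (nat_lit 13) (nat_lit 5) (nat_lit 13) (nat_lit 4) (nat_lit 427) (nat_lit 377) (nat_lit 216))))) (XT.nd (nat_lit 156) (nat_lit 76) (nat_lit 0) (XT.nd (nat_lit 78) (nat_lit 76) (nat_lit 0) (XT.lf (nat_lit 0) (nat_lit 380906385260) (nat_lit 76) (nat_lit 379892479588) (nat_lit 76) (nat_lit 148441760708) (nat_lit 12) (nat_lit 4) (nat_lit 13) (nat_lit 5) (nat_lit 13) (nat_lit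 4) (nat_lit 428) (nat_lit 377) (nat_lit 215)) (XT.lf (nat_lit 0) (nat_lit 16269680429) (nat_lit 152) (nat_lit 197609849576) (nat_lit 76) (nat_lit 753532251263) (nat_lit 11) (nat_lit 5) (nat_lit 13) (nat_lit 5) (nat_lit 12) (nat_lit 4) (nat_lit 429) (nat_lit 377) (nat_lit 214))) (XT.nd (nat_lit 78) (nat_lit 0) (nat_lit 0) (XT.lf (nat_lit 0) (nat_lit 163916423156) (nat_lit 76) (nat_lit 26163994693) (nat_lit 152) (nat_lit 839532393852) (nat_lit 10) (nat_lit 5) (nat_lit 11) (nat_lit 5) (nat_lit 12) (nat_lit 4) (nat_lit 430) (nat_lit 377) (nat_lit 213)) (XT.nd (nat_lit 78) (nat_lit 0) (nat_lit 0) (XT.lf (nat_lit 0) (nat_lit 387585737238) (nat_lit 152) (nat_lit 535141663510) (nat_lit 0) (nat_lit 173279345990) (nat_lit 10) (nat_lit 5) (nat_lit 12) (nat_lit 4) (nat_lit 10) (nat_lit 4) (nat_lit 431) (nat_lit 377) (nat_lit 212)) (XT.lf (nat_lit 0) (nat_lit 601570972245) (nat_lit 152) (nat_lit 178822332648)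 (nat_lit 0) (nat_lit 387264532492) (nat_lit 10) (nat_lit 5) (nat_lit 12) (nat_lit 4) (nat_lit 10) (nat_lit 4) (nat_lit 432) (nat_lit 377) (nat_lit 211))))))) (XT.nd (nat_lit 780) (nat_lit 228) (nat_lit 0) (XT.nd (nat_lit 390) (nat_lit 76) (nat_lit 0) (XT.nd (nat_lit 156) (nat_lit 152) (nat_lit 0) (XT.nd (nat_lit 78) (nat_lit 0) (nat_lit 0) (XT.lf (nat_lit 0) (nat_lit 216850090476) (nat_lit 76) (nat_lit 621040098234) (nat_lit 76) (nat_lit 406733613569) (nat_lit 9) (nat_lit 4) (nat_lit 10) (nat_lit 5) (nat_lit 10) (nat_lit 4) (nat_lit 433) (nat_lit 377) (nat_lit 210)) (XT.lf (nat_lit 0) (nat_lit 654345922383) (nat_lit 76) (nat_lit 443658254733) (nat_lit 76) (nat_lit 229351728484) (nat_lit 9) (nat_lit 4) (nat_lit 10) (nat_lit 5) (nat_lit 10) (nat_lit 4) (nat_lit 434) (nat_lit 377) (nat_lit 209))) (XT.nd (nat_lit 78) (nat_lit 152) (nat_lit 0) (XT.lf (nat_lit 0) (nat_lit 1126841263829) (nat_lit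 76) (nat_lit 252085942203) (nat_lit 76) (nat_lit 37779377449) (nat_lit 9) (nat_lit 4) (nat_lit 10) (nat_lit 5) (nat_lit 10) (nat_lit 4) (nat_lit 435) (nat_lit 377) (nat_lit 208)) (XT.nd (nat_lit 78) (nat_lit 0) (nat_lit 0) (XT.lf (nat_lit 0) (nat_lit 126175254641) (nat_lit 76) (nat_lit 37517944900) (nat_lit 152) (nat_lit 1348943975774) (nat_lit 7) (nat_lit 5) (nat_lit 8) (nat_lit 5) (nat_lit 9) (nat_lit 4) (nat_lit 436) (nat_lit 377) (nat_lit 207)) (XT.lf (nat_lit 0) (nat_lit 392044614809) (nat_lit 152) (nat_lit 1029482382277) (nat_lit 0) (nat_lit 193612546830) (nat_lit 7) (nat_lit 5) (nat_lit 9) (nat_lit 4) (nat_lit 7) (nat_lit 4) (nat_lit 437) (nat_lit 377) (nat_lit 206))))) (XT.nd (nat_lit 156) (nat_lit 76) (nat_lit 0) (XT.nd (nat_lit 78) (nat_lit 0) (nat_lit 0) (XT.lf (nat_lit 0) (nat_lit 639638566516) (nat_lit 152) (nat_lit 644919111402) (nat_lit 0) (nat_lit 441206470235) (nat_lit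 7) (nat_lit 5) (nat_lit 9) (nat_lit 4) (nat_lit 7) (nat_lit 4) (nat_lit 438) (nat_lit 377) (nat_lit 205)) (XT.lf (nat_lit 0) (nat_lit 907039970603) (nat_lit 152) (nat_lit 229590907116) (nat_lit 0) (nat_lit 708607848116) (nat_lit 7) (nat_lit 5) (nat_lit 9) (nat_lit 4) (nat_lit 7) (nat_lit 4) (nat_lit 439) (nat_lit 377) (nat_lit 204))) (XT.nd (nat_lit 78) (nat_lit 0) (nat_lit 0) (XT.lf (nat_lit 0) (nat_lit 230493661192) (nat_lit 76) (nat_lit 970883144885) (nat_lit 76) (nat_lit 772450998134) (nat_lit 6) (nat_lit 4) (nat_lit 7) (nat_lit 5) (nat_lit 7) (nat_lit 4) (nat_lit 440) (nat_lit 377) (nat_lit 203)) (XT.nd (nat_lit 78) (nat_lit 0) (nat_lit 0) (XT.lf (nat_lit 0) (nat_lit 740441917537) (nat_lit 76) (nat_lit 785096035678) (nat_lit 76) (nat_lit 586663866460) (nat_lit 6) (nat_lit 4) (nat_lit 7) (nat_lit 5) (nat_lit 7) (nat_lit 4) (nat_lit 441) (nat_lit 377) (nat_lit 202)) (XT.lf (nat_lit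 0) (nat_lit 1291185927213) (nat_lit 76) (nat_lit 584446011721) (nat_lit 76) (nat_lit 386013821700) (nat_lit 6) (nat_lit 4) (nat_lit 7) (nat_lit 5) (nat_lit 7) (nat_lit 4) (nat_lit 442) (nat_lit 377) (nat_lit 201)))))) (XT.nd (nat_lit 390) (nat_lit 76) (nat_lit 0) (XT.nd (nat_lit 156) (nat_lit 76) (nat_lit 0) (XT.nd (nat_lit 78) (nat_lit 76) (nat_lit 0) (XT.lf (nat_lit 0) (nat_lit 1885989358424) (nat_lit 76) (nat_lit 367744035837) (nat_lit 76) (nat_lit 169311826554) (nat_lit 6) (nat_lit 4) (nat_lit 7) (nat_lit 5) (nat_lit 7) (nat_lit 4) (nat_lit 443) (nat_lit 377) (nat_lit 200)) (XT.lf (nat_lit 0) (nat_lit 61488408334) (nat_lit 152) (nat_lit 70536337782) (nat_lit 76) (nat_lit 2465207361861) (nat_lit 5) (nat_lit 5) (nat_lit 7) (nat_lit 5) (nat_lit 6) (nat_lit 4) (nat_lit 444) (nat_lit 377) (nat_lit 199))) (XT.nd (nat_lit 78) (nat_lit 0) (nat_lit 0) (XT.lf (nat_lit 0) (nat_lit 315807428452)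 (nat_lit 152) (nat_lit 2335984671123) (nat_lit 0) (nat_lit 132073869534) (nat_lit 4) (nat_lit 5) (nat_lit 6) (nat_lit 4) (nat_lit 4) (nat_lit 4) (nat_lit 445) (nat_lit 377) (nat_lit 198)) (XT.nd (nat_lit 78) (nat_lit 0) (nat_lit 0) (XT.lf (nat_lit 0) (nat_lit 595879822852) (nat_lit 152) (nat_lit 1976971838293) (nat_lit 0) (nat_lit 412146249776) (nat_lit 4) (nat_lit 5) (nat_lit 6) (nat_lit 4) (nat_lit 4) (nat_lit 4) (nat_lit 446) (nat_lit 377) (nat_lit 197)) (XT.lf (nat_lit 0) (nat_lit 898357968807) (nat_lit 152) (nat_lit 1589238059851) (nat_lit 0) (nat_lit 714624382622) (nat_lit 4) (nat_lit 5) (nat_lit 6) (nat_lit 4) (nat_lit 4) (nat_lit 4) (nat_lit 447) (nat_lit 377) (nat_lit 196))))) (XT.nd (nat_lit 234) (nat_lit 76) (nat_lit 0) (XT.nd (nat_lit 78) (nat_lit 0) (nat_lit 0) (XT.lf (nat_lit 0) (nat_lit 1225034329405) (nat_lit 152) (nat_lit 1170485654145) (nat_lit 0) (nat_lit 1041300731082)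 (nat_lit 4) (nat_lit 5) (nat_lit 6) (nat_lit 4) (nat_lit 4) (nat_lit 4) (nat_lit 448) (nat_lit 377) (nat_lit 195)) (XT.nd (nat_lit 78) (nat_lit 0) (nat_lit 0) (XT.lf (nat_lit 0) (nat_lit 1577844764561) (nat_lit 152) (nat_lit 718233125440) (nat_lit 0) (nat_lit 1394111154998) (nat_lit 4) (nat_lit 5) (nat_lit 6) (nat_lit 4) (nat_lit 4) (nat_lit 4) (nat_lit 449) (nat_lit 377) (nat_lit 194)) (XT.lf (nat_lit 0) (nat_lit 1958880002778) (nat_lit 152) (nat_lit 229800458750) (nat_lit 0) (nat_lit 1775146382808) (nat_lit 4) (nat_lit 5) (nat_lit 6) (nat_lit 4) (nat_lit 4) (nat_lit 4) (nat_lit 450) (nat_lit 377) (nat_lit 193)))) (XT.nd (nat_lit 78) (nat_lit 0) (nat_lit 0) (XT.lf (nat_lit 0) (nat_lit 313383472218) (nat_lit 76) (nat_lit 2064551438479) (nat_lit 76) (nat_lit 1880817808874) (nat_lit 3) (nat_lit 4) (nat_lit 4) (nat_lit 5) (nat_lit 4) (nat_lit 4) (nat_lit 451) (nat_lit 377) (nat_lit 192))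 (XT.nd (nat_lit 78) (nat_lit 0) (nat_lit 0) (XT.lf (nat_lit 0) (nat_lit 913091015334) (nat_lit 76) (nat_lit 1923706319083) (nat_lit 76) (nat_lit 1739972680556) (nat_lit 3) (nat_lit 4) (nat_lit 4) (nat_lit 5) (nat_lit 4) (nat_lit 4) (nat_lit 452) (nat_lit 377) (nat_lit 191)) (XT.lf (nat_lit 0) (nat_lit 1560775108159) (nat_lit 76) (nat_lit 1771593617379) (nat_lit 76) (nat_lit 1587859970591) (nat_lit 3) (nat_lit 4) (nat_lit 4) (nat_lit 5) (nat_lit 4) (nat_lit 4) (nat_lit 453) (nat_lit 377) (nat_lit 190))))))))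
noncomputable def xc189 : XT := (XT.nd (nat_lit 48360) (nat_lit 0) (nat_lit 1520) (XT.nd (nat_lit 47580) (nat_lit 0) (nat_lit 3268) (XT.nd (nat_lit 47190) (nat_lit 0) (nat_lit 4636) (XT.nd (nat_lit 156) (nat_lit 0) (nat_lit 0) (XT.nd (nat_lit 78) (nat_lit 0) (nat_lit 0) (XT.lf (nat_lit 0) (nat_lit 2260273878649) (nat_lit 76) (nat_lit 1607311924764) (nat_lit 76) (nat_lit 1423578270327) (nat_lit 3) (nat_lit 4) (nat_lit 4) (nat_lit 5) (nat_lit 4) (nat_lit 4) (nat_lit 454) (nat_lit 377) (nat_lit 189)) (XT.lf (nat_lit 0) (nat_lit 3015732504705) (nat_lit 76) (nat_lit 1429887720097) (nat_lit 76) (nat_lit 1246154058578) (nat_lit 3) (nat_lit 4) (nat_lit 4) (nat_lit 5) (nat_lit 4) (nat_lit 4) (nat_lit 455) (nat_lit 377) (nat_lit 188))) (XT.nd (nat_lit 78) (nat_lit 0) (nat_lit 0) (XT.lf (nat_lit 0) (nat_lit 3831627778185) (nat_lit 76) (nat_lit 1238269600684) (nat_lit 76) (nat_lit 1054535932607) (nat_lit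 3) (nat_lit 4) (nat_lit 4) (nat_lit 5) (nat_lit 4) (nat_lit 4) (nat_lit 456) (nat_lit 377) (nat_lit 187)) (XT.nd (nat_lit 78) (nat_lit 0) (nat_lit 0) (XT.lf (nat_lit 0) (nat_lit 4712794634041) (nat_lit 76) (nat_lit 1031322051743) (nat_lit 76) (nat_lit 847588377593) (nat_lit 3) (nat_lit 4) (nat_lit 4) (nat_lit 5) (nat_lit 4) (nat_lit 4) (nat_lit 457) (nat_lit 377) (nat_lit 186)) (XT.lf (nat_lit 0) (nat_lit 5664454801791) (nat_lit 76) (nat_lit 807818717428) (nat_lit 76) (nat_lit 624085037656) (nat_lit 3) (nat_lit 4) (nat_lit 4) (nat_lit 5) (nat_lit 4) (nat_lit 4) (nat_lit 458) (nat_lit 377) (nat_lit 185))))) (XT.nd (nat_lit 156) (nat_lit 0) (nat_lit 76) (XT.nd (nat_lit 78) (nat_lit 0) (nat_lit 0) (XT.lf (nat_lit 0) (nat_lit 33353828953) (nat_lit 532) (nat_lit 2262248019) (nat_lit 532) (nat_lit 2262248019) (nat_lit 64) (nat_lit 3) (nat_lit 71) (nat_lit 3) (nat_lit 71) (nat_lit 5) (nat_lit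 378) (nat_lit 378) (nat_lit 264)) (XT.lf (nat_lit 76) (nat_lit 33996330868) (nat_lit 0) (nat_lit 36207915781) (nat_lit 532) (nat_lit 8516396647) (nat_lit 65) (nat_lit 5) (nat_lit 64) (nat_lit 3) (nat_lit 71) (nat_lit 5) (nat_lit 379) (nat_lit 378) (nat_lit 263))) (XT.nd (nat_lit 78) (nat_lit 0) (nat_lit 0) (XT.lf (nat_lit 0) (nat_lit 74145331959) (nat_lit 456) (nat_lit 6098562174) (nat_lit 532) (nat_lit 1664681392) (nat_lit 65) (nat_lit 5) (nat_lit 71) (nat_lit 5) (nat_lit 72) (nat_lit 5) (nat_lit 380) (nat_lit 378) (nat_lit 262)) (XT.nd (nat_lit 78) (nat_lit 0) (nat_lit 0) (XT.lf (nat_lit 76) (nat_lit 36502112231) (nat_lit 0) (nat_lit 43716942508) (nat_lit 532) (nat_lit 4987100478) (nat_lit 66) (nat_lit 5) (nat_lit 65) (nat_lit 5) (nat_lit 72) (nat_lit 5) (nat_lit 381) (nat_lit 378) (nat_lit 261)) (XT.lf (nat_lit 76) (nat_lit 82857033772) (nat_lit 0) (nat_lit 4087453796) (nat_lit 532)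 (nat_lit 1809789604) (nat_lit 66) (nat_lit 5) (nat_lit 65) (nat_lit 5) (nat_lit 72) (nat_lit 5) (nat_lit 382) (nat_lit 378) (nat_lit 260)))))) (XT.nd (nat_lit 390) (nat_lit 684) (nat_lit 0) (XT.nd (nat_lit 156) (nat_lit 304) (nat_lit 0) (XT.nd (nat_lit 78) (nat_lit 0) (nat_lit 0) (XT.lf (nat_lit 0) (nat_lit 3518356895) (nat_lit 532) (nat_lit 51043845652) (nat_lit 608) (nat_lit 37862704906) (nat_lit 59) (nat_lit 5) (nat_lit 66) (nat_lit 5) (nat_lit 67) (nat_lit 5) (nat_lit 383) (nat_lit 378) (nat_lit 259)) (XT.lf (nat_lit 0) (nat_lit 9445744870) (nat_lit 532) (nat_lit 3757333569) (nat_lit 608) (nat_lit 83160688573) (nat_lit 59) (nat_lit 5) (nat_lit 66) (nat_lit 5) (nat_lit 67) (nat_lit 5) (nat_lit 384) (nat_lit 378) (nat_lit 258))) (XT.nd (nat_lit 78) (nat_lit 380) (nat_lit 0) (XT.lf (nat_lit 0) (nat_lit 17832154735) (nat_lit 532) (nat_lit 51507025124) (nat_lit 76) (nat_lit 31119769643)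 (nat_lit 60) (nat_lit 5) (nat_lit 67) (nat_lit 5) (nat_lit 61) (nat_lit 5) (nat_lit 385) (nat_lit 378) (nat_lit 257)) (XT.nd (nat_lit 78) (nat_lit 0) (nat_lit 0) (XT.lf (nat_lit 0) (nat_lit 917691102) (nat_lit 380) (nat_lit 26441468985) (nat_lit 456) (nat_lit 77485012479) (nat_lit 55) (nat_lit 5) (nat_lit 60) (nat_lit 5) (nat_lit 61) (nat_lit 5) (nat_lit 386) (nat_lit 378) (nat_lit 256)) (XT.lf (nat_lit 0) (nat_lit 39570819156) (nat_lit 456) (nat_lit 49517529020) (nat_lit 76) (nat_lit 20338066380) (nat_lit 55) (nat_lit 5) (nat_lit 61) (nat_lit 5) (nat_lit 56) (nat_lit 5) (nat_lit 387) (nat_lit 378) (nat_lit 255))))) (XT.nd (nat_lit 156) (nat_lit 456) (nat_lit 0) (XT.nd (nat_lit 78) (nat_lit 0) (nat_lit 0) (XT.lf (nat_lit 0) (nat_lit 9007254941) (nat_lit 228) (nat_lit 44654935631) (nat_lit 304) (nat_lit 60640823470) (nat_lit 52) (nat_lit 5) (nat_lit 55) (nat_lit 5) (nat_lit 56) (nat_lit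 5) (nat_lit 388) (nat_lit 378) (nat_lit 254)) (XT.lf (nat_lit 0) (nat_lit 70349490875) (nat_lit 304) (nat_lit 44547334125) (nat_lit 76) (nat_lit 4555427420) (nat_lit 52) (nat_lit 5) (nat_lit 56) (nat_lit 5) (nat_lit 53) (nat_lit 5) (nat_lit 389) (nat_lit 378) (nat_lit 253))) (XT.nd (nat_lit 78) (nat_lit 228) (nat_lit 0) (XT.lf (nat_lit 0) (nat_lit 20948367384) (nat_lit 228) (nat_lit 69086523613) (nat_lit 304) (nat_lit 34845490041) (nat_lit 49) (nat_lit 5) (nat_lit 52) (nat_lit 5) (nat_lit 53) (nat_lit 5) (nat_lit 390) (nat_lit 378) (nat_lit 252)) (XT.nd (nat_lit 78) (nat_lit 228) (nat_lit 0) (XT.lf (nat_lit 0) (nat_lit 94216536681) (nat_lit 228) (nat_lit 18296054426) (nat_lit 304) (nat_lit 18132771801) (nat_lit 49) (nat_lit 5) (nat_lit 52) (nat_lit 5) (nat_lit 53) (nat_lit 5) (nat_lit 391) (nat_lit 378) (nat_lit 251)) (XT.lf (nat_lit 0) (nat_lit 1747195556) (nat_lit 228) (nat_lit 99304252380)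 (nat_lit 76) (nat_lit 35674169270) (nat_lit 46) (nat_lit 5) (nat_lit 49) (nat_lit 5) (nat_lit 47) (nat_lit 5) (nat_lit 392) (nat_lit 378) (nat_lit 250))))))) (XT.nd (nat_lit 780) (nat_lit 836) (nat_lit 0) (XT.nd (nat_lit 390) (nat_lit 380) (nat_lit 0) (XT.nd (nat_lit 156) (nat_lit 304) (nat_lit 0) (XT.nd (nat_lit 78) (nat_lit 228) (nat_lit 0) (XT.lf (nat_lit 0) (nat_lit 23734553240) (nat_lit 228) (nat_lit 24934008574) (nat_lit 76) (nat_lit 94466321177) (nat_lit 46) (nat_lit 5) (nat_lit 49) (nat_lit 5) (nat_lit 47) (nat_lit 5) (nat_lit 393) (nat_lit 378) (nat_lit 249)) (XT.lf (nat_lit 0) (nat_lit 49109136979) (nat_lit 304) (nat_lit 91869528455) (nat_lit 76) (nat_lit 8947965903) (nat_lit 43) (nat_lit 5) (nat_lit 47) (nat_lit 5) (nat_lit 44) (nat_lit 5) (nat_lit 394) (nat_lit 378) (nat_lit 248))) (XT.nd (nat_lit 78) (nat_lit 304) (nat_lit 0) (XT.lf (nat_lit 0) (nat_lit 78476817722) (nat_lit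 304) (nat_lit 9384089088) (nat_lit 76) (nat_lit 69243762590) (nat_lit 43) (nat_lit 5) (nat_lit 47) (nat_lit 5) (nat_lit 44) (nat_lit 5) (nat_lit 395) (nat_lit 378) (nat_lit 247)) (XT.nd (nat_lit 78) (nat_lit 152) (nat_lit 0) (XT.lf (nat_lit 0) (nat_lit 83896466141) (nat_lit 152) (nat_lit 28314755388) (nat_lit 228) (nat_lit 52484344542) (nat_lit 41) (nat_lit 5) (nat_lit 43) (nat_lit 5) (nat_lit 44) (nat_lit 5) (nat_lit 396) (nat_lit 378) (nat_lit 246)) (XT.lf (nat_lit 0) (nat_lit 12028744980) (nat_lit 152) (nat_lit 138033458475) (nat_lit 228) (nat_lit 22718105191) (nat_lit 39) (nat_lit 5) (nat_lit 41) (nat_lit 5) (nat_lit 42) (nat_lit 5) (nat_lit 397) (nat_lit 378) (nat_lit 245))))) (XT.nd (nat_lit 156) (nat_lit 152) (nat_lit 0) (XT.nd (nat_lit 78) (nat_lit 152) (nat_lit 0) (XT.lf (nat_lit 0) (nat_lit 11959370238) (nat_lit 228) (nat_lit 65477348761) (nat_lit 76) (nat_lit 103816838751) (nat_lit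 38) (nat_lit 5) (nat_lit 41) (nat_lit 5) (nat_lit 39) (nat_lit 5) (nat_lit 398) (nat_lit 378) (nat_lit 244)) (XT.lf (nat_lit 0) (nat_lit 38767493212) (nat_lit 152) (nat_lit 10348185418) (nat_lit 228) (nat_lit 141167221669) (nat_lit 36) (nat_lit 5) (nat_lit 38) (nat_lit 5) (nat_lit 39) (nat_lit 5) (nat_lit 399) (nat_lit 378) (nat_lit 243))) (XT.nd (nat_lit 78) (nat_lit 152) (nat_lit 0) (XT.lf (nat_lit 0) (nat_lit 92574597125) (nat_lit 228) (nat_lit 46356423323) (nat_lit 76) (nat_lit 60837161544) (nat_lit 36) (nat_lit 5) (nat_lit 39) (nat_lit 5) (nat_lit 37) (nat_lit 5) (nat_lit 400) (nat_lit 378) (nat_lit 242)) (XT.nd (nat_lit 78) (nat_lit 0) (nat_lit 0) (XT.lf (nat_lit 0) (nat_lit 70471246572) (nat_lit 152) (nat_lit 71002280475) (nat_lit 228) (nat_lit 68381695494) (nat_lit 34) (nat_lit 5) (nat_lit 36) (nat_lit 5) (nat_lit 37) (nat_lit 5) (nat_lit 401) (nat_lit 378) (nat_lit 241)) (XT.lf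 (nat_lit 0) (nat_lit 195641221915) (nat_lit 228) (nat_lit 21456578957) (nat_lit 76) (nat_lit 3542877568) (nat_lit 34) (nat_lit 5) (nat_lit 37) (nat_lit 5) (nat_lit 35) (nat_lit 4) (nat_lit 402) (nat_lit 378) (nat_lit 240)))))) (XT.nd (nat_lit 390) (nat_lit 380) (nat_lit 0) (XT.nd (nat_lit 156) (nat_lit 152) (nat_lit 0) (XT.nd (nat_lit 78) (nat_lit 152) (nat_lit 0) (XT.lf (nat_lit 0) (nat_lit 25354851945) (nat_lit 152) (nat_lit 123032645487) (nat_lit 76) (nat_lit 83491852871) (nat_lit 32) (nat_lit 5) (nat_lit 34) (nat_lit 5) (nat_lit 33) (nat_lit 5) (nat_lit 403) (nat_lit 378) (nat_lit 239)) (XT.lf (nat_lit 0) (nat_lit 6483606094) (nat_lit 152) (nat_lit 72660821217) (nat_lit 228) (nat_lit 164760138422) (nat_lit 30) (nat_lit 5) (nat_lit 32) (nat_lit 5) (nat_lit 33) (nat_lit 5) (nat_lit 404) (nat_lit 378) (nat_lit 238))) (XT.nd (nat_lit 78) (nat_lit 152) (nat_lit 0) (XT.lf (nat_lit 0) (nat_lit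 140907624264) (nat_lit 228) (nat_lit 103571841774) (nat_lit 76) (nat_lit 12118696025) (nat_lit 30) (nat_lit 5) (nat_lit 33) (nat_lit 5) (nat_lit 31) (nat_lit 4) (nat_lit 405) (nat_lit 378) (nat_lit 237)) (XT.nd (nat_lit 78) (nat_lit 76) (nat_lit 0) (XT.lf (nat_lit 0) (nat_lit 41156266242) (nat_lit 76) (nat_lit 169332452886) (nat_lit 152) (nat_lit 59588379697) (nat_lit 29) (nat_lit 5) (nat_lit 30) (nat_lit 5) (nat_lit 31) (nat_lit 4) (nat_lit 406) (nat_lit 378) (nat_lit 236)) (XT.lf (nat_lit 0) (nat_lit 3856962424) (nat_lit 152) (nat_lit 81153060084) (nat_lit 76) (nat_lit 199389989709) (nat_lit 28) (nat_lit 5) (nat_lit 30) (nat_lit 5) (nat_lit 29) (nat_lit 5) (nat_lit 407) (nat_lit 378) (nat_lit 235))))) (XT.nd (nat_lit 234) (nat_lit 152) (nat_lit 0) (XT.nd (nat_lit 78) (nat_lit 76) (nat_lit 0) (XT.lf (nat_lit 0) (nat_lit 71341358925) (nat_lit 228) (nat_lit 218888940809) (nat_lit 76) (nat_lit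 9340019237) (nat_lit 26) (nat_lit 5) (nat_lit 29) (nat_lit 5) (nat_lit 27) (nat_lit 4) (nat_lit 408) (nat_lit 378) (nat_lit 234)) (XT.nd (nat_lit 78) (nat_lit 76) (nat_lit 0) (XT.lf (nat_lit 0) (nat_lit 148708825144) (nat_lit 228) (nat_lit 57965029528) (nat_lit 76) (nat_lit 108921650225) (nat_lit 26) (nat_lit 5) (nat_lit 29) (nat_lit 5) (nat_lit 27) (nat_lit 4) (nat_lit 409) (nat_lit 378) (nat_lit 233)) (XT.lf (nat_lit 0) (nat_lit 121931933845) (nat_lit 76) (nat_lit 113266002275) (nat_lit 152) (nat_lit 97470189849) (nat_lit 25) (nat_lit 5) (nat_lit 26) (nat_lit 5) (nat_lit 27) (nat_lit 4) (nat_lit 410) (nat_lit 378) (nat_lit 232)))) (XT.nd (nat_lit 78) (nat_lit 152) (nat_lit 0) (XT.lf (nat_lit 0) (nat_lit 319516796784) (nat_lit 76) (nat_lit 10674034382) (nat_lit 152) (nat_lit 20788953209) (nat_lit 25) (nat_lit 5) (nat_lit 26) (nat_lit 5) (nat_lit 27) (nat_lit 4) (nat_lit 411) (nat_lit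 378) (nat_lit 231)) (XT.nd (nat_lit 78) (nat_lit 0) (nat_lit 0) (XT.lf (nat_lit 0) (nat_lit 65543495094) (nat_lit 152) (nat_lit 203744034116) (nat_lit 76) (nat_lit 100819943162) (nat_lit 23) (nat_lit 5) (nat_lit 25) (nat_lit 5) (nat_lit 24) (nat_lit 4) (nat_lit 412) (nat_lit 378) (nat_lit 230)) (XT.lf (nat_lit 0) (nat_lit 158819043201) (nat_lit 152) (nat_lit 9731178846) (nat_lit 76) (nat_lit 222079183795) (nat_lit 23) (nat_lit 5) (nat_lit 25) (nat_lit 5) (nat_lit 24) (nat_lit 4) (nat_lit 413) (nat_lit 378) (nat_lit 229))))))))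
noncomputable def xc190 : XT := (XT.nd (nat_lit 1560) (nat_lit 532) (nat_lit 0) (XT.nd (nat_lit 780) (nat_lit 456) (nat_lit 0) (XT.nd (nat_lit 390) (nat_lit 228) (nat_lit 0) (XT.nd (nat_lit 156) (nat_lit 152) (nat_lit 0) (XT.nd (nat_lit 78) (nat_lit 76) (nat_lit 0) (XT.lf (nat_lit 0) (nat_lit 210323605259) (nat_lit 76) (nat_lit 54291134001) (nat_lit 152) (nat_lit 147773706449) (nat_lit 22) (nat_lit 5) (nat_lit 23) (nat_lit 5) (nat_lit 24) (nat_lit 4) (nat_lit 414) (nat_lit 378) (nat_lit 228)) (XT.lf (nat_lit 0) (nat_lit 11579191034) (nat_lit 76) (nat_lit 369508242130) (nat_lit 76) (nat_lit 54623708271) (nat_lit 21) (nat_lit 4) (nat_lit 22) (nat_lit 5) (nat_lit 22) (nat_lit 4) (nat_lit 415) (nat_lit 378) (nat_lit 227))) (XT.nd (nat_lit 78) (nat_lit 76) (nat_lit 0) (XT.lf (nat_lit 0) (nat_lit 50756560461) (nat_lit 152) (nat_lit 209311097428) (nat_lit 76) (nat_lit 200177269371) (nat_lit 20)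 (nat_lit 5) (nat_lit 22) (nat_lit 5) (nat_lit 21) (nat_lit 4) (nat_lit 416) (nat_lit 378) (nat_lit 226)) (XT.nd (nat_lit 78) (nat_lit 0) (nat_lit 0) (XT.lf (nat_lit 0) (nat_lit 22396683075) (nat_lit 76) (nat_lit 139757941968) (nat_lit 152) (nat_lit 324430209263) (nat_lit 19) (nat_lit 5) (nat_lit 20) (nat_lit 5) (nat_lit 21) (nat_lit 4) (nat_lit 417) (nat_lit 378) (nat_lit 225)) (XT.lf (nat_lit 0) (nat_lit 284544485709) (nat_lit 76) (nat_lit 3642823037) (nat_lit 152) (nat_lit 226386803284) (nat_lit 19) (nat_lit 5) (nat_lit 20) (nat_lit 5) (nat_lit 21) (nat_lit 4) (nat_lit 418) (nat_lit 378) (nat_lit 224))))) (XT.nd (nat_lit 156) (nat_lit 76) (nat_lit 0) (XT.nd (nat_lit 78) (nat_lit 76) (nat_lit 0) (XT.lf (nat_lit 0) (nat_lit 20435716326) (nat_lit 76) (nat_lit 407806064349) (nat_lit 76) (nat_lit 116245617444) (nat_lit 18) (nat_lit 4) (nat_lit 19) (nat_lit 5) (nat_lit 19) (nat_lit 4) (nat_lit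 419) (nat_lit 378) (nat_lit 223)) (XT.lf (nat_lit 0) (nat_lit 9118699905) (nat_lit 152) (nat_lit 272593693569) (nat_lit 76) (nat_lit 294552366043) (nat_lit 17) (nat_lit 5) (nat_lit 19) (nat_lit 5) (nat_lit 18) (nat_lit 4) (nat_lit 420) (nat_lit 378) (nat_lit 222))) (XT.nd (nat_lit 78) (nat_lit 76) (nat_lit 0) (XT.lf (nat_lit 0) (nat_lit 138231738265) (nat_lit 152) (nat_lit 4038705695) (nat_lit 76) (nat_lit 468072327890) (nat_lit 17) (nat_lit 5) (nat_lit 19) (nat_lit 5) (nat_lit 18) (nat_lit 4) (nat_lit 421) (nat_lit 378) (nat_lit 221)) (XT.nd (nat_lit 78) (nat_lit 0) (nat_lit 0) (XT.lf (nat_lit 0) (nat_lit 285302529383) (nat_lit 152) (nat_lit 345895413565) (nat_lit 0) (nat_lit 15338785467) (nat_lit 16) (nat_lit 5) (nat_lit 18) (nat_lit 4) (nat_lit 16) (nat_lit 4) (nat_lit 422) (nat_lit 378) (nat_lit 220)) (XT.lf (nat_lit 0) (nat_lit 447947483326) (nat_lit 152) (nat_lit 59390403544) (nat_lit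 0) (nat_lit 177983634692) (nat_lit 16) (nat_lit 5) (nat_lit 18) (nat_lit 4) (nat_lit 16) (nat_lit 4) (nat_lit 423) (nat_lit 378) (nat_lit 219)))))) (XT.nd (nat_lit 390) (nat_lit 152) (nat_lit 0) (XT.nd (nat_lit 156) (nat_lit 152) (nat_lit 0) (XT.nd (nat_lit 78) (nat_lit 76) (nat_lit 0) (XT.lf (nat_lit 0) (nat_lit 263201160597) (nat_lit 76) (nat_lit 366732746642) (nat_lit 76) (nat_lit 96768801047) (nat_lit 15) (nat_lit 4) (nat_lit 16) (nat_lit 5) (nat_lit 16) (nat_lit 4) (nat_lit 424) (nat_lit 378) (nat_lit 218)) (XT.lf (nat_lit 0) (nat_lit 53995183867) (nat_lit 152) (nat_lit 157654052928) (nat_lit 76) (nat_lit 559505898099) (nat_lit 14) (nat_lit 5) (nat_lit 16) (nat_lit 5) (nat_lit 15) (nat_lit 4) (nat_lit 425) (nat_lit 378) (nat_lit 217))) (XT.nd (nat_lit 78) (nat_lit 76) (nat_lit 0) (XT.lf (nat_lit 0) (nat_lit 179107216738) (nat_lit 76) (nat_lit 36792463665) (nat_lit 152) (nat_lit 602718403489)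 (nat_lit 13) (nat_lit 5) (nat_lit 14) (nat_lit 5) (nat_lit 15) (nat_lit 4) (nat_lit 426) (nat_lit 378) (nat_lit 216)) (XT.nd (nat_lit 78) (nat_lit 76) (nat_lit 0) (XT.lf (nat_lit 0) (nat_lit 398835804027) (nat_lit 152) (nat_lit 321526967041) (nat_lit 0) (nat_lit 148868956367) (nat_lit 13) (nat_lit 5) (nat_lit 15) (nat_lit 4) (nat_lit 13) (nat_lit 4) (nat_lit 427) (nat_lit 378) (nat_lit 215)) (XT.lf (nat_lit 0) (nat_lit 22042446969) (nat_lit 76) (nat_lit 575850037884) (nat_lit 76) (nat_lit 325883124234) (nat_lit 12) (nat_lit 4) (nat_lit 13) (nat_lit 5) (nat_lit 13) (nat_lit 4) (nat_lit 428) (nat_lit 378) (nat_lit 214))))) (XT.nd (nat_lit 156) (nat_lit 76) (nat_lit 0) (XT.nd (nat_lit 78) (nat_lit 76) (nat_lit 0) (XT.lf (nat_lit 0) (nat_lit 411382740559) (nat_lit 76) (nat_lit 410281977041) (nat_lit 76) (nat_lit 160315002289) (nat_lit 12) (nat_lit 4) (nat_lit 13) (nat_lit 5) (nat_lit 13) (nat_lit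 4) (nat_lit 429) (nat_lit 378) (nat_lit 213)) (XT.lf (nat_lit 0) (nat_lit 17573101402) (nat_lit 152) (nat_lit 213414980410) (nat_lit 76) (nat_lit 813816494041) (nat_lit 11) (nat_lit 5) (nat_lit 13) (nat_lit 5) (nat_lit 12) (nat_lit 4) (nat_lit 430) (nat_lit 378) (nat_lit 212))) (XT.nd (nat_lit 78) (nat_lit 0) (nat_lit 0) (XT.lf (nat_lit 0) (nat_lit 177033301555) (nat_lit 76) (nat_lit 28255345207) (nat_lit 152) (nat_lit 906693046055) (nat_lit 10) (nat_lit 5) (nat_lit 11) (nat_lit 5) (nat_lit 12) (nat_lit 4) (nat_lit 431) (nat_lit 378) (nat_lit 211)) (XT.nd (nat_lit 78) (nat_lit 0) (nat_lit 0) (XT.lf (nat_lit 0) (nat_lit 418594298099) (nat_lit 152) (nat_lit 577949602313) (nat_lit 0) (nat_lit 187143249749) (nat_lit 10) (nat_lit 5) (nat_lit 12) (nat_lit 4) (nat_lit 10) (nat_lit 4) (nat_lit 432) (nat_lit 378) (nat_lit 210)) (XT.lf (nat_lit 0) (nat_lit 649698225840) (nat_lit 152) (nat_lit 193124976410)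 (nat_lit 0) (nat_lit 418247135906) (nat_lit 10) (nat_lit 5) (nat_lit 12) (nat_lit 4) (nat_lit 10) (nat_lit 4) (nat_lit 433) (nat_lit 378) (nat_lit 209))))))) (XT.nd (nat_lit 780) (nat_lit 228) (nat_lit 0) (XT.nd (nat_lit 390) (nat_lit 76) (nat_lit 0) (XT.nd (nat_lit 156) (nat_lit 152) (nat_lit 0) (XT.nd (nat_lit 78) (nat_lit 0) (nat_lit 0) (XT.lf (nat_lit 0) (nat_lit 234201160998) (nat_lit 76) (nat_lit 670721775569) (nat_lit 76) (nat_lit 439270647130) (nat_lit 9) (nat_lit 4) (nat_lit 10) (nat_lit 5) (nat_lit 10) (nat_lit 4) (nat_lit 434) (nat_lit 378) (nat_lit 208)) (XT.lf (nat_lit 0) (nat_lit 706696432548) (nat_lit 76) (nat_lit 479149497961) (nat_lit 76) (nat_lit 247698333870) (nat_lit 9) (nat_lit 4) (nat_lit 10) (nat_lit 5) (nat_lit 10) (nat_lit 4) (nat_lit 435) (nat_lit 378) (nat_lit 207))) (XT.nd (nat_lit 78) (nat_lit 152) (nat_lit 0) (XT.lf (nat_lit 0) (nat_lit 1216991191208) (nat_lit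 76) (nat_lit 272251505402) (nat_lit 76) (nat_lit 40800308300) (nat_lit 9) (nat_lit 4) (nat_lit 10) (nat_lit 5) (nat_lit 10) (nat_lit 4) (nat_lit 436) (nat_lit 378) (nat_lit 206)) (XT.nd (nat_lit 78) (nat_lit 0) (nat_lit 0) (XT.lf (nat_lit 0) (nat_lit 136271904111) (nat_lit 76) (nat_lit 40518063090) (nat_lit 152) (nat_lit 1456858077099) (nat_lit 7) (nat_lit 5) (nat_lit 8) (nat_lit 5) (nat_lit 9) (nat_lit 4) (nat_lit 437) (nat_lit 378) (nat_lit 205)) (XT.lf (nat_lit 0) (nat_lit 423409427864) (nat_lit 152) (nat_lit 1111838470585) (nat_lit 0) (nat_lit 209102709373) (nat_lit 7) (nat_lit 5) (nat_lit 9) (nat_lit 4) (nat_lit 7) (nat_lit 4) (nat_lit 438) (nat_lit 378) (nat_lit 204))))) (XT.nd (nat_lit 156) (nat_lit 76) (nat_lit 0) (XT.nd (nat_lit 78) (nat_lit 0) (nat_lit 0) (XT.lf (nat_lit 0) (nat_lit 690810803569) (nat_lit 152) (nat_lit 696510323394) (nat_lit 0) (nat_lit 476504060814) (nat_lit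 7) (nat_lit 5) (nat_lit 9) (nat_lit 4) (nat_lit 7) (nat_lit 4) (nat_lit 439) (nat_lit 378) (nat_lit 203)) (XT.lf (nat_lit 0) (nat_lit 979604234669) (nat_lit 152) (nat_lit 247956034388) (nat_lit 0) (nat_lit 765297469447) (nat_lit 7) (nat_lit 5) (nat_lit 9) (nat_lit 4) (nat_lit 7) (nat_lit 4) (nat_lit 440) (nat_lit 378) (nat_lit 202))) (XT.nd (nat_lit 78) (nat_lit 0) (nat_lit 0) (XT.lf (nat_lit 0) (nat_lit 248935245073) (nat_lit 76) (nat_lit 1048552743203) (nat_lit 76) (nat_lit 834245957177) (nat_lit 6) (nat_lit 4) (nat_lit 7) (nat_lit 5) (nat_lit 7) (nat_lit 4) (nat_lit 441) (nat_lit 378) (nat_lit 201)) (XT.nd (nat_lit 78) (nat_lit 0) (nat_lit 0) (XT.lf (nat_lit 0) (nat_lit 799679207038) (nat_lit 76) (nat_lit 847902743279) (nat_lit 76) (nat_lit 633595937992) (nat_lit 6) (nat_lit 4) (nat_lit 7) (nat_lit 5) (nat_lit 7) (nat_lit 4) (nat_lit 442) (nat_lit 378) (nat_lit 200)) (XT.lf (nat_lit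 0) (nat_lit 1394482594073) (nat_lit 76) (nat_lit 631200789647) (nat_lit 76) (nat_lit 416893966525) (nat_lit 6) (nat_lit 4) (nat_lit 7) (nat_lit 5) (nat_lit 7) (nat_lit 4) (nat_lit 443) (nat_lit 378) (nat_lit 199)))))) (XT.nd (nat_lit 390) (nat_lit 76) (nat_lit 0) (XT.nd (nat_lit 156) (nat_lit 76) (nat_lit 0) (XT.nd (nat_lit 78) (nat_lit 76) (nat_lit 0) (XT.lf (nat_lit 0) (nat_lit 2036870166990) (nat_lit 76) (nat_lit 397162722582) (nat_lit 76) (nat_lit 182855882946) (nat_lit 6) (nat_lit 4) (nat_lit 7) (nat_lit 5) (nat_lit 7) (nat_lit 4) (nat_lit 444) (nat_lit 378) (nat_lit 198)) (XT.lf (nat_lit 0) (nat_lit 66408263616) (nat_lit 152) (nat_lit 76177666604) (nat_lit 76) (nat_lit 2662424683733) (nat_lit 5) (nat_lit 5) (nat_lit 7) (nat_lit 5) (nat_lit 6) (nat_lit 4) (nat_lit 445) (nat_lit 378) (nat_lit 197))) (XT.nd (nat_lit 78) (nat_lit 0) (nat_lit 0) (XT.lf (nat_lit 0) (nat_lit 341072803045)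 (nat_lit 152) (nat_lit 2522861864264) (nat_lit 0) (nat_lit 142640516855) (nat_lit 4) (nat_lit 5) (nat_lit 6) (nat_lit 4) (nat_lit 4) (nat_lit 4) (nat_lit 446) (nat_lit 378) (nat_lit 196)) (XT.nd (nat_lit 78) (nat_lit 0) (nat_lit 0) (XT.lf (nat_lit 0) (nat_lit 643550931195) (nat_lit 152) (nat_lit 2135128121886) (nat_lit 0) (nat_lit 445118632867) (nat_lit 4) (nat_lit 5) (nat_lit 6) (nat_lit 4) (nat_lit 4) (nat_lit 4) (nat_lit 447) (nat_lit 378) (nat_lit 195)) (XT.lf (nat_lit 0) (nat_lit 970227275307) (nat_lit 152) (nat_lit 1716375749573) (nat_lit 0) (nat_lit 771794965740) (nat_lit 4) (nat_lit 5) (nat_lit 6) (nat_lit 4) (nat_lit 4) (nat_lit 4) (nat_lit 448) (nat_lit 378) (nat_lit 194))))) (XT.nd (nat_lit 234) (nat_lit 76) (nat_lit 0) (XT.nd (nat_lit 78) (nat_lit 0) (nat_lit 0) (XT.lf (nat_lit 0) (nat_lit 1323037695198) (nat_lit 152) (nat_lit 1264123251787) (nat_lit 0) (nat_lit 1124605375224)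 (nat_lit 4) (nat_lit 5) (nat_lit 6) (nat_lit 4) (nat_lit 4) (nat_lit 4) (nat_lit 449) (nat_lit 378) (nat_lit 193)) (XT.nd (nat_lit 78) (nat_lit 0) (nat_lit 0) (XT.lf (nat_lit 0) (nat_lit 1704072919281) (nat_lit 152) (nat_lit 775690613725) (nat_lit 0) (nat_lit 1505640589672) (nat_lit 4) (nat_lit 5) (nat_lit 6) (nat_lit 4) (nat_lit 4) (nat_lit 4) (nat_lit 450) (nat_lit 378) (nat_lit 192)) (XT.lf (nat_lit 0) (nat_lit 2115590934070) (nat_lit 152) (nat_lit 248183419755) (nat_lit 0) (nat_lit 1917158595539) (nat_lit 4) (nat_lit 5) (nat_lit 6) (nat_lit 4) (nat_lit 4) (nat_lit 4) (nat_lit 451) (nat_lit 378) (nat_lit 191)))) (XT.nd (nat_lit 78) (nat_lit 0) (nat_lit 0) (XT.lf (nat_lit 0) (nat_lit 338455198457) (nat_lit 76) (nat_lit 2229715022043) (nat_lit 76) (nat_lit 2031282675250) (nat_lit 3) (nat_lit 4) (nat_lit 4) (nat_lit 5) (nat_lit 4) (nat_lit 4) (nat_lit 452) (nat_lit 378) (nat_lit 190))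 (XT.nd (nat_lit 78) (nat_lit 0) (nat_lit 0) (XT.lf (nat_lit 0) (nat_lit 986139267359) (nat_lit 76) (nat_lit 2077602332466) (nat_lit 76) (nat_lit 1879169978025) (nat_lit 3) (nat_lit 4) (nat_lit 4) (nat_lit 5) (nat_lit 4) (nat_lit 4) (nat_lit 453) (nat_lit 378) (nat_lit 189)) (XT.lf (nat_lit 0) (nat_lit 1685638015699) (nat_lit 76) (nat_lit 1913320651081) (nat_lit 76) (nat_lit 1714888289557) (nat_lit 3) (nat_lit 4) (nat_lit 4) (nat_lit 5) (nat_lit 4) (nat_lit 4) (nat_lit 454) (nat_lit 378) (nat_lit 188))))))))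
noncomputable def xc191 : XT := (XT.nd (nat_lit 48516) (nat_lit 0) (nat_lit 1368) (XT.nd (nat_lit 47658) (nat_lit 0) (nat_lit 3040) (XT.nd (nat_lit 47268) (nat_lit 0) (nat_lit 4256) (XT.nd (nat_lit 156) (nat_lit 0) (nat_lit 0) (XT.nd (nat_lit 78) (nat_lit 0) (nat_lit 0) (XT.lf (nat_lit 0) (nat_lit 2441096621244) (nat_lit 76) (nat_lit 1735896456812) (nat_lit 76) (nat_lit 1537464088730) (nat_lit 3) (nat_lit 4) (nat_lit 4) (nat_lit 5) (nat_lit 4) (nat_lit 4) (nat_lit 455) (nat_lit 378) (nat_lit 187)) (XT.lf (nat_lit 0) (nat_lit 3256991875733) (nat_lit 76) (nat_lit 1544278347026) (nat_lit 76) (nat_lit 1345845972872) (nat_lit 3) (nat_lit 4) (nat_lit 4) (nat_lit 5) (nat_lit 4) (nat_lit 4) (nat_lit 456) (nat_lit 378) (nat_lit 186))) (XT.nd (nat_lit 78) (nat_lit 0) (nat_lit 0) (XT.lf (nat_lit 0) (nat_lit 4138158714005) (nat_lit 76) (nat_lit 1337330806999) (nat_lit 76) (nat_lit 1138898427223) (nat_lit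 3) (nat_lit 4) (nat_lit 4) (nat_lit 5) (nat_lit 4) (nat_lit 4) (nat_lit 457) (nat_lit 378) (nat_lit 185)) (XT.nd (nat_lit 46956) (nat_lit 0) (nat_lit 4636) (XT.lf (nat_lit 0) (nat_lit 5089818865473) (nat_lit 76) (nat_lit 1113827480938) (nat_lit 76) (nat_lit 915395095956) (nat_lit 3) (nat_lit 4) (nat_lit 4) (nat_lit 5) (nat_lit 4) (nat_lit 4) (nat_lit 458) (nat_lit 378) (nat_lit 184)) (XT.lf (nat_lit 0) (nat_lit 36032548511) (nat_lit 532) (nat_lit 2437599785) (nat_lit 532) (nat_lit 2437599785) (nat_lit 64) (nat_lit 3) (nat_lit 71) (nat_lit 3) (nat_lit 71) (nat_lit 5) (nat_lit 379) (nat_lit 379) (nat_lit 262))))) (XT.nd (nat_lit 156) (nat_lit 380) (nat_lit 0) (XT.nd (nat_lit 78) (nat_lit 0) (nat_lit 76) (XT.lf (nat_lit 76) (nat_lit 36727008522) (nat_lit 0) (nat_lit 39113125496) (nat_lit 532) (nat_lit 9176578689) (nat_lit 65) (nat_lit 5) (nat_lit 64) (nat_lit 3) (nat_lit 71) (nat_lit 5) (nat_lit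 380) (nat_lit 379) (nat_lit 261)) (XT.lf (nat_lit 0) (nat_lit 80094867196) (nat_lit 456) (nat_lit 6574632796) (nat_lit 532) (nat_lit 1790311992) (nat_lit 65) (nat_lit 5) (nat_lit 71) (nat_lit 5) (nat_lit 72) (nat_lit 5) (nat_lit 381) (nat_lit 379) (nat_lit 260))) (XT.nd (nat_lit 78) (nat_lit 456) (nat_lit 0) (XT.lf (nat_lit 76) (nat_lit 39433796465) (nat_lit 0) (nat_lit 47219641706) (nat_lit 532) (nat_lit 5367845100) (nat_lit 66) (nat_lit 5) (nat_lit 65) (nat_lit 5) (nat_lit 72) (nat_lit 5) (nat_lit 382) (nat_lit 379) (nat_lit 259)) (XT.nd (nat_lit 78) (nat_lit 456) (nat_lit 0) (XT.lf (nat_lit 76) (nat_lit 89496258747) (nat_lit 0) (nat_lit 4419398061) (nat_lit 532) (nat_lit 1937699239) (nat_lit 66) (nat_lit 5) (nat_lit 65) (nat_lit 5) (nat_lit 72) (nat_lit 5) (nat_lit 383) (nat_lit 379) (nat_lit 258)) (XT.lf (nat_lit 0) (nat_lit 3814844157) (nat_lit 532) (nat_lit 55114810386) (nat_lit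 608) (nat_lit 40888031595) (nat_lit 59) (nat_lit 5) (nat_lit 66) (nat_lit 5) (nat_lit 67) (nat_lit 5) (nat_lit 384) (nat_lit 379) (nat_lit 257)))))) (XT.nd (nat_lit 390) (nat_lit 684) (nat_lit 0) (XT.nd (nat_lit 156) (nat_lit 532) (nat_lit 0) (XT.nd (nat_lit 78) (nat_lit 0) (nat_lit 76) (XT.lf (nat_lit 0) (nat_lit 10215310673) (nat_lit 532) (nat_lit 4046306442) (nat_lit 608) (nat_lit 89810127266) (nat_lit 59) (nat_lit 5) (nat_lit 66) (nat_lit 5) (nat_lit 67) (nat_lit 5) (nat_lit 385) (nat_lit 379) (nat_lit 256)) (XT.lf (nat_lit 0) (nat_lit 19271831501) (nat_lit 532) (nat_lit 55615160851) (nat_lit 76) (nat_lit 33607614115) (nat_lit 60) (nat_lit 5) (nat_lit 67) (nat_lit 5) (nat_lit 61) (nat_lit 5) (nat_lit 386) (nat_lit 379) (nat_lit 255))) (XT.nd (nat_lit 78) (nat_lit 228) (nat_lit 0) (XT.lf (nat_lit 0) (nat_lit 1003218083) (nat_lit 380) (nat_lit 28557099790) (nat_lit 456) (nat_lit 83670384645)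 (nat_lit 55) (nat_lit 5) (nat_lit 60) (nat_lit 5) (nat_lit 61) (nat_lit 5) (nat_lit 387) (nat_lit 379) (nat_lit 254)) (XT.nd (nat_lit 78) (nat_lit 228) (nat_lit 0) (XT.lf (nat_lit 0) (nat_lit 42747982322) (nat_lit 456) (nat_lit 53466780341) (nat_lit 76) (nat_lit 21964836122) (nat_lit 55) (nat_lit 5) (nat_lit 61) (nat_lit 5) (nat_lit 56) (nat_lit 5) (nat_lit 388) (nat_lit 379) (nat_lit 253)) (XT.lf (nat_lit 0) (nat_lit 9739678717) (nat_lit 228) (nat_lit 48226417892) (nat_lit 304) (nat_lit 65480275645) (nat_lit 52) (nat_lit 5) (nat_lit 55) (nat_lit 5) (nat_lit 56) (nat_lit 5) (nat_lit 389) (nat_lit 379) (nat_lit 252))))) (XT.nd (nat_lit 234) (nat_lit 456) (nat_lit 0) (XT.nd (nat_lit 78) (nat_lit 228) (nat_lit 0) (XT.lf (nat_lit 0) (nat_lit 75987591570) (nat_lit 304) (nat_lit 48099357573) (nat_lit 76) (nat_lit 4920664334) (nat_lit 52) (nat_lit 5) (nat_lit 56) (nat_lit 5) (nat_lit 53) (nat_lit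 5) (nat_lit 390) (nat_lit 379) (nat_lit 251)) (XT.nd (nat_lit 78) (nat_lit 0) (nat_lit 0) (XT.lf (nat_lit 0) (nat_lit 22635702253) (nat_lit 228) (nat_lit 74611645977) (nat_lit 304) (nat_lit 37622682772) (nat_lit 49) (nat_lit 5) (nat_lit 52) (nat_lit 5) (nat_lit 53) (nat_lit 5) (nat_lit 391) (nat_lit 379) (nat_lit 250)) (XT.lf (nat_lit 0) (nat_lit 101764475799) (nat_lit 228) (nat_lit 19758072554) (nat_lit 304) (nat_lit 19573720885) (nat_lit 49) (nat_lit 5) (nat_lit 52) (nat_lit 5) (nat_lit 53) (nat_lit 5) (nat_lit 392) (nat_lit 379) (nat_lit 249)))) (XT.nd (nat_lit 78) (nat_lit 228) (nat_lit 0) (XT.lf (nat_lit 0) (nat_lit 1895789148) (nat_lit 228) (nat_lit 107237109714) (nat_lit 76) (nat_lit 38530056534) (nat_lit 46) (nat_lit 5) (nat_lit 49) (nat_lit 5) (nat_lit 47) (nat_lit 5) (nat_lit 393) (nat_lit 379) (nat_lit 248)) (XT.nd (nat_lit 78) (nat_lit 228) (nat_lit 0) (XT.lf (nat_lit 0) (nat_lit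 25641482266) (nat_lit 228) (nat_lit 26918096986) (nat_lit 76) (nat_lit 102025435872) (nat_lit 46) (nat_lit 5) (nat_lit 49) (nat_lit 5) (nat_lit 47) (nat_lit 5) (nat_lit 394) (nat_lit 379) (nat_lit 247)) (XT.lf (nat_lit 0) (nat_lit 53045738560) (nat_lit 304) (nat_lit 99208159385) (nat_lit 76) (nat_lit 9666229319) (nat_lit 43) (nat_lit 5) (nat_lit 47) (nat_lit 5) (nat_lit 44) (nat_lit 5) (nat_lit 395) (nat_lit 379) (nat_lit 246))))))) (XT.nd (nat_lit 780) (nat_lit 684) (nat_lit 0) (XT.nd (nat_lit 390) (nat_lit 456) (nat_lit 0) (XT.nd (nat_lit 156) (nat_lit 380) (nat_lit 0) (XT.nd (nat_lit 78) (nat_lit 152) (nat_lit 0) (XT.lf (nat_lit 0) (nat_lit 84762250754) (nat_lit 304) (nat_lit 10124694597) (nat_lit 76) (nat_lit 74785510027) (nat_lit 43) (nat_lit 5) (nat_lit 47) (nat_lit 5) (nat_lit 44) (nat_lit 5) (nat_lit 396) (nat_lit 379) (nat_lit 245)) (XT.lf (nat_lit 0) (nat_lit 90618048807) (nat_lit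 152) (nat_lit 30577055498) (nat_lit 228) (nat_lit 56675544021) (nat_lit 41) (nat_lit 5) (nat_lit 43) (nat_lit 5) (nat_lit 44) (nat_lit 5) (nat_lit 397) (nat_lit 379) (nat_lit 244))) (XT.nd (nat_lit 78) (nat_lit 228) (nat_lit 0) (XT.lf (nat_lit 0) (nat_lit 13001141455) (nat_lit 152) (nat_lit 149072812889) (nat_lit 228) (nat_lit 24528233111) (nat_lit 39) (nat_lit 5) (nat_lit 41) (nat_lit 5) (nat_lit 42) (nat_lit 5) (nat_lit 398) (nat_lit 379) (nat_lit 243)) (XT.nd (nat_lit 78) (nat_lit 152) (nat_lit 0) (XT.lf (nat_lit 0) (nat_lit 12922559019) (nat_lit 228) (nat_lit 70705845272) (nat_lit 76) (nat_lit 112124919591) (nat_lit 38) (nat_lit 5) (nat_lit 41) (nat_lit 5) (nat_lit 39) (nat_lit 5) (nat_lit 399) (nat_lit 379) (nat_lit 242)) (XT.lf (nat_lit 0) (nat_lit 41878338707) (nat_lit 152) (nat_lit 11172783578) (nat_lit 228) (nat_lit 152453911783) (nat_lit 36) (nat_lit 5) (nat_lit 38) (nat_lit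 5) (nat_lit 39) (nat_lit 5) (nat_lit 400) (nat_lit 379) (nat_lit 241))))) (XT.nd (nat_lit 156) (nat_lit 304) (nat_lit 0) (XT.nd (nat_lit 78) (nat_lit 152) (nat_lit 0) (XT.lf (nat_lit 0) (nat_lit 99986368309) (nat_lit 228) (nat_lit 50055802030) (nat_lit 76) (nat_lit 65706999063) (nat_lit 36) (nat_lit 5) (nat_lit 39) (nat_lit 5) (nat_lit 37) (nat_lit 5) (nat_lit 401) (nat_lit 379) (nat_lit 240)) (XT.lf (nat_lit 0) (nat_lit 76117850187) (nat_lit 152) (nat_lit 76679146695) (nat_lit 228) (nat_lit 73846193786) (nat_lit 34) (nat_lit 5) (nat_lit 36) (nat_lit 5) (nat_lit 37) (nat_lit 5) (nat_lit 402) (nat_lit 379) (nat_lit 239))) (XT.nd (nat_lit 78) (nat_lit 304) (nat_lit 0) (XT.lf (nat_lit 0) (nat_lit 211297767284) (nat_lit 228) (nat_lit 23164518412) (nat_lit 76) (nat_lit 3829224744) (nat_lit 34) (nat_lit 5) (nat_lit 37) (nat_lit 5) (nat_lit 35) (nat_lit 4) (nat_lit 403) (nat_lit 379) (nat_lit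 238)) (XT.nd (nat_lit 78) (nat_lit 152) (nat_lit 0) (XT.lf (nat_lit 0) (nat_lit 27388433893) (nat_lit 152) (nat_lit 132866612043) (nat_lit 76) (nat_lit 90174234774) (nat_lit 32) (nat_lit 5) (nat_lit 34) (nat_lit 5) (nat_lit 33) (nat_lit 5) (nat_lit 404) (nat_lit 379) (nat_lit 237)) (XT.lf (nat_lit 0) (nat_lit 7010720802) (nat_lit 152) (nat_lit 78470272412) (nat_lit 228) (nat_lit 177935534883) (nat_lit 30) (nat_lit 5) (nat_lit 32) (nat_lit 5) (nat_lit 33) (nat_lit 5) (nat_lit 405) (nat_lit 379) (nat_lit 236)))))) (XT.nd (nat_lit 390) (nat_lit 380) (nat_lit 0) (XT.nd (nat_lit 156) (nat_lit 228) (nat_lit 0) (XT.nd (nat_lit 78) (nat_lit 76) (nat_lit 0) (XT.lf (nat_lit 0) (nat_lit 152184950720) (nat_lit 228) (nat_lit 111849490045) (nat_lit 76) (nat_lit 13091195128) (nat_lit 30) (nat_lit 5) (nat_lit 33) (nat_lit 5) (nat_lit 31) (nat_lit 4) (nat_lit 406) (nat_lit 379) (nat_lit 235)) (XT.lf (nat_lit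 0) (nat_lit 44456661572) (nat_lit 76) (nat_lit 182875712082) (nat_lit 152) (nat_lit 64350526839) (nat_lit 29) (nat_lit 5) (nat_lit 30) (nat_lit 5) (nat_lit 31) (nat_lit 4) (nat_lit 407) (nat_lit 379) (nat_lit 234))) (XT.nd (nat_lit 78) (nat_lit 152) (nat_lit 0) (XT.lf (nat_lit 0) (nat_lit 4169849931) (nat_lit 152) (nat_lit 87637766127) (nat_lit 76) (nat_lit 215344049257) (nat_lit 28) (nat_lit 5) (nat_lit 30) (nat_lit 5) (nat_lit 29) (nat_lit 5) (nat_lit 408) (nat_lit 379) (nat_lit 233)) (XT.nd (nat_lit 78) (nat_lit 0) (nat_lit 0) (XT.lf (nat_lit 0) (nat_lit 77052930123) (nat_lit 228) (nat_lit 236392447949) (nat_lit 76) (nat_lit 10090224085) (nat_lit 26) (nat_lit 5) (nat_lit 29) (nat_lit 5) (nat_lit 27) (nat_lit 4) (nat_lit 409) (nat_lit 379) (nat_lit 232)) (XT.lf (nat_lit 0) (nat_lit 160609477900) (nat_lit 228) (nat_lit 62595187330) (nat_lit 76) (nat_lit 117638163085) (nat_lit 26) (nat_lit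 5) (nat_lit 29) (nat_lit 5) (nat_lit 27) (nat_lit 4) (nat_lit 410) (nat_lit 379) (nat_lit 231))))) (XT.nd (nat_lit 234) (nat_lit 152) (nat_lit 0) (XT.nd (nat_lit 78) (nat_lit 152) (nat_lit 0) (XT.lf (nat_lit 0) (nat_lit 131693354769) (nat_lit 76) (nat_lit 122324235766) (nat_lit 152) (nat_lit 105263678807) (nat_lit 25) (nat_lit 5) (nat_lit 26) (nat_lit 5) (nat_lit 27) (nat_lit 4) (nat_lit 411) (nat_lit 379) (nat_lit 230)) (XT.nd (nat_lit 78) (nat_lit 152) (nat_lit 0) (XT.lf (nat_lit 0) (nat_lit 345084498134) (nat_lit 76) (nat_lit 11525136123) (nat_lit 152) (nat_lit 22448248882) (nat_lit 25) (nat_lit 5) (nat_lit 26) (nat_lit 5) (nat_lit 27) (nat_lit 4) (nat_lit 412) (nat_lit 379) (nat_lit 229)) (XT.lf (nat_lit 0) (nat_lit 70790557865) (nat_lit 152) (nat_lit 220036959932) (nat_lit 76) (nat_lit 108888264805) (nat_lit 23) (nat_lit 5) (nat_lit 25) (nat_lit 5) (nat_lit 24) (nat_lit 4) (nat_lit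 413) (nat_lit 379) (nat_lit 228)))) (XT.nd (nat_lit 78) (nat_lit 152) (nat_lit 0) (XT.lf (nat_lit 0) (nat_lit 171527884402) (nat_lit 152) (nat_lit 10503564900) (nat_lit 76) (nat_lit 239848042749) (nat_lit 23) (nat_lit 5) (nat_lit 25) (nat_lit 5) (nat_lit 24) (nat_lit 4) (nat_lit 414) (nat_lit 379) (nat_lit 227)) (XT.nd (nat_lit 78) (nat_lit 76) (nat_lit 0) (XT.lf (nat_lit 0) (nat_lit 227155447295) (nat_lit 76) (nat_lit 58631686276) (nat_lit 152) (nat_lit 159592129804) (nat_lit 22) (nat_lit 5) (nat_lit 23) (nat_lit 5) (nat_lit 24) (nat_lit 4) (nat_lit 415) (nat_lit 379) (nat_lit 226)) (XT.lf (nat_lit 0) (nat_lit 12511516474) (nat_lit 76) (nat_lit 399066093397) (nat_lit 76) (nat_lit 58990167595) (nat_lit 21) (nat_lit 4) (nat_lit 22) (nat_lit 5) (nat_lit 22) (nat_lit 4) (nat_lit 416) (nat_lit 379) (nat_lit 225))))))))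
noncomputable def xc192 : XT := (XT.nd (nat_lit 1560) (nat_lit 456) (nat_lit 0) (XT.nd (nat_lit 780) (nat_lit 380) (nat_lit 0) (XT.nd (nat_lit 390) (nat_lit 228) (nat_lit 0) (XT.nd (nat_lit 156) (nat_lit 152) (nat_lit 0) (XT.nd (nat_lit 78) (nat_lit 76) (nat_lit 0) (XT.lf (nat_lit 0) (nat_lit 54820108806) (nat_lit 152) (nat_lit 226050278951) (nat_lit 76) (nat_lit 216193891187) (nat_lit 20) (nat_lit 5) (nat_lit 22) (nat_lit 5) (nat_lit 21) (nat_lit 4) (nat_lit 417) (nat_lit 379) (nat_lit 224)) (XT.lf (nat_lit 0) (nat_lit 24193979530) (nat_lit 76) (nat_lit 150935948822) (nat_lit 152) (nat_lit 350381457463) (nat_lit 19) (nat_lit 5) (nat_lit 20) (nat_lit 5) (nat_lit 21) (nat_lit 4) (nat_lit 418) (nat_lit 379) (nat_lit 223))) (XT.nd (nat_lit 78) (nat_lit 152) (nat_lit 0) (XT.lf (nat_lit 0) (nat_lit 307313194389) (nat_lit 76) (nat_lit 3931815080) (nat_lit 152) (nat_lit 244494813712) (nat_lit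 19) (nat_lit 5) (nat_lit 20) (nat_lit 5) (nat_lit 21) (nat_lit 4) (nat_lit 419) (nat_lit 379) (nat_lit 222)) (XT.nd (nat_lit 78) (nat_lit 76) (nat_lit 0) (XT.lf (nat_lit 0) (nat_lit 22075748325) (nat_lit 76) (nat_lit 440428068289) (nat_lit 76) (nat_lit 125542357385) (nat_lit 18) (nat_lit 4) (nat_lit 19) (nat_lit 5) (nat_lit 19) (nat_lit 4) (nat_lit 420) (nat_lit 379) (nat_lit 221)) (XT.lf (nat_lit 0) (nat_lit 9850755075) (nat_lit 152) (nat_lit 294396262490) (nat_lit 76) (nat_lit 318118717560) (nat_lit 17) (nat_lit 5) (nat_lit 19) (nat_lit 5) (nat_lit 18) (nat_lit 4) (nat_lit 421) (nat_lit 379) (nat_lit 220))))) (XT.nd (nat_lit 156) (nat_lit 152) (nat_lit 0) (XT.nd (nat_lit 78) (nat_lit 76) (nat_lit 0) (XT.lf (nat_lit 0) (nat_lit 149292646935) (nat_lit 152) (nat_lit 4357240516) (nat_lit 76) (nat_lit 505520116189) (nat_lit 17) (nat_lit 5) (nat_lit 19) (nat_lit 5) (nat_lit 18) (nat_lit 4)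 (nat_lit 422) (nat_lit 379) (nat_lit 219)) (XT.lf (nat_lit 0) (nat_lit 308129084336) (nat_lit 152) (nat_lit 373562467650) (nat_lit 0) (nat_lit 16567926133) (nat_lit 16) (nat_lit 5) (nat_lit 18) (nat_lit 4) (nat_lit 16) (nat_lit 4) (nat_lit 423) (nat_lit 379) (nat_lit 218))) (XT.nd (nat_lit 78) (nat_lit 152) (nat_lit 0) (XT.lf (nat_lit 0) (nat_lit 483785460328) (nat_lit 152) (nat_lit 64137396012) (nat_lit 0) (nat_lit 192224212346) (nat_lit 16) (nat_lit 5) (nat_lit 18) (nat_lit 4) (nat_lit 16) (nat_lit 4) (nat_lit 424) (nat_lit 379) (nat_lit 217)) (XT.nd (nat_lit 78) (nat_lit 76) (nat_lit 0) (XT.lf (nat_lit 0) (nat_lit 284261385923) (nat_lit 76) (nat_lit 396069350260) (nat_lit 76) (nat_lit 104508019149) (nat_lit 15) (nat_lit 4) (nat_lit 16) (nat_lit 5) (nat_lit 16) (nat_lit 4) (nat_lit 425) (nat_lit 379) (nat_lit 216)) (XT.lf (nat_lit 0) (nat_lit 58316809343) (nat_lit 152) (nat_lit 170262444646)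 (nat_lit 76) (nat_lit 604268130571) (nat_lit 14) (nat_lit 5) (nat_lit 16) (nat_lit 5) (nat_lit 15) (nat_lit 4) (nat_lit 426) (nat_lit 379) (nat_lit 215)))))) (XT.nd (nat_lit 390) (nat_lit 152) (nat_lit 0) (XT.nd (nat_lit 156) (nat_lit 152) (nat_lit 0) (XT.nd (nat_lit 78) (nat_lit 0) (nat_lit 0) (XT.lf (nat_lit 0) (nat_lit 193439627036) (nat_lit 76) (nat_lit 39733981803) (nat_lit 152) (nat_lit 650933765200) (nat_lit 13) (nat_lit 5) (nat_lit 14) (nat_lit 5) (nat_lit 15) (nat_lit 4) (nat_lit 427) (nat_lit 379) (nat_lit 214)) (XT.lf (nat_lit 0) (nat_lit 430744519453) (nat_lit 152) (nat_lit 347245472242) (nat_lit 0) (nat_lit 160780125619) (nat_lit 13) (nat_lit 5) (nat_lit 15) (nat_lit 4) (nat_lit 13) (nat_lit 4) (nat_lit 428) (nat_lit 379) (nat_lit 213))) (XT.nd (nat_lit 78) (nat_lit 76) (nat_lit 0) (XT.lf (nat_lit 0) (nat_lit 23809402430) (nat_lit 76) (nat_lit 621916280808) (nat_lit 76) (nat_lit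 351951830399) (nat_lit 12) (nat_lit 4) (nat_lit 13) (nat_lit 5) (nat_lit 13) (nat_lit 4) (nat_lit 429) (nat_lit 379) (nat_lit 212)) (XT.nd (nat_lit 78) (nat_lit 76) (nat_lit 0) (XT.lf (nat_lit 0) (nat_lit 444296655825) (nat_lit 76) (nat_lit 443102905476) (nat_lit 76) (nat_lit 173138402681) (nat_lit 12) (nat_lit 4) (nat_lit 13) (nat_lit 5) (nat_lit 13) (nat_lit 4) (nat_lit 430) (nat_lit 379) (nat_lit 211)) (XT.lf (nat_lit 0) (nat_lit 18980532624) (nat_lit 152) (nat_lit 230485043440) (nat_lit 76) (nat_lit 878923239041) (nat_lit 11) (nat_lit 5) (nat_lit 13) (nat_lit 5) (nat_lit 12) (nat_lit 4) (nat_lit 431) (nat_lit 379) (nat_lit 210))))) (XT.nd (nat_lit 156) (nat_lit 76) (nat_lit 0) (XT.nd (nat_lit 78) (nat_lit 0) (nat_lit 0) (XT.lf (nat_lit 0) (nat_lit 191199021704) (nat_lit 76) (nat_lit 30514256139) (nat_lit 152) (nat_lit 979226827099) (nat_lit 10) (nat_lit 5) (nat_lit 11) (nat_lit 5)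 (nat_lit 12) (nat_lit 4) (nat_lit 432) (nat_lit 379) (nat_lit 209)) (XT.lf (nat_lit 0) (nat_lit 452083301035) (nat_lit 152) (nat_lit 624182660452) (nat_lit 0) (nat_lit 202116043817) (nat_lit 10) (nat_lit 5) (nat_lit 12) (nat_lit 4) (nat_lit 10) (nat_lit 4) (nat_lit 433) (nat_lit 379) (nat_lit 208))) (XT.nd (nat_lit 78) (nat_lit 76) (nat_lit 0) (XT.lf (nat_lit 0) (nat_lit 701675434915) (nat_lit 152) (nat_lit 208572280036) (nat_lit 0) (nat_lit 451708142045) (nat_lit 10) (nat_lit 5) (nat_lit 12) (nat_lit 4) (nat_lit 10) (nat_lit 4) (nat_lit 434) (nat_lit 379) (nat_lit 207)) (XT.nd (nat_lit 78) (nat_lit 0) (nat_lit 0) (XT.lf (nat_lit 0) (nat_lit 252939880150) (nat_lit 76) (nat_lit 724378205437) (nat_lit 76) (nat_lit 474410879555) (nat_lit 9) (nat_lit 4) (nat_lit 10) (nat_lit 5) (nat_lit 10) (nat_lit 4) (nat_lit 435) (nat_lit 379) (nat_lit 206)) (XT.lf (nat_lit 0) (nat_lit 763234578886) (nat_lit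 76) (nat_lit 517480242819) (nat_lit 76) (nat_lit 267512886371) (nat_lit 9) (nat_lit 4) (nat_lit 10) (nat_lit 5) (nat_lit 10) (nat_lit 4) (nat_lit 436) (nat_lit 379) (nat_lit 205))))))) (XT.nd (nat_lit 780) (nat_lit 152) (nat_lit 0) (XT.nd (nat_lit 390) (nat_lit 152) (nat_lit 0) (XT.nd (nat_lit 156) (nat_lit 0) (nat_lit 0) (XT.nd (nat_lit 78) (nat_lit 152) (nat_lit 0) (XT.lf (nat_lit 0) (nat_lit 1314352738110) (nat_lit 76) (nat_lit 294030500854) (nat_lit 76) (nat_lit 44063116104) (nat_lit 9) (nat_lit 4) (nat_lit 10) (nat_lit 5) (nat_lit 10) (nat_lit 4) (nat_lit 437) (nat_lit 379) (nat_lit 204)) (XT.lf (nat_lit 0) (nat_lit 147175910469) (nat_lit 76) (nat_lit 43758378677) (nat_lit 152) (nat_lit 1573405508643) (nat_lit 7) (nat_lit 5) (nat_lit 8) (nat_lit 5) (nat_lit 9) (nat_lit 4) (nat_lit 438) (nat_lit 379) (nat_lit 203))) (XT.nd (nat_lit 78) (nat_lit 0) (nat_lit 0) (XT.lf (nat_lit 0) (nat_lit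 457283248512) (nat_lit 152) (nat_lit 1200783402935) (nat_lit 0) (nat_lit 225831919605) (nat_lit 7) (nat_lit 5) (nat_lit 9) (nat_lit 4) (nat_lit 7) (nat_lit 4) (nat_lit 439) (nat_lit 379) (nat_lit 202)) (XT.nd (nat_lit 78) (nat_lit 0) (nat_lit 0) (XT.lf (nat_lit 0) (nat_lit 746076655279) (nat_lit 152) (nat_lit 752229162879) (nat_lit 0) (nat_lit 514625305569) (nat_lit 7) (nat_lit 5) (nat_lit 9) (nat_lit 4) (nat_lit 7) (nat_lit 4) (nat_lit 440) (nat_lit 379) (nat_lit 201)) (XT.lf (nat_lit 0) (nat_lit 1057973487725) (nat_lit 152) (nat_lit 267790677893) (nat_lit 0) (nat_lit 826522118753) (nat_lit 7) (nat_lit 5) (nat_lit 9) (nat_lit 4) (nat_lit 7) (nat_lit 4) (nat_lit 441) (nat_lit 379) (nat_lit 200))))) (XT.nd (nat_lit 156) (nat_lit 76) (nat_lit 0) (XT.nd (nat_lit 78) (nat_lit 0) (nat_lit 0) (XT.lf (nat_lit 0) (nat_lit 268851857362) (nat_lit 76) (nat_lit 1132436059647) (nat_lit 76) (nat_lit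 900984672840) (nat_lit 6) (nat_lit 4) (nat_lit 7) (nat_lit 5) (nat_lit 7) (nat_lit 4) (nat_lit 442) (nat_lit 379) (nat_lit 199)) (XT.lf (nat_lit 0) (nat_lit 863655203493) (nat_lit 76) (nat_lit 915734126620) (nat_lit 76) (nat_lit 684282723299) (nat_lit 6) (nat_lit 4) (nat_lit 7) (nat_lit 5) (nat_lit 7) (nat_lit 4) (nat_lit 443) (nat_lit 379) (nat_lit 198))) (XT.nd (nat_lit 78) (nat_lit 76) (nat_lit 0) (XT.lf (nat_lit 0) (nat_lit 1506042738536) (nat_lit 76) (nat_lit 681696078632) (nat_lit 76) (nat_lit 450244660021) (nat_lit 6) (nat_lit 4) (nat_lit 7) (nat_lit 5) (nat_lit 7) (nat_lit 4) (nat_lit 444) (nat_lit 379) (nat_lit 197)) (XT.nd (nat_lit 78) (nat_lit 76) (nat_lit 0) (XT.lf (nat_lit 0) (nat_lit 2199821203439) (nat_lit 76) (nat_lit 428935023549) (nat_lit 76) (nat_lit 197483590779) (nat_lit 6) (nat_lit 4) (nat_lit 7) (nat_lit 5) (nat_lit 7) (nat_lit 4) (nat_lit 445) (nat_lit 379) (nat_lit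 196)) (XT.lf (nat_lit 0) (nat_lit 71721595672) (nat_lit 152) (nat_lit 82270526880) (nat_lit 76) (nat_lit 2875419286795) (nat_lit 5) (nat_lit 5) (nat_lit 7) (nat_lit 5) (nat_lit 6) (nat_lit 4) (nat_lit 446) (nat_lit 379) (nat_lit 195)))))) (XT.nd (nat_lit 390) (nat_lit 76) (nat_lit 0) (XT.nd (nat_lit 156) (nat_lit 0) (nat_lit 0) (XT.nd (nat_lit 78) (nat_lit 0) (nat_lit 0) (XT.lf (nat_lit 0) (nat_lit 368359296284) (nat_lit 152) (nat_lit 2724689458340) (nat_lit 0) (nat_lit 154052390712) (nat_lit 4) (nat_lit 5) (nat_lit 6) (nat_lit 4) (nat_lit 4) (nat_lit 4) (nat_lit 447) (nat_lit 379) (nat_lit 194)) (XT.lf (nat_lit 0) (nat_lit 695035625131) (nat_lit 152) (nat_lit 2305937116946) (nat_lit 0) (nat_lit 480728709153) (nat_lit 4) (nat_lit 5) (nat_lit 6) (nat_lit 4) (nat_lit 4) (nat_lit 4) (nat_lit 448) (nat_lit 379) (nat_lit 193))) (XT.nd (nat_lit 78) (nat_lit 0) (nat_lit 0) (XT.lf (nat_lit 0)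 (nat_lit 1047846030888) (nat_lit 152) (nat_lit 1853684647789) (nat_lit 0) (nat_lit 833539105274) (nat_lit 4) (nat_lit 5) (nat_lit 6) (nat_lit 4) (nat_lit 4) (nat_lit 4) (nat_lit 449) (nat_lit 379) (nat_lit 192)) (XT.nd (nat_lit 78) (nat_lit 0) (nat_lit 0) (XT.lf (nat_lit 0) (nat_lit 1428881241884) (nat_lit 152) (nat_lit 1365252036235) (nat_lit 0) (nat_lit 1214574307348) (nat_lit 4) (nat_lit 5) (nat_lit 6) (nat_lit 4) (nat_lit 4) (nat_lit 4) (nat_lit 450) (nat_lit 379) (nat_lit 191)) (XT.lf (nat_lit 0) (nat_lit 1840399244555) (nat_lit 152) (nat_lit 837744866810) (nat_lit 0) (nat_lit 1626092301759) (nat_lit 4) (nat_lit 5) (nat_lit 6) (nat_lit 4) (nat_lit 4) (nat_lit 4) (nat_lit 451) (nat_lit 379) (nat_lit 190))))) (XT.nd (nat_lit 234) (nat_lit 0) (nat_lit 0) (XT.nd (nat_lit 78) (nat_lit 76) (nat_lit 0) (XT.lf (nat_lit 0) (nat_lit 2284838664103) (nat_lit 152) (nat_lit 268037171101) (nat_lit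 0) (nat_lit 2070531713657) (nat_lit 4) (nat_lit 5) (nat_lit 6) (nat_lit 4) (nat_lit 4) (nat_lit 4) (nat_lit 452) (nat_lit 379) (nat_lit 189)) (XT.nd (nat_lit 78) (nat_lit 0) (nat_lit 0) (XT.lf (nat_lit 0) (nat_lit 365532513221) (nat_lit 76) (nat_lit 2408091768118) (nat_lit 76) (nat_lit 2193784810589) (nat_lit 3) (nat_lit 4) (nat_lit 4) (nat_lit 5) (nat_lit 4) (nat_lit 4) (nat_lit 453) (nat_lit 379) (nat_lit 188)) (XT.lf (nat_lit 0) (nat_lit 1065031241051) (nat_lit 76) (nat_lit 2243810097130) (nat_lit 76) (nat_lit 2029503133044) (nat_lit 3) (nat_lit 4) (nat_lit 4) (nat_lit 5) (nat_lit 4) (nat_lit 4) (nat_lit 454) (nat_lit 379) (nat_lit 187)))) (XT.nd (nat_lit 78) (nat_lit 0) (nat_lit 0) (XT.lf (nat_lit 0) (nat_lit 1820489827606) (nat_lit 76) (nat_lit 2066385912488) (nat_lit 76) (nat_lit 1852078942330) (nat_lit 3) (nat_lit 4) (nat_lit 4) (nat_lit 5) (nat_lit 4) (nat_lit 4) (nat_lit 455)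 (nat_lit 379) (nat_lit 186)) (XT.nd (nat_lit 78) (nat_lit 0) (nat_lit 0) (XT.lf (nat_lit 0) (nat_lit 2636385064510) (nat_lit 76) (nat_lit 1874767811617) (nat_lit 76) (nat_lit 1660460835836) (nat_lit 3) (nat_lit 4) (nat_lit 4) (nat_lit 5) (nat_lit 4) (nat_lit 4) (nat_lit 456) (nat_lit 379) (nat_lit 185)) (XT.lf (nat_lit 0) (nat_lit 3517551886500) (nat_lit 76) (nat_lit 1667820279844) (nat_lit 76) (nat_lit 1453513298857) (nat_lit 3) (nat_lit 4) (nat_lit 4) (nat_lit 5) (nat_lit 4) (nat_lit 4) (nat_lit 457) (nat_lit 379) (nat_lit 184))))))))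
noncomputable def xc193 : XT := (XT.nd (nat_lit 48516) (nat_lit 0) (nat_lit 1216) (XT.nd (nat_lit 47736) (nat_lit 0) (nat_lit 2888) (XT.nd (nat_lit 47346) (nat_lit 0) (nat_lit 3952) (XT.nd (nat_lit 47112) (nat_lit 0) (nat_lit 4636) (XT.nd (nat_lit 47034) (nat_lit 0) (nat_lit 4636) (XT.lf (nat_lit 0) (nat_lit 4469212022893) (nat_lit 76) (nat_lit 1444316961425) (nat_lit 76) (nat_lit 1230009975618) (nat_lit 3) (nat_lit 4) (nat_lit 4) (nat_lit 5) (nat_lit 4) (nat_lit 4) (nat_lit 458) (nat_lit 379) (nat_lit 183)) (XT.lf (nat_lit 0) (nat_lit 38924080068) (nat_lit 532) (nat_lit 2627782600) (nat_lit 532) (nat_lit 2627782600) (nat_lit 64) (nat_lit 3) (nat_lit 71) (nat_lit 3) (nat_lit 71) (nat_lit 5) (nat_lit 380) (nat_lit 380) (nat_lit 260))) (XT.nd (nat_lit 78) (nat_lit 0) (nat_lit 76) (XT.lf (nat_lit 76) (nat_lit 39674575227) (nat_lit 0) (nat_lit 42249528462) (nat_lit 532) (nat_lit 9892589681)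 (nat_lit 65) (nat_lit 5) (nat_lit 64) (nat_lit 3) (nat_lit 71) (nat_lit 5) (nat_lit 381) (nat_lit 380) (nat_lit 259)) (XT.nd (nat_lit 78) (nat_lit 0) (nat_lit 0) (XT.lf (nat_lit 0) (nat_lit 86517810378) (nat_lit 456) (nat_lit 7090474516) (nat_lit 532) (nat_lit 1927069264) (nat_lit 65) (nat_lit 5) (nat_lit 71) (nat_lit 5) (nat_lit 72) (nat_lit 5) (nat_lit 382) (nat_lit 380) (nat_lit 258)) (XT.lf (nat_lit 76) (nat_lit 42598372658) (nat_lit 0) (nat_lit 51001794488) (nat_lit 532) (nat_lit 5781649066) (nat_lit 66) (nat_lit 5) (nat_lit 65) (nat_lit 5) (nat_lit 72) (nat_lit 5) (nat_lit 383) (nat_lit 380) (nat_lit 257))))) (XT.nd (nat_lit 156) (nat_lit 304) (nat_lit 0) (XT.nd (nat_lit 78) (nat_lit 456) (nat_lit 0) (XT.lf (nat_lit 76) (nat_lit 96665100627) (nat_lit 0) (nat_lit 4777191984) (nat_lit 532) (nat_lit 2078248843) (nat_lit 66) (nat_lit 5) (nat_lit 65) (nat_lit 5) (nat_lit 72) (nat_lit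 5) (nat_lit 384) (nat_lit 380) (nat_lit 256)) (XT.lf (nat_lit 0) (nat_lit 4132907813) (nat_lit 532) (nat_lit 59513241686) (nat_lit 608) (nat_lit 44155910797) (nat_lit 59) (nat_lit 5) (nat_lit 66) (nat_lit 5) (nat_lit 67) (nat_lit 5) (nat_lit 385) (nat_lit 380) (nat_lit 255))) (XT.nd (nat_lit 78) (nat_lit 304) (nat_lit 0) (XT.lf (nat_lit 0) (nat_lit 11044457863) (nat_lit 532) (nat_lit 4360053984) (nat_lit 608) (nat_lit 96992008442) (nat_lit 59) (nat_lit 5) (nat_lit 66) (nat_lit 5) (nat_lit 67) (nat_lit 5) (nat_lit 386) (nat_lit 380) (nat_lit 254)) (XT.nd (nat_lit 78) (nat_lit 380) (nat_lit 0) (XT.lf (nat_lit 0) (nat_lit 20824812922) (nat_lit 532) (nat_lit 60053720185) (nat_lit 76) (nat_lit 36294733961) (nat_lit 60) (nat_lit 5) (nat_lit 67) (nat_lit 5) (nat_lit 61) (nat_lit 5) (nat_lit 387) (nat_lit 380) (nat_lit 253)) (XT.lf (nat_lit 0) (nat_lit 1093859354) (nat_lit 380) (nat_lit 30841936365)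 (nat_lit 456) (nat_lit 90352502358) (nat_lit 55) (nat_lit 5) (nat_lit 60) (nat_lit 5) (nat_lit 61) (nat_lit 5) (nat_lit 388) (nat_lit 380) (nat_lit 252)))))) (XT.nd (nat_lit 390) (nat_lit 608) (nat_lit 0) (XT.nd (nat_lit 156) (nat_lit 228) (nat_lit 0) (XT.nd (nat_lit 78) (nat_lit 228) (nat_lit 0) (XT.lf (nat_lit 0) (nat_lit 46177678276) (nat_lit 456) (nat_lit 57733705244) (nat_lit 76) (nat_lit 23721786756) (nat_lit 55) (nat_lit 5) (nat_lit 61) (nat_lit 5) (nat_lit 56) (nat_lit 5) (nat_lit 389) (nat_lit 380) (nat_lit 251)) (XT.lf (nat_lit 0) (nat_lit 10529006804) (nat_lit 228) (nat_lit 52083748924) (nat_lit 304) (nat_lit 70708569351) (nat_lit 52) (nat_lit 5) (nat_lit 55) (nat_lit 5) (nat_lit 56) (nat_lit 5) (nat_lit 390) (nat_lit 380) (nat_lit 250))) (XT.nd (nat_lit 78) (nat_lit 228) (nat_lit 0) (XT.lf (nat_lit 0) (nat_lit 82075293532) (nat_lit 304) (nat_lit 51937221061) (nat_lit 76) (nat_lit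 5315005685) (nat_lit 52) (nat_lit 5) (nat_lit 56) (nat_lit 5) (nat_lit 53) (nat_lit 5) (nat_lit 391) (nat_lit 380) (nat_lit 249)) (XT.nd (nat_lit 78) (nat_lit 0) (nat_lit 0) (XT.lf (nat_lit 0) (nat_lit 24456388232) (nat_lit 228) (nat_lit 80579034853) (nat_lit 304) (nat_lit 40623541227) (nat_lit 49) (nat_lit 5) (nat_lit 52) (nat_lit 5) (nat_lit 53) (nat_lit 5) (nat_lit 392) (nat_lit 380) (nat_lit 248)) (XT.lf (nat_lit 0) (nat_lit 109914735529) (nat_lit 228) (nat_lit 21337289837) (nat_lit 304) (nat_lit 21131325809) (nat_lit 49) (nat_lit 5) (nat_lit 52) (nat_lit 5) (nat_lit 53) (nat_lit 5) (nat_lit 393) (nat_lit 380) (nat_lit 247))))) (XT.nd (nat_lit 156) (nat_lit 380) (nat_lit 0) (XT.nd (nat_lit 78) (nat_lit 0) (nat_lit 0) (XT.lf (nat_lit 0) (nat_lit 2055012249) (nat_lit 228) (nat_lit 115806233793) (nat_lit 76) (nat_lit 41614136058) (nat_lit 46) (nat_lit 5) (nat_lit 49) (nat_lit 5) (nat_lit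 47) (nat_lit 5) (nat_lit 394) (nat_lit 380) (nat_lit 246)) (XT.lf (nat_lit 0) (nat_lit 27699800818) (nat_lit 228) (nat_lit 29062429283) (nat_lit 76) (nat_lit 110189021670) (nat_lit 46) (nat_lit 5) (nat_lit 49) (nat_lit 5) (nat_lit 47) (nat_lit 5) (nat_lit 395) (nat_lit 380) (nat_lit 245))) (XT.nd (nat_lit 78) (nat_lit 152) (nat_lit 0) (XT.lf (nat_lit 0) (nat_lit 57296145436) (nat_lit 304) (nat_lit 107135440267) (nat_lit 76) (nat_lit 10441607692) (nat_lit 43) (nat_lit 5) (nat_lit 47) (nat_lit 5) (nat_lit 44) (nat_lit 5) (nat_lit 396) (nat_lit 380) (nat_lit 244)) (XT.nd (nat_lit 78) (nat_lit 152) (nat_lit 0) (XT.lf (nat_lit 0) (nat_lit 91549478768) (nat_lit 304) (nat_lit 10925992509) (nat_lit 76) (nat_lit 80770276780) (nat_lit 43) (nat_lit 5) (nat_lit 47) (nat_lit 5) (nat_lit 44) (nat_lit 5) (nat_lit 397) (nat_lit 380) (nat_lit 243)) (XT.lf (nat_lit 0) (nat_lit 97875950680) (nat_lit 152)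 (nat_lit 33020750527) (nat_lit 228) (nat_lit 61203116277) (nat_lit 41) (nat_lit 5) (nat_lit 43) (nat_lit 5) (nat_lit 44) (nat_lit 5) (nat_lit 398) (nat_lit 380) (nat_lit 242))))))) (XT.nd (nat_lit 780) (nat_lit 760) (nat_lit 0) (XT.nd (nat_lit 390) (nat_lit 380) (nat_lit 0) (XT.nd (nat_lit 156) (nat_lit 304) (nat_lit 0) (XT.nd (nat_lit 78) (nat_lit 76) (nat_lit 0) (XT.lf (nat_lit 0) (nat_lit 14049889216) (nat_lit 152) (nat_lit 160995789614) (nat_lit 228) (nat_lit 26484215616) (nat_lit 39) (nat_lit 5) (nat_lit 41) (nat_lit 5) (nat_lit 42) (nat_lit 5) (nat_lit 399) (nat_lit 380) (nat_lit 241)) (XT.lf (nat_lit 0) (nat_lit 13961884283) (nat_lit 228) (nat_lit 76354004089) (nat_lit 76) (nat_lit 121097256900) (nat_lit 38) (nat_lit 5) (nat_lit 41) (nat_lit 5) (nat_lit 39) (nat_lit 5) (nat_lit 400) (nat_lit 380) (nat_lit 240))) (XT.nd (nat_lit 78) (nat_lit 152) (nat_lit 0) (XT.lf (nat_lit 0) (nat_lit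 45236704259) (nat_lit 152) (nat_lit 12063814190) (nat_lit 228) (nat_lit 164644491170) (nat_lit 36) (nat_lit 5) (nat_lit 38) (nat_lit 5) (nat_lit 39) (nat_lit 5) (nat_lit 401) (nat_lit 380) (nat_lit 239)) (XT.nd (nat_lit 78) (nat_lit 152) (nat_lit 0) (XT.lf (nat_lit 0) (nat_lit 107990253266) (nat_lit 228) (nat_lit 54052434267) (nat_lit 76) (nat_lit 70966014916) (nat_lit 36) (nat_lit 5) (nat_lit 39) (nat_lit 5) (nat_lit 37) (nat_lit 5) (nat_lit 402) (nat_lit 380) (nat_lit 238)) (XT.lf (nat_lit 0) (nat_lit 82214911851) (nat_lit 152) (nat_lit 82810635308) (nat_lit 228) (nat_lit 79748713237) (nat_lit 34) (nat_lit 5) (nat_lit 36) (nat_lit 5) (nat_lit 37) (nat_lit 5) (nat_lit 403) (nat_lit 380) (nat_lit 237))))) (XT.nd (nat_lit 156) (nat_lit 228) (nat_lit 0) (XT.nd (nat_lit 78) (nat_lit 152) (nat_lit 0) (XT.lf (nat_lit 0) (nat_lit 228206087652) (nat_lit 228) (nat_lit 25010318035) (nat_lit 76)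 (nat_lit 4138063555) (nat_lit 34) (nat_lit 5) (nat_lit 37) (nat_lit 5) (nat_lit 35) (nat_lit 4) (nat_lit 404) (nat_lit 380) (nat_lit 236)) (XT.lf (nat_lit 0) (nat_lit 29583961445) (nat_lit 152) (nat_lit 143488529241) (nat_lit 76) (nat_lit 97390774441) (nat_lit 32) (nat_lit 5) (nat_lit 34) (nat_lit 5) (nat_lit 33) (nat_lit 5) (nat_lit 405) (nat_lit 380) (nat_lit 235))) (XT.nd (nat_lit 78) (nat_lit 76) (nat_lit 0) (XT.lf (nat_lit 0) (nat_lit 7578802592) (nat_lit 152) (nat_lit 84744966820) (nat_lit 228) (nat_lit 192165735516) (nat_lit 30) (nat_lit 5) (nat_lit 32) (nat_lit 5) (nat_lit 33) (nat_lit 5) (nat_lit 406) (nat_lit 380) (nat_lit 234)) (XT.nd (nat_lit 78) (nat_lit 76) (nat_lit 0) (XT.lf (nat_lit 0) (nat_lit 164363790430) (nat_lit 228) (nat_lit 120790505601) (nat_lit 76) (nat_lit 14141065688) (nat_lit 30) (nat_lit 5) (nat_lit 33) (nat_lit 5) (nat_lit 31) (nat_lit 4) (nat_lit 407) (nat_lit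 380) (nat_lit 233)) (XT.lf (nat_lit 0) (nat_lit 48019962357) (nat_lit 76) (nat_lit 197502908078) (nat_lit 152) (nat_lit 69494348106) (nat_lit 29) (nat_lit 5) (nat_lit 30) (nat_lit 5) (nat_lit 31) (nat_lit 4) (nat_lit 408) (nat_lit 380) (nat_lit 232)))))) (XT.nd (nat_lit 390) (nat_lit 456) (nat_lit 0) (XT.nd (nat_lit 156) (nat_lit 76) (nat_lit 0) (XT.nd (nat_lit 78) (nat_lit 152) (nat_lit 0) (XT.lf (nat_lit 0) (nat_lit 4507150642) (nat_lit 152) (nat_lit 94642324142) (nat_lit 76) (nat_lit 232574025505) (nat_lit 28) (nat_lit 5) (nat_lit 30) (nat_lit 5) (nat_lit 29) (nat_lit 5) (nat_lit 409) (nat_lit 380) (nat_lit 231)) (XT.lf (nat_lit 0) (nat_lit 83220818926) (nat_lit 228) (nat_lit 255297321044) (nat_lit 76) (nat_lit 10900016865) (nat_lit 26) (nat_lit 5) (nat_lit 29) (nat_lit 5) (nat_lit 27) (nat_lit 4) (nat_lit 410) (nat_lit 380) (nat_lit 230))) (XT.nd (nat_lit 78) (nat_lit 76) (nat_lit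 0) (XT.lf (nat_lit 0) (nat_lit 173461619830) (nat_lit 228) (nat_lit 67596762742) (nat_lit 76) (nat_lit 127051600255) (nat_lit 26) (nat_lit 5) (nat_lit 29) (nat_lit 5) (nat_lit 27) (nat_lit 4) (nat_lit 411) (nat_lit 380) (nat_lit 229)) (XT.nd (nat_lit 78) (nat_lit 0) (nat_lit 0) (XT.lf (nat_lit 0) (nat_lit 142234709825) (nat_lit 76) (nat_lit 132107562582) (nat_lit 152) (nat_lit 113681235534) (nat_lit 25) (nat_lit 5) (nat_lit 26) (nat_lit 5) (nat_lit 27) (nat_lit 4) (nat_lit 412) (nat_lit 380) (nat_lit 228)) (XT.lf (nat_lit 0) (nat_lit 372696708609) (nat_lit 76) (nat_lit 12444728452) (nat_lit 152) (nat_lit 24240833258) (nat_lit 25) (nat_lit 5) (nat_lit 26) (nat_lit 5) (nat_lit 27) (nat_lit 4) (nat_lit 413) (nat_lit 380) (nat_lit 227))))) (XT.nd (nat_lit 234) (nat_lit 228) (nat_lit 0) (XT.nd (nat_lit 78) (nat_lit 76) (nat_lit 0) (XT.lf (nat_lit 0) (nat_lit 76456874480) (nat_lit 152) (nat_lit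 237634260936) (nat_lit 76) (nat_lit 117601663258) (nat_lit 23) (nat_lit 5) (nat_lit 25) (nat_lit 5) (nat_lit 24) (nat_lit 4) (nat_lit 414) (nat_lit 380) (nat_lit 226)) (XT.nd (nat_lit 78) (nat_lit 76) (nat_lit 0) (XT.lf (nat_lit 0) (nat_lit 185252959585) (nat_lit 152) (nat_lit 11338613249) (nat_lit 76) (nat_lit 259038050307) (nat_lit 23) (nat_lit 5) (nat_lit 25) (nat_lit 5) (nat_lit 24) (nat_lit 4) (nat_lit 415) (nat_lit 380) (nat_lit 225)) (XT.lf (nat_lit 0) (nat_lit 245332987343) (nat_lit 76) (nat_lit 63319873404) (nat_lit 152) (nat_lit 172356522512) (nat_lit 22) (nat_lit 5) (nat_lit 23) (nat_lit 5) (nat_lit 24) (nat_lit 4) (nat_lit 416) (nat_lit 380) (nat_lit 224)))) (XT.nd (nat_lit 78) (nat_lit 152) (nat_lit 0) (XT.lf (nat_lit 0) (nat_lit 13517573386) (nat_lit 76) (nat_lit 430988973373) (nat_lit 76) (nat_lit 63706434039) (nat_lit 21) (nat_lit 4) (nat_lit 22) (nat_lit 5) (nat_lit 22)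 (nat_lit 4) (nat_lit 417) (nat_lit 380) (nat_lit 223)) (XT.nd (nat_lit 78) (nat_lit 76) (nat_lit 0) (XT.lf (nat_lit 0) (nat_lit 59208309682) (nat_lit 152) (nat_lit 244129409059) (nat_lit 76) (nat_lit 233491494616) (nat_lit 20) (nat_lit 5) (nat_lit 22) (nat_lit 5) (nat_lit 21) (nat_lit 4) (nat_lit 418) (nat_lit 380) (nat_lit 222)) (XT.lf (nat_lit 0) (nat_lit 26134266247) (nat_lit 76) (nat_lit 163008571210) (nat_lit 152) (nat_lit 378409257546) (nat_lit 19) (nat_lit 5) (nat_lit 20) (nat_lit 5) (nat_lit 21) (nat_lit 4) (nat_lit 419) (nat_lit 380) (nat_lit 221))))))))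
noncomputable def xc194 : XT := (XT.nd (nat_lit 1560) (nat_lit 304) (nat_lit 0) (XT.nd (nat_lit 780) (nat_lit 456) (nat_lit 0) (XT.nd (nat_lit 390) (nat_lit 228) (nat_lit 0) (XT.nd (nat_lit 156) (nat_lit 152) (nat_lit 0) (XT.nd (nat_lit 78) (nat_lit 76) (nat_lit 0) (XT.lf (nat_lit 0) (nat_lit 331902665083) (nat_lit 76) (nat_lit 4244273696) (nat_lit 152) (nat_lit 264051883518) (nat_lit 19) (nat_lit 5) (nat_lit 20) (nat_lit 5) (nat_lit 21) (nat_lit 4) (nat_lit 420) (nat_lit 380) (nat_lit 220)) (XT.lf (nat_lit 0) (nat_lit 23846244657) (nat_lit 76) (nat_lit 475660186516) (nat_lit 76) (nat_lit 135583251588) (nat_lit 18) (nat_lit 4) (nat_lit 19) (nat_lit 5) (nat_lit 19) (nat_lit 4) (nat_lit 421) (nat_lit 380) (nat_lit 219))) (XT.nd (nat_lit 78) (nat_lit 76) (nat_lit 0) (XT.lf (nat_lit 0) (nat_lit 10641009563) (nat_lit 152) (nat_lit 317943739753) (nat_lit 76) (nat_lit 343570068731) (nat_lit 17)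 (nat_lit 5) (nat_lit 19) (nat_lit 5) (nat_lit 18) (nat_lit 4) (nat_lit 422) (nat_lit 380) (nat_lit 218)) (XT.nd (nat_lit 78) (nat_lit 76) (nat_lit 0) (XT.lf (nat_lit 0) (nat_lit 161238090247) (nat_lit 152) (nat_lit 4701908891) (nat_lit 76) (nat_lit 545963441934) (nat_lit 17) (nat_lit 5) (nat_lit 19) (nat_lit 5) (nat_lit 18) (nat_lit 4) (nat_lit 423) (nat_lit 380) (nat_lit 217)) (XT.lf (nat_lit 0) (nat_lit 332781428061) (nat_lit 152) (nat_lit 403443539307) (nat_lit 0) (nat_lit 17895107333) (nat_lit 16) (nat_lit 5) (nat_lit 18) (nat_lit 4) (nat_lit 16) (nat_lit 4) (nat_lit 424) (nat_lit 380) (nat_lit 216))))) (XT.nd (nat_lit 156) (nat_lit 152) (nat_lit 0) (XT.nd (nat_lit 78) (nat_lit 76) (nat_lit 0) (XT.lf (nat_lit 0) (nat_lit 522490164726) (nat_lit 152) (nat_lit 69264752735) (nat_lit 0) (nat_lit 207603767028) (nat_lit 16) (nat_lit 5) (nat_lit 18) (nat_lit 4) (nat_lit 16) (nat_lit 4) (nat_lit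 425) (nat_lit 380) (nat_lit 215)) (XT.lf (nat_lit 0) (nat_lit 307005839730) (nat_lit 76) (nat_lit 427753169788) (nat_lit 76) (nat_lit 112866700820) (nat_lit 15) (nat_lit 4) (nat_lit 16) (nat_lit 5) (nat_lit 16) (nat_lit 4) (nat_lit 426) (nat_lit 380) (nat_lit 214))) (XT.nd (nat_lit 78) (nat_lit 76) (nat_lit 0) (XT.lf (nat_lit 0) (nat_lit 62983877999) (nat_lit 152) (nat_lit 183880068719) (nat_lit 76) (nat_lit 652611090468) (nat_lit 14) (nat_lit 5) (nat_lit 16) (nat_lit 5) (nat_lit 15) (nat_lit 4) (nat_lit 427) (nat_lit 380) (nat_lit 213)) (XT.nd (nat_lit 78) (nat_lit 0) (nat_lit 0) (XT.lf (nat_lit 0) (nat_lit 208918083344) (nat_lit 76) (nat_lit 42911089446) (nat_lit 152) (nat_lit 703006656943) (nat_lit 13) (nat_lit 5) (nat_lit 14) (nat_lit 5) (nat_lit 15) (nat_lit 4) (nat_lit 428) (nat_lit 380) (nat_lit 212)) (XT.lf (nat_lit 0) (nat_lit 465205668033) (nat_lit 152) (nat_lit 375021978881)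 (nat_lit 0) (nat_lit 173643952630) (nat_lit 13) (nat_lit 5) (nat_lit 15) (nat_lit 4) (nat_lit 13) (nat_lit 4) (nat_lit 429) (nat_lit 380) (nat_lit 211)))))) (XT.nd (nat_lit 390) (nat_lit 228) (nat_lit 0) (XT.nd (nat_lit 156) (nat_lit 152) (nat_lit 0) (XT.nd (nat_lit 78) (nat_lit 0) (nat_lit 0) (XT.lf (nat_lit 0) (nat_lit 25717206496) (nat_lit 76) (nat_lit 671668074266) (nat_lit 76) (nat_lit 380106310358) (nat_lit 12) (nat_lit 4) (nat_lit 13) (nat_lit 5) (nat_lit 13) (nat_lit 4) (nat_lit 430) (nat_lit 380) (nat_lit 210)) (XT.lf (nat_lit 0) (nat_lit 479843214098) (nat_lit 76) (nat_lit 478549740684) (nat_lit 76) (nat_lit 186987931865) (nat_lit 12) (nat_lit 4) (nat_lit 13) (nat_lit 5) (nat_lit 13) (nat_lit 4) (nat_lit 431) (nat_lit 380) (nat_lit 209))) (XT.nd (nat_lit 78) (nat_lit 76) (nat_lit 0) (XT.lf (nat_lit 0) (nat_lit 20500332495) (nat_lit 152) (nat_lit 248921158814) (nat_lit 76) (nat_lit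 949238320281) (nat_lit 11) (nat_lit 5) (nat_lit 13) (nat_lit 5) (nat_lit 12) (nat_lit 4) (nat_lit 432) (nat_lit 380) (nat_lit 208)) (XT.nd (nat_lit 78) (nat_lit 0) (nat_lit 0) (XT.lf (nat_lit 0) (nat_lit 206497563489) (nat_lit 76) (nat_lit 32954096317) (nat_lit 152) (nat_lit 1057563547820) (nat_lit 10) (nat_lit 5) (nat_lit 11) (nat_lit 5) (nat_lit 12) (nat_lit 4) (nat_lit 433) (nat_lit 380) (nat_lit 207)) (XT.lf (nat_lit 0) (nat_lit 488251216051) (nat_lit 152) (nat_lit 674114778393) (nat_lit 0) (nat_lit 218286471087) (nat_lit 10) (nat_lit 5) (nat_lit 12) (nat_lit 4) (nat_lit 10) (nat_lit 4) (nat_lit 434) (nat_lit 380) (nat_lit 206))))) (XT.nd (nat_lit 156) (nat_lit 152) (nat_lit 0) (XT.nd (nat_lit 78) (nat_lit 76) (nat_lit 0) (XT.lf (nat_lit 0) (nat_lit 757810627980) (nat_lit 152) (nat_lit 225255752350) (nat_lit 0) (nat_lit 487845852450) (nat_lit 10) (nat_lit 5) (nat_lit 12) (nat_lit 4)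 (nat_lit 10) (nat_lit 4) (nat_lit 435) (nat_lit 380) (nat_lit 205)) (XT.lf (nat_lit 0) (nat_lit 273177322167) (nat_lit 76) (nat_lit 782327336892) (nat_lit 76) (nat_lit 512362533060) (nat_lit 9) (nat_lit 4) (nat_lit 10) (nat_lit 5) (nat_lit 10) (nat_lit 4) (nat_lit 436) (nat_lit 380) (nat_lit 204))) (XT.nd (nat_lit 78) (nat_lit 152) (nat_lit 0) (XT.lf (nat_lit 0) (nat_lit 824295430016) (nat_lit 76) (nat_lit 558877620596) (nat_lit 76) (nat_lit 288912790558) (nat_lit 9) (nat_lit 4) (nat_lit 10) (nat_lit 5) (nat_lit 10) (nat_lit 4) (nat_lit 437) (nat_lit 380) (nat_lit 203)) (XT.nd (nat_lit 78) (nat_lit 152) (nat_lit 0) (XT.lf (nat_lit 0) (nat_lit 1419502887548) (nat_lit 76) (nat_lit 317551976433) (nat_lit 76) (nat_lit 47587122131) (nat_lit 9) (nat_lit 4) (nat_lit 10) (nat_lit 5) (nat_lit 10) (nat_lit 4) (nat_lit 438) (nat_lit 380) (nat_lit 202)) (XT.lf (nat_lit 0) (nat_lit 158951915773) (nat_lit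 76) (nat_lit 47258080641) (nat_lit 152) (nat_lit 1699276907990) (nat_lit 7) (nat_lit 5) (nat_lit 8) (nat_lit 5) (nat_lit 9) (nat_lit 4) (nat_lit 439) (nat_lit 380) (nat_lit 201))))))) (XT.nd (nat_lit 780) (nat_lit 76) (nat_lit 0) (XT.nd (nat_lit 390) (nat_lit 152) (nat_lit 0) (XT.nd (nat_lit 156) (nat_lit 76) (nat_lit 0) (XT.nd (nat_lit 78) (nat_lit 0) (nat_lit 0) (XT.lf (nat_lit 0) (nat_lit 493866822675) (nat_lit 152) (nat_lit 1296844235924) (nat_lit 0) (nat_lit 243899324923) (nat_lit 7) (nat_lit 5) (nat_lit 9) (nat_lit 4) (nat_lit 7) (nat_lit 4) (nat_lit 440) (nat_lit 380) (nat_lit 200)) (XT.lf (nat_lit 0) (nat_lit 805763634259) (nat_lit 152) (nat_lit 812405792904) (nat_lit 0) (nat_lit 555796118672) (nat_lit 7) (nat_lit 5) (nat_lit 9) (nat_lit 4) (nat_lit 7) (nat_lit 4) (nat_lit 441) (nat_lit 380) (nat_lit 199))) (XT.nd (nat_lit 78) (nat_lit 76) (nat_lit 0) (XT.lf (nat_lit 0) (nat_lit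 1142612150592) (nat_lit 152) (nat_lit 289212355267) (nat_lit 0) (nat_lit 892644618492) (nat_lit 7) (nat_lit 5) (nat_lit 9) (nat_lit 4) (nat_lit 7) (nat_lit 4) (nat_lit 442) (nat_lit 380) (nat_lit 198)) (XT.nd (nat_lit 78) (nat_lit 0) (nat_lit 0) (XT.lf (nat_lit 0) (nat_lit 290361542888) (nat_lit 76) (nat_lit 1223030170232) (nat_lit 76) (nat_lit 973062622841) (nat_lit 6) (nat_lit 4) (nat_lit 7) (nat_lit 5) (nat_lit 7) (nat_lit 4) (nat_lit 443) (nat_lit 380) (nat_lit 197)) (XT.lf (nat_lit 0) (nat_lit 932749042862) (nat_lit 76) (nat_lit 988992139909) (nat_lit 76) (nat_lit 739024578360) (nat_lit 6) (nat_lit 4) (nat_lit 7) (nat_lit 5) (nat_lit 7) (nat_lit 4) (nat_lit 444) (nat_lit 380) (nat_lit 196))))) (XT.nd (nat_lit 156) (nat_lit 152) (nat_lit 0) (XT.nd (nat_lit 78) (nat_lit 0) (nat_lit 0) (XT.lf (nat_lit 0) (nat_lit 1626527475294) (nat_lit 76) (nat_lit 736231101182) (nat_lit 76) (nat_lit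 486263526524) (nat_lit 6) (nat_lit 4) (nat_lit 7) (nat_lit 5) (nat_lit 7) (nat_lit 4) (nat_lit 445) (nat_lit 380) (nat_lit 195)) (XT.lf (nat_lit 0) (nat_lit 2375808119784) (nat_lit 76) (nat_lit 463249210858) (nat_lit 76) (nat_lit 213281624061) (nat_lit 6) (nat_lit 4) (nat_lit 7) (nat_lit 5) (nat_lit 7) (nat_lit 4) (nat_lit 446) (nat_lit 380) (nat_lit 194))) (XT.nd (nat_lit 78) (nat_lit 76) (nat_lit 0) (XT.lf (nat_lit 0) (nat_lit 77459898571) (nat_lit 152) (nat_lit 88851009006) (nat_lit 76) (nat_lit 3105453368459) (nat_lit 5) (nat_lit 5) (nat_lit 7) (nat_lit 5) (nat_lit 6) (nat_lit 4) (nat_lit 447) (nat_lit 380) (nat_lit 193)) (XT.nd (nat_lit 78) (nat_lit 0) (nat_lit 0) (XT.lf (nat_lit 0) (nat_lit 397828613542) (nat_lit 152) (nat_lit 2942663453257) (nat_lit 0) (nat_lit 166377124243) (nat_lit 4) (nat_lit 5) (nat_lit 6) (nat_lit 4) (nat_lit 4) (nat_lit 4) (nat_lit 448) (nat_lit 380) (nat_lit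 192)) (XT.lf (nat_lit 0) (nat_lit 750639006212) (nat_lit 152) (nat_lit 2490411010607) (nat_lit 0) (nat_lit 519187507991) (nat_lit 4) (nat_lit 5) (nat_lit 6) (nat_lit 4) (nat_lit 4) (nat_lit 4) (nat_lit 449) (nat_lit 380) (nat_lit 191)))))) (XT.nd (nat_lit 390) (nat_lit 0) (nat_lit 0) (XT.nd (nat_lit 156) (nat_lit 76) (nat_lit 0) (XT.nd (nat_lit 78) (nat_lit 0) (nat_lit 0) (XT.lf (nat_lit 0) (nat_lit 1131674205090) (nat_lit 152) (nat_lit 2001978423598) (nat_lit 0) (nat_lit 900222698609) (nat_lit 4) (nat_lit 5) (nat_lit 6) (nat_lit 4) (nat_lit 4) (nat_lit 4) (nat_lit 450) (nat_lit 380) (nat_lit 190)) (XT.lf (nat_lit 0) (nat_lit 1543192196542) (nat_lit 152) (nat_lit 1474471276899) (nat_lit 0) (nat_lit 1311740682411) (nat_lit 4) (nat_lit 5) (nat_lit 6) (nat_lit 4) (nat_lit 4) (nat_lit 4) (nat_lit 451) (nat_lit 380) (nat_lit 189))) (XT.nd (nat_lit 78) (nat_lit 76) (nat_lit 0) (XT.lf (nat_lit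 0) (nat_lit 1987631605701) (nat_lit 152) (nat_lit 904763602233) (nat_lit 0) (nat_lit 1756180084487) (nat_lit 4) (nat_lit 5) (nat_lit 6) (nat_lit 4) (nat_lit 4) (nat_lit 4) (nat_lit 452) (nat_lit 380) (nat_lit 188)) (XT.nd (nat_lit 78) (nat_lit 76) (nat_lit 0) (XT.lf (nat_lit 0) (nat_lit 2467626147584) (nat_lit 152) (nat_lit 289479354121) (nat_lit 0) (nat_lit 2236174619813) (nat_lit 4) (nat_lit 5) (nat_lit 6) (nat_lit 4) (nat_lit 4) (nat_lit 4) (nat_lit 453) (nat_lit 380) (nat_lit 187)) (XT.lf (nat_lit 0) (nat_lit 394775884930) (nat_lit 76) (nat_lit 2600738718888) (nat_lit 76) (nat_lit 2369287185045) (nat_lit 3) (nat_lit 4) (nat_lit 4) (nat_lit 5) (nat_lit 4) (nat_lit 4) (nat_lit 454) (nat_lit 380) (nat_lit 186))))) (XT.nd (nat_lit 234) (nat_lit 0) (nat_lit 0) (XT.nd (nat_lit 78) (nat_lit 0) (nat_lit 0) (XT.lf (nat_lit 0) (nat_lit 1150234453900) (nat_lit 76) (nat_lit 2423314543160) (nat_lit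 76) (nat_lit 2191863003695) (nat_lit 3) (nat_lit 4) (nat_lit 4) (nat_lit 5) (nat_lit 4) (nat_lit 4) (nat_lit 455) (nat_lit 380) (nat_lit 185)) (XT.nd (nat_lit 78) (nat_lit 0) (nat_lit 0) (XT.lf (nat_lit 0) (nat_lit 1966129674523) (nat_lit 76) (nat_lit 2231696450543) (nat_lit 76) (nat_lit 2000244905871) (nat_lit 3) (nat_lit 4) (nat_lit 4) (nat_lit 5) (nat_lit 4) (nat_lit 4) (nat_lit 456) (nat_lit 380) (nat_lit 184)) (XT.lf (nat_lit 0) (nat_lit 2847296481438) (nat_lit 76) (nat_lit 2024748926412) (nat_lit 76) (nat_lit 1793297376920) (nat_lit 3) (nat_lit 4) (nat_lit 4) (nat_lit 5) (nat_lit 4) (nat_lit 4) (nat_lit 457) (nat_lit 380) (nat_lit 183)))) (XT.nd (nat_lit 47112) (nat_lit 0) (nat_lit 4636) (XT.lf (nat_lit 0) (nat_lit 3798956603872) (nat_lit 76) (nat_lit 1801245615070) (nat_lit 76) (nat_lit 1569794061115) (nat_lit 3) (nat_lit 4) (nat_lit 4) (nat_lit 5) (nat_lit 4) (nat_lit 4) (nat_lit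 458) (nat_lit 380) (nat_lit 182)) (XT.nd (nat_lit 78) (nat_lit 0) (nat_lit 0) (XT.lf (nat_lit 0) (nat_lit 42045660517) (nat_lit 532) (nat_lit 2833868405) (nat_lit 532) (nat_lit 2833868405) (nat_lit 64) (nat_lit 3) (nat_lit 71) (nat_lit 3) (nat_lit 71) (nat_lit 5) (nat_lit 381) (nat_lit 381) (nat_lit 258)) (XT.lf (nat_lit 76) (nat_lit 42856605394) (nat_lit 0) (nat_lit 45635794688) (nat_lit 532) (nat_lit 10668465902) (nat_lit 65) (nat_lit 5) (nat_lit 64) (nat_lit 3) (nat_lit 71) (nat_lit 5) (nat_lit 382) (nat_lit 381) (nat_lit 257))))))))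
noncomputable def xc195 : XT := (XT.nd (nat_lit 1560) (nat_lit 1444) (nat_lit 0) (XT.nd (nat_lit 780) (nat_lit 1216) (nat_lit 0) (XT.nd (nat_lit 390) (nat_lit 532) (nat_lit 0) (XT.nd (nat_lit 156) (nat_lit 456) (nat_lit 0) (XT.nd (nat_lit 78) (nat_lit 0) (nat_lit 0) (XT.lf (nat_lit 0) (nat_lit 93452398622) (nat_lit 456) (nat_lit 7649028575) (nat_lit 532) (nat_lit 2075689805) (nat_lit 65) (nat_lit 5) (nat_lit 71) (nat_lit 5) (nat_lit 72) (nat_lit 5) (nat_lit 383) (nat_lit 381) (nat_lit 256)) (XT.lf (nat_lit 76) (nat_lit 46014706527) (nat_lit 0) (nat_lit 55085865898) (nat_lit 532) (nat_lit 6230786237) (nat_lit 66) (nat_lit 5) (nat_lit 65) (nat_lit 5) (nat_lit 72) (nat_lit 5) (nat_lit 384) (nat_lit 381) (nat_lit 255))) (XT.nd (nat_lit 78) (nat_lit 456) (nat_lit 0) (XT.lf (nat_lit 76) (nat_lit 104406145767) (nat_lit 0) (nat_lit 5163004242) (nat_lit 532) (nat_lit 2232106200) (nat_lit 66) (nat_lit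 5) (nat_lit 65) (nat_lit 5) (nat_lit 72) (nat_lit 5) (nat_lit 385) (nat_lit 381) (nat_lit 254)) (XT.nd (nat_lit 78) (nat_lit 0) (nat_lit 0) (XT.lf (nat_lit 0) (nat_lit 4474579639) (nat_lit 532) (nat_lit 64265081602) (nat_lit 608) (nat_lit 47685671618) (nat_lit 59) (nat_lit 5) (nat_lit 66) (nat_lit 5) (nat_lit 67) (nat_lit 5) (nat_lit 386) (nat_lit 381) (nat_lit 253)) (XT.lf (nat_lit 0) (nat_lit 11938235974) (nat_lit 532) (nat_lit 4700321803) (nat_lit 608) (nat_lit 104748857967) (nat_lit 59) (nat_lit 5) (nat_lit 66) (nat_lit 5) (nat_lit 67) (nat_lit 5) (nat_lit 387) (nat_lit 381) (nat_lit 252))))) (XT.nd (nat_lit 156) (nat_lit 228) (nat_lit 0) (XT.nd (nat_lit 78) (nat_lit 380) (nat_lit 0) (XT.lf (nat_lit 0) (nat_lit 22500430072) (nat_lit 532) (nat_lit 64848884112) (nat_lit 76) (nat_lit 39197035858) (nat_lit 60) (nat_lit 5) (nat_lit 67) (nat_lit 5) (nat_lit 61) (nat_lit 5) (nat_lit 388)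 (nat_lit 381) (nat_lit 251)) (XT.lf (nat_lit 0) (nat_lit 1190270558) (nat_lit 380) (nat_lit 33309521549) (nat_lit 456) (nat_lit 97570831954) (nat_lit 55) (nat_lit 5) (nat_lit 60) (nat_lit 5) (nat_lit 61) (nat_lit 5) (nat_lit 389) (nat_lit 381) (nat_lit 250))) (XT.nd (nat_lit 78) (nat_lit 228) (nat_lit 0) (XT.lf (nat_lit 0) (nat_lit 49880343642) (nat_lit 456) (nat_lit 62343470315) (nat_lit 76) (nat_lit 25619327146) (nat_lit 55) (nat_lit 5) (nat_lit 61) (nat_lit 5) (nat_lit 56) (nat_lit 5) (nat_lit 390) (nat_lit 381) (nat_lit 249)) (XT.nd (nat_lit 78) (nat_lit 0) (nat_lit 0) (XT.lf (nat_lit 0) (nat_lit 11380032586) (nat_lit 228) (nat_lit 56249778058) (nat_lit 304) (nat_lit 76356571474) (nat_lit 52) (nat_lit 5) (nat_lit 55) (nat_lit 5) (nat_lit 56) (nat_lit 5) (nat_lit 391) (nat_lit 381) (nat_lit 248)) (XT.lf (nat_lit 0) (nat_lit 88648771265) (nat_lit 304) (nat_lit 56083552382) (nat_lit 76)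 (nat_lit 5740796163) (nat_lit 52) (nat_lit 5) (nat_lit 56) (nat_lit 5) (nat_lit 53) (nat_lit 5) (nat_lit 392) (nat_lit 381) (nat_lit 247)))))) (XT.nd (nat_lit 390) (nat_lit 532) (nat_lit 0) (XT.nd (nat_lit 156) (nat_lit 456) (nat_lit 0) (XT.nd (nat_lit 78) (nat_lit 0) (nat_lit 0) (XT.lf (nat_lit 0) (nat_lit 26421326759) (nat_lit 228) (nat_lit 87024034937) (nat_lit 304) (nat_lit 43865746056) (nat_lit 49) (nat_lit 5) (nat_lit 52) (nat_lit 5) (nat_lit 53) (nat_lit 5) (nat_lit 393) (nat_lit 381) (nat_lit 246)) (XT.lf (nat_lit 0) (nat_lit 118715717583) (nat_lit 228) (nat_lit 23043048298) (nat_lit 304) (nat_lit 22814722180) (nat_lit 49) (nat_lit 5) (nat_lit 52) (nat_lit 5) (nat_lit 53) (nat_lit 5) (nat_lit 394) (nat_lit 381) (nat_lit 245))) (XT.nd (nat_lit 78) (nat_lit 228) (nat_lit 0) (XT.lf (nat_lit 0) (nat_lit 2225894684) (nat_lit 228) (nat_lit 125062292255) (nat_lit 76) (nat_lit 44944702987)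 (nat_lit 46) (nat_lit 5) (nat_lit 49) (nat_lit 5) (nat_lit 47) (nat_lit 5) (nat_lit 395) (nat_lit 381) (nat_lit 244)) (XT.nd (nat_lit 78) (nat_lit 228) (nat_lit 0) (XT.lf (nat_lit 0) (nat_lit 29921786231) (nat_lit 228) (nat_lit 31379608588) (nat_lit 76) (nat_lit 119005473073) (nat_lit 46) (nat_lit 5) (nat_lit 49) (nat_lit 5) (nat_lit 47) (nat_lit 5) (nat_lit 396) (nat_lit 381) (nat_lit 243)) (XT.lf (nat_lit 0) (nat_lit 61885622214) (nat_lit 304) (nat_lit 115698240622) (nat_lit 76) (nat_lit 11278719596) (nat_lit 43) (nat_lit 5) (nat_lit 47) (nat_lit 5) (nat_lit 44) (nat_lit 5) (nat_lit 397) (nat_lit 381) (nat_lit 242))))) (XT.nd (nat_lit 156) (nat_lit 380) (nat_lit 0) (XT.nd (nat_lit 78) (nat_lit 152) (nat_lit 0) (XT.lf (nat_lit 0) (nat_lit 98878793684) (nat_lit 304) (nat_lit 11792632219) (nat_lit 76) (nat_lit 87233550116) (nat_lit 43) (nat_lit 5) (nat_lit 47) (nat_lit 5) (nat_lit 44) (nat_lit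 5) (nat_lit 398) (nat_lit 381) (nat_lit 241)) (XT.lf (nat_lit 0) (nat_lit 105713278079) (nat_lit 152) (nat_lit 35660293448) (nat_lit 228) (nat_lit 66093817512) (nat_lit 41) (nat_lit 5) (nat_lit 43) (nat_lit 5) (nat_lit 44) (nat_lit 5) (nat_lit 399) (nat_lit 381) (nat_lit 240))) (XT.nd (nat_lit 78) (nat_lit 228) (nat_lit 0) (XT.lf (nat_lit 0) (nat_lit 15181301859) (nat_lit 152) (nat_lit 173873010820) (nat_lit 228) (nat_lit 28597572082) (nat_lit 39) (nat_lit 5) (nat_lit 41) (nat_lit 5) (nat_lit 42) (nat_lit 5) (nat_lit 400) (nat_lit 381) (nat_lit 239)) (XT.nd (nat_lit 78) (nat_lit 152) (nat_lit 0) (XT.lf (nat_lit 0) (nat_lit 15083568002) (nat_lit 228) (nat_lit 82455200955) (nat_lit 76) (nat_lit 130787046833) (nat_lit 38) (nat_lit 5) (nat_lit 41) (nat_lit 5) (nat_lit 39) (nat_lit 5) (nat_lit 401) (nat_lit 381) (nat_lit 238)) (XT.lf (nat_lit 0) (nat_lit 48862583720) (nat_lit 152) (nat_lit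 13026525573) (nat_lit 228) (nat_lit 177811134863) (nat_lit 36) (nat_lit 5) (nat_lit 38) (nat_lit 5) (nat_lit 39) (nat_lit 5) (nat_lit 402) (nat_lit 381) (nat_lit 237))))))) (XT.nd (nat_lit 780) (nat_lit 684) (nat_lit 0) (XT.nd (nat_lit 390) (nat_lit 304) (nat_lit 0) (XT.nd (nat_lit 156) (nat_lit 304) (nat_lit 0) (XT.nd (nat_lit 78) (nat_lit 152) (nat_lit 0) (XT.lf (nat_lit 0) (nat_lit 116633739209) (nat_lit 228) (nat_lit 58369914394) (nat_lit 76) (nat_lit 76645401672) (nat_lit 36) (nat_lit 5) (nat_lit 39) (nat_lit 5) (nat_lit 37) (nat_lit 5) (nat_lit 403) (nat_lit 381) (nat_lit 236)) (XT.lf (nat_lit 0) (nat_lit 88798649423) (nat_lit 152) (nat_lit 89433048613) (nat_lit 228) (nat_lit 86124172666) (nat_lit 34) (nat_lit 5) (nat_lit 36) (nat_lit 5) (nat_lit 37) (nat_lit 5) (nat_lit 404) (nat_lit 381) (nat_lit 235))) (XT.nd (nat_lit 78) (nat_lit 304) (nat_lit 0) (XT.lf (nat_lit 0) (nat_lit 246466431818)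 (nat_lit 228) (nat_lit 27004831878) (nat_lit 76) (nat_lit 4471252700) (nat_lit 34) (nat_lit 5) (nat_lit 37) (nat_lit 5) (nat_lit 35) (nat_lit 4) (nat_lit 405) (nat_lit 381) (nat_lit 234)) (XT.nd (nat_lit 78) (nat_lit 152) (nat_lit 0) (XT.lf (nat_lit 0) (nat_lit 31954495953) (nat_lit 152) (nat_lit 154961257186) (nat_lit 76) (nat_lit 105184266236) (nat_lit 32) (nat_lit 5) (nat_lit 34) (nat_lit 5) (nat_lit 33) (nat_lit 5) (nat_lit 406) (nat_lit 381) (nat_lit 233)) (XT.lf (nat_lit 0) (nat_lit 8191300322) (nat_lit 152) (nat_lit 91522054405) (nat_lit 228) (nat_lit 207535014455) (nat_lit 30) (nat_lit 5) (nat_lit 32) (nat_lit 5) (nat_lit 33) (nat_lit 5) (nat_lit 407) (nat_lit 381) (nat_lit 232))))) (XT.nd (nat_lit 156) (nat_lit 228) (nat_lit 0) (XT.nd (nat_lit 78) (nat_lit 76) (nat_lit 0) (XT.lf (nat_lit 0) (nat_lit 177516360444) (nat_lit 228) (nat_lit 130447792990) (nat_lit 76) (nat_lit 15274558548)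 (nat_lit 30) (nat_lit 5) (nat_lit 33) (nat_lit 5) (nat_lit 31) (nat_lit 4) (nat_lit 408) (nat_lit 381) (nat_lit 231)) (XT.lf (nat_lit 0) (nat_lit 51867361695) (nat_lit 76) (nat_lit 213300687904) (nat_lit 152) (nat_lit 75050277231) (nat_lit 29) (nat_lit 5) (nat_lit 30) (nat_lit 5) (nat_lit 31) (nat_lit 4) (nat_lit 409) (nat_lit 381) (nat_lit 230))) (XT.nd (nat_lit 78) (nat_lit 152) (nat_lit 0) (XT.lf (nat_lit 0) (nat_lit 4870905750) (nat_lit 152) (nat_lit 102208168856) (nat_lit 76) (nat_lit 251182050004) (nat_lit 28) (nat_lit 5) (nat_lit 30) (nat_lit 5) (nat_lit 29) (nat_lit 5) (nat_lit 410) (nat_lit 381) (nat_lit 229)) (XT.nd (nat_lit 78) (nat_lit 0) (nat_lit 0) (XT.lf (nat_lit 0) (nat_lit 89881617494) (nat_lit 228) (nat_lit 275715514529) (nat_lit 76) (nat_lit 11774225736) (nat_lit 26) (nat_lit 5) (nat_lit 29) (nat_lit 5) (nat_lit 27) (nat_lit 4) (nat_lit 411) (nat_lit 381) (nat_lit 228))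 (XT.lf (nat_lit 0) (nat_lit 187341450391) (nat_lit 228) (nat_lit 72999325799) (nat_lit 76) (nat_lit 137217772278) (nat_lit 26) (nat_lit 5) (nat_lit 29) (nat_lit 5) (nat_lit 27) (nat_lit 4) (nat_lit 412) (nat_lit 381) (nat_lit 227)))))) (XT.nd (nat_lit 390) (nat_lit 380) (nat_lit 0) (XT.nd (nat_lit 156) (nat_lit 228) (nat_lit 0) (XT.nd (nat_lit 78) (nat_lit 0) (nat_lit 0) (XT.lf (nat_lit 0) (nat_lit 153618533485) (nat_lit 76) (nat_lit 142673928180) (nat_lit 152) (nat_lit 122772701474) (nat_lit 25) (nat_lit 5) (nat_lit 26) (nat_lit 5) (nat_lit 27) (nat_lit 4) (nat_lit 413) (nat_lit 381) (nat_lit 226)) (XT.lf (nat_lit 0) (nat_lit 402517118330) (nat_lit 76) (nat_lit 13438233202) (nat_lit 152) (nat_lit 26177291675) (nat_lit 25) (nat_lit 5) (nat_lit 26) (nat_lit 5) (nat_lit 27) (nat_lit 4) (nat_lit 414) (nat_lit 381) (nat_lit 225))) (XT.nd (nat_lit 78) (nat_lit 76) (nat_lit 0) (XT.lf (nat_lit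 0) (nat_lit 82576058171) (nat_lit 152) (nat_lit 256640152882) (nat_lit 76) (nat_lit 127011800150) (nat_lit 23) (nat_lit 5) (nat_lit 25) (nat_lit 5) (nat_lit 24) (nat_lit 4) (nat_lit 415) (nat_lit 381) (nat_lit 224)) (XT.nd (nat_lit 78) (nat_lit 76) (nat_lit 0) (XT.lf (nat_lit 0) (nat_lit 200075634993) (nat_lit 152) (nat_lit 12241212560) (nat_lit 76) (nat_lit 279762949731) (nat_lit 23) (nat_lit 5) (nat_lit 25) (nat_lit 5) (nat_lit 24) (nat_lit 4) (nat_lit 416) (nat_lit 381) (nat_lit 223)) (XT.lf (nat_lit 0) (nat_lit 264964002415) (nat_lit 76) (nat_lit 68383450438) (nat_lit 152) (nat_lit 186142491436) (nat_lit 22) (nat_lit 5) (nat_lit 23) (nat_lit 5) (nat_lit 24) (nat_lit 4) (nat_lit 417) (nat_lit 381) (nat_lit 222))))) (XT.nd (nat_lit 234) (nat_lit 152) (nat_lit 0) (XT.nd (nat_lit 78) (nat_lit 152) (nat_lit 0) (XT.lf (nat_lit 0) (nat_lit 14603382202) (nat_lit 76) (nat_lit 465466027203)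 (nat_lit 76) (nat_lit 68800422216) (nat_lit 21) (nat_lit 4) (nat_lit 22) (nat_lit 5) (nat_lit 22) (nat_lit 4) (nat_lit 418) (nat_lit 381) (nat_lit 221)) (XT.nd (nat_lit 78) (nat_lit 76) (nat_lit 0) (XT.lf (nat_lit 0) (nat_lit 63947196825) (nat_lit 152) (nat_lit 263655567504) (nat_lit 76) (nat_lit 252172607854) (nat_lit 20) (nat_lit 5) (nat_lit 22) (nat_lit 5) (nat_lit 21) (nat_lit 4) (nat_lit 419) (nat_lit 381) (nat_lit 220)) (XT.lf (nat_lit 0) (nat_lit 28229095643) (nat_lit 76) (nat_lit 176047324879) (nat_lit 152) (nat_lit 408679669176) (nat_lit 19) (nat_lit 5) (nat_lit 20) (nat_lit 5) (nat_lit 21) (nat_lit 4) (nat_lit 420) (nat_lit 381) (nat_lit 219)))) (XT.nd (nat_lit 78) (nat_lit 152) (nat_lit 0) (XT.lf (nat_lit 0) (nat_lit 358458663564) (nat_lit 76) (nat_lit 4582026677) (nat_lit 152) (nat_lit 285173877744) (nat_lit 19) (nat_lit 5) (nat_lit 20) (nat_lit 5) (nat_lit 21) (nat_lit 4)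 (nat_lit 421) (nat_lit 381) (nat_lit 218)) (XT.nd (nat_lit 78) (nat_lit 76) (nat_lit 0) (XT.lf (nat_lit 0) (nat_lit 25757747784) (nat_lit 76) (nat_lit 513711177675) (nat_lit 76) (nat_lit 146427773179) (nat_lit 18) (nat_lit 4) (nat_lit 19) (nat_lit 5) (nat_lit 19) (nat_lit 4) (nat_lit 422) (nat_lit 381) (nat_lit 217)) (XT.lf (nat_lit 0) (nat_lit 11494171400) (nat_lit 152) (nat_lit 343375617761) (nat_lit 76) (nat_lit 371057263535) (nat_lit 17) (nat_lit 5) (nat_lit 19) (nat_lit 5) (nat_lit 18) (nat_lit 4) (nat_lit 423) (nat_lit 381) (nat_lit 216))))))))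
noncomputable def xc196 : XT := (XT.nd (nat_lit 1560) (nat_lit 304) (nat_lit 0) (XT.nd (nat_lit 780) (nat_lit 304) (nat_lit 0) (XT.nd (nat_lit 390) (nat_lit 228) (nat_lit 0) (XT.nd (nat_lit 156) (nat_lit 152) (nat_lit 0) (XT.nd (nat_lit 78) (nat_lit 76) (nat_lit 0) (XT.lf (nat_lit 0) (nat_lit 174138879200) (nat_lit 152) (nat_lit 5074708665) (nat_lit 76) (nat_lit 589641988868) (nat_lit 17) (nat_lit 5) (nat_lit 19) (nat_lit 5) (nat_lit 18) (nat_lit 4) (nat_lit 424) (nat_lit 381) (nat_lit 215)) (XT.lf (nat_lit 0) (nat_lit 359405671539) (nat_lit 152) (nat_lit 435715656750) (nat_lit 0) (nat_lit 19328213785) (nat_lit 16) (nat_lit 5) (nat_lit 18) (nat_lit 4) (nat_lit 16) (nat_lit 4) (nat_lit 425) (nat_lit 381) (nat_lit 214))) (XT.nd (nat_lit 78) (nat_lit 152) (nat_lit 0) (XT.lf (nat_lit 0) (nat_lit 564290979046) (nat_lit 152) (nat_lit 74802816564) (nat_lit 0) (nat_lit 224213455302) (nat_lit 16)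 (nat_lit 5) (nat_lit 18) (nat_lit 4) (nat_lit 16) (nat_lit 4) (nat_lit 426) (nat_lit 381) (nat_lit 213)) (XT.nd (nat_lit 78) (nat_lit 76) (nat_lit 0) (XT.lf (nat_lit 0) (nat_lit 331569344403) (nat_lit 76) (nat_lit 461971941467) (nat_lit 76) (nat_lit 121894356621) (nat_lit 15) (nat_lit 4) (nat_lit 16) (nat_lit 5) (nat_lit 16) (nat_lit 4) (nat_lit 427) (nat_lit 381) (nat_lit 212)) (XT.lf (nat_lit 0) (nat_lit 68024066212) (nat_lit 152) (nat_lit 198587583699) (nat_lit 76) (nat_lit 704821271816) (nat_lit 14) (nat_lit 5) (nat_lit 16) (nat_lit 5) (nat_lit 15) (nat_lit 4) (nat_lit 428) (nat_lit 381) (nat_lit 211))))) (XT.nd (nat_lit 156) (nat_lit 152) (nat_lit 0) (XT.nd (nat_lit 78) (nat_lit 0) (nat_lit 0) (XT.lf (nat_lit 0) (nat_lit 225634347350) (nat_lit 76) (nat_lit 46342595513) (nat_lit 152) (nat_lit 759245638167) (nat_lit 13) (nat_lit 5) (nat_lit 14) (nat_lit 5) (nat_lit 15) (nat_lit 4) (nat_lit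 429) (nat_lit 381) (nat_lit 210)) (XT.lf (nat_lit 0) (nat_lit 502423482092) (nat_lit 152) (nat_lit 405021052743) (nat_lit 0) (nat_lit 187536683656) (nat_lit 13) (nat_lit 5) (nat_lit 15) (nat_lit 4) (nat_lit 13) (nat_lit 4) (nat_lit 430) (nat_lit 381) (nat_lit 209))) (XT.nd (nat_lit 78) (nat_lit 76) (nat_lit 0) (XT.lf (nat_lit 0) (nat_lit 27777199503) (nat_lit 76) (nat_lit 725400226476) (nat_lit 76) (nat_lit 410513386455) (nat_lit 12) (nat_lit 4) (nat_lit 13) (nat_lit 5) (nat_lit 13) (nat_lit 4) (nat_lit 431) (nat_lit 381) (nat_lit 208)) (XT.nd (nat_lit 78) (nat_lit 76) (nat_lit 0) (XT.lf (nat_lit 0) (nat_lit 518233093900) (nat_lit 76) (nat_lit 516832522040) (nat_lit 76) (nat_lit 201945643514) (nat_lit 12) (nat_lit 4) (nat_lit 13) (nat_lit 5) (nat_lit 13) (nat_lit 4) (nat_lit 432) (nat_lit 381) (nat_lit 207)) (XT.lf (nat_lit 0) (nat_lit 22141522727) (nat_lit 152) (nat_lit 268832546905)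 (nat_lit 76) (nat_lit 1025178433672) (nat_lit 11) (nat_lit 5) (nat_lit 13) (nat_lit 5) (nat_lit 12) (nat_lit 4) (nat_lit 433) (nat_lit 381) (nat_lit 206)))))) (XT.nd (nat_lit 390) (nat_lit 152) (nat_lit 0) (XT.nd (nat_lit 156) (nat_lit 76) (nat_lit 0) (XT.nd (nat_lit 78) (nat_lit 0) (nat_lit 0) (XT.lf (nat_lit 0) (nat_lit 223019614838) (nat_lit 76) (nat_lit 35589309213) (nat_lit 152) (nat_lit 1142167409555) (nat_lit 10) (nat_lit 5) (nat_lit 11) (nat_lit 5) (nat_lit 12) (nat_lit 4) (nat_lit 434) (nat_lit 381) (nat_lit 205)) (XT.lf (nat_lit 0) (nat_lit 527312385809) (nat_lit 152) (nat_lit 728041821693) (nat_lit 0) (nat_lit 235750369369) (nat_lit 10) (nat_lit 5) (nat_lit 12) (nat_lit 4) (nat_lit 10) (nat_lit 4) (nat_lit 435) (nat_lit 381) (nat_lit 204))) (XT.nd (nat_lit 78) (nat_lit 76) (nat_lit 0) (XT.lf (nat_lit 0) (nat_lit 818436471250) (nat_lit 152) (nat_lit 243274232010) (nat_lit 0)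 (nat_lit 526874428604) (nat_lit 10) (nat_lit 5) (nat_lit 12) (nat_lit 4) (nat_lit 10) (nat_lit 4) (nat_lit 436) (nat_lit 381) (nat_lit 203)) (XT.nd (nat_lit 78) (nat_lit 0) (nat_lit 0) (XT.lf (nat_lit 0) (nat_lit 295033438329) (nat_lit 76) (nat_lit 844912559354) (nat_lit 76) (nat_lit 553350492443) (nat_lit 9) (nat_lit 4) (nat_lit 10) (nat_lit 5) (nat_lit 10) (nat_lit 4) (nat_lit 437) (nat_lit 381) (nat_lit 202)) (XT.lf (nat_lit 0) (nat_lit 890240851815) (nat_lit 76) (nat_lit 603586937198) (nat_lit 76) (nat_lit 312024847820) (nat_lit 9) (nat_lit 4) (nat_lit 10) (nat_lit 5) (nat_lit 10) (nat_lit 4) (nat_lit 438) (nat_lit 381) (nat_lit 201))))) (XT.nd (nat_lit 156) (nat_lit 0) (nat_lit 0) (XT.nd (nat_lit 78) (nat_lit 152) (nat_lit 0) (XT.lf (nat_lit 0) (nat_lit 1533064773549) (nat_lit 76) (nat_lit 342955307653) (nat_lit 76) (nat_lit 51393197473) (nat_lit 9) (nat_lit 4) (nat_lit 10) (nat_lit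 5) (nat_lit 10) (nat_lit 4) (nat_lit 439) (nat_lit 381) (nat_lit 200)) (XT.lf (nat_lit 0) (nat_lit 171669725813) (nat_lit 76) (nat_lit 51037896905) (nat_lit 152) (nat_lit 1835218167844) (nat_lit 7) (nat_lit 5) (nat_lit 8) (nat_lit 5) (nat_lit 9) (nat_lit 4) (nat_lit 440) (nat_lit 381) (nat_lit 199))) (XT.nd (nat_lit 78) (nat_lit 0) (nat_lit 0) (XT.lf (nat_lit 0) (nat_lit 533376952338) (nat_lit 152) (nat_lit 1400590197940) (nat_lit 0) (nat_lit 263412001156) (nat_lit 7) (nat_lit 5) (nat_lit 9) (nat_lit 4) (nat_lit 7) (nat_lit 4) (nat_lit 441) (nat_lit 381) (nat_lit 198)) (XT.nd (nat_lit 78) (nat_lit 0) (nat_lit 0) (XT.lf (nat_lit 0) (nat_lit 870225450786) (nat_lit 152) (nat_lit 877396796283) (nat_lit 0) (nat_lit 600260484313) (nat_lit 7) (nat_lit 5) (nat_lit 9) (nat_lit 4) (nat_lit 7) (nat_lit 4) (nat_lit 442) (nat_lit 381) (nat_lit 197)) (XT.lf (nat_lit 0) (nat_lit 1234021794664) (nat_lit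 152) (nat_lit 312347991788) (nat_lit 0) (nat_lit 964056814033) (nat_lit 7) (nat_lit 5) (nat_lit 9) (nat_lit 4) (nat_lit 7) (nat_lit 4) (nat_lit 443) (nat_lit 381) (nat_lit 196))))))) (XT.nd (nat_lit 780) (nat_lit 76) (nat_lit 0) (XT.nd (nat_lit 390) (nat_lit 76) (nat_lit 0) (XT.nd (nat_lit 156) (nat_lit 76) (nat_lit 0) (XT.nd (nat_lit 78) (nat_lit 0) (nat_lit 0) (XT.lf (nat_lit 0) (nat_lit 313591783995) (nat_lit 76) (nat_lit 1320871920110) (nat_lit 76) (nat_lit 1050906926369) (nat_lit 6) (nat_lit 4) (nat_lit 7) (nat_lit 5) (nat_lit 7) (nat_lit 4) (nat_lit 444) (nat_lit 381) (nat_lit 195)) (XT.lf (nat_lit 0) (nat_lit 1007370186361) (nat_lit 76) (nat_lit 1068110896528) (nat_lit 76) (nat_lit 798145890649) (nat_lit 6) (nat_lit 4) (nat_lit 7) (nat_lit 5) (nat_lit 7) (nat_lit 4) (nat_lit 445) (nat_lit 381) (nat_lit 194))) (XT.nd (nat_lit 78) (nat_lit 76) (nat_lit 0) (XT.lf (nat_lit 0) (nat_lit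 1756650803012) (nat_lit 76) (nat_lit 795129020226) (nat_lit 76) (nat_lit 525164003108) (nat_lit 6) (nat_lit 4) (nat_lit 7) (nat_lit 5) (nat_lit 7) (nat_lit 4) (nat_lit 446) (nat_lit 381) (nat_lit 193)) (XT.nd (nat_lit 78) (nat_lit 76) (nat_lit 0) (XT.lf (nat_lit 0) (nat_lit 2565873815380) (nat_lit 76) (nat_lit 500308620828) (nat_lit 76) (nat_lit 230343593304) (nat_lit 6) (nat_lit 4) (nat_lit 7) (nat_lit 5) (nat_lit 7) (nat_lit 4) (nat_lit 447) (nat_lit 381) (nat_lit 192)) (XT.lf (nat_lit 0) (nat_lit 83657183638) (nat_lit 152) (nat_lit 95958095193) (nat_lit 76) (nat_lit 3353890099802) (nat_lit 5) (nat_lit 5) (nat_lit 7) (nat_lit 5) (nat_lit 6) (nat_lit 4) (nat_lit 448) (nat_lit 381) (nat_lit 191))))) (XT.nd (nat_lit 156) (nat_lit 0) (nat_lit 0) (XT.nd (nat_lit 78) (nat_lit 0) (nat_lit 0) (XT.lf (nat_lit 0) (nat_lit 429655394357) (nat_lit 152) (nat_lit 3178075533504) (nat_lit 0) (nat_lit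 179687759096) (nat_lit 4) (nat_lit 5) (nat_lit 6) (nat_lit 4) (nat_lit 4) (nat_lit 4) (nat_lit 449) (nat_lit 381) (nat_lit 190)) (XT.lf (nat_lit 0) (nat_lit 810690582016) (nat_lit 152) (nat_lit 2689642969221) (nat_lit 0) (nat_lit 560722939105) (nat_lit 4) (nat_lit 5) (nat_lit 6) (nat_lit 4) (nat_lit 4) (nat_lit 4) (nat_lit 450) (nat_lit 381) (nat_lit 189))) (XT.nd (nat_lit 78) (nat_lit 0) (nat_lit 0) (XT.lf (nat_lit 0) (nat_lit 1222208563078) (nat_lit 152) (nat_lit 2162135843565) (nat_lit 0) (nat_lit 972240913085) (nat_lit 4) (nat_lit 5) (nat_lit 6) (nat_lit 4) (nat_lit 4) (nat_lit 4) (nat_lit 451) (nat_lit 381) (nat_lit 188)) (XT.nd (nat_lit 78) (nat_lit 0) (nat_lit 0) (XT.lf (nat_lit 0) (nat_lit 1666647962618) (nat_lit 152) (nat_lit 1592428188383) (nat_lit 0) (nat_lit 1416680306067) (nat_lit 4) (nat_lit 5) (nat_lit 6) (nat_lit 4) (nat_lit 4) (nat_lit 4) (nat_lit 452) (nat_lit 381) (nat_lit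 187)) (XT.lf (nat_lit 0) (nat_lit 2146642495594) (nat_lit 152) (nat_lit 977143958312) (nat_lit 0) (nat_lit 1896674832971) (nat_lit 4) (nat_lit 5) (nat_lit 6) (nat_lit 4) (nat_lit 4) (nat_lit 4) (nat_lit 453) (nat_lit 381) (nat_lit 186)))))) (XT.nd (nat_lit 47502) (nat_lit 0) (nat_lit 4256) (XT.nd (nat_lit 156) (nat_lit 0) (nat_lit 0) (XT.nd (nat_lit 78) (nat_lit 76) (nat_lit 0) (XT.lf (nat_lit 0) (nat_lit 2665036574055) (nat_lit 152) (nat_lit 312637024581) (nat_lit 0) (nat_lit 2415068905809) (nat_lit 4) (nat_lit 5) (nat_lit 6) (nat_lit 4) (nat_lit 4) (nat_lit 4) (nat_lit 454) (nat_lit 381) (nat_lit 185)) (XT.lf (nat_lit 0) (nat_lit 426358616433) (nat_lit 76) (nat_lit 2808797481455) (nat_lit 76) (nat_lit 2558829808003) (nat_lit 3) (nat_lit 4) (nat_lit 4) (nat_lit 5) (nat_lit 4) (nat_lit 4) (nat_lit 455) (nat_lit 381) (nat_lit 184))) (XT.nd (nat_lit 78) (nat_lit 0) (nat_lit 0) (XT.lf (nat_lit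 0) (nat_lit 1242253821980) (nat_lit 76) (nat_lit 2617179396480) (nat_lit 76) (nat_lit 2367211718208) (nat_lit 3) (nat_lit 4) (nat_lit 4) (nat_lit 5) (nat_lit 4) (nat_lit 4) (nat_lit 456) (nat_lit 381) (nat_lit 183)) (XT.nd (nat_lit 78) (nat_lit 0) (nat_lit 0) (XT.lf (nat_lit 0) (nat_lit 2123420614936) (nat_lit 76) (nat_lit 2410231879425) (nat_lit 76) (nat_lit 2160264196691) (nat_lit 3) (nat_lit 4) (nat_lit 4) (nat_lit 5) (nat_lit 4) (nat_lit 4) (nat_lit 457) (nat_lit 381) (nat_lit 182)) (XT.lf (nat_lit 0) (nat_lit 3075080724445) (nat_lit 76) (nat_lit 2186728574636) (nat_lit 76) (nat_lit 1936760887768) (nat_lit 3) (nat_lit 4) (nat_lit 4) (nat_lit 5) (nat_lit 4) (nat_lit 4) (nat_lit 458) (nat_lit 381) (nat_lit 181))))) (XT.nd (nat_lit 234) (nat_lit 380) (nat_lit 0) (XT.nd (nat_lit 78) (nat_lit 0) (nat_lit 0) (XT.lf (nat_lit 0) (nat_lit 45415875467) (nat_lit 532) (nat_lit 3057031235) (nat_lit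 532) (nat_lit 3057031235) (nat_lit 64) (nat_lit 3) (nat_lit 71) (nat_lit 3) (nat_lit 71) (nat_lit 5) (nat_lit 382) (nat_lit 382) (nat_lit 256)) (XT.nd (nat_lit 78) (nat_lit 0) (nat_lit 76) (XT.lf (nat_lit 76) (nat_lit 46292047533) (nat_lit 0) (nat_lit 49292062883) (nat_lit 532) (nat_lit 11508627885) (nat_lit 65) (nat_lit 5) (nat_lit 64) (nat_lit 3) (nat_lit 71) (nat_lit 5) (nat_lit 383) (nat_lit 382) (nat_lit 255)) (XT.lf (nat_lit 0) (nat_lit 100939876018) (nat_lit 456) (nat_lit 8253505815) (nat_lit 532) (nat_lit 2236991046) (nat_lit 65) (nat_lit 5) (nat_lit 71) (nat_lit 5) (nat_lit 72) (nat_lit 5) (nat_lit 384) (nat_lit 382) (nat_lit 254)))) (XT.nd (nat_lit 78) (nat_lit 456) (nat_lit 0) (XT.lf (nat_lit 76) (nat_lit 49703139613) (nat_lit 0) (nat_lit 59496102669) (nat_lit 532) (nat_lit 6717765292) (nat_lit 66) (nat_lit 5) (nat_lit 65) (nat_lit 5) (nat_lit 72) (nat_lit 5) (nat_lit 385) (nat_lit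 382) (nat_lit 253)) (XT.nd (nat_lit 78) (nat_lit 456) (nat_lit 0) (XT.lf (nat_lit 76) (nat_lit 112765356469) (nat_lit 0) (nat_lit 5579162636) (nat_lit 532) (nat_lit 2400041507) (nat_lit 66) (nat_lit 5) (nat_lit 65) (nat_lit 5) (nat_lit 72) (nat_lit 5) (nat_lit 386) (nat_lit 382) (nat_lit 252)) (XT.lf (nat_lit 0) (nat_lit 4842010345) (nat_lit 532) (nat_lit 69398383964) (nat_lit 608) (nat_lit 51498200208) (nat_lit 59) (nat_lit 5) (nat_lit 66) (nat_lit 5) (nat_lit 67) (nat_lit 5) (nat_lit 387) (nat_lit 382) (nat_lit 251))))))))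
noncomputable def xc197 : XT := (XT.nd (nat_lit 1560) (nat_lit 1292) (nat_lit 0) (XT.nd (nat_lit 780) (nat_lit 1064) (nat_lit 0) (XT.nd (nat_lit 390) (nat_lit 456) (nat_lit 0) (XT.nd (nat_lit 156) (nat_lit 532) (nat_lit 0) (XT.nd (nat_lit 78) (nat_lit 0) (nat_lit 76) (XT.lf (nat_lit 0) (nat_lit 12902058125) (nat_lit 532) (nat_lit 5069028876) (nat_lit 608) (nat_lit 113126613698) (nat_lit 59) (nat_lit 5) (nat_lit 66) (nat_lit 5) (nat_lit 67) (nat_lit 5) (nat_lit 388) (nat_lit 382) (nat_lit 250)) (XT.lf (nat_lit 0) (nat_lit 24308722465) (nat_lit 532) (nat_lit 70028964175) (nat_lit 76) (nat_lit 42331704059) (nat_lit 60) (nat_lit 5) (nat_lit 67) (nat_lit 5) (nat_lit 61) (nat_lit 5) (nat_lit 389) (nat_lit 382) (nat_lit 249))) (XT.nd (nat_lit 78) (nat_lit 228) (nat_lit 0) (XT.lf (nat_lit 0) (nat_lit 1293124624) (nat_lit 380) (nat_lit 35974480696) (nat_lit 456) (nat_lit 105368036068) (nat_lit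 55) (nat_lit 5) (nat_lit 60) (nat_lit 5) (nat_lit 61) (nat_lit 5) (nat_lit 390) (nat_lit 382) (nat_lit 248)) (XT.nd (nat_lit 78) (nat_lit 228) (nat_lit 0) (XT.lf (nat_lit 0) (nat_lit 53878016592) (nat_lit 456) (nat_lit 67323290749) (nat_lit 76) (nat_lit 27668699662) (nat_lit 55) (nat_lit 5) (nat_lit 61) (nat_lit 5) (nat_lit 56) (nat_lit 5) (nat_lit 391) (nat_lit 382) (nat_lit 247)) (XT.lf (nat_lit 0) (nat_lit 12297898532) (nat_lit 228) (nat_lit 60749185216) (nat_lit 304) (nat_lit 82457652556) (nat_lit 52) (nat_lit 5) (nat_lit 55) (nat_lit 5) (nat_lit 56) (nat_lit 5) (nat_lit 392) (nat_lit 382) (nat_lit 246))))) (XT.nd (nat_lit 156) (nat_lit 228) (nat_lit 0) (XT.nd (nat_lit 78) (nat_lit 228) (nat_lit 0) (XT.lf (nat_lit 0) (nat_lit 95747063783) (nat_lit 304) (nat_lit 60562823709) (nat_lit 76) (nat_lit 6200565706) (nat_lit 52) (nat_lit 5) (nat_lit 56) (nat_lit 5) (nat_lit 53) (nat_lit 5)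 (nat_lit 393) (nat_lit 382) (nat_lit 245)) (XT.lf (nat_lit 0) (nat_lit 28542258095) (nat_lit 228) (nat_lit 93984823726) (nat_lit 304) (nat_lit 47368422691) (nat_lit 49) (nat_lit 5) (nat_lit 52) (nat_lit 5) (nat_lit 53) (nat_lit 5) (nat_lit 394) (nat_lit 382) (nat_lit 244))) (XT.nd (nat_lit 78) (nat_lit 228) (nat_lit 0) (XT.lf (nat_lit 0) (nat_lit 128219664985) (nat_lit 228) (nat_lit 24885442156) (nat_lit 304) (nat_lit 24633804538) (nat_lit 49) (nat_lit 5) (nat_lit 52) (nat_lit 5) (nat_lit 53) (nat_lit 5) (nat_lit 395) (nat_lit 382) (nat_lit 243)) (XT.nd (nat_lit 78) (nat_lit 0) (nat_lit 0) (XT.lf (nat_lit 0) (nat_lit 2409523061) (nat_lit 228) (nat_lit 135060039489) (nat_lit 76) (nat_lit 48541510402) (nat_lit 46) (nat_lit 5) (nat_lit 49) (nat_lit 5) (nat_lit 47) (nat_lit 5) (nat_lit 396) (nat_lit 382) (nat_lit 242)) (XT.lf (nat_lit 0) (nat_lit 32320674317) (nat_lit 228) (nat_lit 33883277139)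 (nat_lit 76) (nat_lit 128527050897) (nat_lit 46) (nat_lit 5) (nat_lit 49) (nat_lit 5) (nat_lit 47) (nat_lit 5) (nat_lit 397) (nat_lit 382) (nat_lit 241)))))) (XT.nd (nat_lit 390) (nat_lit 456) (nat_lit 0) (XT.nd (nat_lit 156) (nat_lit 380) (nat_lit 0) (XT.nd (nat_lit 78) (nat_lit 0) (nat_lit 0) (XT.lf (nat_lit 0) (nat_lit 66841431819) (nat_lit 304) (nat_lit 124947211269) (nat_lit 76) (nat_lit 12182546046) (nat_lit 43) (nat_lit 5) (nat_lit 47) (nat_lit 5) (nat_lit 44) (nat_lit 5) (nat_lit 398) (nat_lit 382) (nat_lit 240)) (XT.lf (nat_lit 0) (nat_lit 106793689612) (nat_lit 304) (nat_lit 12729664461) (nat_lit 76) (nat_lit 94213649757) (nat_lit 43) (nat_lit 5) (nat_lit 47) (nat_lit 5) (nat_lit 44) (nat_lit 5) (nat_lit 399) (nat_lit 382) (nat_lit 239))) (XT.nd (nat_lit 78) (nat_lit 228) (nat_lit 0) (XT.lf (nat_lit 0) (nat_lit 114176557184) (nat_lit 152) (nat_lit 38511301833) (nat_lit 228) (nat_lit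 71376566340) (nat_lit 41) (nat_lit 5) (nat_lit 43) (nat_lit 5) (nat_lit 44) (nat_lit 5) (nat_lit 400) (nat_lit 382) (nat_lit 238)) (XT.nd (nat_lit 78) (nat_lit 76) (nat_lit 0) (XT.lf (nat_lit 0) (nat_lit 16402168753) (nat_lit 152) (nat_lit 187780758096) (nat_lit 228) (nat_lit 30880764695) (nat_lit 39) (nat_lit 5) (nat_lit 41) (nat_lit 5) (nat_lit 42) (nat_lit 5) (nat_lit 401) (nat_lit 382) (nat_lit 237)) (XT.lf (nat_lit 0) (nat_lit 16294311206) (nat_lit 228) (nat_lit 89045509812) (nat_lit 76) (nat_lit 141251733300) (nat_lit 38) (nat_lit 5) (nat_lit 41) (nat_lit 5) (nat_lit 39) (nat_lit 5) (nat_lit 402) (nat_lit 382) (nat_lit 236))))) (XT.nd (nat_lit 156) (nat_lit 304) (nat_lit 0) (XT.nd (nat_lit 78) (nat_lit 0) (nat_lit 0) (XT.lf (nat_lit 0) (nat_lit 52777543025) (nat_lit 152) (nat_lit 14066595361) (nat_lit 228) (nat_lit 192031811318) (nat_lit 36) (nat_lit 5) (nat_lit 38) (nat_lit 5) (nat_lit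 39) (nat_lit 5) (nat_lit 403) (nat_lit 382) (nat_lit 235)) (XT.lf (nat_lit 0) (nat_lit 125968095481) (nat_lit 228) (nat_lit 63033750846) (nat_lit 76) (nat_lit 82778838986) (nat_lit 36) (nat_lit 5) (nat_lit 39) (nat_lit 5) (nat_lit 37) (nat_lit 5) (nat_lit 404) (nat_lit 382) (nat_lit 234))) (XT.nd (nat_lit 78) (nat_lit 152) (nat_lit 0) (XT.lf (nat_lit 0) (nat_lit 95908152337) (nat_lit 152) (nat_lit 96585602722) (nat_lit 228) (nat_lit 93010301926) (nat_lit 34) (nat_lit 5) (nat_lit 36) (nat_lit 5) (nat_lit 37) (nat_lit 5) (nat_lit 405) (nat_lit 382) (nat_lit 233)) (XT.nd (nat_lit 78) (nat_lit 152) (nat_lit 0) (XT.lf (nat_lit 0) (nat_lit 266187053252) (nat_lit 228) (nat_lit 29159807249) (nat_lit 76) (nat_lit 4830791102) (nat_lit 34) (nat_lit 5) (nat_lit 37) (nat_lit 5) (nat_lit 35) (nat_lit 4) (nat_lit 406) (nat_lit 382) (nat_lit 232)) (XT.lf (nat_lit 0) (nat_lit 34514128599) (nat_lit 152)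 (nat_lit 167352709892) (nat_lit 76) (nat_lit 113600919264) (nat_lit 32) (nat_lit 5) (nat_lit 34) (nat_lit 5) (nat_lit 33) (nat_lit 5) (nat_lit 407) (nat_lit 382) (nat_lit 231))))))) (XT.nd (nat_lit 780) (nat_lit 608) (nat_lit 0) (XT.nd (nat_lit 390) (nat_lit 228) (nat_lit 0) (XT.nd (nat_lit 156) (nat_lit 304) (nat_lit 0) (XT.nd (nat_lit 78) (nat_lit 0) (nat_lit 0) (XT.lf (nat_lit 0) (nat_lit 8851914296) (nat_lit 152) (nat_lit 98841667042) (nat_lit 228) (nat_lit 224134403486) (nat_lit 30) (nat_lit 5) (nat_lit 32) (nat_lit 5) (nat_lit 33) (nat_lit 5) (nat_lit 408) (nat_lit 382) (nat_lit 230)) (XT.lf (nat_lit 0) (nat_lit 191720641484) (nat_lit 228) (nat_lit 140878512641) (nat_lit 76) (nat_lit 16498415896) (nat_lit 30) (nat_lit 5) (nat_lit 33) (nat_lit 5) (nat_lit 31) (nat_lit 4) (nat_lit 409) (nat_lit 382) (nat_lit 229))) (XT.nd (nat_lit 78) (nat_lit 228) (nat_lit 0) (XT.lf (nat_lit 0) (nat_lit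 56021725209) (nat_lit 76) (nat_lit 230362640038) (nat_lit 152) (nat_lit 81051196937) (nat_lit 29) (nat_lit 5) (nat_lit 30) (nat_lit 5) (nat_lit 31) (nat_lit 4) (nat_lit 410) (nat_lit 382) (nat_lit 228)) (XT.nd (nat_lit 78) (nat_lit 152) (nat_lit 0) (XT.lf (nat_lit 0) (nat_lit 5263307167) (nat_lit 152) (nat_lit 110380071665) (nat_lit 76) (nat_lit 271278416523) (nat_lit 28) (nat_lit 5) (nat_lit 30) (nat_lit 5) (nat_lit 29) (nat_lit 5) (nat_lit 411) (nat_lit 382) (nat_lit 227)) (XT.lf (nat_lit 0) (nat_lit 97074832982) (nat_lit 228) (nat_lit 297767961282) (nat_lit 76) (nat_lit 12718056389) (nat_lit 26) (nat_lit 5) (nat_lit 29) (nat_lit 5) (nat_lit 27) (nat_lit 4) (nat_lit 412) (nat_lit 382) (nat_lit 226))))) (XT.nd (nat_lit 156) (nat_lit 152) (nat_lit 0) (XT.nd (nat_lit 78) (nat_lit 76) (nat_lit 0) (XT.lf (nat_lit 0) (nat_lit 202331253542) (nat_lit 228) (nat_lit 78834832596) (nat_lit 76) (nat_lit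 148196946462) (nat_lit 26) (nat_lit 5) (nat_lit 29) (nat_lit 5) (nat_lit 27) (nat_lit 4) (nat_lit 413) (nat_lit 382) (nat_lit 225)) (XT.lf (nat_lit 0) (nat_lit 165912343045) (nat_lit 76) (nat_lit 154085922502) (nat_lit 152) (nat_lit 132591917367) (nat_lit 25) (nat_lit 5) (nat_lit 26) (nat_lit 5) (nat_lit 27) (nat_lit 4) (nat_lit 414) (nat_lit 382) (nat_lit 224))) (XT.nd (nat_lit 78) (nat_lit 152) (nat_lit 0) (XT.lf (nat_lit 0) (nat_lit 434722494168) (nat_lit 76) (nat_lit 14511514143) (nat_lit 152) (nat_lit 28269067394) (nat_lit 25) (nat_lit 5) (nat_lit 26) (nat_lit 5) (nat_lit 27) (nat_lit 4) (nat_lit 415) (nat_lit 382) (nat_lit 223)) (XT.nd (nat_lit 78) (nat_lit 0) (nat_lit 0) (XT.lf (nat_lit 0) (nat_lit 89184400825) (nat_lit 152) (nat_lit 277167207937) (nat_lit 76) (nat_lit 137174462124) (nat_lit 23) (nat_lit 5) (nat_lit 25) (nat_lit 5) (nat_lit 24) (nat_lit 4) (nat_lit 416) (nat_lit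 382) (nat_lit 222)) (XT.lf (nat_lit 0) (nat_lit 216083776534) (nat_lit 152) (nat_lit 13216660329) (nat_lit 76) (nat_lit 302145576415) (nat_lit 23) (nat_lit 5) (nat_lit 25) (nat_lit 5) (nat_lit 24) (nat_lit 4) (nat_lit 417) (nat_lit 382) (nat_lit 221)))))) (XT.nd (nat_lit 390) (nat_lit 304) (nat_lit 0) (XT.nd (nat_lit 156) (nat_lit 152) (nat_lit 0) (XT.nd (nat_lit 78) (nat_lit 76) (nat_lit 0) (XT.lf (nat_lit 0) (nat_lit 286164874395) (nat_lit 76) (nat_lit 73852400788) (nat_lit 152) (nat_lit 201031702070) (nat_lit 22) (nat_lit 5) (nat_lit 23) (nat_lit 5) (nat_lit 24) (nat_lit 4) (nat_lit 418) (nat_lit 382) (nat_lit 220)) (XT.lf (nat_lit 0) (nat_lit 15775427593) (nat_lit 76) (nat_lit 502701539797) (nat_lit 76) (nat_lit 74302289888) (nat_lit 21) (nat_lit 4) (nat_lit 22) (nat_lit 5) (nat_lit 22) (nat_lit 4) (nat_lit 419) (nat_lit 382) (nat_lit 219))) (XT.nd (nat_lit 78) (nat_lit 76) (nat_lit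 0) (XT.lf (nat_lit 0) (nat_lit 69064877894) (nat_lit 152) (nat_lit 284744416985) (nat_lit 76) (nat_lit 272347954264) (nat_lit 20) (nat_lit 5) (nat_lit 22) (nat_lit 5) (nat_lit 21) (nat_lit 4) (nat_lit 420) (nat_lit 382) (nat_lit 218)) (XT.nd (nat_lit 78) (nat_lit 0) (nat_lit 0) (XT.lf (nat_lit 0) (nat_lit 30490928177) (nat_lit 76) (nat_lit 190129454466) (nat_lit 152) (nat_lit 441372045992) (nat_lit 19) (nat_lit 5) (nat_lit 20) (nat_lit 5) (nat_lit 21) (nat_lit 4) (nat_lit 421) (nat_lit 382) (nat_lit 217)) (XT.lf (nat_lit 0) (nat_lit 387138601911) (nat_lit 76) (nat_lit 4947055105) (nat_lit 152) (nat_lit 307985939149) (nat_lit 19) (nat_lit 5) (nat_lit 20) (nat_lit 5) (nat_lit 21) (nat_lit 4) (nat_lit 422) (nat_lit 382) (nat_lit 216))))) (XT.nd (nat_lit 234) (nat_lit 152) (nat_lit 0) (XT.nd (nat_lit 78) (nat_lit 76) (nat_lit 0) (XT.lf (nat_lit 0) (nat_lit 27821628542) (nat_lit 76) (nat_lit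 554806508308) (nat_lit 76) (nat_lit 158140161583) (nat_lit 18) (nat_lit 4) (nat_lit 19) (nat_lit 5) (nat_lit 19) (nat_lit 4) (nat_lit 423) (nat_lit 382) (nat_lit 215)) (XT.nd (nat_lit 78) (nat_lit 0) (nat_lit 0) (XT.lf (nat_lit 0) (nat_lit 12415317828) (nat_lit 152) (nat_lit 370842562611) (nat_lit 76) (nat_lit 400743207192) (nat_lit 17) (nat_lit 5) (nat_lit 19) (nat_lit 5) (nat_lit 18) (nat_lit 4) (nat_lit 424) (nat_lit 382) (nat_lit 214)) (XT.lf (nat_lit 0) (nat_lit 188071482792) (nat_lit 152) (nat_lit 5477810755) (nat_lit 76) (nat_lit 636814609620) (nat_lit 17) (nat_lit 5) (nat_lit 19) (nat_lit 5) (nat_lit 18) (nat_lit 4) (nat_lit 425) (nat_lit 382) (nat_lit 213)))) (XT.nd (nat_lit 78) (nat_lit 76) (nat_lit 0) (XT.lf (nat_lit 0) (nat_lit 388159607802) (nat_lit 152) (nat_lit 470570023743) (nat_lit 0) (nat_lit 20875755066) (nat_lit 16) (nat_lit 5) (nat_lit 18) (nat_lit 4) (nat_lit 16)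 (nat_lit 4) (nat_lit 426) (nat_lit 382) (nat_lit 212)) (XT.nd (nat_lit 78) (nat_lit 76) (nat_lit 0) (XT.lf (nat_lit 0) (nat_lit 609435630091) (nat_lit 152) (nat_lit 80784370086) (nat_lit 0) (nat_lit 242151720780) (nat_lit 16) (nat_lit 5) (nat_lit 18) (nat_lit 4) (nat_lit 16) (nat_lit 4) (nat_lit 427) (nat_lit 382) (nat_lit 211)) (XT.lf (nat_lit 0) (nat_lit 358097496118) (nat_lit 76) (nat_lit 498928426291) (nat_lit 76) (nat_lit 131644464594) (nat_lit 15) (nat_lit 4) (nat_lit 16) (nat_lit 5) (nat_lit 16) (nat_lit 4) (nat_lit 428) (nat_lit 382) (nat_lit 210))))))))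
noncomputable def xc198 : XT := (XT.nd (nat_lit 1560) (nat_lit 228) (nat_lit 0) (XT.nd (nat_lit 780) (nat_lit 228) (nat_lit 0) (XT.nd (nat_lit 390) (nat_lit 228) (nat_lit 0) (XT.nd (nat_lit 156) (nat_lit 76) (nat_lit 0) (XT.nd (nat_lit 78) (nat_lit 76) (nat_lit 0) (XT.lf (nat_lit 0) (nat_lit 73467258633) (nat_lit 152) (nat_lit 214472112243) (nat_lit 76) (nat_lit 761208083054) (nat_lit 14) (nat_lit 5) (nat_lit 16) (nat_lit 5) (nat_lit 15) (nat_lit 4) (nat_lit 429) (nat_lit 382) (nat_lit 209)) (XT.lf (nat_lit 0) (nat_lit 243687510553) (nat_lit 76) (nat_lit 50048819093) (nat_lit 152) (nat_lit 819983959204) (nat_lit 13) (nat_lit 5) (nat_lit 14) (nat_lit 5) (nat_lit 15) (nat_lit 4) (nat_lit 430) (nat_lit 382) (nat_lit 208))) (XT.nd (nat_lit 78) (nat_lit 76) (nat_lit 0) (XT.lf (nat_lit 0) (nat_lit 542618527169) (nat_lit 152) (nat_lit 437420435480) (nat_lit 0) (nat_lit 202540659857) (nat_lit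 13) (nat_lit 5) (nat_lit 15) (nat_lit 4) (nat_lit 13) (nat_lit 4) (nat_lit 431) (nat_lit 382) (nat_lit 207)) (XT.nd (nat_lit 78) (nat_lit 0) (nat_lit 0) (XT.lf (nat_lit 0) (nat_lit 30001618680) (nat_lit 76) (nat_lit 783431135428) (nat_lit 76) (nat_lit 443353232464) (nat_lit 12) (nat_lit 4) (nat_lit 13) (nat_lit 5) (nat_lit 13) (nat_lit 4) (nat_lit 432) (nat_lit 382) (nat_lit 206)) (XT.lf (nat_lit 0) (nat_lit 559693818465) (nat_lit 76) (nat_lit 558178096798) (nat_lit 76) (nat_lit 218100160822) (nat_lit 12) (nat_lit 4) (nat_lit 13) (nat_lit 5) (nat_lit 13) (nat_lit 4) (nat_lit 433) (nat_lit 382) (nat_lit 205))))) (XT.nd (nat_lit 156) (nat_lit 76) (nat_lit 0) (XT.nd (nat_lit 78) (nat_lit 76) (nat_lit 0) (XT.lf (nat_lit 0) (nat_lit 23913842172) (nat_lit 152) (nat_lit 290337174822) (nat_lit 76) (nat_lit 1107193606658) (nat_lit 11) (nat_lit 5) (nat_lit 13) (nat_lit 5) (nat_lit 12) (nat_lit 4)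 (nat_lit 434) (nat_lit 382) (nat_lit 204)) (XT.lf (nat_lit 0) (nat_lit 240863109839) (nat_lit 76) (nat_lit 38435498181) (nat_lit 152) (nat_lit 1233539754573) (nat_lit 10) (nat_lit 5) (nat_lit 11) (nat_lit 5) (nat_lit 12) (nat_lit 4) (nat_lit 435) (nat_lit 382) (nat_lit 203))) (XT.nd (nat_lit 78) (nat_lit 76) (nat_lit 0) (XT.lf (nat_lit 0) (nat_lit 569498296147) (nat_lit 152) (nat_lit 786283333606) (nat_lit 0) (nat_lit 254611239620) (nat_lit 10) (nat_lit 5) (nat_lit 12) (nat_lit 4) (nat_lit 10) (nat_lit 4) (nat_lit 436) (nat_lit 382) (nat_lit 202)) (XT.nd (nat_lit 78) (nat_lit 76) (nat_lit 0) (XT.lf (nat_lit 0) (nat_lit 883912240314) (nat_lit 152) (nat_lit 262734472587) (nat_lit 0) (nat_lit 569025161319) (nat_lit 10) (nat_lit 5) (nat_lit 12) (nat_lit 4) (nat_lit 10) (nat_lit 4) (nat_lit 437) (nat_lit 382) (nat_lit 201)) (XT.lf (nat_lit 0) (nat_lit 318637768393) (nat_lit 76) (nat_lit 912504737208)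 (nat_lit 76) (nat_lit 597617637410) (nat_lit 9) (nat_lit 4) (nat_lit 10) (nat_lit 5) (nat_lit 10) (nat_lit 4) (nat_lit 438) (nat_lit 382) (nat_lit 200)))))) (XT.nd (nat_lit 390) (nat_lit 76) (nat_lit 0) (XT.nd (nat_lit 156) (nat_lit 152) (nat_lit 0) (XT.nd (nat_lit 78) (nat_lit 0) (nat_lit 0) (XT.lf (nat_lit 0) (nat_lit 961461652364) (nat_lit 76) (nat_lit 651873126531) (nat_lit 76) (nat_lit 336986007472) (nat_lit 9) (nat_lit 4) (nat_lit 10) (nat_lit 5) (nat_lit 10) (nat_lit 4) (nat_lit 439) (nat_lit 382) (nat_lit 199)) (XT.lf (nat_lit 0) (nat_lit 1655711374326) (nat_lit 76) (nat_lit 370391023337) (nat_lit 76) (nat_lit 55503886443) (nat_lit 9) (nat_lit 4) (nat_lit 10) (nat_lit 5) (nat_lit 10) (nat_lit 4) (nat_lit 440) (nat_lit 382) (nat_lit 198))) (XT.nd (nat_lit 78) (nat_lit 0) (nat_lit 0) (XT.lf (nat_lit 0) (nat_lit 185404724298) (nat_lit 76) (nat_lit 55120216906) (nat_lit 152) (nat_lit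 1982034855853) (nat_lit 7) (nat_lit 5) (nat_lit 8) (nat_lit 5) (nat_lit 9) (nat_lit 4) (nat_lit 441) (nat_lit 382) (nat_lit 197)) (XT.nd (nat_lit 78) (nat_lit 0) (nat_lit 0) (XT.lf (nat_lit 0) (nat_lit 576047780550) (nat_lit 152) (nat_lit 1512636061874) (nat_lit 0) (nat_lit 284485587310) (nat_lit 7) (nat_lit 5) (nat_lit 9) (nat_lit 4) (nat_lit 7) (nat_lit 4) (nat_lit 442) (nat_lit 382) (nat_lit 196)) (XT.lf (nat_lit 0) (nat_lit 939844109094) (nat_lit 152) (nat_lit 947587288226) (nat_lit 0) (nat_lit 648281902745) (nat_lit 7) (nat_lit 5) (nat_lit 9) (nat_lit 4) (nat_lit 7) (nat_lit 4) (nat_lit 443) (nat_lit 382) (nat_lit 195))))) (XT.nd (nat_lit 156) (nat_lit 0) (nat_lit 0) (XT.nd (nat_lit 78) (nat_lit 76) (nat_lit 0) (XT.lf (nat_lit 0) (nat_lit 1332744114390) (nat_lit 152) (nat_lit 337334672094) (nat_lit 0) (nat_lit 1041181895903) (nat_lit 7) (nat_lit 5) (nat_lit 9) (nat_lit 4) (nat_lit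 7) (nat_lit 4) (nat_lit 444) (nat_lit 382) (nat_lit 194)) (XT.lf (nat_lit 0) (nat_lit 338680256409) (nat_lit 76) (nat_lit 1426541104668) (nat_lit 76) (nat_lit 1134978874942) (nat_lit 6) (nat_lit 4) (nat_lit 7) (nat_lit 5) (nat_lit 7) (nat_lit 4) (nat_lit 445) (nat_lit 382) (nat_lit 193))) (XT.nd (nat_lit 78) (nat_lit 0) (nat_lit 0) (XT.lf (nat_lit 0) (nat_lit 1087960847283) (nat_lit 76) (nat_lit 1153559241351) (nat_lit 76) (nat_lit 861997001218) (nat_lit 6) (nat_lit 4) (nat_lit 7) (nat_lit 5) (nat_lit 7) (nat_lit 4) (nat_lit 446) (nat_lit 382) (nat_lit 192)) (XT.nd (nat_lit 78) (nat_lit 0) (nat_lit 0) (XT.lf (nat_lit 0) (nat_lit 1897183835784) (nat_lit 76) (nat_lit 858738853975) (nat_lit 76) (nat_lit 567176604207) (nat_lit 6) (nat_lit 4) (nat_lit 7) (nat_lit 5) (nat_lit 7) (nat_lit 4) (nat_lit 447) (nat_lit 382) (nat_lit 191)) (XT.lf (nat_lit 0) (nat_lit 2771144617399) (nat_lit 76) (nat_lit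 540332858764) (nat_lit 76) (nat_lit 248770600073) (nat_lit 6) (nat_lit 4) (nat_lit 7) (nat_lit 5) (nat_lit 7) (nat_lit 4) (nat_lit 448) (nat_lit 382) (nat_lit 190))))))) (XT.nd (nat_lit 48048) (nat_lit 0) (nat_lit 3724) (XT.nd (nat_lit 390) (nat_lit 76) (nat_lit 0) (XT.nd (nat_lit 156) (nat_lit 0) (nat_lit 0) (XT.nd (nat_lit 78) (nat_lit 76) (nat_lit 0) (XT.lf (nat_lit 0) (nat_lit 90350181151) (nat_lit 152) (nat_lit 103633890155) (nat_lit 76) (nat_lit 3622201703762) (nat_lit 5) (nat_lit 5) (nat_lit 7) (nat_lit 5) (nat_lit 6) (nat_lit 4) (nat_lit 449) (nat_lit 382) (nat_lit 189)) (XT.lf (nat_lit 0) (nat_lit 464028247486) (nat_lit 152) (nat_lit 3432320722263) (nat_lit 0) (nat_lit 194063178411) (nat_lit 4) (nat_lit 5) (nat_lit 6) (nat_lit 4) (nat_lit 4) (nat_lit 4) (nat_lit 450) (nat_lit 382) (nat_lit 188))) (XT.nd (nat_lit 78) (nat_lit 0) (nat_lit 0) (XT.lf (nat_lit 0) (nat_lit 875546218929)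 (nat_lit 152) (nat_lit 2904813616091) (nat_lit 0) (nat_lit 605581143297) (nat_lit 4) (nat_lit 5) (nat_lit 6) (nat_lit 4) (nat_lit 4) (nat_lit 4) (nat_lit 451) (nat_lit 382) (nat_lit 187)) (XT.nd (nat_lit 78) (nat_lit 0) (nat_lit 0) (XT.lf (nat_lit 0) (nat_lit 1319985609562) (nat_lit 152) (nat_lit 2335105978950) (nat_lit 0) (nat_lit 1050020527857) (nat_lit 4) (nat_lit 5) (nat_lit 6) (nat_lit 4) (nat_lit 4) (nat_lit 4) (nat_lit 452) (nat_lit 382) (nat_lit 186)) (XT.lf (nat_lit 0) (nat_lit 1799980134291) (nat_lit 152) (nat_lit 1719821765584) (nat_lit 0) (nat_lit 1530015046964) (nat_lit 4) (nat_lit 5) (nat_lit 6) (nat_lit 4) (nat_lit 4) (nat_lit 4) (nat_lit 453) (nat_lit 382) (nat_lit 185))))) (XT.nd (nat_lit 156) (nat_lit 76) (nat_lit 0) (XT.nd (nat_lit 78) (nat_lit 0) (nat_lit 0) (XT.lf (nat_lit 0) (nat_lit 2318374205116) (nat_lit 152) (nat_lit 1055314847319) (nat_lit 0) (nat_lit 2048409112583)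 (nat_lit 4) (nat_lit 5) (nat_lit 6) (nat_lit 4) (nat_lit 4) (nat_lit 4) (nat_lit 454) (nat_lit 382) (nat_lit 184)) (XT.lf (nat_lit 0) (nat_lit 2878239786900) (nat_lit 152) (nat_lit 337647405383) (nat_lit 0) (nat_lit 2608274689546) (nat_lit 4) (nat_lit 5) (nat_lit 6) (nat_lit 4) (nat_lit 4) (nat_lit 4) (nat_lit 455) (nat_lit 382) (nat_lit 183))) (XT.nd (nat_lit 78) (nat_lit 0) (nat_lit 0) (XT.lf (nat_lit 0) (nat_lit 460467872199) (nat_lit 76) (nat_lit 3033500992810) (nat_lit 76) (nat_lit 2763535890993) (nat_lit 3) (nat_lit 4) (nat_lit 4) (nat_lit 5) (nat_lit 4) (nat_lit 4) (nat_lit 456) (nat_lit 382) (nat_lit 182)) (XT.nd (nat_lit 47346) (nat_lit 0) (nat_lit 4636) (XT.lf (nat_lit 0) (nat_lit 1341634652230) (nat_lit 76) (nat_lit 2826553482308) (nat_lit 76) (nat_lit 2556588376359) (nat_lit 3) (nat_lit 4) (nat_lit 4) (nat_lit 5) (nat_lit 4) (nat_lit 4) (nat_lit 457) (nat_lit 382) (nat_lit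 181)) (XT.lf (nat_lit 0) (nat_lit 49054771454) (nat_lit 532) (nat_lit 3298553060) (nat_lit 532) (nat_lit 3298553060) (nat_lit 64) (nat_lit 3) (nat_lit 71) (nat_lit 3) (nat_lit 71) (nat_lit 5) (nat_lit 383) (nat_lit 383) (nat_lit 254)))))) (XT.nd (nat_lit 390) (nat_lit 532) (nat_lit 0) (XT.nd (nat_lit 156) (nat_lit 380) (nat_lit 0) (XT.nd (nat_lit 78) (nat_lit 0) (nat_lit 76) (XT.lf (nat_lit 76) (nat_lit 50001338726) (nat_lit 0) (nat_lit 53240061504) (nat_lit 532) (nat_lit 12417902402) (nat_lit 65) (nat_lit 5) (nat_lit 64) (nat_lit 3) (nat_lit 71) (nat_lit 5) (nat_lit 384) (nat_lit 383) (nat_lit 253)) (XT.lf (nat_lit 0) (nat_lit 109024741602) (nat_lit 456) (nat_lit 8907403353) (nat_lit 532) (nat_lit 2411874589) (nat_lit 65) (nat_lit 5) (nat_lit 71) (nat_lit 5) (nat_lit 72) (nat_lit 5) (nat_lit 385) (nat_lit 383) (nat_lit 252))) (XT.nd (nat_lit 78) (nat_lit 456) (nat_lit 0) (XT.lf (nat_lit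 76) (nat_lit 53685612116) (nat_lit 0) (nat_lit 64258677970) (nat_lit 532) (nat_lit 7245340971) (nat_lit 66) (nat_lit 5) (nat_lit 65) (nat_lit 5) (nat_lit 72) (nat_lit 5) (nat_lit 386) (nat_lit 383) (nat_lit 251)) (XT.nd (nat_lit 78) (nat_lit 456) (nat_lit 0) (XT.lf (nat_lit 76) (nat_lit 121792345481) (nat_lit 0) (nat_lit 6028168877) (nat_lit 532) (nat_lit 2582928583) (nat_lit 66) (nat_lit 5) (nat_lit 65) (nat_lit 5) (nat_lit 72) (nat_lit 5) (nat_lit 387) (nat_lit 383) (nat_lit 250)) (XT.lf (nat_lit 0) (nat_lit 5237485315) (nat_lit 532) (nat_lit 74943478133) (nat_lit 608) (nat_lit 55616062793) (nat_lit 59) (nat_lit 5) (nat_lit 66) (nat_lit 5) (nat_lit 67) (nat_lit 5) (nat_lit 388) (nat_lit 383) (nat_lit 249))))) (XT.nd (nat_lit 234) (nat_lit 228) (nat_lit 0) (XT.nd (nat_lit 78) (nat_lit 304) (nat_lit 0) (XT.lf (nat_lit 0) (nat_lit 13941735870) (nat_lit 532) (nat_lit 5468276604) (nat_lit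 608) (nat_lit 122174897023) (nat_lit 59) (nat_lit 5) (nat_lit 66) (nat_lit 5) (nat_lit 67) (nat_lit 5) (nat_lit 389) (nat_lit 383) (nat_lit 248)) (XT.nd (nat_lit 78) (nat_lit 380) (nat_lit 0) (XT.lf (nat_lit 0) (nat_lit 26260500155) (nat_lit 532) (nat_lit 75624567776) (nat_lit 76) (nat_lit 45717301883) (nat_lit 60) (nat_lit 5) (nat_lit 67) (nat_lit 5) (nat_lit 61) (nat_lit 5) (nat_lit 390) (nat_lit 383) (nat_lit 247)) (XT.lf (nat_lit 0) (nat_lit 1403118165) (nat_lit 380) (nat_lit 38852608410) (nat_lit 456) (nat_lit 113790223774) (nat_lit 55) (nat_lit 5) (nat_lit 60) (nat_lit 5) (nat_lit 61) (nat_lit 5) (nat_lit 391) (nat_lit 383) (nat_lit 246)))) (XT.nd (nat_lit 78) (nat_lit 228) (nat_lit 0) (XT.lf (nat_lit 0) (nat_lit 58194469734) (nat_lit 456) (nat_lit 72702589201) (nat_lit 76) (nat_lit 29882046754) (nat_lit 55) (nat_lit 5) (nat_lit 61) (nat_lit 5) (nat_lit 56) (nat_lit 5) (nat_lit 392)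 (nat_lit 383) (nat_lit 245)) (XT.nd (nat_lit 78) (nat_lit 0) (nat_lit 0) (XT.lf (nat_lit 0) (nat_lit 13288129024) (nat_lit 228) (nat_lit 65608626989) (nat_lit 304) (nat_lit 89047882184) (nat_lit 52) (nat_lit 5) (nat_lit 55) (nat_lit 5) (nat_lit 56) (nat_lit 5) (nat_lit 393) (nat_lit 383) (nat_lit 244)) (XT.lf (nat_lit 0) (nat_lit 103412307982) (nat_lit 304) (nat_lit 65401494271) (nat_lit 76) (nat_lit 6697044648) (nat_lit 52) (nat_lit 5) (nat_lit 56) (nat_lit 5) (nat_lit 53) (nat_lit 5) (nat_lit 394) (nat_lit 383) (nat_lit 243))))))))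
noncomputable def xc199 : XT := (XT.nd (nat_lit 1638) (nat_lit 1140) (nat_lit 0) (XT.nd (nat_lit 780) (nat_lit 836) (nat_lit 0) (XT.nd (nat_lit 390) (nat_lit 532) (nat_lit 0) (XT.nd (nat_lit 156) (nat_lit 456) (nat_lit 0) (XT.nd (nat_lit 78) (nat_lit 0) (nat_lit 0) (XT.lf (nat_lit 0) (nat_lit 30831833184) (nat_lit 228) (nat_lit 101502637397) (nat_lit 304) (nat_lit 51152252602) (nat_lit 49) (nat_lit 5) (nat_lit 52) (nat_lit 5) (nat_lit 53) (nat_lit 5) (nat_lit 395) (nat_lit 383) (nat_lit 242)) (XT.lf (nat_lit 0) (nat_lit 138482973778) (nat_lit 228) (nat_lit 26875377318) (nat_lit 304) (nat_lit 26599283064) (nat_lit 49) (nat_lit 5) (nat_lit 52) (nat_lit 5) (nat_lit 53) (nat_lit 5) (nat_lit 396) (nat_lit 383) (nat_lit 241))) (XT.nd (nat_lit 78) (nat_lit 228) (nat_lit 0) (XT.lf (nat_lit 0) (nat_lit 2607048969) (nat_lit 228) (nat_lit 145858638818) (nat_lit 76) (nat_lit 52425886769) (nat_lit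 46) (nat_lit 5) (nat_lit 49) (nat_lit 5) (nat_lit 47) (nat_lit 5) (nat_lit 397) (nat_lit 383) (nat_lit 240)) (XT.nd (nat_lit 78) (nat_lit 228) (nat_lit 0) (XT.lf (nat_lit 0) (nat_lit 34910739432) (nat_lit 228) (nat_lit 36588195023) (nat_lit 76) (nat_lit 138810192316) (nat_lit 46) (nat_lit 5) (nat_lit 49) (nat_lit 5) (nat_lit 47) (nat_lit 5) (nat_lit 398) (nat_lit 383) (nat_lit 239)) (XT.lf (nat_lit 0) (nat_lit 72192998617) (nat_lit 304) (nat_lit 134937082304) (nat_lit 76) (nat_lit 13158460500) (nat_lit 43) (nat_lit 5) (nat_lit 47) (nat_lit 5) (nat_lit 44) (nat_lit 5) (nat_lit 399) (nat_lit 383) (nat_lit 238))))) (XT.nd (nat_lit 156) (nat_lit 380) (nat_lit 0) (XT.nd (nat_lit 78) (nat_lit 152) (nat_lit 0) (XT.lf (nat_lit 0) (nat_lit 115341122052) (nat_lit 304) (nat_lit 13742569222) (nat_lit 76) (nat_lit 101751955413) (nat_lit 43) (nat_lit 5) (nat_lit 47) (nat_lit 5) (nat_lit 44) (nat_lit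 5) (nat_lit 400) (nat_lit 383) (nat_lit 237)) (XT.lf (nat_lit 0) (nat_lit 123316011714) (nat_lit 152) (nat_lit 41590649832) (nat_lit 228) (nat_lit 77082613652) (nat_lit 41) (nat_lit 5) (nat_lit 43) (nat_lit 5) (nat_lit 44) (nat_lit 5) (nat_lit 401) (nat_lit 383) (nat_lit 236))) (XT.nd (nat_lit 78) (nat_lit 228) (nat_lit 0) (XT.lf (nat_lit 0) (nat_lit 17719797282) (nat_lit 152) (nat_lit 202801423827) (nat_lit 228) (nat_lit 33347270835) (nat_lit 39) (nat_lit 5) (nat_lit 41) (nat_lit 5) (nat_lit 42) (nat_lit 5) (nat_lit 402) (nat_lit 383) (nat_lit 235)) (XT.nd (nat_lit 78) (nat_lit 152) (nat_lit 0) (XT.lf (nat_lit 0) (nat_lit 17601334981) (nat_lit 228) (nat_lit 96163914641) (nat_lit 76) (nat_lit 152553348919) (nat_lit 38) (nat_lit 5) (nat_lit 41) (nat_lit 5) (nat_lit 39) (nat_lit 5) (nat_lit 403) (nat_lit 383) (nat_lit 234)) (XT.lf (nat_lit 0) (nat_lit 57004849867) (nat_lit 152) (nat_lit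 15190163510) (nat_lit 228) (nat_lit 207390743110) (nat_lit 36) (nat_lit 5) (nat_lit 38) (nat_lit 5) (nat_lit 39) (nat_lit 5) (nat_lit 404) (nat_lit 383) (nat_lit 233)))))) (XT.nd (nat_lit 390) (nat_lit 380) (nat_lit 0) (XT.nd (nat_lit 156) (nat_lit 304) (nat_lit 0) (XT.nd (nat_lit 78) (nat_lit 152) (nat_lit 0) (XT.lf (nat_lit 0) (nat_lit 136048678524) (nat_lit 228) (nat_lit 68071515472) (nat_lit 76) (nat_lit 89402693757) (nat_lit 36) (nat_lit 5) (nat_lit 39) (nat_lit 5) (nat_lit 37) (nat_lit 5) (nat_lit 405) (nat_lit 383) (nat_lit 232)) (XT.lf (nat_lit 0) (nat_lit 103585615018) (nat_lit 152) (nat_lit 104310659290) (nat_lit 228) (nat_lit 100447864289) (nat_lit 34) (nat_lit 5) (nat_lit 36) (nat_lit 5) (nat_lit 37) (nat_lit 5) (nat_lit 406) (nat_lit 383) (nat_lit 231))) (XT.nd (nat_lit 78) (nat_lit 304) (nat_lit 0) (XT.lf (nat_lit 0) (nat_lit 287484852636) (nat_lit 228) (nat_lit 31487952615)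 (nat_lit 76) (nat_lit 5218830338) (nat_lit 34) (nat_lit 5) (nat_lit 37) (nat_lit 5) (nat_lit 35) (nat_lit 4) (nat_lit 407) (nat_lit 383) (nat_lit 230)) (XT.nd (nat_lit 78) (nat_lit 152) (nat_lit 0) (XT.lf (nat_lit 0) (nat_lit 37278064932) (nat_lit 152) (nat_lit 180736256015) (nat_lit 76) (nat_lit 122690631804) (nat_lit 32) (nat_lit 5) (nat_lit 34) (nat_lit 5) (nat_lit 33) (nat_lit 5) (nat_lit 408) (nat_lit 383) (nat_lit 229)) (XT.lf (nat_lit 0) (nat_lit 9564619864) (nat_lit 152) (nat_lit 106747155656) (nat_lit 228) (nat_lit 242062230418) (nat_lit 30) (nat_lit 5) (nat_lit 32) (nat_lit 5) (nat_lit 33) (nat_lit 5) (nat_lit 409) (nat_lit 383) (nat_lit 228))))) (XT.nd (nat_lit 234) (nat_lit 228) (nat_lit 0) (XT.nd (nat_lit 78) (nat_lit 152) (nat_lit 0) (XT.lf (nat_lit 0) (nat_lit 207060840990) (nat_lit 228) (nat_lit 152144417976) (nat_lit 76) (nat_lit 17819911823) (nat_lit 30) (nat_lit 5) (nat_lit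 33) (nat_lit 5) (nat_lit 31) (nat_lit 4) (nat_lit 410) (nat_lit 383) (nat_lit 227)) (XT.nd (nat_lit 78) (nat_lit 76) (nat_lit 0) (XT.lf (nat_lit 0) (nat_lit 60507728125) (nat_lit 76) (nat_lit 248789848345) (nat_lit 152) (nat_lit 87532632822) (nat_lit 29) (nat_lit 5) (nat_lit 30) (nat_lit 5) (nat_lit 31) (nat_lit 4) (nat_lit 411) (nat_lit 383) (nat_lit 226)) (XT.lf (nat_lit 0) (nat_lit 5686711382) (nat_lit 152) (nat_lit 119206404438) (nat_lit 76) (nat_lit 292982235215) (nat_lit 28) (nat_lit 5) (nat_lit 30) (nat_lit 5) (nat_lit 29) (nat_lit 5) (nat_lit 412) (nat_lit 383) (nat_lit 225)))) (XT.nd (nat_lit 78) (nat_lit 76) (nat_lit 0) (XT.lf (nat_lit 0) (nat_lit 104843122508) (nat_lit 228) (nat_lit 321585287752) (nat_lit 76) (nat_lit 13737123494) (nat_lit 26) (nat_lit 5) (nat_lit 29) (nat_lit 5) (nat_lit 27) (nat_lit 4) (nat_lit 413) (nat_lit 383) (nat_lit 224)) (XT.nd (nat_lit 78) (nat_lit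 76) (nat_lit 0) (XT.lf (nat_lit 0) (nat_lit 218519886128) (nat_lit 228) (nat_lit 85137813247) (nat_lit 76) (nat_lit 160054204581) (nat_lit 26) (nat_lit 5) (nat_lit 29) (nat_lit 5) (nat_lit 27) (nat_lit 4) (nat_lit 414) (nat_lit 383) (nat_lit 223)) (XT.lf (nat_lit 0) (nat_lit 179189040092) (nat_lit 76) (nat_lit 166411150271) (nat_lit 152) (nat_lit 143197041482) (nat_lit 25) (nat_lit 5) (nat_lit 26) (nat_lit 5) (nat_lit 27) (nat_lit 4) (nat_lit 415) (nat_lit 383) (nat_lit 222))))))) (XT.nd (nat_lit 780) (nat_lit 532) (nat_lit 0) (XT.nd (nat_lit 390) (nat_lit 304) (nat_lit 0) (XT.nd (nat_lit 156) (nat_lit 152) (nat_lit 0) (XT.nd (nat_lit 78) (nat_lit 152) (nat_lit 0) (XT.lf (nat_lit 0) (nat_lit 469503728519) (nat_lit 76) (nat_lit 15670911171) (nat_lit 152) (nat_lit 30528528643) (nat_lit 25) (nat_lit 5) (nat_lit 26) (nat_lit 5) (nat_lit 27) (nat_lit 4) (nat_lit 416) (nat_lit 383) (nat_lit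 221)) (XT.lf (nat_lit 0) (nat_lit 96321088763) (nat_lit 152) (nat_lit 299337020465) (nat_lit 76) (nat_lit 148149891970) (nat_lit 23) (nat_lit 5) (nat_lit 25) (nat_lit 5) (nat_lit 24) (nat_lit 4) (nat_lit 417) (nat_lit 383) (nat_lit 220))) (XT.nd (nat_lit 78) (nat_lit 152) (nat_lit 0) (XT.lf (nat_lit 0) (nat_lit 233372271131) (nat_lit 152) (nat_lit 14270693056) (nat_lit 76) (nat_lit 326318586302) (nat_lit 23) (nat_lit 5) (nat_lit 25) (nat_lit 5) (nat_lit 24) (nat_lit 4) (nat_lit 418) (nat_lit 383) (nat_lit 219)) (XT.nd (nat_lit 78) (nat_lit 76) (nat_lit 0) (XT.lf (nat_lit 0) (nat_lit 309061280899) (nat_lit 76) (nat_lit 79759113355) (nat_lit 152) (nat_lit 217112361795) (nat_lit 22) (nat_lit 5) (nat_lit 23) (nat_lit 5) (nat_lit 24) (nat_lit 4) (nat_lit 419) (nat_lit 383) (nat_lit 218)) (XT.lf (nat_lit 0) (nat_lit 17040698096) (nat_lit 76) (nat_lit 542916145850) (nat_lit 76) (nat_lit 80244615992)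 (nat_lit 21) (nat_lit 4) (nat_lit 22) (nat_lit 5) (nat_lit 22) (nat_lit 4) (nat_lit 420) (nat_lit 383) (nat_lit 217))))) (XT.nd (nat_lit 156) (nat_lit 152) (nat_lit 0) (XT.nd (nat_lit 78) (nat_lit 76) (nat_lit 0) (XT.lf (nat_lit 0) (nat_lit 74591701632) (nat_lit 152) (nat_lit 307520887423) (nat_lit 76) (nat_lit 294137109005) (nat_lit 20) (nat_lit 5) (nat_lit 22) (nat_lit 5) (nat_lit 21) (nat_lit 4) (nat_lit 421) (nat_lit 383) (nat_lit 216)) (XT.lf (nat_lit 0) (nat_lit 32933207304) (nat_lit 76) (nat_lit 205338390725) (nat_lit 152) (nat_lit 476680097806) (nat_lit 19) (nat_lit 5) (nat_lit 20) (nat_lit 5) (nat_lit 21) (nat_lit 4) (nat_lit 422) (nat_lit 383) (nat_lit 215))) (XT.nd (nat_lit 78) (nat_lit 152) (nat_lit 0) (XT.lf (nat_lit 0) (nat_lit 418112472353) (nat_lit 76) (nat_lit 5341504607) (nat_lit 152) (nat_lit 332623229221) (nat_lit 19) (nat_lit 5) (nat_lit 20) (nat_lit 5) (nat_lit 21)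 (nat_lit 4) (nat_lit 423) (nat_lit 383) (nat_lit 214)) (XT.nd (nat_lit 78) (nat_lit 76) (nat_lit 0) (XT.lf (nat_lit 0) (nat_lit 30050154551) (nat_lit 76) (nat_lit 599189688453) (nat_lit 76) (nat_lit 170789802622) (nat_lit 18) (nat_lit 4) (nat_lit 19) (nat_lit 5) (nat_lit 19) (nat_lit 4) (nat_lit 424) (nat_lit 383) (nat_lit 213)) (XT.lf (nat_lit 0) (nat_lit 13409925899) (nat_lit 152) (nat_lit 400507305950) (nat_lit 76) (nat_lit 432803831954) (nat_lit 17) (nat_lit 5) (nat_lit 19) (nat_lit 5) (nat_lit 18) (nat_lit 4) (nat_lit 425) (nat_lit 383) (nat_lit 212)))))) (XT.nd (nat_lit 390) (nat_lit 304) (nat_lit 0) (XT.nd (nat_lit 156) (nat_lit 152) (nat_lit 0) (XT.nd (nat_lit 78) (nat_lit 76) (nat_lit 0) (XT.lf (nat_lit 0) (nat_lit 203118481641) (nat_lit 152) (nat_lit 5913571107) (nat_lit 76) (nat_lit 687760860044) (nat_lit 17) (nat_lit 5) (nat_lit 19) (nat_lit 5) (nat_lit 18) (nat_lit 4) (nat_lit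 426) (nat_lit 383) (nat_lit 211)) (XT.lf (nat_lit 0) (nat_lit 419213647464) (nat_lit 152) (nat_lit 508213151751) (nat_lit 0) (nat_lit 22546916447) (nat_lit 16) (nat_lit 5) (nat_lit 18) (nat_lit 4) (nat_lit 16) (nat_lit 4) (nat_lit 427) (nat_lit 383) (nat_lit 210))) (XT.nd (nat_lit 78) (nat_lit 152) (nat_lit 0) (XT.lf (nat_lit 0) (nat_lit 658191657386) (nat_lit 152) (nat_lit 87244829053) (nat_lit 0) (nat_lit 261524877864) (nat_lit 16) (nat_lit 5) (nat_lit 18) (nat_lit 4) (nat_lit 16) (nat_lit 4) (nat_lit 428) (nat_lit 383) (nat_lit 209)) (XT.nd (nat_lit 78) (nat_lit 76) (nat_lit 0) (XT.lf (nat_lit 0) (nat_lit 386747528456) (nat_lit 76) (nat_lit 538841611150) (nat_lit 76) (nat_lit 142174786717) (nat_lit 15) (nat_lit 4) (nat_lit 16) (nat_lit 5) (nat_lit 16) (nat_lit 4) (nat_lit 429) (nat_lit 383) (nat_lit 208)) (XT.lf (nat_lit 0) (nat_lit 79345725678) (nat_lit 152) (nat_lit 231627756606)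 (nat_lit 76) (nat_lit 822105680908) (nat_lit 14) (nat_lit 5) (nat_lit 16) (nat_lit 5) (nat_lit 15) (nat_lit 4) (nat_lit 430) (nat_lit 383) (nat_lit 207))))) (XT.nd (nat_lit 234) (nat_lit 152) (nat_lit 0) (XT.nd (nat_lit 78) (nat_lit 76) (nat_lit 0) (XT.lf (nat_lit 0) (nat_lit 263184582226) (nat_lit 76) (nat_lit 54051709479) (nat_lit 152) (nat_lit 885581535666) (nat_lit 13) (nat_lit 5) (nat_lit 14) (nat_lit 5) (nat_lit 15) (nat_lit 4) (nat_lit 431) (nat_lit 383) (nat_lit 206)) (XT.nd (nat_lit 78) (nat_lit 76) (nat_lit 0) (XT.lf (nat_lit 0) (nat_lit 586029009437) (nat_lit 152) (nat_lit 472412097169) (nat_lit 0) (nat_lit 218744805571) (nat_lit 13) (nat_lit 5) (nat_lit 15) (nat_lit 4) (nat_lit 13) (nat_lit 4) (nat_lit 432) (nat_lit 383) (nat_lit 205)) (XT.lf (nat_lit 0) (nat_lit 32403671371) (nat_lit 76) (nat_lit 846104675332) (nat_lit 76) (nat_lit 478820440900) (nat_lit 12) (nat_lit 4) (nat_lit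 13) (nat_lit 5) (nat_lit 13) (nat_lit 4) (nat_lit 433) (nat_lit 383) (nat_lit 204)))) (XT.nd (nat_lit 78) (nat_lit 152) (nat_lit 0) (XT.lf (nat_lit 0) (nat_lit 604471104679) (nat_lit 76) (nat_lit 602831464051) (nat_lit 76) (nat_lit 235547201317) (nat_lit 12) (nat_lit 4) (nat_lit 13) (nat_lit 5) (nat_lit 13) (nat_lit 4) (nat_lit 434) (nat_lit 383) (nat_lit 203)) (XT.nd (nat_lit 78) (nat_lit 76) (nat_lit 0) (XT.lf (nat_lit 0) (nat_lit 25827804851) (nat_lit 152) (nat_lit 313562454848) (nat_lit 76) (nat_lit 1195769865332) (nat_lit 11) (nat_lit 5) (nat_lit 13) (nat_lit 5) (nat_lit 12) (nat_lit 4) (nat_lit 435) (nat_lit 383) (nat_lit 202)) (XT.lf (nat_lit 0) (nat_lit 260133809701) (nat_lit 76) (nat_lit 41509518618) (nat_lit 152) (nat_lit 1332222036666) (nat_lit 10) (nat_lit 5) (nat_lit 11) (nat_lit 5) (nat_lit 12) (nat_lit 4) (nat_lit 436) (nat_lit 383) (nat_lit 201))))))))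
noncomputable def xc200 : XT := (XT.nd (nat_lit 1560) (nat_lit 76) (nat_lit 0) (XT.nd (nat_lit 780) (nat_lit 152) (nat_lit 0) (XT.nd (nat_lit 390) (nat_lit 228) (nat_lit 0) (XT.nd (nat_lit 156) (nat_lit 76) (nat_lit 0) (XT.nd (nat_lit 78) (nat_lit 0) (nat_lit 0) (XT.lf (nat_lit 0) (nat_lit 615058948139) (nat_lit 152) (nat_lit 849184428087) (nat_lit 0) (nat_lit 274980859555) (nat_lit 10) (nat_lit 5) (nat_lit 12) (nat_lit 4) (nat_lit 10) (nat_lit 4) (nat_lit 437) (nat_lit 383) (nat_lit 200)) (XT.lf (nat_lit 0) (nat_lit 954625949447) (nat_lit 152) (nat_lit 283751774646) (nat_lit 0) (nat_lit 614547841601) (nat_lit 10) (nat_lit 5) (nat_lit 12) (nat_lit 4) (nat_lit 10) (nat_lit 4) (nat_lit 438) (nat_lit 383) (nat_lit 199))) (XT.nd (nat_lit 78) (nat_lit 0) (nat_lit 0) (XT.lf (nat_lit 0) (nat_lit 344130208758) (nat_lit 76) (nat_lit 985504407256) (nat_lit 76) (nat_lit 645426281575) (nat_lit 9)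 (nat_lit 4) (nat_lit 10) (nat_lit 5) (nat_lit 10) (nat_lit 4) (nat_lit 439) (nat_lit 383) (nat_lit 198)) (XT.nd (nat_lit 78) (nat_lit 0) (nat_lit 0) (XT.lf (nat_lit 0) (nat_lit 1038379898344) (nat_lit 76) (nat_lit 704022320238) (nat_lit 76) (nat_lit 363944178043) (nat_lit 9) (nat_lit 4) (nat_lit 10) (nat_lit 5) (nat_lit 10) (nat_lit 4) (nat_lit 440) (nat_lit 383) (nat_lit 197)) (XT.lf (nat_lit 0) (nat_lit 1788169500744) (nat_lit 76) (nat_lit 400021697412) (nat_lit 76) (nat_lit 59943539927) (nat_lit 9) (nat_lit 4) (nat_lit 10) (nat_lit 5) (nat_lit 10) (nat_lit 4) (nat_lit 441) (nat_lit 383) (nat_lit 196))))) (XT.nd (nat_lit 156) (nat_lit 76) (nat_lit 0) (XT.nd (nat_lit 78) (nat_lit 0) (nat_lit 0) (XT.lf (nat_lit 0) (nat_lit 200238320024) (nat_lit 76) (nat_lit 59529224046) (nat_lit 152) (nat_lit 2140596988097) (nat_lit 7) (nat_lit 5) (nat_lit 8) (nat_lit 5) (nat_lit 9) (nat_lit 4) (nat_lit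 442) (nat_lit 383) (nat_lit 195)) (XT.lf (nat_lit 0) (nat_lit 622132179147) (nat_lit 152) (nat_lit 1633645787787) (nat_lit 0) (nat_lit 307244971042) (nat_lit 7) (nat_lit 5) (nat_lit 9) (nat_lit 4) (nat_lit 7) (nat_lit 4) (nat_lit 443) (nat_lit 383) (nat_lit 194))) (XT.nd (nat_lit 78) (nat_lit 76) (nat_lit 0) (XT.lf (nat_lit 0) (nat_lit 1015032171297) (nat_lit 152) (nat_lit 1023393198101) (nat_lit 0) (nat_lit 700144951953) (nat_lit 7) (nat_lit 5) (nat_lit 9) (nat_lit 4) (nat_lit 7) (nat_lit 4) (nat_lit 444) (nat_lit 383) (nat_lit 193)) (XT.nd (nat_lit 78) (nat_lit 76) (nat_lit 0) (XT.lf (nat_lit 0) (nat_lit 1439364137500) (nat_lit 152) (nat_lit 364320452174) (nat_lit 0) (nat_lit 1124476907749) (nat_lit 7) (nat_lit 5) (nat_lit 9) (nat_lit 4) (nat_lit 7) (nat_lit 4) (nat_lit 445) (nat_lit 383) (nat_lit 192)) (XT.lf (nat_lit 0) (nat_lit 365775645452) (nat_lit 76) (nat_lit 1540663905173) (nat_lit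 76) (nat_lit 1225776665787) (nat_lit 6) (nat_lit 4) (nat_lit 7) (nat_lit 5) (nat_lit 7) (nat_lit 4) (nat_lit 446) (nat_lit 383) (nat_lit 191)))))) (XT.nd (nat_lit 390) (nat_lit 0) (nat_lit 0) (XT.nd (nat_lit 156) (nat_lit 152) (nat_lit 0) (XT.nd (nat_lit 78) (nat_lit 0) (nat_lit 0) (XT.lf (nat_lit 0) (nat_lit 1174998611854) (nat_lit 76) (nat_lit 1245843528929) (nat_lit 76) (nat_lit 930956280621) (nat_lit 6) (nat_lit 4) (nat_lit 7) (nat_lit 5) (nat_lit 7) (nat_lit 4) (nat_lit 447) (nat_lit 383) (nat_lit 190)) (XT.lf (nat_lit 0) (nat_lit 2048959373006) (nat_lit 76) (nat_lit 927437544024) (nat_lit 76) (nat_lit 612550287455) (nat_lit 6) (nat_lit 4) (nat_lit 7) (nat_lit 5) (nat_lit 7) (nat_lit 4) (nat_lit 448) (nat_lit 383) (nat_lit 189))) (XT.nd (nat_lit 78) (nat_lit 152) (nat_lit 0) (XT.lf (nat_lit 0) (nat_lit 2992836955642) (nat_lit 76) (nat_lit 583559100178) (nat_lit 76) (nat_lit 268671835960)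 (nat_lit 6) (nat_lit 4) (nat_lit 7) (nat_lit 5) (nat_lit 7) (nat_lit 4) (nat_lit 449) (nat_lit 383) (nat_lit 188)) (XT.nd (nat_lit 78) (nat_lit 76) (nat_lit 0) (XT.lf (nat_lit 0) (nat_lit 97578558146) (nat_lit 152) (nat_lit 111923870356) (nat_lit 76) (nat_lit 3911978179548) (nat_lit 5) (nat_lit 5) (nat_lit 7) (nat_lit 5) (nat_lit 6) (nat_lit 4) (nat_lit 450) (nat_lit 383) (nat_lit 187)) (XT.lf (nat_lit 0) (nat_lit 501150868723) (nat_lit 152) (nat_lit 3706905647944) (nat_lit 0) (nat_lit 209588574409) (nat_lit 4) (nat_lit 5) (nat_lit 6) (nat_lit 4) (nat_lit 4) (nat_lit 4) (nat_lit 451) (nat_lit 383) (nat_lit 186))))) (XT.nd (nat_lit 156) (nat_lit 0) (nat_lit 0) (XT.nd (nat_lit 78) (nat_lit 0) (nat_lit 0) (XT.lf (nat_lit 0) (nat_lit 945590251108) (nat_lit 152) (nat_lit 3137198027508) (nat_lit 0) (nat_lit 654027951172) (nat_lit 4) (nat_lit 5) (nat_lit 6) (nat_lit 4) (nat_lit 4) (nat_lit 4)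 (nat_lit 452) (nat_lit 383) (nat_lit 185)) (XT.lf (nat_lit 0) (nat_lit 1425584768201) (nat_lit 152) (nat_lit 2521913829609) (nat_lit 0) (nat_lit 1134022463060) (nat_lit 4) (nat_lit 5) (nat_lit 6) (nat_lit 4) (nat_lit 4) (nat_lit 4) (nat_lit 453) (nat_lit 383) (nat_lit 184))) (XT.nd (nat_lit 78) (nat_lit 0) (nat_lit 0) (XT.lf (nat_lit 0) (nat_lit 1943978831955) (nat_lit 152) (nat_lit 1857406925666) (nat_lit 0) (nat_lit 1652416521993) (nat_lit 4) (nat_lit 5) (nat_lit 6) (nat_lit 4) (nat_lit 4) (nat_lit 4) (nat_lit 454) (nat_lit 383) (nat_lit 183)) (XT.nd (nat_lit 78) (nat_lit 0) (nat_lit 0) (XT.lf (nat_lit 0) (nat_lit 2503844407193) (nat_lit 152) (nat_lit 1139739496990) (nat_lit 0) (nat_lit 2212282092767) (nat_lit 4) (nat_lit 5) (nat_lit 6) (nat_lit 4) (nat_lit 4) (nat_lit 4) (nat_lit 455) (nat_lit 383) (nat_lit 182)) (XT.lf (nat_lit 0) (nat_lit 3108499215840) (nat_lit 152) (nat_lit 364658699559)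 (nat_lit 0) (nat_lit 2816936897282) (nat_lit 4) (nat_lit 5) (nat_lit 6) (nat_lit 4) (nat_lit 4) (nat_lit 4) (nat_lit 456) (nat_lit 383) (nat_lit 181))))))) (XT.nd (nat_lit 48126) (nat_lit 0) (nat_lit 2736) (XT.nd (nat_lit 47736) (nat_lit 0) (nat_lit 3952) (XT.nd (nat_lit 47502) (nat_lit 0) (nat_lit 4636) (XT.nd (nat_lit 47424) (nat_lit 0) (nat_lit 4636) (XT.lf (nat_lit 0) (nat_lit 497305787616) (nat_lit 76) (nat_lit 3276180826041) (nat_lit 76) (nat_lit 2984618503656) (nat_lit 3) (nat_lit 4) (nat_lit 4) (nat_lit 5) (nat_lit 4) (nat_lit 4) (nat_lit 457) (nat_lit 383) (nat_lit 180)) (XT.lf (nat_lit 0) (nat_lit 52983976517) (nat_lit 532) (nat_lit 3559830417) (nat_lit 532) (nat_lit 3559830417) (nat_lit 64) (nat_lit 3) (nat_lit 71) (nat_lit 3) (nat_lit 71) (nat_lit 5) (nat_lit 384) (nat_lit 384) (nat_lit 252))) (XT.nd (nat_lit 78) (nat_lit 0) (nat_lit 76) (XT.lf (nat_lit 76) (nat_lit 54006527605)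 (nat_lit 0) (nat_lit 57503238982) (nat_lit 532) (nat_lit 13401547460) (nat_lit 65) (nat_lit 5) (nat_lit 64) (nat_lit 3) (nat_lit 71) (nat_lit 5) (nat_lit 385) (nat_lit 384) (nat_lit 251)) (XT.nd (nat_lit 78) (nat_lit 0) (nat_lit 0) (XT.lf (nat_lit 0) (nat_lit 117755016114) (nat_lit 456) (nat_lit 9614523290) (nat_lit 532) (nat_lit 2601330266) (nat_lit 65) (nat_lit 5) (nat_lit 71) (nat_lit 5) (nat_lit 72) (nat_lit 5) (nat_lit 386) (nat_lit 384) (nat_lit 250)) (XT.lf (nat_lit 76) (nat_lit 57985794877) (nat_lit 0) (nat_lit 69401847420) (nat_lit 532) (nat_lit 7816527281) (nat_lit 66) (nat_lit 5) (nat_lit 65) (nat_lit 5) (nat_lit 72) (nat_lit 5) (nat_lit 387) (nat_lit 384) (nat_lit 249))))) (XT.nd (nat_lit 156) (nat_lit 304) (nat_lit 0) (XT.nd (nat_lit 78) (nat_lit 456) (nat_lit 0) (XT.lf (nat_lit 76) (nat_lit 131540671815) (nat_lit 0) (nat_lit 6512714250) (nat_lit 532) (nat_lit 2781747159)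 (nat_lit 66) (nat_lit 5) (nat_lit 65) (nat_lit 5) (nat_lit 72) (nat_lit 5) (nat_lit 388) (nat_lit 384) (nat_lit 248)) (XT.lf (nat_lit 0) (nat_lit 5663440709) (nat_lit 532) (nat_lit 80933146586) (nat_lit 608) (nat_lit 60063638770) (nat_lit 59) (nat_lit 5) (nat_lit 66) (nat_lit 5) (nat_lit 67) (nat_lit 5) (nat_lit 389) (nat_lit 384) (nat_lit 247))) (XT.nd (nat_lit 78) (nat_lit 304) (nat_lit 0) (XT.lf (nat_lit 0) (nat_lit 15063516007) (nat_lit 532) (nat_lit 5900359290) (nat_lit 608) (nat_lit 131947306335) (nat_lit 59) (nat_lit 5) (nat_lit 66) (nat_lit 5) (nat_lit 67) (nat_lit 5) (nat_lit 390) (nat_lit 384) (nat_lit 246)) (XT.nd (nat_lit 78) (nat_lit 380) (nat_lit 0) (XT.lf (nat_lit 0) (nat_lit 28367410034) (nat_lit 532) (nat_lit 81668777425) (nat_lit 76) (nat_lit 49373881421) (nat_lit 60) (nat_lit 5) (nat_lit 67) (nat_lit 5) (nat_lit 61) (nat_lit 5) (nat_lit 391) (nat_lit 384) (nat_lit 245))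 (XT.lf (nat_lit 0) (nat_lit 1520977675) (nat_lit 380) (nat_lit 41960962195) (nat_lit 456) (nat_lit 122887221528) (nat_lit 55) (nat_lit 5) (nat_lit 60) (nat_lit 5) (nat_lit 61) (nat_lit 5) (nat_lit 392) (nat_lit 384) (nat_lit 244)))))) (XT.nd (nat_lit 390) (nat_lit 760) (nat_lit 0) (XT.nd (nat_lit 156) (nat_lit 228) (nat_lit 0) (XT.nd (nat_lit 78) (nat_lit 228) (nat_lit 0) (XT.lf (nat_lit 0) (nat_lit 62855352941) (nat_lit 456) (nat_lit 78513168073) (nat_lit 76) (nat_lit 32272482853) (nat_lit 55) (nat_lit 5) (nat_lit 61) (nat_lit 5) (nat_lit 56) (nat_lit 5) (nat_lit 393) (nat_lit 384) (nat_lit 243)) (XT.lf (nat_lit 0) (nat_lit 14356665123) (nat_lit 228) (nat_lit 70856894443) (nat_lit 304) (nat_lit 96166240729) (nat_lit 52) (nat_lit 5) (nat_lit 55) (nat_lit 5) (nat_lit 56) (nat_lit 5) (nat_lit 394) (nat_lit 384) (nat_lit 242))) (XT.nd (nat_lit 78) (nat_lit 228) (nat_lit 0) (XT.lf (nat_lit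 0) (nat_lit 111689990063) (nat_lit 304) (nat_lit 70628165137) (nat_lit 76) (nat_lit 7233180035) (nat_lit 52) (nat_lit 5) (nat_lit 56) (nat_lit 5) (nat_lit 53) (nat_lit 5) (nat_lit 395) (nat_lit 384) (nat_lit 241)) (XT.nd (nat_lit 78) (nat_lit 0) (nat_lit 0) (XT.lf (nat_lit 0) (nat_lit 33303690573) (nat_lit 228) (nat_lit 109622014860) (nat_lit 304) (nat_lit 55239594072) (nat_lit 49) (nat_lit 5) (nat_lit 52) (nat_lit 5) (nat_lit 53) (nat_lit 5) (nat_lit 396) (nat_lit 384) (nat_lit 240)) (XT.lf (nat_lit 0) (nat_lit 149566529027) (nat_lit 228) (nat_lit 29024635719) (nat_lit 304) (nat_lit 28722745396) (nat_lit 49) (nat_lit 5) (nat_lit 52) (nat_lit 5) (nat_lit 53) (nat_lit 5) (nat_lit 397) (nat_lit 384) (nat_lit 239))))) (XT.nd (nat_lit 234) (nat_lit 304) (nat_lit 0) (XT.nd (nat_lit 78) (nat_lit 228) (nat_lit 0) (XT.lf (nat_lit 0) (nat_lit 2819697303) (nat_lit 228) (nat_lit 157522011140) (nat_lit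 76) (nat_lit 56620862662) (nat_lit 46) (nat_lit 5) (nat_lit 49) (nat_lit 5) (nat_lit 47) (nat_lit 5) (nat_lit 398) (nat_lit 384) (nat_lit 238)) (XT.nd (nat_lit 78) (nat_lit 228) (nat_lit 0) (XT.lf (nat_lit 0) (nat_lit 37707380453) (nat_lit 228) (nat_lit 39510325825) (nat_lit 76) (nat_lit 149915845619) (nat_lit 46) (nat_lit 5) (nat_lit 49) (nat_lit 5) (nat_lit 47) (nat_lit 5) (nat_lit 399) (nat_lit 384) (nat_lit 237)) (XT.lf (nat_lit 0) (nat_lit 77972084128) (nat_lit 304) (nat_lit 145726985560) (nat_lit 76) (nat_lit 14212261114) (nat_lit 43) (nat_lit 5) (nat_lit 47) (nat_lit 5) (nat_lit 44) (nat_lit 5) (nat_lit 400) (nat_lit 384) (nat_lit 236)))) (XT.nd (nat_lit 78) (nat_lit 304) (nat_lit 0) (XT.lf (nat_lit 0) (nat_lit 124571787391) (nat_lit 304) (nat_lit 14837286493) (nat_lit 76) (nat_lit 109893152378) (nat_lit 43) (nat_lit 5) (nat_lit 47) (nat_lit 5) (nat_lit 44) (nat_lit 5) (nat_lit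 401) (nat_lit 384) (nat_lit 235)) (XT.nd (nat_lit 78) (nat_lit 152) (nat_lit 0) (XT.lf (nat_lit 0) (nat_lit 133185862228) (nat_lit 152) (nat_lit 44916567672) (nat_lit 228) (nat_lit 83245726521) (nat_lit 41) (nat_lit 5) (nat_lit 43) (nat_lit 5) (nat_lit 44) (nat_lit 5) (nat_lit 402) (nat_lit 384) (nat_lit 234)) (XT.lf (nat_lit 0) (nat_lit 19142057872) (nat_lit 152) (nat_lit 219023998883) (nat_lit 228) (nat_lit 36011661696) (nat_lit 39) (nat_lit 5) (nat_lit 41) (nat_lit 5) (nat_lit 42) (nat_lit 5) (nat_lit 403) (nat_lit 384) (nat_lit 233))))))))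
noncomputable def xc201 : XT := (XT.nd (nat_lit 1560) (nat_lit 912) (nat_lit 0) (XT.nd (nat_lit 780) (nat_lit 684) (nat_lit 0) (XT.nd (nat_lit 390) (nat_lit 456) (nat_lit 0) (XT.nd (nat_lit 156) (nat_lit 152) (nat_lit 0) (XT.nd (nat_lit 78) (nat_lit 152) (nat_lit 0) (XT.lf (nat_lit 0) (nat_lit 19012424357) (nat_lit 228) (nat_lit 103852538823) (nat_lit 76) (nat_lit 164758883083) (nat_lit 38) (nat_lit 5) (nat_lit 41) (nat_lit 5) (nat_lit 39) (nat_lit 5) (nat_lit 404) (nat_lit 384) (nat_lit 232)) (XT.lf (nat_lit 0) (nat_lit 61569613200) (nat_lit 152) (nat_lit 16403868121) (nat_lit 228) (nat_lit 223978904897) (nat_lit 36) (nat_lit 5) (nat_lit 38) (nat_lit 5) (nat_lit 39) (nat_lit 5) (nat_lit 405) (nat_lit 384) (nat_lit 231))) (XT.nd (nat_lit 78) (nat_lit 152) (nat_lit 0) (XT.lf (nat_lit 0) (nat_lit 146935260909) (nat_lit 228) (nat_lit 73513005364) (nat_lit 76) (nat_lit 96556236119) (nat_lit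 36) (nat_lit 5) (nat_lit 39) (nat_lit 5) (nat_lit 37) (nat_lit 5) (nat_lit 406) (nat_lit 384) (nat_lit 230)) (XT.nd (nat_lit 78) (nat_lit 0) (nat_lit 0) (XT.lf (nat_lit 0) (nat_lit 111876588443) (nat_lit 152) (nat_lit 112653975983) (nat_lit 228) (nat_lit 108480896973) (nat_lit 34) (nat_lit 5) (nat_lit 36) (nat_lit 5) (nat_lit 37) (nat_lit 5) (nat_lit 407) (nat_lit 384) (nat_lit 229)) (XT.lf (nat_lit 0) (nat_lit 310486071508) (nat_lit 228) (nat_lit 34003011446) (nat_lit 76) (nat_lit 5637687887) (nat_lit 34) (nat_lit 5) (nat_lit 37) (nat_lit 5) (nat_lit 35) (nat_lit 4) (nat_lit 408) (nat_lit 384) (nat_lit 228))))) (XT.nd (nat_lit 156) (nat_lit 152) (nat_lit 0) (XT.nd (nat_lit 78) (nat_lit 152) (nat_lit 0) (XT.lf (nat_lit 0) (nat_lit 40262715857) (nat_lit 152) (nat_lit 195191152150) (nat_lit 76) (nat_lit 132507287526) (nat_lit 32) (nat_lit 5) (nat_lit 34) (nat_lit 5) (nat_lit 33) (nat_lit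 5) (nat_lit 409) (nat_lit 384) (nat_lit 227)) (XT.lf (nat_lit 0) (nat_lit 10333692424) (nat_lit 152) (nat_lit 115285346533) (nat_lit 228) (nat_lit 261424700838) (nat_lit 30) (nat_lit 5) (nat_lit 32) (nat_lit 5) (nat_lit 33) (nat_lit 5) (nat_lit 410) (nat_lit 384) (nat_lit 226))) (XT.nd (nat_lit 78) (nat_lit 152) (nat_lit 0) (XT.lf (nat_lit 0) (nat_lit 223627892928) (nat_lit 228) (nat_lit 164312219977) (nat_lit 76) (nat_lit 19246895934) (nat_lit 30) (nat_lit 5) (nat_lit 33) (nat_lit 5) (nat_lit 31) (nat_lit 4) (nat_lit 411) (nat_lit 384) (nat_lit 225)) (XT.nd (nat_lit 78) (nat_lit 76) (nat_lit 0) (XT.lf (nat_lit 0) (nat_lit 65352002839) (nat_lit 76) (nat_lit 268691490519) (nat_lit 152) (nat_lit 94532963038) (nat_lit 29) (nat_lit 5) (nat_lit 30) (nat_lit 5) (nat_lit 31) (nat_lit 4) (nat_lit 412) (nat_lit 384) (nat_lit 224)) (XT.lf (nat_lit 0) (nat_lit 6143654158) (nat_lit 152) (nat_lit 128739424887)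 (nat_lit 76) (nat_lit 316422138938) (nat_lit 28) (nat_lit 5) (nat_lit 30) (nat_lit 5) (nat_lit 29) (nat_lit 5) (nat_lit 413) (nat_lit 384) (nat_lit 223)))))) (XT.nd (nat_lit 390) (nat_lit 304) (nat_lit 0) (XT.nd (nat_lit 156) (nat_lit 228) (nat_lit 0) (XT.nd (nat_lit 78) (nat_lit 0) (nat_lit 0) (XT.lf (nat_lit 0) (nat_lit 113232546664) (nat_lit 228) (nat_lit 347308586738) (nat_lit 76) (nat_lit 14837484487) (nat_lit 26) (nat_lit 5) (nat_lit 29) (nat_lit 5) (nat_lit 27) (nat_lit 4) (nat_lit 414) (nat_lit 384) (nat_lit 222)) (XT.lf (nat_lit 0) (nat_lit 236003305125) (nat_lit 228) (nat_lit 91945575313) (nat_lit 76) (nat_lit 172859829015) (nat_lit 26) (nat_lit 5) (nat_lit 29) (nat_lit 5) (nat_lit 27) (nat_lit 4) (nat_lit 415) (nat_lit 384) (nat_lit 221))) (XT.nd (nat_lit 78) (nat_lit 152) (nat_lit 0) (XT.lf (nat_lit 0) (nat_lit 193527343686) (nat_lit 76) (nat_lit 179722631085) (nat_lit 152)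 (nat_lit 154650893558) (nat_lit 25) (nat_lit 5) (nat_lit 26) (nat_lit 5) (nat_lit 27) (nat_lit 4) (nat_lit 416) (nat_lit 384) (nat_lit 220)) (XT.nd (nat_lit 78) (nat_lit 152) (nat_lit 0) (XT.lf (nat_lit 0) (nat_lit 507066971603) (nat_lit 76) (nat_lit 16923277391) (nat_lit 152) (nat_lit 32969041265) (nat_lit 25) (nat_lit 5) (nat_lit 26) (nat_lit 5) (nat_lit 27) (nat_lit 4) (nat_lit 417) (nat_lit 384) (nat_lit 219)) (XT.lf (nat_lit 0) (nat_lit 104028435563) (nat_lit 152) (nat_lit 323280926455) (nat_lit 76) (nat_lit 160003146081) (nat_lit 23) (nat_lit 5) (nat_lit 25) (nat_lit 5) (nat_lit 24) (nat_lit 4) (nat_lit 418) (nat_lit 384) (nat_lit 218))))) (XT.nd (nat_lit 156) (nat_lit 228) (nat_lit 0) (XT.nd (nat_lit 78) (nat_lit 76) (nat_lit 0) (XT.lf (nat_lit 0) (nat_lit 252043589579) (nat_lit 152) (nat_lit 15409519197) (nat_lit 76) (nat_lit 352425242423) (nat_lit 23) (nat_lit 5) (nat_lit 25)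 (nat_lit 5) (nat_lit 24) (nat_lit 4) (nat_lit 419) (nat_lit 384) (nat_lit 217)) (XT.lf (nat_lit 0) (nat_lit 333788941047) (nat_lit 76) (nat_lit 86138573994) (nat_lit 152) (nat_lit 234479741993) (nat_lit 22) (nat_lit 5) (nat_lit 23) (nat_lit 5) (nat_lit 24) (nat_lit 4) (nat_lit 420) (nat_lit 384) (nat_lit 216))) (XT.nd (nat_lit 78) (nat_lit 152) (nat_lit 0) (XT.lf (nat_lit 0) (nat_lit 18406728546) (nat_lit 76) (nat_lit 586348136823) (nat_lit 76) (nat_lit 86662593119) (nat_lit 21) (nat_lit 4) (nat_lit 22) (nat_lit 5) (nat_lit 22) (nat_lit 4) (nat_lit 421) (nat_lit 384) (nat_lit 215)) (XT.nd (nat_lit 78) (nat_lit 76) (nat_lit 0) (XT.lf (nat_lit 0) (nat_lit 80560438232) (nat_lit 152) (nat_lit 332119915309) (nat_lit 76) (nat_lit 317669208041) (nat_lit 20) (nat_lit 5) (nat_lit 22) (nat_lit 5) (nat_lit 21) (nat_lit 4) (nat_lit 422) (nat_lit 384) (nat_lit 214)) (XT.lf (nat_lit 0) (nat_lit 35570440082)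 (nat_lit 76) (nat_lit 221764244478) (nat_lit 152) (nat_lit 514813037983) (nat_lit 19) (nat_lit 5) (nat_lit 20) (nat_lit 5) (nat_lit 21) (nat_lit 4) (nat_lit 423) (nat_lit 384) (nat_lit 213))))))) (XT.nd (nat_lit 780) (nat_lit 456) (nat_lit 0) (XT.nd (nat_lit 390) (nat_lit 228) (nat_lit 0) (XT.nd (nat_lit 156) (nat_lit 152) (nat_lit 0) (XT.nd (nat_lit 78) (nat_lit 76) (nat_lit 0) (XT.lf (nat_lit 0) (nat_lit 451563855506) (nat_lit 76) (nat_lit 5767697656) (nat_lit 152) (nat_lit 359231728626) (nat_lit 19) (nat_lit 5) (nat_lit 20) (nat_lit 5) (nat_lit 21) (nat_lit 4) (nat_lit 424) (nat_lit 384) (nat_lit 212)) (XT.lf (nat_lit 0) (nat_lit 32456563800) (nat_lit 76) (nat_lit 647123714250) (nat_lit 76) (nat_lit 184451639191) (nat_lit 18) (nat_lit 4) (nat_lit 19) (nat_lit 5) (nat_lit 19) (nat_lit 4) (nat_lit 425) (nat_lit 384) (nat_lit 211))) (XT.nd (nat_lit 78) (nat_lit 76) (nat_lit 0) (XT.lf (nat_lit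 0) (nat_lit 14483905365) (nat_lit 152) (nat_lit 432545608473) (nat_lit 76) (nat_lit 467429140043) (nat_lit 17) (nat_lit 5) (nat_lit 19) (nat_lit 5) (nat_lit 18) (nat_lit 4) (nat_lit 426) (nat_lit 384) (nat_lit 210)) (XT.nd (nat_lit 78) (nat_lit 76) (nat_lit 0) (XT.lf (nat_lit 0) (nat_lit 219369057760) (nat_lit 152) (nat_lit 6384543876) (nat_lit 76) (nat_lit 742782656193) (nat_lit 17) (nat_lit 5) (nat_lit 19) (nat_lit 5) (nat_lit 18) (nat_lit 4) (nat_lit 427) (nat_lit 384) (nat_lit 209)) (XT.lf (nat_lit 0) (nat_lit 452751828971) (nat_lit 152) (nat_lit 548868082928) (nat_lit 0) (nat_lit 24351613672) (nat_lit 16) (nat_lit 5) (nat_lit 18) (nat_lit 4) (nat_lit 16) (nat_lit 4) (nat_lit 428) (nat_lit 384) (nat_lit 208))))) (XT.nd (nat_lit 156) (nat_lit 152) (nat_lit 0) (XT.nd (nat_lit 78) (nat_lit 76) (nat_lit 0) (XT.lf (nat_lit 0) (nat_lit 710847998968) (nat_lit 152) (nat_lit 94222451522) (nat_lit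 0) (nat_lit 282447742083) (nat_lit 16) (nat_lit 5) (nat_lit 18) (nat_lit 4) (nat_lit 16) (nat_lit 4) (nat_lit 429) (nat_lit 384) (nat_lit 207)) (XT.lf (nat_lit 0) (nat_lit 417689244870) (nat_lit 76) (nat_lit 581948006191) (nat_lit 76) (nat_lit 153547710803) (nat_lit 15) (nat_lit 4) (nat_lit 16) (nat_lit 5) (nat_lit 16) (nat_lit 4) (nat_lit 430) (nat_lit 384) (nat_lit 206))) (XT.nd (nat_lit 78) (nat_lit 76) (nat_lit 0) (XT.lf (nat_lit 0) (nat_lit 85694315107) (nat_lit 152) (nat_lit 250156155618) (nat_lit 76) (nat_lit 887874950891) (nat_lit 14) (nat_lit 5) (nat_lit 16) (nat_lit 5) (nat_lit 15) (nat_lit 4) (nat_lit 431) (nat_lit 384) (nat_lit 205)) (XT.nd (nat_lit 78) (nat_lit 0) (nat_lit 0) (XT.lf (nat_lit 0) (nat_lit 284241124206) (nat_lit 76) (nat_lit 58374975918) (nat_lit 152) (nat_lit 956427080917) (nat_lit 13) (nat_lit 5) (nat_lit 14) (nat_lit 5) (nat_lit 15) (nat_lit 4) (nat_lit 432)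 (nat_lit 384) (nat_lit 204)) (XT.lf (nat_lit 0) (nat_lit 632912187611) (nat_lit 152) (nat_lit 510203373284) (nat_lit 0) (nat_lit 236245155557) (nat_lit 13) (nat_lit 5) (nat_lit 15) (nat_lit 4) (nat_lit 13) (nat_lit 4) (nat_lit 433) (nat_lit 384) (nat_lit 203)))))) (XT.nd (nat_lit 390) (nat_lit 228) (nat_lit 0) (XT.nd (nat_lit 156) (nat_lit 152) (nat_lit 0) (XT.nd (nat_lit 78) (nat_lit 0) (nat_lit 0) (XT.lf (nat_lit 0) (nat_lit 34997613912) (nat_lit 76) (nat_lit 913792234089) (nat_lit 76) (nat_lit 517125175829) (nat_lit 12) (nat_lit 4) (nat_lit 13) (nat_lit 5) (nat_lit 13) (nat_lit 4) (nat_lit 434) (nat_lit 384) (nat_lit 202)) (XT.lf (nat_lit 0) (nat_lit 652830319749) (nat_lit 76) (nat_lit 651057226295) (nat_lit 76) (nat_lit 254390143771) (nat_lit 12) (nat_lit 4) (nat_lit 13) (nat_lit 5) (nat_lit 13) (nat_lit 4) (nat_lit 435) (nat_lit 384) (nat_lit 201))) (XT.nd (nat_lit 78) (nat_lit 76)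 (nat_lit 0) (XT.lf (nat_lit 0) (nat_lit 27894762525) (nat_lit 152) (nat_lit 338645998938) (nat_lit 76) (nat_lit 1291432114830) (nat_lit 11) (nat_lit 5) (nat_lit 13) (nat_lit 5) (nat_lit 12) (nat_lit 4) (nat_lit 436) (nat_lit 384) (nat_lit 200)) (XT.nd (nat_lit 78) (nat_lit 0) (nat_lit 0) (XT.lf (nat_lit 0) (nat_lit 280945930008) (nat_lit 76) (nat_lit 44829577588) (nat_lit 152) (nat_lit 1438799029475) (nat_lit 10) (nat_lit 5) (nat_lit 11) (nat_lit 5) (nat_lit 12) (nat_lit 4) (nat_lit 437) (nat_lit 384) (nat_lit 199)) (XT.lf (nat_lit 0) (nat_lit 664264339831) (nat_lit 152) (nat_lit 917117834420) (nat_lit 0) (nat_lit 296979946260) (nat_lit 10) (nat_lit 5) (nat_lit 12) (nat_lit 4) (nat_lit 10) (nat_lit 4) (nat_lit 438) (nat_lit 384) (nat_lit 198))))) (XT.nd (nat_lit 234) (nat_lit 152) (nat_lit 0) (XT.nd (nat_lit 78) (nat_lit 76) (nat_lit 0) (XT.lf (nat_lit 0) (nat_lit 1030996651180) (nat_lit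 152) (nat_lit 306450668549) (nat_lit 0) (nat_lit 663712241096) (nat_lit 10) (nat_lit 5) (nat_lit 12) (nat_lit 4) (nat_lit 10) (nat_lit 4) (nat_lit 439) (nat_lit 384) (nat_lit 197)) (XT.nd (nat_lit 78) (nat_lit 0) (nat_lit 0) (XT.lf (nat_lit 0) (nat_lit 371661841931) (nat_lit 76) (nat_lit 1064344152045) (nat_lit 76) (nat_lit 697059726670) (nat_lit 9) (nat_lit 4) (nat_lit 10) (nat_lit 5) (nat_lit 10) (nat_lit 4) (nat_lit 440) (nat_lit 384) (nat_lit 196)) (XT.lf (nat_lit 0) (nat_lit 1121451416574) (nat_lit 76) (nat_lit 760343543087) (nat_lit 76) (nat_lit 393059103554) (nat_lit 9) (nat_lit 4) (nat_lit 10) (nat_lit 5) (nat_lit 10) (nat_lit 4) (nat_lit 441) (nat_lit 384) (nat_lit 195)))) (XT.nd (nat_lit 78) (nat_lit 152) (nat_lit 0) (XT.lf (nat_lit 0) (nat_lit 1931224103733) (nat_lit 76) (nat_lit 432022912122) (nat_lit 76) (nat_lit 64738459479) (nat_lit 9) (nat_lit 4) (nat_lit 10) (nat_lit 5)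 (nat_lit 10) (nat_lit 4) (nat_lit 442) (nat_lit 384) (nat_lit 194)) (XT.nd (nat_lit 78) (nat_lit 0) (nat_lit 0) (XT.lf (nat_lit 0) (nat_lit 216258429677) (nat_lit 76) (nat_lit 64291038811) (nat_lit 152) (nat_lit 2311844184539) (nat_lit 7) (nat_lit 5) (nat_lit 8) (nat_lit 5) (nat_lit 9) (nat_lit 4) (nat_lit 443) (nat_lit 384) (nat_lit 193)) (XT.lf (nat_lit 0) (nat_lit 671903247437) (nat_lit 152) (nat_lit 1764336457123) (nat_lit 0) (nat_lit 331825028900) (nat_lit 7) (nat_lit 5) (nat_lit 9) (nat_lit 4) (nat_lit 7) (nat_lit 4) (nat_lit 444) (nat_lit 384) (nat_lit 192))))))))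
noncomputable def xc202 : XT := (XT.nd (nat_lit 48984) (nat_lit 0) (nat_lit 1976) (XT.nd (nat_lit 780) (nat_lit 0) (nat_lit 0) (XT.nd (nat_lit 390) (nat_lit 152) (nat_lit 0) (XT.nd (nat_lit 156) (nat_lit 76) (nat_lit 0) (XT.nd (nat_lit 78) (nat_lit 0) (nat_lit 0) (XT.lf (nat_lit 0) (nat_lit 1096235202369) (nat_lit 152) (nat_lit 1105263733868) (nat_lit 0) (nat_lit 756156974196) (nat_lit 7) (nat_lit 5) (nat_lit 9) (nat_lit 4) (nat_lit 7) (nat_lit 4) (nat_lit 445) (nat_lit 384) (nat_lit 191)) (XT.lf (nat_lit 0) (nat_lit 1554513691989) (nat_lit 152) (nat_lit 393465236421) (nat_lit 0) (nat_lit 1214435454895) (nat_lit 7) (nat_lit 5) (nat_lit 9) (nat_lit 4) (nat_lit 7) (nat_lit 4) (nat_lit 446) (nat_lit 384) (nat_lit 190))) (XT.nd (nat_lit 78) (nat_lit 0) (nat_lit 0) (XT.lf (nat_lit 0) (nat_lit 395038527448) (nat_lit 76) (nat_lit 1663916599317) (nat_lit 76) (nat_lit 1323838353962) (nat_lit 6)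 (nat_lit 4) (nat_lit 7) (nat_lit 5) (nat_lit 7) (nat_lit 4) (nat_lit 447) (nat_lit 384) (nat_lit 189)) (XT.nd (nat_lit 78) (nat_lit 0) (nat_lit 0) (XT.lf (nat_lit 0) (nat_lit 1268999269654) (nat_lit 76) (nat_lit 1345510623957) (nat_lit 76) (nat_lit 1005432370952) (nat_lit 6) (nat_lit 4) (nat_lit 7) (nat_lit 5) (nat_lit 7) (nat_lit 4) (nat_lit 448) (nat_lit 384) (nat_lit 188)) (XT.lf (nat_lit 0) (nat_lit 2212876834746) (nat_lit 76) (nat_lit 1001632188948) (nat_lit 76) (nat_lit 661553928861) (nat_lit 6) (nat_lit 4) (nat_lit 7) (nat_lit 5) (nat_lit 7) (nat_lit 4) (nat_lit 449) (nat_lit 384) (nat_lit 187))))) (XT.nd (nat_lit 156) (nat_lit 76) (nat_lit 0) (XT.nd (nat_lit 78) (nat_lit 76) (nat_lit 0) (XT.lf (nat_lit 0) (nat_lit 3232264571259) (nat_lit 76) (nat_lit 630243496157) (nat_lit 76) (nat_lit 290165229512) (nat_lit 6) (nat_lit 4) (nat_lit 7) (nat_lit 5) (nat_lit 7) (nat_lit 4) (nat_lit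 450) (nat_lit 384) (nat_lit 186)) (XT.lf (nat_lit 0) (nat_lit 105385153585) (nat_lit 152) (nat_lit 120877153259) (nat_lit 76) (nat_lit 4224936724966) (nat_lit 5) (nat_lit 5) (nat_lit 7) (nat_lit 5) (nat_lit 6) (nat_lit 4) (nat_lit 451) (nat_lit 384) (nat_lit 185))) (XT.nd (nat_lit 78) (nat_lit 0) (nat_lit 0) (XT.lf (nat_lit 0) (nat_lit 541243248095) (nat_lit 152) (nat_lit 4003457472122) (nat_lit 0) (nat_lit 226355953336) (nat_lit 4) (nat_lit 5) (nat_lit 6) (nat_lit 4) (nat_lit 4) (nat_lit 4) (nat_lit 452) (nat_lit 384) (nat_lit 184)) (XT.nd (nat_lit 78) (nat_lit 0) (nat_lit 0) (XT.lf (nat_lit 0) (nat_lit 1021237758118) (nat_lit 152) (nat_lit 3388173288544) (nat_lit 0) (nat_lit 706350458538) (nat_lit 4) (nat_lit 5) (nat_lit 6) (nat_lit 4) (nat_lit 4) (nat_lit 4) (nat_lit 453) (nat_lit 384) (nat_lit 183)) (XT.lf (nat_lit 0) (nat_lit 1539631815325) (nat_lit 152) (nat_lit 2723666397862) (nat_lit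 0) (nat_lit 1224744511282) (nat_lit 4) (nat_lit 5) (nat_lit 6) (nat_lit 4) (nat_lit 4) (nat_lit 4) (nat_lit 454) (nat_lit 384) (nat_lit 182)))))) (XT.nd (nat_lit 47814) (nat_lit 0) (nat_lit 4180) (XT.nd (nat_lit 156) (nat_lit 0) (nat_lit 0) (XT.nd (nat_lit 78) (nat_lit 0) (nat_lit 0) (XT.lf (nat_lit 0) (nat_lit 2099497384500) (nat_lit 152) (nat_lit 2005998981464) (nat_lit 0) (nat_lit 1784610076325) (nat_lit 4) (nat_lit 5) (nat_lit 6) (nat_lit 4) (nat_lit 4) (nat_lit 4) (nat_lit 455) (nat_lit 384) (nat_lit 181)) (XT.lf (nat_lit 0) (nat_lit 2704152187535) (nat_lit 152) (nat_lit 1230918195402) (nat_lit 0) (nat_lit 2389264875533) (nat_lit 4) (nat_lit 5) (nat_lit 6) (nat_lit 4) (nat_lit 4) (nat_lit 4) (nat_lit 456) (nat_lit 384) (nat_lit 180))) (XT.nd (nat_lit 47502) (nat_lit 0) (nat_lit 4560) (XT.lf (nat_lit 0) (nat_lit 3357179364003) (nat_lit 152) (nat_lit 393830968350) (nat_lit 0) (nat_lit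 3042292048458) (nat_lit 4) (nat_lit 5) (nat_lit 6) (nat_lit 4) (nat_lit 4) (nat_lit 4) (nat_lit 457) (nat_lit 384) (nat_lit 179)) (XT.nd (nat_lit 78) (nat_lit 0) (nat_lit 0) (XT.lf (nat_lit 0) (nat_lit 57226829879) (nat_lit 532) (nat_lit 3842381864) (nat_lit 532) (nat_lit 3842381864) (nat_lit 64) (nat_lit 3) (nat_lit 71) (nat_lit 3) (nat_lit 71) (nat_lit 5) (nat_lit 385) (nat_lit 385) (nat_lit 250)) (XT.lf (nat_lit 76) (nat_lit 58331406622) (nat_lit 0) (nat_lit 62106903928) (nat_lit 532) (nat_lit 14465280366) (nat_lit 65) (nat_lit 5) (nat_lit 64) (nat_lit 3) (nat_lit 71) (nat_lit 5) (nat_lit 386) (nat_lit 385) (nat_lit 249))))) (XT.nd (nat_lit 156) (nat_lit 456) (nat_lit 0) (XT.nd (nat_lit 78) (nat_lit 0) (nat_lit 0) (XT.lf (nat_lit 0) (nat_lit 127182529186) (nat_lit 456) (nat_lit 10378993511) (nat_lit 532) (nat_lit 2806440896) (nat_lit 65) (nat_lit 5) (nat_lit 71) (nat_lit 5) (nat_lit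 72) (nat_lit 5) (nat_lit 387) (nat_lit 385) (nat_lit 248)) (XT.lf (nat_lit 76) (nat_lit 62629231333) (nat_lit 0) (nat_lit 74956117310) (nat_lit 532) (nat_lit 8434612695) (nat_lit 66) (nat_lit 5) (nat_lit 65) (nat_lit 5) (nat_lit 72) (nat_lit 5) (nat_lit 388) (nat_lit 385) (nat_lit 247))) (XT.nd (nat_lit 78) (nat_lit 456) (nat_lit 0) (XT.lf (nat_lit 76) (nat_lit 142068159696) (nat_lit 0) (nat_lit 7035696294) (nat_lit 532) (nat_lit 2997586219) (nat_lit 66) (nat_lit 5) (nat_lit 65) (nat_lit 5) (nat_lit 72) (nat_lit 5) (nat_lit 389) (nat_lit 385) (nat_lit 246)) (XT.nd (nat_lit 78) (nat_lit 0) (nat_lit 0) (XT.lf (nat_lit 0) (nat_lit 6122480102) (nat_lit 532) (nat_lit 87402817347) (nat_lit 608) (nat_lit 64867264640) (nat_lit 59) (nat_lit 5) (nat_lit 66) (nat_lit 5) (nat_lit 67) (nat_lit 5) (nat_lit 390) (nat_lit 385) (nat_lit 245)) (XT.lf (nat_lit 0) (nat_lit 16274119636) (nat_lit 532) (nat_lit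 6367776028) (nat_lit 608) (nat_lit 142501734145) (nat_lit 59) (nat_lit 5) (nat_lit 66) (nat_lit 5) (nat_lit 67) (nat_lit 5) (nat_lit 391) (nat_lit 385) (nat_lit 244))))))) (XT.nd (nat_lit 780) (nat_lit 988) (nat_lit 0) (XT.nd (nat_lit 390) (nat_lit 684) (nat_lit 0) (XT.nd (nat_lit 156) (nat_lit 228) (nat_lit 0) (XT.nd (nat_lit 78) (nat_lit 380) (nat_lit 0) (XT.lf (nat_lit 0) (nat_lit 30642006769) (nat_lit 532) (nat_lit 88197344971) (nat_lit 76) (nat_lit 53323102108) (nat_lit 60) (nat_lit 5) (nat_lit 67) (nat_lit 5) (nat_lit 61) (nat_lit 5) (nat_lit 392) (nat_lit 385) (nat_lit 243)) (XT.lf (nat_lit 0) (nat_lit 1647465609) (nat_lit 380) (nat_lit 45317963581) (nat_lit 456) (nat_lit 132712866476) (nat_lit 55) (nat_lit 5) (nat_lit 60) (nat_lit 5) (nat_lit 61) (nat_lit 5) (nat_lit 393) (nat_lit 385) (nat_lit 242))) (XT.nd (nat_lit 78) (nat_lit 228) (nat_lit 0) (XT.lf (nat_lit 0) (nat_lit 67888347045)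 (nat_lit 456) (nat_lit 84789396190) (nat_lit 76) (nat_lit 34854172049) (nat_lit 55) (nat_lit 5) (nat_lit 61) (nat_lit 5) (nat_lit 56) (nat_lit 5) (nat_lit 394) (nat_lit 385) (nat_lit 241)) (XT.nd (nat_lit 78) (nat_lit 0) (nat_lit 0) (XT.lf (nat_lit 0) (nat_lit 15509901502) (nat_lit 228) (nat_lit 76525083596) (nat_lit 304) (nat_lit 103854848603) (nat_lit 52) (nat_lit 5) (nat_lit 55) (nat_lit 5) (nat_lit 56) (nat_lit 5) (nat_lit 395) (nat_lit 385) (nat_lit 240)) (XT.lf (nat_lit 0) (nat_lit 120629216567) (nat_lit 304) (nat_lit 76273746986) (nat_lit 76) (nat_lit 7812153209) (nat_lit 52) (nat_lit 5) (nat_lit 56) (nat_lit 5) (nat_lit 53) (nat_lit 5) (nat_lit 396) (nat_lit 385) (nat_lit 239))))) (XT.nd (nat_lit 156) (nat_lit 456) (nat_lit 0) (XT.nd (nat_lit 78) (nat_lit 0) (nat_lit 0) (XT.lf (nat_lit 0) (nat_lit 35972538918) (nat_lit 228) (nat_lit 118391061433) (nat_lit 304) (nat_lit 59654613160)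 (nat_lit 49) (nat_lit 5) (nat_lit 52) (nat_lit 5) (nat_lit 53) (nat_lit 5) (nat_lit 397) (nat_lit 385) (nat_lit 238)) (XT.lf (nat_lit 0) (nat_lit 161536067181) (nat_lit 228) (nat_lit 31345944894) (nat_lit 304) (nat_lit 31016723882) (nat_lit 49) (nat_lit 5) (nat_lit 52) (nat_lit 5) (nat_lit 53) (nat_lit 5) (nat_lit 398) (nat_lit 385) (nat_lit 237))) (XT.nd (nat_lit 78) (nat_lit 228) (nat_lit 0) (XT.lf (nat_lit 0) (nat_lit 3048774815) (nat_lit 228) (nat_lit 170119212031) (nat_lit 76) (nat_lit 61151307525) (nat_lit 46) (nat_lit 5) (nat_lit 49) (nat_lit 5) (nat_lit 47) (nat_lit 5) (nat_lit 399) (nat_lit 385) (nat_lit 236)) (XT.nd (nat_lit 78) (nat_lit 228) (nat_lit 0) (XT.lf (nat_lit 0) (nat_lit 40727213231) (nat_lit 228) (nat_lit 42666929669) (nat_lit 76) (nat_lit 161909831649) (nat_lit 46) (nat_lit 5) (nat_lit 49) (nat_lit 5) (nat_lit 47) (nat_lit 5) (nat_lit 400) (nat_lit 385) (nat_lit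 235)) (XT.lf (nat_lit 0) (nat_lit 84212976391) (nat_lit 304) (nat_lit 157380803416) (nat_lit 76) (nat_lit 15350205458) (nat_lit 43) (nat_lit 5) (nat_lit 47) (nat_lit 5) (nat_lit 44) (nat_lit 5) (nat_lit 401) (nat_lit 385) (nat_lit 234)))))) (XT.nd (nat_lit 390) (nat_lit 456) (nat_lit 0) (XT.nd (nat_lit 156) (nat_lit 380) (nat_lit 0) (XT.nd (nat_lit 78) (nat_lit 152) (nat_lit 0) (XT.lf (nat_lit 0) (nat_lit 134540424394) (nat_lit 304) (nat_lit 16020249979) (nat_lit 76) (nat_lit 118685496656) (nat_lit 43) (nat_lit 5) (nat_lit 47) (nat_lit 5) (nat_lit 44) (nat_lit 5) (nat_lit 402) (nat_lit 385) (nat_lit 233)) (XT.lf (nat_lit 0) (nat_lit 143844648882) (nat_lit 152) (nat_lit 48508749271) (nat_lit 228) (nat_lit 89902387195) (nat_lit 41) (nat_lit 5) (nat_lit 43) (nat_lit 5) (nat_lit 44) (nat_lit 5) (nat_lit 403) (nat_lit 385) (nat_lit 232))) (XT.nd (nat_lit 78) (nat_lit 228) (nat_lit 0) (XT.lf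 (nat_lit 0) (nat_lit 20677432110) (nat_lit 152) (nat_lit 236544599476) (nat_lit 228) (nat_lit 38889687563) (nat_lit 39) (nat_lit 5) (nat_lit 41) (nat_lit 5) (nat_lit 42) (nat_lit 5) (nat_lit 404) (nat_lit 385) (nat_lit 231)) (XT.nd (nat_lit 78) (nat_lit 152) (nat_lit 0) (XT.lf (nat_lit 0) (nat_lit 20535975385) (nat_lit 228) (nat_lit 112156893345) (nat_lit 76) (nat_lit 177940679336) (nat_lit 38) (nat_lit 5) (nat_lit 41) (nat_lit 5) (nat_lit 39) (nat_lit 5) (nat_lit 405) (nat_lit 385) (nat_lit 230)) (XT.lf (nat_lit 0) (nat_lit 66498933408) (nat_lit 152) (nat_lit 17714884300) (nat_lit 228) (nat_lit 241894561543) (nat_lit 36) (nat_lit 5) (nat_lit 38) (nat_lit 5) (nat_lit 39) (nat_lit 5) (nat_lit 406) (nat_lit 385) (nat_lit 229))))) (XT.nd (nat_lit 234) (nat_lit 304) (nat_lit 0) (XT.nd (nat_lit 78) (nat_lit 152) (nat_lit 0) (XT.lf (nat_lit 0) (nat_lit 158692386398) (nat_lit 228) (nat_lit 79390418096)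 (nat_lit 76) (nat_lit 104281872579) (nat_lit 36) (nat_lit 5) (nat_lit 39) (nat_lit 5) (nat_lit 37) (nat_lit 5) (nat_lit 407) (nat_lit 385) (nat_lit 228)) (XT.nd (nat_lit 78) (nat_lit 0) (nat_lit 0) (XT.lf (nat_lit 0) (nat_lit 120830251375) (nat_lit 152) (nat_lit 121664977145) (nat_lit 228) (nat_lit 117156971217) (nat_lit 34) (nat_lit 5) (nat_lit 36) (nat_lit 5) (nat_lit 37) (nat_lit 5) (nat_lit 408) (nat_lit 385) (nat_lit 227)) (XT.lf (nat_lit 0) (nat_lit 335327041129) (nat_lit 228) (nat_lit 36719842401) (nat_lit 76) (nat_lit 6089861286) (nat_lit 34) (nat_lit 5) (nat_lit 37) (nat_lit 5) (nat_lit 35) (nat_lit 4) (nat_lit 409) (nat_lit 385) (nat_lit 226)))) (XT.nd (nat_lit 78) (nat_lit 152) (nat_lit 0) (XT.lf (nat_lit 0) (nat_lit 43485795652) (nat_lit 152) (nat_lit 210803011240) (nat_lit 76) (nat_lit 143109075241) (nat_lit 32) (nat_lit 5) (nat_lit 34) (nat_lit 5) (nat_lit 33) (nat_lit 5)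 (nat_lit 410) (nat_lit 385) (nat_lit 225)) (XT.nd (nat_lit 78) (nat_lit 0) (nat_lit 0) (XT.lf (nat_lit 0) (nat_lit 11163733986) (nat_lit 152) (nat_lit 124506818310) (nat_lit 228) (nat_lit 282336526688) (nat_lit 30) (nat_lit 5) (nat_lit 32) (nat_lit 5) (nat_lit 33) (nat_lit 5) (nat_lit 411) (nat_lit 385) (nat_lit 224)) (XT.lf (nat_lit 0) (nat_lit 241519997356) (nat_lit 228) (nat_lit 177453981323) (nat_lit 76) (nat_lit 20787840309) (nat_lit 30) (nat_lit 5) (nat_lit 33) (nat_lit 5) (nat_lit 31) (nat_lit 4) (nat_lit 412) (nat_lit 385) (nat_lit 223))))))))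
noncomputable def xc203 : XT := (XT.nd (nat_lit 1638) (nat_lit 684) (nat_lit 0) (XT.nd (nat_lit 780) (nat_lit 608) (nat_lit 0) (XT.nd (nat_lit 390) (nat_lit 304) (nat_lit 0) (XT.nd (nat_lit 156) (nat_lit 228) (nat_lit 0) (XT.nd (nat_lit 78) (nat_lit 76) (nat_lit 0) (XT.lf (nat_lit 0) (nat_lit 70583297894) (nat_lit 76) (nat_lit 290185484578) (nat_lit 152) (nat_lit 102093644998) (nat_lit 29) (nat_lit 5) (nat_lit 30) (nat_lit 5) (nat_lit 31) (nat_lit 4) (nat_lit 413) (nat_lit 385) (nat_lit 222)) (XT.lf (nat_lit 0) (nat_lit 6636866197) (nat_lit 152) (nat_lit 139035585131) (nat_lit 76) (nat_lit 341737045946) (nat_lit 28) (nat_lit 5) (nat_lit 30) (nat_lit 5) (nat_lit 29) (nat_lit 5) (nat_lit 414) (nat_lit 385) (nat_lit 221))) (XT.nd (nat_lit 78) (nat_lit 76) (nat_lit 0) (XT.lf (nat_lit 0) (nat_lit 122292843088) (nat_lit 228) (nat_lit 375090252386) (nat_lit 76) (nat_lit 16025675902) (nat_lit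 26) (nat_lit 5) (nat_lit 29) (nat_lit 5) (nat_lit 27) (nat_lit 4) (nat_lit 415) (nat_lit 385) (nat_lit 220)) (XT.nd (nat_lit 78) (nat_lit 76) (nat_lit 0) (XT.lf (nat_lit 0) (nat_lit 254885136842) (nat_lit 228) (nat_lit 99298423846) (nat_lit 76) (nat_lit 186689719647) (nat_lit 26) (nat_lit 5) (nat_lit 29) (nat_lit 5) (nat_lit 27) (nat_lit 4) (nat_lit 416) (nat_lit 385) (nat_lit 219)) (XT.lf (nat_lit 0) (nat_lit 209012257850) (nat_lit 76) (nat_lit 194099231689) (nat_lit 152) (nat_lit 167021326459) (nat_lit 25) (nat_lit 5) (nat_lit 26) (nat_lit 5) (nat_lit 27) (nat_lit 4) (nat_lit 417) (nat_lit 385) (nat_lit 218))))) (XT.nd (nat_lit 156) (nat_lit 152) (nat_lit 0) (XT.nd (nat_lit 78) (nat_lit 152) (nat_lit 0) (XT.lf (nat_lit 0) (nat_lit 547634854025) (nat_lit 76) (nat_lit 18276019321) (nat_lit 152) (nat_lit 35605047359) (nat_lit 25) (nat_lit 5) (nat_lit 26) (nat_lit 5) (nat_lit 27) (nat_lit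 4) (nat_lit 418) (nat_lit 385) (nat_lit 217)) (XT.lf (nat_lit 0) (nat_lit 112352133332) (nat_lit 152) (nat_lit 349140780846) (nat_lit 76) (nat_lit 172804480375) (nat_lit 23) (nat_lit 5) (nat_lit 25) (nat_lit 5) (nat_lit 24) (nat_lit 4) (nat_lit 419) (nat_lit 385) (nat_lit 216))) (XT.nd (nat_lit 78) (nat_lit 152) (nat_lit 0) (XT.lf (nat_lit 0) (nat_lit 272208394267) (nat_lit 152) (nat_lit 16639855061) (nat_lit 76) (nat_lit 380620264231) (nat_lit 23) (nat_lit 5) (nat_lit 25) (nat_lit 5) (nat_lit 24) (nat_lit 4) (nat_lit 420) (nat_lit 385) (nat_lit 215)) (XT.nd (nat_lit 78) (nat_lit 76) (nat_lit 0) (XT.lf (nat_lit 0) (nat_lit 360494420593) (nat_lit 76) (nat_lit 93028572440) (nat_lit 152) (nat_lit 253236742113) (nat_lit 22) (nat_lit 5) (nat_lit 23) (nat_lit 5) (nat_lit 24) (nat_lit 4) (nat_lit 421) (nat_lit 385) (nat_lit 214)) (XT.lf (nat_lit 0) (nat_lit 19881645604) (nat_lit 76) (nat_lit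 633254872632) (nat_lit 76) (nat_lit 93594235554) (nat_lit 21) (nat_lit 4) (nat_lit 22) (nat_lit 5) (nat_lit 22) (nat_lit 4) (nat_lit 422) (nat_lit 385) (nat_lit 213)))))) (XT.nd (nat_lit 390) (nat_lit 304) (nat_lit 0) (XT.nd (nat_lit 156) (nat_lit 152) (nat_lit 0) (XT.nd (nat_lit 78) (nat_lit 76) (nat_lit 0) (XT.lf (nat_lit 0) (nat_lit 87006473967) (nat_lit 152) (nat_lit 358687242494) (nat_lit 76) (nat_lit 343083713747) (nat_lit 20) (nat_lit 5) (nat_lit 22) (nat_lit 5) (nat_lit 21) (nat_lit 4) (nat_lit 423) (nat_lit 385) (nat_lit 212)) (XT.lf (nat_lit 0) (nat_lit 38418283960) (nat_lit 76) (nat_lit 239504340221) (nat_lit 152) (nat_lit 555996822750) (nat_lit 19) (nat_lit 5) (nat_lit 20) (nat_lit 5) (nat_lit 21) (nat_lit 4) (nat_lit 424) (nat_lit 385) (nat_lit 211))) (XT.nd (nat_lit 78) (nat_lit 152) (nat_lit 0) (XT.lf (nat_lit 0) (nat_lit 487691009013) (nat_lit 76) (nat_lit 6228146973) (nat_lit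 152) (nat_lit 387969101850) (nat_lit 19) (nat_lit 5) (nat_lit 20) (nat_lit 5) (nat_lit 21) (nat_lit 4) (nat_lit 425) (nat_lit 385) (nat_lit 210)) (XT.nd (nat_lit 78) (nat_lit 76) (nat_lit 0) (XT.lf (nat_lit 0) (nat_lit 35055143846) (nat_lit 76) (nat_lit 698892626068) (nat_lit 76) (nat_lit 199206614942) (nat_lit 18) (nat_lit 4) (nat_lit 19) (nat_lit 5) (nat_lit 19) (nat_lit 4) (nat_lit 426) (nat_lit 385) (nat_lit 209)) (XT.lf (nat_lit 0) (nat_lit 15643634079) (nat_lit 152) (nat_lit 467147300744) (nat_lit 76) (nat_lit 504824329899) (nat_lit 17) (nat_lit 5) (nat_lit 19) (nat_lit 5) (nat_lit 18) (nat_lit 4) (nat_lit 427) (nat_lit 385) (nat_lit 208))))) (XT.nd (nat_lit 234) (nat_lit 228) (nat_lit 0) (XT.nd (nat_lit 78) (nat_lit 76) (nat_lit 0) (XT.lf (nat_lit 0) (nat_lit 236919523385) (nat_lit 152) (nat_lit 6893495899) (nat_lit 76) (nat_lit 802206063737) (nat_lit 17) (nat_lit 5) (nat_lit 19)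 (nat_lit 5) (nat_lit 18) (nat_lit 4) (nat_lit 428) (nat_lit 385) (nat_lit 207)) (XT.nd (nat_lit 78) (nat_lit 0) (nat_lit 0) (XT.lf (nat_lit 0) (nat_lit 488972909540) (nat_lit 152) (nat_lit 592775711178) (nat_lit 0) (nat_lit 26300552016) (nat_lit 16) (nat_lit 5) (nat_lit 18) (nat_lit 4) (nat_lit 16) (nat_lit 4) (nat_lit 429) (nat_lit 385) (nat_lit 206)) (XT.lf (nat_lit 0) (nat_lit 767716703932) (nat_lit 152) (nat_lit 101758563955) (nat_lit 0) (nat_lit 305044310756) (nat_lit 16) (nat_lit 5) (nat_lit 18) (nat_lit 4) (nat_lit 16) (nat_lit 4) (nat_lit 430) (nat_lit 385) (nat_lit 205)))) (XT.nd (nat_lit 78) (nat_lit 152) (nat_lit 0) (XT.lf (nat_lit 0) (nat_lit 451106025523) (nat_lit 76) (nat_lit 628503046060) (nat_lit 76) (nat_lit 165830619872) (nat_lit 15) (nat_lit 4) (nat_lit 16) (nat_lit 5) (nat_lit 16) (nat_lit 4) (nat_lit 431) (nat_lit 385) (nat_lit 204)) (XT.nd (nat_lit 78) (nat_lit 76)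 (nat_lit 0) (XT.lf (nat_lit 0) (nat_lit 92550658818) (nat_lit 152) (nat_lit 270167086411) (nat_lit 76) (nat_lit 958905646130) (nat_lit 14) (nat_lit 5) (nat_lit 16) (nat_lit 5) (nat_lit 15) (nat_lit 4) (nat_lit 432) (nat_lit 385) (nat_lit 203)) (XT.lf (nat_lit 0) (nat_lit 306981936263) (nat_lit 76) (nat_lit 63044227832) (nat_lit 152) (nat_lit 1032940409255) (nat_lit 13) (nat_lit 5) (nat_lit 14) (nat_lit 5) (nat_lit 15) (nat_lit 4) (nat_lit 433) (nat_lit 385) (nat_lit 202))))))) (XT.nd (nat_lit 780) (nat_lit 380) (nat_lit 0) (XT.nd (nat_lit 390) (nat_lit 76) (nat_lit 0) (XT.nd (nat_lit 156) (nat_lit 152) (nat_lit 0) (XT.nd (nat_lit 78) (nat_lit 76) (nat_lit 0) (XT.lf (nat_lit 0) (nat_lit 683545897719) (nat_lit 152) (nat_lit 551018192823) (nat_lit 0) (nat_lit 255145424328) (nat_lit 13) (nat_lit 5) (nat_lit 15) (nat_lit 4) (nat_lit 13) (nat_lit 4) (nat_lit 434) (nat_lit 385) (nat_lit 201))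 (XT.lf (nat_lit 0) (nat_lit 37798836632) (nat_lit 76) (nat_lit 986894913853) (nat_lit 76) (nat_lit 558494417996) (nat_lit 12) (nat_lit 4) (nat_lit 13) (nat_lit 5) (nat_lit 13) (nat_lit 4) (nat_lit 435) (nat_lit 385) (nat_lit 200))) (XT.nd (nat_lit 78) (nat_lit 152) (nat_lit 0) (XT.lf (nat_lit 0) (nat_lit 705058054225) (nat_lit 76) (nat_lit 703141157211) (nat_lit 76) (nat_lit 274740640551) (nat_lit 12) (nat_lit 4) (nat_lit 13) (nat_lit 5) (nat_lit 13) (nat_lit 4) (nat_lit 436) (nat_lit 385) (nat_lit 199)) (XT.nd (nat_lit 78) (nat_lit 76) (nat_lit 0) (XT.lf (nat_lit 0) (nat_lit 30126972201) (nat_lit 152) (nat_lit 365736433742) (nat_lit 76) (nat_lit 1394747250093) (nat_lit 11) (nat_lit 5) (nat_lit 13) (nat_lit 5) (nat_lit 12) (nat_lit 4) (nat_lit 437) (nat_lit 385) (nat_lit 198)) (XT.lf (nat_lit 0) (nat_lit 303422817998) (nat_lit 76) (nat_lit 48415341499) (nat_lit 152) (nat_lit 1553902291575)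 (nat_lit 10) (nat_lit 5) (nat_lit 11) (nat_lit 5) (nat_lit 12) (nat_lit 4) (nat_lit 438) (nat_lit 385) (nat_lit 197))))) (XT.nd (nat_lit 156) (nat_lit 76) (nat_lit 0) (XT.nd (nat_lit 78) (nat_lit 0) (nat_lit 0) (XT.lf (nat_lit 0) (nat_lit 717406066441) (nat_lit 152) (nat_lit 990486105554) (nat_lit 0) (nat_lit 320738871746) (nat_lit 10) (nat_lit 5) (nat_lit 12) (nat_lit 4) (nat_lit 10) (nat_lit 4) (nat_lit 439) (nat_lit 385) (nat_lit 196)) (XT.lf (nat_lit 0) (nat_lit 1113476919779) (nat_lit 152) (nat_lit 330965652015) (nat_lit 0) (nat_lit 716809710925) (nat_lit 10) (nat_lit 5) (nat_lit 12) (nat_lit 4) (nat_lit 10) (nat_lit 4) (nat_lit 440) (nat_lit 385) (nat_lit 195))) (XT.nd (nat_lit 78) (nat_lit 0) (nat_lit 0) (XT.lf (nat_lit 0) (nat_lit 401395832214) (nat_lit 76) (nat_lit 1149491163125) (nat_lit 76) (nat_lit 752823941162) (nat_lit 9) (nat_lit 4) (nat_lit 10) (nat_lit 5) (nat_lit 10)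 (nat_lit 4) (nat_lit 441) (nat_lit 385) (nat_lit 194)) (XT.nd (nat_lit 78) (nat_lit 0) (nat_lit 0) (XT.lf (nat_lit 0) (nat_lit 1211168495575) (nat_lit 76) (nat_lit 821170544049) (nat_lit 76) (nat_lit 424503309948) (nat_lit 9) (nat_lit 4) (nat_lit 10) (nat_lit 5) (nat_lit 10) (nat_lit 4) (nat_lit 442) (nat_lit 385) (nat_lit 193)) (XT.lf (nat_lit 0) (nat_lit 2085722926175) (nat_lit 76) (nat_lit 466584298346) (nat_lit 76) (nat_lit 69917053006) (nat_lit 9) (nat_lit 4) (nat_lit 10) (nat_lit 5) (nat_lit 10) (nat_lit 4) (nat_lit 443) (nat_lit 385) (nat_lit 192)))))) (XT.nd (nat_lit 390) (nat_lit 152) (nat_lit 0) (XT.nd (nat_lit 156) (nat_lit 76) (nat_lit 0) (XT.nd (nat_lit 78) (nat_lit 0) (nat_lit 0) (XT.lf (nat_lit 0) (nat_lit 233559999157) (nat_lit 76) (nat_lit 69433873392) (nat_lit 152) (nat_lit 2496791236958) (nat_lit 7) (nat_lit 5) (nat_lit 8) (nat_lit 5) (nat_lit 9) (nat_lit 4) (nat_lit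 444) (nat_lit 385) (nat_lit 191)) (XT.lf (nat_lit 0) (nat_lit 725655930721) (nat_lit 152) (nat_lit 1905482521766) (nat_lit 0) (nat_lit 358371425737) (nat_lit 7) (nat_lit 5) (nat_lit 9) (nat_lit 4) (nat_lit 7) (nat_lit 4) (nat_lit 445) (nat_lit 385) (nat_lit 190))) (XT.nd (nat_lit 78) (nat_lit 76) (nat_lit 0) (XT.lf (nat_lit 0) (nat_lit 1183934410678) (nat_lit 152) (nat_lit 1193684043757) (nat_lit 0) (nat_lit 816649897433) (nat_lit 7) (nat_lit 5) (nat_lit 9) (nat_lit 4) (nat_lit 7) (nat_lit 4) (nat_lit 446) (nat_lit 385) (nat_lit 189)) (XT.nd (nat_lit 78) (nat_lit 76) (nat_lit 0) (XT.lf (nat_lit 0) (nat_lit 1678875150422) (nat_lit 152) (nat_lit 424941724944) (nat_lit 0) (nat_lit 1311590629528) (nat_lit 7) (nat_lit 5) (nat_lit 9) (nat_lit 4) (nat_lit 7) (nat_lit 4) (nat_lit 447) (nat_lit 385) (nat_lit 188)) (XT.lf (nat_lit 0) (nat_lit 426642321543) (nat_lit 76) (nat_lit 1797029568664) (nat_lit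 76) (nat_lit 1429745040688) (nat_lit 6) (nat_lit 4) (nat_lit 7) (nat_lit 5) (nat_lit 7) (nat_lit 4) (nat_lit 448) (nat_lit 385) (nat_lit 187))))) (XT.nd (nat_lit 234) (nat_lit 152) (nat_lit 0) (XT.nd (nat_lit 78) (nat_lit 0) (nat_lit 0) (XT.lf (nat_lit 0) (nat_lit 1370519870392) (nat_lit 76) (nat_lit 1453151141838) (nat_lit 76) (nat_lit 1085866607303) (nat_lit 6) (nat_lit 4) (nat_lit 7) (nat_lit 5) (nat_lit 7) (nat_lit 4) (nat_lit 449) (nat_lit 385) (nat_lit 186)) (XT.nd (nat_lit 78) (nat_lit 0) (nat_lit 0) (XT.lf (nat_lit 0) (nat_lit 2389907591864) (nat_lit 76) (nat_lit 1081762456623) (nat_lit 76) (nat_lit 714477916017) (nat_lit 6) (nat_lit 4) (nat_lit 7) (nat_lit 5) (nat_lit 7) (nat_lit 4) (nat_lit 450) (nat_lit 385) (nat_lit 185)) (XT.lf (nat_lit 0) (nat_lit 3490846302088) (nat_lit 76) (nat_lit 680662691183) (nat_lit 76) (nat_lit 313378144954) (nat_lit 6) (nat_lit 4) (nat_lit 7) (nat_lit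 5) (nat_lit 7) (nat_lit 4) (nat_lit 451) (nat_lit 385) (nat_lit 184)))) (XT.nd (nat_lit 78) (nat_lit 76) (nat_lit 0) (XT.lf (nat_lit 0) (nat_lit 113816232322) (nat_lit 152) (nat_lit 130546788204) (nat_lit 76) (nat_lit 4562931912495) (nat_lit 5) (nat_lit 5) (nat_lit 7) (nat_lit 5) (nat_lit 6) (nat_lit 4) (nat_lit 452) (nat_lit 385) (nat_lit 183)) (XT.nd (nat_lit 78) (nat_lit 0) (nat_lit 0) (XT.lf (nat_lit 0) (nat_lit 584542973610) (nat_lit 152) (nat_lit 4323733531777) (nat_lit 0) (nat_lit 244464680781) (nat_lit 4) (nat_lit 5) (nat_lit 6) (nat_lit 4) (nat_lit 4) (nat_lit 4) (nat_lit 453) (nat_lit 385) (nat_lit 182)) (XT.lf (nat_lit 0) (nat_lit 1102937024755) (nat_lit 152) (nat_lit 3659226653373) (nat_lit 0) (nat_lit 762858727794) (nat_lit 4) (nat_lit 5) (nat_lit 6) (nat_lit 4) (nat_lit 4) (nat_lit 4) (nat_lit 454) (nat_lit 385) (nat_lit 181))))))))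
noncomputable def xc204 : XT := (XT.nd (nat_lit 49062) (nat_lit 0) (nat_lit 1292) (XT.nd (nat_lit 48282) (nat_lit 0) (nat_lit 2964) (XT.nd (nat_lit 47892) (nat_lit 0) (nat_lit 4180) (XT.nd (nat_lit 156) (nat_lit 0) (nat_lit 0) (XT.nd (nat_lit 78) (nat_lit 0) (nat_lit 0) (XT.lf (nat_lit 0) (nat_lit 1662802588318) (nat_lit 152) (nat_lit 2941559248344) (nat_lit 0) (nat_lit 1322724287530) (nat_lit 4) (nat_lit 5) (nat_lit 6) (nat_lit 4) (nat_lit 4) (nat_lit 4) (nat_lit 455) (nat_lit 385) (nat_lit 180)) (XT.lf (nat_lit 0) (nat_lit 2267457386155) (nat_lit 152) (nat_lit 2166478472808) (nat_lit 0) (nat_lit 1927379081824) (nat_lit 4) (nat_lit 5) (nat_lit 6) (nat_lit 4) (nat_lit 4) (nat_lit 4) (nat_lit 456) (nat_lit 385) (nat_lit 179))) (XT.nd (nat_lit 47580) (nat_lit 0) (nat_lit 4560) (XT.lf (nat_lit 0) (nat_lit 2920484557811) (nat_lit 152) (nat_lit 1329391255504) (nat_lit 0) (nat_lit 2580406250199)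 (nat_lit 4) (nat_lit 5) (nat_lit 6) (nat_lit 4) (nat_lit 4) (nat_lit 4) (nat_lit 457) (nat_lit 385) (nat_lit 178)) (XT.nd (nat_lit 78) (nat_lit 0) (nat_lit 0) (XT.lf (nat_lit 0) (nat_lit 61808521573) (nat_lit 532) (nat_lit 4147856273) (nat_lit 532) (nat_lit 4147856273) (nat_lit 64) (nat_lit 3) (nat_lit 71) (nat_lit 3) (nat_lit 71) (nat_lit 5) (nat_lit 386) (nat_lit 386) (nat_lit 248)) (XT.lf (nat_lit 76) (nat_lit 63001654413) (nat_lit 0) (nat_lit 67078376190) (nat_lit 532) (nat_lit 15615308959) (nat_lit 65) (nat_lit 5) (nat_lit 64) (nat_lit 3) (nat_lit 71) (nat_lit 5) (nat_lit 387) (nat_lit 386) (nat_lit 247))))) (XT.nd (nat_lit 156) (nat_lit 456) (nat_lit 0) (XT.nd (nat_lit 78) (nat_lit 0) (nat_lit 0) (XT.lf (nat_lit 0) (nat_lit 137363228729) (nat_lit 456) (nat_lit 11205290666) (nat_lit 532) (nat_lit 3028387760) (nat_lit 65) (nat_lit 5) (nat_lit 71) (nat_lit 5) (nat_lit 72) (nat_lit 5)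 (nat_lit 388) (nat_lit 386) (nat_lit 246)) (XT.lf (nat_lit 76) (nat_lit 67643490336) (nat_lit 0) (nat_lit 80954426049) (nat_lit 532) (nat_lit 9103177347) (nat_lit 66) (nat_lit 5) (nat_lit 65) (nat_lit 5) (nat_lit 72) (nat_lit 5) (nat_lit 389) (nat_lit 386) (nat_lit 245))) (XT.nd (nat_lit 78) (nat_lit 456) (nat_lit 0) (XT.lf (nat_lit 76) (nat_lit 153437242561) (nat_lit 0) (nat_lit 7600236585) (nat_lit 532) (nat_lit 3231648336) (nat_lit 66) (nat_lit 5) (nat_lit 65) (nat_lit 5) (nat_lit 72) (nat_lit 5) (nat_lit 390) (nat_lit 386) (nat_lit 244)) (XT.nd (nat_lit 78) (nat_lit 0) (nat_lit 0) (XT.lf (nat_lit 0) (nat_lit 6617391797) (nat_lit 532) (nat_lit 94390772360) (nat_lit 608) (nat_lit 70055389610) (nat_lit 59) (nat_lit 5) (nat_lit 66) (nat_lit 5) (nat_lit 67) (nat_lit 5) (nat_lit 391) (nat_lit 386) (nat_lit 243)) (XT.lf (nat_lit 0) (nat_lit 17580783731) (nat_lit 532) (nat_lit 6873244059)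 (nat_lit 608) (nat_lit 153900709728) (nat_lit 59) (nat_lit 5) (nat_lit 66) (nat_lit 5) (nat_lit 67) (nat_lit 5) (nat_lit 392) (nat_lit 386) (nat_lit 242)))))) (XT.nd (nat_lit 390) (nat_lit 684) (nat_lit 0) (XT.nd (nat_lit 156) (nat_lit 228) (nat_lit 0) (XT.nd (nat_lit 78) (nat_lit 380) (nat_lit 0) (XT.lf (nat_lit 0) (nat_lit 33097828844) (nat_lit 532) (nat_lit 95248901904) (nat_lit 76) (nat_lit 57588358862) (nat_lit 60) (nat_lit 5) (nat_lit 67) (nat_lit 5) (nat_lit 61) (nat_lit 5) (nat_lit 393) (nat_lit 386) (nat_lit 241)) (XT.lf (nat_lit 0) (nat_lit 1783386418) (nat_lit 380) (nat_lit 48943507329) (nat_lit 456) (nat_lit 143325323800) (nat_lit 55) (nat_lit 5) (nat_lit 60) (nat_lit 5) (nat_lit 61) (nat_lit 5) (nat_lit 394) (nat_lit 386) (nat_lit 240))) (XT.nd (nat_lit 78) (nat_lit 228) (nat_lit 0) (XT.lf (nat_lit 0) (nat_lit 73323329305) (nat_lit 456) (nat_lit 91568410943) (nat_lit 76) (nat_lit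 37642411993) (nat_lit 55) (nat_lit 5) (nat_lit 61) (nat_lit 5) (nat_lit 56) (nat_lit 5) (nat_lit 395) (nat_lit 386) (nat_lit 239)) (XT.nd (nat_lit 78) (nat_lit 0) (nat_lit 0) (XT.lf (nat_lit 0) (nat_lit 16754725832) (nat_lit 228) (nat_lit 82646779583) (nat_lit 304) (nat_lit 112159214386) (nat_lit 52) (nat_lit 5) (nat_lit 55) (nat_lit 5) (nat_lit 56) (nat_lit 5) (nat_lit 396) (nat_lit 386) (nat_lit 238)) (XT.lf (nat_lit 0) (nat_lit 130283006652) (nat_lit 304) (nat_lit 82371641806) (nat_lit 76) (nat_lit 8437398761) (nat_lit 52) (nat_lit 5) (nat_lit 56) (nat_lit 5) (nat_lit 53) (nat_lit 5) (nat_lit 397) (nat_lit 386) (nat_lit 237))))) (XT.nd (nat_lit 156) (nat_lit 456) (nat_lit 0) (XT.nd (nat_lit 78) (nat_lit 0) (nat_lit 0) (XT.lf (nat_lit 0) (nat_lit 38854245580) (nat_lit 228) (nat_lit 127861733680) (nat_lit 304) (nat_lit 64423425596) (nat_lit 49) (nat_lit 5) (nat_lit 52) (nat_lit 5) (nat_lit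 53) (nat_lit 5) (nat_lit 398) (nat_lit 386) (nat_lit 236)) (XT.lf (nat_lit 0) (nat_lit 174462566952) (nat_lit 228) (nat_lit 33853053201) (nat_lit 304) (nat_lit 33494768628) (nat_lit 49) (nat_lit 5) (nat_lit 52) (nat_lit 5) (nat_lit 53) (nat_lit 5) (nat_lit 399) (nat_lit 386) (nat_lit 235))) (XT.nd (nat_lit 78) (nat_lit 228) (nat_lit 0) (XT.lf (nat_lit 0) (nat_lit 3295678968) (nat_lit 228) (nat_lit 183724839528) (nat_lit 76) (nat_lit 66044077293) (nat_lit 46) (nat_lit 5) (nat_lit 49) (nat_lit 5) (nat_lit 47) (nat_lit 5) (nat_lit 400) (nat_lit 386) (nat_lit 234)) (XT.nd (nat_lit 78) (nat_lit 228) (nat_lit 0) (XT.lf (nat_lit 0) (nat_lit 43988170074) (nat_lit 228) (nat_lit 46076664167) (nat_lit 76) (nat_lit 174863234075) (nat_lit 46) (nat_lit 5) (nat_lit 49) (nat_lit 5) (nat_lit 47) (nat_lit 5) (nat_lit 401) (nat_lit 386) (nat_lit 233)) (XT.lf (nat_lit 0) (nat_lit 90952694143) (nat_lit 304)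 (nat_lit 169967545992) (nat_lit 76) (nat_lit 16579047902) (nat_lit 43) (nat_lit 5) (nat_lit 47) (nat_lit 5) (nat_lit 44) (nat_lit 5) (nat_lit 402) (nat_lit 386) (nat_lit 232))))))) (XT.nd (nat_lit 780) (nat_lit 684) (nat_lit 0) (XT.nd (nat_lit 390) (nat_lit 456) (nat_lit 0) (XT.nd (nat_lit 156) (nat_lit 380) (nat_lit 0) (XT.nd (nat_lit 78) (nat_lit 152) (nat_lit 0) (XT.lf (nat_lit 0) (nat_lit 145306139495) (nat_lit 304) (nat_lit 17298423961) (nat_lit 76) (nat_lit 128181101211) (nat_lit 43) (nat_lit 5) (nat_lit 47) (nat_lit 5) (nat_lit 44) (nat_lit 5) (nat_lit 403) (nat_lit 386) (nat_lit 231)) (XT.lf (nat_lit 0) (nat_lit 155355579568) (nat_lit 152) (nat_lit 52388468576) (nat_lit 228) (nat_lit 97092008342) (nat_lit 41) (nat_lit 5) (nat_lit 43) (nat_lit 5) (nat_lit 44) (nat_lit 5) (nat_lit 404) (nat_lit 386) (nat_lit 230))) (XT.nd (nat_lit 78) (nat_lit 228) (nat_lit 0) (XT.lf (nat_lit 0)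 (nat_lit 22335064272) (nat_lit 152) (nat_lit 255467036333) (nat_lit 228) (nat_lit 41998370225) (nat_lit 39) (nat_lit 5) (nat_lit 41) (nat_lit 5) (nat_lit 42) (nat_lit 5) (nat_lit 405) (nat_lit 386) (nat_lit 229)) (XT.nd (nat_lit 78) (nat_lit 152) (nat_lit 0) (XT.lf (nat_lit 0) (nat_lit 22181045700) (nat_lit 228) (nat_lit 121126145272) (nat_lit 76) (nat_lit 192176864415) (nat_lit 38) (nat_lit 5) (nat_lit 41) (nat_lit 5) (nat_lit 39) (nat_lit 5) (nat_lit 406) (nat_lit 386) (nat_lit 228)) (XT.lf (nat_lit 0) (nat_lit 71822064089) (nat_lit 152) (nat_lit 19130966274) (nat_lit 228) (nat_lit 261243849592) (nat_lit 36) (nat_lit 5) (nat_lit 38) (nat_lit 5) (nat_lit 39) (nat_lit 5) (nat_lit 407) (nat_lit 386) (nat_lit 227))))) (XT.nd (nat_lit 156) (nat_lit 304) (nat_lit 0) (XT.nd (nat_lit 78) (nat_lit 152) (nat_lit 0) (XT.lf (nat_lit 0) (nat_lit 171389753146) (nat_lit 228) (nat_lit 85738541378) (nat_lit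 76) (nat_lit 112625397668) (nat_lit 36) (nat_lit 5) (nat_lit 39) (nat_lit 5) (nat_lit 37) (nat_lit 5) (nat_lit 408) (nat_lit 386) (nat_lit 226)) (XT.lf (nat_lit 0) (nat_lit 130499702912) (nat_lit 152) (nat_lit 131397046274) (nat_lit 228) (nat_lit 126527473433) (nat_lit 34) (nat_lit 5) (nat_lit 36) (nat_lit 5) (nat_lit 37) (nat_lit 5) (nat_lit 409) (nat_lit 386) (nat_lit 225))) (XT.nd (nat_lit 78) (nat_lit 304) (nat_lit 0) (XT.lf (nat_lit 0) (nat_lit 362154991029) (nat_lit 228) (nat_lit 39654506301) (nat_lit 76) (nat_lit 6578043304) (nat_lit 34) (nat_lit 5) (nat_lit 37) (nat_lit 5) (nat_lit 35) (nat_lit 4) (nat_lit 410) (nat_lit 386) (nat_lit 224)) (XT.nd (nat_lit 78) (nat_lit 152) (nat_lit 0) (XT.lf (nat_lit 0) (nat_lit 46966427589) (nat_lit 152) (nat_lit 227664308825) (nat_lit 76) (nat_lit 154558834108) (nat_lit 32) (nat_lit 5) (nat_lit 34) (nat_lit 5) (nat_lit 33) (nat_lit 5) (nat_lit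 411) (nat_lit 386) (nat_lit 223)) (XT.lf (nat_lit 0) (nat_lit 12059701504) (nat_lit 152) (nat_lit 134466201270) (nat_lit 228) (nat_lit 304921605358) (nat_lit 30) (nat_lit 5) (nat_lit 32) (nat_lit 5) (nat_lit 33) (nat_lit 5) (nat_lit 412) (nat_lit 386) (nat_lit 222)))))) (XT.nd (nat_lit 390) (nat_lit 380) (nat_lit 0) (XT.nd (nat_lit 156) (nat_lit 228) (nat_lit 0) (XT.nd (nat_lit 78) (nat_lit 76) (nat_lit 0) (XT.lf (nat_lit 0) (nat_lit 260843202934) (nat_lit 228) (nat_lit 191647542411) (nat_lit 76) (nat_lit 22451890081) (nat_lit 30) (nat_lit 5) (nat_lit 33) (nat_lit 5) (nat_lit 31) (nat_lit 4) (nat_lit 413) (nat_lit 386) (nat_lit 221)) (XT.lf (nat_lit 0) (nat_lit 76232649336) (nat_lit 76) (nat_lit 313399187214) (nat_lit 152) (nat_lit 110259460428) (nat_lit 29) (nat_lit 5) (nat_lit 30) (nat_lit 5) (nat_lit 31) (nat_lit 4) (nat_lit 414) (nat_lit 386) (nat_lit 220))) (XT.nd (nat_lit 78) (nat_lit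 152) (nat_lit 0) (XT.lf (nat_lit 0) (nat_lit 7169289863) (nat_lit 152) (nat_lit 150155865286) (nat_lit 76) (nat_lit 369076983466) (nat_lit 28) (nat_lit 5) (nat_lit 30) (nat_lit 5) (nat_lit 29) (nat_lit 5) (nat_lit 415) (nat_lit 386) (nat_lit 219)) (XT.nd (nat_lit 78) (nat_lit 0) (nat_lit 0) (XT.lf (nat_lit 0) (nat_lit 132077721745) (nat_lit 228) (nat_lit 405094882307) (nat_lit 76) (nat_lit 17308752483) (nat_lit 26) (nat_lit 5) (nat_lit 29) (nat_lit 5) (nat_lit 27) (nat_lit 4) (nat_lit 416) (nat_lit 386) (nat_lit 218)) (XT.lf (nat_lit 0) (nat_lit 275277291502) (nat_lit 228) (nat_lit 107239899355) (nat_lit 76) (nat_lit 201625843987) (nat_lit 26) (nat_lit 5) (nat_lit 29) (nat_lit 5) (nat_lit 27) (nat_lit 4) (nat_lit 417) (nat_lit 386) (nat_lit 217))))) (XT.nd (nat_lit 234) (nat_lit 152) (nat_lit 0) (XT.nd (nat_lit 78) (nat_lit 152) (nat_lit 0) (XT.lf (nat_lit 0) (nat_lit 225735576157) (nat_lit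 76) (nat_lit 209626132945) (nat_lit 152) (nat_lit 180381627755) (nat_lit 25) (nat_lit 5) (nat_lit 26) (nat_lit 5) (nat_lit 27) (nat_lit 4) (nat_lit 418) (nat_lit 386) (nat_lit 216)) (XT.nd (nat_lit 78) (nat_lit 152) (nat_lit 0) (XT.lf (nat_lit 0) (nat_lit 591447806865) (nat_lit 76) (nat_lit 19737140423) (nat_lit 152) (nat_lit 38452150388) (nat_lit 25) (nat_lit 5) (nat_lit 26) (nat_lit 5) (nat_lit 27) (nat_lit 4) (nat_lit 419) (nat_lit 386) (nat_lit 215)) (XT.lf (nat_lit 0) (nat_lit 121341523926) (nat_lit 152) (nat_lit 377069797321) (nat_lit 76) (nat_lit 186629766967) (nat_lit 23) (nat_lit 5) (nat_lit 25) (nat_lit 5) (nat_lit 24) (nat_lit 4) (nat_lit 420) (nat_lit 386) (nat_lit 214)))) (XT.nd (nat_lit 78) (nat_lit 152) (nat_lit 0) (XT.lf (nat_lit 0) (nat_lit 293986195371) (nat_lit 152) (nat_lit 17968963843) (nat_lit 76) (nat_lit 411070744778) (nat_lit 23) (nat_lit 5) (nat_lit 25) (nat_lit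 5) (nat_lit 24) (nat_lit 4) (nat_lit 421) (nat_lit 386) (nat_lit 213)) (XT.nd (nat_lit 78) (nat_lit 76) (nat_lit 0) (XT.lf (nat_lit 0) (nat_lit 389336001214) (nat_lit 76) (nat_lit 100469925901) (nat_lit 152) (nat_lit 273494499006) (nat_lit 22) (nat_lit 5) (nat_lit 23) (nat_lit 5) (nat_lit 24) (nat_lit 4) (nat_lit 422) (nat_lit 386) (nat_lit 212)) (XT.lf (nat_lit 0) (nat_lit 21474216667) (nat_lit 76) (nat_lit 683914306393) (nat_lit 76) (nat_lit 101080604118) (nat_lit 21) (nat_lit 4) (nat_lit 22) (nat_lit 5) (nat_lit 22) (nat_lit 4) (nat_lit 423) (nat_lit 386) (nat_lit 211))))))))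
noncomputable def xc205 : XT := (XT.nd (nat_lit 1560) (nat_lit 380) (nat_lit 0) (XT.nd (nat_lit 780) (nat_lit 380) (nat_lit 0) (XT.nd (nat_lit 390) (nat_lit 228) (nat_lit 0) (XT.nd (nat_lit 156) (nat_lit 152) (nat_lit 0) (XT.nd (nat_lit 78) (nat_lit 76) (nat_lit 0) (XT.lf (nat_lit 0) (nat_lit 93968021271) (nat_lit 152) (nat_lit 387380279131) (nat_lit 76) (nat_lit 370531241663) (nat_lit 20) (nat_lit 5) (nat_lit 22) (nat_lit 5) (nat_lit 21) (nat_lit 4) (nat_lit 424) (nat_lit 386) (nat_lit 210)) (XT.lf (nat_lit 0) (nat_lit 41493640256) (nat_lit 76) (nat_lit 258663792536) (nat_lit 152) (nat_lit 600475489805) (nat_lit 19) (nat_lit 5) (nat_lit 20) (nat_lit 5) (nat_lit 21) (nat_lit 4) (nat_lit 425) (nat_lit 386) (nat_lit 209))) (XT.nd (nat_lit 78) (nat_lit 152) (nat_lit 0) (XT.lf (nat_lit 0) (nat_lit 526708043048) (nat_lit 76) (nat_lit 6725570117) (nat_lit 152) (nat_lit 419005631141) (nat_lit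 19) (nat_lit 5) (nat_lit 20) (nat_lit 5) (nat_lit 21) (nat_lit 4) (nat_lit 426) (nat_lit 386) (nat_lit 208)) (XT.nd (nat_lit 78) (nat_lit 76) (nat_lit 0) (XT.lf (nat_lit 0) (nat_lit 37861317136) (nat_lit 76) (nat_lit 754803191399) (nat_lit 76) (nat_lit 215142153582) (nat_lit 18) (nat_lit 4) (nat_lit 19) (nat_lit 5) (nat_lit 19) (nat_lit 4) (nat_lit 427) (nat_lit 386) (nat_lit 207)) (XT.lf (nat_lit 0) (nat_lit 16895996105) (nat_lit 152) (nat_lit 504517407501) (nat_lit 76) (nat_lit 545211012447) (nat_lit 17) (nat_lit 5) (nat_lit 19) (nat_lit 5) (nat_lit 18) (nat_lit 4) (nat_lit 428) (nat_lit 386) (nat_lit 206))))) (XT.nd (nat_lit 156) (nat_lit 152) (nat_lit 0) (XT.nd (nat_lit 78) (nat_lit 76) (nat_lit 0) (XT.lf (nat_lit 0) (nat_lit 255873892016) (nat_lit 152) (nat_lit 7443422512) (nat_lit 76) (nat_lit 866383230462) (nat_lit 17) (nat_lit 5) (nat_lit 19) (nat_lit 5) (nat_lit 18) (nat_lit 4)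 (nat_lit 429) (nat_lit 386) (nat_lit 205)) (XT.lf (nat_lit 0) (nat_lit 528091543273) (nat_lit 152) (nat_lit 640196209101) (nat_lit 0) (nat_lit 28405289978) (nat_lit 16) (nat_lit 5) (nat_lit 18) (nat_lit 4) (nat_lit 16) (nat_lit 4) (nat_lit 430) (nat_lit 386) (nat_lit 204))) (XT.nd (nat_lit 78) (nat_lit 152) (nat_lit 0) (XT.lf (nat_lit 0) (nat_lit 829134781886) (nat_lit 152) (nat_lit 109897805580) (nat_lit 0) (nat_lit 329448498025) (nat_lit 16) (nat_lit 5) (nat_lit 18) (nat_lit 4) (nat_lit 16) (nat_lit 4) (nat_lit 431) (nat_lit 386) (nat_lit 203)) (XT.nd (nat_lit 78) (nat_lit 76) (nat_lit 0) (XT.lf (nat_lit 0) (nat_lit 487195914513) (nat_lit 76) (nat_lit 678782603337) (nat_lit 76) (nat_lit 179096291174) (nat_lit 15) (nat_lit 4) (nat_lit 16) (nat_lit 5) (nat_lit 16) (nat_lit 4) (nat_lit 432) (nat_lit 386) (nat_lit 202)) (XT.lf (nat_lit 0) (nat_lit 99955396111) (nat_lit 152) (nat_lit 291779114455)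 (nat_lit 76) (nat_lit 1035618697244) (nat_lit 14) (nat_lit 5) (nat_lit 16) (nat_lit 5) (nat_lit 15) (nat_lit 4) (nat_lit 433) (nat_lit 386) (nat_lit 201)))))) (XT.nd (nat_lit 390) (nat_lit 152) (nat_lit 0) (XT.nd (nat_lit 156) (nat_lit 152) (nat_lit 0) (XT.nd (nat_lit 78) (nat_lit 0) (nat_lit 0) (XT.lf (nat_lit 0) (nat_lit 331541796137) (nat_lit 76) (nat_lit 68087126348) (nat_lit 152) (nat_lit 1115574923429) (nat_lit 13) (nat_lit 5) (nat_lit 14) (nat_lit 5) (nat_lit 15) (nat_lit 4) (nat_lit 434) (nat_lit 386) (nat_lit 200)) (XT.lf (nat_lit 0) (nat_lit 738230199765) (nat_lit 152) (nat_lit 595098404830) (nat_lit 0) (nat_lit 275557620969) (nat_lit 13) (nat_lit 5) (nat_lit 15) (nat_lit 4) (nat_lit 13) (nat_lit 4) (nat_lit 435) (nat_lit 386) (nat_lit 199))) (XT.nd (nat_lit 78) (nat_lit 76) (nat_lit 0) (XT.lf (nat_lit 0) (nat_lit 40823955503) (nat_lit 76) (nat_lit 1065845907714) (nat_lit 76)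 (nat_lit 603173309656) (nat_lit 12) (nat_lit 4) (nat_lit 13) (nat_lit 5) (nat_lit 13) (nat_lit 4) (nat_lit 436) (nat_lit 386) (nat_lit 198)) (XT.nd (nat_lit 78) (nat_lit 76) (nat_lit 0) (XT.lf (nat_lit 0) (nat_lit 761463820729) (nat_lit 76) (nat_lit 759391894929) (nat_lit 76) (nat_lit 296719279036) (nat_lit 12) (nat_lit 4) (nat_lit 13) (nat_lit 5) (nat_lit 13) (nat_lit 4) (nat_lit 437) (nat_lit 386) (nat_lit 197)) (XT.lf (nat_lit 0) (nat_lit 32537668964) (nat_lit 152) (nat_lit 394994280959) (nat_lit 76) (nat_lit 1506327515420) (nat_lit 11) (nat_lit 5) (nat_lit 13) (nat_lit 5) (nat_lit 12) (nat_lit 4) (nat_lit 438) (nat_lit 386) (nat_lit 196))))) (XT.nd (nat_lit 156) (nat_lit 76) (nat_lit 0) (XT.nd (nat_lit 78) (nat_lit 0) (nat_lit 0) (XT.lf (nat_lit 0) (nat_lit 327697683895) (nat_lit 76) (nat_lit 52288052447) (nat_lit 152) (nat_lit 1678213908837) (nat_lit 10) (nat_lit 5) (nat_lit 11) (nat_lit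 5) (nat_lit 12) (nat_lit 4) (nat_lit 439) (nat_lit 386) (nat_lit 195)) (XT.lf (nat_lit 0) (nat_lit 774799048520) (nat_lit 152) (nat_lit 1069724003241) (nat_lit 0) (nat_lit 346398435690) (nat_lit 10) (nat_lit 5) (nat_lit 12) (nat_lit 4) (nat_lit 10) (nat_lit 4) (nat_lit 440) (nat_lit 386) (nat_lit 194))) (XT.nd (nat_lit 78) (nat_lit 76) (nat_lit 0) (XT.lf (nat_lit 0) (nat_lit 1202555533327) (nat_lit 152) (nat_lit 357441986808) (nat_lit 0) (nat_lit 774154908359) (nat_lit 10) (nat_lit 5) (nat_lit 12) (nat_lit 4) (nat_lit 10) (nat_lit 4) (nat_lit 441) (nat_lit 386) (nat_lit 193)) (XT.nd (nat_lit 78) (nat_lit 0) (nat_lit 0) (XT.lf (nat_lit 0) (nat_lit 433508392935) (nat_lit 76) (nat_lit 1241450009429) (nat_lit 76) (nat_lit 813049373223) (nat_lit 9) (nat_lit 4) (nat_lit 10) (nat_lit 5) (nat_lit 10) (nat_lit 4) (nat_lit 442) (nat_lit 386) (nat_lit 192)) (XT.lf (nat_lit 0) (nat_lit 1308062803132)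 (nat_lit 76) (nat_lit 886863773920) (nat_lit 76) (nat_lit 458463127307) (nat_lit 9) (nat_lit 4) (nat_lit 10) (nat_lit 5) (nat_lit 10) (nat_lit 4) (nat_lit 443) (nat_lit 386) (nat_lit 191))))))) (XT.nd (nat_lit 780) (nat_lit 76) (nat_lit 0) (XT.nd (nat_lit 390) (nat_lit 152) (nat_lit 0) (XT.nd (nat_lit 156) (nat_lit 0) (nat_lit 0) (XT.nd (nat_lit 78) (nat_lit 152) (nat_lit 0) (XT.lf (nat_lit 0) (nat_lit 2252581526853) (nat_lit 76) (nat_lit 503910659202) (nat_lit 76) (nat_lit 75510002953) (nat_lit 9) (nat_lit 4) (nat_lit 10) (nat_lit 5) (nat_lit 10) (nat_lit 4) (nat_lit 444) (nat_lit 386) (nat_lit 190)) (XT.lf (nat_lit 0) (nat_lit 252245566499) (nat_lit 76) (nat_lit 74988198726) (nat_lit 152) (nat_lit 2696534122383) (nat_lit 7) (nat_lit 5) (nat_lit 8) (nat_lit 5) (nat_lit 9) (nat_lit 4) (nat_lit 445) (nat_lit 386) (nat_lit 189))) (XT.nd (nat_lit 78) (nat_lit 0) (nat_lit 0) (XT.lf (nat_lit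 0) (nat_lit 783708768253) (nat_lit 152) (nat_lit 2057920393117) (nat_lit 0) (nat_lit 387041478038) (nat_lit 7) (nat_lit 5) (nat_lit 9) (nat_lit 4) (nat_lit 7) (nat_lit 4) (nat_lit 446) (nat_lit 386) (nat_lit 188)) (XT.nd (nat_lit 78) (nat_lit 0) (nat_lit 0) (XT.lf (nat_lit 0) (nat_lit 1278649499712) (nat_lit 152) (nat_lit 1289178090970) (nat_lit 0) (nat_lit 881982202415) (nat_lit 7) (nat_lit 5) (nat_lit 9) (nat_lit 4) (nat_lit 7) (nat_lit 4) (nat_lit 447) (nat_lit 386) (nat_lit 187)) (XT.lf (nat_lit 0) (nat_lit 1813185473733) (nat_lit 152) (nat_lit 458936436748) (nat_lit 0) (nat_lit 1416518169878) (nat_lit 7) (nat_lit 5) (nat_lit 9) (nat_lit 4) (nat_lit 7) (nat_lit 4) (nat_lit 448) (nat_lit 386) (nat_lit 186))))) (XT.nd (nat_lit 156) (nat_lit 76) (nat_lit 0) (XT.nd (nat_lit 78) (nat_lit 0) (nat_lit 0) (XT.lf (nat_lit 0) (nat_lit 460774317605) (nat_lit 76) (nat_lit 1940791626717) (nat_lit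 76) (nat_lit 1544124316790) (nat_lit 6) (nat_lit 4) (nat_lit 7) (nat_lit 5) (nat_lit 7) (nat_lit 4) (nat_lit 449) (nat_lit 386) (nat_lit 185)) (XT.lf (nat_lit 0) (nat_lit 1480162025152) (nat_lit 76) (nat_lit 1569402948518) (nat_lit 76) (nat_lit 1172735632968) (nat_lit 6) (nat_lit 4) (nat_lit 7) (nat_lit 5) (nat_lit 7) (nat_lit 4) (nat_lit 450) (nat_lit 386) (nat_lit 184))) (XT.nd (nat_lit 78) (nat_lit 76) (nat_lit 0) (XT.lf (nat_lit 0) (nat_lit 2581100722481) (nat_lit 76) (nat_lit 1168303189573) (nat_lit 76) (nat_lit 771635868817) (nat_lit 6) (nat_lit 4) (nat_lit 7) (nat_lit 5) (nat_lit 7) (nat_lit 4) (nat_lit 451) (nat_lit 386) (nat_lit 183)) (XT.nd (nat_lit 78) (nat_lit 76) (nat_lit 0) (XT.lf (nat_lit 0) (nat_lit 3770114490762) (nat_lit 76) (nat_lit 735115462422) (nat_lit 76) (nat_lit 338448136846) (nat_lit 6) (nat_lit 4) (nat_lit 7) (nat_lit 5) (nat_lit 7) (nat_lit 4) (nat_lit 452)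 (nat_lit 386) (nat_lit 182)) (XT.lf (nat_lit 0) (nat_lit 122921759346) (nat_lit 152) (nat_lit 140990070598) (nat_lit 76) (nat_lit 4927966679428) (nat_lit 5) (nat_lit 5) (nat_lit 7) (nat_lit 5) (nat_lit 6) (nat_lit 4) (nat_lit 453) (nat_lit 386) (nat_lit 181)))))) (XT.nd (nat_lit 47970) (nat_lit 0) (nat_lit 4180) (XT.nd (nat_lit 156) (nat_lit 0) (nat_lit 0) (XT.nd (nat_lit 78) (nat_lit 0) (nat_lit 0) (XT.lf (nat_lit 0) (nat_lit 631306639265) (nat_lit 152) (nat_lit 4669631752972) (nat_lit 0) (nat_lit 264022070588) (nat_lit 4) (nat_lit 5) (nat_lit 6) (nat_lit 4) (nat_lit 4) (nat_lit 4) (nat_lit 454) (nat_lit 386) (nat_lit 180)) (XT.lf (nat_lit 0) (nat_lit 1191172197631) (nat_lit 152) (nat_lit 3951964358470) (nat_lit 0) (nat_lit 823887625410) (nat_lit 4) (nat_lit 5) (nat_lit 6) (nat_lit 4) (nat_lit 4) (nat_lit 4) (nat_lit 455) (nat_lit 386) (nat_lit 179))) (XT.nd (nat_lit 78) (nat_lit 0) (nat_lit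 0) (XT.lf (nat_lit 0) (nat_lit 1795826990657) (nat_lit 152) (nat_lit 3176883592681) (nat_lit 0) (nat_lit 1428542415155) (nat_lit 4) (nat_lit 5) (nat_lit 6) (nat_lit 4) (nat_lit 4) (nat_lit 4) (nat_lit 456) (nat_lit 386) (nat_lit 178)) (XT.nd (nat_lit 47658) (nat_lit 0) (nat_lit 4560) (XT.lf (nat_lit 0) (nat_lit 2448854157857) (nat_lit 152) (nat_lit 2339796384401) (nat_lit 0) (nat_lit 2081569579318) (nat_lit 4) (nat_lit 5) (nat_lit 6) (nat_lit 4) (nat_lit 4) (nat_lit 4) (nat_lit 457) (nat_lit 386) (nat_lit 177)) (XT.lf (nat_lit 0) (nat_lit 66756242825) (nat_lit 532) (nat_lit 4478041993) (nat_lit 532) (nat_lit 4478041993) (nat_lit 64) (nat_lit 3) (nat_lit 71) (nat_lit 3) (nat_lit 71) (nat_lit 5) (nat_lit 387) (nat_lit 387) (nat_lit 246))))) (XT.nd (nat_lit 234) (nat_lit 380) (nat_lit 0) (XT.nd (nat_lit 78) (nat_lit 0) (nat_lit 76) (XT.lf (nat_lit 76) (nat_lit 68044989151) (nat_lit 0) (nat_lit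 72447149670) (nat_lit 532) (nat_lit 16858366121) (nat_lit 65) (nat_lit 5) (nat_lit 64) (nat_lit 3) (nat_lit 71) (nat_lit 5) (nat_lit 388) (nat_lit 387) (nat_lit 245)) (XT.nd (nat_lit 78) (nat_lit 0) (nat_lit 0) (XT.lf (nat_lit 0) (nat_lit 148357514400) (nat_lit 456) (nat_lit 12098265422) (nat_lit 532) (nat_lit 3268456785) (nat_lit 65) (nat_lit 5) (nat_lit 71) (nat_lit 5) (nat_lit 72) (nat_lit 5) (nat_lit 389) (nat_lit 387) (nat_lit 244)) (XT.lf (nat_lit 76) (nat_lit 73058330756) (nat_lit 0) (nat_lit 87432339937) (nat_lit 532) (nat_lit 9826112294) (nat_lit 66) (nat_lit 5) (nat_lit 65) (nat_lit 5) (nat_lit 72) (nat_lit 5) (nat_lit 390) (nat_lit 387) (nat_lit 243)))) (XT.nd (nat_lit 78) (nat_lit 456) (nat_lit 0) (XT.lf (nat_lit 76) (nat_lit 165715334181) (nat_lit 0) (nat_lit 8209699774) (nat_lit 532) (nat_lit 3485254980) (nat_lit 66) (nat_lit 5) (nat_lit 65) (nat_lit 5) (nat_lit 72) (nat_lit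 5) (nat_lit 391) (nat_lit 387) (nat_lit 242)) (XT.nd (nat_lit 78) (nat_lit 0) (nat_lit 0) (XT.lf (nat_lit 0) (nat_lit 7151166959) (nat_lit 532) (nat_lit 101938372991) (nat_lit 608) (nat_lit 75658743790) (nat_lit 59) (nat_lit 5) (nat_lit 66) (nat_lit 5) (nat_lit 67) (nat_lit 5) (nat_lit 392) (nat_lit 387) (nat_lit 241)) (XT.lf (nat_lit 0) (nat_lit 18991305521) (nat_lit 532) (nat_lit 7419713623) (nat_lit 608) (nat_lit 166211769294) (nat_lit 59) (nat_lit 5) (nat_lit 66) (nat_lit 5) (nat_lit 67) (nat_lit 5) (nat_lit 393) (nat_lit 387) (nat_lit 240))))))))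
noncomputable def xc206 : XT := (XT.nd (nat_lit 1560) (nat_lit 1216) (nat_lit 0) (XT.nd (nat_lit 780) (nat_lit 988) (nat_lit 0) (XT.nd (nat_lit 390) (nat_lit 684) (nat_lit 0) (XT.nd (nat_lit 156) (nat_lit 228) (nat_lit 0) (XT.nd (nat_lit 78) (nat_lit 380) (nat_lit 0) (XT.lf (nat_lit 0) (nat_lit 35749480198) (nat_lit 532) (nat_lit 102865186943) (nat_lit 76) (nat_lit 62194920528) (nat_lit 60) (nat_lit 5) (nat_lit 67) (nat_lit 5) (nat_lit 61) (nat_lit 5) (nat_lit 394) (nat_lit 387) (nat_lit 239)) (XT.lf (nat_lit 0) (nat_lit 1929592619) (nat_lit 380) (nat_lit 52859079361) (nat_lit 456) (nat_lit 154787429956) (nat_lit 55) (nat_lit 5) (nat_lit 60) (nat_lit 5) (nat_lit 61) (nat_lit 5) (nat_lit 395) (nat_lit 387) (nat_lit 238))) (XT.nd (nat_lit 78) (nat_lit 228) (nat_lit 0) (XT.lf (nat_lit 0) (nat_lit 79192551699) (nat_lit 456) (nat_lit 98890337057) (nat_lit 76) (nat_lit 40653724517) (nat_lit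 55) (nat_lit 5) (nat_lit 61) (nat_lit 5) (nat_lit 56) (nat_lit 5) (nat_lit 396) (nat_lit 387) (nat_lit 237)) (XT.nd (nat_lit 78) (nat_lit 0) (nat_lit 0) (XT.lf (nat_lit 0) (nat_lit 18098560868) (nat_lit 228) (nat_lit 89258255573) (nat_lit 304) (nat_lit 121128503229) (nat_lit 52) (nat_lit 5) (nat_lit 55) (nat_lit 5) (nat_lit 56) (nat_lit 5) (nat_lit 397) (nat_lit 387) (nat_lit 236)) (XT.lf (nat_lit 0) (nat_lit 140708607369) (nat_lit 304) (nat_lit 88957939561) (nat_lit 76) (nat_lit 9112624968) (nat_lit 52) (nat_lit 5) (nat_lit 56) (nat_lit 5) (nat_lit 53) (nat_lit 5) (nat_lit 398) (nat_lit 387) (nat_lit 235))))) (XT.nd (nat_lit 156) (nat_lit 456) (nat_lit 0) (XT.nd (nat_lit 78) (nat_lit 0) (nat_lit 0) (XT.lf (nat_lit 0) (nat_lit 41965931890) (nat_lit 228) (nat_lit 138090147110) (nat_lit 304) (nat_lit 69574250418) (nat_lit 49) (nat_lit 5) (nat_lit 52) (nat_lit 5) (nat_lit 53) (nat_lit 5)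 (nat_lit 399) (nat_lit 387) (nat_lit 234)) (XT.lf (nat_lit 0) (nat_lit 188422671071) (nat_lit 228) (nat_lit 36560811101) (nat_lit 304) (nat_lit 36171526762) (nat_lit 49) (nat_lit 5) (nat_lit 52) (nat_lit 5) (nat_lit 53) (nat_lit 5) (nat_lit 400) (nat_lit 387) (nat_lit 233))) (XT.nd (nat_lit 78) (nat_lit 228) (nat_lit 0) (XT.lf (nat_lit 0) (nat_lit 3561907161) (nat_lit 228) (nat_lit 198419474955) (nat_lit 76) (nat_lit 71328173749) (nat_lit 46) (nat_lit 5) (nat_lit 49) (nat_lit 5) (nat_lit 47) (nat_lit 5) (nat_lit 401) (nat_lit 387) (nat_lit 232)) (XT.nd (nat_lit 78) (nat_lit 228) (nat_lit 0) (XT.lf (nat_lit 0) (nat_lit 47509606897) (nat_lit 228) (nat_lit 49759693841) (nat_lit 76) (nat_lit 188852820831) (nat_lit 46) (nat_lit 5) (nat_lit 49) (nat_lit 5) (nat_lit 47) (nat_lit 5) (nat_lit 402) (nat_lit 387) (nat_lit 231)) (XT.lf (nat_lit 0) (nat_lit 98231207034) (nat_lit 304) (nat_lit 183561758915)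 (nat_lit 76) (nat_lit 17906079903) (nat_lit 43) (nat_lit 5) (nat_lit 47) (nat_lit 5) (nat_lit 44) (nat_lit 5) (nat_lit 403) (nat_lit 387) (nat_lit 230)))))) (XT.nd (nat_lit 390) (nat_lit 456) (nat_lit 0) (XT.nd (nat_lit 156) (nat_lit 380) (nat_lit 0) (XT.nd (nat_lit 78) (nat_lit 152) (nat_lit 0) (XT.lf (nat_lit 0) (nat_lit 156932757839) (nat_lit 304) (nat_lit 18679343474) (nat_lit 76) (nat_lit 138436245019) (nat_lit 43) (nat_lit 5) (nat_lit 47) (nat_lit 5) (nat_lit 44) (nat_lit 5) (nat_lit 404) (nat_lit 387) (nat_lit 229)) (XT.lf (nat_lit 0) (nat_lit 167786905542) (nat_lit 152) (nat_lit 56578705324) (nat_lit 228) (nat_lit 104857165795) (nat_lit 41) (nat_lit 5) (nat_lit 43) (nat_lit 5) (nat_lit 44) (nat_lit 5) (nat_lit 405) (nat_lit 387) (nat_lit 228))) (XT.nd (nat_lit 78) (nat_lit 228) (nat_lit 0) (XT.lf (nat_lit 0) (nat_lit 24124816596) (nat_lit 152) (nat_lit 275903429503) (nat_lit 228)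 (nat_lit 45356103060) (nat_lit 39) (nat_lit 5) (nat_lit 41) (nat_lit 5) (nat_lit 42) (nat_lit 5) (nat_lit 406) (nat_lit 387) (nat_lit 227)) (XT.nd (nat_lit 78) (nat_lit 152) (nat_lit 0) (XT.lf (nat_lit 0) (nat_lit 23957408886) (nat_lit 228) (nat_lit 130813408069) (nat_lit 76) (nat_lit 207551811521) (nat_lit 38) (nat_lit 5) (nat_lit 41) (nat_lit 5) (nat_lit 39) (nat_lit 5) (nat_lit 407) (nat_lit 387) (nat_lit 226)) (XT.lf (nat_lit 0) (nat_lit 77570586424) (nat_lit 152) (nat_lit 20660492984) (nat_lit 228) (nat_lit 282141405507) (nat_lit 36) (nat_lit 5) (nat_lit 38) (nat_lit 5) (nat_lit 39) (nat_lit 5) (nat_lit 408) (nat_lit 387) (nat_lit 225))))) (XT.nd (nat_lit 156) (nat_lit 304) (nat_lit 0) (XT.nd (nat_lit 78) (nat_lit 152) (nat_lit 0) (XT.lf (nat_lit 0) (nat_lit 185102627359) (nat_lit 228) (nat_lit 92594958223) (nat_lit 76) (nat_lit 121636265629) (nat_lit 36) (nat_lit 5) (nat_lit 39)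 (nat_lit 5) (nat_lit 37) (nat_lit 5) (nat_lit 409) (nat_lit 387) (nat_lit 224)) (XT.lf (nat_lit 0) (nat_lit 140942278106) (nat_lit 152) (nat_lit 141907842003) (nat_lit 228) (nat_lit 136647909063) (nat_lit 34) (nat_lit 5) (nat_lit 36) (nat_lit 5) (nat_lit 37) (nat_lit 5) (nat_lit 410) (nat_lit 387) (nat_lit 223))) (XT.nd (nat_lit 78) (nat_lit 304) (nat_lit 0) (XT.lf (nat_lit 0) (nat_lit 391128922040) (nat_lit 228) (nat_lit 42824360382) (nat_lit 76) (nat_lit 7105138204) (nat_lit 34) (nat_lit 5) (nat_lit 37) (nat_lit 5) (nat_lit 35) (nat_lit 4) (nat_lit 411) (nat_lit 387) (nat_lit 222)) (XT.nd (nat_lit 78) (nat_lit 152) (nat_lit 0) (XT.lf (nat_lit 0) (nat_lit 50725257814) (nat_lit 152) (nat_lit 245874930114) (nat_lit 76) (nat_lit 166924426336) (nat_lit 32) (nat_lit 5) (nat_lit 34) (nat_lit 5) (nat_lit 33) (nat_lit 5) (nat_lit 412) (nat_lit 387) (nat_lit 221)) (XT.lf (nat_lit 0) (nat_lit 13026937158)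 (nat_lit 152) (nat_lit 145222500711) (nat_lit 228) (nat_lit 329313753313) (nat_lit 30) (nat_lit 5) (nat_lit 32) (nat_lit 5) (nat_lit 33) (nat_lit 5) (nat_lit 413) (nat_lit 387) (nat_lit 220))))))) (XT.nd (nat_lit 780) (nat_lit 608) (nat_lit 0) (XT.nd (nat_lit 390) (nat_lit 304) (nat_lit 0) (XT.nd (nat_lit 156) (nat_lit 228) (nat_lit 0) (XT.nd (nat_lit 78) (nat_lit 76) (nat_lit 0) (XT.lf (nat_lit 0) (nat_lit 281712035875) (nat_lit 228) (nat_lit 206976981762) (nat_lit 76) (nat_lit 24248917958) (nat_lit 30) (nat_lit 5) (nat_lit 33) (nat_lit 5) (nat_lit 31) (nat_lit 4) (nat_lit 414) (nat_lit 387) (nat_lit 219)) (XT.lf (nat_lit 0) (nat_lit 82333565475) (nat_lit 76) (nat_lit 338470148143) (nat_lit 152) (nat_lit 119078780217) (nat_lit 29) (nat_lit 5) (nat_lit 30) (nat_lit 5) (nat_lit 31) (nat_lit 4) (nat_lit 415) (nat_lit 387) (nat_lit 218))) (XT.nd (nat_lit 78) (nat_lit 152) (nat_lit 0) (XT.lf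 (nat_lit 0) (nat_lit 7744097088) (nat_lit 152) (nat_lit 162166134015) (nat_lit 76) (nat_lit 398603977059) (nat_lit 28) (nat_lit 5) (nat_lit 30) (nat_lit 5) (nat_lit 29) (nat_lit 5) (nat_lit 416) (nat_lit 387) (nat_lit 217)) (XT.nd (nat_lit 78) (nat_lit 0) (nat_lit 0) (XT.lf (nat_lit 0) (nat_lit 142645183664) (nat_lit 228) (nat_lit 437500252152) (nat_lit 76) (nat_lit 18694329319) (nat_lit 26) (nat_lit 5) (nat_lit 29) (nat_lit 5) (nat_lit 27) (nat_lit 4) (nat_lit 417) (nat_lit 387) (nat_lit 216)) (XT.lf (nat_lit 0) (nat_lit 297300626840) (nat_lit 228) (nat_lit 115817035064) (nat_lit 76) (nat_lit 217756723207) (nat_lit 26) (nat_lit 5) (nat_lit 29) (nat_lit 5) (nat_lit 27) (nat_lit 4) (nat_lit 418) (nat_lit 387) (nat_lit 215))))) (XT.nd (nat_lit 156) (nat_lit 228) (nat_lit 0) (XT.nd (nat_lit 78) (nat_lit 0) (nat_lit 0) (XT.lf (nat_lit 0) (nat_lit 243796426433) (nat_lit 76) (nat_lit 226395334281)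 (nat_lit 152) (nat_lit 194810953569) (nat_lit 25) (nat_lit 5) (nat_lit 26) (nat_lit 5) (nat_lit 27) (nat_lit 4) (nat_lit 419) (nat_lit 387) (nat_lit 214)) (XT.lf (nat_lit 0) (nat_lit 638765487139) (nat_lit 76) (nat_lit 21315288231) (nat_lit 152) (nat_lit 41527207227) (nat_lit 25) (nat_lit 5) (nat_lit 26) (nat_lit 5) (nat_lit 27) (nat_lit 4) (nat_lit 420) (nat_lit 387) (nat_lit 213))) (XT.nd (nat_lit 78) (nat_lit 76) (nat_lit 0) (XT.lf (nat_lit 0) (nat_lit 131049891731) (nat_lit 152) (nat_lit 407233455531) (nat_lit 76) (nat_lit 201560944073) (nat_lit 23) (nat_lit 5) (nat_lit 25) (nat_lit 5) (nat_lit 24) (nat_lit 4) (nat_lit 421) (nat_lit 387) (nat_lit 212)) (XT.nd (nat_lit 78) (nat_lit 76) (nat_lit 0) (XT.lf (nat_lit 0) (nat_lit 317506059419) (nat_lit 152) (nat_lit 19404698010) (nat_lit 76) (nat_lit 443957141165) (nat_lit 23) (nat_lit 5) (nat_lit 25) (nat_lit 5) (nat_lit 24) (nat_lit 4)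 (nat_lit 422) (nat_lit 387) (nat_lit 211)) (XT.lf (nat_lit 0) (nat_lit 420484619114) (nat_lit 76) (nat_lit 108506720648) (nat_lit 152) (nat_lit 295373045143) (nat_lit 22) (nat_lit 5) (nat_lit 23) (nat_lit 5) (nat_lit 24) (nat_lit 4) (nat_lit 423) (nat_lit 387) (nat_lit 210)))))) (XT.nd (nat_lit 390) (nat_lit 304) (nat_lit 0) (XT.nd (nat_lit 156) (nat_lit 152) (nat_lit 0) (XT.nd (nat_lit 78) (nat_lit 76) (nat_lit 0) (XT.lf (nat_lit 0) (nat_lit 23193902470) (nat_lit 76) (nat_lit 738626631246) (nat_lit 76) (nat_lit 109166049122) (nat_lit 21) (nat_lit 4) (nat_lit 22) (nat_lit 5) (nat_lit 22) (nat_lit 4) (nat_lit 424) (nat_lit 387) (nat_lit 209)) (XT.lf (nat_lit 0) (nat_lit 101486345506) (nat_lit 152) (nat_lit 418369035855) (nat_lit 76) (nat_lit 400174453286) (nat_lit 20) (nat_lit 5) (nat_lit 22) (nat_lit 5) (nat_lit 21) (nat_lit 4) (nat_lit 425) (nat_lit 387) (nat_lit 208))) (XT.nd (nat_lit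 78) (nat_lit 76) (nat_lit 0) (XT.lf (nat_lit 0) (nat_lit 44814754915) (nat_lit 76) (nat_lit 279356128704) (nat_lit 152) (nat_lit 648512604122) (nat_lit 19) (nat_lit 5) (nat_lit 20) (nat_lit 5) (nat_lit 21) (nat_lit 4) (nat_lit 426) (nat_lit 387) (nat_lit 207)) (XT.nd (nat_lit 78) (nat_lit 76) (nat_lit 0) (XT.lf (nat_lit 0) (nat_lit 568846189676) (nat_lit 76) (nat_lit 7262905324) (nat_lit 152) (nat_lit 452525225274) (nat_lit 19) (nat_lit 5) (nat_lit 20) (nat_lit 5) (nat_lit 21) (nat_lit 4) (nat_lit 427) (nat_lit 387) (nat_lit 206)) (XT.lf (nat_lit 0) (nat_lit 40891732950) (nat_lit 76) (nat_lit 815186722470) (nat_lit 76) (nat_lit 232352676626) (nat_lit 18) (nat_lit 4) (nat_lit 19) (nat_lit 5) (nat_lit 19) (nat_lit 4) (nat_lit 428) (nat_lit 387) (nat_lit 205))))) (XT.nd (nat_lit 234) (nat_lit 152) (nat_lit 0) (XT.nd (nat_lit 78) (nat_lit 76) (nat_lit 0) (XT.lf (nat_lit 0) (nat_lit 18248422793)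 (nat_lit 152) (nat_lit 544877362083) (nat_lit 76) (nat_lit 588828524578) (nat_lit 17) (nat_lit 5) (nat_lit 19) (nat_lit 5) (nat_lit 18) (nat_lit 4) (nat_lit 429) (nat_lit 387) (nat_lit 204)) (XT.nd (nat_lit 78) (nat_lit 76) (nat_lit 0) (XT.lf (nat_lit 0) (nat_lit 276344495043) (nat_lit 152) (nat_lit 8037564815) (nat_lit 76) (nat_lit 935694473283) (nat_lit 17) (nat_lit 5) (nat_lit 19) (nat_lit 5) (nat_lit 18) (nat_lit 4) (nat_lit 430) (nat_lit 387) (nat_lit 203)) (XT.lf (nat_lit 0) (nat_lit 570339553437) (nat_lit 152) (nat_lit 691410569263) (nat_lit 0) (nat_lit 30678307999) (nat_lit 16) (nat_lit 5) (nat_lit 18) (nat_lit 4) (nat_lit 16) (nat_lit 4) (nat_lit 431) (nat_lit 387) (nat_lit 202)))) (XT.nd (nat_lit 78) (nat_lit 152) (nat_lit 0) (XT.lf (nat_lit 0) (nat_lit 895466200272) (nat_lit 152) (nat_lit 118688392465) (nat_lit 0) (nat_lit 355804928629) (nat_lit 16) (nat_lit 5) (nat_lit 18)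 (nat_lit 4) (nat_lit 16) (nat_lit 4) (nat_lit 432) (nat_lit 387) (nat_lit 201)) (XT.nd (nat_lit 78) (nat_lit 76) (nat_lit 0) (XT.lf (nat_lit 0) (nat_lit 526172793905) (nat_lit 76) (nat_lit 733084623119) (nat_lit 76) (nat_lit 193423327212) (nat_lit 15) (nat_lit 4) (nat_lit 16) (nat_lit 5) (nat_lit 16) (nat_lit 4) (nat_lit 433) (nat_lit 387) (nat_lit 200)) (XT.lf (nat_lit 0) (nat_lit 107952414724) (nat_lit 152) (nat_lit 315120295748) (nat_lit 76) (nat_lit 1118468706933) (nat_lit 14) (nat_lit 5) (nat_lit 16) (nat_lit 5) (nat_lit 15) (nat_lit 4) (nat_lit 434) (nat_lit 387) (nat_lit 199))))))))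
noncomputable def xc207 : XT := (XT.nd (nat_lit 1638) (nat_lit 0) (nat_lit 0) (XT.nd (nat_lit 780) (nat_lit 380) (nat_lit 0) (XT.nd (nat_lit 390) (nat_lit 152) (nat_lit 0) (XT.nd (nat_lit 156) (nat_lit 152) (nat_lit 0) (XT.nd (nat_lit 78) (nat_lit 0) (nat_lit 0) (XT.lf (nat_lit 0) (nat_lit 358066258633) (nat_lit 76) (nat_lit 73533548006) (nat_lit 152) (nat_lit 1204820301248) (nat_lit 13) (nat_lit 5) (nat_lit 14) (nat_lit 5) (nat_lit 15) (nat_lit 4) (nat_lit 435) (nat_lit 387) (nat_lit 198)) (XT.lf (nat_lit 0) (nat_lit 797289156066) (nat_lit 152) (nat_lit 642705211185) (nat_lit 0) (nat_lit 297602713067) (nat_lit 13) (nat_lit 5) (nat_lit 15) (nat_lit 4) (nat_lit 13) (nat_lit 4) (nat_lit 436) (nat_lit 387) (nat_lit 197))) (XT.nd (nat_lit 78) (nat_lit 76) (nat_lit 0) (XT.lf (nat_lit 0) (nat_lit 44090910986) (nat_lit 76) (nat_lit 1151113066573) (nat_lit 76) (nat_lit 651426607059) (nat_lit 12)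 (nat_lit 4) (nat_lit 13) (nat_lit 5) (nat_lit 13) (nat_lit 4) (nat_lit 437) (nat_lit 387) (nat_lit 196)) (XT.nd (nat_lit 78) (nat_lit 76) (nat_lit 0) (XT.lf (nat_lit 0) (nat_lit 822381888465) (nat_lit 76) (nat_lit 820142770822) (nat_lit 76) (nat_lit 320456296017) (nat_lit 12) (nat_lit 4) (nat_lit 13) (nat_lit 5) (nat_lit 13) (nat_lit 4) (nat_lit 438) (nat_lit 387) (nat_lit 195)) (XT.lf (nat_lit 0) (nat_lit 35141144576) (nat_lit 152) (nat_lit 426592908242) (nat_lit 76) (nat_lit 1626834132737) (nat_lit 11) (nat_lit 5) (nat_lit 13) (nat_lit 5) (nat_lit 12) (nat_lit 4) (nat_lit 439) (nat_lit 387) (nat_lit 194))))) (XT.nd (nat_lit 156) (nat_lit 76) (nat_lit 0) (XT.nd (nat_lit 78) (nat_lit 0) (nat_lit 0) (XT.lf (nat_lit 0) (nat_lit 353914390632) (nat_lit 76) (nat_lit 56470653936) (nat_lit 152) (nat_lit 1812470536235) (nat_lit 10) (nat_lit 5) (nat_lit 11) (nat_lit 5) (nat_lit 12) (nat_lit 4)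 (nat_lit 440) (nat_lit 387) (nat_lit 193)) (XT.lf (nat_lit 0) (nat_lit 836783398295) (nat_lit 152) (nat_lit 1155301074085) (nat_lit 0) (nat_lit 374110699953) (nat_lit 10) (nat_lit 5) (nat_lit 12) (nat_lit 4) (nat_lit 10) (nat_lit 4) (nat_lit 441) (nat_lit 387) (nat_lit 192))) (XT.nd (nat_lit 78) (nat_lit 76) (nat_lit 0) (XT.lf (nat_lit 0) (nat_lit 1298760370339) (nat_lit 152) (nat_lit 386036559257) (nat_lit 0) (nat_lit 836087661590) (nat_lit 10) (nat_lit 5) (nat_lit 12) (nat_lit 4) (nat_lit 10) (nat_lit 4) (nat_lit 442) (nat_lit 387) (nat_lit 191)) (XT.nd (nat_lit 78) (nat_lit 0) (nat_lit 0) (XT.lf (nat_lit 0) (nat_lit 468189830953) (nat_lit 76) (nat_lit 1340765627172) (nat_lit 76) (nat_lit 878092908787) (nat_lit 9) (nat_lit 4) (nat_lit 10) (nat_lit 5) (nat_lit 10) (nat_lit 4) (nat_lit 443) (nat_lit 387) (nat_lit 190)) (XT.lf (nat_lit 0) (nat_lit 1412708537182) (nat_lit 76) (nat_lit 957812521193)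 (nat_lit 76) (nat_lit 495139793886) (nat_lit 9) (nat_lit 4) (nat_lit 10) (nat_lit 5) (nat_lit 10) (nat_lit 4) (nat_lit 444) (nat_lit 387) (nat_lit 189)))))) (XT.nd (nat_lit 390) (nat_lit 228) (nat_lit 0) (XT.nd (nat_lit 156) (nat_lit 0) (nat_lit 0) (XT.nd (nat_lit 78) (nat_lit 152) (nat_lit 0) (XT.lf (nat_lit 0) (nat_lit 2432788706223) (nat_lit 76) (nat_lit 544223183567) (nat_lit 76) (nat_lit 81550448000) (nat_lit 9) (nat_lit 4) (nat_lit 10) (nat_lit 5) (nat_lit 10) (nat_lit 4) (nat_lit 445) (nat_lit 387) (nat_lit 188)) (XT.lf (nat_lit 0) (nat_lit 272425869748) (nat_lit 76) (nat_lit 80986924946) (nat_lit 152) (nat_lit 2912256497637) (nat_lit 7) (nat_lit 5) (nat_lit 8) (nat_lit 5) (nat_lit 9) (nat_lit 4) (nat_lit 446) (nat_lit 387) (nat_lit 187))) (XT.nd (nat_lit 78) (nat_lit 0) (nat_lit 0) (XT.lf (nat_lit 0) (nat_lit 846405780990) (nat_lit 152) (nat_lit 2222553398374) (nat_lit 0) (nat_lit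 418005086269) (nat_lit 7) (nat_lit 5) (nat_lit 9) (nat_lit 4) (nat_lit 7) (nat_lit 4) (nat_lit 447) (nat_lit 387) (nat_lit 186)) (XT.nd (nat_lit 78) (nat_lit 0) (nat_lit 0) (XT.lf (nat_lit 0) (nat_lit 1380941747909) (nat_lit 152) (nat_lit 1392311758441) (nat_lit 0) (nat_lit 952541047115) (nat_lit 7) (nat_lit 5) (nat_lit 9) (nat_lit 4) (nat_lit 7) (nat_lit 4) (nat_lit 448) (nat_lit 387) (nat_lit 185)) (XT.lf (nat_lit 0) (nat_lit 1958240578502) (nat_lit 152) (nat_lit 495650814830) (nat_lit 0) (nat_lit 1529839872086) (nat_lit 7) (nat_lit 5) (nat_lit 9) (nat_lit 4) (nat_lit 7) (nat_lit 4) (nat_lit 449) (nat_lit 387) (nat_lit 184))))) (XT.nd (nat_lit 234) (nat_lit 152) (nat_lit 0) (XT.nd (nat_lit 78) (nat_lit 0) (nat_lit 0) (XT.lf (nat_lit 0) (nat_lit 497636786281) (nat_lit 76) (nat_lit 2096054693274) (nat_lit 76) (nat_lit 1667653981652) (nat_lit 6) (nat_lit 4) (nat_lit 7) (nat_lit 5) (nat_lit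 7) (nat_lit 4) (nat_lit 450) (nat_lit 387) (nat_lit 183)) (XT.nd (nat_lit 78) (nat_lit 0) (nat_lit 0) (XT.lf (nat_lit 0) (nat_lit 1598575471670) (nat_lit 76) (nat_lit 1694954940343) (nat_lit 76) (nat_lit 1266554223901) (nat_lit 6) (nat_lit 4) (nat_lit 7) (nat_lit 5) (nat_lit 7) (nat_lit 4) (nat_lit 451) (nat_lit 387) (nat_lit 182)) (XT.lf (nat_lit 0) (nat_lit 2787589228896) (nat_lit 76) (nat_lit 1261767218761) (nat_lit 76) (nat_lit 833366497855) (nat_lit 6) (nat_lit 4) (nat_lit 7) (nat_lit 5) (nat_lit 7) (nat_lit 4) (nat_lit 452) (nat_lit 387) (nat_lit 181)))) (XT.nd (nat_lit 78) (nat_lit 152) (nat_lit 0) (XT.lf (nat_lit 0) (nat_lit 4071724065409) (nat_lit 76) (nat_lit 793924490177) (nat_lit 76) (nat_lit 365523765139) (nat_lit 6) (nat_lit 4) (nat_lit 7) (nat_lit 5) (nat_lit 7) (nat_lit 4) (nat_lit 453) (nat_lit 387) (nat_lit 180)) (XT.nd (nat_lit 78) (nat_lit 76) (nat_lit 0) (XT.lf (nat_lit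 0) (nat_lit 132755695942) (nat_lit 152) (nat_lit 152268881303) (nat_lit 76) (nat_lit 5322204197196) (nat_lit 5) (nat_lit 5) (nat_lit 7) (nat_lit 5) (nat_lit 6) (nat_lit 4) (nat_lit 454) (nat_lit 387) (nat_lit 179)) (XT.lf (nat_lit 0) (nat_lit 681811365680) (nat_lit 152) (nat_lit 5043201897679) (nat_lit 0) (nat_lit 285144020858) (nat_lit 4) (nat_lit 5) (nat_lit 6) (nat_lit 4) (nat_lit 4) (nat_lit 4) (nat_lit 455) (nat_lit 387) (nat_lit 178))))))) (XT.nd (nat_lit 48438) (nat_lit 0) (nat_lit 2812) (XT.nd (nat_lit 48048) (nat_lit 0) (nat_lit 4180) (XT.nd (nat_lit 47814) (nat_lit 0) (nat_lit 4560) (XT.nd (nat_lit 78) (nat_lit 0) (nat_lit 0) (XT.lf (nat_lit 0) (nat_lit 1286466154250) (nat_lit 152) (nat_lit 4268121140915) (nat_lit 0) (nat_lit 889798806391) (nat_lit 4) (nat_lit 5) (nat_lit 6) (nat_lit 4) (nat_lit 4) (nat_lit 4) (nat_lit 456) (nat_lit 387) (nat_lit 177)) (XT.lf (nat_lit 0) (nat_lit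 1939493317325) (nat_lit 152) (nat_lit 3431033940992) (nat_lit 0) (nat_lit 1542825966653) (nat_lit 4) (nat_lit 5) (nat_lit 6) (nat_lit 4) (nat_lit 4) (nat_lit 4) (nat_lit 457) (nat_lit 387) (nat_lit 176))) (XT.nd (nat_lit 78) (nat_lit 0) (nat_lit 0) (XT.lf (nat_lit 0) (nat_lit 72099348154) (nat_lit 532) (nat_lit 4834876932) (nat_lit 532) (nat_lit 4834876932) (nat_lit 64) (nat_lit 3) (nat_lit 71) (nat_lit 3) (nat_lit 71) (nat_lit 5) (nat_lit 388) (nat_lit 388) (nat_lit 244)) (XT.nd (nat_lit 78) (nat_lit 0) (nat_lit 76) (XT.lf (nat_lit 76) (nat_lit 73491333811) (nat_lit 0) (nat_lit 78245067893) (nat_lit 532) (nat_lit 18201747726) (nat_lit 65) (nat_lit 5) (nat_lit 64) (nat_lit 3) (nat_lit 71) (nat_lit 5) (nat_lit 389) (nat_lit 388) (nat_lit 243)) (XT.lf (nat_lit 0) (nat_lit 160230597182) (nat_lit 456) (nat_lit 13063170125) (nat_lit 532) (nat_lit 3528045472) (nat_lit 65) (nat_lit 5) (nat_lit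 71) (nat_lit 5) (nat_lit 72) (nat_lit 5) (nat_lit 390) (nat_lit 388) (nat_lit 242))))) (XT.nd (nat_lit 156) (nat_lit 456) (nat_lit 0) (XT.nd (nat_lit 78) (nat_lit 0) (nat_lit 0) (XT.lf (nat_lit 76) (nat_lit 78905878898) (nat_lit 0) (nat_lit 94428264412) (nat_lit 532) (nat_lit 10607640885) (nat_lit 66) (nat_lit 5) (nat_lit 65) (nat_lit 5) (nat_lit 72) (nat_lit 5) (nat_lit 391) (nat_lit 388) (nat_lit 241)) (XT.lf (nat_lit 76) (nat_lit 178975229140) (nat_lit 0) (nat_lit 8867713979) (nat_lit 532) (nat_lit 3759852793) (nat_lit 66) (nat_lit 5) (nat_lit 65) (nat_lit 5) (nat_lit 72) (nat_lit 5) (nat_lit 392) (nat_lit 388) (nat_lit 240))) (XT.nd (nat_lit 78) (nat_lit 0) (nat_lit 0) (XT.lf (nat_lit 0) (nat_lit 7727018733) (nat_lit 532) (nat_lit 110090303977) (nat_lit 608) (nat_lit 81710519948) (nat_lit 59) (nat_lit 5) (nat_lit 66) (nat_lit 5) (nat_lit 67) (nat_lit 5) (nat_lit 393) (nat_lit 388)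 (nat_lit 239)) (XT.nd (nat_lit 78) (nat_lit 0) (nat_lit 76) (XT.lf (nat_lit 0) (nat_lit 20514089979) (nat_lit 532) (nat_lit 8010384367) (nat_lit 608) (nat_lit 179507855889) (nat_lit 59) (nat_lit 5) (nat_lit 66) (nat_lit 5) (nat_lit 67) (nat_lit 5) (nat_lit 394) (nat_lit 388) (nat_lit 238)) (XT.lf (nat_lit 0) (nat_lit 38612717974) (nat_lit 532) (nat_lit 111091292233) (nat_lit 76) (nat_lit 67170079463) (nat_lit 60) (nat_lit 5) (nat_lit 67) (nat_lit 5) (nat_lit 61) (nat_lit 5) (nat_lit 395) (nat_lit 388) (nat_lit 237)))))) (XT.nd (nat_lit 390) (nat_lit 608) (nat_lit 0) (XT.nd (nat_lit 156) (nat_lit 456) (nat_lit 0) (XT.nd (nat_lit 78) (nat_lit 0) (nat_lit 0) (XT.lf (nat_lit 0) (nat_lit 2086990968) (nat_lit 380) (nat_lit 57087884109) (nat_lit 456) (nat_lit 167167063801) (nat_lit 55) (nat_lit 5) (nat_lit 60) (nat_lit 5) (nat_lit 61) (nat_lit 5) (nat_lit 396) (nat_lit 388) (nat_lit 236)) (XT.lf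 (nat_lit 0) (nat_lit 85530833107) (nat_lit 456) (nat_lit 106798523245) (nat_lit 76) (nat_lit 43905953517) (nat_lit 55) (nat_lit 5) (nat_lit 61) (nat_lit 5) (nat_lit 56) (nat_lit 5) (nat_lit 397) (nat_lit 388) (nat_lit 235))) (XT.nd (nat_lit 78) (nat_lit 228) (nat_lit 0) (XT.lf (nat_lit 0) (nat_lit 19549409532) (nat_lit 228) (nat_lit 96398687644) (nat_lit 304) (nat_lit 130815827120) (nat_lit 52) (nat_lit 5) (nat_lit 55) (nat_lit 5) (nat_lit 56) (nat_lit 5) (nat_lit 398) (nat_lit 388) (nat_lit 234)) (XT.nd (nat_lit 78) (nat_lit 228) (nat_lit 0) (XT.lf (nat_lit 0) (nat_lit 151967833841) (nat_lit 304) (nat_lit 96071630975) (nat_lit 76) (nat_lit 9841835846) (nat_lit 52) (nat_lit 5) (nat_lit 56) (nat_lit 5) (nat_lit 53) (nat_lit 5) (nat_lit 399) (nat_lit 388) (nat_lit 233)) (XT.lf (nat_lit 0) (nat_lit 45326075666) (nat_lit 228) (nat_lit 149136908549) (nat_lit 304) (nat_lit 75137576232) (nat_lit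 49) (nat_lit 5) (nat_lit 52) (nat_lit 5) (nat_lit 53) (nat_lit 5) (nat_lit 400) (nat_lit 388) (nat_lit 232))))) (XT.nd (nat_lit 234) (nat_lit 380) (nat_lit 0) (XT.nd (nat_lit 78) (nat_lit 228) (nat_lit 0) (XT.lf (nat_lit 0) (nat_lit 203499141446) (nat_lit 228) (nat_lit 39485259018) (nat_lit 304) (nat_lit 39062828329) (nat_lit 49) (nat_lit 5) (nat_lit 52) (nat_lit 5) (nat_lit 53) (nat_lit 5) (nat_lit 401) (nat_lit 388) (nat_lit 231)) (XT.nd (nat_lit 78) (nat_lit 0) (nat_lit 0) (XT.lf (nat_lit 0) (nat_lit 3849066417) (nat_lit 228) (nat_lit 214290159378) (nat_lit 76) (nat_lit 77034916566) (nat_lit 46) (nat_lit 5) (nat_lit 49) (nat_lit 5) (nat_lit 47) (nat_lit 5) (nat_lit 402) (nat_lit 388) (nat_lit 230)) (XT.lf (nat_lit 0) (nat_lit 51312418674) (nat_lit 228) (nat_lit 53737808632) (nat_lit 76) (nat_lit 203961499199) (nat_lit 46) (nat_lit 5) (nat_lit 49) (nat_lit 5) (nat_lit 47) (nat_lit 5)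 (nat_lit 403) (nat_lit 388) (nat_lit 229)))) (XT.nd (nat_lit 78) (nat_lit 152) (nat_lit 0) (XT.lf (nat_lit 0) (nat_lit 106091673212) (nat_lit 304) (nat_lit 198243964069) (nat_lit 76) (nat_lit 19339173435) (nat_lit 43) (nat_lit 5) (nat_lit 47) (nat_lit 5) (nat_lit 44) (nat_lit 5) (nat_lit 404) (nat_lit 388) (nat_lit 228)) (XT.nd (nat_lit 78) (nat_lit 152) (nat_lit 0) (XT.lf (nat_lit 0) (nat_lit 169489202185) (nat_lit 304) (nat_lit 20171158027) (nat_lit 76) (nat_lit 149511706787) (nat_lit 43) (nat_lit 5) (nat_lit 47) (nat_lit 5) (nat_lit 44) (nat_lit 5) (nat_lit 405) (nat_lit 388) (nat_lit 227)) (XT.lf (nat_lit 0) (nat_lit 181212326786) (nat_lit 152) (nat_lit 61104280952) (nat_lit 228) (nat_lit 113243850158) (nat_lit 41) (nat_lit 5) (nat_lit 43) (nat_lit 5) (nat_lit 44) (nat_lit 5) (nat_lit 406) (nat_lit 388) (nat_lit 226))))))))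
noncomputable def xc208 : XT := (XT.nd (nat_lit 1560) (nat_lit 988) (nat_lit 0) (XT.nd (nat_lit 780) (nat_lit 684) (nat_lit 0) (XT.nd (nat_lit 390) (nat_lit 380) (nat_lit 0) (XT.nd (nat_lit 156) (nat_lit 304) (nat_lit 0) (XT.nd (nat_lit 78) (nat_lit 76) (nat_lit 0) (XT.lf (nat_lit 0) (nat_lit 26057328657) (nat_lit 152) (nat_lit 297974872469) (nat_lit 228) (nat_lit 48982759358) (nat_lit 39) (nat_lit 5) (nat_lit 41) (nat_lit 5) (nat_lit 42) (nat_lit 5) (nat_lit 407) (nat_lit 388) (nat_lit 225)) (XT.lf (nat_lit 0) (nat_lit 25875612990) (nat_lit 228) (nat_lit 141276055454) (nat_lit 76) (nat_lit 224156640559) (nat_lit 38) (nat_lit 5) (nat_lit 41) (nat_lit 5) (nat_lit 39) (nat_lit 5) (nat_lit 408) (nat_lit 388) (nat_lit 224))) (XT.nd (nat_lit 78) (nat_lit 152) (nat_lit 0) (XT.lf (nat_lit 0) (nat_lit 83778597200) (nat_lit 152) (nat_lit 22312517443) (nat_lit 228) (nat_lit 304711044378) (nat_lit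 36) (nat_lit 5) (nat_lit 38) (nat_lit 5) (nat_lit 39) (nat_lit 5) (nat_lit 409) (nat_lit 388) (nat_lit 223)) (XT.nd (nat_lit 78) (nat_lit 152) (nat_lit 0) (XT.lf (nat_lit 0) (nat_lit 199912289846) (nat_lit 228) (nat_lit 100000268816) (nat_lit 76) (nat_lit 131367883742) (nat_lit 36) (nat_lit 5) (nat_lit 39) (nat_lit 5) (nat_lit 37) (nat_lit 5) (nat_lit 410) (nat_lit 388) (nat_lit 222)) (XT.lf (nat_lit 0) (nat_lit 152219888543) (nat_lit 152) (nat_lit 153259639483) (nat_lit 228) (nat_lit 147578230948) (nat_lit 34) (nat_lit 5) (nat_lit 36) (nat_lit 5) (nat_lit 37) (nat_lit 5) (nat_lit 411) (nat_lit 388) (nat_lit 221))))) (XT.nd (nat_lit 156) (nat_lit 228) (nat_lit 0) (XT.nd (nat_lit 78) (nat_lit 152) (nat_lit 0) (XT.lf (nat_lit 0) (nat_lit 422420549014) (nat_lit 228) (nat_lit 46248160359) (nat_lit 76) (nat_lit 7674279230) (nat_lit 34) (nat_lit 5) (nat_lit 37) (nat_lit 5) (nat_lit 35) (nat_lit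 4) (nat_lit 412) (nat_lit 388) (nat_lit 220)) (XT.lf (nat_lit 0) (nat_lit 54784578181) (nat_lit 152) (nat_lit 265542761100) (nat_lit 76) (nat_lit 180279139617) (nat_lit 32) (nat_lit 5) (nat_lit 34) (nat_lit 5) (nat_lit 33) (nat_lit 5) (nat_lit 413) (nat_lit 388) (nat_lit 219))) (XT.nd (nat_lit 78) (nat_lit 76) (nat_lit 0) (XT.lf (nat_lit 0) (nat_lit 14071200784) (nat_lit 152) (nat_lit 156839446292) (nat_lit 228) (nat_lit 355657498576) (nat_lit 30) (nat_lit 5) (nat_lit 32) (nat_lit 5) (nat_lit 33) (nat_lit 5) (nat_lit 414) (nat_lit 388) (nat_lit 218)) (XT.nd (nat_lit 78) (nat_lit 76) (nat_lit 0) (XT.lf (nat_lit 0) (nat_lit 304250179048) (nat_lit 228) (nat_lit 223533113519) (nat_lit 76) (nat_lit 26189582998) (nat_lit 30) (nat_lit 5) (nat_lit 33) (nat_lit 5) (nat_lit 31) (nat_lit 4) (nat_lit 415) (nat_lit 388) (nat_lit 217)) (XT.lf (nat_lit 0) (nat_lit 88922226187) (nat_lit 76) (nat_lit 365546924904)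 (nat_lit 152) (nat_lit 128603850600) (nat_lit 29) (nat_lit 5) (nat_lit 30) (nat_lit 5) (nat_lit 31) (nat_lit 4) (nat_lit 416) (nat_lit 388) (nat_lit 216)))))) (XT.nd (nat_lit 390) (nat_lit 380) (nat_lit 0) (XT.nd (nat_lit 156) (nat_lit 76) (nat_lit 0) (XT.nd (nat_lit 78) (nat_lit 152) (nat_lit 0) (XT.lf (nat_lit 0) (nat_lit 8364708562) (nat_lit 152) (nat_lit 175137538168) (nat_lit 76) (nat_lit 430493011029) (nat_lit 28) (nat_lit 5) (nat_lit 30) (nat_lit 5) (nat_lit 29) (nat_lit 5) (nat_lit 417) (nat_lit 388) (nat_lit 215)) (XT.lf (nat_lit 0) (nat_lit 154057865039) (nat_lit 228) (nat_lit 472498368399) (nat_lit 76) (nat_lit 20190627240) (nat_lit 26) (nat_lit 5) (nat_lit 29) (nat_lit 5) (nat_lit 27) (nat_lit 4) (nat_lit 418) (nat_lit 388) (nat_lit 214))) (XT.nd (nat_lit 78) (nat_lit 76) (nat_lit 0) (XT.lf (nat_lit 0) (nat_lit 321085664656) (nat_lit 228) (nat_lit 125080634975) (nat_lit 76)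 (nat_lit 235177956967) (nat_lit 26) (nat_lit 5) (nat_lit 29) (nat_lit 5) (nat_lit 27) (nat_lit 4) (nat_lit 419) (nat_lit 388) (nat_lit 213)) (XT.nd (nat_lit 78) (nat_lit 0) (nat_lit 0) (XT.lf (nat_lit 0) (nat_lit 263301858812) (nat_lit 76) (nat_lit 244506198592) (nat_lit 152) (nat_lit 210394797269) (nat_lit 25) (nat_lit 5) (nat_lit 26) (nat_lit 5) (nat_lit 27) (nat_lit 4) (nat_lit 420) (nat_lit 388) (nat_lit 212)) (XT.lf (nat_lit 0) (nat_lit 689868317096) (nat_lit 76) (nat_lit 23019805334) (nat_lit 152) (nat_lit 44848427708) (nat_lit 25) (nat_lit 5) (nat_lit 26) (nat_lit 5) (nat_lit 27) (nat_lit 4) (nat_lit 421) (nat_lit 388) (nat_lit 211))))) (XT.nd (nat_lit 156) (nat_lit 228) (nat_lit 0) (XT.nd (nat_lit 78) (nat_lit 0) (nat_lit 0) (XT.lf (nat_lit 0) (nat_lit 141534779753) (nat_lit 152) (nat_lit 439810481102) (nat_lit 76) (nat_lit 217686501826) (nat_lit 23) (nat_lit 5) (nat_lit 25) (nat_lit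 5) (nat_lit 24) (nat_lit 4) (nat_lit 422) (nat_lit 388) (nat_lit 210)) (XT.lf (nat_lit 0) (nat_lit 342907374435) (nat_lit 152) (nat_lit 20955545266) (nat_lit 76) (nat_lit 479474344150) (nat_lit 23) (nat_lit 5) (nat_lit 25) (nat_lit 5) (nat_lit 24) (nat_lit 4) (nat_lit 423) (nat_lit 388) (nat_lit 209))) (XT.nd (nat_lit 78) (nat_lit 152) (nat_lit 0) (XT.lf (nat_lit 0) (nat_lit 454124878530) (nat_lit 76) (nat_lit 117186573007) (nat_lit 152) (nat_lit 319002019600) (nat_lit 22) (nat_lit 5) (nat_lit 23) (nat_lit 5) (nat_lit 24) (nat_lit 4) (nat_lit 424) (nat_lit 388) (nat_lit 208)) (XT.nd (nat_lit 78) (nat_lit 76) (nat_lit 0) (XT.lf (nat_lit 0) (nat_lit 25050913699) (nat_lit 76) (nat_lit 797716059021) (nat_lit 76) (nat_lit 117898472861) (nat_lit 21) (nat_lit 4) (nat_lit 22) (nat_lit 5) (nat_lit 22) (nat_lit 4) (nat_lit 425) (nat_lit 388) (nat_lit 207)) (XT.lf (nat_lit 0) (nat_lit 109606009777)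 (nat_lit 152) (nat_lit 451837130734) (nat_lit 76) (nat_lit 432189020223) (nat_lit 20) (nat_lit 5) (nat_lit 22) (nat_lit 5) (nat_lit 21) (nat_lit 4) (nat_lit 426) (nat_lit 388) (nat_lit 206))))))) (XT.nd (nat_lit 780) (nat_lit 456) (nat_lit 0) (XT.nd (nat_lit 390) (nat_lit 304) (nat_lit 0) (XT.nd (nat_lit 156) (nat_lit 152) (nat_lit 0) (XT.nd (nat_lit 78) (nat_lit 0) (nat_lit 0) (XT.lf (nat_lit 0) (nat_lit 48401327146) (nat_lit 76) (nat_lit 301703961220) (nat_lit 152) (nat_lit 700392819528) (nat_lit 19) (nat_lit 5) (nat_lit 20) (nat_lit 5) (nat_lit 21) (nat_lit 4) (nat_lit 427) (nat_lit 388) (nat_lit 205)) (XT.lf (nat_lit 0) (nat_lit 614355173588) (nat_lit 76) (nat_lit 7843328694) (nat_lit 152) (nat_lit 488726509107) (nat_lit 19) (nat_lit 5) (nat_lit 20) (nat_lit 5) (nat_lit 21) (nat_lit 4) (nat_lit 428) (nat_lit 388) (nat_lit 204))) (XT.nd (nat_lit 78) (nat_lit 76) (nat_lit 0) (XT.lf (nat_lit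 0) (nat_lit 44164366548) (nat_lit 76) (nat_lit 880401039347) (nat_lit 76) (nat_lit 250940162668) (nat_lit 18) (nat_lit 4) (nat_lit 19) (nat_lit 5) (nat_lit 19) (nat_lit 4) (nat_lit 429) (nat_lit 388) (nat_lit 203)) (XT.nd (nat_lit 78) (nat_lit 0) (nat_lit 0) (XT.lf (nat_lit 0) (nat_lit 19708937049) (nat_lit 152) (nat_lit 588466318182) (nat_lit 76) (nat_lit 635935347641) (nat_lit 17) (nat_lit 5) (nat_lit 19) (nat_lit 5) (nat_lit 18) (nat_lit 4) (nat_lit 430) (nat_lit 388) (nat_lit 202)) (XT.lf (nat_lit 0) (nat_lit 298452647639) (nat_lit 152) (nat_lit 8679428456) (nat_lit 76) (nat_lit 1010550532161) (nat_lit 17) (nat_lit 5) (nat_lit 19) (nat_lit 5) (nat_lit 18) (nat_lit 4) (nat_lit 431) (nat_lit 388) (nat_lit 201))))) (XT.nd (nat_lit 156) (nat_lit 228) (nat_lit 0) (XT.nd (nat_lit 78) (nat_lit 0) (nat_lit 0) (XT.lf (nat_lit 0) (nat_lit 615967306449) (nat_lit 152) (nat_lit 746722268914) (nat_lit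 0) (nat_lit 33133082604) (nat_lit 16) (nat_lit 5) (nat_lit 18) (nat_lit 4) (nat_lit 16) (nat_lit 4) (nat_lit 432) (nat_lit 388) (nat_lit 200)) (XT.lf (nat_lit 0) (nat_lit 967104041420) (nat_lit 152) (nat_lit 128182402853) (nat_lit 0) (nat_lit 384269795109) (nat_lit 16) (nat_lit 5) (nat_lit 18) (nat_lit 4) (nat_lit 16) (nat_lit 4) (nat_lit 433) (nat_lit 388) (nat_lit 199))) (XT.nd (nat_lit 78) (nat_lit 152) (nat_lit 0) (XT.lf (nat_lit 0) (nat_lit 568267651566) (nat_lit 76) (nat_lit 791730888438) (nat_lit 76) (nat_lit 208896621324) (nat_lit 15) (nat_lit 4) (nat_lit 16) (nat_lit 5) (nat_lit 16) (nat_lit 4) (nat_lit 434) (nat_lit 388) (nat_lit 198)) (XT.nd (nat_lit 78) (nat_lit 76) (nat_lit 0) (XT.lf (nat_lit 0) (nat_lit 116589111094) (nat_lit 152) (nat_lit 340328935299) (nat_lit 76) (nat_lit 1207946644082) (nat_lit 14) (nat_lit 5) (nat_lit 16) (nat_lit 5) (nat_lit 15) (nat_lit 4) (nat_lit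 435) (nat_lit 388) (nat_lit 197)) (XT.lf (nat_lit 0) (nat_lit 386712518518) (nat_lit 76) (nat_lit 79415761640) (nat_lit 152) (nat_lit 1301205397180) (nat_lit 13) (nat_lit 5) (nat_lit 14) (nat_lit 5) (nat_lit 15) (nat_lit 4) (nat_lit 436) (nat_lit 388) (nat_lit 196)))))) (XT.nd (nat_lit 390) (nat_lit 228) (nat_lit 0) (XT.nd (nat_lit 156) (nat_lit 152) (nat_lit 0) (XT.nd (nat_lit 78) (nat_lit 76) (nat_lit 0) (XT.lf (nat_lit 0) (nat_lit 861072751789) (nat_lit 152) (nat_lit 694120714130) (nat_lit 0) (nat_lit 321411343710) (nat_lit 13) (nat_lit 5) (nat_lit 15) (nat_lit 4) (nat_lit 13) (nat_lit 4) (nat_lit 437) (nat_lit 388) (nat_lit 195)) (XT.lf (nat_lit 0) (nat_lit 47619074677) (nat_lit 76) (nat_lit 1243201671434) (nat_lit 76) (nat_lit 703540249196) (nat_lit 12) (nat_lit 4) (nat_lit 13) (nat_lit 5) (nat_lit 13) (nat_lit 4) (nat_lit 438) (nat_lit 388) (nat_lit 194))) (XT.nd (nat_lit 78) (nat_lit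 152) (nat_lit 0) (XT.lf (nat_lit 0) (nat_lit 888173264368) (nat_lit 76) (nat_lit 885753784649) (nat_lit 76) (nat_lit 346092349303) (nat_lit 12) (nat_lit 4) (nat_lit 13) (nat_lit 5) (nat_lit 13) (nat_lit 4) (nat_lit 439) (nat_lit 388) (nat_lit 193)) (XT.nd (nat_lit 78) (nat_lit 76) (nat_lit 0) (XT.lf (nat_lit 0) (nat_lit 37952832314) (nat_lit 152) (nat_lit 460719556270) (nat_lit 76) (nat_lit 1756981220080) (nat_lit 11) (nat_lit 5) (nat_lit 13) (nat_lit 5) (nat_lit 12) (nat_lit 4) (nat_lit 440) (nat_lit 388) (nat_lit 192)) (XT.lf (nat_lit 0) (nat_lit 382228306649) (nat_lit 76) (nat_lit 60987926702) (nat_lit 152) (nat_lit 1957467763059) (nat_lit 10) (nat_lit 5) (nat_lit 11) (nat_lit 5) (nat_lit 12) (nat_lit 4) (nat_lit 441) (nat_lit 388) (nat_lit 191))))) (XT.nd (nat_lit 234) (nat_lit 152) (nat_lit 0) (XT.nd (nat_lit 78) (nat_lit 76) (nat_lit 0) (XT.lf (nat_lit 0) (nat_lit 903726435294) (nat_lit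 152) (nat_lit 1247724431776) (nat_lit 0) (nat_lit 404039889803) (nat_lit 10) (nat_lit 5) (nat_lit 12) (nat_lit 4) (nat_lit 10) (nat_lit 4) (nat_lit 442) (nat_lit 388) (nat_lit 190)) (XT.nd (nat_lit 78) (nat_lit 76) (nat_lit 0) (XT.lf (nat_lit 0) (nat_lit 1402661538055) (nat_lit 152) (nat_lit 416918809705) (nat_lit 0) (nat_lit 902974983642) (nat_lit 10) (nat_lit 5) (nat_lit 12) (nat_lit 4) (nat_lit 10) (nat_lit 4) (nat_lit 443) (nat_lit 388) (nat_lit 189)) (XT.lf (nat_lit 0) (nat_lit 505645674652) (nat_lit 76) (nat_lit 1448026548975) (nat_lit 76) (nat_lit 948339986300) (nat_lit 9) (nat_lit 4) (nat_lit 10) (nat_lit 5) (nat_lit 10) (nat_lit 4) (nat_lit 444) (nat_lit 388) (nat_lit 188)))) (XT.nd (nat_lit 78) (nat_lit 152) (nat_lit 0) (XT.lf (nat_lit 0) (nat_lit 1525725828696) (nat_lit 76) (nat_lit 1034437218841) (nat_lit 76) (nat_lit 534750648518) (nat_lit 9) (nat_lit 4) (nat_lit 10) (nat_lit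 5) (nat_lit 10) (nat_lit 4) (nat_lit 445) (nat_lit 388) (nat_lit 187)) (XT.nd (nat_lit 78) (nat_lit 152) (nat_lit 0) (XT.lf (nat_lit 0) (nat_lit 2627412366183) (nat_lit 76) (nat_lit 587760756727) (nat_lit 76) (nat_lit 88074179322) (nat_lit 9) (nat_lit 4) (nat_lit 10) (nat_lit 5) (nat_lit 10) (nat_lit 4) (nat_lit 446) (nat_lit 388) (nat_lit 186)) (XT.lf (nat_lit 0) (nat_lit 294220503397) (nat_lit 76) (nat_lit 87465596295) (nat_lit 152) (nat_lit 3145236713489) (nat_lit 7) (nat_lit 5) (nat_lit 8) (nat_lit 5) (nat_lit 9) (nat_lit 4) (nat_lit 447) (nat_lit 388) (nat_lit 185))))))))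
noncomputable def xc209 : XT := (XT.nd (nat_lit 49296) (nat_lit 0) (nat_lit 1672) (XT.nd (nat_lit 48516) (nat_lit 0) (nat_lit 3876) (XT.nd (nat_lit 390) (nat_lit 152) (nat_lit 0) (XT.nd (nat_lit 156) (nat_lit 76) (nat_lit 0) (XT.nd (nat_lit 78) (nat_lit 0) (nat_lit 0) (XT.lf (nat_lit 0) (nat_lit 914118510340) (nat_lit 152) (nat_lit 2400357133386) (nat_lit 0) (nat_lit 451445741788) (nat_lit 7) (nat_lit 5) (nat_lit 9) (nat_lit 4) (nat_lit 7) (nat_lit 4) (nat_lit 448) (nat_lit 388) (nat_lit 184)) (XT.lf (nat_lit 0) (nat_lit 1491417334844) (nat_lit 152) (nat_lit 1503696202025) (nat_lit 0) (nat_lit 1028744561086) (nat_lit 7) (nat_lit 5) (nat_lit 9) (nat_lit 4) (nat_lit 7) (nat_lit 4) (nat_lit 449) (nat_lit 388) (nat_lit 183))) (XT.nd (nat_lit 78) (nat_lit 76) (nat_lit 0) (XT.lf (nat_lit 0) (nat_lit 2114900053581) (nat_lit 152) (nat_lit 535302419746) (nat_lit 0) (nat_lit 1652227275003) (nat_lit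 7) (nat_lit 5) (nat_lit 9) (nat_lit 4) (nat_lit 7) (nat_lit 4) (nat_lit 450) (nat_lit 388) (nat_lit 182)) (XT.nd (nat_lit 78) (nat_lit 0) (nat_lit 0) (XT.lf (nat_lit 0) (nat_lit 537448177800) (nat_lit 76) (nat_lit 2263738842758) (nat_lit 76) (nat_lit 1801066059717) (nat_lit 6) (nat_lit 4) (nat_lit 7) (nat_lit 5) (nat_lit 7) (nat_lit 4) (nat_lit 451) (nat_lit 388) (nat_lit 181)) (XT.lf (nat_lit 0) (nat_lit 1726461924790) (nat_lit 76) (nat_lit 1830551126332) (nat_lit 76) (nat_lit 1367878339158) (nat_lit 6) (nat_lit 4) (nat_lit 7) (nat_lit 5) (nat_lit 7) (nat_lit 4) (nat_lit 452) (nat_lit 388) (nat_lit 180))))) (XT.nd (nat_lit 156) (nat_lit 152) (nat_lit 0) (XT.nd (nat_lit 78) (nat_lit 0) (nat_lit 0) (XT.lf (nat_lit 0) (nat_lit 3010596751825) (nat_lit 76) (nat_lit 1362708402522) (nat_lit 76) (nat_lit 900035611522) (nat_lit 6) (nat_lit 4) (nat_lit 7) (nat_lit 5) (nat_lit 7) (nat_lit 4) (nat_lit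 453) (nat_lit 388) (nat_lit 179)) (XT.lf (nat_lit 0) (nat_lit 4397462346769) (nat_lit 76) (nat_lit 857438270002) (nat_lit 76) (nat_lit 394765475459) (nat_lit 6) (nat_lit 4) (nat_lit 7) (nat_lit 5) (nat_lit 7) (nat_lit 4) (nat_lit 454) (nat_lit 388) (nat_lit 178))) (XT.nd (nat_lit 78) (nat_lit 76) (nat_lit 0) (XT.lf (nat_lit 0) (nat_lit 143376319526) (nat_lit 152) (nat_lit 164450053207) (nat_lit 76) (nat_lit 5747980690219) (nat_lit 5) (nat_lit 5) (nat_lit 7) (nat_lit 5) (nat_lit 6) (nat_lit 4) (nat_lit 455) (nat_lit 388) (nat_lit 177)) (XT.nd (nat_lit 78) (nat_lit 0) (nat_lit 0) (XT.lf (nat_lit 0) (nat_lit 736356442350) (nat_lit 152) (nat_lit 5446657710390) (nat_lit 0) (nat_lit 307955700812) (nat_lit 4) (nat_lit 5) (nat_lit 6) (nat_lit 4) (nat_lit 4) (nat_lit 4) (nat_lit 456) (nat_lit 388) (nat_lit 176)) (XT.lf (nat_lit 0) (nat_lit 1389383601604) (nat_lit 152) (nat_lit 4609570518204) (nat_lit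 0) (nat_lit 960982857462) (nat_lit 4) (nat_lit 5) (nat_lit 6) (nat_lit 4) (nat_lit 4) (nat_lit 4) (nat_lit 457) (nat_lit 388) (nat_lit 175)))))) (XT.nd (nat_lit 390) (nat_lit 684) (nat_lit 0) (XT.nd (nat_lit 156) (nat_lit 0) (nat_lit 76) (XT.nd (nat_lit 78) (nat_lit 0) (nat_lit 0) (XT.lf (nat_lit 0) (nat_lit 77869530149) (nat_lit 532) (nat_lit 5220459593) (nat_lit 532) (nat_lit 5220459593) (nat_lit 64) (nat_lit 3) (nat_lit 71) (nat_lit 3) (nat_lit 71) (nat_lit 5) (nat_lit 389) (nat_lit 389) (nat_lit 242)) (XT.lf (nat_lit 76) (nat_lit 79372994364) (nat_lit 0) (nat_lit 84506513387) (nat_lit 532) (nat_lit 19653354207) (nat_lit 65) (nat_lit 5) (nat_lit 64) (nat_lit 3) (nat_lit 71) (nat_lit 5) (nat_lit 390) (nat_lit 389) (nat_lit 241))) (XT.nd (nat_lit 78) (nat_lit 0) (nat_lit 0) (XT.lf (nat_lit 0) (nat_lit 173052887232) (nat_lit 456) (nat_lit 14105688987) (nat_lit 532) (nat_lit 3808670577)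 (nat_lit 65) (nat_lit 5) (nat_lit 71) (nat_lit 5) (nat_lit 72) (nat_lit 5) (nat_lit 391) (nat_lit 389) (nat_lit 240)) (XT.nd (nat_lit 78) (nat_lit 0) (nat_lit 0) (XT.lf (nat_lit 76) (nat_lit 85220819787) (nat_lit 0) (nat_lit 101983672068) (nat_lit 532) (nat_lit 11452342355) (nat_lit 66) (nat_lit 5) (nat_lit 65) (nat_lit 5) (nat_lit 72) (nat_lit 5) (nat_lit 392) (nat_lit 389) (nat_lit 239)) (XT.lf (nat_lit 76) (nat_lit 193295535042) (nat_lit 0) (nat_lit 9578192673) (nat_lit 532) (nat_lit 4057020830) (nat_lit 66) (nat_lit 5) (nat_lit 65) (nat_lit 5) (nat_lit 72) (nat_lit 5) (nat_lit 393) (nat_lit 389) (nat_lit 238))))) (XT.nd (nat_lit 156) (nat_lit 304) (nat_lit 0) (XT.nd (nat_lit 78) (nat_lit 0) (nat_lit 0) (XT.lf (nat_lit 0) (nat_lit 8348402469) (nat_lit 532) (nat_lit 118894837234) (nat_lit 608) (nat_lit 88246569925) (nat_lit 59) (nat_lit 5) (nat_lit 66) (nat_lit 5) (nat_lit 67) (nat_lit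 5) (nat_lit 394) (nat_lit 389) (nat_lit 237)) (XT.lf (nat_lit 0) (nat_lit 22158200730) (nat_lit 532) (nat_lit 8648723394) (nat_lit 608) (nat_lit 193867751379) (nat_lit 59) (nat_lit 5) (nat_lit 66) (nat_lit 5) (nat_lit 67) (nat_lit 5) (nat_lit 395) (nat_lit 389) (nat_lit 236))) (XT.nd (nat_lit 78) (nat_lit 380) (nat_lit 0) (XT.lf (nat_lit 0) (nat_lit 41704546935) (nat_lit 532) (nat_lit 119975929575) (nat_lit 76) (nat_lit 72543313129) (nat_lit 60) (nat_lit 5) (nat_lit 67) (nat_lit 5) (nat_lit 61) (nat_lit 5) (nat_lit 396) (nat_lit 389) (nat_lit 235)) (XT.nd (nat_lit 78) (nat_lit 0) (nat_lit 0) (XT.lf (nat_lit 0) (nat_lit 2256548787) (nat_lit 380) (nat_lit 61654982053) (nat_lit 456) (nat_lit 180537547773) (nat_lit 55) (nat_lit 5) (nat_lit 60) (nat_lit 5) (nat_lit 61) (nat_lit 5) (nat_lit 397) (nat_lit 389) (nat_lit 234)) (XT.lf (nat_lit 0) (nat_lit 92375766552) (nat_lit 456) (nat_lit 115339798129)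 (nat_lit 76) (nat_lit 47418370676) (nat_lit 55) (nat_lit 5) (nat_lit 61) (nat_lit 5) (nat_lit 56) (nat_lit 5) (nat_lit 398) (nat_lit 389) (nat_lit 233))))))) (XT.nd (nat_lit 780) (nat_lit 988) (nat_lit 0) (XT.nd (nat_lit 390) (nat_lit 532) (nat_lit 0) (XT.nd (nat_lit 156) (nat_lit 456) (nat_lit 0) (XT.nd (nat_lit 78) (nat_lit 0) (nat_lit 0) (XT.lf (nat_lit 0) (nat_lit 21115903271) (nat_lit 228) (nat_lit 104110386861) (nat_lit 304) (nat_lit 141278558681) (nat_lit 52) (nat_lit 5) (nat_lit 55) (nat_lit 5) (nat_lit 56) (nat_lit 5) (nat_lit 399) (nat_lit 389) (nat_lit 232)) (XT.lf (nat_lit 0) (nat_lit 164127436372) (nat_lit 304) (nat_lit 103754837662) (nat_lit 76) (nat_lit 10629354936) (nat_lit 52) (nat_lit 5) (nat_lit 56) (nat_lit 5) (nat_lit 53) (nat_lit 5) (nat_lit 400) (nat_lit 389) (nat_lit 231))) (XT.nd (nat_lit 78) (nat_lit 228) (nat_lit 0) (XT.lf (nat_lit 0) (nat_lit 48954621617) (nat_lit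 228) (nat_lit 161067475149) (nat_lit 304) (nat_lit 81146341058) (nat_lit 49) (nat_lit 5) (nat_lit 52) (nat_lit 5) (nat_lit 53) (nat_lit 5) (nat_lit 401) (nat_lit 389) (nat_lit 230)) (XT.nd (nat_lit 78) (nat_lit 228) (nat_lit 0) (XT.lf (nat_lit 0) (nat_lit 219781350445) (nat_lit 228) (nat_lit 42643722253) (nat_lit 304) (nat_lit 42185779343) (nat_lit 49) (nat_lit 5) (nat_lit 52) (nat_lit 5) (nat_lit 53) (nat_lit 5) (nat_lit 402) (nat_lit 389) (nat_lit 229)) (XT.lf (nat_lit 0) (nat_lit 4158883605) (nat_lit 228) (nat_lit 231430908502) (nat_lit 76) (nat_lit 83198129059) (nat_lit 46) (nat_lit 5) (nat_lit 49) (nat_lit 5) (nat_lit 47) (nat_lit 5) (nat_lit 403) (nat_lit 389) (nat_lit 228))))) (XT.nd (nat_lit 156) (nat_lit 304) (nat_lit 0) (XT.nd (nat_lit 78) (nat_lit 228) (nat_lit 0) (XT.lf (nat_lit 0) (nat_lit 55419163904) (nat_lit 228) (nat_lit 58034552188) (nat_lit 76) (nat_lit 220278807253)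 (nat_lit 46) (nat_lit 5) (nat_lit 49) (nat_lit 5) (nat_lit 47) (nat_lit 5) (nat_lit 404) (nat_lit 389) (nat_lit 227)) (XT.lf (nat_lit 0) (nat_lit 114580695698) (nat_lit 304) (nat_lit 214101135894) (nat_lit 76) (nat_lit 20886827835) (nat_lit 43) (nat_lit 5) (nat_lit 47) (nat_lit 5) (nat_lit 44) (nat_lit 5) (nat_lit 405) (nat_lit 389) (nat_lit 226))) (XT.nd (nat_lit 78) (nat_lit 304) (nat_lit 0) (XT.lf (nat_lit 0) (nat_lit 183049901904) (nat_lit 304) (nat_lit 21782679094) (nat_lit 76) (nat_lit 161473125298) (nat_lit 43) (nat_lit 5) (nat_lit 47) (nat_lit 5) (nat_lit 44) (nat_lit 5) (nat_lit 406) (nat_lit 389) (nat_lit 225)) (XT.nd (nat_lit 78) (nat_lit 152) (nat_lit 0) (XT.lf (nat_lit 0) (nat_lit 195711429527) (nat_lit 152) (nat_lit 65992005461) (nat_lit 228) (nat_lit 122301738743) (nat_lit 41) (nat_lit 5) (nat_lit 43) (nat_lit 5) (nat_lit 44) (nat_lit 5) (nat_lit 407) (nat_lit 389) (nat_lit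 224)) (XT.lf (nat_lit 0) (nat_lit 28144081217) (nat_lit 152) (nat_lit 321812149481) (nat_lit 228) (nat_lit 52899809507) (nat_lit 39) (nat_lit 5) (nat_lit 41) (nat_lit 5) (nat_lit 42) (nat_lit 5) (nat_lit 408) (nat_lit 389) (nat_lit 223)))))) (XT.nd (nat_lit 390) (nat_lit 608) (nat_lit 0) (XT.nd (nat_lit 156) (nat_lit 152) (nat_lit 0) (XT.nd (nat_lit 78) (nat_lit 152) (nat_lit 0) (XT.lf (nat_lit 0) (nat_lit 27947043540) (nat_lit 228) (nat_lit 152576060620) (nat_lit 76) (nat_lit 242089758323) (nat_lit 38) (nat_lit 5) (nat_lit 41) (nat_lit 5) (nat_lit 39) (nat_lit 5) (nat_lit 409) (nat_lit 389) (nat_lit 222)) (XT.lf (nat_lit 0) (nat_lit 90482911607) (nat_lit 152) (nat_lit 24096820124) (nat_lit 228) (nat_lit 329086493111) (nat_lit 36) (nat_lit 5) (nat_lit 38) (nat_lit 5) (nat_lit 39) (nat_lit 5) (nat_lit 410) (nat_lit 389) (nat_lit 221))) (XT.nd (nat_lit 78) (nat_lit 152) (nat_lit 0) (XT.lf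 (nat_lit 0) (nat_lit 215906518146) (nat_lit 228) (nat_lit 107998330389) (nat_lit 76) (nat_lit 141877929035) (nat_lit 36) (nat_lit 5) (nat_lit 39) (nat_lit 5) (nat_lit 37) (nat_lit 5) (nat_lit 411) (nat_lit 389) (nat_lit 220)) (XT.nd (nat_lit 78) (nat_lit 0) (nat_lit 0) (XT.lf (nat_lit 0) (nat_lit 164399389940) (nat_lit 152) (nat_lit 165519699153) (nat_lit 228) (nat_lit 159383194122) (nat_lit 34) (nat_lit 5) (nat_lit 36) (nat_lit 5) (nat_lit 37) (nat_lit 5) (nat_lit 412) (nat_lit 389) (nat_lit 219)) (XT.lf (nat_lit 0) (nat_lit 456215318802) (nat_lit 228) (nat_lit 49946170892) (nat_lit 76) (nat_lit 8288847399) (nat_lit 34) (nat_lit 5) (nat_lit 37) (nat_lit 5) (nat_lit 35) (nat_lit 4) (nat_lit 413) (nat_lit 389) (nat_lit 218))))) (XT.nd (nat_lit 234) (nat_lit 304) (nat_lit 0) (XT.nd (nat_lit 78) (nat_lit 152) (nat_lit 0) (XT.lf (nat_lit 0) (nat_lit 59168458754) (nat_lit 152) (nat_lit 286784327201)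 (nat_lit 76) (nat_lit 194702121656) (nat_lit 32) (nat_lit 5) (nat_lit 34) (nat_lit 5) (nat_lit 33) (nat_lit 5) (nat_lit 414) (nat_lit 389) (nat_lit 217)) (XT.nd (nat_lit 78) (nat_lit 0) (nat_lit 0) (XT.lf (nat_lit 0) (nat_lit 15198704677) (nat_lit 152) (nat_lit 169385869420) (nat_lit 228) (nat_lit 384108936767) (nat_lit 30) (nat_lit 5) (nat_lit 32) (nat_lit 5) (nat_lit 33) (nat_lit 5) (nat_lit 415) (nat_lit 389) (nat_lit 216)) (XT.lf (nat_lit 0) (nat_lit 328591205292) (nat_lit 228) (nat_lit 241414024959) (nat_lit 76) (nat_lit 28285394016) (nat_lit 30) (nat_lit 5) (nat_lit 33) (nat_lit 5) (nat_lit 31) (nat_lit 4) (nat_lit 416) (nat_lit 389) (nat_lit 215)))) (XT.nd (nat_lit 78) (nat_lit 228) (nat_lit 0) (XT.lf (nat_lit 0) (nat_lit 96037697932) (nat_lit 76) (nat_lit 394789962942) (nat_lit 152) (nat_lit 138891102378) (nat_lit 29) (nat_lit 5) (nat_lit 30) (nat_lit 5) (nat_lit 31) (nat_lit 4)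 (nat_lit 417) (nat_lit 389) (nat_lit 214)) (XT.nd (nat_lit 78) (nat_lit 152) (nat_lit 0) (XT.lf (nat_lit 0) (nat_lit 9034814350) (nat_lit 152) (nat_lit 189146923794) (nat_lit 76) (nat_lit 464933065599) (nat_lit 28) (nat_lit 5) (nat_lit 30) (nat_lit 5) (nat_lit 29) (nat_lit 5) (nat_lit 418) (nat_lit 389) (nat_lit 213)) (XT.lf (nat_lit 0) (nat_lit 166383408751) (nat_lit 228) (nat_lit 510296605561) (nat_lit 76) (nat_lit 21806521774) (nat_lit 26) (nat_lit 5) (nat_lit 29) (nat_lit 5) (nat_lit 27) (nat_lit 4) (nat_lit 419) (nat_lit 389) (nat_lit 212))))))))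
noncomputable def xc210 : XT := (XT.nd (nat_lit 1560) (nat_lit 608) (nat_lit 0) (XT.nd (nat_lit 780) (nat_lit 532) (nat_lit 0) (XT.nd (nat_lit 390) (nat_lit 304) (nat_lit 0) (XT.nd (nat_lit 156) (nat_lit 152) (nat_lit 0) (XT.nd (nat_lit 78) (nat_lit 76) (nat_lit 0) (XT.lf (nat_lit 0) (nat_lit 346773364596) (nat_lit 228) (nat_lit 135085574375) (nat_lit 76) (nat_lit 253992790149) (nat_lit 26) (nat_lit 5) (nat_lit 29) (nat_lit 5) (nat_lit 27) (nat_lit 4) (nat_lit 420) (nat_lit 389) (nat_lit 211)) (XT.lf (nat_lit 0) (nat_lit 284367480651) (nat_lit 76) (nat_lit 264066040817) (nat_lit 152) (nat_lit 227225495775) (nat_lit 25) (nat_lit 5) (nat_lit 26) (nat_lit 5) (nat_lit 27) (nat_lit 4) (nat_lit 421) (nat_lit 389) (nat_lit 210))) (XT.nd (nat_lit 78) (nat_lit 152) (nat_lit 0) (XT.lf (nat_lit 0) (nat_lit 745059146477) (nat_lit 76) (nat_lit 24860784518) (nat_lit 152) (nat_lit 48435482225) (nat_lit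 25) (nat_lit 5) (nat_lit 26) (nat_lit 5) (nat_lit 27) (nat_lit 4) (nat_lit 422) (nat_lit 389) (nat_lit 209)) (XT.nd (nat_lit 78) (nat_lit 0) (nat_lit 0) (XT.lf (nat_lit 0) (nat_lit 152858330895) (nat_lit 152) (nat_lit 474993904234) (nat_lit 76) (nat_lit 235102006871) (nat_lit 23) (nat_lit 5) (nat_lit 25) (nat_lit 5) (nat_lit 24) (nat_lit 4) (nat_lit 423) (nat_lit 389) (nat_lit 208)) (XT.lf (nat_lit 0) (nat_lit 370340676206) (nat_lit 152) (nat_lit 22630678372) (nat_lit 76) (nat_lit 517832833255) (nat_lit 23) (nat_lit 5) (nat_lit 25) (nat_lit 5) (nat_lit 24) (nat_lit 4) (nat_lit 424) (nat_lit 389) (nat_lit 207))))) (XT.nd (nat_lit 156) (nat_lit 152) (nat_lit 0) (XT.nd (nat_lit 78) (nat_lit 76) (nat_lit 0) (XT.lf (nat_lit 0) (nat_lit 490456146150) (nat_lit 76) (nat_lit 126560911319) (nat_lit 152) (nat_lit 344521436007) (nat_lit 22) (nat_lit 5) (nat_lit 23) (nat_lit 5) (nat_lit 24) (nat_lit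 4) (nat_lit 425) (nat_lit 389) (nat_lit 206)) (XT.lf (nat_lit 0) (nat_lit 27056271973) (nat_lit 76) (nat_lit 861532741269) (nat_lit 76) (nat_lit 127329613215) (nat_lit 21) (nat_lit 4) (nat_lit 22) (nat_lit 5) (nat_lit 22) (nat_lit 4) (nat_lit 426) (nat_lit 389) (nat_lit 205))) (XT.nd (nat_lit 78) (nat_lit 76) (nat_lit 0) (XT.lf (nat_lit 0) (nat_lit 118375139247) (nat_lit 152) (nat_lit 487982876923) (nat_lit 76) (nat_lit 466764665396) (nat_lit 20) (nat_lit 5) (nat_lit 22) (nat_lit 5) (nat_lit 21) (nat_lit 4) (nat_lit 427) (nat_lit 389) (nat_lit 204)) (XT.nd (nat_lit 78) (nat_lit 0) (nat_lit 0) (XT.lf (nat_lit 0) (nat_lit 52274626594) (nat_lit 76) (nat_lit 325839714177) (nat_lit 152) (nat_lit 756423565285) (nat_lit 19) (nat_lit 5) (nat_lit 20) (nat_lit 5) (nat_lit 21) (nat_lit 4) (nat_lit 428) (nat_lit 389) (nat_lit 203)) (XT.lf (nat_lit 0) (nat_lit 663504692361) (nat_lit 76) (nat_lit 8470272822)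 (nat_lit 152) (nat_lit 527824000386) (nat_lit 19) (nat_lit 5) (nat_lit 20) (nat_lit 5) (nat_lit 21) (nat_lit 4) (nat_lit 429) (nat_lit 389) (nat_lit 202)))))) (XT.nd (nat_lit 390) (nat_lit 304) (nat_lit 0) (XT.nd (nat_lit 156) (nat_lit 76) (nat_lit 0) (XT.nd (nat_lit 78) (nat_lit 76) (nat_lit 0) (XT.lf (nat_lit 0) (nat_lit 47698626093) (nat_lit 76) (nat_lit 950832590156) (nat_lit 76) (nat_lit 271014751464) (nat_lit 18) (nat_lit 4) (nat_lit 19) (nat_lit 5) (nat_lit 19) (nat_lit 4) (nat_lit 430) (nat_lit 389) (nat_lit 201)) (XT.lf (nat_lit 0) (nat_lit 21286201080) (nat_lit 152) (nat_lit 635542566651) (nat_lit 76) (nat_lit 686810639355) (nat_lit 17) (nat_lit 5) (nat_lit 19) (nat_lit 5) (nat_lit 18) (nat_lit 4) (nat_lit 431) (nat_lit 389) (nat_lit 200))) (XT.nd (nat_lit 78) (nat_lit 76) (nat_lit 0) (XT.lf (nat_lit 0) (nat_lit 322329367846) (nat_lit 152) (nat_lit 9372804042) (nat_lit 76) (nat_lit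 1091395004274) (nat_lit 17) (nat_lit 5) (nat_lit 19) (nat_lit 5) (nat_lit 18) (nat_lit 4) (nat_lit 432) (nat_lit 389) (nat_lit 199)) (XT.nd (nat_lit 78) (nat_lit 0) (nat_lit 0) (XT.lf (nat_lit 0) (nat_lit 665245195712) (nat_lit 152) (nat_lit 806459068010) (nat_lit 0) (nat_lit 35784166425) (nat_lit 16) (nat_lit 5) (nat_lit 18) (nat_lit 4) (nat_lit 16) (nat_lit 4) (nat_lit 433) (nat_lit 389) (nat_lit 198)) (XT.lf (nat_lit 0) (nat_lit 1044472832092) (nat_lit 152) (nat_lit 138436085436) (nat_lit 0) (nat_lit 415011783544) (nat_lit 16) (nat_lit 5) (nat_lit 18) (nat_lit 4) (nat_lit 16) (nat_lit 4) (nat_lit 434) (nat_lit 389) (nat_lit 197))))) (XT.nd (nat_lit 156) (nat_lit 152) (nat_lit 0) (XT.nd (nat_lit 78) (nat_lit 76) (nat_lit 0) (XT.lf (nat_lit 0) (nat_lit 613729950307) (nat_lit 76) (nat_lit 855068926960) (nat_lit 76) (nat_lit 225607860576) (nat_lit 15) (nat_lit 4) (nat_lit 16) (nat_lit 5)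 (nat_lit 16) (nat_lit 4) (nat_lit 435) (nat_lit 389) (nat_lit 196)) (XT.lf (nat_lit 0) (nat_lit 125916671388) (nat_lit 152) (nat_lit 367554406409) (nat_lit 76) (nat_lit 1304582753348) (nat_lit 14) (nat_lit 5) (nat_lit 16) (nat_lit 5) (nat_lit 15) (nat_lit 4) (nat_lit 436) (nat_lit 389) (nat_lit 195))) (XT.nd (nat_lit 78) (nat_lit 76) (nat_lit 0) (XT.lf (nat_lit 0) (nat_lit 417650342354) (nat_lit 76) (nat_lit 85768619445) (nat_lit 152) (nat_lit 1405301376136) (nat_lit 13) (nat_lit 5) (nat_lit 14) (nat_lit 5) (nat_lit 15) (nat_lit 4) (nat_lit 437) (nat_lit 389) (nat_lit 194)) (XT.nd (nat_lit 78) (nat_lit 76) (nat_lit 0) (XT.lf (nat_lit 0) (nat_lit 929958969083) (nat_lit 152) (nat_lit 749649587695) (nat_lit 0) (nat_lit 347124605799) (nat_lit 13) (nat_lit 5) (nat_lit 15) (nat_lit 4) (nat_lit 13) (nat_lit 4) (nat_lit 438) (nat_lit 389) (nat_lit 193)) (XT.lf (nat_lit 0) (nat_lit 51429364379)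 (nat_lit 76) (nat_lit 1342657427521) (nat_lit 76) (nat_lit 759823052099) (nat_lit 12) (nat_lit 4) (nat_lit 13) (nat_lit 5) (nat_lit 13) (nat_lit 4) (nat_lit 439) (nat_lit 389) (nat_lit 192))))))) (XT.nd (nat_lit 780) (nat_lit 228) (nat_lit 0) (XT.nd (nat_lit 390) (nat_lit 228) (nat_lit 0) (XT.nd (nat_lit 156) (nat_lit 76) (nat_lit 0) (XT.nd (nat_lit 78) (nat_lit 76) (nat_lit 0) (XT.lf (nat_lit 0) (nat_lit 959227832673) (nat_lit 76) (nat_lit 956613737766) (nat_lit 76) (nat_lit 373779351105) (nat_lit 12) (nat_lit 4) (nat_lit 13) (nat_lit 5) (nat_lit 13) (nat_lit 4) (nat_lit 440) (nat_lit 389) (nat_lit 191)) (XT.lf (nat_lit 0) (nat_lit 40989398552) (nat_lit 152) (nat_lit 497576448077) (nat_lit 76) (nat_lit 1897540023520) (nat_lit 11) (nat_lit 5) (nat_lit 13) (nat_lit 5) (nat_lit 12) (nat_lit 4) (nat_lit 441) (nat_lit 389) (nat_lit 190))) (XT.nd (nat_lit 78) (nat_lit 0) (nat_lit 0) (XT.lf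 (nat_lit 0) (nat_lit 412807226846) (nat_lit 76) (nat_lit 65866635437) (nat_lit 152) (nat_lit 2114064827388) (nat_lit 10) (nat_lit 5) (nat_lit 11) (nat_lit 5) (nat_lit 12) (nat_lit 4) (nat_lit 442) (nat_lit 389) (nat_lit 189)) (XT.nd (nat_lit 78) (nat_lit 0) (nat_lit 0) (XT.lf (nat_lit 0) (nat_lit 976024863163) (nat_lit 152) (nat_lit 1347541761973) (nat_lit 0) (nat_lit 436363367214) (nat_lit 10) (nat_lit 5) (nat_lit 12) (nat_lit 4) (nat_lit 10) (nat_lit 4) (nat_lit 443) (nat_lit 389) (nat_lit 188)) (XT.lf (nat_lit 0) (nat_lit 1514874750956) (nat_lit 152) (nat_lit 450271736384) (nat_lit 0) (nat_lit 975213247357) (nat_lit 10) (nat_lit 5) (nat_lit 12) (nat_lit 4) (nat_lit 10) (nat_lit 4) (nat_lit 444) (nat_lit 389) (nat_lit 187))))) (XT.nd (nat_lit 156) (nat_lit 152) (nat_lit 0) (XT.nd (nat_lit 78) (nat_lit 0) (nat_lit 0) (XT.lf (nat_lit 0) (nat_lit 546097892086) (nat_lit 76) (nat_lit 1563868391367)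 (nat_lit 76) (nat_lit 1024206880686) (nat_lit 9) (nat_lit 4) (nat_lit 10) (nat_lit 5) (nat_lit 10) (nat_lit 4) (nat_lit 445) (nat_lit 389) (nat_lit 186)) (XT.lf (nat_lit 0) (nat_lit 1647784416716) (nat_lit 76) (nat_lit 1117191935677) (nat_lit 76) (nat_lit 577530418438) (nat_lit 9) (nat_lit 4) (nat_lit 10) (nat_lit 5) (nat_lit 10) (nat_lit 4) (nat_lit 446) (nat_lit 389) (nat_lit 185))) (XT.nd (nat_lit 78) (nat_lit 152) (nat_lit 0) (XT.lf (nat_lit 0) (nat_lit 2837605838555) (nat_lit 76) (nat_lit 634781375903) (nat_lit 76) (nat_lit 95119852592) (nat_lit 9) (nat_lit 4) (nat_lit 10) (nat_lit 5) (nat_lit 10) (nat_lit 4) (nat_lit 447) (nat_lit 389) (nat_lit 184)) (XT.nd (nat_lit 78) (nat_lit 0) (nat_lit 0) (XT.lf (nat_lit 0) (nat_lit 317758627266) (nat_lit 76) (nat_lit 94462601675) (nat_lit 152) (nat_lit 3396855389973) (nat_lit 7) (nat_lit 5) (nat_lit 8) (nat_lit 5) (nat_lit 9) (nat_lit 4) (nat_lit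 448) (nat_lit 389) (nat_lit 183)) (XT.lf (nat_lit 0) (nat_lit 987248219965) (nat_lit 152) (nat_lit 2592385243787) (nat_lit 0) (nat_lit 487561614281) (nat_lit 7) (nat_lit 5) (nat_lit 9) (nat_lit 4) (nat_lit 7) (nat_lit 4) (nat_lit 449) (nat_lit 389) (nat_lit 182)))))) (XT.nd (nat_lit 390) (nat_lit 152) (nat_lit 0) (XT.nd (nat_lit 156) (nat_lit 76) (nat_lit 0) (XT.nd (nat_lit 78) (nat_lit 0) (nat_lit 0) (XT.lf (nat_lit 0) (nat_lit 1610730933482) (nat_lit 152) (nat_lit 1623991472011) (nat_lit 0) (nat_lit 1111044323334) (nat_lit 7) (nat_lit 5) (nat_lit 9) (nat_lit 4) (nat_lit 7) (nat_lit 4) (nat_lit 450) (nat_lit 389) (nat_lit 181)) (XT.lf (nat_lit 0) (nat_lit 2284092254025) (nat_lit 152) (nat_lit 578126218719) (nat_lit 0) (nat_lit 1784405639744) (nat_lit 7) (nat_lit 5) (nat_lit 9) (nat_lit 4) (nat_lit 7) (nat_lit 4) (nat_lit 451) (nat_lit 389) (nat_lit 180))) (XT.nd (nat_lit 78) (nat_lit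 0) (nat_lit 0) (XT.lf (nat_lit 0) (nat_lit 580444416642) (nat_lit 76) (nat_lit 2444837756440) (nat_lit 76) (nat_lit 1945151138333) (nat_lit 6) (nat_lit 4) (nat_lit 7) (nat_lit 5) (nat_lit 7) (nat_lit 4) (nat_lit 452) (nat_lit 389) (nat_lit 179)) (XT.nd (nat_lit 78) (nat_lit 0) (nat_lit 0) (XT.lf (nat_lit 0) (nat_lit 1864579234900) (nat_lit 76) (nat_lit 1976995037050) (nat_lit 76) (nat_lit 1477308415401) (nat_lit 6) (nat_lit 4) (nat_lit 7) (nat_lit 5) (nat_lit 7) (nat_lit 4) (nat_lit 453) (nat_lit 389) (nat_lit 178)) (XT.lf (nat_lit 0) (nat_lit 3251444821718) (nat_lit 76) (nat_lit 1471724908624) (nat_lit 76) (nat_lit 972038283693) (nat_lit 6) (nat_lit 4) (nat_lit 7) (nat_lit 5) (nat_lit 7) (nat_lit 4) (nat_lit 454) (nat_lit 389) (nat_lit 177))))) (XT.nd (nat_lit 48048) (nat_lit 0) (nat_lit 4560) (XT.nd (nat_lit 78) (nat_lit 152) (nat_lit 0) (XT.lf (nat_lit 0) (nat_lit 4749259639832) (nat_lit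 76) (nat_lit 926033177806) (nat_lit 76) (nat_lit 426346549838) (nat_lit 6) (nat_lit 4) (nat_lit 7) (nat_lit 5) (nat_lit 7) (nat_lit 4) (nat_lit 455) (nat_lit 389) (nat_lit 176)) (XT.nd (nat_lit 78) (nat_lit 76) (nat_lit 0) (XT.lf (nat_lit 0) (nat_lit 154846569043) (nat_lit 152) (nat_lit 177605767169) (nat_lit 76) (nat_lit 6207819280251) (nat_lit 5) (nat_lit 5) (nat_lit 7) (nat_lit 5) (nat_lit 6) (nat_lit 4) (nat_lit 456) (nat_lit 389) (nat_lit 175)) (XT.lf (nat_lit 0) (nat_lit 795265101270) (nat_lit 152) (nat_lit 5882390036494) (nat_lit 0) (nat_lit 332592292580) (nat_lit 4) (nat_lit 5) (nat_lit 6) (nat_lit 4) (nat_lit 4) (nat_lit 4) (nat_lit 457) (nat_lit 389) (nat_lit 174)))) (XT.nd (nat_lit 78) (nat_lit 0) (nat_lit 0) (XT.lf (nat_lit 0) (nat_lit 84101007978) (nat_lit 532) (nat_lit 5637061129) (nat_lit 532) (nat_lit 5637061129) (nat_lit 64) (nat_lit 3) (nat_lit 71) (nat_lit 3) (nat_lit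 71) (nat_lit 5) (nat_lit 390) (nat_lit 390) (nat_lit 240)) (XT.nd (nat_lit 78) (nat_lit 0) (nat_lit 76) (XT.lf (nat_lit 76) (nat_lit 85724851959) (nat_lit 0) (nat_lit 91268612015) (nat_lit 532) (nat_lit 21221735938) (nat_lit 65) (nat_lit 5) (nat_lit 64) (nat_lit 3) (nat_lit 71) (nat_lit 5) (nat_lit 391) (nat_lit 390) (nat_lit 239)) (XT.lf (nat_lit 0) (nat_lit 186900412342) (nat_lit 456) (nat_lit 15231970968) (nat_lit 532) (nat_lit 4111976592) (nat_lit 65) (nat_lit 5) (nat_lit 71) (nat_lit 5) (nat_lit 72) (nat_lit 5) (nat_lit 392) (nat_lit 390) (nat_lit 238))))))))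
noncomputable def xc211 : XT := (XT.nd (nat_lit 1638) (nat_lit 1368) (nat_lit 0) (XT.nd (nat_lit 780) (nat_lit 1140) (nat_lit 0) (XT.nd (nat_lit 390) (nat_lit 760) (nat_lit 0) (XT.nd (nat_lit 156) (nat_lit 456) (nat_lit 0) (XT.nd (nat_lit 78) (nat_lit 0) (nat_lit 0) (XT.lf (nat_lit 76) (nat_lit 92040603492) (nat_lit 0) (nat_lit 110143348774) (nat_lit 532) (nat_lit 12365177719) (nat_lit 66) (nat_lit 5) (nat_lit 65) (nat_lit 5) (nat_lit 72) (nat_lit 5) (nat_lit 393) (nat_lit 390) (nat_lit 237)) (XT.lf (nat_lit 76) (nat_lit 208761139070) (nat_lit 0) (nat_lit 10345358218) (nat_lit 532) (nat_lit 4378478770) (nat_lit 66) (nat_lit 5) (nat_lit 65) (nat_lit 5) (nat_lit 72) (nat_lit 5) (nat_lit 394) (nat_lit 390) (nat_lit 236))) (XT.nd (nat_lit 78) (nat_lit 0) (nat_lit 0) (XT.lf (nat_lit 0) (nat_lit 9019037216) (nat_lit 532) (nat_lit 128404117062) (nat_lit 608) (nat_lit 95305616833) (nat_lit 59)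 (nat_lit 5) (nat_lit 66) (nat_lit 5) (nat_lit 67) (nat_lit 5) (nat_lit 395) (nat_lit 390) (nat_lit 235)) (XT.nd (nat_lit 78) (nat_lit 0) (nat_lit 76) (XT.lf (nat_lit 0) (nat_lit 23933414705) (nat_lit 532) (nat_lit 9338485014) (nat_lit 608) (nat_lit 209376543077) (nat_lit 59) (nat_lit 5) (nat_lit 66) (nat_lit 5) (nat_lit 67) (nat_lit 5) (nat_lit 396) (nat_lit 390) (nat_lit 234)) (XT.lf (nat_lit 0) (nat_lit 45043321117) (nat_lit 532) (nat_lit 129571718244) (nat_lit 76) (nat_lit 78346458656) (nat_lit 60) (nat_lit 5) (nat_lit 67) (nat_lit 5) (nat_lit 61) (nat_lit 5) (nat_lit 397) (nat_lit 390) (nat_lit 233))))) (XT.nd (nat_lit 156) (nat_lit 456) (nat_lit 0) (XT.nd (nat_lit 78) (nat_lit 0) (nat_lit 0) (XT.lf (nat_lit 0) (nat_lit 2439300521) (nat_lit 380) (nat_lit 66587438243) (nat_lit 456) (nat_lit 194978081489) (nat_lit 55) (nat_lit 5) (nat_lit 60) (nat_lit 5) (nat_lit 61) (nat_lit 5) (nat_lit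 398) (nat_lit 390) (nat_lit 232)) (XT.lf (nat_lit 0) (nat_lit 99767942757) (nat_lit 456) (nat_lit 124564746919) (nat_lit 76) (nat_lit 51211789642) (nat_lit 55) (nat_lit 5) (nat_lit 61) (nat_lit 5) (nat_lit 56) (nat_lit 5) (nat_lit 399) (nat_lit 390) (nat_lit 231))) (XT.nd (nat_lit 78) (nat_lit 228) (nat_lit 0) (XT.lf (nat_lit 0) (nat_lit 22807354010) (nat_lit 228) (nat_lit 112439049948) (nat_lit 304) (nat_lit 152578670357) (nat_lit 52) (nat_lit 5) (nat_lit 55) (nat_lit 5) (nat_lit 56) (nat_lit 5) (nat_lit 400) (nat_lit 390) (nat_lit 230)) (XT.nd (nat_lit 78) (nat_lit 228) (nat_lit 0) (XT.lf (nat_lit 0) (nat_lit 177259496701) (nat_lit 304) (nat_lit 112053060931) (nat_lit 76) (nat_lit 11479850984) (nat_lit 52) (nat_lit 5) (nat_lit 56) (nat_lit 5) (nat_lit 53) (nat_lit 5) (nat_lit 401) (nat_lit 390) (nat_lit 229)) (XT.lf (nat_lit 0) (nat_lit 52873100312) (nat_lit 228) (nat_lit 173952542155)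 (nat_lit 304) (nat_lit 87636126813) (nat_lit 49) (nat_lit 5) (nat_lit 52) (nat_lit 5) (nat_lit 53) (nat_lit 5) (nat_lit 402) (nat_lit 390) (nat_lit 228)))))) (XT.nd (nat_lit 390) (nat_lit 684) (nat_lit 0) (XT.nd (nat_lit 156) (nat_lit 228) (nat_lit 0) (XT.nd (nat_lit 78) (nat_lit 228) (nat_lit 0) (XT.lf (nat_lit 0) (nat_lit 237365811227) (nat_lit 228) (nat_lit 46054913547) (nat_lit 304) (nat_lit 45558862497) (nat_lit 49) (nat_lit 5) (nat_lit 52) (nat_lit 5) (nat_lit 53) (nat_lit 5) (nat_lit 403) (nat_lit 390) (nat_lit 227)) (XT.lf (nat_lit 0) (nat_lit 4493216271) (nat_lit 228) (nat_lit 249943269020) (nat_lit 76) (nat_lit 89854338752) (nat_lit 46) (nat_lit 5) (nat_lit 49) (nat_lit 5) (nat_lit 47) (nat_lit 5) (nat_lit 404) (nat_lit 390) (nat_lit 226))) (XT.nd (nat_lit 78) (nat_lit 228) (nat_lit 0) (XT.lf (nat_lit 0) (nat_lit 59854198848) (nat_lit 228) (nat_lit 62675360657) (nat_lit 76) (nat_lit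 237901444582) (nat_lit 46) (nat_lit 5) (nat_lit 49) (nat_lit 5) (nat_lit 47) (nat_lit 5) (nat_lit 405) (nat_lit 390) (nat_lit 225)) (XT.nd (nat_lit 78) (nat_lit 0) (nat_lit 0) (XT.lf (nat_lit 0) (nat_lit 123748599080) (nat_lit 304) (nat_lit 231227216048) (nat_lit 76) (nat_lit 22558220328) (nat_lit 43) (nat_lit 5) (nat_lit 47) (nat_lit 5) (nat_lit 44) (nat_lit 5) (nat_lit 406) (nat_lit 390) (nat_lit 224)) (XT.lf (nat_lit 0) (nat_lit 197695234544) (nat_lit 304) (nat_lit 23523431646) (nat_lit 76) (nat_lit 174391388531) (nat_lit 43) (nat_lit 5) (nat_lit 47) (nat_lit 5) (nat_lit 44) (nat_lit 5) (nat_lit 407) (nat_lit 390) (nat_lit 223))))) (XT.nd (nat_lit 234) (nat_lit 304) (nat_lit 0) (XT.nd (nat_lit 78) (nat_lit 228) (nat_lit 0) (XT.lf (nat_lit 0) (nat_lit 211370158531) (nat_lit 152) (nat_lit 71270836090) (nat_lit 228) (nat_lit 132084489444) (nat_lit 41) (nat_lit 5) (nat_lit 43) (nat_lit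 5) (nat_lit 44) (nat_lit 5) (nat_lit 408) (nat_lit 390) (nat_lit 222)) (XT.nd (nat_lit 78) (nat_lit 76) (nat_lit 0) (XT.lf (nat_lit 0) (nat_lit 30397464939) (nat_lit 152) (nat_lit 347556510341) (nat_lit 228) (nat_lit 57130447732) (nat_lit 39) (nat_lit 5) (nat_lit 41) (nat_lit 5) (nat_lit 42) (nat_lit 5) (nat_lit 409) (nat_lit 390) (nat_lit 221)) (XT.lf (nat_lit 0) (nat_lit 30183991446) (nat_lit 228) (nat_lit 164780362830) (nat_lit 76) (nat_lit 261457441834) (nat_lit 38) (nat_lit 5) (nat_lit 41) (nat_lit 5) (nat_lit 39) (nat_lit 5) (nat_lit 410) (nat_lit 390) (nat_lit 220)))) (XT.nd (nat_lit 78) (nat_lit 152) (nat_lit 0) (XT.lf (nat_lit 0) (nat_lit 97723282045) (nat_lit 152) (nat_lit 26023966700) (nat_lit 228) (nat_lit 355412182436) (nat_lit 36) (nat_lit 5) (nat_lit 38) (nat_lit 5) (nat_lit 39) (nat_lit 5) (nat_lit 411) (nat_lit 390) (nat_lit 219)) (XT.nd (nat_lit 78) (nat_lit 152) (nat_lit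 0) (XT.lf (nat_lit 0) (nat_lit 233180107081) (nat_lit 228) (nat_lit 116636516495) (nat_lit 76) (nat_lit 153228690272) (nat_lit 36) (nat_lit 5) (nat_lit 39) (nat_lit 5) (nat_lit 37) (nat_lit 5) (nat_lit 412) (nat_lit 390) (nat_lit 218)) (XT.lf (nat_lit 0) (nat_lit 177552978921) (nat_lit 152) (nat_lit 178760665099) (nat_lit 228) (nat_lit 172132739139) (nat_lit 34) (nat_lit 5) (nat_lit 36) (nat_lit 5) (nat_lit 37) (nat_lit 5) (nat_lit 413) (nat_lit 390) (nat_lit 217))))))) (XT.nd (nat_lit 780) (nat_lit 684) (nat_lit 0) (XT.nd (nat_lit 390) (nat_lit 304) (nat_lit 0) (XT.nd (nat_lit 156) (nat_lit 228) (nat_lit 0) (XT.nd (nat_lit 78) (nat_lit 152) (nat_lit 0) (XT.lf (nat_lit 0) (nat_lit 492713509555) (nat_lit 228) (nat_lit 53940285092) (nat_lit 76) (nat_lit 8952491740) (nat_lit 34) (nat_lit 5) (nat_lit 37) (nat_lit 5) (nat_lit 35) (nat_lit 4) (nat_lit 414) (nat_lit 390) (nat_lit 216)) (XT.lf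 (nat_lit 0) (nat_lit 63902890804) (nat_lit 152) (nat_lit 309725483196) (nat_lit 76) (nat_lit 210278849403) (nat_lit 32) (nat_lit 5) (nat_lit 34) (nat_lit 5) (nat_lit 33) (nat_lit 5) (nat_lit 415) (nat_lit 390) (nat_lit 215))) (XT.nd (nat_lit 78) (nat_lit 76) (nat_lit 0) (XT.lf (nat_lit 0) (nat_lit 16416150975) (nat_lit 152) (nat_lit 182936110908) (nat_lit 228) (nat_lit 414836655742) (nat_lit 30) (nat_lit 5) (nat_lit 32) (nat_lit 5) (nat_lit 33) (nat_lit 5) (nat_lit 416) (nat_lit 390) (nat_lit 214)) (XT.nd (nat_lit 78) (nat_lit 76) (nat_lit 0) (XT.lf (nat_lit 0) (nat_lit 354879369274) (nat_lit 228) (nat_lit 260725657209) (nat_lit 76) (nat_lit 30548777989) (nat_lit 30) (nat_lit 5) (nat_lit 33) (nat_lit 5) (nat_lit 31) (nat_lit 4) (nat_lit 417) (nat_lit 390) (nat_lit 213)) (XT.lf (nat_lit 0) (nat_lit 103722165798) (nat_lit 76) (nat_lit 426372546161) (nat_lit 152) (nat_lit 150001484986) (nat_lit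 29) (nat_lit 5) (nat_lit 30) (nat_lit 5) (nat_lit 31) (nat_lit 4) (nat_lit 418) (nat_lit 390) (nat_lit 212))))) (XT.nd (nat_lit 156) (nat_lit 76) (nat_lit 0) (XT.nd (nat_lit 78) (nat_lit 152) (nat_lit 0) (XT.lf (nat_lit 0) (nat_lit 9758396055) (nat_lit 152) (nat_lit 204277291013) (nat_lit 76) (nat_lit 502128236985) (nat_lit 28) (nat_lit 5) (nat_lit 30) (nat_lit 5) (nat_lit 29) (nat_lit 5) (nat_lit 419) (nat_lit 390) (nat_lit 211)) (XT.lf (nat_lit 0) (nat_lit 179694865495) (nat_lit 228) (nat_lit 551118934564) (nat_lit 76) (nat_lit 23551595946) (nat_lit 26) (nat_lit 5) (nat_lit 29) (nat_lit 5) (nat_lit 27) (nat_lit 4) (nat_lit 420) (nat_lit 390) (nat_lit 210))) (XT.nd (nat_lit 78) (nat_lit 76) (nat_lit 0) (XT.lf (nat_lit 0) (nat_lit 374515959729) (nat_lit 228) (nat_lit 145891124545) (nat_lit 76) (nat_lit 274312724870) (nat_lit 26) (nat_lit 5) (nat_lit 29) (nat_lit 5) (nat_lit 27) (nat_lit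 4) (nat_lit 421) (nat_lit 390) (nat_lit 209)) (XT.nd (nat_lit 78) (nat_lit 0) (nat_lit 0) (XT.lf (nat_lit 0) (nat_lit 307118142079) (nat_lit 76) (nat_lit 285190763673) (nat_lit 152) (nat_lit 245402776456) (nat_lit 25) (nat_lit 5) (nat_lit 26) (nat_lit 5) (nat_lit 27) (nat_lit 4) (nat_lit 422) (nat_lit 390) (nat_lit 208)) (XT.lf (nat_lit 0) (nat_lit 804665047617) (nat_lit 76) (nat_lit 26849128382) (nat_lit 152) (nat_lit 52309618043) (nat_lit 25) (nat_lit 5) (nat_lit 26) (nat_lit 5) (nat_lit 27) (nat_lit 4) (nat_lit 423) (nat_lit 390) (nat_lit 207)))))) (XT.nd (nat_lit 390) (nat_lit 304) (nat_lit 0) (XT.nd (nat_lit 156) (nat_lit 228) (nat_lit 0) (XT.nd (nat_lit 78) (nat_lit 0) (nat_lit 0) (XT.lf (nat_lit 0) (nat_lit 165087656455) (nat_lit 152) (nat_lit 512992203133) (nat_lit 76) (nat_lit 253910668878) (nat_lit 23) (nat_lit 5) (nat_lit 25) (nat_lit 5) (nat_lit 24) (nat_lit 4) (nat_lit 424)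 (nat_lit 390) (nat_lit 206)) (XT.lf (nat_lit 0) (nat_lit 399968540570) (nat_lit 152) (nat_lit 24440009087) (nat_lit 76) (nat_lit 559259924228) (nat_lit 23) (nat_lit 5) (nat_lit 25) (nat_lit 5) (nat_lit 24) (nat_lit 4) (nat_lit 425) (nat_lit 390) (nat_lit 205))) (XT.nd (nat_lit 78) (nat_lit 152) (nat_lit 0) (XT.lf (nat_lit 0) (nat_lit 529693732952) (nat_lit 76) (nat_lit 136685280514) (nat_lit 152) (nat_lit 372082512033) (nat_lit 22) (nat_lit 5) (nat_lit 23) (nat_lit 5) (nat_lit 24) (nat_lit 4) (nat_lit 426) (nat_lit 390) (nat_lit 204)) (XT.nd (nat_lit 78) (nat_lit 76) (nat_lit 0) (XT.lf (nat_lit 0) (nat_lit 29221875563) (nat_lit 76) (nat_lit 930454844047) (nat_lit 76) (nat_lit 137515350007) (nat_lit 21) (nat_lit 4) (nat_lit 22) (nat_lit 5) (nat_lit 22) (nat_lit 4) (nat_lit 427) (nat_lit 390) (nat_lit 203)) (XT.lf (nat_lit 0) (nat_lit 127845706532) (nat_lit 152) (nat_lit 527020457462) (nat_lit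 76) (nat_lit 504106287491) (nat_lit 20) (nat_lit 5) (nat_lit 22) (nat_lit 5) (nat_lit 21) (nat_lit 4) (nat_lit 428) (nat_lit 390) (nat_lit 202))))) (XT.nd (nat_lit 234) (nat_lit 152) (nat_lit 0) (XT.nd (nat_lit 78) (nat_lit 76) (nat_lit 0) (XT.lf (nat_lit 0) (nat_lit 56457619764) (nat_lit 76) (nat_lit 351906407823) (nat_lit 152) (nat_lit 816936867685) (nat_lit 19) (nat_lit 5) (nat_lit 20) (nat_lit 5) (nat_lit 21) (nat_lit 4) (nat_lit 429) (nat_lit 390) (nat_lit 201)) (XT.nd (nat_lit 78) (nat_lit 76) (nat_lit 0) (XT.lf (nat_lit 0) (nat_lit 716586015011) (nat_lit 76) (nat_lit 9147446974) (nat_lit 152) (nat_lit 570049380766) (nat_lit 19) (nat_lit 5) (nat_lit 20) (nat_lit 5) (nat_lit 21) (nat_lit 4) (nat_lit 430) (nat_lit 390) (nat_lit 200)) (XT.lf (nat_lit 0) (nat_lit 51515468017) (nat_lit 76) (nat_lit 1026898740974) (nat_lit 76) (nat_lit 292695396414) (nat_lit 18) (nat_lit 4) (nat_lit 19)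 (nat_lit 5) (nat_lit 19) (nat_lit 4) (nat_lit 431) (nat_lit 390) (nat_lit 199)))) (XT.nd (nat_lit 78) (nat_lit 76) (nat_lit 0) (XT.lf (nat_lit 0) (nat_lit 22989567902) (nat_lit 152) (nat_lit 686385065788) (nat_lit 76) (nat_lit 741755888226) (nat_lit 17) (nat_lit 5) (nat_lit 19) (nat_lit 5) (nat_lit 18) (nat_lit 4) (nat_lit 432) (nat_lit 390) (nat_lit 198)) (XT.nd (nat_lit 78) (nat_lit 76) (nat_lit 0) (XT.lf (nat_lit 0) (nat_lit 348116153140) (nat_lit 152) (nat_lit 10121789296) (nat_lit 76) (nat_lit 1178706972877) (nat_lit 17) (nat_lit 5) (nat_lit 19) (nat_lit 5) (nat_lit 18) (nat_lit 4) (nat_lit 433) (nat_lit 390) (nat_lit 197)) (XT.lf (nat_lit 0) (nat_lit 718465244108) (nat_lit 152) (nat_lit 870974951188) (nat_lit 0) (nat_lit 38647274578) (nat_lit 16) (nat_lit 5) (nat_lit 18) (nat_lit 4) (nat_lit 16) (nat_lit 4) (nat_lit 434) (nat_lit 390) (nat_lit 196))))))))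
noncomputable def xc212 : XT := (XT.nd (nat_lit 1560) (nat_lit 0) (nat_lit 0) (XT.nd (nat_lit 780) (nat_lit 304) (nat_lit 0) (XT.nd (nat_lit 390) (nat_lit 228) (nat_lit 0) (XT.nd (nat_lit 156) (nat_lit 152) (nat_lit 0) (XT.nd (nat_lit 78) (nat_lit 76) (nat_lit 0) (XT.lf (nat_lit 0) (nat_lit 1128031059344) (nat_lit 152) (nat_lit 149510192397) (nat_lit 0) (nat_lit 448213073301) (nat_lit 16) (nat_lit 5) (nat_lit 18) (nat_lit 4) (nat_lit 16) (nat_lit 4) (nat_lit 435) (nat_lit 390) (nat_lit 195)) (XT.lf (nat_lit 0) (nat_lit 662829106462) (nat_lit 76) (nat_lit 923474070272) (nat_lit 76) (nat_lit 243656068938) (nat_lit 15) (nat_lit 4) (nat_lit 16) (nat_lit 5) (nat_lit 16) (nat_lit 4) (nat_lit 436) (nat_lit 390) (nat_lit 194))) (XT.nd (nat_lit 78) (nat_lit 76) (nat_lit 0) (XT.lf (nat_lit 0) (nat_lit 135990374961) (nat_lit 152) (nat_lit 396958035572) (nat_lit 76) (nat_lit 1408949697466) (nat_lit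 14) (nat_lit 5) (nat_lit 16) (nat_lit 5) (nat_lit 15) (nat_lit 4) (nat_lit 437) (nat_lit 390) (nat_lit 193)) (XT.nd (nat_lit 78) (nat_lit 0) (nat_lit 0) (XT.lf (nat_lit 0) (nat_lit 451063074778) (nat_lit 76) (nat_lit 92629763384) (nat_lit 152) (nat_lit 1517725098007) (nat_lit 13) (nat_lit 5) (nat_lit 14) (nat_lit 5) (nat_lit 15) (nat_lit 4) (nat_lit 438) (nat_lit 390) (nat_lit 192)) (XT.lf (nat_lit 0) (nat_lit 1004356027103) (nat_lit 152) (nat_lit 809620882930) (nat_lit 0) (nat_lit 374894878270) (nat_lit 13) (nat_lit 5) (nat_lit 15) (nat_lit 4) (nat_lit 13) (nat_lit 4) (nat_lit 439) (nat_lit 390) (nat_lit 191))))) (XT.nd (nat_lit 156) (nat_lit 152) (nat_lit 0) (XT.nd (nat_lit 78) (nat_lit 0) (nat_lit 0) (XT.lf (nat_lit 0) (nat_lit 55544368303) (nat_lit 76) (nat_lit 1450069697968) (nat_lit 76) (nat_lit 820608538728) (nat_lit 12) (nat_lit 4) (nat_lit 13) (nat_lit 5) (nat_lit 13) (nat_lit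 4) (nat_lit 440) (nat_lit 390) (nat_lit 190)) (XT.lf (nat_lit 0) (nat_lit 1035966665559) (nat_lit 76) (nat_lit 1033142537014) (nat_lit 76) (nat_lit 403681368139) (nat_lit 12) (nat_lit 4) (nat_lit 13) (nat_lit 5) (nat_lit 13) (nat_lit 4) (nat_lit 441) (nat_lit 390) (nat_lit 189))) (XT.nd (nat_lit 78) (nat_lit 76) (nat_lit 0) (XT.lf (nat_lit 0) (nat_lit 44268841634) (nat_lit 152) (nat_lit 537381987196) (nat_lit 76) (nat_lit 2049343487605) (nat_lit 11) (nat_lit 5) (nat_lit 13) (nat_lit 5) (nat_lit 12) (nat_lit 4) (nat_lit 442) (nat_lit 390) (nat_lit 188)) (XT.nd (nat_lit 78) (nat_lit 0) (nat_lit 0) (XT.lf (nat_lit 0) (nat_lit 445832367120) (nat_lit 76) (nat_lit 71135687292) (nat_lit 152) (nat_lit 2283189707752) (nat_lit 10) (nat_lit 5) (nat_lit 11) (nat_lit 5) (nat_lit 12) (nat_lit 4) (nat_lit 443) (nat_lit 390) (nat_lit 187)) (XT.lf (nat_lit 0) (nat_lit 1054107120601) (nat_lit 152) (nat_lit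 1455344567655) (nat_lit 0) (nat_lit 471272681984) (nat_lit 10) (nat_lit 5) (nat_lit 12) (nat_lit 4) (nat_lit 10) (nat_lit 4) (nat_lit 444) (nat_lit 390) (nat_lit 186)))))) (XT.nd (nat_lit 390) (nat_lit 76) (nat_lit 0) (XT.nd (nat_lit 156) (nat_lit 152) (nat_lit 0) (XT.nd (nat_lit 78) (nat_lit 76) (nat_lit 0) (XT.lf (nat_lit 0) (nat_lit 1636064979537) (nat_lit 152) (nat_lit 486292979670) (nat_lit 0) (nat_lit 1053230534361) (nat_lit 10) (nat_lit 5) (nat_lit 12) (nat_lit 4) (nat_lit 10) (nat_lit 4) (nat_lit 445) (nat_lit 390) (nat_lit 185)) (XT.lf (nat_lit 0) (nat_lit 589786206531) (nat_lit 76) (nat_lit 1688977621314) (nat_lit 76) (nat_lit 1106143170066) (nat_lit 9) (nat_lit 4) (nat_lit 10) (nat_lit 5) (nat_lit 10) (nat_lit 4) (nat_lit 446) (nat_lit 390) (nat_lit 184))) (XT.nd (nat_lit 78) (nat_lit 152) (nat_lit 0) (XT.lf (nat_lit 0) (nat_lit 1779607617348) (nat_lit 76) (nat_lit 1206567067047)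 (nat_lit 76) (nat_lit 623732610177) (nat_lit 9) (nat_lit 4) (nat_lit 10) (nat_lit 5) (nat_lit 10) (nat_lit 4) (nat_lit 447) (nat_lit 390) (nat_lit 183)) (XT.nd (nat_lit 78) (nat_lit 152) (nat_lit 0) (XT.lf (nat_lit 0) (nat_lit 3064614719801) (nat_lit 76) (nat_lit 685563679046) (nat_lit 76) (nat_lit 102729216970) (nat_lit 9) (nat_lit 4) (nat_lit 10) (nat_lit 5) (nat_lit 10) (nat_lit 4) (nat_lit 448) (nat_lit 390) (nat_lit 182)) (XT.lf (nat_lit 0) (nat_lit 343179732055) (nat_lit 76) (nat_lit 102019402056) (nat_lit 152) (nat_lit 3668603597752) (nat_lit 7) (nat_lit 5) (nat_lit 8) (nat_lit 5) (nat_lit 9) (nat_lit 4) (nat_lit 449) (nat_lit 390) (nat_lit 181))))) (XT.nd (nat_lit 156) (nat_lit 76) (nat_lit 0) (XT.nd (nat_lit 78) (nat_lit 0) (nat_lit 0) (XT.lf (nat_lit 0) (nat_lit 1066228273720) (nat_lit 152) (nat_lit 2799775668683) (nat_lit 0) (nat_lit 526566726165) (nat_lit 7) (nat_lit 5) (nat_lit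 9) (nat_lit 4) (nat_lit 7) (nat_lit 4) (nat_lit 450) (nat_lit 390) (nat_lit 180)) (XT.lf (nat_lit 0) (nat_lit 1739589589788) (nat_lit 152) (nat_lit 1753910424395) (nat_lit 0) (nat_lit 1199928038406) (nat_lit 7) (nat_lit 5) (nat_lit 9) (nat_lit 4) (nat_lit 7) (nat_lit 4) (nat_lit 451) (nat_lit 390) (nat_lit 179))) (XT.nd (nat_lit 78) (nat_lit 76) (nat_lit 0) (XT.lf (nat_lit 0) (nat_lit 2466819802520) (nat_lit 152) (nat_lit 624375977905) (nat_lit 0) (nat_lit 1927158247595) (nat_lit 7) (nat_lit 5) (nat_lit 9) (nat_lit 4) (nat_lit 7) (nat_lit 4) (nat_lit 452) (nat_lit 390) (nat_lit 178)) (XT.nd (nat_lit 78) (nat_lit 0) (nat_lit 0) (XT.lf (nat_lit 0) (nat_lit 626880299720) (nat_lit 76) (nat_lit 2640424610854) (nat_lit 76) (nat_lit 2100763052649) (nat_lit 6) (nat_lit 4) (nat_lit 7) (nat_lit 5) (nat_lit 7) (nat_lit 4) (nat_lit 453) (nat_lit 390) (nat_lit 177)) (XT.lf (nat_lit 0) (nat_lit 2013745879014)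 (nat_lit 76) (nat_lit 2135154486218) (nat_lit 76) (nat_lit 1595492924975) (nat_lit 6) (nat_lit 4) (nat_lit 7) (nat_lit 5) (nat_lit 7) (nat_lit 4) (nat_lit 454) (nat_lit 390) (nat_lit 176))))))) (XT.nd (nat_lit 48750) (nat_lit 0) (nat_lit 2660) (XT.nd (nat_lit 48360) (nat_lit 0) (nat_lit 4028) (XT.nd (nat_lit 48126) (nat_lit 0) (nat_lit 4408) (XT.nd (nat_lit 78) (nat_lit 0) (nat_lit 0) (XT.lf (nat_lit 0) (nat_lit 3511560690161) (nat_lit 76) (nat_lit 1589462758909) (nat_lit 76) (nat_lit 1049801194854) (nat_lit 6) (nat_lit 4) (nat_lit 7) (nat_lit 5) (nat_lit 7) (nat_lit 4) (nat_lit 455) (nat_lit 390) (nat_lit 175)) (XT.lf (nat_lit 0) (nat_lit 5129200672782) (nat_lit 76) (nat_lit 1000115700175) (nat_lit 76) (nat_lit 460454133515) (nat_lit 6) (nat_lit 4) (nat_lit 7) (nat_lit 5) (nat_lit 7) (nat_lit 4) (nat_lit 456) (nat_lit 390) (nat_lit 174))) (XT.nd (nat_lit 78) (nat_lit 0) (nat_lit 0) (XT.lf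 (nat_lit 0) (nat_lit 90830730778) (nat_lit 532) (nat_lit 6087138476) (nat_lit 532) (nat_lit 6087138476) (nat_lit 64) (nat_lit 3) (nat_lit 71) (nat_lit 3) (nat_lit 71) (nat_lit 5) (nat_lit 391) (nat_lit 391) (nat_lit 238)) (XT.nd (nat_lit 78) (nat_lit 0) (nat_lit 76) (XT.lf (nat_lit 76) (nat_lit 92584570264) (nat_lit 0) (nat_lit 98571453477) (nat_lit 532) (nat_lit 22916142675) (nat_lit 65) (nat_lit 5) (nat_lit 64) (nat_lit 3) (nat_lit 71) (nat_lit 5) (nat_lit 392) (nat_lit 391) (nat_lit 237)) (XT.lf (nat_lit 0) (nat_lit 201855269517) (nat_lit 456) (nat_lit 16448665530) (nat_lit 532) (nat_lit 4439745050) (nat_lit 65) (nat_lit 5) (nat_lit 71) (nat_lit 5) (nat_lit 72) (nat_lit 5) (nat_lit 393) (nat_lit 391) (nat_lit 236))))) (XT.nd (nat_lit 156) (nat_lit 456) (nat_lit 0) (XT.nd (nat_lit 78) (nat_lit 0) (nat_lit 0) (XT.lf (nat_lit 76) (nat_lit 99405667720) (nat_lit 0) (nat_lit 118955659389)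 (nat_lit 532) (nat_lit 13351518116) (nat_lit 66) (nat_lit 5) (nat_lit 65) (nat_lit 5) (nat_lit 72) (nat_lit 5) (nat_lit 394) (nat_lit 391) (nat_lit 235)) (XT.lf (nat_lit 76) (nat_lit 225463711629) (nat_lit 0) (nat_lit 11173767165) (nat_lit 532) (nat_lit 4726096127) (nat_lit 66) (nat_lit 5) (nat_lit 65) (nat_lit 5) (nat_lit 72) (nat_lit 5) (nat_lit 395) (nat_lit 391) (nat_lit 234))) (XT.nd (nat_lit 78) (nat_lit 0) (nat_lit 0) (XT.lf (nat_lit 0) (nat_lit 9742928634) (nat_lit 532) (nat_lit 138674468418) (nat_lit 608) (nat_lit 102929484316) (nat_lit 59) (nat_lit 5) (nat_lit 66) (nat_lit 5) (nat_lit 67) (nat_lit 5) (nat_lit 396) (nat_lit 391) (nat_lit 233)) (XT.nd (nat_lit 78) (nat_lit 0) (nat_lit 76) (XT.lf (nat_lit 0) (nat_lit 25850280882) (nat_lit 532) (nat_lit 10083732325) (nat_lit 608) (nat_lit 226126127760) (nat_lit 59) (nat_lit 5) (nat_lit 66) (nat_lit 5) (nat_lit 67) (nat_lit 5) (nat_lit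 397) (nat_lit 391) (nat_lit 232)) (XT.lf (nat_lit 0) (nat_lit 48648853360) (nat_lit 532) (nat_lit 139935496088) (nat_lit 76) (nat_lit 84613901409) (nat_lit 60) (nat_lit 5) (nat_lit 67) (nat_lit 5) (nat_lit 61) (nat_lit 5) (nat_lit 398) (nat_lit 391) (nat_lit 231)))))) (XT.nd (nat_lit 390) (nat_lit 608) (nat_lit 0) (XT.nd (nat_lit 156) (nat_lit 456) (nat_lit 0) (XT.nd (nat_lit 78) (nat_lit 0) (nat_lit 0) (XT.lf (nat_lit 0) (nat_lit 2636354569) (nat_lit 380) (nat_lit 71914482707) (nat_lit 456) (nat_lit 210574210290) (nat_lit 55) (nat_lit 5) (nat_lit 60) (nat_lit 5) (nat_lit 61) (nat_lit 5) (nat_lit 399) (nat_lit 391) (nat_lit 230)) (XT.lf (nat_lit 0) (nat_lit 107751191346) (nat_lit 456) (nat_lit 134528010467) (nat_lit 76) (nat_lit 55308689356) (nat_lit 55) (nat_lit 5) (nat_lit 61) (nat_lit 5) (nat_lit 56) (nat_lit 5) (nat_lit 400) (nat_lit 391) (nat_lit 229))) (XT.nd (nat_lit 78) (nat_lit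 228) (nat_lit 0) (XT.lf (nat_lit 0) (nat_lit 24633810024) (nat_lit 228) (nat_lit 121434030029) (nat_lit 304) (nat_lit 164783100973) (nat_lit 52) (nat_lit 5) (nat_lit 55) (nat_lit 5) (nat_lit 56) (nat_lit 5) (nat_lit 401) (nat_lit 391) (nat_lit 228)) (XT.nd (nat_lit 78) (nat_lit 228) (nat_lit 0) (XT.lf (nat_lit 0) (nat_lit 191441855733) (nat_lit 304) (nat_lit 121015450744) (nat_lit 76) (nat_lit 12398365651) (nat_lit 52) (nat_lit 5) (nat_lit 56) (nat_lit 5) (nat_lit 53) (nat_lit 5) (nat_lit 402) (nat_lit 391) (nat_lit 227)) (XT.lf (nat_lit 0) (nat_lit 57104756435) (nat_lit 228) (nat_lit 187868461744) (nat_lit 304) (nat_lit 94645369557) (nat_lit 49) (nat_lit 5) (nat_lit 52) (nat_lit 5) (nat_lit 53) (nat_lit 5) (nat_lit 403) (nat_lit 391) (nat_lit 226))))) (XT.nd (nat_lit 234) (nat_lit 380) (nat_lit 0) (XT.nd (nat_lit 78) (nat_lit 228) (nat_lit 0) (XT.lf (nat_lit 0) (nat_lit 256356750290)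 (nat_lit 228) (nat_lit 49739043868) (nat_lit 304) (nat_lit 49202046125) (nat_lit 49) (nat_lit 5) (nat_lit 52) (nat_lit 5) (nat_lit 53) (nat_lit 5) (nat_lit 404) (nat_lit 391) (nat_lit 225)) (XT.nd (nat_lit 78) (nat_lit 0) (nat_lit 0) (XT.lf (nat_lit 0) (nat_lit 4854064157) (nat_lit 228) (nat_lit 269936919702) (nat_lit 76) (nat_lit 97042993953) (nat_lit 46) (nat_lit 5) (nat_lit 49) (nat_lit 5) (nat_lit 47) (nat_lit 5) (nat_lit 405) (nat_lit 391) (nat_lit 224)) (XT.lf (nat_lit 0) (nat_lit 64643822334) (nat_lit 228) (nat_lit 67687712807) (nat_lit 76) (nat_lit 256933845427) (nat_lit 46) (nat_lit 5) (nat_lit 49) (nat_lit 5) (nat_lit 47) (nat_lit 5) (nat_lit 406) (nat_lit 391) (nat_lit 223)))) (XT.nd (nat_lit 78) (nat_lit 152) (nat_lit 0) (XT.lf (nat_lit 0) (nat_lit 133649728198) (nat_lit 304) (nat_lit 249723669466) (nat_lit 76) (nat_lit 24363260556) (nat_lit 43) (nat_lit 5) (nat_lit 47) (nat_lit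 5) (nat_lit 44) (nat_lit 5) (nat_lit 407) (nat_lit 391) (nat_lit 222)) (XT.nd (nat_lit 78) (nat_lit 152) (nat_lit 0) (XT.lf (nat_lit 0) (nat_lit 213512002559) (nat_lit 304) (nat_lit 25403710006) (nat_lit 76) (nat_lit 188343053874) (nat_lit 43) (nat_lit 5) (nat_lit 47) (nat_lit 5) (nat_lit 44) (nat_lit 5) (nat_lit 408) (nat_lit 391) (nat_lit 221)) (XT.lf (nat_lit 0) (nat_lit 228281326977) (nat_lit 152) (nat_lit 76972048753) (nat_lit 228) (nat_lit 142650058272) (nat_lit 41) (nat_lit 5) (nat_lit 43) (nat_lit 5) (nat_lit 44) (nat_lit 5) (nat_lit 409) (nat_lit 391) (nat_lit 220))))))))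
noncomputable def xc213 : XT := (XT.nd (nat_lit 1560) (nat_lit 988) (nat_lit 0) (XT.nd (nat_lit 780) (nat_lit 684) (nat_lit 0) (XT.nd (nat_lit 390) (nat_lit 380) (nat_lit 0) (XT.nd (nat_lit 156) (nat_lit 304) (nat_lit 0) (XT.nd (nat_lit 78) (nat_lit 76) (nat_lit 0) (XT.lf (nat_lit 0) (nat_lit 32830854405) (nat_lit 152) (nat_lit 375360507249) (nat_lit 228) (nat_lit 61699729114) (nat_lit 39) (nat_lit 5) (nat_lit 41) (nat_lit 5) (nat_lit 42) (nat_lit 5) (nat_lit 410) (nat_lit 391) (nat_lit 219)) (XT.lf (nat_lit 0) (nat_lit 32599726213) (nat_lit 228) (nat_lit 177961263531) (nat_lit 76) (nat_lit 282374468290) (nat_lit 38) (nat_lit 5) (nat_lit 41) (nat_lit 5) (nat_lit 39) (nat_lit 5) (nat_lit 411) (nat_lit 391) (nat_lit 218))) (XT.nd (nat_lit 78) (nat_lit 152) (nat_lit 0) (XT.lf (nat_lit 0) (nat_lit 105542634242) (nat_lit 152) (nat_lit 28105370461) (nat_lit 228) (nat_lit 383844102398) (nat_lit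 36) (nat_lit 5) (nat_lit 38) (nat_lit 5) (nat_lit 39) (nat_lit 5) (nat_lit 412) (nat_lit 391) (nat_lit 217)) (XT.nd (nat_lit 78) (nat_lit 152) (nat_lit 0) (XT.lf (nat_lit 0) (nat_lit 251835430842) (nat_lit 228) (nat_lit 125965997206) (nat_lit 76) (nat_lit 165487437239) (nat_lit 36) (nat_lit 5) (nat_lit 39) (nat_lit 5) (nat_lit 37) (nat_lit 5) (nat_lit 413) (nat_lit 391) (nat_lit 216)) (XT.lf (nat_lit 0) (nat_lit 191758621372) (nat_lit 152) (nat_lit 193060995341) (nat_lit 228) (nat_lit 185902406184) (nat_lit 34) (nat_lit 5) (nat_lit 36) (nat_lit 5) (nat_lit 37) (nat_lit 5) (nat_lit 414) (nat_lit 391) (nat_lit 215))))) (XT.nd (nat_lit 156) (nat_lit 228) (nat_lit 0) (XT.nd (nat_lit 78) (nat_lit 152) (nat_lit 0) (XT.lf (nat_lit 0) (nat_lit 532131417865) (nat_lit 228) (nat_lit 58254153757) (nat_lit 76) (nat_lit 9669151083) (nat_lit 34) (nat_lit 5) (nat_lit 37) (nat_lit 5) (nat_lit 35) (nat_lit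 4) (nat_lit 415) (nat_lit 391) (nat_lit 214)) (XT.lf (nat_lit 0) (nat_lit 69015941126) (nat_lit 152) (nat_lit 334502158528) (nat_lit 76) (nat_lit 227101635764) (nat_lit 32) (nat_lit 5) (nat_lit 34) (nat_lit 5) (nat_lit 33) (nat_lit 5) (nat_lit 416) (nat_lit 391) (nat_lit 213))) (XT.nd (nat_lit 78) (nat_lit 76) (nat_lit 0) (XT.lf (nat_lit 0) (nat_lit 17730771862) (nat_lit 152) (nat_lit 197570461316) (nat_lit 228) (nat_lit 448022734320) (nat_lit 30) (nat_lit 5) (nat_lit 32) (nat_lit 5) (nat_lit 33) (nat_lit 5) (nat_lit 417) (nat_lit 391) (nat_lit 212)) (XT.nd (nat_lit 78) (nat_lit 76) (nat_lit 0) (XT.lf (nat_lit 0) (nat_lit 383270462607) (nat_lit 228) (nat_lit 281582432567) (nat_lit 76) (nat_lit 32993153865) (nat_lit 30) (nat_lit 5) (nat_lit 33) (nat_lit 5) (nat_lit 31) (nat_lit 4) (nat_lit 418) (nat_lit 391) (nat_lit 211)) (XT.lf (nat_lit 0) (nat_lit 112021183946) (nat_lit 76) (nat_lit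 460481823606) (nat_lit 152) (nat_lit 162000827394) (nat_lit 29) (nat_lit 5) (nat_lit 30) (nat_lit 5) (nat_lit 31) (nat_lit 4) (nat_lit 419) (nat_lit 391) (nat_lit 210)))))) (XT.nd (nat_lit 390) (nat_lit 380) (nat_lit 0) (XT.nd (nat_lit 156) (nat_lit 76) (nat_lit 0) (XT.nd (nat_lit 78) (nat_lit 152) (nat_lit 0) (XT.lf (nat_lit 0) (nat_lit 10539750659) (nat_lit 152) (nat_lit 220618285436) (nat_lit 76) (nat_lit 542298947022) (nat_lit 28) (nat_lit 5) (nat_lit 30) (nat_lit 5) (nat_lit 29) (nat_lit 5) (nat_lit 420) (nat_lit 391) (nat_lit 209)) (XT.lf (nat_lit 0) (nat_lit 194071126925) (nat_lit 228) (nat_lit 595207249533) (nat_lit 76) (nat_lit 25436197242) (nat_lit 26) (nat_lit 5) (nat_lit 29) (nat_lit 5) (nat_lit 27) (nat_lit 4) (nat_lit 421) (nat_lit 391) (nat_lit 208))) (XT.nd (nat_lit 78) (nat_lit 76) (nat_lit 0) (XT.lf (nat_lit 0) (nat_lit 404477858907) (nat_lit 228) (nat_lit 157561303587)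 (nat_lit 76) (nat_lit 296258181397) (nat_lit 26) (nat_lit 5) (nat_lit 29) (nat_lit 5) (nat_lit 27) (nat_lit 4) (nat_lit 422) (nat_lit 391) (nat_lit 207)) (XT.nd (nat_lit 78) (nat_lit 0) (nat_lit 0) (XT.lf (nat_lit 0) (nat_lit 331688676243) (nat_lit 76) (nat_lit 308005544306) (nat_lit 152) (nat_lit 265034347869) (nat_lit 25) (nat_lit 5) (nat_lit 26) (nat_lit 5) (nat_lit 27) (nat_lit 4) (nat_lit 423) (nat_lit 391) (nat_lit 206)) (XT.lf (nat_lit 0) (nat_lit 869039254017) (nat_lit 76) (nat_lit 28996613781) (nat_lit 152) (nat_lit 56493784983) (nat_lit 25) (nat_lit 5) (nat_lit 26) (nat_lit 5) (nat_lit 27) (nat_lit 4) (nat_lit 424) (nat_lit 391) (nat_lit 205))))) (XT.nd (nat_lit 156) (nat_lit 228) (nat_lit 0) (XT.nd (nat_lit 78) (nat_lit 0) (nat_lit 0) (XT.lf (nat_lit 0) (nat_lit 178295234034) (nat_lit 152) (nat_lit 554030539055) (nat_lit 76) (nat_lit 274223952306) (nat_lit 23) (nat_lit 5) (nat_lit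 25) (nat_lit 5) (nat_lit 24) (nat_lit 4) (nat_lit 425) (nat_lit 391) (nat_lit 204)) (XT.lf (nat_lit 0) (nat_lit 431966547021) (nat_lit 152) (nat_lit 26394246546) (nat_lit 76) (nat_lit 604001116238) (nat_lit 23) (nat_lit 5) (nat_lit 25) (nat_lit 5) (nat_lit 24) (nat_lit 4) (nat_lit 426) (nat_lit 391) (nat_lit 203))) (XT.nd (nat_lit 78) (nat_lit 152) (nat_lit 0) (XT.lf (nat_lit 0) (nat_lit 572070170470) (nat_lit 76) (nat_lit 147619671104) (nat_lit 152) (nat_lit 401848565280) (nat_lit 22) (nat_lit 5) (nat_lit 23) (nat_lit 5) (nat_lit 24) (nat_lit 4) (nat_lit 427) (nat_lit 391) (nat_lit 202)) (XT.nd (nat_lit 78) (nat_lit 76) (nat_lit 0) (XT.lf (nat_lit 0) (nat_lit 31560570252) (nat_lit 76) (nat_lit 1004890788734) (nat_lit 76) (nat_lit 148516035941) (nat_lit 21) (nat_lit 4) (nat_lit 22) (nat_lit 5) (nat_lit 22) (nat_lit 4) (nat_lit 428) (nat_lit 391) (nat_lit 201)) (XT.lf (nat_lit 0) (nat_lit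 138073839860) (nat_lit 152) (nat_lit 569181194184) (nat_lit 76) (nat_lit 544435175319) (nat_lit 20) (nat_lit 5) (nat_lit 22) (nat_lit 5) (nat_lit 21) (nat_lit 4) (nat_lit 429) (nat_lit 391) (nat_lit 200))))))) (XT.nd (nat_lit 780) (nat_lit 456) (nat_lit 0) (XT.nd (nat_lit 390) (nat_lit 304) (nat_lit 0) (XT.nd (nat_lit 156) (nat_lit 152) (nat_lit 0) (XT.nd (nat_lit 78) (nat_lit 0) (nat_lit 0) (XT.lf (nat_lit 0) (nat_lit 60975106438) (nat_lit 76) (nat_lit 380058505935) (nat_lit 152) (nat_lit 882291317422) (nat_lit 19) (nat_lit 5) (nat_lit 20) (nat_lit 5) (nat_lit 21) (nat_lit 4) (nat_lit 430) (nat_lit 391) (nat_lit 199)) (XT.lf (nat_lit 0) (nat_lit 773913708335) (nat_lit 76) (nat_lit 9878858923) (nat_lit 152) (nat_lit 615652868563) (nat_lit 19) (nat_lit 5) (nat_lit 20) (nat_lit 5) (nat_lit 21) (nat_lit 4) (nat_lit 431) (nat_lit 391) (nat_lit 198))) (XT.nd (nat_lit 78) (nat_lit 76) (nat_lit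 0) (XT.lf (nat_lit 0) (nat_lit 55637521504) (nat_lit 76) (nat_lit 1109050248967) (nat_lit 76) (nat_lit 316110569308) (nat_lit 18) (nat_lit 4) (nat_lit 19) (nat_lit 5) (nat_lit 19) (nat_lit 4) (nat_lit 432) (nat_lit 391) (nat_lit 197)) (XT.nd (nat_lit 78) (nat_lit 0) (nat_lit 0) (XT.lf (nat_lit 0) (nat_lit 24829136915) (nat_lit 152) (nat_lit 741295094135) (nat_lit 76) (nat_lit 801096700267) (nat_lit 17) (nat_lit 5) (nat_lit 19) (nat_lit 5) (nat_lit 18) (nat_lit 4) (nat_lit 433) (nat_lit 391) (nat_lit 196)) (XT.lf (nat_lit 0) (nat_lit 375965819077) (nat_lit 152) (nat_lit 10930813074) (nat_lit 76) (nat_lit 1273003846432) (nat_lit 17) (nat_lit 5) (nat_lit 19) (nat_lit 5) (nat_lit 18) (nat_lit 4) (nat_lit 434) (nat_lit 391) (nat_lit 195))))) (XT.nd (nat_lit 156) (nat_lit 228) (nat_lit 0) (XT.nd (nat_lit 78) (nat_lit 0) (nat_lit 0) (XT.lf (nat_lit 0) (nat_lit 775942834640) (nat_lit 152) (nat_lit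 940652225177) (nat_lit 0) (nat_lit 41739377909) (nat_lit 16) (nat_lit 5) (nat_lit 18) (nat_lit 4) (nat_lit 16) (nat_lit 4) (nat_lit 435) (nat_lit 391) (nat_lit 194)) (XT.lf (nat_lit 0) (nat_lit 1218273887614) (nat_lit 152) (nat_lit 161470339173) (nat_lit 0) (nat_lit 484070416724) (nat_lit 16) (nat_lit 5) (nat_lit 18) (nat_lit 4) (nat_lit 16) (nat_lit 4) (nat_lit 436) (nat_lit 391) (nat_lit 193))) (XT.nd (nat_lit 78) (nat_lit 152) (nat_lit 0) (XT.lf (nat_lit 0) (nat_lit 715856086668) (nat_lit 76) (nat_lit 997351677954) (nat_lit 76) (nat_lit 263148193955) (nat_lit 15) (nat_lit 4) (nat_lit 16) (nat_lit 5) (nat_lit 16) (nat_lit 4) (nat_lit 437) (nat_lit 391) (nat_lit 192)) (XT.nd (nat_lit 78) (nat_lit 76) (nat_lit 0) (XT.lf (nat_lit 0) (nat_lit 146869922054) (nat_lit 152) (nat_lit 428714058263) (nat_lit 76) (nat_lit 1521665950912) (nat_lit 14) (nat_lit 5) (nat_lit 16) (nat_lit 5) (nat_lit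 15) (nat_lit 4) (nat_lit 438) (nat_lit 391) (nat_lit 191)) (XT.lf (nat_lit 0) (nat_lit 487148725216) (nat_lit 76) (nat_lit 100039848145) (nat_lit 152) (nat_lit 1639142773013) (nat_lit 13) (nat_lit 5) (nat_lit 14) (nat_lit 5) (nat_lit 15) (nat_lit 4) (nat_lit 439) (nat_lit 391) (nat_lit 190)))))) (XT.nd (nat_lit 390) (nat_lit 228) (nat_lit 0) (XT.nd (nat_lit 156) (nat_lit 152) (nat_lit 0) (XT.nd (nat_lit 78) (nat_lit 76) (nat_lit 0) (XT.lf (nat_lit 0) (nat_lit 1084704801189) (nat_lit 152) (nat_lit 874389977621) (nat_lit 0) (nat_lit 404886729168) (nat_lit 13) (nat_lit 5) (nat_lit 15) (nat_lit 4) (nat_lit 13) (nat_lit 4) (nat_lit 440) (nat_lit 391) (nat_lit 189)) (XT.lf (nat_lit 0) (nat_lit 59988479130) (nat_lit 76) (nat_lit 1566074996237) (nat_lit 76) (nat_lit 886256915295) (nat_lit 12) (nat_lit 4) (nat_lit 13) (nat_lit 5) (nat_lit 13) (nat_lit 4) (nat_lit 441) (nat_lit 391) (nat_lit 188)))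 (XT.nd (nat_lit 78) (nat_lit 152) (nat_lit 0) (XT.lf (nat_lit 0) (nat_lit 1118844518584) (nat_lit 76) (nat_lit 1115793682969) (nat_lit 76) (nat_lit 435975593765) (nat_lit 12) (nat_lit 4) (nat_lit 13) (nat_lit 5) (nat_lit 13) (nat_lit 4) (nat_lit 442) (nat_lit 391) (nat_lit 187)) (XT.nd (nat_lit 78) (nat_lit 76) (nat_lit 0) (XT.lf (nat_lit 0) (nat_lit 47810598620) (nat_lit 152) (nat_lit 580372051721) (nat_lit 76) (nat_lit 2213291191410) (nat_lit 11) (nat_lit 5) (nat_lit 13) (nat_lit 5) (nat_lit 12) (nat_lit 4) (nat_lit 443) (nat_lit 391) (nat_lit 186)) (XT.lf (nat_lit 0) (nat_lit 481499438423) (nat_lit 76) (nat_lit 76826303095) (nat_lit 152) (nat_lit 2465844622174) (nat_lit 10) (nat_lit 5) (nat_lit 11) (nat_lit 5) (nat_lit 12) (nat_lit 4) (nat_lit 444) (nat_lit 391) (nat_lit 185))))) (XT.nd (nat_lit 234) (nat_lit 152) (nat_lit 0) (XT.nd (nat_lit 78) (nat_lit 76) (nat_lit 0) (XT.lf (nat_lit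 0) (nat_lit 1138435920347) (nat_lit 152) (nat_lit 1571771674156) (nat_lit 0) (nat_lit 508974706927) (nat_lit 10) (nat_lit 5) (nat_lit 12) (nat_lit 4) (nat_lit 10) (nat_lit 4) (nat_lit 445) (nat_lit 391) (nat_lit 184)) (XT.nd (nat_lit 78) (nat_lit 76) (nat_lit 0) (XT.lf (nat_lit 0) (nat_lit 1766950390953) (nat_lit 152) (nat_lit 525195993124) (nat_lit 0) (nat_lit 1137489171911) (nat_lit 10) (nat_lit 5) (nat_lit 12) (nat_lit 4) (nat_lit 10) (nat_lit 4) (nat_lit 446) (nat_lit 391) (nat_lit 183)) (XT.lf (nat_lit 0) (nat_lit 636969517215) (nat_lit 76) (nat_lit 1824095624090) (nat_lit 76) (nat_lit 1194634399842) (nat_lit 9) (nat_lit 4) (nat_lit 10) (nat_lit 5) (nat_lit 10) (nat_lit 4) (nat_lit 447) (nat_lit 391) (nat_lit 182)))) (XT.nd (nat_lit 78) (nat_lit 152) (nat_lit 0) (XT.lf (nat_lit 0) (nat_lit 1921976610218) (nat_lit 76) (nat_lit 1303092240810) (nat_lit 76) (nat_lit 673631011742) (nat_lit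 9) (nat_lit 4) (nat_lit 10) (nat_lit 5) (nat_lit 10) (nat_lit 4) (nat_lit 448) (nat_lit 391) (nat_lit 181)) (XT.nd (nat_lit 78) (nat_lit 152) (nat_lit 0) (XT.lf (nat_lit 0) (nat_lit 3309784252462) (nat_lit 76) (nat_lit 740408595961) (nat_lit 76) (nat_lit 110947362429) (nat_lit 9) (nat_lit 4) (nat_lit 10) (nat_lit 5) (nat_lit 10) (nat_lit 4) (nat_lit 449) (nat_lit 391) (nat_lit 180)) (XT.lf (nat_lit 0) (nat_lit 370634466078) (nat_lit 76) (nat_lit 110180776105) (nat_lit 152) (nat_lit 3962091694027) (nat_lit 7) (nat_lit 5) (nat_lit 8) (nat_lit 5) (nat_lit 9) (nat_lit 4) (nat_lit 450) (nat_lit 391) (nat_lit 179))))))))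
noncomputable def xc214 : XT := (XT.nd (nat_lit 49608) (nat_lit 0) (nat_lit 1292) (XT.nd (nat_lit 48828) (nat_lit 0) (nat_lit 3268) (XT.nd (nat_lit 390) (nat_lit 0) (nat_lit 0) (XT.nd (nat_lit 156) (nat_lit 76) (nat_lit 0) (XT.nd (nat_lit 78) (nat_lit 0) (nat_lit 0) (XT.lf (nat_lit 0) (nat_lit 1151526703791) (nat_lit 152) (nat_lit 3023757383866) (nat_lit 0) (nat_lit 568692220930) (nat_lit 7) (nat_lit 5) (nat_lit 9) (nat_lit 4) (nat_lit 7) (nat_lit 4) (nat_lit 451) (nat_lit 391) (nat_lit 178)) (XT.lf (nat_lit 0) (nat_lit 1878756912687) (nat_lit 152) (nat_lit 1894222945095) (nat_lit 0) (nat_lit 1295922426544) (nat_lit 7) (nat_lit 5) (nat_lit 9) (nat_lit 4) (nat_lit 7) (nat_lit 4) (nat_lit 452) (nat_lit 391) (nat_lit 177))) (XT.nd (nat_lit 78) (nat_lit 76) (nat_lit 0) (XT.lf (nat_lit 0) (nat_lit 2664165530903) (nat_lit 152) (nat_lit 674325766089) (nat_lit 0) (nat_lit 2081331041724) (nat_lit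 7) (nat_lit 5) (nat_lit 9) (nat_lit 4) (nat_lit 7) (nat_lit 4) (nat_lit 453) (nat_lit 391) (nat_lit 176)) (XT.nd (nat_lit 78) (nat_lit 0) (nat_lit 0) (XT.lf (nat_lit 0) (nat_lit 677031006402) (nat_lit 76) (nat_lit 2851658437318) (nat_lit 76) (nat_lit 2268823945326) (nat_lit 6) (nat_lit 4) (nat_lit 7) (nat_lit 5) (nat_lit 7) (nat_lit 4) (nat_lit 454) (nat_lit 391) (nat_lit 175)) (XT.lf (nat_lit 0) (nat_lit 2174845811099) (nat_lit 76) (nat_lit 2305966713259) (nat_lit 76) (nat_lit 1723132218662) (nat_lit 6) (nat_lit 4) (nat_lit 7) (nat_lit 5) (nat_lit 7) (nat_lit 4) (nat_lit 455) (nat_lit 391) (nat_lit 174))))) (XT.nd (nat_lit 48204) (nat_lit 0) (nat_lit 4408) (XT.nd (nat_lit 48126) (nat_lit 0) (nat_lit 4408) (XT.lf (nat_lit 0) (nat_lit 3792485787748) (nat_lit 76) (nat_lit 1716619657533) (nat_lit 76) (nat_lit 1133785160525) (nat_lit 6) (nat_lit 4) (nat_lit 7) (nat_lit 5) (nat_lit 7) (nat_lit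 4) (nat_lit 456) (nat_lit 391) (nat_lit 173)) (XT.lf (nat_lit 0) (nat_lit 98098597128) (nat_lit 532) (nat_lit 6573348628) (nat_lit 532) (nat_lit 6573348628) (nat_lit 64) (nat_lit 3) (nat_lit 71) (nat_lit 3) (nat_lit 71) (nat_lit 5) (nat_lit 392) (nat_lit 392) (nat_lit 236))) (XT.nd (nat_lit 78) (nat_lit 0) (nat_lit 76) (XT.lf (nat_lit 76) (nat_lit 99992819209) (nat_lit 0) (nat_lit 106458329307) (nat_lit 532) (nat_lit 24746577317) (nat_lit 65) (nat_lit 5) (nat_lit 64) (nat_lit 3) (nat_lit 71) (nat_lit 5) (nat_lit 393) (nat_lit 392) (nat_lit 235)) (XT.nd (nat_lit 78) (nat_lit 0) (nat_lit 0) (XT.lf (nat_lit 0) (nat_lit 218006112363) (nat_lit 456) (nat_lit 17762961451) (nat_lit 532) (nat_lit 4793904704) (nat_lit 65) (nat_lit 5) (nat_lit 71) (nat_lit 5) (nat_lit 72) (nat_lit 5) (nat_lit 394) (nat_lit 392) (nat_lit 234)) (XT.lf (nat_lit 76) (nat_lit 107359678020) (nat_lit 0) (nat_lit 128472834631)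 (nat_lit 532) (nat_lit 14417175727) (nat_lit 66) (nat_lit 5) (nat_lit 65) (nat_lit 5) (nat_lit 72) (nat_lit 5) (nat_lit 395) (nat_lit 392) (nat_lit 233)))))) (XT.nd (nat_lit 390) (nat_lit 456) (nat_lit 0) (XT.nd (nat_lit 156) (nat_lit 304) (nat_lit 0) (XT.nd (nat_lit 78) (nat_lit 456) (nat_lit 0) (XT.lf (nat_lit 76) (nat_lit 243502250117) (nat_lit 0) (nat_lit 12068337512) (nat_lit 532) (nat_lit 5101902486) (nat_lit 66) (nat_lit 5) (nat_lit 65) (nat_lit 5) (nat_lit 72) (nat_lit 5) (nat_lit 396) (nat_lit 392) (nat_lit 232)) (XT.lf (nat_lit 0) (nat_lit 10524393481) (nat_lit 532) (nat_lit 149766730066) (nat_lit 608) (nat_lit 111163344207) (nat_lit 59) (nat_lit 5) (nat_lit 66) (nat_lit 5) (nat_lit 67) (nat_lit 5) (nat_lit 397) (nat_lit 392) (nat_lit 231))) (XT.nd (nat_lit 78) (nat_lit 304) (nat_lit 0) (XT.lf (nat_lit 0) (nat_lit 27920183497) (nat_lit 532) (nat_lit 10888860703) (nat_lit 608)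 (nat_lit 244215756079) (nat_lit 59) (nat_lit 5) (nat_lit 66) (nat_lit 5) (nat_lit 67) (nat_lit 5) (nat_lit 398) (nat_lit 392) (nat_lit 230)) (XT.nd (nat_lit 78) (nat_lit 380) (nat_lit 0) (XT.lf (nat_lit 0) (nat_lit 52542533365) (nat_lit 532) (nat_lit 151128655719) (nat_lit 76) (nat_lit 91382778663) (nat_lit 60) (nat_lit 5) (nat_lit 67) (nat_lit 5) (nat_lit 61) (nat_lit 5) (nat_lit 399) (nat_lit 392) (nat_lit 229)) (XT.lf (nat_lit 0) (nat_lit 2848900456) (nat_lit 380) (nat_lit 77667683681) (nat_lit 456) (nat_lit 227418331511) (nat_lit 55) (nat_lit 5) (nat_lit 60) (nat_lit 5) (nat_lit 61) (nat_lit 5) (nat_lit 400) (nat_lit 392) (nat_lit 228))))) (XT.nd (nat_lit 156) (nat_lit 228) (nat_lit 0) (XT.nd (nat_lit 78) (nat_lit 228) (nat_lit 0) (XT.lf (nat_lit 0) (nat_lit 116372841154) (nat_lit 456) (nat_lit 145288608468) (nat_lit 76) (nat_lit 59733347248) (nat_lit 55) (nat_lit 5) (nat_lit 61) (nat_lit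 5) (nat_lit 56) (nat_lit 5) (nat_lit 401) (nat_lit 392) (nat_lit 227)) (XT.lf (nat_lit 0) (nat_lit 26606116072) (nat_lit 228) (nat_lit 131148629048) (nat_lit 304) (nat_lit 177964151817) (nat_lit 52) (nat_lit 5) (nat_lit 55) (nat_lit 5) (nat_lit 56) (nat_lit 5) (nat_lit 402) (nat_lit 392) (nat_lit 226))) (XT.nd (nat_lit 78) (nat_lit 228) (nat_lit 0) (XT.lf (nat_lit 0) (nat_lit 206758575330) (nat_lit 304) (nat_lit 130695096387) (nat_lit 76) (nat_lit 13390343432) (nat_lit 52) (nat_lit 5) (nat_lit 56) (nat_lit 5) (nat_lit 53) (nat_lit 5) (nat_lit 403) (nat_lit 392) (nat_lit 225)) (XT.nd (nat_lit 78) (nat_lit 0) (nat_lit 0) (XT.lf (nat_lit 0) (nat_lit 61674687103) (nat_lit 228) (nat_lit 202897695384) (nat_lit 304) (nat_lit 102215586740) (nat_lit 49) (nat_lit 5) (nat_lit 52) (nat_lit 5) (nat_lit 53) (nat_lit 5) (nat_lit 404) (nat_lit 392) (nat_lit 224)) (XT.lf (nat_lit 0) (nat_lit 276866725640)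 (nat_lit 228) (nat_lit 53717942101) (nat_lit 304) (nat_lit 53136902054) (nat_lit 49) (nat_lit 5) (nat_lit 52) (nat_lit 5) (nat_lit 53) (nat_lit 5) (nat_lit 405) (nat_lit 392) (nat_lit 223))))))) (XT.nd (nat_lit 780) (nat_lit 836) (nat_lit 0) (XT.nd (nat_lit 390) (nat_lit 532) (nat_lit 0) (XT.nd (nat_lit 156) (nat_lit 380) (nat_lit 0) (XT.nd (nat_lit 78) (nat_lit 0) (nat_lit 0) (XT.lf (nat_lit 0) (nat_lit 5243581492) (nat_lit 228) (nat_lit 291530320776) (nat_lit 76) (nat_lit 104806697616) (nat_lit 46) (nat_lit 5) (nat_lit 49) (nat_lit 5) (nat_lit 47) (nat_lit 5) (nat_lit 406) (nat_lit 392) (nat_lit 222)) (XT.lf (nat_lit 0) (nat_lit 69816432011) (nat_lit 228) (nat_lit 73101292329) (nat_lit 76) (nat_lit 277488797641) (nat_lit 46) (nat_lit 5) (nat_lit 49) (nat_lit 5) (nat_lit 47) (nat_lit 5) (nat_lit 407) (nat_lit 392) (nat_lit 221))) (XT.nd (nat_lit 78) (nat_lit 152) (nat_lit 0) (XT.lf (nat_lit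 0) (nat_lit 144342770576) (nat_lit 304) (nat_lit 269700085086) (nat_lit 76) (nat_lit 26312649419) (nat_lit 43) (nat_lit 5) (nat_lit 47) (nat_lit 5) (nat_lit 44) (nat_lit 5) (nat_lit 408) (nat_lit 392) (nat_lit 220)) (XT.nd (nat_lit 78) (nat_lit 152) (nat_lit 0) (XT.lf (nat_lit 0) (nat_lit 230593948062) (nat_lit 304) (nat_lit 27434638345) (nat_lit 76) (nat_lit 203410801905) (nat_lit 43) (nat_lit 5) (nat_lit 47) (nat_lit 5) (nat_lit 44) (nat_lit 5) (nat_lit 409) (nat_lit 392) (nat_lit 219)) (XT.lf (nat_lit 0) (nat_lit 246545166951) (nat_lit 152) (nat_lit 83129423228) (nat_lit 228) (nat_lit 154061042419) (nat_lit 41) (nat_lit 5) (nat_lit 43) (nat_lit 5) (nat_lit 44) (nat_lit 5) (nat_lit 410) (nat_lit 392) (nat_lit 218))))) (XT.nd (nat_lit 156) (nat_lit 304) (nat_lit 0) (XT.nd (nat_lit 78) (nat_lit 76) (nat_lit 0) (XT.lf (nat_lit 0) (nat_lit 35458687873) (nat_lit 152) (nat_lit 405388898653)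 (nat_lit 228) (nat_lit 66634717699) (nat_lit 39) (nat_lit 5) (nat_lit 41) (nat_lit 5) (nat_lit 42) (nat_lit 5) (nat_lit 411) (nat_lit 392) (nat_lit 217)) (XT.lf (nat_lit 0) (nat_lit 35208574896) (nat_lit 228) (nat_lit 192196854320) (nat_lit 76) (nat_lit 304964795360) (nat_lit 38) (nat_lit 5) (nat_lit 41) (nat_lit 5) (nat_lit 39) (nat_lit 5) (nat_lit 412) (nat_lit 392) (nat_lit 216))) (XT.nd (nat_lit 78) (nat_lit 152) (nat_lit 0) (XT.lf (nat_lit 0) (nat_lit 113987322103) (nat_lit 152) (nat_lit 30353359789) (nat_lit 228) (nat_lit 414550726411) (nat_lit 36) (nat_lit 5) (nat_lit 38) (nat_lit 5) (nat_lit 39) (nat_lit 5) (nat_lit 413) (nat_lit 392) (nat_lit 215)) (XT.nd (nat_lit 78) (nat_lit 152) (nat_lit 0) (XT.lf (nat_lit 0) (nat_lit 271983049941) (nat_lit 228) (nat_lit 136042041893) (nat_lit 76) (nat_lit 178726819516) (nat_lit 36) (nat_lit 5) (nat_lit 39) (nat_lit 5) (nat_lit 37) (nat_lit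 5) (nat_lit 414) (nat_lit 392) (nat_lit 214)) (XT.lf (nat_lit 0) (nat_lit 207100514904) (nat_lit 152) (nat_lit 208505426610) (nat_lit 228) (nat_lit 200773782419) (nat_lit 34) (nat_lit 5) (nat_lit 36) (nat_lit 5) (nat_lit 37) (nat_lit 5) (nat_lit 415) (nat_lit 392) (nat_lit 213)))))) (XT.nd (nat_lit 390) (nat_lit 456) (nat_lit 0) (XT.nd (nat_lit 156) (nat_lit 228) (nat_lit 0) (XT.nd (nat_lit 78) (nat_lit 152) (nat_lit 0) (XT.lf (nat_lit 0) (nat_lit 574702640781) (nat_lit 228) (nat_lit 62913325098) (nat_lit 76) (nat_lit 10443077549) (nat_lit 34) (nat_lit 5) (nat_lit 37) (nat_lit 5) (nat_lit 35) (nat_lit 4) (nat_lit 416) (nat_lit 392) (nat_lit 212)) (XT.lf (nat_lit 0) (nat_lit 74537918625) (nat_lit 152) (nat_lit 361261162380) (nat_lit 76) (nat_lit 245270176783) (nat_lit 32) (nat_lit 5) (nat_lit 34) (nat_lit 5) (nat_lit 33) (nat_lit 5) (nat_lit 417) (nat_lit 392) (nat_lit 211))) (XT.nd (nat_lit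 78) (nat_lit 76) (nat_lit 0) (XT.lf (nat_lit 0) (nat_lit 19150372851) (nat_lit 152) (nat_lit 213375636575) (nat_lit 228) (nat_lit 483863821000) (nat_lit 30) (nat_lit 5) (nat_lit 32) (nat_lit 5) (nat_lit 33) (nat_lit 5) (nat_lit 418) (nat_lit 392) (nat_lit 210)) (XT.nd (nat_lit 78) (nat_lit 76) (nat_lit 0) (XT.lf (nat_lit 0) (nat_lit 413932737297) (nat_lit 228) (nat_lit 304107932164) (nat_lit 76) (nat_lit 35633012242) (nat_lit 30) (nat_lit 5) (nat_lit 33) (nat_lit 5) (nat_lit 31) (nat_lit 4) (nat_lit 419) (nat_lit 392) (nat_lit 209)) (XT.lf (nat_lit 0) (nat_lit 120983945948) (nat_lit 76) (nat_lit 497319918321) (nat_lit 152) (nat_lit 174960227955) (nat_lit 29) (nat_lit 5) (nat_lit 30) (nat_lit 5) (nat_lit 31) (nat_lit 4) (nat_lit 420) (nat_lit 392) (nat_lit 208))))) (XT.nd (nat_lit 234) (nat_lit 228) (nat_lit 0) (XT.nd (nat_lit 78) (nat_lit 152) (nat_lit 0) (XT.lf (nat_lit 0) (nat_lit 11383516204)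 (nat_lit 152) (nat_lit 238266729017) (nat_lit 76) (nat_lit 585683249511) (nat_lit 28) (nat_lit 5) (nat_lit 30) (nat_lit 5) (nat_lit 29) (nat_lit 5) (nat_lit 421) (nat_lit 392) (nat_lit 207)) (XT.nd (nat_lit 78) (nat_lit 0) (nat_lit 0) (XT.lf (nat_lit 0) (nat_lit 209597393375) (nat_lit 228) (nat_lit 642822800864) (nat_lit 76) (nat_lit 27471499074) (nat_lit 26) (nat_lit 5) (nat_lit 29) (nat_lit 5) (nat_lit 27) (nat_lit 4) (nat_lit 422) (nat_lit 392) (nat_lit 206)) (XT.lf (nat_lit 0) (nat_lit 436836621226) (nat_lit 228) (nat_lit 170165255437) (nat_lit 76) (nat_lit 319959211883) (nat_lit 26) (nat_lit 5) (nat_lit 29) (nat_lit 5) (nat_lit 27) (nat_lit 4) (nat_lit 423) (nat_lit 392) (nat_lit 205)))) (XT.nd (nat_lit 78) (nat_lit 152) (nat_lit 0) (XT.lf (nat_lit 0) (nat_lit 358224698667) (nat_lit 76) (nat_lit 332645575932) (nat_lit 152) (nat_lit 286236537825) (nat_lit 25) (nat_lit 5) (nat_lit 26)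 (nat_lit 5) (nat_lit 27) (nat_lit 4) (nat_lit 424) (nat_lit 392) (nat_lit 204)) (XT.nd (nat_lit 78) (nat_lit 152) (nat_lit 0) (XT.lf (nat_lit 0) (nat_lit 938563253898) (nat_lit 76) (nat_lit 31315961478) (nat_lit 152) (nat_lit 61012771232) (nat_lit 25) (nat_lit 5) (nat_lit 26) (nat_lit 5) (nat_lit 27) (nat_lit 4) (nat_lit 425) (nat_lit 392) (nat_lit 203)) (XT.lf (nat_lit 0) (nat_lit 192559337207) (nat_lit 152) (nat_lit 598352090265) (nat_lit 76) (nat_lit 296162237077) (nat_lit 23) (nat_lit 5) (nat_lit 25) (nat_lit 5) (nat_lit 24) (nat_lit 4) (nat_lit 426) (nat_lit 392) (nat_lit 202))))))))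
noncomputable def xc215 : XT := (XT.nd (nat_lit 1638) (nat_lit 304) (nat_lit 0) (XT.nd (nat_lit 780) (nat_lit 456) (nat_lit 0) (XT.nd (nat_lit 390) (nat_lit 228) (nat_lit 0) (XT.nd (nat_lit 156) (nat_lit 228) (nat_lit 0) (XT.nd (nat_lit 78) (nat_lit 76) (nat_lit 0) (XT.lf (nat_lit 0) (nat_lit 466524319348) (nat_lit 152) (nat_lit 28504960423) (nat_lit 76) (nat_lit 652321546821) (nat_lit 23) (nat_lit 5) (nat_lit 25) (nat_lit 5) (nat_lit 24) (nat_lit 4) (nat_lit 427) (nat_lit 392) (nat_lit 201)) (XT.lf (nat_lit 0) (nat_lit 617836589047) (nat_lit 76) (nat_lit 159428874550) (nat_lit 152) (nat_lit 433995980925) (nat_lit 22) (nat_lit 5) (nat_lit 23) (nat_lit 5) (nat_lit 24) (nat_lit 4) (nat_lit 428) (nat_lit 392) (nat_lit 200))) (XT.nd (nat_lit 78) (nat_lit 152) (nat_lit 0) (XT.lf (nat_lit 0) (nat_lit 34086225752) (nat_lit 76) (nat_lit 1085281672172) (nat_lit 76) (nat_lit 160396854083) (nat_lit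 21) (nat_lit 4) (nat_lit 22) (nat_lit 5) (nat_lit 22) (nat_lit 4) (nat_lit 429) (nat_lit 392) (nat_lit 199)) (XT.nd (nat_lit 78) (nat_lit 76) (nat_lit 0) (XT.lf (nat_lit 0) (nat_lit 149120155833) (nat_lit 152) (nat_lit 614714918221) (nat_lit 76) (nat_lit 587990319273) (nat_lit 20) (nat_lit 5) (nat_lit 22) (nat_lit 5) (nat_lit 21) (nat_lit 4) (nat_lit 430) (nat_lit 392) (nat_lit 198)) (XT.lf (nat_lit 0) (nat_lit 65853866920) (nat_lit 76) (nat_lit 410462831032) (nat_lit 152) (nat_lit 952874194424) (nat_lit 19) (nat_lit 5) (nat_lit 20) (nat_lit 5) (nat_lit 21) (nat_lit 4) (nat_lit 431) (nat_lit 392) (nat_lit 197))))) (XT.nd (nat_lit 156) (nat_lit 152) (nat_lit 0) (XT.nd (nat_lit 78) (nat_lit 76) (nat_lit 0) (XT.lf (nat_lit 0) (nat_lit 835827501268) (nat_lit 76) (nat_lit 10668838583) (nat_lit 152) (nat_lit 664904701389) (nat_lit 19) (nat_lit 5) (nat_lit 20) (nat_lit 5) (nat_lit 21) (nat_lit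 4) (nat_lit 432) (nat_lit 392) (nat_lit 196)) (XT.lf (nat_lit 0) (nat_lit 60089222852) (nat_lit 76) (nat_lit 1197773933421) (nat_lit 76) (nat_lit 341399021490) (nat_lit 18) (nat_lit 4) (nat_lit 19) (nat_lit 5) (nat_lit 19) (nat_lit 4) (nat_lit 433) (nat_lit 392) (nat_lit 195))) (XT.nd (nat_lit 78) (nat_lit 76) (nat_lit 0) (XT.lf (nat_lit 0) (nat_lit 26815813874) (nat_lit 152) (nat_lit 800598035586) (nat_lit 76) (nat_lit 865184728626) (nat_lit 17) (nat_lit 5) (nat_lit 19) (nat_lit 5) (nat_lit 18) (nat_lit 4) (nat_lit 434) (nat_lit 392) (nat_lit 194)) (XT.nd (nat_lit 78) (nat_lit 76) (nat_lit 0) (XT.lf (nat_lit 0) (nat_lit 406043404979) (nat_lit 152) (nat_lit 11804661378) (nat_lit 76) (nat_lit 1374844424830) (nat_lit 17) (nat_lit 5) (nat_lit 19) (nat_lit 5) (nat_lit 18) (nat_lit 4) (nat_lit 435) (nat_lit 392) (nat_lit 193)) (XT.lf (nat_lit 0) (nat_lit 838018579488) (nat_lit 152) (nat_lit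 1015903784103) (nat_lit 0) (nat_lit 45078803660) (nat_lit 16) (nat_lit 5) (nat_lit 18) (nat_lit 4) (nat_lit 16) (nat_lit 4) (nat_lit 436) (nat_lit 392) (nat_lit 192)))))) (XT.nd (nat_lit 390) (nat_lit 228) (nat_lit 0) (XT.nd (nat_lit 156) (nat_lit 152) (nat_lit 0) (XT.nd (nat_lit 78) (nat_lit 76) (nat_lit 0) (XT.lf (nat_lit 0) (nat_lit 1315736093138) (nat_lit 152) (nat_lit 174387393076) (nat_lit 0) (nat_lit 522796305172) (nat_lit 16) (nat_lit 5) (nat_lit 18) (nat_lit 4) (nat_lit 16) (nat_lit 4) (nat_lit 437) (nat_lit 392) (nat_lit 191)) (XT.lf (nat_lit 0) (nat_lit 773125132319) (nat_lit 76) (nat_lit 1077139539608) (nat_lit 76) (nat_lit 284199740403) (nat_lit 15) (nat_lit 4) (nat_lit 16) (nat_lit 5) (nat_lit 16) (nat_lit 4) (nat_lit 438) (nat_lit 392) (nat_lit 190))) (XT.nd (nat_lit 78) (nat_lit 76) (nat_lit 0) (XT.lf (nat_lit 0) (nat_lit 158619787677) (nat_lit 152) (nat_lit 463010651241)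 (nat_lit 76) (nat_lit 1643399465025) (nat_lit 14) (nat_lit 5) (nat_lit 16) (nat_lit 5) (nat_lit 15) (nat_lit 4) (nat_lit 439) (nat_lit 392) (nat_lit 189)) (XT.nd (nat_lit 78) (nat_lit 0) (nat_lit 0) (XT.lf (nat_lit 0) (nat_lit 526121141456) (nat_lit 76) (nat_lit 108042781958) (nat_lit 152) (nat_lit 1770273909501) (nat_lit 13) (nat_lit 5) (nat_lit 14) (nat_lit 5) (nat_lit 15) (nat_lit 4) (nat_lit 440) (nat_lit 392) (nat_lit 188)) (XT.lf (nat_lit 0) (nat_lit 1171481435557) (nat_lit 152) (nat_lit 944340682052) (nat_lit 0) (nat_lit 437277890955) (nat_lit 13) (nat_lit 5) (nat_lit 15) (nat_lit 4) (nat_lit 13) (nat_lit 4) (nat_lit 441) (nat_lit 392) (nat_lit 187))))) (XT.nd (nat_lit 234) (nat_lit 76) (nat_lit 0) (XT.nd (nat_lit 78) (nat_lit 76) (nat_lit 0) (XT.lf (nat_lit 0) (nat_lit 64788038739) (nat_lit 76) (nat_lit 1691360757967) (nat_lit 76) (nat_lit 957157205716) (nat_lit 12) (nat_lit 4)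 (nat_lit 13) (nat_lit 5) (nat_lit 13) (nat_lit 4) (nat_lit 442) (nat_lit 392) (nat_lit 186)) (XT.nd (nat_lit 78) (nat_lit 76) (nat_lit 0) (XT.lf (nat_lit 0) (nat_lit 1208352525699) (nat_lit 76) (nat_lit 1205056957264) (nat_lit 76) (nat_lit 470853397931) (nat_lit 12) (nat_lit 4) (nat_lit 13) (nat_lit 5) (nat_lit 13) (nat_lit 4) (nat_lit 443) (nat_lit 392) (nat_lit 185)) (XT.lf (nat_lit 0) (nat_lit 51635660549) (nat_lit 152) (nat_lit 626801391947) (nat_lit 76) (nat_lit 2390354679450) (nat_lit 11) (nat_lit 5) (nat_lit 13) (nat_lit 5) (nat_lit 12) (nat_lit 4) (nat_lit 444) (nat_lit 392) (nat_lit 184)))) (XT.nd (nat_lit 78) (nat_lit 0) (nat_lit 0) (XT.lf (nat_lit 0) (nat_lit 520019806677) (nat_lit 76) (nat_lit 82972202284) (nat_lit 152) (nat_lit 2663111967156) (nat_lit 10) (nat_lit 5) (nat_lit 11) (nat_lit 5) (nat_lit 12) (nat_lit 4) (nat_lit 445) (nat_lit 392) (nat_lit 183)) (XT.nd (nat_lit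 78) (nat_lit 0) (nat_lit 0) (XT.lf (nat_lit 0) (nat_lit 1229510991246) (nat_lit 152) (nat_lit 1697513014645) (nat_lit 0) (nat_lit 549692863852) (nat_lit 10) (nat_lit 5) (nat_lit 12) (nat_lit 4) (nat_lit 10) (nat_lit 4) (nat_lit 446) (nat_lit 392) (nat_lit 182)) (XT.lf (nat_lit 0) (nat_lit 1908306604888) (nat_lit 152) (nat_lit 567211308275) (nat_lit 0) (nat_lit 1228488472674) (nat_lit 10) (nat_lit 5) (nat_lit 12) (nat_lit 4) (nat_lit 10) (nat_lit 4) (nat_lit 447) (nat_lit 392) (nat_lit 181))))))) (XT.nd (nat_lit 48906) (nat_lit 0) (nat_lit 3496) (XT.nd (nat_lit 390) (nat_lit 76) (nat_lit 0) (XT.nd (nat_lit 156) (nat_lit 152) (nat_lit 0) (XT.nd (nat_lit 78) (nat_lit 0) (nat_lit 0) (XT.lf (nat_lit 0) (nat_lit 687927433668) (nat_lit 76) (nat_lit 1970023096609) (nat_lit 76) (nat_lit 1290204959931) (nat_lit 9) (nat_lit 4) (nat_lit 10) (nat_lit 5) (nat_lit 10) (nat_lit 4) (nat_lit 448) (nat_lit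 392) (nat_lit 180)) (XT.lf (nat_lit 0) (nat_lit 2075735067810) (nat_lit 76) (nat_lit 1407339455808) (nat_lit 76) (nat_lit 727521314998) (nat_lit 9) (nat_lit 4) (nat_lit 10) (nat_lit 5) (nat_lit 10) (nat_lit 4) (nat_lit 449) (nat_lit 392) (nat_lit 179))) (XT.nd (nat_lit 78) (nat_lit 152) (nat_lit 0) (XT.lf (nat_lit 0) (nat_lit 3574567297080) (nat_lit 76) (nat_lit 799641131539) (nat_lit 76) (nat_lit 119822986902) (nat_lit 9) (nat_lit 4) (nat_lit 10) (nat_lit 5) (nat_lit 10) (nat_lit 4) (nat_lit 450) (nat_lit 392) (nat_lit 178)) (XT.nd (nat_lit 78) (nat_lit 0) (nat_lit 0) (XT.lf (nat_lit 0) (nat_lit 400285528113) (nat_lit 76) (nat_lit 118995085488) (nat_lit 152) (nat_lit 4279058865330) (nat_lit 7) (nat_lit 5) (nat_lit 8) (nat_lit 5) (nat_lit 9) (nat_lit 4) (nat_lit 451) (nat_lit 392) (nat_lit 177)) (XT.lf (nat_lit 0) (nat_lit 1243648984276) (nat_lit 152) (nat_lit 3265657684527) (nat_lit 0)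 (nat_lit 614187732924) (nat_lit 7) (nat_lit 5) (nat_lit 9) (nat_lit 4) (nat_lit 7) (nat_lit 4) (nat_lit 452) (nat_lit 392) (nat_lit 176))))) (XT.nd (nat_lit 156) (nat_lit 76) (nat_lit 0) (XT.nd (nat_lit 78) (nat_lit 0) (nat_lit 0) (XT.lf (nat_lit 0) (nat_lit 2029057599203) (nat_lit 152) (nat_lit 2045760512140) (nat_lit 0) (nat_lit 1399596345039) (nat_lit 7) (nat_lit 5) (nat_lit 9) (nat_lit 4) (nat_lit 7) (nat_lit 4) (nat_lit 453) (nat_lit 392) (nat_lit 175)) (XT.lf (nat_lit 0) (nat_lit 2877298896988) (nat_lit 152) (nat_lit 728271578707) (nat_lit 0) (nat_lit 2247837640220) (nat_lit 7) (nat_lit 5) (nat_lit 9) (nat_lit 4) (nat_lit 7) (nat_lit 4) (nat_lit 454) (nat_lit 392) (nat_lit 174))) (XT.nd (nat_lit 78) (nat_lit 0) (nat_lit 0) (XT.lf (nat_lit 0) (nat_lit 731193729289) (nat_lit 76) (nat_lit 3079790990215) (nat_lit 76) (nat_lit 2450329731035) (nat_lit 6) (nat_lit 4) (nat_lit 7) (nat_lit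 5) (nat_lit 7) (nat_lit 4) (nat_lit 455) (nat_lit 392) (nat_lit 173)) (XT.nd (nat_lit 48204) (nat_lit 0) (nat_lit 4408) (XT.lf (nat_lit 0) (nat_lit 2348833700407) (nat_lit 76) (nat_lit 2490443937275) (nat_lit 76) (nat_lit 1860982675862) (nat_lit 6) (nat_lit 4) (nat_lit 7) (nat_lit 5) (nat_lit 7) (nat_lit 4) (nat_lit 456) (nat_lit 392) (nat_lit 172)) (XT.lf (nat_lit 0) (nat_lit 105947691936) (nat_lit 532) (nat_lit 7098564147) (nat_lit 532) (nat_lit 7098564147) (nat_lit 64) (nat_lit 3) (nat_lit 71) (nat_lit 3) (nat_lit 71) (nat_lit 5) (nat_lit 393) (nat_lit 393) (nat_lit 234)))))) (XT.nd (nat_lit 390) (nat_lit 532) (nat_lit 0) (XT.nd (nat_lit 156) (nat_lit 380) (nat_lit 0) (XT.nd (nat_lit 78) (nat_lit 0) (nat_lit 76) (XT.lf (nat_lit 76) (nat_lit 107993516457) (nat_lit 0) (nat_lit 114975989780) (nat_lit 532) (nat_lit 26723854282) (nat_lit 65) (nat_lit 5) (nat_lit 64) (nat_lit 3) (nat_lit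 71) (nat_lit 5) (nat_lit 394) (nat_lit 393) (nat_lit 233)) (XT.lf (nat_lit 0) (nat_lit 235448677214) (nat_lit 456) (nat_lit 19182628922) (nat_lit 532) (nat_lit 5176542637) (nat_lit 65) (nat_lit 5) (nat_lit 71) (nat_lit 5) (nat_lit 72) (nat_lit 5) (nat_lit 395) (nat_lit 393) (nat_lit 232))) (XT.nd (nat_lit 78) (nat_lit 456) (nat_lit 0) (XT.lf (nat_lit 76) (nat_lit 115949787038) (nat_lit 0) (nat_lit 138751280821) (nat_lit 532) (nat_lit 15568437441) (nat_lit 66) (nat_lit 5) (nat_lit 65) (nat_lit 5) (nat_lit 72) (nat_lit 5) (nat_lit 396) (nat_lit 393) (nat_lit 231)) (XT.nd (nat_lit 78) (nat_lit 456) (nat_lit 0) (XT.lf (nat_lit 76) (nat_lit 262983666031) (nat_lit 0) (nat_lit 13034378049) (nat_lit 532) (nat_lit 5508098811) (nat_lit 66) (nat_lit 5) (nat_lit 65) (nat_lit 5) (nat_lit 72) (nat_lit 5) (nat_lit 397) (nat_lit 393) (nat_lit 230)) (XT.lf (nat_lit 0) (nat_lit 11368085834) (nat_lit 532)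 (nat_lit 161746614575) (nat_lit 608) (nat_lit 120055984056) (nat_lit 59) (nat_lit 5) (nat_lit 66) (nat_lit 5) (nat_lit 67) (nat_lit 5) (nat_lit 398) (nat_lit 393) (nat_lit 229))))) (XT.nd (nat_lit 234) (nat_lit 228) (nat_lit 0) (XT.nd (nat_lit 78) (nat_lit 304) (nat_lit 0) (XT.lf (nat_lit 0) (nat_lit 30155410098) (nat_lit 532) (nat_lit 11758623359) (nat_lit 608) (nat_lit 263752620558) (nat_lit 59) (nat_lit 5) (nat_lit 66) (nat_lit 5) (nat_lit 67) (nat_lit 5) (nat_lit 399) (nat_lit 393) (nat_lit 228)) (XT.nd (nat_lit 78) (nat_lit 380) (nat_lit 0) (XT.lf (nat_lit 0) (nat_lit 56747455013) (nat_lit 532) (nat_lit 163217507800) (nat_lit 76) (nat_lit 98693199602) (nat_lit 60) (nat_lit 5) (nat_lit 67) (nat_lit 5) (nat_lit 61) (nat_lit 5) (nat_lit 400) (nat_lit 393) (nat_lit 227)) (XT.lf (nat_lit 0) (nat_lit 3078216404) (nat_lit 380) (nat_lit 83881134689) (nat_lit 456) (nat_lit 245610241446) (nat_lit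 55) (nat_lit 5) (nat_lit 60) (nat_lit 5) (nat_lit 61) (nat_lit 5) (nat_lit 401) (nat_lit 393) (nat_lit 226)))) (XT.nd (nat_lit 78) (nat_lit 228) (nat_lit 0) (XT.lf (nat_lit 0) (nat_lit 125684001180) (nat_lit 456) (nat_lit 156910288678) (nat_lit 76) (nat_lit 64511983085) (nat_lit 55) (nat_lit 5) (nat_lit 61) (nat_lit 5) (nat_lit 56) (nat_lit 5) (nat_lit 402) (nat_lit 393) (nat_lit 225)) (XT.nd (nat_lit 78) (nat_lit 0) (nat_lit 0) (XT.lf (nat_lit 0) (nat_lit 28735978168) (nat_lit 228) (nat_lit 141640413590) (nat_lit 304) (nat_lit 192199914592) (nat_lit 52) (nat_lit 5) (nat_lit 55) (nat_lit 5) (nat_lit 56) (nat_lit 5) (nat_lit 403) (nat_lit 393) (nat_lit 224)) (XT.lf (nat_lit 0) (nat_lit 223300436887) (nat_lit 304) (nat_lit 141149340572) (nat_lit 76) (nat_lit 14461663953) (nat_lit 52) (nat_lit 5) (nat_lit 56) (nat_lit 5) (nat_lit 53) (nat_lit 5) (nat_lit 404) (nat_lit 393) (nat_lit 223))))))))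
noncomputable def xc216 : XT := (XT.nd (nat_lit 1560) (nat_lit 1140) (nat_lit 0) (XT.nd (nat_lit 780) (nat_lit 760) (nat_lit 0) (XT.nd (nat_lit 390) (nat_lit 532) (nat_lit 0) (XT.nd (nat_lit 156) (nat_lit 456) (nat_lit 0) (XT.nd (nat_lit 78) (nat_lit 0) (nat_lit 0) (XT.lf (nat_lit 0) (nat_lit 66609991077) (nat_lit 228) (nat_lit 219129302425) (nat_lit 304) (nat_lit 110391622789) (nat_lit 49) (nat_lit 5) (nat_lit 52) (nat_lit 5) (nat_lit 53) (nat_lit 5) (nat_lit 405) (nat_lit 393) (nat_lit 222)) (XT.lf (nat_lit 0) (nat_lit 299017294253) (nat_lit 228) (nat_lit 58015184330) (nat_lit 304) (nat_lit 57386733024) (nat_lit 49) (nat_lit 5) (nat_lit 52) (nat_lit 5) (nat_lit 53) (nat_lit 5) (nat_lit 406) (nat_lit 393) (nat_lit 221))) (XT.nd (nat_lit 78) (nat_lit 228) (nat_lit 0) (XT.lf (nat_lit 0) (nat_lit 5664090133) (nat_lit 228) (nat_lit 314851415418) (nat_lit 76) (nat_lit 113191459888) (nat_lit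 46) (nat_lit 5) (nat_lit 49) (nat_lit 5) (nat_lit 47) (nat_lit 5) (nat_lit 407) (nat_lit 393) (nat_lit 220)) (XT.nd (nat_lit 78) (nat_lit 228) (nat_lit 0) (XT.lf (nat_lit 0) (nat_lit 75402692981) (nat_lit 228) (nat_lit 78948163289) (nat_lit 76) (nat_lit 299688111141) (nat_lit 46) (nat_lit 5) (nat_lit 49) (nat_lit 5) (nat_lit 47) (nat_lit 5) (nat_lit 408) (nat_lit 393) (nat_lit 219)) (XT.lf (nat_lit 0) (nat_lit 155891104536) (nat_lit 304) (nat_lit 291274824800) (nat_lit 76) (nat_lit 28417942596) (nat_lit 43) (nat_lit 5) (nat_lit 47) (nat_lit 5) (nat_lit 44) (nat_lit 5) (nat_lit 409) (nat_lit 393) (nat_lit 218))))) (XT.nd (nat_lit 156) (nat_lit 380) (nat_lit 0) (XT.nd (nat_lit 78) (nat_lit 152) (nat_lit 0) (XT.lf (nat_lit 0) (nat_lit 249042308642) (nat_lit 304) (nat_lit 29628236179) (nat_lit 76) (nat_lit 219683926450) (nat_lit 43) (nat_lit 5) (nat_lit 47) (nat_lit 5) (nat_lit 44) (nat_lit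 5) (nat_lit 410) (nat_lit 393) (nat_lit 217)) (XT.lf (nat_lit 0) (nat_lit 266269923839) (nat_lit 152) (nat_lit 89779443218) (nat_lit 228) (nat_lit 166385050886) (nat_lit 41) (nat_lit 5) (nat_lit 43) (nat_lit 5) (nat_lit 44) (nat_lit 5) (nat_lit 411) (nat_lit 393) (nat_lit 216))) (XT.nd (nat_lit 78) (nat_lit 228) (nat_lit 0) (XT.lf (nat_lit 0) (nat_lit 38296553269) (nat_lit 152) (nat_lit 437819625450) (nat_lit 228) (nat_lit 71964646569) (nat_lit 39) (nat_lit 5) (nat_lit 41) (nat_lit 5) (nat_lit 42) (nat_lit 5) (nat_lit 412) (nat_lit 393) (nat_lit 215)) (XT.nd (nat_lit 78) (nat_lit 152) (nat_lit 0) (XT.lf (nat_lit 0) (nat_lit 38026007275) (nat_lit 228) (nat_lit 207571479301) (nat_lit 76) (nat_lit 329362295866) (nat_lit 38) (nat_lit 5) (nat_lit 41) (nat_lit 5) (nat_lit 39) (nat_lit 5) (nat_lit 413) (nat_lit 393) (nat_lit 214)) (XT.lf (nat_lit 0) (nat_lit 123107402796) (nat_lit 152) (nat_lit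 32781251079) (nat_lit 228) (nat_lit 447714009338) (nat_lit 36) (nat_lit 5) (nat_lit 38) (nat_lit 5) (nat_lit 39) (nat_lit 5) (nat_lit 414) (nat_lit 393) (nat_lit 213)))))) (XT.nd (nat_lit 390) (nat_lit 304) (nat_lit 0) (XT.nd (nat_lit 156) (nat_lit 304) (nat_lit 0) (XT.nd (nat_lit 78) (nat_lit 152) (nat_lit 0) (XT.lf (nat_lit 0) (nat_lit 293742366631) (nat_lit 228) (nat_lit 146924346354) (nat_lit 76) (nat_lit 193025297124) (nat_lit 36) (nat_lit 5) (nat_lit 39) (nat_lit 5) (nat_lit 37) (nat_lit 5) (nat_lit 415) (nat_lit 393) (nat_lit 212)) (XT.lf (nat_lit 0) (nat_lit 223669588179) (nat_lit 152) (nat_lit 225185476343) (nat_lit 228) (nat_lit 216834985201) (nat_lit 34) (nat_lit 5) (nat_lit 36) (nat_lit 5) (nat_lit 37) (nat_lit 5) (nat_lit 416) (nat_lit 393) (nat_lit 211))) (XT.nd (nat_lit 78) (nat_lit 304) (nat_lit 0) (XT.lf (nat_lit 0) (nat_lit 620679460315) (nat_lit 228) (nat_lit 67945395771)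 (nat_lit 76) (nat_lit 11278861870) (nat_lit 34) (nat_lit 5) (nat_lit 37) (nat_lit 5) (nat_lit 35) (nat_lit 4) (nat_lit 417) (nat_lit 393) (nat_lit 210)) (XT.nd (nat_lit 78) (nat_lit 152) (nat_lit 0) (XT.lf (nat_lit 0) (nat_lit 80501554147) (nat_lit 152) (nat_lit 390161053286) (nat_lit 76) (nat_lit 264892142570) (nat_lit 32) (nat_lit 5) (nat_lit 34) (nat_lit 5) (nat_lit 33) (nat_lit 5) (nat_lit 418) (nat_lit 393) (nat_lit 209)) (XT.lf (nat_lit 0) (nat_lit 20683379394) (nat_lit 152) (nat_lit 230445291713) (nat_lit 228) (nat_lit 522572299053) (nat_lit 30) (nat_lit 5) (nat_lit 32) (nat_lit 5) (nat_lit 33) (nat_lit 5) (nat_lit 419) (nat_lit 393) (nat_lit 208))))) (XT.nd (nat_lit 156) (nat_lit 228) (nat_lit 0) (XT.nd (nat_lit 78) (nat_lit 76) (nat_lit 0) (XT.lf (nat_lit 0) (nat_lit 447047902990) (nat_lit 228) (nat_lit 328435627944) (nat_lit 76) (nat_lit 38484001360) (nat_lit 30) (nat_lit 5)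 (nat_lit 33) (nat_lit 5) (nat_lit 31) (nat_lit 4) (nat_lit 420) (nat_lit 393) (nat_lit 207)) (XT.lf (nat_lit 0) (nat_lit 130663576651) (nat_lit 76) (nat_lit 537105124979) (nat_lit 152) (nat_lit 188956475522) (nat_lit 29) (nat_lit 5) (nat_lit 30) (nat_lit 5) (nat_lit 31) (nat_lit 4) (nat_lit 421) (nat_lit 393) (nat_lit 206))) (XT.nd (nat_lit 78) (nat_lit 152) (nat_lit 0) (XT.lf (nat_lit 0) (nat_lit 12294699466) (nat_lit 152) (nat_lit 257327193492) (nat_lit 76) (nat_lit 632538241029) (nat_lit 28) (nat_lit 5) (nat_lit 30) (nat_lit 5) (nat_lit 29) (nat_lit 5) (nat_lit 422) (nat_lit 393) (nat_lit 205)) (XT.nd (nat_lit 78) (nat_lit 0) (nat_lit 0) (XT.lf (nat_lit 0) (nat_lit 226365678925) (nat_lit 228) (nat_lit 694247743047) (nat_lit 76) (nat_lit 29669567124) (nat_lit 26) (nat_lit 5) (nat_lit 29) (nat_lit 5) (nat_lit 27) (nat_lit 4) (nat_lit 423) (nat_lit 393) (nat_lit 204)) (XT.lf (nat_lit 0)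 (nat_lit 471784008406) (nat_lit 228) (nat_lit 183777659310) (nat_lit 76) (nat_lit 345556271172) (nat_lit 26) (nat_lit 5) (nat_lit 29) (nat_lit 5) (nat_lit 27) (nat_lit 4) (nat_lit 424) (nat_lit 393) (nat_lit 203))))))) (XT.nd (nat_lit 780) (nat_lit 532) (nat_lit 0) (XT.nd (nat_lit 390) (nat_lit 304) (nat_lit 0) (XT.nd (nat_lit 156) (nat_lit 228) (nat_lit 0) (XT.nd (nat_lit 78) (nat_lit 0) (nat_lit 0) (XT.lf (nat_lit 0) (nat_lit 386883470449) (nat_lit 76) (nat_lit 359256868853) (nat_lit 152) (nat_lit 309134982564) (nat_lit 25) (nat_lit 5) (nat_lit 26) (nat_lit 5) (nat_lit 27) (nat_lit 4) (nat_lit 425) (nat_lit 393) (nat_lit 202)) (XT.lf (nat_lit 0) (nat_lit 1013649051144) (nat_lit 76) (nat_lit 33820911403) (nat_lit 152) (nat_lit 65893350073) (nat_lit 25) (nat_lit 5) (nat_lit 26) (nat_lit 5) (nat_lit 27) (nat_lit 4) (nat_lit 426) (nat_lit 393) (nat_lit 201))) (XT.nd (nat_lit 78) (nat_lit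 76) (nat_lit 0) (XT.lf (nat_lit 0) (nat_lit 207964499522) (nat_lit 152) (nat_lit 646219492813) (nat_lit 76) (nat_lit 319855532046) (nat_lit 23) (nat_lit 5) (nat_lit 25) (nat_lit 5) (nat_lit 24) (nat_lit 4) (nat_lit 427) (nat_lit 393) (nat_lit 200)) (XT.nd (nat_lit 78) (nat_lit 76) (nat_lit 0) (XT.lf (nat_lit 0) (nat_lit 503846649468) (nat_lit 152) (nat_lit 30784649227) (nat_lit 76) (nat_lit 704507563161) (nat_lit 23) (nat_lit 5) (nat_lit 25) (nat_lit 5) (nat_lit 24) (nat_lit 4) (nat_lit 428) (nat_lit 393) (nat_lit 199)) (XT.lf (nat_lit 0) (nat_lit 667264206276) (nat_lit 76) (nat_lit 172182867090) (nat_lit 152) (nat_lit 468715256812) (nat_lit 22) (nat_lit 5) (nat_lit 23) (nat_lit 5) (nat_lit 24) (nat_lit 4) (nat_lit 429) (nat_lit 393) (nat_lit 198))))) (XT.nd (nat_lit 156) (nat_lit 152) (nat_lit 0) (XT.nd (nat_lit 78) (nat_lit 76) (nat_lit 0) (XT.lf (nat_lit 0) (nat_lit 36813818154) (nat_lit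 76) (nat_lit 1172103880449) (nat_lit 76) (nat_lit 173228203975) (nat_lit 21) (nat_lit 4) (nat_lit 22) (nat_lit 5) (nat_lit 22) (nat_lit 4) (nat_lit 430) (nat_lit 393) (nat_lit 197)) (XT.lf (nat_lit 0) (nat_lit 161050118765) (nat_lit 152) (nat_lit 663891450243) (nat_lit 76) (nat_lit 635029827675) (nat_lit 20) (nat_lit 5) (nat_lit 22) (nat_lit 5) (nat_lit 21) (nat_lit 4) (nat_lit 431) (nat_lit 393) (nat_lit 196))) (XT.nd (nat_lit 78) (nat_lit 76) (nat_lit 0) (XT.lf (nat_lit 0) (nat_lit 71122820963) (nat_lit 76) (nat_lit 443299552835) (nat_lit 152) (nat_lit 1029103762700) (nat_lit 19) (nat_lit 5) (nat_lit 20) (nat_lit 5) (nat_lit 21) (nat_lit 4) (nat_lit 432) (nat_lit 393) (nat_lit 195)) (XT.nd (nat_lit 78) (nat_lit 76) (nat_lit 0) (XT.lf (nat_lit 0) (nat_lit 902694298304) (nat_lit 76) (nat_lit 11522063559) (nat_lit 152) (nat_lit 718096737428) (nat_lit 19) (nat_lit 5) (nat_lit 20) (nat_lit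 5) (nat_lit 21) (nat_lit 4) (nat_lit 433) (nat_lit 393) (nat_lit 194)) (XT.lf (nat_lit 0) (nat_lit 64896960498) (nat_lit 76) (nat_lit 1293595560489) (nat_lit 76) (nat_lit 368710605963) (nat_lit 18) (nat_lit 4) (nat_lit 19) (nat_lit 5) (nat_lit 19) (nat_lit 4) (nat_lit 434) (nat_lit 393) (nat_lit 193)))))) (XT.nd (nat_lit 390) (nat_lit 304) (nat_lit 0) (XT.nd (nat_lit 156) (nat_lit 152) (nat_lit 0) (XT.nd (nat_lit 78) (nat_lit 0) (nat_lit 0) (XT.lf (nat_lit 0) (nat_lit 28961375628) (nat_lit 152) (nat_lit 864645307376) (nat_lit 76) (nat_lit 934399757549) (nat_lit 17) (nat_lit 5) (nat_lit 19) (nat_lit 5) (nat_lit 18) (nat_lit 4) (nat_lit 435) (nat_lit 393) (nat_lit 192)) (XT.lf (nat_lit 0) (nat_lit 438527152047) (nat_lit 152) (nat_lit 12748505533) (nat_lit 76) (nat_lit 1484832210884) (nat_lit 17) (nat_lit 5) (nat_lit 19) (nat_lit 5) (nat_lit 18) (nat_lit 4) (nat_lit 436) (nat_lit 393) (nat_lit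 191))) (XT.nd (nat_lit 78) (nat_lit 76) (nat_lit 0) (XT.lf (nat_lit 0) (nat_lit 905060338546) (nat_lit 152) (nat_lit 1097175556062) (nat_lit 0) (nat_lit 48685344165) (nat_lit 16) (nat_lit 5) (nat_lit 18) (nat_lit 4) (nat_lit 16) (nat_lit 4) (nat_lit 437) (nat_lit 393) (nat_lit 190)) (XT.nd (nat_lit 78) (nat_lit 76) (nat_lit 0) (XT.lf (nat_lit 0) (nat_lit 1420995233088) (nat_lit 152) (nat_lit 188337893070) (nat_lit 0) (nat_lit 564620228300) (nat_lit 16) (nat_lit 5) (nat_lit 18) (nat_lit 4) (nat_lit 16) (nat_lit 4) (nat_lit 438) (nat_lit 393) (nat_lit 189)) (XT.lf (nat_lit 0) (nat_lit 834975621916) (nat_lit 76) (nat_lit 1163310469081) (nat_lit 76) (nat_lit 306935454658) (nat_lit 15) (nat_lit 4) (nat_lit 16) (nat_lit 5) (nat_lit 16) (nat_lit 4) (nat_lit 439) (nat_lit 393) (nat_lit 188))))) (XT.nd (nat_lit 234) (nat_lit 152) (nat_lit 0) (XT.nd (nat_lit 78) (nat_lit 76) (nat_lit 0) (XT.lf (nat_lit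 0) (nat_lit 171309603767) (nat_lit 152) (nat_lit 500051047508) (nat_lit 76) (nat_lit 1774871626307) (nat_lit 14) (nat_lit 5) (nat_lit 16) (nat_lit 5) (nat_lit 15) (nat_lit 4) (nat_lit 440) (nat_lit 393) (nat_lit 187)) (XT.nd (nat_lit 78) (nat_lit 0) (nat_lit 0) (XT.lf (nat_lit 0) (nat_lit 568211277065) (nat_lit 76) (nat_lit 116685986718) (nat_lit 152) (nat_lit 1911895577617) (nat_lit 13) (nat_lit 5) (nat_lit 14) (nat_lit 5) (nat_lit 15) (nat_lit 4) (nat_lit 441) (nat_lit 393) (nat_lit 186)) (XT.lf (nat_lit 0) (nat_lit 1265200164969) (nat_lit 152) (nat_lit 1019887513280) (nat_lit 0) (nat_lit 472260313807) (nat_lit 13) (nat_lit 5) (nat_lit 15) (nat_lit 4) (nat_lit 13) (nat_lit 4) (nat_lit 442) (nat_lit 393) (nat_lit 185)))) (XT.nd (nat_lit 78) (nat_lit 76) (nat_lit 0) (XT.lf (nat_lit 0) (nat_lit 69971494456) (nat_lit 76) (nat_lit 1826669414584) (nat_lit 76) (nat_lit 1033729556864) (nat_lit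 12) (nat_lit 4) (nat_lit 13) (nat_lit 5) (nat_lit 13) (nat_lit 4) (nat_lit 443) (nat_lit 393) (nat_lit 184)) (XT.nd (nat_lit 78) (nat_lit 76) (nat_lit 0) (XT.lf (nat_lit 0) (nat_lit 1305021109809) (nat_lit 76) (nat_lit 1301461324937) (nat_lit 76) (nat_lit 508521461145) (nat_lit 12) (nat_lit 4) (nat_lit 13) (nat_lit 5) (nat_lit 13) (nat_lit 4) (nat_lit 444) (nat_lit 393) (nat_lit 183)) (XT.lf (nat_lit 0) (nat_lit 55766696897) (nat_lit 152) (nat_lit 676945139866) (nat_lit 76) (nat_lit 2581583219038) (nat_lit 11) (nat_lit 5) (nat_lit 13) (nat_lit 5) (nat_lit 12) (nat_lit 4) (nat_lit 445) (nat_lit 393) (nat_lit 182))))))))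
noncomputable def xc217 : XT := (XT.nd (nat_lit 49764) (nat_lit 0) (nat_lit 1672) (XT.nd (nat_lit 780) (nat_lit 76) (nat_lit 0) (XT.nd (nat_lit 390) (nat_lit 152) (nat_lit 0) (XT.nd (nat_lit 156) (nat_lit 76) (nat_lit 0) (XT.nd (nat_lit 78) (nat_lit 0) (nat_lit 0) (XT.lf (nat_lit 0) (nat_lit 561621745446) (nat_lit 76) (nat_lit 89609802662) (nat_lit 152) (nat_lit 2876160731806) (nat_lit 10) (nat_lit 5) (nat_lit 11) (nat_lit 5) (nat_lit 12) (nat_lit 4) (nat_lit 446) (nat_lit 393) (nat_lit 181)) (XT.lf (nat_lit 0) (nat_lit 1327872039674) (nat_lit 152) (nat_lit 1833313718502) (nat_lit 0) (nat_lit 593668447599) (nat_lit 10) (nat_lit 5) (nat_lit 12) (nat_lit 4) (nat_lit 10) (nat_lit 4) (nat_lit 447) (nat_lit 393) (nat_lit 180))) (XT.nd (nat_lit 78) (nat_lit 76) (nat_lit 0) (XT.lf (nat_lit 0) (nat_lit 2060971289880) (nat_lit 152) (nat_lit 612587900609) (nat_lit 0) (nat_lit 1326767693672) (nat_lit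 10) (nat_lit 5) (nat_lit 12) (nat_lit 4) (nat_lit 10) (nat_lit 4) (nat_lit 448) (nat_lit 393) (nat_lit 179)) (XT.nd (nat_lit 78) (nat_lit 0) (nat_lit 0) (XT.lf (nat_lit 0) (nat_lit 742961932783) (nat_lit 76) (nat_lit 2127624792238) (nat_lit 76) (nat_lit 1393421192204) (nat_lit 9) (nat_lit 4) (nat_lit 10) (nat_lit 5) (nat_lit 10) (nat_lit 4) (nat_lit 449) (nat_lit 393) (nat_lit 178)) (XT.lf (nat_lit 0) (nat_lit 2241794155107) (nat_lit 76) (nat_lit 1519926471439) (nat_lit 76) (nat_lit 785722867863) (nat_lit 9) (nat_lit 4) (nat_lit 10) (nat_lit 5) (nat_lit 10) (nat_lit 4) (nat_lit 450) (nat_lit 393) (nat_lit 177))))) (XT.nd (nat_lit 156) (nat_lit 0) (nat_lit 0) (XT.nd (nat_lit 78) (nat_lit 152) (nat_lit 0) (XT.lf (nat_lit 0) (nat_lit 3860532941839) (nat_lit 76) (nat_lit 863612291661) (nat_lit 76) (nat_lit 129408684804) (nat_lit 9) (nat_lit 4) (nat_lit 10) (nat_lit 5) (nat_lit 10) (nat_lit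 4) (nat_lit 451) (nat_lit 393) (nat_lit 176)) (XT.lf (nat_lit 0) (nat_lit 432308631635) (nat_lit 76) (nat_lit 128514561408) (nat_lit 152) (nat_lit 4621383433765) (nat_lit 7) (nat_lit 5) (nat_lit 8) (nat_lit 5) (nat_lit 9) (nat_lit 4) (nat_lit 452) (nat_lit 393) (nat_lit 175))) (XT.nd (nat_lit 78) (nat_lit 0) (nat_lit 0) (XT.lf (nat_lit 0) (nat_lit 1343141026631) (nat_lit 152) (nat_lit 3526910050620) (nat_lit 0) (nat_lit 663322866717) (nat_lit 7) (nat_lit 5) (nat_lit 9) (nat_lit 4) (nat_lit 7) (nat_lit 4) (nat_lit 453) (nat_lit 393) (nat_lit 174)) (XT.nd (nat_lit 78) (nat_lit 0) (nat_lit 0) (XT.lf (nat_lit 0) (nat_lit 2191382321596) (nat_lit 152) (nat_lit 2209421122862) (nat_lit 0) (nat_lit 1511564159270) (nat_lit 7) (nat_lit 5) (nat_lit 9) (nat_lit 4) (nat_lit 7) (nat_lit 4) (nat_lit 454) (nat_lit 393) (nat_lit 173)) (XT.lf (nat_lit 0) (nat_lit 3107482914725) (nat_lit 152) (nat_lit 786533091810)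 (nat_lit 0) (nat_lit 2427664750167) (nat_lit 7) (nat_lit 5) (nat_lit 9) (nat_lit 4) (nat_lit 7) (nat_lit 4) (nat_lit 455) (nat_lit 393) (nat_lit 172)))))) (XT.nd (nat_lit 48594) (nat_lit 0) (nat_lit 3724) (XT.nd (nat_lit 48360) (nat_lit 0) (nat_lit 4408) (XT.nd (nat_lit 48282) (nat_lit 0) (nat_lit 4408) (XT.lf (nat_lit 0) (nat_lit 789689435428) (nat_lit 76) (nat_lit 3326174164761) (nat_lit 76) (nat_lit 2646355998135) (nat_lit 6) (nat_lit 4) (nat_lit 7) (nat_lit 5) (nat_lit 7) (nat_lit 4) (nat_lit 456) (nat_lit 393) (nat_lit 171)) (XT.lf (nat_lit 0) (nat_lit 114424542131) (nat_lit 532) (nat_lit 7665889976) (nat_lit 532) (nat_lit 7665889976) (nat_lit 64) (nat_lit 3) (nat_lit 71) (nat_lit 3) (nat_lit 71) (nat_lit 5) (nat_lit 394) (nat_lit 394) (nat_lit 232))) (XT.nd (nat_lit 78) (nat_lit 0) (nat_lit 76) (XT.lf (nat_lit 76) (nat_lit 116634088060) (nat_lit 0) (nat_lit 124174921268) (nat_lit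 532) (nat_lit 28859662812) (nat_lit 65) (nat_lit 5) (nat_lit 64) (nat_lit 3) (nat_lit 71) (nat_lit 5) (nat_lit 395) (nat_lit 394) (nat_lit 231)) (XT.nd (nat_lit 78) (nat_lit 0) (nat_lit 0) (XT.lf (nat_lit 0) (nat_lit 254286351108) (nat_lit 456) (nat_lit 20716065157) (nat_lit 532) (nat_lit 5589916354) (nat_lit 65) (nat_lit 5) (nat_lit 71) (nat_lit 5) (nat_lit 72) (nat_lit 5) (nat_lit 396) (nat_lit 394) (nat_lit 230)) (XT.lf (nat_lit 76) (nat_lit 125226914356) (nat_lit 0) (nat_lit 149851914340) (nat_lit 532) (nat_lit 16812101442) (nat_lit 66) (nat_lit 5) (nat_lit 65) (nat_lit 5) (nat_lit 72) (nat_lit 5) (nat_lit 397) (nat_lit 394) (nat_lit 229))))) (XT.nd (nat_lit 156) (nat_lit 304) (nat_lit 0) (XT.nd (nat_lit 78) (nat_lit 456) (nat_lit 0) (XT.lf (nat_lit 76) (nat_lit 284023418901) (nat_lit 0) (nat_lit 14077620008) (nat_lit 532) (nat_lit 5947069869) (nat_lit 66) (nat_lit 5) (nat_lit 65)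 (nat_lit 5) (nat_lit 72) (nat_lit 5) (nat_lit 398) (nat_lit 394) (nat_lit 228)) (XT.lf (nat_lit 0) (nat_lit 12279025220) (nat_lit 532) (nat_lit 174685097260) (nat_lit 608) (nat_lit 129660096108) (nat_lit 59) (nat_lit 5) (nat_lit 66) (nat_lit 5) (nat_lit 67) (nat_lit 5) (nat_lit 399) (nat_lit 394) (nat_lit 227))) (XT.nd (nat_lit 78) (nat_lit 304) (nat_lit 0) (XT.lf (nat_lit 0) (nat_lit 32569224868) (nat_lit 532) (nat_lit 12698159078) (nat_lit 608) (nat_lit 284852490691) (nat_lit 59) (nat_lit 5) (nat_lit 66) (nat_lit 5) (nat_lit 67) (nat_lit 5) (nat_lit 400) (nat_lit 394) (nat_lit 226)) (XT.nd (nat_lit 78) (nat_lit 380) (nat_lit 0) (XT.lf (nat_lit 0) (nat_lit 61288553693) (nat_lit 532) (nat_lit 176273673534) (nat_lit 76) (nat_lit 106588482942) (nat_lit 60) (nat_lit 5) (nat_lit 67) (nat_lit 5) (nat_lit 61) (nat_lit 5) (nat_lit 401) (nat_lit 394) (nat_lit 225)) (XT.lf (nat_lit 0) (nat_lit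 3325677345) (nat_lit 380) (nat_lit 90591656598) (nat_lit 456) (nat_lit 265257726240) (nat_lit 55) (nat_lit 5) (nat_lit 60) (nat_lit 5) (nat_lit 61) (nat_lit 5) (nat_lit 402) (nat_lit 394) (nat_lit 224))))))) (XT.nd (nat_lit 780) (nat_lit 988) (nat_lit 0) (XT.nd (nat_lit 390) (nat_lit 608) (nat_lit 0) (XT.nd (nat_lit 156) (nat_lit 228) (nat_lit 0) (XT.nd (nat_lit 78) (nat_lit 228) (nat_lit 0) (XT.lf (nat_lit 0) (nat_lit 135739863879) (nat_lit 456) (nat_lit 169461904238) (nat_lit 76) (nat_lit 69672914347) (nat_lit 55) (nat_lit 5) (nat_lit 61) (nat_lit 5) (nat_lit 56) (nat_lit 5) (nat_lit 403) (nat_lit 394) (nat_lit 223)) (XT.lf (nat_lit 0) (nat_lit 31036033385) (nat_lit 228) (nat_lit 152971555987) (nat_lit 304) (nat_lit 207574733745) (nat_lit 52) (nat_lit 5) (nat_lit 55) (nat_lit 5) (nat_lit 56) (nat_lit 5) (nat_lit 404) (nat_lit 394) (nat_lit 222))) (XT.nd (nat_lit 78) (nat_lit 228) (nat_lit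 0) (XT.lf (nat_lit 0) (nat_lit 241165479665) (nat_lit 304) (nat_lit 152440118814) (nat_lit 76) (nat_lit 15618676842) (nat_lit 52) (nat_lit 5) (nat_lit 56) (nat_lit 5) (nat_lit 53) (nat_lit 5) (nat_lit 405) (nat_lit 394) (nat_lit 221)) (XT.nd (nat_lit 78) (nat_lit 0) (nat_lit 0) (XT.lf (nat_lit 0) (nat_lit 71939929772) (nat_lit 228) (nat_lit 236659467787) (nat_lit 304) (nat_lit 119221914470) (nat_lit 49) (nat_lit 5) (nat_lit 52) (nat_lit 5) (nat_lit 53) (nat_lit 5) (nat_lit 406) (nat_lit 394) (nat_lit 220)) (XT.lf (nat_lit 0) (nat_lit 322939732801) (nat_lit 228) (nat_lit 62656233491) (nat_lit 304) (nat_lit 61976710423) (nat_lit 49) (nat_lit 5) (nat_lit 52) (nat_lit 5) (nat_lit 53) (nat_lit 5) (nat_lit 407) (nat_lit 394) (nat_lit 219))))) (XT.nd (nat_lit 156) (nat_lit 380) (nat_lit 0) (XT.nd (nat_lit 78) (nat_lit 0) (nat_lit 0) (XT.lf (nat_lit 0) (nat_lit 6118093647) (nat_lit 228) (nat_lit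 340038387516) (nat_lit 76) (nat_lit 122246970835) (nat_lit 46) (nat_lit 5) (nat_lit 49) (nat_lit 5) (nat_lit 47) (nat_lit 5) (nat_lit 408) (nat_lit 394) (nat_lit 218)) (XT.lf (nat_lit 0) (nat_lit 81435719812) (nat_lit 228) (nat_lit 85262959745) (nat_lit 76) (nat_lit 323663339806) (nat_lit 46) (nat_lit 5) (nat_lit 49) (nat_lit 5) (nat_lit 47) (nat_lit 5) (nat_lit 409) (nat_lit 394) (nat_lit 217))) (XT.nd (nat_lit 78) (nat_lit 152) (nat_lit 0) (XT.lf (nat_lit 0) (nat_lit 168363175060) (nat_lit 304) (nat_lit 314575724456) (nat_lit 76) (nat_lit 30691619107) (nat_lit 43) (nat_lit 5) (nat_lit 47) (nat_lit 5) (nat_lit 44) (nat_lit 5) (nat_lit 410) (nat_lit 394) (nat_lit 216)) (XT.nd (nat_lit 78) (nat_lit 152) (nat_lit 0) (XT.lf (nat_lit 0) (nat_lit 268966417557) (nat_lit 304) (nat_lit 31997489214) (nat_lit 76) (nat_lit 237258863810) (nat_lit 43) (nat_lit 5) (nat_lit 47) (nat_lit 5) (nat_lit 44)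 (nat_lit 5) (nat_lit 411) (nat_lit 394) (nat_lit 215)) (XT.lf (nat_lit 0) (nat_lit 287572498141) (nat_lit 152) (nat_lit 96961512437) (nat_lit 228) (nat_lit 179695104849) (nat_lit 41) (nat_lit 5) (nat_lit 43) (nat_lit 5) (nat_lit 44) (nat_lit 5) (nat_lit 412) (nat_lit 394) (nat_lit 214)))))) (XT.nd (nat_lit 390) (nat_lit 456) (nat_lit 0) (XT.nd (nat_lit 156) (nat_lit 304) (nat_lit 0) (XT.nd (nat_lit 78) (nat_lit 76) (nat_lit 0) (XT.lf (nat_lit 0) (nat_lit 41361280931) (nat_lit 152) (nat_lit 472844865328) (nat_lit 228) (nat_lit 77721090803) (nat_lit 39) (nat_lit 5) (nat_lit 41) (nat_lit 5) (nat_lit 42) (nat_lit 5) (nat_lit 413) (nat_lit 394) (nat_lit 213)) (XT.lf (nat_lit 0) (nat_lit 41068727764) (nat_lit 228) (nat_lit 224176234540) (nat_lit 76) (nat_lit 355711551208) (nat_lit 38) (nat_lit 5) (nat_lit 41) (nat_lit 5) (nat_lit 39) (nat_lit 5) (nat_lit 414) (nat_lit 394) (nat_lit 212))) (XT.nd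 (nat_lit 78) (nat_lit 152) (nat_lit 0) (XT.lf (nat_lit 0) (nat_lit 132956933742) (nat_lit 152) (nat_lit 35403427526) (nat_lit 228) (nat_lit 483530465487) (nat_lit 36) (nat_lit 5) (nat_lit 38) (nat_lit 5) (nat_lit 39) (nat_lit 5) (nat_lit 415) (nat_lit 394) (nat_lit 211)) (XT.nd (nat_lit 78) (nat_lit 152) (nat_lit 0) (XT.lf (nat_lit 0) (nat_lit 317242332690) (nat_lit 228) (nat_lit 158677386235) (nat_lit 76) (nat_lit 208467605569) (nat_lit 36) (nat_lit 5) (nat_lit 39) (nat_lit 5) (nat_lit 37) (nat_lit 5) (nat_lit 416) (nat_lit 394) (nat_lit 210)) (XT.lf (nat_lit 0) (nat_lit 241564040078) (nat_lit 152) (nat_lit 243199984894) (nat_lit 228) (nat_lit 234181184042) (nat_lit 34) (nat_lit 5) (nat_lit 36) (nat_lit 5) (nat_lit 37) (nat_lit 5) (nat_lit 417) (nat_lit 394) (nat_lit 209))))) (XT.nd (nat_lit 234) (nat_lit 152) (nat_lit 0) (XT.nd (nat_lit 78) (nat_lit 304) (nat_lit 0) (XT.lf (nat_lit 0)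 (nat_lit 670334338634) (nat_lit 228) (nat_lit 73380174094) (nat_lit 76) (nat_lit 12181460700) (nat_lit 34) (nat_lit 5) (nat_lit 37) (nat_lit 5) (nat_lit 35) (nat_lit 4) (nat_lit 418) (nat_lit 394) (nat_lit 208)) (XT.nd (nat_lit 78) (nat_lit 152) (nat_lit 0) (XT.lf (nat_lit 0) (nat_lit 86942194624) (nat_lit 152) (nat_lit 421373078424) (nat_lit 76) (nat_lit 286083815454) (nat_lit 32) (nat_lit 5) (nat_lit 34) (nat_lit 5) (nat_lit 33) (nat_lit 5) (nat_lit 419) (nat_lit 394) (nat_lit 207)) (XT.lf (nat_lit 0) (nat_lit 22338887120) (nat_lit 152) (nat_lit 248880575726) (nat_lit 228) (nat_lit 564377544887) (nat_lit 30) (nat_lit 5) (nat_lit 32) (nat_lit 5) (nat_lit 33) (nat_lit 5) (nat_lit 420) (nat_lit 394) (nat_lit 206)))) (XT.nd (nat_lit 78) (nat_lit 152) (nat_lit 0) (XT.lf (nat_lit 0) (nat_lit 482812203944) (nat_lit 228) (nat_lit 354709673315) (nat_lit 76) (nat_lit 41563019940) (nat_lit 30)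 (nat_lit 5) (nat_lit 33) (nat_lit 5) (nat_lit 31) (nat_lit 4) (nat_lit 421) (nat_lit 394) (nat_lit 205)) (XT.nd (nat_lit 78) (nat_lit 76) (nat_lit 0) (XT.lf (nat_lit 0) (nat_lit 141117447271) (nat_lit 76) (nat_lit 580073203351) (nat_lit 152) (nat_lit 204072504306) (nat_lit 29) (nat_lit 5) (nat_lit 30) (nat_lit 5) (nat_lit 31) (nat_lit 4) (nat_lit 422) (nat_lit 394) (nat_lit 204)) (XT.lf (nat_lit 0) (nat_lit 13278705779) (nat_lit 152) (nat_lit 277912619789) (nat_lit 76) (nat_lit 683141584567) (nat_lit 28) (nat_lit 5) (nat_lit 30) (nat_lit 5) (nat_lit 29) (nat_lit 5) (nat_lit 423) (nat_lit 394) (nat_lit 203))))))))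
noncomputable def xc218 : XT := (XT.nd (nat_lit 1560) (nat_lit 456) (nat_lit 0) (XT.nd (nat_lit 780) (nat_lit 456) (nat_lit 0) (XT.nd (nat_lit 390) (nat_lit 304) (nat_lit 0) (XT.nd (nat_lit 156) (nat_lit 228) (nat_lit 0) (XT.nd (nat_lit 78) (nat_lit 0) (nat_lit 0) (XT.lf (nat_lit 0) (nat_lit 244475356833) (nat_lit 228) (nat_lit 749786806415) (nat_lit 76) (nat_lit 32043430955) (nat_lit 26) (nat_lit 5) (nat_lit 29) (nat_lit 5) (nat_lit 27) (nat_lit 4) (nat_lit 424) (nat_lit 394) (nat_lit 202)) (XT.lf (nat_lit 0) (nat_lit 509527121296) (nat_lit 228) (nat_lit 198479171986) (nat_lit 76) (nat_lit 373201049218) (nat_lit 26) (nat_lit 5) (nat_lit 29) (nat_lit 5) (nat_lit 27) (nat_lit 4) (nat_lit 425) (nat_lit 394) (nat_lit 201))) (XT.nd (nat_lit 78) (nat_lit 152) (nat_lit 0) (XT.lf (nat_lit 0) (nat_lit 417834830431) (nat_lit 76) (nat_lit 387997115590) (nat_lit 152) (nat_lit 333865371115) (nat_lit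 25) (nat_lit 5) (nat_lit 26) (nat_lit 5) (nat_lit 27) (nat_lit 4) (nat_lit 426) (nat_lit 394) (nat_lit 200)) (XT.nd (nat_lit 78) (nat_lit 152) (nat_lit 0) (XT.lf (nat_lit 0) (nat_lit 1094741607037) (nat_lit 76) (nat_lit 36526303970) (nat_lit 152) (nat_lit 71164438399) (nat_lit 25) (nat_lit 5) (nat_lit 26) (nat_lit 5) (nat_lit 27) (nat_lit 4) (nat_lit 427) (nat_lit 394) (nat_lit 199)) (XT.lf (nat_lit 0) (nat_lit 224602015569) (nat_lit 152) (nat_lit 697916396654) (nat_lit 76) (nat_lit 345444245531) (nat_lit 23) (nat_lit 5) (nat_lit 25) (nat_lit 5) (nat_lit 24) (nat_lit 4) (nat_lit 428) (nat_lit 394) (nat_lit 198))))) (XT.nd (nat_lit 156) (nat_lit 228) (nat_lit 0) (XT.nd (nat_lit 78) (nat_lit 76) (nat_lit 0) (XT.lf (nat_lit 0) (nat_lit 544154711134) (nat_lit 152) (nat_lit 33246814143) (nat_lit 76) (nat_lit 760868419068) (nat_lit 23) (nat_lit 5) (nat_lit 25) (nat_lit 5) (nat_lit 24) (nat_lit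 4) (nat_lit 429) (nat_lit 394) (nat_lit 197)) (XT.lf (nat_lit 0) (nat_lit 720645934432) (nat_lit 76) (nat_lit 185957224318) (nat_lit 152) (nat_lit 506212132204) (nat_lit 22) (nat_lit 5) (nat_lit 23) (nat_lit 5) (nat_lit 24) (nat_lit 4) (nat_lit 430) (nat_lit 394) (nat_lit 196))) (XT.nd (nat_lit 78) (nat_lit 152) (nat_lit 0) (XT.lf (nat_lit 0) (nat_lit 39759518892) (nat_lit 76) (nat_lit 1265871911823) (nat_lit 76) (nat_lit 187086118699) (nat_lit 21) (nat_lit 4) (nat_lit 22) (nat_lit 5) (nat_lit 22) (nat_lit 4) (nat_lit 431) (nat_lit 394) (nat_lit 195)) (XT.nd (nat_lit 78) (nat_lit 76) (nat_lit 0) (XT.lf (nat_lit 0) (nat_lit 173934428735) (nat_lit 152) (nat_lit 717002199189) (nat_lit 76) (nat_lit 685832456396) (nat_lit 20) (nat_lit 5) (nat_lit 22) (nat_lit 5) (nat_lit 21) (nat_lit 4) (nat_lit 432) (nat_lit 394) (nat_lit 194)) (XT.lf (nat_lit 0) (nat_lit 76813199358) (nat_lit 76) (nat_lit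 478763255848) (nat_lit 152) (nat_lit 1111431748835) (nat_lit 19) (nat_lit 5) (nat_lit 20) (nat_lit 5) (nat_lit 21) (nat_lit 4) (nat_lit 433) (nat_lit 394) (nat_lit 193)))))) (XT.nd (nat_lit 390) (nat_lit 228) (nat_lit 0) (XT.nd (nat_lit 156) (nat_lit 152) (nat_lit 0) (XT.nd (nat_lit 78) (nat_lit 76) (nat_lit 0) (XT.lf (nat_lit 0) (nat_lit 974910353944) (nat_lit 76) (nat_lit 12443586780) (nat_lit 152) (nat_lit 775544184866) (nat_lit 19) (nat_lit 5) (nat_lit 20) (nat_lit 5) (nat_lit 21) (nat_lit 4) (nat_lit 434) (nat_lit 394) (nat_lit 192)) (XT.lf (nat_lit 0) (nat_lit 70089231585) (nat_lit 76) (nat_lit 1397082958752) (nat_lit 76) (nat_lit 398207165306) (nat_lit 18) (nat_lit 4) (nat_lit 19) (nat_lit 5) (nat_lit 19) (nat_lit 4) (nat_lit 435) (nat_lit 394) (nat_lit 191))) (XT.nd (nat_lit 78) (nat_lit 76) (nat_lit 0) (XT.lf (nat_lit 0) (nat_lit 31278540002) (nat_lit 152) (nat_lit 933816442378)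 (nat_lit 76) (nat_lit 1009151953030) (nat_lit 17) (nat_lit 5) (nat_lit 19) (nat_lit 5) (nat_lit 18) (nat_lit 4) (nat_lit 436) (nat_lit 394) (nat_lit 190)) (XT.nd (nat_lit 78) (nat_lit 76) (nat_lit 0) (XT.lf (nat_lit 0) (nat_lit 473609559697) (nat_lit 152) (nat_lit 13767932652) (nat_lit 76) (nat_lit 1603618986714) (nat_lit 17) (nat_lit 5) (nat_lit 19) (nat_lit 5) (nat_lit 18) (nat_lit 4) (nat_lit 437) (nat_lit 394) (nat_lit 189)) (XT.lf (nat_lit 0) (nat_lit 977465399425) (nat_lit 152) (nat_lit 1184949145498) (nat_lit 0) (nat_lit 52580374212) (nat_lit 16) (nat_lit 5) (nat_lit 18) (nat_lit 4) (nat_lit 16) (nat_lit 4) (nat_lit 438) (nat_lit 394) (nat_lit 188))))) (XT.nd (nat_lit 156) (nat_lit 152) (nat_lit 0) (XT.nd (nat_lit 78) (nat_lit 76) (nat_lit 0) (XT.lf (nat_lit 0) (nat_lit 1534675068212) (nat_lit 152) (nat_lit 203404503174) (nat_lit 0) (nat_lit 609790034077) (nat_lit 16) (nat_lit 5)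 (nat_lit 18) (nat_lit 4) (nat_lit 16) (nat_lit 4) (nat_lit 439) (nat_lit 394) (nat_lit 187)) (XT.lf (nat_lit 0) (nat_lit 901774082344) (nat_lit 76) (nat_lit 1256375106252) (nat_lit 76) (nat_lit 331490063856) (nat_lit 15) (nat_lit 4) (nat_lit 16) (nat_lit 5) (nat_lit 16) (nat_lit 4) (nat_lit 440) (nat_lit 394) (nat_lit 186))) (XT.nd (nat_lit 78) (nat_lit 76) (nat_lit 0) (XT.lf (nat_lit 0) (nat_lit 185014571893) (nat_lit 152) (nat_lit 540054740505) (nat_lit 76) (nat_lit 1916861531378) (nat_lit 14) (nat_lit 5) (nat_lit 16) (nat_lit 5) (nat_lit 15) (nat_lit 4) (nat_lit 441) (nat_lit 394) (nat_lit 185)) (XT.nd (nat_lit 78) (nat_lit 0) (nat_lit 0) (XT.lf (nat_lit 0) (nat_lit 613668560140) (nat_lit 76) (nat_lit 126020678930) (nat_lit 152) (nat_lit 2064847014084) (nat_lit 13) (nat_lit 5) (nat_lit 14) (nat_lit 5) (nat_lit 15) (nat_lit 4) (nat_lit 442) (nat_lit 394) (nat_lit 184)) (XT.lf (nat_lit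 0) (nat_lit 1366416362125) (nat_lit 152) (nat_lit 1101478151401) (nat_lit 0) (nat_lit 510041303157) (nat_lit 13) (nat_lit 5) (nat_lit 15) (nat_lit 4) (nat_lit 13) (nat_lit 4) (nat_lit 443) (nat_lit 394) (nat_lit 183))))))) (XT.nd (nat_lit 780) (nat_lit 0) (nat_lit 0) (XT.nd (nat_lit 390) (nat_lit 228) (nat_lit 0) (XT.nd (nat_lit 156) (nat_lit 152) (nat_lit 0) (XT.nd (nat_lit 78) (nat_lit 0) (nat_lit 0) (XT.lf (nat_lit 0) (nat_lit 75569567767) (nat_lit 76) (nat_lit 1972802792836) (nat_lit 76) (nat_lit 1116427728246) (nat_lit 12) (nat_lit 4) (nat_lit 13) (nat_lit 5) (nat_lit 13) (nat_lit 4) (nat_lit 444) (nat_lit 394) (nat_lit 182)) (XT.lf (nat_lit 0) (nat_lit 1409423126143) (nat_lit 76) (nat_lit 1405578068974) (nat_lit 76) (nat_lit 549202999178) (nat_lit 12) (nat_lit 4) (nat_lit 13) (nat_lit 5) (nat_lit 13) (nat_lit 4) (nat_lit 445) (nat_lit 394) (nat_lit 181))) (XT.nd (nat_lit 78) (nat_lit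 76) (nat_lit 0) (XT.lf (nat_lit 0) (nat_lit 60228189974) (nat_lit 152) (nat_lit 731100439468) (nat_lit 76) (nat_lit 2788110018222) (nat_lit 11) (nat_lit 5) (nat_lit 13) (nat_lit 5) (nat_lit 12) (nat_lit 4) (nat_lit 446) (nat_lit 394) (nat_lit 180)) (XT.nd (nat_lit 78) (nat_lit 0) (nat_lit 0) (XT.lf (nat_lit 0) (nat_lit 606551788782) (nat_lit 76) (nat_lit 96778436151) (nat_lit 152) (nat_lit 3106253425122) (nat_lit 10) (nat_lit 5) (nat_lit 11) (nat_lit 5) (nat_lit 12) (nat_lit 4) (nat_lit 447) (nat_lit 394) (nat_lit 179)) (XT.lf (nat_lit 0) (nat_lit 1434101947848) (nat_lit 152) (nat_lit 1979978526790) (nat_lit 0) (nat_lit 641162055985) (nat_lit 10) (nat_lit 5) (nat_lit 12) (nat_lit 4) (nat_lit 10) (nat_lit 4) (nat_lit 448) (nat_lit 394) (nat_lit 178))))) (XT.nd (nat_lit 156) (nat_lit 152) (nat_lit 0) (XT.nd (nat_lit 78) (nat_lit 76) (nat_lit 0) (XT.lf (nat_lit 0) (nat_lit 2225849127330)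 (nat_lit 152) (nat_lit 661594664887) (nat_lit 0) (nat_lit 1432909231924) (nat_lit 10) (nat_lit 5) (nat_lit 12) (nat_lit 4) (nat_lit 10) (nat_lit 4) (nat_lit 449) (nat_lit 394) (nat_lit 177)) (XT.lf (nat_lit 0) (nat_lit 802399148398) (nat_lit 76) (nat_lit 2297834645216) (nat_lit 76) (nat_lit 1504894746530) (nat_lit 9) (nat_lit 4) (nat_lit 10) (nat_lit 5) (nat_lit 10) (nat_lit 4) (nat_lit 450) (nat_lit 394) (nat_lit 176))) (XT.nd (nat_lit 78) (nat_lit 152) (nat_lit 0) (XT.lf (nat_lit 0) (nat_lit 2421137929174) (nat_lit 76) (nat_lit 1641520468413) (nat_lit 76) (nat_lit 848580566689) (nat_lit 9) (nat_lit 4) (nat_lit 10) (nat_lit 5) (nat_lit 10) (nat_lit 4) (nat_lit 451) (nat_lit 394) (nat_lit 175)) (XT.nd (nat_lit 78) (nat_lit 152) (nat_lit 0) (XT.lf (nat_lit 0) (nat_lit 4169375800944) (nat_lit 76) (nat_lit 932701163196) (nat_lit 76) (nat_lit 139761258660) (nat_lit 9) (nat_lit 4) (nat_lit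 10) (nat_lit 5) (nat_lit 10) (nat_lit 4) (nat_lit 452) (nat_lit 394) (nat_lit 174)) (XT.lf (nat_lit 0) (nat_lit 466893546165) (nat_lit 76) (nat_lit 138795614077) (nat_lit 152) (nat_lit 4991093987760) (nat_lit 7) (nat_lit 5) (nat_lit 8) (nat_lit 5) (nat_lit 9) (nat_lit 4) (nat_lit 453) (nat_lit 394) (nat_lit 173)))))) (XT.nd (nat_lit 48672) (nat_lit 0) (nat_lit 3952) (XT.nd (nat_lit 156) (nat_lit 0) (nat_lit 0) (XT.nd (nat_lit 78) (nat_lit 0) (nat_lit 0) (XT.lf (nat_lit 0) (nat_lit 1450592414739) (nat_lit 152) (nat_lit 3809062641476) (nat_lit 0) (nat_lit 716388794784) (nat_lit 7) (nat_lit 5) (nat_lit 9) (nat_lit 4) (nat_lit 7) (nat_lit 4) (nat_lit 454) (nat_lit 394) (nat_lit 172)) (XT.lf (nat_lit 0) (nat_lit 2366693005451) (nat_lit 152) (nat_lit 2386174615289) (nat_lit 0) (nat_lit 1632489383428) (nat_lit 7) (nat_lit 5) (nat_lit 9) (nat_lit 4) (nat_lit 7) (nat_lit 4) (nat_lit 455) (nat_lit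 394) (nat_lit 171))) (XT.nd (nat_lit 48360) (nat_lit 0) (nat_lit 4332) (XT.lf (nat_lit 0) (nat_lit 3356081638762) (nat_lit 152) (nat_lit 849455556375) (nat_lit 0) (nat_lit 2621878014825) (nat_lit 7) (nat_lit 5) (nat_lit 9) (nat_lit 4) (nat_lit 7) (nat_lit 4) (nat_lit 456) (nat_lit 394) (nat_lit 170)) (XT.nd (nat_lit 78) (nat_lit 0) (nat_lit 0) (XT.lf (nat_lit 0) (nat_lit 123579392711) (nat_lit 532) (nat_lit 8278681662) (nat_lit 532) (nat_lit 8278681662) (nat_lit 64) (nat_lit 3) (nat_lit 71) (nat_lit 3) (nat_lit 71) (nat_lit 5) (nat_lit 395) (nat_lit 395) (nat_lit 230)) (XT.lf (nat_lit 76) (nat_lit 125965749851) (nat_lit 0) (nat_lit 134109645683) (nat_lit 532) (nat_lit 31166635587) (nat_lit 65) (nat_lit 5) (nat_lit 64) (nat_lit 3) (nat_lit 71) (nat_lit 5) (nat_lit 396) (nat_lit 395) (nat_lit 229))))) (XT.nd (nat_lit 234) (nat_lit 456) (nat_lit 0) (XT.nd (nat_lit 78) (nat_lit 0) (nat_lit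 0) (XT.lf (nat_lit 0) (nat_lit 274630785017) (nat_lit 456) (nat_lit 22372343786) (nat_lit 532) (nat_lit 6036466921) (nat_lit 65) (nat_lit 5) (nat_lit 71) (nat_lit 5) (nat_lit 72) (nat_lit 5) (nat_lit 397) (nat_lit 395) (nat_lit 228)) (XT.nd (nat_lit 78) (nat_lit 0) (nat_lit 0) (XT.lf (nat_lit 76) (nat_lit 135246048605) (nat_lit 0) (nat_lit 161840522779) (nat_lit 532) (nat_lit 18155516922) (nat_lit 66) (nat_lit 5) (nat_lit 65) (nat_lit 5) (nat_lit 72) (nat_lit 5) (nat_lit 398) (nat_lit 395) (nat_lit 227)) (XT.lf (nat_lit 76) (nat_lit 306746200840) (nat_lit 0) (nat_lit 15204251176) (nat_lit 532) (nat_lit 6421397832) (nat_lit 66) (nat_lit 5) (nat_lit 65) (nat_lit 5) (nat_lit 72) (nat_lit 5) (nat_lit 399) (nat_lit 395) (nat_lit 226)))) (XT.nd (nat_lit 78) (nat_lit 0) (nat_lit 0) (XT.lf (nat_lit 0) (nat_lit 13262626833) (nat_lit 532) (nat_lit 188658836383) (nat_lit 608) (nat_lit 140032589434)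 (nat_lit 59) (nat_lit 5) (nat_lit 66) (nat_lit 5) (nat_lit 67) (nat_lit 5) (nat_lit 400) (nat_lit 395) (nat_lit 225)) (XT.nd (nat_lit 78) (nat_lit 0) (nat_lit 76) (XT.lf (nat_lit 0) (nat_lit 35175947668) (nat_lit 532) (nat_lit 13713022307) (nat_lit 608) (nat_lit 307640398870) (nat_lit 59) (nat_lit 5) (nat_lit 66) (nat_lit 5) (nat_lit 67) (nat_lit 5) (nat_lit 401) (nat_lit 395) (nat_lit 224)) (XT.lf (nat_lit 0) (nat_lit 66192754483) (nat_lit 532) (nat_lit 190374508696) (nat_lit 76) (nat_lit 115115413577) (nat_lit 60) (nat_lit 5) (nat_lit 67) (nat_lit 5) (nat_lit 61) (nat_lit 5) (nat_lit 402) (nat_lit 395) (nat_lit 223))))))))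
noncomputable def xc219 : XT := (XT.nd (nat_lit 1638) (nat_lit 1216) (nat_lit 0) (XT.nd (nat_lit 780) (nat_lit 1064) (nat_lit 0) (XT.nd (nat_lit 390) (nat_lit 456) (nat_lit 0) (XT.nd (nat_lit 156) (nat_lit 456) (nat_lit 0) (XT.nd (nat_lit 78) (nat_lit 0) (nat_lit 0) (XT.lf (nat_lit 0) (nat_lit 3592763449) (nat_lit 380) (nat_lit 97839015818) (nat_lit 456) (nat_lit 286477200203) (nat_lit 55) (nat_lit 5) (nat_lit 60) (nat_lit 5) (nat_lit 61) (nat_lit 5) (nat_lit 403) (nat_lit 395) (nat_lit 222)) (XT.lf (nat_lit 0) (nat_lit 146600032588) (nat_lit 456) (nat_lit 183017821311) (nat_lit 76) (nat_lit 75246724016) (nat_lit 55) (nat_lit 5) (nat_lit 61) (nat_lit 5) (nat_lit 56) (nat_lit 5) (nat_lit 404) (nat_lit 395) (nat_lit 221))) (XT.nd (nat_lit 78) (nat_lit 228) (nat_lit 0) (XT.lf (nat_lit 0) (nat_lit 33519925113) (nat_lit 228) (nat_lit 165209202713) (nat_lit 304) (nat_lit 224179705917) (nat_lit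 52) (nat_lit 5) (nat_lit 55) (nat_lit 5) (nat_lit 56) (nat_lit 5) (nat_lit 405) (nat_lit 395) (nat_lit 220)) (XT.nd (nat_lit 78) (nat_lit 228) (nat_lit 0) (XT.lf (nat_lit 0) (nat_lit 260459582089) (nat_lit 304) (nat_lit 164634326088) (nat_lit 76) (nat_lit 16868239381) (nat_lit 52) (nat_lit 5) (nat_lit 56) (nat_lit 5) (nat_lit 53) (nat_lit 5) (nat_lit 406) (nat_lit 395) (nat_lit 219)) (XT.lf (nat_lit 0) (nat_lit 77696101013) (nat_lit 228) (nat_lit 255592071891) (nat_lit 304) (nat_lit 128758777588) (nat_lit 49) (nat_lit 5) (nat_lit 52) (nat_lit 5) (nat_lit 53) (nat_lit 5) (nat_lit 407) (nat_lit 395) (nat_lit 218))))) (XT.nd (nat_lit 156) (nat_lit 228) (nat_lit 0) (XT.nd (nat_lit 78) (nat_lit 228) (nat_lit 0) (XT.lf (nat_lit 0) (nat_lit 348775815924) (nat_lit 228) (nat_lit 67668590208) (nat_lit 304) (nat_lit 66934023146) (nat_lit 49) (nat_lit 5) (nat_lit 52) (nat_lit 5) (nat_lit 53) (nat_lit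 5) (nat_lit 408) (nat_lit 395) (nat_lit 217)) (XT.lf (nat_lit 0) (nat_lit 6608292429) (nat_lit 228) (nat_lit 367240480177) (nat_lit 76) (nat_lit 132026894959) (nat_lit 46) (nat_lit 5) (nat_lit 49) (nat_lit 5) (nat_lit 47) (nat_lit 5) (nat_lit 409) (nat_lit 395) (nat_lit 216))) (XT.nd (nat_lit 78) (nat_lit 228) (nat_lit 0) (XT.lf (nat_lit 0) (nat_lit 87951273036) (nat_lit 228) (nat_lit 92083090655) (nat_lit 76) (nat_lit 349556561117) (nat_lit 46) (nat_lit 5) (nat_lit 49) (nat_lit 5) (nat_lit 47) (nat_lit 5) (nat_lit 410) (nat_lit 395) (nat_lit 215)) (XT.nd (nat_lit 78) (nat_lit 0) (nat_lit 0) (XT.lf (nat_lit 0) (nat_lit 181832899643) (nat_lit 304) (nat_lit 339740851061) (nat_lit 76) (nat_lit 33147155344) (nat_lit 43) (nat_lit 5) (nat_lit 47) (nat_lit 5) (nat_lit 44) (nat_lit 5) (nat_lit 411) (nat_lit 395) (nat_lit 214)) (XT.lf (nat_lit 0) (nat_lit 290484351867) (nat_lit 304) (nat_lit 34556425989)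 (nat_lit 76) (nat_lit 256239764311) (nat_lit 43) (nat_lit 5) (nat_lit 47) (nat_lit 5) (nat_lit 44) (nat_lit 5) (nat_lit 412) (nat_lit 395) (nat_lit 213)))))) (XT.nd (nat_lit 390) (nat_lit 532) (nat_lit 0) (XT.nd (nat_lit 156) (nat_lit 228) (nat_lit 0) (XT.nd (nat_lit 78) (nat_lit 152) (nat_lit 0) (XT.lf (nat_lit 0) (nat_lit 310579138523) (nat_lit 152) (nat_lit 104718188028) (nat_lit 228) (nat_lit 194070070140) (nat_lit 41) (nat_lit 5) (nat_lit 43) (nat_lit 5) (nat_lit 44) (nat_lit 5) (nat_lit 413) (nat_lit 395) (nat_lit 212)) (XT.lf (nat_lit 0) (nat_lit 44671043660) (nat_lit 152) (nat_lit 510672171497) (nat_lit 228) (nat_lit 83938154361) (nat_lit 39) (nat_lit 5) (nat_lit 41) (nat_lit 5) (nat_lit 42) (nat_lit 5) (nat_lit 414) (nat_lit 395) (nat_lit 211))) (XT.nd (nat_lit 78) (nat_lit 152) (nat_lit 0) (XT.lf (nat_lit 0) (nat_lit 44354774602) (nat_lit 228) (nat_lit 242109507597) (nat_lit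 76) (nat_lit 384168708219) (nat_lit 38) (nat_lit 5) (nat_lit 41) (nat_lit 5) (nat_lit 39) (nat_lit 5) (nat_lit 415) (nat_lit 395) (nat_lit 210)) (XT.nd (nat_lit 78) (nat_lit 0) (nat_lit 0) (XT.lf (nat_lit 0) (nat_lit 143594293245) (nat_lit 152) (nat_lit 38235424260) (nat_lit 228) (nat_lit 522212332940) (nat_lit 36) (nat_lit 5) (nat_lit 38) (nat_lit 5) (nat_lit 39) (nat_lit 5) (nat_lit 416) (nat_lit 395) (nat_lit 209)) (XT.lf (nat_lit 0) (nat_lit 342622213756) (nat_lit 228) (nat_lit 171370798818) (nat_lit 76) (nat_lit 225145258078) (nat_lit 36) (nat_lit 5) (nat_lit 39) (nat_lit 5) (nat_lit 37) (nat_lit 5) (nat_lit 417) (nat_lit 395) (nat_lit 208))))) (XT.nd (nat_lit 234) (nat_lit 228) (nat_lit 0) (XT.nd (nat_lit 78) (nat_lit 152) (nat_lit 0) (XT.lf (nat_lit 0) (nat_lit 260889921896) (nat_lit 152) (nat_lit 262655701144) (nat_lit 228) (nat_lit 252915164383) (nat_lit 34) (nat_lit 5) (nat_lit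 36) (nat_lit 5) (nat_lit 37) (nat_lit 5) (nat_lit 418) (nat_lit 395) (nat_lit 207)) (XT.nd (nat_lit 78) (nat_lit 152) (nat_lit 0) (XT.lf (nat_lit 0) (nat_lit 723961532822) (nat_lit 228) (nat_lit 79249856420) (nat_lit 76) (nat_lit 13156226082) (nat_lit 34) (nat_lit 5) (nat_lit 37) (nat_lit 5) (nat_lit 35) (nat_lit 4) (nat_lit 419) (nat_lit 395) (nat_lit 206)) (XT.lf (nat_lit 0) (nat_lit 93898012706) (nat_lit 152) (nat_lit 455082188136) (nat_lit 76) (nat_lit 308970779159) (nat_lit 32) (nat_lit 5) (nat_lit 34) (nat_lit 5) (nat_lit 33) (nat_lit 5) (nat_lit 420) (nat_lit 395) (nat_lit 205)))) (XT.nd (nat_lit 78) (nat_lit 76) (nat_lit 0) (XT.lf (nat_lit 0) (nat_lit 24126716004) (nat_lit 152) (nat_lit 268790730868) (nat_lit 228) (nat_lit 609527287153) (nat_lit 30) (nat_lit 5) (nat_lit 32) (nat_lit 5) (nat_lit 33) (nat_lit 5) (nat_lit 421) (nat_lit 395) (nat_lit 204)) (XT.nd (nat_lit 78) (nat_lit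 76) (nat_lit 0) (XT.lf (nat_lit 0) (nat_lit 521437582107) (nat_lit 228) (nat_lit 383085757139) (nat_lit 76) (nat_lit 44888317427) (nat_lit 30) (nat_lit 5) (nat_lit 33) (nat_lit 5) (nat_lit 31) (nat_lit 4) (nat_lit 422) (nat_lit 395) (nat_lit 203)) (XT.lf (nat_lit 0) (nat_lit 152407515624) (nat_lit 76) (nat_lit 626478775304) (nat_lit 152) (nat_lit 220397885190) (nat_lit 29) (nat_lit 5) (nat_lit 30) (nat_lit 5) (nat_lit 31) (nat_lit 4) (nat_lit 423) (nat_lit 395) (nat_lit 202))))))) (XT.nd (nat_lit 780) (nat_lit 532) (nat_lit 0) (XT.nd (nat_lit 390) (nat_lit 380) (nat_lit 0) (XT.nd (nat_lit 156) (nat_lit 76) (nat_lit 0) (XT.nd (nat_lit 78) (nat_lit 152) (nat_lit 0) (XT.lf (nat_lit 0) (nat_lit 14341371201) (nat_lit 152) (nat_lit 300144987069) (nat_lit 76) (nat_lit 737793155036) (nat_lit 28) (nat_lit 5) (nat_lit 30) (nat_lit 5) (nat_lit 29) (nat_lit 5) (nat_lit 424) (nat_lit 395) (nat_lit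 201)) (XT.lf (nat_lit 0) (nat_lit 264033748544) (nat_lit 228) (nat_lit 809769102716) (nat_lit 76) (nat_lit 34607161314) (nat_lit 26) (nat_lit 5) (nat_lit 29) (nat_lit 5) (nat_lit 27) (nat_lit 4) (nat_lit 425) (nat_lit 395) (nat_lit 200))) (XT.nd (nat_lit 78) (nat_lit 76) (nat_lit 0) (XT.lf (nat_lit 0) (nat_lit 550289627263) (nat_lit 228) (nat_lit 214356905548) (nat_lit 76) (nat_lit 403057370084) (nat_lit 26) (nat_lit 5) (nat_lit 29) (nat_lit 5) (nat_lit 27) (nat_lit 4) (nat_lit 426) (nat_lit 395) (nat_lit 199)) (XT.nd (nat_lit 78) (nat_lit 0) (nat_lit 0) (XT.lf (nat_lit 0) (nat_lit 451262201868) (nat_lit 76) (nat_lit 419036625259) (nat_lit 152) (nat_lit 360574249250) (nat_lit 25) (nat_lit 5) (nat_lit 26) (nat_lit 5) (nat_lit 27) (nat_lit 4) (nat_lit 427) (nat_lit 395) (nat_lit 198)) (XT.lf (nat_lit 0) (nat_lit 1182321477269) (nat_lit 76) (nat_lit 39448167938) (nat_lit 152) (nat_lit 76857267957)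 (nat_lit 25) (nat_lit 5) (nat_lit 26) (nat_lit 5) (nat_lit 27) (nat_lit 4) (nat_lit 428) (nat_lit 395) (nat_lit 197))))) (XT.nd (nat_lit 156) (nat_lit 228) (nat_lit 0) (XT.nd (nat_lit 78) (nat_lit 0) (nat_lit 0) (XT.lf (nat_lit 0) (nat_lit 242570482100) (nat_lit 152) (nat_lit 753749146329) (nat_lit 76) (nat_lit 373080017445) (nat_lit 23) (nat_lit 5) (nat_lit 25) (nat_lit 5) (nat_lit 24) (nat_lit 4) (nat_lit 429) (nat_lit 395) (nat_lit 196)) (XT.lf (nat_lit 0) (nat_lit 587687370697) (nat_lit 152) (nat_lit 35906038851) (nat_lit 76) (nat_lit 821738107659) (nat_lit 23) (nat_lit 5) (nat_lit 25) (nat_lit 5) (nat_lit 24) (nat_lit 4) (nat_lit 430) (nat_lit 395) (nat_lit 195))) (XT.nd (nat_lit 78) (nat_lit 152) (nat_lit 0) (XT.lf (nat_lit 0) (nat_lit 778298116435) (nat_lit 76) (nat_lit 200833568948) (nat_lit 152) (nat_lit 546708806867) (nat_lit 22) (nat_lit 5) (nat_lit 23) (nat_lit 5) (nat_lit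 24) (nat_lit 4) (nat_lit 431) (nat_lit 395) (nat_lit 194)) (XT.nd (nat_lit 78) (nat_lit 76) (nat_lit 0) (XT.lf (nat_lit 0) (nat_lit 42940790765) (nat_lit 76) (nat_lit 1367141425518) (nat_lit 76) (nat_lit 202052715334) (nat_lit 21) (nat_lit 4) (nat_lit 22) (nat_lit 5) (nat_lit 22) (nat_lit 4) (nat_lit 432) (nat_lit 395) (nat_lit 193)) (XT.lf (nat_lit 0) (nat_lit 187849440637) (nat_lit 152) (nat_lit 774361888949) (nat_lit 76) (nat_lit 740699260818) (nat_lit 20) (nat_lit 5) (nat_lit 22) (nat_lit 5) (nat_lit 21) (nat_lit 4) (nat_lit 433) (nat_lit 395) (nat_lit 192)))))) (XT.nd (nat_lit 390) (nat_lit 304) (nat_lit 0) (XT.nd (nat_lit 156) (nat_lit 152) (nat_lit 0) (XT.nd (nat_lit 78) (nat_lit 0) (nat_lit 0) (XT.lf (nat_lit 0) (nat_lit 82958729173) (nat_lit 76) (nat_lit 517064092367) (nat_lit 152) (nat_lit 1200346018782) (nat_lit 19) (nat_lit 5) (nat_lit 20) (nat_lit 5) (nat_lit 21) (nat_lit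 4) (nat_lit 434) (nat_lit 395) (nat_lit 191)) (XT.lf (nat_lit 0) (nat_lit 1052903621025) (nat_lit 76) (nat_lit 13438866362) (nat_lit 152) (nat_lit 837587469692) (nat_lit 19) (nat_lit 5) (nat_lit 20) (nat_lit 5) (nat_lit 21) (nat_lit 4) (nat_lit 435) (nat_lit 395) (nat_lit 190))) (XT.nd (nat_lit 78) (nat_lit 76) (nat_lit 0) (XT.lf (nat_lit 0) (nat_lit 75696810996) (nat_lit 76) (nat_lit 1508849384053) (nat_lit 76) (nat_lit 430063490645) (nat_lit 18) (nat_lit 4) (nat_lit 19) (nat_lit 5) (nat_lit 19) (nat_lit 4) (nat_lit 436) (nat_lit 395) (nat_lit 189)) (XT.nd (nat_lit 78) (nat_lit 0) (nat_lit 0) (XT.lf (nat_lit 0) (nat_lit 33781041244) (nat_lit 152) (nat_lit 1008521338024) (nat_lit 76) (nat_lit 1089884293494) (nat_lit 17) (nat_lit 5) (nat_lit 19) (nat_lit 5) (nat_lit 18) (nat_lit 4) (nat_lit 437) (nat_lit 395) (nat_lit 188)) (XT.lf (nat_lit 0) (nat_lit 511498526363) (nat_lit 152) (nat_lit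 14868978613) (nat_lit 76) (nat_lit 1731908676228) (nat_lit 17) (nat_lit 5) (nat_lit 19) (nat_lit 5) (nat_lit 18) (nat_lit 4) (nat_lit 438) (nat_lit 395) (nat_lit 187))))) (XT.nd (nat_lit 234) (nat_lit 152) (nat_lit 0) (XT.nd (nat_lit 78) (nat_lit 76) (nat_lit 0) (XT.lf (nat_lit 0) (nat_lit 1055662831820) (nat_lit 152) (nat_lit 1279744687007) (nat_lit 0) (nat_lit 56786977772) (nat_lit 16) (nat_lit 5) (nat_lit 18) (nat_lit 4) (nat_lit 16) (nat_lit 4) (nat_lit 439) (nat_lit 395) (nat_lit 186)) (XT.nd (nat_lit 78) (nat_lit 76) (nat_lit 0) (XT.lf (nat_lit 0) (nat_lit 1657449259263) (nat_lit 152) (nat_lit 219676502196) (nat_lit 0) (nat_lit 658573397566) (nat_lit 16) (nat_lit 5) (nat_lit 18) (nat_lit 4) (nat_lit 16) (nat_lit 4) (nat_lit 440) (nat_lit 395) (nat_lit 185)) (XT.lf (nat_lit 0) (nat_lit 973916361019) (nat_lit 76) (nat_lit 1356884942979) (nat_lit 76) (nat_lit 358009074199) (nat_lit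 15) (nat_lit 4) (nat_lit 16) (nat_lit 5) (nat_lit 16) (nat_lit 4) (nat_lit 441) (nat_lit 395) (nat_lit 184)))) (XT.nd (nat_lit 78) (nat_lit 76) (nat_lit 0) (XT.lf (nat_lit 0) (nat_lit 199815908962) (nat_lit 152) (nat_lit 583258784695) (nat_lit 76) (nat_lit 2070210603893) (nat_lit 14) (nat_lit 5) (nat_lit 16) (nat_lit 5) (nat_lit 15) (nat_lit 4) (nat_lit 442) (nat_lit 395) (nat_lit 183)) (XT.nd (nat_lit 78) (nat_lit 0) (nat_lit 0) (XT.lf (nat_lit 0) (nat_lit 662762371519) (nat_lit 76) (nat_lit 136102173158) (nat_lit 152) (nat_lit 2230034595390) (nat_lit 13) (nat_lit 5) (nat_lit 14) (nat_lit 5) (nat_lit 15) (nat_lit 4) (nat_lit 443) (nat_lit 395) (nat_lit 182)) (XT.lf (nat_lit 0) (nat_lit 1475729828809) (nat_lit 152) (nat_lit 1189596092348) (nat_lit 0) (nat_lit 550844748224) (nat_lit 13) (nat_lit 5) (nat_lit 15) (nat_lit 4) (nat_lit 13) (nat_lit 4) (nat_lit 444) (nat_lit 395) (nat_lit 181))))))))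
noncomputable def xc220 : XT := (XT.nd (nat_lit 49920) (nat_lit 0) (nat_lit 1672) (XT.nd (nat_lit 780) (nat_lit 0) (nat_lit 0) (XT.nd (nat_lit 390) (nat_lit 228) (nat_lit 0) (XT.nd (nat_lit 156) (nat_lit 152) (nat_lit 0) (XT.nd (nat_lit 78) (nat_lit 0) (nat_lit 0) (XT.lf (nat_lit 0) (nat_lit 81615436475) (nat_lit 76) (nat_lit 2130626866302) (nat_lit 76) (nat_lit 1205741780896) (nat_lit 12) (nat_lit 4) (nat_lit 13) (nat_lit 5) (nat_lit 13) (nat_lit 4) (nat_lit 445) (nat_lit 395) (nat_lit 180)) (XT.lf (nat_lit 0) (nat_lit 1522177257056) (nat_lit 76) (nat_lit 1518024175639) (nat_lit 76) (nat_lit 593139085770) (nat_lit 12) (nat_lit 4) (nat_lit 13) (nat_lit 5) (nat_lit 13) (nat_lit 4) (nat_lit 446) (nat_lit 395) (nat_lit 179))) (XT.nd (nat_lit 78) (nat_lit 76) (nat_lit 0) (XT.lf (nat_lit 0) (nat_lit 65046580053) (nat_lit 152) (nat_lit 789588207489) (nat_lit 76) (nat_lit 3011158941130) (nat_lit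 11) (nat_lit 5) (nat_lit 13) (nat_lit 5) (nat_lit 12) (nat_lit 4) (nat_lit 447) (nat_lit 395) (nat_lit 178)) (XT.nd (nat_lit 78) (nat_lit 0) (nat_lit 0) (XT.lf (nat_lit 0) (nat_lit 655076192258) (nat_lit 76) (nat_lit 104520581821) (nat_lit 152) (nat_lit 3354753557474) (nat_lit 10) (nat_lit 5) (nat_lit 11) (nat_lit 5) (nat_lit 12) (nat_lit 4) (nat_lit 448) (nat_lit 395) (nat_lit 177)) (XT.lf (nat_lit 0) (nat_lit 1548830227991) (nat_lit 152) (nat_lit 2138376560997) (nat_lit 0) (nat_lit 692455134129) (nat_lit 10) (nat_lit 5) (nat_lit 12) (nat_lit 4) (nat_lit 10) (nat_lit 4) (nat_lit 449) (nat_lit 395) (nat_lit 176))))) (XT.nd (nat_lit 156) (nat_lit 152) (nat_lit 0) (XT.nd (nat_lit 78) (nat_lit 76) (nat_lit 0) (XT.lf (nat_lit 0) (nat_lit 2403917172622) (nat_lit 152) (nat_lit 714522008507) (nat_lit 0) (nat_lit 1547542075722) (nat_lit 10) (nat_lit 5) (nat_lit 12) (nat_lit 4) (nat_lit 10) (nat_lit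 4) (nat_lit 450) (nat_lit 395) (nat_lit 175)) (XT.lf (nat_lit 0) (nat_lit 866591304028) (nat_lit 76) (nat_lit 2481661305036) (nat_lit 76) (nat_lit 1625286205324) (nat_lit 9) (nat_lit 4) (nat_lit 10) (nat_lit 5) (nat_lit 10) (nat_lit 4) (nat_lit 451) (nat_lit 395) (nat_lit 174))) (XT.nd (nat_lit 78) (nat_lit 152) (nat_lit 0) (XT.lf (nat_lit 0) (nat_lit 2614829170692) (nat_lit 76) (nat_lit 1772842002370) (nat_lit 76) (nat_lit 916466900054) (nat_lit 9) (nat_lit 4) (nat_lit 10) (nat_lit 5) (nat_lit 10) (nat_lit 4) (nat_lit 452) (nat_lit 395) (nat_lit 173)) (XT.nd (nat_lit 78) (nat_lit 152) (nat_lit 0) (XT.lf (nat_lit 0) (nat_lit 4502926056857) (nat_lit 76) (nat_lit 1007317160404) (nat_lit 76) (nat_lit 150942055676) (nat_lit 9) (nat_lit 4) (nat_lit 10) (nat_lit 5) (nat_lit 10) (nat_lit 4) (nat_lit 453) (nat_lit 395) (nat_lit 172)) (XT.lf (nat_lit 0) (nat_lit 504245221902) (nat_lit 76) (nat_lit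 149899166974) (nat_lit 152) (nat_lit 5390381403295) (nat_lit 7) (nat_lit 5) (nat_lit 8) (nat_lit 5) (nat_lit 9) (nat_lit 4) (nat_lit 454) (nat_lit 395) (nat_lit 171)))))) (XT.nd (nat_lit 48750) (nat_lit 0) (nat_lit 3952) (XT.nd (nat_lit 48516) (nat_lit 0) (nat_lit 4332) (XT.nd (nat_lit 78) (nat_lit 0) (nat_lit 0) (XT.lf (nat_lit 0) (nat_lit 1566639898777) (nat_lit 152) (nat_lit 4113787470015) (nat_lit 0) (nat_lit 773699983011) (nat_lit 7) (nat_lit 5) (nat_lit 9) (nat_lit 4) (nat_lit 7) (nat_lit 4) (nat_lit 455) (nat_lit 395) (nat_lit 170)) (XT.lf (nat_lit 0) (nat_lit 2556028530016) (nat_lit 152) (nat_lit 2577068415272) (nat_lit 0) (nat_lit 1763088612477) (nat_lit 7) (nat_lit 5) (nat_lit 9) (nat_lit 4) (nat_lit 7) (nat_lit 4) (nat_lit 456) (nat_lit 395) (nat_lit 169))) (XT.nd (nat_lit 78) (nat_lit 0) (nat_lit 0) (XT.lf (nat_lit 0) (nat_lit 133466504766) (nat_lit 532) (nat_lit 8940565091)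 (nat_lit 532) (nat_lit 8940565091) (nat_lit 64) (nat_lit 3) (nat_lit 71) (nat_lit 3) (nat_lit 71) (nat_lit 5) (nat_lit 396) (nat_lit 396) (nat_lit 228)) (XT.nd (nat_lit 78) (nat_lit 0) (nat_lit 76) (XT.lf (nat_lit 76) (nat_lit 136043811232) (nat_lit 0) (nat_lit 144839043808) (nat_lit 532) (nat_lit 33658423009) (nat_lit 65) (nat_lit 5) (nat_lit 64) (nat_lit 3) (nat_lit 71) (nat_lit 5) (nat_lit 397) (nat_lit 396) (nat_lit 227)) (XT.lf (nat_lit 0) (nat_lit 296602555963) (nat_lit 456) (nat_lit 24161268306) (nat_lit 532) (nat_lit 6518833228) (nat_lit 65) (nat_lit 5) (nat_lit 71) (nat_lit 5) (nat_lit 72) (nat_lit 5) (nat_lit 398) (nat_lit 396) (nat_lit 226))))) (XT.nd (nat_lit 156) (nat_lit 456) (nat_lit 0) (XT.nd (nat_lit 78) (nat_lit 0) (nat_lit 0) (XT.lf (nat_lit 76) (nat_lit 146066573629) (nat_lit 0) (nat_lit 174788154940) (nat_lit 532) (nat_lit 19606627140) (nat_lit 66) (nat_lit 5) (nat_lit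 65) (nat_lit 5) (nat_lit 72) (nat_lit 5) (nat_lit 399) (nat_lit 396) (nat_lit 225)) (XT.lf (nat_lit 76) (nat_lit 331286675736) (nat_lit 0) (nat_lit 16420952695) (nat_lit 532) (nat_lit 6933877127) (nat_lit 66) (nat_lit 5) (nat_lit 65) (nat_lit 5) (nat_lit 72) (nat_lit 5) (nat_lit 400) (nat_lit 396) (nat_lit 224))) (XT.nd (nat_lit 78) (nat_lit 0) (nat_lit 0) (XT.lf (nat_lit 0) (nat_lit 14324734026) (nat_lit 532) (nat_lit 203750627093) (nat_lit 608) (nat_lit 151234927073) (nat_lit 59) (nat_lit 5) (nat_lit 66) (nat_lit 5) (nat_lit 67) (nat_lit 5) (nat_lit 401) (nat_lit 396) (nat_lit 223)) (XT.nd (nat_lit 78) (nat_lit 0) (nat_lit 76) (XT.lf (nat_lit 0) (nat_lit 37991039265) (nat_lit 532) (nat_lit 14809215757) (nat_lit 608) (nat_lit 332251381228) (nat_lit 59) (nat_lit 5) (nat_lit 66) (nat_lit 5) (nat_lit 67) (nat_lit 5) (nat_lit 402) (nat_lit 396) (nat_lit 222)) (XT.lf (nat_lit 0) (nat_lit 71489132056)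 (nat_lit 532) (nat_lit 205603561711) (nat_lit 76) (nat_lit 124324519776) (nat_lit 60) (nat_lit 5) (nat_lit 67) (nat_lit 5) (nat_lit 61) (nat_lit 5) (nat_lit 403) (nat_lit 396) (nat_lit 221))))))) (XT.nd (nat_lit 780) (nat_lit 1064) (nat_lit 0) (XT.nd (nat_lit 390) (nat_lit 456) (nat_lit 0) (XT.nd (nat_lit 156) (nat_lit 456) (nat_lit 0) (XT.nd (nat_lit 78) (nat_lit 0) (nat_lit 0) (XT.lf (nat_lit 0) (nat_lit 3881069227) (nat_lit 380) (nat_lit 105666159967) (nat_lit 456) (nat_lit 309394395306) (nat_lit 55) (nat_lit 5) (nat_lit 60) (nat_lit 5) (nat_lit 61) (nat_lit 5) (nat_lit 404) (nat_lit 396) (nat_lit 220)) (XT.lf (nat_lit 0) (nat_lit 158328875043) (nat_lit 456) (nat_lit 197658359443) (nat_lit 76) (nat_lit 81266441809) (nat_lit 55) (nat_lit 5) (nat_lit 61) (nat_lit 5) (nat_lit 56) (nat_lit 5) (nat_lit 405) (nat_lit 396) (nat_lit 219))) (XT.nd (nat_lit 78) (nat_lit 228) (nat_lit 0) (XT.lf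 (nat_lit 0) (nat_lit 36202384225) (nat_lit 228) (nat_lit 178425872270) (nat_lit 304) (nat_lit 242113219455) (nat_lit 52) (nat_lit 5) (nat_lit 55) (nat_lit 5) (nat_lit 56) (nat_lit 5) (nat_lit 406) (nat_lit 396) (nat_lit 218)) (XT.nd (nat_lit 78) (nat_lit 228) (nat_lit 0) (XT.lf (nat_lit 0) (nat_lit 281297089439) (nat_lit 304) (nat_lit 177804212922) (nat_lit 76) (nat_lit 18217757167) (nat_lit 52) (nat_lit 5) (nat_lit 56) (nat_lit 5) (nat_lit 53) (nat_lit 5) (nat_lit 407) (nat_lit 396) (nat_lit 217)) (XT.lf (nat_lit 0) (nat_lit 83912626594) (nat_lit 228) (nat_lit 276039306195) (nat_lit 304) (nat_lit 139058716729) (nat_lit 49) (nat_lit 5) (nat_lit 52) (nat_lit 5) (nat_lit 53) (nat_lit 5) (nat_lit 408) (nat_lit 396) (nat_lit 216))))) (XT.nd (nat_lit 156) (nat_lit 228) (nat_lit 0) (XT.nd (nat_lit 78) (nat_lit 228) (nat_lit 0) (XT.lf (nat_lit 0) (nat_lit 376678656661) (nat_lit 228) (nat_lit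 73081955715) (nat_lit 304) (nat_lit 72288038455) (nat_lit 49) (nat_lit 5) (nat_lit 52) (nat_lit 5) (nat_lit 53) (nat_lit 5) (nat_lit 409) (nat_lit 396) (nat_lit 215)) (XT.lf (nat_lit 0) (nat_lit 7137599933) (nat_lit 228) (nat_lit 396618879823) (nat_lit 76) (nat_lit 142589189266) (nat_lit 46) (nat_lit 5) (nat_lit 49) (nat_lit 5) (nat_lit 47) (nat_lit 5) (nat_lit 410) (nat_lit 396) (nat_lit 214))) (XT.nd (nat_lit 78) (nat_lit 228) (nat_lit 0) (XT.lf (nat_lit 0) (nat_lit 94987971276) (nat_lit 228) (nat_lit 99448961270) (nat_lit 76) (nat_lit 377521218146) (nat_lit 46) (nat_lit 5) (nat_lit 49) (nat_lit 5) (nat_lit 47) (nat_lit 5) (nat_lit 411) (nat_lit 396) (nat_lit 213)) (XT.nd (nat_lit 78) (nat_lit 0) (nat_lit 0) (XT.lf (nat_lit 0) (nat_lit 196380106526) (nat_lit 304) (nat_lit 366919320662) (nat_lit 76) (nat_lit 35799104990) (nat_lit 43) (nat_lit 5) (nat_lit 47) (nat_lit 5) (nat_lit 44) (nat_lit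 5) (nat_lit 412) (nat_lit 396) (nat_lit 212)) (XT.lf (nat_lit 0) (nat_lit 313723632342) (nat_lit 304) (nat_lit 37320200731) (nat_lit 76) (nat_lit 276739109547) (nat_lit 43) (nat_lit 5) (nat_lit 47) (nat_lit 5) (nat_lit 44) (nat_lit 5) (nat_lit 413) (nat_lit 396) (nat_lit 211)))))) (XT.nd (nat_lit 390) (nat_lit 532) (nat_lit 0) (XT.nd (nat_lit 156) (nat_lit 228) (nat_lit 0) (XT.nd (nat_lit 78) (nat_lit 152) (nat_lit 0) (XT.lf (nat_lit 0) (nat_lit 335426190224) (nat_lit 152) (nat_lit 113095432677) (nat_lit 228) (nat_lit 209595124399) (nat_lit 41) (nat_lit 5) (nat_lit 43) (nat_lit 5) (nat_lit 44) (nat_lit 5) (nat_lit 414) (nat_lit 396) (nat_lit 210)) (XT.lf (nat_lit 0) (nat_lit 48245464682) (nat_lit 152) (nat_lit 551525702541) (nat_lit 228) (nat_lit 90652671982) (nat_lit 39) (nat_lit 5) (nat_lit 41) (nat_lit 5) (nat_lit 42) (nat_lit 5) (nat_lit 415) (nat_lit 396) (nat_lit 209))) (XT.nd (nat_lit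 78) (nat_lit 152) (nat_lit 0) (XT.lf (nat_lit 0) (nat_lit 47903626921) (nat_lit 228) (nat_lit 261477560294) (nat_lit 76) (nat_lit 414902404563) (nat_lit 38) (nat_lit 5) (nat_lit 41) (nat_lit 5) (nat_lit 39) (nat_lit 5) (nat_lit 416) (nat_lit 396) (nat_lit 208)) (XT.nd (nat_lit 78) (nat_lit 0) (nat_lit 0) (XT.lf (nat_lit 0) (nat_lit 155082526693) (nat_lit 152) (nat_lit 41294020316) (nat_lit 228) (nat_lit 563988831076) (nat_lit 36) (nat_lit 5) (nat_lit 38) (nat_lit 5) (nat_lit 39) (nat_lit 5) (nat_lit 417) (nat_lit 396) (nat_lit 207)) (XT.lf (nat_lit 0) (nat_lit 370032414769) (nat_lit 228) (nat_lit 185079795443) (nat_lit 76) (nat_lit 243157087970) (nat_lit 36) (nat_lit 5) (nat_lit 39) (nat_lit 5) (nat_lit 37) (nat_lit 5) (nat_lit 418) (nat_lit 396) (nat_lit 206))))) (XT.nd (nat_lit 234) (nat_lit 228) (nat_lit 0) (XT.nd (nat_lit 78) (nat_lit 152) (nat_lit 0) (XT.lf (nat_lit 0) (nat_lit 281761766035)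 (nat_lit 152) (nat_lit 283667915001) (nat_lit 228) (nat_lit 273147936534) (nat_lit 34) (nat_lit 5) (nat_lit 36) (nat_lit 5) (nat_lit 37) (nat_lit 5) (nat_lit 419) (nat_lit 396) (nat_lit 205)) (XT.nd (nat_lit 78) (nat_lit 152) (nat_lit 0) (XT.lf (nat_lit 0) (nat_lit 781878838761) (nat_lit 228) (nat_lit 85589217704) (nat_lit 76) (nat_lit 14208937240) (nat_lit 34) (nat_lit 5) (nat_lit 37) (nat_lit 5) (nat_lit 35) (nat_lit 4) (nat_lit 420) (nat_lit 396) (nat_lit 204)) (XT.lf (nat_lit 0) (nat_lit 101410233104) (nat_lit 152) (nat_lit 491488131705) (nat_lit 76) (nat_lit 333688663087) (nat_lit 32) (nat_lit 5) (nat_lit 34) (nat_lit 5) (nat_lit 33) (nat_lit 5) (nat_lit 421) (nat_lit 396) (nat_lit 203)))) (XT.nd (nat_lit 78) (nat_lit 76) (nat_lit 0) (XT.lf (nat_lit 0) (nat_lit 26057468781) (nat_lit 152) (nat_lit 290293739925) (nat_lit 228) (nat_lit 658289074613) (nat_lit 30) (nat_lit 5) (nat_lit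 32) (nat_lit 5) (nat_lit 33) (nat_lit 5) (nat_lit 422) (nat_lit 396) (nat_lit 202)) (XT.nd (nat_lit 78) (nat_lit 76) (nat_lit 0) (XT.lf (nat_lit 0) (nat_lit 563152933195) (nat_lit 228) (nat_lit 413732026111) (nat_lit 76) (nat_lit 48479602207) (nat_lit 30) (nat_lit 5) (nat_lit 33) (nat_lit 5) (nat_lit 31) (nat_lit 4) (nat_lit 423) (nat_lit 396) (nat_lit 201)) (XT.lf (nat_lit 0) (nat_lit 164600693496) (nat_lit 76) (nat_lit 676596833573) (nat_lit 152) (nat_lit 238029356386) (nat_lit 29) (nat_lit 5) (nat_lit 30) (nat_lit 5) (nat_lit 31) (nat_lit 4) (nat_lit 424) (nat_lit 396) (nat_lit 200))))))))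
noncomputable def xc221 : XT := (XT.nd (nat_lit 1560) (nat_lit 456) (nat_lit 0) (XT.nd (nat_lit 780) (nat_lit 532) (nat_lit 0) (XT.nd (nat_lit 390) (nat_lit 380) (nat_lit 0) (XT.nd (nat_lit 156) (nat_lit 76) (nat_lit 0) (XT.nd (nat_lit 78) (nat_lit 152) (nat_lit 0) (XT.lf (nat_lit 0) (nat_lit 15488997221) (nat_lit 152) (nat_lit 324156035363) (nat_lit 76) (nat_lit 796816816376) (nat_lit 28) (nat_lit 5) (nat_lit 30) (nat_lit 5) (nat_lit 29) (nat_lit 5) (nat_lit 425) (nat_lit 396) (nat_lit 199)) (XT.lf (nat_lit 0) (nat_lit 285156759782) (nat_lit 228) (nat_lit 874550075196) (nat_lit 76) (nat_lit 37375953597) (nat_lit 26) (nat_lit 5) (nat_lit 29) (nat_lit 5) (nat_lit 27) (nat_lit 4) (nat_lit 426) (nat_lit 396) (nat_lit 198))) (XT.nd (nat_lit 78) (nat_lit 76) (nat_lit 0) (XT.lf (nat_lit 0) (nat_lit 594313085735) (nat_lit 228) (nat_lit 231504943420) (nat_lit 76) (nat_lit 435302162818) (nat_lit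 26) (nat_lit 5) (nat_lit 29) (nat_lit 5) (nat_lit 27) (nat_lit 4) (nat_lit 427) (nat_lit 396) (nat_lit 197)) (XT.nd (nat_lit 78) (nat_lit 0) (nat_lit 0) (XT.lf (nat_lit 0) (nat_lit 487363679562) (nat_lit 76) (nat_lit 452559332733) (nat_lit 152) (nat_lit 389419887788) (nat_lit 25) (nat_lit 5) (nat_lit 26) (nat_lit 5) (nat_lit 27) (nat_lit 4) (nat_lit 428) (nat_lit 396) (nat_lit 196)) (XT.lf (nat_lit 0) (nat_lit 1276907659844) (nat_lit 76) (nat_lit 42603815312) (nat_lit 152) (nat_lit 83005570318) (nat_lit 25) (nat_lit 5) (nat_lit 26) (nat_lit 5) (nat_lit 27) (nat_lit 4) (nat_lit 429) (nat_lit 396) (nat_lit 195))))) (XT.nd (nat_lit 156) (nat_lit 228) (nat_lit 0) (XT.nd (nat_lit 78) (nat_lit 0) (nat_lit 0) (XT.lf (nat_lit 0) (nat_lit 261976382402) (nat_lit 152) (nat_lit 814048596162) (nat_lit 76) (nat_lit 402926617976) (nat_lit 23) (nat_lit 5) (nat_lit 25) (nat_lit 5) (nat_lit 24) (nat_lit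 4) (nat_lit 430) (nat_lit 396) (nat_lit 194)) (XT.lf (nat_lit 0) (nat_lit 634702602698) (nat_lit 152) (nat_lit 38778075780) (nat_lit 76) (nat_lit 887477340657) (nat_lit 23) (nat_lit 5) (nat_lit 25) (nat_lit 5) (nat_lit 24) (nat_lit 4) (nat_lit 431) (nat_lit 396) (nat_lit 193))) (XT.nd (nat_lit 78) (nat_lit 152) (nat_lit 0) (XT.lf (nat_lit 0) (nat_lit 840562400634) (nat_lit 76) (nat_lit 216900054434) (nat_lit 152) (nat_lit 590445257718) (nat_lit 22) (nat_lit 5) (nat_lit 23) (nat_lit 5) (nat_lit 24) (nat_lit 4) (nat_lit 432) (nat_lit 396) (nat_lit 192)) (XT.nd (nat_lit 78) (nat_lit 76) (nat_lit 0) (XT.lf (nat_lit 0) (nat_lit 46376491579) (nat_lit 76) (nat_lit 1476512534441) (nat_lit 76) (nat_lit 218216681479) (nat_lit 21) (nat_lit 4) (nat_lit 22) (nat_lit 5) (nat_lit 22) (nat_lit 4) (nat_lit 433) (nat_lit 396) (nat_lit 191)) (XT.lf (nat_lit 0) (nat_lit 202877616741) (nat_lit 152) (nat_lit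 836310423249) (nat_lit 76) (nat_lit 799955379934) (nat_lit 20) (nat_lit 5) (nat_lit 22) (nat_lit 5) (nat_lit 21) (nat_lit 4) (nat_lit 434) (nat_lit 396) (nat_lit 190)))))) (XT.nd (nat_lit 390) (nat_lit 304) (nat_lit 0) (XT.nd (nat_lit 156) (nat_lit 152) (nat_lit 0) (XT.nd (nat_lit 78) (nat_lit 0) (nat_lit 0) (XT.lf (nat_lit 0) (nat_lit 89595833771) (nat_lit 76) (nat_lit 558429027757) (nat_lit 152) (nat_lit 1296373468838) (nat_lit 19) (nat_lit 5) (nat_lit 20) (nat_lit 5) (nat_lit 21) (nat_lit 4) (nat_lit 435) (nat_lit 396) (nat_lit 189)) (XT.lf (nat_lit 0) (nat_lit 1137136286877) (nat_lit 76) (nat_lit 14513797894) (nat_lit 152) (nat_lit 904594252965) (nat_lit 19) (nat_lit 5) (nat_lit 20) (nat_lit 5) (nat_lit 21) (nat_lit 4) (nat_lit 436) (nat_lit 396) (nat_lit 188))) (XT.nd (nat_lit 78) (nat_lit 76) (nat_lit 0) (XT.lf (nat_lit 0) (nat_lit 81752933863) (nat_lit 76) (nat_lit 1629557153537)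 (nat_lit 76) (nat_lit 464468357375) (nat_lit 18) (nat_lit 4) (nat_lit 19) (nat_lit 5) (nat_lit 19) (nat_lit 4) (nat_lit 437) (nat_lit 396) (nat_lit 187)) (XT.nd (nat_lit 78) (nat_lit 0) (nat_lit 0) (XT.lf (nat_lit 0) (nat_lit 36483711480) (nat_lit 152) (nat_lit 1089202685204) (nat_lit 76) (nat_lit 1177075194915) (nat_lit 17) (nat_lit 5) (nat_lit 19) (nat_lit 5) (nat_lit 18) (nat_lit 4) (nat_lit 438) (nat_lit 396) (nat_lit 186)) (XT.lf (nat_lit 0) (nat_lit 552418581561) (nat_lit 152) (nat_lit 16058163696) (nat_lit 76) (nat_lit 1870461516568) (nat_lit 17) (nat_lit 5) (nat_lit 19) (nat_lit 5) (nat_lit 18) (nat_lit 4) (nat_lit 439) (nat_lit 396) (nat_lit 185))))) (XT.nd (nat_lit 156) (nat_lit 228) (nat_lit 0) (XT.nd (nat_lit 78) (nat_lit 0) (nat_lit 0) (XT.lf (nat_lit 0) (nat_lit 1140116030213) (nat_lit 152) (nat_lit 1382123927493) (nat_lit 0) (nat_lit 61330084848) (nat_lit 16) (nat_lit 5)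 (nat_lit 18) (nat_lit 4) (nat_lit 16) (nat_lit 4) (nat_lit 440) (nat_lit 396) (nat_lit 184)) (XT.lf (nat_lit 0) (nat_lit 1790045359122) (nat_lit 152) (nat_lit 237250312673) (nat_lit 0) (nat_lit 711259407199) (nat_lit 16) (nat_lit 5) (nat_lit 18) (nat_lit 4) (nat_lit 16) (nat_lit 4) (nat_lit 441) (nat_lit 396) (nat_lit 183))) (XT.nd (nat_lit 78) (nat_lit 152) (nat_lit 0) (XT.lf (nat_lit 0) (nat_lit 1051829971758) (nat_lit 76) (nat_lit 1465435591150) (nat_lit 76) (nat_lit 386649633155) (nat_lit 15) (nat_lit 4) (nat_lit 16) (nat_lit 5) (nat_lit 16) (nat_lit 4) (nat_lit 442) (nat_lit 396) (nat_lit 182)) (XT.nd (nat_lit 78) (nat_lit 76) (nat_lit 0) (XT.lf (nat_lit 0) (nat_lit 215801328556) (nat_lit 152) (nat_lit 629919200219) (nat_lit 76) (nat_lit 2235827580810) (nat_lit 14) (nat_lit 5) (nat_lit 16) (nat_lit 5) (nat_lit 15) (nat_lit 4) (nat_lit 443) (nat_lit 396) (nat_lit 181)) (XT.lf (nat_lit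 0) (nat_lit 715783641220) (nat_lit 76) (nat_lit 146990209761) (nat_lit 152) (nat_lit 2408437208854) (nat_lit 13) (nat_lit 5) (nat_lit 14) (nat_lit 5) (nat_lit 15) (nat_lit 4) (nat_lit 444) (nat_lit 396) (nat_lit 180))))))) (XT.nd (nat_lit 780) (nat_lit 152) (nat_lit 0) (XT.nd (nat_lit 390) (nat_lit 76) (nat_lit 0) (XT.nd (nat_lit 156) (nat_lit 152) (nat_lit 0) (XT.nd (nat_lit 78) (nat_lit 76) (nat_lit 0) (XT.lf (nat_lit 0) (nat_lit 1593788350328) (nat_lit 152) (nat_lit 1284763512963) (nat_lit 0) (nat_lit 594912448807) (nat_lit 13) (nat_lit 5) (nat_lit 15) (nat_lit 4) (nat_lit 13) (nat_lit 4) (nat_lit 445) (nat_lit 396) (nat_lit 179)) (XT.lf (nat_lit 0) (nat_lit 88144931413) (nat_lit 76) (nat_lit 2301076887038) (nat_lit 76) (nat_lit 1302200981384) (nat_lit 12) (nat_lit 4) (nat_lit 13) (nat_lit 5) (nat_lit 13) (nat_lit 4) (nat_lit 446) (nat_lit 396) (nat_lit 178))) (XT.nd (nat_lit 78) (nat_lit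 152) (nat_lit 0) (XT.lf (nat_lit 0) (nat_lit 1643951678379) (nat_lit 76) (nat_lit 1639465990646) (nat_lit 76) (nat_lit 640590081166) (nat_lit 12) (nat_lit 4) (nat_lit 13) (nat_lit 5) (nat_lit 13) (nat_lit 4) (nat_lit 447) (nat_lit 396) (nat_lit 177)) (XT.nd (nat_lit 78) (nat_lit 76) (nat_lit 0) (XT.lf (nat_lit 0) (nat_lit 70250422096) (nat_lit 152) (nat_lit 852755035062) (nat_lit 76) (nat_lit 3252051760545) (nat_lit 11) (nat_lit 5) (nat_lit 13) (nat_lit 5) (nat_lit 12) (nat_lit 4) (nat_lit 448) (nat_lit 396) (nat_lit 176)) (XT.lf (nat_lit 0) (nat_lit 707482510866) (nat_lit 76) (nat_lit 112882117580) (nat_lit 152) (nat_lit 3623133720624) (nat_lit 10) (nat_lit 5) (nat_lit 11) (nat_lit 5) (nat_lit 12) (nat_lit 4) (nat_lit 449) (nat_lit 396) (nat_lit 175))))) (XT.nd (nat_lit 156) (nat_lit 76) (nat_lit 0) (XT.nd (nat_lit 78) (nat_lit 0) (nat_lit 0) (XT.lf (nat_lit 0) (nat_lit 1672736752810)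 (nat_lit 152) (nat_lit 2309446473311) (nat_lit 0) (nat_lit 747851642308) (nat_lit 10) (nat_lit 5) (nat_lit 12) (nat_lit 4) (nat_lit 10) (nat_lit 4) (nat_lit 450) (nat_lit 396) (nat_lit 174)) (XT.lf (nat_lit 0) (nat_lit 2596230645117) (nat_lit 152) (nat_lit 771683572368) (nat_lit 0) (nat_lit 1671345532011) (nat_lit 10) (nat_lit 5) (nat_lit 12) (nat_lit 4) (nat_lit 10) (nat_lit 4) (nat_lit 451) (nat_lit 396) (nat_lit 173))) (XT.nd (nat_lit 78) (nat_lit 0) (nat_lit 0) (XT.lf (nat_lit 0) (nat_lit 935918800187) (nat_lit 76) (nat_lit 2680194113591) (nat_lit 76) (nat_lit 1755308998073) (nat_lit 9) (nat_lit 4) (nat_lit 10) (nat_lit 5) (nat_lit 10) (nat_lit 4) (nat_lit 452) (nat_lit 396) (nat_lit 172)) (XT.nd (nat_lit 78) (nat_lit 0) (nat_lit 0) (XT.lf (nat_lit 0) (nat_lit 2824015681974) (nat_lit 76) (nat_lit 1914669273811) (nat_lit 76) (nat_lit 989784156061) (nat_lit 9) (nat_lit 4) (nat_lit 10)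 (nat_lit 5) (nat_lit 10) (nat_lit 4) (nat_lit 453) (nat_lit 396) (nat_lit 171)) (XT.lf (nat_lit 0) (nat_lit 4863160305874) (nat_lit 76) (nat_lit 1087902451062) (nat_lit 76) (nat_lit 163017331244) (nat_lit 9) (nat_lit 4) (nat_lit 10) (nat_lit 5) (nat_lit 10) (nat_lit 4) (nat_lit 454) (nat_lit 396) (nat_lit 170)))))) (XT.nd (nat_lit 48828) (nat_lit 0) (nat_lit 3648) (XT.nd (nat_lit 48594) (nat_lit 0) (nat_lit 4332) (XT.nd (nat_lit 78) (nat_lit 0) (nat_lit 0) (XT.lf (nat_lit 0) (nat_lit 544585004300) (nat_lit 76) (nat_lit 161891017830) (nat_lit 152) (nat_lit 5821611826836) (nat_lit 7) (nat_lit 5) (nat_lit 8) (nat_lit 5) (nat_lit 9) (nat_lit 4) (nat_lit 455) (nat_lit 396) (nat_lit 169)) (XT.lf (nat_lit 0) (nat_lit 1691971168577) (nat_lit 152) (nat_lit 4442890310912) (nat_lit 0) (nat_lit 835596054221) (nat_lit 7) (nat_lit 5) (nat_lit 9) (nat_lit 4) (nat_lit 7) (nat_lit 4) (nat_lit 456) (nat_lit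 396) (nat_lit 168))) (XT.nd (nat_lit 78) (nat_lit 0) (nat_lit 0) (XT.lf (nat_lit 0) (nat_lit 144144477272) (nat_lit 532) (nat_lit 9655457842) (nat_lit 532) (nat_lit 9655457842) (nat_lit 64) (nat_lit 3) (nat_lit 71) (nat_lit 3) (nat_lit 71) (nat_lit 5) (nat_lit 397) (nat_lit 397) (nat_lit 226)) (XT.nd (nat_lit 78) (nat_lit 0) (nat_lit 76) (XT.lf (nat_lit 76) (nat_lit 146928003197) (nat_lit 0) (nat_lit 156426704409) (nat_lit 532) (nat_lit 36349773612) (nat_lit 65) (nat_lit 5) (nat_lit 64) (nat_lit 3) (nat_lit 71) (nat_lit 5) (nat_lit 398) (nat_lit 397) (nat_lit 225)) (XT.lf (nat_lit 0) (nat_lit 320331881964) (nat_lit 456) (nat_lit 26093429901) (nat_lit 532) (nat_lit 7039867452) (nat_lit 65) (nat_lit 5) (nat_lit 71) (nat_lit 5) (nat_lit 72) (nat_lit 5) (nat_lit 399) (nat_lit 397) (nat_lit 224))))) (XT.nd (nat_lit 234) (nat_lit 304) (nat_lit 0) (XT.nd (nat_lit 78) (nat_lit 456) (nat_lit 0)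 (XT.lf (nat_lit 76) (nat_lit 157752620657) (nat_lit 0) (nat_lit 188771541989) (nat_lit 532) (nat_lit 21174016078) (nat_lit 66) (nat_lit 5) (nat_lit 65) (nat_lit 5) (nat_lit 72) (nat_lit 5) (nat_lit 400) (nat_lit 397) (nat_lit 223)) (XT.nd (nat_lit 78) (nat_lit 456) (nat_lit 0) (XT.lf (nat_lit 76) (nat_lit 357790277515) (nat_lit 0) (nat_lit 17734938775) (nat_lit 532) (nat_lit 7487530599) (nat_lit 66) (nat_lit 5) (nat_lit 65) (nat_lit 5) (nat_lit 72) (nat_lit 5) (nat_lit 401) (nat_lit 397) (nat_lit 222)) (XT.lf (nat_lit 0) (nat_lit 15471653288) (nat_lit 532) (nat_lit 220049891765) (nat_lit 608) (nat_lit 163333490173) (nat_lit 59) (nat_lit 5) (nat_lit 66) (nat_lit 5) (nat_lit 67) (nat_lit 5) (nat_lit 402) (nat_lit 397) (nat_lit 221)))) (XT.nd (nat_lit 78) (nat_lit 304) (nat_lit 0) (XT.lf (nat_lit 0) (nat_lit 41031193277) (nat_lit 532) (nat_lit 15993225707) (nat_lit 608) (nat_lit 358831277776)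 (nat_lit 59) (nat_lit 5) (nat_lit 66) (nat_lit 5) (nat_lit 67) (nat_lit 5) (nat_lit 403) (nat_lit 397) (nat_lit 220)) (XT.nd (nat_lit 78) (nat_lit 380) (nat_lit 0) (XT.lf (nat_lit 0) (nat_lit 77209083277) (nat_lit 532) (nat_lit 222051068457) (nat_lit 76) (nat_lit 134270372573) (nat_lit 60) (nat_lit 5) (nat_lit 67) (nat_lit 5) (nat_lit 61) (nat_lit 5) (nat_lit 404) (nat_lit 397) (nat_lit 219)) (XT.lf (nat_lit 0) (nat_lit 4192313255) (nat_lit 380) (nat_lit 114119472384) (nat_lit 456) (nat_lit 334145105955) (nat_lit 55) (nat_lit 5) (nat_lit 60) (nat_lit 5) (nat_lit 61) (nat_lit 5) (nat_lit 405) (nat_lit 397) (nat_lit 218))))))))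
noncomputable def xc222 : XT := (XT.nd (nat_lit 1560) (nat_lit 1216) (nat_lit 0) (XT.nd (nat_lit 780) (nat_lit 912) (nat_lit 0) (XT.nd (nat_lit 390) (nat_lit 608) (nat_lit 0) (XT.nd (nat_lit 156) (nat_lit 228) (nat_lit 0) (XT.nd (nat_lit 78) (nat_lit 228) (nat_lit 0) (XT.lf (nat_lit 0) (nat_lit 170995905081) (nat_lit 456) (nat_lit 213470267247) (nat_lit 76) (nat_lit 87767739896) (nat_lit 55) (nat_lit 5) (nat_lit 61) (nat_lit 5) (nat_lit 56) (nat_lit 5) (nat_lit 406) (nat_lit 397) (nat_lit 217)) (XT.lf (nat_lit 0) (nat_lit 39099316650) (nat_lit 228) (nat_lit 192699884901) (nat_lit 304) (nat_lit 261481537183) (nat_lit 52) (nat_lit 5) (nat_lit 55) (nat_lit 5) (nat_lit 56) (nat_lit 5) (nat_lit 407) (nat_lit 397) (nat_lit 216))) (XT.nd (nat_lit 78) (nat_lit 228) (nat_lit 0) (XT.lf (nat_lit 0) (nat_lit 303801491697) (nat_lit 304) (nat_lit 192027813285) (nat_lit 76) (nat_lit 19675228010) (nat_lit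 52) (nat_lit 5) (nat_lit 56) (nat_lit 5) (nat_lit 53) (nat_lit 5) (nat_lit 408) (nat_lit 397) (nat_lit 215)) (XT.nd (nat_lit 78) (nat_lit 0) (nat_lit 0) (XT.lf (nat_lit 0) (nat_lit 90626354742) (nat_lit 228) (nat_lit 298122337997) (nat_lit 304) (nat_lit 150182759861) (nat_lit 49) (nat_lit 5) (nat_lit 52) (nat_lit 5) (nat_lit 53) (nat_lit 5) (nat_lit 409) (nat_lit 397) (nat_lit 214)) (XT.lf (nat_lit 0) (nat_lit 406813614027) (nat_lit 228) (nat_lit 78928407825) (nat_lit 304) (nat_lit 78070475785) (nat_lit 49) (nat_lit 5) (nat_lit 52) (nat_lit 5) (nat_lit 53) (nat_lit 5) (nat_lit 410) (nat_lit 397) (nat_lit 213))))) (XT.nd (nat_lit 156) (nat_lit 380) (nat_lit 0) (XT.nd (nat_lit 78) (nat_lit 0) (nat_lit 0) (XT.lf (nat_lit 0) (nat_lit 7709160148) (nat_lit 228) (nat_lit 428347671100) (nat_lit 76) (nat_lit 153996446759) (nat_lit 46) (nat_lit 5) (nat_lit 49) (nat_lit 5) (nat_lit 47) (nat_lit 5)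 (nat_lit 411) (nat_lit 397) (nat_lit 212)) (XT.lf (nat_lit 0) (nat_lit 102587520294) (nat_lit 228) (nat_lit 107404212330) (nat_lit 76) (nat_lit 407723028885) (nat_lit 46) (nat_lit 5) (nat_lit 49) (nat_lit 5) (nat_lit 47) (nat_lit 5) (nat_lit 412) (nat_lit 397) (nat_lit 211))) (XT.nd (nat_lit 78) (nat_lit 152) (nat_lit 0) (XT.lf (nat_lit 0) (nat_lit 212091007943) (nat_lit 304) (nat_lit 396272181744) (nat_lit 76) (nat_lit 38663185325) (nat_lit 43) (nat_lit 5) (nat_lit 47) (nat_lit 5) (nat_lit 44) (nat_lit 5) (nat_lit 413) (nat_lit 397) (nat_lit 210)) (XT.nd (nat_lit 78) (nat_lit 152) (nat_lit 0) (XT.lf (nat_lit 0) (nat_lit 338821979313) (nat_lit 304) (nat_lit 40305182928) (nat_lit 76) (nat_lit 298878378992) (nat_lit 43) (nat_lit 5) (nat_lit 47) (nat_lit 5) (nat_lit 44) (nat_lit 5) (nat_lit 414) (nat_lit 397) (nat_lit 209)) (XT.lf (nat_lit 0) (nat_lit 362260903256) (nat_lit 152) (nat_lit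 122142886912) (nat_lit 228) (nat_lit 226362261655) (nat_lit 41) (nat_lit 5) (nat_lit 43) (nat_lit 5) (nat_lit 44) (nat_lit 5) (nat_lit 415) (nat_lit 397) (nat_lit 208)))))) (XT.nd (nat_lit 390) (nat_lit 380) (nat_lit 0) (XT.nd (nat_lit 156) (nat_lit 304) (nat_lit 0) (XT.nd (nat_lit 78) (nat_lit 76) (nat_lit 0) (XT.lf (nat_lit 0) (nat_lit 52105734170) (nat_lit 152) (nat_lit 595647550689) (nat_lit 228) (nat_lit 97904427298) (nat_lit 39) (nat_lit 5) (nat_lit 41) (nat_lit 5) (nat_lit 42) (nat_lit 5) (nat_lit 416) (nat_lit 397) (nat_lit 207)) (XT.lf (nat_lit 0) (nat_lit 51736320324) (nat_lit 228) (nat_lit 282395158198) (nat_lit 76) (nat_lit 448094768128) (nat_lit 38) (nat_lit 5) (nat_lit 41) (nat_lit 5) (nat_lit 39) (nat_lit 5) (nat_lit 417) (nat_lit 397) (nat_lit 206))) (XT.nd (nat_lit 78) (nat_lit 152) (nat_lit 0) (XT.lf (nat_lit 0) (nat_lit 167489720383) (nat_lit 152) (nat_lit 44597337993)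 (nat_lit 228) (nat_lit 609107518753) (nat_lit 36) (nat_lit 5) (nat_lit 38) (nat_lit 5) (nat_lit 39) (nat_lit 5) (nat_lit 418) (nat_lit 397) (nat_lit 205)) (XT.nd (nat_lit 78) (nat_lit 152) (nat_lit 0) (XT.lf (nat_lit 0) (nat_lit 399635371387) (nat_lit 228) (nat_lit 199885606993) (nat_lit 76) (nat_lit 262609834402) (nat_lit 36) (nat_lit 5) (nat_lit 39) (nat_lit 5) (nat_lit 37) (nat_lit 5) (nat_lit 419) (nat_lit 397) (nat_lit 204)) (XT.lf (nat_lit 0) (nat_lit 304303264920) (nat_lit 152) (nat_lit 306361140524) (nat_lit 228) (nat_lit 294999393370) (nat_lit 34) (nat_lit 5) (nat_lit 36) (nat_lit 5) (nat_lit 37) (nat_lit 5) (nat_lit 420) (nat_lit 397) (nat_lit 203))))) (XT.nd (nat_lit 156) (nat_lit 228) (nat_lit 0) (XT.nd (nat_lit 78) (nat_lit 152) (nat_lit 0) (XT.lf (nat_lit 0) (nat_lit 844429474492) (nat_lit 228) (nat_lit 92435817372) (nat_lit 76) (nat_lit 15345834893) (nat_lit 34) (nat_lit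 5) (nat_lit 37) (nat_lit 5) (nat_lit 35) (nat_lit 4) (nat_lit 421) (nat_lit 397) (nat_lit 202)) (XT.lf (nat_lit 0) (nat_lit 109523377012) (nat_lit 152) (nat_lit 530806640846) (nat_lit 76) (nat_lit 360383946117) (nat_lit 32) (nat_lit 5) (nat_lit 34) (nat_lit 5) (nat_lit 33) (nat_lit 5) (nat_lit 422) (nat_lit 397) (nat_lit 201))) (XT.nd (nat_lit 78) (nat_lit 76) (nat_lit 0) (XT.lf (nat_lit 0) (nat_lit 28142593971) (nat_lit 152) (nat_lit 313517025287) (nat_lit 228) (nat_lit 710951861494) (nat_lit 30) (nat_lit 5) (nat_lit 32) (nat_lit 5) (nat_lit 33) (nat_lit 5) (nat_lit 423) (nat_lit 397) (nat_lit 200)) (XT.nd (nat_lit 78) (nat_lit 76) (nat_lit 0) (XT.lf (nat_lit 0) (nat_lit 608205463220) (nat_lit 228) (nat_lit 446830080999) (nat_lit 76) (nat_lit 52358158472) (nat_lit 30) (nat_lit 5) (nat_lit 33) (nat_lit 5) (nat_lit 31) (nat_lit 4) (nat_lit 424) (nat_lit 397) (nat_lit 199)) (XT.lf (nat_lit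 0) (nat_lit 177769243336) (nat_lit 76) (nat_lit 730724371279) (nat_lit 152) (nat_lit 257071396582) (nat_lit 29) (nat_lit 5) (nat_lit 30) (nat_lit 5) (nat_lit 31) (nat_lit 4) (nat_lit 425) (nat_lit 397) (nat_lit 198))))))) (XT.nd (nat_lit 780) (nat_lit 532) (nat_lit 0) (XT.nd (nat_lit 390) (nat_lit 380) (nat_lit 0) (XT.nd (nat_lit 156) (nat_lit 76) (nat_lit 0) (XT.nd (nat_lit 78) (nat_lit 152) (nat_lit 0) (XT.lf (nat_lit 0) (nat_lit 16728388195) (nat_lit 152) (nat_lit 350088046080) (nat_lit 76) (nat_lit 860562340815) (nat_lit 28) (nat_lit 5) (nat_lit 30) (nat_lit 5) (nat_lit 29) (nat_lit 5) (nat_lit 426) (nat_lit 397) (nat_lit 197)) (XT.lf (nat_lit 0) (nat_lit 307969567501) (nat_lit 228) (nat_lit 944513604756) (nat_lit 76) (nat_lit 40366217965) (nat_lit 26) (nat_lit 5) (nat_lit 29) (nat_lit 5) (nat_lit 27) (nat_lit 4) (nat_lit 427) (nat_lit 397) (nat_lit 196))) (XT.nd (nat_lit 78) (nat_lit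 76) (nat_lit 0) (XT.lf (nat_lit 0) (nat_lit 641858379757) (nat_lit 228) (nat_lit 250024897731) (nat_lit 76) (nat_lit 470126509992) (nat_lit 26) (nat_lit 5) (nat_lit 29) (nat_lit 5) (nat_lit 27) (nat_lit 4) (nat_lit 428) (nat_lit 397) (nat_lit 195)) (XT.nd (nat_lit 78) (nat_lit 0) (nat_lit 0) (XT.lf (nat_lit 0) (nat_lit 526353203921) (nat_lit 76) (nat_lit 488763888554) (nat_lit 152) (nat_lit 420573220408) (nat_lit 25) (nat_lit 5) (nat_lit 26) (nat_lit 5) (nat_lit 27) (nat_lit 4) (nat_lit 429) (nat_lit 397) (nat_lit 194)) (XT.lf (nat_lit 0) (nat_lit 1379060670774) (nat_lit 76) (nat_lit 46011943872) (nat_lit 152) (nat_lit 89645776681) (nat_lit 25) (nat_lit 5) (nat_lit 26) (nat_lit 5) (nat_lit 27) (nat_lit 4) (nat_lit 430) (nat_lit 397) (nat_lit 193))))) (XT.nd (nat_lit 156) (nat_lit 228) (nat_lit 0) (XT.nd (nat_lit 78) (nat_lit 0) (nat_lit 0) (XT.lf (nat_lit 0) (nat_lit 282934717388) (nat_lit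 152) (nat_lit 879172070726) (nat_lit 76) (nat_lit 435160918140) (nat_lit 23) (nat_lit 5) (nat_lit 25) (nat_lit 5) (nat_lit 24) (nat_lit 4) (nat_lit 431) (nat_lit 397) (nat_lit 192)) (XT.lf (nat_lit 0) (nat_lit 685479018687) (nat_lit 152) (nat_lit 41879939316) (nat_lit 76) (nat_lit 958475685989) (nat_lit 23) (nat_lit 5) (nat_lit 25) (nat_lit 5) (nat_lit 24) (nat_lit 4) (nat_lit 432) (nat_lit 397) (nat_lit 191))) (XT.nd (nat_lit 78) (nat_lit 152) (nat_lit 0) (XT.lf (nat_lit 0) (nat_lit 907807765527) (nat_lit 76) (nat_lit 234251887294) (nat_lit 152) (nat_lit 637680660830) (nat_lit 22) (nat_lit 5) (nat_lit 23) (nat_lit 5) (nat_lit 24) (nat_lit 4) (nat_lit 433) (nat_lit 397) (nat_lit 190)) (XT.nd (nat_lit 78) (nat_lit 76) (nat_lit 0) (XT.lf (nat_lit 0) (nat_lit 50086986036) (nat_lit 76) (nat_lit 1594633361340) (nat_lit 76) (nat_lit 235673800736) (nat_lit 21) (nat_lit 4) (nat_lit 22) (nat_lit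 5) (nat_lit 22) (nat_lit 4) (nat_lit 434) (nat_lit 397) (nat_lit 189)) (XT.lf (nat_lit 0) (nat_lit 219108015426) (nat_lit 152) (nat_lit 903214899756) (nat_lit 76) (nat_lit 863951963149) (nat_lit 20) (nat_lit 5) (nat_lit 22) (nat_lit 5) (nat_lit 21) (nat_lit 4) (nat_lit 435) (nat_lit 397) (nat_lit 188)))))) (XT.nd (nat_lit 390) (nat_lit 304) (nat_lit 0) (XT.nd (nat_lit 156) (nat_lit 152) (nat_lit 0) (XT.nd (nat_lit 78) (nat_lit 0) (nat_lit 0) (XT.lf (nat_lit 0) (nat_lit 96763848779) (nat_lit 76) (nat_lit 603103185369) (nat_lit 152) (nat_lit 1400083147916) (nat_lit 19) (nat_lit 5) (nat_lit 20) (nat_lit 5) (nat_lit 21) (nat_lit 4) (nat_lit 436) (nat_lit 397) (nat_lit 187)) (XT.lf (nat_lit 0) (nat_lit 1228107512333) (nat_lit 76) (nat_lit 15674749310) (nat_lit 152) (nat_lit 976961609472) (nat_lit 19) (nat_lit 5) (nat_lit 20) (nat_lit 5) (nat_lit 21) (nat_lit 4) (nat_lit 437) (nat_lit 397) (nat_lit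 186))) (XT.nd (nat_lit 78) (nat_lit 76) (nat_lit 0) (XT.lf (nat_lit 0) (nat_lit 88293492635) (nat_lit 76) (nat_lit 1759921570435) (nat_lit 76) (nat_lit 501625643762) (nat_lit 18) (nat_lit 4) (nat_lit 19) (nat_lit 5) (nat_lit 19) (nat_lit 4) (nat_lit 438) (nat_lit 397) (nat_lit 185)) (XT.nd (nat_lit 78) (nat_lit 0) (nat_lit 0) (XT.lf (nat_lit 0) (nat_lit 39402568666) (nat_lit 152) (nat_lit 1176338591496) (nat_lit 76) (nat_lit 1271241345917) (nat_lit 17) (nat_lit 5) (nat_lit 19) (nat_lit 5) (nat_lit 18) (nat_lit 4) (nat_lit 439) (nat_lit 397) (nat_lit 184)) (XT.lf (nat_lit 0) (nat_lit 596612216482) (nat_lit 152) (nat_lit 17342531122) (nat_lit 76) (nat_lit 2020098563272) (nat_lit 17) (nat_lit 5) (nat_lit 19) (nat_lit 5) (nat_lit 18) (nat_lit 4) (nat_lit 440) (nat_lit 397) (nat_lit 183))))) (XT.nd (nat_lit 234) (nat_lit 152) (nat_lit 0) (XT.nd (nat_lit 78) (nat_lit 76) (nat_lit 0) (XT.lf (nat_lit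 0) (nat_lit 1231325459961) (nat_lit 152) (nat_lit 1492693554935) (nat_lit 0) (nat_lit 66236619254) (nat_lit 16) (nat_lit 5) (nat_lit 18) (nat_lit 4) (nat_lit 16) (nat_lit 4) (nat_lit 441) (nat_lit 397) (nat_lit 182)) (XT.nd (nat_lit 78) (nat_lit 76) (nat_lit 0) (XT.lf (nat_lit 0) (nat_lit 1933249124269) (nat_lit 152) (nat_lit 256230072170) (nat_lit 0) (nat_lit 768160277940) (nat_lit 16) (nat_lit 5) (nat_lit 18) (nat_lit 4) (nat_lit 16) (nat_lit 4) (nat_lit 442) (nat_lit 397) (nat_lit 181)) (XT.lf (nat_lit 0) (nat_lit 1135976628294) (nat_lit 76) (nat_lit 1582670312183) (nat_lit 76) (nat_lit 417581460649) (nat_lit 15) (nat_lit 4) (nat_lit 16) (nat_lit 5) (nat_lit 16) (nat_lit 4) (nat_lit 443) (nat_lit 397) (nat_lit 180)))) (XT.nd (nat_lit 78) (nat_lit 76) (nat_lit 0) (XT.lf (nat_lit 0) (nat_lit 233065560764) (nat_lit 152) (nat_lit 680312489964) (nat_lit 76) (nat_lit 2414693897534) (nat_lit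 14) (nat_lit 5) (nat_lit 16) (nat_lit 5) (nat_lit 15) (nat_lit 4) (nat_lit 444) (nat_lit 397) (nat_lit 179)) (XT.nd (nat_lit 78) (nat_lit 0) (nat_lit 0) (XT.lf (nat_lit 0) (nat_lit 773046572556) (nat_lit 76) (nat_lit 158749308873) (nat_lit 152) (nat_lit 2601112053389) (nat_lit 13) (nat_lit 5) (nat_lit 14) (nat_lit 5) (nat_lit 15) (nat_lit 4) (nat_lit 445) (nat_lit 397) (nat_lit 178)) (XT.lf (nat_lit 0) (nat_lit 1721291534279) (nat_lit 152) (nat_lit 1387544365285) (nat_lit 0) (nat_lit 642505548213) (nat_lit 13) (nat_lit 5) (nat_lit 15) (nat_lit 4) (nat_lit 13) (nat_lit 4) (nat_lit 446) (nat_lit 397) (nat_lit 177))))))))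
noncomputable def xc223 : XT := (XT.nd (nat_lit 50154) (nat_lit 0) (nat_lit 1444) (XT.nd (nat_lit 49296) (nat_lit 0) (nat_lit 3420) (XT.nd (nat_lit 390) (nat_lit 228) (nat_lit 0) (XT.nd (nat_lit 156) (nat_lit 152) (nat_lit 0) (XT.nd (nat_lit 78) (nat_lit 0) (nat_lit 0) (XT.lf (nat_lit 0) (nat_lit 95196748851) (nat_lit 76) (nat_lit 2485162927775) (nat_lit 76) (nat_lit 1406376938167) (nat_lit 12) (nat_lit 4) (nat_lit 13) (nat_lit 5) (nat_lit 13) (nat_lit 4) (nat_lit 447) (nat_lit 397) (nat_lit 176)) (XT.lf (nat_lit 0) (nat_lit 1775468019061) (nat_lit 76) (nat_lit 1770623167837) (nat_lit 76) (nat_lit 691837174948) (nat_lit 12) (nat_lit 4) (nat_lit 13) (nat_lit 5) (nat_lit 13) (nat_lit 4) (nat_lit 448) (nat_lit 397) (nat_lit 175))) (XT.nd (nat_lit 78) (nat_lit 76) (nat_lit 0) (XT.lf (nat_lit 0) (nat_lit 75870555006) (nat_lit 152) (nat_lit 920975241514) (nat_lit 76) (nat_lit 3512215990659)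 (nat_lit 11) (nat_lit 5) (nat_lit 13) (nat_lit 5) (nat_lit 12) (nat_lit 4) (nat_lit 449) (nat_lit 397) (nat_lit 174)) (XT.nd (nat_lit 78) (nat_lit 0) (nat_lit 0) (XT.lf (nat_lit 0) (nat_lit 764081303118) (nat_lit 76) (nat_lit 121912592005) (nat_lit 152) (nat_lit 3912984314152) (nat_lit 10) (nat_lit 5) (nat_lit 11) (nat_lit 5) (nat_lit 12) (nat_lit 4) (nat_lit 450) (nat_lit 397) (nat_lit 173)) (XT.lf (nat_lit 0) (nat_lit 1806555784409) (nat_lit 152) (nat_lit 2494202008936) (nat_lit 0) (nat_lit 807679857239) (nat_lit 10) (nat_lit 5) (nat_lit 12) (nat_lit 4) (nat_lit 10) (nat_lit 4) (nat_lit 451) (nat_lit 397) (nat_lit 172))))) (XT.nd (nat_lit 156) (nat_lit 152) (nat_lit 0) (XT.nd (nat_lit 78) (nat_lit 76) (nat_lit 0) (XT.lf (nat_lit 0) (nat_lit 2803929181332) (nat_lit 152) (nat_lit 833418089417) (nat_lit 0) (nat_lit 1805053251930) (nat_lit 10) (nat_lit 5) (nat_lit 12) (nat_lit 4) (nat_lit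 10) (nat_lit 4) (nat_lit 452) (nat_lit 397) (nat_lit 171)) (XT.lf (nat_lit 0) (nat_lit 1010792468671) (nat_lit 76) (nat_lit 2894609560503) (nat_lit 76) (nat_lit 1895733629033) (nat_lit 9) (nat_lit 4) (nat_lit 10) (nat_lit 5) (nat_lit 10) (nat_lit 4) (nat_lit 453) (nat_lit 397) (nat_lit 170))) (XT.nd (nat_lit 78) (nat_lit 152) (nat_lit 0) (XT.lf (nat_lit 0) (nat_lit 3049937088819) (nat_lit 76) (nat_lit 2067842739629) (nat_lit 76) (nat_lit 1068966806244) (nat_lit 9) (nat_lit 4) (nat_lit 10) (nat_lit 5) (nat_lit 10) (nat_lit 4) (nat_lit 454) (nat_lit 397) (nat_lit 169)) (XT.nd (nat_lit 78) (nat_lit 152) (nat_lit 0) (XT.lf (nat_lit 0) (nat_lit 5252213271350) (nat_lit 76) (nat_lit 1174934576695) (nat_lit 76) (nat_lit 176058641538) (nat_lit 9) (nat_lit 4) (nat_lit 10) (nat_lit 5) (nat_lit 10) (nat_lit 4) (nat_lit 455) (nat_lit 397) (nat_lit 168)) (XT.lf (nat_lit 0) (nat_lit 588151945802) (nat_lit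 76) (nat_lit 174842228524) (nat_lit 152) (nat_lit 6287340696917) (nat_lit 7) (nat_lit 5) (nat_lit 8) (nat_lit 5) (nat_lit 9) (nat_lit 4) (nat_lit 456) (nat_lit 397) (nat_lit 167)))))) (XT.nd (nat_lit 390) (nat_lit 912) (nat_lit 0) (XT.nd (nat_lit 156) (nat_lit 0) (nat_lit 76) (XT.nd (nat_lit 78) (nat_lit 0) (nat_lit 0) (XT.lf (nat_lit 0) (nat_lit 155676594546) (nat_lit 532) (nat_lit 10427592295) (nat_lit 532) (nat_lit 10427592295) (nat_lit 64) (nat_lit 3) (nat_lit 71) (nat_lit 3) (nat_lit 71) (nat_lit 5) (nat_lit 398) (nat_lit 398) (nat_lit 224)) (XT.lf (nat_lit 76) (nat_lit 158682832501) (nat_lit 0) (nat_lit 168941301236) (nat_lit 532) (nat_lit 39256621038) (nat_lit 65) (nat_lit 5) (nat_lit 64) (nat_lit 3) (nat_lit 71) (nat_lit 5) (nat_lit 399) (nat_lit 398) (nat_lit 223))) (XT.nd (nat_lit 78) (nat_lit 0) (nat_lit 0) (XT.lf (nat_lit 0) (nat_lit 345959394046) (nat_lit 456) (nat_lit 28180269975)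 (nat_lit 532) (nat_lit 7602651812) (nat_lit 65) (nat_lit 5) (nat_lit 71) (nat_lit 5) (nat_lit 72) (nat_lit 5) (nat_lit 400) (nat_lit 398) (nat_lit 222)) (XT.nd (nat_lit 78) (nat_lit 0) (nat_lit 0) (XT.lf (nat_lit 76) (nat_lit 170373448569) (nat_lit 0) (nat_lit 203873552259) (nat_lit 532) (nat_lit 22866958940) (nat_lit 66) (nat_lit 5) (nat_lit 65) (nat_lit 5) (nat_lit 72) (nat_lit 5) (nat_lit 401) (nat_lit 398) (nat_lit 221)) (XT.lf (nat_lit 76) (nat_lit 386414072179) (nat_lit 0) (nat_lit 19153999535) (nat_lit 532) (nat_lit 8085627099) (nat_lit 66) (nat_lit 5) (nat_lit 65) (nat_lit 5) (nat_lit 72) (nat_lit 5) (nat_lit 402) (nat_lit 398) (nat_lit 220))))) (XT.nd (nat_lit 234) (nat_lit 532) (nat_lit 0) (XT.nd (nat_lit 78) (nat_lit 0) (nat_lit 0) (XT.lf (nat_lit 0) (nat_lit 16710191913) (nat_lit 532) (nat_lit 237653209671) (nat_lit 608) (nat_lit 176399971284) (nat_lit 59) (nat_lit 5) (nat_lit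 66) (nat_lit 5) (nat_lit 67) (nat_lit 5) (nat_lit 403) (nat_lit 398) (nat_lit 219)) (XT.nd (nat_lit 78) (nat_lit 0) (nat_lit 76) (XT.lf (nat_lit 0) (nat_lit 44314435370) (nat_lit 532) (nat_lit 17272060213) (nat_lit 608) (nat_lit 387537596571) (nat_lit 59) (nat_lit 5) (nat_lit 66) (nat_lit 5) (nat_lit 67) (nat_lit 5) (nat_lit 404) (nat_lit 398) (nat_lit 218)) (XT.lf (nat_lit 0) (nat_lit 83386513520) (nat_lit 532) (nat_lit 239814486760) (nat_lit 76) (nat_lit 145011909113) (nat_lit 60) (nat_lit 5) (nat_lit 67) (nat_lit 5) (nat_lit 61) (nat_lit 5) (nat_lit 405) (nat_lit 398) (nat_lit 217)))) (XT.nd (nat_lit 78) (nat_lit 228) (nat_lit 0) (XT.lf (nat_lit 0) (nat_lit 4528348598) (nat_lit 380) (nat_lit 123249046996) (nat_lit 456) (nat_lit 360875993431) (nat_lit 55) (nat_lit 5) (nat_lit 60) (nat_lit 5) (nat_lit 61) (nat_lit 5) (nat_lit 406) (nat_lit 398) (nat_lit 216)) (XT.nd (nat_lit 78) (nat_lit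 228) (nat_lit 0) (XT.lf (nat_lit 0) (nat_lit 184676194801) (nat_lit 456) (nat_lit 230547236234) (nat_lit 76) (nat_lit 94789144292) (nat_lit 55) (nat_lit 5) (nat_lit 61) (nat_lit 5) (nat_lit 56) (nat_lit 5) (nat_lit 407) (nat_lit 398) (nat_lit 215)) (XT.lf (nat_lit 0) (nat_lit 42227897859) (nat_lit 228) (nat_lit 208115826695) (nat_lit 304) (nat_lit 282399425874) (nat_lit 52) (nat_lit 5) (nat_lit 55) (nat_lit 5) (nat_lit 56) (nat_lit 5) (nat_lit 408) (nat_lit 398) (nat_lit 214))))))) (XT.nd (nat_lit 780) (nat_lit 912) (nat_lit 0) (XT.nd (nat_lit 390) (nat_lit 608) (nat_lit 0) (XT.nd (nat_lit 156) (nat_lit 228) (nat_lit 0) (XT.nd (nat_lit 78) (nat_lit 228) (nat_lit 0) (XT.lf (nat_lit 0) (nat_lit 328106155530) (nat_lit 304) (nat_lit 207389406772) (nat_lit 76) (nat_lit 21249289349) (nat_lit 52) (nat_lit 5) (nat_lit 56) (nat_lit 5) (nat_lit 53) (nat_lit 5) (nat_lit 409) (nat_lit 398) (nat_lit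 213)) (XT.lf (nat_lit 0) (nat_lit 97877078708) (nat_lit 228) (nat_lit 321972028419) (nat_lit 304) (nat_lit 162196819774) (nat_lit 49) (nat_lit 5) (nat_lit 52) (nat_lit 5) (nat_lit 53) (nat_lit 5) (nat_lit 410) (nat_lit 398) (nat_lit 212))) (XT.nd (nat_lit 78) (nat_lit 228) (nat_lit 0) (XT.lf (nat_lit 0) (nat_lit 439359273138) (nat_lit 228) (nat_lit 85242590991) (nat_lit 304) (nat_lit 84315594519) (nat_lit 49) (nat_lit 5) (nat_lit 52) (nat_lit 5) (nat_lit 53) (nat_lit 5) (nat_lit 411) (nat_lit 398) (nat_lit 211)) (XT.nd (nat_lit 78) (nat_lit 0) (nat_lit 0) (XT.lf (nat_lit 0) (nat_lit 8326366399) (nat_lit 228) (nat_lit 462614868268) (nat_lit 76) (nat_lit 166316267396) (nat_lit 46) (nat_lit 5) (nat_lit 49) (nat_lit 5) (nat_lit 47) (nat_lit 5) (nat_lit 412) (nat_lit 398) (nat_lit 210)) (XT.lf (nat_lit 0) (nat_lit 110794960287) (nat_lit 228) (nat_lit 115995978464) (nat_lit 76) (nat_lit 440340968323)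 (nat_lit 46) (nat_lit 5) (nat_lit 49) (nat_lit 5) (nat_lit 47) (nat_lit 5) (nat_lit 413) (nat_lit 398) (nat_lit 209))))) (XT.nd (nat_lit 156) (nat_lit 380) (nat_lit 0) (XT.nd (nat_lit 78) (nat_lit 0) (nat_lit 0) (XT.lf (nat_lit 0) (nat_lit 229058711156) (nat_lit 304) (nat_lit 427973369374) (nat_lit 76) (nat_lit 41756370412) (nat_lit 43) (nat_lit 5) (nat_lit 47) (nat_lit 5) (nat_lit 44) (nat_lit 5) (nat_lit 414) (nat_lit 398) (nat_lit 208)) (XT.lf (nat_lit 0) (nat_lit 365928128934) (nat_lit 304) (nat_lit 43529054127) (nat_lit 76) (nat_lit 322788769924) (nat_lit 43) (nat_lit 5) (nat_lit 47) (nat_lit 5) (nat_lit 44) (nat_lit 5) (nat_lit 415) (nat_lit 398) (nat_lit 207))) (XT.nd (nat_lit 78) (nat_lit 228) (nat_lit 0) (XT.lf (nat_lit 0) (nat_lit 391242305194) (nat_lit 152) (nat_lit 131914163219) (nat_lit 228) (nat_lit 244470837327) (nat_lit 41) (nat_lit 5) (nat_lit 43) (nat_lit 5) (nat_lit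 44) (nat_lit 5) (nat_lit 416) (nat_lit 398) (nat_lit 206)) (XT.nd (nat_lit 78) (nat_lit 76) (nat_lit 0) (XT.lf (nat_lit 0) (nat_lit 56274735009) (nat_lit 152) (nat_lit 643299176370) (nat_lit 228) (nat_lit 105736388441) (nat_lit 39) (nat_lit 5) (nat_lit 41) (nat_lit 5) (nat_lit 42) (nat_lit 5) (nat_lit 417) (nat_lit 398) (nat_lit 205)) (XT.lf (nat_lit 0) (nat_lit 55875571672) (nat_lit 228) (nat_lit 304986250519) (nat_lit 76) (nat_lit 483942496354) (nat_lit 38) (nat_lit 5) (nat_lit 41) (nat_lit 5) (nat_lit 39) (nat_lit 5) (nat_lit 418) (nat_lit 398) (nat_lit 204)))))) (XT.nd (nat_lit 390) (nat_lit 456) (nat_lit 0) (XT.nd (nat_lit 156) (nat_lit 304) (nat_lit 0) (XT.nd (nat_lit 78) (nat_lit 0) (nat_lit 0) (XT.lf (nat_lit 0) (nat_lit 180889405175) (nat_lit 152) (nat_lit 48164950180) (nat_lit 228) (nat_lit 657835761192) (nat_lit 36) (nat_lit 5) (nat_lit 38) (nat_lit 5) (nat_lit 39) (nat_lit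 5) (nat_lit 419) (nat_lit 398) (nat_lit 203)) (XT.lf (nat_lit 0) (nat_lit 431606512686) (nat_lit 228) (nat_lit 215875965082) (nat_lit 76) (nat_lit 283618774955) (nat_lit 36) (nat_lit 5) (nat_lit 39) (nat_lit 5) (nat_lit 37) (nat_lit 5) (nat_lit 420) (nat_lit 398) (nat_lit 202))) (XT.nd (nat_lit 78) (nat_lit 152) (nat_lit 0) (XT.lf (nat_lit 0) (nat_lit 328648004168) (nat_lit 152) (nat_lit 330869853717) (nat_lit 228) (nat_lit 318599020692) (nat_lit 34) (nat_lit 5) (nat_lit 36) (nat_lit 5) (nat_lit 37) (nat_lit 5) (nat_lit 421) (nat_lit 398) (nat_lit 201)) (XT.nd (nat_lit 78) (nat_lit 152) (nat_lit 0) (XT.lf (nat_lit 0) (nat_lit 911984114198) (nat_lit 228) (nat_lit 99830221729) (nat_lit 76) (nat_lit 16573658298) (nat_lit 34) (nat_lit 5) (nat_lit 37) (nat_lit 5) (nat_lit 35) (nat_lit 4) (nat_lit 422) (nat_lit 398) (nat_lit 200)) (XT.lf (nat_lit 0) (nat_lit 118285526030) (nat_lit 152) (nat_lit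 573270707955) (nat_lit 76) (nat_lit 389214824686) (nat_lit 32) (nat_lit 5) (nat_lit 34) (nat_lit 5) (nat_lit 33) (nat_lit 5) (nat_lit 423) (nat_lit 398) (nat_lit 199))))) (XT.nd (nat_lit 234) (nat_lit 228) (nat_lit 0) (XT.nd (nat_lit 78) (nat_lit 76) (nat_lit 0) (XT.lf (nat_lit 0) (nat_lit 30394453897) (nat_lit 152) (nat_lit 338598203984) (nat_lit 228) (nat_lit 767827719701) (nat_lit 30) (nat_lit 5) (nat_lit 32) (nat_lit 5) (nat_lit 33) (nat_lit 5) (nat_lit 424) (nat_lit 398) (nat_lit 198)) (XT.nd (nat_lit 78) (nat_lit 76) (nat_lit 0) (XT.lf (nat_lit 0) (nat_lit 656862153510) (nat_lit 228) (nat_lit 482576052636) (nat_lit 76) (nat_lit 56546972405) (nat_lit 30) (nat_lit 5) (nat_lit 33) (nat_lit 5) (nat_lit 31) (nat_lit 4) (nat_lit 425) (nat_lit 398) (nat_lit 197)) (XT.lf (nat_lit 0) (nat_lit 191991206637) (nat_lit 76) (nat_lit 789182141814) (nat_lit 152) (nat_lit 277636843978) (nat_lit 29)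 (nat_lit 5) (nat_lit 30) (nat_lit 5) (nat_lit 31) (nat_lit 4) (nat_lit 426) (nat_lit 398) (nat_lit 196)))) (XT.nd (nat_lit 78) (nat_lit 152) (nat_lit 0) (XT.lf (nat_lit 0) (nat_lit 18066891758) (nat_lit 152) (nat_lit 378094685007) (nat_lit 76) (nat_lit 929407481655) (nat_lit 28) (nat_lit 5) (nat_lit 30) (nat_lit 5) (nat_lit 29) (nat_lit 5) (nat_lit 427) (nat_lit 398) (nat_lit 195)) (XT.nd (nat_lit 78) (nat_lit 0) (nat_lit 0) (XT.lf (nat_lit 0) (nat_lit 332607361756) (nat_lit 228) (nat_lit 1020074284652) (nat_lit 76) (nat_lit 43595676652) (nat_lit 26) (nat_lit 5) (nat_lit 29) (nat_lit 5) (nat_lit 27) (nat_lit 4) (nat_lit 428) (nat_lit 398) (nat_lit 194)) (XT.lf (nat_lit 0) (nat_lit 693207262040) (nat_lit 228) (nat_lit 270026511323) (nat_lit 76) (nat_lit 507736780096) (nat_lit 26) (nat_lit 5) (nat_lit 29) (nat_lit 5) (nat_lit 27) (nat_lit 4) (nat_lit 429) (nat_lit 398) (nat_lit 193))))))))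
noncomputable def xc224 : XT := (XT.nd (nat_lit 1560) (nat_lit 228) (nat_lit 0) (XT.nd (nat_lit 780) (nat_lit 456) (nat_lit 0) (XT.nd (nat_lit 390) (nat_lit 304) (nat_lit 0) (XT.nd (nat_lit 156) (nat_lit 228) (nat_lit 0) (XT.nd (nat_lit 78) (nat_lit 0) (nat_lit 0) (XT.lf (nat_lit 0) (nat_lit 568461828885) (nat_lit 76) (nat_lit 527864836060) (nat_lit 152) (nat_lit 454218856501) (nat_lit 25) (nat_lit 5) (nat_lit 26) (nat_lit 5) (nat_lit 27) (nat_lit 4) (nat_lit 430) (nat_lit 398) (nat_lit 192)) (XT.lf (nat_lit 0) (nat_lit 1489385865779) (nat_lit 76) (nat_lit 49692747920) (nat_lit 152) (nat_lit 96817233687) (nat_lit 25) (nat_lit 5) (nat_lit 26) (nat_lit 5) (nat_lit 27) (nat_lit 4) (nat_lit 431) (nat_lit 398) (nat_lit 191))) (XT.nd (nat_lit 78) (nat_lit 76) (nat_lit 0) (XT.lf (nat_lit 0) (nat_lit 305569687161) (nat_lit 152) (nat_lit 949505482193) (nat_lit 76) (nat_lit 469973937962) (nat_lit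 23) (nat_lit 5) (nat_lit 25) (nat_lit 5) (nat_lit 24) (nat_lit 4) (nat_lit 432) (nat_lit 398) (nat_lit 190)) (XT.nd (nat_lit 78) (nat_lit 76) (nat_lit 0) (XT.lf (nat_lit 0) (nat_lit 740317518313) (nat_lit 152) (nat_lit 45230006506) (nat_lit 76) (nat_lit 1035153876397) (nat_lit 23) (nat_lit 5) (nat_lit 25) (nat_lit 5) (nat_lit 24) (nat_lit 4) (nat_lit 433) (nat_lit 398) (nat_lit 189)) (XT.lf (nat_lit 0) (nat_lit 980432706422) (nat_lit 76) (nat_lit 252991891250) (nat_lit 152) (nat_lit 688694927221) (nat_lit 22) (nat_lit 5) (nat_lit 23) (nat_lit 5) (nat_lit 24) (nat_lit 4) (nat_lit 434) (nat_lit 398) (nat_lit 188))))) (XT.nd (nat_lit 156) (nat_lit 152) (nat_lit 0) (XT.nd (nat_lit 78) (nat_lit 76) (nat_lit 0) (XT.lf (nat_lit 0) (nat_lit 54094266534) (nat_lit 76) (nat_lit 1722203879479) (nat_lit 76) (nat_lit 254527520242) (nat_lit 21) (nat_lit 4) (nat_lit 22) (nat_lit 5) (nat_lit 22) (nat_lit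 4) (nat_lit 435) (nat_lit 398) (nat_lit 187)) (XT.lf (nat_lit 0) (nat_lit 236636818994) (nat_lit 152) (nat_lit 975471785364) (nat_lit 76) (nat_lit 933068251220) (nat_lit 20) (nat_lit 5) (nat_lit 22) (nat_lit 5) (nat_lit 21) (nat_lit 4) (nat_lit 436) (nat_lit 398) (nat_lit 186))) (XT.nd (nat_lit 78) (nat_lit 76) (nat_lit 0) (XT.lf (nat_lit 0) (nat_lit 104505255298) (nat_lit 76) (nat_lit 651351299073) (nat_lit 152) (nat_lit 1512089629629) (nat_lit 19) (nat_lit 5) (nat_lit 20) (nat_lit 5) (nat_lit 21) (nat_lit 4) (nat_lit 437) (nat_lit 398) (nat_lit 185)) (XT.nd (nat_lit 78) (nat_lit 76) (nat_lit 0) (XT.lf (nat_lit 0) (nat_lit 1326356389816) (nat_lit 76) (nat_lit 16928598583) (nat_lit 152) (nat_lit 1055118380710) (nat_lit 19) (nat_lit 5) (nat_lit 20) (nat_lit 5) (nat_lit 21) (nat_lit 4) (nat_lit 438) (nat_lit 398) (nat_lit 184)) (XT.lf (nat_lit 0) (nat_lit 95357249878) (nat_lit 76) (nat_lit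 1900715162853) (nat_lit 76) (nat_lit 541755539053) (nat_lit 18) (nat_lit 4) (nat_lit 19) (nat_lit 5) (nat_lit 19) (nat_lit 4) (nat_lit 439) (nat_lit 398) (nat_lit 183)))))) (XT.nd (nat_lit 390) (nat_lit 228) (nat_lit 0) (XT.nd (nat_lit 156) (nat_lit 152) (nat_lit 0) (XT.nd (nat_lit 78) (nat_lit 0) (nat_lit 0) (XT.lf (nat_lit 0) (nat_lit 42554911563) (nat_lit 152) (nat_lit 1270445414306) (nat_lit 76) (nat_lit 1372940769682) (nat_lit 17) (nat_lit 5) (nat_lit 19) (nat_lit 5) (nat_lit 18) (nat_lit 4) (nat_lit 440) (nat_lit 398) (nat_lit 182)) (XT.lf (nat_lit 0) (nat_lit 644341321026) (nat_lit 152) (nat_lit 18729688695) (nat_lit 76) (nat_lit 2181706555826) (nat_lit 17) (nat_lit 5) (nat_lit 19) (nat_lit 5) (nat_lit 18) (nat_lit 4) (nat_lit 441) (nat_lit 398) (nat_lit 181))) (XT.nd (nat_lit 78) (nat_lit 76) (nat_lit 0) (XT.lf (nat_lit 0) (nat_lit 1329831623070) (nat_lit 152) (nat_lit 1612108793481)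 (nat_lit 0) (nat_lit 71535658206) (nat_lit 16) (nat_lit 5) (nat_lit 18) (nat_lit 4) (nat_lit 16) (nat_lit 4) (nat_lit 442) (nat_lit 398) (nat_lit 180)) (XT.nd (nat_lit 78) (nat_lit 76) (nat_lit 0) (XT.lf (nat_lit 0) (nat_lit 2087909171166) (nat_lit 152) (nat_lit 276728250306) (nat_lit 0) (nat_lit 829613201482) (nat_lit 16) (nat_lit 5) (nat_lit 18) (nat_lit 4) (nat_lit 16) (nat_lit 4) (nat_lit 443) (nat_lit 398) (nat_lit 179)) (XT.lf (nat_lit 0) (nat_lit 1226854980432) (nat_lit 76) (nat_lit 1709283828912) (nat_lit 76) (nat_lit 450987854765) (nat_lit 15) (nat_lit 4) (nat_lit 16) (nat_lit 5) (nat_lit 16) (nat_lit 4) (nat_lit 444) (nat_lit 398) (nat_lit 178))))) (XT.nd (nat_lit 156) (nat_lit 76) (nat_lit 0) (XT.nd (nat_lit 78) (nat_lit 76) (nat_lit 0) (XT.lf (nat_lit 0) (nat_lit 251710913584) (nat_lit 152) (nat_lit 734737278023) (nat_lit 76) (nat_lit 2607869503865) (nat_lit 14) (nat_lit 5)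 (nat_lit 16) (nat_lit 5) (nat_lit 15) (nat_lit 4) (nat_lit 445) (nat_lit 398) (nat_lit 177)) (XT.lf (nat_lit 0) (nat_lit 834890504153) (nat_lit 76) (nat_lit 171449152701) (nat_lit 152) (nat_lit 2809200904343) (nat_lit 13) (nat_lit 5) (nat_lit 14) (nat_lit 5) (nat_lit 15) (nat_lit 4) (nat_lit 446) (nat_lit 398) (nat_lit 176))) (XT.nd (nat_lit 78) (nat_lit 76) (nat_lit 0) (XT.lf (nat_lit 0) (nat_lit 1858994956408) (nat_lit 152) (nat_lit 1498547718421) (nat_lit 0) (nat_lit 693906080807) (nat_lit 13) (nat_lit 5) (nat_lit 15) (nat_lit 4) (nat_lit 13) (nat_lit 4) (nat_lit 447) (nat_lit 398) (nat_lit 175)) (XT.nd (nat_lit 78) (nat_lit 0) (nat_lit 0) (XT.lf (nat_lit 0) (nat_lit 102812679881) (nat_lit 76) (nat_lit 2683975867496) (nat_lit 76) (nat_lit 1518886988858) (nat_lit 12) (nat_lit 4) (nat_lit 13) (nat_lit 5) (nat_lit 13) (nat_lit 4) (nat_lit 448) (nat_lit 398) (nat_lit 174)) (XT.lf (nat_lit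 0) (nat_lit 1917505637551) (nat_lit 76) (nat_lit 1912272933763) (nat_lit 76) (nat_lit 747184052312) (nat_lit 12) (nat_lit 4) (nat_lit 13) (nat_lit 5) (nat_lit 13) (nat_lit 4) (nat_lit 449) (nat_lit 398) (nat_lit 173))))))) (XT.nd (nat_lit 49374) (nat_lit 0) (nat_lit 3040) (XT.nd (nat_lit 390) (nat_lit 0) (nat_lit 0) (XT.nd (nat_lit 156) (nat_lit 76) (nat_lit 0) (XT.nd (nat_lit 78) (nat_lit 76) (nat_lit 0) (XT.lf (nat_lit 0) (nat_lit 81940284404) (nat_lit 152) (nat_lit 994653092493) (nat_lit 76) (nat_lit 3793193346446) (nat_lit 11) (nat_lit 5) (nat_lit 13) (nat_lit 5) (nat_lit 12) (nat_lit 4) (nat_lit 450) (nat_lit 398) (nat_lit 172)) (XT.lf (nat_lit 0) (nat_lit 825207971447) (nat_lit 76) (nat_lit 131665517934) (nat_lit 152) (nat_lit 4226022970016) (nat_lit 10) (nat_lit 5) (nat_lit 11) (nat_lit 5) (nat_lit 12) (nat_lit 4) (nat_lit 451) (nat_lit 398) (nat_lit 171))) (XT.nd (nat_lit 78) (nat_lit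 76) (nat_lit 0) (XT.lf (nat_lit 0) (nat_lit 1951080325501) (nat_lit 152) (nat_lit 2693738013409) (nat_lit 0) (nat_lit 872294317446) (nat_lit 10) (nat_lit 5) (nat_lit 12) (nat_lit 4) (nat_lit 10) (nat_lit 4) (nat_lit 452) (nat_lit 398) (nat_lit 170)) (XT.nd (nat_lit 78) (nat_lit 76) (nat_lit 0) (XT.lf (nat_lit 0) (nat_lit 3028243588375) (nat_lit 152) (nat_lit 900091391902) (nat_lit 0) (nat_lit 1949457578406) (nat_lit 10) (nat_lit 5) (nat_lit 12) (nat_lit 4) (nat_lit 10) (nat_lit 4) (nat_lit 453) (nat_lit 398) (nat_lit 169)) (XT.lf (nat_lit 0) (nat_lit 1091656007171) (nat_lit 76) (nat_lit 3126178254892) (nat_lit 76) (nat_lit 2047392243151) (nat_lit 9) (nat_lit 4) (nat_lit 10) (nat_lit 5) (nat_lit 10) (nat_lit 4) (nat_lit 454) (nat_lit 398) (nat_lit 168))))) (XT.nd (nat_lit 48750) (nat_lit 0) (nat_lit 4180) (XT.nd (nat_lit 78) (nat_lit 0) (nat_lit 0) (XT.lf (nat_lit 0) (nat_lit 3293932186485)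 (nat_lit 76) (nat_lit 2233270093566) (nat_lit 76) (nat_lit 1154484080183) (nat_lit 9) (nat_lit 4) (nat_lit 10) (nat_lit 5) (nat_lit 10) (nat_lit 4) (nat_lit 455) (nat_lit 398) (nat_lit 167)) (XT.lf (nat_lit 0) (nat_lit 5672390453948) (nat_lit 76) (nat_lit 1268929282430) (nat_lit 76) (nat_lit 190143267528) (nat_lit 9) (nat_lit 4) (nat_lit 10) (nat_lit 5) (nat_lit 10) (nat_lit 4) (nat_lit 456) (nat_lit 398) (nat_lit 166))) (XT.nd (nat_lit 78) (nat_lit 0) (nat_lit 0) (XT.lf (nat_lit 0) (nat_lit 168131201441) (nat_lit 532) (nat_lit 11261540613) (nat_lit 532) (nat_lit 11261540613) (nat_lit 64) (nat_lit 3) (nat_lit 71) (nat_lit 3) (nat_lit 71) (nat_lit 5) (nat_lit 399) (nat_lit 399) (nat_lit 222)) (XT.nd (nat_lit 78) (nat_lit 0) (nat_lit 76) (XT.lf (nat_lit 76) (nat_lit 171377964115) (nat_lit 0) (nat_lit 182457000117) (nat_lit 532) (nat_lit 42396178101) (nat_lit 65) (nat_lit 5) (nat_lit 64)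 (nat_lit 3) (nat_lit 71) (nat_lit 5) (nat_lit 400) (nat_lit 399) (nat_lit 221)) (XT.lf (nat_lit 0) (nat_lit 373636969923) (nat_lit 456) (nat_lit 30434147748) (nat_lit 532) (nat_lit 8210516703) (nat_lit 65) (nat_lit 5) (nat_lit 71) (nat_lit 5) (nat_lit 72) (nat_lit 5) (nat_lit 401) (nat_lit 399) (nat_lit 220)))))) (XT.nd (nat_lit 390) (nat_lit 760) (nat_lit 0) (XT.nd (nat_lit 156) (nat_lit 456) (nat_lit 0) (XT.nd (nat_lit 78) (nat_lit 0) (nat_lit 0) (XT.lf (nat_lit 76) (nat_lit 184003854513) (nat_lit 0) (nat_lit 220183682420) (nat_lit 532) (nat_lit 24695476815) (nat_lit 66) (nat_lit 5) (nat_lit 65) (nat_lit 5) (nat_lit 72) (nat_lit 5) (nat_lit 402) (nat_lit 399) (nat_lit 219)) (XT.lf (nat_lit 76) (nat_lit 417327688748) (nat_lit 0) (nat_lit 20686547257) (nat_lit 532) (nat_lit 8731700562) (nat_lit 66) (nat_lit 5) (nat_lit 65) (nat_lit 5) (nat_lit 72) (nat_lit 5) (nat_lit 403) (nat_lit 399)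 (nat_lit 218))) (XT.nd (nat_lit 78) (nat_lit 0) (nat_lit 0) (XT.lf (nat_lit 0) (nat_lit 18047698591) (nat_lit 532) (nat_lit 256664889083) (nat_lit 608) (nat_lit 190511799147) (nat_lit 59) (nat_lit 5) (nat_lit 66) (nat_lit 5) (nat_lit 67) (nat_lit 5) (nat_lit 404) (nat_lit 399) (nat_lit 217)) (XT.nd (nat_lit 78) (nat_lit 0) (nat_lit 76) (XT.lf (nat_lit 0) (nat_lit 47860230316) (nat_lit 532) (nat_lit 18653290435) (nat_lit 608) (nat_lit 418540447037) (nat_lit 59) (nat_lit 5) (nat_lit 66) (nat_lit 5) (nat_lit 67) (nat_lit 5) (nat_lit 405) (nat_lit 399) (nat_lit 216)) (XT.lf (nat_lit 0) (nat_lit 90058037809) (nat_lit 532) (nat_lit 258999073708) (nat_lit 76) (nat_lit 156612781882) (nat_lit 60) (nat_lit 5) (nat_lit 67) (nat_lit 5) (nat_lit 61) (nat_lit 5) (nat_lit 406) (nat_lit 399) (nat_lit 215))))) (XT.nd (nat_lit 234) (nat_lit 228) (nat_lit 0) (XT.nd (nat_lit 78) (nat_lit 228) (nat_lit 0)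 (XT.lf (nat_lit 0) (nat_lit 4891173998) (nat_lit 380) (nat_lit 133108985176) (nat_lit 456) (nat_lit 389745454764) (nat_lit 55) (nat_lit 5) (nat_lit 60) (nat_lit 5) (nat_lit 61) (nat_lit 5) (nat_lit 407) (nat_lit 399) (nat_lit 214)) (XT.nd (nat_lit 78) (nat_lit 228) (nat_lit 0) (XT.lf (nat_lit 0) (nat_lit 199450819632) (nat_lit 456) (nat_lit 248990455811) (nat_lit 76) (nat_lit 102372263151) (nat_lit 55) (nat_lit 5) (nat_lit 61) (nat_lit 5) (nat_lit 56) (nat_lit 5) (nat_lit 408) (nat_lit 399) (nat_lit 213)) (XT.lf (nat_lit 0) (nat_lit 45606674849) (nat_lit 228) (nat_lit 224765050824) (nat_lit 304) (nat_lit 304990836149) (nat_lit 52) (nat_lit 5) (nat_lit 55) (nat_lit 5) (nat_lit 56) (nat_lit 5) (nat_lit 409) (nat_lit 399) (nat_lit 212)))) (XT.nd (nat_lit 78) (nat_lit 228) (nat_lit 0) (XT.lf (nat_lit 0) (nat_lit 354355114792) (nat_lit 304) (nat_lit 223980017839) (nat_lit 76) (nat_lit 22949269447)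 (nat_lit 52) (nat_lit 5) (nat_lit 56) (nat_lit 5) (nat_lit 53) (nat_lit 5) (nat_lit 410) (nat_lit 399) (nat_lit 211)) (XT.nd (nat_lit 78) (nat_lit 0) (nat_lit 0) (XT.lf (nat_lit 0) (nat_lit 105707772771) (nat_lit 228) (nat_lit 347729707859) (nat_lit 304) (nat_lit 175172084495) (nat_lit 49) (nat_lit 5) (nat_lit 52) (nat_lit 5) (nat_lit 53) (nat_lit 5) (nat_lit 411) (nat_lit 399) (nat_lit 210)) (XT.lf (nat_lit 0) (nat_lit 474508503661) (nat_lit 228) (nat_lit 92061921572) (nat_lit 304) (nat_lit 91060396838) (nat_lit 49) (nat_lit 5) (nat_lit 52) (nat_lit 5) (nat_lit 53) (nat_lit 5) (nat_lit 412) (nat_lit 399) (nat_lit 209))))))))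
noncomputable def xc225 : XT := (XT.nd (nat_lit 1560) (nat_lit 1140) (nat_lit 0) (XT.nd (nat_lit 780) (nat_lit 684) (nat_lit 0) (XT.nd (nat_lit 390) (nat_lit 532) (nat_lit 0) (XT.nd (nat_lit 156) (nat_lit 380) (nat_lit 0) (XT.nd (nat_lit 78) (nat_lit 0) (nat_lit 0) (XT.lf (nat_lit 0) (nat_lit 8992881610) (nat_lit 228) (nat_lit 499623529163) (nat_lit 76) (nat_lit 179621658719) (nat_lit 46) (nat_lit 5) (nat_lit 49) (nat_lit 5) (nat_lit 47) (nat_lit 5) (nat_lit 413) (nat_lit 399) (nat_lit 208)) (XT.lf (nat_lit 0) (nat_lit 119658932942) (nat_lit 228) (nat_lit 125275167328) (nat_lit 76) (nat_lit 475568329058) (nat_lit 46) (nat_lit 5) (nat_lit 49) (nat_lit 5) (nat_lit 47) (nat_lit 5) (nat_lit 414) (nat_lit 399) (nat_lit 207))) (XT.nd (nat_lit 78) (nat_lit 152) (nat_lit 0) (XT.lf (nat_lit 0) (nat_lit 247383770340) (nat_lit 304) (nat_lit 462210735744) (nat_lit 76) (nat_lit 45096991723) (nat_lit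 43) (nat_lit 5) (nat_lit 47) (nat_lit 5) (nat_lit 44) (nat_lit 5) (nat_lit 415) (nat_lit 399) (nat_lit 206)) (XT.nd (nat_lit 78) (nat_lit 152) (nat_lit 0) (XT.lf (nat_lit 0) (nat_lit 395202714704) (nat_lit 304) (nat_lit 47010912550) (nat_lit 76) (nat_lit 348611974923) (nat_lit 43) (nat_lit 5) (nat_lit 47) (nat_lit 5) (nat_lit 44) (nat_lit 5) (nat_lit 416) (nat_lit 399) (nat_lit 205)) (XT.lf (nat_lit 0) (nat_lit 422542143722) (nat_lit 152) (nat_lit 142467163693) (nat_lit 228) (nat_lit 264028156868) (nat_lit 41) (nat_lit 5) (nat_lit 43) (nat_lit 5) (nat_lit 44) (nat_lit 5) (nat_lit 417) (nat_lit 399) (nat_lit 204))))) (XT.nd (nat_lit 156) (nat_lit 304) (nat_lit 0) (XT.nd (nat_lit 78) (nat_lit 76) (nat_lit 0) (XT.lf (nat_lit 0) (nat_lit 60777178579) (nat_lit 152) (nat_lit 694762957553) (nat_lit 228) (nat_lit 114194962547) (nat_lit 39) (nat_lit 5) (nat_lit 41) (nat_lit 5) (nat_lit 42) (nat_lit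 5) (nat_lit 418) (nat_lit 399) (nat_lit 203)) (XT.lf (nat_lit 0) (nat_lit 60345913806) (nat_lit 228) (nat_lit 329384704456) (nat_lit 76) (nat_lit 522658021899) (nat_lit 38) (nat_lit 5) (nat_lit 41) (nat_lit 5) (nat_lit 39) (nat_lit 5) (nat_lit 419) (nat_lit 399) (nat_lit 202))) (XT.nd (nat_lit 78) (nat_lit 152) (nat_lit 0) (XT.lf (nat_lit 0) (nat_lit 195360992400) (nat_lit 152) (nat_lit 52017996287) (nat_lit 228) (nat_lit 710462314250) (nat_lit 36) (nat_lit 5) (nat_lit 38) (nat_lit 5) (nat_lit 39) (nat_lit 5) (nat_lit 420) (nat_lit 399) (nat_lit 201)) (XT.nd (nat_lit 78) (nat_lit 152) (nat_lit 0) (XT.lf (nat_lit 0) (nat_lit 466135300837) (nat_lit 228) (nat_lit 233145621788) (nat_lit 76) (nat_lit 306308408812) (nat_lit 36) (nat_lit 5) (nat_lit 39) (nat_lit 5) (nat_lit 37) (nat_lit 5) (nat_lit 421) (nat_lit 399) (nat_lit 200)) (XT.lf (nat_lit 0) (nat_lit 354940254355) (nat_lit 152) (nat_lit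 357339289366) (nat_lit 228) (nat_lit 344086664442) (nat_lit 34) (nat_lit 5) (nat_lit 36) (nat_lit 5) (nat_lit 37) (nat_lit 5) (nat_lit 422) (nat_lit 399) (nat_lit 199)))))) (XT.nd (nat_lit 390) (nat_lit 304) (nat_lit 0) (XT.nd (nat_lit 156) (nat_lit 228) (nat_lit 0) (XT.nd (nat_lit 78) (nat_lit 152) (nat_lit 0) (XT.lf (nat_lit 0) (nat_lit 984943084887) (nat_lit 228) (nat_lit 107816244206) (nat_lit 76) (nat_lit 17899685233) (nat_lit 34) (nat_lit 5) (nat_lit 37) (nat_lit 5) (nat_lit 35) (nat_lit 4) (nat_lit 423) (nat_lit 399) (nat_lit 198)) (XT.lf (nat_lit 0) (nat_lit 127748607188) (nat_lit 152) (nat_lit 619131966651) (nat_lit 76) (nat_lit 420352150303) (nat_lit 32) (nat_lit 5) (nat_lit 34) (nat_lit 5) (nat_lit 33) (nat_lit 5) (nat_lit 424) (nat_lit 399) (nat_lit 197))) (XT.nd (nat_lit 78) (nat_lit 76) (nat_lit 0) (XT.lf (nat_lit 0) (nat_lit 32826398076) (nat_lit 152) (nat_lit 365685903130)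 (nat_lit 228) (nat_lit 829253688037) (nat_lit 30) (nat_lit 5) (nat_lit 32) (nat_lit 5) (nat_lit 33) (nat_lit 5) (nat_lit 425) (nat_lit 399) (nat_lit 196)) (XT.nd (nat_lit 78) (nat_lit 76) (nat_lit 0) (XT.lf (nat_lit 0) (nat_lit 709411342896) (nat_lit 228) (nat_lit 521181764039) (nat_lit 76) (nat_lit 61070868448) (nat_lit 30) (nat_lit 5) (nat_lit 33) (nat_lit 5) (nat_lit 31) (nat_lit 4) (nat_lit 426) (nat_lit 399) (nat_lit 195)) (XT.lf (nat_lit 0) (nat_lit 207350866538) (nat_lit 76) (nat_lit 852316559552) (nat_lit 152) (nat_lit 299847564875) (nat_lit 29) (nat_lit 5) (nat_lit 30) (nat_lit 5) (nat_lit 31) (nat_lit 4) (nat_lit 427) (nat_lit 399) (nat_lit 194))))) (XT.nd (nat_lit 156) (nat_lit 76) (nat_lit 0) (XT.nd (nat_lit 78) (nat_lit 152) (nat_lit 0) (XT.lf (nat_lit 0) (nat_lit 19512442436) (nat_lit 152) (nat_lit 408341912791) (nat_lit 76) (nat_lit 1003760211853) (nat_lit 28) (nat_lit 5)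 (nat_lit 30) (nat_lit 5) (nat_lit 29) (nat_lit 5) (nat_lit 428) (nat_lit 399) (nat_lit 193)) (XT.lf (nat_lit 0) (nat_lit 359216146903) (nat_lit 228) (nat_lit 1101679877215) (nat_lit 76) (nat_lit 47083469029) (nat_lit 26) (nat_lit 5) (nat_lit 29) (nat_lit 5) (nat_lit 27) (nat_lit 4) (nat_lit 429) (nat_lit 399) (nat_lit 192))) (XT.nd (nat_lit 78) (nat_lit 76) (nat_lit 0) (XT.lf (nat_lit 0) (nat_lit 748664024676) (nat_lit 228) (nat_lit 291628307962) (nat_lit 76) (nat_lit 548355850509) (nat_lit 26) (nat_lit 5) (nat_lit 29) (nat_lit 5) (nat_lit 27) (nat_lit 4) (nat_lit 430) (nat_lit 399) (nat_lit 191)) (XT.nd (nat_lit 78) (nat_lit 0) (nat_lit 0) (XT.lf (nat_lit 0) (nat_lit 613939091255) (nat_lit 76) (nat_lit 570093882703) (nat_lit 152) (nat_lit 490556175087) (nat_lit 25) (nat_lit 5) (nat_lit 26) (nat_lit 5) (nat_lit 27) (nat_lit 4) (nat_lit 431) (nat_lit 399) (nat_lit 190)) (XT.lf (nat_lit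 0) (nat_lit 1608537027688) (nat_lit 76) (nat_lit 53668037900) (nat_lit 152) (nat_lit 104562436517) (nat_lit 25) (nat_lit 5) (nat_lit 26) (nat_lit 5) (nat_lit 27) (nat_lit 4) (nat_lit 432) (nat_lit 399) (nat_lit 189))))))) (XT.nd (nat_lit 780) (nat_lit 532) (nat_lit 0) (XT.nd (nat_lit 390) (nat_lit 228) (nat_lit 0) (XT.nd (nat_lit 156) (nat_lit 228) (nat_lit 0) (XT.nd (nat_lit 78) (nat_lit 0) (nat_lit 0) (XT.lf (nat_lit 0) (nat_lit 330015427070) (nat_lit 152) (nat_lit 1025465617106) (nat_lit 76) (nat_lit 507571978488) (nat_lit 23) (nat_lit 5) (nat_lit 25) (nat_lit 5) (nat_lit 24) (nat_lit 4) (nat_lit 433) (nat_lit 399) (nat_lit 188)) (XT.lf (nat_lit 0) (nat_lit 799543072497) (nat_lit 152) (nat_lit 48848125858) (nat_lit 76) (nat_lit 1117966302702) (nat_lit 23) (nat_lit 5) (nat_lit 25) (nat_lit 5) (nat_lit 24) (nat_lit 4) (nat_lit 434) (nat_lit 399) (nat_lit 187))) (XT.nd (nat_lit 78) (nat_lit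 152) (nat_lit 0) (XT.lf (nat_lit 0) (nat_lit 1058867596986) (nat_lit 76) (nat_lit 273231116497) (nat_lit 152) (nat_lit 743790361526) (nat_lit 22) (nat_lit 5) (nat_lit 23) (nat_lit 5) (nat_lit 24) (nat_lit 4) (nat_lit 435) (nat_lit 399) (nat_lit 186)) (XT.nd (nat_lit 78) (nat_lit 76) (nat_lit 0) (XT.lf (nat_lit 0) (nat_lit 58422083589) (nat_lit 76) (nat_lit 1859980060577) (nat_lit 76) (nat_lit 274889563638) (nat_lit 21) (nat_lit 4) (nat_lit 22) (nat_lit 5) (nat_lit 22) (nat_lit 4) (nat_lit 436) (nat_lit 399) (nat_lit 185)) (XT.lf (nat_lit 0) (nat_lit 255567903688) (nat_lit 152) (nat_lit 1053509265528) (nat_lit 76) (nat_lit 1007713823646) (nat_lit 20) (nat_lit 5) (nat_lit 22) (nat_lit 5) (nat_lit 21) (nat_lit 4) (nat_lit 437) (nat_lit 399) (nat_lit 184))))) (XT.nd (nat_lit 156) (nat_lit 152) (nat_lit 0) (XT.nd (nat_lit 78) (nat_lit 0) (nat_lit 0) (XT.lf (nat_lit 0) (nat_lit 112865931737)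 (nat_lit 76) (nat_lit 703459282006) (nat_lit 152) (nat_lit 1633056654148) (nat_lit 19) (nat_lit 5) (nat_lit 20) (nat_lit 5) (nat_lit 21) (nat_lit 4) (nat_lit 438) (nat_lit 399) (nat_lit 183)) (XT.lf (nat_lit 0) (nat_lit 1432465138053) (nat_lit 76) (nat_lit 18282774439) (nat_lit 152) (nat_lit 1139527716120) (nat_lit 19) (nat_lit 5) (nat_lit 20) (nat_lit 5) (nat_lit 21) (nat_lit 4) (nat_lit 439) (nat_lit 399) (nat_lit 182))) (XT.nd (nat_lit 78) (nat_lit 76) (nat_lit 0) (XT.lf (nat_lit 0) (nat_lit 102986068064) (nat_lit 76) (nat_lit 2052772261669) (nat_lit 76) (nat_lit 585095848252) (nat_lit 18) (nat_lit 4) (nat_lit 19) (nat_lit 5) (nat_lit 19) (nat_lit 4) (nat_lit 440) (nat_lit 399) (nat_lit 181)) (XT.nd (nat_lit 78) (nat_lit 0) (nat_lit 0) (XT.lf (nat_lit 0) (nat_lit 45959422289) (nat_lit 152) (nat_lit 1372080820677) (nat_lit 76) (nat_lit 1482776130786) (nat_lit 17) (nat_lit 5) (nat_lit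 19) (nat_lit 5) (nat_lit 18) (nat_lit 4) (nat_lit 441) (nat_lit 399) (nat_lit 180)) (XT.lf (nat_lit 0) (nat_lit 695888735783) (nat_lit 152) (nat_lit 20227853814) (nat_lit 76) (nat_lit 2356243172449) (nat_lit 17) (nat_lit 5) (nat_lit 19) (nat_lit 5) (nat_lit 18) (nat_lit 4) (nat_lit 442) (nat_lit 399) (nat_lit 179)))))) (XT.nd (nat_lit 390) (nat_lit 228) (nat_lit 0) (XT.nd (nat_lit 156) (nat_lit 228) (nat_lit 0) (XT.nd (nat_lit 78) (nat_lit 0) (nat_lit 0) (XT.lf (nat_lit 0) (nat_lit 1436218261208) (nat_lit 152) (nat_lit 1741077286184) (nat_lit 0) (nat_lit 77258604666) (nat_lit 16) (nat_lit 5) (nat_lit 18) (nat_lit 4) (nat_lit 16) (nat_lit 4) (nat_lit 443) (nat_lit 399) (nat_lit 178)) (XT.lf (nat_lit 0) (nat_lit 2254942005130) (nat_lit 152) (nat_lit 298866315168) (nat_lit 0) (nat_lit 895982344456) (nat_lit 16) (nat_lit 5) (nat_lit 18) (nat_lit 4) (nat_lit 16) (nat_lit 4) (nat_lit 444) (nat_lit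 399) (nat_lit 177))) (XT.nd (nat_lit 78) (nat_lit 152) (nat_lit 0) (XT.lf (nat_lit 0) (nat_lit 1325003569089) (nat_lit 76) (nat_lit 1846026442421) (nat_lit 76) (nat_lit 487066777920) (nat_lit 15) (nat_lit 4) (nat_lit 16) (nat_lit 5) (nat_lit 16) (nat_lit 4) (nat_lit 445) (nat_lit 399) (nat_lit 176)) (XT.nd (nat_lit 78) (nat_lit 76) (nat_lit 0) (XT.lf (nat_lit 0) (nat_lit 271847879229) (nat_lit 152) (nat_lit 793516079247) (nat_lit 76) (nat_lit 2816499145217) (nat_lit 14) (nat_lit 5) (nat_lit 16) (nat_lit 5) (nat_lit 15) (nat_lit 4) (nat_lit 446) (nat_lit 399) (nat_lit 175)) (XT.lf (nat_lit 0) (nat_lit 901681920920) (nat_lit 76) (nat_lit 185164998427) (nat_lit 152) (nat_lit 3033936879539) (nat_lit 13) (nat_lit 5) (nat_lit 14) (nat_lit 5) (nat_lit 15) (nat_lit 4) (nat_lit 447) (nat_lit 399) (nat_lit 174))))) (XT.nd (nat_lit 234) (nat_lit 152) (nat_lit 0) (XT.nd (nat_lit 78) (nat_lit 76) (nat_lit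 0) (XT.lf (nat_lit 0) (nat_lit 2007714638129) (nat_lit 152) (nat_lit 1618431367783) (nat_lit 0) (nat_lit 749418643349) (nat_lit 13) (nat_lit 5) (nat_lit 15) (nat_lit 4) (nat_lit 13) (nat_lit 4) (nat_lit 448) (nat_lit 399) (nat_lit 173)) (XT.nd (nat_lit 78) (nat_lit 0) (nat_lit 0) (XT.lf (nat_lit 0) (nat_lit 111037858128) (nat_lit 76) (nat_lit 2898693855877) (nat_lit 76) (nat_lit 1640397858493) (nat_lit 12) (nat_lit 4) (nat_lit 13) (nat_lit 5) (nat_lit 13) (nat_lit 4) (nat_lit 449) (nat_lit 399) (nat_lit 172)) (XT.lf (nat_lit 0) (nat_lit 2070906240274) (nat_lit 76) (nat_lit 2065254693446) (nat_lit 76) (nat_lit 806958693651) (nat_lit 12) (nat_lit 4) (nat_lit 13) (nat_lit 5) (nat_lit 13) (nat_lit 4) (nat_lit 450) (nat_lit 399) (nat_lit 171)))) (XT.nd (nat_lit 78) (nat_lit 76) (nat_lit 0) (XT.lf (nat_lit 0) (nat_lit 88495580028) (nat_lit 152) (nat_lit 1074225195567) (nat_lit 76) (nat_lit 4096648879778)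 (nat_lit 11) (nat_lit 5) (nat_lit 13) (nat_lit 5) (nat_lit 12) (nat_lit 4) (nat_lit 451) (nat_lit 399) (nat_lit 170)) (XT.nd (nat_lit 78) (nat_lit 0) (nat_lit 0) (XT.lf (nat_lit 0) (nat_lit 891224749834) (nat_lit 76) (nat_lit 142198689554) (nat_lit 152) (nat_lit 4564104731085) (nat_lit 10) (nat_lit 5) (nat_lit 11) (nat_lit 5) (nat_lit 12) (nat_lit 4) (nat_lit 452) (nat_lit 399) (nat_lit 169)) (XT.lf (nat_lit 0) (nat_lit 2107166818705) (nat_lit 152) (nat_lit 2909236920530) (nat_lit 0) (nat_lit 942077924251) (nat_lit 10) (nat_lit 5) (nat_lit 12) (nat_lit 4) (nat_lit 10) (nat_lit 4) (nat_lit 453) (nat_lit 399) (nat_lit 168))))))))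
noncomputable def xc226 : XT := (XT.nd (nat_lit 50310) (nat_lit 0) (nat_lit 836) (XT.nd (nat_lit 49530) (nat_lit 0) (nat_lit 2584) (XT.nd (nat_lit 49140) (nat_lit 0) (nat_lit 3800) (XT.nd (nat_lit 48906) (nat_lit 0) (nat_lit 4180) (XT.nd (nat_lit 78) (nat_lit 76) (nat_lit 0) (XT.lf (nat_lit 0) (nat_lit 3270503137634) (nat_lit 152) (nat_lit 972098579224) (nat_lit 0) (nat_lit 2105414241539) (nat_lit 10) (nat_lit 5) (nat_lit 12) (nat_lit 4) (nat_lit 10) (nat_lit 4) (nat_lit 454) (nat_lit 399) (nat_lit 167)) (XT.lf (nat_lit 0) (nat_lit 1178988608634) (nat_lit 76) (nat_lit 3376272454883) (nat_lit 76) (nat_lit 2211183557269) (nat_lit 9) (nat_lit 4) (nat_lit 10) (nat_lit 5) (nat_lit 10) (nat_lit 4) (nat_lit 455) (nat_lit 399) (nat_lit 166))) (XT.nd (nat_lit 78) (nat_lit 0) (nat_lit 0) (XT.lf (nat_lit 0) (nat_lit 181582108505) (nat_lit 532) (nat_lit 12162241756) (nat_lit 532) (nat_lit 12162241756)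 (nat_lit 64) (nat_lit 3) (nat_lit 71) (nat_lit 3) (nat_lit 71) (nat_lit 5) (nat_lit 400) (nat_lit 400) (nat_lit 220)) (XT.nd (nat_lit 78) (nat_lit 0) (nat_lit 76) (XT.lf (nat_lit 76) (nat_lit 185088634212) (nat_lit 0) (nat_lit 197053898588) (nat_lit 532) (nat_lit 45787038485) (nat_lit 65) (nat_lit 5) (nat_lit 64) (nat_lit 3) (nat_lit 71) (nat_lit 5) (nat_lit 401) (nat_lit 400) (nat_lit 219)) (XT.lf (nat_lit 0) (nat_lit 403528634267) (nat_lit 456) (nat_lit 32868413325) (nat_lit 532) (nat_lit 8867060326) (nat_lit 65) (nat_lit 5) (nat_lit 71) (nat_lit 5) (nat_lit 72) (nat_lit 5) (nat_lit 402) (nat_lit 400) (nat_lit 218))))) (XT.nd (nat_lit 156) (nat_lit 456) (nat_lit 0) (XT.nd (nat_lit 78) (nat_lit 0) (nat_lit 0) (XT.lf (nat_lit 76) (nat_lit 198724617313) (nat_lit 0) (nat_lit 237798587901) (nat_lit 532) (nat_lit 26670395789) (nat_lit 66) (nat_lit 5) (nat_lit 65) (nat_lit 5) (nat_lit 72) (nat_lit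 5) (nat_lit 403) (nat_lit 400) (nat_lit 217)) (XT.lf (nat_lit 76) (nat_lit 450714324625) (nat_lit 0) (nat_lit 22341666305) (nat_lit 532) (nat_lit 9429570708) (nat_lit 66) (nat_lit 5) (nat_lit 65) (nat_lit 5) (nat_lit 72) (nat_lit 5) (nat_lit 404) (nat_lit 400) (nat_lit 216))) (XT.nd (nat_lit 78) (nat_lit 0) (nat_lit 0) (XT.lf (nat_lit 0) (nat_lit 19492107179) (nat_lit 532) (nat_lit 277197585214) (nat_lit 608) (nat_lit 205752597468) (nat_lit 59) (nat_lit 5) (nat_lit 66) (nat_lit 5) (nat_lit 67) (nat_lit 5) (nat_lit 405) (nat_lit 400) (nat_lit 215)) (XT.nd (nat_lit 78) (nat_lit 0) (nat_lit 76) (XT.lf (nat_lit 0) (nat_lit 51689597537) (nat_lit 532) (nat_lit 20145095341) (nat_lit 608) (nat_lit 452023547975) (nat_lit 59) (nat_lit 5) (nat_lit 66) (nat_lit 5) (nat_lit 67) (nat_lit 5) (nat_lit 406) (nat_lit 400) (nat_lit 214)) (XT.lf (nat_lit 0) (nat_lit 97263197986) (nat_lit 532) (nat_lit 279718509212)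 (nat_lit 76) (nat_lit 169141735879) (nat_lit 60) (nat_lit 5) (nat_lit 67) (nat_lit 5) (nat_lit 61) (nat_lit 5) (nat_lit 407) (nat_lit 400) (nat_lit 213)))))) (XT.nd (nat_lit 390) (nat_lit 456) (nat_lit 0) (XT.nd (nat_lit 156) (nat_lit 456) (nat_lit 0) (XT.nd (nat_lit 78) (nat_lit 0) (nat_lit 0) (XT.lf (nat_lit 0) (nat_lit 5282945896) (nat_lit 380) (nat_lit 143757716354) (nat_lit 456) (nat_lit 420924561189) (nat_lit 55) (nat_lit 5) (nat_lit 60) (nat_lit 5) (nat_lit 61) (nat_lit 5) (nat_lit 408) (nat_lit 400) (nat_lit 212)) (XT.lf (nat_lit 0) (nat_lit 215407338947) (nat_lit 456) (nat_lit 268909212747) (nat_lit 76) (nat_lit 110562033328) (nat_lit 55) (nat_lit 5) (nat_lit 61) (nat_lit 5) (nat_lit 56) (nat_lit 5) (nat_lit 409) (nat_lit 400) (nat_lit 211))) (XT.nd (nat_lit 78) (nat_lit 228) (nat_lit 0) (XT.lf (nat_lit 0) (nat_lit 49255676226) (nat_lit 228) (nat_lit 242746218875) (nat_lit 304)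 (nat_lit 329389636823) (nat_lit 52) (nat_lit 5) (nat_lit 55) (nat_lit 5) (nat_lit 56) (nat_lit 5) (nat_lit 410) (nat_lit 400) (nat_lit 210)) (XT.nd (nat_lit 78) (nat_lit 228) (nat_lit 0) (XT.lf (nat_lit 0) (nat_lit 382703924198) (nat_lit 304) (nat_lit 241897955038) (nat_lit 76) (nat_lit 24785242682) (nat_lit 52) (nat_lit 5) (nat_lit 56) (nat_lit 5) (nat_lit 53) (nat_lit 5) (nat_lit 411) (nat_lit 400) (nat_lit 209)) (XT.lf (nat_lit 0) (nat_lit 114164847068) (nat_lit 228) (nat_lit 375548013471) (nat_lit 304) (nat_lit 189185438994) (nat_lit 49) (nat_lit 5) (nat_lit 52) (nat_lit 5) (nat_lit 53) (nat_lit 5) (nat_lit 412) (nat_lit 400) (nat_lit 208))))) (XT.nd (nat_lit 156) (nat_lit 228) (nat_lit 0) (XT.nd (nat_lit 78) (nat_lit 228) (nat_lit 0) (XT.lf (nat_lit 0) (nat_lit 512469602913) (nat_lit 228) (nat_lit 99426809542) (nat_lit 304) (nat_lit 98344846863) (nat_lit 49) (nat_lit 5) (nat_lit 52)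 (nat_lit 5) (nat_lit 53) (nat_lit 5) (nat_lit 413) (nat_lit 400) (nat_lit 207)) (XT.lf (nat_lit 0) (nat_lit 9712660131) (nat_lit 228) (nat_lit 539592958335) (nat_lit 76) (nat_lit 193991468518) (nat_lit 46) (nat_lit 5) (nat_lit 49) (nat_lit 5) (nat_lit 47) (nat_lit 5) (nat_lit 414) (nat_lit 400) (nat_lit 206))) (XT.nd (nat_lit 78) (nat_lit 228) (nat_lit 0) (XT.lf (nat_lit 0) (nat_lit 129231969793) (nat_lit 228) (nat_lit 135296761121) (nat_lit 76) (nat_lit 513613866774) (nat_lit 46) (nat_lit 5) (nat_lit 49) (nat_lit 5) (nat_lit 47) (nat_lit 5) (nat_lit 415) (nat_lit 400) (nat_lit 205)) (XT.nd (nat_lit 78) (nat_lit 0) (nat_lit 0) (XT.lf (nat_lit 0) (nat_lit 267174782575) (nat_lit 304) (nat_lit 499187163208) (nat_lit 76) (nat_lit 48704846806) (nat_lit 43) (nat_lit 5) (nat_lit 47) (nat_lit 5) (nat_lit 44) (nat_lit 5) (nat_lit 416) (nat_lit 400) (nat_lit 204)) (XT.lf (nat_lit 0) (nat_lit 426819219480)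 (nat_lit 304) (nat_lit 50771386113) (nat_lit 76) (nat_lit 376501021570) (nat_lit 43) (nat_lit 5) (nat_lit 47) (nat_lit 5) (nat_lit 44) (nat_lit 5) (nat_lit 417) (nat_lit 400) (nat_lit 203))))))) (XT.nd (nat_lit 780) (nat_lit 760) (nat_lit 0) (XT.nd (nat_lit 390) (nat_lit 456) (nat_lit 0) (XT.nd (nat_lit 156) (nat_lit 228) (nat_lit 0) (XT.nd (nat_lit 78) (nat_lit 152) (nat_lit 0) (XT.lf (nat_lit 0) (nat_lit 456345904548) (nat_lit 152) (nat_lit 153864423119) (nat_lit 228) (nat_lit 285150111539) (nat_lit 41) (nat_lit 5) (nat_lit 43) (nat_lit 5) (nat_lit 44) (nat_lit 5) (nat_lit 418) (nat_lit 400) (nat_lit 202)) (XT.lf (nat_lit 0) (nat_lit 65639751329) (nat_lit 152) (nat_lit 750343863047) (nat_lit 228) (nat_lit 123330270654) (nat_lit 39) (nat_lit 5) (nat_lit 41) (nat_lit 5) (nat_lit 42) (nat_lit 5) (nat_lit 419) (nat_lit 400) (nat_lit 201))) (XT.nd (nat_lit 78) (nat_lit 152) (nat_lit 0) (XT.lf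 (nat_lit 0) (nat_lit 65173841026) (nat_lit 228) (nat_lit 355735098351) (nat_lit 76) (nat_lit 564470771536) (nat_lit 38) (nat_lit 5) (nat_lit 41) (nat_lit 5) (nat_lit 39) (nat_lit 5) (nat_lit 420) (nat_lit 400) (nat_lit 200)) (XT.nd (nat_lit 78) (nat_lit 0) (nat_lit 0) (XT.lf (nat_lit 0) (nat_lit 210990244571) (nat_lit 152) (nat_lit 56179307468) (nat_lit 228) (nat_lit 767299035469) (nat_lit 36) (nat_lit 5) (nat_lit 38) (nat_lit 5) (nat_lit 39) (nat_lit 5) (nat_lit 421) (nat_lit 400) (nat_lit 199)) (XT.lf (nat_lit 0) (nat_lit 503426353931) (nat_lit 228) (nat_lit 251796911020) (nat_lit 76) (nat_lit 330813194565) (nat_lit 36) (nat_lit 5) (nat_lit 39) (nat_lit 5) (nat_lit 37) (nat_lit 5) (nat_lit 422) (nat_lit 400) (nat_lit 198))))) (XT.nd (nat_lit 156) (nat_lit 304) (nat_lit 0) (XT.nd (nat_lit 78) (nat_lit 0) (nat_lit 0) (XT.lf (nat_lit 0) (nat_lit 383335826088) (nat_lit 152) (nat_lit 385926301643)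 (nat_lit 228) (nat_lit 371613359339) (nat_lit 34) (nat_lit 5) (nat_lit 36) (nat_lit 5) (nat_lit 37) (nat_lit 5) (nat_lit 423) (nat_lit 400) (nat_lit 197)) (XT.lf (nat_lit 0) (nat_lit 1063738738771) (nat_lit 228) (nat_lit 116441204869) (nat_lit 76) (nat_lit 19331775167) (nat_lit 34) (nat_lit 5) (nat_lit 37) (nat_lit 5) (nat_lit 35) (nat_lit 4) (nat_lit 424) (nat_lit 400) (nat_lit 196))) (XT.nd (nat_lit 78) (nat_lit 152) (nat_lit 0) (XT.lf (nat_lit 0) (nat_lit 137968700731) (nat_lit 152) (nat_lit 668662182812) (nat_lit 76) (nat_lit 453980442049) (nat_lit 32) (nat_lit 5) (nat_lit 34) (nat_lit 5) (nat_lit 33) (nat_lit 5) (nat_lit 425) (nat_lit 400) (nat_lit 195)) (XT.nd (nat_lit 78) (nat_lit 0) (nat_lit 0) (XT.lf (nat_lit 0) (nat_lit 35452842455) (nat_lit 152) (nat_lit 394940640630) (nat_lit 228) (nat_lit 895593769397) (nat_lit 30) (nat_lit 5) (nat_lit 32) (nat_lit 5) (nat_lit 33) (nat_lit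 5) (nat_lit 426) (nat_lit 400) (nat_lit 194)) (XT.lf (nat_lit 0) (nat_lit 766164436461) (nat_lit 228) (nat_lit 562875985540) (nat_lit 76) (nat_lit 65956656451) (nat_lit 30) (nat_lit 5) (nat_lit 33) (nat_lit 5) (nat_lit 31) (nat_lit 4) (nat_lit 427) (nat_lit 400) (nat_lit 193)))))) (XT.nd (nat_lit 390) (nat_lit 380) (nat_lit 0) (XT.nd (nat_lit 156) (nat_lit 228) (nat_lit 0) (XT.nd (nat_lit 78) (nat_lit 76) (nat_lit 0) (XT.lf (nat_lit 0) (nat_lit 223939247392) (nat_lit 76) (nat_lit 920501752624) (nat_lit 152) (nat_lit 323835175774) (nat_lit 29) (nat_lit 5) (nat_lit 30) (nat_lit 5) (nat_lit 31) (nat_lit 4) (nat_lit 428) (nat_lit 400) (nat_lit 192)) (XT.lf (nat_lit 0) (nat_lit 21073608731) (nat_lit 152) (nat_lit 441008968304) (nat_lit 76) (nat_lit 1084061141684) (nat_lit 28) (nat_lit 5) (nat_lit 30) (nat_lit 5) (nat_lit 29) (nat_lit 5) (nat_lit 429) (nat_lit 400) (nat_lit 191))) (XT.nd (nat_lit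 78) (nat_lit 76) (nat_lit 0) (XT.lf (nat_lit 0) (nat_lit 387953606870) (nat_lit 228) (nat_lit 1189813967145) (nat_lit 76) (nat_lit 50850265074) (nat_lit 26) (nat_lit 5) (nat_lit 29) (nat_lit 5) (nat_lit 27) (nat_lit 4) (nat_lit 430) (nat_lit 400) (nat_lit 190)) (XT.nd (nat_lit 78) (nat_lit 76) (nat_lit 0) (XT.lf (nat_lit 0) (nat_lit 808557302404) (nat_lit 228) (nat_lit 314958294591) (nat_lit 76) (nat_lit 592224428293) (nat_lit 26) (nat_lit 5) (nat_lit 29) (nat_lit 5) (nat_lit 27) (nat_lit 4) (nat_lit 431) (nat_lit 400) (nat_lit 189)) (XT.lf (nat_lit 0) (nat_lit 663054489524) (nat_lit 76) (nat_lit 615701273084) (nat_lit 152) (nat_lit 529800506256) (nat_lit 25) (nat_lit 5) (nat_lit 26) (nat_lit 5) (nat_lit 27) (nat_lit 4) (nat_lit 432) (nat_lit 400) (nat_lit 188))))) (XT.nd (nat_lit 234) (nat_lit 228) (nat_lit 0) (XT.nd (nat_lit 78) (nat_lit 152) (nat_lit 0) (XT.lf (nat_lit 0) (nat_lit 1737220240800)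 (nat_lit 76) (nat_lit 57961369604) (nat_lit 152) (nat_lit 112927280662) (nat_lit 25) (nat_lit 5) (nat_lit 26) (nat_lit 5) (nat_lit 27) (nat_lit 4) (nat_lit 433) (nat_lit 400) (nat_lit 187)) (XT.nd (nat_lit 78) (nat_lit 0) (nat_lit 0) (XT.lf (nat_lit 0) (nat_lit 356416802642) (nat_lit 152) (nat_lit 1107502606133) (nat_lit 76) (nat_lit 548177844354) (nat_lit 23) (nat_lit 5) (nat_lit 25) (nat_lit 5) (nat_lit 24) (nat_lit 4) (nat_lit 434) (nat_lit 400) (nat_lit 186)) (XT.lf (nat_lit 0) (nat_lit 863506649228) (nat_lit 152) (nat_lit 52755734870) (nat_lit 76) (nat_lit 1207403706536) (nat_lit 23) (nat_lit 5) (nat_lit 25) (nat_lit 5) (nat_lit 24) (nat_lit 4) (nat_lit 435) (nat_lit 400) (nat_lit 185)))) (XT.nd (nat_lit 78) (nat_lit 152) (nat_lit 0) (XT.lf (nat_lit 0) (nat_lit 1143577239699) (nat_lit 76) (nat_lit 295089497746) (nat_lit 152) (nat_lit 803293453383) (nat_lit 22) (nat_lit 5) (nat_lit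 23) (nat_lit 5) (nat_lit 24) (nat_lit 4) (nat_lit 436) (nat_lit 400) (nat_lit 184)) (XT.nd (nat_lit 78) (nat_lit 76) (nat_lit 0) (XT.lf (nat_lit 0) (nat_lit 63096086672) (nat_lit 76) (nat_lit 2008778354604) (nat_lit 76) (nat_lit 296880593077) (nat_lit 21) (nat_lit 4) (nat_lit 22) (nat_lit 5) (nat_lit 22) (nat_lit 4) (nat_lit 437) (nat_lit 400) (nat_lit 183)) (XT.lf (nat_lit 0) (nat_lit 276013455303) (nat_lit 152) (nat_lit 1137789781577) (nat_lit 76) (nat_lit 1088331025840) (nat_lit 20) (nat_lit 5) (nat_lit 22) (nat_lit 5) (nat_lit 21) (nat_lit 4) (nat_lit 438) (nat_lit 400) (nat_lit 182))))))))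
noncomputable def xc227 : XT := (XT.nd (nat_lit 50466) (nat_lit 0) (nat_lit 1824) (XT.nd (nat_lit 780) (nat_lit 228) (nat_lit 0) (XT.nd (nat_lit 390) (nat_lit 304) (nat_lit 0) (XT.nd (nat_lit 156) (nat_lit 152) (nat_lit 0) (XT.nd (nat_lit 78) (nat_lit 0) (nat_lit 0) (XT.lf (nat_lit 0) (nat_lit 121895425767) (nat_lit 76) (nat_lit 759735920835) (nat_lit 152) (nat_lit 1763701061436) (nat_lit 19) (nat_lit 5) (nat_lit 20) (nat_lit 5) (nat_lit 21) (nat_lit 4) (nat_lit 439) (nat_lit 400) (nat_lit 181)) (XT.lf (nat_lit 0) (nat_lit 1547062552330) (nat_lit 76) (nat_lit 19745300347) (nat_lit 152) (nat_lit 1230689817629) (nat_lit 19) (nat_lit 5) (nat_lit 20) (nat_lit 5) (nat_lit 21) (nat_lit 4) (nat_lit 440) (nat_lit 400) (nat_lit 180))) (XT.nd (nat_lit 78) (nat_lit 76) (nat_lit 0) (XT.lf (nat_lit 0) (nat_lit 111225157724) (nat_lit 76) (nat_lit 2216993944684) (nat_lit 76) (nat_lit 631903401293) (nat_lit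 18) (nat_lit 4) (nat_lit 19) (nat_lit 5) (nat_lit 19) (nat_lit 4) (nat_lit 441) (nat_lit 400) (nat_lit 179)) (XT.nd (nat_lit 78) (nat_lit 0) (nat_lit 0) (XT.lf (nat_lit 0) (nat_lit 49636277068) (nat_lit 152) (nat_lit 1481847091908) (nat_lit 76) (nat_lit 1601398306580) (nat_lit 17) (nat_lit 5) (nat_lit 19) (nat_lit 5) (nat_lit 18) (nat_lit 4) (nat_lit 442) (nat_lit 400) (nat_lit 178)) (XT.lf (nat_lit 0) (nat_lit 751559928160) (nat_lit 152) (nat_lit 21845902099) (nat_lit 76) (nat_lit 2544742705255) (nat_lit 17) (nat_lit 5) (nat_lit 19) (nat_lit 5) (nat_lit 18) (nat_lit 4) (nat_lit 443) (nat_lit 400) (nat_lit 177))))) (XT.nd (nat_lit 156) (nat_lit 228) (nat_lit 0) (XT.nd (nat_lit 78) (nat_lit 0) (nat_lit 0) (XT.lf (nat_lit 0) (nat_lit 1551115814948) (nat_lit 152) (nat_lit 1880363288372) (nat_lit 0) (nat_lit 83439373460) (nat_lit 16) (nat_lit 5) (nat_lit 18) (nat_lit 4) (nat_lit 16) (nat_lit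 4) (nat_lit 444) (nat_lit 400) (nat_lit 176)) (XT.lf (nat_lit 0) (nat_lit 2435337451507) (nat_lit 152) (nat_lit 322775453061) (nat_lit 0) (nat_lit 967661006476) (nat_lit 16) (nat_lit 5) (nat_lit 18) (nat_lit 4) (nat_lit 16) (nat_lit 4) (nat_lit 445) (nat_lit 400) (nat_lit 175))) (XT.nd (nat_lit 78) (nat_lit 152) (nat_lit 0) (XT.lf (nat_lit 0) (nat_lit 1431004017700) (nat_lit 76) (nat_lit 1993708478251) (nat_lit 76) (nat_lit 526032029940) (nat_lit 15) (nat_lit 4) (nat_lit 16) (nat_lit 5) (nat_lit 16) (nat_lit 4) (nat_lit 446) (nat_lit 400) (nat_lit 174)) (XT.nd (nat_lit 78) (nat_lit 76) (nat_lit 0) (XT.lf (nat_lit 0) (nat_lit 293595788920) (nat_lit 152) (nat_lit 856997210394) (nat_lit 76) (nat_lit 3041819146316) (nat_lit 14) (nat_lit 5) (nat_lit 16) (nat_lit 5) (nat_lit 15) (nat_lit 4) (nat_lit 447) (nat_lit 400) (nat_lit 173)) (XT.lf (nat_lit 0) (nat_lit 973816625858) (nat_lit 76) (nat_lit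 199978124150) (nat_lit 152) (nat_lit 3276651746611) (nat_lit 13) (nat_lit 5) (nat_lit 14) (nat_lit 5) (nat_lit 15) (nat_lit 4) (nat_lit 448) (nat_lit 400) (nat_lit 172)))))) (XT.nd (nat_lit 390) (nat_lit 0) (nat_lit 0) (XT.nd (nat_lit 156) (nat_lit 152) (nat_lit 0) (XT.nd (nat_lit 78) (nat_lit 76) (nat_lit 0) (XT.lf (nat_lit 0) (nat_lit 2168331882232) (nat_lit 152) (nat_lit 1747905733076) (nat_lit 0) (nat_lit 809372200041) (nat_lit 13) (nat_lit 5) (nat_lit 15) (nat_lit 4) (nat_lit 13) (nat_lit 4) (nat_lit 449) (nat_lit 400) (nat_lit 171)) (XT.lf (nat_lit 0) (nat_lit 119921027258) (nat_lit 76) (nat_lit 3130589294886) (nat_lit 76) (nat_lit 1771629610463) (nat_lit 12) (nat_lit 4) (nat_lit 13) (nat_lit 5) (nat_lit 13) (nat_lit 4) (nat_lit 450) (nat_lit 400) (nat_lit 170))) (XT.nd (nat_lit 78) (nat_lit 152) (nat_lit 0) (XT.lf (nat_lit 0) (nat_lit 2236578869571) (nat_lit 76) (nat_lit 2230475004606)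 (nat_lit 76) (nat_lit 871515318116) (nat_lit 12) (nat_lit 4) (nat_lit 13) (nat_lit 5) (nat_lit 13) (nat_lit 4) (nat_lit 451) (nat_lit 400) (nat_lit 169)) (XT.nd (nat_lit 78) (nat_lit 76) (nat_lit 0) (XT.lf (nat_lit 0) (nat_lit 95575288907) (nat_lit 152) (nat_lit 1160163087477) (nat_lit 76) (nat_lit 4424380846415) (nat_lit 11) (nat_lit 5) (nat_lit 13) (nat_lit 5) (nat_lit 12) (nat_lit 4) (nat_lit 452) (nat_lit 400) (nat_lit 168)) (XT.lf (nat_lit 0) (nat_lit 962522850425) (nat_lit 76) (nat_lit 153574524864) (nat_lit 152) (nat_lit 4929233043957) (nat_lit 10) (nat_lit 5) (nat_lit 11) (nat_lit 5) (nat_lit 12) (nat_lit 4) (nat_lit 453) (nat_lit 400) (nat_lit 167))))) (XT.nd (nat_lit 49062) (nat_lit 0) (nat_lit 4104) (XT.nd (nat_lit 78) (nat_lit 0) (nat_lit 0) (XT.lf (nat_lit 0) (nat_lit 2275740221783) (nat_lit 152) (nat_lit 3141975759330) (nat_lit 0) (nat_lit 1017444210840) (nat_lit 10) (nat_lit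 5) (nat_lit 12) (nat_lit 4) (nat_lit 10) (nat_lit 4) (nat_lit 454) (nat_lit 400) (nat_lit 166)) (XT.nd (nat_lit 48906) (nat_lit 0) (nat_lit 4104) (XT.lf (nat_lit 0) (nat_lit 3532143441961) (nat_lit 152) (nat_lit 1049866359227) (nat_lit 0) (nat_lit 2273847429611) (nat_lit 10) (nat_lit 5) (nat_lit 12) (nat_lit 4) (nat_lit 10) (nat_lit 4) (nat_lit 455) (nat_lit 400) (nat_lit 165)) (XT.lf (nat_lit 0) (nat_lit 196109029509) (nat_lit 532) (nat_lit 13135030675) (nat_lit 532) (nat_lit 13135030675) (nat_lit 64) (nat_lit 3) (nat_lit 71) (nat_lit 3) (nat_lit 71) (nat_lit 5) (nat_lit 401) (nat_lit 401) (nat_lit 218)))) (XT.nd (nat_lit 78) (nat_lit 0) (nat_lit 76) (XT.lf (nat_lit 76) (nat_lit 199896096149) (nat_lit 0) (nat_lit 212818500652) (nat_lit 532) (nat_lit 49449286660) (nat_lit 65) (nat_lit 5) (nat_lit 64) (nat_lit 3) (nat_lit 71) (nat_lit 5) (nat_lit 402) (nat_lit 401) (nat_lit 217)) (XT.nd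 (nat_lit 78) (nat_lit 0) (nat_lit 0) (XT.lf (nat_lit 0) (nat_lit 435811530933) (nat_lit 456) (nat_lit 35497486662) (nat_lit 532) (nat_lit 9576169911) (nat_lit 65) (nat_lit 5) (nat_lit 71) (nat_lit 5) (nat_lit 72) (nat_lit 5) (nat_lit 403) (nat_lit 401) (nat_lit 216)) (XT.lf (nat_lit 76) (nat_lit 214622976306) (nat_lit 0) (nat_lit 256822655736) (nat_lit 532) (nat_lit 28803410879) (nat_lit 66) (nat_lit 5) (nat_lit 65) (nat_lit 5) (nat_lit 72) (nat_lit 5) (nat_lit 404) (nat_lit 401) (nat_lit 215))))))) (XT.nd (nat_lit 780) (nat_lit 1140) (nat_lit 0) (XT.nd (nat_lit 390) (nat_lit 456) (nat_lit 0) (XT.nd (nat_lit 156) (nat_lit 304) (nat_lit 0) (XT.nd (nat_lit 78) (nat_lit 456) (nat_lit 0) (XT.lf (nat_lit 76) (nat_lit 486771831343) (nat_lit 0) (nat_lit 24129167019) (nat_lit 532) (nat_lit 10183365464) (nat_lit 66) (nat_lit 5) (nat_lit 65) (nat_lit 5) (nat_lit 72) (nat_lit 5) (nat_lit 405) (nat_lit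 401) (nat_lit 214)) (XT.lf (nat_lit 0) (nat_lit 21051983898) (nat_lit 532) (nat_lit 299372967653) (nat_lit 608) (nat_lit 222212680427) (nat_lit 59) (nat_lit 5) (nat_lit 66) (nat_lit 5) (nat_lit 67) (nat_lit 5) (nat_lit 406) (nat_lit 401) (nat_lit 213))) (XT.nd (nat_lit 78) (nat_lit 304) (nat_lit 0) (XT.lf (nat_lit 0) (nat_lit 55825235845) (nat_lit 532) (nat_lit 21756310026) (nat_lit 608) (nat_lit 488185316222) (nat_lit 59) (nat_lit 5) (nat_lit 66) (nat_lit 5) (nat_lit 67) (nat_lit 5) (nat_lit 407) (nat_lit 401) (nat_lit 212)) (XT.nd (nat_lit 78) (nat_lit 380) (nat_lit 0) (XT.lf (nat_lit 0) (nat_lit 105044697201) (nat_lit 532) (nat_lit 302095569517) (nat_lit 76) (nat_lit 182673015976) (nat_lit 60) (nat_lit 5) (nat_lit 67) (nat_lit 5) (nat_lit 61) (nat_lit 5) (nat_lit 408) (nat_lit 401) (nat_lit 211)) (XT.lf (nat_lit 0) (nat_lit 5705991356) (nat_lit 380) (nat_lit 155258344262) (nat_lit 456)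 (nat_lit 454598071731) (nat_lit 55) (nat_lit 5) (nat_lit 60) (nat_lit 5) (nat_lit 61) (nat_lit 5) (nat_lit 409) (nat_lit 401) (nat_lit 210))))) (XT.nd (nat_lit 156) (nat_lit 228) (nat_lit 0) (XT.nd (nat_lit 78) (nat_lit 228) (nat_lit 0) (XT.lf (nat_lit 0) (nat_lit 232640315075) (nat_lit 456) (nat_lit 290421538649) (nat_lit 76) (nat_lit 119406986671) (nat_lit 55) (nat_lit 5) (nat_lit 61) (nat_lit 5) (nat_lit 56) (nat_lit 5) (nat_lit 410) (nat_lit 401) (nat_lit 209)) (XT.lf (nat_lit 0) (nat_lit 53196531034) (nat_lit 228) (nat_lit 262165885508) (nat_lit 304) (nat_lit 355740408063) (nat_lit 52) (nat_lit 5) (nat_lit 55) (nat_lit 5) (nat_lit 56) (nat_lit 5) (nat_lit 411) (nat_lit 401) (nat_lit 208))) (XT.nd (nat_lit 78) (nat_lit 228) (nat_lit 0) (XT.lf (nat_lit 0) (nat_lit 413320581260) (nat_lit 304) (nat_lit 261249393441) (nat_lit 76) (nat_lit 26768089256) (nat_lit 52) (nat_lit 5) (nat_lit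 56) (nat_lit 5) (nat_lit 53) (nat_lit 5) (nat_lit 412) (nat_lit 401) (nat_lit 207)) (XT.nd (nat_lit 78) (nat_lit 0) (nat_lit 0) (XT.lf (nat_lit 0) (nat_lit 123298422758) (nat_lit 228) (nat_lit 405591793663) (nat_lit 304) (nat_lit 204319920666) (nat_lit 49) (nat_lit 5) (nat_lit 52) (nat_lit 5) (nat_lit 53) (nat_lit 5) (nat_lit 413) (nat_lit 401) (nat_lit 206)) (XT.lf (nat_lit 0) (nat_lit 553467530335) (nat_lit 228) (nat_lit 107380897930) (nat_lit 304) (nat_lit 106212107346) (nat_lit 49) (nat_lit 5) (nat_lit 52) (nat_lit 5) (nat_lit 53) (nat_lit 5) (nat_lit 414) (nat_lit 401) (nat_lit 205)))))) (XT.nd (nat_lit 390) (nat_lit 532) (nat_lit 0) (XT.nd (nat_lit 156) (nat_lit 380) (nat_lit 0) (XT.nd (nat_lit 78) (nat_lit 0) (nat_lit 0) (XT.lf (nat_lit 0) (nat_lit 10489971289) (nat_lit 228) (nat_lit 582760006490) (nat_lit 76) (nat_lit 209510852102) (nat_lit 46) (nat_lit 5) (nat_lit 49) (nat_lit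 5) (nat_lit 47) (nat_lit 5) (nat_lit 415) (nat_lit 401) (nat_lit 204)) (XT.lf (nat_lit 0) (nat_lit 139570803624) (nat_lit 228) (nat_lit 146120142277) (nat_lit 76) (nat_lit 554703037322) (nat_lit 46) (nat_lit 5) (nat_lit 49) (nat_lit 5) (nat_lit 47) (nat_lit 5) (nat_lit 416) (nat_lit 401) (nat_lit 203))) (XT.nd (nat_lit 78) (nat_lit 152) (nat_lit 0) (XT.lf (nat_lit 0) (nat_lit 288549031476) (nat_lit 304) (nat_lit 539121766412) (nat_lit 76) (nat_lit 52601316637) (nat_lit 43) (nat_lit 5) (nat_lit 47) (nat_lit 5) (nat_lit 44) (nat_lit 5) (nat_lit 417) (nat_lit 401) (nat_lit 202)) (XT.nd (nat_lit 78) (nat_lit 152) (nat_lit 0) (XT.lf (nat_lit 0) (nat_lit 460965003608) (nat_lit 304) (nat_lit 54832754547) (nat_lit 76) (nat_lit 406621179302) (nat_lit 43) (nat_lit 5) (nat_lit 47) (nat_lit 5) (nat_lit 44) (nat_lit 5) (nat_lit 418) (nat_lit 401) (nat_lit 201)) (XT.lf (nat_lit 0) (nat_lit 492853910698)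 (nat_lit 152) (nat_lit 166173479516) (nat_lit 228) (nat_lit 307961865080) (nat_lit 41) (nat_lit 5) (nat_lit 43) (nat_lit 5) (nat_lit 44) (nat_lit 5) (nat_lit 419) (nat_lit 401) (nat_lit 200))))) (XT.nd (nat_lit 234) (nat_lit 152) (nat_lit 0) (XT.nd (nat_lit 78) (nat_lit 228) (nat_lit 0) (XT.lf (nat_lit 0) (nat_lit 70891273055) (nat_lit 152) (nat_lit 810371259685) (nat_lit 228) (nat_lit 133196444624) (nat_lit 39) (nat_lit 5) (nat_lit 41) (nat_lit 5) (nat_lit 42) (nat_lit 5) (nat_lit 420) (nat_lit 401) (nat_lit 199)) (XT.nd (nat_lit 78) (nat_lit 152) (nat_lit 0) (XT.lf (nat_lit 0) (nat_lit 70387966172) (nat_lit 228) (nat_lit 384193578320) (nat_lit 76) (nat_lit 609628525752) (nat_lit 38) (nat_lit 5) (nat_lit 41) (nat_lit 5) (nat_lit 39) (nat_lit 5) (nat_lit 421) (nat_lit 401) (nat_lit 198)) (XT.lf (nat_lit 0) (nat_lit 227869783735) (nat_lit 152) (nat_lit 60673541879) (nat_lit 228) (nat_lit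 828682732037) (nat_lit 36) (nat_lit 5) (nat_lit 38) (nat_lit 5) (nat_lit 39) (nat_lit 5) (nat_lit 422) (nat_lit 401) (nat_lit 197)))) (XT.nd (nat_lit 78) (nat_lit 152) (nat_lit 0) (XT.lf (nat_lit 0) (nat_lit 543700658599) (nat_lit 228) (nat_lit 271940354822) (nat_lit 76) (nat_lit 357278347052) (nat_lit 36) (nat_lit 5) (nat_lit 39) (nat_lit 5) (nat_lit 37) (nat_lit 5) (nat_lit 423) (nat_lit 401) (nat_lit 196)) (XT.nd (nat_lit 78) (nat_lit 0) (nat_lit 0) (XT.lf (nat_lit 0) (nat_lit 414002993430) (nat_lit 152) (nat_lit 416800293573) (nat_lit 228) (nat_lit 401342223818) (nat_lit 34) (nat_lit 5) (nat_lit 36) (nat_lit 5) (nat_lit 37) (nat_lit 5) (nat_lit 424) (nat_lit 401) (nat_lit 195)) (XT.lf (nat_lit 0) (nat_lit 1148838015421) (nat_lit 228) (nat_lit 125756210730) (nat_lit 76) (nat_lit 20878415874) (nat_lit 34) (nat_lit 5) (nat_lit 37) (nat_lit 5) (nat_lit 35) (nat_lit 4) (nat_lit 425) (nat_lit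 401) (nat_lit 194))))))))
noncomputable def xc228 : XT := (XT.nd (nat_lit 1560) (nat_lit 456) (nat_lit 0) (XT.nd (nat_lit 780) (nat_lit 532) (nat_lit 0) (XT.nd (nat_lit 390) (nat_lit 380) (nat_lit 0) (XT.nd (nat_lit 156) (nat_lit 152) (nat_lit 0) (XT.nd (nat_lit 78) (nat_lit 152) (nat_lit 0) (XT.lf (nat_lit 0) (nat_lit 149006372517) (nat_lit 152) (nat_lit 722154864939) (nat_lit 76) (nat_lit 490298980054) (nat_lit 32) (nat_lit 5) (nat_lit 34) (nat_lit 5) (nat_lit 33) (nat_lit 5) (nat_lit 426) (nat_lit 401) (nat_lit 193)) (XT.lf (nat_lit 0) (nat_lit 38289354945) (nat_lit 152) (nat_lit 426535776354) (nat_lit 228) (nat_lit 967241087750) (nat_lit 30) (nat_lit 5) (nat_lit 32) (nat_lit 5) (nat_lit 33) (nat_lit 5) (nat_lit 427) (nat_lit 401) (nat_lit 192))) (XT.nd (nat_lit 78) (nat_lit 152) (nat_lit 0) (XT.lf (nat_lit 0) (nat_lit 827457750957) (nat_lit 228) (nat_lit 607905790358) (nat_lit 76)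 (nat_lit 71233290585) (nat_lit 30) (nat_lit 5) (nat_lit 33) (nat_lit 5) (nat_lit 31) (nat_lit 4) (nat_lit 428) (nat_lit 401) (nat_lit 191)) (XT.nd (nat_lit 78) (nat_lit 76) (nat_lit 0) (XT.lf (nat_lit 0) (nat_lit 241854654271) (nat_lit 76) (nat_lit 994141779928) (nat_lit 152) (nat_lit 349741823263) (nat_lit 29) (nat_lit 5) (nat_lit 30) (nat_lit 5) (nat_lit 31) (nat_lit 4) (nat_lit 429) (nat_lit 401) (nat_lit 190)) (XT.lf (nat_lit 0) (nat_lit 22759643948) (nat_lit 152) (nat_lit 476289430701) (nat_lit 76) (nat_lit 1170786129797) (nat_lit 28) (nat_lit 5) (nat_lit 30) (nat_lit 5) (nat_lit 29) (nat_lit 5) (nat_lit 430) (nat_lit 401) (nat_lit 189))))) (XT.nd (nat_lit 156) (nat_lit 228) (nat_lit 0) (XT.nd (nat_lit 78) (nat_lit 0) (nat_lit 0) (XT.lf (nat_lit 0) (nat_lit 418990039637) (nat_lit 228) (nat_lit 1284998827102) (nat_lit 76) (nat_lit 54918387895) (nat_lit 26) (nat_lit 5) (nat_lit 29)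 (nat_lit 5) (nat_lit 27) (nat_lit 4) (nat_lit 431) (nat_lit 401) (nat_lit 188)) (XT.lf (nat_lit 0) (nat_lit 873242020131) (nat_lit 228) (nat_lit 340154719812) (nat_lit 76) (nat_lit 639602476644) (nat_lit 26) (nat_lit 5) (nat_lit 29) (nat_lit 5) (nat_lit 27) (nat_lit 4) (nat_lit 432) (nat_lit 401) (nat_lit 187))) (XT.nd (nat_lit 78) (nat_lit 152) (nat_lit 0) (XT.lf (nat_lit 0) (nat_lit 716099080998) (nat_lit 76) (nat_lit 664957271849) (nat_lit 152) (nat_lit 572184407149) (nat_lit 25) (nat_lit 5) (nat_lit 26) (nat_lit 5) (nat_lit 27) (nat_lit 4) (nat_lit 433) (nat_lit 401) (nat_lit 186)) (XT.nd (nat_lit 78) (nat_lit 152) (nat_lit 0) (XT.lf (nat_lit 0) (nat_lit 1876198075168) (nat_lit 76) (nat_lit 62598183726) (nat_lit 152) (nat_lit 121961333849) (nat_lit 25) (nat_lit 5) (nat_lit 26) (nat_lit 5) (nat_lit 27) (nat_lit 4) (nat_lit 434) (nat_lit 401) (nat_lit 185)) (XT.lf (nat_lit 0) (nat_lit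 384930268087) (nat_lit 152) (nat_lit 1196102591423) (nat_lit 76) (nat_lit 592032164141) (nat_lit 23) (nat_lit 5) (nat_lit 25) (nat_lit 5) (nat_lit 24) (nat_lit 4) (nat_lit 435) (nat_lit 401) (nat_lit 184)))))) (XT.nd (nat_lit 390) (nat_lit 228) (nat_lit 0) (XT.nd (nat_lit 156) (nat_lit 228) (nat_lit 0) (XT.nd (nat_lit 78) (nat_lit 76) (nat_lit 0) (XT.lf (nat_lit 0) (nat_lit 932587293420) (nat_lit 152) (nat_lit 56975986992) (nat_lit 76) (nat_lit 1303996088464) (nat_lit 23) (nat_lit 5) (nat_lit 25) (nat_lit 5) (nat_lit 24) (nat_lit 4) (nat_lit 436) (nat_lit 401) (nat_lit 183)) (XT.lf (nat_lit 0) (nat_lit 1235063620310) (nat_lit 76) (nat_lit 318696564913) (nat_lit 152) (nat_lit 867556812142) (nat_lit 22) (nat_lit 5) (nat_lit 23) (nat_lit 5) (nat_lit 24) (nat_lit 4) (nat_lit 437) (nat_lit 401) (nat_lit 182))) (XT.nd (nat_lit 78) (nat_lit 152) (nat_lit 0) (XT.lf (nat_lit 0) (nat_lit 68143976278)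 (nat_lit 76) (nat_lit 2169480527963) (nat_lit 76) (nat_lit 320630924224) (nat_lit 21) (nat_lit 4) (nat_lit 22) (nat_lit 5) (nat_lit 22) (nat_lit 4) (nat_lit 438) (nat_lit 401) (nat_lit 181)) (XT.nd (nat_lit 78) (nat_lit 76) (nat_lit 0) (XT.lf (nat_lit 0) (nat_lit 298094634025) (nat_lit 152) (nat_lit 1228812771037) (nat_lit 76) (nat_lit 1175397590472) (nat_lit 20) (nat_lit 5) (nat_lit 22) (nat_lit 5) (nat_lit 21) (nat_lit 4) (nat_lit 439) (nat_lit 401) (nat_lit 180)) (XT.lf (nat_lit 0) (nat_lit 131647248008) (nat_lit 76) (nat_lit 820514705569) (nat_lit 152) (nat_lit 1904797039147) (nat_lit 19) (nat_lit 5) (nat_lit 20) (nat_lit 5) (nat_lit 21) (nat_lit 4) (nat_lit 440) (nat_lit 401) (nat_lit 179))))) (XT.nd (nat_lit 156) (nat_lit 152) (nat_lit 0) (XT.nd (nat_lit 78) (nat_lit 76) (nat_lit 0) (XT.lf (nat_lit 0) (nat_lit 1670827730757) (nat_lit 76) (nat_lit 21324842029) (nat_lit 152) (nat_lit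 1329144903775) (nat_lit 19) (nat_lit 5) (nat_lit 20) (nat_lit 5) (nat_lit 21) (nat_lit 4) (nat_lit 441) (nat_lit 401) (nat_lit 178)) (XT.lf (nat_lit 0) (nat_lit 120123345423) (nat_lit 76) (nat_lit 2394353376309) (nat_lit 76) (nat_lit 682455574958) (nat_lit 18) (nat_lit 4) (nat_lit 19) (nat_lit 5) (nat_lit 19) (nat_lit 4) (nat_lit 442) (nat_lit 401) (nat_lit 177))) (XT.nd (nat_lit 78) (nat_lit 76) (nat_lit 0) (XT.lf (nat_lit 0) (nat_lit 53607265821) (nat_lit 152) (nat_lit 1600394692575) (nat_lit 76) (nat_lit 1729510244263) (nat_lit 17) (nat_lit 5) (nat_lit 19) (nat_lit 5) (nat_lit 18) (nat_lit 4) (nat_lit 443) (nat_lit 401) (nat_lit 176)) (XT.nd (nat_lit 78) (nat_lit 76) (nat_lit 0) (XT.lf (nat_lit 0) (nat_lit 811684802587) (nat_lit 152) (nat_lit 23593419928) (nat_lit 76) (nat_lit 2748322189413) (nat_lit 17) (nat_lit 5) (nat_lit 19) (nat_lit 5) (nat_lit 18) (nat_lit 4) (nat_lit 444) (nat_lit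 401) (nat_lit 175)) (XT.lf (nat_lit 0) (nat_lit 1675205159742) (nat_lit 152) (nat_lit 2030792196516) (nat_lit 0) (nat_lit 90114592285) (nat_lit 16) (nat_lit 5) (nat_lit 18) (nat_lit 4) (nat_lit 16) (nat_lit 4) (nat_lit 445) (nat_lit 401) (nat_lit 174))))))) (XT.nd (nat_lit 49686) (nat_lit 0) (nat_lit 3192) (XT.nd (nat_lit 390) (nat_lit 228) (nat_lit 0) (XT.nd (nat_lit 156) (nat_lit 152) (nat_lit 0) (XT.nd (nat_lit 78) (nat_lit 76) (nat_lit 0) (XT.lf (nat_lit 0) (nat_lit 2630164521330) (nat_lit 152) (nat_lit 348597345855) (nat_lit 0) (nat_lit 1045073950835) (nat_lit 16) (nat_lit 5) (nat_lit 18) (nat_lit 4) (nat_lit 16) (nat_lit 4) (nat_lit 446) (nat_lit 401) (nat_lit 173)) (XT.lf (nat_lit 0) (nat_lit 1545484478935) (nat_lit 76) (nat_lit 2153205088298) (nat_lit 76) (nat_lit 568114514991) (nat_lit 15) (nat_lit 4) (nat_lit 16) (nat_lit 5) (nat_lit 16) (nat_lit 4) (nat_lit 447) (nat_lit 401)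 (nat_lit 172))) (XT.nd (nat_lit 78) (nat_lit 76) (nat_lit 0) (XT.lf (nat_lit 0) (nat_lit 317083520066) (nat_lit 152) (nat_lit 925556854172) (nat_lit 76) (nat_lit 3285164737591) (nat_lit 14) (nat_lit 5) (nat_lit 16) (nat_lit 5) (nat_lit 15) (nat_lit 4) (nat_lit 448) (nat_lit 401) (nat_lit 171)) (XT.nd (nat_lit 78) (nat_lit 0) (nat_lit 0) (XT.lf (nat_lit 0) (nat_lit 1051722085612) (nat_lit 76) (nat_lit 215976310510) (nat_lit 152) (nat_lit 3538783814930) (nat_lit 13) (nat_lit 5) (nat_lit 14) (nat_lit 5) (nat_lit 15) (nat_lit 4) (nat_lit 449) (nat_lit 401) (nat_lit 170)) (XT.lf (nat_lit 0) (nat_lit 2341798495441) (nat_lit 152) (nat_lit 1887738068154) (nat_lit 0) (nat_lit 874122031964) (nat_lit 13) (nat_lit 5) (nat_lit 15) (nat_lit 4) (nat_lit 13) (nat_lit 4) (nat_lit 450) (nat_lit 401) (nat_lit 169))))) (XT.nd (nat_lit 156) (nat_lit 152) (nat_lit 0) (XT.nd (nat_lit 78) (nat_lit 0) (nat_lit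 0) (XT.lf (nat_lit 0) (nat_lit 129514829879) (nat_lit 76) (nat_lit 3381036378925) (nat_lit 76) (nat_lit 1913359913534) (nat_lit 12) (nat_lit 4) (nat_lit 13) (nat_lit 5) (nat_lit 13) (nat_lit 4) (nat_lit 451) (nat_lit 401) (nat_lit 168)) (XT.lf (nat_lit 0) (nat_lit 2415505290655) (nat_lit 76) (nat_lit 2408912949835) (nat_lit 76) (nat_lit 941236482671) (nat_lit 12) (nat_lit 4) (nat_lit 13) (nat_lit 5) (nat_lit 13) (nat_lit 4) (nat_lit 452) (nat_lit 401) (nat_lit 167))) (XT.nd (nat_lit 78) (nat_lit 76) (nat_lit 0) (XT.lf (nat_lit 0) (nat_lit 103221365582) (nat_lit 152) (nat_lit 1252976028392) (nat_lit 76) (nat_lit 4778331362358) (nat_lit 11) (nat_lit 5) (nat_lit 13) (nat_lit 5) (nat_lit 12) (nat_lit 4) (nat_lit 453) (nat_lit 401) (nat_lit 166)) (XT.nd (nat_lit 78) (nat_lit 0) (nat_lit 0) (XT.lf (nat_lit 0) (nat_lit 1039524781856) (nat_lit 76) (nat_lit 165860435537) (nat_lit 152) (nat_lit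 5323571631220) (nat_lit 10) (nat_lit 5) (nat_lit 11) (nat_lit 5) (nat_lit 12) (nat_lit 4) (nat_lit 454) (nat_lit 401) (nat_lit 165)) (XT.lf (nat_lit 0) (nat_lit 2457799488892) (nat_lit 152) (nat_lit 3393333721617) (nat_lit 0) (nat_lit 1098839792845) (nat_lit 10) (nat_lit 5) (nat_lit 12) (nat_lit 4) (nat_lit 10) (nat_lit 4) (nat_lit 455) (nat_lit 401) (nat_lit 164)))))) (XT.nd (nat_lit 390) (nat_lit 912) (nat_lit 0) (XT.nd (nat_lit 156) (nat_lit 0) (nat_lit 76) (XT.nd (nat_lit 78) (nat_lit 0) (nat_lit 0) (XT.lf (nat_lit 0) (nat_lit 211798053929) (nat_lit 532) (nat_lit 14185669874) (nat_lit 532) (nat_lit 14185669874) (nat_lit 64) (nat_lit 3) (nat_lit 71) (nat_lit 3) (nat_lit 71) (nat_lit 5) (nat_lit 402) (nat_lit 402) (nat_lit 216)) (XT.lf (nat_lit 76) (nat_lit 215888102086) (nat_lit 0) (nat_lit 229844229484) (nat_lit 532) (nat_lit 53404616677) (nat_lit 65) (nat_lit 5) (nat_lit 64) (nat_lit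 3) (nat_lit 71) (nat_lit 5) (nat_lit 403) (nat_lit 402) (nat_lit 215))) (XT.nd (nat_lit 78) (nat_lit 0) (nat_lit 0) (XT.lf (nat_lit 0) (nat_lit 470676972890) (nat_lit 456) (nat_lit 38336942893) (nat_lit 532) (nat_lit 10342044675) (nat_lit 65) (nat_lit 5) (nat_lit 71) (nat_lit 5) (nat_lit 72) (nat_lit 5) (nat_lit 404) (nat_lit 402) (nat_lit 214)) (XT.nd (nat_lit 78) (nat_lit 0) (nat_lit 0) (XT.lf (nat_lit 76) (nat_lit 231793148437) (nat_lit 0) (nat_lit 277368623204) (nat_lit 532) (nat_lit 31107155137) (nat_lit 66) (nat_lit 5) (nat_lit 65) (nat_lit 5) (nat_lit 72) (nat_lit 5) (nat_lit 405) (nat_lit 402) (nat_lit 213)) (XT.lf (nat_lit 76) (nat_lit 525713887134) (nat_lit 0) (nat_lit 26059643907) (nat_lit 532) (nat_lit 10997545246) (nat_lit 66) (nat_lit 5) (nat_lit 65) (nat_lit 5) (nat_lit 72) (nat_lit 5) (nat_lit 406) (nat_lit 402) (nat_lit 212))))) (XT.nd (nat_lit 234) (nat_lit 532) (nat_lit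 0) (XT.nd (nat_lit 78) (nat_lit 0) (nat_lit 0) (XT.lf (nat_lit 0) (nat_lit 22736578262) (nat_lit 532) (nat_lit 323322441229) (nat_lit 608) (nat_lit 239989587833) (nat_lit 59) (nat_lit 5) (nat_lit 66) (nat_lit 5) (nat_lit 67) (nat_lit 5) (nat_lit 407) (nat_lit 402) (nat_lit 211)) (XT.nd (nat_lit 78) (nat_lit 0) (nat_lit 76) (XT.lf (nat_lit 0) (nat_lit 60291658094) (nat_lit 532) (nat_lit 23496477942) (nat_lit 608) (nat_lit 527240042420) (nat_lit 59) (nat_lit 5) (nat_lit 66) (nat_lit 5) (nat_lit 67) (nat_lit 5) (nat_lit 408) (nat_lit 402) (nat_lit 210)) (XT.lf (nat_lit 0) (nat_lit 113448653100) (nat_lit 532) (nat_lit 326262854626) (nat_lit 76) (nat_lit 197286806866) (nat_lit 60) (nat_lit 5) (nat_lit 67) (nat_lit 5) (nat_lit 61) (nat_lit 5) (nat_lit 409) (nat_lit 402) (nat_lit 209)))) (XT.nd (nat_lit 78) (nat_lit 228) (nat_lit 0) (XT.lf (nat_lit 0) (nat_lit 6162821992) (nat_lit 380) (nat_lit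 167679020890) (nat_lit 456) (nat_lit 490965527936) (nat_lit 55) (nat_lit 5) (nat_lit 60) (nat_lit 5) (nat_lit 61) (nat_lit 5) (nat_lit 410) (nat_lit 402) (nat_lit 208)) (XT.nd (nat_lit 78) (nat_lit 228) (nat_lit 0) (XT.lf (nat_lit 0) (nat_lit 251251873796) (nat_lit 456) (nat_lit 313654909273) (nat_lit 76) (nat_lit 128959537611) (nat_lit 55) (nat_lit 5) (nat_lit 61) (nat_lit 5) (nat_lit 56) (nat_lit 5) (nat_lit 411) (nat_lit 402) (nat_lit 207)) (XT.lf (nat_lit 0) (nat_lit 57452597061) (nat_lit 228) (nat_lit 283139129877) (nat_lit 304) (nat_lit 384199298025) (nat_lit 52) (nat_lit 5) (nat_lit 55) (nat_lit 5) (nat_lit 56) (nat_lit 5) (nat_lit 412) (nat_lit 402) (nat_lit 206))))))))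
noncomputable def xc229 : XT := (XT.nd (nat_lit 1560) (nat_lit 1064) (nat_lit 0) (XT.nd (nat_lit 780) (nat_lit 912) (nat_lit 0) (XT.nd (nat_lit 390) (nat_lit 608) (nat_lit 0) (XT.nd (nat_lit 156) (nat_lit 228) (nat_lit 0) (XT.nd (nat_lit 78) (nat_lit 228) (nat_lit 0) (XT.lf (nat_lit 0) (nat_lit 446386521936) (nat_lit 304) (nat_lit 282149003696) (nat_lit 76) (nat_lit 28909559681) (nat_lit 52) (nat_lit 5) (nat_lit 56) (nat_lit 5) (nat_lit 53) (nat_lit 5) (nat_lit 413) (nat_lit 402) (nat_lit 205)) (XT.lf (nat_lit 0) (nat_lit 133162629161) (nat_lit 228) (nat_lit 438039084957) (nat_lit 304) (nat_lit 220665211296) (nat_lit 49) (nat_lit 5) (nat_lit 52) (nat_lit 5) (nat_lit 53) (nat_lit 5) (nat_lit 414) (nat_lit 402) (nat_lit 204))) (XT.nd (nat_lit 78) (nat_lit 228) (nat_lit 0) (XT.lf (nat_lit 0) (nat_lit 597745240708) (nat_lit 228) (nat_lit 115971321432) (nat_lit 304) (nat_lit 114708795356) (nat_lit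 49) (nat_lit 5) (nat_lit 52) (nat_lit 5) (nat_lit 53) (nat_lit 5) (nat_lit 415) (nat_lit 402) (nat_lit 203)) (XT.nd (nat_lit 78) (nat_lit 0) (nat_lit 0) (XT.lf (nat_lit 0) (nat_lit 11329424777) (nat_lit 228) (nat_lit 629380473922) (nat_lit 76) (nat_lit 226271776943) (nat_lit 46) (nat_lit 5) (nat_lit 49) (nat_lit 5) (nat_lit 47) (nat_lit 5) (nat_lit 416) (nat_lit 402) (nat_lit 202)) (XT.lf (nat_lit 0) (nat_lit 150736704752) (nat_lit 228) (nat_lit 157809445246) (nat_lit 76) (nat_lit 599079332782) (nat_lit 46) (nat_lit 5) (nat_lit 49) (nat_lit 5) (nat_lit 47) (nat_lit 5) (nat_lit 417) (nat_lit 402) (nat_lit 201))))) (XT.nd (nat_lit 156) (nat_lit 380) (nat_lit 0) (XT.nd (nat_lit 78) (nat_lit 0) (nat_lit 0) (XT.lf (nat_lit 0) (nat_lit 311633182300) (nat_lit 304) (nat_lit 582251190636) (nat_lit 76) (nat_lit 56809492344) (nat_lit 43) (nat_lit 5) (nat_lit 47) (nat_lit 5) (nat_lit 44) (nat_lit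 5) (nat_lit 418) (nat_lit 402) (nat_lit 200)) (XT.lf (nat_lit 0) (nat_lit 497842415291) (nat_lit 304) (nat_lit 59219081310) (nat_lit 76) (nat_lit 439150938809) (nat_lit 43) (nat_lit 5) (nat_lit 47) (nat_lit 5) (nat_lit 44) (nat_lit 5) (nat_lit 419) (nat_lit 402) (nat_lit 199))) (XT.nd (nat_lit 78) (nat_lit 228) (nat_lit 0) (XT.lf (nat_lit 0) (nat_lit 532282509721) (nat_lit 152) (nat_lit 179467274327) (nat_lit 228) (nat_lit 332598595337) (nat_lit 41) (nat_lit 5) (nat_lit 43) (nat_lit 5) (nat_lit 44) (nat_lit 5) (nat_lit 420) (nat_lit 402) (nat_lit 198)) (XT.nd (nat_lit 78) (nat_lit 76) (nat_lit 0) (XT.lf (nat_lit 0) (nat_lit 76562867782) (nat_lit 152) (nat_lit 875200864090) (nat_lit 228) (nat_lit 143851947846) (nat_lit 39) (nat_lit 5) (nat_lit 41) (nat_lit 5) (nat_lit 42) (nat_lit 5) (nat_lit 421) (nat_lit 402) (nat_lit 197)) (XT.lf (nat_lit 0) (nat_lit 76019190248) (nat_lit 228) (nat_lit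 414928783464) (nat_lit 76) (nat_lit 658398887111) (nat_lit 38) (nat_lit 5) (nat_lit 41) (nat_lit 5) (nat_lit 39) (nat_lit 5) (nat_lit 422) (nat_lit 402) (nat_lit 196)))))) (XT.nd (nat_lit 390) (nat_lit 456) (nat_lit 0) (XT.nd (nat_lit 156) (nat_lit 304) (nat_lit 0) (XT.nd (nat_lit 78) (nat_lit 0) (nat_lit 0) (XT.lf (nat_lit 0) (nat_lit 246099640438) (nat_lit 152) (nat_lit 65527330762) (nat_lit 228) (nat_lit 894977156610) (nat_lit 36) (nat_lit 5) (nat_lit 38) (nat_lit 5) (nat_lit 39) (nat_lit 5) (nat_lit 423) (nat_lit 402) (nat_lit 195)) (XT.lf (nat_lit 0) (nat_lit 587196879628) (nat_lit 228) (nat_lit 293695318222) (nat_lit 76) (nat_lit 385860697910) (nat_lit 36) (nat_lit 5) (nat_lit 39) (nat_lit 5) (nat_lit 37) (nat_lit 5) (nat_lit 424) (nat_lit 402) (nat_lit 194))) (XT.nd (nat_lit 78) (nat_lit 152) (nat_lit 0) (XT.lf (nat_lit 0) (nat_lit 447123491182) (nat_lit 152) (nat_lit 450144220865)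 (nat_lit 228) (nat_lit 433449426597) (nat_lit 34) (nat_lit 5) (nat_lit 36) (nat_lit 5) (nat_lit 37) (nat_lit 5) (nat_lit 425) (nat_lit 402) (nat_lit 193)) (XT.nd (nat_lit 78) (nat_lit 152) (nat_lit 0) (XT.lf (nat_lit 0) (nat_lit 1240745208873) (nat_lit 228) (nat_lit 135816458507) (nat_lit 76) (nat_lit 22548773757) (nat_lit 34) (nat_lit 5) (nat_lit 37) (nat_lit 5) (nat_lit 35) (nat_lit 4) (nat_lit 426) (nat_lit 402) (nat_lit 192)) (XT.lf (nat_lit 0) (nat_lit 160927032976) (nat_lit 152) (nat_lit 779927003363) (nat_lit 76) (nat_lit 529522986457) (nat_lit 32) (nat_lit 5) (nat_lit 34) (nat_lit 5) (nat_lit 33) (nat_lit 5) (nat_lit 427) (nat_lit 402) (nat_lit 191))))) (XT.nd (nat_lit 156) (nat_lit 304) (nat_lit 0) (XT.nd (nat_lit 78) (nat_lit 0) (nat_lit 0) (XT.lf (nat_lit 0) (nat_lit 41352747763) (nat_lit 152) (nat_lit 460658539416) (nat_lit 228) (nat_lit 1044620217707) (nat_lit 30) (nat_lit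 5) (nat_lit 32) (nat_lit 5) (nat_lit 33) (nat_lit 5) (nat_lit 428) (nat_lit 402) (nat_lit 190)) (XT.lf (nat_lit 0) (nat_lit 893654507847) (nat_lit 228) (nat_lit 656538018655) (nat_lit 76) (nat_lit 76932040953) (nat_lit 30) (nat_lit 5) (nat_lit 33) (nat_lit 5) (nat_lit 31) (nat_lit 4) (nat_lit 429) (nat_lit 402) (nat_lit 189))) (XT.nd (nat_lit 78) (nat_lit 228) (nat_lit 0) (XT.lf (nat_lit 0) (nat_lit 261203255597) (nat_lit 76) (nat_lit 1073673025524) (nat_lit 152) (nat_lit 377721026314) (nat_lit 29) (nat_lit 5) (nat_lit 30) (nat_lit 5) (nat_lit 31) (nat_lit 4) (nat_lit 430) (nat_lit 402) (nat_lit 188)) (XT.nd (nat_lit 78) (nat_lit 152) (nat_lit 0) (XT.lf (nat_lit 0) (nat_lit 24580541080) (nat_lit 152) (nat_lit 514392366478) (nat_lit 76) (nat_lit 1264449103152) (nat_lit 28) (nat_lit 5) (nat_lit 30) (nat_lit 5) (nat_lit 29) (nat_lit 5) (nat_lit 431) (nat_lit 402) (nat_lit 187)) (XT.lf (nat_lit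 0) (nat_lit 452509366451) (nat_lit 228) (nat_lit 1387798512580) (nat_lit 76) (nat_lit 59311946044) (nat_lit 26) (nat_lit 5) (nat_lit 29) (nat_lit 5) (nat_lit 27) (nat_lit 4) (nat_lit 432) (nat_lit 402) (nat_lit 186))))))) (XT.nd (nat_lit 780) (nat_lit 532) (nat_lit 0) (XT.nd (nat_lit 390) (nat_lit 304) (nat_lit 0) (XT.nd (nat_lit 156) (nat_lit 152) (nat_lit 0) (XT.nd (nat_lit 78) (nat_lit 76) (nat_lit 0) (XT.lf (nat_lit 0) (nat_lit 943101496226) (nat_lit 228) (nat_lit 367366893054) (nat_lit 76) (nat_lit 690770755440) (nat_lit 26) (nat_lit 5) (nat_lit 29) (nat_lit 5) (nat_lit 27) (nat_lit 4) (nat_lit 433) (nat_lit 402) (nat_lit 185)) (XT.lf (nat_lit 0) (nat_lit 773387206649) (nat_lit 76) (nat_lit 718153765221) (nat_lit 152) (nat_lit 617959040030) (nat_lit 25) (nat_lit 5) (nat_lit 26) (nat_lit 5) (nat_lit 27) (nat_lit 4) (nat_lit 434) (nat_lit 402) (nat_lit 184))) (XT.nd (nat_lit 78) (nat_lit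 152) (nat_lit 0) (XT.lf (nat_lit 0) (nat_lit 2026294105599) (nat_lit 76) (nat_lit 67605956594) (nat_lit 152) (nat_lit 131718129733) (nat_lit 25) (nat_lit 5) (nat_lit 26) (nat_lit 5) (nat_lit 27) (nat_lit 4) (nat_lit 435) (nat_lit 402) (nat_lit 183)) (XT.nd (nat_lit 78) (nat_lit 0) (nat_lit 0) (XT.lf (nat_lit 0) (nat_lit 415724793471) (nat_lit 152) (nat_lit 1291790607379) (nat_lit 76) (nat_lit 639394816351) (nat_lit 23) (nat_lit 5) (nat_lit 25) (nat_lit 5) (nat_lit 24) (nat_lit 4) (nat_lit 436) (nat_lit 402) (nat_lit 182)) (XT.lf (nat_lit 0) (nat_lit 1007194373132) (nat_lit 152) (nat_lit 61533888767) (nat_lit 76) (nat_lit 1408315848763) (nat_lit 23) (nat_lit 5) (nat_lit 25) (nat_lit 5) (nat_lit 24) (nat_lit 4) (nat_lit 437) (nat_lit 402) (nat_lit 181))))) (XT.nd (nat_lit 156) (nat_lit 152) (nat_lit 0) (XT.nd (nat_lit 78) (nat_lit 76) (nat_lit 0) (XT.lf (nat_lit 0) (nat_lit 1333868882633)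 (nat_lit 76) (nat_lit 344192210671) (nat_lit 152) (nat_lit 936961256367) (nat_lit 22) (nat_lit 5) (nat_lit 23) (nat_lit 5) (nat_lit 24) (nat_lit 4) (nat_lit 438) (nat_lit 402) (nat_lit 180)) (XT.lf (nat_lit 0) (nat_lit 73595668139) (nat_lit 76) (nat_lit 2343038888744) (nat_lit 76) (nat_lit 346281298454) (nat_lit 21) (nat_lit 4) (nat_lit 22) (nat_lit 5) (nat_lit 22) (nat_lit 4) (nat_lit 439) (nat_lit 402) (nat_lit 179))) (XT.nd (nat_lit 78) (nat_lit 76) (nat_lit 0) (XT.lf (nat_lit 0) (nat_lit 321942292451) (nat_lit 152) (nat_lit 1327117627196) (nat_lit 76) (nat_lit 1269429468495) (nat_lit 20) (nat_lit 5) (nat_lit 22) (nat_lit 5) (nat_lit 21) (nat_lit 4) (nat_lit 440) (nat_lit 402) (nat_lit 178)) (XT.nd (nat_lit 78) (nat_lit 0) (nat_lit 0) (XT.lf (nat_lit 0) (nat_lit 142179189181) (nat_lit 76) (nat_lit 886155805769) (nat_lit 152) (nat_lit 2057180710367) (nat_lit 19) (nat_lit 5) (nat_lit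 20) (nat_lit 5) (nat_lit 21) (nat_lit 4) (nat_lit 441) (nat_lit 402) (nat_lit 177)) (XT.lf (nat_lit 0) (nat_lit 1804494098600) (nat_lit 76) (nat_lit 23030758793) (nat_lit 152) (nat_lit 1435476410975) (nat_lit 19) (nat_lit 5) (nat_lit 20) (nat_lit 5) (nat_lit 21) (nat_lit 4) (nat_lit 442) (nat_lit 402) (nat_lit 176)))))) (XT.nd (nat_lit 390) (nat_lit 304) (nat_lit 0) (XT.nd (nat_lit 156) (nat_lit 76) (nat_lit 0) (XT.nd (nat_lit 78) (nat_lit 76) (nat_lit 0) (XT.lf (nat_lit 0) (nat_lit 129733363161) (nat_lit 76) (nat_lit 2585901574441) (nat_lit 76) (nat_lit 737051936559) (nat_lit 18) (nat_lit 4) (nat_lit 19) (nat_lit 5) (nat_lit 19) (nat_lit 4) (nat_lit 443) (nat_lit 402) (nat_lit 175)) (XT.lf (nat_lit 0) (nat_lit 57895921321) (nat_lit 152) (nat_lit 1728426125075) (nat_lit 76) (nat_lit 1867871126525) (nat_lit 17) (nat_lit 5) (nat_lit 19) (nat_lit 5) (nat_lit 18) (nat_lit 4) (nat_lit 444)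 (nat_lit 402) (nat_lit 174))) (XT.nd (nat_lit 78) (nat_lit 76) (nat_lit 0) (XT.lf (nat_lit 0) (nat_lit 876619655530) (nat_lit 152) (nat_lit 25480761202) (nat_lit 76) (nat_lit 2968188022641) (nat_lit 17) (nat_lit 5) (nat_lit 19) (nat_lit 5) (nat_lit 18) (nat_lit 4) (nat_lit 445) (nat_lit 402) (nat_lit 173)) (XT.nd (nat_lit 78) (nat_lit 0) (nat_lit 0) (XT.lf (nat_lit 0) (nat_lit 1809221640764) (nat_lit 152) (nat_lit 2193255439413) (nat_lit 0) (nat_lit 97323818780) (nat_lit 16) (nat_lit 5) (nat_lit 18) (nat_lit 4) (nat_lit 16) (nat_lit 4) (nat_lit 446) (nat_lit 402) (nat_lit 172)) (XT.lf (nat_lit 0) (nat_lit 2840577746224) (nat_lit 152) (nat_lit 376485010538) (nat_lit 0) (nat_lit 1128679921635) (nat_lit 16) (nat_lit 5) (nat_lit 18) (nat_lit 4) (nat_lit 16) (nat_lit 4) (nat_lit 447) (nat_lit 402) (nat_lit 171))))) (XT.nd (nat_lit 234) (nat_lit 76) (nat_lit 0) (XT.nd (nat_lit 78) (nat_lit 152)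 (nat_lit 0) (XT.lf (nat_lit 0) (nat_lit 1669123357122) (nat_lit 76) (nat_lit 2325461436880) (nat_lit 76) (nat_lit 613563609880) (nat_lit 15) (nat_lit 4) (nat_lit 16) (nat_lit 5) (nat_lit 16) (nat_lit 4) (nat_lit 448) (nat_lit 402) (nat_lit 170)) (XT.nd (nat_lit 78) (nat_lit 76) (nat_lit 0) (XT.lf (nat_lit 0) (nat_lit 342450259998) (nat_lit 152) (nat_lit 999601288434) (nat_lit 76) (nat_lit 3547977967669) (nat_lit 14) (nat_lit 5) (nat_lit 16) (nat_lit 5) (nat_lit 15) (nat_lit 4) (nat_lit 449) (nat_lit 402) (nat_lit 169)) (XT.lf (nat_lit 0) (nat_lit 1135859963645) (nat_lit 76) (nat_lit 233254360847) (nat_lit 152) (nat_lit 3821886458903) (nat_lit 13) (nat_lit 5) (nat_lit 14) (nat_lit 5) (nat_lit 15) (nat_lit 4) (nat_lit 450) (nat_lit 402) (nat_lit 168)))) (XT.nd (nat_lit 78) (nat_lit 76) (nat_lit 0) (XT.lf (nat_lit 0) (nat_lit 2529142428771) (nat_lit 152) (nat_lit 2038757007667) (nat_lit 0)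 (nat_lit 944051842462) (nat_lit 13) (nat_lit 5) (nat_lit 15) (nat_lit 4) (nat_lit 13) (nat_lit 4) (nat_lit 451) (nat_lit 402) (nat_lit 167)) (XT.nd (nat_lit 78) (nat_lit 0) (nat_lit 0) (XT.lf (nat_lit 0) (nat_lit 139876119526) (nat_lit 76) (nat_lit 3651519238183) (nat_lit 76) (nat_lit 2066428650233) (nat_lit 12) (nat_lit 4) (nat_lit 13) (nat_lit 5) (nat_lit 13) (nat_lit 4) (nat_lit 452) (nat_lit 402) (nat_lit 166)) (XT.lf (nat_lit 0) (nat_lit 2608745809516) (nat_lit 76) (nat_lit 2601625938547) (nat_lit 76) (nat_lit 1016535349078) (nat_lit 12) (nat_lit 4) (nat_lit 13) (nat_lit 5) (nat_lit 13) (nat_lit 4) (nat_lit 453) (nat_lit 402) (nat_lit 165))))))))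
noncomputable def xc230 : XT := (XT.nd (nat_lit 50544) (nat_lit 0) (nat_lit 760) (XT.nd (nat_lit 49764) (nat_lit 0) (nat_lit 2508) (XT.nd (nat_lit 49374) (nat_lit 0) (nat_lit 3724) (XT.nd (nat_lit 49140) (nat_lit 0) (nat_lit 4104) (XT.nd (nat_lit 78) (nat_lit 76) (nat_lit 0) (XT.lf (nat_lit 0) (nat_lit 111479120751) (nat_lit 152) (nat_lit 1353214019714) (nat_lit 76) (nat_lit 5160597912696) (nat_lit 11) (nat_lit 5) (nat_lit 13) (nat_lit 5) (nat_lit 12) (nat_lit 4) (nat_lit 454) (nat_lit 402) (nat_lit 164)) (XT.lf (nat_lit 0) (nat_lit 1122686853052) (nat_lit 76) (nat_lit 179129226385) (nat_lit 152) (nat_lit 5749457313489) (nat_lit 10) (nat_lit 5) (nat_lit 11) (nat_lit 5) (nat_lit 12) (nat_lit 4) (nat_lit 455) (nat_lit 402) (nat_lit 163))) (XT.nd (nat_lit 78) (nat_lit 0) (nat_lit 0) (XT.lf (nat_lit 0) (nat_lit 228742157211) (nat_lit 532) (nat_lit 15320383499) (nat_lit 532) (nat_lit 15320383499)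 (nat_lit 64) (nat_lit 3) (nat_lit 71) (nat_lit 3) (nat_lit 71) (nat_lit 5) (nat_lit 403) (nat_lit 403) (nat_lit 214)) (XT.nd (nat_lit 78) (nat_lit 0) (nat_lit 76) (XT.lf (nat_lit 76) (nat_lit 233159423096) (nat_lit 0) (nat_lit 248231981131) (nat_lit 532) (nat_lit 57676460536) (nat_lit 65) (nat_lit 5) (nat_lit 64) (nat_lit 3) (nat_lit 71) (nat_lit 5) (nat_lit 404) (nat_lit 403) (nat_lit 213)) (XT.lf (nat_lit 0) (nat_lit 508331576094) (nat_lit 456) (nat_lit 41403604512) (nat_lit 532) (nat_lit 11169220639) (nat_lit 65) (nat_lit 5) (nat_lit 71) (nat_lit 5) (nat_lit 72) (nat_lit 5) (nat_lit 405) (nat_lit 403) (nat_lit 212))))) (XT.nd (nat_lit 156) (nat_lit 456) (nat_lit 0) (XT.nd (nat_lit 78) (nat_lit 0) (nat_lit 0) (XT.lf (nat_lit 76) (nat_lit 250336886686) (nat_lit 0) (nat_lit 299558245956) (nat_lit 532) (nat_lit 33595274349) (nat_lit 66) (nat_lit 5) (nat_lit 65) (nat_lit 5) (nat_lit 72)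 (nat_lit 5) (nat_lit 406) (nat_lit 403) (nat_lit 211)) (XT.lf (nat_lit 76) (nat_lit 567771263266) (nat_lit 0) (nat_lit 28144538471) (nat_lit 532) (nat_lit 11876929236) (nat_lit 66) (nat_lit 5) (nat_lit 65) (nat_lit 5) (nat_lit 72) (nat_lit 5) (nat_lit 407) (nat_lit 403) (nat_lit 210))) (XT.nd (nat_lit 78) (nat_lit 0) (nat_lit 0) (XT.lf (nat_lit 0) (nat_lit 24555878024) (nat_lit 532) (nat_lit 349187924597) (nat_lit 608) (nat_lit 259188663100) (nat_lit 59) (nat_lit 5) (nat_lit 66) (nat_lit 5) (nat_lit 67) (nat_lit 5) (nat_lit 408) (nat_lit 403) (nat_lit 209)) (XT.nd (nat_lit 78) (nat_lit 0) (nat_lit 76) (XT.lf (nat_lit 0) (nat_lit 65115336576) (nat_lit 532) (nat_lit 25375907353) (nat_lit 608) (nat_lit 569419160851) (nat_lit 59) (nat_lit 5) (nat_lit 66) (nat_lit 5) (nat_lit 67) (nat_lit 5) (nat_lit 409) (nat_lit 403) (nat_lit 208)) (XT.lf (nat_lit 0) (nat_lit 122524871242) (nat_lit 532) (nat_lit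 352363573966) (nat_lit 76) (nat_lit 213069708215) (nat_lit 60) (nat_lit 5) (nat_lit 67) (nat_lit 5) (nat_lit 61) (nat_lit 5) (nat_lit 410) (nat_lit 403) (nat_lit 207)))))) (XT.nd (nat_lit 390) (nat_lit 456) (nat_lit 0) (XT.nd (nat_lit 156) (nat_lit 456) (nat_lit 0) (XT.nd (nat_lit 78) (nat_lit 0) (nat_lit 0) (XT.lf (nat_lit 0) (nat_lit 6656148958) (nat_lit 380) (nat_lit 181093350353) (nat_lit 456) (nat_lit 530242436208) (nat_lit 55) (nat_lit 5) (nat_lit 60) (nat_lit 5) (nat_lit 61) (nat_lit 5) (nat_lit 411) (nat_lit 403) (nat_lit 206)) (XT.lf (nat_lit 0) (nat_lit 271352309635) (nat_lit 456) (nat_lit 338746999831) (nat_lit 76) (nat_lit 139276293767) (nat_lit 55) (nat_lit 5) (nat_lit 61) (nat_lit 5) (nat_lit 56) (nat_lit 5) (nat_lit 412) (nat_lit 403) (nat_lit 205))) (XT.nd (nat_lit 78) (nat_lit 228) (nat_lit 0) (XT.lf (nat_lit 0) (nat_lit 62049099360) (nat_lit 228) (nat_lit 305790237572)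 (nat_lit 304) (nat_lit 414934948071) (nat_lit 52) (nat_lit 5) (nat_lit 55) (nat_lit 5) (nat_lit 56) (nat_lit 5) (nat_lit 413) (nat_lit 403) (nat_lit 204)) (XT.nd (nat_lit 78) (nat_lit 228) (nat_lit 0) (XT.lf (nat_lit 0) (nat_lit 482097695899) (nat_lit 304) (nat_lit 304720631449) (nat_lit 76) (nat_lit 31222344418) (nat_lit 52) (nat_lit 5) (nat_lit 56) (nat_lit 5) (nat_lit 53) (nat_lit 5) (nat_lit 414) (nat_lit 403) (nat_lit 203)) (XT.lf (nat_lit 0) (nat_lit 143815924630) (nat_lit 228) (nat_lit 473082167001) (nat_lit 304) (nat_lit 238318168405) (nat_lit 49) (nat_lit 5) (nat_lit 52) (nat_lit 5) (nat_lit 53) (nat_lit 5) (nat_lit 415) (nat_lit 403) (nat_lit 202))))) (XT.nd (nat_lit 156) (nat_lit 228) (nat_lit 0) (XT.nd (nat_lit 78) (nat_lit 228) (nat_lit 0) (XT.lf (nat_lit 0) (nat_lit 645565123980) (nat_lit 228) (nat_lit 125248985709) (nat_lit 304) (nat_lit 123885258434) (nat_lit 49) (nat_lit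 5) (nat_lit 52) (nat_lit 5) (nat_lit 53) (nat_lit 5) (nat_lit 416) (nat_lit 403) (nat_lit 201)) (XT.lf (nat_lit 0) (nat_lit 12235998053) (nat_lit 228) (nat_lit 679730626268) (nat_lit 76) (nat_lit 244373567685) (nat_lit 46) (nat_lit 5) (nat_lit 49) (nat_lit 5) (nat_lit 47) (nat_lit 5) (nat_lit 417) (nat_lit 403) (nat_lit 200))) (XT.nd (nat_lit 78) (nat_lit 228) (nat_lit 0) (XT.lf (nat_lit 0) (nat_lit 162795844182) (nat_lit 228) (nat_lit 170433936451) (nat_lit 76) (nat_lit 647005724392) (nat_lit 46) (nat_lit 5) (nat_lit 49) (nat_lit 5) (nat_lit 47) (nat_lit 5) (nat_lit 418) (nat_lit 403) (nat_lit 199)) (XT.nd (nat_lit 78) (nat_lit 0) (nat_lit 0) (XT.lf (nat_lit 0) (nat_lit 336564032619) (nat_lit 304) (nat_lit 628831014035) (nat_lit 76) (nat_lit 61354312068) (nat_lit 43) (nat_lit 5) (nat_lit 47) (nat_lit 5) (nat_lit 44) (nat_lit 5) (nat_lit 419) (nat_lit 403) (nat_lit 198)) (XT.lf (nat_lit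 0) (nat_lit 537669989750) (nat_lit 304) (nat_lit 63956356099) (nat_lit 76) (nat_lit 474283069780) (nat_lit 43) (nat_lit 5) (nat_lit 47) (nat_lit 5) (nat_lit 44) (nat_lit 5) (nat_lit 420) (nat_lit 403) (nat_lit 197))))))) (XT.nd (nat_lit 780) (nat_lit 760) (nat_lit 0) (XT.nd (nat_lit 390) (nat_lit 456) (nat_lit 0) (XT.nd (nat_lit 156) (nat_lit 228) (nat_lit 0) (XT.nd (nat_lit 78) (nat_lit 152) (nat_lit 0) (XT.lf (nat_lit 0) (nat_lit 574865355842) (nat_lit 152) (nat_lit 193824584642) (nat_lit 228) (nat_lit 359206295250) (nat_lit 41) (nat_lit 5) (nat_lit 43) (nat_lit 5) (nat_lit 44) (nat_lit 5) (nat_lit 421) (nat_lit 403) (nat_lit 196)) (XT.lf (nat_lit 0) (nat_lit 82688148305) (nat_lit 152) (nat_lit 945216850596) (nat_lit 228) (nat_lit 155359921620) (nat_lit 39) (nat_lit 5) (nat_lit 41) (nat_lit 5) (nat_lit 42) (nat_lit 5) (nat_lit 422) (nat_lit 403) (nat_lit 195))) (XT.nd (nat_lit 78) (nat_lit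 152) (nat_lit 0) (XT.lf (nat_lit 0) (nat_lit 82100885604) (nat_lit 228) (nat_lit 448122845125) (nat_lit 76) (nat_lit 711070866065) (nat_lit 38) (nat_lit 5) (nat_lit 41) (nat_lit 5) (nat_lit 39) (nat_lit 5) (nat_lit 423) (nat_lit 403) (nat_lit 194)) (XT.nd (nat_lit 78) (nat_lit 0) (nat_lit 0) (XT.lf (nat_lit 0) (nat_lit 265787846587) (nat_lit 152) (nat_lit 70769436232) (nat_lit 228) (nat_lit 966575162824) (nat_lit 36) (nat_lit 5) (nat_lit 38) (nat_lit 5) (nat_lit 39) (nat_lit 5) (nat_lit 424) (nat_lit 403) (nat_lit 193)) (XT.lf (nat_lit 0) (nat_lit 634172774324) (nat_lit 228) (nat_lit 317190716497) (nat_lit 76) (nat_lit 416729624983) (nat_lit 36) (nat_lit 5) (nat_lit 39) (nat_lit 5) (nat_lit 37) (nat_lit 5) (nat_lit 425) (nat_lit 403) (nat_lit 192))))) (XT.nd (nat_lit 156) (nat_lit 304) (nat_lit 0) (XT.nd (nat_lit 78) (nat_lit 0) (nat_lit 0) (XT.lf (nat_lit 0) (nat_lit 482893591908) (nat_lit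 152) (nat_lit 486155676063) (nat_lit 228) (nat_lit 468125230581) (nat_lit 34) (nat_lit 5) (nat_lit 36) (nat_lit 5) (nat_lit 37) (nat_lit 5) (nat_lit 426) (nat_lit 403) (nat_lit 191)) (XT.lf (nat_lit 0) (nat_lit 1340004956087) (nat_lit 228) (nat_lit 146681561640) (nat_lit 76) (nat_lit 24352748200) (nat_lit 34) (nat_lit 5) (nat_lit 37) (nat_lit 5) (nat_lit 35) (nat_lit 4) (nat_lit 427) (nat_lit 403) (nat_lit 190))) (XT.nd (nat_lit 78) (nat_lit 152) (nat_lit 0) (XT.lf (nat_lit 0) (nat_lit 173801324779) (nat_lit 152) (nat_lit 842320948637) (nat_lit 76) (nat_lit 571884900819) (nat_lit 32) (nat_lit 5) (nat_lit 34) (nat_lit 5) (nat_lit 33) (nat_lit 5) (nat_lit 428) (nat_lit 403) (nat_lit 189)) (XT.nd (nat_lit 78) (nat_lit 0) (nat_lit 0) (XT.lf (nat_lit 0) (nat_lit 44661177136) (nat_lit 152) (nat_lit 497511137654) (nat_lit 228) (nat_lit 1128189700467) (nat_lit 30) (nat_lit 5) (nat_lit 32) (nat_lit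 5) (nat_lit 33) (nat_lit 5) (nat_lit 429) (nat_lit 403) (nat_lit 188)) (XT.lf (nat_lit 0) (nat_lit 965146985770) (nat_lit 228) (nat_lit 709060858731) (nat_lit 76) (nat_lit 83086678922) (nat_lit 30) (nat_lit 5) (nat_lit 33) (nat_lit 5) (nat_lit 31) (nat_lit 4) (nat_lit 430) (nat_lit 403) (nat_lit 187)))))) (XT.nd (nat_lit 390) (nat_lit 380) (nat_lit 0) (XT.nd (nat_lit 156) (nat_lit 228) (nat_lit 0) (XT.nd (nat_lit 78) (nat_lit 76) (nat_lit 0) (XT.lf (nat_lit 0) (nat_lit 282099712362) (nat_lit 76) (nat_lit 1159566784577) (nat_lit 152) (nat_lit 407938585983) (nat_lit 29) (nat_lit 5) (nat_lit 30) (nat_lit 5) (nat_lit 31) (nat_lit 4) (nat_lit 431) (nat_lit 403) (nat_lit 186)) (XT.lf (nat_lit 0) (nat_lit 26547092063) (nat_lit 152) (nat_lit 555543568314) (nat_lit 76) (nat_lit 1365605102539) (nat_lit 28) (nat_lit 5) (nat_lit 30) (nat_lit 5) (nat_lit 29) (nat_lit 5) (nat_lit 432) (nat_lit 403)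 (nat_lit 185))) (XT.nd (nat_lit 78) (nat_lit 76) (nat_lit 0) (XT.lf (nat_lit 0) (nat_lit 488710221771) (nat_lit 228) (nat_lit 1498822204379) (nat_lit 76) (nat_lit 64056976417) (nat_lit 26) (nat_lit 5) (nat_lit 29) (nat_lit 5) (nat_lit 27) (nat_lit 4) (nat_lit 433) (nat_lit 403) (nat_lit 184)) (XT.nd (nat_lit 78) (nat_lit 76) (nat_lit 0) (XT.lf (nat_lit 0) (nat_lit 1018549714076) (nat_lit 228) (nat_lit 396756069306) (nat_lit 76) (nat_lit 746032485032) (nat_lit 26) (nat_lit 5) (nat_lit 29) (nat_lit 5) (nat_lit 27) (nat_lit 4) (nat_lit 434) (nat_lit 403) (nat_lit 183)) (XT.lf (nat_lit 0) (nat_lit 835258353937) (nat_lit 76) (nat_lit 775605990670) (nat_lit 152) (nat_lit 667395660617) (nat_lit 25) (nat_lit 5) (nat_lit 26) (nat_lit 5) (nat_lit 27) (nat_lit 4) (nat_lit 435) (nat_lit 403) (nat_lit 182))))) (XT.nd (nat_lit 234) (nat_lit 228) (nat_lit 0) (XT.nd (nat_lit 78) (nat_lit 152) (nat_lit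 0) (XT.lf (nat_lit 0) (nat_lit 2188397792154) (nat_lit 76) (nat_lit 73014362966) (nat_lit 152) (nat_lit 142255485097) (nat_lit 25) (nat_lit 5) (nat_lit 26) (nat_lit 5) (nat_lit 27) (nat_lit 4) (nat_lit 436) (nat_lit 403) (nat_lit 181)) (XT.nd (nat_lit 78) (nat_lit 0) (nat_lit 0) (XT.lf (nat_lit 0) (nat_lit 448982866059) (nat_lit 152) (nat_lit 1395133691910) (nat_lit 76) (nat_lit 690546469457) (nat_lit 23) (nat_lit 5) (nat_lit 25) (nat_lit 5) (nat_lit 24) (nat_lit 4) (nat_lit 437) (nat_lit 403) (nat_lit 180)) (XT.lf (nat_lit 0) (nat_lit 1087770005492) (nat_lit 152) (nat_lit 66456447962) (nat_lit 76) (nat_lit 1520981179440) (nat_lit 23) (nat_lit 5) (nat_lit 25) (nat_lit 5) (nat_lit 24) (nat_lit 4) (nat_lit 438) (nat_lit 403) (nat_lit 179)))) (XT.nd (nat_lit 78) (nat_lit 152) (nat_lit 0) (XT.lf (nat_lit 0) (nat_lit 1440578541305) (nat_lit 76) (nat_lit 371727519422) (nat_lit 152) (nat_lit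 1011918070502) (nat_lit 22) (nat_lit 5) (nat_lit 23) (nat_lit 5) (nat_lit 24) (nat_lit 4) (nat_lit 439) (nat_lit 403) (nat_lit 178)) (XT.nd (nat_lit 78) (nat_lit 76) (nat_lit 0) (XT.lf (nat_lit 0) (nat_lit 79483470559) (nat_lit 76) (nat_lit 2530481930009) (nat_lit 76) (nat_lit 373983716847) (nat_lit 21) (nat_lit 4) (nat_lit 22) (nat_lit 5) (nat_lit 22) (nat_lit 4) (nat_lit 440) (nat_lit 403) (nat_lit 177)) (XT.lf (nat_lit 0) (nat_lit 347697751039) (nat_lit 152) (nat_lit 1433286895462) (nat_lit 76) (nat_lit 1370983886662) (nat_lit 20) (nat_lit 5) (nat_lit 22) (nat_lit 5) (nat_lit 21) (nat_lit 4) (nat_lit 441) (nat_lit 403) (nat_lit 176))))))))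
noncomputable def xc231 : XT := (XT.nd (nat_lit 50700) (nat_lit 0) (nat_lit 1444) (XT.nd (nat_lit 780) (nat_lit 152) (nat_lit 0) (XT.nd (nat_lit 390) (nat_lit 304) (nat_lit 0) (XT.nd (nat_lit 156) (nat_lit 152) (nat_lit 0) (XT.nd (nat_lit 78) (nat_lit 0) (nat_lit 0) (XT.lf (nat_lit 0) (nat_lit 153553662633) (nat_lit 76) (nat_lit 957048204862) (nat_lit 152) (nat_lit 2221755088398) (nat_lit 19) (nat_lit 5) (nat_lit 20) (nat_lit 5) (nat_lit 21) (nat_lit 4) (nat_lit 442) (nat_lit 403) (nat_lit 175)) (XT.lf (nat_lit 0) (nat_lit 1948853754559) (nat_lit 76) (nat_lit 24873158971) (nat_lit 152) (nat_lit 1550314450891) (nat_lit 19) (nat_lit 5) (nat_lit 20) (nat_lit 5) (nat_lit 21) (nat_lit 4) (nat_lit 443) (nat_lit 403) (nat_lit 174))) (XT.nd (nat_lit 78) (nat_lit 76) (nat_lit 0) (XT.lf (nat_lit 0) (nat_lit 140112160904) (nat_lit 76) (nat_lit 2792773638691) (nat_lit 76) (nat_lit 796016019129) (nat_lit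 18) (nat_lit 4) (nat_lit 19) (nat_lit 5) (nat_lit 19) (nat_lit 4) (nat_lit 444) (nat_lit 403) (nat_lit 173)) (XT.nd (nat_lit 78) (nat_lit 0) (nat_lit 0) (XT.lf (nat_lit 0) (nat_lit 62527658671) (nat_lit 152) (nat_lit 1866700092562) (nat_lit 76) (nat_lit 2017300870420) (nat_lit 17) (nat_lit 5) (nat_lit 19) (nat_lit 5) (nat_lit 18) (nat_lit 4) (nat_lit 445) (nat_lit 403) (nat_lit 172)) (XT.lf (nat_lit 0) (nat_lit 946749286902) (nat_lit 152) (nat_lit 27519108654) (nat_lit 76) (nat_lit 3205643114242) (nat_lit 17) (nat_lit 5) (nat_lit 19) (nat_lit 5) (nat_lit 18) (nat_lit 4) (nat_lit 446) (nat_lit 403) (nat_lit 171))))) (XT.nd (nat_lit 156) (nat_lit 228) (nat_lit 0) (XT.nd (nat_lit 78) (nat_lit 0) (nat_lit 0) (XT.lf (nat_lit 0) (nat_lit 1953959430532) (nat_lit 152) (nat_lit 2368715760690) (nat_lit 0) (nat_lit 105109774962) (nat_lit 16) (nat_lit 5) (nat_lit 18) (nat_lit 4) (nat_lit 16) (nat_lit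 4) (nat_lit 447) (nat_lit 403) (nat_lit 170)) (XT.lf (nat_lit 0) (nat_lit 3067824020095) (nat_lit 152) (nat_lit 406603705941) (nat_lit 0) (nat_lit 1218974362291) (nat_lit 16) (nat_lit 5) (nat_lit 18) (nat_lit 4) (nat_lit 16) (nat_lit 4) (nat_lit 448) (nat_lit 403) (nat_lit 169))) (XT.nd (nat_lit 78) (nat_lit 152) (nat_lit 0) (XT.lf (nat_lit 0) (nat_lit 1802653328463) (nat_lit 76) (nat_lit 2511498301691) (nat_lit 76) (nat_lit 662648641820) (nat_lit 15) (nat_lit 4) (nat_lit 16) (nat_lit 5) (nat_lit 16) (nat_lit 4) (nat_lit 449) (nat_lit 403) (nat_lit 168)) (XT.nd (nat_lit 78) (nat_lit 76) (nat_lit 0) (XT.lf (nat_lit 0) (nat_lit 369846330804) (nat_lit 152) (nat_lit 1079569293711) (nat_lit 76) (nat_lit 3831816248868) (nat_lit 14) (nat_lit 5) (nat_lit 16) (nat_lit 5) (nat_lit 15) (nat_lit 4) (nat_lit 450) (nat_lit 403) (nat_lit 167)) (XT.lf (nat_lit 0) (nat_lit 1226728856058) (nat_lit 76) (nat_lit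 251914662987) (nat_lit 152) (nat_lit 4127637323127) (nat_lit 13) (nat_lit 5) (nat_lit 14) (nat_lit 5) (nat_lit 15) (nat_lit 4) (nat_lit 451) (nat_lit 403) (nat_lit 166)))))) (XT.nd (nat_lit 49452) (nat_lit 0) (nat_lit 3648) (XT.nd (nat_lit 156) (nat_lit 76) (nat_lit 0) (XT.nd (nat_lit 78) (nat_lit 76) (nat_lit 0) (XT.lf (nat_lit 0) (nat_lit 2731473869108) (nat_lit 152) (nat_lit 2201857477455) (nat_lit 0) (nat_lit 1019576030961) (nat_lit 13) (nat_lit 5) (nat_lit 15) (nat_lit 4) (nat_lit 13) (nat_lit 4) (nat_lit 452) (nat_lit 403) (nat_lit 165)) (XT.lf (nat_lit 0) (nat_lit 151066297615) (nat_lit 76) (nat_lit 3943640733466) (nat_lit 76) (nat_lit 2231742893912) (nat_lit 12) (nat_lit 4) (nat_lit 13) (nat_lit 5) (nat_lit 13) (nat_lit 4) (nat_lit 453) (nat_lit 403) (nat_lit 164))) (XT.nd (nat_lit 78) (nat_lit 76) (nat_lit 0) (XT.lf (nat_lit 0) (nat_lit 2817445556246) (nat_lit 76) (nat_lit 2809755973101)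 (nat_lit 76) (nat_lit 1097858132245) (nat_lit 12) (nat_lit 4) (nat_lit 13) (nat_lit 5) (nat_lit 13) (nat_lit 4) (nat_lit 454) (nat_lit 403) (nat_lit 163)) (XT.nd (nat_lit 49140) (nat_lit 0) (nat_lit 4028) (XT.lf (nat_lit 0) (nat_lit 120397489781) (nat_lit 152) (nat_lit 1461471063316) (nat_lit 76) (nat_lit 5573445781162) (nat_lit 11) (nat_lit 5) (nat_lit 13) (nat_lit 5) (nat_lit 12) (nat_lit 4) (nat_lit 455) (nat_lit 403) (nat_lit 162)) (XT.lf (nat_lit 0) (nat_lit 247041751811) (nat_lit 532) (nat_lit 16545894181) (nat_lit 532) (nat_lit 16545894181) (nat_lit 64) (nat_lit 3) (nat_lit 71) (nat_lit 3) (nat_lit 71) (nat_lit 5) (nat_lit 404) (nat_lit 404) (nat_lit 212))))) (XT.nd (nat_lit 234) (nat_lit 380) (nat_lit 0) (XT.nd (nat_lit 78) (nat_lit 0) (nat_lit 76) (XT.lf (nat_lit 76) (nat_lit 251812410863) (nat_lit 0) (nat_lit 268090722482) (nat_lit 532) (nat_lit 62290126868) (nat_lit 65) (nat_lit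 5) (nat_lit 64) (nat_lit 3) (nat_lit 71) (nat_lit 5) (nat_lit 405) (nat_lit 404) (nat_lit 211)) (XT.nd (nat_lit 78) (nat_lit 0) (nat_lit 0) (XT.lf (nat_lit 0) (nat_lit 548998484016) (nat_lit 456) (nat_lit 44715640977) (nat_lit 532) (nat_lit 12062597445) (nat_lit 65) (nat_lit 5) (nat_lit 71) (nat_lit 5) (nat_lit 72) (nat_lit 5) (nat_lit 406) (nat_lit 404) (nat_lit 210)) (XT.lf (nat_lit 76) (nat_lit 270364083141) (nat_lit 0) (nat_lit 323523019569) (nat_lit 532) (nat_lit 36282507751) (nat_lit 66) (nat_lit 5) (nat_lit 65) (nat_lit 5) (nat_lit 72) (nat_lit 5) (nat_lit 407) (nat_lit 404) (nat_lit 209)))) (XT.nd (nat_lit 78) (nat_lit 456) (nat_lit 0) (XT.lf (nat_lit 76) (nat_lit 613193191660) (nat_lit 0) (nat_lit 30396207046) (nat_lit 532) (nat_lit 12826723811) (nat_lit 66) (nat_lit 5) (nat_lit 65) (nat_lit 5) (nat_lit 72) (nat_lit 5) (nat_lit 408) (nat_lit 404) (nat_lit 208)) (XT.nd (nat_lit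 78) (nat_lit 0) (nat_lit 0) (XT.lf (nat_lit 0) (nat_lit 26520668484) (nat_lit 532) (nat_lit 377122691134) (nat_lit 608) (nat_lit 279923677479) (nat_lit 59) (nat_lit 5) (nat_lit 66) (nat_lit 5) (nat_lit 67) (nat_lit 5) (nat_lit 409) (nat_lit 404) (nat_lit 207)) (XT.lf (nat_lit 0) (nat_lit 70324860000) (nat_lit 532) (nat_lit 27405732320) (nat_lit 608) (nat_lit 614972620877) (nat_lit 59) (nat_lit 5) (nat_lit 66) (nat_lit 5) (nat_lit 67) (nat_lit 5) (nat_lit 410) (nat_lit 404) (nat_lit 206))))))) (XT.nd (nat_lit 780) (nat_lit 988) (nat_lit 0) (XT.nd (nat_lit 390) (nat_lit 684) (nat_lit 0) (XT.nd (nat_lit 156) (nat_lit 228) (nat_lit 0) (XT.nd (nat_lit 78) (nat_lit 380) (nat_lit 0) (XT.lf (nat_lit 0) (nat_lit 132327140343) (nat_lit 532) (nat_lit 380552394939) (nat_lit 76) (nat_lit 230115247835) (nat_lit 60) (nat_lit 5) (nat_lit 67) (nat_lit 5) (nat_lit 61) (nat_lit 5) (nat_lit 411) (nat_lit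 404) (nat_lit 205)) (XT.lf (nat_lit 0) (nat_lit 7188899110) (nat_lit 380) (nat_lit 195580825061) (nat_lit 456) (nat_lit 572661544785) (nat_lit 55) (nat_lit 5) (nat_lit 60) (nat_lit 5) (nat_lit 61) (nat_lit 5) (nat_lit 412) (nat_lit 404) (nat_lit 204))) (XT.nd (nat_lit 78) (nat_lit 228) (nat_lit 0) (XT.lf (nat_lit 0) (nat_lit 293060739550) (nat_lit 456) (nat_lit 365846500743) (nat_lit 76) (nat_lit 150418391392) (nat_lit 55) (nat_lit 5) (nat_lit 61) (nat_lit 5) (nat_lit 56) (nat_lit 5) (nat_lit 413) (nat_lit 404) (nat_lit 203)) (XT.nd (nat_lit 78) (nat_lit 0) (nat_lit 0) (XT.lf (nat_lit 0) (nat_lit 67013279824) (nat_lit 228) (nat_lit 330253437121) (nat_lit 304) (nat_lit 448129492034) (nat_lit 52) (nat_lit 5) (nat_lit 55) (nat_lit 5) (nat_lit 56) (nat_lit 5) (nat_lit 414) (nat_lit 404) (nat_lit 202)) (XT.lf (nat_lit 0) (nat_lit 520665727798) (nat_lit 304) (nat_lit 329098031158) (nat_lit 76)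 (nat_lit 33720149087) (nat_lit 52) (nat_lit 5) (nat_lit 56) (nat_lit 5) (nat_lit 53) (nat_lit 5) (nat_lit 415) (nat_lit 404) (nat_lit 201))))) (XT.nd (nat_lit 156) (nat_lit 456) (nat_lit 0) (XT.nd (nat_lit 78) (nat_lit 0) (nat_lit 0) (XT.lf (nat_lit 0) (nat_lit 155321443058) (nat_lit 228) (nat_lit 510928701993) (nat_lit 304) (nat_lit 257383399146) (nat_lit 49) (nat_lit 5) (nat_lit 52) (nat_lit 5) (nat_lit 53) (nat_lit 5) (nat_lit 416) (nat_lit 404) (nat_lit 200)) (XT.lf (nat_lit 0) (nat_lit 697210560248) (nat_lit 228) (nat_lit 135268869039) (nat_lit 304) (nat_lit 133795872876) (nat_lit 49) (nat_lit 5) (nat_lit 52) (nat_lit 5) (nat_lit 53) (nat_lit 5) (nat_lit 417) (nat_lit 404) (nat_lit 199))) (XT.nd (nat_lit 78) (nat_lit 228) (nat_lit 0) (XT.lf (nat_lit 0) (nat_lit 13215065907) (nat_lit 228) (nat_lit 734108831541) (nat_lit 76) (nat_lit 263923494756) (nat_lit 46) (nat_lit 5) (nat_lit 49)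 (nat_lit 5) (nat_lit 47) (nat_lit 5) (nat_lit 418) (nat_lit 404) (nat_lit 198)) (XT.nd (nat_lit 78) (nat_lit 228) (nat_lit 0) (XT.lf (nat_lit 0) (nat_lit 175819685799) (nat_lit 228) (nat_lit 184068424674) (nat_lit 76) (nat_lit 698766220914) (nat_lit 46) (nat_lit 5) (nat_lit 49) (nat_lit 5) (nat_lit 47) (nat_lit 5) (nat_lit 419) (nat_lit 404) (nat_lit 197)) (XT.lf (nat_lit 0) (nat_lit 363489323040) (nat_lit 304) (nat_lit 679137262088) (nat_lit 76) (nat_lit 66262708761) (nat_lit 43) (nat_lit 5) (nat_lit 47) (nat_lit 5) (nat_lit 44) (nat_lit 5) (nat_lit 420) (nat_lit 404) (nat_lit 196)))))) (XT.nd (nat_lit 390) (nat_lit 456) (nat_lit 0) (XT.nd (nat_lit 156) (nat_lit 380) (nat_lit 0) (XT.nd (nat_lit 78) (nat_lit 152) (nat_lit 0) (XT.lf (nat_lit 0) (nat_lit 580683744311) (nat_lit 304) (nat_lit 69072648782) (nat_lit 76) (nat_lit 512225763259) (nat_lit 43) (nat_lit 5) (nat_lit 47) (nat_lit 5)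 (nat_lit 44) (nat_lit 5) (nat_lit 421) (nat_lit 404) (nat_lit 195)) (XT.lf (nat_lit 0) (nat_lit 620854794651) (nat_lit 152) (nat_lit 209330490001) (nat_lit 228) (nat_lit 387942637935) (nat_lit 41) (nat_lit 5) (nat_lit 43) (nat_lit 5) (nat_lit 44) (nat_lit 5) (nat_lit 422) (nat_lit 404) (nat_lit 194))) (XT.nd (nat_lit 78) (nat_lit 228) (nat_lit 0) (XT.lf (nat_lit 0) (nat_lit 89303415447) (nat_lit 152) (nat_lit 1020834127809) (nat_lit 228) (nat_lit 167788559268) (nat_lit 39) (nat_lit 5) (nat_lit 41) (nat_lit 5) (nat_lit 42) (nat_lit 5) (nat_lit 423) (nat_lit 404) (nat_lit 193)) (XT.nd (nat_lit 78) (nat_lit 152) (nat_lit 0) (XT.lf (nat_lit 0) (nat_lit 88669093743) (nat_lit 228) (nat_lit 483972466103) (nat_lit 76) (nat_lit 767956593637) (nat_lit 38) (nat_lit 5) (nat_lit 41) (nat_lit 5) (nat_lit 39) (nat_lit 5) (nat_lit 424) (nat_lit 404) (nat_lit 192)) (XT.lf (nat_lit 0) (nat_lit 287051075715)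 (nat_lit 152) (nat_lit 76430921695) (nat_lit 228) (nat_lit 1043901033262) (nat_lit 36) (nat_lit 5) (nat_lit 38) (nat_lit 5) (nat_lit 39) (nat_lit 5) (nat_lit 425) (nat_lit 404) (nat_lit 191))))) (XT.nd (nat_lit 234) (nat_lit 304) (nat_lit 0) (XT.nd (nat_lit 78) (nat_lit 152) (nat_lit 0) (XT.lf (nat_lit 0) (nat_lit 684906720006) (nat_lit 228) (nat_lit 342565779043) (nat_lit 76) (nat_lit 450068056058) (nat_lit 36) (nat_lit 5) (nat_lit 39) (nat_lit 5) (nat_lit 37) (nat_lit 5) (nat_lit 426) (nat_lit 404) (nat_lit 190)) (XT.nd (nat_lit 78) (nat_lit 0) (nat_lit 0) (XT.lf (nat_lit 0) (nat_lit 521525269103) (nat_lit 152) (nat_lit 525048059442) (nat_lit 228) (nat_lit 505575120304) (nat_lit 34) (nat_lit 5) (nat_lit 36) (nat_lit 5) (nat_lit 37) (nat_lit 5) (nat_lit 427) (nat_lit 404) (nat_lit 189)) (XT.lf (nat_lit 0) (nat_lit 1447205464459) (nat_lit 228) (nat_lit 158415903489) (nat_lit 76) (nat_lit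 26301030250) (nat_lit 34) (nat_lit 5) (nat_lit 37) (nat_lit 5) (nat_lit 35) (nat_lit 4) (nat_lit 428) (nat_lit 404) (nat_lit 188)))) (XT.nd (nat_lit 78) (nat_lit 152) (nat_lit 0) (XT.lf (nat_lit 0) (nat_lit 187705541500) (nat_lit 152) (nat_lit 909706440204) (nat_lit 76) (nat_lit 617635757566) (nat_lit 32) (nat_lit 5) (nat_lit 34) (nat_lit 5) (nat_lit 33) (nat_lit 5) (nat_lit 429) (nat_lit 404) (nat_lit 187)) (XT.nd (nat_lit 78) (nat_lit 0) (nat_lit 0) (XT.lf (nat_lit 0) (nat_lit 48234250964) (nat_lit 152) (nat_lit 537311955865) (nat_lit 228) (nat_lit 1218444761058) (nat_lit 30) (nat_lit 5) (nat_lit 32) (nat_lit 5) (nat_lit 33) (nat_lit 5) (nat_lit 430) (nat_lit 404) (nat_lit 186)) (XT.lf (nat_lit 0) (nat_lit 1042358845194) (nat_lit 228) (nat_lit 765785554747) (nat_lit 76) (nat_lit 89733677272) (nat_lit 30) (nat_lit 5) (nat_lit 33) (nat_lit 5) (nat_lit 31) (nat_lit 4) (nat_lit 431) (nat_lit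 404) (nat_lit 185))))))))
noncomputable def xc232 : XT := (XT.nd (nat_lit 1560) (nat_lit 152) (nat_lit 0) (XT.nd (nat_lit 780) (nat_lit 532) (nat_lit 0) (XT.nd (nat_lit 390) (nat_lit 304) (nat_lit 0) (XT.nd (nat_lit 156) (nat_lit 228) (nat_lit 0) (XT.nd (nat_lit 78) (nat_lit 76) (nat_lit 0) (XT.lf (nat_lit 0) (nat_lit 304667857662) (nat_lit 76) (nat_lit 1252332056193) (nat_lit 152) (nat_lit 440573567892) (nat_lit 29) (nat_lit 5) (nat_lit 30) (nat_lit 5) (nat_lit 31) (nat_lit 4) (nat_lit 432) (nat_lit 404) (nat_lit 184)) (XT.lf (nat_lit 0) (nat_lit 28670951760) (nat_lit 152) (nat_lit 599986893044) (nat_lit 76) (nat_lit 1474853571729) (nat_lit 28) (nat_lit 5) (nat_lit 30) (nat_lit 5) (nat_lit 29) (nat_lit 5) (nat_lit 433) (nat_lit 404) (nat_lit 183))) (XT.nd (nat_lit 78) (nat_lit 76) (nat_lit 0) (XT.lf (nat_lit 0) (nat_lit 527807130395) (nat_lit 228) (nat_lit 1618727818515) (nat_lit 76)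 (nat_lit 69181598565) (nat_lit 26) (nat_lit 5) (nat_lit 29) (nat_lit 5) (nat_lit 27) (nat_lit 4) (nat_lit 434) (nat_lit 404) (nat_lit 182)) (XT.nd (nat_lit 78) (nat_lit 76) (nat_lit 0) (XT.lf (nat_lit 0) (nat_lit 1100033775352) (nat_lit 228) (nat_lit 428496404652) (nat_lit 76) (nat_lit 805715143126) (nat_lit 26) (nat_lit 5) (nat_lit 29) (nat_lit 5) (nat_lit 27) (nat_lit 4) (nat_lit 435) (nat_lit 404) (nat_lit 181)) (XT.lf (nat_lit 0) (nat_lit 902079168648) (nat_lit 76) (nat_lit 837654404965) (nat_lit 152) (nat_lit 720787225490) (nat_lit 25) (nat_lit 5) (nat_lit 26) (nat_lit 5) (nat_lit 27) (nat_lit 4) (nat_lit 436) (nat_lit 404) (nat_lit 180))))) (XT.nd (nat_lit 156) (nat_lit 152) (nat_lit 0) (XT.nd (nat_lit 78) (nat_lit 152) (nat_lit 0) (XT.lf (nat_lit 0) (nat_lit 2363469751079) (nat_lit 76) (nat_lit 78855451856) (nat_lit 152) (nat_lit 153635842445) (nat_lit 25) (nat_lit 5) (nat_lit 26)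 (nat_lit 5) (nat_lit 27) (nat_lit 4) (nat_lit 437) (nat_lit 404) (nat_lit 179)) (XT.lf (nat_lit 0) (nat_lit 484901571741) (nat_lit 152) (nat_lit 1506744246608) (nat_lit 76) (nat_lit 745790245140) (nat_lit 23) (nat_lit 5) (nat_lit 25) (nat_lit 5) (nat_lit 24) (nat_lit 4) (nat_lit 438) (nat_lit 404) (nat_lit 178))) (XT.nd (nat_lit 78) (nat_lit 152) (nat_lit 0) (XT.lf (nat_lit 0) (nat_lit 1174791676670) (nat_lit 152) (nat_lit 71772833564) (nat_lit 76) (nat_lit 1642659727616) (nat_lit 23) (nat_lit 5) (nat_lit 25) (nat_lit 5) (nat_lit 24) (nat_lit 4) (nat_lit 439) (nat_lit 404) (nat_lit 177)) (XT.nd (nat_lit 78) (nat_lit 76) (nat_lit 0) (XT.lf (nat_lit 0) (nat_lit 1555824951547) (nat_lit 76) (nat_lit 401465662589) (nat_lit 152) (nat_lit 1092871442090) (nat_lit 22) (nat_lit 5) (nat_lit 23) (nat_lit 5) (nat_lit 24) (nat_lit 4) (nat_lit 440) (nat_lit 404) (nat_lit 176)) (XT.lf (nat_lit 0) (nat_lit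 85842275922) (nat_lit 76) (nat_lit 2732920424538) (nat_lit 76) (nat_lit 403902340907) (nat_lit 21) (nat_lit 4) (nat_lit 22) (nat_lit 5) (nat_lit 22) (nat_lit 4) (nat_lit 441) (nat_lit 404) (nat_lit 175)))))) (XT.nd (nat_lit 390) (nat_lit 228) (nat_lit 0) (XT.nd (nat_lit 156) (nat_lit 152) (nat_lit 0) (XT.nd (nat_lit 78) (nat_lit 76) (nat_lit 0) (XT.lf (nat_lit 0) (nat_lit 375513635587) (nat_lit 152) (nat_lit 1547949725435) (nat_lit 76) (nat_lit 1480662649625) (nat_lit 20) (nat_lit 5) (nat_lit 22) (nat_lit 5) (nat_lit 21) (nat_lit 4) (nat_lit 442) (nat_lit 404) (nat_lit 174)) (XT.lf (nat_lit 0) (nat_lit 165838074228) (nat_lit 76) (nat_lit 1033612005208) (nat_lit 152) (nat_lit 2399495427913) (nat_lit 19) (nat_lit 5) (nat_lit 20) (nat_lit 5) (nat_lit 21) (nat_lit 4) (nat_lit 443) (nat_lit 404) (nat_lit 173))) (XT.nd (nat_lit 78) (nat_lit 152) (nat_lit 0) (XT.lf (nat_lit 0) (nat_lit 2104762164724)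 (nat_lit 76) (nat_lit 26862959797) (nat_lit 152) (nat_lit 1674339544409) (nat_lit 19) (nat_lit 5) (nat_lit 20) (nat_lit 5) (nat_lit 21) (nat_lit 4) (nat_lit 444) (nat_lit 404) (nat_lit 172)) (XT.nd (nat_lit 78) (nat_lit 76) (nat_lit 0) (XT.lf (nat_lit 0) (nat_lit 151321244107) (nat_lit 76) (nat_lit 3016195476884) (nat_lit 76) (nat_lit 859697238626) (nat_lit 18) (nat_lit 4) (nat_lit 19) (nat_lit 5) (nat_lit 19) (nat_lit 4) (nat_lit 445) (nat_lit 404) (nat_lit 171)) (XT.lf (nat_lit 0) (nat_lit 67529925930) (nat_lit 152) (nat_lit 2016035994926) (nat_lit 76) (nat_lit 2178684986155) (nat_lit 17) (nat_lit 5) (nat_lit 19) (nat_lit 5) (nat_lit 18) (nat_lit 4) (nat_lit 446) (nat_lit 404) (nat_lit 170))))) (XT.nd (nat_lit 156) (nat_lit 152) (nat_lit 0) (XT.nd (nat_lit 78) (nat_lit 76) (nat_lit 0) (XT.lf (nat_lit 0) (nat_lit 1022489280377) (nat_lit 152) (nat_lit 29720540087) (nat_lit 76) (nat_lit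 3462094606068) (nat_lit 17) (nat_lit 5) (nat_lit 19) (nat_lit 5) (nat_lit 18) (nat_lit 4) (nat_lit 447) (nat_lit 404) (nat_lit 169)) (XT.lf (nat_lit 0) (nat_lit 2110276235136) (nat_lit 152) (nat_lit 2558212923916) (nat_lit 0) (nat_lit 113518600408) (nat_lit 16) (nat_lit 5) (nat_lit 18) (nat_lit 4) (nat_lit 16) (nat_lit 4) (nat_lit 448) (nat_lit 404) (nat_lit 168))) (XT.nd (nat_lit 78) (nat_lit 152) (nat_lit 0) (XT.lf (nat_lit 0) (nat_lit 3313249988147) (nat_lit 152) (nat_lit 439131912018) (nat_lit 0) (nat_lit 1316492351505) (nat_lit 16) (nat_lit 5) (nat_lit 18) (nat_lit 4) (nat_lit 16) (nat_lit 4) (nat_lit 449) (nat_lit 404) (nat_lit 167)) (XT.nd (nat_lit 78) (nat_lit 76) (nat_lit 0) (XT.lf (nat_lit 0) (nat_lit 1946865682849) (nat_lit 76) (nat_lit 2712418122840) (nat_lit 76) (nat_lit 715660484426) (nat_lit 15) (nat_lit 4) (nat_lit 16) (nat_lit 5) (nat_lit 16) (nat_lit 4) (nat_lit 450)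 (nat_lit 404) (nat_lit 166)) (XT.lf (nat_lit 0) (nat_lit 399434080140) (nat_lit 152) (nat_lit 1165934753362) (nat_lit 76) (nat_lit 4138361586316) (nat_lit 14) (nat_lit 5) (nat_lit 16) (nat_lit 5) (nat_lit 15) (nat_lit 4) (nat_lit 451) (nat_lit 404) (nat_lit 165))))))) (XT.nd (nat_lit 49998) (nat_lit 0) (nat_lit 2356) (XT.nd (nat_lit 49608) (nat_lit 0) (nat_lit 3572) (XT.nd (nat_lit 156) (nat_lit 76) (nat_lit 0) (XT.nd (nat_lit 78) (nat_lit 0) (nat_lit 0) (XT.lf (nat_lit 0) (nat_lit 1324867246267) (nat_lit 76) (nat_lit 272067795964) (nat_lit 152) (nat_lit 4457848263977) (nat_lit 13) (nat_lit 5) (nat_lit 14) (nat_lit 5) (nat_lit 15) (nat_lit 4) (nat_lit 452) (nat_lit 404) (nat_lit 164)) (XT.lf (nat_lit 0) (nat_lit 2949991818105) (nat_lit 152) (nat_lit 2378005997783) (nat_lit 0) (nat_lit 1101142148677) (nat_lit 13) (nat_lit 5) (nat_lit 15) (nat_lit 4) (nat_lit 13) (nat_lit 4) (nat_lit 453)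 (nat_lit 404) (nat_lit 163))) (XT.nd (nat_lit 49296) (nat_lit 0) (nat_lit 3952) (XT.lf (nat_lit 0) (nat_lit 163151677321) (nat_lit 76) (nat_lit 4259131954616) (nat_lit 76) (nat_lit 2410282283981) (nat_lit 12) (nat_lit 4) (nat_lit 13) (nat_lit 5) (nat_lit 13) (nat_lit 4) (nat_lit 454) (nat_lit 404) (nat_lit 162)) (XT.nd (nat_lit 78) (nat_lit 0) (nat_lit 0) (XT.lf (nat_lit 0) (nat_lit 266805282305) (nat_lit 532) (nat_lit 17869462837) (nat_lit 532) (nat_lit 17869462837) (nat_lit 64) (nat_lit 3) (nat_lit 71) (nat_lit 3) (nat_lit 71) (nat_lit 5) (nat_lit 405) (nat_lit 405) (nat_lit 210)) (XT.lf (nat_lit 76) (nat_lit 271957604280) (nat_lit 0) (nat_lit 289538137054) (nat_lit 532) (nat_lit 67272950776) (nat_lit 65) (nat_lit 5) (nat_lit 64) (nat_lit 3) (nat_lit 71) (nat_lit 5) (nat_lit 406) (nat_lit 405) (nat_lit 209))))) (XT.nd (nat_lit 156) (nat_lit 456) (nat_lit 0) (XT.nd (nat_lit 78) (nat_lit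 0) (nat_lit 0) (XT.lf (nat_lit 0) (nat_lit 592918690100) (nat_lit 456) (nat_lit 48292676294) (nat_lit 532) (nat_lit 13027467341) (nat_lit 65) (nat_lit 5) (nat_lit 71) (nat_lit 5) (nat_lit 72) (nat_lit 5) (nat_lit 407) (nat_lit 405) (nat_lit 208)) (XT.lf (nat_lit 76) (nat_lit 291993420285) (nat_lit 0) (nat_lit 349404958816) (nat_lit 532) (nat_lit 39184775256) (nat_lit 66) (nat_lit 5) (nat_lit 65) (nat_lit 5) (nat_lit 72) (nat_lit 5) (nat_lit 408) (nat_lit 405) (nat_lit 207))) (XT.nd (nat_lit 78) (nat_lit 456) (nat_lit 0) (XT.lf (nat_lit 76) (nat_lit 662248841894) (nat_lit 0) (nat_lit 32827994056) (nat_lit 532) (nat_lit 13852553275) (nat_lit 66) (nat_lit 5) (nat_lit 65) (nat_lit 5) (nat_lit 72) (nat_lit 5) (nat_lit 409) (nat_lit 405) (nat_lit 206)) (XT.nd (nat_lit 78) (nat_lit 0) (nat_lit 0) (XT.lf (nat_lit 0) (nat_lit 28642596497) (nat_lit 532) (nat_lit 407292277146) (nat_lit 608) (nat_lit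 302317504232) (nat_lit 59) (nat_lit 5) (nat_lit 66) (nat_lit 5) (nat_lit 67) (nat_lit 5) (nat_lit 410) (nat_lit 405) (nat_lit 205)) (XT.lf (nat_lit 0) (nat_lit 75951102999) (nat_lit 532) (nat_lit 29597978611) (nat_lit 608) (nat_lit 664170368097) (nat_lit 59) (nat_lit 5) (nat_lit 66) (nat_lit 5) (nat_lit 67) (nat_lit 5) (nat_lit 411) (nat_lit 405) (nat_lit 204)))))) (XT.nd (nat_lit 390) (nat_lit 684) (nat_lit 0) (XT.nd (nat_lit 156) (nat_lit 228) (nat_lit 0) (XT.nd (nat_lit 78) (nat_lit 380) (nat_lit 0) (XT.lf (nat_lit 0) (nat_lit 142913551112) (nat_lit 532) (nat_lit 410996359388) (nat_lit 76) (nat_lit 248524435909) (nat_lit 60) (nat_lit 5) (nat_lit 67) (nat_lit 5) (nat_lit 61) (nat_lit 5) (nat_lit 412) (nat_lit 405) (nat_lit 203)) (XT.lf (nat_lit 0) (nat_lit 7764232435) (nat_lit 380) (nat_lit 211227296792) (nat_lit 456) (nat_lit 618474222895) (nat_lit 55) (nat_lit 5) (nat_lit 60) (nat_lit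 5) (nat_lit 61) (nat_lit 5) (nat_lit 413) (nat_lit 405) (nat_lit 202))) (XT.nd (nat_lit 78) (nat_lit 228) (nat_lit 0) (XT.lf (nat_lit 0) (nat_lit 316505808885) (nat_lit 456) (nat_lit 395113998688) (nat_lit 76) (nat_lit 162451857667) (nat_lit 55) (nat_lit 5) (nat_lit 61) (nat_lit 5) (nat_lit 56) (nat_lit 5) (nat_lit 414) (nat_lit 405) (nat_lit 201)) (XT.nd (nat_lit 78) (nat_lit 0) (nat_lit 0) (XT.lf (nat_lit 0) (nat_lit 72374558702) (nat_lit 228) (nat_lit 356673695408) (nat_lit 304) (nat_lit 483979635448) (nat_lit 52) (nat_lit 5) (nat_lit 55) (nat_lit 5) (nat_lit 56) (nat_lit 5) (nat_lit 415) (nat_lit 405) (nat_lit 200)) (XT.lf (nat_lit 0) (nat_lit 562319171402) (nat_lit 304) (nat_lit 355425658623) (nat_lit 76) (nat_lit 36417775687) (nat_lit 52) (nat_lit 5) (nat_lit 56) (nat_lit 5) (nat_lit 53) (nat_lit 5) (nat_lit 416) (nat_lit 405) (nat_lit 199))))) (XT.nd (nat_lit 234) (nat_lit 228)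 (nat_lit 0) (XT.nd (nat_lit 78) (nat_lit 228) (nat_lit 0) (XT.lf (nat_lit 0) (nat_lit 167747368086) (nat_lit 228) (nat_lit 551802965258) (nat_lit 304) (nat_lit 277973880122) (nat_lit 49) (nat_lit 5) (nat_lit 52) (nat_lit 5) (nat_lit 53) (nat_lit 5) (nat_lit 417) (nat_lit 405) (nat_lit 198)) (XT.nd (nat_lit 78) (nat_lit 228) (nat_lit 0) (XT.lf (nat_lit 0) (nat_lit 752987599127) (nat_lit 228) (nat_lit 146090348105) (nat_lit 304) (nat_lit 144499365895) (nat_lit 49) (nat_lit 5) (nat_lit 52) (nat_lit 5) (nat_lit 53) (nat_lit 5) (nat_lit 418) (nat_lit 405) (nat_lit 197)) (XT.lf (nat_lit 0) (nat_lit 14272432368) (nat_lit 228) (nat_lit 792837328163) (nat_lit 76) (nat_lit 285037410050) (nat_lit 46) (nat_lit 5) (nat_lit 49) (nat_lit 5) (nat_lit 47) (nat_lit 5) (nat_lit 419) (nat_lit 405) (nat_lit 196)))) (XT.nd (nat_lit 78) (nat_lit 228) (nat_lit 0) (XT.lf (nat_lit 0) (nat_lit 189885409911) (nat_lit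 228) (nat_lit 198793704295) (nat_lit 76) (nat_lit 754667551655) (nat_lit 46) (nat_lit 5) (nat_lit 49) (nat_lit 5) (nat_lit 47) (nat_lit 5) (nat_lit 420) (nat_lit 405) (nat_lit 195)) (XT.nd (nat_lit 78) (nat_lit 0) (nat_lit 0) (XT.lf (nat_lit 0) (nat_lit 392568612754) (nat_lit 304) (nat_lit 733468043235) (nat_lit 76) (nat_lit 71563769811) (nat_lit 43) (nat_lit 5) (nat_lit 47) (nat_lit 5) (nat_lit 44) (nat_lit 5) (nat_lit 421) (nat_lit 405) (nat_lit 194)) (XT.lf (nat_lit 0) (nat_lit 627138577070) (nat_lit 304) (nat_lit 74598275666) (nat_lit 76) (nat_lit 553203865384) (nat_lit 43) (nat_lit 5) (nat_lit 47) (nat_lit 5) (nat_lit 44) (nat_lit 5) (nat_lit 422) (nat_lit 405) (nat_lit 193))))))))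
noncomputable def xc233 : XT := (XT.nd (nat_lit 1560) (nat_lit 608) (nat_lit 0) (XT.nd (nat_lit 780) (nat_lit 684) (nat_lit 0) (XT.nd (nat_lit 390) (nat_lit 456) (nat_lit 0) (XT.nd (nat_lit 156) (nat_lit 228) (nat_lit 0) (XT.nd (nat_lit 78) (nat_lit 152) (nat_lit 0) (XT.lf (nat_lit 0) (nat_lit 670523358557) (nat_lit 152) (nat_lit 226076876551) (nat_lit 228) (nat_lit 418977910995) (nat_lit 41) (nat_lit 5) (nat_lit 43) (nat_lit 5) (nat_lit 44) (nat_lit 5) (nat_lit 423) (nat_lit 405) (nat_lit 192)) (XT.lf (nat_lit 0) (nat_lit 96447873249) (nat_lit 152) (nat_lit 1102500797304) (nat_lit 228) (nat_lit 181211510194) (nat_lit 39) (nat_lit 5) (nat_lit 41) (nat_lit 5) (nat_lit 42) (nat_lit 5) (nat_lit 424) (nat_lit 405) (nat_lit 191))) (XT.nd (nat_lit 78) (nat_lit 152) (nat_lit 0) (XT.lf (nat_lit 0) (nat_lit 95762738948) (nat_lit 228) (nat_lit 522690086237) (nat_lit 76) (nat_lit 829393171100) (nat_lit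 38) (nat_lit 5) (nat_lit 41) (nat_lit 5) (nat_lit 39) (nat_lit 5) (nat_lit 425) (nat_lit 405) (nat_lit 190)) (XT.nd (nat_lit 78) (nat_lit 0) (nat_lit 0) (XT.lf (nat_lit 0) (nat_lit 310015334442) (nat_lit 152) (nat_lit 82545335900) (nat_lit 228) (nat_lit 1127412993676) (nat_lit 36) (nat_lit 5) (nat_lit 38) (nat_lit 5) (nat_lit 39) (nat_lit 5) (nat_lit 426) (nat_lit 405) (nat_lit 189)) (XT.lf (nat_lit 0) (nat_lit 739699363690) (nat_lit 228) (nat_lit 369970874381) (nat_lit 76) (nat_lit 486073552906) (nat_lit 36) (nat_lit 5) (nat_lit 39) (nat_lit 5) (nat_lit 37) (nat_lit 5) (nat_lit 427) (nat_lit 405) (nat_lit 188))))) (XT.nd (nat_lit 156) (nat_lit 304) (nat_lit 0) (XT.nd (nat_lit 78) (nat_lit 0) (nat_lit 0) (XT.lf (nat_lit 0) (nat_lit 563247453390) (nat_lit 152) (nat_lit 567051843579) (nat_lit 228) (nat_lit 546021019569) (nat_lit 34) (nat_lit 5) (nat_lit 36) (nat_lit 5) (nat_lit 37) (nat_lit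 5) (nat_lit 428) (nat_lit 405) (nat_lit 187)) (XT.lf (nat_lit 0) (nat_lit 1562981997540) (nat_lit 228) (nat_lit 171089018805) (nat_lit 76) (nat_lit 28405165991) (nat_lit 34) (nat_lit 5) (nat_lit 37) (nat_lit 5) (nat_lit 35) (nat_lit 4) (nat_lit 429) (nat_lit 405) (nat_lit 186))) (XT.nd (nat_lit 78) (nat_lit 152) (nat_lit 0) (XT.lf (nat_lit 0) (nat_lit 202722079760) (nat_lit 152) (nat_lit 982482797393) (nat_lit 76) (nat_lit 667046673625) (nat_lit 32) (nat_lit 5) (nat_lit 34) (nat_lit 5) (nat_lit 33) (nat_lit 5) (nat_lit 430) (nat_lit 405) (nat_lit 185)) (XT.nd (nat_lit 78) (nat_lit 0) (nat_lit 0) (XT.lf (nat_lit 0) (nat_lit 52093145069) (nat_lit 152) (nat_lit 580296849919) (nat_lit 228) (nat_lit 1315920242967) (nat_lit 30) (nat_lit 5) (nat_lit 32) (nat_lit 5) (nat_lit 33) (nat_lit 5) (nat_lit 431) (nat_lit 405) (nat_lit 184)) (XT.lf (nat_lit 0) (nat_lit 1125747639025) (nat_lit 228) (nat_lit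 827048251080) (nat_lit 76) (nat_lit 96912426355) (nat_lit 30) (nat_lit 5) (nat_lit 33) (nat_lit 5) (nat_lit 31) (nat_lit 4) (nat_lit 432) (nat_lit 405) (nat_lit 183)))))) (XT.nd (nat_lit 390) (nat_lit 304) (nat_lit 0) (XT.nd (nat_lit 156) (nat_lit 228) (nat_lit 0) (XT.nd (nat_lit 78) (nat_lit 76) (nat_lit 0) (XT.lf (nat_lit 0) (nat_lit 329041430574) (nat_lit 76) (nat_lit 1352518559689) (nat_lit 152) (nat_lit 475819363329) (nat_lit 29) (nat_lit 5) (nat_lit 30) (nat_lit 5) (nat_lit 31) (nat_lit 4) (nat_lit 433) (nat_lit 405) (nat_lit 182)) (XT.lf (nat_lit 0) (nat_lit 30964707060) (nat_lit 152) (nat_lit 647985706682) (nat_lit 76) (nat_lit 1592841909753) (nat_lit 28) (nat_lit 5) (nat_lit 30) (nat_lit 5) (nat_lit 29) (nat_lit 5) (nat_lit 434) (nat_lit 405) (nat_lit 181))) (XT.nd (nat_lit 78) (nat_lit 76) (nat_lit 0) (XT.lf (nat_lit 0) (nat_lit 570031778742) (nat_lit 228) (nat_lit 1748225904923)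 (nat_lit 76) (nat_lit 74716181349) (nat_lit 26) (nat_lit 5) (nat_lit 29) (nat_lit 5) (nat_lit 27) (nat_lit 4) (nat_lit 435) (nat_lit 405) (nat_lit 180)) (XT.nd (nat_lit 78) (nat_lit 76) (nat_lit 0) (XT.lf (nat_lit 0) (nat_lit 1188036549525) (nat_lit 228) (nat_lit 462775988253) (nat_lit 76) (nat_lit 870172405408) (nat_lit 26) (nat_lit 5) (nat_lit 29) (nat_lit 5) (nat_lit 27) (nat_lit 4) (nat_lit 436) (nat_lit 405) (nat_lit 179)) (XT.lf (nat_lit 0) (nat_lit 974245627651) (nat_lit 76) (nat_lit 904666701670) (nat_lit 152) (nat_lit 778450128104) (nat_lit 25) (nat_lit 5) (nat_lit 26) (nat_lit 5) (nat_lit 27) (nat_lit 4) (nat_lit 437) (nat_lit 405) (nat_lit 178))))) (XT.nd (nat_lit 156) (nat_lit 152) (nat_lit 0) (XT.nd (nat_lit 78) (nat_lit 152) (nat_lit 0) (XT.lf (nat_lit 0) (nat_lit 2552547447379) (nat_lit 76) (nat_lit 85163836437) (nat_lit 152) (nat_lit 165926640002) (nat_lit 25) (nat_lit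 5) (nat_lit 26) (nat_lit 5) (nat_lit 27) (nat_lit 4) (nat_lit 438) (nat_lit 405) (nat_lit 177)) (XT.lf (nat_lit 0) (nat_lit 523693762979) (nat_lit 152) (nat_lit 1627283665749) (nat_lit 76) (nat_lit 805453514584) (nat_lit 23) (nat_lit 5) (nat_lit 25) (nat_lit 5) (nat_lit 24) (nat_lit 4) (nat_lit 439) (nat_lit 405) (nat_lit 176))) (XT.nd (nat_lit 78) (nat_lit 152) (nat_lit 0) (XT.lf (nat_lit 0) (nat_lit 1268775071450) (nat_lit 152) (nat_lit 77514548593) (nat_lit 76) (nat_lit 1774072551967) (nat_lit 23) (nat_lit 5) (nat_lit 25) (nat_lit 5) (nat_lit 24) (nat_lit 4) (nat_lit 440) (nat_lit 405) (nat_lit 175)) (XT.nd (nat_lit 78) (nat_lit 76) (nat_lit 0) (XT.lf (nat_lit 0) (nat_lit 1680291056501) (nat_lit 76) (nat_lit 433582865539) (nat_lit 152) (nat_lit 1180301093969) (nat_lit 22) (nat_lit 5) (nat_lit 23) (nat_lit 5) (nat_lit 24) (nat_lit 4) (nat_lit 441) (nat_lit 405) (nat_lit 174)) (XT.lf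 (nat_lit 0) (nat_lit 92709767493) (nat_lit 76) (nat_lit 2951554007170) (nat_lit 76) (nat_lit 436214465346) (nat_lit 21) (nat_lit 4) (nat_lit 22) (nat_lit 5) (nat_lit 22) (nat_lit 4) (nat_lit 442) (nat_lit 405) (nat_lit 173))))))) (XT.nd (nat_lit 780) (nat_lit 76) (nat_lit 0) (XT.nd (nat_lit 390) (nat_lit 228) (nat_lit 0) (XT.nd (nat_lit 156) (nat_lit 152) (nat_lit 0) (XT.nd (nat_lit 78) (nat_lit 76) (nat_lit 0) (XT.lf (nat_lit 0) (nat_lit 405554781702) (nat_lit 152) (nat_lit 1671785599162) (nat_lit 76) (nat_lit 1599115706201) (nat_lit 20) (nat_lit 5) (nat_lit 22) (nat_lit 5) (nat_lit 21) (nat_lit 4) (nat_lit 443) (nat_lit 405) (nat_lit 172)) (XT.lf (nat_lit 0) (nat_lit 179105221834) (nat_lit 76) (nat_lit 1116300917577) (nat_lit 152) (nat_lit 2591455004227) (nat_lit 19) (nat_lit 5) (nat_lit 20) (nat_lit 5) (nat_lit 21) (nat_lit 4) (nat_lit 444) (nat_lit 405) (nat_lit 171))) (XT.nd (nat_lit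 78) (nat_lit 152) (nat_lit 0) (XT.lf (nat_lit 0) (nat_lit 2273143232038) (nat_lit 76) (nat_lit 29011952092) (nat_lit 152) (nat_lit 1808286654333) (nat_lit 19) (nat_lit 5) (nat_lit 20) (nat_lit 5) (nat_lit 21) (nat_lit 4) (nat_lit 445) (nat_lit 405) (nat_lit 170)) (XT.nd (nat_lit 78) (nat_lit 76) (nat_lit 0) (XT.lf (nat_lit 0) (nat_lit 163427038227) (nat_lit 76) (nat_lit 3257491069679) (nat_lit 76) (nat_lit 928472964532) (nat_lit 18) (nat_lit 4) (nat_lit 19) (nat_lit 5) (nat_lit 19) (nat_lit 4) (nat_lit 446) (nat_lit 405) (nat_lit 169)) (XT.lf (nat_lit 0) (nat_lit 72932366785) (nat_lit 152) (nat_lit 2177318784465) (nat_lit 76) (nat_lit 2352979824572) (nat_lit 17) (nat_lit 5) (nat_lit 19) (nat_lit 5) (nat_lit 18) (nat_lit 4) (nat_lit 447) (nat_lit 405) (nat_lit 168))))) (XT.nd (nat_lit 156) (nat_lit 152) (nat_lit 0) (XT.nd (nat_lit 78) (nat_lit 76) (nat_lit 0) (XT.lf (nat_lit 0) (nat_lit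 1104288466123) (nat_lit 152) (nat_lit 32098099909) (nat_lit 76) (nat_lit 3739062211150) (nat_lit 17) (nat_lit 5) (nat_lit 19) (nat_lit 5) (nat_lit 18) (nat_lit 4) (nat_lit 448) (nat_lit 405) (nat_lit 167)) (XT.lf (nat_lit 0) (nat_lit 2279098376951) (nat_lit 152) (nat_lit 2762869874127) (nat_lit 0) (nat_lit 122600125691) (nat_lit 16) (nat_lit 5) (nat_lit 18) (nat_lit 4) (nat_lit 16) (nat_lit 4) (nat_lit 449) (nat_lit 405) (nat_lit 166))) (XT.nd (nat_lit 78) (nat_lit 152) (nat_lit 0) (XT.lf (nat_lit 0) (nat_lit 3578310027018) (nat_lit 152) (nat_lit 474262387478) (nat_lit 0) (nat_lit 1421811774117) (nat_lit 16) (nat_lit 5) (nat_lit 18) (nat_lit 4) (nat_lit 16) (nat_lit 4) (nat_lit 450) (nat_lit 405) (nat_lit 165)) (XT.nd (nat_lit 78) (nat_lit 76) (nat_lit 0) (XT.lf (nat_lit 0) (nat_lit 2102615013017) (nat_lit 76) (nat_lit 2929411535814) (nat_lit 76) (nat_lit 772913281393) (nat_lit 15) (nat_lit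 4) (nat_lit 16) (nat_lit 5) (nat_lit 16) (nat_lit 4) (nat_lit 451) (nat_lit 405) (nat_lit 164)) (XT.lf (nat_lit 0) (nat_lit 431388843308) (nat_lit 152) (nat_lit 1259209461746) (nat_lit 76) (nat_lit 4469430545404) (nat_lit 14) (nat_lit 5) (nat_lit 16) (nat_lit 5) (nat_lit 15) (nat_lit 4) (nat_lit 452) (nat_lit 405) (nat_lit 163)))))) (XT.nd (nat_lit 49686) (nat_lit 0) (nat_lit 3192) (XT.nd (nat_lit 49452) (nat_lit 0) (nat_lit 3876) (XT.nd (nat_lit 78) (nat_lit 0) (nat_lit 0) (XT.lf (nat_lit 0) (nat_lit 1430856696033) (nat_lit 76) (nat_lit 293833185295) (nat_lit 152) (nat_lit 4814476086515) (nat_lit 13) (nat_lit 5) (nat_lit 14) (nat_lit 5) (nat_lit 15) (nat_lit 4) (nat_lit 453) (nat_lit 405) (nat_lit 162)) (XT.lf (nat_lit 0) (nat_lit 3185991197391) (nat_lit 152) (nat_lit 2568246410846) (nat_lit 0) (nat_lit 1189233550782) (nat_lit 13) (nat_lit 5) (nat_lit 15) (nat_lit 4) (nat_lit 13) (nat_lit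 4) (nat_lit 454) (nat_lit 405) (nat_lit 161))) (XT.nd (nat_lit 78) (nat_lit 0) (nat_lit 0) (XT.lf (nat_lit 0) (nat_lit 288149868084) (nat_lit 532) (nat_lit 19298931662) (nat_lit 532) (nat_lit 19298931662) (nat_lit 64) (nat_lit 3) (nat_lit 71) (nat_lit 3) (nat_lit 71) (nat_lit 5) (nat_lit 406) (nat_lit 406) (nat_lit 208)) (XT.nd (nat_lit 78) (nat_lit 0) (nat_lit 76) (XT.lf (nat_lit 76) (nat_lit 293714384560) (nat_lit 0) (nat_lit 312701322426) (nat_lit 532) (nat_lit 72654455700) (nat_lit 65) (nat_lit 5) (nat_lit 64) (nat_lit 3) (nat_lit 71) (nat_lit 5) (nat_lit 407) (nat_lit 406) (nat_lit 207)) (XT.lf (nat_lit 0) (nat_lit 640352465968) (nat_lit 456) (nat_lit 52155905247) (nat_lit 532) (nat_lit 14069546502) (nat_lit 65) (nat_lit 5) (nat_lit 71) (nat_lit 5) (nat_lit 72) (nat_lit 5) (nat_lit 408) (nat_lit 406) (nat_lit 206))))) (XT.nd (nat_lit 234) (nat_lit 304) (nat_lit 0) (XT.nd (nat_lit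 78) (nat_lit 456) (nat_lit 0) (XT.lf (nat_lit 76) (nat_lit 315353074372) (nat_lit 0) (nat_lit 377357439268) (nat_lit 532) (nat_lit 42319271684) (nat_lit 66) (nat_lit 5) (nat_lit 65) (nat_lit 5) (nat_lit 72) (nat_lit 5) (nat_lit 409) (nat_lit 406) (nat_lit 205)) (XT.nd (nat_lit 78) (nat_lit 456) (nat_lit 0) (XT.lf (nat_lit 76) (nat_lit 715228916342) (nat_lit 0) (nat_lit 35454311123) (nat_lit 532) (nat_lit 14960493100) (nat_lit 66) (nat_lit 5) (nat_lit 65) (nat_lit 5) (nat_lit 72) (nat_lit 5) (nat_lit 410) (nat_lit 406) (nat_lit 204)) (XT.lf (nat_lit 0) (nat_lit 30934239586) (nat_lit 532) (nat_lit 439875462749) (nat_lit 608) (nat_lit 326502846746) (nat_lit 59) (nat_lit 5) (nat_lit 66) (nat_lit 5) (nat_lit 67) (nat_lit 5) (nat_lit 411) (nat_lit 406) (nat_lit 203)))) (XT.nd (nat_lit 78) (nat_lit 304) (nat_lit 0) (XT.lf (nat_lit 0) (nat_lit 82027409173) (nat_lit 532) (nat_lit 31965634891) (nat_lit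 608) (nat_lit 717303944004) (nat_lit 59) (nat_lit 5) (nat_lit 66) (nat_lit 5) (nat_lit 67) (nat_lit 5) (nat_lit 412) (nat_lit 406) (nat_lit 202)) (XT.nd (nat_lit 78) (nat_lit 380) (nat_lit 0) (XT.lf (nat_lit 0) (nat_lit 154346840570) (nat_lit 532) (nat_lit 443875873398) (nat_lit 76) (nat_lit 268406363558) (nat_lit 60) (nat_lit 5) (nat_lit 67) (nat_lit 5) (nat_lit 61) (nat_lit 5) (nat_lit 413) (nat_lit 406) (nat_lit 201)) (XT.lf (nat_lit 0) (nat_lit 8385560841) (nat_lit 380) (nat_lit 228125485446) (nat_lit 456) (nat_lit 667951950274) (nat_lit 55) (nat_lit 5) (nat_lit 60) (nat_lit 5) (nat_lit 61) (nat_lit 5) (nat_lit 414) (nat_lit 406) (nat_lit 200))))))))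
noncomputable def xc234 : XT := (XT.nd (nat_lit 1560) (nat_lit 1216) (nat_lit 0) (XT.nd (nat_lit 780) (nat_lit 912) (nat_lit 0) (XT.nd (nat_lit 390) (nat_lit 608) (nat_lit 0) (XT.nd (nat_lit 156) (nat_lit 228) (nat_lit 0) (XT.nd (nat_lit 78) (nat_lit 228) (nat_lit 0) (XT.lf (nat_lit 0) (nat_lit 341826453784) (nat_lit 456) (nat_lit 426722928156) (nat_lit 76) (nat_lit 175448001961) (nat_lit 55) (nat_lit 5) (nat_lit 61) (nat_lit 5) (nat_lit 56) (nat_lit 5) (nat_lit 415) (nat_lit 406) (nat_lit 199)) (XT.lf (nat_lit 0) (nat_lit 78164709004) (nat_lit 228) (nat_lit 385207576739) (nat_lit 304) (nat_lit 522697821142) (nat_lit 52) (nat_lit 5) (nat_lit 55) (nat_lit 5) (nat_lit 56) (nat_lit 5) (nat_lit 416) (nat_lit 406) (nat_lit 198))) (XT.nd (nat_lit 78) (nat_lit 228) (nat_lit 0) (XT.lf (nat_lit 0) (nat_lit 607304864048) (nat_lit 304) (nat_lit 383859526962) (nat_lit 76) (nat_lit 39331210322) (nat_lit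 52) (nat_lit 5) (nat_lit 56) (nat_lit 5) (nat_lit 53) (nat_lit 5) (nat_lit 417) (nat_lit 406) (nat_lit 197)) (XT.nd (nat_lit 78) (nat_lit 0) (nat_lit 0) (XT.lf (nat_lit 0) (nat_lit 181167337217) (nat_lit 228) (nat_lit 595947174277) (nat_lit 304) (nat_lit 300211626817) (nat_lit 49) (nat_lit 5) (nat_lit 52) (nat_lit 5) (nat_lit 53) (nat_lit 5) (nat_lit 418) (nat_lit 406) (nat_lit 196)) (XT.lf (nat_lit 0) (nat_lit 813226773431) (nat_lit 228) (nat_lit 157777549840) (nat_lit 304) (nat_lit 156059163579) (nat_lit 49) (nat_lit 5) (nat_lit 52) (nat_lit 5) (nat_lit 53) (nat_lit 5) (nat_lit 419) (nat_lit 406) (nat_lit 195))))) (XT.nd (nat_lit 156) (nat_lit 380) (nat_lit 0) (XT.nd (nat_lit 78) (nat_lit 0) (nat_lit 0) (XT.lf (nat_lit 0) (nat_lit 15414365150) (nat_lit 228) (nat_lit 856264134460) (nat_lit 76) (nat_lit 307840433472) (nat_lit 46) (nat_lit 5) (nat_lit 49) (nat_lit 5) (nat_lit 47) (nat_lit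 5) (nat_lit 420) (nat_lit 406) (nat_lit 194)) (XT.lf (nat_lit 0) (nat_lit 205076370660) (nat_lit 228) (nat_lit 214697034012) (nat_lit 76) (nat_lit 815040984137) (nat_lit 46) (nat_lit 5) (nat_lit 49) (nat_lit 5) (nat_lit 47) (nat_lit 5) (nat_lit 421) (nat_lit 406) (nat_lit 193))) (XT.nd (nat_lit 78) (nat_lit 152) (nat_lit 0) (XT.lf (nat_lit 0) (nat_lit 423974225121) (nat_lit 304) (nat_lit 792145315381) (nat_lit 76) (nat_lit 77288909418) (nat_lit 43) (nat_lit 5) (nat_lit 47) (nat_lit 5) (nat_lit 44) (nat_lit 5) (nat_lit 422) (nat_lit 406) (nat_lit 192)) (XT.nd (nat_lit 78) (nat_lit 152) (nat_lit 0) (XT.lf (nat_lit 0) (nat_lit 677309777446) (nat_lit 304) (nat_lit 80565979096) (nat_lit 76) (nat_lit 597460209820) (nat_lit 43) (nat_lit 5) (nat_lit 47) (nat_lit 5) (nat_lit 44) (nat_lit 5) (nat_lit 423) (nat_lit 406) (nat_lit 191)) (XT.lf (nat_lit 0) (nat_lit 724165381850) (nat_lit 152) (nat_lit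 244162981535) (nat_lit 228) (nat_lit 452496025583) (nat_lit 41) (nat_lit 5) (nat_lit 43) (nat_lit 5) (nat_lit 44) (nat_lit 5) (nat_lit 424) (nat_lit 406) (nat_lit 190)))))) (XT.nd (nat_lit 390) (nat_lit 380) (nat_lit 0) (XT.nd (nat_lit 156) (nat_lit 304) (nat_lit 0) (XT.nd (nat_lit 78) (nat_lit 76) (nat_lit 0) (XT.lf (nat_lit 0) (nat_lit 104163861345) (nat_lit 152) (nat_lit 1190700809023) (nat_lit 228) (nat_lit 195708316285) (nat_lit 39) (nat_lit 5) (nat_lit 41) (nat_lit 5) (nat_lit 42) (nat_lit 5) (nat_lit 425) (nat_lit 406) (nat_lit 189)) (XT.lf (nat_lit 0) (nat_lit 103423858976) (nat_lit 228) (nat_lit 564505141256) (nat_lit 76) (nat_lit 895744667630) (nat_lit 38) (nat_lit 5) (nat_lit 41) (nat_lit 5) (nat_lit 39) (nat_lit 5) (nat_lit 426) (nat_lit 406) (nat_lit 188))) (XT.nd (nat_lit 78) (nat_lit 152) (nat_lit 0) (XT.lf (nat_lit 0) (nat_lit 334816709233) (nat_lit 152) (nat_lit 89148911734)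 (nat_lit 228) (nat_lit 1217605928364) (nat_lit 36) (nat_lit 5) (nat_lit 38) (nat_lit 5) (nat_lit 39) (nat_lit 5) (nat_lit 427) (nat_lit 406) (nat_lit 187)) (XT.nd (nat_lit 78) (nat_lit 152) (nat_lit 0) (XT.lf (nat_lit 0) (nat_lit 798875403734) (nat_lit 228) (nat_lit 399568401167) (nat_lit 76) (nat_lit 524959482032) (nat_lit 36) (nat_lit 5) (nat_lit 39) (nat_lit 5) (nat_lit 37) (nat_lit 5) (nat_lit 428) (nat_lit 406) (nat_lit 186)) (XT.lf (nat_lit 0) (nat_lit 608307389201) (nat_lit 152) (nat_lit 612415939094) (nat_lit 228) (nat_lit 589702606518) (nat_lit 34) (nat_lit 5) (nat_lit 36) (nat_lit 5) (nat_lit 37) (nat_lit 5) (nat_lit 429) (nat_lit 406) (nat_lit 185))))) (XT.nd (nat_lit 156) (nat_lit 228) (nat_lit 0) (XT.nd (nat_lit 78) (nat_lit 152) (nat_lit 0) (XT.lf (nat_lit 0) (nat_lit 1688020639583) (nat_lit 228) (nat_lit 184776005738) (nat_lit 76) (nat_lit 30677624984) (nat_lit 34) (nat_lit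 5) (nat_lit 37) (nat_lit 5) (nat_lit 35) (nat_lit 4) (nat_lit 430) (nat_lit 406) (nat_lit 184)) (XT.lf (nat_lit 0) (nat_lit 218939927536) (nat_lit 152) (nat_lit 1061081285701) (nat_lit 76) (nat_lit 720410455058) (nat_lit 32) (nat_lit 5) (nat_lit 34) (nat_lit 5) (nat_lit 33) (nat_lit 5) (nat_lit 431) (nat_lit 406) (nat_lit 183))) (XT.nd (nat_lit 78) (nat_lit 76) (nat_lit 0) (XT.lf (nat_lit 0) (nat_lit 56260728728) (nat_lit 152) (nat_lit 626720544401) (nat_lit 228) (nat_lit 1421193777548) (nat_lit 30) (nat_lit 5) (nat_lit 32) (nat_lit 5) (nat_lit 33) (nat_lit 5) (nat_lit 432) (nat_lit 406) (nat_lit 182)) (XT.nd (nat_lit 78) (nat_lit 76) (nat_lit 0) (XT.lf (nat_lit 0) (nat_lit 1215807524063) (nat_lit 228) (nat_lit 893211984240) (nat_lit 76) (nat_lit 104665467532) (nat_lit 30) (nat_lit 5) (nat_lit 33) (nat_lit 5) (nat_lit 31) (nat_lit 4) (nat_lit 433) (nat_lit 406) (nat_lit 181)) (XT.lf (nat_lit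 0) (nat_lit 355364868733) (nat_lit 76) (nat_lit 1460719992167) (nat_lit 152) (nat_lit 513884835240) (nat_lit 29) (nat_lit 5) (nat_lit 30) (nat_lit 5) (nat_lit 31) (nat_lit 4) (nat_lit 434) (nat_lit 406) (nat_lit 180))))))) (XT.nd (nat_lit 780) (nat_lit 532) (nat_lit 0) (XT.nd (nat_lit 390) (nat_lit 380) (nat_lit 0) (XT.nd (nat_lit 156) (nat_lit 76) (nat_lit 0) (XT.nd (nat_lit 78) (nat_lit 152) (nat_lit 0) (XT.lf (nat_lit 0) (nat_lit 33441951492) (nat_lit 152) (nat_lit 699824445071) (nat_lit 76) (nat_lit 1720269307361) (nat_lit 28) (nat_lit 5) (nat_lit 30) (nat_lit 5) (nat_lit 29) (nat_lit 5) (nat_lit 435) (nat_lit 406) (nat_lit 179)) (XT.lf (nat_lit 0) (nat_lit 615634387842) (nat_lit 228) (nat_lit 1888083858084) (nat_lit 76) (nat_lit 80693522924) (nat_lit 26) (nat_lit 5) (nat_lit 29) (nat_lit 5) (nat_lit 27) (nat_lit 4) (nat_lit 436) (nat_lit 406) (nat_lit 178))) (XT.nd (nat_lit 78) (nat_lit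 76) (nat_lit 0) (XT.lf (nat_lit 0) (nat_lit 1283079535339) (nat_lit 228) (nat_lit 499797956913) (nat_lit 76) (nat_lit 939786241422) (nat_lit 26) (nat_lit 5) (nat_lit 29) (nat_lit 5) (nat_lit 27) (nat_lit 4) (nat_lit 437) (nat_lit 406) (nat_lit 177)) (XT.nd (nat_lit 78) (nat_lit 0) (nat_lit 0) (XT.lf (nat_lit 0) (nat_lit 1052185385469) (nat_lit 76) (nat_lit 977039990057) (nat_lit 152) (nat_lit 840726073687) (nat_lit 25) (nat_lit 5) (nat_lit 26) (nat_lit 5) (nat_lit 27) (nat_lit 4) (nat_lit 438) (nat_lit 406) (nat_lit 176)) (XT.lf (nat_lit 0) (nat_lit 2756751342804) (nat_lit 76) (nat_lit 91976899142) (nat_lit 152) (nat_lit 179200711327) (nat_lit 25) (nat_lit 5) (nat_lit 26) (nat_lit 5) (nat_lit 27) (nat_lit 4) (nat_lit 439) (nat_lit 406) (nat_lit 175))))) (XT.nd (nat_lit 156) (nat_lit 228) (nat_lit 0) (XT.nd (nat_lit 78) (nat_lit 0) (nat_lit 0) (XT.lf (nat_lit 0) (nat_lit 565589320172) (nat_lit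 152) (nat_lit 1757466255623) (nat_lit 76) (nat_lit 869889838475) (nat_lit 23) (nat_lit 5) (nat_lit 25) (nat_lit 5) (nat_lit 24) (nat_lit 4) (nat_lit 440) (nat_lit 406) (nat_lit 174)) (XT.lf (nat_lit 0) (nat_lit 1370277129161) (nat_lit 152) (nat_lit 83715616753) (nat_lit 76) (nat_lit 1915998395684) (nat_lit 23) (nat_lit 5) (nat_lit 25) (nat_lit 5) (nat_lit 24) (nat_lit 4) (nat_lit 441) (nat_lit 406) (nat_lit 173))) (XT.nd (nat_lit 78) (nat_lit 152) (nat_lit 0) (XT.lf (nat_lit 0) (nat_lit 1814714434324) (nat_lit 76) (nat_lit 468269451866) (nat_lit 152) (nat_lit 1274725127056) (nat_lit 22) (nat_lit 5) (nat_lit 23) (nat_lit 5) (nat_lit 24) (nat_lit 4) (nat_lit 442) (nat_lit 406) (nat_lit 172)) (XT.nd (nat_lit 78) (nat_lit 76) (nat_lit 0) (XT.lf (nat_lit 0) (nat_lit 100126642768) (nat_lit 76) (nat_lit 3187678283736) (nat_lit 76) (nat_lit 471111568705) (nat_lit 21) (nat_lit 4) (nat_lit 22) (nat_lit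 5) (nat_lit 22) (nat_lit 4) (nat_lit 443) (nat_lit 406) (nat_lit 171)) (XT.lf (nat_lit 0) (nat_lit 437999211622) (nat_lit 152) (nat_lit 1805528357668) (nat_lit 76) (nat_lit 1727045000941) (nat_lit 20) (nat_lit 5) (nat_lit 22) (nat_lit 5) (nat_lit 21) (nat_lit 4) (nat_lit 444) (nat_lit 406) (nat_lit 170)))))) (XT.nd (nat_lit 390) (nat_lit 304) (nat_lit 0) (XT.nd (nat_lit 156) (nat_lit 152) (nat_lit 0) (XT.nd (nat_lit 78) (nat_lit 0) (nat_lit 0) (XT.lf (nat_lit 0) (nat_lit 193433726744) (nat_lit 76) (nat_lit 1205604949790) (nat_lit 152) (nat_lit 2798771354908) (nat_lit 19) (nat_lit 5) (nat_lit 20) (nat_lit 5) (nat_lit 21) (nat_lit 4) (nat_lit 445) (nat_lit 406) (nat_lit 169)) (XT.lf (nat_lit 0) (nat_lit 2454994771308) (nat_lit 76) (nat_lit 31332870117) (nat_lit 152) (nat_lit 1952949540701) (nat_lit 19) (nat_lit 5) (nat_lit 20) (nat_lit 5) (nat_lit 21) (nat_lit 4) (nat_lit 446) (nat_lit 406)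 (nat_lit 168))) (XT.nd (nat_lit 78) (nat_lit 76) (nat_lit 0) (XT.lf (nat_lit 0) (nat_lit 176501282381) (nat_lit 76) (nat_lit 3518090316369) (nat_lit 76) (nat_lit 1002750756099) (nat_lit 18) (nat_lit 4) (nat_lit 19) (nat_lit 5) (nat_lit 19) (nat_lit 4) (nat_lit 447) (nat_lit 406) (nat_lit 167)) (XT.nd (nat_lit 78) (nat_lit 0) (nat_lit 0) (XT.lf (nat_lit 0) (nat_lit 78766996235) (nat_lit 152) (nat_lit 2351504210014) (nat_lit 76) (nat_lit 2541218244423) (nat_lit 17) (nat_lit 5) (nat_lit 19) (nat_lit 5) (nat_lit 18) (nat_lit 4) (nat_lit 448) (nat_lit 406) (nat_lit 166)) (XT.lf (nat_lit 0) (nat_lit 1192631580549) (nat_lit 152) (nat_lit 34665876413) (nat_lit 76) (nat_lit 4038187219418) (nat_lit 17) (nat_lit 5) (nat_lit 19) (nat_lit 5) (nat_lit 18) (nat_lit 4) (nat_lit 449) (nat_lit 406) (nat_lit 165))))) (XT.nd (nat_lit 234) (nat_lit 152) (nat_lit 0) (XT.nd (nat_lit 78) (nat_lit 76) (nat_lit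 0) (XT.lf (nat_lit 0) (nat_lit 2461426283976) (nat_lit 152) (nat_lit 2983899392296) (nat_lit 0) (nat_lit 132408167682) (nat_lit 16) (nat_lit 5) (nat_lit 18) (nat_lit 4) (nat_lit 16) (nat_lit 4) (nat_lit 450) (nat_lit 406) (nat_lit 164)) (XT.nd (nat_lit 78) (nat_lit 76) (nat_lit 0) (XT.lf (nat_lit 0) (nat_lit 3864574863318) (nat_lit 152) (nat_lit 512203312031) (nat_lit 0) (nat_lit 1535556745617) (nat_lit 16) (nat_lit 5) (nat_lit 18) (nat_lit 4) (nat_lit 16) (nat_lit 4) (nat_lit 451) (nat_lit 406) (nat_lit 163)) (XT.lf (nat_lit 0) (nat_lit 2270824278821) (nat_lit 76) (nat_lit 3163764427083) (nat_lit 76) (nat_lit 834746308080) (nat_lit 15) (nat_lit 4) (nat_lit 16) (nat_lit 5) (nat_lit 16) (nat_lit 4) (nat_lit 452) (nat_lit 406) (nat_lit 162)))) (XT.nd (nat_lit 78) (nat_lit 76) (nat_lit 0) (XT.lf (nat_lit 0) (nat_lit 465899982284) (nat_lit 152) (nat_lit 1359946157057) (nat_lit 76) (nat_lit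 4826985016629) (nat_lit 14) (nat_lit 5) (nat_lit 16) (nat_lit 5) (nat_lit 15) (nat_lit 4) (nat_lit 453) (nat_lit 406) (nat_lit 161)) (XT.nd (nat_lit 49452) (nat_lit 0) (nat_lit 3876) (XT.lf (nat_lit 0) (nat_lit 1545325291784) (nat_lit 76) (nat_lit 317339810672) (nat_lit 152) (nat_lit 5199634140360) (nat_lit 13) (nat_lit 5) (nat_lit 14) (nat_lit 5) (nat_lit 15) (nat_lit 4) (nat_lit 454) (nat_lit 406) (nat_lit 160)) (XT.lf (nat_lit 0) (nat_lit 311201997443) (nat_lit 532) (nat_lit 20842770577) (nat_lit 532) (nat_lit 20842770577) (nat_lit 64) (nat_lit 3) (nat_lit 71) (nat_lit 3) (nat_lit 71) (nat_lit 5) (nat_lit 407) (nat_lit 407) (nat_lit 206))))))))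
noncomputable def xc235 : XT := (XT.nd (nat_lit 1638) (nat_lit 1444) (nat_lit 0) (XT.nd (nat_lit 780) (nat_lit 1216) (nat_lit 0) (XT.nd (nat_lit 390) (nat_lit 532) (nat_lit 0) (XT.nd (nat_lit 156) (nat_lit 380) (nat_lit 0) (XT.nd (nat_lit 78) (nat_lit 0) (nat_lit 76) (XT.lf (nat_lit 76) (nat_lit 317211682734) (nat_lit 0) (nat_lit 337717543454) (nat_lit 532) (nat_lit 78466528257) (nat_lit 65) (nat_lit 5) (nat_lit 64) (nat_lit 3) (nat_lit 71) (nat_lit 5) (nat_lit 408) (nat_lit 407) (nat_lit 205)) (XT.lf (nat_lit 0) (nat_lit 691580903866) (nat_lit 456) (nat_lit 56328218929) (nat_lit 532) (nat_lit 15195008862) (nat_lit 65) (nat_lit 5) (nat_lit 71) (nat_lit 5) (nat_lit 72) (nat_lit 5) (nat_lit 409) (nat_lit 407) (nat_lit 204))) (XT.nd (nat_lit 78) (nat_lit 456) (nat_lit 0) (XT.lf (nat_lit 76) (nat_lit 340581475041) (nat_lit 0) (nat_lit 407546106209) (nat_lit 532) (nat_lit 45704568569) (nat_lit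 66) (nat_lit 5) (nat_lit 65) (nat_lit 5) (nat_lit 72) (nat_lit 5) (nat_lit 410) (nat_lit 407) (nat_lit 203)) (XT.nd (nat_lit 78) (nat_lit 456) (nat_lit 0) (XT.lf (nat_lit 76) (nat_lit 772447372908) (nat_lit 0) (nat_lit 38290722494) (nat_lit 532) (nat_lit 16157105835) (nat_lit 66) (nat_lit 5) (nat_lit 65) (nat_lit 5) (nat_lit 72) (nat_lit 5) (nat_lit 411) (nat_lit 407) (nat_lit 202)) (XT.lf (nat_lit 0) (nat_lit 33409180545) (nat_lit 532) (nat_lit 475065331242) (nat_lit 608) (nat_lit 352623024911) (nat_lit 59) (nat_lit 5) (nat_lit 66) (nat_lit 5) (nat_lit 67) (nat_lit 5) (nat_lit 412) (nat_lit 407) (nat_lit 201))))) (XT.nd (nat_lit 156) (nat_lit 532) (nat_lit 0) (XT.nd (nat_lit 78) (nat_lit 0) (nat_lit 76) (XT.lf (nat_lit 0) (nat_lit 88589788751) (nat_lit 532) (nat_lit 34522729640) (nat_lit 608) (nat_lit 774688213622) (nat_lit 59) (nat_lit 5) (nat_lit 66) (nat_lit 5) (nat_lit 67) (nat_lit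 5) (nat_lit 413) (nat_lit 407) (nat_lit 200)) (XT.lf (nat_lit 0) (nat_lit 166694763886) (nat_lit 532) (nat_lit 479385776310) (nat_lit 76) (nat_lit 289878849303) (nat_lit 60) (nat_lit 5) (nat_lit 67) (nat_lit 5) (nat_lit 61) (nat_lit 5) (nat_lit 414) (nat_lit 407) (nat_lit 199))) (XT.nd (nat_lit 78) (nat_lit 228) (nat_lit 0) (XT.lf (nat_lit 0) (nat_lit 9056568441) (nat_lit 380) (nat_lit 246375528490) (nat_lit 456) (nat_lit 721387925866) (nat_lit 55) (nat_lit 5) (nat_lit 60) (nat_lit 5) (nat_lit 61) (nat_lit 5) (nat_lit 415) (nat_lit 407) (nat_lit 198)) (XT.nd (nat_lit 78) (nat_lit 228) (nat_lit 0) (XT.lf (nat_lit 0) (nat_lit 369172724569) (nat_lit 456) (nat_lit 460860599147) (nat_lit 76) (nat_lit 189483838416) (nat_lit 55) (nat_lit 5) (nat_lit 61) (nat_lit 5) (nat_lit 56) (nat_lit 5) (nat_lit 416) (nat_lit 407) (nat_lit 197)) (XT.lf (nat_lit 0) (nat_lit 84418044852) (nat_lit 228) (nat_lit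 416024170617) (nat_lit 304) (nat_lit 564513488105) (nat_lit 52) (nat_lit 5) (nat_lit 55) (nat_lit 5) (nat_lit 56) (nat_lit 5) (nat_lit 417) (nat_lit 407) (nat_lit 196)))))) (XT.nd (nat_lit 390) (nat_lit 760) (nat_lit 0) (XT.nd (nat_lit 156) (nat_lit 228) (nat_lit 0) (XT.nd (nat_lit 78) (nat_lit 228) (nat_lit 0) (XT.lf (nat_lit 0) (nat_lit 655889389432) (nat_lit 304) (nat_lit 414568131068) (nat_lit 76) (nat_lit 42477717934) (nat_lit 52) (nat_lit 5) (nat_lit 56) (nat_lit 5) (nat_lit 53) (nat_lit 5) (nat_lit 418) (nat_lit 407) (nat_lit 195)) (XT.lf (nat_lit 0) (nat_lit 195660878245) (nat_lit 228) (nat_lit 643622924041) (nat_lit 304) (nat_lit 324228416604) (nat_lit 49) (nat_lit 5) (nat_lit 52) (nat_lit 5) (nat_lit 53) (nat_lit 5) (nat_lit 419) (nat_lit 407) (nat_lit 194))) (XT.nd (nat_lit 78) (nat_lit 228) (nat_lit 0) (XT.lf (nat_lit 0) (nat_lit 878285057945) (nat_lit 228) (nat_lit 170399731440)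 (nat_lit 304) (nat_lit 168543766703) (nat_lit 49) (nat_lit 5) (nat_lit 52) (nat_lit 5) (nat_lit 53) (nat_lit 5) (nat_lit 420) (nat_lit 407) (nat_lit 193)) (XT.nd (nat_lit 78) (nat_lit 0) (nat_lit 0) (XT.lf (nat_lit 0) (nat_lit 16647632840) (nat_lit 228) (nat_lit 924765110933) (nat_lit 76) (nat_lit 332467694400) (nat_lit 46) (nat_lit 5) (nat_lit 49) (nat_lit 5) (nat_lit 47) (nat_lit 5) (nat_lit 421) (nat_lit 407) (nat_lit 192)) (XT.lf (nat_lit 0) (nat_lit 221482590015) (nat_lit 228) (nat_lit 231872653878) (nat_lit 76) (nat_lit 880244287174) (nat_lit 46) (nat_lit 5) (nat_lit 49) (nat_lit 5) (nat_lit 47) (nat_lit 5) (nat_lit 422) (nat_lit 407) (nat_lit 191))))) (XT.nd (nat_lit 234) (nat_lit 380) (nat_lit 0) (XT.nd (nat_lit 78) (nat_lit 152) (nat_lit 0) (XT.lf (nat_lit 0) (nat_lit 457892268880) (nat_lit 304) (nat_lit 855516793738) (nat_lit 76) (nat_lit 83472054769) (nat_lit 43) (nat_lit 5)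 (nat_lit 47) (nat_lit 5) (nat_lit 44) (nat_lit 5) (nat_lit 423) (nat_lit 407) (nat_lit 190)) (XT.nd (nat_lit 78) (nat_lit 152) (nat_lit 0) (XT.lf (nat_lit 0) (nat_lit 731494657558) (nat_lit 304) (nat_lit 87011121430) (nat_lit 76) (nat_lit 645257056789) (nat_lit 43) (nat_lit 5) (nat_lit 47) (nat_lit 5) (nat_lit 44) (nat_lit 5) (nat_lit 424) (nat_lit 407) (nat_lit 189)) (XT.lf (nat_lit 0) (nat_lit 782098744949) (nat_lit 152) (nat_lit 263695981358) (nat_lit 228) (nat_lit 488695606213) (nat_lit 41) (nat_lit 5) (nat_lit 43) (nat_lit 5) (nat_lit 44) (nat_lit 5) (nat_lit 425) (nat_lit 407) (nat_lit 188)))) (XT.nd (nat_lit 78) (nat_lit 228) (nat_lit 0) (XT.lf (nat_lit 0) (nat_lit 112497105914) (nat_lit 152) (nat_lit 1285956829107) (nat_lit 228) (nat_lit 211364883230) (nat_lit 39) (nat_lit 5) (nat_lit 41) (nat_lit 5) (nat_lit 42) (nat_lit 5) (nat_lit 426) (nat_lit 407) (nat_lit 187)) (XT.nd (nat_lit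 78) (nat_lit 152) (nat_lit 0) (XT.lf (nat_lit 0) (nat_lit 111697854211) (nat_lit 228) (nat_lit 609665422343) (nat_lit 76) (nat_lit 967404277771) (nat_lit 38) (nat_lit 5) (nat_lit 41) (nat_lit 5) (nat_lit 39) (nat_lit 5) (nat_lit 427) (nat_lit 407) (nat_lit 186)) (XT.lf (nat_lit 0) (nat_lit 361602172889) (nat_lit 152) (nat_lit 96280780916) (nat_lit 228) (nat_lit 1315014312778) (nat_lit 36) (nat_lit 5) (nat_lit 38) (nat_lit 5) (nat_lit 39) (nat_lit 5) (nat_lit 428) (nat_lit 407) (nat_lit 185))))))) (XT.nd (nat_lit 780) (nat_lit 684) (nat_lit 0) (XT.nd (nat_lit 390) (nat_lit 304) (nat_lit 0) (XT.nd (nat_lit 156) (nat_lit 304) (nat_lit 0) (XT.nd (nat_lit 78) (nat_lit 152) (nat_lit 0) (XT.lf (nat_lit 0) (nat_lit 862785514008) (nat_lit 228) (nat_lit 431533750521) (nat_lit 76) (nat_lit 566956279083) (nat_lit 36) (nat_lit 5) (nat_lit 39) (nat_lit 5) (nat_lit 37) (nat_lit 5) (nat_lit 429) (nat_lit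 407) (nat_lit 184)) (XT.lf (nat_lit 0) (nat_lit 656972099969) (nat_lit 152) (nat_lit 661409169665) (nat_lit 228) (nat_lit 636878733922) (nat_lit 34) (nat_lit 5) (nat_lit 36) (nat_lit 5) (nat_lit 37) (nat_lit 5) (nat_lit 430) (nat_lit 407) (nat_lit 183))) (XT.nd (nat_lit 78) (nat_lit 304) (nat_lit 0) (XT.lf (nat_lit 0) (nat_lit 1823062361256) (nat_lit 228) (nat_lit 199557970824) (nat_lit 76) (nat_lit 33131874175) (nat_lit 34) (nat_lit 5) (nat_lit 37) (nat_lit 5) (nat_lit 35) (nat_lit 4) (nat_lit 431) (nat_lit 407) (nat_lit 182)) (XT.nd (nat_lit 78) (nat_lit 152) (nat_lit 0) (XT.lf (nat_lit 0) (nat_lit 236455191523) (nat_lit 152) (nat_lit 1145967672402) (nat_lit 76) (nat_lit 778043332223) (nat_lit 32) (nat_lit 5) (nat_lit 34) (nat_lit 5) (nat_lit 33) (nat_lit 5) (nat_lit 432) (nat_lit 407) (nat_lit 181)) (XT.lf (nat_lit 0) (nat_lit 60761700241) (nat_lit 152) (nat_lit 676858142076) (nat_lit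 228) (nat_lit 1534889207001) (nat_lit 30) (nat_lit 5) (nat_lit 32) (nat_lit 5) (nat_lit 33) (nat_lit 5) (nat_lit 433) (nat_lit 407) (nat_lit 180))))) (XT.nd (nat_lit 156) (nat_lit 228) (nat_lit 0) (XT.nd (nat_lit 78) (nat_lit 76) (nat_lit 0) (XT.lf (nat_lit 0) (nat_lit 1313072189359) (nat_lit 228) (nat_lit 964668834160) (nat_lit 76) (nat_lit 113038745289) (nat_lit 30) (nat_lit 5) (nat_lit 33) (nat_lit 5) (nat_lit 31) (nat_lit 4) (nat_lit 434) (nat_lit 407) (nat_lit 179)) (XT.lf (nat_lit 0) (nat_lit 383794164296) (nat_lit 76) (nat_lit 1577577546704) (nat_lit 152) (nat_lit 554995555911) (nat_lit 29) (nat_lit 5) (nat_lit 30) (nat_lit 5) (nat_lit 31) (nat_lit 4) (nat_lit 435) (nat_lit 407) (nat_lit 178))) (XT.nd (nat_lit 78) (nat_lit 152) (nat_lit 0) (XT.lf (nat_lit 0) (nat_lit 36117365796) (nat_lit 152) (nat_lit 755810299386) (nat_lit 76) (nat_lit 1857890890381) (nat_lit 28) (nat_lit 5) (nat_lit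 30) (nat_lit 5) (nat_lit 29) (nat_lit 5) (nat_lit 436) (nat_lit 407) (nat_lit 177)) (XT.nd (nat_lit 78) (nat_lit 0) (nat_lit 0) (XT.lf (nat_lit 0) (nat_lit 664885196140) (nat_lit 228) (nat_lit 2039130464508) (nat_lit 76) (nat_lit 87149045111) (nat_lit 26) (nat_lit 5) (nat_lit 29) (nat_lit 5) (nat_lit 27) (nat_lit 4) (nat_lit 437) (nat_lit 407) (nat_lit 176)) (XT.lf (nat_lit 0) (nat_lit 1385725951195) (nat_lit 228) (nat_lit 539781698815) (nat_lit 76) (nat_lit 1014969178099) (nat_lit 26) (nat_lit 5) (nat_lit 29) (nat_lit 5) (nat_lit 27) (nat_lit 4) (nat_lit 438) (nat_lit 407) (nat_lit 175)))))) (XT.nd (nat_lit 390) (nat_lit 380) (nat_lit 0) (XT.nd (nat_lit 156) (nat_lit 228) (nat_lit 0) (XT.nd (nat_lit 78) (nat_lit 0) (nat_lit 0) (XT.lf (nat_lit 0) (nat_lit 1136360308561) (nat_lit 76) (nat_lit 1055203148326) (nat_lit 152) (nat_lit 907984104142) (nat_lit 25) (nat_lit 5) (nat_lit 26) (nat_lit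 5) (nat_lit 27) (nat_lit 4) (nat_lit 439) (nat_lit 407) (nat_lit 174)) (XT.lf (nat_lit 0) (nat_lit 2977291535649) (nat_lit 76) (nat_lit 99335013171) (nat_lit 152) (nat_lit 193536716900) (nat_lit 25) (nat_lit 5) (nat_lit 26) (nat_lit 5) (nat_lit 27) (nat_lit 4) (nat_lit 440) (nat_lit 407) (nat_lit 173))) (XT.nd (nat_lit 78) (nat_lit 76) (nat_lit 0) (XT.lf (nat_lit 0) (nat_lit 610836513929) (nat_lit 152) (nat_lit 1898063467437) (nat_lit 76) (nat_lit 939481062182) (nat_lit 23) (nat_lit 5) (nat_lit 25) (nat_lit 5) (nat_lit 24) (nat_lit 4) (nat_lit 441) (nat_lit 407) (nat_lit 172)) (XT.nd (nat_lit 78) (nat_lit 76) (nat_lit 0) (XT.lf (nat_lit 0) (nat_lit 1479899344071) (nat_lit 152) (nat_lit 90412784023) (nat_lit 76) (nat_lit 2069278301254) (nat_lit 23) (nat_lit 5) (nat_lit 25) (nat_lit 5) (nat_lit 24) (nat_lit 4) (nat_lit 442) (nat_lit 407) (nat_lit 171)) (XT.lf (nat_lit 0) (nat_lit 1959891669063)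 (nat_lit 76) (nat_lit 505730971221) (nat_lit 152) (nat_lit 1376703090556) (nat_lit 22) (nat_lit 5) (nat_lit 23) (nat_lit 5) (nat_lit 24) (nat_lit 4) (nat_lit 443) (nat_lit 407) (nat_lit 170))))) (XT.nd (nat_lit 234) (nat_lit 152) (nat_lit 0) (XT.nd (nat_lit 78) (nat_lit 152) (nat_lit 0) (XT.lf (nat_lit 0) (nat_lit 108136854673) (nat_lit 76) (nat_lit 3442692508705) (nat_lit 76) (nat_lit 508800448018) (nat_lit 21) (nat_lit 4) (nat_lit 22) (nat_lit 5) (nat_lit 22) (nat_lit 4) (nat_lit 444) (nat_lit 407) (nat_lit 169)) (XT.nd (nat_lit 78) (nat_lit 76) (nat_lit 0) (XT.lf (nat_lit 0) (nat_lit 473039189176) (nat_lit 152) (nat_lit 1949970549612) (nat_lit 76) (nat_lit 1865208633803) (nat_lit 20) (nat_lit 5) (nat_lit 22) (nat_lit 5) (nat_lit 21) (nat_lit 4) (nat_lit 445) (nat_lit 407) (nat_lit 168)) (XT.lf (nat_lit 0) (nat_lit 208908499612) (nat_lit 76) (nat_lit 1302053310456) (nat_lit 152) (nat_lit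 3022673020728) (nat_lit 19) (nat_lit 5) (nat_lit 20) (nat_lit 5) (nat_lit 21) (nat_lit 4) (nat_lit 446) (nat_lit 407) (nat_lit 167)))) (XT.nd (nat_lit 78) (nat_lit 152) (nat_lit 0) (XT.lf (nat_lit 0) (nat_lit 2651394422206) (nat_lit 76) (nat_lit 33839467026) (nat_lit 152) (nat_lit 2109185464539) (nat_lit 19) (nat_lit 5) (nat_lit 20) (nat_lit 5) (nat_lit 21) (nat_lit 4) (nat_lit 447) (nat_lit 407) (nat_lit 166)) (XT.nd (nat_lit 78) (nat_lit 76) (nat_lit 0) (XT.lf (nat_lit 0) (nat_lit 190621454499) (nat_lit 76) (nat_lit 3799537508341) (nat_lit 76) (nat_lit 1082970777495) (nat_lit 18) (nat_lit 4) (nat_lit 19) (nat_lit 5) (nat_lit 19) (nat_lit 4) (nat_lit 448) (nat_lit 407) (nat_lit 165)) (XT.lf (nat_lit 0) (nat_lit 85068390319) (nat_lit 152) (nat_lit 2539624480622) (nat_lit 76) (nat_lit 2744515733029) (nat_lit 17) (nat_lit 5) (nat_lit 19) (nat_lit 5) (nat_lit 18) (nat_lit 4) (nat_lit 449)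 (nat_lit 407) (nat_lit 164))))))))
noncomputable def xc236 : XT := (XT.nd (nat_lit 51012) (nat_lit 0) (nat_lit 684) (XT.nd (nat_lit 50232) (nat_lit 0) (nat_lit 2432) (XT.nd (nat_lit 49842) (nat_lit 0) (nat_lit 3800) (XT.nd (nat_lit 156) (nat_lit 152) (nat_lit 0) (XT.nd (nat_lit 78) (nat_lit 76) (nat_lit 0) (XT.lf (nat_lit 0) (nat_lit 1288042138831) (nat_lit 152) (nat_lit 37439085236) (nat_lit 76) (nat_lit 4361242223871) (nat_lit 17) (nat_lit 5) (nat_lit 19) (nat_lit 5) (nat_lit 18) (nat_lit 4) (nat_lit 450) (nat_lit 407) (nat_lit 163)) (XT.lf (nat_lit 0) (nat_lit 2658340418304) (nat_lit 152) (nat_lit 3222611282157) (nat_lit 0) (nat_lit 143000848477) (nat_lit 16) (nat_lit 5) (nat_lit 18) (nat_lit 4) (nat_lit 16) (nat_lit 4) (nat_lit 451) (nat_lit 407) (nat_lit 162))) (XT.nd (nat_lit 78) (nat_lit 152) (nat_lit 0) (XT.lf (nat_lit 0) (nat_lit 4173740881651) (nat_lit 152) (nat_lit 553179520027)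 (nat_lit 0) (nat_lit 1658401310618) (nat_lit 16) (nat_lit 5) (nat_lit 18) (nat_lit 4) (nat_lit 16) (nat_lit 4) (nat_lit 452) (nat_lit 407) (nat_lit 161)) (XT.nd (nat_lit 78) (nat_lit 76) (nat_lit 0) (XT.lf (nat_lit 0) (nat_lit 2452490276651) (nat_lit 76) (nat_lit 3416865554162) (nat_lit 76) (nat_lit 901525982012) (nat_lit 15) (nat_lit 4) (nat_lit 16) (nat_lit 5) (nat_lit 16) (nat_lit 4) (nat_lit 453) (nat_lit 407) (nat_lit 160)) (XT.lf (nat_lit 0) (nat_lit 503172007884) (nat_lit 152) (nat_lit 1468741796784) (nat_lit 76) (nat_lit 5213143841615) (nat_lit 14) (nat_lit 5) (nat_lit 16) (nat_lit 5) (nat_lit 15) (nat_lit 4) (nat_lit 454) (nat_lit 407) (nat_lit 159))))) (XT.nd (nat_lit 156) (nat_lit 0) (nat_lit 76) (XT.nd (nat_lit 78) (nat_lit 0) (nat_lit 0) (XT.lf (nat_lit 0) (nat_lit 336098277190) (nat_lit 532) (nat_lit 22510127392) (nat_lit 532) (nat_lit 22510127392) (nat_lit 64) (nat_lit 3)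 (nat_lit 71) (nat_lit 3) (nat_lit 71) (nat_lit 5) (nat_lit 408) (nat_lit 408) (nat_lit 204)) (XT.lf (nat_lit 76) (nat_lit 342588743732) (nat_lit 0) (nat_lit 364735045724) (nat_lit 532) (nat_lit 84743607121) (nat_lit 65) (nat_lit 5) (nat_lit 64) (nat_lit 3) (nat_lit 71) (nat_lit 5) (nat_lit 409) (nat_lit 408) (nat_lit 203))) (XT.nd (nat_lit 78) (nat_lit 0) (nat_lit 0) (XT.lf (nat_lit 0) (nat_lit 746907582469) (nat_lit 456) (nat_lit 60834340351) (nat_lit 532) (nat_lit 16410522672) (nat_lit 65) (nat_lit 5) (nat_lit 71) (nat_lit 5) (nat_lit 72) (nat_lit 5) (nat_lit 410) (nat_lit 408) (nat_lit 202)) (XT.nd (nat_lit 78) (nat_lit 0) (nat_lit 0) (XT.lf (nat_lit 76) (nat_lit 367828125691) (nat_lit 0) (nat_lit 440149856262) (nat_lit 532) (nat_lit 49360724136) (nat_lit 66) (nat_lit 5) (nat_lit 65) (nat_lit 5) (nat_lit 72) (nat_lit 5) (nat_lit 411) (nat_lit 408) (nat_lit 201)) (XT.lf (nat_lit 76)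 (nat_lit 834243285561) (nat_lit 0) (nat_lit 41354037290) (nat_lit 532) (nat_lit 17449479933) (nat_lit 66) (nat_lit 5) (nat_lit 65) (nat_lit 5) (nat_lit 72) (nat_lit 5) (nat_lit 412) (nat_lit 408) (nat_lit 200)))))) (XT.nd (nat_lit 390) (nat_lit 684) (nat_lit 0) (XT.nd (nat_lit 156) (nat_lit 304) (nat_lit 0) (XT.nd (nat_lit 78) (nat_lit 0) (nat_lit 0) (XT.lf (nat_lit 0) (nat_lit 36082087992) (nat_lit 532) (nat_lit 513070413257) (nat_lit 608) (nat_lit 380832824402) (nat_lit 59) (nat_lit 5) (nat_lit 66) (nat_lit 5) (nat_lit 67) (nat_lit 5) (nat_lit 413) (nat_lit 408) (nat_lit 199)) (XT.lf (nat_lit 0) (nat_lit 95677132040) (nat_lit 532) (nat_lit 37284414229) (nat_lit 608) (nat_lit 836663231358) (nat_lit 59) (nat_lit 5) (nat_lit 66) (nat_lit 5) (nat_lit 67) (nat_lit 5) (nat_lit 414) (nat_lit 408) (nat_lit 198))) (XT.nd (nat_lit 78) (nat_lit 380) (nat_lit 0) (XT.lf (nat_lit 0) (nat_lit 180030495948)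 (nat_lit 532) (nat_lit 517736495274) (nat_lit 76) (nat_lit 313069137237) (nat_lit 60) (nat_lit 5) (nat_lit 67) (nat_lit 5) (nat_lit 61) (nat_lit 5) (nat_lit 415) (nat_lit 408) (nat_lit 197)) (XT.nd (nat_lit 78) (nat_lit 0) (nat_lit 0) (XT.lf (nat_lit 0) (nat_lit 9781233433) (nat_lit 380) (nat_lit 266085574379) (nat_lit 456) (nat_lit 779098805246) (nat_lit 55) (nat_lit 5) (nat_lit 60) (nat_lit 5) (nat_lit 61) (nat_lit 5) (nat_lit 416) (nat_lit 408) (nat_lit 196)) (XT.lf (nat_lit 0) (nat_lit 398706674978) (nat_lit 456) (nat_lit 497729307109) (nat_lit 76) (nat_lit 204642542315) (nat_lit 55) (nat_lit 5) (nat_lit 61) (nat_lit 5) (nat_lit 56) (nat_lit 5) (nat_lit 417) (nat_lit 408) (nat_lit 195))))) (XT.nd (nat_lit 156) (nat_lit 456) (nat_lit 0) (XT.nd (nat_lit 78) (nat_lit 0) (nat_lit 0) (XT.lf (nat_lit 0) (nat_lit 91171624867) (nat_lit 228) (nat_lit 449306093754) (nat_lit 304) (nat_lit 609674431069)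 (nat_lit 52) (nat_lit 5) (nat_lit 55) (nat_lit 5) (nat_lit 56) (nat_lit 5) (nat_lit 418) (nat_lit 408) (nat_lit 194)) (XT.lf (nat_lit 0) (nat_lit 708360657408) (nat_lit 304) (nat_lit 447733446050) (nat_lit 76) (nat_lit 45875944615) (nat_lit 52) (nat_lit 5) (nat_lit 56) (nat_lit 5) (nat_lit 53) (nat_lit 5) (nat_lit 419) (nat_lit 408) (nat_lit 193))) (XT.nd (nat_lit 78) (nat_lit 228) (nat_lit 0) (XT.lf (nat_lit 0) (nat_lit 211313880577) (nat_lit 228) (nat_lit 695112737235) (nat_lit 304) (nat_lit 350166569597) (nat_lit 49) (nat_lit 5) (nat_lit 52) (nat_lit 5) (nat_lit 53) (nat_lit 5) (nat_lit 420) (nat_lit 408) (nat_lit 192)) (XT.nd (nat_lit 78) (nat_lit 228) (nat_lit 0) (XT.lf (nat_lit 0) (nat_lit 948547984870) (nat_lit 228) (nat_lit 184031690762) (nat_lit 304) (nat_lit 182027156618) (nat_lit 49) (nat_lit 5) (nat_lit 52) (nat_lit 5) (nat_lit 53) (nat_lit 5) (nat_lit 421) (nat_lit 408) (nat_lit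 191)) (XT.lf (nat_lit 0) (nat_lit 17979545043) (nat_lit 228) (nat_lit 998746187535) (nat_lit 76) (nat_lit 359065132457) (nat_lit 46) (nat_lit 5) (nat_lit 49) (nat_lit 5) (nat_lit 47) (nat_lit 5) (nat_lit 422) (nat_lit 408) (nat_lit 190))))))) (XT.nd (nat_lit 780) (nat_lit 836) (nat_lit 0) (XT.nd (nat_lit 390) (nat_lit 380) (nat_lit 0) (XT.nd (nat_lit 156) (nat_lit 304) (nat_lit 0) (XT.nd (nat_lit 78) (nat_lit 228) (nat_lit 0) (XT.lf (nat_lit 0) (nat_lit 239201291268) (nat_lit 228) (nat_lit 250422343713) (nat_lit 76) (nat_lit 950663850986) (nat_lit 46) (nat_lit 5) (nat_lit 49) (nat_lit 5) (nat_lit 47) (nat_lit 5) (nat_lit 423) (nat_lit 408) (nat_lit 189)) (XT.lf (nat_lit 0) (nat_lit 494523741054) (nat_lit 304) (nat_lit 923958011317) (nat_lit 76) (nat_lit 90149847098) (nat_lit 43) (nat_lit 5) (nat_lit 47) (nat_lit 5) (nat_lit 44) (nat_lit 5) (nat_lit 424) (nat_lit 408) (nat_lit 188))) (XT.nd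 (nat_lit 78) (nat_lit 304) (nat_lit 0) (XT.lf (nat_lit 0) (nat_lit 790014314110) (nat_lit 304) (nat_lit 93971894551) (nat_lit 76) (nat_lit 696877647209) (nat_lit 43) (nat_lit 5) (nat_lit 47) (nat_lit 5) (nat_lit 44) (nat_lit 5) (nat_lit 425) (nat_lit 408) (nat_lit 187)) (XT.nd (nat_lit 78) (nat_lit 152) (nat_lit 0) (XT.lf (nat_lit 0) (nat_lit 844666758186) (nat_lit 152) (nat_lit 284791626688) (nat_lit 228) (nat_lit 527791167763) (nat_lit 41) (nat_lit 5) (nat_lit 43) (nat_lit 5) (nat_lit 44) (nat_lit 5) (nat_lit 426) (nat_lit 408) (nat_lit 186)) (XT.lf (nat_lit 0) (nat_lit 121496990695) (nat_lit 152) (nat_lit 1388833337165) (nat_lit 228) (nat_lit 228273989562) (nat_lit 39) (nat_lit 5) (nat_lit 41) (nat_lit 5) (nat_lit 42) (nat_lit 5) (nat_lit 427) (nat_lit 408) (nat_lit 185))))) (XT.nd (nat_lit 156) (nat_lit 152) (nat_lit 0) (XT.nd (nat_lit 78) (nat_lit 152) (nat_lit 0) (XT.lf (nat_lit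 0) (nat_lit 120633756722) (nat_lit 228) (nat_lit 658438544493) (nat_lit 76) (nat_lit 1044796651483) (nat_lit 38) (nat_lit 5) (nat_lit 41) (nat_lit 5) (nat_lit 39) (nat_lit 5) (nat_lit 428) (nat_lit 408) (nat_lit 184)) (XT.lf (nat_lit 0) (nat_lit 390530455530) (nat_lit 152) (nat_lit 103983205875) (nat_lit 228) (nat_lit 1420215380764) (nat_lit 36) (nat_lit 5) (nat_lit 38) (nat_lit 5) (nat_lit 39) (nat_lit 5) (nat_lit 429) (nat_lit 408) (nat_lit 183))) (XT.nd (nat_lit 78) (nat_lit 152) (nat_lit 0) (XT.lf (nat_lit 0) (nat_lit 931808421979) (nat_lit 228) (nat_lit 466056345333) (nat_lit 76) (nat_lit 612312814408) (nat_lit 36) (nat_lit 5) (nat_lit 39) (nat_lit 5) (nat_lit 37) (nat_lit 5) (nat_lit 430) (nat_lit 408) (nat_lit 182)) (XT.nd (nat_lit 78) (nat_lit 0) (nat_lit 0) (XT.lf (nat_lit 0) (nat_lit 709529970533) (nat_lit 152) (nat_lit 714321865038) (nat_lit 228) (nat_lit 687828963091) (nat_lit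 34) (nat_lit 5) (nat_lit 36) (nat_lit 5) (nat_lit 37) (nat_lit 5) (nat_lit 431) (nat_lit 408) (nat_lit 181)) (XT.lf (nat_lit 0) (nat_lit 1968907410605) (nat_lit 228) (nat_lit 215522509576) (nat_lit 76) (nat_lit 35782457710) (nat_lit 34) (nat_lit 5) (nat_lit 37) (nat_lit 5) (nat_lit 35) (nat_lit 4) (nat_lit 432) (nat_lit 408) (nat_lit 180)))))) (XT.nd (nat_lit 390) (nat_lit 380) (nat_lit 0) (XT.nd (nat_lit 156) (nat_lit 152) (nat_lit 0) (XT.nd (nat_lit 78) (nat_lit 152) (nat_lit 0) (XT.lf (nat_lit 0) (nat_lit 255371666673) (nat_lit 152) (nat_lit 1237644986609) (nat_lit 76) (nat_lit 840286833747) (nat_lit 32) (nat_lit 5) (nat_lit 34) (nat_lit 5) (nat_lit 33) (nat_lit 5) (nat_lit 433) (nat_lit 408) (nat_lit 179)) (XT.lf (nat_lit 0) (nat_lit 65622733323) (nat_lit 152) (nat_lit 731006754110) (nat_lit 228) (nat_lit 1657680281189) (nat_lit 30) (nat_lit 5) (nat_lit 32) (nat_lit 5) (nat_lit 33)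 (nat_lit 5) (nat_lit 434) (nat_lit 408) (nat_lit 178))) (XT.nd (nat_lit 78) (nat_lit 152) (nat_lit 0) (XT.lf (nat_lit 0) (nat_lit 1418118018838) (nat_lit 228) (nat_lit 1041842247598) (nat_lit 76) (nat_lit 122081879509) (nat_lit 30) (nat_lit 5) (nat_lit 33) (nat_lit 5) (nat_lit 31) (nat_lit 4) (nat_lit 435) (nat_lit 408) (nat_lit 177)) (XT.nd (nat_lit 78) (nat_lit 76) (nat_lit 0) (XT.lf (nat_lit 0) (nat_lit 414497788372) (nat_lit 76) (nat_lit 1703783712001) (nat_lit 152) (nat_lit 599395143672) (nat_lit 29) (nat_lit 5) (nat_lit 30) (nat_lit 5) (nat_lit 31) (nat_lit 4) (nat_lit 436) (nat_lit 408) (nat_lit 176)) (XT.lf (nat_lit 0) (nat_lit 39006804944) (nat_lit 152) (nat_lit 816275036497) (nat_lit 76) (nat_lit 2006522194561) (nat_lit 28) (nat_lit 5) (nat_lit 30) (nat_lit 5) (nat_lit 29) (nat_lit 5) (nat_lit 437) (nat_lit 408) (nat_lit 175))))) (XT.nd (nat_lit 234) (nat_lit 152) (nat_lit 0)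 (XT.nd (nat_lit 78) (nat_lit 76) (nat_lit 0) (XT.lf (nat_lit 0) (nat_lit 718076060932) (nat_lit 228) (nat_lit 2202260814030) (nat_lit 76) (nat_lit 94121003315) (nat_lit 26) (nat_lit 5) (nat_lit 29) (nat_lit 5) (nat_lit 27) (nat_lit 4) (nat_lit 438) (nat_lit 408) (nat_lit 174)) (XT.nd (nat_lit 78) (nat_lit 76) (nat_lit 0) (XT.lf (nat_lit 0) (nat_lit 1496584072754) (nat_lit 228) (nat_lit 582964153573) (nat_lit 76) (nat_lit 1096166744380) (nat_lit 26) (nat_lit 5) (nat_lit 29) (nat_lit 5) (nat_lit 27) (nat_lit 4) (nat_lit 439) (nat_lit 408) (nat_lit 173)) (XT.lf (nat_lit 0) (nat_lit 1227269212339) (nat_lit 76) (nat_lit 1139619365097) (nat_lit 152) (nat_lit 980622784942) (nat_lit 25) (nat_lit 5) (nat_lit 26) (nat_lit 5) (nat_lit 27) (nat_lit 4) (nat_lit 440) (nat_lit 408) (nat_lit 172)))) (XT.nd (nat_lit 78) (nat_lit 152) (nat_lit 0) (XT.lf (nat_lit 0) (nat_lit 3215474931736) (nat_lit 76) (nat_lit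 107281781729) (nat_lit 152) (nat_lit 209019610242) (nat_lit 25) (nat_lit 5) (nat_lit 26) (nat_lit 5) (nat_lit 27) (nat_lit 4) (nat_lit 441) (nat_lit 408) (nat_lit 171)) (XT.nd (nat_lit 78) (nat_lit 0) (nat_lit 0) (XT.lf (nat_lit 0) (nat_lit 659703476319) (nat_lit 152) (nat_lit 2049908468841) (nat_lit 76) (nat_lit 1014639578560) (nat_lit 23) (nat_lit 5) (nat_lit 25) (nat_lit 5) (nat_lit 24) (nat_lit 4) (nat_lit 442) (nat_lit 408) (nat_lit 170)) (XT.lf (nat_lit 0) (nat_lit 1598291329814) (nat_lit 152) (nat_lit 97645736383) (nat_lit 76) (nat_lit 2234820594432) (nat_lit 23) (nat_lit 5) (nat_lit 25) (nat_lit 5) (nat_lit 24) (nat_lit 4) (nat_lit 443) (nat_lit 408) (nat_lit 169))))))))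
noncomputable def xc237 : XT := (XT.nd (nat_lit 51168) (nat_lit 0) (nat_lit 760) (XT.nd (nat_lit 50388) (nat_lit 0) (nat_lit 2964) (XT.nd (nat_lit 390) (nat_lit 228) (nat_lit 0) (XT.nd (nat_lit 156) (nat_lit 152) (nat_lit 0) (XT.nd (nat_lit 78) (nat_lit 76) (nat_lit 0) (XT.lf (nat_lit 0) (nat_lit 2116683071169) (nat_lit 76) (nat_lit 546189417374) (nat_lit 152) (nat_lit 1486839297792) (nat_lit 22) (nat_lit 5) (nat_lit 23) (nat_lit 5) (nat_lit 24) (nat_lit 4) (nat_lit 444) (nat_lit 408) (nat_lit 168)) (XT.lf (nat_lit 0) (nat_lit 116787872049) (nat_lit 76) (nat_lit 3718107877054) (nat_lit 76) (nat_lit 549504444264) (nat_lit 21) (nat_lit 4) (nat_lit 22) (nat_lit 5) (nat_lit 22) (nat_lit 4) (nat_lit 445) (nat_lit 408) (nat_lit 167))) (XT.nd (nat_lit 78) (nat_lit 76) (nat_lit 0) (XT.lf (nat_lit 0) (nat_lit 510882359138) (nat_lit 152) (nat_lit 2105968127849) (nat_lit 76) (nat_lit 2014425352618)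 (nat_lit 20) (nat_lit 5) (nat_lit 22) (nat_lit 5) (nat_lit 21) (nat_lit 4) (nat_lit 446) (nat_lit 408) (nat_lit 166)) (XT.nd (nat_lit 78) (nat_lit 0) (nat_lit 0) (XT.lf (nat_lit 0) (nat_lit 225621243648) (nat_lit 76) (nat_lit 1406217545015) (nat_lit 152) (nat_lit 3264486825888) (nat_lit 19) (nat_lit 5) (nat_lit 20) (nat_lit 5) (nat_lit 21) (nat_lit 4) (nat_lit 447) (nat_lit 408) (nat_lit 165)) (XT.lf (nat_lit 0) (nat_lit 2863506035304) (nat_lit 76) (nat_lit 36546596353) (nat_lit 152) (nat_lit 2277920267906) (nat_lit 19) (nat_lit 5) (nat_lit 20) (nat_lit 5) (nat_lit 21) (nat_lit 4) (nat_lit 448) (nat_lit 408) (nat_lit 164))))) (XT.nd (nat_lit 156) (nat_lit 76) (nat_lit 0) (XT.nd (nat_lit 78) (nat_lit 76) (nat_lit 0) (XT.lf (nat_lit 0) (nat_lit 205871230467) (nat_lit 76) (nat_lit 4103500480426) (nat_lit 76) (nat_lit 1169608406180) (nat_lit 18) (nat_lit 4) (nat_lit 19) (nat_lit 5) (nat_lit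 19) (nat_lit 4) (nat_lit 449) (nat_lit 408) (nat_lit 163)) (XT.lf (nat_lit 0) (nat_lit 91873891024) (nat_lit 152) (nat_lit 2742794382322) (nat_lit 76) (nat_lit 2964077016579) (nat_lit 17) (nat_lit 5) (nat_lit 19) (nat_lit 5) (nat_lit 18) (nat_lit 4) (nat_lit 450) (nat_lit 408) (nat_lit 162))) (XT.nd (nat_lit 78) (nat_lit 76) (nat_lit 0) (XT.lf (nat_lit 0) (nat_lit 1391085537233) (nat_lit 152) (nat_lit 40434159509) (nat_lit 76) (nat_lit 4710141624843) (nat_lit 17) (nat_lit 5) (nat_lit 19) (nat_lit 5) (nat_lit 18) (nat_lit 4) (nat_lit 451) (nat_lit 408) (nat_lit 161)) (XT.nd (nat_lit 78) (nat_lit 0) (nat_lit 0) (XT.lf (nat_lit 0) (nat_lit 2871007678869) (nat_lit 152) (nat_lit 3480420131983) (nat_lit 0) (nat_lit 154440939830) (nat_lit 16) (nat_lit 5) (nat_lit 18) (nat_lit 4) (nat_lit 16) (nat_lit 4) (nat_lit 452) (nat_lit 408) (nat_lit 160)) (XT.lf (nat_lit 0) (nat_lit 4507640177276) (nat_lit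 152) (nat_lit 597433832790) (nat_lit 0) (nat_lit 1791073437203) (nat_lit 16) (nat_lit 5) (nat_lit 18) (nat_lit 4) (nat_lit 16) (nat_lit 4) (nat_lit 453) (nat_lit 408) (nat_lit 159)))))) (XT.nd (nat_lit 390) (nat_lit 684) (nat_lit 0) (XT.nd (nat_lit 156) (nat_lit 0) (nat_lit 76) (XT.nd (nat_lit 78) (nat_lit 0) (nat_lit 0) (XT.lf (nat_lit 0) (nat_lit 362986242205) (nat_lit 532) (nat_lit 24310882001) (nat_lit 532) (nat_lit 24310882001) (nat_lit 64) (nat_lit 3) (nat_lit 71) (nat_lit 3) (nat_lit 71) (nat_lit 5) (nat_lit 409) (nat_lit 409) (nat_lit 202)) (XT.lf (nat_lit 76) (nat_lit 369995951580) (nat_lit 0) (nat_lit 393913934082) (nat_lit 532) (nat_lit 91522887017) (nat_lit 65) (nat_lit 5) (nat_lit 64) (nat_lit 3) (nat_lit 71) (nat_lit 5) (nat_lit 410) (nat_lit 409) (nat_lit 201))) (XT.nd (nat_lit 78) (nat_lit 0) (nat_lit 0) (XT.lf (nat_lit 0) (nat_lit 806660365930) (nat_lit 456) (nat_lit 65700970903)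 (nat_lit 532) (nat_lit 17723289983) (nat_lit 65) (nat_lit 5) (nat_lit 71) (nat_lit 5) (nat_lit 72) (nat_lit 5) (nat_lit 411) (nat_lit 409) (nat_lit 200)) (XT.nd (nat_lit 78) (nat_lit 0) (nat_lit 0) (XT.lf (nat_lit 76) (nat_lit 397254489469) (nat_lit 0) (nat_lit 475361897538) (nat_lit 532) (nat_lit 53309402095) (nat_lit 66) (nat_lit 5) (nat_lit 65) (nat_lit 5) (nat_lit 72) (nat_lit 5) (nat_lit 412) (nat_lit 409) (nat_lit 199)) (XT.lf (nat_lit 76) (nat_lit 900982853705) (nat_lit 0) (nat_lit 44662409139) (nat_lit 532) (nat_lit 18845271687) (nat_lit 66) (nat_lit 5) (nat_lit 65) (nat_lit 5) (nat_lit 72) (nat_lit 5) (nat_lit 413) (nat_lit 409) (nat_lit 198))))) (XT.nd (nat_lit 156) (nat_lit 304) (nat_lit 0) (XT.nd (nat_lit 78) (nat_lit 0) (nat_lit 0) (XT.lf (nat_lit 0) (nat_lit 38968803354) (nat_lit 532) (nat_lit 554115922446) (nat_lit 608) (nat_lit 411299413915) (nat_lit 59) (nat_lit 5) (nat_lit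 66) (nat_lit 5) (nat_lit 67) (nat_lit 5) (nat_lit 414) (nat_lit 409) (nat_lit 197)) (XT.lf (nat_lit 0) (nat_lit 103331439939) (nat_lit 532) (nat_lit 40267052671) (nat_lit 608) (nat_lit 903596256127) (nat_lit 59) (nat_lit 5) (nat_lit 66) (nat_lit 5) (nat_lit 67) (nat_lit 5) (nat_lit 415) (nat_lit 409) (nat_lit 196))) (XT.nd (nat_lit 78) (nat_lit 380) (nat_lit 0) (XT.lf (nat_lit 0) (nat_lit 194433065041) (nat_lit 532) (nat_lit 559155292176) (nat_lit 76) (nat_lit 338114651061) (nat_lit 60) (nat_lit 5) (nat_lit 67) (nat_lit 5) (nat_lit 61) (nat_lit 5) (nat_lit 416) (nat_lit 409) (nat_lit 195)) (XT.nd (nat_lit 78) (nat_lit 0) (nat_lit 0) (XT.lf (nat_lit 0) (nat_lit 10563851722) (nat_lit 380) (nat_lit 287372423423) (nat_lit 456) (nat_lit 841426577045) (nat_lit 55) (nat_lit 5) (nat_lit 60) (nat_lit 5) (nat_lit 61) (nat_lit 5) (nat_lit 417) (nat_lit 409) (nat_lit 194)) (XT.lf (nat_lit 0) (nat_lit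 430603322525) (nat_lit 456) (nat_lit 537547531677) (nat_lit 76) (nat_lit 221013942979) (nat_lit 55) (nat_lit 5) (nat_lit 61) (nat_lit 5) (nat_lit 56) (nat_lit 5) (nat_lit 418) (nat_lit 409) (nat_lit 193))))))) (XT.nd (nat_lit 780) (nat_lit 988) (nat_lit 0) (XT.nd (nat_lit 390) (nat_lit 532) (nat_lit 0) (XT.nd (nat_lit 156) (nat_lit 456) (nat_lit 0) (XT.nd (nat_lit 78) (nat_lit 0) (nat_lit 0) (XT.lf (nat_lit 0) (nat_lit 98465471819) (nat_lit 228) (nat_lit 485250572242) (nat_lit 304) (nat_lit 658448268884) (nat_lit 52) (nat_lit 5) (nat_lit 55) (nat_lit 5) (nat_lit 56) (nat_lit 5) (nat_lit 419) (nat_lit 409) (nat_lit 192)) (XT.lf (nat_lit 0) (nat_lit 765029610156) (nat_lit 304) (nat_lit 483552005561) (nat_lit 76) (nat_lit 49546028112) (nat_lit 52) (nat_lit 5) (nat_lit 56) (nat_lit 5) (nat_lit 53) (nat_lit 5) (nat_lit 420) (nat_lit 409) (nat_lit 191))) (XT.nd (nat_lit 78) (nat_lit 228) (nat_lit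 0) (XT.lf (nat_lit 0) (nat_lit 228219104255) (nat_lit 228) (nat_lit 750721738442) (nat_lit 304) (nat_lit 378179791997) (nat_lit 49) (nat_lit 5) (nat_lit 52) (nat_lit 5) (nat_lit 53) (nat_lit 5) (nat_lit 421) (nat_lit 409) (nat_lit 190)) (XT.nd (nat_lit 78) (nat_lit 228) (nat_lit 0) (XT.lf (nat_lit 0) (nat_lit 1024431928504) (nat_lit 228) (nat_lit 198754209568) (nat_lit 304) (nat_lit 196589233622) (nat_lit 49) (nat_lit 5) (nat_lit 52) (nat_lit 5) (nat_lit 53) (nat_lit 5) (nat_lit 422) (nat_lit 409) (nat_lit 189)) (XT.lf (nat_lit 0) (nat_lit 19417995731) (nat_lit 228) (nat_lit 1078645769134) (nat_lit 76) (nat_lit 387790362348) (nat_lit 46) (nat_lit 5) (nat_lit 49) (nat_lit 5) (nat_lit 47) (nat_lit 5) (nat_lit 423) (nat_lit 409) (nat_lit 188))))) (XT.nd (nat_lit 156) (nat_lit 304) (nat_lit 0) (XT.nd (nat_lit 78) (nat_lit 228) (nat_lit 0) (XT.lf (nat_lit 0) (nat_lit 258337475203) (nat_lit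 228) (nat_lit 270456026207) (nat_lit 76) (nat_lit 1026716976931) (nat_lit 46) (nat_lit 5) (nat_lit 49) (nat_lit 5) (nat_lit 47) (nat_lit 5) (nat_lit 424) (nat_lit 409) (nat_lit 187)) (XT.lf (nat_lit 0) (nat_lit 534085718068) (nat_lit 304) (nat_lit 997874544266) (nat_lit 76) (nat_lit 97361858826) (nat_lit 43) (nat_lit 5) (nat_lit 47) (nat_lit 5) (nat_lit 44) (nat_lit 5) (nat_lit 425) (nat_lit 409) (nat_lit 186))) (XT.nd (nat_lit 78) (nat_lit 304) (nat_lit 0) (XT.lf (nat_lit 0) (nat_lit 853215531210) (nat_lit 304) (nat_lit 101489546156) (nat_lit 76) (nat_lit 752627881171) (nat_lit 43) (nat_lit 5) (nat_lit 47) (nat_lit 5) (nat_lit 44) (nat_lit 5) (nat_lit 426) (nat_lit 409) (nat_lit 185)) (XT.nd (nat_lit 78) (nat_lit 152) (nat_lit 0) (XT.lf (nat_lit 0) (nat_lit 912240196270) (nat_lit 152) (nat_lit 307574928377) (nat_lit 228) (nat_lit 570014386640) (nat_lit 41) (nat_lit 5) (nat_lit 43) (nat_lit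 5) (nat_lit 44) (nat_lit 5) (nat_lit 427) (nat_lit 409) (nat_lit 184)) (XT.lf (nat_lit 0) (nat_lit 131216849666) (nat_lit 152) (nat_lit 1499939971328) (nat_lit 228) (nat_lit 246535836431) (nat_lit 39) (nat_lit 5) (nat_lit 41) (nat_lit 5) (nat_lit 42) (nat_lit 5) (nat_lit 428) (nat_lit 409) (nat_lit 183)))))) (XT.nd (nat_lit 390) (nat_lit 608) (nat_lit 0) (XT.nd (nat_lit 156) (nat_lit 152) (nat_lit 0) (XT.nd (nat_lit 78) (nat_lit 152) (nat_lit 0) (XT.lf (nat_lit 0) (nat_lit 130284520852) (nat_lit 228) (nat_lit 711113532342) (nat_lit 76) (nat_lit 1128380410600) (nat_lit 38) (nat_lit 5) (nat_lit 41) (nat_lit 5) (nat_lit 39) (nat_lit 5) (nat_lit 429) (nat_lit 409) (nat_lit 182)) (XT.lf (nat_lit 0) (nat_lit 421772985261) (nat_lit 152) (nat_lit 112301830183) (nat_lit 228) (nat_lit 1533832545179) (nat_lit 36) (nat_lit 5) (nat_lit 38) (nat_lit 5) (nat_lit 39) (nat_lit 5) (nat_lit 430) (nat_lit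 409) (nat_lit 181))) (XT.nd (nat_lit 78) (nat_lit 152) (nat_lit 0) (XT.lf (nat_lit 0) (nat_lit 1006353153051) (nat_lit 228) (nat_lit 503340762742) (nat_lit 76) (nat_lit 661297867851) (nat_lit 36) (nat_lit 5) (nat_lit 39) (nat_lit 5) (nat_lit 37) (nat_lit 5) (nat_lit 431) (nat_lit 409) (nat_lit 180)) (XT.nd (nat_lit 78) (nat_lit 0) (nat_lit 0) (XT.lf (nat_lit 0) (nat_lit 766292456109) (nat_lit 152) (nat_lit 771467581490) (nat_lit 228) (nat_lit 742855220514) (nat_lit 34) (nat_lit 5) (nat_lit 36) (nat_lit 5) (nat_lit 37) (nat_lit 5) (nat_lit 432) (nat_lit 409) (nat_lit 179)) (XT.lf (nat_lit 0) (nat_lit 2126420055278) (nat_lit 228) (nat_lit 232764225540) (nat_lit 76) (nat_lit 38645083135) (nat_lit 34) (nat_lit 5) (nat_lit 37) (nat_lit 5) (nat_lit 35) (nat_lit 4) (nat_lit 433) (nat_lit 409) (nat_lit 178))))) (XT.nd (nat_lit 234) (nat_lit 304) (nat_lit 0) (XT.nd (nat_lit 78) (nat_lit 152) (nat_lit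 0) (XT.lf (nat_lit 0) (nat_lit 275801451300) (nat_lit 152) (nat_lit 1336656500161) (nat_lit 76) (nat_lit 907509810406) (nat_lit 32) (nat_lit 5) (nat_lit 34) (nat_lit 5) (nat_lit 33) (nat_lit 5) (nat_lit 434) (nat_lit 409) (nat_lit 177)) (XT.nd (nat_lit 78) (nat_lit 0) (nat_lit 0) (XT.lf (nat_lit 0) (nat_lit 70872635205) (nat_lit 152) (nat_lit 789487260718) (nat_lit 228) (nat_lit 1790294650210) (nat_lit 30) (nat_lit 5) (nat_lit 32) (nat_lit 5) (nat_lit 33) (nat_lit 5) (nat_lit 435) (nat_lit 409) (nat_lit 176)) (XT.lf (nat_lit 0) (nat_lit 1531567506925) (nat_lit 228) (nat_lit 1125189547421) (nat_lit 76) (nat_lit 131848459531) (nat_lit 30) (nat_lit 5) (nat_lit 33) (nat_lit 5) (nat_lit 31) (nat_lit 4) (nat_lit 436) (nat_lit 409) (nat_lit 175)))) (XT.nd (nat_lit 78) (nat_lit 228) (nat_lit 0) (XT.lf (nat_lit 0) (nat_lit 447657689403) (nat_lit 76) (nat_lit 1840086376005) (nat_lit 152) (nat_lit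 647346706545) (nat_lit 29) (nat_lit 5) (nat_lit 30) (nat_lit 5) (nat_lit 31) (nat_lit 4) (nat_lit 437) (nat_lit 409) (nat_lit 174)) (XT.nd (nat_lit 78) (nat_lit 152) (nat_lit 0) (XT.lf (nat_lit 0) (nat_lit 42127392107) (nat_lit 152) (nat_lit 881576964965) (nat_lit 76) (nat_lit 2167043998375) (nat_lit 28) (nat_lit 5) (nat_lit 30) (nat_lit 5) (nat_lit 29) (nat_lit 5) (nat_lit 438) (nat_lit 409) (nat_lit 173)) (XT.lf (nat_lit 0) (nat_lit 775522187902) (nat_lit 228) (nat_lit 2378441604015) (nat_lit 76) (nat_lit 101650713241) (nat_lit 26) (nat_lit 5) (nat_lit 29) (nat_lit 5) (nat_lit 27) (nat_lit 4) (nat_lit 439) (nat_lit 409) (nat_lit 172))))))))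
noncomputable def xc238 : XT := (XT.nd (nat_lit 51246) (nat_lit 0) (nat_lit 1064) (XT.nd (nat_lit 780) (nat_lit 228) (nat_lit 0) (XT.nd (nat_lit 390) (nat_lit 304) (nat_lit 0) (XT.nd (nat_lit 156) (nat_lit 152) (nat_lit 0) (XT.nd (nat_lit 78) (nat_lit 76) (nat_lit 0) (XT.lf (nat_lit 0) (nat_lit 1616310837552) (nat_lit 228) (nat_lit 629601216288) (nat_lit 76) (nat_lit 1183860111394) (nat_lit 26) (nat_lit 5) (nat_lit 29) (nat_lit 5) (nat_lit 27) (nat_lit 4) (nat_lit 440) (nat_lit 409) (nat_lit 171)) (XT.lf (nat_lit 0) (nat_lit 1325450817136) (nat_lit 76) (nat_lit 1230788884216) (nat_lit 152) (nat_lit 1059072566988) (nat_lit 25) (nat_lit 5) (nat_lit 26) (nat_lit 5) (nat_lit 27) (nat_lit 4) (nat_lit 441) (nat_lit 409) (nat_lit 170))) (XT.nd (nat_lit 78) (nat_lit 152) (nat_lit 0) (XT.lf (nat_lit 0) (nat_lit 3472712989062) (nat_lit 76) (nat_lit 115864296407) (nat_lit 152) (nat_lit 225741141330)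 (nat_lit 25) (nat_lit 5) (nat_lit 26) (nat_lit 5) (nat_lit 27) (nat_lit 4) (nat_lit 442) (nat_lit 409) (nat_lit 169)) (XT.nd (nat_lit 78) (nat_lit 0) (nat_lit 0) (XT.lf (nat_lit 0) (nat_lit 712479789811) (nat_lit 152) (nat_lit 2213901081198) (nat_lit 76) (nat_lit 1095810771769) (nat_lit 23) (nat_lit 5) (nat_lit 25) (nat_lit 5) (nat_lit 24) (nat_lit 4) (nat_lit 443) (nat_lit 409) (nat_lit 168)) (XT.lf (nat_lit 0) (nat_lit 1726154668965) (nat_lit 152) (nat_lit 105457334969) (nat_lit 76) (nat_lit 2413606266916) (nat_lit 23) (nat_lit 5) (nat_lit 25) (nat_lit 5) (nat_lit 24) (nat_lit 4) (nat_lit 444) (nat_lit 409) (nat_lit 167))))) (XT.nd (nat_lit 156) (nat_lit 152) (nat_lit 0) (XT.nd (nat_lit 78) (nat_lit 76) (nat_lit 0) (XT.lf (nat_lit 0) (nat_lit 2286017775659) (nat_lit 76) (nat_lit 589884543720) (nat_lit 152) (nat_lit 1605786407315) (nat_lit 22) (nat_lit 5) (nat_lit 23) (nat_lit 5) (nat_lit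 24) (nat_lit 4) (nat_lit 445) (nat_lit 409) (nat_lit 166)) (XT.lf (nat_lit 0) (nat_lit 126130960971) (nat_lit 76) (nat_lit 4015556479486) (nat_lit 76) (nat_lit 593464765858) (nat_lit 21) (nat_lit 4) (nat_lit 22) (nat_lit 5) (nat_lit 22) (nat_lit 4) (nat_lit 446) (nat_lit 409) (nat_lit 165))) (XT.nd (nat_lit 78) (nat_lit 76) (nat_lit 0) (XT.lf (nat_lit 0) (nat_lit 551752977729) (nat_lit 152) (nat_lit 2274445521722) (nat_lit 76) (nat_lit 2175579404927) (nat_lit 20) (nat_lit 5) (nat_lit 22) (nat_lit 5) (nat_lit 21) (nat_lit 4) (nat_lit 447) (nat_lit 409) (nat_lit 164)) (XT.nd (nat_lit 78) (nat_lit 0) (nat_lit 0) (XT.lf (nat_lit 0) (nat_lit 243670998068) (nat_lit 76) (nat_lit 1518714922657) (nat_lit 152) (nat_lit 3525645740667) (nat_lit 19) (nat_lit 5) (nat_lit 20) (nat_lit 5) (nat_lit 21) (nat_lit 4) (nat_lit 448) (nat_lit 409) (nat_lit 163)) (XT.lf (nat_lit 0) (nat_lit 3092586568988) (nat_lit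 76) (nat_lit 39470300025) (nat_lit 152) (nat_lit 2460153860365) (nat_lit 19) (nat_lit 5) (nat_lit 20) (nat_lit 5) (nat_lit 21) (nat_lit 4) (nat_lit 449) (nat_lit 409) (nat_lit 162)))))) (XT.nd (nat_lit 50076) (nat_lit 0) (nat_lit 3268) (XT.nd (nat_lit 156) (nat_lit 76) (nat_lit 0) (XT.nd (nat_lit 78) (nat_lit 76) (nat_lit 0) (XT.lf (nat_lit 0) (nat_lit 222340980009) (nat_lit 76) (nat_lit 4431780494356) (nat_lit 76) (nat_lit 1263177049942) (nat_lit 18) (nat_lit 4) (nat_lit 19) (nat_lit 5) (nat_lit 19) (nat_lit 4) (nat_lit 450) (nat_lit 409) (nat_lit 161)) (XT.lf (nat_lit 0) (nat_lit 99223827580) (nat_lit 152) (nat_lit 2962217884254) (nat_lit 76) (nat_lit 3201203199259) (nat_lit 17) (nat_lit 5) (nat_lit 19) (nat_lit 5) (nat_lit 18) (nat_lit 4) (nat_lit 451) (nat_lit 409) (nat_lit 160))) (XT.nd (nat_lit 78) (nat_lit 76) (nat_lit 0) (XT.lf (nat_lit 0) (nat_lit 1502372403614) (nat_lit 152)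 (nat_lit 43668847220) (nat_lit 76) (nat_lit 5086952974603) (nat_lit 17) (nat_lit 5) (nat_lit 19) (nat_lit 5) (nat_lit 18) (nat_lit 4) (nat_lit 452) (nat_lit 409) (nat_lit 159)) (XT.nd (nat_lit 49764) (nat_lit 0) (nat_lit 3648) (XT.lf (nat_lit 0) (nat_lit 3100688316412) (nat_lit 152) (nat_lit 3758853697320) (nat_lit 0) (nat_lit 166796235141) (nat_lit 16) (nat_lit 5) (nat_lit 18) (nat_lit 4) (nat_lit 16) (nat_lit 4) (nat_lit 453) (nat_lit 409) (nat_lit 158)) (XT.lf (nat_lit 0) (nat_lit 392025229750) (nat_lit 532) (nat_lit 26255704909) (nat_lit 532) (nat_lit 26255704909) (nat_lit 64) (nat_lit 3) (nat_lit 71) (nat_lit 3) (nat_lit 71) (nat_lit 5) (nat_lit 410) (nat_lit 410) (nat_lit 200))))) (XT.nd (nat_lit 156) (nat_lit 380) (nat_lit 0) (XT.nd (nat_lit 78) (nat_lit 0) (nat_lit 76) (XT.lf (nat_lit 76) (nat_lit 399595720599) (nat_lit 0) (nat_lit 425427121425) (nat_lit 532) (nat_lit 98844539074)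 (nat_lit 65) (nat_lit 5) (nat_lit 64) (nat_lit 3) (nat_lit 71) (nat_lit 5) (nat_lit 411) (nat_lit 410) (nat_lit 199)) (XT.lf (nat_lit 0) (nat_lit 871193346837) (nat_lit 456) (nat_lit 70956948543) (nat_lit 532) (nat_lit 19141089308) (nat_lit 65) (nat_lit 5) (nat_lit 71) (nat_lit 5) (nat_lit 72) (nat_lit 5) (nat_lit 412) (nat_lit 410) (nat_lit 198))) (XT.nd (nat_lit 78) (nat_lit 456) (nat_lit 0) (XT.lf (nat_lit 76) (nat_lit 429034946126) (nat_lit 0) (nat_lit 513390894586) (nat_lit 532) (nat_lit 57573999965) (nat_lit 66) (nat_lit 5) (nat_lit 65) (nat_lit 5) (nat_lit 72) (nat_lit 5) (nat_lit 413) (nat_lit 410) (nat_lit 197)) (XT.nd (nat_lit 78) (nat_lit 456) (nat_lit 0) (XT.lf (nat_lit 76) (nat_lit 973061572279) (nat_lit 0) (nat_lit 48235443764) (nat_lit 532) (nat_lit 20352750554) (nat_lit 66) (nat_lit 5) (nat_lit 65) (nat_lit 5) (nat_lit 72) (nat_lit 5) (nat_lit 414) (nat_lit 410) (nat_lit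 196)) (XT.lf (nat_lit 0) (nat_lit 42086434785) (nat_lit 532) (nat_lit 598445090041) (nat_lit 608) (nat_lit 444203335787) (nat_lit 59) (nat_lit 5) (nat_lit 66) (nat_lit 5) (nat_lit 67) (nat_lit 5) (nat_lit 415) (nat_lit 410) (nat_lit 195))))))) (XT.nd (nat_lit 780) (nat_lit 1216) (nat_lit 0) (XT.nd (nat_lit 390) (nat_lit 456) (nat_lit 0) (XT.nd (nat_lit 156) (nat_lit 532) (nat_lit 0) (XT.nd (nat_lit 78) (nat_lit 0) (nat_lit 76) (XT.lf (nat_lit 0) (nat_lit 111598072877) (nat_lit 532) (nat_lit 43488318551) (nat_lit 608) (nat_lit 975883927690) (nat_lit 59) (nat_lit 5) (nat_lit 66) (nat_lit 5) (nat_lit 67) (nat_lit 5) (nat_lit 416) (nat_lit 410) (nat_lit 194)) (XT.lf (nat_lit 0) (nat_lit 209987821199) (nat_lit 532) (nat_lit 603887610337) (nat_lit 76) (nat_lit 365163808438) (nat_lit 60) (nat_lit 5) (nat_lit 67) (nat_lit 5) (nat_lit 61) (nat_lit 5) (nat_lit 417) (nat_lit 410) (nat_lit 193)))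 (XT.nd (nat_lit 78) (nat_lit 228) (nat_lit 0) (XT.lf (nat_lit 0) (nat_lit 11409062408) (nat_lit 380) (nat_lit 310362219949) (nat_lit 456) (nat_lit 908740589507) (nat_lit 55) (nat_lit 5) (nat_lit 60) (nat_lit 5) (nat_lit 61) (nat_lit 5) (nat_lit 418) (nat_lit 410) (nat_lit 192)) (XT.nd (nat_lit 78) (nat_lit 228) (nat_lit 0) (XT.lf (nat_lit 0) (nat_lit 465051685677) (nat_lit 456) (nat_lit 580551231329) (nat_lit 76) (nat_lit 238695056084) (nat_lit 55) (nat_lit 5) (nat_lit 61) (nat_lit 5) (nat_lit 56) (nat_lit 5) (nat_lit 419) (nat_lit 410) (nat_lit 191)) (XT.lf (nat_lit 0) (nat_lit 106342809842) (nat_lit 228) (nat_lit 524070610294) (nat_lit 304) (nat_lit 711124030369) (nat_lit 52) (nat_lit 5) (nat_lit 55) (nat_lit 5) (nat_lit 56) (nat_lit 5) (nat_lit 420) (nat_lit 410) (nat_lit 190))))) (XT.nd (nat_lit 156) (nat_lit 228) (nat_lit 0) (XT.nd (nat_lit 78) (nat_lit 228) (nat_lit 0) (XT.lf (nat_lit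 0) (nat_lit 826232064835) (nat_lit 304) (nat_lit 522236066407) (nat_lit 76) (nat_lit 53509717157) (nat_lit 52) (nat_lit 5) (nat_lit 56) (nat_lit 5) (nat_lit 53) (nat_lit 5) (nat_lit 421) (nat_lit 410) (nat_lit 189)) (XT.lf (nat_lit 0) (nat_lit 246476729673) (nat_lit 228) (nat_lit 810779462281) (nat_lit 304) (nat_lit 408434086907) (nat_lit 49) (nat_lit 5) (nat_lit 52) (nat_lit 5) (nat_lit 53) (nat_lit 5) (nat_lit 422) (nat_lit 410) (nat_lit 188))) (XT.nd (nat_lit 78) (nat_lit 228) (nat_lit 0) (XT.lf (nat_lit 0) (nat_lit 1106386572671) (nat_lit 228) (nat_lit 214654532225) (nat_lit 304) (nat_lit 212316290414) (nat_lit 49) (nat_lit 5) (nat_lit 52) (nat_lit 5) (nat_lit 53) (nat_lit 5) (nat_lit 423) (nat_lit 410) (nat_lit 187)) (XT.nd (nat_lit 78) (nat_lit 0) (nat_lit 0) (XT.lf (nat_lit 0) (nat_lit 20971510050) (nat_lit 228) (nat_lit 1164937333440) (nat_lit 76) (nat_lit 418813607878) (nat_lit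 46) (nat_lit 5) (nat_lit 49) (nat_lit 5) (nat_lit 47) (nat_lit 5) (nat_lit 424) (nat_lit 410) (nat_lit 186)) (XT.lf (nat_lit 0) (nat_lit 279004542350) (nat_lit 228) (nat_lit 292092418281) (nat_lit 76) (nat_lit 1108854350402) (nat_lit 46) (nat_lit 5) (nat_lit 49) (nat_lit 5) (nat_lit 47) (nat_lit 5) (nat_lit 425) (nat_lit 410) (nat_lit 185)))))) (XT.nd (nat_lit 390) (nat_lit 608) (nat_lit 0) (XT.nd (nat_lit 156) (nat_lit 380) (nat_lit 0) (XT.nd (nat_lit 78) (nat_lit 0) (nat_lit 0) (XT.lf (nat_lit 0) (nat_lit 576812642153) (nat_lit 304) (nat_lit 1077704415252) (nat_lit 76) (nat_lit 105150828074) (nat_lit 43) (nat_lit 5) (nat_lit 47) (nat_lit 5) (nat_lit 44) (nat_lit 5) (nat_lit 426) (nat_lit 410) (nat_lit 184)) (XT.lf (nat_lit 0) (nat_lit 921472835411) (nat_lit 304) (nat_lit 109608624149) (nat_lit 76) (nat_lit 812838130685) (nat_lit 43) (nat_lit 5) (nat_lit 47) (nat_lit 5) (nat_lit 44) (nat_lit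 5) (nat_lit 427) (nat_lit 410) (nat_lit 183))) (XT.nd (nat_lit 78) (nat_lit 228) (nat_lit 0) (XT.lf (nat_lit 0) (nat_lit 985219495501) (nat_lit 152) (nat_lit 332180898260) (nat_lit 228) (nat_lit 615615473662) (nat_lit 41) (nat_lit 5) (nat_lit 43) (nat_lit 5) (nat_lit 44) (nat_lit 5) (nat_lit 428) (nat_lit 410) (nat_lit 182)) (XT.nd (nat_lit 78) (nat_lit 76) (nat_lit 0) (XT.lf (nat_lit 0) (nat_lit 141714283129) (nat_lit 152) (nat_lit 1619935140905) (nat_lit 228) (nat_lit 266258641363) (nat_lit 39) (nat_lit 5) (nat_lit 41) (nat_lit 5) (nat_lit 42) (nat_lit 5) (nat_lit 429) (nat_lit 410) (nat_lit 181)) (XT.lf (nat_lit 0) (nat_lit 140707337040) (nat_lit 228) (nat_lit 768002532873) (nat_lit 76) (nat_lit 1218650866595) (nat_lit 38) (nat_lit 5) (nat_lit 41) (nat_lit 5) (nat_lit 39) (nat_lit 5) (nat_lit 430) (nat_lit 410) (nat_lit 180))))) (XT.nd (nat_lit 234) (nat_lit 304) (nat_lit 0) (XT.nd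 (nat_lit 78) (nat_lit 152) (nat_lit 0) (XT.lf (nat_lit 0) (nat_lit 455514904061) (nat_lit 152) (nat_lit 121285949024) (nat_lit 228) (nat_lit 1656539092170) (nat_lit 36) (nat_lit 5) (nat_lit 38) (nat_lit 5) (nat_lit 39) (nat_lit 5) (nat_lit 431) (nat_lit 410) (nat_lit 179)) (XT.nd (nat_lit 78) (nat_lit 152) (nat_lit 0) (XT.lf (nat_lit 0) (nat_lit 1086861454433) (nat_lit 228) (nat_lit 543607946415) (nat_lit 76) (nat_lit 714201721533) (nat_lit 36) (nat_lit 5) (nat_lit 39) (nat_lit 5) (nat_lit 37) (nat_lit 5) (nat_lit 432) (nat_lit 410) (nat_lit 178)) (XT.lf (nat_lit 0) (nat_lit 827595927986) (nat_lit 152) (nat_lit 833184959931) (nat_lit 228) (nat_lit 802283587037) (nat_lit 34) (nat_lit 5) (nat_lit 36) (nat_lit 5) (nat_lit 37) (nat_lit 5) (nat_lit 433) (nat_lit 410) (nat_lit 177)))) (XT.nd (nat_lit 78) (nat_lit 304) (nat_lit 0) (XT.lf (nat_lit 0) (nat_lit 2296533704132) (nat_lit 228) (nat_lit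 251385290878) (nat_lit 76) (nat_lit 41736714483) (nat_lit 34) (nat_lit 5) (nat_lit 37) (nat_lit 5) (nat_lit 35) (nat_lit 4) (nat_lit 434) (nat_lit 410) (nat_lit 176)) (XT.nd (nat_lit 78) (nat_lit 152) (nat_lit 0) (XT.lf (nat_lit 0) (nat_lit 297865611380) (nat_lit 152) (nat_lit 1443588946976) (nat_lit 76) (nat_lit 980110620925) (nat_lit 32) (nat_lit 5) (nat_lit 34) (nat_lit 5) (nat_lit 33) (nat_lit 5) (nat_lit 435) (nat_lit 410) (nat_lit 175)) (XT.lf (nat_lit 0) (nat_lit 76542517366) (nat_lit 152) (nat_lit 852646212665) (nat_lit 228) (nat_lit 1933518176382) (nat_lit 30) (nat_lit 5) (nat_lit 32) (nat_lit 5) (nat_lit 33) (nat_lit 5) (nat_lit 436) (nat_lit 410) (nat_lit 174))))))))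
noncomputable def xc239 : XT := (XT.nd (nat_lit 51402) (nat_lit 0) (nat_lit 1292) (XT.nd (nat_lit 780) (nat_lit 380) (nat_lit 0) (XT.nd (nat_lit 390) (nat_lit 304) (nat_lit 0) (XT.nd (nat_lit 156) (nat_lit 228) (nat_lit 0) (XT.nd (nat_lit 78) (nat_lit 76) (nat_lit 0) (XT.lf (nat_lit 0) (nat_lit 1654092947413) (nat_lit 228) (nat_lit 1215204642640) (nat_lit 76) (nat_lit 142396361723) (nat_lit 30) (nat_lit 5) (nat_lit 33) (nat_lit 5) (nat_lit 31) (nat_lit 4) (nat_lit 437) (nat_lit 410) (nat_lit 173)) (XT.lf (nat_lit 0) (nat_lit 483470371393) (nat_lit 76) (nat_lit 1987293257831) (nat_lit 152) (nat_lit 699134401383) (nat_lit 29) (nat_lit 5) (nat_lit 30) (nat_lit 5) (nat_lit 31) (nat_lit 4) (nat_lit 438) (nat_lit 410) (nat_lit 172))) (XT.nd (nat_lit 78) (nat_lit 152) (nat_lit 0) (XT.lf (nat_lit 0) (nat_lit 45497620141) (nat_lit 152) (nat_lit 952103058332) (nat_lit 76) (nat_lit 2340407542463)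 (nat_lit 28) (nat_lit 5) (nat_lit 30) (nat_lit 5) (nat_lit 29) (nat_lit 5) (nat_lit 439) (nat_lit 410) (nat_lit 171)) (XT.nd (nat_lit 78) (nat_lit 0) (nat_lit 0) (XT.lf (nat_lit 0) (nat_lit 837563999025) (nat_lit 228) (nat_lit 2568716867919) (nat_lit 76) (nat_lit 109782795729) (nat_lit 26) (nat_lit 5) (nat_lit 29) (nat_lit 5) (nat_lit 27) (nat_lit 4) (nat_lit 440) (nat_lit 410) (nat_lit 170)) (XT.lf (nat_lit 0) (nat_lit 1745615737973) (nat_lit 228) (nat_lit 679969253945) (nat_lit 76) (nat_lit 1278568943850) (nat_lit 26) (nat_lit 5) (nat_lit 29) (nat_lit 5) (nat_lit 27) (nat_lit 4) (nat_lit 441) (nat_lit 410) (nat_lit 169))))) (XT.nd (nat_lit 156) (nat_lit 228) (nat_lit 0) (XT.nd (nat_lit 78) (nat_lit 0) (nat_lit 0) (XT.lf (nat_lit 0) (nat_lit 1431486940643) (nat_lit 76) (nat_lit 1329251969157) (nat_lit 152) (nat_lit 1143798337410) (nat_lit 25) (nat_lit 5) (nat_lit 26) (nat_lit 5) (nat_lit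 27) (nat_lit 4) (nat_lit 442) (nat_lit 410) (nat_lit 168)) (XT.lf (nat_lit 0) (nat_lit 3750530082016) (nat_lit 76) (nat_lit 125133416234) (nat_lit 152) (nat_lit 243800400288) (nat_lit 25) (nat_lit 5) (nat_lit 26) (nat_lit 5) (nat_lit 27) (nat_lit 4) (nat_lit 443) (nat_lit 410) (nat_lit 167))) (XT.nd (nat_lit 78) (nat_lit 76) (nat_lit 0) (XT.lf (nat_lit 0) (nat_lit 769478203334) (nat_lit 152) (nat_lit 2391013111838) (nat_lit 76) (nat_lit 1183475656593) (nat_lit 23) (nat_lit 5) (nat_lit 25) (nat_lit 5) (nat_lit 24) (nat_lit 4) (nat_lit 444) (nat_lit 410) (nat_lit 166)) (XT.nd (nat_lit 78) (nat_lit 76) (nat_lit 0) (XT.lf (nat_lit 0) (nat_lit 1864247070573) (nat_lit 152) (nat_lit 113893870049) (nat_lit 76) (nat_lit 2606694789642) (nat_lit 23) (nat_lit 5) (nat_lit 25) (nat_lit 5) (nat_lit 24) (nat_lit 4) (nat_lit 445) (nat_lit 410) (nat_lit 165)) (XT.lf (nat_lit 0) (nat_lit 2468899248121) (nat_lit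 76) (nat_lit 637075284031) (nat_lit 152) (nat_lit 1734249290493) (nat_lit 22) (nat_lit 5) (nat_lit 23) (nat_lit 5) (nat_lit 24) (nat_lit 4) (nat_lit 446) (nat_lit 410) (nat_lit 164)))))) (XT.nd (nat_lit 390) (nat_lit 76) (nat_lit 0) (XT.nd (nat_lit 156) (nat_lit 152) (nat_lit 0) (XT.nd (nat_lit 78) (nat_lit 76) (nat_lit 0) (XT.lf (nat_lit 0) (nat_lit 136221488567) (nat_lit 76) (nat_lit 4336800974069) (nat_lit 76) (nat_lit 640941918023) (nat_lit 21) (nat_lit 4) (nat_lit 22) (nat_lit 5) (nat_lit 22) (nat_lit 4) (nat_lit 447) (nat_lit 410) (nat_lit 163)) (XT.lf (nat_lit 0) (nat_lit 595893241547) (nat_lit 152) (nat_lit 2456401115146) (nat_lit 76) (nat_lit 2349625777983) (nat_lit 20) (nat_lit 5) (nat_lit 22) (nat_lit 5) (nat_lit 21) (nat_lit 4) (nat_lit 448) (nat_lit 410) (nat_lit 162))) (XT.nd (nat_lit 78) (nat_lit 76) (nat_lit 0) (XT.lf (nat_lit 0) (nat_lit 263164725005) (nat_lit 76) (nat_lit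 1640212094214) (nat_lit 152) (nat_lit 3807697373092) (nat_lit 19) (nat_lit 5) (nat_lit 20) (nat_lit 5) (nat_lit 21) (nat_lit 4) (nat_lit 449) (nat_lit 410) (nat_lit 161)) (XT.nd (nat_lit 78) (nat_lit 76) (nat_lit 0) (XT.lf (nat_lit 0) (nat_lit 3339993538110) (nat_lit 76) (nat_lit 42627903421) (nat_lit 152) (nat_lit 2656966144353) (nat_lit 19) (nat_lit 5) (nat_lit 20) (nat_lit 5) (nat_lit 21) (nat_lit 4) (nat_lit 450) (nat_lit 410) (nat_lit 160)) (XT.lf (nat_lit 0) (nat_lit 240128302224) (nat_lit 76) (nat_lit 4786322912897) (nat_lit 76) (nat_lit 1364231189303) (nat_lit 18) (nat_lit 4) (nat_lit 19) (nat_lit 5) (nat_lit 19) (nat_lit 4) (nat_lit 451) (nat_lit 410) (nat_lit 159))))) (XT.nd (nat_lit 49998) (nat_lit 0) (nat_lit 3572) (XT.nd (nat_lit 78) (nat_lit 0) (nat_lit 0) (XT.lf (nat_lit 0) (nat_lit 107161755455) (nat_lit 152) (nat_lit 3199195273281) (nat_lit 76) (nat_lit 3457299473507)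 (nat_lit 17) (nat_lit 5) (nat_lit 19) (nat_lit 5) (nat_lit 18) (nat_lit 4) (nat_lit 452) (nat_lit 410) (nat_lit 158)) (XT.nd (nat_lit 49842) (nat_lit 0) (nat_lit 3572) (XT.lf (nat_lit 0) (nat_lit 1622562215966) (nat_lit 152) (nat_lit 47162316374) (nat_lit 76) (nat_lit 5493909229522) (nat_lit 17) (nat_lit 5) (nat_lit 19) (nat_lit 5) (nat_lit 18) (nat_lit 4) (nat_lit 453) (nat_lit 410) (nat_lit 157)) (XT.lf (nat_lit 0) (nat_lit 423387323720) (nat_lit 532) (nat_lit 28356120447) (nat_lit 532) (nat_lit 28356120447) (nat_lit 64) (nat_lit 3) (nat_lit 71) (nat_lit 3) (nat_lit 71) (nat_lit 5) (nat_lit 411) (nat_lit 411) (nat_lit 198)))) (XT.nd (nat_lit 78) (nat_lit 0) (nat_lit 76) (XT.lf (nat_lit 76) (nat_lit 431563457887) (nat_lit 0) (nat_lit 459461353395) (nat_lit 532) (nat_lit 106751948819) (nat_lit 65) (nat_lit 5) (nat_lit 64) (nat_lit 3) (nat_lit 71) (nat_lit 5) (nat_lit 412) (nat_lit 411)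 (nat_lit 197)) (XT.nd (nat_lit 78) (nat_lit 0) (nat_lit 0) (XT.lf (nat_lit 0) (nat_lit 940888944584) (nat_lit 456) (nat_lit 76633418666) (nat_lit 532) (nat_lit 20672321691) (nat_lit 65) (nat_lit 5) (nat_lit 71) (nat_lit 5) (nat_lit 72) (nat_lit 5) (nat_lit 413) (nat_lit 411) (nat_lit 196)) (XT.lf (nat_lit 76) (nat_lit 463357825405) (nat_lit 0) (nat_lit 554462204944) (nat_lit 532) (nat_lit 62179787678) (nat_lit 66) (nat_lit 5) (nat_lit 65) (nat_lit 5) (nat_lit 72) (nat_lit 5) (nat_lit 414) (nat_lit 411) (nat_lit 195))))))) (XT.nd (nat_lit 780) (nat_lit 1140) (nat_lit 0) (XT.nd (nat_lit 390) (nat_lit 456) (nat_lit 0) (XT.nd (nat_lit 156) (nat_lit 304) (nat_lit 0) (XT.nd (nat_lit 78) (nat_lit 456) (nat_lit 0) (XT.lf (nat_lit 76) (nat_lit 1050906575459) (nat_lit 0) (nat_lit 52094315183) (nat_lit 532) (nat_lit 21980848113) (nat_lit 66) (nat_lit 5) (nat_lit 65) (nat_lit 5) (nat_lit 72) (nat_lit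 5) (nat_lit 415) (nat_lit 411) (nat_lit 194)) (XT.lf (nat_lit 0) (nat_lit 45453458589) (nat_lit 532) (nat_lit 646320606195) (nat_lit 608) (nat_lit 479739575867) (nat_lit 59) (nat_lit 5) (nat_lit 66) (nat_lit 5) (nat_lit 67) (nat_lit 5) (nat_lit 416) (nat_lit 411) (nat_lit 193))) (XT.nd (nat_lit 78) (nat_lit 304) (nat_lit 0) (XT.lf (nat_lit 0) (nat_lit 120526019653) (nat_lit 532) (nat_lit 46967299730) (nat_lit 608) (nat_lit 1053954617106) (nat_lit 59) (nat_lit 5) (nat_lit 66) (nat_lit 5) (nat_lit 67) (nat_lit 5) (nat_lit 417) (nat_lit 411) (nat_lit 192)) (XT.nd (nat_lit 78) (nat_lit 380) (nat_lit 0) (XT.lf (nat_lit 0) (nat_lit 226786942020) (nat_lit 532) (nat_lit 652198528961) (nat_lit 76) (nat_lit 394376900503) (nat_lit 60) (nat_lit 5) (nat_lit 67) (nat_lit 5) (nat_lit 61) (nat_lit 5) (nat_lit 418) (nat_lit 411) (nat_lit 191)) (XT.lf (nat_lit 0) (nat_lit 12321875321) (nat_lit 380) (nat_lit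 335191199819) (nat_lit 456) (nat_lit 981439739187) (nat_lit 55) (nat_lit 5) (nat_lit 60) (nat_lit 5) (nat_lit 61) (nat_lit 5) (nat_lit 419) (nat_lit 411) (nat_lit 190))))) (XT.nd (nat_lit 156) (nat_lit 228) (nat_lit 0) (XT.nd (nat_lit 78) (nat_lit 228) (nat_lit 0) (XT.lf (nat_lit 0) (nat_lit 502255903993) (nat_lit 456) (nat_lit 626995241631) (nat_lit 76) (nat_lit 257790658570) (nat_lit 55) (nat_lit 5) (nat_lit 61) (nat_lit 5) (nat_lit 56) (nat_lit 5) (nat_lit 420) (nat_lit 411) (nat_lit 189)) (XT.lf (nat_lit 0) (nat_lit 114850320602) (nat_lit 228) (nat_lit 565996252493) (nat_lit 304) (nat_lit 768013867042) (nat_lit 52) (nat_lit 5) (nat_lit 55) (nat_lit 5) (nat_lit 56) (nat_lit 5) (nat_lit 421) (nat_lit 411) (nat_lit 188))) (XT.nd (nat_lit 78) (nat_lit 228) (nat_lit 0) (XT.lf (nat_lit 0) (nat_lit 892330703639) (nat_lit 304) (nat_lit 564014866329) (nat_lit 76) (nat_lit 57790500357) (nat_lit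 52) (nat_lit 5) (nat_lit 56) (nat_lit 5) (nat_lit 53) (nat_lit 5) (nat_lit 422) (nat_lit 411) (nat_lit 187)) (XT.nd (nat_lit 78) (nat_lit 0) (nat_lit 0) (XT.lf (nat_lit 0) (nat_lit 266194951275) (nat_lit 228) (nat_lit 875641806201) (nat_lit 304) (nat_lit 441108738028) (nat_lit 49) (nat_lit 5) (nat_lit 52) (nat_lit 5) (nat_lit 53) (nat_lit 5) (nat_lit 423) (nat_lit 411) (nat_lit 186)) (XT.lf (nat_lit 0) (nat_lit 1194897575548) (nat_lit 228) (nat_lit 231826882708) (nat_lit 304) (nat_lit 229301523433) (nat_lit 49) (nat_lit 5) (nat_lit 52) (nat_lit 5) (nat_lit 53) (nat_lit 5) (nat_lit 424) (nat_lit 411) (nat_lit 185)))))) (XT.nd (nat_lit 390) (nat_lit 532) (nat_lit 0) (XT.nd (nat_lit 156) (nat_lit 380) (nat_lit 0) (XT.nd (nat_lit 78) (nat_lit 0) (nat_lit 0) (XT.lf (nat_lit 0) (nat_lit 22649294864) (nat_lit 228) (nat_lit 1258132236761) (nat_lit 76) (nat_lit 452318710691) (nat_lit 46) (nat_lit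 5) (nat_lit 49) (nat_lit 5) (nat_lit 47) (nat_lit 5) (nat_lit 425) (nat_lit 411) (nat_lit 184)) (XT.lf (nat_lit 0) (nat_lit 301324965007) (nat_lit 228) (nat_lit 315459734563) (nat_lit 76) (nat_lit 1197562711566) (nat_lit 46) (nat_lit 5) (nat_lit 49) (nat_lit 5) (nat_lit 47) (nat_lit 5) (nat_lit 426) (nat_lit 411) (nat_lit 183))) (XT.nd (nat_lit 78) (nat_lit 152) (nat_lit 0) (XT.lf (nat_lit 0) (nat_lit 622957710659) (nat_lit 304) (nat_lit 1163920689121) (nat_lit 76) (nat_lit 113562911932) (nat_lit 43) (nat_lit 5) (nat_lit 47) (nat_lit 5) (nat_lit 44) (nat_lit 5) (nat_lit 427) (nat_lit 411) (nat_lit 182)) (XT.nd (nat_lit 78) (nat_lit 152) (nat_lit 0) (XT.lf (nat_lit 0) (nat_lit 995190715145) (nat_lit 304) (nat_lit 118377240608) (nat_lit 76) (nat_lit 877865197447) (nat_lit 43) (nat_lit 5) (nat_lit 47) (nat_lit 5) (nat_lit 44) (nat_lit 5) (nat_lit 428) (nat_lit 411) (nat_lit 181)) (XT.lf (nat_lit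 0) (nat_lit 1064037126754) (nat_lit 152) (nat_lit 358755349212) (nat_lit 228) (nat_lit 664864656763) (nat_lit 41) (nat_lit 5) (nat_lit 43) (nat_lit 5) (nat_lit 44) (nat_lit 5) (nat_lit 429) (nat_lit 411) (nat_lit 180))))) (XT.nd (nat_lit 234) (nat_lit 152) (nat_lit 0) (XT.nd (nat_lit 78) (nat_lit 228) (nat_lit 0) (XT.lf (nat_lit 0) (nat_lit 153051499073) (nat_lit 152) (nat_lit 1749529928061) (nat_lit 228) (nat_lit 287559279532) (nat_lit 39) (nat_lit 5) (nat_lit 41) (nat_lit 5) (nat_lit 42) (nat_lit 5) (nat_lit 430) (nat_lit 411) (nat_lit 179)) (XT.nd (nat_lit 78) (nat_lit 152) (nat_lit 0) (XT.lf (nat_lit 0) (nat_lit 151963970746) (nat_lit 228) (nat_lit 829442665152) (nat_lit 76) (nat_lit 1316142955766) (nat_lit 38) (nat_lit 5) (nat_lit 41) (nat_lit 5) (nat_lit 39) (nat_lit 5) (nat_lit 431) (nat_lit 411) (nat_lit 178)) (XT.lf (nat_lit 0) (nat_lit 491956164955) (nat_lit 152) (nat_lit 130988801305)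 (nat_lit 228) (nat_lit 1789062170998) (nat_lit 36) (nat_lit 5) (nat_lit 38) (nat_lit 5) (nat_lit 39) (nat_lit 5) (nat_lit 432) (nat_lit 411) (nat_lit 177)))) (XT.nd (nat_lit 78) (nat_lit 152) (nat_lit 0) (XT.lf (nat_lit 0) (nat_lit 1173810412915) (nat_lit 228) (nat_lit 587096515815) (nat_lit 76) (nat_lit 771337880050) (nat_lit 36) (nat_lit 5) (nat_lit 39) (nat_lit 5) (nat_lit 37) (nat_lit 5) (nat_lit 433) (nat_lit 411) (nat_lit 176)) (XT.nd (nat_lit 78) (nat_lit 0) (nat_lit 0) (XT.lf (nat_lit 0) (nat_lit 893803666859) (nat_lit 152) (nat_lit 899839732653) (nat_lit 228) (nat_lit 866466230175) (nat_lit 34) (nat_lit 5) (nat_lit 36) (nat_lit 5) (nat_lit 37) (nat_lit 5) (nat_lit 434) (nat_lit 411) (nat_lit 175)) (XT.lf (nat_lit 0) (nat_lit 2480256438555) (nat_lit 228) (nat_lit 271496051816) (nat_lit 76) (nat_lit 45075672816) (nat_lit 34) (nat_lit 5) (nat_lit 37) (nat_lit 5) (nat_lit 35) (nat_lit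 4) (nat_lit 435) (nat_lit 411) (nat_lit 174))))))))
noncomputable def xc240 : XT := (XT.nd (nat_lit 51480) (nat_lit 0) (nat_lit 1216) (XT.nd (nat_lit 780) (nat_lit 380) (nat_lit 0) (XT.nd (nat_lit 390) (nat_lit 380) (nat_lit 0) (XT.nd (nat_lit 156) (nat_lit 152) (nat_lit 0) (XT.nd (nat_lit 78) (nat_lit 152) (nat_lit 0) (XT.lf (nat_lit 0) (nat_lit 321694897992) (nat_lit 152) (nat_lit 1559075999979) (nat_lit 76) (nat_lit 1058519492621) (nat_lit 32) (nat_lit 5) (nat_lit 34) (nat_lit 5) (nat_lit 33) (nat_lit 5) (nat_lit 436) (nat_lit 411) (nat_lit 173)) (XT.lf (nat_lit 0) (nat_lit 82665979922) (nat_lit 152) (nat_lit 920857884892) (nat_lit 228) (nat_lit 2088199591187) (nat_lit 30) (nat_lit 5) (nat_lit 32) (nat_lit 5) (nat_lit 33) (nat_lit 5) (nat_lit 437) (nat_lit 411) (nat_lit 172))) (XT.nd (nat_lit 78) (nat_lit 152) (nat_lit 0) (XT.lf (nat_lit 0) (nat_lit 1786420417444) (nat_lit 228) (nat_lit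 1312420955260) (nat_lit 76) (nat_lit 153788092463) (nat_lit 30) (nat_lit 5) (nat_lit 33) (nat_lit 5) (nat_lit 31) (nat_lit 4) (nat_lit 438) (nat_lit 411) (nat_lit 171)) (XT.nd (nat_lit 78) (nat_lit 76) (nat_lit 0) (XT.lf (nat_lit 0) (nat_lit 522148058408) (nat_lit 76) (nat_lit 2146276694233) (nat_lit 152) (nat_lit 755065117756) (nat_lit 29) (nat_lit 5) (nat_lit 30) (nat_lit 5) (nat_lit 31) (nat_lit 4) (nat_lit 439) (nat_lit 411) (nat_lit 170)) (XT.lf (nat_lit 0) (nat_lit 49137461188) (nat_lit 152) (nat_lit 1028271248274) (nat_lit 76) (nat_lit 2527640166624) (nat_lit 28) (nat_lit 5) (nat_lit 30) (nat_lit 5) (nat_lit 29) (nat_lit 5) (nat_lit 440) (nat_lit 411) (nat_lit 169))))) (XT.nd (nat_lit 156) (nat_lit 228) (nat_lit 0) (XT.nd (nat_lit 78) (nat_lit 0) (nat_lit 0) (XT.lf (nat_lit 0) (nat_lit 904569149888) (nat_lit 228) (nat_lit 2774214162125) (nat_lit 76) (nat_lit 118565441188) (nat_lit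 26) (nat_lit 5) (nat_lit 29) (nat_lit 5) (nat_lit 27) (nat_lit 4) (nat_lit 441) (nat_lit 411) (nat_lit 168)) (XT.lf (nat_lit 0) (nat_lit 1885265025660) (nat_lit 228) (nat_lit 734366743124) (nat_lit 76) (nat_lit 1380854479545) (nat_lit 26) (nat_lit 5) (nat_lit 29) (nat_lit 5) (nat_lit 27) (nat_lit 4) (nat_lit 442) (nat_lit 411) (nat_lit 167))) (XT.nd (nat_lit 78) (nat_lit 152) (nat_lit 0) (XT.lf (nat_lit 0) (nat_lit 1546005945737) (nat_lit 76) (nat_lit 1435592104573) (nat_lit 152) (nat_lit 1235302174451) (nat_lit 25) (nat_lit 5) (nat_lit 26) (nat_lit 5) (nat_lit 27) (nat_lit 4) (nat_lit 443) (nat_lit 411) (nat_lit 166)) (XT.nd (nat_lit 78) (nat_lit 152) (nat_lit 0) (XT.lf (nat_lit 0) (nat_lit 4050572534728) (nat_lit 76) (nat_lit 135144069055) (nat_lit 152) (nat_lit 263304404577) (nat_lit 25) (nat_lit 5) (nat_lit 26) (nat_lit 5) (nat_lit 27) (nat_lit 4) (nat_lit 444) (nat_lit 411) (nat_lit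 165)) (XT.lf (nat_lit 0) (nat_lit 831036485612) (nat_lit 152) (nat_lit 2582294112898) (nat_lit 76) (nat_lit 1278153728910) (nat_lit 23) (nat_lit 5) (nat_lit 25) (nat_lit 5) (nat_lit 24) (nat_lit 4) (nat_lit 445) (nat_lit 411) (nat_lit 164)))))) (XT.nd (nat_lit 390) (nat_lit 76) (nat_lit 0) (XT.nd (nat_lit 156) (nat_lit 228) (nat_lit 0) (XT.nd (nat_lit 78) (nat_lit 76) (nat_lit 0) (XT.lf (nat_lit 0) (nat_lit 2013386860303) (nat_lit 152) (nat_lit 123005335313) (nat_lit 76) (nat_lit 2815230391137) (nat_lit 23) (nat_lit 5) (nat_lit 25) (nat_lit 5) (nat_lit 24) (nat_lit 4) (nat_lit 446) (nat_lit 411) (nat_lit 163)) (XT.lf (nat_lit 0) (nat_lit 2666411231188) (nat_lit 76) (nat_lit 688041286875) (nat_lit 152) (nat_lit 1872989208521) (nat_lit 22) (nat_lit 5) (nat_lit 23) (nat_lit 5) (nat_lit 24) (nat_lit 4) (nat_lit 447) (nat_lit 411) (nat_lit 162))) (XT.nd (nat_lit 78) (nat_lit 152) (nat_lit 0)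 (XT.lf (nat_lit 0) (nat_lit 147119251135) (nat_lit 76) (nat_lit 4683745031610) (nat_lit 76) (nat_lit 692217246513) (nat_lit 21) (nat_lit 4) (nat_lit 22) (nat_lit 5) (nat_lit 22) (nat_lit 4) (nat_lit 448) (nat_lit 411) (nat_lit 161)) (XT.nd (nat_lit 78) (nat_lit 76) (nat_lit 0) (XT.lf (nat_lit 0) (nat_lit 643564722819) (nat_lit 152) (nat_lit 2652913162935) (nat_lit 76) (nat_lit 2537595857935) (nat_lit 20) (nat_lit 5) (nat_lit 22) (nat_lit 5) (nat_lit 21) (nat_lit 4) (nat_lit 449) (nat_lit 411) (nat_lit 160)) (XT.lf (nat_lit 0) (nat_lit 284217943379) (nat_lit 76) (nat_lit 1771429042671) (nat_lit 152) (nat_lit 4112313139939) (nat_lit 19) (nat_lit 5) (nat_lit 20) (nat_lit 5) (nat_lit 21) (nat_lit 4) (nat_lit 450) (nat_lit 411) (nat_lit 159))))) (XT.nd (nat_lit 50076) (nat_lit 0) (nat_lit 3496) (XT.nd (nat_lit 78) (nat_lit 76) (nat_lit 0) (XT.lf (nat_lit 0) (nat_lit 3607193058542) (nat_lit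 76) (nat_lit 46038118027) (nat_lit 152) (nat_lit 2869523414605) (nat_lit 19) (nat_lit 5) (nat_lit 20) (nat_lit 5) (nat_lit 21) (nat_lit 4) (nat_lit 451) (nat_lit 411) (nat_lit 158)) (XT.lf (nat_lit 0) (nat_lit 259338603965) (nat_lit 76) (nat_lit 5169228727917) (nat_lit 76) (nat_lit 1473369663327) (nat_lit 18) (nat_lit 4) (nat_lit 19) (nat_lit 5) (nat_lit 19) (nat_lit 4) (nat_lit 452) (nat_lit 411) (nat_lit 157))) (XT.nd (nat_lit 78) (nat_lit 0) (nat_lit 0) (XT.lf (nat_lit 0) (nat_lit 457258374424) (nat_lit 532) (nat_lit 30624575057) (nat_lit 532) (nat_lit 30624575057) (nat_lit 64) (nat_lit 3) (nat_lit 71) (nat_lit 3) (nat_lit 71) (nat_lit 5) (nat_lit 412) (nat_lit 412) (nat_lit 196)) (XT.nd (nat_lit 78) (nat_lit 0) (nat_lit 76) (XT.lf (nat_lit 76) (nat_lit 466088602797) (nat_lit 0) (nat_lit 496218315042) (nat_lit 532) (nat_lit 115291973224) (nat_lit 65) (nat_lit 5) (nat_lit 64) (nat_lit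 3) (nat_lit 71) (nat_lit 5) (nat_lit 413) (nat_lit 412) (nat_lit 195)) (XT.lf (nat_lit 0) (nat_lit 1016160171604) (nat_lit 456) (nat_lit 82764018633) (nat_lit 532) (nat_lit 22326060477) (nat_lit 65) (nat_lit 5) (nat_lit 71) (nat_lit 5) (nat_lit 72) (nat_lit 5) (nat_lit 414) (nat_lit 412) (nat_lit 194))))))) (XT.nd (nat_lit 780) (nat_lit 1140) (nat_lit 0) (XT.nd (nat_lit 390) (nat_lit 760) (nat_lit 0) (XT.nd (nat_lit 156) (nat_lit 456) (nat_lit 0) (XT.nd (nat_lit 78) (nat_lit 0) (nat_lit 0) (XT.lf (nat_lit 76) (nat_lit 500426523103) (nat_lit 0) (nat_lit 598819214597) (nat_lit 532) (nat_lit 67154057280) (nat_lit 66) (nat_lit 5) (nat_lit 65) (nat_lit 5) (nat_lit 72) (nat_lit 5) (nat_lit 415) (nat_lit 412) (nat_lit 193)) (XT.lf (nat_lit 76) (nat_lit 1134979167852) (nat_lit 0) (nat_lit 56261891191) (nat_lit 532) (nat_lit 23739210950) (nat_lit 66) (nat_lit 5) (nat_lit 65) (nat_lit 5) (nat_lit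 72) (nat_lit 5) (nat_lit 416) (nat_lit 412) (nat_lit 192))) (XT.nd (nat_lit 78) (nat_lit 0) (nat_lit 0) (XT.lf (nat_lit 0) (nat_lit 49089828745) (nat_lit 532) (nat_lit 698026176630) (nat_lit 608) (nat_lit 518118718973) (nat_lit 59) (nat_lit 5) (nat_lit 66) (nat_lit 5) (nat_lit 67) (nat_lit 5) (nat_lit 417) (nat_lit 412) (nat_lit 191)) (XT.nd (nat_lit 78) (nat_lit 0) (nat_lit 76) (XT.lf (nat_lit 0) (nat_lit 130168187770) (nat_lit 532) (nat_lit 50724611430) (nat_lit 608) (nat_lit 1138270965213) (nat_lit 59) (nat_lit 5) (nat_lit 66) (nat_lit 5) (nat_lit 67) (nat_lit 5) (nat_lit 418) (nat_lit 412) (nat_lit 190)) (XT.lf (nat_lit 0) (nat_lit 244929978937) (nat_lit 532) (nat_lit 704374333944) (nat_lit 76) (nat_lit 425927041733) (nat_lit 60) (nat_lit 5) (nat_lit 67) (nat_lit 5) (nat_lit 61) (nat_lit 5) (nat_lit 419) (nat_lit 412) (nat_lit 189))))) (XT.nd (nat_lit 156) (nat_lit 456) (nat_lit 0)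 (XT.nd (nat_lit 78) (nat_lit 0) (nat_lit 0) (XT.lf (nat_lit 0) (nat_lit 13307700723) (nat_lit 380) (nat_lit 362006497755) (nat_lit 456) (nat_lit 1059954834748) (nat_lit 55) (nat_lit 5) (nat_lit 60) (nat_lit 5) (nat_lit 61) (nat_lit 5) (nat_lit 420) (nat_lit 412) (nat_lit 188)) (XT.lf (nat_lit 0) (nat_lit 542436447867) (nat_lit 456) (nat_lit 677154785340) (nat_lit 76) (nat_lit 278413909541) (nat_lit 55) (nat_lit 5) (nat_lit 61) (nat_lit 5) (nat_lit 56) (nat_lit 5) (nat_lit 421) (nat_lit 412) (nat_lit 187))) (XT.nd (nat_lit 78) (nat_lit 228) (nat_lit 0) (XT.lf (nat_lit 0) (nat_lit 124038419957) (nat_lit 228) (nat_lit 611275947013) (nat_lit 304) (nat_lit 829454902883) (nat_lit 52) (nat_lit 5) (nat_lit 55) (nat_lit 5) (nat_lit 56) (nat_lit 5) (nat_lit 422) (nat_lit 412) (nat_lit 186)) (XT.nd (nat_lit 78) (nat_lit 228) (nat_lit 0) (XT.lf (nat_lit 0) (nat_lit 963717223045) (nat_lit 304) (nat_lit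 609135982427) (nat_lit 76) (nat_lit 62413745381) (nat_lit 52) (nat_lit 5) (nat_lit 56) (nat_lit 5) (nat_lit 53) (nat_lit 5) (nat_lit 423) (nat_lit 412) (nat_lit 185)) (XT.lf (nat_lit 0) (nat_lit 287490618732) (nat_lit 228) (nat_lit 945693139498) (nat_lit 304) (nat_lit 476397372057) (nat_lit 49) (nat_lit 5) (nat_lit 52) (nat_lit 5) (nat_lit 53) (nat_lit 5) (nat_lit 424) (nat_lit 412) (nat_lit 184)))))) (XT.nd (nat_lit 390) (nat_lit 684) (nat_lit 0) (XT.nd (nat_lit 156) (nat_lit 228) (nat_lit 0) (XT.nd (nat_lit 78) (nat_lit 228) (nat_lit 0) (XT.lf (nat_lit 0) (nat_lit 1290489447661) (nat_lit 228) (nat_lit 250373022955) (nat_lit 304) (nat_lit 247645585110) (nat_lit 49) (nat_lit 5) (nat_lit 52) (nat_lit 5) (nat_lit 53) (nat_lit 5) (nat_lit 425) (nat_lit 412) (nat_lit 183)) (XT.lf (nat_lit 0) (nat_lit 24461293332) (nat_lit 228) (nat_lit 1358782744239) (nat_lit 76) (nat_lit 488504219705) (nat_lit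 46) (nat_lit 5) (nat_lit 49) (nat_lit 5) (nat_lit 47) (nat_lit 5) (nat_lit 426) (nat_lit 412) (nat_lit 182))) (XT.nd (nat_lit 78) (nat_lit 228) (nat_lit 0) (XT.lf (nat_lit 0) (nat_lit 325431013021) (nat_lit 228) (nat_lit 340696447159) (nat_lit 76) (nat_lit 1293367739749) (nat_lit 46) (nat_lit 5) (nat_lit 49) (nat_lit 5) (nat_lit 47) (nat_lit 5) (nat_lit 427) (nat_lit 412) (nat_lit 181)) (XT.nd (nat_lit 78) (nat_lit 0) (nat_lit 0) (XT.lf (nat_lit 0) (nat_lit 672794376494) (nat_lit 304) (nat_lit 1257034276220) (nat_lit 76) (nat_lit 122647959985) (nat_lit 43) (nat_lit 5) (nat_lit 47) (nat_lit 5) (nat_lit 44) (nat_lit 5) (nat_lit 428) (nat_lit 412) (nat_lit 180)) (XT.lf (nat_lit 0) (nat_lit 1074806017710) (nat_lit 304) (nat_lit 127847356865) (nat_lit 76) (nat_lit 948094427223) (nat_lit 43) (nat_lit 5) (nat_lit 47) (nat_lit 5) (nat_lit 44) (nat_lit 5) (nat_lit 429) (nat_lit 412) (nat_lit 179)))))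 (XT.nd (nat_lit 234) (nat_lit 304) (nat_lit 0) (XT.nd (nat_lit 78) (nat_lit 228) (nat_lit 0) (XT.lf (nat_lit 0) (nat_lit 1149160158292) (nat_lit 152) (nat_lit 387455759224) (nat_lit 228) (nat_lit 718053782329) (nat_lit 41) (nat_lit 5) (nat_lit 43) (nat_lit 5) (nat_lit 44) (nat_lit 5) (nat_lit 430) (nat_lit 412) (nat_lit 178)) (XT.nd (nat_lit 78) (nat_lit 76) (nat_lit 0) (XT.lf (nat_lit 0) (nat_lit 165295681836) (nat_lit 152) (nat_lit 1889492301630) (nat_lit 228) (nat_lit 310563976336) (nat_lit 39) (nat_lit 5) (nat_lit 41) (nat_lit 5) (nat_lit 42) (nat_lit 5) (nat_lit 431) (nat_lit 412) (nat_lit 177)) (XT.lf (nat_lit 0) (nat_lit 164121128479) (nat_lit 228) (nat_lit 895798018050) (nat_lit 76) (nat_lit 1421434409241) (nat_lit 38) (nat_lit 5) (nat_lit 41) (nat_lit 5) (nat_lit 39) (nat_lit 5) (nat_lit 432) (nat_lit 412) (nat_lit 176)))) (XT.nd (nat_lit 78) (nat_lit 152) (nat_lit 0) (XT.lf (nat_lit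 0) (nat_lit 531312716938) (nat_lit 152) (nat_lit 141467885142) (nat_lit 228) (nat_lit 1932187103058) (nat_lit 36) (nat_lit 5) (nat_lit 38) (nat_lit 5) (nat_lit 39) (nat_lit 5) (nat_lit 433) (nat_lit 412) (nat_lit 175)) (XT.nd (nat_lit 78) (nat_lit 152) (nat_lit 0) (XT.lf (nat_lit 0) (nat_lit 1267715282065) (nat_lit 228) (nat_lit 634064180228) (nat_lit 76) (nat_lit 833044928282) (nat_lit 36) (nat_lit 5) (nat_lit 39) (nat_lit 5) (nat_lit 37) (nat_lit 5) (nat_lit 434) (nat_lit 412) (nat_lit 174)) (XT.lf (nat_lit 0) (nat_lit 965308015621) (nat_lit 152) (nat_lit 971826890627) (nat_lit 228) (nat_lit 935783491016) (nat_lit 34) (nat_lit 5) (nat_lit 36) (nat_lit 5) (nat_lit 37) (nat_lit 5) (nat_lit 435) (nat_lit 412) (nat_lit 173))))))))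
noncomputable def xc241 : XT := (XT.nd (nat_lit 51558) (nat_lit 0) (nat_lit 1140) (XT.nd (nat_lit 780) (nat_lit 456) (nat_lit 0) (XT.nd (nat_lit 390) (nat_lit 304) (nat_lit 0) (XT.nd (nat_lit 156) (nat_lit 228) (nat_lit 0) (XT.nd (nat_lit 78) (nat_lit 152) (nat_lit 0) (XT.lf (nat_lit 0) (nat_lit 2678676986298) (nat_lit 228) (nat_lit 293215682522) (nat_lit 76) (nat_lit 48681744795) (nat_lit 34) (nat_lit 5) (nat_lit 37) (nat_lit 5) (nat_lit 35) (nat_lit 4) (nat_lit 436) (nat_lit 412) (nat_lit 172)) (XT.lf (nat_lit 0) (nat_lit 347430522155) (nat_lit 152) (nat_lit 1683802026175) (nat_lit 76) (nat_lit 1143201070910) (nat_lit 32) (nat_lit 5) (nat_lit 34) (nat_lit 5) (nat_lit 33) (nat_lit 5) (nat_lit 437) (nat_lit 412) (nat_lit 171))) (XT.nd (nat_lit 78) (nat_lit 76) (nat_lit 0) (XT.lf (nat_lit 0) (nat_lit 89279310756) (nat_lit 152) (nat_lit 994526494434) (nat_lit 228) (nat_lit 2255255524785)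 (nat_lit 30) (nat_lit 5) (nat_lit 32) (nat_lit 5) (nat_lit 33) (nat_lit 5) (nat_lit 438) (nat_lit 412) (nat_lit 170)) (XT.nd (nat_lit 78) (nat_lit 76) (nat_lit 0) (XT.lf (nat_lit 0) (nat_lit 1929334080192) (nat_lit 228) (nat_lit 1417414581276) (nat_lit 76) (nat_lit 166091158552) (nat_lit 30) (nat_lit 5) (nat_lit 33) (nat_lit 5) (nat_lit 31) (nat_lit 4) (nat_lit 439) (nat_lit 412) (nat_lit 169)) (XT.lf (nat_lit 0) (nat_lit 563919952209) (nat_lit 76) (nat_lit 2317978809004) (nat_lit 152) (nat_lit 815470296537) (nat_lit 29) (nat_lit 5) (nat_lit 30) (nat_lit 5) (nat_lit 31) (nat_lit 4) (nat_lit 440) (nat_lit 412) (nat_lit 168))))) (XT.nd (nat_lit 156) (nat_lit 76) (nat_lit 0) (XT.nd (nat_lit 78) (nat_lit 152) (nat_lit 0) (XT.lf (nat_lit 0) (nat_lit 53068485034) (nat_lit 152) (nat_lit 1110532901219) (nat_lit 76) (nat_lit 2729851397755) (nat_lit 28) (nat_lit 5) (nat_lit 30) (nat_lit 5) (nat_lit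 29) (nat_lit 5) (nat_lit 441) (nat_lit 412) (nat_lit 167)) (XT.lf (nat_lit 0) (nat_lit 976934708407) (nat_lit 228) (nat_lit 2996151247746) (nat_lit 76) (nat_lit 128050695174) (nat_lit 26) (nat_lit 5) (nat_lit 29) (nat_lit 5) (nat_lit 27) (nat_lit 4) (nat_lit 442) (nat_lit 412) (nat_lit 166))) (XT.nd (nat_lit 78) (nat_lit 76) (nat_lit 0) (XT.lf (nat_lit 0) (nat_lit 2036086252276) (nat_lit 228) (nat_lit 793116038732) (nat_lit 76) (nat_lit 1491322855215) (nat_lit 26) (nat_lit 5) (nat_lit 29) (nat_lit 5) (nat_lit 27) (nat_lit 4) (nat_lit 443) (nat_lit 412) (nat_lit 165)) (XT.nd (nat_lit 78) (nat_lit 0) (nat_lit 0) (XT.lf (nat_lit 0) (nat_lit 1669686464127) (nat_lit 76) (nat_lit 1550439453978) (nat_lit 152) (nat_lit 1334126322727) (nat_lit 25) (nat_lit 5) (nat_lit 26) (nat_lit 5) (nat_lit 27) (nat_lit 4) (nat_lit 444) (nat_lit 412) (nat_lit 164)) (XT.lf (nat_lit 0) (nat_lit 4374618377072) (nat_lit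 76) (nat_lit 145955577023) (nat_lit 152) (nat_lit 284368733166) (nat_lit 25) (nat_lit 5) (nat_lit 26) (nat_lit 5) (nat_lit 27) (nat_lit 4) (nat_lit 445) (nat_lit 412) (nat_lit 163)))))) (XT.nd (nat_lit 390) (nat_lit 76) (nat_lit 0) (XT.nd (nat_lit 156) (nat_lit 228) (nat_lit 0) (XT.nd (nat_lit 78) (nat_lit 0) (nat_lit 0) (XT.lf (nat_lit 0) (nat_lit 897519426760) (nat_lit 152) (nat_lit 2788877600875) (nat_lit 76) (nat_lit 1380406044189) (nat_lit 23) (nat_lit 5) (nat_lit 25) (nat_lit 5) (nat_lit 24) (nat_lit 4) (nat_lit 446) (nat_lit 412) (nat_lit 162)) (XT.lf (nat_lit 0) (nat_lit 2174457829775) (nat_lit 152) (nat_lit 132845724123) (nat_lit 76) (nat_lit 3040448838137) (nat_lit 23) (nat_lit 5) (nat_lit 25) (nat_lit 5) (nat_lit 24) (nat_lit 4) (nat_lit 447) (nat_lit 412) (nat_lit 161))) (XT.nd (nat_lit 78) (nat_lit 152) (nat_lit 0) (XT.lf (nat_lit 0) (nat_lit 2879724166735) (nat_lit 76) (nat_lit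 743084572783) (nat_lit 152) (nat_lit 2022828323587) (nat_lit 22) (nat_lit 5) (nat_lit 23) (nat_lit 5) (nat_lit 24) (nat_lit 4) (nat_lit 448) (nat_lit 412) (nat_lit 160)) (XT.nd (nat_lit 78) (nat_lit 76) (nat_lit 0) (XT.lf (nat_lit 0) (nat_lit 158888828506) (nat_lit 76) (nat_lit 5058444616663) (nat_lit 76) (nat_lit 747594604842) (nat_lit 21) (nat_lit 4) (nat_lit 22) (nat_lit 5) (nat_lit 22) (nat_lit 4) (nat_lit 449) (nat_lit 412) (nat_lit 159)) (XT.lf (nat_lit 0) (nat_lit 695049919461) (nat_lit 152) (nat_lit 2865146180457) (nat_lit 76) (nat_lit 2740603541757) (nat_lit 20) (nat_lit 5) (nat_lit 22) (nat_lit 5) (nat_lit 21) (nat_lit 4) (nat_lit 450) (nat_lit 412) (nat_lit 158))))) (XT.nd (nat_lit 50154) (nat_lit 0) (nat_lit 3420) (XT.nd (nat_lit 78) (nat_lit 0) (nat_lit 0) (XT.lf (nat_lit 0) (nat_lit 306955413463) (nat_lit 76) (nat_lit 1913143349726) (nat_lit 152) (nat_lit 4441298171415) (nat_lit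 19) (nat_lit 5) (nat_lit 20) (nat_lit 5) (nat_lit 21) (nat_lit 4) (nat_lit 451) (nat_lit 412) (nat_lit 157)) (XT.lf (nat_lit 0) (nat_lit 3895768535275) (nat_lit 76) (nat_lit 49721152323) (nat_lit 152) (nat_lit 3099085269515) (nat_lit 19) (nat_lit 5) (nat_lit 20) (nat_lit 5) (nat_lit 21) (nat_lit 4) (nat_lit 452) (nat_lit 412) (nat_lit 156))) (XT.nd (nat_lit 78) (nat_lit 0) (nat_lit 0) (XT.lf (nat_lit 0) (nat_lit 493839099939) (nat_lit 532) (nat_lit 33074511032) (nat_lit 532) (nat_lit 33074511032) (nat_lit 64) (nat_lit 3) (nat_lit 71) (nat_lit 3) (nat_lit 71) (nat_lit 5) (nat_lit 413) (nat_lit 413) (nat_lit 194)) (XT.nd (nat_lit 78) (nat_lit 0) (nat_lit 76) (XT.lf (nat_lit 76) (nat_lit 503375749559) (nat_lit 0) (nat_lit 535915826006) (nat_lit 532) (nat_lit 124515218342) (nat_lit 65) (nat_lit 5) (nat_lit 64) (nat_lit 3) (nat_lit 71) (nat_lit 5) (nat_lit 414) (nat_lit 413) (nat_lit 193))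 (XT.lf (nat_lit 0) (nat_lit 1097453080887) (nat_lit 456) (nat_lit 89385077087) (nat_lit 532) (nat_lit 24112105064) (nat_lit 65) (nat_lit 5) (nat_lit 71) (nat_lit 5) (nat_lit 72) (nat_lit 5) (nat_lit 415) (nat_lit 413) (nat_lit 192))))))) (XT.nd (nat_lit 780) (nat_lit 1140) (nat_lit 0) (XT.nd (nat_lit 390) (nat_lit 760) (nat_lit 0) (XT.nd (nat_lit 156) (nat_lit 456) (nat_lit 0) (XT.nd (nat_lit 78) (nat_lit 0) (nat_lit 0) (XT.lf (nat_lit 76) (nat_lit 540460706392) (nat_lit 0) (nat_lit 646724780277) (nat_lit 532) (nat_lit 72526284629) (nat_lit 66) (nat_lit 5) (nat_lit 65) (nat_lit 5) (nat_lit 72) (nat_lit 5) (nat_lit 416) (nat_lit 413) (nat_lit 191)) (XT.lf (nat_lit 76) (nat_lit 1225777558170) (nat_lit 0) (nat_lit 60762868886) (nat_lit 532) (nat_lit 25638257795) (nat_lit 66) (nat_lit 5) (nat_lit 65) (nat_lit 5) (nat_lit 72) (nat_lit 5) (nat_lit 417) (nat_lit 413) (nat_lit 190))) (XT.nd (nat_lit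 78) (nat_lit 0) (nat_lit 0) (XT.lf (nat_lit 0) (nat_lit 53017095178) (nat_lit 532) (nat_lit 753868203837) (nat_lit 608) (nat_lit 559568196804) (nat_lit 59) (nat_lit 5) (nat_lit 66) (nat_lit 5) (nat_lit 67) (nat_lit 5) (nat_lit 418) (nat_lit 413) (nat_lit 189)) (XT.nd (nat_lit 78) (nat_lit 0) (nat_lit 76) (XT.lf (nat_lit 0) (nat_lit 140581716990) (nat_lit 532) (nat_lit 54782518378) (nat_lit 608) (nat_lit 1229332624201) (nat_lit 59) (nat_lit 5) (nat_lit 66) (nat_lit 5) (nat_lit 67) (nat_lit 5) (nat_lit 419) (nat_lit 413) (nat_lit 188)) (XT.lf (nat_lit 0) (nat_lit 264524447172) (nat_lit 532) (nat_lit 760724214358) (nat_lit 76) (nat_lit 460001195803) (nat_lit 60) (nat_lit 5) (nat_lit 67) (nat_lit 5) (nat_lit 61) (nat_lit 5) (nat_lit 420) (nat_lit 413) (nat_lit 187))))) (XT.nd (nat_lit 156) (nat_lit 456) (nat_lit 0) (XT.nd (nat_lit 78) (nat_lit 0) (nat_lit 0) (XT.lf (nat_lit 0) (nat_lit 14372381404)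 (nat_lit 380) (nat_lit 390967019247) (nat_lit 456) (nat_lit 1144751149877) (nat_lit 55) (nat_lit 5) (nat_lit 60) (nat_lit 5) (nat_lit 61) (nat_lit 5) (nat_lit 421) (nat_lit 413) (nat_lit 186)) (XT.lf (nat_lit 0) (nat_lit 585831425044) (nat_lit 456) (nat_lit 731327103334) (nat_lit 76) (nat_lit 300687020834) (nat_lit 55) (nat_lit 5) (nat_lit 61) (nat_lit 5) (nat_lit 56) (nat_lit 5) (nat_lit 422) (nat_lit 413) (nat_lit 185))) (XT.nd (nat_lit 78) (nat_lit 228) (nat_lit 0) (XT.lf (nat_lit 0) (nat_lit 133961556745) (nat_lit 228) (nat_lit 660178017905) (nat_lit 304) (nat_lit 895811232080) (nat_lit 52) (nat_lit 5) (nat_lit 55) (nat_lit 5) (nat_lit 56) (nat_lit 5) (nat_lit 423) (nat_lit 413) (nat_lit 184)) (XT.nd (nat_lit 78) (nat_lit 228) (nat_lit 0) (XT.lf (nat_lit 0) (nat_lit 1040814655000) (nat_lit 304) (nat_lit 657866798257) (nat_lit 76) (nat_lit 67406849295) (nat_lit 52) (nat_lit 5) (nat_lit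 56) (nat_lit 5) (nat_lit 53) (nat_lit 5) (nat_lit 424) (nat_lit 413) (nat_lit 183)) (XT.lf (nat_lit 0) (nat_lit 310489929406) (nat_lit 228) (nat_lit 1021348581056) (nat_lit 304) (nat_lit 514509106083) (nat_lit 49) (nat_lit 5) (nat_lit 52) (nat_lit 5) (nat_lit 53) (nat_lit 5) (nat_lit 425) (nat_lit 413) (nat_lit 182)))))) (XT.nd (nat_lit 390) (nat_lit 684) (nat_lit 0) (XT.nd (nat_lit 156) (nat_lit 228) (nat_lit 0) (XT.nd (nat_lit 78) (nat_lit 228) (nat_lit 0) (XT.lf (nat_lit 0) (nat_lit 1393728660118) (nat_lit 228) (nat_lit 270402855901) (nat_lit 304) (nat_lit 267457180309) (nat_lit 49) (nat_lit 5) (nat_lit 52) (nat_lit 5) (nat_lit 53) (nat_lit 5) (nat_lit 426) (nat_lit 413) (nat_lit 181)) (XT.lf (nat_lit 0) (nat_lit 26418243847) (nat_lit 228) (nat_lit 1467485302510) (nat_lit 76) (nat_lit 527584567706) (nat_lit 46) (nat_lit 5) (nat_lit 49) (nat_lit 5) (nat_lit 47) (nat_lit 5) (nat_lit 427)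 (nat_lit 413) (nat_lit 180))) (XT.nd (nat_lit 78) (nat_lit 228) (nat_lit 0) (XT.lf (nat_lit 0) (nat_lit 351465537626) (nat_lit 228) (nat_lit 367952106202) (nat_lit 76) (nat_lit 1396837168582) (nat_lit 46) (nat_lit 5) (nat_lit 49) (nat_lit 5) (nat_lit 47) (nat_lit 5) (nat_lit 428) (nat_lit 413) (nat_lit 179)) (XT.nd (nat_lit 78) (nat_lit 0) (nat_lit 0) (XT.lf (nat_lit 0) (nat_lit 726617968608) (nat_lit 304) (nat_lit 1357596959992) (nat_lit 76) (nat_lit 132459809729) (nat_lit 43) (nat_lit 5) (nat_lit 47) (nat_lit 5) (nat_lit 44) (nat_lit 5) (nat_lit 429) (nat_lit 413) (nat_lit 178)) (XT.lf (nat_lit 0) (nat_lit 1160790538011) (nat_lit 304) (nat_lit 138075091409) (nat_lit 76) (nat_lit 1023941993387) (nat_lit 43) (nat_lit 5) (nat_lit 47) (nat_lit 5) (nat_lit 44) (nat_lit 5) (nat_lit 430) (nat_lit 413) (nat_lit 177))))) (XT.nd (nat_lit 234) (nat_lit 304) (nat_lit 0) (XT.nd (nat_lit 78) (nat_lit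 228) (nat_lit 0) (XT.lf (nat_lit 0) (nat_lit 1241093023593) (nat_lit 152) (nat_lit 418452204594) (nat_lit 228) (nat_lit 775498044641) (nat_lit 41) (nat_lit 5) (nat_lit 43) (nat_lit 5) (nat_lit 44) (nat_lit 5) (nat_lit 431) (nat_lit 413) (nat_lit 176)) (XT.nd (nat_lit 78) (nat_lit 76) (nat_lit 0) (XT.lf (nat_lit 0) (nat_lit 178519390256) (nat_lit 152) (nat_lit 2040651668034) (nat_lit 228) (nat_lit 335409055383) (nat_lit 39) (nat_lit 5) (nat_lit 41) (nat_lit 5) (nat_lit 42) (nat_lit 5) (nat_lit 432) (nat_lit 413) (nat_lit 175)) (XT.lf (nat_lit 0) (nat_lit 177250853115) (nat_lit 228) (nat_lit 967461807785) (nat_lit 76) (nat_lit 1535149176567) (nat_lit 38) (nat_lit 5) (nat_lit 41) (nat_lit 5) (nat_lit 39) (nat_lit 5) (nat_lit 433) (nat_lit 413) (nat_lit 174)))) (XT.nd (nat_lit 78) (nat_lit 152) (nat_lit 0) (XT.lf (nat_lit 0) (nat_lit 573817784694) (nat_lit 152) (nat_lit 152785298577) (nat_lit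 228) (nat_lit 2086762035620) (nat_lit 36) (nat_lit 5) (nat_lit 38) (nat_lit 5) (nat_lit 39) (nat_lit 5) (nat_lit 434) (nat_lit 413) (nat_lit 173)) (XT.nd (nat_lit 78) (nat_lit 152) (nat_lit 0) (XT.lf (nat_lit 0) (nat_lit 1369132535595) (nat_lit 228) (nat_lit 684789265905) (nat_lit 76) (nat_lit 899688537829) (nat_lit 36) (nat_lit 5) (nat_lit 39) (nat_lit 5) (nat_lit 37) (nat_lit 5) (nat_lit 435) (nat_lit 413) (nat_lit 172)) (XT.lf (nat_lit 0) (nat_lit 1042532704378) (nat_lit 152) (nat_lit 1049573024184) (nat_lit 228) (nat_lit 1010646138084) (nat_lit 34) (nat_lit 5) (nat_lit 36) (nat_lit 5) (nat_lit 37) (nat_lit 5) (nat_lit 436) (nat_lit 413) (nat_lit 171))))))))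
noncomputable def xc242 : XT := (XT.nd (nat_lit 51714) (nat_lit 0) (nat_lit 912) (XT.nd (nat_lit 780) (nat_lit 380) (nat_lit 0) (XT.nd (nat_lit 390) (nat_lit 304) (nat_lit 0) (XT.nd (nat_lit 156) (nat_lit 228) (nat_lit 0) (XT.nd (nat_lit 78) (nat_lit 152) (nat_lit 0) (XT.lf (nat_lit 0) (nat_lit 2892971173201) (nat_lit 228) (nat_lit 316672891307) (nat_lit 76) (nat_lit 52576299943) (nat_lit 34) (nat_lit 5) (nat_lit 37) (nat_lit 5) (nat_lit 35) (nat_lit 4) (nat_lit 437) (nat_lit 413) (nat_lit 170)) (XT.lf (nat_lit 0) (nat_lit 375224991640) (nat_lit 152) (nat_lit 1818506142142) (nat_lit 76) (nat_lit 1234657172770) (nat_lit 32) (nat_lit 5) (nat_lit 34) (nat_lit 5) (nat_lit 33) (nat_lit 5) (nat_lit 438) (nat_lit 413) (nat_lit 169))) (XT.nd (nat_lit 78) (nat_lit 76) (nat_lit 0) (XT.lf (nat_lit 0) (nat_lit 96421700575) (nat_lit 152) (nat_lit 1074088595770) (nat_lit 228) (nat_lit 2435675937877)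 (nat_lit 30) (nat_lit 5) (nat_lit 32) (nat_lit 5) (nat_lit 33) (nat_lit 5) (nat_lit 439) (nat_lit 413) (nat_lit 168)) (XT.nd (nat_lit 78) (nat_lit 76) (nat_lit 0) (XT.lf (nat_lit 0) (nat_lit 2083680831773) (nat_lit 228) (nat_lit 1530807704565) (nat_lit 76) (nat_lit 179378467261) (nat_lit 30) (nat_lit 5) (nat_lit 33) (nat_lit 5) (nat_lit 31) (nat_lit 4) (nat_lit 440) (nat_lit 413) (nat_lit 167)) (XT.lf (nat_lit 0) (nat_lit 609033590505) (nat_lit 76) (nat_lit 2503417095919) (nat_lit 152) (nat_lit 880707893992) (nat_lit 29) (nat_lit 5) (nat_lit 30) (nat_lit 5) (nat_lit 31) (nat_lit 4) (nat_lit 441) (nat_lit 413) (nat_lit 166))))) (XT.nd (nat_lit 156) (nat_lit 76) (nat_lit 0) (XT.nd (nat_lit 78) (nat_lit 152) (nat_lit 0) (XT.lf (nat_lit 0) (nat_lit 57313986943) (nat_lit 152) (nat_lit 1199375493092) (nat_lit 76) (nat_lit 2948239524838) (nat_lit 28) (nat_lit 5) (nat_lit 30) (nat_lit 5) (nat_lit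 29) (nat_lit 5) (nat_lit 442) (nat_lit 413) (nat_lit 165)) (XT.lf (nat_lit 0) (nat_lit 1055089507822) (nat_lit 228) (nat_lit 3235843306972) (nat_lit 76) (nat_lit 138294766813) (nat_lit 26) (nat_lit 5) (nat_lit 29) (nat_lit 5) (nat_lit 27) (nat_lit 4) (nat_lit 443) (nat_lit 413) (nat_lit 164))) (XT.nd (nat_lit 78) (nat_lit 76) (nat_lit 0) (XT.lf (nat_lit 0) (nat_lit 2198973173516) (nat_lit 228) (nat_lit 856565284244) (nat_lit 76) (nat_lit 1610628698469) (nat_lit 26) (nat_lit 5) (nat_lit 29) (nat_lit 5) (nat_lit 27) (nat_lit 4) (nat_lit 444) (nat_lit 413) (nat_lit 163)) (XT.nd (nat_lit 78) (nat_lit 0) (nat_lit 0) (XT.lf (nat_lit 0) (nat_lit 1803261417893) (nat_lit 76) (nat_lit 1674474594041) (nat_lit 152) (nat_lit 1440856406530) (nat_lit 25) (nat_lit 5) (nat_lit 26) (nat_lit 5) (nat_lit 27) (nat_lit 4) (nat_lit 445) (nat_lit 413) (nat_lit 162)) (XT.lf (nat_lit 0) (nat_lit 4724587881160)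 (nat_lit 76) (nat_lit 157632008133) (nat_lit 152) (nat_lit 307118211434) (nat_lit 25) (nat_lit 5) (nat_lit 26) (nat_lit 5) (nat_lit 27) (nat_lit 4) (nat_lit 446) (nat_lit 413) (nat_lit 161)))))) (XT.nd (nat_lit 50544) (nat_lit 0) (nat_lit 3344) (XT.nd (nat_lit 156) (nat_lit 228) (nat_lit 0) (XT.nd (nat_lit 78) (nat_lit 0) (nat_lit 0) (XT.lf (nat_lit 0) (nat_lit 969321000020) (nat_lit 152) (nat_lit 3011987773746) (nat_lit 76) (nat_lit 1490838542270) (nat_lit 23) (nat_lit 5) (nat_lit 25) (nat_lit 5) (nat_lit 24) (nat_lit 4) (nat_lit 447) (nat_lit 413) (nat_lit 160)) (XT.lf (nat_lit 0) (nat_lit 2348414473859) (nat_lit 152) (nat_lit 143473349462) (nat_lit 76) (nat_lit 3283684758657) (nat_lit 23) (nat_lit 5) (nat_lit 25) (nat_lit 5) (nat_lit 24) (nat_lit 4) (nat_lit 448) (nat_lit 413) (nat_lit 159))) (XT.nd (nat_lit 78) (nat_lit 152) (nat_lit 0) (XT.lf (nat_lit 0) (nat_lit 3110102131841) (nat_lit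 76) (nat_lit 802531323994) (nat_lit 152) (nat_lit 2184654570943) (nat_lit 22) (nat_lit 5) (nat_lit 23) (nat_lit 5) (nat_lit 24) (nat_lit 4) (nat_lit 449) (nat_lit 413) (nat_lit 158)) (XT.nd (nat_lit 78) (nat_lit 76) (nat_lit 0) (XT.lf (nat_lit 0) (nat_lit 171599966747) (nat_lit 76) (nat_lit 5463120171013) (nat_lit 76) (nat_lit 807402154889) (nat_lit 21) (nat_lit 4) (nat_lit 22) (nat_lit 5) (nat_lit 22) (nat_lit 4) (nat_lit 450) (nat_lit 413) (nat_lit 157)) (XT.lf (nat_lit 0) (nat_lit 750653929150) (nat_lit 152) (nat_lit 3094357844447) (nat_lit 76) (nat_lit 2959851838118) (nat_lit 20) (nat_lit 5) (nat_lit 22) (nat_lit 5) (nat_lit 21) (nat_lit 4) (nat_lit 451) (nat_lit 413) (nat_lit 156))))) (XT.nd (nat_lit 156) (nat_lit 0) (nat_lit 76) (XT.nd (nat_lit 78) (nat_lit 0) (nat_lit 0) (XT.lf (nat_lit 0) (nat_lit 533346275569) (nat_lit 532) (nat_lit 35720446170) (nat_lit 532) (nat_lit 35720446170)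 (nat_lit 64) (nat_lit 3) (nat_lit 71) (nat_lit 3) (nat_lit 71) (nat_lit 5) (nat_lit 414) (nat_lit 414) (nat_lit 192)) (XT.lf (nat_lit 76) (nat_lit 543645859711) (nat_lit 0) (nat_lit 578789131319) (nat_lit 532) (nat_lit 134476339154) (nat_lit 65) (nat_lit 5) (nat_lit 64) (nat_lit 3) (nat_lit 71) (nat_lit 5) (nat_lit 415) (nat_lit 414) (nat_lit 191))) (XT.nd (nat_lit 78) (nat_lit 0) (nat_lit 0) (XT.lf (nat_lit 0) (nat_lit 1185249409280) (nat_lit 456) (nat_lit 96535829210) (nat_lit 532) (nat_lit 26041038960) (nat_lit 65) (nat_lit 5) (nat_lit 71) (nat_lit 5) (nat_lit 72) (nat_lit 5) (nat_lit 416) (nat_lit 414) (nat_lit 190)) (XT.nd (nat_lit 78) (nat_lit 0) (nat_lit 0) (XT.lf (nat_lit 76) (nat_lit 583697615579) (nat_lit 0) (nat_lit 698462787144) (nat_lit 532) (nat_lit 78328304037) (nat_lit 66) (nat_lit 5) (nat_lit 65) (nat_lit 5) (nat_lit 72) (nat_lit 5) (nat_lit 417) (nat_lit 414) (nat_lit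 189)) (XT.lf (nat_lit 76) (nat_lit 1323839811598) (nat_lit 0) (nat_lit 65623921031) (nat_lit 532) (nat_lit 27689241232) (nat_lit 66) (nat_lit 5) (nat_lit 65) (nat_lit 5) (nat_lit 72) (nat_lit 5) (nat_lit 418) (nat_lit 414) (nat_lit 188))))))) (XT.nd (nat_lit 780) (nat_lit 1064) (nat_lit 0) (XT.nd (nat_lit 390) (nat_lit 684) (nat_lit 0) (XT.nd (nat_lit 156) (nat_lit 304) (nat_lit 0) (XT.nd (nat_lit 78) (nat_lit 0) (nat_lit 0) (XT.lf (nat_lit 0) (nat_lit 57258531495) (nat_lit 532) (nat_lit 814177602767) (nat_lit 608) (nat_lit 604333635671) (nat_lit 59) (nat_lit 5) (nat_lit 66) (nat_lit 5) (nat_lit 67) (nat_lit 5) (nat_lit 419) (nat_lit 414) (nat_lit 187)) (XT.lf (nat_lit 0) (nat_lit 151828317962) (nat_lit 532) (nat_lit 59165066722) (nat_lit 608) (nat_lit 1327679218509) (nat_lit 59) (nat_lit 5) (nat_lit 66) (nat_lit 5) (nat_lit 67) (nat_lit 5) (nat_lit 420) (nat_lit 414) (nat_lit 186))) (XT.nd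 (nat_lit 78) (nat_lit 380) (nat_lit 0) (XT.lf (nat_lit 0) (nat_lit 285686462891) (nat_lit 532) (nat_lit 821582094663) (nat_lit 76) (nat_lit 496801283521) (nat_lit 60) (nat_lit 5) (nat_lit 67) (nat_lit 5) (nat_lit 61) (nat_lit 5) (nat_lit 421) (nat_lit 414) (nat_lit 185)) (XT.nd (nat_lit 78) (nat_lit 0) (nat_lit 0) (XT.lf (nat_lit 0) (nat_lit 15522227321) (nat_lit 380) (nat_lit 422244382220) (nat_lit 456) (nat_lit 1236331180438) (nat_lit 55) (nat_lit 5) (nat_lit 60) (nat_lit 5) (nat_lit 61) (nat_lit 5) (nat_lit 422) (nat_lit 414) (nat_lit 184)) (XT.lf (nat_lit 0) (nat_lit 632697991643) (nat_lit 456) (nat_lit 789833216017) (nat_lit 76) (nat_lit 324741981240) (nat_lit 55) (nat_lit 5) (nat_lit 61) (nat_lit 5) (nat_lit 56) (nat_lit 5) (nat_lit 423) (nat_lit 414) (nat_lit 183))))) (XT.nd (nat_lit 156) (nat_lit 456) (nat_lit 0) (XT.nd (nat_lit 78) (nat_lit 0) (nat_lit 0) (XT.lf (nat_lit 0) (nat_lit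 144678535461) (nat_lit 228) (nat_lit 712992255163) (nat_lit 304) (nat_lit 967476076606) (nat_lit 52) (nat_lit 5) (nat_lit 55) (nat_lit 5) (nat_lit 56) (nat_lit 5) (nat_lit 424) (nat_lit 414) (nat_lit 182)) (XT.lf (nat_lit 0) (nat_lit 1124079873791) (nat_lit 304) (nat_lit 710496088308) (nat_lit 76) (nat_lit 72799400910) (nat_lit 52) (nat_lit 5) (nat_lit 56) (nat_lit 5) (nat_lit 53) (nat_lit 5) (nat_lit 425) (nat_lit 414) (nat_lit 181))) (XT.nd (nat_lit 78) (nat_lit 228) (nat_lit 0) (XT.lf (nat_lit 0) (nat_lit 335329176207) (nat_lit 228) (nat_lit 1103056459309) (nat_lit 304) (nat_lit 555669786783) (nat_lit 49) (nat_lit 5) (nat_lit 52) (nat_lit 5) (nat_lit 53) (nat_lit 5) (nat_lit 426) (nat_lit 414) (nat_lit 180)) (XT.nd (nat_lit 78) (nat_lit 228) (nat_lit 0) (XT.lf (nat_lit 0) (nat_lit 1505227001490) (nat_lit 228) (nat_lit 292035076751) (nat_lit 304) (nat_lit 288853710487) (nat_lit 49) (nat_lit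 5) (nat_lit 52) (nat_lit 5) (nat_lit 53) (nat_lit 5) (nat_lit 427) (nat_lit 414) (nat_lit 179)) (XT.lf (nat_lit 0) (nat_lit 28531743692) (nat_lit 228) (nat_lit 1584884074183) (nat_lit 76) (nat_lit 569791342060) (nat_lit 46) (nat_lit 5) (nat_lit 49) (nat_lit 5) (nat_lit 47) (nat_lit 5) (nat_lit 428) (nat_lit 414) (nat_lit 178)))))) (XT.nd (nat_lit 390) (nat_lit 532) (nat_lit 0) (XT.nd (nat_lit 156) (nat_lit 304) (nat_lit 0) (XT.nd (nat_lit 78) (nat_lit 228) (nat_lit 0) (XT.lf (nat_lit 0) (nat_lit 379582817986) (nat_lit 228) (nat_lit 397388226061) (nat_lit 76) (nat_lit 1508584150343) (nat_lit 46) (nat_lit 5) (nat_lit 49) (nat_lit 5) (nat_lit 47) (nat_lit 5) (nat_lit 429) (nat_lit 414) (nat_lit 177)) (XT.lf (nat_lit 0) (nat_lit 784747442100) (nat_lit 304) (nat_lit 1466204666786) (nat_lit 76) (nat_lit 143056605606) (nat_lit 43) (nat_lit 5) (nat_lit 47) (nat_lit 5) (nat_lit 44) (nat_lit 5)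 (nat_lit 430) (nat_lit 414) (nat_lit 176))) (XT.nd (nat_lit 78) (nat_lit 304) (nat_lit 0) (XT.lf (nat_lit 0) (nat_lit 1253653814389) (nat_lit 304) (nat_lit 149121052421) (nat_lit 76) (nat_lit 1105857363134) (nat_lit 43) (nat_lit 5) (nat_lit 47) (nat_lit 5) (nat_lit 44) (nat_lit 5) (nat_lit 431) (nat_lit 414) (nat_lit 175)) (XT.nd (nat_lit 78) (nat_lit 152) (nat_lit 0) (XT.lf (nat_lit 0) (nat_lit 1340380510609) (nat_lit 152) (nat_lit 451928367785) (nat_lit 228) (nat_lit 837537853685) (nat_lit 41) (nat_lit 5) (nat_lit 43) (nat_lit 5) (nat_lit 44) (nat_lit 5) (nat_lit 432) (nat_lit 414) (nat_lit 174)) (XT.lf (nat_lit 0) (nat_lit 192800987664) (nat_lit 152) (nat_lit 2203903786280) (nat_lit 228) (nat_lit 362241746327) (nat_lit 39) (nat_lit 5) (nat_lit 41) (nat_lit 5) (nat_lit 42) (nat_lit 5) (nat_lit 433) (nat_lit 414) (nat_lit 173))))) (XT.nd (nat_lit 234) (nat_lit 304) (nat_lit 0) (XT.nd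 (nat_lit 78) (nat_lit 152) (nat_lit 0) (XT.lf (nat_lit 0) (nat_lit 191430950819) (nat_lit 228) (nat_lit 1044858708075) (nat_lit 76) (nat_lit 1657961123197) (nat_lit 38) (nat_lit 5) (nat_lit 41) (nat_lit 5) (nat_lit 39) (nat_lit 5) (nat_lit 434) (nat_lit 414) (nat_lit 172)) (XT.nd (nat_lit 78) (nat_lit 0) (nat_lit 0) (XT.lf (nat_lit 0) (nat_lit 619723250680) (nat_lit 152) (nat_lit 165008107565) (nat_lit 228) (nat_lit 2253702967877) (nat_lit 36) (nat_lit 5) (nat_lit 38) (nat_lit 5) (nat_lit 39) (nat_lit 5) (nat_lit 435) (nat_lit 414) (nat_lit 171)) (XT.lf (nat_lit 0) (nat_lit 1478663164990) (nat_lit 228) (nat_lit 739572365389) (nat_lit 76) (nat_lit 971663633959) (nat_lit 36) (nat_lit 5) (nat_lit 39) (nat_lit 5) (nat_lit 37) (nat_lit 5) (nat_lit 436) (nat_lit 414) (nat_lit 170)))) (XT.nd (nat_lit 78) (nat_lit 152) (nat_lit 0) (XT.lf (nat_lit 0) (nat_lit 1125935361459) (nat_lit 152) (nat_lit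 1133538850948) (nat_lit 228) (nat_lit 1091497801513) (nat_lit 34) (nat_lit 5) (nat_lit 36) (nat_lit 5) (nat_lit 37) (nat_lit 5) (nat_lit 437) (nat_lit 414) (nat_lit 169)) (XT.nd (nat_lit 78) (nat_lit 152) (nat_lit 0) (XT.lf (nat_lit 0) (nat_lit 3124408891062) (nat_lit 228) (nat_lit 342006683332) (nat_lit 76) (nat_lit 56782417282) (nat_lit 34) (nat_lit 5) (nat_lit 37) (nat_lit 5) (nat_lit 35) (nat_lit 4) (nat_lit 438) (nat_lit 414) (nat_lit 168)) (XT.lf (nat_lit 0) (nat_lit 405243014730) (nat_lit 152) (nat_lit 1963986593967) (nat_lit 76) (nat_lit 1333429760469) (nat_lit 32) (nat_lit 5) (nat_lit 34) (nat_lit 5) (nat_lit 33) (nat_lit 5) (nat_lit 439) (nat_lit 414) (nat_lit 167))))))))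
noncomputable def xc243 : XT := (XT.nd (nat_lit 51870) (nat_lit 0) (nat_lit 532) (XT.nd (nat_lit 780) (nat_lit 152) (nat_lit 0) (XT.nd (nat_lit 390) (nat_lit 228) (nat_lit 0) (XT.nd (nat_lit 156) (nat_lit 304) (nat_lit 0) (XT.nd (nat_lit 78) (nat_lit 0) (nat_lit 0) (XT.lf (nat_lit 0) (nat_lit 104135475167) (nat_lit 152) (nat_lit 1160015667812) (nat_lit 228) (nat_lit 2630529988139) (nat_lit 30) (nat_lit 5) (nat_lit 32) (nat_lit 5) (nat_lit 33) (nat_lit 5) (nat_lit 440) (nat_lit 414) (nat_lit 166)) (XT.lf (nat_lit 0) (nat_lit 2250375319891) (nat_lit 228) (nat_lit 1653272283882) (nat_lit 76) (nat_lit 193728758381) (nat_lit 30) (nat_lit 5) (nat_lit 33) (nat_lit 5) (nat_lit 31) (nat_lit 4) (nat_lit 441) (nat_lit 414) (nat_lit 165))) (XT.nd (nat_lit 78) (nat_lit 228) (nat_lit 0) (XT.lf (nat_lit 0) (nat_lit 657756313856) (nat_lit 76) (nat_lit 2703690448328) (nat_lit 152) (nat_lit 951164502990)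 (nat_lit 29) (nat_lit 5) (nat_lit 30) (nat_lit 5) (nat_lit 31) (nat_lit 4) (nat_lit 442) (nat_lit 414) (nat_lit 164)) (XT.nd (nat_lit 78) (nat_lit 152) (nat_lit 0) (XT.lf (nat_lit 0) (nat_lit 61899125708) (nat_lit 152) (nat_lit 1295325498054) (nat_lit 76) (nat_lit 3184098699909) (nat_lit 28) (nat_lit 5) (nat_lit 30) (nat_lit 5) (nat_lit 29) (nat_lit 5) (nat_lit 443) (nat_lit 414) (nat_lit 163)) (XT.lf (nat_lit 0) (nat_lit 1139496687947) (nat_lit 228) (nat_lit 3494710736727) (nat_lit 76) (nat_lit 149358361896) (nat_lit 26) (nat_lit 5) (nat_lit 29) (nat_lit 5) (nat_lit 27) (nat_lit 4) (nat_lit 444) (nat_lit 414) (nat_lit 162))))) (XT.nd (nat_lit 156) (nat_lit 152) (nat_lit 0) (XT.nd (nat_lit 78) (nat_lit 76) (nat_lit 0) (XT.lf (nat_lit 0) (nat_lit 2374891045451) (nat_lit 228) (nat_lit 925090474758) (nat_lit 76) (nat_lit 1739479007068) (nat_lit 26) (nat_lit 5) (nat_lit 29) (nat_lit 5) (nat_lit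 27) (nat_lit 4) (nat_lit 445) (nat_lit 414) (nat_lit 161)) (XT.lf (nat_lit 0) (nat_lit 1947522362734) (nat_lit 76) (nat_lit 1808432547627) (nat_lit 152) (nat_lit 1556124900177) (nat_lit 25) (nat_lit 5) (nat_lit 26) (nat_lit 5) (nat_lit 27) (nat_lit 4) (nat_lit 446) (nat_lit 414) (nat_lit 160))) (XT.nd (nat_lit 78) (nat_lit 152) (nat_lit 0) (XT.lf (nat_lit 0) (nat_lit 5102554940735) (nat_lit 76) (nat_lit 170242555880) (nat_lit 152) (nat_lit 331687650872) (nat_lit 25) (nat_lit 5) (nat_lit 26) (nat_lit 5) (nat_lit 27) (nat_lit 4) (nat_lit 447) (nat_lit 414) (nat_lit 159)) (XT.nd (nat_lit 78) (nat_lit 0) (nat_lit 0) (XT.lf (nat_lit 0) (nat_lit 1046866696412) (nat_lit 152) (nat_lit 3252946765469) (nat_lit 76) (nat_lit 1610105638122) (nat_lit 23) (nat_lit 5) (nat_lit 25) (nat_lit 5) (nat_lit 24) (nat_lit 4) (nat_lit 448) (nat_lit 414) (nat_lit 158)) (XT.lf (nat_lit 0) (nat_lit 2536287646945)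 (nat_lit 152) (nat_lit 154951189477) (nat_lit 76) (nat_lit 3546379550896) (nat_lit 23) (nat_lit 5) (nat_lit 25) (nat_lit 5) (nat_lit 24) (nat_lit 4) (nat_lit 449) (nat_lit 414) (nat_lit 157)))))) (XT.nd (nat_lit 50622) (nat_lit 0) (nat_lit 2584) (XT.nd (nat_lit 50388) (nat_lit 0) (nat_lit 3268) (XT.nd (nat_lit 78) (nat_lit 76) (nat_lit 0) (XT.lf (nat_lit 0) (nat_lit 3358910329622) (nat_lit 76) (nat_lit 866733817387) (nat_lit 152) (nat_lit 2359426920731) (nat_lit 22) (nat_lit 5) (nat_lit 23) (nat_lit 5) (nat_lit 24) (nat_lit 4) (nat_lit 450) (nat_lit 414) (nat_lit 156)) (XT.lf (nat_lit 0) (nat_lit 185327991489) (nat_lit 76) (nat_lit 5900169771849) (nat_lit 76) (nat_lit 871994311557) (nat_lit 21) (nat_lit 4) (nat_lit 22) (nat_lit 5) (nat_lit 22) (nat_lit 4) (nat_lit 451) (nat_lit 414) (nat_lit 155))) (XT.nd (nat_lit 78) (nat_lit 0) (nat_lit 0) (XT.lf (nat_lit 0) (nat_lit 576014018454) (nat_lit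 532) (nat_lit 38578059791) (nat_lit 532) (nat_lit 38578059791) (nat_lit 64) (nat_lit 3) (nat_lit 71) (nat_lit 3) (nat_lit 71) (nat_lit 5) (nat_lit 415) (nat_lit 415) (nat_lit 190)) (XT.nd (nat_lit 78) (nat_lit 0) (nat_lit 76) (XT.lf (nat_lit 76) (nat_lit 587137571515) (nat_lit 0) (nat_lit 625092295460) (nat_lit 532) (nat_lit 145234363419) (nat_lit 65) (nat_lit 5) (nat_lit 64) (nat_lit 3) (nat_lit 71) (nat_lit 5) (nat_lit 416) (nat_lit 415) (nat_lit 189)) (XT.lf (nat_lit 0) (nat_lit 1280069432257) (nat_lit 456) (nat_lit 104258649213) (nat_lit 532) (nat_lit 28124292490) (nat_lit 65) (nat_lit 5) (nat_lit 71) (nat_lit 5) (nat_lit 72) (nat_lit 5) (nat_lit 417) (nat_lit 415) (nat_lit 188))))) (XT.nd (nat_lit 234) (nat_lit 304) (nat_lit 0) (XT.nd (nat_lit 78) (nat_lit 456) (nat_lit 0) (XT.lf (nat_lit 76) (nat_lit 630393469986) (nat_lit 0) (nat_lit 754339831073) (nat_lit 532) (nat_lit 84594496891)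 (nat_lit 66) (nat_lit 5) (nat_lit 65) (nat_lit 5) (nat_lit 72) (nat_lit 5) (nat_lit 418) (nat_lit 415) (nat_lit 187)) (XT.nd (nat_lit 78) (nat_lit 456) (nat_lit 0) (XT.lf (nat_lit 76) (nat_lit 1429747038341) (nat_lit 0) (nat_lit 70873854119) (nat_lit 532) (nat_lit 29904314356) (nat_lit 66) (nat_lit 5) (nat_lit 65) (nat_lit 5) (nat_lit 72) (nat_lit 5) (nat_lit 419) (nat_lit 415) (nat_lit 186)) (XT.lf (nat_lit 0) (nat_lit 61839272915) (nat_lit 532) (nat_lit 879311761797) (nat_lit 608) (nat_lit 652680312054) (nat_lit 59) (nat_lit 5) (nat_lit 66) (nat_lit 5) (nat_lit 67) (nat_lit 5) (nat_lit 420) (nat_lit 415) (nat_lit 185)))) (XT.nd (nat_lit 78) (nat_lit 304) (nat_lit 0) (XT.lf (nat_lit 0) (nat_lit 163974637937) (nat_lit 532) (nat_lit 63898226512) (nat_lit 608) (nat_lit 1433893542591) (nat_lit 59) (nat_lit 5) (nat_lit 66) (nat_lit 5) (nat_lit 67) (nat_lit 5) (nat_lit 421) (nat_lit 415) (nat_lit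 184)) (XT.nd (nat_lit 78) (nat_lit 380) (nat_lit 0) (XT.lf (nat_lit 0) (nat_lit 308541431315) (nat_lit 532) (nat_lit 887308613502) (nat_lit 76) (nat_lit 536545379390) (nat_lit 60) (nat_lit 5) (nat_lit 67) (nat_lit 5) (nat_lit 61) (nat_lit 5) (nat_lit 422) (nat_lit 415) (nat_lit 183)) (XT.lf (nat_lit 0) (nat_lit 16764053006) (nat_lit 380) (nat_lit 456023934026) (nat_lit 456) (nat_lit 1335237622208) (nat_lit 55) (nat_lit 5) (nat_lit 60) (nat_lit 5) (nat_lit 61) (nat_lit 5) (nat_lit 423) (nat_lit 415) (nat_lit 182))))))) (XT.nd (nat_lit 780) (nat_lit 988) (nat_lit 0) (XT.nd (nat_lit 390) (nat_lit 608) (nat_lit 0) (XT.nd (nat_lit 156) (nat_lit 228) (nat_lit 0) (XT.nd (nat_lit 78) (nat_lit 228) (nat_lit 0) (XT.lf (nat_lit 0) (nat_lit 683313876066) (nat_lit 456) (nat_lit 853019825644) (nat_lit 76) (nat_lit 350721338658) (nat_lit 55) (nat_lit 5) (nat_lit 61) (nat_lit 5) (nat_lit 56) (nat_lit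 5) (nat_lit 424) (nat_lit 415) (nat_lit 181)) (XT.lf (nat_lit 0) (nat_lit 156252864746) (nat_lit 228) (nat_lit 770031631997) (nat_lit 304) (nat_lit 1044874116403) (nat_lit 52) (nat_lit 5) (nat_lit 55) (nat_lit 5) (nat_lit 56) (nat_lit 5) (nat_lit 425) (nat_lit 415) (nat_lit 180))) (XT.nd (nat_lit 78) (nat_lit 228) (nat_lit 0) (XT.lf (nat_lit 0) (nat_lit 1214006303467) (nat_lit 304) (nat_lit 767335729238) (nat_lit 76) (nat_lit 78623356131) (nat_lit 52) (nat_lit 5) (nat_lit 56) (nat_lit 5) (nat_lit 53) (nat_lit 5) (nat_lit 426) (nat_lit 415) (nat_lit 179)) (XT.nd (nat_lit 78) (nat_lit 0) (nat_lit 0) (XT.lf (nat_lit 0) (nat_lit 362155555269) (nat_lit 228) (nat_lit 1191300968996) (nat_lit 304) (nat_lit 600123328757) (nat_lit 49) (nat_lit 5) (nat_lit 52) (nat_lit 5) (nat_lit 53) (nat_lit 5) (nat_lit 427) (nat_lit 415) (nat_lit 178)) (XT.lf (nat_lit 0) (nat_lit 1625645203244) (nat_lit 228) (nat_lit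 315397876357) (nat_lit 304) (nat_lit 311961969392) (nat_lit 49) (nat_lit 5) (nat_lit 52) (nat_lit 5) (nat_lit 53) (nat_lit 5) (nat_lit 428) (nat_lit 415) (nat_lit 177))))) (XT.nd (nat_lit 156) (nat_lit 380) (nat_lit 0) (XT.nd (nat_lit 78) (nat_lit 0) (nat_lit 0) (XT.lf (nat_lit 0) (nat_lit 30814317770) (nat_lit 228) (nat_lit 1711674755084) (nat_lit 76) (nat_lit 615374657087) (nat_lit 46) (nat_lit 5) (nat_lit 49) (nat_lit 5) (nat_lit 47) (nat_lit 5) (nat_lit 429) (nat_lit 415) (nat_lit 176)) (XT.lf (nat_lit 0) (nat_lit 409949475445) (nat_lit 228) (nat_lit 429179242448) (nat_lit 76) (nat_lit 1629270889465) (nat_lit 46) (nat_lit 5) (nat_lit 49) (nat_lit 5) (nat_lit 47) (nat_lit 5) (nat_lit 430) (nat_lit 415) (nat_lit 175))) (XT.nd (nat_lit 78) (nat_lit 152) (nat_lit 0) (XT.lf (nat_lit 0) (nat_lit 847527268336) (nat_lit 304) (nat_lit 1583500997258) (nat_lit 76) (nat_lit 154501143569) (nat_lit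 43) (nat_lit 5) (nat_lit 47) (nat_lit 5) (nat_lit 44) (nat_lit 5) (nat_lit 431) (nat_lit 415) (nat_lit 174)) (XT.nd (nat_lit 78) (nat_lit 152) (nat_lit 0) (XT.lf (nat_lit 0) (nat_lit 1353946148121) (nat_lit 304) (nat_lit 161050696920) (nat_lit 76) (nat_lit 1194325960995) (nat_lit 43) (nat_lit 5) (nat_lit 47) (nat_lit 5) (nat_lit 44) (nat_lit 5) (nat_lit 432) (nat_lit 415) (nat_lit 173)) (XT.lf (nat_lit 0) (nat_lit 1447610990148) (nat_lit 152) (nat_lit 488082625912) (nat_lit 228) (nat_lit 904540852377) (nat_lit 41) (nat_lit 5) (nat_lit 43) (nat_lit 5) (nat_lit 44) (nat_lit 5) (nat_lit 433) (nat_lit 415) (nat_lit 172)))))) (XT.nd (nat_lit 390) (nat_lit 456) (nat_lit 0) (XT.nd (nat_lit 156) (nat_lit 304) (nat_lit 0) (XT.nd (nat_lit 78) (nat_lit 76) (nat_lit 0) (XT.lf (nat_lit 0) (nat_lit 208225106276) (nat_lit 152) (nat_lit 2380216076153) (nat_lit 228) (nat_lit 391221057323) (nat_lit 39)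 (nat_lit 5) (nat_lit 41) (nat_lit 5) (nat_lit 42) (nat_lit 5) (nat_lit 434) (nat_lit 415) (nat_lit 171)) (XT.lf (nat_lit 0) (nat_lit 206745452138) (nat_lit 228) (nat_lit 1128447366713) (nat_lit 76) (nat_lit 1790598023775) (nat_lit 38) (nat_lit 5) (nat_lit 41) (nat_lit 5) (nat_lit 39) (nat_lit 5) (nat_lit 435) (nat_lit 415) (nat_lit 170))) (XT.nd (nat_lit 78) (nat_lit 152) (nat_lit 0) (XT.lf (nat_lit 0) (nat_lit 669301147780) (nat_lit 152) (nat_lit 178208743399) (nat_lit 228) (nat_lit 2433999179080) (nat_lit 36) (nat_lit 5) (nat_lit 38) (nat_lit 5) (nat_lit 39) (nat_lit 5) (nat_lit 436) (nat_lit 415) (nat_lit 169)) (XT.nd (nat_lit 78) (nat_lit 152) (nat_lit 0) (XT.lf (nat_lit 0) (nat_lit 1596956240949) (nat_lit 228) (nat_lit 798738118794) (nat_lit 76) (nat_lit 1049396735910) (nat_lit 36) (nat_lit 5) (nat_lit 39) (nat_lit 5) (nat_lit 37) (nat_lit 5) (nat_lit 437) (nat_lit 415) (nat_lit 168))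 (XT.lf (nat_lit 0) (nat_lit 1216010225295) (nat_lit 152) (nat_lit 1224221946019) (nat_lit 228) (nat_lit 1178817601957) (nat_lit 34) (nat_lit 5) (nat_lit 36) (nat_lit 5) (nat_lit 37) (nat_lit 5) (nat_lit 438) (nat_lit 415) (nat_lit 167))))) (XT.nd (nat_lit 234) (nat_lit 152) (nat_lit 0) (XT.nd (nat_lit 78) (nat_lit 304) (nat_lit 0) (XT.lf (nat_lit 0) (nat_lit 3374361622927) (nat_lit 228) (nat_lit 369367184322) (nat_lit 76) (nat_lit 61325022104) (nat_lit 34) (nat_lit 5) (nat_lit 37) (nat_lit 5) (nat_lit 35) (nat_lit 4) (nat_lit 439) (nat_lit 415) (nat_lit 166)) (XT.nd (nat_lit 78) (nat_lit 152) (nat_lit 0) (XT.lf (nat_lit 0) (nat_lit 437662476277) (nat_lit 152) (nat_lit 2121105487580) (nat_lit 76) (nat_lit 1440104153204) (nat_lit 32) (nat_lit 5) (nat_lit 34) (nat_lit 5) (nat_lit 33) (nat_lit 5) (nat_lit 440) (nat_lit 415) (nat_lit 165)) (XT.lf (nat_lit 0) (nat_lit 112466346226) (nat_lit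 152) (nat_lit 1252816907846) (nat_lit 228) (nat_lit 2840972365954) (nat_lit 30) (nat_lit 5) (nat_lit 32) (nat_lit 5) (nat_lit 33) (nat_lit 5) (nat_lit 441) (nat_lit 415) (nat_lit 164)))) (XT.nd (nat_lit 78) (nat_lit 152) (nat_lit 0) (XT.lf (nat_lit 0) (nat_lit 2430405363979) (nat_lit 228) (nat_lit 1785534034829) (nat_lit 76) (nat_lit 209227070830) (nat_lit 30) (nat_lit 5) (nat_lit 33) (nat_lit 5) (nat_lit 31) (nat_lit 4) (nat_lit 442) (nat_lit 415) (nat_lit 163)) (XT.nd (nat_lit 78) (nat_lit 76) (nat_lit 0) (XT.lf (nat_lit 0) (nat_lit 710376849924) (nat_lit 76) (nat_lit 2919985671107) (nat_lit 152) (nat_lit 1027257643921) (nat_lit 29) (nat_lit 5) (nat_lit 30) (nat_lit 5) (nat_lit 31) (nat_lit 4) (nat_lit 443) (nat_lit 415) (nat_lit 162)) (XT.lf (nat_lit 0) (nat_lit 66851072748) (nat_lit 152) (nat_lit 1398951508333) (nat_lit 76) (nat_lit 3438826607120) (nat_lit 28) (nat_lit 5) (nat_lit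 30) (nat_lit 5) (nat_lit 29) (nat_lit 5) (nat_lit 444) (nat_lit 415) (nat_lit 161))))))))
noncomputable def xc244 : XT := (XT.nd (nat_lit 51870) (nat_lit 0) (nat_lit 228) (XT.nd (nat_lit 51090) (nat_lit 0) (nat_lit 2052) (XT.nd (nat_lit 390) (nat_lit 76) (nat_lit 0) (XT.nd (nat_lit 156) (nat_lit 228) (nat_lit 0) (XT.nd (nat_lit 78) (nat_lit 0) (nat_lit 0) (XT.lf (nat_lit 0) (nat_lit 1230656439699) (nat_lit 228) (nat_lit 3774287565827) (nat_lit 76) (nat_lit 161307042627) (nat_lit 26) (nat_lit 5) (nat_lit 29) (nat_lit 5) (nat_lit 27) (nat_lit 4) (nat_lit 445) (nat_lit 415) (nat_lit 160)) (XT.lf (nat_lit 0) (nat_lit 2564882344566) (nat_lit 228) (nat_lit 999097685111) (nat_lit 76) (nat_lit 1878637338539) (nat_lit 26) (nat_lit 5) (nat_lit 29) (nat_lit 5) (nat_lit 27) (nat_lit 4) (nat_lit 446) (nat_lit 415) (nat_lit 159))) (XT.nd (nat_lit 78) (nat_lit 152) (nat_lit 0) (XT.lf (nat_lit 0) (nat_lit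 2103324178681) (nat_lit 76) (nat_lit 1953107139489) (nat_lit 152) (nat_lit 1680614876009) (nat_lit 25) (nat_lit 5) (nat_lit 26) (nat_lit 5) (nat_lit 27) (nat_lit 4) (nat_lit 447) (nat_lit 415) (nat_lit 158)) (XT.nd (nat_lit 78) (nat_lit 152) (nat_lit 0) (XT.lf (nat_lit 0) (nat_lit 5510759360928) (nat_lit 76) (nat_lit 183861949286) (nat_lit 152) (nat_lit 358222647958) (nat_lit 25) (nat_lit 5) (nat_lit 26) (nat_lit 5) (nat_lit 27) (nat_lit 4) (nat_lit 448) (nat_lit 415) (nat_lit 157)) (XT.lf (nat_lit 0) (nat_lit 1130616046178) (nat_lit 152) (nat_lit 3513182480834) (nat_lit 76) (nat_lit 1738914099864) (nat_lit 23) (nat_lit 5) (nat_lit 25) (nat_lit 5) (nat_lit 24) (nat_lit 4) (nat_lit 449) (nat_lit 415) (nat_lit 156))))) (XT.nd (nat_lit 50466) (nat_lit 0) (nat_lit 3192) (XT.nd (nat_lit 78) (nat_lit 76) (nat_lit 0) (XT.lf (nat_lit 0) (nat_lit 2739190671712) (nat_lit 152) (nat_lit 167347260680)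 (nat_lit 76) (nat_lit 3830089924868) (nat_lit 23) (nat_lit 5) (nat_lit 25) (nat_lit 5) (nat_lit 24) (nat_lit 4) (nat_lit 450) (nat_lit 415) (nat_lit 155)) (XT.lf (nat_lit 0) (nat_lit 3627623179341) (nat_lit 76) (nat_lit 936072512038) (nat_lit 152) (nat_lit 2548181060768) (nat_lit 22) (nat_lit 5) (nat_lit 23) (nat_lit 5) (nat_lit 24) (nat_lit 4) (nat_lit 451) (nat_lit 415) (nat_lit 154))) (XT.nd (nat_lit 78) (nat_lit 0) (nat_lit 0) (XT.lf (nat_lit 0) (nat_lit 622095174943) (nat_lit 532) (nat_lit 41664285651) (nat_lit 532) (nat_lit 41664285651) (nat_lit 64) (nat_lit 3) (nat_lit 71) (nat_lit 3) (nat_lit 71) (nat_lit 5) (nat_lit 416) (nat_lit 416) (nat_lit 188)) (XT.nd (nat_lit 78) (nat_lit 0) (nat_lit 76) (XT.lf (nat_lit 76) (nat_lit 634108614125) (nat_lit 0) (nat_lit 675099707934) (nat_lit 532) (nat_lit 156853041447) (nat_lit 65) (nat_lit 5) (nat_lit 64) (nat_lit 3) (nat_lit 71) (nat_lit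 5) (nat_lit 417) (nat_lit 416) (nat_lit 187)) (XT.lf (nat_lit 0) (nat_lit 1382475047053) (nat_lit 456) (nat_lit 112599301426) (nat_lit 532) (nat_lit 30374210524) (nat_lit 65) (nat_lit 5) (nat_lit 71) (nat_lit 5) (nat_lit 72) (nat_lit 5) (nat_lit 418) (nat_lit 416) (nat_lit 186)))))) (XT.nd (nat_lit 390) (nat_lit 760) (nat_lit 0) (XT.nd (nat_lit 156) (nat_lit 456) (nat_lit 0) (XT.nd (nat_lit 78) (nat_lit 0) (nat_lit 0) (XT.lf (nat_lit 76) (nat_lit 680824986304) (nat_lit 0) (nat_lit 814687035526) (nat_lit 532) (nat_lit 91361995369) (nat_lit 66) (nat_lit 5) (nat_lit 65) (nat_lit 5) (nat_lit 72) (nat_lit 5) (nat_lit 419) (nat_lit 416) (nat_lit 185)) (XT.lf (nat_lit 76) (nat_lit 1544126837259) (nat_lit 0) (nat_lit 76543779085) (nat_lit 532) (nat_lit 32296602770) (nat_lit 66) (nat_lit 5) (nat_lit 65) (nat_lit 5) (nat_lit 72) (nat_lit 5) (nat_lit 420) (nat_lit 416) (nat_lit 184))) (XT.nd (nat_lit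 78) (nat_lit 0) (nat_lit 0) (XT.lf (nat_lit 0) (nat_lit 66786465246) (nat_lit 532) (nat_lit 949656660567) (nat_lit 608) (nat_lit 704894724612) (nat_lit 59) (nat_lit 5) (nat_lit 66) (nat_lit 5) (nat_lit 67) (nat_lit 5) (nat_lit 421) (nat_lit 416) (nat_lit 183)) (XT.nd (nat_lit 78) (nat_lit 0) (nat_lit 76) (XT.lf (nat_lit 0) (nat_lit 177092655730) (nat_lit 532) (nat_lit 69010045583) (nat_lit 608) (nat_lit 1548605014512) (nat_lit 59) (nat_lit 5) (nat_lit 66) (nat_lit 5) (nat_lit 67) (nat_lit 5) (nat_lit 422) (nat_lit 416) (nat_lit 182)) (XT.lf (nat_lit 0) (nat_lit 333224789882) (nat_lit 532) (nat_lit 958293260801) (nat_lit 76) (nat_lit 579469003901) (nat_lit 60) (nat_lit 5) (nat_lit 67) (nat_lit 5) (nat_lit 61) (nat_lit 5) (nat_lit 423) (nat_lit 416) (nat_lit 181))))) (XT.nd (nat_lit 156) (nat_lit 456) (nat_lit 0) (XT.nd (nat_lit 78) (nat_lit 0) (nat_lit 0) (XT.lf (nat_lit 0) (nat_lit 18105217971)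 (nat_lit 380) (nat_lit 492505849801) (nat_lit 456) (nat_lit 1442056586832) (nat_lit 55) (nat_lit 5) (nat_lit 60) (nat_lit 5) (nat_lit 61) (nat_lit 5) (nat_lit 424) (nat_lit 416) (nat_lit 180)) (XT.lf (nat_lit 0) (nat_lit 737979024810) (nat_lit 456) (nat_lit 921261370840) (nat_lit 76) (nat_lit 378779044824) (nat_lit 55) (nat_lit 5) (nat_lit 61) (nat_lit 5) (nat_lit 56) (nat_lit 5) (nat_lit 425) (nat_lit 416) (nat_lit 179))) (XT.nd (nat_lit 78) (nat_lit 228) (nat_lit 0) (XT.lf (nat_lit 0) (nat_lit 168753133747) (nat_lit 228) (nat_lit 831634159489) (nat_lit 304) (nat_lit 1128464005994) (nat_lit 52) (nat_lit 5) (nat_lit 55) (nat_lit 5) (nat_lit 56) (nat_lit 5) (nat_lit 426) (nat_lit 416) (nat_lit 178)) (XT.nd (nat_lit 78) (nat_lit 228) (nat_lit 0) (XT.lf (nat_lit 0) (nat_lit 1311126841844) (nat_lit 304) (nat_lit 828722548025) (nat_lit 76) (nat_lit 84913227321) (nat_lit 52) (nat_lit 5) (nat_lit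 56) (nat_lit 5) (nat_lit 53) (nat_lit 5) (nat_lit 427) (nat_lit 416) (nat_lit 177)) (XT.lf (nat_lit 0) (nat_lit 391128038242) (nat_lit 228) (nat_lit 1286605040465) (nat_lit 304) (nat_lit 648133159933) (nat_lit 49) (nat_lit 5) (nat_lit 52) (nat_lit 5) (nat_lit 53) (nat_lit 5) (nat_lit 428) (nat_lit 416) (nat_lit 176))))))) (XT.nd (nat_lit 780) (nat_lit 836) (nat_lit 0) (XT.nd (nat_lit 390) (nat_lit 532) (nat_lit 0) (XT.nd (nat_lit 156) (nat_lit 228) (nat_lit 0) (XT.nd (nat_lit 78) (nat_lit 228) (nat_lit 0) (XT.lf (nat_lit 0) (nat_lit 1755696855199) (nat_lit 228) (nat_lit 340629700863) (nat_lit 304) (nat_lit 336918894420) (nat_lit 49) (nat_lit 5) (nat_lit 52) (nat_lit 5) (nat_lit 53) (nat_lit 5) (nat_lit 429) (nat_lit 416) (nat_lit 175)) (XT.lf (nat_lit 0) (nat_lit 33279492841) (nat_lit 228) (nat_lit 1848608696882) (nat_lit 76) (nat_lit 664604636223) (nat_lit 46) (nat_lit 5) (nat_lit 49)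 (nat_lit 5) (nat_lit 47) (nat_lit 5) (nat_lit 430) (nat_lit 416) (nat_lit 174))) (XT.nd (nat_lit 78) (nat_lit 228) (nat_lit 0) (XT.lf (nat_lit 0) (nat_lit 442745460934) (nat_lit 228) (nat_lit 463513546095) (nat_lit 76) (nat_lit 1759612566705) (nat_lit 46) (nat_lit 5) (nat_lit 49) (nat_lit 5) (nat_lit 47) (nat_lit 5) (nat_lit 431) (nat_lit 416) (nat_lit 173)) (XT.nd (nat_lit 78) (nat_lit 0) (nat_lit 0) (XT.lf (nat_lit 0) (nat_lit 915329476266) (nat_lit 304) (nat_lit 1710181040284) (nat_lit 76) (nat_lit 166861243212) (nat_lit 43) (nat_lit 5) (nat_lit 47) (nat_lit 5) (nat_lit 44) (nat_lit 5) (nat_lit 432) (nat_lit 416) (nat_lit 172)) (XT.lf (nat_lit 0) (nat_lit 1462261864474) (nat_lit 304) (nat_lit 173934718641) (nat_lit 76) (nat_lit 1289872045428) (nat_lit 43) (nat_lit 5) (nat_lit 47) (nat_lit 5) (nat_lit 44) (nat_lit 5) (nat_lit 433) (nat_lit 416) (nat_lit 171))))) (XT.nd (nat_lit 156)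 (nat_lit 228) (nat_lit 0) (XT.nd (nat_lit 78) (nat_lit 152) (nat_lit 0) (XT.lf (nat_lit 0) (nat_lit 1563419902531) (nat_lit 152) (nat_lit 527129226300) (nat_lit 228) (nat_lit 976904095188) (nat_lit 41) (nat_lit 5) (nat_lit 43) (nat_lit 5) (nat_lit 44) (nat_lit 5) (nat_lit 434) (nat_lit 416) (nat_lit 170)) (XT.lf (nat_lit 0) (nat_lit 224883148727) (nat_lit 152) (nat_lit 2570633351074) (nat_lit 228) (nat_lit 422518717295) (nat_lit 39) (nat_lit 5) (nat_lit 41) (nat_lit 5) (nat_lit 42) (nat_lit 5) (nat_lit 435) (nat_lit 416) (nat_lit 169))) (XT.nd (nat_lit 78) (nat_lit 152) (nat_lit 0) (XT.lf (nat_lit 0) (nat_lit 223285109960) (nat_lit 228) (nat_lit 1218723123464) (nat_lit 76) (nat_lit 1933845874868) (nat_lit 38) (nat_lit 5) (nat_lit 41) (nat_lit 5) (nat_lit 39) (nat_lit 5) (nat_lit 436) (nat_lit 416) (nat_lit 168)) (XT.nd (nat_lit 78) (nat_lit 0) (nat_lit 0) (XT.lf (nat_lit 0) (nat_lit 722845271363)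 (nat_lit 152) (nat_lit 192465431921) (nat_lit 228) (nat_lit 2628719090920) (nat_lit 36) (nat_lit 5) (nat_lit 38) (nat_lit 5) (nat_lit 39) (nat_lit 5) (nat_lit 437) (nat_lit 416) (nat_lit 167)) (XT.lf (nat_lit 0) (nat_lit 1724712759738) (nat_lit 228) (nat_lit 862637137582) (nat_lit 76) (nat_lit 1133348484415) (nat_lit 36) (nat_lit 5) (nat_lit 39) (nat_lit 5) (nat_lit 37) (nat_lit 5) (nat_lit 438) (nat_lit 416) (nat_lit 166)))))) (XT.nd (nat_lit 390) (nat_lit 380) (nat_lit 0) (XT.nd (nat_lit 156) (nat_lit 304) (nat_lit 0) (XT.nd (nat_lit 78) (nat_lit 0) (nat_lit 0) (XT.lf (nat_lit 0) (nat_lit 1313291073257) (nat_lit 152) (nat_lit 1322159690550) (nat_lit 228) (nat_lit 1273122989814) (nat_lit 34) (nat_lit 5) (nat_lit 36) (nat_lit 5) (nat_lit 37) (nat_lit 5) (nat_lit 439) (nat_lit 416) (nat_lit 165)) (XT.lf (nat_lit 0) (nat_lit 3644310570406) (nat_lit 228) (nat_lit 398916530196) (nat_lit 76)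 (nat_lit 66231033680) (nat_lit 34) (nat_lit 5) (nat_lit 37) (nat_lit 5) (nat_lit 35) (nat_lit 4) (nat_lit 440) (nat_lit 416) (nat_lit 164))) (XT.nd (nat_lit 78) (nat_lit 152) (nat_lit 0) (XT.lf (nat_lit 0) (nat_lit 472675491843) (nat_lit 152) (nat_lit 2290793897519) (nat_lit 76) (nat_lit 1555312495660) (nat_lit 32) (nat_lit 5) (nat_lit 34) (nat_lit 5) (nat_lit 33) (nat_lit 5) (nat_lit 441) (nat_lit 416) (nat_lit 163)) (XT.nd (nat_lit 78) (nat_lit 0) (nat_lit 0) (XT.lf (nat_lit 0) (nat_lit 121463682256) (nat_lit 152) (nat_lit 1353042248993) (nat_lit 228) (nat_lit 3068250137025) (nat_lit 30) (nat_lit 5) (nat_lit 32) (nat_lit 5) (nat_lit 33) (nat_lit 5) (nat_lit 442) (nat_lit 416) (nat_lit 162)) (XT.lf (nat_lit 0) (nat_lit 2624837808956) (nat_lit 228) (nat_lit 1928376730383) (nat_lit 76) (nat_lit 225965246595) (nat_lit 30) (nat_lit 5) (nat_lit 33) (nat_lit 5) (nat_lit 31) (nat_lit 4) (nat_lit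 443) (nat_lit 416) (nat_lit 161))))) (XT.nd (nat_lit 234) (nat_lit 76) (nat_lit 0) (XT.nd (nat_lit 78) (nat_lit 228) (nat_lit 0) (XT.lf (nat_lit 0) (nat_lit 767207024460) (nat_lit 76) (nat_lit 3153584513575) (nat_lit 152) (nat_lit 1109438238881) (nat_lit 29) (nat_lit 5) (nat_lit 30) (nat_lit 5) (nat_lit 31) (nat_lit 4) (nat_lit 444) (nat_lit 416) (nat_lit 160)) (XT.nd (nat_lit 78) (nat_lit 152) (nat_lit 0) (XT.lf (nat_lit 0) (nat_lit 72199173129) (nat_lit 152) (nat_lit 1510867603651) (nat_lit 76) (nat_lit 3713932745307) (nat_lit 28) (nat_lit 5) (nat_lit 30) (nat_lit 5) (nat_lit 29) (nat_lit 5) (nat_lit 445) (nat_lit 416) (nat_lit 159)) (XT.lf (nat_lit 0) (nat_lit 1329108969207) (nat_lit 228) (nat_lit 4076230545512) (nat_lit 76) (nat_lit 174211616135) (nat_lit 26) (nat_lit 5) (nat_lit 29) (nat_lit 5) (nat_lit 27) (nat_lit 4) (nat_lit 446) (nat_lit 416) (nat_lit 158)))) (XT.nd (nat_lit 78)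 (nat_lit 76) (nat_lit 0) (XT.lf (nat_lit 0) (nat_lit 2770072945402) (nat_lit 228) (nat_lit 1079025476234) (nat_lit 76) (nat_lit 2028928334973) (nat_lit 26) (nat_lit 5) (nat_lit 29) (nat_lit 5) (nat_lit 27) (nat_lit 4) (nat_lit 447) (nat_lit 416) (nat_lit 157)) (XT.nd (nat_lit 78) (nat_lit 0) (nat_lit 0) (XT.lf (nat_lit 0) (nat_lit 2271590136062) (nat_lit 76) (nat_lit 2109355700404) (nat_lit 152) (nat_lit 1815064052216) (nat_lit 25) (nat_lit 5) (nat_lit 26) (nat_lit 5) (nat_lit 27) (nat_lit 4) (nat_lit 448) (nat_lit 416) (nat_lit 156)) (XT.lf (nat_lit 0) (nat_lit 5951620131178) (nat_lit 76) (nat_lit 198570895744) (nat_lit 152) (nat_lit 386880446949) (nat_lit 25) (nat_lit 5) (nat_lit 26) (nat_lit 5) (nat_lit 27) (nat_lit 4) (nat_lit 449) (nat_lit 416) (nat_lit 155))))))))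
noncomputable def xc245 : XT := (XT.nd (nat_lit 52026) (nat_lit 0) (nat_lit 152) (XT.nd (nat_lit 51246) (nat_lit 0) (nat_lit 1368) (XT.nd (nat_lit 50856) (nat_lit 0) (nat_lit 2432) (XT.nd (nat_lit 50622) (nat_lit 0) (nat_lit 3116) (XT.nd (nat_lit 50544) (nat_lit 0) (nat_lit 3116) (XT.lf (nat_lit 0) (nat_lit 1221065341920) (nat_lit 152) (nat_lit 3794237057120) (nat_lit 76) (nat_lit 1878027237020) (nat_lit 23) (nat_lit 5) (nat_lit 25) (nat_lit 5) (nat_lit 24) (nat_lit 4) (nat_lit 450) (nat_lit 416) (nat_lit 154)) (XT.lf (nat_lit 0) (nat_lit 671862818956) (nat_lit 532) (nat_lit 44997412279) (nat_lit 532) (nat_lit 44997412279) (nat_lit 64) (nat_lit 3) (nat_lit 71) (nat_lit 3) (nat_lit 71) (nat_lit 5) (nat_lit 417) (nat_lit 417) (nat_lit 186))) (XT.nd (nat_lit 78) (nat_lit 0) (nat_lit 76) (XT.lf (nat_lit 76) (nat_lit 684837334881) (nat_lit 0) (nat_lit 729107709292) (nat_lit 532) (nat_lit 169401223853)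 (nat_lit 65) (nat_lit 5) (nat_lit 64) (nat_lit 3) (nat_lit 71) (nat_lit 5) (nat_lit 418) (nat_lit 417) (nat_lit 185)) (XT.nd (nat_lit 78) (nat_lit 0) (nat_lit 0) (XT.lf (nat_lit 0) (nat_lit 1493073102442) (nat_lit 456) (nat_lit 121607211483) (nat_lit 532) (nat_lit 32804125620) (nat_lit 65) (nat_lit 5) (nat_lit 71) (nat_lit 5) (nat_lit 72) (nat_lit 5) (nat_lit 419) (nat_lit 417) (nat_lit 184)) (XT.lf (nat_lit 76) (nat_lit 735291018403) (nat_lit 0) (nat_lit 879862013773) (nat_lit 532) (nat_lit 98670902467) (nat_lit 66) (nat_lit 5) (nat_lit 65) (nat_lit 5) (nat_lit 72) (nat_lit 5) (nat_lit 420) (nat_lit 417) (nat_lit 183))))) (XT.nd (nat_lit 156) (nat_lit 304) (nat_lit 0) (XT.nd (nat_lit 78) (nat_lit 456) (nat_lit 0) (XT.lf (nat_lit 76) (nat_lit 1667657014975) (nat_lit 0) (nat_lit 82667295676) (nat_lit 532) (nat_lit 34880282350) (nat_lit 66) (nat_lit 5) (nat_lit 65) (nat_lit 5) (nat_lit 72)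 (nat_lit 5) (nat_lit 421) (nat_lit 417) (nat_lit 182)) (XT.lf (nat_lit 0) (nat_lit 72129425760) (nat_lit 532) (nat_lit 1025629157255) (nat_lit 608) (nat_lit 761286291945) (nat_lit 59) (nat_lit 5) (nat_lit 66) (nat_lit 5) (nat_lit 67) (nat_lit 5) (nat_lit 422) (nat_lit 417) (nat_lit 181))) (XT.nd (nat_lit 78) (nat_lit 304) (nat_lit 0) (XT.lf (nat_lit 0) (nat_lit 191260108275) (nat_lit 532) (nat_lit 74530815751) (nat_lit 608) (nat_lit 1672493405824) (nat_lit 59) (nat_lit 5) (nat_lit 66) (nat_lit 5) (nat_lit 67) (nat_lit 5) (nat_lit 423) (nat_lit 417) (nat_lit 180)) (XT.nd (nat_lit 78) (nat_lit 380) (nat_lit 0) (XT.lf (nat_lit 0) (nat_lit 359882810848) (nat_lit 532) (nat_lit 1034956685844) (nat_lit 76) (nat_lit 625826519205) (nat_lit 60) (nat_lit 5) (nat_lit 67) (nat_lit 5) (nat_lit 61) (nat_lit 5) (nat_lit 424) (nat_lit 417) (nat_lit 179)) (XT.lf (nat_lit 0) (nat_lit 19553670322) (nat_lit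 380) (nat_lit 531906318689) (nat_lit 456) (nat_lit 1557421075068) (nat_lit 55) (nat_lit 5) (nat_lit 60) (nat_lit 5) (nat_lit 61) (nat_lit 5) (nat_lit 425) (nat_lit 417) (nat_lit 178)))))) (XT.nd (nat_lit 390) (nat_lit 608) (nat_lit 0) (XT.nd (nat_lit 156) (nat_lit 228) (nat_lit 0) (XT.nd (nat_lit 78) (nat_lit 228) (nat_lit 0) (XT.lf (nat_lit 0) (nat_lit 797017379939) (nat_lit 456) (nat_lit 994962245480) (nat_lit 76) (nat_lit 409081367616) (nat_lit 55) (nat_lit 5) (nat_lit 61) (nat_lit 5) (nat_lit 56) (nat_lit 5) (nat_lit 426) (nat_lit 417) (nat_lit 177)) (XT.lf (nat_lit 0) (nat_lit 182253418588) (nat_lit 228) (nat_lit 898164889617) (nat_lit 304) (nat_lit 1218741092418) (nat_lit 52) (nat_lit 5) (nat_lit 55) (nat_lit 5) (nat_lit 56) (nat_lit 5) (nat_lit 427) (nat_lit 417) (nat_lit 176))) (XT.nd (nat_lit 78) (nat_lit 228) (nat_lit 0) (XT.lf (nat_lit 0) (nat_lit 1416017018426) (nat_lit 304)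 (nat_lit 895020317958) (nat_lit 76) (nat_lit 91706287821) (nat_lit 52) (nat_lit 5) (nat_lit 56) (nat_lit 5) (nat_lit 53) (nat_lit 5) (nat_lit 428) (nat_lit 417) (nat_lit 175)) (XT.nd (nat_lit 78) (nat_lit 0) (nat_lit 0) (XT.lf (nat_lit 0) (nat_lit 422418314352) (nat_lit 228) (nat_lit 1389533438515) (nat_lit 304) (nat_lit 699983782614) (nat_lit 49) (nat_lit 5) (nat_lit 52) (nat_lit 5) (nat_lit 53) (nat_lit 5) (nat_lit 429) (nat_lit 417) (nat_lit 174)) (XT.lf (nat_lit 0) (nat_lit 1896152634218) (nat_lit 228) (nat_lit 367880072129) (nat_lit 304) (nat_lit 363872378091) (nat_lit 49) (nat_lit 5) (nat_lit 52) (nat_lit 5) (nat_lit 53) (nat_lit 5) (nat_lit 430) (nat_lit 417) (nat_lit 173))))) (XT.nd (nat_lit 156) (nat_lit 380) (nat_lit 0) (XT.nd (nat_lit 78) (nat_lit 0) (nat_lit 0) (XT.lf (nat_lit 0) (nat_lit 35941877688) (nat_lit 228) (nat_lit 1996497359531) (nat_lit 76) (nat_lit 717773012752)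 (nat_lit 46) (nat_lit 5) (nat_lit 49) (nat_lit 5) (nat_lit 47) (nat_lit 5) (nat_lit 431) (nat_lit 417) (nat_lit 172)) (XT.lf (nat_lit 0) (nat_lit 478165121345) (nat_lit 228) (nat_lit 500594599133) (nat_lit 76) (nat_lit 1900381577256) (nat_lit 46) (nat_lit 5) (nat_lit 49) (nat_lit 5) (nat_lit 47) (nat_lit 5) (nat_lit 432) (nat_lit 417) (nat_lit 171))) (XT.nd (nat_lit 78) (nat_lit 152) (nat_lit 0) (XT.lf (nat_lit 0) (nat_lit 988555857056) (nat_lit 304) (nat_lit 1846995491996) (nat_lit 76) (nat_lit 180210149663) (nat_lit 43) (nat_lit 5) (nat_lit 47) (nat_lit 5) (nat_lit 44) (nat_lit 5) (nat_lit 433) (nat_lit 417) (nat_lit 170)) (XT.nd (nat_lit 78) (nat_lit 152) (nat_lit 0) (XT.lf (nat_lit 0) (nat_lit 1579242834640) (nat_lit 304) (nat_lit 187849466955) (nat_lit 76) (nat_lit 1393061815538) (nat_lit 43) (nat_lit 5) (nat_lit 47) (nat_lit 5) (nat_lit 44) (nat_lit 5) (nat_lit 434) (nat_lit 417)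 (nat_lit 169)) (XT.lf (nat_lit 0) (nat_lit 1688493523172) (nat_lit 152) (nat_lit 569299556101) (nat_lit 228) (nat_lit 1055056401045) (nat_lit 41) (nat_lit 5) (nat_lit 43) (nat_lit 5) (nat_lit 44) (nat_lit 5) (nat_lit 435) (nat_lit 417) (nat_lit 168))))))) (XT.nd (nat_lit 780) (nat_lit 304) (nat_lit 0) (XT.nd (nat_lit 390) (nat_lit 380) (nat_lit 0) (XT.nd (nat_lit 156) (nat_lit 304) (nat_lit 0) (XT.nd (nat_lit 78) (nat_lit 76) (nat_lit 0) (XT.lf (nat_lit 0) (nat_lit 242873829731) (nat_lit 152) (nat_lit 2776284009583) (nat_lit 228) (nat_lit 456320193577) (nat_lit 39) (nat_lit 5) (nat_lit 41) (nat_lit 5) (nat_lit 42) (nat_lit 5) (nat_lit 436) (nat_lit 417) (nat_lit 167)) (XT.lf (nat_lit 0) (nat_lit 241147937319) (nat_lit 228) (nat_lit 1316220945405) (nat_lit 76) (nat_lit 2088553552738) (nat_lit 38) (nat_lit 5) (nat_lit 41) (nat_lit 5) (nat_lit 39) (nat_lit 5) (nat_lit 437) (nat_lit 417) (nat_lit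 166))) (XT.nd (nat_lit 78) (nat_lit 152) (nat_lit 0) (XT.lf (nat_lit 0) (nat_lit 780672920302) (nat_lit 152) (nat_lit 207862657086) (nat_lit 228) (nat_lit 2839016598915) (nat_lit 36) (nat_lit 5) (nat_lit 38) (nat_lit 5) (nat_lit 39) (nat_lit 5) (nat_lit 438) (nat_lit 417) (nat_lit 165)) (XT.nd (nat_lit 78) (nat_lit 152) (nat_lit 0) (XT.lf (nat_lit 0) (nat_lit 1862689797247) (nat_lit 228) (nat_lit 931648082254) (nat_lit 76) (nat_lit 1224016371426) (nat_lit 36) (nat_lit 5) (nat_lit 39) (nat_lit 5) (nat_lit 37) (nat_lit 5) (nat_lit 439) (nat_lit 417) (nat_lit 164)) (XT.lf (nat_lit 0) (nat_lit 1418354384784) (nat_lit 152) (nat_lit 1427932456234) (nat_lit 228) (nat_lit 1374972811595) (nat_lit 34) (nat_lit 5) (nat_lit 36) (nat_lit 5) (nat_lit 37) (nat_lit 5) (nat_lit 440) (nat_lit 417) (nat_lit 163))))) (XT.nd (nat_lit 156) (nat_lit 228) (nat_lit 0) (XT.nd (nat_lit 78) (nat_lit 152) (nat_lit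 0) (XT.lf (nat_lit 0) (nat_lit 3935855431165) (nat_lit 228) (nat_lit 430829827858) (nat_lit 76) (nat_lit 71529524784) (nat_lit 34) (nat_lit 5) (nat_lit 37) (nat_lit 5) (nat_lit 35) (nat_lit 4) (nat_lit 441) (nat_lit 417) (nat_lit 162)) (XT.lf (nat_lit 0) (nat_lit 510489546162) (nat_lit 152) (nat_lit 2474057384399) (nat_lit 76) (nat_lit 1679737504058) (nat_lit 32) (nat_lit 5) (nat_lit 34) (nat_lit 5) (nat_lit 33) (nat_lit 5) (nat_lit 442) (nat_lit 417) (nat_lit 161))) (XT.nd (nat_lit 78) (nat_lit 76) (nat_lit 0) (XT.lf (nat_lit 0) (nat_lit 131180801127) (nat_lit 152) (nat_lit 1461285619069) (nat_lit 228) (nat_lit 3313710132379) (nat_lit 30) (nat_lit 5) (nat_lit 32) (nat_lit 5) (nat_lit 33) (nat_lit 5) (nat_lit 443) (nat_lit 417) (nat_lit 160)) (XT.nd (nat_lit 78) (nat_lit 76) (nat_lit 0) (XT.lf (nat_lit 0) (nat_lit 2834824847269) (nat_lit 228) (nat_lit 2082646845467) (nat_lit 76) (nat_lit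 244042474981) (nat_lit 30) (nat_lit 5) (nat_lit 33) (nat_lit 5) (nat_lit 31) (nat_lit 4) (nat_lit 444) (nat_lit 417) (nat_lit 159)) (XT.lf (nat_lit 0) (nat_lit 828583609173) (nat_lit 76) (nat_lit 3405871265042) (nat_lit 152) (nat_lit 1198193283800) (nat_lit 29) (nat_lit 5) (nat_lit 30) (nat_lit 5) (nat_lit 31) (nat_lit 4) (nat_lit 445) (nat_lit 417) (nat_lit 158)))))) (XT.nd (nat_lit 50934) (nat_lit 0) (nat_lit 2584) (XT.nd (nat_lit 156) (nat_lit 76) (nat_lit 0) (XT.nd (nat_lit 78) (nat_lit 152) (nat_lit 0) (XT.lf (nat_lit 0) (nat_lit 77975119463) (nat_lit 152) (nat_lit 1631736990212) (nat_lit 76) (nat_lit 4011047373177) (nat_lit 28) (nat_lit 5) (nat_lit 30) (nat_lit 5) (nat_lit 29) (nat_lit 5) (nat_lit 446) (nat_lit 417) (nat_lit 157)) (XT.lf (nat_lit 0) (nat_lit 1435437699031) (nat_lit 228) (nat_lit 4402328967221) (nat_lit 76) (nat_lit 188148554083) (nat_lit 26) (nat_lit 5) (nat_lit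 29) (nat_lit 5) (nat_lit 27) (nat_lit 4) (nat_lit 447) (nat_lit 417) (nat_lit 156))) (XT.nd (nat_lit 78) (nat_lit 76) (nat_lit 0) (XT.lf (nat_lit 0) (nat_lit 2991678792411) (nat_lit 228) (nat_lit 1165347494026) (nat_lit 76) (nat_lit 2191242609787) (nat_lit 26) (nat_lit 5) (nat_lit 29) (nat_lit 5) (nat_lit 27) (nat_lit 4) (nat_lit 448) (nat_lit 417) (nat_lit 155)) (XT.nd (nat_lit 78) (nat_lit 0) (nat_lit 0) (XT.lf (nat_lit 0) (nat_lit 2453317366740) (nat_lit 76) (nat_lit 2278104147653) (nat_lit 152) (nat_lit 1960269164498) (nat_lit 25) (nat_lit 5) (nat_lit 26) (nat_lit 5) (nat_lit 27) (nat_lit 4) (nat_lit 449) (nat_lit 417) (nat_lit 154)) (XT.lf (nat_lit 0) (nat_lit 6427749759999) (nat_lit 76) (nat_lit 214456559272) (nat_lit 152) (nat_lit 417830871691) (nat_lit 25) (nat_lit 5) (nat_lit 26) (nat_lit 5) (nat_lit 27) (nat_lit 4) (nat_lit 450) (nat_lit 417) (nat_lit 153))))) (XT.nd (nat_lit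 234) (nat_lit 380) (nat_lit 0) (XT.nd (nat_lit 78) (nat_lit 0) (nat_lit 0) (XT.lf (nat_lit 0) (nat_lit 725611870208) (nat_lit 532) (nat_lit 48597191352) (nat_lit 532) (nat_lit 48597191352) (nat_lit 64) (nat_lit 3) (nat_lit 71) (nat_lit 3) (nat_lit 71) (nat_lit 5) (nat_lit 418) (nat_lit 418) (nat_lit 184)) (XT.nd (nat_lit 78) (nat_lit 0) (nat_lit 76) (XT.lf (nat_lit 76) (nat_lit 739624348786) (nat_lit 0) (nat_lit 787436347232) (nat_lit 532) (nat_lit 182953269541) (nat_lit 65) (nat_lit 5) (nat_lit 64) (nat_lit 3) (nat_lit 71) (nat_lit 5) (nat_lit 419) (nat_lit 418) (nat_lit 183)) (XT.lf (nat_lit 0) (nat_lit 1612518994897) (nat_lit 456) (nat_lit 131335759204) (nat_lit 532) (nat_lit 35428437025) (nat_lit 65) (nat_lit 5) (nat_lit 71) (nat_lit 5) (nat_lit 72) (nat_lit 5) (nat_lit 420) (nat_lit 418) (nat_lit 182)))) (XT.nd (nat_lit 78) (nat_lit 456) (nat_lit 0) (XT.lf (nat_lit 76) (nat_lit 794114328334)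 (nat_lit 0) (nat_lit 950250988082) (nat_lit 532) (nat_lit 106564529626) (nat_lit 66) (nat_lit 5) (nat_lit 65) (nat_lit 5) (nat_lit 72) (nat_lit 5) (nat_lit 421) (nat_lit 418) (nat_lit 181)) (XT.nd (nat_lit 78) (nat_lit 456) (nat_lit 0) (XT.lf (nat_lit 76) (nat_lit 1801069602524) (nat_lit 0) (nat_lit 89280691558) (nat_lit 532) (nat_lit 37670663237) (nat_lit 66) (nat_lit 5) (nat_lit 65) (nat_lit 5) (nat_lit 72) (nat_lit 5) (nat_lit 422) (nat_lit 418) (nat_lit 180)) (XT.lf (nat_lit 0) (nat_lit 77899816939) (nat_lit 532) (nat_lit 1107679458837) (nat_lit 608) (nat_lit 822189186182) (nat_lit 59) (nat_lit 5) (nat_lit 66) (nat_lit 5) (nat_lit 67) (nat_lit 5) (nat_lit 423) (nat_lit 418) (nat_lit 179))))))))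
noncomputable def xc246 : XT := (XT.nd (nat_lit 1560) (nat_lit 532) (nat_lit 0) (XT.nd (nat_lit 780) (nat_lit 1064) (nat_lit 0) (XT.nd (nat_lit 390) (nat_lit 456) (nat_lit 0) (XT.nd (nat_lit 156) (nat_lit 532) (nat_lit 0) (XT.nd (nat_lit 78) (nat_lit 0) (nat_lit 76) (XT.lf (nat_lit 0) (nat_lit 206560951305) (nat_lit 532) (nat_lit 80493252309) (nat_lit 608) (nat_lit 1806292869847) (nat_lit 59) (nat_lit 5) (nat_lit 66) (nat_lit 5) (nat_lit 67) (nat_lit 5) (nat_lit 424) (nat_lit 418) (nat_lit 178)) (XT.lf (nat_lit 0) (nat_lit 388673468102) (nat_lit 532) (nat_lit 1117753190001) (nat_lit 76) (nat_lit 675892636449) (nat_lit 60) (nat_lit 5) (nat_lit 67) (nat_lit 5) (nat_lit 61) (nat_lit 5) (nat_lit 425) (nat_lit 418) (nat_lit 177))) (XT.nd (nat_lit 78) (nat_lit 228) (nat_lit 0) (XT.lf (nat_lit 0) (nat_lit 21117993881) (nat_lit 380) (nat_lit 574458824958) (nat_lit 456) (nat_lit 1682014727885)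 (nat_lit 55) (nat_lit 5) (nat_lit 60) (nat_lit 5) (nat_lit 61) (nat_lit 5) (nat_lit 426) (nat_lit 418) (nat_lit 176)) (XT.nd (nat_lit 78) (nat_lit 228) (nat_lit 0) (XT.lf (nat_lit 0) (nat_lit 860778798750) (nat_lit 456) (nat_lit 1074559195088) (nat_lit 76) (nat_lit 441807876344) (nat_lit 55) (nat_lit 5) (nat_lit 61) (nat_lit 5) (nat_lit 56) (nat_lit 5) (nat_lit 427) (nat_lit 418) (nat_lit 175)) (XT.lf (nat_lit 0) (nat_lit 196833721345) (nat_lit 228) (nat_lit 970018078531) (nat_lit 304) (nat_lit 1316240350615) (nat_lit 52) (nat_lit 5) (nat_lit 55) (nat_lit 5) (nat_lit 56) (nat_lit 5) (nat_lit 428) (nat_lit 418) (nat_lit 174))))) (XT.nd (nat_lit 156) (nat_lit 228) (nat_lit 0) (XT.nd (nat_lit 78) (nat_lit 228) (nat_lit 0) (XT.lf (nat_lit 0) (nat_lit 1529298404964) (nat_lit 304) (nat_lit 966621914322) (nat_lit 76) (nat_lit 99042792830) (nat_lit 52) (nat_lit 5) (nat_lit 56) (nat_lit 5) (nat_lit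 53) (nat_lit 5) (nat_lit 429) (nat_lit 418) (nat_lit 173)) (XT.lf (nat_lit 0) (nat_lit 456211807837) (nat_lit 228) (nat_lit 1500696109149) (nat_lit 304) (nat_lit 755982459405) (nat_lit 49) (nat_lit 5) (nat_lit 52) (nat_lit 5) (nat_lit 53) (nat_lit 5) (nat_lit 430) (nat_lit 418) (nat_lit 172))) (XT.nd (nat_lit 78) (nat_lit 228) (nat_lit 0) (XT.lf (nat_lit 0) (nat_lit 2047844871193) (nat_lit 228) (nat_lit 397310473781) (nat_lit 304) (nat_lit 392982144433) (nat_lit 49) (nat_lit 5) (nat_lit 52) (nat_lit 5) (nat_lit 53) (nat_lit 5) (nat_lit 431) (nat_lit 418) (nat_lit 171)) (XT.nd (nat_lit 78) (nat_lit 0) (nat_lit 0) (XT.lf (nat_lit 0) (nat_lit 38817249696) (nat_lit 228) (nat_lit 2156217119914) (nat_lit 76) (nat_lit 775194858601) (nat_lit 46) (nat_lit 5) (nat_lit 49) (nat_lit 5) (nat_lit 47) (nat_lit 5) (nat_lit 432) (nat_lit 418) (nat_lit 170)) (XT.lf (nat_lit 0) (nat_lit 516418351231) (nat_lit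 228) (nat_lit 540642140787) (nat_lit 76) (nat_lit 2052412107908) (nat_lit 46) (nat_lit 5) (nat_lit 49) (nat_lit 5) (nat_lit 47) (nat_lit 5) (nat_lit 433) (nat_lit 418) (nat_lit 169)))))) (XT.nd (nat_lit 390) (nat_lit 456) (nat_lit 0) (XT.nd (nat_lit 156) (nat_lit 380) (nat_lit 0) (XT.nd (nat_lit 78) (nat_lit 0) (nat_lit 0) (XT.lf (nat_lit 0) (nat_lit 1067640345072) (nat_lit 304) (nat_lit 1994755104339) (nat_lit 76) (nat_lit 194626967632) (nat_lit 43) (nat_lit 5) (nat_lit 47) (nat_lit 5) (nat_lit 44) (nat_lit 5) (nat_lit 434) (nat_lit 418) (nat_lit 168)) (XT.lf (nat_lit 0) (nat_lit 1705582279422) (nat_lit 304) (nat_lit 202877399297) (nat_lit 76) (nat_lit 1504506766333) (nat_lit 43) (nat_lit 5) (nat_lit 47) (nat_lit 5) (nat_lit 44) (nat_lit 5) (nat_lit 435) (nat_lit 418) (nat_lit 167))) (XT.nd (nat_lit 78) (nat_lit 228) (nat_lit 0) (XT.lf (nat_lit 0) (nat_lit 1823573029407) (nat_lit 152)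 (nat_lit 614843513471) (nat_lit 228) (nat_lit 1139460894474) (nat_lit 41) (nat_lit 5) (nat_lit 43) (nat_lit 5) (nat_lit 44) (nat_lit 5) (nat_lit 436) (nat_lit 418) (nat_lit 166)) (XT.nd (nat_lit 78) (nat_lit 76) (nat_lit 0) (XT.lf (nat_lit 0) (nat_lit 262303761063) (nat_lit 152) (nat_lit 2998386722139) (nat_lit 228) (nat_lit 492825790971) (nat_lit 39) (nat_lit 5) (nat_lit 41) (nat_lit 5) (nat_lit 42) (nat_lit 5) (nat_lit 437) (nat_lit 418) (nat_lit 165)) (XT.lf (nat_lit 0) (nat_lit 260439788218) (nat_lit 228) (nat_lit 1421518597085) (nat_lit 76) (nat_lit 2255637843714) (nat_lit 38) (nat_lit 5) (nat_lit 41) (nat_lit 5) (nat_lit 39) (nat_lit 5) (nat_lit 438) (nat_lit 418) (nat_lit 164))))) (XT.nd (nat_lit 156) (nat_lit 304) (nat_lit 0) (XT.nd (nat_lit 78) (nat_lit 0) (nat_lit 0) (XT.lf (nat_lit 0) (nat_lit 843126777271) (nat_lit 152) (nat_lit 224491661605) (nat_lit 228) (nat_lit 3066137910301)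 (nat_lit 36) (nat_lit 5) (nat_lit 38) (nat_lit 5) (nat_lit 39) (nat_lit 5) (nat_lit 439) (nat_lit 418) (nat_lit 163)) (XT.lf (nat_lit 0) (nat_lit 2011704995369) (nat_lit 228) (nat_lit 1006179906258) (nat_lit 76) (nat_lit 1321937688219) (nat_lit 36) (nat_lit 5) (nat_lit 39) (nat_lit 5) (nat_lit 37) (nat_lit 5) (nat_lit 440) (nat_lit 418) (nat_lit 162))) (XT.nd (nat_lit 78) (nat_lit 152) (nat_lit 0) (XT.lf (nat_lit 0) (nat_lit 1531822757572) (nat_lit 152) (nat_lit 1542167044537) (nat_lit 228) (nat_lit 1484970621602) (nat_lit 34) (nat_lit 5) (nat_lit 36) (nat_lit 5) (nat_lit 37) (nat_lit 5) (nat_lit 441) (nat_lit 418) (nat_lit 161)) (XT.nd (nat_lit 78) (nat_lit 152) (nat_lit 0) (XT.lf (nat_lit 0) (nat_lit 4250723878628) (nat_lit 228) (nat_lit 465296192865) (nat_lit 76) (nat_lit 77251893975) (nat_lit 34) (nat_lit 5) (nat_lit 37) (nat_lit 5) (nat_lit 35) (nat_lit 4) (nat_lit 442) (nat_lit 418)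 (nat_lit 160)) (XT.lf (nat_lit 0) (nat_lit 551328722691) (nat_lit 152) (nat_lit 2671981953786) (nat_lit 76) (nat_lit 1814116511880) (nat_lit 32) (nat_lit 5) (nat_lit 34) (nat_lit 5) (nat_lit 33) (nat_lit 5) (nat_lit 443) (nat_lit 418) (nat_lit 159))))))) (XT.nd (nat_lit 51402) (nat_lit 0) (nat_lit 1824) (XT.nd (nat_lit 390) (nat_lit 76) (nat_lit 0) (XT.nd (nat_lit 156) (nat_lit 304) (nat_lit 0) (XT.nd (nat_lit 78) (nat_lit 0) (nat_lit 0) (XT.lf (nat_lit 0) (nat_lit 141675286042) (nat_lit 152) (nat_lit 1578188460156) (nat_lit 228) (nat_lit 3578806929587) (nat_lit 30) (nat_lit 5) (nat_lit 32) (nat_lit 5) (nat_lit 33) (nat_lit 5) (nat_lit 444) (nat_lit 418) (nat_lit 158)) (XT.lf (nat_lit 0) (nat_lit 3061610846707) (nat_lit 228) (nat_lit 2249258573088) (nat_lit 76) (nat_lit 263565880402) (nat_lit 30) (nat_lit 5) (nat_lit 33) (nat_lit 5) (nat_lit 31) (nat_lit 4) (nat_lit 445) (nat_lit 418)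 (nat_lit 157))) (XT.nd (nat_lit 78) (nat_lit 228) (nat_lit 0) (XT.lf (nat_lit 0) (nat_lit 894870317416) (nat_lit 76) (nat_lit 3678340957998) (nat_lit 152) (nat_lit 1294048734336) (nat_lit 29) (nat_lit 5) (nat_lit 30) (nat_lit 5) (nat_lit 31) (nat_lit 4) (nat_lit 446) (nat_lit 418) (nat_lit 156)) (XT.nd (nat_lit 78) (nat_lit 152) (nat_lit 0) (XT.lf (nat_lit 0) (nat_lit 84213139722) (nat_lit 152) (nat_lit 1762275930797) (nat_lit 76) (nat_lit 4331931170101) (nat_lit 28) (nat_lit 5) (nat_lit 30) (nat_lit 5) (nat_lit 29) (nat_lit 5) (nat_lit 447) (nat_lit 418) (nat_lit 155)) (XT.lf (nat_lit 0) (nat_lit 1550272725488) (nat_lit 228) (nat_lit 4754515265796) (nat_lit 76) (nat_lit 203200445832) (nat_lit 26) (nat_lit 5) (nat_lit 29) (nat_lit 5) (nat_lit 27) (nat_lit 4) (nat_lit 448) (nat_lit 418) (nat_lit 154))))) (XT.nd (nat_lit 50778) (nat_lit 0) (nat_lit 2964) (XT.nd (nat_lit 78) (nat_lit 76)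 (nat_lit 0) (XT.lf (nat_lit 0) (nat_lit 3231013105558) (nat_lit 228) (nat_lit 1258575276138) (nat_lit 76) (nat_lit 2366542025442) (nat_lit 26) (nat_lit 5) (nat_lit 29) (nat_lit 5) (nat_lit 27) (nat_lit 4) (nat_lit 449) (nat_lit 418) (nat_lit 153)) (XT.lf (nat_lit 0) (nat_lit 2649582773048) (nat_lit 76) (nat_lit 2460352471936) (nat_lit 152) (nat_lit 2117090687461) (nat_lit 25) (nat_lit 5) (nat_lit 26) (nat_lit 5) (nat_lit 27) (nat_lit 4) (nat_lit 450) (nat_lit 418) (nat_lit 152))) (XT.nd (nat_lit 78) (nat_lit 0) (nat_lit 0) (XT.lf (nat_lit 0) (nat_lit 783660841889) (nat_lit 532) (nat_lit 52484954735) (nat_lit 532) (nat_lit 52484954735) (nat_lit 64) (nat_lit 3) (nat_lit 71) (nat_lit 3) (nat_lit 71) (nat_lit 5) (nat_lit 419) (nat_lit 419) (nat_lit 182)) (XT.nd (nat_lit 78) (nat_lit 0) (nat_lit 76) (XT.lf (nat_lit 76) (nat_lit 798794319935) (nat_lit 0) (nat_lit 850431273182) (nat_lit 532)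 (nat_lit 197589486333) (nat_lit 65) (nat_lit 5) (nat_lit 64) (nat_lit 3) (nat_lit 71) (nat_lit 5) (nat_lit 420) (nat_lit 419) (nat_lit 181)) (XT.lf (nat_lit 0) (nat_lit 1741520552434) (nat_lit 456) (nat_lit 141842594907) (nat_lit 532) (nat_lit 38262696003) (nat_lit 65) (nat_lit 5) (nat_lit 71) (nat_lit 5) (nat_lit 72) (nat_lit 5) (nat_lit 421) (nat_lit 419) (nat_lit 180)))))) (XT.nd (nat_lit 390) (nat_lit 760) (nat_lit 0) (XT.nd (nat_lit 156) (nat_lit 456) (nat_lit 0) (XT.nd (nat_lit 78) (nat_lit 0) (nat_lit 0) (XT.lf (nat_lit 76) (nat_lit 857643499000) (nat_lit 0) (nat_lit 1026271078451) (nat_lit 532) (nat_lit 115089653384) (nat_lit 66) (nat_lit 5) (nat_lit 65) (nat_lit 5) (nat_lit 72) (nat_lit 5) (nat_lit 422) (nat_lit 419) (nat_lit 179)) (XT.lf (nat_lit 76) (nat_lit 1945155193318) (nat_lit 0) (nat_lit 96423157367) (nat_lit 532) (nat_lit 40684280543) (nat_lit 66) (nat_lit 5) (nat_lit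 65) (nat_lit 5) (nat_lit 72) (nat_lit 5) (nat_lit 423) (nat_lit 419) (nat_lit 178))) (XT.nd (nat_lit 78) (nat_lit 0) (nat_lit 0) (XT.lf (nat_lit 0) (nat_lit 84131834116) (nat_lit 532) (nat_lit 1196293788967) (nat_lit 608) (nat_lit 887964313258) (nat_lit 59) (nat_lit 5) (nat_lit 66) (nat_lit 5) (nat_lit 67) (nat_lit 5) (nat_lit 424) (nat_lit 419) (nat_lit 177)) (XT.nd (nat_lit 78) (nat_lit 0) (nat_lit 76) (XT.lf (nat_lit 0) (nat_lit 223085856875) (nat_lit 532) (nat_lit 86932687886) (nat_lit 608) (nat_lit 1950796292196) (nat_lit 59) (nat_lit 5) (nat_lit 66) (nat_lit 5) (nat_lit 67) (nat_lit 5) (nat_lit 425) (nat_lit 419) (nat_lit 176)) (XT.lf (nat_lit 0) (nat_lit 419767373317) (nat_lit 532) (nat_lit 1207173418872) (nat_lit 76) (nat_lit 729964043684) (nat_lit 60) (nat_lit 5) (nat_lit 67) (nat_lit 5) (nat_lit 61) (nat_lit 5) (nat_lit 426) (nat_lit 419) (nat_lit 175))))) (XT.nd (nat_lit 234)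 (nat_lit 228) (nat_lit 0) (XT.nd (nat_lit 78) (nat_lit 228) (nat_lit 0) (XT.lf (nat_lit 0) (nat_lit 22807459054) (nat_lit 380) (nat_lit 620415531619) (nat_lit 456) (nat_lit 1816575877662) (nat_lit 55) (nat_lit 5) (nat_lit 60) (nat_lit 5) (nat_lit 61) (nat_lit 5) (nat_lit 427) (nat_lit 419) (nat_lit 174)) (XT.nd (nat_lit 78) (nat_lit 228) (nat_lit 0) (XT.lf (nat_lit 0) (nat_lit 929641127011) (nat_lit 456) (nat_lit 1160523904949) (nat_lit 76) (nat_lit 477152505868) (nat_lit 55) (nat_lit 5) (nat_lit 61) (nat_lit 5) (nat_lit 56) (nat_lit 5) (nat_lit 428) (nat_lit 419) (nat_lit 173)) (XT.lf (nat_lit 0) (nat_lit 212580444146) (nat_lit 228) (nat_lit 1047619522880) (nat_lit 304) (nat_lit 1421539553633) (nat_lit 52) (nat_lit 5) (nat_lit 55) (nat_lit 5) (nat_lit 56) (nat_lit 5) (nat_lit 429) (nat_lit 419) (nat_lit 172)))) (XT.nd (nat_lit 78) (nat_lit 228) (nat_lit 0) (XT.lf (nat_lit 0) (nat_lit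 1651642298849) (nat_lit 304) (nat_lit 1043951642544) (nat_lit 76) (nat_lit 106966217957) (nat_lit 52) (nat_lit 5) (nat_lit 56) (nat_lit 5) (nat_lit 53) (nat_lit 5) (nat_lit 430) (nat_lit 419) (nat_lit 171)) (XT.nd (nat_lit 78) (nat_lit 0) (nat_lit 0) (XT.lf (nat_lit 0) (nat_lit 492708776757) (nat_lit 228) (nat_lit 1620751794068) (nat_lit 304) (nat_lit 816461034023) (nat_lit 49) (nat_lit 5) (nat_lit 52) (nat_lit 5) (nat_lit 53) (nat_lit 5) (nat_lit 431) (nat_lit 419) (nat_lit 170)) (XT.lf (nat_lit 0) (nat_lit 2211672483382) (nat_lit 228) (nat_lit 429095308153) (nat_lit 304) (nat_lit 424420695493) (nat_lit 49) (nat_lit 5) (nat_lit 52) (nat_lit 5) (nat_lit 53) (nat_lit 5) (nat_lit 432) (nat_lit 419) (nat_lit 169))))))))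
noncomputable def xc247 : XT := (XT.nd (nat_lit 52416) (nat_lit 0) (nat_lit 608) (XT.nd (nat_lit 780) (nat_lit 608) (nat_lit 0) (XT.nd (nat_lit 390) (nat_lit 532) (nat_lit 0) (XT.nd (nat_lit 156) (nat_lit 380) (nat_lit 0) (XT.nd (nat_lit 78) (nat_lit 0) (nat_lit 0) (XT.lf (nat_lit 0) (nat_lit 41922648355) (nat_lit 228) (nat_lit 2328714465177) (nat_lit 76) (nat_lit 837210451429) (nat_lit 46) (nat_lit 5) (nat_lit 49) (nat_lit 5) (nat_lit 47) (nat_lit 5) (nat_lit 433) (nat_lit 419) (nat_lit 168)) (XT.lf (nat_lit 0) (nat_lit 557731836629) (nat_lit 228) (nat_lit 583893489522) (nat_lit 76) (nat_lit 2216605080373) (nat_lit 46) (nat_lit 5) (nat_lit 49) (nat_lit 5) (nat_lit 47) (nat_lit 5) (nat_lit 434) (nat_lit 419) (nat_lit 167))) (XT.nd (nat_lit 78) (nat_lit 152) (nat_lit 0) (XT.lf (nat_lit 0) (nat_lit 1153051589355) (nat_lit 304) (nat_lit 2154335489525) (nat_lit 76) (nat_lit 210197130183) (nat_lit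 43) (nat_lit 5) (nat_lit 47) (nat_lit 5) (nat_lit 44) (nat_lit 5) (nat_lit 435) (nat_lit 419) (nat_lit 166)) (XT.nd (nat_lit 78) (nat_lit 152) (nat_lit 0) (XT.lf (nat_lit 0) (nat_lit 1842028877217) (nat_lit 304) (nat_lit 219107569794) (nat_lit 76) (nat_lit 1624867312400) (nat_lit 43) (nat_lit 5) (nat_lit 47) (nat_lit 5) (nat_lit 44) (nat_lit 5) (nat_lit 436) (nat_lit 419) (nat_lit 165)) (XT.lf (nat_lit 0) (nat_lit 1969458892663) (nat_lit 152) (nat_lit 664030988446) (nat_lit 228) (nat_lit 1230617750038) (nat_lit 41) (nat_lit 5) (nat_lit 43) (nat_lit 5) (nat_lit 44) (nat_lit 5) (nat_lit 437) (nat_lit 419) (nat_lit 164))))) (XT.nd (nat_lit 156) (nat_lit 304) (nat_lit 0) (XT.nd (nat_lit 78) (nat_lit 76) (nat_lit 0) (XT.lf (nat_lit 0) (nat_lit 283288083342) (nat_lit 152) (nat_lit 3238257652871) (nat_lit 228) (nat_lit 532251838737) (nat_lit 39) (nat_lit 5) (nat_lit 41) (nat_lit 5) (nat_lit 42)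 (nat_lit 5) (nat_lit 438) (nat_lit 419) (nat_lit 163)) (XT.lf (nat_lit 0) (nat_lit 281274984919) (nat_lit 228) (nat_lit 1535240064318) (nat_lit 76) (nat_lit 2436088877003) (nat_lit 38) (nat_lit 5) (nat_lit 41) (nat_lit 5) (nat_lit 39) (nat_lit 5) (nat_lit 439) (nat_lit 419) (nat_lit 162))) (XT.nd (nat_lit 78) (nat_lit 152) (nat_lit 0) (XT.lf (nat_lit 0) (nat_lit 910576939468) (nat_lit 152) (nat_lit 242450987633) (nat_lit 228) (nat_lit 3311428928955) (nat_lit 36) (nat_lit 5) (nat_lit 38) (nat_lit 5) (nat_lit 39) (nat_lit 5) (nat_lit 440) (nat_lit 419) (nat_lit 161)) (XT.nd (nat_lit 78) (nat_lit 152) (nat_lit 0) (XT.lf (nat_lit 0) (nat_lit 2172641407295) (nat_lit 228) (nat_lit 1086674279403) (nat_lit 76) (nat_lit 1427692709346) (nat_lit 36) (nat_lit 5) (nat_lit 39) (nat_lit 5) (nat_lit 37) (nat_lit 5) (nat_lit 441) (nat_lit 419) (nat_lit 160)) (XT.lf (nat_lit 0) (nat_lit 1654368597044) (nat_lit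 152) (nat_lit 1665540401074) (nat_lit 228) (nat_lit 1603768258538) (nat_lit 34) (nat_lit 5) (nat_lit 36) (nat_lit 5) (nat_lit 37) (nat_lit 5) (nat_lit 442) (nat_lit 419) (nat_lit 159)))))) (XT.nd (nat_lit 390) (nat_lit 228) (nat_lit 0) (XT.nd (nat_lit 156) (nat_lit 228) (nat_lit 0) (XT.nd (nat_lit 78) (nat_lit 152) (nat_lit 0) (XT.lf (nat_lit 0) (nat_lit 4590781800037) (nat_lit 228) (nat_lit 502519870100) (nat_lit 76) (nat_lit 83432051674) (nat_lit 34) (nat_lit 5) (nat_lit 37) (nat_lit 5) (nat_lit 35) (nat_lit 4) (nat_lit 443) (nat_lit 419) (nat_lit 158)) (XT.lf (nat_lit 0) (nat_lit 595435031511) (nat_lit 152) (nat_lit 2885740491771) (nat_lit 76) (nat_lit 1959245839259) (nat_lit 32) (nat_lit 5) (nat_lit 34) (nat_lit 5) (nat_lit 33) (nat_lit 5) (nat_lit 444) (nat_lit 419) (nat_lit 157))) (XT.nd (nat_lit 78) (nat_lit 76) (nat_lit 0) (XT.lf (nat_lit 0) (nat_lit 153009326779) (nat_lit 152)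 (nat_lit 1704443529734) (nat_lit 228) (nat_lit 3865111472481) (nat_lit 30) (nat_lit 5) (nat_lit 32) (nat_lit 5) (nat_lit 33) (nat_lit 5) (nat_lit 445) (nat_lit 419) (nat_lit 156)) (XT.nd (nat_lit 78) (nat_lit 76) (nat_lit 0) (XT.lf (nat_lit 0) (nat_lit 3306539724437) (nat_lit 228) (nat_lit 2429199241775) (nat_lit 76) (nat_lit 284651157198) (nat_lit 30) (nat_lit 5) (nat_lit 33) (nat_lit 5) (nat_lit 31) (nat_lit 4) (nat_lit 446) (nat_lit 419) (nat_lit 155)) (XT.lf (nat_lit 0) (nat_lit 966459959536) (nat_lit 76) (nat_lit 3972608227567) (nat_lit 152) (nat_lit 1397572622652) (nat_lit 29) (nat_lit 5) (nat_lit 30) (nat_lit 5) (nat_lit 31) (nat_lit 4) (nat_lit 447) (nat_lit 419) (nat_lit 154))))) (XT.nd (nat_lit 51012) (nat_lit 0) (nat_lit 2888) (XT.nd (nat_lit 78) (nat_lit 152) (nat_lit 0) (XT.lf (nat_lit 0) (nat_lit 90950200076) (nat_lit 152) (nat_lit 1903257989288) (nat_lit 76) (nat_lit 4678485669769)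 (nat_lit 28) (nat_lit 5) (nat_lit 30) (nat_lit 5) (nat_lit 29) (nat_lit 5) (nat_lit 448) (nat_lit 419) (nat_lit 153)) (XT.nd (nat_lit 50856) (nat_lit 0) (nat_lit 2888) (XT.lf (nat_lit 0) (nat_lit 1674294552559) (nat_lit 228) (nat_lit 5134876470939) (nat_lit 76) (nat_lit 219456487863) (nat_lit 26) (nat_lit 5) (nat_lit 29) (nat_lit 5) (nat_lit 27) (nat_lit 4) (nat_lit 449) (nat_lit 419) (nat_lit 152)) (XT.lf (nat_lit 0) (nat_lit 846353728157) (nat_lit 532) (nat_lit 56683740890) (nat_lit 532) (nat_lit 56683740890) (nat_lit 64) (nat_lit 3) (nat_lit 71) (nat_lit 3) (nat_lit 71) (nat_lit 5) (nat_lit 420) (nat_lit 420) (nat_lit 180)))) (XT.nd (nat_lit 78) (nat_lit 0) (nat_lit 76) (XT.lf (nat_lit 76) (nat_lit 862697885460) (nat_lit 0) (nat_lit 918465790617) (nat_lit 532) (nat_lit 213396606857) (nat_lit 65) (nat_lit 5) (nat_lit 64) (nat_lit 3) (nat_lit 71) (nat_lit 5) (nat_lit 421) (nat_lit 420)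 (nat_lit 179)) (XT.nd (nat_lit 78) (nat_lit 0) (nat_lit 0) (XT.lf (nat_lit 0) (nat_lit 1880842229162) (nat_lit 456) (nat_lit 153189981038) (nat_lit 532) (nat_lit 41323697979) (nat_lit 65) (nat_lit 5) (nat_lit 71) (nat_lit 5) (nat_lit 72) (nat_lit 5) (nat_lit 422) (nat_lit 420) (nat_lit 178)) (XT.lf (nat_lit 76) (nat_lit 926254999838) (nat_lit 0) (nat_lit 1108372774434) (nat_lit 532) (nat_lit 124296792550) (nat_lit 66) (nat_lit 5) (nat_lit 65) (nat_lit 5) (nat_lit 72) (nat_lit 5) (nat_lit 423) (nat_lit 420) (nat_lit 177))))))) (XT.nd (nat_lit 780) (nat_lit 1140) (nat_lit 0) (XT.nd (nat_lit 390) (nat_lit 456) (nat_lit 0) (XT.nd (nat_lit 156) (nat_lit 304) (nat_lit 0) (XT.nd (nat_lit 78) (nat_lit 456) (nat_lit 0) (XT.lf (nat_lit 76) (nat_lit 2100767628152) (nat_lit 0) (nat_lit 104137018945) (nat_lit 532) (nat_lit 43938992335) (nat_lit 66) (nat_lit 5) (nat_lit 65) (nat_lit 5) (nat_lit 72)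 (nat_lit 5) (nat_lit 424) (nat_lit 420) (nat_lit 176)) (XT.lf (nat_lit 0) (nat_lit 90862408128) (nat_lit 532) (nat_lit 1291997269300) (nat_lit 608) (nat_lit 959001451617) (nat_lit 59) (nat_lit 5) (nat_lit 66) (nat_lit 5) (nat_lit 67) (nat_lit 5) (nat_lit 425) (nat_lit 420) (nat_lit 175))) (XT.nd (nat_lit 78) (nat_lit 304) (nat_lit 0) (XT.lf (nat_lit 0) (nat_lit 240932750687) (nat_lit 532) (nat_lit 93887281819) (nat_lit 608) (nat_lit 2106859989366) (nat_lit 59) (nat_lit 5) (nat_lit 66) (nat_lit 5) (nat_lit 67) (nat_lit 5) (nat_lit 426) (nat_lit 420) (nat_lit 174)) (XT.nd (nat_lit 78) (nat_lit 380) (nat_lit 0) (XT.lf (nat_lit 0) (nat_lit 453348786987) (nat_lit 532) (nat_lit 1303747269809) (nat_lit 76) (nat_lit 788361164023) (nat_lit 60) (nat_lit 5) (nat_lit 67) (nat_lit 5) (nat_lit 61) (nat_lit 5) (nat_lit 427) (nat_lit 420) (nat_lit 173)) (XT.lf (nat_lit 0) (nat_lit 24632077781) (nat_lit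 380) (nat_lit 670048774717) (nat_lit 456) (nat_lit 1961901923480) (nat_lit 55) (nat_lit 5) (nat_lit 60) (nat_lit 5) (nat_lit 61) (nat_lit 5) (nat_lit 428) (nat_lit 420) (nat_lit 172))))) (XT.nd (nat_lit 156) (nat_lit 228) (nat_lit 0) (XT.nd (nat_lit 78) (nat_lit 228) (nat_lit 0) (XT.lf (nat_lit 0) (nat_lit 1004012438058) (nat_lit 456) (nat_lit 1253365795271) (nat_lit 76) (nat_lit 515324705837) (nat_lit 55) (nat_lit 5) (nat_lit 61) (nat_lit 5) (nat_lit 56) (nat_lit 5) (nat_lit 429) (nat_lit 420) (nat_lit 171)) (XT.lf (nat_lit 0) (nat_lit 229586901193) (nat_lit 228) (nat_lit 1131429083053) (nat_lit 304) (nat_lit 1535262696463) (nat_lit 52) (nat_lit 5) (nat_lit 55) (nat_lit 5) (nat_lit 56) (nat_lit 5) (nat_lit 430) (nat_lit 420) (nat_lit 170))) (XT.nd (nat_lit 78) (nat_lit 228) (nat_lit 0) (XT.lf (nat_lit 0) (nat_lit 1783773701179) (nat_lit 304) (nat_lit 1127467752578) (nat_lit 76) (nat_lit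 115523516852) (nat_lit 52) (nat_lit 5) (nat_lit 56) (nat_lit 5) (nat_lit 53) (nat_lit 5) (nat_lit 431) (nat_lit 420) (nat_lit 169)) (XT.nd (nat_lit 78) (nat_lit 0) (nat_lit 0) (XT.lf (nat_lit 0) (nat_lit 532125499726) (nat_lit 228) (nat_lit 1750411934324) (nat_lit 304) (nat_lit 881777897768) (nat_lit 49) (nat_lit 5) (nat_lit 52) (nat_lit 5) (nat_lit 53) (nat_lit 5) (nat_lit 432) (nat_lit 420) (nat_lit 168)) (XT.lf (nat_lit 0) (nat_lit 2388606301338) (nat_lit 228) (nat_lit 463422929779) (nat_lit 304) (nat_lit 458374333561) (nat_lit 49) (nat_lit 5) (nat_lit 52) (nat_lit 5) (nat_lit 53) (nat_lit 5) (nat_lit 433) (nat_lit 420) (nat_lit 167)))))) (XT.nd (nat_lit 390) (nat_lit 532) (nat_lit 0) (XT.nd (nat_lit 156) (nat_lit 380) (nat_lit 0) (XT.nd (nat_lit 78) (nat_lit 0) (nat_lit 0) (XT.lf (nat_lit 0) (nat_lit 45276476242) (nat_lit 228) (nat_lit 2515011601532) (nat_lit 76) (nat_lit 904187291092)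 (nat_lit 46) (nat_lit 5) (nat_lit 49) (nat_lit 5) (nat_lit 47) (nat_lit 5) (nat_lit 434) (nat_lit 420) (nat_lit 166)) (XT.lf (nat_lit 0) (nat_lit 602350398392) (nat_lit 228) (nat_lit 630604949369) (nat_lit 76) (nat_lit 2393933490090) (nat_lit 46) (nat_lit 5) (nat_lit 49) (nat_lit 5) (nat_lit 47) (nat_lit 5) (nat_lit 435) (nat_lit 420) (nat_lit 165))) (XT.nd (nat_lit 78) (nat_lit 152) (nat_lit 0) (XT.lf (nat_lit 0) (nat_lit 1245295730801) (nat_lit 304) (nat_lit 2326682308829) (nat_lit 76) (nat_lit 227012905005) (nat_lit 43) (nat_lit 5) (nat_lit 47) (nat_lit 5) (nat_lit 44) (nat_lit 5) (nat_lit 436) (nat_lit 420) (nat_lit 164)) (XT.nd (nat_lit 78) (nat_lit 152) (nat_lit 0) (XT.lf (nat_lit 0) (nat_lit 1989391200633) (nat_lit 304) (nat_lit 236636156991) (nat_lit 76) (nat_lit 1754856701472) (nat_lit 43) (nat_lit 5) (nat_lit 47) (nat_lit 5) (nat_lit 44) (nat_lit 5) (nat_lit 437) (nat_lit 420)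 (nat_lit 163)) (XT.lf (nat_lit 0) (nat_lit 2127015621997) (nat_lit 152) (nat_lit 717153462289) (nat_lit 228) (nat_lit 1329067156330) (nat_lit 41) (nat_lit 5) (nat_lit 43) (nat_lit 5) (nat_lit 44) (nat_lit 5) (nat_lit 438) (nat_lit 420) (nat_lit 162))))) (XT.nd (nat_lit 234) (nat_lit 152) (nat_lit 0) (XT.nd (nat_lit 78) (nat_lit 228) (nat_lit 0) (XT.lf (nat_lit 0) (nat_lit 305951148351) (nat_lit 152) (nat_lit 3497318259066) (nat_lit 228) (nat_lit 574831972538) (nat_lit 39) (nat_lit 5) (nat_lit 41) (nat_lit 5) (nat_lit 42) (nat_lit 5) (nat_lit 439) (nat_lit 420) (nat_lit 161)) (XT.nd (nat_lit 78) (nat_lit 152) (nat_lit 0) (XT.lf (nat_lit 0) (nat_lit 303776995410) (nat_lit 228) (nat_lit 1658059251858) (nat_lit 76) (nat_lit 2630975992129) (nat_lit 38) (nat_lit 5) (nat_lit 41) (nat_lit 5) (nat_lit 39) (nat_lit 5) (nat_lit 440) (nat_lit 420) (nat_lit 160)) (XT.lf (nat_lit 0) (nat_lit 983423111785)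 (nat_lit 152) (nat_lit 261847060727) (nat_lit 228) (nat_lit 3576343231123) (nat_lit 36) (nat_lit 5) (nat_lit 38) (nat_lit 5) (nat_lit 39) (nat_lit 5) (nat_lit 441) (nat_lit 420) (nat_lit 159)))) (XT.nd (nat_lit 78) (nat_lit 152) (nat_lit 0) (XT.lf (nat_lit 0) (nat_lit 2346452730421) (nat_lit 228) (nat_lit 1173608205160) (nat_lit 76) (nat_lit 1541908131298) (nat_lit 36) (nat_lit 5) (nat_lit 39) (nat_lit 5) (nat_lit 37) (nat_lit 5) (nat_lit 442) (nat_lit 420) (nat_lit 158)) (XT.nd (nat_lit 78) (nat_lit 0) (nat_lit 0) (XT.lf (nat_lit 0) (nat_lit 1786718100982) (nat_lit 152) (nat_lit 1798783627136) (nat_lit 228) (nat_lit 1732069708254) (nat_lit 34) (nat_lit 5) (nat_lit 36) (nat_lit 5) (nat_lit 37) (nat_lit 5) (nat_lit 443) (nat_lit 420) (nat_lit 157)) (XT.lf (nat_lit 0) (nat_lit 4958044353572) (nat_lit 228) (nat_lit 542721444110) (nat_lit 76) (nat_lit 90106621107) (nat_lit 34) (nat_lit 5)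 (nat_lit 37) (nat_lit 5) (nat_lit 35) (nat_lit 4) (nat_lit 444) (nat_lit 420) (nat_lit 156))))))))
noncomputable def xc248 : XT := (XT.nd (nat_lit 52416) (nat_lit 0) (nat_lit 76) (XT.nd (nat_lit 51636) (nat_lit 0) (nat_lit 1368) (XT.nd (nat_lit 51246) (nat_lit 0) (nat_lit 2736) (XT.nd (nat_lit 156) (nat_lit 152) (nat_lit 0) (XT.nd (nat_lit 78) (nat_lit 152) (nat_lit 0) (XT.lf (nat_lit 0) (nat_lit 643069843467) (nat_lit 152) (nat_lit 3116599715408) (nat_lit 76) (nat_lit 2115985511910) (nat_lit 32) (nat_lit 5) (nat_lit 34) (nat_lit 5) (nat_lit 33) (nat_lit 5) (nat_lit 445) (nat_lit 420) (nat_lit 155)) (XT.lf (nat_lit 0) (nat_lit 165250088228) (nat_lit 152) (nat_lit 1840799005910) (nat_lit 228) (nat_lit 4174320380444) (nat_lit 30) (nat_lit 5) (nat_lit 32) (nat_lit 5) (nat_lit 33) (nat_lit 5) (nat_lit 446) (nat_lit 420) (nat_lit 154))) (XT.nd (nat_lit 78) (nat_lit 152) (nat_lit 0) (XT.lf (nat_lit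 0) (nat_lit 3571062910960) (nat_lit 228) (nat_lit 2623535166404) (nat_lit 76) (nat_lit 307423255230) (nat_lit 30) (nat_lit 5) (nat_lit 33) (nat_lit 5) (nat_lit 31) (nat_lit 4) (nat_lit 447) (nat_lit 420) (nat_lit 153)) (XT.nd (nat_lit 78) (nat_lit 76) (nat_lit 0) (XT.lf (nat_lit 0) (nat_lit 1043776770639) (nat_lit 76) (nat_lit 4290416879711) (nat_lit 152) (nat_lit 1509378423521) (nat_lit 29) (nat_lit 5) (nat_lit 30) (nat_lit 5) (nat_lit 31) (nat_lit 4) (nat_lit 448) (nat_lit 420) (nat_lit 152)) (XT.lf (nat_lit 0) (nat_lit 98226223948) (nat_lit 152) (nat_lit 2055518614736) (nat_lit 76) (nat_lit 5052764528547) (nat_lit 28) (nat_lit 5) (nat_lit 30) (nat_lit 5) (nat_lit 29) (nat_lit 5) (nat_lit 449) (nat_lit 420) (nat_lit 151))))) (XT.nd (nat_lit 156) (nat_lit 0) (nat_lit 76) (XT.nd (nat_lit 78) (nat_lit 0) (nat_lit 0) (XT.lf (nat_lit 0) (nat_lit 914062042627) (nat_lit 532) (nat_lit 61218431396)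 (nat_lit 532) (nat_lit 61218431396) (nat_lit 64) (nat_lit 3) (nat_lit 71) (nat_lit 3) (nat_lit 71) (nat_lit 5) (nat_lit 421) (nat_lit 421) (nat_lit 178)) (XT.lf (nat_lit 76) (nat_lit 931713733383) (nat_lit 0) (nat_lit 991943067223) (nat_lit 532) (nat_lit 230468302497) (nat_lit 65) (nat_lit 5) (nat_lit 64) (nat_lit 3) (nat_lit 71) (nat_lit 5) (nat_lit 422) (nat_lit 421) (nat_lit 177))) (XT.nd (nat_lit 78) (nat_lit 0) (nat_lit 0) (XT.lf (nat_lit 0) (nat_lit 2031309635386) (nat_lit 456) (nat_lit 165445161121) (nat_lit 532) (nat_lit 44629582068) (nat_lit 65) (nat_lit 5) (nat_lit 71) (nat_lit 5) (nat_lit 72) (nat_lit 5) (nat_lit 423) (nat_lit 421) (nat_lit 176)) (XT.nd (nat_lit 78) (nat_lit 0) (nat_lit 0) (XT.lf (nat_lit 76) (nat_lit 1000355417759) (nat_lit 0) (nat_lit 1197042604712) (nat_lit 532) (nat_lit 134240507573) (nat_lit 66) (nat_lit 5) (nat_lit 65) (nat_lit 5) (nat_lit 72) (nat_lit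 5) (nat_lit 424) (nat_lit 421) (nat_lit 175)) (XT.lf (nat_lit 76) (nat_lit 2268829055010) (nat_lit 0) (nat_lit 112467988166) (nat_lit 532) (nat_lit 47454085443) (nat_lit 66) (nat_lit 5) (nat_lit 65) (nat_lit 5) (nat_lit 72) (nat_lit 5) (nat_lit 425) (nat_lit 421) (nat_lit 174)))))) (XT.nd (nat_lit 390) (nat_lit 684) (nat_lit 0) (XT.nd (nat_lit 156) (nat_lit 304) (nat_lit 0) (XT.nd (nat_lit 78) (nat_lit 0) (nat_lit 0) (XT.lf (nat_lit 0) (nat_lit 98131424169) (nat_lit 532) (nat_lit 1395357031309) (nat_lit 608) (nat_lit 1035721562000) (nat_lit 59) (nat_lit 5) (nat_lit 66) (nat_lit 5) (nat_lit 67) (nat_lit 5) (nat_lit 426) (nat_lit 421) (nat_lit 173)) (XT.lf (nat_lit 0) (nat_lit 260207392399) (nat_lit 532) (nat_lit 101398246277) (nat_lit 608) (nat_lit 2275408783194) (nat_lit 59) (nat_lit 5) (nat_lit 66) (nat_lit 5) (nat_lit 67) (nat_lit 5) (nat_lit 427) (nat_lit 421) (nat_lit 172))) (XT.nd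 (nat_lit 78) (nat_lit 380) (nat_lit 0) (XT.lf (nat_lit 0) (nat_lit 489616710355) (nat_lit 532) (nat_lit 1408047032040) (nat_lit 76) (nat_lit 851430054440) (nat_lit 60) (nat_lit 5) (nat_lit 67) (nat_lit 5) (nat_lit 61) (nat_lit 5) (nat_lit 428) (nat_lit 421) (nat_lit 171)) (XT.nd (nat_lit 78) (nat_lit 0) (nat_lit 0) (XT.lf (nat_lit 0) (nat_lit 26602662866) (nat_lit 380) (nat_lit 723652677183) (nat_lit 456) (nat_lit 2118854056445) (nat_lit 55) (nat_lit 5) (nat_lit 60) (nat_lit 5) (nat_lit 61) (nat_lit 5) (nat_lit 429) (nat_lit 421) (nat_lit 170)) (XT.lf (nat_lit 0) (nat_lit 1084333451010) (nat_lit 456) (nat_lit 1353635039969) (nat_lit 76) (nat_lit 556550681875) (nat_lit 55) (nat_lit 5) (nat_lit 61) (nat_lit 5) (nat_lit 56) (nat_lit 5) (nat_lit 430) (nat_lit 421) (nat_lit 169))))) (XT.nd (nat_lit 156) (nat_lit 456) (nat_lit 0) (XT.nd (nat_lit 78) (nat_lit 0) (nat_lit 0) (XT.lf (nat_lit 0)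 (nat_lit 247953871733) (nat_lit 228) (nat_lit 1221943408276) (nat_lit 304) (nat_lit 1658083693781) (nat_lit 52) (nat_lit 5) (nat_lit 55) (nat_lit 5) (nat_lit 56) (nat_lit 5) (nat_lit 431) (nat_lit 421) (nat_lit 168)) (XT.lf (nat_lit 0) (nat_lit 1926475613068) (nat_lit 304) (nat_lit 1217665154464) (nat_lit 76) (nat_lit 124765399451) (nat_lit 52) (nat_lit 5) (nat_lit 56) (nat_lit 5) (nat_lit 53) (nat_lit 5) (nat_lit 432) (nat_lit 421) (nat_lit 167))) (XT.nd (nat_lit 78) (nat_lit 228) (nat_lit 0) (XT.lf (nat_lit 0) (nat_lit 574695557560) (nat_lit 228) (nat_lit 1890444886267) (nat_lit 304) (nat_lit 952320113320) (nat_lit 49) (nat_lit 5) (nat_lit 52) (nat_lit 5) (nat_lit 53) (nat_lit 5) (nat_lit 433) (nat_lit 421) (nat_lit 166)) (XT.nd (nat_lit 78) (nat_lit 228) (nat_lit 0) (XT.lf (nat_lit 0) (nat_lit 2579694821979) (nat_lit 228) (nat_lit 500496761566) (nat_lit 304) (nat_lit 495044265182) (nat_lit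 49) (nat_lit 5) (nat_lit 52) (nat_lit 5) (nat_lit 53) (nat_lit 5) (nat_lit 434) (nat_lit 421) (nat_lit 165)) (XT.lf (nat_lit 0) (nat_lit 48898608075) (nat_lit 228) (nat_lit 2716212511771) (nat_lit 76) (nat_lit 976522277422) (nat_lit 46) (nat_lit 5) (nat_lit 49) (nat_lit 5) (nat_lit 47) (nat_lit 5) (nat_lit 435) (nat_lit 421) (nat_lit 164))))))) (XT.nd (nat_lit 780) (nat_lit 380) (nat_lit 0) (XT.nd (nat_lit 390) (nat_lit 380) (nat_lit 0) (XT.nd (nat_lit 156) (nat_lit 304) (nat_lit 0) (XT.nd (nat_lit 78) (nat_lit 228) (nat_lit 0) (XT.lf (nat_lit 0) (nat_lit 650538442979) (nat_lit 228) (nat_lit 681053328760) (nat_lit 76) (nat_lit 2585448172114) (nat_lit 46) (nat_lit 5) (nat_lit 49) (nat_lit 5) (nat_lit 47) (nat_lit 5) (nat_lit 436) (nat_lit 421) (nat_lit 163)) (XT.lf (nat_lit 0) (nat_lit 1344919401523) (nat_lit 304) (nat_lit 2512816876511) (nat_lit 76) (nat_lit 245173941184) (nat_lit 43)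 (nat_lit 5) (nat_lit 47) (nat_lit 5) (nat_lit 44) (nat_lit 5) (nat_lit 437) (nat_lit 421) (nat_lit 162))) (XT.nd (nat_lit 78) (nat_lit 304) (nat_lit 0) (XT.lf (nat_lit 0) (nat_lit 2148542508033) (nat_lit 304) (nat_lit 255567033787) (nat_lit 76) (nat_lit 1895245241089) (nat_lit 43) (nat_lit 5) (nat_lit 47) (nat_lit 5) (nat_lit 44) (nat_lit 5) (nat_lit 438) (nat_lit 421) (nat_lit 161)) (XT.nd (nat_lit 78) (nat_lit 152) (nat_lit 0) (XT.lf (nat_lit 0) (nat_lit 2297176887121) (nat_lit 152) (nat_lit 774525734786) (nat_lit 228) (nat_lit 1435392517081) (nat_lit 41) (nat_lit 5) (nat_lit 43) (nat_lit 5) (nat_lit 44) (nat_lit 5) (nat_lit 439) (nat_lit 421) (nat_lit 160)) (XT.lf (nat_lit 0) (nat_lit 330427255944) (nat_lit 152) (nat_lit 3777103714617) (nat_lit 228) (nat_lit 620818518940) (nat_lit 39) (nat_lit 5) (nat_lit 41) (nat_lit 5) (nat_lit 42) (nat_lit 5) (nat_lit 440) (nat_lit 421) (nat_lit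 159))))) (XT.nd (nat_lit 156) (nat_lit 152) (nat_lit 0) (XT.nd (nat_lit 78) (nat_lit 152) (nat_lit 0) (XT.lf (nat_lit 0) (nat_lit 328079165071) (nat_lit 228) (nat_lit 1790703976913) (nat_lit 76) (nat_lit 2841454075757) (nat_lit 38) (nat_lit 5) (nat_lit 41) (nat_lit 5) (nat_lit 39) (nat_lit 5) (nat_lit 441) (nat_lit 421) (nat_lit 158)) (XT.lf (nat_lit 0) (nat_lit 1062096975439) (nat_lit 152) (nat_lit 282794820513) (nat_lit 228) (nat_lit 3862450679197) (nat_lit 36) (nat_lit 5) (nat_lit 38) (nat_lit 5) (nat_lit 39) (nat_lit 5) (nat_lit 442) (nat_lit 421) (nat_lit 157))) (XT.nd (nat_lit 78) (nat_lit 152) (nat_lit 0) (XT.lf (nat_lit 0) (nat_lit 2534168957894) (nat_lit 228) (nat_lit 1267496847346) (nat_lit 76) (nat_lit 1665260786263) (nat_lit 36) (nat_lit 5) (nat_lit 39) (nat_lit 5) (nat_lit 37) (nat_lit 5) (nat_lit 443) (nat_lit 421) (nat_lit 156)) (XT.nd (nat_lit 78) (nat_lit 0) (nat_lit 0)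 (XT.lf (nat_lit 0) (nat_lit 1929655562928) (nat_lit 152) (nat_lit 1942686312142) (nat_lit 228) (nat_lit 1870635275512) (nat_lit 34) (nat_lit 5) (nat_lit 36) (nat_lit 5) (nat_lit 37) (nat_lit 5) (nat_lit 444) (nat_lit 421) (nat_lit 155)) (XT.lf (nat_lit 0) (nat_lit 5354687910031) (nat_lit 228) (nat_lit 586139146265) (nat_lit 76) (nat_lit 97315155338) (nat_lit 34) (nat_lit 5) (nat_lit 37) (nat_lit 5) (nat_lit 35) (nat_lit 4) (nat_lit 445) (nat_lit 421) (nat_lit 154)))))) (XT.nd (nat_lit 51324) (nat_lit 0) (nat_lit 2280) (XT.nd (nat_lit 156) (nat_lit 76) (nat_lit 0) (XT.nd (nat_lit 78) (nat_lit 152) (nat_lit 0) (XT.lf (nat_lit 0) (nat_lit 694515439034) (nat_lit 152) (nat_lit 3365927679177) (nat_lit 76) (nat_lit 2285264357588) (nat_lit 32) (nat_lit 5) (nat_lit 34) (nat_lit 5) (nat_lit 33) (nat_lit 5) (nat_lit 446) (nat_lit 421) (nat_lit 153)) (XT.lf (nat_lit 0) (nat_lit 178470108409) (nat_lit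 152) (nat_lit 1988062921065) (nat_lit 228) (nat_lit 4508266002447) (nat_lit 30) (nat_lit 5) (nat_lit 32) (nat_lit 5) (nat_lit 33) (nat_lit 5) (nat_lit 447) (nat_lit 421) (nat_lit 152))) (XT.nd (nat_lit 78) (nat_lit 76) (nat_lit 0) (XT.lf (nat_lit 0) (nat_lit 3856747951183) (nat_lit 228) (nat_lit 2833417967103) (nat_lit 76) (nat_lit 332017120326) (nat_lit 30) (nat_lit 5) (nat_lit 33) (nat_lit 5) (nat_lit 31) (nat_lit 4) (nat_lit 448) (nat_lit 421) (nat_lit 151)) (XT.nd (nat_lit 51012) (nat_lit 0) (nat_lit 2660) (XT.lf (nat_lit 0) (nat_lit 1127278924584) (nat_lit 76) (nat_lit 4633650224890) (nat_lit 152) (nat_lit 1630128689735) (nat_lit 29) (nat_lit 5) (nat_lit 30) (nat_lit 5) (nat_lit 31) (nat_lit 4) (nat_lit 449) (nat_lit 421) (nat_lit 150)) (XT.lf (nat_lit 0) (nat_lit 987187019941) (nat_lit 532) (nat_lit 66115898393) (nat_lit 532) (nat_lit 66115898393) (nat_lit 64) (nat_lit 3) (nat_lit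 71) (nat_lit 3) (nat_lit 71) (nat_lit 5) (nat_lit 422) (nat_lit 422) (nat_lit 176))))) (XT.nd (nat_lit 234) (nat_lit 380) (nat_lit 0) (XT.nd (nat_lit 78) (nat_lit 0) (nat_lit 76) (XT.lf (nat_lit 76) (nat_lit 1006250846703) (nat_lit 0) (nat_lit 1071298524053) (nat_lit 532) (nat_lit 248905738484) (nat_lit 65) (nat_lit 5) (nat_lit 64) (nat_lit 3) (nat_lit 71) (nat_lit 5) (nat_lit 423) (nat_lit 422) (nat_lit 175)) (XT.nd (nat_lit 78) (nat_lit 0) (nat_lit 0) (XT.lf (nat_lit 0) (nat_lit 2193814430129) (nat_lit 456) (nat_lit 178680758236) (nat_lit 532) (nat_lit 48199938561) (nat_lit 65) (nat_lit 5) (nat_lit 71) (nat_lit 5) (nat_lit 72) (nat_lit 5) (nat_lit 424) (nat_lit 422) (nat_lit 174)) (XT.lf (nat_lit 76) (nat_lit 1080383866556) (nat_lit 0) (nat_lit 1292806020224) (nat_lit 532) (nat_lit 144979723847) (nat_lit 66) (nat_lit 5) (nat_lit 65) (nat_lit 5) (nat_lit 72) (nat_lit 5) (nat_lit 425)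 (nat_lit 422) (nat_lit 173)))) (XT.nd (nat_lit 78) (nat_lit 456) (nat_lit 0) (XT.lf (nat_lit 76) (nat_lit 2450335393648) (nat_lit 0) (nat_lit 121465433826) (nat_lit 532) (nat_lit 51250389748) (nat_lit 66) (nat_lit 5) (nat_lit 65) (nat_lit 5) (nat_lit 72) (nat_lit 5) (nat_lit 426) (nat_lit 422) (nat_lit 172)) (XT.nd (nat_lit 78) (nat_lit 0) (nat_lit 0) (XT.lf (nat_lit 0) (nat_lit 105981958156) (nat_lit 532) (nat_lit 1506985577066) (nat_lit 608) (nat_lit 1118579282033) (nat_lit 59) (nat_lit 5) (nat_lit 66) (nat_lit 5) (nat_lit 67) (nat_lit 5) (nat_lit 427) (nat_lit 422) (nat_lit 171)) (XT.lf (nat_lit 0) (nat_lit 281024002359) (nat_lit 532) (nat_lit 109510090473) (nat_lit 608) (nat_lit 2457441481288) (nat_lit 59) (nat_lit 5) (nat_lit 66) (nat_lit 5) (nat_lit 67) (nat_lit 5) (nat_lit 428) (nat_lit 422) (nat_lit 170))))))))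
noncomputable def xc249 : XT := (XT.nd (nat_lit 52650) (nat_lit 0) (nat_lit 608) (XT.nd (nat_lit 780) (nat_lit 988) (nat_lit 0) (XT.nd (nat_lit 390) (nat_lit 684) (nat_lit 0) (XT.nd (nat_lit 156) (nat_lit 228) (nat_lit 0) (XT.nd (nat_lit 78) (nat_lit 380) (nat_lit 0) (XT.lf (nat_lit 0) (nat_lit 528786064681) (nat_lit 532) (nat_lit 1520690778012) (nat_lit 76) (nat_lit 919544456475) (nat_lit 60) (nat_lit 5) (nat_lit 67) (nat_lit 5) (nat_lit 61) (nat_lit 5) (nat_lit 429) (nat_lit 422) (nat_lit 169)) (XT.lf (nat_lit 0) (nat_lit 28730892067) (nat_lit 380) (nat_lit 781544891775) (nat_lit 456) (nat_lit 2288362363030) (nat_lit 55) (nat_lit 5) (nat_lit 60) (nat_lit 5) (nat_lit 61) (nat_lit 5) (nat_lit 430) (nat_lit 422) (nat_lit 168))) (XT.nd (nat_lit 78) (nat_lit 228) (nat_lit 0) (XT.lf (nat_lit 0) (nat_lit 1171080142443) (nat_lit 456) (nat_lit 1461925826942) (nat_lit 76) (nat_lit 601074736057)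 (nat_lit 55) (nat_lit 5) (nat_lit 61) (nat_lit 5) (nat_lit 56) (nat_lit 5) (nat_lit 431) (nat_lit 422) (nat_lit 167)) (XT.nd (nat_lit 78) (nat_lit 0) (nat_lit 0) (XT.lf (nat_lit 0) (nat_lit 267790197285) (nat_lit 228) (nat_lit 1319698879719) (nat_lit 304) (nat_lit 1790730373510) (nat_lit 52) (nat_lit 5) (nat_lit 55) (nat_lit 5) (nat_lit 56) (nat_lit 5) (nat_lit 432) (nat_lit 422) (nat_lit 166)) (XT.lf (nat_lit 0) (nat_lit 2080593675655) (nat_lit 304) (nat_lit 1315078351115) (nat_lit 76) (nat_lit 134746632479) (nat_lit 52) (nat_lit 5) (nat_lit 56) (nat_lit 5) (nat_lit 53) (nat_lit 5) (nat_lit 433) (nat_lit 422) (nat_lit 165))))) (XT.nd (nat_lit 156) (nat_lit 456) (nat_lit 0) (XT.nd (nat_lit 78) (nat_lit 0) (nat_lit 0) (XT.lf (nat_lit 0) (nat_lit 620671217474) (nat_lit 228) (nat_lit 2041680474766) (nat_lit 304) (nat_lit 1028505708437) (nat_lit 49) (nat_lit 5) (nat_lit 52) (nat_lit 5) (nat_lit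 53) (nat_lit 5) (nat_lit 434) (nat_lit 422) (nat_lit 164)) (XT.lf (nat_lit 0) (nat_lit 2786070421912) (nat_lit 228) (nat_lit 540536500266) (nat_lit 304) (nat_lit 534647793481) (nat_lit 49) (nat_lit 5) (nat_lit 52) (nat_lit 5) (nat_lit 53) (nat_lit 5) (nat_lit 435) (nat_lit 422) (nat_lit 163))) (XT.nd (nat_lit 78) (nat_lit 228) (nat_lit 0) (XT.lf (nat_lit 0) (nat_lit 52810508495) (nat_lit 228) (nat_lit 2933509497380) (nat_lit 76) (nat_lit 1054644062225) (nat_lit 46) (nat_lit 5) (nat_lit 49) (nat_lit 5) (nat_lit 47) (nat_lit 5) (nat_lit 436) (nat_lit 422) (nat_lit 162)) (XT.nd (nat_lit 78) (nat_lit 228) (nat_lit 0) (XT.lf (nat_lit 0) (nat_lit 702581529319) (nat_lit 228) (nat_lit 735537580864) (nat_lit 76) (nat_lit 2792284028299) (nat_lit 46) (nat_lit 5) (nat_lit 49) (nat_lit 5) (nat_lit 47) (nat_lit 5) (nat_lit 437) (nat_lit 422) (nat_lit 161)) (XT.lf (nat_lit 0) (nat_lit 1452512964154)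 (nat_lit 304) (nat_lit 2713842212036) (nat_lit 76) (nat_lit 264787859718) (nat_lit 43) (nat_lit 5) (nat_lit 47) (nat_lit 5) (nat_lit 44) (nat_lit 5) (nat_lit 438) (nat_lit 422) (nat_lit 160)))))) (XT.nd (nat_lit 390) (nat_lit 456) (nat_lit 0) (XT.nd (nat_lit 156) (nat_lit 380) (nat_lit 0) (XT.nd (nat_lit 78) (nat_lit 152) (nat_lit 0) (XT.lf (nat_lit 0) (nat_lit 2320425918407) (nat_lit 304) (nat_lit 276012382975) (nat_lit 76) (nat_lit 2046864863376) (nat_lit 43) (nat_lit 5) (nat_lit 47) (nat_lit 5) (nat_lit 44) (nat_lit 5) (nat_lit 439) (nat_lit 422) (nat_lit 159)) (XT.lf (nat_lit 0) (nat_lit 2480951051264) (nat_lit 152) (nat_lit 836487789724) (nat_lit 228) (nat_lit 1550223908369) (nat_lit 41) (nat_lit 5) (nat_lit 43) (nat_lit 5) (nat_lit 44) (nat_lit 5) (nat_lit 440) (nat_lit 422) (nat_lit 158))) (XT.nd (nat_lit 78) (nat_lit 228) (nat_lit 0) (XT.lf (nat_lit 0) (nat_lit 356861449901) (nat_lit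 152) (nat_lit 4079272007350) (nat_lit 228) (nat_lit 670483990681) (nat_lit 39) (nat_lit 5) (nat_lit 41) (nat_lit 5) (nat_lit 42) (nat_lit 5) (nat_lit 441) (nat_lit 422) (nat_lit 157)) (XT.nd (nat_lit 78) (nat_lit 152) (nat_lit 0) (XT.lf (nat_lit 0) (nat_lit 354325506875) (nat_lit 228) (nat_lit 1933960282126) (nat_lit 76) (nat_lit 3068770405468) (nat_lit 38) (nat_lit 5) (nat_lit 41) (nat_lit 5) (nat_lit 39) (nat_lit 5) (nat_lit 442) (nat_lit 422) (nat_lit 156)) (XT.lf (nat_lit 0) (nat_lit 1147064746087) (nat_lit 152) (nat_lit 305418401806) (nat_lit 228) (nat_lit 4171446724604) (nat_lit 36) (nat_lit 5) (nat_lit 38) (nat_lit 5) (nat_lit 39) (nat_lit 5) (nat_lit 443) (nat_lit 422) (nat_lit 155))))) (XT.nd (nat_lit 156) (nat_lit 304) (nat_lit 0) (XT.nd (nat_lit 78) (nat_lit 152) (nat_lit 0) (XT.lf (nat_lit 0) (nat_lit 2736902482274) (nat_lit 228) (nat_lit 1368896582936) (nat_lit 76) (nat_lit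 1798481652989) (nat_lit 36) (nat_lit 5) (nat_lit 39) (nat_lit 5) (nat_lit 37) (nat_lit 5) (nat_lit 444) (nat_lit 422) (nat_lit 154)) (XT.lf (nat_lit 0) (nat_lit 2084028019851) (nat_lit 152) (nat_lit 2098101212685) (nat_lit 228) (nat_lit 2020286089491) (nat_lit 34) (nat_lit 5) (nat_lit 36) (nat_lit 5) (nat_lit 37) (nat_lit 5) (nat_lit 445) (nat_lit 422) (nat_lit 153))) (XT.nd (nat_lit 78) (nat_lit 304) (nat_lit 0) (XT.lf (nat_lit 0) (nat_lit 5783062949840) (nat_lit 228) (nat_lit 633030266501) (nat_lit 76) (nat_lit 105100371660) (nat_lit 34) (nat_lit 5) (nat_lit 37) (nat_lit 5) (nat_lit 35) (nat_lit 4) (nat_lit 446) (nat_lit 422) (nat_lit 152)) (XT.nd (nat_lit 78) (nat_lit 152) (nat_lit 0) (XT.lf (nat_lit 0) (nat_lit 750076681091) (nat_lit 152) (nat_lit 3635201881968) (nat_lit 76) (nat_lit 2468085510246) (nat_lit 32) (nat_lit 5) (nat_lit 34) (nat_lit 5) (nat_lit 33) (nat_lit 5) (nat_lit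 447) (nat_lit 422) (nat_lit 151)) (XT.lf (nat_lit 0) (nat_lit 192747728333) (nat_lit 152) (nat_lit 2147107950191) (nat_lit 228) (nat_lit 4868927275413) (nat_lit 30) (nat_lit 5) (nat_lit 32) (nat_lit 5) (nat_lit 33) (nat_lit 5) (nat_lit 448) (nat_lit 422) (nat_lit 150))))))) (XT.nd (nat_lit 780) (nat_lit 1292) (nat_lit 0) (XT.nd (nat_lit 390) (nat_lit 684) (nat_lit 0) (XT.nd (nat_lit 156) (nat_lit 0) (nat_lit 76) (XT.nd (nat_lit 78) (nat_lit 0) (nat_lit 0) (XT.lf (nat_lit 0) (nat_lit 1066161993457) (nat_lit 532) (nat_lit 71405163822) (nat_lit 532) (nat_lit 71405163822) (nat_lit 64) (nat_lit 3) (nat_lit 71) (nat_lit 3) (nat_lit 71) (nat_lit 5) (nat_lit 423) (nat_lit 423) (nat_lit 174)) (XT.lf (nat_lit 76) (nat_lit 1086750926999) (nat_lit 0) (nat_lit 1157002415795) (nat_lit 532) (nat_lit 268818173375) (nat_lit 65) (nat_lit 5) (nat_lit 64) (nat_lit 3) (nat_lit 71) (nat_lit 5) (nat_lit 424)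 (nat_lit 423) (nat_lit 173))) (XT.nd (nat_lit 78) (nat_lit 0) (nat_lit 0) (XT.lf (nat_lit 0) (nat_lit 2369319605040) (nat_lit 456) (nat_lit 192975205371) (nat_lit 532) (nat_lit 52055925010) (nat_lit 65) (nat_lit 5) (nat_lit 71) (nat_lit 5) (nat_lit 72) (nat_lit 5) (nat_lit 425) (nat_lit 423) (nat_lit 172)) (XT.nd (nat_lit 78) (nat_lit 0) (nat_lit 0) (XT.lf (nat_lit 76) (nat_lit 1166814589062) (nat_lit 0) (nat_lit 1396230507959) (nat_lit 532) (nat_lit 156578080893) (nat_lit 66) (nat_lit 5) (nat_lit 65) (nat_lit 5) (nat_lit 72) (nat_lit 5) (nat_lit 426) (nat_lit 423) (nat_lit 171)) (XT.lf (nat_lit 76) (nat_lit 2646362237345) (nat_lit 0) (nat_lit 131182674197) (nat_lit 532) (nat_lit 55350401612) (nat_lit 66) (nat_lit 5) (nat_lit 65) (nat_lit 5) (nat_lit 72) (nat_lit 5) (nat_lit 427) (nat_lit 423) (nat_lit 170))))) (XT.nd (nat_lit 156) (nat_lit 304) (nat_lit 0) (XT.nd (nat_lit 78) (nat_lit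 0) (nat_lit 0) (XT.lf (nat_lit 0) (nat_lit 114460532001) (nat_lit 532) (nat_lit 1627544408873) (nat_lit 608) (nat_lit 1208065620372) (nat_lit 59) (nat_lit 5) (nat_lit 66) (nat_lit 5) (nat_lit 67) (nat_lit 5) (nat_lit 428) (nat_lit 423) (nat_lit 169)) (XT.lf (nat_lit 0) (nat_lit 303505938467) (nat_lit 532) (nat_lit 118270884416) (nat_lit 608) (nat_lit 2654036795880) (nat_lit 59) (nat_lit 5) (nat_lit 66) (nat_lit 5) (nat_lit 67) (nat_lit 5) (nat_lit 429) (nat_lit 423) (nat_lit 168))) (XT.nd (nat_lit 78) (nat_lit 380) (nat_lit 0) (XT.lf (nat_lit 0) (nat_lit 571088964857) (nat_lit 532) (nat_lit 1642346026028) (nat_lit 76) (nat_lit 993108011005) (nat_lit 60) (nat_lit 5) (nat_lit 67) (nat_lit 5) (nat_lit 61) (nat_lit 5) (nat_lit 430) (nat_lit 423) (nat_lit 167)) (XT.nd (nat_lit 78) (nat_lit 0) (nat_lit 0) (XT.lf (nat_lit 0) (nat_lit 31029377298) (nat_lit 380) (nat_lit 844068483476) (nat_lit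 456) (nat_lit 2471431336699) (nat_lit 55) (nat_lit 5) (nat_lit 60) (nat_lit 5) (nat_lit 61) (nat_lit 5) (nat_lit 431) (nat_lit 423) (nat_lit 166)) (XT.lf (nat_lit 0) (nat_lit 1264766567000) (nat_lit 456) (nat_lit 1578879879188) (nat_lit 76) (nat_lit 649160714626) (nat_lit 55) (nat_lit 5) (nat_lit 61) (nat_lit 5) (nat_lit 56) (nat_lit 5) (nat_lit 432) (nat_lit 423) (nat_lit 165)))))) (XT.nd (nat_lit 390) (nat_lit 608) (nat_lit 0) (XT.nd (nat_lit 156) (nat_lit 456) (nat_lit 0) (XT.nd (nat_lit 78) (nat_lit 0) (nat_lit 0) (XT.lf (nat_lit 0) (nat_lit 289213426626) (nat_lit 228) (nat_lit 1425274789052) (nat_lit 304) (nat_lit 1933988789867) (nat_lit 52) (nat_lit 5) (nat_lit 55) (nat_lit 5) (nat_lit 56) (nat_lit 5) (nat_lit 433) (nat_lit 423) (nat_lit 164)) (XT.lf (nat_lit 0) (nat_lit 2247041181317) (nat_lit 304) (nat_lit 1420284605738) (nat_lit 76) (nat_lit 145526363996) (nat_lit 52) (nat_lit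 5) (nat_lit 56) (nat_lit 5) (nat_lit 53) (nat_lit 5) (nat_lit 434) (nat_lit 423) (nat_lit 163))) (XT.nd (nat_lit 78) (nat_lit 228) (nat_lit 0) (XT.lf (nat_lit 0) (nat_lit 670324927997) (nat_lit 228) (nat_lit 2205014910687) (nat_lit 304) (nat_lit 1110786153154) (nat_lit 49) (nat_lit 5) (nat_lit 52) (nat_lit 5) (nat_lit 53) (nat_lit 5) (nat_lit 435) (nat_lit 423) (nat_lit 162)) (XT.nd (nat_lit 78) (nat_lit 228) (nat_lit 0) (XT.lf (nat_lit 0) (nat_lit 3008956067818) (nat_lit 228) (nat_lit 583779418380) (nat_lit 304) (nat_lit 577419605887) (nat_lit 49) (nat_lit 5) (nat_lit 52) (nat_lit 5) (nat_lit 53) (nat_lit 5) (nat_lit 436) (nat_lit 423) (nat_lit 161)) (XT.lf (nat_lit 0) (nat_lit 57035359269) (nat_lit 228) (nat_lit 3168190244026) (nat_lit 76) (nat_lit 1139015589440) (nat_lit 46) (nat_lit 5) (nat_lit 49) (nat_lit 5) (nat_lit 47) (nat_lit 5) (nat_lit 437) (nat_lit 423) (nat_lit 160))))) (XT.nd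 (nat_lit 234) (nat_lit 380) (nat_lit 0) (XT.nd (nat_lit 78) (nat_lit 228) (nat_lit 0) (XT.lf (nat_lit 0) (nat_lit 758788061011) (nat_lit 228) (nat_lit 794380575162) (nat_lit 76) (nat_lit 3015666752634) (nat_lit 46) (nat_lit 5) (nat_lit 49) (nat_lit 5) (nat_lit 47) (nat_lit 5) (nat_lit 438) (nat_lit 423) (nat_lit 159)) (XT.nd (nat_lit 78) (nat_lit 0) (nat_lit 0) (XT.lf (nat_lit 0) (nat_lit 1568714010296) (nat_lit 304) (nat_lit 2930949576485) (nat_lit 76) (nat_lit 285970891273) (nat_lit 43) (nat_lit 5) (nat_lit 47) (nat_lit 5) (nat_lit 44) (nat_lit 5) (nat_lit 439) (nat_lit 423) (nat_lit 158)) (XT.lf (nat_lit 0) (nat_lit 2506060000222) (nat_lit 304) (nat_lit 298093362026) (nat_lit 76) (nat_lit 2210614055017) (nat_lit 43) (nat_lit 5) (nat_lit 47) (nat_lit 5) (nat_lit 44) (nat_lit 5) (nat_lit 440) (nat_lit 423) (nat_lit 157)))) (XT.nd (nat_lit 78) (nat_lit 228) (nat_lit 0) (XT.lf (nat_lit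 0) (nat_lit 2679427146658) (nat_lit 152) (nat_lit 903406809604) (nat_lit 228) (nat_lit 1674241812398) (nat_lit 41) (nat_lit 5) (nat_lit 43) (nat_lit 5) (nat_lit 44) (nat_lit 5) (nat_lit 441) (nat_lit 423) (nat_lit 156)) (XT.nd (nat_lit 78) (nat_lit 76) (nat_lit 0) (XT.lf (nat_lit 0) (nat_lit 385410377452) (nat_lit 152) (nat_lit 4405613764135) (nat_lit 228) (nat_lit 724122701555) (nat_lit 39) (nat_lit 5) (nat_lit 41) (nat_lit 5) (nat_lit 42) (nat_lit 5) (nat_lit 442) (nat_lit 423) (nat_lit 155)) (XT.lf (nat_lit 0) (nat_lit 382671554796) (nat_lit 228) (nat_lit 2088677093602) (nat_lit 76) (nat_lit 3314272041035) (nat_lit 38) (nat_lit 5) (nat_lit 41) (nat_lit 5) (nat_lit 39) (nat_lit 5) (nat_lit 443) (nat_lit 423) (nat_lit 154))))))))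
noncomputable def xc250 : XT := (XT.nd (nat_lit 52728) (nat_lit 0) (nat_lit 152) (XT.nd (nat_lit 51948) (nat_lit 0) (nat_lit 1064) (XT.nd (nat_lit 51558) (nat_lit 0) (nat_lit 2432) (XT.nd (nat_lit 156) (nat_lit 304) (nat_lit 0) (XT.nd (nat_lit 78) (nat_lit 0) (nat_lit 0) (XT.lf (nat_lit 0) (nat_lit 1238829936587) (nat_lit 152) (nat_lit 329851870223) (nat_lit 228) (nat_lit 4505162454916) (nat_lit 36) (nat_lit 5) (nat_lit 38) (nat_lit 5) (nat_lit 39) (nat_lit 5) (nat_lit 444) (nat_lit 423) (nat_lit 153)) (XT.lf (nat_lit 0) (nat_lit 2955854687499) (nat_lit 228) (nat_lit 1478408299114) (nat_lit 76) (nat_lit 1942360188508) (nat_lit 36) (nat_lit 5) (nat_lit 39) (nat_lit 5) (nat_lit 37) (nat_lit 5) (nat_lit 445) (nat_lit 423) (nat_lit 152))) (XT.nd (nat_lit 78) (nat_lit 152) (nat_lit 0) (XT.lf (nat_lit 0) (nat_lit 2250750271632) (nat_lit 152) (nat_lit 2265949305904) (nat_lit 228) (nat_lit 2181908969740)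 (nat_lit 34) (nat_lit 5) (nat_lit 36) (nat_lit 5) (nat_lit 37) (nat_lit 5) (nat_lit 446) (nat_lit 423) (nat_lit 151)) (XT.nd (nat_lit 78) (nat_lit 152) (nat_lit 0) (XT.lf (nat_lit 0) (nat_lit 6245707991835) (nat_lit 228) (nat_lit 683672677991) (nat_lit 76) (nat_lit 113508404733) (nat_lit 34) (nat_lit 5) (nat_lit 37) (nat_lit 5) (nat_lit 35) (nat_lit 4) (nat_lit 447) (nat_lit 423) (nat_lit 150)) (XT.lf (nat_lit 0) (nat_lit 810082821524) (nat_lit 152) (nat_lit 3926018022629) (nat_lit 76) (nat_lit 2665532354538) (nat_lit 32) (nat_lit 5) (nat_lit 34) (nat_lit 5) (nat_lit 33) (nat_lit 5) (nat_lit 448) (nat_lit 423) (nat_lit 149))))) (XT.nd (nat_lit 156) (nat_lit 0) (nat_lit 76) (XT.nd (nat_lit 78) (nat_lit 0) (nat_lit 0) (XT.lf (nat_lit 0) (nat_lit 1151454963154) (nat_lit 532) (nat_lit 77117571404) (nat_lit 532) (nat_lit 77117571404) (nat_lit 64) (nat_lit 3) (nat_lit 71) (nat_lit 3) (nat_lit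 71) (nat_lit 5) (nat_lit 424) (nat_lit 424) (nat_lit 172)) (XT.lf (nat_lit 76) (nat_lit 1173691011926) (nat_lit 0) (nat_lit 1249562617476) (nat_lit 532) (nat_lit 290323606507) (nat_lit 65) (nat_lit 5) (nat_lit 64) (nat_lit 3) (nat_lit 71) (nat_lit 5) (nat_lit 425) (nat_lit 424) (nat_lit 171))) (XT.nd (nat_lit 78) (nat_lit 0) (nat_lit 0) (XT.lf (nat_lit 0) (nat_lit 2558865191020) (nat_lit 456) (nat_lit 208413210205) (nat_lit 532) (nat_lit 56220391607) (nat_lit 65) (nat_lit 5) (nat_lit 71) (nat_lit 5) (nat_lit 72) (nat_lit 5) (nat_lit 426) (nat_lit 424) (nat_lit 170)) (XT.nd (nat_lit 78) (nat_lit 0) (nat_lit 0) (XT.lf (nat_lit 76) (nat_lit 1260159767489) (nat_lit 0) (nat_lit 1507928953841) (nat_lit 532) (nat_lit 169104309479) (nat_lit 66) (nat_lit 5) (nat_lit 65) (nat_lit 5) (nat_lit 72) (nat_lit 5) (nat_lit 427) (nat_lit 424) (nat_lit 169)) (XT.lf (nat_lit 76) (nat_lit 2858071226797) (nat_lit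 0) (nat_lit 141677292988) (nat_lit 532) (nat_lit 59778417181) (nat_lit 66) (nat_lit 5) (nat_lit 65) (nat_lit 5) (nat_lit 72) (nat_lit 5) (nat_lit 428) (nat_lit 424) (nat_lit 168)))))) (XT.nd (nat_lit 390) (nat_lit 684) (nat_lit 0) (XT.nd (nat_lit 156) (nat_lit 304) (nat_lit 0) (XT.nd (nat_lit 78) (nat_lit 0) (nat_lit 0) (XT.lf (nat_lit 0) (nat_lit 123617389301) (nat_lit 532) (nat_lit 1757747949273) (nat_lit 608) (nat_lit 1304710866380) (nat_lit 59) (nat_lit 5) (nat_lit 66) (nat_lit 5) (nat_lit 67) (nat_lit 5) (nat_lit 429) (nat_lit 424) (nat_lit 167)) (XT.lf (nat_lit 0) (nat_lit 327786427193) (nat_lit 532) (nat_lit 127732543771) (nat_lit 608) (nat_lit 2866359736198) (nat_lit 59) (nat_lit 5) (nat_lit 66) (nat_lit 5) (nat_lit 67) (nat_lit 5) (nat_lit 430) (nat_lit 424) (nat_lit 166))) (XT.nd (nat_lit 78) (nat_lit 380) (nat_lit 0) (XT.lf (nat_lit 0) (nat_lit 616776094906) (nat_lit 532) (nat_lit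 1773733695914) (nat_lit 76) (nat_lit 1072556650180) (nat_lit 60) (nat_lit 5) (nat_lit 67) (nat_lit 5) (nat_lit 61) (nat_lit 5) (nat_lit 431) (nat_lit 424) (nat_lit 165)) (XT.nd (nat_lit 78) (nat_lit 0) (nat_lit 0) (XT.lf (nat_lit 0) (nat_lit 33511739368) (nat_lit 380) (nat_lit 911593962462) (nat_lit 456) (nat_lit 2669145830456) (nat_lit 55) (nat_lit 5) (nat_lit 60) (nat_lit 5) (nat_lit 61) (nat_lit 5) (nat_lit 432) (nat_lit 424) (nat_lit 164)) (XT.lf (nat_lit 0) (nat_lit 1365947903644) (nat_lit 456) (nat_lit 1705190257597) (nat_lit 76) (nat_lit 701093571525) (nat_lit 55) (nat_lit 5) (nat_lit 61) (nat_lit 5) (nat_lit 56) (nat_lit 5) (nat_lit 433) (nat_lit 424) (nat_lit 163))))) (XT.nd (nat_lit 156) (nat_lit 456) (nat_lit 0) (XT.nd (nat_lit 78) (nat_lit 0) (nat_lit 0) (XT.lf (nat_lit 0) (nat_lit 312350512380) (nat_lit 228) (nat_lit 1539296771281) (nat_lit 304) (nat_lit 2088707881462) (nat_lit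 52) (nat_lit 5) (nat_lit 55) (nat_lit 5) (nat_lit 56) (nat_lit 5) (nat_lit 434) (nat_lit 424) (nat_lit 162)) (XT.lf (nat_lit 0) (nat_lit 2426804485775) (nat_lit 304) (nat_lit 1533907362652) (nat_lit 76) (nat_lit 157168473903) (nat_lit 52) (nat_lit 5) (nat_lit 56) (nat_lit 5) (nat_lit 53) (nat_lit 5) (nat_lit 435) (nat_lit 424) (nat_lit 161))) (XT.nd (nat_lit 78) (nat_lit 228) (nat_lit 0) (XT.lf (nat_lit 0) (nat_lit 723950933490) (nat_lit 228) (nat_lit 2381416101776) (nat_lit 304) (nat_lit 1199649035154) (nat_lit 49) (nat_lit 5) (nat_lit 52) (nat_lit 5) (nat_lit 53) (nat_lit 5) (nat_lit 436) (nat_lit 424) (nat_lit 160)) (XT.nd (nat_lit 78) (nat_lit 228) (nat_lit 0) (XT.lf (nat_lit 0) (nat_lit 3249672563663) (nat_lit 228) (nat_lit 630481770216) (nat_lit 304) (nat_lit 623613164865) (nat_lit 49) (nat_lit 5) (nat_lit 52) (nat_lit 5) (nat_lit 53) (nat_lit 5) (nat_lit 437) (nat_lit 424) (nat_lit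 159)) (XT.lf (nat_lit 0) (nat_lit 61598196664) (nat_lit 228) (nat_lit 3421645452278) (nat_lit 76) (nat_lit 1230136838512) (nat_lit 46) (nat_lit 5) (nat_lit 49) (nat_lit 5) (nat_lit 47) (nat_lit 5) (nat_lit 438) (nat_lit 424) (nat_lit 158))))))) (XT.nd (nat_lit 52026) (nat_lit 0) (nat_lit 1368) (XT.nd (nat_lit 390) (nat_lit 380) (nat_lit 0) (XT.nd (nat_lit 156) (nat_lit 304) (nat_lit 0) (XT.nd (nat_lit 78) (nat_lit 228) (nat_lit 0) (XT.lf (nat_lit 0) (nat_lit 819491113906) (nat_lit 228) (nat_lit 857931010740) (nat_lit 76) (nat_lit 3256920094620) (nat_lit 46) (nat_lit 5) (nat_lit 49) (nat_lit 5) (nat_lit 47) (nat_lit 5) (nat_lit 439) (nat_lit 424) (nat_lit 157)) (XT.lf (nat_lit 0) (nat_lit 1694211138844) (nat_lit 304) (nat_lit 3165425531875) (nat_lit 76) (nat_lit 308848564956) (nat_lit 43) (nat_lit 5) (nat_lit 47) (nat_lit 5) (nat_lit 44) (nat_lit 5) (nat_lit 440) (nat_lit 424) (nat_lit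 156))) (XT.nd (nat_lit 78) (nat_lit 304) (nat_lit 0) (XT.lf (nat_lit 0) (nat_lit 2706544807392) (nat_lit 304) (nat_lit 321940821055) (nat_lit 76) (nat_lit 2387463181623) (nat_lit 43) (nat_lit 5) (nat_lit 47) (nat_lit 5) (nat_lit 44) (nat_lit 5) (nat_lit 441) (nat_lit 424) (nat_lit 155)) (XT.nd (nat_lit 78) (nat_lit 152) (nat_lit 0) (XT.lf (nat_lit 0) (nat_lit 2893781328073) (nat_lit 152) (nat_lit 975679351546) (nat_lit 228) (nat_lit 1808181149982) (nat_lit 41) (nat_lit 5) (nat_lit 43) (nat_lit 5) (nat_lit 44) (nat_lit 5) (nat_lit 442) (nat_lit 424) (nat_lit 154)) (XT.lf (nat_lit 0) (nat_lit 416243217558) (nat_lit 152) (nat_lit 4758062862005) (nat_lit 228) (nat_lit 782052510495) (nat_lit 39) (nat_lit 5) (nat_lit 41) (nat_lit 5) (nat_lit 42) (nat_lit 5) (nat_lit 443) (nat_lit 424) (nat_lit 153))))) (XT.nd (nat_lit 156) (nat_lit 152) (nat_lit 0) (XT.nd (nat_lit 78) (nat_lit 152) (nat_lit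 0) (XT.lf (nat_lit 0) (nat_lit 413285285500) (nat_lit 228) (nat_lit 2255771251579) (nat_lit 76) (nat_lit 3579413807001) (nat_lit 38) (nat_lit 5) (nat_lit 41) (nat_lit 5) (nat_lit 39) (nat_lit 5) (nat_lit 444) (nat_lit 424) (nat_lit 152)) (XT.lf (nat_lit 0) (nat_lit 1337936340785) (nat_lit 152) (nat_lit 356240016644) (nat_lit 228) (nat_lit 4865575444746) (nat_lit 36) (nat_lit 5) (nat_lit 38) (nat_lit 5) (nat_lit 39) (nat_lit 5) (nat_lit 445) (nat_lit 424) (nat_lit 151))) (XT.nd (nat_lit 78) (nat_lit 152) (nat_lit 0) (XT.lf (nat_lit 0) (nat_lit 3192323068195) (nat_lit 228) (nat_lit 1596680954077) (nat_lit 76) (nat_lit 2097749006400) (nat_lit 36) (nat_lit 5) (nat_lit 39) (nat_lit 5) (nat_lit 37) (nat_lit 5) (nat_lit 446) (nat_lit 424) (nat_lit 150)) (XT.nd (nat_lit 78) (nat_lit 0) (nat_lit 0) (XT.lf (nat_lit 0) (nat_lit 2430810302101) (nat_lit 152) (nat_lit 2447225247122) (nat_lit 228) (nat_lit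 2356461681394) (nat_lit 34) (nat_lit 5) (nat_lit 36) (nat_lit 5) (nat_lit 37) (nat_lit 5) (nat_lit 447) (nat_lit 424) (nat_lit 149)) (XT.lf (nat_lit 0) (nat_lit 6745364636332) (nat_lit 228) (nat_lit 738366483803) (nat_lit 76) (nat_lit 122589079974) (nat_lit 34) (nat_lit 5) (nat_lit 37) (nat_lit 5) (nat_lit 35) (nat_lit 4) (nat_lit 448) (nat_lit 424) (nat_lit 148)))))) (XT.nd (nat_lit 390) (nat_lit 912) (nat_lit 0) (XT.nd (nat_lit 156) (nat_lit 0) (nat_lit 76) (XT.nd (nat_lit 78) (nat_lit 0) (nat_lit 0) (XT.lf (nat_lit 0) (nat_lit 1243571368968) (nat_lit 532) (nat_lit 83286972381) (nat_lit 532) (nat_lit 83286972381) (nat_lit 64) (nat_lit 3) (nat_lit 71) (nat_lit 3) (nat_lit 71) (nat_lit 5) (nat_lit 425) (nat_lit 425) (nat_lit 170)) (XT.lf (nat_lit 76) (nat_lit 1267586302112) (nat_lit 0) (nat_lit 1349527634090) (nat_lit 532) (nat_lit 313549477249) (nat_lit 65) (nat_lit 5) (nat_lit 64) (nat_lit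 3) (nat_lit 71) (nat_lit 5) (nat_lit 426) (nat_lit 425) (nat_lit 169))) (XT.nd (nat_lit 78) (nat_lit 0) (nat_lit 0) (XT.lf (nat_lit 0) (nat_lit 2763574421370) (nat_lit 456) (nat_lit 225086257081) (nat_lit 532) (nat_lit 60718016588) (nat_lit 65) (nat_lit 5) (nat_lit 71) (nat_lit 5) (nat_lit 72) (nat_lit 5) (nat_lit 427) (nat_lit 425) (nat_lit 168)) (XT.nd (nat_lit 78) (nat_lit 0) (nat_lit 0) (XT.lf (nat_lit 76) (nat_lit 1360972558577) (nat_lit 0) (nat_lit 1628563274644) (nat_lit 532) (nat_lit 182632638904) (nat_lit 66) (nat_lit 5) (nat_lit 65) (nat_lit 5) (nat_lit 72) (nat_lit 5) (nat_lit 428) (nat_lit 425) (nat_lit 167)) (XT.lf (nat_lit 76) (nat_lit 3086716933912) (nat_lit 0) (nat_lit 153011480591) (nat_lit 532) (nat_lit 64560676357) (nat_lit 66) (nat_lit 5) (nat_lit 65) (nat_lit 5) (nat_lit 72) (nat_lit 5) (nat_lit 429) (nat_lit 425) (nat_lit 166))))) (XT.nd (nat_lit 234) (nat_lit 532)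 (nat_lit 0) (XT.nd (nat_lit 78) (nat_lit 0) (nat_lit 0) (XT.lf (nat_lit 0) (nat_lit 133506793082) (nat_lit 532) (nat_lit 1898367774661) (nat_lit 608) (nat_lit 1409087732586) (nat_lit 59) (nat_lit 5) (nat_lit 66) (nat_lit 5) (nat_lit 67) (nat_lit 5) (nat_lit 430) (nat_lit 425) (nat_lit 165)) (XT.nd (nat_lit 78) (nat_lit 0) (nat_lit 76) (XT.lf (nat_lit 0) (nat_lit 354009353069) (nat_lit 532) (nat_lit 137951137500) (nat_lit 608) (nat_lit 3095668512219) (nat_lit 59) (nat_lit 5) (nat_lit 66) (nat_lit 5) (nat_lit 67) (nat_lit 5) (nat_lit 431) (nat_lit 425) (nat_lit 164)) (XT.lf (nat_lit 0) (nat_lit 666118193525) (nat_lit 532) (nat_lit 1915632381132) (nat_lit 76) (nat_lit 1158361180733) (nat_lit 60) (nat_lit 5) (nat_lit 67) (nat_lit 5) (nat_lit 61) (nat_lit 5) (nat_lit 432) (nat_lit 425) (nat_lit 163)))) (XT.nd (nat_lit 78) (nat_lit 228) (nat_lit 0) (XT.lf (nat_lit 0) (nat_lit 36192688709) (nat_lit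 380) (nat_lit 984521479722) (nat_lit 456) (nat_lit 2882677485593) (nat_lit 55) (nat_lit 5) (nat_lit 60) (nat_lit 5) (nat_lit 61) (nat_lit 5) (nat_lit 433) (nat_lit 425) (nat_lit 162)) (XT.nd (nat_lit 78) (nat_lit 228) (nat_lit 0) (XT.lf (nat_lit 0) (nat_lit 1475223745610) (nat_lit 456) (nat_lit 1841605467981) (nat_lit 76) (nat_lit 757181057016) (nat_lit 55) (nat_lit 5) (nat_lit 61) (nat_lit 5) (nat_lit 56) (nat_lit 5) (nat_lit 434) (nat_lit 425) (nat_lit 161)) (XT.lf (nat_lit 0) (nat_lit 337338563335) (nat_lit 228) (nat_lit 1662440512215) (nat_lit 304) (nat_lit 2255804502039) (nat_lit 52) (nat_lit 5) (nat_lit 55) (nat_lit 5) (nat_lit 56) (nat_lit 5) (nat_lit 435) (nat_lit 425) (nat_lit 160))))))))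
noncomputable def xc251 : XT := (XT.nd (nat_lit 53040) (nat_lit 0) (nat_lit 152) (XT.nd (nat_lit 858) (nat_lit 152) (nat_lit 0) (XT.nd (nat_lit 390) (nat_lit 760) (nat_lit 0) (XT.nd (nat_lit 156) (nat_lit 228) (nat_lit 0) (XT.nd (nat_lit 78) (nat_lit 228) (nat_lit 0) (XT.lf (nat_lit 0) (nat_lit 2620948853170) (nat_lit 304) (nat_lit 1656619941767) (nat_lit 76) (nat_lit 169741952491) (nat_lit 52) (nat_lit 5) (nat_lit 56) (nat_lit 5) (nat_lit 53) (nat_lit 5) (nat_lit 436) (nat_lit 425) (nat_lit 159)) (XT.lf (nat_lit 0) (nat_lit 781867017816) (nat_lit 228) (nat_lit 2571929388404) (nat_lit 304) (nat_lit 1295620949176) (nat_lit 49) (nat_lit 5) (nat_lit 52) (nat_lit 5) (nat_lit 53) (nat_lit 5) (nat_lit 437) (nat_lit 425) (nat_lit 158))) (XT.nd (nat_lit 78) (nat_lit 228) (nat_lit 0) (XT.lf (nat_lit 0) (nat_lit 3509646377689) (nat_lit 228) (nat_lit 680920310431) (nat_lit 304) (nat_lit 673502209915)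 (nat_lit 49) (nat_lit 5) (nat_lit 52) (nat_lit 5) (nat_lit 53) (nat_lit 5) (nat_lit 438) (nat_lit 425) (nat_lit 157)) (XT.nd (nat_lit 78) (nat_lit 0) (nat_lit 0) (XT.lf (nat_lit 0) (nat_lit 66526059817) (nat_lit 228) (nat_lit 3695377078799) (nat_lit 76) (nat_lit 1328547787237) (nat_lit 46) (nat_lit 5) (nat_lit 49) (nat_lit 5) (nat_lit 47) (nat_lit 5) (nat_lit 439) (nat_lit 425) (nat_lit 156)) (XT.lf (nat_lit 0) (nat_lit 885050409888) (nat_lit 228) (nat_lit 926565482653) (nat_lit 76) (nat_lit 3517473703711) (nat_lit 46) (nat_lit 5) (nat_lit 49) (nat_lit 5) (nat_lit 47) (nat_lit 5) (nat_lit 440) (nat_lit 425) (nat_lit 155))))) (XT.nd (nat_lit 156) (nat_lit 532) (nat_lit 0) (XT.nd (nat_lit 78) (nat_lit 0) (nat_lit 0) (XT.lf (nat_lit 0) (nat_lit 1829748036574) (nat_lit 304) (nat_lit 3418659565228) (nat_lit 76) (nat_lit 333556452194) (nat_lit 43) (nat_lit 5) (nat_lit 47) (nat_lit 5) (nat_lit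 44) (nat_lit 5) (nat_lit 441) (nat_lit 425) (nat_lit 154)) (XT.lf (nat_lit 0) (nat_lit 2923068398115) (nat_lit 304) (nat_lit 347696078223) (nat_lit 76) (nat_lit 2578460238043) (nat_lit 43) (nat_lit 5) (nat_lit 47) (nat_lit 5) (nat_lit 44) (nat_lit 5) (nat_lit 442) (nat_lit 425) (nat_lit 153))) (XT.nd (nat_lit 78) (nat_lit 380) (nat_lit 0) (XT.lf (nat_lit 0) (nat_lit 3125283842620) (nat_lit 152) (nat_lit 1053733697246) (nat_lit 228) (nat_lit 1952835635629) (nat_lit 41) (nat_lit 5) (nat_lit 43) (nat_lit 5) (nat_lit 44) (nat_lit 5) (nat_lit 443) (nat_lit 425) (nat_lit 152)) (XT.nd (nat_lit 156) (nat_lit 228) (nat_lit 0) (XT.lf (nat_lit 0) (nat_lit 449542683458) (nat_lit 152) (nat_lit 5138707888170) (nat_lit 228) (nat_lit 844616705175) (nat_lit 39) (nat_lit 5) (nat_lit 41) (nat_lit 5) (nat_lit 42) (nat_lit 5) (nat_lit 444) (nat_lit 425) (nat_lit 151)) (XT.lf (nat_lit 0) (nat_lit 1444971255996)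 (nat_lit 152) (nat_lit 384739215236) (nat_lit 228) (nat_lit 5254821474699) (nat_lit 36) (nat_lit 5) (nat_lit 38) (nat_lit 5) (nat_lit 39) (nat_lit 5) (nat_lit 446) (nat_lit 425) (nat_lit 149)))))) (XT.nd (nat_lit 51714) (nat_lit 0) (nat_lit 1596) (XT.nd (nat_lit 51480) (nat_lit 0) (nat_lit 2280) (XT.nd (nat_lit 78) (nat_lit 152) (nat_lit 0) (XT.lf (nat_lit 0) (nat_lit 3447708918534) (nat_lit 228) (nat_lit 1724415422717) (nat_lit 76) (nat_lit 2265568929322) (nat_lit 36) (nat_lit 5) (nat_lit 39) (nat_lit 5) (nat_lit 37) (nat_lit 5) (nat_lit 447) (nat_lit 425) (nat_lit 148)) (XT.lf (nat_lit 0) (nat_lit 2625275133761) (nat_lit 152) (nat_lit 2643003264101) (nat_lit 228) (nat_lit 2544978610825) (nat_lit 34) (nat_lit 5) (nat_lit 36) (nat_lit 5) (nat_lit 37) (nat_lit 5) (nat_lit 448) (nat_lit 425) (nat_lit 147))) (XT.nd (nat_lit 78) (nat_lit 0) (nat_lit 0) (XT.lf (nat_lit 0) (nat_lit 1343057085998)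 (nat_lit 532) (nat_lit 89949926111) (nat_lit 532) (nat_lit 89949926111) (nat_lit 64) (nat_lit 3) (nat_lit 71) (nat_lit 3) (nat_lit 71) (nat_lit 5) (nat_lit 426) (nat_lit 426) (nat_lit 168)) (XT.nd (nat_lit 78) (nat_lit 0) (nat_lit 76) (XT.lf (nat_lit 76) (nat_lit 1368993214195) (nat_lit 0) (nat_lit 1457489851004) (nat_lit 532) (nat_lit 338633420186) (nat_lit 65) (nat_lit 5) (nat_lit 64) (nat_lit 3) (nat_lit 71) (nat_lit 5) (nat_lit 427) (nat_lit 426) (nat_lit 167)) (XT.lf (nat_lit 0) (nat_lit 2984660387999) (nat_lit 456) (nat_lit 243093149125) (nat_lit 532) (nat_lit 65575452473) (nat_lit 65) (nat_lit 5) (nat_lit 71) (nat_lit 5) (nat_lit 72) (nat_lit 5) (nat_lit 428) (nat_lit 426) (nat_lit 166))))) (XT.nd (nat_lit 234) (nat_lit 304) (nat_lit 0) (XT.nd (nat_lit 78) (nat_lit 456) (nat_lit 0) (XT.lf (nat_lit 76) (nat_lit 1469850371570) (nat_lit 0) (nat_lit 1758848340471) (nat_lit 532) (nat_lit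 197243236871) (nat_lit 66) (nat_lit 5) (nat_lit 65) (nat_lit 5) (nat_lit 72) (nat_lit 5) (nat_lit 429) (nat_lit 426) (nat_lit 165)) (XT.nd (nat_lit 78) (nat_lit 456) (nat_lit 0) (XT.lf (nat_lit 76) (nat_lit 3333654296317) (nat_lit 0) (nat_lit 165252402608) (nat_lit 532) (nat_lit 69725518294) (nat_lit 66) (nat_lit 5) (nat_lit 65) (nat_lit 5) (nat_lit 72) (nat_lit 5) (nat_lit 430) (nat_lit 426) (nat_lit 164)) (XT.lf (nat_lit 0) (nat_lit 144187347363) (nat_lit 532) (nat_lit 2050237187586) (nat_lit 608) (nat_lit 1521814748532) (nat_lit 59) (nat_lit 5) (nat_lit 66) (nat_lit 5) (nat_lit 67) (nat_lit 5) (nat_lit 431) (nat_lit 426) (nat_lit 163)))) (XT.nd (nat_lit 78) (nat_lit 304) (nat_lit 0) (XT.lf (nat_lit 0) (nat_lit 382330111346) (nat_lit 532) (nat_lit 148987220122) (nat_lit 608) (nat_lit 3343321990732) (nat_lit 59) (nat_lit 5) (nat_lit 66) (nat_lit 5) (nat_lit 67) (nat_lit 5) (nat_lit 432)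 (nat_lit 426) (nat_lit 162)) (XT.nd (nat_lit 78) (nat_lit 380) (nat_lit 0) (XT.lf (nat_lit 0) (nat_lit 719407658461) (nat_lit 532) (nat_lit 2068882962658) (nat_lit 76) (nat_lit 1251030073939) (nat_lit 60) (nat_lit 5) (nat_lit 67) (nat_lit 5) (nat_lit 61) (nat_lit 5) (nat_lit 433) (nat_lit 426) (nat_lit 161)) (XT.lf (nat_lit 0) (nat_lit 39088112543) (nat_lit 380) (nat_lit 1063283198326) (nat_lit 456) (nat_lit 3113291674753) (nat_lit 55) (nat_lit 5) (nat_lit 60) (nat_lit 5) (nat_lit 61) (nat_lit 5) (nat_lit 434) (nat_lit 426) (nat_lit 160))))))) (XT.nd (nat_lit 858) (nat_lit 380) (nat_lit 0) (XT.nd (nat_lit 390) (nat_lit 608) (nat_lit 0) (XT.nd (nat_lit 156) (nat_lit 228) (nat_lit 0) (XT.nd (nat_lit 78) (nat_lit 228) (nat_lit 0) (XT.lf (nat_lit 0) (nat_lit 1593241653553) (nat_lit 456) (nat_lit 1988933896654) (nat_lit 76) (nat_lit 817755541378) (nat_lit 55) (nat_lit 5) (nat_lit 61) (nat_lit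 5) (nat_lit 56) (nat_lit 5) (nat_lit 435) (nat_lit 426) (nat_lit 159)) (XT.lf (nat_lit 0) (nat_lit 364325656946) (nat_lit 228) (nat_lit 1795435752534) (nat_lit 304) (nat_lit 2436268853680) (nat_lit 52) (nat_lit 5) (nat_lit 55) (nat_lit 5) (nat_lit 56) (nat_lit 5) (nat_lit 436) (nat_lit 426) (nat_lit 158))) (XT.nd (nat_lit 78) (nat_lit 228) (nat_lit 0) (XT.lf (nat_lit 0) (nat_lit 2830624768740) (nat_lit 304) (nat_lit 1789149528622) (nat_lit 76) (nat_lit 183321309270) (nat_lit 52) (nat_lit 5) (nat_lit 56) (nat_lit 5) (nat_lit 53) (nat_lit 5) (nat_lit 437) (nat_lit 426) (nat_lit 157)) (XT.nd (nat_lit 78) (nat_lit 0) (nat_lit 0) (XT.lf (nat_lit 0) (nat_lit 844416387513) (nat_lit 228) (nat_lit 2777683738178) (nat_lit 304) (nat_lit 1399270617574) (nat_lit 49) (nat_lit 5) (nat_lit 52) (nat_lit 5) (nat_lit 53) (nat_lit 5) (nat_lit 438) (nat_lit 426) (nat_lit 156)) (XT.lf (nat_lit 0) (nat_lit 3790418095562)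 (nat_lit 228) (nat_lit 735393934063) (nat_lit 304) (nat_lit 727382379731) (nat_lit 49) (nat_lit 5) (nat_lit 52) (nat_lit 5) (nat_lit 53) (nat_lit 5) (nat_lit 439) (nat_lit 426) (nat_lit 155))))) (XT.nd (nat_lit 156) (nat_lit 380) (nat_lit 0) (XT.nd (nat_lit 78) (nat_lit 0) (nat_lit 0) (XT.lf (nat_lit 0) (nat_lit 71848150964) (nat_lit 228) (nat_lit 3991007236819) (nat_lit 76) (nat_lit 1434831611625) (nat_lit 46) (nat_lit 5) (nat_lit 49) (nat_lit 5) (nat_lit 47) (nat_lit 5) (nat_lit 440) (nat_lit 426) (nat_lit 154)) (XT.lf (nat_lit 0) (nat_lit 955854448569) (nat_lit 228) (nat_lit 1000690713595) (nat_lit 76) (nat_lit 3798871601313) (nat_lit 46) (nat_lit 5) (nat_lit 49) (nat_lit 5) (nat_lit 47) (nat_lit 5) (nat_lit 441) (nat_lit 426) (nat_lit 153))) (XT.nd (nat_lit 78) (nat_lit 152) (nat_lit 0) (XT.lf (nat_lit 0) (nat_lit 1976127885178) (nat_lit 304) (nat_lit 3692152322560) (nat_lit 76) (nat_lit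 360240970120) (nat_lit 43) (nat_lit 5) (nat_lit 47) (nat_lit 5) (nat_lit 44) (nat_lit 5) (nat_lit 442) (nat_lit 426) (nat_lit 152)) (XT.nd (nat_lit 78) (nat_lit 152) (nat_lit 0) (XT.lf (nat_lit 0) (nat_lit 3156913875221) (nat_lit 304) (nat_lit 375511757179) (nat_lit 76) (nat_lit 2784737058707) (nat_lit 43) (nat_lit 5) (nat_lit 47) (nat_lit 5) (nat_lit 44) (nat_lit 5) (nat_lit 443) (nat_lit 426) (nat_lit 151)) (XT.lf (nat_lit 0) (nat_lit 3375306557146) (nat_lit 152) (nat_lit 1138032390948) (nat_lit 228) (nat_lit 2109062481034) (nat_lit 41) (nat_lit 5) (nat_lit 43) (nat_lit 5) (nat_lit 44) (nat_lit 5) (nat_lit 444) (nat_lit 426) (nat_lit 150)))))) (XT.nd (nat_lit 51870) (nat_lit 0) (nat_lit 1444) (XT.nd (nat_lit 51636) (nat_lit 0) (nat_lit 2128) (XT.nd (nat_lit 78) (nat_lit 152) (nat_lit 0) (XT.lf (nat_lit 0) (nat_lit 482055967503) (nat_lit 228) (nat_lit 2631131572043) (nat_lit 76) (nat_lit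 4175028268942) (nat_lit 38) (nat_lit 5) (nat_lit 41) (nat_lit 5) (nat_lit 39) (nat_lit 5) (nat_lit 446) (nat_lit 426) (nat_lit 148)) (XT.lf (nat_lit 0) (nat_lit 1560568963289) (nat_lit 152) (nat_lit 415518350105) (nat_lit 228) (nat_lit 5675207187850) (nat_lit 36) (nat_lit 5) (nat_lit 38) (nat_lit 5) (nat_lit 39) (nat_lit 5) (nat_lit 447) (nat_lit 426) (nat_lit 147))) (XT.nd (nat_lit 78) (nat_lit 0) (nat_lit 0) (XT.lf (nat_lit 0) (nat_lit 1450501659318) (nat_lit 532) (nat_lit 97145916719) (nat_lit 532) (nat_lit 97145916719) (nat_lit 64) (nat_lit 3) (nat_lit 71) (nat_lit 3) (nat_lit 71) (nat_lit 5) (nat_lit 427) (nat_lit 427) (nat_lit 166)) (XT.nd (nat_lit 78) (nat_lit 0) (nat_lit 76) (XT.lf (nat_lit 76) (nat_lit 1478512678116) (nat_lit 0) (nat_lit 1574089044389) (nat_lit 532) (nat_lit 365724080733) (nat_lit 65) (nat_lit 5) (nat_lit 64) (nat_lit 3) (nat_lit 71) (nat_lit 5) (nat_lit 428)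 (nat_lit 427) (nat_lit 165)) (XT.lf (nat_lit 0) (nat_lit 3223433230115) (nat_lit 456) (nat_lit 262540593748) (nat_lit 532) (nat_lit 70821484005) (nat_lit 65) (nat_lit 5) (nat_lit 71) (nat_lit 5) (nat_lit 72) (nat_lit 5) (nat_lit 429) (nat_lit 427) (nat_lit 164))))) (XT.nd (nat_lit 234) (nat_lit 304) (nat_lit 0) (XT.nd (nat_lit 78) (nat_lit 456) (nat_lit 0) (XT.lf (nat_lit 76) (nat_lit 1587438408417) (nat_lit 0) (nat_lit 1899556211013) (nat_lit 532) (nat_lit 213022684550) (nat_lit 66) (nat_lit 5) (nat_lit 65) (nat_lit 5) (nat_lit 72) (nat_lit 5) (nat_lit 430) (nat_lit 427) (nat_lit 163)) (XT.nd (nat_lit 78) (nat_lit 456) (nat_lit 0) (XT.lf (nat_lit 76) (nat_lit 3600346646617) (nat_lit 0) (nat_lit 178472597876) (nat_lit 532) (nat_lit 75303549321) (nat_lit 66) (nat_lit 5) (nat_lit 65) (nat_lit 5) (nat_lit 72) (nat_lit 5) (nat_lit 431) (nat_lit 427) (nat_lit 162)) (XT.lf (nat_lit 0) (nat_lit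 155722344440) (nat_lit 532) (nat_lit 2214256154835) (nat_lit 608) (nat_lit 1643559926132) (nat_lit 59) (nat_lit 5) (nat_lit 66) (nat_lit 5) (nat_lit 67) (nat_lit 5) (nat_lit 432) (nat_lit 427) (nat_lit 161)))) (XT.nd (nat_lit 78) (nat_lit 304) (nat_lit 0) (XT.lf (nat_lit 0) (nat_lit 412916528855) (nat_lit 532) (nat_lit 160906190549) (nat_lit 608) (nat_lit 3610787747878) (nat_lit 59) (nat_lit 5) (nat_lit 66) (nat_lit 5) (nat_lit 67) (nat_lit 5) (nat_lit 433) (nat_lit 427) (nat_lit 160)) (XT.nd (nat_lit 78) (nat_lit 380) (nat_lit 0) (XT.lf (nat_lit 0) (nat_lit 776960279242) (nat_lit 532) (nat_lit 2234393591986) (nat_lit 76) (nat_lit 1351112478780) (nat_lit 60) (nat_lit 5) (nat_lit 67) (nat_lit 5) (nat_lit 61) (nat_lit 5) (nat_lit 434) (nat_lit 427) (nat_lit 159)) (XT.lf (nat_lit 0) (nat_lit 42215169037) (nat_lit 380) (nat_lit 1148345854386) (nat_lit 456) (nat_lit 3362355000428) (nat_lit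 55) (nat_lit 5) (nat_lit 60) (nat_lit 5) (nat_lit 61) (nat_lit 5) (nat_lit 435) (nat_lit 427) (nat_lit 158))))))))
noncomputable def xc252 : XT := (XT.nd (nat_lit 53118) (nat_lit 0) (nat_lit 76) (XT.nd (nat_lit 780) (nat_lit 228) (nat_lit 0) (XT.nd (nat_lit 390) (nat_lit 608) (nat_lit 0) (XT.nd (nat_lit 156) (nat_lit 228) (nat_lit 0) (XT.nd (nat_lit 78) (nat_lit 228) (nat_lit 0) (XT.lf (nat_lit 0) (nat_lit 1720700992948) (nat_lit 456) (nat_lit 2148048600871) (nat_lit 76) (nat_lit 883175984518) (nat_lit 55) (nat_lit 5) (nat_lit 61) (nat_lit 5) (nat_lit 56) (nat_lit 5) (nat_lit 436) (nat_lit 427) (nat_lit 157)) (XT.lf (nat_lit 0) (nat_lit 393471716826) (nat_lit 228) (nat_lit 1939070612173) (nat_lit 304) (nat_lit 2631170354668) (nat_lit 52) (nat_lit 5) (nat_lit 55) (nat_lit 5) (nat_lit 56) (nat_lit 5) (nat_lit 437) (nat_lit 427) (nat_lit 156))) (XT.nd (nat_lit 78) (nat_lit 228) (nat_lit 0)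 (XT.lf (nat_lit 0) (nat_lit 3057074756511) (nat_lit 304) (nat_lit 1932281483637) (nat_lit 76) (nat_lit 197987014508) (nat_lit 52) (nat_lit 5) (nat_lit 56) (nat_lit 5) (nat_lit 53) (nat_lit 5) (nat_lit 438) (nat_lit 427) (nat_lit 155)) (XT.nd (nat_lit 78) (nat_lit 0) (nat_lit 0) (XT.lf (nat_lit 0) (nat_lit 911969705605) (nat_lit 228) (nat_lit 2999898436120) (nat_lit 304) (nat_lit 1511212260519) (nat_lit 49) (nat_lit 5) (nat_lit 52) (nat_lit 5) (nat_lit 53) (nat_lit 5) (nat_lit 439) (nat_lit 427) (nat_lit 154)) (XT.lf (nat_lit 0) (nat_lit 4093651549773) (nat_lit 228) (nat_lit 794225447758) (nat_lit 304) (nat_lit 785572964127) (nat_lit 49) (nat_lit 5) (nat_lit 52) (nat_lit 5) (nat_lit 53) (nat_lit 5) (nat_lit 440) (nat_lit 427) (nat_lit 153))))) (XT.nd (nat_lit 156) (nat_lit 380) (nat_lit 0) (XT.nd (nat_lit 78) (nat_lit 0) (nat_lit 0) (XT.lf (nat_lit 0) (nat_lit 77596008494) (nat_lit 228)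 (nat_lit 4310287808663) (nat_lit 76) (nat_lit 1549618141764) (nat_lit 46) (nat_lit 5) (nat_lit 49) (nat_lit 5) (nat_lit 47) (nat_lit 5) (nat_lit 441) (nat_lit 427) (nat_lit 152)) (XT.lf (nat_lit 0) (nat_lit 1032322809504) (nat_lit 228) (nat_lit 1080745964107) (nat_lit 76) (nat_lit 4102781330537) (nat_lit 46) (nat_lit 5) (nat_lit 49) (nat_lit 5) (nat_lit 47) (nat_lit 5) (nat_lit 442) (nat_lit 427) (nat_lit 151))) (XT.nd (nat_lit 78) (nat_lit 152) (nat_lit 0) (XT.lf (nat_lit 0) (nat_lit 2134218120860) (nat_lit 304) (nat_lit 3987524501604) (nat_lit 76) (nat_lit 389060249230) (nat_lit 43) (nat_lit 5) (nat_lit 47) (nat_lit 5) (nat_lit 44) (nat_lit 5) (nat_lit 443) (nat_lit 427) (nat_lit 150)) (XT.nd (nat_lit 78) (nat_lit 152) (nat_lit 0) (XT.lf (nat_lit 0) (nat_lit 3409466989746) (nat_lit 304) (nat_lit 405552691494) (nat_lit 76) (nat_lit 3007516024793) (nat_lit 43) (nat_lit 5) (nat_lit 47)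 (nat_lit 5) (nat_lit 44) (nat_lit 5) (nat_lit 444) (nat_lit 427) (nat_lit 149)) (XT.lf (nat_lit 0) (nat_lit 3645331087819) (nat_lit 152) (nat_lit 1229074980442) (nat_lit 228) (nat_lit 2277787474849) (nat_lit 41) (nat_lit 5) (nat_lit 43) (nat_lit 5) (nat_lit 44) (nat_lit 5) (nat_lit 445) (nat_lit 427) (nat_lit 148)))))) (XT.nd (nat_lit 51948) (nat_lit 0) (nat_lit 1596) (XT.nd (nat_lit 51714) (nat_lit 0) (nat_lit 1976) (XT.nd (nat_lit 78) (nat_lit 76) (nat_lit 0) (XT.lf (nat_lit 0) (nat_lit 524346600097) (nat_lit 152) (nat_lit 5993788876119) (nat_lit 228) (nat_lit 985160914685) (nat_lit 39) (nat_lit 5) (nat_lit 41) (nat_lit 5) (nat_lit 42) (nat_lit 5) (nat_lit 446) (nat_lit 427) (nat_lit 147)) (XT.lf (nat_lit 0) (nat_lit 520620448886) (nat_lit 228) (nat_lit 2841622091813) (nat_lit 76) (nat_lit 4509030532149) (nat_lit 38) (nat_lit 5) (nat_lit 41) (nat_lit 5) (nat_lit 39) (nat_lit 5) (nat_lit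 447) (nat_lit 427) (nat_lit 146))) (XT.nd (nat_lit 78) (nat_lit 0) (nat_lit 0) (XT.lf (nat_lit 0) (nat_lit 1566541797585) (nat_lit 532) (nat_lit 104917587072) (nat_lit 532) (nat_lit 104917587072) (nat_lit 64) (nat_lit 3) (nat_lit 71) (nat_lit 3) (nat_lit 71) (nat_lit 5) (nat_lit 428) (nat_lit 428) (nat_lit 164)) (XT.nd (nat_lit 78) (nat_lit 0) (nat_lit 76) (XT.lf (nat_lit 76) (nat_lit 1596793698183) (nat_lit 0) (nat_lit 1700016172488) (nat_lit 532) (nat_lit 394981995988) (nat_lit 65) (nat_lit 5) (nat_lit 64) (nat_lit 3) (nat_lit 71) (nat_lit 5) (nat_lit 429) (nat_lit 428) (nat_lit 163)) (XT.lf (nat_lit 0) (nat_lit 3481307898020) (nat_lit 456) (nat_lit 283543834983) (nat_lit 532) (nat_lit 76487198726) (nat_lit 65) (nat_lit 5) (nat_lit 71) (nat_lit 5) (nat_lit 72) (nat_lit 5) (nat_lit 430) (nat_lit 428) (nat_lit 162))))) (XT.nd (nat_lit 156) (nat_lit 456) (nat_lit 0) (XT.nd (nat_lit 78)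 (nat_lit 0) (nat_lit 0) (XT.lf (nat_lit 76) (nat_lit 1714433487197) (nat_lit 0) (nat_lit 2051520710728) (nat_lit 532) (nat_lit 230064489651) (nat_lit 66) (nat_lit 5) (nat_lit 65) (nat_lit 5) (nat_lit 72) (nat_lit 5) (nat_lit 431) (nat_lit 428) (nat_lit 161)) (XT.lf (nat_lit 76) (nat_lit 3888374384000) (nat_lit 0) (nat_lit 192750408330) (nat_lit 532) (nat_lit 81327824320) (nat_lit 66) (nat_lit 5) (nat_lit 65) (nat_lit 5) (nat_lit 72) (nat_lit 5) (nat_lit 432) (nat_lit 428) (nat_lit 160))) (XT.nd (nat_lit 78) (nat_lit 0) (nat_lit 0) (XT.lf (nat_lit 0) (nat_lit 168180139959) (nat_lit 532) (nat_lit 2391396640571) (nat_lit 608) (nat_lit 1775044718266) (nat_lit 59) (nat_lit 5) (nat_lit 66) (nat_lit 5) (nat_lit 67) (nat_lit 5) (nat_lit 433) (nat_lit 428) (nat_lit 159)) (XT.nd (nat_lit 78) (nat_lit 0) (nat_lit 76) (XT.lf (nat_lit 0) (nat_lit 445949858537) (nat_lit 532) (nat_lit 173778679635) (nat_lit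 608) (nat_lit 3899650765896) (nat_lit 59) (nat_lit 5) (nat_lit 66) (nat_lit 5) (nat_lit 67) (nat_lit 5) (nat_lit 434) (nat_lit 428) (nat_lit 158)) (XT.lf (nat_lit 0) (nat_lit 839117108530) (nat_lit 532) (nat_lit 2413145072756) (nat_lit 76) (nat_lit 1459201476161) (nat_lit 60) (nat_lit 5) (nat_lit 67) (nat_lit 5) (nat_lit 61) (nat_lit 5) (nat_lit 435) (nat_lit 428) (nat_lit 157))))))) (XT.nd (nat_lit 780) (nat_lit 304) (nat_lit 0) (XT.nd (nat_lit 390) (nat_lit 456) (nat_lit 0) (XT.nd (nat_lit 156) (nat_lit 456) (nat_lit 0) (XT.nd (nat_lit 78) (nat_lit 0) (nat_lit 0) (XT.lf (nat_lit 0) (nat_lit 45592388982) (nat_lit 380) (nat_lit 1240213522903) (nat_lit 456) (nat_lit 3631343393342) (nat_lit 55) (nat_lit 5) (nat_lit 60) (nat_lit 5) (nat_lit 61) (nat_lit 5) (nat_lit 436) (nat_lit 428) (nat_lit 156)) (XT.lf (nat_lit 0) (nat_lit 1858357078481) (nat_lit 456) (nat_lit 2319892482498) (nat_lit 76)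 (nat_lit 953830063133) (nat_lit 55) (nat_lit 5) (nat_lit 61) (nat_lit 5) (nat_lit 56) (nat_lit 5) (nat_lit 437) (nat_lit 428) (nat_lit 155))) (XT.nd (nat_lit 78) (nat_lit 228) (nat_lit 0) (XT.lf (nat_lit 0) (nat_lit 424949460452) (nat_lit 228) (nat_lit 2094196260663) (nat_lit 304) (nat_lit 2841663976777) (nat_lit 52) (nat_lit 5) (nat_lit 55) (nat_lit 5) (nat_lit 56) (nat_lit 5) (nat_lit 438) (nat_lit 428) (nat_lit 154)) (XT.nd (nat_lit 78) (nat_lit 228) (nat_lit 0) (XT.lf (nat_lit 0) (nat_lit 3301640742410) (nat_lit 304) (nat_lit 2086863996090) (nat_lit 76) (nat_lit 213825976094) (nat_lit 52) (nat_lit 5) (nat_lit 56) (nat_lit 5) (nat_lit 53) (nat_lit 5) (nat_lit 439) (nat_lit 428) (nat_lit 153)) (XT.lf (nat_lit 0) (nat_lit 984927288133) (nat_lit 228) (nat_lit 3239890310055) (nat_lit 304) (nat_lit 1632109235822) (nat_lit 49) (nat_lit 5) (nat_lit 52) (nat_lit 5) (nat_lit 53) (nat_lit 5)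 (nat_lit 440) (nat_lit 428) (nat_lit 152))))) (XT.nd (nat_lit 156) (nat_lit 228) (nat_lit 0) (XT.nd (nat_lit 78) (nat_lit 228) (nat_lit 0) (XT.lf (nat_lit 0) (nat_lit 4421143679384) (nat_lit 228) (nat_lit 857763482695) (nat_lit 304) (nat_lit 848418796128) (nat_lit 49) (nat_lit 5) (nat_lit 52) (nat_lit 5) (nat_lit 53) (nat_lit 5) (nat_lit 441) (nat_lit 428) (nat_lit 151)) (XT.lf (nat_lit 0) (nat_lit 83803693850) (nat_lit 228) (nat_lit 4655110827267) (nat_lit 76) (nat_lit 1673587594141) (nat_lit 46) (nat_lit 5) (nat_lit 49) (nat_lit 5) (nat_lit 47) (nat_lit 5) (nat_lit 442) (nat_lit 428) (nat_lit 150))) (XT.nd (nat_lit 78) (nat_lit 228) (nat_lit 0) (XT.lf (nat_lit 0) (nat_lit 1114908638594) (nat_lit 228) (nat_lit 1167205635598) (nat_lit 76) (nat_lit 4431003837940) (nat_lit 46) (nat_lit 5) (nat_lit 49) (nat_lit 5) (nat_lit 47) (nat_lit 5) (nat_lit 443) (nat_lit 428) (nat_lit 149)) (XT.nd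 (nat_lit 78) (nat_lit 0) (nat_lit 0) (XT.lf (nat_lit 0) (nat_lit 2304955574702) (nat_lit 304) (nat_lit 4306526455936) (nat_lit 76) (nat_lit 420185070455) (nat_lit 43) (nat_lit 5) (nat_lit 47) (nat_lit 5) (nat_lit 44) (nat_lit 5) (nat_lit 444) (nat_lit 428) (nat_lit 148)) (XT.lf (nat_lit 0) (nat_lit 3682224352790) (nat_lit 304) (nat_lit 437996901446) (nat_lit 76) (nat_lit 3248117307968) (nat_lit 43) (nat_lit 5) (nat_lit 47) (nat_lit 5) (nat_lit 44) (nat_lit 5) (nat_lit 445) (nat_lit 428) (nat_lit 147)))))) (XT.nd (nat_lit 52026) (nat_lit 0) (nat_lit 1216) (XT.nd (nat_lit 51792) (nat_lit 0) (nat_lit 1900) (XT.nd (nat_lit 78) (nat_lit 152) (nat_lit 0) (XT.lf (nat_lit 0) (nat_lit 3936957580076) (nat_lit 152) (nat_lit 1327400977350) (nat_lit 228) (nat_lit 2460010468834) (nat_lit 41) (nat_lit 5) (nat_lit 43) (nat_lit 5) (nat_lit 44) (nat_lit 5) (nat_lit 446) (nat_lit 428) (nat_lit 146)) (XT.lf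 (nat_lit 0) (nat_lit 566294333458) (nat_lit 152) (nat_lit 6473291984447) (nat_lit 228) (nat_lit 1063973783979) (nat_lit 39) (nat_lit 5) (nat_lit 41) (nat_lit 5) (nat_lit 42) (nat_lit 5) (nat_lit 447) (nat_lit 428) (nat_lit 145))) (XT.nd (nat_lit 78) (nat_lit 0) (nat_lit 0) (XT.lf (nat_lit 0) (nat_lit 1691865146125) (nat_lit 532) (nat_lit 113310991480) (nat_lit 532) (nat_lit 113310991480) (nat_lit 64) (nat_lit 3) (nat_lit 71) (nat_lit 3) (nat_lit 71) (nat_lit 5) (nat_lit 429) (nat_lit 429) (nat_lit 162)) (XT.nd (nat_lit 78) (nat_lit 0) (nat_lit 76) (XT.lf (nat_lit 76) (nat_lit 1724537199025) (nat_lit 0) (nat_lit 1836017470186) (nat_lit 532) (nat_lit 426580546062) (nat_lit 65) (nat_lit 5) (nat_lit 64) (nat_lit 3) (nat_lit 71) (nat_lit 5) (nat_lit 430) (nat_lit 429) (nat_lit 161)) (XT.lf (nat_lit 0) (nat_lit 3759812538003) (nat_lit 456) (nat_lit 306227336411) (nat_lit 532) (nat_lit 82606171194)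 (nat_lit 65) (nat_lit 5) (nat_lit 71) (nat_lit 5) (nat_lit 72) (nat_lit 5) (nat_lit 431) (nat_lit 429) (nat_lit 160))))) (XT.nd (nat_lit 234) (nat_lit 304) (nat_lit 0) (XT.nd (nat_lit 78) (nat_lit 456) (nat_lit 0) (XT.lf (nat_lit 76) (nat_lit 1851588171407) (nat_lit 0) (nat_lit 2215642370016) (nat_lit 532) (nat_lit 248469640539) (nat_lit 66) (nat_lit 5) (nat_lit 65) (nat_lit 5) (nat_lit 72) (nat_lit 5) (nat_lit 432) (nat_lit 429) (nat_lit 159)) (XT.nd (nat_lit 78) (nat_lit 456) (nat_lit 0) (XT.lf (nat_lit 76) (nat_lit 4199444339567) (nat_lit 0) (nat_lit 208170443246) (nat_lit 532) (nat_lit 87834042595) (nat_lit 66) (nat_lit 5) (nat_lit 65) (nat_lit 5) (nat_lit 72) (nat_lit 5) (nat_lit 433) (nat_lit 429) (nat_lit 158)) (XT.lf (nat_lit 0) (nat_lit 181634557983) (nat_lit 532) (nat_lit 2582708366115) (nat_lit 608) (nat_lit 1917048294050) (nat_lit 59) (nat_lit 5) (nat_lit 66) (nat_lit 5) (nat_lit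 67) (nat_lit 5) (nat_lit 434) (nat_lit 429) (nat_lit 157)))) (XT.nd (nat_lit 78) (nat_lit 304) (nat_lit 0) (XT.lf (nat_lit 0) (nat_lit 481625853541) (nat_lit 532) (nat_lit 187680968726) (nat_lit 608) (nat_lit 4211622825615) (nat_lit 59) (nat_lit 5) (nat_lit 66) (nat_lit 5) (nat_lit 67) (nat_lit 5) (nat_lit 435) (nat_lit 429) (nat_lit 156)) (XT.nd (nat_lit 78) (nat_lit 380) (nat_lit 0) (XT.lf (nat_lit 0) (nat_lit 906246483170) (nat_lit 532) (nat_lit 2606196672927) (nat_lit 76) (nat_lit 1575937593464) (nat_lit 60) (nat_lit 5) (nat_lit 67) (nat_lit 5) (nat_lit 61) (nat_lit 5) (nat_lit 436) (nat_lit 429) (nat_lit 155)) (XT.lf (nat_lit 0) (nat_lit 49239785607) (nat_lit 380) (nat_lit 1339430604878) (nat_lit 456) (nat_lit 3921850858705) (nat_lit 55) (nat_lit 5) (nat_lit 60) (nat_lit 5) (nat_lit 61) (nat_lit 5) (nat_lit 437) (nat_lit 429) (nat_lit 154))))))))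
noncomputable def xc253 : XT := (XT.nd (nat_lit 53352) (nat_lit 0) (nat_lit 0) (XT.nd (nat_lit 52572) (nat_lit 0) (nat_lit 684) (XT.nd (nat_lit 390) (nat_lit 456) (nat_lit 0) (XT.nd (nat_lit 156) (nat_lit 228) (nat_lit 0) (XT.nd (nat_lit 78) (nat_lit 228) (nat_lit 0) (XT.lf (nat_lit 0) (nat_lit 2007025649986) (nat_lit 456) (nat_lit 2505483875574) (nat_lit 76) (nat_lit 1030136468059) (nat_lit 55) (nat_lit 5) (nat_lit 61) (nat_lit 5) (nat_lit 56) (nat_lit 5) (nat_lit 438) (nat_lit 429) (nat_lit 153)) (XT.lf (nat_lit 0) (nat_lit 458945422672) (nat_lit 228) (nat_lit 2261731961101) (nat_lit 304) (nat_lit 3068997089549) (nat_lit 52) (nat_lit 5) (nat_lit 55) (nat_lit 5) (nat_lit 56) (nat_lit 5) (nat_lit 439) (nat_lit 429) (nat_lit 152))) (XT.nd (nat_lit 78) (nat_lit 228) (nat_lit 0) (XT.lf (nat_lit 0) (nat_lit 3565772006413) (nat_lit 304) (nat_lit 2253813110430) (nat_lit 76) (nat_lit 230932054546)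 (nat_lit 52) (nat_lit 5) (nat_lit 56) (nat_lit 5) (nat_lit 53) (nat_lit 5) (nat_lit 440) (nat_lit 429) (nat_lit 151)) (XT.nd (nat_lit 78) (nat_lit 0) (nat_lit 0) (XT.lf (nat_lit 0) (nat_lit 1063721476396) (nat_lit 228) (nat_lit 3499081534042) (nat_lit 304) (nat_lit 1762677969939) (nat_lit 49) (nat_lit 5) (nat_lit 52) (nat_lit 5) (nat_lit 53) (nat_lit 5) (nat_lit 441) (nat_lit 429) (nat_lit 150)) (XT.lf (nat_lit 0) (nat_lit 4774835178561) (nat_lit 228) (nat_lit 926384560553) (nat_lit 304) (nat_lit 916292295421) (nat_lit 49) (nat_lit 5) (nat_lit 52) (nat_lit 5) (nat_lit 53) (nat_lit 5) (nat_lit 442) (nat_lit 429) (nat_lit 149))))) (XT.nd (nat_lit 156) (nat_lit 228) (nat_lit 0) (XT.nd (nat_lit 78) (nat_lit 0) (nat_lit 0) (XT.lf (nat_lit 0) (nat_lit 90507993366) (nat_lit 228) (nat_lit 5027519688229) (nat_lit 76) (nat_lit 1807474602560) (nat_lit 46) (nat_lit 5) (nat_lit 49) (nat_lit 5) (nat_lit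 47) (nat_lit 5) (nat_lit 443) (nat_lit 429) (nat_lit 148)) (XT.lf (nat_lit 0) (nat_lit 1204101333393) (nat_lit 228) (nat_lit 1260582081613) (nat_lit 76) (nat_lit 4785484145797) (nat_lit 46) (nat_lit 5) (nat_lit 49) (nat_lit 5) (nat_lit 47) (nat_lit 5) (nat_lit 444) (nat_lit 429) (nat_lit 147))) (XT.nd (nat_lit 78) (nat_lit 0) (nat_lit 0) (XT.lf (nat_lit 0) (nat_lit 2489352024256) (nat_lit 304) (nat_lit 4651048567442) (nat_lit 76) (nat_lit 453799877194) (nat_lit 43) (nat_lit 5) (nat_lit 47) (nat_lit 5) (nat_lit 44) (nat_lit 5) (nat_lit 445) (nat_lit 429) (nat_lit 146)) (XT.nd (nat_lit 51870) (nat_lit 0) (nat_lit 1596) (XT.lf (nat_lit 0) (nat_lit 3976802304327) (nat_lit 304) (nat_lit 473036648961) (nat_lit 76) (nat_lit 3507966693627) (nat_lit 43) (nat_lit 5) (nat_lit 47) (nat_lit 5) (nat_lit 44) (nat_lit 5) (nat_lit 446) (nat_lit 429) (nat_lit 145)) (XT.lf (nat_lit 0) (nat_lit 1827214361874)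 (nat_lit 532) (nat_lit 122375868605) (nat_lit 532) (nat_lit 122375868605) (nat_lit 64) (nat_lit 3) (nat_lit 71) (nat_lit 3) (nat_lit 71) (nat_lit 5) (nat_lit 430) (nat_lit 430) (nat_lit 160)))))) (XT.nd (nat_lit 390) (nat_lit 532) (nat_lit 0) (XT.nd (nat_lit 156) (nat_lit 380) (nat_lit 0) (XT.nd (nat_lit 78) (nat_lit 0) (nat_lit 76) (XT.lf (nat_lit 76) (nat_lit 1862500179223) (nat_lit 0) (nat_lit 1982898871143) (nat_lit 532) (nat_lit 460706981512) (nat_lit 65) (nat_lit 5) (nat_lit 64) (nat_lit 3) (nat_lit 71) (nat_lit 5) (nat_lit 431) (nat_lit 430) (nat_lit 159)) (XT.lf (nat_lit 0) (nat_lit 4060597548023) (nat_lit 456) (nat_lit 330725518720) (nat_lit 532) (nat_lit 89214661950) (nat_lit 65) (nat_lit 5) (nat_lit 71) (nat_lit 5) (nat_lit 72) (nat_lit 5) (nat_lit 432) (nat_lit 430) (nat_lit 158))) (XT.nd (nat_lit 78) (nat_lit 456) (nat_lit 0) (XT.lf (nat_lit 76) (nat_lit 1999715229608) (nat_lit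 0) (nat_lit 2392893761700) (nat_lit 532) (nat_lit 268347204679) (nat_lit 66) (nat_lit 5) (nat_lit 65) (nat_lit 5) (nat_lit 72) (nat_lit 5) (nat_lit 433) (nat_lit 430) (nat_lit 157)) (XT.nd (nat_lit 78) (nat_lit 456) (nat_lit 0) (XT.lf (nat_lit 76) (nat_lit 4535399890887) (nat_lit 0) (nat_lit 224824080634) (nat_lit 532) (nat_lit 94860759426) (nat_lit 66) (nat_lit 5) (nat_lit 65) (nat_lit 5) (nat_lit 72) (nat_lit 5) (nat_lit 434) (nat_lit 430) (nat_lit 156)) (XT.lf (nat_lit 0) (nat_lit 196165328476) (nat_lit 532) (nat_lit 2789325030516) (nat_lit 608) (nat_lit 2070412156136) (nat_lit 59) (nat_lit 5) (nat_lit 66) (nat_lit 5) (nat_lit 67) (nat_lit 5) (nat_lit 435) (nat_lit 430) (nat_lit 155))))) (XT.nd (nat_lit 156) (nat_lit 532) (nat_lit 0) (XT.nd (nat_lit 78) (nat_lit 0) (nat_lit 76) (XT.lf (nat_lit 0) (nat_lit 520155927245) (nat_lit 532) (nat_lit 202695441698) (nat_lit 608) (nat_lit 4548552650333)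 (nat_lit 59) (nat_lit 5) (nat_lit 66) (nat_lit 5) (nat_lit 67) (nat_lit 5) (nat_lit 436) (nat_lit 430) (nat_lit 154)) (XT.lf (nat_lit 0) (nat_lit 978746206931) (nat_lit 532) (nat_lit 2814692401918) (nat_lit 76) (nat_lit 1702012600264) (nat_lit 60) (nat_lit 5) (nat_lit 67) (nat_lit 5) (nat_lit 61) (nat_lit 5) (nat_lit 437) (nat_lit 430) (nat_lit 153))) (XT.nd (nat_lit 78) (nat_lit 228) (nat_lit 0) (XT.lf (nat_lit 0) (nat_lit 53178973176) (nat_lit 380) (nat_lit 1446585053390) (nat_lit 456) (nat_lit 4235598922167) (nat_lit 55) (nat_lit 5) (nat_lit 60) (nat_lit 5) (nat_lit 61) (nat_lit 5) (nat_lit 438) (nat_lit 430) (nat_lit 152)) (XT.nd (nat_lit 78) (nat_lit 228) (nat_lit 0) (XT.lf (nat_lit 0) (nat_lit 2167587706466) (nat_lit 456) (nat_lit 2705922580885) (nat_lit 76) (nat_lit 1112547385396) (nat_lit 55) (nat_lit 5) (nat_lit 61) (nat_lit 5) (nat_lit 56) (nat_lit 5) (nat_lit 439) (nat_lit 430)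 (nat_lit 151)) (XT.lf (nat_lit 0) (nat_lit 495661061102) (nat_lit 228) (nat_lit 2442670517633) (nat_lit 304) (nat_lit 3314516852108) (nat_lit 52) (nat_lit 5) (nat_lit 55) (nat_lit 5) (nat_lit 56) (nat_lit 5) (nat_lit 440) (nat_lit 430) (nat_lit 150))))))) (XT.nd (nat_lit 52650) (nat_lit 0) (nat_lit 228) (XT.nd (nat_lit 390) (nat_lit 228) (nat_lit 0) (XT.nd (nat_lit 156) (nat_lit 228) (nat_lit 0) (XT.nd (nat_lit 78) (nat_lit 228) (nat_lit 0) (XT.lf (nat_lit 0) (nat_lit 3851033770878) (nat_lit 304) (nat_lit 2434118154680) (nat_lit 76) (nat_lit 249406619223) (nat_lit 52) (nat_lit 5) (nat_lit 56) (nat_lit 5) (nat_lit 53) (nat_lit 5) (nat_lit 441) (nat_lit 430) (nat_lit 149)) (XT.lf (nat_lit 0) (nat_lit 1148819198976) (nat_lit 228) (nat_lit 3779008056064) (nat_lit 304) (nat_lit 1903692203462) (nat_lit 49) (nat_lit 5) (nat_lit 52) (nat_lit 5) (nat_lit 53) (nat_lit 5) (nat_lit 442) (nat_lit 430)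 (nat_lit 148))) (XT.nd (nat_lit 78) (nat_lit 228) (nat_lit 0) (XT.lf (nat_lit 0) (nat_lit 5156821996983) (nat_lit 228) (nat_lit 1000495324748) (nat_lit 304) (nat_lit 989595675285) (nat_lit 49) (nat_lit 5) (nat_lit 52) (nat_lit 5) (nat_lit 53) (nat_lit 5) (nat_lit 443) (nat_lit 430) (nat_lit 147)) (XT.nd (nat_lit 78) (nat_lit 0) (nat_lit 0) (XT.lf (nat_lit 0) (nat_lit 97748636272) (nat_lit 228) (nat_lit 5429721258812) (nat_lit 76) (nat_lit 1952072571527) (nat_lit 46) (nat_lit 5) (nat_lit 49) (nat_lit 5) (nat_lit 47) (nat_lit 5) (nat_lit 444) (nat_lit 430) (nat_lit 146)) (XT.lf (nat_lit 0) (nat_lit 1300429443247) (nat_lit 228) (nat_lit 1361428643998) (nat_lit 76) (nat_lit 5168322878166) (nat_lit 46) (nat_lit 5) (nat_lit 49) (nat_lit 5) (nat_lit 47) (nat_lit 5) (nat_lit 445) (nat_lit 430) (nat_lit 145))))) (XT.nd (nat_lit 52026) (nat_lit 0) (nat_lit 1596) (XT.nd (nat_lit 51948) (nat_lit 0)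 (nat_lit 1596) (XT.lf (nat_lit 0) (nat_lit 2688500189264) (nat_lit 304) (nat_lit 5023132448577) (nat_lit 76) (nat_lit 490103868315) (nat_lit 43) (nat_lit 5) (nat_lit 47) (nat_lit 5) (nat_lit 44) (nat_lit 5) (nat_lit 446) (nat_lit 430) (nat_lit 144)) (XT.lf (nat_lit 0) (nat_lit 1973391514303) (nat_lit 532) (nat_lit 132165936213) (nat_lit 532) (nat_lit 132165936213) (nat_lit 64) (nat_lit 3) (nat_lit 71) (nat_lit 3) (nat_lit 71) (nat_lit 5) (nat_lit 431) (nat_lit 431) (nat_lit 158))) (XT.nd (nat_lit 78) (nat_lit 0) (nat_lit 76) (XT.lf (nat_lit 76) (nat_lit 2011500197227) (nat_lit 0) (nat_lit 2141530783700) (nat_lit 532) (nat_lit 497563532972) (nat_lit 65) (nat_lit 5) (nat_lit 64) (nat_lit 3) (nat_lit 71) (nat_lit 5) (nat_lit 432) (nat_lit 431) (nat_lit 157)) (XT.nd (nat_lit 78) (nat_lit 0) (nat_lit 0) (XT.lf (nat_lit 0) (nat_lit 4385445357849) (nat_lit 456) (nat_lit 357183556270) (nat_lit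 532) (nat_lit 96351832385) (nat_lit 65) (nat_lit 5) (nat_lit 71) (nat_lit 5) (nat_lit 72) (nat_lit 5) (nat_lit 433) (nat_lit 431) (nat_lit 156)) (XT.lf (nat_lit 76) (nat_lit 2159692451824) (nat_lit 0) (nat_lit 2584325264421) (nat_lit 532) (nat_lit 289814974965) (nat_lit 66) (nat_lit 5) (nat_lit 65) (nat_lit 5) (nat_lit 72) (nat_lit 5) (nat_lit 434) (nat_lit 431) (nat_lit 155)))))) (XT.nd (nat_lit 390) (nat_lit 684) (nat_lit 0) (XT.nd (nat_lit 156) (nat_lit 304) (nat_lit 0) (XT.nd (nat_lit 78) (nat_lit 456) (nat_lit 0) (XT.lf (nat_lit 76) (nat_lit 4898231885721) (nat_lit 0) (nat_lit 242810008738) (nat_lit 532) (nat_lit 102449614542) (nat_lit 66) (nat_lit 5) (nat_lit 65) (nat_lit 5) (nat_lit 72) (nat_lit 5) (nat_lit 435) (nat_lit 431) (nat_lit 154)) (XT.lf (nat_lit 0) (nat_lit 211858559772) (nat_lit 532) (nat_lit 3012471028766) (nat_lit 608) (nat_lit 2236045127394) (nat_lit 59) (nat_lit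 5) (nat_lit 66) (nat_lit 5) (nat_lit 67) (nat_lit 5) (nat_lit 436) (nat_lit 431) (nat_lit 153))) (XT.nd (nat_lit 78) (nat_lit 304) (nat_lit 0) (XT.lf (nat_lit 0) (nat_lit 561768406071) (nat_lit 532) (nat_lit 218911073153) (nat_lit 608) (nat_lit 4912436861218) (nat_lit 59) (nat_lit 5) (nat_lit 66) (nat_lit 5) (nat_lit 67) (nat_lit 5) (nat_lit 437) (nat_lit 431) (nat_lit 152)) (XT.nd (nat_lit 78) (nat_lit 380) (nat_lit 0) (XT.lf (nat_lit 0) (nat_lit 1057045907864) (nat_lit 532) (nat_lit 3039867789920) (nat_lit 76) (nat_lit 1838173607705) (nat_lit 60) (nat_lit 5) (nat_lit 67) (nat_lit 5) (nat_lit 61) (nat_lit 5) (nat_lit 438) (nat_lit 431) (nat_lit 151)) (XT.lf (nat_lit 0) (nat_lit 57433295077) (nat_lit 380) (nat_lit 1562311857766) (nat_lit 456) (nat_lit 4574446831454) (nat_lit 55) (nat_lit 5) (nat_lit 60) (nat_lit 5) (nat_lit 61) (nat_lit 5) (nat_lit 439) (nat_lit 431) (nat_lit 150)))))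 (XT.nd (nat_lit 234) (nat_lit 456) (nat_lit 0) (XT.nd (nat_lit 78) (nat_lit 228) (nat_lit 0) (XT.lf (nat_lit 0) (nat_lit 2340994726825) (nat_lit 456) (nat_lit 2922396383295) (nat_lit 76) (nat_lit 1201551176136) (nat_lit 55) (nat_lit 5) (nat_lit 61) (nat_lit 5) (nat_lit 56) (nat_lit 5) (nat_lit 440) (nat_lit 431) (nat_lit 149)) (XT.nd (nat_lit 78) (nat_lit 0) (nat_lit 0) (XT.lf (nat_lit 0) (nat_lit 535313949948) (nat_lit 228) (nat_lit 2638084158739) (nat_lit 304) (nat_lit 3579678196330) (nat_lit 52) (nat_lit 5) (nat_lit 55) (nat_lit 5) (nat_lit 56) (nat_lit 5) (nat_lit 441) (nat_lit 431) (nat_lit 148)) (XT.lf (nat_lit 0) (nat_lit 4159116475937) (nat_lit 304) (nat_lit 2628847603124) (nat_lit 76) (nat_lit 269359149029) (nat_lit 52) (nat_lit 5) (nat_lit 56) (nat_lit 5) (nat_lit 53) (nat_lit 5) (nat_lit 442) (nat_lit 431) (nat_lit 147)))) (XT.nd (nat_lit 78) (nat_lit 228) (nat_lit 0) (XT.lf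 (nat_lit 0) (nat_lit 1240724738725) (nat_lit 228) (nat_lit 4081328699948) (nat_lit 304) (nat_lit 2055987576249) (nat_lit 49) (nat_lit 5) (nat_lit 52) (nat_lit 5) (nat_lit 53) (nat_lit 5) (nat_lit 443) (nat_lit 431) (nat_lit 146)) (XT.nd (nat_lit 78) (nat_lit 228) (nat_lit 0) (XT.lf (nat_lit 0) (nat_lit 5569367760289) (nat_lit 228) (nat_lit 1080534950171) (nat_lit 304) (nat_lit 1068763326076) (nat_lit 49) (nat_lit 5) (nat_lit 52) (nat_lit 5) (nat_lit 53) (nat_lit 5) (nat_lit 444) (nat_lit 431) (nat_lit 145)) (XT.lf (nat_lit 0) (nat_lit 105568530121) (nat_lit 228) (nat_lit 5864098955680) (nat_lit 76) (nat_lit 2108238377902) (nat_lit 46) (nat_lit 5) (nat_lit 49) (nat_lit 5) (nat_lit 47) (nat_lit 5) (nat_lit 445) (nat_lit 431) (nat_lit 144))))))))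
noncomputable def xc254 : XT := (XT.nd (nat_lit 105612) (nat_lit 0) (nat_lit 228) (XT.nd (nat_lit 52728) (nat_lit 0) (nat_lit 228) (XT.nd (nat_lit 52338) (nat_lit 0) (nat_lit 684) (XT.nd (nat_lit 52104) (nat_lit 0) (nat_lit 1368) (XT.nd (nat_lit 52026) (nat_lit 0) (nat_lit 1368) (XT.lf (nat_lit 0) (nat_lit 1404463801435) (nat_lit 228) (nat_lit 1470342931965) (nat_lit 76) (nat_lit 5581788709024) (nat_lit 46) (nat_lit 5) (nat_lit 49) (nat_lit 5) (nat_lit 47) (nat_lit 5) (nat_lit 446) (nat_lit 431) (nat_lit 143)) (XT.lf (nat_lit 0) (nat_lit 2131262838431) (nat_lit 532) (nat_lit 142739209497) (nat_lit 532) (nat_lit 142739209497) (nat_lit 64) (nat_lit 3) (nat_lit 71) (nat_lit 3) (nat_lit 71) (nat_lit 5) (nat_lit 432) (nat_lit 432) (nat_lit 156))) (XT.nd (nat_lit 78) (nat_lit 0) (nat_lit 76) (XT.lf (nat_lit 76) (nat_lit 2172420216148) (nat_lit 0) (nat_lit 2312853248853) (nat_lit 532) (nat_lit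 537368609557) (nat_lit 65) (nat_lit 5) (nat_lit 64) (nat_lit 3) (nat_lit 71) (nat_lit 5) (nat_lit 433) (nat_lit 432) (nat_lit 155)) (XT.nd (nat_lit 78) (nat_lit 0) (nat_lit 0) (XT.lf (nat_lit 0) (nat_lit 4736280991607) (nat_lit 456) (nat_lit 385758237387) (nat_lit 532) (nat_lit 104059976815) (nat_lit 65) (nat_lit 5) (nat_lit 71) (nat_lit 5) (nat_lit 72) (nat_lit 5) (nat_lit 434) (nat_lit 432) (nat_lit 154)) (XT.lf (nat_lit 76) (nat_lit 2332467851269) (nat_lit 0) (nat_lit 2791071287106) (nat_lit 532) (nat_lit 313000167741) (nat_lit 66) (nat_lit 5) (nat_lit 65) (nat_lit 5) (nat_lit 72) (nat_lit 5) (nat_lit 435) (nat_lit 432) (nat_lit 153))))) (XT.nd (nat_lit 156) (nat_lit 304) (nat_lit 0) (XT.nd (nat_lit 78) (nat_lit 456) (nat_lit 0) (XT.lf (nat_lit 76) (nat_lit 5290090439633) (nat_lit 0) (nat_lit 262234810855) (nat_lit 532) (nat_lit 110645578872) (nat_lit 66) (nat_lit 5) (nat_lit 65) (nat_lit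 5) (nat_lit 72) (nat_lit 5) (nat_lit 436) (nat_lit 432) (nat_lit 152)) (XT.lf (nat_lit 0) (nat_lit 228807248856) (nat_lit 532) (nat_lit 3253468707474) (nat_lit 608) (nat_lit 2414928736529) (nat_lit 59) (nat_lit 5) (nat_lit 66) (nat_lit 5) (nat_lit 67) (nat_lit 5) (nat_lit 437) (nat_lit 432) (nat_lit 151))) (XT.nd (nat_lit 78) (nat_lit 304) (nat_lit 0) (XT.lf (nat_lit 0) (nat_lit 606709882540) (nat_lit 532) (nat_lit 236423955679) (nat_lit 608) (nat_lit 5305431809137) (nat_lit 59) (nat_lit 5) (nat_lit 66) (nat_lit 5) (nat_lit 67) (nat_lit 5) (nat_lit 438) (nat_lit 432) (nat_lit 150)) (XT.nd (nat_lit 78) (nat_lit 380) (nat_lit 0) (XT.lf (nat_lit 0) (nat_lit 1141609584247) (nat_lit 532) (nat_lit 3283057209554) (nat_lit 76) (nat_lit 1985227495824) (nat_lit 60) (nat_lit 5) (nat_lit 67) (nat_lit 5) (nat_lit 61) (nat_lit 5) (nat_lit 439) (nat_lit 432) (nat_lit 149)) (XT.lf (nat_lit 0) (nat_lit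 62027962152) (nat_lit 380) (nat_lit 1687296806477) (nat_lit 456) (nat_lit 4940402574123) (nat_lit 55) (nat_lit 5) (nat_lit 60) (nat_lit 5) (nat_lit 61) (nat_lit 5) (nat_lit 440) (nat_lit 432) (nat_lit 148)))))) (XT.nd (nat_lit 52494) (nat_lit 0) (nat_lit 1140) (XT.nd (nat_lit 156) (nat_lit 228) (nat_lit 0) (XT.nd (nat_lit 78) (nat_lit 228) (nat_lit 0) (XT.lf (nat_lit 0) (nat_lit 2528274308265) (nat_lit 456) (nat_lit 3156188090478) (nat_lit 76) (nat_lit 1297675270148) (nat_lit 55) (nat_lit 5) (nat_lit 61) (nat_lit 5) (nat_lit 56) (nat_lit 5) (nat_lit 441) (nat_lit 432) (nat_lit 147)) (XT.lf (nat_lit 0) (nat_lit 578139069336) (nat_lit 228) (nat_lit 2849130891177) (nat_lit 304) (nat_lit 3866052448652) (nat_lit 52) (nat_lit 5) (nat_lit 55) (nat_lit 5) (nat_lit 56) (nat_lit 5) (nat_lit 442) (nat_lit 432) (nat_lit 146))) (XT.nd (nat_lit 78) (nat_lit 228) (nat_lit 0) (XT.lf (nat_lit 0) (nat_lit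 4491845796918) (nat_lit 304) (nat_lit 2839155408004) (nat_lit 76) (nat_lit 290907881181) (nat_lit 52) (nat_lit 5) (nat_lit 56) (nat_lit 5) (nat_lit 53) (nat_lit 5) (nat_lit 443) (nat_lit 432) (nat_lit 145)) (XT.nd (nat_lit 78) (nat_lit 0) (nat_lit 0) (XT.lf (nat_lit 0) (nat_lit 1339982721108) (nat_lit 228) (nat_lit 4407834995428) (nat_lit 304) (nat_lit 2220466579356) (nat_lit 49) (nat_lit 5) (nat_lit 52) (nat_lit 5) (nat_lit 53) (nat_lit 5) (nat_lit 444) (nat_lit 432) (nat_lit 144)) (XT.lf (nat_lit 0) (nat_lit 6014917184153) (nat_lit 228) (nat_lit 1166977745708) (nat_lit 304) (nat_lit 1154264389391) (nat_lit 49) (nat_lit 5) (nat_lit 52) (nat_lit 5) (nat_lit 53) (nat_lit 5) (nat_lit 445) (nat_lit 432) (nat_lit 143))))) (XT.nd (nat_lit 156) (nat_lit 0) (nat_lit 76) (XT.nd (nat_lit 78) (nat_lit 0) (nat_lit 0) (XT.lf (nat_lit 0) (nat_lit 2301763868063) (nat_lit 532) (nat_lit 154158344875)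 (nat_lit 532) (nat_lit 154158344875) (nat_lit 64) (nat_lit 3) (nat_lit 71) (nat_lit 3) (nat_lit 71) (nat_lit 5) (nat_lit 433) (nat_lit 433) (nat_lit 154)) (XT.lf (nat_lit 76) (nat_lit 2346213836134) (nat_lit 0) (nat_lit 2497881510868) (nat_lit 532) (nat_lit 580358093132) (nat_lit 65) (nat_lit 5) (nat_lit 64) (nat_lit 3) (nat_lit 71) (nat_lit 5) (nat_lit 434) (nat_lit 433) (nat_lit 153))) (XT.nd (nat_lit 78) (nat_lit 0) (nat_lit 0) (XT.lf (nat_lit 0) (nat_lit 5115183475334) (nat_lit 456) (nat_lit 416618893476) (nat_lit 532) (nat_lit 112384773107) (nat_lit 65) (nat_lit 5) (nat_lit 71) (nat_lit 5) (nat_lit 72) (nat_lit 5) (nat_lit 435) (nat_lit 433) (nat_lit 152)) (XT.nd (nat_lit 78) (nat_lit 0) (nat_lit 0) (XT.lf (nat_lit 76) (nat_lit 2519065282199) (nat_lit 0) (nat_lit 3014356991387) (nat_lit 532) (nat_lit 338040176685) (nat_lit 66) (nat_lit 5) (nat_lit 65) (nat_lit 5) (nat_lit 72) (nat_lit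 5) (nat_lit 436) (nat_lit 433) (nat_lit 151)) (XT.lf (nat_lit 76) (nat_lit 5713297677423) (nat_lit 0) (nat_lit 283213596938) (nat_lit 532) (nat_lit 119497221038) (nat_lit 66) (nat_lit 5) (nat_lit 65) (nat_lit 5) (nat_lit 72) (nat_lit 5) (nat_lit 437) (nat_lit 433) (nat_lit 150))))))) (XT.nd (nat_lit 52962) (nat_lit 0) (nat_lit 228) (XT.nd (nat_lit 390) (nat_lit 456) (nat_lit 0) (XT.nd (nat_lit 156) (nat_lit 304) (nat_lit 0) (XT.nd (nat_lit 78) (nat_lit 0) (nat_lit 0) (XT.lf (nat_lit 0) (nat_lit 247111832453) (nat_lit 532) (nat_lit 3513746200992) (nat_lit 608) (nat_lit 2608123034545) (nat_lit 59) (nat_lit 5) (nat_lit 66) (nat_lit 5) (nat_lit 67) (nat_lit 5) (nat_lit 438) (nat_lit 433) (nat_lit 149)) (XT.lf (nat_lit 0) (nat_lit 655246676559) (nat_lit 532) (nat_lit 255337869280) (nat_lit 608) (nat_lit 5729866353028) (nat_lit 59) (nat_lit 5) (nat_lit 66) (nat_lit 5) (nat_lit 67) (nat_lit 5)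 (nat_lit 439) (nat_lit 433) (nat_lit 148))) (XT.nd (nat_lit 78) (nat_lit 380) (nat_lit 0) (XT.lf (nat_lit 0) (nat_lit 1232938354205) (nat_lit 532) (nat_lit 3545701783266) (nat_lit 76) (nat_lit 2144045695063) (nat_lit 60) (nat_lit 5) (nat_lit 67) (nat_lit 5) (nat_lit 61) (nat_lit 5) (nat_lit 440) (nat_lit 433) (nat_lit 147)) (XT.nd (nat_lit 78) (nat_lit 0) (nat_lit 0) (XT.lf (nat_lit 0) (nat_lit 66990202099) (nat_lit 380) (nat_lit 1822280551072) (nat_lit 456) (nat_lit 5335634776755) (nat_lit 55) (nat_lit 5) (nat_lit 60) (nat_lit 5) (nat_lit 61) (nat_lit 5) (nat_lit 441) (nat_lit 433) (nat_lit 146)) (XT.lf (nat_lit 0) (nat_lit 2730536255750) (nat_lit 456) (nat_lit 3408683134732) (nat_lit 76) (nat_lit 1401489291692) (nat_lit 55) (nat_lit 5) (nat_lit 61) (nat_lit 5) (nat_lit 56) (nat_lit 5) (nat_lit 442) (nat_lit 433) (nat_lit 145))))) (XT.nd (nat_lit 156) (nat_lit 228) (nat_lit 0) (XT.nd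 (nat_lit 78) (nat_lit 0) (nat_lit 0) (XT.lf (nat_lit 0) (nat_lit 624390197792) (nat_lit 228) (nat_lit 3077061362247) (nat_lit 304) (nat_lit 4175336641642) (nat_lit 52) (nat_lit 5) (nat_lit 55) (nat_lit 5) (nat_lit 56) (nat_lit 5) (nat_lit 443) (nat_lit 433) (nat_lit 144)) (XT.lf (nat_lit 0) (nat_lit 4851193463162) (nat_lit 304) (nat_lit 3066287837755) (nat_lit 76) (nat_lit 314180511873) (nat_lit 52) (nat_lit 5) (nat_lit 56) (nat_lit 5) (nat_lit 53) (nat_lit 5) (nat_lit 444) (nat_lit 433) (nat_lit 143))) (XT.nd (nat_lit 52260) (nat_lit 0) (nat_lit 1140) (XT.lf (nat_lit 0) (nat_lit 1447181341612) (nat_lit 228) (nat_lit 4760461794620) (nat_lit 304) (nat_lit 2398103903139) (nat_lit 49) (nat_lit 5) (nat_lit 52) (nat_lit 5) (nat_lit 53) (nat_lit 5) (nat_lit 445) (nat_lit 433) (nat_lit 142)) (XT.nd (nat_lit 78) (nat_lit 0) (nat_lit 0) (XT.lf (nat_lit 0) (nat_lit 2485904979700) (nat_lit 532) (nat_lit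 166491011280) (nat_lit 532) (nat_lit 166491011280) (nat_lit 64) (nat_lit 3) (nat_lit 71) (nat_lit 3) (nat_lit 71) (nat_lit 5) (nat_lit 434) (nat_lit 434) (nat_lit 152)) (XT.lf (nat_lit 76) (nat_lit 2533910945335) (nat_lit 0) (nat_lit 2697712033544) (nat_lit 532) (nat_lit 626786736134) (nat_lit 65) (nat_lit 5) (nat_lit 64) (nat_lit 3) (nat_lit 71) (nat_lit 5) (nat_lit 435) (nat_lit 434) (nat_lit 151)))))) (XT.nd (nat_lit 390) (nat_lit 532) (nat_lit 0) (XT.nd (nat_lit 156) (nat_lit 456) (nat_lit 0) (XT.nd (nat_lit 78) (nat_lit 0) (nat_lit 0) (XT.lf (nat_lit 0) (nat_lit 5524398157132) (nat_lit 456) (nat_lit 449948402467) (nat_lit 532) (nat_lit 121375553367) (nat_lit 65) (nat_lit 5) (nat_lit 71) (nat_lit 5) (nat_lit 72) (nat_lit 5) (nat_lit 436) (nat_lit 434) (nat_lit 150)) (XT.lf (nat_lit 76) (nat_lit 2720590507199) (nat_lit 0) (nat_lit 3255505551823) (nat_lit 532) (nat_lit 365083386982)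 (nat_lit 66) (nat_lit 5) (nat_lit 65) (nat_lit 5) (nat_lit 72) (nat_lit 5) (nat_lit 437) (nat_lit 434) (nat_lit 149))) (XT.nd (nat_lit 78) (nat_lit 456) (nat_lit 0) (XT.lf (nat_lit 76) (nat_lit 6170361493862) (nat_lit 0) (nat_lit 305870685735) (nat_lit 532) (nat_lit 129056995168) (nat_lit 66) (nat_lit 5) (nat_lit 65) (nat_lit 5) (nat_lit 72) (nat_lit 5) (nat_lit 438) (nat_lit 434) (nat_lit 148)) (XT.nd (nat_lit 78) (nat_lit 0) (nat_lit 0) (XT.lf (nat_lit 0) (nat_lit 266880782212) (nat_lit 532) (nat_lit 3794845894430) (nat_lit 608) (nat_lit 2816772876532) (nat_lit 59) (nat_lit 5) (nat_lit 66) (nat_lit 5) (nat_lit 67) (nat_lit 5) (nat_lit 439) (nat_lit 434) (nat_lit 147)) (XT.lf (nat_lit 0) (nat_lit 707666413612) (nat_lit 532) (nat_lit 275764896377) (nat_lit 608) (nat_lit 6188255660551) (nat_lit 59) (nat_lit 5) (nat_lit 66) (nat_lit 5) (nat_lit 67) (nat_lit 5) (nat_lit 440) (nat_lit 434)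 (nat_lit 146))))) (XT.nd (nat_lit 234) (nat_lit 228) (nat_lit 0) (XT.nd (nat_lit 78) (nat_lit 380) (nat_lit 0) (XT.lf (nat_lit 0) (nat_lit 1331573425301) (nat_lit 532) (nat_lit 3829357923311) (nat_lit 76) (nat_lit 2315569350303) (nat_lit 60) (nat_lit 5) (nat_lit 67) (nat_lit 5) (nat_lit 61) (nat_lit 5) (nat_lit 441) (nat_lit 434) (nat_lit 145)) (XT.nd (nat_lit 78) (nat_lit 0) (nat_lit 0) (XT.lf (nat_lit 0) (nat_lit 72349420818) (nat_lit 380) (nat_lit 1968062995224) (nat_lit 456) (nat_lit 5762485556067) (nat_lit 55) (nat_lit 5) (nat_lit 60) (nat_lit 5) (nat_lit 61) (nat_lit 5) (nat_lit 442) (nat_lit 434) (nat_lit 144)) (XT.lf (nat_lit 0) (nat_lit 2948979158631) (nat_lit 456) (nat_lit 3681377782952) (nat_lit 76) (nat_lit 1513608434969) (nat_lit 55) (nat_lit 5) (nat_lit 61) (nat_lit 5) (nat_lit 56) (nat_lit 5) (nat_lit 443) (nat_lit 434) (nat_lit 143)))) (XT.nd (nat_lit 78) (nat_lit 0) (nat_lit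 0) (XT.lf (nat_lit 0) (nat_lit 674341416109) (nat_lit 228) (nat_lit 3323226271034) (nat_lit 304) (nat_lit 4509363570486) (nat_lit 52) (nat_lit 5) (nat_lit 55) (nat_lit 5) (nat_lit 56) (nat_lit 5) (nat_lit 444) (nat_lit 434) (nat_lit 142)) (XT.nd (nat_lit 52338) (nat_lit 0) (nat_lit 912) (XT.lf (nat_lit 0) (nat_lit 5239288942350) (nat_lit 304) (nat_lit 3311590862299) (nat_lit 76) (nat_lit 339314952992) (nat_lit 52) (nat_lit 5) (nat_lit 56) (nat_lit 5) (nat_lit 53) (nat_lit 5) (nat_lit 445) (nat_lit 434) (nat_lit 141)) (XT.lf (nat_lit 0) (nat_lit 2684777379956) (nat_lit 532) (nat_lit 179810291166) (nat_lit 532) (nat_lit 179810291166) (nat_lit 64) (nat_lit 3) (nat_lit 71) (nat_lit 3) (nat_lit 71) (nat_lit 5) (nat_lit 435) (nat_lit 435) (nat_lit 150))))))))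
noncomputable def xc255 : XT := (XT.nd (nat_lit 106470) (nat_lit 0) (nat_lit 532) (XT.nd (nat_lit 53118) (nat_lit 0) (nat_lit 228) (XT.nd (nat_lit 390) (nat_lit 532) (nat_lit 0) (XT.nd (nat_lit 156) (nat_lit 380) (nat_lit 0) (XT.nd (nat_lit 78) (nat_lit 0) (nat_lit 76) (XT.lf (nat_lit 76) (nat_lit 2736623822943) (nat_lit 0) (nat_lit 2913528997775) (nat_lit 532) (nat_lit 676929671210) (nat_lit 65) (nat_lit 5) (nat_lit 64) (nat_lit 3) (nat_lit 71) (nat_lit 5) (nat_lit 436) (nat_lit 435) (nat_lit 149)) (XT.lf (nat_lit 0) (nat_lit 5966350012935) (nat_lit 456) (nat_lit 485944272531) (nat_lit 532) (nat_lit 131085596275) (nat_lit 65) (nat_lit 5) (nat_lit 71) (nat_lit 5) (nat_lit 72) (nat_lit 5) (nat_lit 437) (nat_lit 435) (nat_lit 148))) (XT.nd (nat_lit 78) (nat_lit 456) (nat_lit 0) (XT.lf (nat_lit 76) (nat_lit 2938237749854) (nat_lit 0) (nat_lit 3515945996934) (nat_lit 532) (nat_lit 394290054651)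 (nat_lit 66) (nat_lit 5) (nat_lit 65) (nat_lit 5) (nat_lit 72) (nat_lit 5) (nat_lit 438) (nat_lit 435) (nat_lit 147)) (XT.nd (nat_lit 78) (nat_lit 456) (nat_lit 0) (XT.lf (nat_lit 76) (nat_lit 6663990415296) (nat_lit 0) (nat_lit 330340341487) (nat_lit 532) (nat_lit 139381551735) (nat_lit 66) (nat_lit 5) (nat_lit 65) (nat_lit 5) (nat_lit 72) (nat_lit 5) (nat_lit 439) (nat_lit 435) (nat_lit 146)) (XT.lf (nat_lit 0) (nat_lit 288231247501) (nat_lit 532) (nat_lit 4098433563720) (nat_lit 608) (nat_lit 3042114705988) (nat_lit 59) (nat_lit 5) (nat_lit 66) (nat_lit 5) (nat_lit 67) (nat_lit 5) (nat_lit 440) (nat_lit 435) (nat_lit 145))))) (XT.nd (nat_lit 156) (nat_lit 532) (nat_lit 0) (XT.nd (nat_lit 78) (nat_lit 0) (nat_lit 76) (XT.lf (nat_lit 0) (nat_lit 764279729211) (nat_lit 532) (nat_lit 297826085991) (nat_lit 608) (nat_lit 6683316112779) (nat_lit 59) (nat_lit 5) (nat_lit 66) (nat_lit 5) (nat_lit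 67) (nat_lit 5) (nat_lit 441) (nat_lit 435) (nat_lit 144)) (XT.lf (nat_lit 0) (nat_lit 1438099301691) (nat_lit 532) (nat_lit 4135706554933) (nat_lit 76) (nat_lit 2500814898013) (nat_lit 60) (nat_lit 5) (nat_lit 67) (nat_lit 5) (nat_lit 61) (nat_lit 5) (nat_lit 442) (nat_lit 435) (nat_lit 143))) (XT.nd (nat_lit 78) (nat_lit 228) (nat_lit 0) (XT.lf (nat_lit 0) (nat_lit 78137376670) (nat_lit 380) (nat_lit 2125508034899) (nat_lit 456) (nat_lit 6223484398129) (nat_lit 55) (nat_lit 5) (nat_lit 60) (nat_lit 5) (nat_lit 61) (nat_lit 5) (nat_lit 443) (nat_lit 435) (nat_lit 142)) (XT.nd (nat_lit 78) (nat_lit 228) (nat_lit 0) (XT.lf (nat_lit 0) (nat_lit 3184897493397) (nat_lit 456) (nat_lit 3975888003395) (nat_lit 76) (nat_lit 1634697109717) (nat_lit 55) (nat_lit 5) (nat_lit 61) (nat_lit 5) (nat_lit 56) (nat_lit 5) (nat_lit 444) (nat_lit 435) (nat_lit 141)) (XT.lf (nat_lit 0) (nat_lit 728288731536)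 (nat_lit 228) (nat_lit 3589084372553) (nat_lit 304) (nat_lit 4870112653992) (nat_lit 52) (nat_lit 5) (nat_lit 55) (nat_lit 5) (nat_lit 56) (nat_lit 5) (nat_lit 445) (nat_lit 435) (nat_lit 140)))))) (XT.nd (nat_lit 390) (nat_lit 684) (nat_lit 0) (XT.nd (nat_lit 156) (nat_lit 0) (nat_lit 76) (XT.nd (nat_lit 78) (nat_lit 0) (nat_lit 0) (XT.lf (nat_lit 0) (nat_lit 2899559571965) (nat_lit 532) (nat_lit 194195113589) (nat_lit 532) (nat_lit 194195113589) (nat_lit 64) (nat_lit 3) (nat_lit 71) (nat_lit 3) (nat_lit 71) (nat_lit 5) (nat_lit 436) (nat_lit 436) (nat_lit 148)) (XT.lf (nat_lit 76) (nat_lit 2955553730476) (nat_lit 0) (nat_lit 3146611318925) (nat_lit 532) (nat_lit 731084041636) (nat_lit 65) (nat_lit 5) (nat_lit 64) (nat_lit 3) (nat_lit 71) (nat_lit 5) (nat_lit 437) (nat_lit 436) (nat_lit 147))) (XT.nd (nat_lit 78) (nat_lit 0) (nat_lit 0) (XT.lf (nat_lit 0) (nat_lit 6443658016742) (nat_lit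 456) (nat_lit 524819812505) (nat_lit 532) (nat_lit 141572442810) (nat_lit 65) (nat_lit 5) (nat_lit 71) (nat_lit 5) (nat_lit 72) (nat_lit 5) (nat_lit 438) (nat_lit 436) (nat_lit 146)) (XT.nd (nat_lit 78) (nat_lit 0) (nat_lit 0) (XT.lf (nat_lit 76) (nat_lit 3173296771625) (nat_lit 0) (nat_lit 3797221677515) (nat_lit 532) (nat_lit 425833256203) (nat_lit 66) (nat_lit 5) (nat_lit 65) (nat_lit 5) (nat_lit 72) (nat_lit 5) (nat_lit 439) (nat_lit 436) (nat_lit 145)) (XT.lf (nat_lit 76) (nat_lit 7197109650169) (nat_lit 0) (nat_lit 356767569572) (nat_lit 532) (nat_lit 150532073262) (nat_lit 66) (nat_lit 5) (nat_lit 65) (nat_lit 5) (nat_lit 72) (nat_lit 5) (nat_lit 440) (nat_lit 436) (nat_lit 144))))) (XT.nd (nat_lit 234) (nat_lit 304) (nat_lit 0) (XT.nd (nat_lit 78) (nat_lit 0) (nat_lit 0) (XT.lf (nat_lit 0) (nat_lit 311289749625) (nat_lit 532) (nat_lit 4426308246876) (nat_lit 608) (nat_lit 3285483881897)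 (nat_lit 59) (nat_lit 5) (nat_lit 66) (nat_lit 5) (nat_lit 67) (nat_lit 5) (nat_lit 441) (nat_lit 436) (nat_lit 143)) (XT.nd (nat_lit 78) (nat_lit 0) (nat_lit 76) (XT.lf (nat_lit 0) (nat_lit 825422109701) (nat_lit 532) (nat_lit 321652171073) (nat_lit 608) (nat_lit 7217981401272) (nat_lit 59) (nat_lit 5) (nat_lit 66) (nat_lit 5) (nat_lit 67) (nat_lit 5) (nat_lit 442) (nat_lit 436) (nat_lit 142)) (XT.lf (nat_lit 0) (nat_lit 1553147247854) (nat_lit 532) (nat_lit 4466563077404) (nat_lit 76) (nat_lit 2700880089586) (nat_lit 60) (nat_lit 5) (nat_lit 67) (nat_lit 5) (nat_lit 61) (nat_lit 5) (nat_lit 443) (nat_lit 436) (nat_lit 141)))) (XT.nd (nat_lit 52572) (nat_lit 0) (nat_lit 684) (XT.lf (nat_lit 0) (nat_lit 84388368678) (nat_lit 380) (nat_lit 2295548677739) (nat_lit 456) (nat_lit 6721363147901) (nat_lit 55) (nat_lit 5) (nat_lit 60) (nat_lit 5) (nat_lit 61) (nat_lit 5) (nat_lit 444) (nat_lit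 436) (nat_lit 140)) (XT.nd (nat_lit 78) (nat_lit 0) (nat_lit 0) (XT.lf (nat_lit 0) (nat_lit 3131524339103) (nat_lit 532) (nat_lit 209730721929) (nat_lit 532) (nat_lit 209730721929) (nat_lit 64) (nat_lit 3) (nat_lit 71) (nat_lit 3) (nat_lit 71) (nat_lit 5) (nat_lit 437) (nat_lit 437) (nat_lit 146)) (XT.lf (nat_lit 76) (nat_lit 3191998030370) (nat_lit 0) (nat_lit 3398340225577) (nat_lit 532) (nat_lit 789570762164) (nat_lit 65) (nat_lit 5) (nat_lit 64) (nat_lit 3) (nat_lit 71) (nat_lit 5) (nat_lit 438) (nat_lit 437) (nat_lit 145))))))) (XT.nd (nat_lit 53352) (nat_lit 0) (nat_lit 0) (XT.nd (nat_lit 390) (nat_lit 0) (nat_lit 76) (XT.nd (nat_lit 156) (nat_lit 456) (nat_lit 0) (XT.nd (nat_lit 78) (nat_lit 0) (nat_lit 0) (XT.lf (nat_lit 0) (nat_lit 6959150660457) (nat_lit 456) (nat_lit 566805395938) (nat_lit 532) (nat_lit 152898237233) (nat_lit 65) (nat_lit 5) (nat_lit 71) (nat_lit 5) (nat_lit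 72) (nat_lit 5) (nat_lit 439) (nat_lit 437) (nat_lit 144)) (XT.lf (nat_lit 76) (nat_lit 3427160514883) (nat_lit 0) (nat_lit 4100999412426) (nat_lit 532) (nat_lit 459899914281) (nat_lit 66) (nat_lit 5) (nat_lit 65) (nat_lit 5) (nat_lit 72) (nat_lit 5) (nat_lit 440) (nat_lit 437) (nat_lit 143))) (XT.nd (nat_lit 78) (nat_lit 456) (nat_lit 0) (XT.lf (nat_lit 76) (nat_lit 7772878423598) (nat_lit 0) (nat_lit 385308975795) (nat_lit 532) (nat_lit 162574636885) (nat_lit 66) (nat_lit 5) (nat_lit 65) (nat_lit 5) (nat_lit 72) (nat_lit 5) (nat_lit 441) (nat_lit 437) (nat_lit 142)) (XT.nd (nat_lit 78) (nat_lit 0) (nat_lit 0) (XT.lf (nat_lit 0) (nat_lit 336192931588) (nat_lit 532) (nat_lit 4780412904962) (nat_lit 608) (nat_lit 3548322591959) (nat_lit 59) (nat_lit 5) (nat_lit 66) (nat_lit 5) (nat_lit 67) (nat_lit 5) (nat_lit 442) (nat_lit 437) (nat_lit 141)) (XT.lf (nat_lit 0) (nat_lit 891455880322) (nat_lit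 532) (nat_lit 347384343218) (nat_lit 608) (nat_lit 7795419912921) (nat_lit 59) (nat_lit 5) (nat_lit 66) (nat_lit 5) (nat_lit 67) (nat_lit 5) (nat_lit 443) (nat_lit 437) (nat_lit 140))))) (XT.nd (nat_lit 52728) (nat_lit 0) (nat_lit 304) (XT.nd (nat_lit 52650) (nat_lit 0) (nat_lit 304) (XT.lf (nat_lit 0) (nat_lit 1677399029422) (nat_lit 532) (nat_lit 4823888121947) (nat_lit 76) (nat_lit 2916950496522) (nat_lit 60) (nat_lit 5) (nat_lit 67) (nat_lit 5) (nat_lit 61) (nat_lit 5) (nat_lit 444) (nat_lit 437) (nat_lit 139)) (XT.lf (nat_lit 0) (nat_lit 3382046287416) (nat_lit 532) (nat_lit 226509179043) (nat_lit 532) (nat_lit 226509179043) (nat_lit 64) (nat_lit 3) (nat_lit 71) (nat_lit 3) (nat_lit 71) (nat_lit 5) (nat_lit 438) (nat_lit 438) (nat_lit 144))) (XT.nd (nat_lit 78) (nat_lit 0) (nat_lit 76) (XT.lf (nat_lit 76) (nat_lit 3447357874048) (nat_lit 0) (nat_lit 3670207444599) (nat_lit 532) (nat_lit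 852736420733) (nat_lit 65) (nat_lit 5) (nat_lit 64) (nat_lit 3) (nat_lit 71) (nat_lit 5) (nat_lit 439) (nat_lit 438) (nat_lit 143)) (XT.nd (nat_lit 78) (nat_lit 0) (nat_lit 0) (XT.lf (nat_lit 0) (nat_lit 7515882715331) (nat_lit 456) (nat_lit 612149826269) (nat_lit 532) (nat_lit 165130095354) (nat_lit 65) (nat_lit 5) (nat_lit 71) (nat_lit 5) (nat_lit 72) (nat_lit 5) (nat_lit 440) (nat_lit 438) (nat_lit 142)) (XT.lf (nat_lit 76) (nat_lit 3701333357384) (nat_lit 0) (nat_lit 4429079366028) (nat_lit 532) (nat_lit 496691905351) (nat_lit 66) (nat_lit 5) (nat_lit 65) (nat_lit 5) (nat_lit 72) (nat_lit 5) (nat_lit 441) (nat_lit 438) (nat_lit 141)))))) (XT.nd (nat_lit 53118) (nat_lit 0) (nat_lit 380) (XT.nd (nat_lit 52884) (nat_lit 0) (nat_lit 380) (XT.nd (nat_lit 78) (nat_lit 456) (nat_lit 0) (XT.lf (nat_lit 76) (nat_lit 8394708698699) (nat_lit 0) (nat_lit 416133694421) (nat_lit 532) (nat_lit 175580605916)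 (nat_lit 66) (nat_lit 5) (nat_lit 65) (nat_lit 5) (nat_lit 72) (nat_lit 5) (nat_lit 442) (nat_lit 438) (nat_lit 140)) (XT.lf (nat_lit 0) (nat_lit 363088367824) (nat_lit 532) (nat_lit 5162845935932) (nat_lit 608) (nat_lit 3832188398896) (nat_lit 59) (nat_lit 5) (nat_lit 66) (nat_lit 5) (nat_lit 67) (nat_lit 5) (nat_lit 443) (nat_lit 438) (nat_lit 139))) (XT.nd (nat_lit 78) (nat_lit 0) (nat_lit 0) (XT.lf (nat_lit 0) (nat_lit 3652609991425) (nat_lit 532) (nat_lit 244629912817) (nat_lit 532) (nat_lit 244629912817) (nat_lit 64) (nat_lit 3) (nat_lit 71) (nat_lit 3) (nat_lit 71) (nat_lit 5) (nat_lit 439) (nat_lit 439) (nat_lit 142)) (XT.nd (nat_lit 78) (nat_lit 0) (nat_lit 76) (XT.lf (nat_lit 76) (nat_lit 3723146505042) (nat_lit 0) (nat_lit 3963824041003) (nat_lit 532) (nat_lit 920955332331) (nat_lit 65) (nat_lit 5) (nat_lit 64) (nat_lit 3) (nat_lit 71) (nat_lit 5) (nat_lit 440) (nat_lit 439)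 (nat_lit 141)) (XT.lf (nat_lit 0) (nat_lit 8117153334305) (nat_lit 456) (nat_lit 661121811218) (nat_lit 532) (nat_lit 178340502246) (nat_lit 65) (nat_lit 5) (nat_lit 71) (nat_lit 5) (nat_lit 72) (nat_lit 5) (nat_lit 441) (nat_lit 439) (nat_lit 140))))) (XT.nd (nat_lit 53040) (nat_lit 0) (nat_lit 0) (XT.nd (nat_lit 78) (nat_lit 76) (nat_lit 0) (XT.lf (nat_lit 76) (nat_lit 3997440027097) (nat_lit 0) (nat_lit 4783405715831) (nat_lit 532) (nat_lit 536427256001) (nat_lit 66) (nat_lit 5) (nat_lit 65) (nat_lit 5) (nat_lit 72) (nat_lit 5) (nat_lit 442) (nat_lit 439) (nat_lit 139)) (XT.nd (nat_lit 52884) (nat_lit 76) (nat_lit 0) (XT.lf (nat_lit 76) (nat_lit 9066285395634) (nat_lit 0) (nat_lit 449424390458) (nat_lit 532) (nat_lit 189627052743) (nat_lit 66) (nat_lit 5) (nat_lit 65) (nat_lit 5) (nat_lit 72) (nat_lit 5) (nat_lit 443) (nat_lit 439) (nat_lit 138)) (XT.lf (nat_lit 0) (nat_lit 3944818791610)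 (nat_lit 532) (nat_lit 264200305372) (nat_lit 532) (nat_lit 264200305372) (nat_lit 64) (nat_lit 3) (nat_lit 71) (nat_lit 3) (nat_lit 71) (nat_lit 5) (nat_lit 440) (nat_lit 440) (nat_lit 140)))) (XT.nd (nat_lit 78) (nat_lit 0) (nat_lit 0) (XT.lf (nat_lit 76) (nat_lit 4020998226363) (nat_lit 0) (nat_lit 4280929965001) (nat_lit 532) (nat_lit 994631757151) (nat_lit 65) (nat_lit 5) (nat_lit 64) (nat_lit 3) (nat_lit 71) (nat_lit 5) (nat_lit 441) (nat_lit 440) (nat_lit 139)) (XT.nd (nat_lit 53118) (nat_lit 76) (nat_lit 0) (XT.lf (nat_lit 0) (nat_lit 8766525602546) (nat_lit 456) (nat_lit 714011555128) (nat_lit 532) (nat_lit 192607741795) (nat_lit 65) (nat_lit 5) (nat_lit 71) (nat_lit 5) (nat_lit 72) (nat_lit 5) (nat_lit 442) (nat_lit 440) (nat_lit 138)) (XT.lf (nat_lit 76) (nat_lit 4342678085258) (nat_lit 0) (nat_lit 4623404362815) (nat_lit 532) (nat_lit 1074202296208) (nat_lit 65) (nat_lit 5)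 (nat_lit 64) (nat_lit 3) (nat_lit 71) (nat_lit 5) (nat_lit 442) (nat_lit 441) (nat_lit 137))))))))

set_option maxRecDepth 10000000 in
noncomputable def Tp : PT := (PT.nd (nat_lit 9202752) (PT.nd (nat_lit 8725002) (PT.nd (nat_lit 8194056) pc0 pc1) (PT.nd (nat_lit 317928) pc2 pc3)) (PT.nd (nat_lit 266058) (PT.nd (nat_lit 158418) pc4 pc5) (PT.nd (nat_lit 263172) pc6 pc7)))

set_option maxRecDepth 10000000 in
noncomputable def Tx : XT := (XT.nd (nat_lit 14802996) (nat_lit 0) (nat_lit 76) XT.nil (XT.nd (nat_lit 8656596) (nat_lit 0) (nat_lit 0) (XT.nd (nat_lit 3921996) (nat_lit 0) (nat_lit 0) (XT.nd (nat_lit 2701452) (nat_lit 0) (nat_lit 0) (XT.nd (nat_lit 1858428) (nat_lit 0) (nat_lit 0) (XT.nd (nat_lit 1324752) (nat_lit 0) (nat_lit 0) (XT.nd (nat_lit 902148) (nat_lit 0) (nat_lit 0) (XT.nd (nat_lit 636168) (nat_lit 0) (nat_lit 0) (XT.nd (nat_lit 424476) (nat_lit 0) (nat_lit 0) (XT.nd (nat_lit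 265668) (nat_lit 0) (nat_lit 0) xc0 xc1) (XT.nd (nat_lit 106158) (nat_lit 0) (nat_lit 0) xc2 xc3)) (XT.nd (nat_lit 158730) (nat_lit 0) (nat_lit 0) (XT.nd (nat_lit 54132) (nat_lit 0) (nat_lit 0) xc4 xc5) (XT.nd (nat_lit 53664) (nat_lit 0) (nat_lit 0) xc6 xc7))) (XT.nd (nat_lit 212550) (nat_lit 0) (nat_lit 0) (XT.nd (nat_lit 106548) (nat_lit 0) (nat_lit 0) (XT.nd (nat_lit 53352) (nat_lit 0) (nat_lit 0) xc8 xc9) (XT.nd (nat_lit 53040) (nat_lit 0) (nat_lit 0) xc10 xc11)) (XT.nd (nat_lit 105300) (nat_lit 0) (nat_lit 0) (XT.nd (nat_lit 52728) (nat_lit 0) (nat_lit 0) xc12 xc13) (XT.nd (nat_lit 52416) (nat_lit 0) (nat_lit 0) xc14 xc15)))) (XT.nd (nat_lit 268710) (nat_lit 0) (nat_lit 0) (XT.nd (nat_lit 159120) (nat_lit 0) (nat_lit 0) (XT.nd (nat_lit 55302) (nat_lit 0) (nat_lit 0) (XT.nd (nat_lit 3198) (nat_lit 0) (nat_lit 0) xc16 xc17) (XT.nd (nat_lit 51948) (nat_lit 0) (nat_lit 0) xc18 xc19))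 (XT.nd (nat_lit 54834) (nat_lit 0) (nat_lit 0) (XT.nd (nat_lit 3198) (nat_lit 0) (nat_lit 0) xc20 xc21) (XT.nd (nat_lit 51480) (nat_lit 0) (nat_lit 0) xc22 xc23))) (XT.nd (nat_lit 156780) (nat_lit 0) (nat_lit 0) (XT.nd (nat_lit 102492) (nat_lit 0) (nat_lit 0) (XT.nd (nat_lit 51324) (nat_lit 0) (nat_lit 0) xc24 xc25) (XT.nd (nat_lit 3198) (nat_lit 0) (nat_lit 0) xc26 xc27)) (XT.nd (nat_lit 54132) (nat_lit 0) (nat_lit 0) (XT.nd (nat_lit 50934) (nat_lit 0) (nat_lit 0) xc28 xc29) (XT.nd (nat_lit 50778) (nat_lit 0) (nat_lit 0) xc30 xc31))))) (XT.nd (nat_lit 472680) (nat_lit 0) (nat_lit 0) (XT.nd (nat_lit 261300) (nat_lit 0) (nat_lit 0) (XT.nd (nat_lit 154674) (nat_lit 0) (nat_lit 0) (XT.nd (nat_lit 53820) (nat_lit 0) (nat_lit 0) (XT.nd (nat_lit 50622) (nat_lit 0) (nat_lit 0) xc32 xc33) (XT.nd (nat_lit 50466) (nat_lit 0) (nat_lit 0) xc34 xc35)) (XT.nd (nat_lit 53352) (nat_lit 0) (nat_lit 0)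 (XT.nd (nat_lit 3198) (nat_lit 0) (nat_lit 0) xc36 xc37) (XT.nd (nat_lit 3198) (nat_lit 0) (nat_lit 0) xc38 xc39))) (XT.nd (nat_lit 106002) (nat_lit 0) (nat_lit 0) (XT.nd (nat_lit 53040) (nat_lit 0) (nat_lit 0) (XT.nd (nat_lit 3198) (nat_lit 0) (nat_lit 0) xc40 xc41) (XT.nd (nat_lit 3198) (nat_lit 0) (nat_lit 0) xc42 xc43)) (XT.nd (nat_lit 52728) (nat_lit 0) (nat_lit 0) (XT.nd (nat_lit 3198) (nat_lit 0) (nat_lit 0) xc44 xc45) (XT.nd (nat_lit 3198) (nat_lit 0) (nat_lit 0) xc46 xc47)))) (XT.nd (nat_lit 163332) (nat_lit 0) (nat_lit 0) (XT.nd (nat_lit 58890) (nat_lit 0) (nat_lit 0) (XT.nd (nat_lit 52416) (nat_lit 0) (nat_lit 0) (XT.nd (nat_lit 3198) (nat_lit 0) (nat_lit 0) xc48 xc49) (XT.nd (nat_lit 3198) (nat_lit 0) (nat_lit 0) xc50 xc51)) (XT.nd (nat_lit 52260) (nat_lit 0) (nat_lit 0) (XT.nd (nat_lit 49062) (nat_lit 0) (nat_lit 0) xc52 xc53) (XT.nd (nat_lit 48906) (nat_lit 0) (nat_lit 0)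 xc54 xc55))) (XT.nd (nat_lit 103818) (nat_lit 0) (nat_lit 0) (XT.nd (nat_lit 51948) (nat_lit 0) (nat_lit 0) (XT.nd (nat_lit 48750) (nat_lit 0) (nat_lit 0) xc56 xc57) (XT.nd (nat_lit 3198) (nat_lit 0) (nat_lit 0) xc58 xc59)) (XT.nd (nat_lit 51636) (nat_lit 0) (nat_lit 0) (XT.nd (nat_lit 3198) (nat_lit 0) (nat_lit 0) xc60 xc61) (XT.nd (nat_lit 3198) (nat_lit 0) (nat_lit 0) xc62 xc63)))))) (XT.nd (nat_lit 589368) (nat_lit 0) (nat_lit 0) (XT.nd (nat_lit 319098) (nat_lit 0) (nat_lit 0) (XT.nd (nat_lit 160212) (nat_lit 0) (nat_lit 0) (XT.nd (nat_lit 57798) (nat_lit 0) (nat_lit 0) (XT.nd (nat_lit 6396) (nat_lit 0) (nat_lit 0) (XT.nd (nat_lit 3198) (nat_lit 152) (nat_lit 0) xc64 xc65) (XT.nd (nat_lit 48204) (nat_lit 0) (nat_lit 0) xc66 xc67)) (XT.nd (nat_lit 51246) (nat_lit 0) (nat_lit 0) (XT.nd (nat_lit 48048) (nat_lit 0) (nat_lit 228) xc68 xc69) (XT.nd (nat_lit 3198) (nat_lit 0) (nat_lit 0)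 xc70 xc71))) (XT.nd (nat_lit 57408) (nat_lit 0) (nat_lit 0) (XT.nd (nat_lit 6396) (nat_lit 0) (nat_lit 0) (XT.nd (nat_lit 3198) (nat_lit 0) (nat_lit 0) xc72 xc73) (XT.nd (nat_lit 47736) (nat_lit 0) (nat_lit 0) xc74 xc75)) (XT.nd (nat_lit 50778) (nat_lit 0) (nat_lit 0) (XT.nd (nat_lit 47580) (nat_lit 0) (nat_lit 228) xc76 xc77) (XT.nd (nat_lit 3198) (nat_lit 0) (nat_lit 0) xc78 xc79)))) (XT.nd (nat_lit 157482) (nat_lit 0) (nat_lit 0) (XT.nd (nat_lit 56940) (nat_lit 0) (nat_lit 0) (XT.nd (nat_lit 6396) (nat_lit 0) (nat_lit 0) (XT.nd (nat_lit 3198) (nat_lit 152) (nat_lit 0) xc80 xc81) (XT.nd (nat_lit 47268) (nat_lit 0) (nat_lit 0) xc82 xc83)) (XT.nd (nat_lit 50310) (nat_lit 0) (nat_lit 0) (XT.nd (nat_lit 3198) (nat_lit 0) (nat_lit 0) xc84 xc85) (XT.nd (nat_lit 3198) (nat_lit 0) (nat_lit 0) xc86 xc87))) (XT.nd (nat_lit 56472) (nat_lit 0) (nat_lit 0) (XT.nd (nat_lit 6396) (nat_lit 0) (nat_lit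 0) (XT.nd (nat_lit 3198) (nat_lit 912) (nat_lit 0) xc88 xc89) (XT.nd (nat_lit 46800) (nat_lit 0) (nat_lit 836) xc90 xc91)) (XT.nd (nat_lit 49842) (nat_lit 0) (nat_lit 0) (XT.nd (nat_lit 3198) (nat_lit 0) (nat_lit 0) xc92 xc93) (XT.nd (nat_lit 3198) (nat_lit 912) (nat_lit 0) xc94 xc95))))) (XT.nd (nat_lit 314106) (nat_lit 0) (nat_lit 0) (XT.nd (nat_lit 156624) (nat_lit 0) (nat_lit 0) (XT.nd (nat_lit 99996) (nat_lit 0) (nat_lit 0) (XT.nd (nat_lit 49920) (nat_lit 0) (nat_lit 0) (XT.nd (nat_lit 46722) (nat_lit 0) (nat_lit 912) xc96 xc97) (XT.nd (nat_lit 3198) (nat_lit 0) (nat_lit 0) xc98 xc99)) (XT.nd (nat_lit 6396) (nat_lit 0) (nat_lit 0) (XT.nd (nat_lit 3198) (nat_lit 912) (nat_lit 0) xc100 xc101) (XT.nd (nat_lit 46956) (nat_lit 0) (nat_lit 684) xc102 xc103))) (XT.nd (nat_lit 56706) (nat_lit 0) (nat_lit 0) (XT.nd (nat_lit 50232) (nat_lit 0) (nat_lit 0) (XT.nd (nat_lit 3198) (nat_lit 0) (nat_lit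 0) xc104 xc105) (XT.nd (nat_lit 3198) (nat_lit 608) (nat_lit 0) xc106 xc107)) (XT.nd (nat_lit 50310) (nat_lit 0) (nat_lit 0) (XT.nd (nat_lit 47112) (nat_lit 0) (nat_lit 456) xc108 xc109) (XT.nd (nat_lit 3198) (nat_lit 0) (nat_lit 0) xc110 xc111)))) (XT.nd (nat_lit 158184) (nat_lit 0) (nat_lit 0) (XT.nd (nat_lit 56940) (nat_lit 0) (nat_lit 0) (XT.nd (nat_lit 6396) (nat_lit 0) (nat_lit 0) (XT.nd (nat_lit 3198) (nat_lit 304) (nat_lit 0) xc112 xc113) (XT.nd (nat_lit 47268) (nat_lit 0) (nat_lit 152) xc114 xc115)) (XT.nd (nat_lit 50544) (nat_lit 0) (nat_lit 0) (XT.nd (nat_lit 47346) (nat_lit 0) (nat_lit 1368) xc116 xc117) (XT.nd (nat_lit 3198) (nat_lit 152) (nat_lit 0) xc118 xc119))) (XT.nd (nat_lit 57174) (nat_lit 0) (nat_lit 0) (XT.nd (nat_lit 6396) (nat_lit 0) (nat_lit 0) (XT.nd (nat_lit 3198) (nat_lit 912) (nat_lit 0) xc120 xc121) (XT.nd (nat_lit 47502) (nat_lit 0) (nat_lit 456) xc122 xc123))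 (XT.nd (nat_lit 50778) (nat_lit 0) (nat_lit 0) (XT.nd (nat_lit 3198) (nat_lit 0) (nat_lit 0) xc124 xc125) (XT.nd (nat_lit 3198) (nat_lit 228) (nat_lit 0) xc126 xc127))))))) (XT.nd (nat_lit 1439256) (nat_lit 0) (nat_lit 152) (XT.nd (nat_lit 643032) (nat_lit 0) (nat_lit 0) (XT.nd (nat_lit 319878) (nat_lit 0) (nat_lit 0) (XT.nd (nat_lit 114816) (nat_lit 0) (nat_lit 0) (XT.nd (nat_lit 57330) (nat_lit 0) (nat_lit 0) (XT.nd (nat_lit 6396) (nat_lit 152) (nat_lit 0) (XT.nd (nat_lit 3198) (nat_lit 1216) (nat_lit 0) xc128 xc129) (XT.nd (nat_lit 47736) (nat_lit 0) (nat_lit 760) xc130 xc131)) (XT.nd (nat_lit 51012) (nat_lit 0) (nat_lit 0) (XT.nd (nat_lit 3198) (nat_lit 0) (nat_lit 0) xc132 xc133) (XT.nd (nat_lit 3198) (nat_lit 380) (nat_lit 0) xc134 xc135))) (XT.nd (nat_lit 102336) (nat_lit 0) (nat_lit 0) (XT.nd (nat_lit 51090) (nat_lit 0) (nat_lit 0) (XT.nd (nat_lit 47892) (nat_lit 0) (nat_lit 152)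 xc136 xc137) (XT.nd (nat_lit 47970) (nat_lit 0) (nat_lit 684) xc138 xc139)) (XT.nd (nat_lit 51246) (nat_lit 0) (nat_lit 0) (XT.nd (nat_lit 3198) (nat_lit 0) (nat_lit 0) xc140 xc141) (XT.nd (nat_lit 3198) (nat_lit 228) (nat_lit 0) xc142 xc143)))) (XT.nd (nat_lit 161226) (nat_lit 0) (nat_lit 0) (XT.nd (nat_lit 57954) (nat_lit 0) (nat_lit 0) (XT.nd (nat_lit 6396) (nat_lit 0) (nat_lit 0) (XT.nd (nat_lit 3198) (nat_lit 912) (nat_lit 0) xc144 xc145) (XT.nd (nat_lit 48282) (nat_lit 0) (nat_lit 228) xc146 xc147)) (XT.nd (nat_lit 51558) (nat_lit 0) (nat_lit 0) (XT.nd (nat_lit 48360) (nat_lit 0) (nat_lit 912) xc148 xc149) (XT.nd (nat_lit 3198) (nat_lit 0) (nat_lit 0) xc150 xc151))) (XT.nd (nat_lit 58188) (nat_lit 0) (nat_lit 0) (XT.nd (nat_lit 51714) (nat_lit 0) (nat_lit 0) (XT.nd (nat_lit 3198) (nat_lit 228) (nat_lit 0) xc152 xc153) (XT.nd (nat_lit 3198) (nat_lit 836) (nat_lit 0) xc154 xc155))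 (XT.nd (nat_lit 51792) (nat_lit 0) (nat_lit 0) (XT.nd (nat_lit 48594) (nat_lit 0) (nat_lit 152) xc156 xc157) (XT.nd (nat_lit 48672) (nat_lit 0) (nat_lit 456) xc158 xc159))))) (XT.nd (nat_lit 372450) (nat_lit 0) (nat_lit 0) (XT.nd (nat_lit 208650) (nat_lit 0) (nat_lit 0) (XT.nd (nat_lit 104130) (nat_lit 0) (nat_lit 0) (XT.nd (nat_lit 51948) (nat_lit 0) (nat_lit 0) (XT.nd (nat_lit 48750) (nat_lit 0) (nat_lit 1216) xc160 xc161) (XT.nd (nat_lit 3198) (nat_lit 0) (nat_lit 0) xc162 xc163)) (XT.nd (nat_lit 52182) (nat_lit 0) (nat_lit 0) (XT.nd (nat_lit 3198) (nat_lit 228) (nat_lit 0) xc164 xc165) (XT.nd (nat_lit 3198) (nat_lit 608) (nat_lit 0) xc166 xc167))) (XT.nd (nat_lit 58812) (nat_lit 0) (nat_lit 0) (XT.nd (nat_lit 6396) (nat_lit 0) (nat_lit 0) (XT.nd (nat_lit 3198) (nat_lit 988) (nat_lit 0) xc168 xc169) (XT.nd (nat_lit 49140) (nat_lit 0) (nat_lit 152) xc170 xc171)) (XT.nd (nat_lit 52416)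 (nat_lit 0) (nat_lit 0) (XT.nd (nat_lit 49218) (nat_lit 0) (nat_lit 228) xc172 xc173) (XT.nd (nat_lit 49296) (nat_lit 0) (nat_lit 456) xc174 xc175)))) (XT.nd (nat_lit 211146) (nat_lit 0) (nat_lit 0) (XT.nd (nat_lit 105378) (nat_lit 0) (nat_lit 0) (XT.nd (nat_lit 52572) (nat_lit 0) (nat_lit 0) (XT.nd (nat_lit 49374) (nat_lit 0) (nat_lit 760) xc176 xc177) (XT.nd (nat_lit 49530) (nat_lit 0) (nat_lit 988) xc178 xc179)) (XT.nd (nat_lit 52806) (nat_lit 0) (nat_lit 0) (XT.nd (nat_lit 49608) (nat_lit 0) (nat_lit 1216) xc180 xc181) (XT.nd (nat_lit 3198) (nat_lit 152) (nat_lit 0) xc182 xc183))) (XT.nd (nat_lit 106080) (nat_lit 0) (nat_lit 152) (XT.nd (nat_lit 52962) (nat_lit 0) (nat_lit 152) (XT.nd (nat_lit 3198) (nat_lit 152) (nat_lit 0) xc184 xc185) (XT.nd (nat_lit 3198) (nat_lit 0) (nat_lit 0) xc186 xc187)) (XT.nd (nat_lit 53196) (nat_lit 0) (nat_lit 0) (XT.nd (nat_lit 3198) (nat_lit 0) (nat_lit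 0) xc188 xc189) (XT.nd (nat_lit 3198) (nat_lit 0) (nat_lit 0) xc190 xc191)))))) (XT.nd (nat_lit 1010256) (nat_lit 0) (nat_lit 456) (XT.nd (nat_lit 477282) (nat_lit 0) (nat_lit 76) (XT.nd (nat_lit 214032) (nat_lit 0) (nat_lit 0) (XT.nd (nat_lit 106782) (nat_lit 0) (nat_lit 0) (XT.nd (nat_lit 53352) (nat_lit 0) (nat_lit 0) (XT.nd (nat_lit 3198) (nat_lit 0) (nat_lit 0) xc192 xc193) (XT.nd (nat_lit 50232) (nat_lit 0) (nat_lit 1064) xc194 xc195)) (XT.nd (nat_lit 53508) (nat_lit 0) (nat_lit 0) (XT.nd (nat_lit 50310) (nat_lit 0) (nat_lit 912) xc196 xc197) (XT.nd (nat_lit 50466) (nat_lit 0) (nat_lit 532) xc198 xc199))) (XT.nd (nat_lit 107640) (nat_lit 0) (nat_lit 76) (XT.nd (nat_lit 53742) (nat_lit 0) (nat_lit 76) (XT.nd (nat_lit 50544) (nat_lit 0) (nat_lit 304) xc200 xc201) (XT.nd (nat_lit 50622) (nat_lit 0) (nat_lit 0) xc202 xc203)) (XT.nd (nat_lit 101478) (nat_lit 0) (nat_lit 0) (XT.nd (nat_lit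 50700) (nat_lit 0) (nat_lit 0) xc204 xc205) (XT.nd (nat_lit 3198) (nat_lit 760) (nat_lit 0) xc206 xc207)))) (XT.nd (nat_lit 265434) (nat_lit 0) (nat_lit 152) (XT.nd (nat_lit 108420) (nat_lit 0) (nat_lit 152) (XT.nd (nat_lit 54132) (nat_lit 0) (nat_lit 0) (XT.nd (nat_lit 3198) (nat_lit 228) (nat_lit 0) xc208 xc209) (XT.nd (nat_lit 51012) (nat_lit 0) (nat_lit 912) xc210 xc211)) (XT.nd (nat_lit 54366) (nat_lit 0) (nat_lit 0) (XT.nd (nat_lit 51168) (nat_lit 0) (nat_lit 76) xc212 xc213) (XT.nd (nat_lit 51246) (nat_lit 0) (nat_lit 0) xc214 xc215))) (XT.nd (nat_lit 109356) (nat_lit 0) (nat_lit 76) (XT.nd (nat_lit 54600) (nat_lit 0) (nat_lit 76) (XT.nd (nat_lit 3198) (nat_lit 380) (nat_lit 0) xc216 xc217) (XT.nd (nat_lit 51480) (nat_lit 0) (nat_lit 456) xc218 xc219)) (XT.nd (nat_lit 103194) (nat_lit 0) (nat_lit 0) (XT.nd (nat_lit 51558) (nat_lit 0) (nat_lit 0) xc220 xc221) (XT.nd (nat_lit 3198)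 (nat_lit 456) (nat_lit 0) xc222 xc223))))) (XT.nd (nat_lit 691002) (nat_lit 0) (nat_lit 684) (XT.nd (nat_lit 318864) (nat_lit 0) (nat_lit 228) (XT.nd (nat_lit 159042) (nat_lit 0) (nat_lit 76) (XT.nd (nat_lit 54990) (nat_lit 0) (nat_lit 0) (XT.nd (nat_lit 51792) (nat_lit 0) (nat_lit 76) xc224 xc225) (XT.nd (nat_lit 51948) (nat_lit 0) (nat_lit 76) xc226 xc227)) (XT.nd (nat_lit 55302) (nat_lit 0) (nat_lit 0) (XT.nd (nat_lit 52104) (nat_lit 0) (nat_lit 152) xc228 xc229) (XT.nd (nat_lit 52182) (nat_lit 0) (nat_lit 76) xc230 xc231))) (XT.nd (nat_lit 160758) (nat_lit 0) (nat_lit 152) (XT.nd (nat_lit 104910) (nat_lit 0) (nat_lit 76) (XT.nd (nat_lit 52416) (nat_lit 0) (nat_lit 76) xc232 xc233) (XT.nd (nat_lit 52572) (nat_lit 0) (nat_lit 304) xc234 xc235)) (XT.nd (nat_lit 105456) (nat_lit 0) (nat_lit 152) (XT.nd (nat_lit 52650) (nat_lit 0) (nat_lit 152) xc236 xc237) (XT.nd (nat_lit 52884) (nat_lit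 0) (nat_lit 76) xc238 xc239)))) (XT.nd (nat_lit 478764) (nat_lit 0) (nat_lit 760) (XT.nd (nat_lit 213174) (nat_lit 0) (nat_lit 304) (XT.nd (nat_lit 106314) (nat_lit 0) (nat_lit 152) (XT.nd (nat_lit 53118) (nat_lit 0) (nat_lit 76) xc240 xc241) (XT.nd (nat_lit 53352) (nat_lit 0) (nat_lit 76) xc242 xc243)) (XT.nd (nat_lit 157716) (nat_lit 0) (nat_lit 228) (XT.nd (nat_lit 53508) (nat_lit 0) (nat_lit 76) xc244 xc245) (XT.nd (nat_lit 53820) (nat_lit 0) (nat_lit 76) xc246 xc247))) (XT.nd (nat_lit 371124) (nat_lit 0) (nat_lit 760) (XT.nd (nat_lit 159276) (nat_lit 0) (nat_lit 304) (XT.nd (nat_lit 104988) (nat_lit 0) (nat_lit 152) xc248 xc249) (XT.nd (nat_lit 105612) (nat_lit 0) (nat_lit 152) xc250 xc251)) (XT.nd (nat_lit 213252) (nat_lit 0) (nat_lit 608) (XT.nd (nat_lit 106392) (nat_lit 0) (nat_lit 380) xc252 xc253) (XT.nd (nat_lit 211692) (nat_lit 0) (nat_lit 456) xc254 xc255)))))))) XT.nil))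

set_option maxRecDepth 10000000 in
noncomputable def Te : XT := XT.nil

set_option maxRecDepth 10000000 in
noncomputable def Tz : ZL := (ZL.cons (nat_lit 76) (nat_lit 6) (nat_lit 308787659340947697878) (ZL.cons (nat_lit 152) (nat_lit 6) (nat_lit 298038277196023138880) (ZL.cons (nat_lit 228) (nat_lit 3) (nat_lit 148582317566811466250) (ZL.cons (nat_lit 304) (nat_lit 6) (nat_lit 286428944479504615158) (ZL.cons (nat_lit 380) (nat_lit 6) (nat_lit 276516968471012785456) (ZL.cons (nat_lit 456) (nat_lit 3) (nat_lit 137854020317728519404) (ZL.cons (nat_lit 532) (nat_lit 6) (nat_lit 265812034381841609378) (ZL.cons (nat_lit 608) (nat_lit 6) (nat_lit 256682282718636902094) (ZL.cons (nat_lit 684) (nat_lit 3) (nat_lit 127966637731746346119) (ZL.cons (nat_lit 760) (nat_lit 6) (nat_lit 246822150922375818230) (ZL.cons (nat_lit 836) (nat_lit 6) (nat_lit 238424668909358442916) (ZL.cons (nat_lit 912) (nat_lit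 3) (nat_lit 118865571836556902079) (ZL.cons (nat_lit 988) (nat_lit 6) (nat_lit 229355388335299677578) (ZL.cons (nat_lit 1064) (nat_lit 6) (nat_lit 221645250803227873292) (ZL.cons (nat_lit 1140) (nat_lit 3) (nat_lit 110501548903352529814) (ZL.cons (nat_lit 1216) (nat_lit 6) (nat_lit 213318302268590324664) (ZL.cons (nat_lit 1292) (nat_lit 6) (nat_lit 206255462191840718698) (ZL.cons (nat_lit 1368) (nat_lit 3) (nat_lit 102830438041974612283) (ZL.cons (nat_lit 1444) (nat_lit 6) (nat_lit 198627594908951144256) (ZL.cons (nat_lit 1520) (nat_lit 6) (nat_lit 192176780040336835856) (ZL.cons (nat_lit 1596) (nat_lit 3) (nat_lit 95813118673922355828) (ZL.cons (nat_lit 1672) (nat_lit 6) (nat_lit 185209899982233382782) (ZL.cons (nat_lit 1748) (nat_lit 6) (nat_lit 179340560072172794198) (ZL.cons (nat_lit 1824) (nat_lit 3) (nat_lit 89415399159932635897) (ZL.cons (nat_lit 1900) (nat_lit 6) (nat_lit 173001672969307358530)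 (ZL.cons (nat_lit 1976) (nat_lit 6) (nat_lit 167687980965519299798) (ZL.cons (nat_lit 2052) (nat_lit 3) (nat_lit 83607989671506167304) (ZL.cons (nat_lit 2128) (nat_lit 6) (nat_lit 162858233763293462662) (ZL.cons (nat_lit 2204) (nat_lit 6) (nat_lit 161949193601428196370) (ZL.cons (nat_lit 2280) (nat_lit 6) (nat_lit 157170105162382593364) (ZL.cons (nat_lit 2356) (nat_lit 3) (nat_lit 78366533311512146131) (ZL.cons (nat_lit 2432) (nat_lit 6) (nat_lit 152850393501792292390) (ZL.cons (nat_lit 2508) (nat_lit 6) (nat_lit 152008689648213342118) (ZL.cons (nat_lit 2584) (nat_lit 6) (nat_lit 147748066368996466234) (ZL.cons (nat_lit 2660) (nat_lit 3) (nat_lit 73671700527387908532) (ZL.cons (nat_lit 2736) (nat_lit 6) (nat_lit 143925948647422749786) (ZL.cons (nat_lit 2812) (nat_lit 6) (nat_lit 143146593227442240276) (ZL.cons (nat_lit 2888) (nat_lit 6) (nat_lit 140519686896993978162) (ZL.cons (nat_lit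 2964) (nat_lit 6) (nat_lit 139393396193902486856) (ZL.cons (nat_lit 3040) (nat_lit 3) (nat_lit 69509353044071313258) (ZL.cons (nat_lit 3116) (nat_lit 6) (nat_lit 136061568786550395298) (ZL.cons (nat_lit 3192) (nat_lit 6) (nat_lit 135339943397679553162) (ZL.cons (nat_lit 3268) (nat_lit 6) (nat_lit 133131366842972027286) (ZL.cons (nat_lit 3344) (nat_lit 6) (nat_lit 132088505080850276076) (ZL.cons (nat_lit 3420) (nat_lit 3) (nat_lit 65870784898869647140) (ZL.cons (nat_lit 3496) (nat_lit 6) (nat_lit 130585426203501733230) (ZL.cons (nat_lit 3572) (nat_lit 6) (nat_lit 129245123355036547696) (ZL.cons (nat_lit 3648) (nat_lit 6) (nat_lit 128576951698674656826) (ZL.cons (nat_lit 3724) (nat_lit 6) (nat_lit 126792948550752064442) (ZL.cons (nat_lit 3800) (nat_lit 6) (nat_lit 125827335808046739248) (ZL.cons (nat_lit 3876) (nat_lit 3) (nat_lit 62753049717397915087) (ZL.cons (nat_lit 3952) (nat_lit 6)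 (nat_lit 124717449261749214560) (ZL.cons (nat_lit 4028) (nat_lit 6) (nat_lit 123476428105762931658) (ZL.cons (nat_lit 4104) (nat_lit 6) (nat_lit 122857750646168588260) (ZL.cons (nat_lit 4180) (nat_lit 6) (nat_lit 123006326232982055240) (ZL.cons (nat_lit 4256) (nat_lit 6) (nat_lit 121510297286920811494) (ZL.cons (nat_lit 4332) (nat_lit 6) (nat_lit 120616211414045510388) (ZL.cons (nat_lit 4408) (nat_lit 3) (nat_lit 60159385163851038032) (ZL.cons (nat_lit 4484) (nat_lit 6) (nat_lit 120638748180787984178) (ZL.cons (nat_lit 4560) (nat_lit 6) (nat_lit 121649439476131966276) (ZL.cons (nat_lit 4636) (nat_lit 6) (nat_lit 119917292205927240270) (ZL.cons (nat_lit 4712) (nat_lit 6) (nat_lit 118768198542976978320) (ZL.cons (nat_lit 4788) (nat_lit 6) (nat_lit 118195349043352586288) (ZL.cons (nat_lit 4864) (nat_lit 3) (nat_lit 58559904887605864442) (ZL.cons (nat_lit 4940) (nat_lit 6) (nat_lit 117293363792249457920)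 (ZL.cons (nat_lit 5016) (nat_lit 6) (nat_lit 117815054311611757506) (ZL.cons (nat_lit 5092) (nat_lit 6) (nat_lit 118687972832672626450) (ZL.cons (nat_lit 5168) (nat_lit 6) (nat_lit 117302760845578882240) (ZL.cons (nat_lit 5244) (nat_lit 6) (nat_lit 116474903555879529364) (ZL.cons (nat_lit 5320) (nat_lit 3) (nat_lit 58099747571299285828) (ZL.cons (nat_lit 5396) (nat_lit 6) (nat_lit 115126097966333798438) (ZL.cons (nat_lit 5472) (nat_lit 6) (nat_lit 115487090321772274838) (ZL.cons (nat_lit 5548) (nat_lit 6) (nat_lit 116211214246607381574) (ZL.cons (nat_lit 5624) (nat_lit 6) (nat_lit 115147238632764546438) (ZL.cons (nat_lit 5700) (nat_lit 6) (nat_lit 114616822429408627886) (ZL.cons (nat_lit 5776) (nat_lit 3) (nat_lit 56726811265353388533) (ZL.cons (nat_lit 5852) (nat_lit 6) (nat_lit 113641060869107524430) (ZL.cons (nat_lit 5928) (nat_lit 6) (nat_lit 114204486630018807980) (ZL.cons (nat_lit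 6004) (nat_lit 6) (nat_lit 113437952102519407168) (ZL.cons (nat_lit 6080) (nat_lit 3) (nat_lit 56591472156222223162) (ZL.cons (nat_lit 6156) (nat_lit 6) (nat_lit 112266026519823937382) (ZL.cons (nat_lit 6232) (nat_lit 6) (nat_lit 112655898263697491896) (ZL.cons (nat_lit 6308) (nat_lit 6) (nat_lit 112164772149479048792) (ZL.cons (nat_lit 6384) (nat_lit 3) (nat_lit 55676919461111027703) (ZL.cons (nat_lit 6460) (nat_lit 6) (nat_lit 111556272327694862556) (ZL.cons (nat_lit 6536) (nat_lit 3) (nat_lit 55660077001775690148) (ZL.cons (nat_lit 6612) (nat_lit 6) (nat_lit 110899092520167941424) (ZL.cons (nat_lit 6688) (nat_lit 1) (nat_lit 18446744073709551617) ZL.nil))))))))))))))))))))))))))))))))))))))))))))))))))))))))))))))))))))))))))))))))))))))))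

noncomputable def vl : XL := ⟨(nat_lit 0), (nat_lit 76), (nat_lit 176084359), (nat_lit 228), (nat_lit 33977426), (nat_lit 76), (nat_lit 176084359), (nat_lit 1), (nat_lit 5), (nat_lit 3), (nat_lit 4), (nat_lit 1), (nat_lit 4), (nat_lit 0), (nat_lit 0), (nat_lit 0)⟩

noncomputable def cp0 : Nat := (nat_lit 96976759350673315103132583112898356398977617433717316150054478272631099997142640726010111656005760854151331356959661162210326740724089377674967901274758005608934541767441572221495306879624990924956175164582623846384495816282928196448399582502862719010497514069942201117713150491047973140972047634367709007282713776875486403243421456061295934839383522989691481214075388375257388218121381680782185856269480806300399145011801917885460207779270360668870236619228498987849722851113487415099426468186407739949377467543981528747407820658592329031563874661351777752714069035416399396871303868918156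6422438429558359755373281098300743729855558427261093798498206856065605763281638785268519019377023462124473960243808821526230910086257209105254865724965408962436371956266968144324455225451276740866215609203412501844275318706787777641782445171360130826777963184230730187965578326283065670572082072800783129632170651701876125345923134445697527954402287309341518279794315451896236097036764518052729324999592553869025664419977938129489727311662620243145020386456008416751546582713511453017598996874716666575929409600682659018255435481430266176998028380780416334265685975879744770576641144551414112249290517419107196478853163902726564519446623516157676458774929536994235750716103360629409666550034378704163529873263408821093430478464870985232560805464976749107472075625791445480390270813603295595121042432835345887330680215326780505608722566473178241800002437654170827251738835564957142209619322212039174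4796401847840310771566389493578810277637426029249851081905539729942938013793467008617518650313487760962110020404117860187626506526180107482127037374215964599110558088178879370595849993334151636243781466364433641185863451389187694212640450689899551291784804164455696150534065677001623967879513823057182016287298230387513860391967498385332445556700008953396008065823915309070676927951882951397047728068927025932541688908781082346499490080919762863307553277346977001908240579938948706712004078160908662720874793444614553577235614862952330814291968)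

noncomputable def cp1 : Nat := (nat_lit 1063449488942281625188824608660900014127631137541301554260321285393151808675351574841057460675393021136176093293311660245146233530301414394871001916122388427732723809817563413697334039628654579461402758540569494994897164966000667723549764516957481005949006489746004085367872778058437125895574942158430066589669144076413043601788232263598109928647437148161771295000376048509008252279776622995174726260997050633757250904492879588286139156384519264920873028421186006911973234620329385202371309771428453015649482117093008398781123909694863353339024005269975173675029126123726116730433803784036188058555908649974580923553591190530716788765117339937442995984377414742968195932342671865726426716505738062306286524440802043476238625826317979684689115177267124954149460703576752787669048103747340445790323687054293764528261693953988239861341915187535883874002917700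2270954944086892184856341769692856159041815639314205626102351518224790226766509260516855669844711353764571970789727696994799855096735965576402656357101875624780657261264767512818635129822230003878846128213013114876407001358199582543975475101408868577873413516494136558073147424431206585285734757220668553957202626344569910503813364638806628882965002733237670368166788580084578271252891729509823269848943750666859589306247261763182165259214546404795645305368397673721626418988923831781626251545196495360699915320314683710154998488686875616063591291266509514386464703790777475341153955643483034957205691802662021960931729102584999684620426173457842123054604247591386427407842678757557991906545837983507989924969172784262862214148272534831283764066059138800259937084984665246189441297185842288880085854797753243777580825331202894104601373524058178479285030932954312354949510358368234702057559784420827752499011493670898702489791995273249567315801532491272127779189006228145179037075418337919408669955974659532770280799637373076900981828055827543894043482396503132895424798125926092359504605153268062564239015476165347379803079375820578344138519128107493207758540276614452488437760)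

noncomputable def rc0 : Nat := (nat_lit 1006561692826726591010948580555507727488629607119313798697586346708039018024361866820419912238807444985571410219016548827041968313901934014242153556865116715224610537257195306767218262040909026019323469231408358938988406338044316301333121624184200726699977500842692788383476892097468138931491539803232831422231031652363933515759283288740144779086403494360390617870026875074708972063266597797841950288583215219267532417525089248435255778475206034799412452874112318608738242016147528918771238409396169896067532182426218586396202217266182254338858213971831046036402172548828144890243569124796996232493766730749361703527088467787399185832938158509760145062749377460737450869984534036128781276697317879072648507893112099432672223510263778850886112977328586208664708668908462956929811588812179680307444429695010186878704971269472590062903532839714525955810592954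6245247471130983297090627105334941481366303202682591203608332999425515501055393282446334592145169001436549470176782329153356188792924007510840591948054946976800069169078179601562112161747425801631386599126958080256127933625154258123325231866697682260675353804961134875398801779441695905854197798068958366244011895972790140697567789346681358244632851187756907103244883764143753087602757773314612459254730386011423420877727684375956131693086501967883189068042322798293360971182844440090013004149821241591305934076054357695028846168934684900731254320141734264309641246504774622709453089634678945234461271483958909281179100625970367717300384367353929173792347995142908292493629146028058668024482059715199935190475758651224191904882102918497354841246096317466154736204335988200471214843387136029831505528106678247516175702454176730632802461689665952582675384790995522392123991101784826884829902720373225820473504960670953906663677369370821598878612153841721682628002384563466653791704061775674490484293573723969830384846530467649794023226045736099325515693318737263291666520348583375891619157054098006489832183661831387383142522372150376609766546588200426041949861982539812211523584)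

noncomputable def rc1 : Nat := (nat_lit 1063449488942281625188824608660900014127631137541301554260321285393151808675351574841057460675393021136176093293311660245146233530301414394871001916122388427732723809817563413697334039628654579461402758540569494994897164966000667723549764516957481005949006489746004085367872778058437125895574942158430066589669144076413043601788232263598109928647437148161771295000376048509008252279776622995174726260997050633757250904492879588286139156384519264920873028421186006911973234620329385202371309771428453015649482117093008398781123909694863353339024005269975173675029126123726116730433803784036188058555908649974580923553591190530716788765117339937442995984377414742968195932342671865726426716505738062306286524440802043476238625826317979684689115177267124954149460703576752787669048103747340445790323687054293764528261693953988239861341915187535883874002917700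2270954944086892184856341769692856159041815639314205626102351518224790226766509260516855669844711353764571970789727696994799855096735965576402656357101875624780657261264767512818635129822230003878846128213013114876407001358199582543975475101408868577873413516494136558073147424431206585285734757220668553957202626344569910503813364638806628882965002733237670368166788580084578271252891729509823269848943750666859589306247261763182165259214546404795645305368397673721626418988923831781626251545196495360699915320314683710154998488686875616063591291266509514386464703790777475341153955643483034957205691802662021960931729102584999684620426173457842123054604247591386427407842678757557991906545837983507989924969172784262862214148272534831283764066059138800259937084984665246189441297185842288880085854797753243777580825331202894104601373524058178479285030932954312354949510358368234702057559784420827752499011493670898702489791995273249567315801532491272127779189006228145179037075418337919408669955974659532770280799637373076900981828055827543894043482396503132895424798125926092359504605153268062564239015476165347379803079375820578344138519128107493207758540276614452488437760)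

end Vale.Agent.Lib.P154.PChain.BF.S2
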