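import Vale.Agent.Lib.P154.PChain.BF.R2_0

set_option linter.all false

namespace Vale.Agent.Lib.P154.PChain.BF.S3

open Vale.Agent.Lib.P154.Chain

noncomputable def pc0 : PT := (PT.nd (nat_lit 7663266) (PT.nd (nat_lit 7344870) (PT.nd (nat_lit 7238556) (PT.nd (nat_lit 7132476) (PT.nd (nat_lit 7079436) (PT.nd (nat_lit 7079358) PT.nil (PT.lf (nat_lit 76) (nat_lit 6) (nat_lit 1) (nat_lit 3) (nat_lit 188) (nat_lit 133) (nat_lit 189))) (PT.nd (nat_lit 52962) (PT.lf (nat_lit 76) (nat_lit 6) (nat_lit 1) (nat_lit 1) (nat_lit 189) (nat_lit 133) (nat_lit 188)) (PT.lf (nat_lit 152) (nat_lit 6) (nat_lit 2) (nat_lit 3) (nat_lit 187) (nat_lit 134) (nat_lit 189)))) (PT.nd (nat_lit 53040) (PT.nd (nat_lit 78) (PT.lf (nat_lit 228) (nat_lit 3) (nat_lit 3) (nat_lit 1) (nat_lit 188) (nat_lit 134) (nat_lit 188)) (PT.lf (nat_lit 152) (nat_lit 6) (nat_lit 2) (nat_lit 1) (nat_lit 189) (nat_lit 134) (nat_lit 187)))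 (PT.nd (nat_lit 78) (PT.lf (nat_lit 304) (nat_lit 6) (nat_lit 4) (nat_lit 3) (nat_lit 187) (nat_lit 135) (nat_lit 188)) (PT.lf (nat_lit 304) (nat_lit 6) (nat_lit 4) (nat_lit 1) (nat_lit 188) (nat_lit 135) (nat_lit 187))))) (PT.nd (nat_lit 53118) (PT.nd (nat_lit 78) (PT.lf (nat_lit 380) (nat_lit 6) (nat_lit 5) (nat_lit 3) (nat_lit 186) (nat_lit 136) (nat_lit 188)) (PT.nd (nat_lit 78) (PT.lf (nat_lit 456) (nat_lit 3) (nat_lit 6) (nat_lit 1) (nat_lit 187) (nat_lit 136) (nat_lit 187)) (PT.lf (nat_lit 380) (nat_lit 6) (nat_lit 5) (nat_lit 1) (nat_lit 188) (nat_lit 136) (nat_lit 186)))) (PT.nd (nat_lit 53040) (PT.nd (nat_lit 78) (PT.lf (nat_lit 532) (nat_lit 6) (nat_lit 7) (nat_lit 3) (nat_lit 186) (nat_lit 137) (nat_lit 187)) (PT.lf (nat_lit 532) (nat_lit 6) (nat_lit 7) (nat_lit 1) (nat_lit 187) (nat_lit 137) (nat_lit 186))) (PT.nd (nat_lit 78) (PT.lf (nat_lit 608) (nat_lit 6) (nat_lit 8) (nat_lit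 3) (nat_lit 185) (nat_lit 138) (nat_lit 187)) (PT.lf (nat_lit 684) (nat_lit 3) (nat_lit 9) (nat_lit 1) (nat_lit 186) (nat_lit 138) (nat_lit 186)))))) (PT.nd (nat_lit 159198) (PT.nd (nat_lit 106002) (PT.nd (nat_lit 52962) (PT.lf (nat_lit 608) (nat_lit 6) (nat_lit 8) (nat_lit 1) (nat_lit 187) (nat_lit 138) (nat_lit 185)) (PT.nd (nat_lit 78) (PT.lf (nat_lit 760) (nat_lit 6) (nat_lit 10) (nat_lit 3) (nat_lit 185) (nat_lit 139) (nat_lit 186)) (PT.lf (nat_lit 760) (nat_lit 6) (nat_lit 10) (nat_lit 1) (nat_lit 186) (nat_lit 139) (nat_lit 185)))) (PT.nd (nat_lit 156) (PT.nd (nat_lit 78) (PT.lf (nat_lit 836) (nat_lit 6) (nat_lit 11) (nat_lit 3) (nat_lit 184) (nat_lit 140) (nat_lit 186)) (PT.lf (nat_lit 912) (nat_lit 3) (nat_lit 12) (nat_lit 1) (nat_lit 185) (nat_lit 140) (nat_lit 185))) (PT.nd (nat_lit 52962) (PT.lf (nat_lit 836) (nat_lit 6) (nat_lit 11) (nat_lit 1) (nat_lit 186) (nat_lit 140) (nat_lit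 184)) (PT.lf (nat_lit 988) (nat_lit 6) (nat_lit 13) (nat_lit 3) (nat_lit 184) (nat_lit 141) (nat_lit 185))))) (PT.nd (nat_lit 53118) (PT.nd (nat_lit 52962) (PT.lf (nat_lit 988) (nat_lit 6) (nat_lit 13) (nat_lit 1) (nat_lit 185) (nat_lit 141) (nat_lit 184)) (PT.nd (nat_lit 78) (PT.lf (nat_lit 1064) (nat_lit 6) (nat_lit 14) (nat_lit 3) (nat_lit 183) (nat_lit 142) (nat_lit 185)) (PT.lf (nat_lit 1140) (nat_lit 3) (nat_lit 15) (nat_lit 1) (nat_lit 184) (nat_lit 142) (nat_lit 184)))) (PT.nd (nat_lit 53040) (PT.nd (nat_lit 52962) (PT.lf (nat_lit 1064) (nat_lit 6) (nat_lit 14) (nat_lit 1) (nat_lit 185) (nat_lit 142) (nat_lit 183)) (PT.lf (nat_lit 1216) (nat_lit 6) (nat_lit 16) (nat_lit 3) (nat_lit 183) (nat_lit 143) (nat_lit 184))) (PT.nd (nat_lit 52962) (PT.lf (nat_lit 1216) (nat_lit 6) (nat_lit 16) (nat_lit 1) (nat_lit 184) (nat_lit 143) (nat_lit 183)) (PT.lf (nat_lit 1292) (nat_lit 6) (nat_lit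 17) (nat_lit 3) (nat_lit 182) (nat_lit 144) (nat_lit 184))))))) (PT.nd (nat_lit 318396) (PT.nd (nat_lit 159198) (PT.nd (nat_lit 53118) (PT.nd (nat_lit 78) (PT.lf (nat_lit 1368) (nat_lit 3) (nat_lit 18) (nat_lit 1) (nat_lit 183) (nat_lit 144) (nat_lit 183)) (PT.nd (nat_lit 52962) (PT.lf (nat_lit 1292) (nat_lit 6) (nat_lit 17) (nat_lit 1) (nat_lit 184) (nat_lit 144) (nat_lit 182)) (PT.lf (nat_lit 1444) (nat_lit 6) (nat_lit 19) (nat_lit 3) (nat_lit 182) (nat_lit 145) (nat_lit 183)))) (PT.nd (nat_lit 53040) (PT.nd (nat_lit 52962) (PT.lf (nat_lit 1444) (nat_lit 6) (nat_lit 19) (nat_lit 1) (nat_lit 183) (nat_lit 145) (nat_lit 182)) (PT.lf (nat_lit 1520) (nat_lit 6) (nat_lit 20) (nat_lit 3) (nat_lit 181) (nat_lit 146) (nat_lit 183))) (PT.nd (nat_lit 78) (PT.lf (nat_lit 1596) (nat_lit 3) (nat_lit 21) (nat_lit 1) (nat_lit 182) (nat_lit 146) (nat_lit 182)) (PT.lf (nat_lit 1520) (nat_lit 6) (nat_lit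 20) (nat_lit 1) (nat_lit 183) (nat_lit 146) (nat_lit 181))))) (PT.nd (nat_lit 53118) (PT.nd (nat_lit 78) (PT.lf (nat_lit 1672) (nat_lit 6) (nat_lit 22) (nat_lit 3) (nat_lit 181) (nat_lit 147) (nat_lit 182)) (PT.nd (nat_lit 52962) (PT.lf (nat_lit 1672) (nat_lit 6) (nat_lit 22) (nat_lit 1) (nat_lit 182) (nat_lit 147) (nat_lit 181)) (PT.lf (nat_lit 1748) (nat_lit 6) (nat_lit 23) (nat_lit 3) (nat_lit 180) (nat_lit 148) (nat_lit 182)))) (PT.nd (nat_lit 53040) (PT.nd (nat_lit 78) (PT.lf (nat_lit 1824) (nat_lit 3) (nat_lit 24) (nat_lit 1) (nat_lit 181) (nat_lit 148) (nat_lit 181)) (PT.lf (nat_lit 1748) (nat_lit 6) (nat_lit 23) (nat_lit 1) (nat_lit 182) (nat_lit 148) (nat_lit 180))) (PT.nd (nat_lit 78) (PT.lf (nat_lit 1900) (nat_lit 6) (nat_lit 25) (nat_lit 3) (nat_lit 180) (nat_lit 149) (nat_lit 181)) (PT.lf (nat_lit 1900) (nat_lit 6) (nat_lit 25) (nat_lit 1) (nat_lit 181) (nat_lit 149) (nat_lit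 180)))))) (PT.nd (nat_lit 106158) (PT.nd (nat_lit 53040) (PT.nd (nat_lit 78) (PT.lf (nat_lit 1976) (nat_lit 6) (nat_lit 26) (nat_lit 3) (nat_lit 179) (nat_lit 150) (nat_lit 181)) (PT.nd (nat_lit 78) (PT.lf (nat_lit 2052) (nat_lit 3) (nat_lit 27) (nat_lit 1) (nat_lit 180) (nat_lit 150) (nat_lit 180)) (PT.lf (nat_lit 1976) (nat_lit 6) (nat_lit 26) (nat_lit 1) (nat_lit 181) (nat_lit 150) (nat_lit 179)))) (PT.nd (nat_lit 156) (PT.nd (nat_lit 78) (PT.lf (nat_lit 2128) (nat_lit 6) (nat_lit 28) (nat_lit 3) (nat_lit 178) (nat_lit 151) (nat_lit 181)) (PT.lf (nat_lit 2204) (nat_lit 6) (nat_lit 29) (nat_lit 3) (nat_lit 179) (nat_lit 151) (nat_lit 180))) (PT.nd (nat_lit 78) (PT.lf (nat_lit 2204) (nat_lit 6) (nat_lit 29) (nat_lit 1) (nat_lit 180) (nat_lit 151) (nat_lit 179)) (PT.lf (nat_lit 2128) (nat_lit 6) (nat_lit 28) (nat_lit 1) (nat_lit 181) (nat_lit 151) (nat_lit 178))))) (PT.nd (nat_lit 53118)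 (PT.nd (nat_lit 156) (PT.nd (nat_lit 78) (PT.lf (nat_lit 2280) (nat_lit 6) (nat_lit 30) (nat_lit 3) (nat_lit 178) (nat_lit 152) (nat_lit 180)) (PT.lf (nat_lit 2356) (nat_lit 3) (nat_lit 31) (nat_lit 1) (nat_lit 179) (nat_lit 152) (nat_lit 179))) (PT.nd (nat_lit 52884) (PT.lf (nat_lit 2280) (nat_lit 6) (nat_lit 30) (nat_lit 1) (nat_lit 180) (nat_lit 152) (nat_lit 178)) (PT.lf (nat_lit 2432) (nat_lit 6) (nat_lit 32) (nat_lit 3) (nat_lit 177) (nat_lit 153) (nat_lit 180)))) (PT.nd (nat_lit 156) (PT.nd (nat_lit 78) (PT.lf (nat_lit 2508) (nat_lit 6) (nat_lit 33) (nat_lit 3) (nat_lit 178) (nat_lit 153) (nat_lit 179)) (PT.lf (nat_lit 2508) (nat_lit 6) (nat_lit 33) (nat_lit 1) (nat_lit 179) (nat_lit 153) (nat_lit 178))) (PT.nd (nat_lit 52884) (PT.lf (nat_lit 2432) (nat_lit 6) (nat_lit 32) (nat_lit 1) (nat_lit 180) (nat_lit 153) (nat_lit 177)) (PT.lf (nat_lit 2584) (nat_lit 6) (nat_lit 34) (nat_lit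 3) (nat_lit 177) (nat_lit 154) (nat_lit 179))))))))
noncomputable def pc1 : PT := (PT.nd (nat_lit 318552) (PT.nd (nat_lit 159354) (PT.nd (nat_lit 106080) (PT.nd (nat_lit 53040) (PT.nd (nat_lit 78) (PT.lf (nat_lit 2660) (nat_lit 3) (nat_lit 35) (nat_lit 1) (nat_lit 178) (nat_lit 154) (nat_lit 178)) (PT.nd (nat_lit 52884) (PT.lf (nat_lit 2584) (nat_lit 6) (nat_lit 34) (nat_lit 1) (nat_lit 179) (nat_lit 154) (nat_lit 177)) (PT.lf (nat_lit 2736) (nat_lit 6) (nat_lit 36) (nat_lit 3) (nat_lit 176) (nat_lit 155) (nat_lit 179)))) (PT.nd (nat_lit 156) (PT.nd (nat_lit 78) (PT.lf (nat_lit 2812) (nat_lit 6) (nat_lit 37) (nat_lit 3) (nat_lit 177) (nat_lit 155) (nat_lit 178)) (PT.lf (nat_lit 2812) (nat_lit 6) (nat_lit 37) (nat_lit 1) (nat_lit 178) (nat_lit 155) (nat_lit 177))) (PT.nd (nat_lit 52806) (PT.lf (nat_lit 2736) (nat_lit 6) (nat_lit 36) (nat_lit 1) (nat_lit 179) (nat_lit 155) (nat_lit 176)) (PT.lf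 (nat_lit 2888) (nat_lit 6) (nat_lit 38) (nat_lit 3) (nat_lit 175) (nat_lit 156) (nat_lit 179))))) (PT.nd (nat_lit 234) (PT.nd (nat_lit 78) (PT.lf (nat_lit 2964) (nat_lit 6) (nat_lit 39) (nat_lit 3) (nat_lit 176) (nat_lit 156) (nat_lit 178)) (PT.nd (nat_lit 78) (PT.lf (nat_lit 3040) (nat_lit 3) (nat_lit 40) (nat_lit 1) (nat_lit 177) (nat_lit 156) (nat_lit 177)) (PT.lf (nat_lit 2964) (nat_lit 6) (nat_lit 39) (nat_lit 1) (nat_lit 178) (nat_lit 156) (nat_lit 176)))) (PT.nd (nat_lit 52884) (PT.nd (nat_lit 52806) (PT.lf (nat_lit 2888) (nat_lit 6) (nat_lit 38) (nat_lit 1) (nat_lit 179) (nat_lit 156) (nat_lit 175)) (PT.lf (nat_lit 3116) (nat_lit 6) (nat_lit 41) (nat_lit 3) (nat_lit 175) (nat_lit 157) (nat_lit 178))) (PT.nd (nat_lit 78) (PT.lf (nat_lit 3192) (nat_lit 6) (nat_lit 42) (nat_lit 3) (nat_lit 176) (nat_lit 157) (nat_lit 177)) (PT.lf (nat_lit 3192) (nat_lit 6) (nat_lit 42) (nat_lit 1) (nat_lit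 177) (nat_lit 157) (nat_lit 176)))))) (PT.nd (nat_lit 105924) (PT.nd (nat_lit 52962) (PT.nd (nat_lit 52806) (PT.lf (nat_lit 3116) (nat_lit 6) (nat_lit 41) (nat_lit 1) (nat_lit 178) (nat_lit 157) (nat_lit 175)) (PT.nd (nat_lit 78) (PT.lf (nat_lit 3268) (nat_lit 6) (nat_lit 43) (nat_lit 3) (nat_lit 174) (nat_lit 158) (nat_lit 178)) (PT.lf (nat_lit 3344) (nat_lit 6) (nat_lit 44) (nat_lit 3) (nat_lit 175) (nat_lit 158) (nat_lit 177)))) (PT.nd (nat_lit 156) (PT.nd (nat_lit 78) (PT.lf (nat_lit 3420) (nat_lit 3) (nat_lit 45) (nat_lit 1) (nat_lit 176) (nat_lit 158) (nat_lit 176)) (PT.lf (nat_lit 3344) (nat_lit 6) (nat_lit 44) (nat_lit 1) (nat_lit 177) (nat_lit 158) (nat_lit 175))) (PT.nd (nat_lit 52728) (PT.lf (nat_lit 3268) (nat_lit 6) (nat_lit 43) (nat_lit 1) (nat_lit 178) (nat_lit 158) (nat_lit 174)) (PT.lf (nat_lit 3496) (nat_lit 6) (nat_lit 46) (nat_lit 3) (nat_lit 173) (nat_lit 159) (nat_lit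 178))))) (PT.nd (nat_lit 312) (PT.nd (nat_lit 156) (PT.nd (nat_lit 78) (PT.lf (nat_lit 3572) (nat_lit 6) (nat_lit 47) (nat_lit 3) (nat_lit 174) (nat_lit 159) (nat_lit 177)) (PT.lf (nat_lit 3648) (nat_lit 6) (nat_lit 48) (nat_lit 3) (nat_lit 175) (nat_lit 159) (nat_lit 176))) (PT.nd (nat_lit 78) (PT.lf (nat_lit 3648) (nat_lit 6) (nat_lit 48) (nat_lit 1) (nat_lit 176) (nat_lit 159) (nat_lit 175)) (PT.lf (nat_lit 3572) (nat_lit 6) (nat_lit 47) (nat_lit 1) (nat_lit 177) (nat_lit 159) (nat_lit 174)))) (PT.nd (nat_lit 52806) (PT.nd (nat_lit 52728) (PT.lf (nat_lit 3496) (nat_lit 6) (nat_lit 46) (nat_lit 1) (nat_lit 178) (nat_lit 159) (nat_lit 173)) (PT.lf (nat_lit 3724) (nat_lit 6) (nat_lit 49) (nat_lit 3) (nat_lit 173) (nat_lit 160) (nat_lit 177))) (PT.nd (nat_lit 78) (PT.lf (nat_lit 3800) (nat_lit 6) (nat_lit 50) (nat_lit 3) (nat_lit 174) (nat_lit 160) (nat_lit 176)) (PT.lf (nat_lit 3876) (nat_lit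 3) (nat_lit 51) (nat_lit 1) (nat_lit 175) (nat_lit 160) (nat_lit 175))))))) (PT.nd (nat_lit 106314) (PT.nd (nat_lit 53196) (PT.nd (nat_lit 52884) (PT.nd (nat_lit 78) (PT.lf (nat_lit 3800) (nat_lit 6) (nat_lit 50) (nat_lit 1) (nat_lit 176) (nat_lit 160) (nat_lit 174)) (PT.nd (nat_lit 52728) (PT.lf (nat_lit 3724) (nat_lit 6) (nat_lit 49) (nat_lit 1) (nat_lit 177) (nat_lit 160) (nat_lit 173)) (PT.lf (nat_lit 3952) (nat_lit 6) (nat_lit 52) (nat_lit 3) (nat_lit 172) (nat_lit 161) (nat_lit 177)))) (PT.nd (nat_lit 156) (PT.nd (nat_lit 78) (PT.lf (nat_lit 4028) (nat_lit 6) (nat_lit 53) (nat_lit 3) (nat_lit 173) (nat_lit 161) (nat_lit 176)) (PT.lf (nat_lit 4104) (nat_lit 6) (nat_lit 54) (nat_lit 3) (nat_lit 174) (nat_lit 161) (nat_lit 175))) (PT.nd (nat_lit 78) (PT.lf (nat_lit 4104) (nat_lit 6) (nat_lit 54) (nat_lit 1) (nat_lit 175) (nat_lit 161) (nat_lit 174)) (PT.lf (nat_lit 4028) (nat_lit 6) (nat_lit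 53) (nat_lit 1) (nat_lit 176) (nat_lit 161) (nat_lit 173))))) (PT.nd (nat_lit 52806) (PT.nd (nat_lit 52650) (PT.lf (nat_lit 3952) (nat_lit 6) (nat_lit 52) (nat_lit 1) (nat_lit 177) (nat_lit 161) (nat_lit 172)) (PT.nd (nat_lit 78) (PT.lf (nat_lit 4180) (nat_lit 6) (nat_lit 55) (nat_lit 3) (nat_lit 171) (nat_lit 162) (nat_lit 177)) (PT.lf (nat_lit 4256) (nat_lit 6) (nat_lit 56) (nat_lit 3) (nat_lit 172) (nat_lit 162) (nat_lit 176)))) (PT.nd (nat_lit 156) (PT.nd (nat_lit 78) (PT.lf (nat_lit 4332) (nat_lit 6) (nat_lit 57) (nat_lit 3) (nat_lit 173) (nat_lit 162) (nat_lit 175)) (PT.lf (nat_lit 4408) (nat_lit 3) (nat_lit 58) (nat_lit 1) (nat_lit 174) (nat_lit 162) (nat_lit 174))) (PT.nd (nat_lit 78) (PT.lf (nat_lit 4332) (nat_lit 6) (nat_lit 57) (nat_lit 1) (nat_lit 175) (nat_lit 162) (nat_lit 173)) (PT.lf (nat_lit 4256) (nat_lit 6) (nat_lit 56) (nat_lit 1) (nat_lit 176) (nat_lit 162) (nat_lit 172))))))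 (PT.nd (nat_lit 53040) (PT.nd (nat_lit 52728) (PT.nd (nat_lit 52572) (PT.lf (nat_lit 4180) (nat_lit 6) (nat_lit 55) (nat_lit 1) (nat_lit 177) (nat_lit 162) (nat_lit 171)) (PT.nd (nat_lit 78) (PT.lf (nat_lit 4560) (nat_lit 6) (nat_lit 60) (nat_lit 3) (nat_lit 170) (nat_lit 163) (nat_lit 177)) (PT.lf (nat_lit 4636) (nat_lit 6) (nat_lit 61) (nat_lit 3) (nat_lit 171) (nat_lit 163) (nat_lit 176)))) (PT.nd (nat_lit 156) (PT.nd (nat_lit 78) (PT.lf (nat_lit 4712) (nat_lit 6) (nat_lit 62) (nat_lit 3) (nat_lit 172) (nat_lit 163) (nat_lit 175)) (PT.lf (nat_lit 4788) (nat_lit 6) (nat_lit 63) (nat_lit 3) (nat_lit 173) (nat_lit 163) (nat_lit 174))) (PT.nd (nat_lit 78) (PT.lf (nat_lit 4788) (nat_lit 6) (nat_lit 63) (nat_lit 1) (nat_lit 174) (nat_lit 163) (nat_lit 173)) (PT.lf (nat_lit 4712) (nat_lit 6) (nat_lit 62) (nat_lit 1) (nat_lit 175) (nat_lit 163) (nat_lit 172))))) (PT.nd (nat_lit 52728) (PT.nd (nat_lit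 52572) (PT.nd (nat_lit 78) (PT.lf (nat_lit 4636) (nat_lit 6) (nat_lit 61) (nat_lit 1) (nat_lit 176) (nat_lit 163) (nat_lit 171)) (PT.lf (nat_lit 4560) (nat_lit 6) (nat_lit 60) (nat_lit 1) (nat_lit 177) (nat_lit 163) (nat_lit 170))) (PT.nd (nat_lit 78) (PT.lf (nat_lit 4484) (nat_lit 6) (nat_lit 59) (nat_lit 3) (nat_lit 169) (nat_lit 164) (nat_lit 177)) (PT.lf (nat_lit 5092) (nat_lit 6) (nat_lit 67) (nat_lit 3) (nat_lit 170) (nat_lit 164) (nat_lit 176)))) (PT.nd (nat_lit 156) (PT.nd (nat_lit 78) (PT.lf (nat_lit 5168) (nat_lit 6) (nat_lit 68) (nat_lit 3) (nat_lit 171) (nat_lit 164) (nat_lit 175)) (PT.lf (nat_lit 5244) (nat_lit 6) (nat_lit 69) (nat_lit 3) (nat_lit 172) (nat_lit 164) (nat_lit 174))) (PT.nd (nat_lit 78) (PT.lf (nat_lit 5320) (nat_lit 3) (nat_lit 70) (nat_lit 1) (nat_lit 173) (nat_lit 164) (nat_lit 173)) (PT.lf (nat_lit 5244) (nat_lit 6) (nat_lit 69) (nat_lit 1) (nat_lit 174) (nat_lit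 164) (nat_lit 172))))))))
noncomputable def pc2 : PT := (PT.nd (nat_lit 159354) (PT.nd (nat_lit 105924) (PT.nd (nat_lit 52962) (PT.nd (nat_lit 52650) (PT.nd (nat_lit 78) (PT.lf (nat_lit 5168) (nat_lit 6) (nat_lit 68) (nat_lit 1) (nat_lit 175) (nat_lit 164) (nat_lit 171)) (PT.nd (nat_lit 78) (PT.lf (nat_lit 5092) (nat_lit 6) (nat_lit 67) (nat_lit 1) (nat_lit 176) (nat_lit 164) (nat_lit 170)) (PT.lf (nat_lit 4484) (nat_lit 6) (nat_lit 59) (nat_lit 1) (nat_lit 177) (nat_lit 164) (nat_lit 169)))) (PT.nd (nat_lit 156) (PT.nd (nat_lit 78) (PT.lf (nat_lit 5016) (nat_lit 6) (nat_lit 66) (nat_lit 3) (nat_lit 169) (nat_lit 165) (nat_lit 176)) (PT.lf (nat_lit 5548) (nat_lit 6) (nat_lit 73) (nat_lit 3) (nat_lit 170) (nat_lit 165) (nat_lit 175))) (PT.nd (nat_lit 78) (PT.lf (nat_lit 5624) (nat_lit 6) (nat_lit 74) (nat_lit 3) (nat_lit 171) (nat_lit 165) (nat_lit 174)) (PT.lf (nat_lit 5700) (nat_lit 6) (nat_lit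 75) (nat_lit 3) (nat_lit 172) (nat_lit 165) (nat_lit 173))))) (PT.nd (nat_lit 234) (PT.nd (nat_lit 78) (PT.lf (nat_lit 5700) (nat_lit 6) (nat_lit 75) (nat_lit 1) (nat_lit 173) (nat_lit 165) (nat_lit 172)) (PT.nd (nat_lit 78) (PT.lf (nat_lit 5624) (nat_lit 6) (nat_lit 74) (nat_lit 1) (nat_lit 174) (nat_lit 165) (nat_lit 171)) (PT.lf (nat_lit 5548) (nat_lit 6) (nat_lit 73) (nat_lit 1) (nat_lit 175) (nat_lit 165) (nat_lit 170)))) (PT.nd (nat_lit 52572) (PT.nd (nat_lit 52494) (PT.lf (nat_lit 5016) (nat_lit 6) (nat_lit 66) (nat_lit 1) (nat_lit 176) (nat_lit 165) (nat_lit 169)) (PT.lf (nat_lit 4940) (nat_lit 6) (nat_lit 65) (nat_lit 3) (nat_lit 168) (nat_lit 166) (nat_lit 176))) (PT.nd (nat_lit 78) (PT.lf (nat_lit 5472) (nat_lit 6) (nat_lit 72) (nat_lit 3) (nat_lit 169) (nat_lit 166) (nat_lit 175)) (PT.lf (nat_lit 5928) (nat_lit 6) (nat_lit 78) (nat_lit 3) (nat_lit 170) (nat_lit 166) (nat_lit 174))))))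 (PT.nd (nat_lit 52884) (PT.nd (nat_lit 234) (PT.nd (nat_lit 78) (PT.lf (nat_lit 6004) (nat_lit 6) (nat_lit 79) (nat_lit 3) (nat_lit 171) (nat_lit 166) (nat_lit 173)) (PT.nd (nat_lit 78) (PT.lf (nat_lit 6080) (nat_lit 3) (nat_lit 80) (nat_lit 1) (nat_lit 172) (nat_lit 166) (nat_lit 172)) (PT.lf (nat_lit 6004) (nat_lit 6) (nat_lit 79) (nat_lit 1) (nat_lit 173) (nat_lit 166) (nat_lit 171)))) (PT.nd (nat_lit 156) (PT.nd (nat_lit 78) (PT.lf (nat_lit 5928) (nat_lit 6) (nat_lit 78) (nat_lit 1) (nat_lit 174) (nat_lit 166) (nat_lit 170)) (PT.lf (nat_lit 5472) (nat_lit 6) (nat_lit 72) (nat_lit 1) (nat_lit 175) (nat_lit 166) (nat_lit 169))) (PT.nd (nat_lit 52416) (PT.lf (nat_lit 4940) (nat_lit 6) (nat_lit 65) (nat_lit 1) (nat_lit 176) (nat_lit 166) (nat_lit 168)) (PT.lf (nat_lit 4864) (nat_lit 3) (nat_lit 64) (nat_lit 3) (nat_lit 167) (nat_lit 167) (nat_lit 176))))) (PT.nd (nat_lit 234) (PT.nd (nat_lit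 78) (PT.lf (nat_lit 5396) (nat_lit 6) (nat_lit 71) (nat_lit 3) (nat_lit 168) (nat_lit 167) (nat_lit 175)) (PT.nd (nat_lit 78) (PT.lf (nat_lit 5852) (nat_lit 6) (nat_lit 77) (nat_lit 3) (nat_lit 169) (nat_lit 167) (nat_lit 174)) (PT.lf (nat_lit 6232) (nat_lit 6) (nat_lit 82) (nat_lit 3) (nat_lit 170) (nat_lit 167) (nat_lit 173)))) (PT.nd (nat_lit 156) (PT.nd (nat_lit 78) (PT.lf (nat_lit 6308) (nat_lit 6) (nat_lit 83) (nat_lit 3) (nat_lit 171) (nat_lit 167) (nat_lit 172)) (PT.lf (nat_lit 6308) (nat_lit 6) (nat_lit 83) (nat_lit 1) (nat_lit 172) (nat_lit 167) (nat_lit 171))) (PT.nd (nat_lit 78) (PT.lf (nat_lit 6232) (nat_lit 6) (nat_lit 82) (nat_lit 1) (nat_lit 173) (nat_lit 167) (nat_lit 170)) (PT.lf (nat_lit 5852) (nat_lit 6) (nat_lit 77) (nat_lit 1) (nat_lit 174) (nat_lit 167) (nat_lit 169))))))) (PT.nd (nat_lit 105456) (PT.nd (nat_lit 52806) (PT.nd (nat_lit 52494) (PT.nd (nat_lit 78) (PT.lf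 (nat_lit 5396) (nat_lit 6) (nat_lit 71) (nat_lit 1) (nat_lit 175) (nat_lit 167) (nat_lit 168)) (PT.nd (nat_lit 52338) (PT.lf (nat_lit 4864) (nat_lit 3) (nat_lit 64) (nat_lit 0) (nat_lit 176) (nat_lit 167) (nat_lit 167)) (PT.lf (nat_lit 4940) (nat_lit 6) (nat_lit 65) (nat_lit 5) (nat_lit 166) (nat_lit 168) (nat_lit 176)))) (PT.nd (nat_lit 156) (PT.nd (nat_lit 78) (PT.lf (nat_lit 5396) (nat_lit 6) (nat_lit 71) (nat_lit 5) (nat_lit 167) (nat_lit 168) (nat_lit 175)) (PT.lf (nat_lit 5776) (nat_lit 3) (nat_lit 76) (nat_lit 3) (nat_lit 168) (nat_lit 168) (nat_lit 174))) (PT.nd (nat_lit 78) (PT.lf (nat_lit 6156) (nat_lit 6) (nat_lit 81) (nat_lit 3) (nat_lit 169) (nat_lit 168) (nat_lit 173)) (PT.lf (nat_lit 6460) (nat_lit 6) (nat_lit 85) (nat_lit 3) (nat_lit 170) (nat_lit 168) (nat_lit 172))))) (PT.nd (nat_lit 234) (PT.nd (nat_lit 78) (PT.lf (nat_lit 6536) (nat_lit 3) (nat_lit 86) (nat_lit 1) (nat_lit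 171) (nat_lit 168) (nat_lit 171)) (PT.nd (nat_lit 78) (PT.lf (nat_lit 6460) (nat_lit 6) (nat_lit 85) (nat_lit 1) (nat_lit 172) (nat_lit 168) (nat_lit 170)) (PT.lf (nat_lit 6156) (nat_lit 6) (nat_lit 81) (nat_lit 1) (nat_lit 173) (nat_lit 168) (nat_lit 169)))) (PT.nd (nat_lit 156) (PT.nd (nat_lit 78) (PT.lf (nat_lit 5776) (nat_lit 3) (nat_lit 76) (nat_lit 0) (nat_lit 174) (nat_lit 168) (nat_lit 168)) (PT.lf (nat_lit 5396) (nat_lit 6) (nat_lit 71) (nat_lit 0) (nat_lit 175) (nat_lit 168) (nat_lit 167))) (PT.nd (nat_lit 52182) (PT.lf (nat_lit 4940) (nat_lit 6) (nat_lit 65) (nat_lit 0) (nat_lit 176) (nat_lit 168) (nat_lit 166)) (PT.lf (nat_lit 4484) (nat_lit 6) (nat_lit 59) (nat_lit 5) (nat_lit 164) (nat_lit 169) (nat_lit 177)))))) (PT.nd (nat_lit 546) (PT.nd (nat_lit 234) (PT.nd (nat_lit 78) (PT.lf (nat_lit 5016) (nat_lit 6) (nat_lit 66) (nat_lit 5) (nat_lit 165) (nat_lit 169) (nat_lit 176))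 (PT.nd (nat_lit 78) (PT.lf (nat_lit 5472) (nat_lit 6) (nat_lit 72) (nat_lit 5) (nat_lit 166) (nat_lit 169) (nat_lit 175)) (PT.lf (nat_lit 5852) (nat_lit 6) (nat_lit 77) (nat_lit 5) (nat_lit 167) (nat_lit 169) (nat_lit 174)))) (PT.nd (nat_lit 156) (PT.nd (nat_lit 78) (PT.lf (nat_lit 6156) (nat_lit 6) (nat_lit 81) (nat_lit 5) (nat_lit 168) (nat_lit 169) (nat_lit 173)) (PT.lf (nat_lit 6384) (nat_lit 3) (nat_lit 84) (nat_lit 3) (nat_lit 169) (nat_lit 169) (nat_lit 172))) (PT.nd (nat_lit 78) (PT.lf (nat_lit 6612) (nat_lit 6) (nat_lit 87) (nat_lit 3) (nat_lit 170) (nat_lit 169) (nat_lit 171)) (PT.lf (nat_lit 6612) (nat_lit 6) (nat_lit 87) (nat_lit 1) (nat_lit 171) (nat_lit 169) (nat_lit 170))))) (PT.nd (nat_lit 312) (PT.nd (nat_lit 156) (PT.nd (nat_lit 78) (PT.lf (nat_lit 6384) (nat_lit 3) (nat_lit 84) (nat_lit 0) (nat_lit 172) (nat_lit 169) (nat_lit 169)) (PT.lf (nat_lit 6156) (nat_lit 6) (nat_lit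 81) (nat_lit 0) (nat_lit 173) (nat_lit 169) (nat_lit 168))) (PT.nd (nat_lit 78) (PT.lf (nat_lit 5852) (nat_lit 6) (nat_lit 77) (nat_lit 0) (nat_lit 174) (nat_lit 169) (nat_lit 167)) (PT.lf (nat_lit 5472) (nat_lit 6) (nat_lit 72) (nat_lit 0) (nat_lit 175) (nat_lit 169) (nat_lit 166)))) (PT.nd (nat_lit 52104) (PT.nd (nat_lit 78) (PT.lf (nat_lit 5016) (nat_lit 6) (nat_lit 66) (nat_lit 0) (nat_lit 176) (nat_lit 169) (nat_lit 165)) (PT.lf (nat_lit 4484) (nat_lit 6) (nat_lit 59) (nat_lit 0) (nat_lit 177) (nat_lit 169) (nat_lit 164))) (PT.nd (nat_lit 78) (PT.lf (nat_lit 4560) (nat_lit 6) (nat_lit 60) (nat_lit 5) (nat_lit 163) (nat_lit 170) (nat_lit 177)) (PT.lf (nat_lit 5092) (nat_lit 6) (nat_lit 67) (nat_lit 5) (nat_lit 164) (nat_lit 170) (nat_lit 176))))))))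
noncomputable def pc3 : PT := (PT.nd (nat_lit 105924) (PT.nd (nat_lit 52962) (PT.nd (nat_lit 546) (PT.nd (nat_lit 234) (PT.nd (nat_lit 78) (PT.lf (nat_lit 5548) (nat_lit 6) (nat_lit 73) (nat_lit 5) (nat_lit 165) (nat_lit 170) (nat_lit 175)) (PT.nd (nat_lit 78) (PT.lf (nat_lit 5928) (nat_lit 6) (nat_lit 78) (nat_lit 5) (nat_lit 166) (nat_lit 170) (nat_lit 174)) (PT.lf (nat_lit 6232) (nat_lit 6) (nat_lit 82) (nat_lit 5) (nat_lit 167) (nat_lit 170) (nat_lit 173)))) (PT.nd (nat_lit 156) (PT.nd (nat_lit 78) (PT.lf (nat_lit 6460) (nat_lit 6) (nat_lit 85) (nat_lit 5) (nat_lit 168) (nat_lit 170) (nat_lit 172)) (PT.lf (nat_lit 6612) (nat_lit 6) (nat_lit 87) (nat_lit 5) (nat_lit 169) (nat_lit 170) (nat_lit 171))) (PT.nd (nat_lit 78) (PT.lf (nat_lit 6688) (nat_lit 1) (nat_lit 88) (nat_lit 0) (nat_lit 170) (nat_lit 170) (nat_lit 170)) (PT.lf (nat_lit 6612) (nat_lit 6) (nat_lit 87) (nat_lit 0) (nat_lit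 171) (nat_lit 170) (nat_lit 169))))) (PT.nd (nat_lit 234) (PT.nd (nat_lit 78) (PT.lf (nat_lit 6460) (nat_lit 6) (nat_lit 85) (nat_lit 0) (nat_lit 172) (nat_lit 170) (nat_lit 168)) (PT.nd (nat_lit 78) (PT.lf (nat_lit 6232) (nat_lit 6) (nat_lit 82) (nat_lit 0) (nat_lit 173) (nat_lit 170) (nat_lit 167)) (PT.lf (nat_lit 5928) (nat_lit 6) (nat_lit 78) (nat_lit 0) (nat_lit 174) (nat_lit 170) (nat_lit 166)))) (PT.nd (nat_lit 156) (PT.nd (nat_lit 78) (PT.lf (nat_lit 5548) (nat_lit 6) (nat_lit 73) (nat_lit 0) (nat_lit 175) (nat_lit 170) (nat_lit 165)) (PT.lf (nat_lit 5092) (nat_lit 6) (nat_lit 67) (nat_lit 0) (nat_lit 176) (nat_lit 170) (nat_lit 164))) (PT.nd (nat_lit 51948) (PT.lf (nat_lit 4560) (nat_lit 6) (nat_lit 60) (nat_lit 0) (nat_lit 177) (nat_lit 170) (nat_lit 163)) (PT.lf (nat_lit 4180) (nat_lit 6) (nat_lit 55) (nat_lit 5) (nat_lit 162) (nat_lit 171) (nat_lit 177)))))) (PT.nd (nat_lit 546)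 (PT.nd (nat_lit 234) (PT.nd (nat_lit 78) (PT.lf (nat_lit 4636) (nat_lit 6) (nat_lit 61) (nat_lit 5) (nat_lit 163) (nat_lit 171) (nat_lit 176)) (PT.nd (nat_lit 78) (PT.lf (nat_lit 5168) (nat_lit 6) (nat_lit 68) (nat_lit 5) (nat_lit 164) (nat_lit 171) (nat_lit 175)) (PT.lf (nat_lit 5624) (nat_lit 6) (nat_lit 74) (nat_lit 5) (nat_lit 165) (nat_lit 171) (nat_lit 174)))) (PT.nd (nat_lit 156) (PT.nd (nat_lit 78) (PT.lf (nat_lit 6004) (nat_lit 6) (nat_lit 79) (nat_lit 5) (nat_lit 166) (nat_lit 171) (nat_lit 173)) (PT.lf (nat_lit 6308) (nat_lit 6) (nat_lit 83) (nat_lit 5) (nat_lit 167) (nat_lit 171) (nat_lit 172))) (PT.nd (nat_lit 78) (PT.lf (nat_lit 6536) (nat_lit 3) (nat_lit 86) (nat_lit 4) (nat_lit 168) (nat_lit 171) (nat_lit 171)) (PT.lf (nat_lit 6612) (nat_lit 6) (nat_lit 87) (nat_lit 4) (nat_lit 169) (nat_lit 171) (nat_lit 170))))) (PT.nd (nat_lit 312) (PT.nd (nat_lit 156) (PT.nd (nat_lit 78)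 (PT.lf (nat_lit 6612) (nat_lit 6) (nat_lit 87) (nat_lit 2) (nat_lit 170) (nat_lit 171) (nat_lit 169)) (PT.lf (nat_lit 6536) (nat_lit 3) (nat_lit 86) (nat_lit 0) (nat_lit 171) (nat_lit 171) (nat_lit 168))) (PT.nd (nat_lit 78) (PT.lf (nat_lit 6308) (nat_lit 6) (nat_lit 83) (nat_lit 0) (nat_lit 172) (nat_lit 171) (nat_lit 167)) (PT.lf (nat_lit 6004) (nat_lit 6) (nat_lit 79) (nat_lit 0) (nat_lit 173) (nat_lit 171) (nat_lit 166)))) (PT.nd (nat_lit 156) (PT.nd (nat_lit 78) (PT.lf (nat_lit 5624) (nat_lit 6) (nat_lit 74) (nat_lit 0) (nat_lit 174) (nat_lit 171) (nat_lit 165)) (PT.lf (nat_lit 5168) (nat_lit 6) (nat_lit 68) (nat_lit 0) (nat_lit 175) (nat_lit 171) (nat_lit 164))) (PT.nd (nat_lit 78) (PT.lf (nat_lit 4636) (nat_lit 6) (nat_lit 61) (nat_lit 0) (nat_lit 176) (nat_lit 171) (nat_lit 163)) (PT.lf (nat_lit 4180) (nat_lit 6) (nat_lit 55) (nat_lit 0) (nat_lit 177) (nat_lit 171) (nat_lit 162)))))))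 (PT.nd (nat_lit 1092) (PT.nd (nat_lit 546) (PT.nd (nat_lit 234) (PT.nd (nat_lit 78) (PT.lf (nat_lit 3952) (nat_lit 6) (nat_lit 52) (nat_lit 5) (nat_lit 161) (nat_lit 172) (nat_lit 177)) (PT.nd (nat_lit 78) (PT.lf (nat_lit 4256) (nat_lit 6) (nat_lit 56) (nat_lit 5) (nat_lit 162) (nat_lit 172) (nat_lit 176)) (PT.lf (nat_lit 4712) (nat_lit 6) (nat_lit 62) (nat_lit 5) (nat_lit 163) (nat_lit 172) (nat_lit 175)))) (PT.nd (nat_lit 156) (PT.nd (nat_lit 78) (PT.lf (nat_lit 5244) (nat_lit 6) (nat_lit 69) (nat_lit 5) (nat_lit 164) (nat_lit 172) (nat_lit 174)) (PT.lf (nat_lit 5700) (nat_lit 6) (nat_lit 75) (nat_lit 5) (nat_lit 165) (nat_lit 172) (nat_lit 173))) (PT.nd (nat_lit 78) (PT.lf (nat_lit 6080) (nat_lit 3) (nat_lit 80) (nat_lit 4) (nat_lit 166) (nat_lit 172) (nat_lit 172)) (PT.lf (nat_lit 6308) (nat_lit 6) (nat_lit 83) (nat_lit 4) (nat_lit 167) (nat_lit 172) (nat_lit 171))))) (PT.nd (nat_lit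 234) (PT.nd (nat_lit 78) (PT.lf (nat_lit 6460) (nat_lit 6) (nat_lit 85) (nat_lit 4) (nat_lit 168) (nat_lit 172) (nat_lit 170)) (PT.nd (nat_lit 78) (PT.lf (nat_lit 6384) (nat_lit 3) (nat_lit 84) (nat_lit 2) (nat_lit 169) (nat_lit 172) (nat_lit 169)) (PT.lf (nat_lit 6460) (nat_lit 6) (nat_lit 85) (nat_lit 2) (nat_lit 170) (nat_lit 172) (nat_lit 168)))) (PT.nd (nat_lit 156) (PT.nd (nat_lit 78) (PT.lf (nat_lit 6308) (nat_lit 6) (nat_lit 83) (nat_lit 2) (nat_lit 171) (nat_lit 172) (nat_lit 167)) (PT.lf (nat_lit 6080) (nat_lit 3) (nat_lit 80) (nat_lit 0) (nat_lit 172) (nat_lit 172) (nat_lit 166))) (PT.nd (nat_lit 78) (PT.lf (nat_lit 5700) (nat_lit 6) (nat_lit 75) (nat_lit 0) (nat_lit 173) (nat_lit 172) (nat_lit 165)) (PT.lf (nat_lit 5244) (nat_lit 6) (nat_lit 69) (nat_lit 0) (nat_lit 174) (nat_lit 172) (nat_lit 164)))))) (PT.nd (nat_lit 52182) (PT.nd (nat_lit 51870) (PT.nd (nat_lit 78) (PT.lf (nat_lit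 4712) (nat_lit 6) (nat_lit 62) (nat_lit 0) (nat_lit 175) (nat_lit 172) (nat_lit 163)) (PT.nd (nat_lit 78) (PT.lf (nat_lit 4256) (nat_lit 6) (nat_lit 56) (nat_lit 0) (nat_lit 176) (nat_lit 172) (nat_lit 162)) (PT.lf (nat_lit 3952) (nat_lit 6) (nat_lit 52) (nat_lit 0) (nat_lit 177) (nat_lit 172) (nat_lit 161)))) (PT.nd (nat_lit 156) (PT.nd (nat_lit 78) (PT.lf (nat_lit 3496) (nat_lit 6) (nat_lit 46) (nat_lit 5) (nat_lit 159) (nat_lit 173) (nat_lit 178)) (PT.lf (nat_lit 3724) (nat_lit 6) (nat_lit 49) (nat_lit 5) (nat_lit 160) (nat_lit 173) (nat_lit 177))) (PT.nd (nat_lit 78) (PT.lf (nat_lit 4028) (nat_lit 6) (nat_lit 53) (nat_lit 5) (nat_lit 161) (nat_lit 173) (nat_lit 176)) (PT.lf (nat_lit 4332) (nat_lit 6) (nat_lit 57) (nat_lit 5) (nat_lit 162) (nat_lit 173) (nat_lit 175))))) (PT.nd (nat_lit 312) (PT.nd (nat_lit 156) (PT.nd (nat_lit 78) (PT.lf (nat_lit 4788) (nat_lit 6) (nat_lit 63) (nat_lit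 5) (nat_lit 163) (nat_lit 173) (nat_lit 174)) (PT.lf (nat_lit 5320) (nat_lit 3) (nat_lit 70) (nat_lit 4) (nat_lit 164) (nat_lit 173) (nat_lit 173))) (PT.nd (nat_lit 78) (PT.lf (nat_lit 5700) (nat_lit 6) (nat_lit 75) (nat_lit 4) (nat_lit 165) (nat_lit 173) (nat_lit 172)) (PT.lf (nat_lit 6004) (nat_lit 6) (nat_lit 79) (nat_lit 4) (nat_lit 166) (nat_lit 173) (nat_lit 171)))) (PT.nd (nat_lit 156) (PT.nd (nat_lit 78) (PT.lf (nat_lit 6232) (nat_lit 6) (nat_lit 82) (nat_lit 4) (nat_lit 167) (nat_lit 173) (nat_lit 170)) (PT.lf (nat_lit 6156) (nat_lit 6) (nat_lit 81) (nat_lit 4) (nat_lit 168) (nat_lit 173) (nat_lit 169))) (PT.nd (nat_lit 78) (PT.lf (nat_lit 6156) (nat_lit 6) (nat_lit 81) (nat_lit 2) (nat_lit 169) (nat_lit 173) (nat_lit 168)) (PT.lf (nat_lit 6232) (nat_lit 6) (nat_lit 82) (nat_lit 2) (nat_lit 170) (nat_lit 173) (nat_lit 167))))))))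
noncomputable def pc4 : PT := (PT.nd (nat_lit 53664) (PT.nd (nat_lit 52572) (PT.nd (nat_lit 546) (PT.nd (nat_lit 234) (PT.nd (nat_lit 78) (PT.lf (nat_lit 6004) (nat_lit 6) (nat_lit 79) (nat_lit 2) (nat_lit 171) (nat_lit 173) (nat_lit 166)) (PT.nd (nat_lit 78) (PT.lf (nat_lit 5700) (nat_lit 6) (nat_lit 75) (nat_lit 2) (nat_lit 172) (nat_lit 173) (nat_lit 165)) (PT.lf (nat_lit 5320) (nat_lit 3) (nat_lit 70) (nat_lit 0) (nat_lit 173) (nat_lit 173) (nat_lit 164)))) (PT.nd (nat_lit 156) (PT.nd (nat_lit 78) (PT.lf (nat_lit 4788) (nat_lit 6) (nat_lit 63) (nat_lit 0) (nat_lit 174) (nat_lit 173) (nat_lit 163)) (PT.lf (nat_lit 4332) (nat_lit 6) (nat_lit 57) (nat_lit 0) (nat_lit 175) (nat_lit 173) (nat_lit 162))) (PT.nd (nat_lit 78) (PT.lf (nat_lit 4028) (nat_lit 6) (nat_lit 53) (nat_lit 0) (nat_lit 176) (nat_lit 173) (nat_lit 161)) (PT.lf (nat_lit 3724) (nat_lit 6) (nat_lit 49) (nat_lit 0) (nat_lit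 177) (nat_lit 173) (nat_lit 160))))) (PT.nd (nat_lit 51714) (PT.nd (nat_lit 51558) (PT.lf (nat_lit 3496) (nat_lit 6) (nat_lit 46) (nat_lit 0) (nat_lit 178) (nat_lit 173) (nat_lit 159)) (PT.nd (nat_lit 78) (PT.lf (nat_lit 3268) (nat_lit 6) (nat_lit 43) (nat_lit 5) (nat_lit 158) (nat_lit 174) (nat_lit 178)) (PT.lf (nat_lit 3572) (nat_lit 6) (nat_lit 47) (nat_lit 5) (nat_lit 159) (nat_lit 174) (nat_lit 177)))) (PT.nd (nat_lit 156) (PT.nd (nat_lit 78) (PT.lf (nat_lit 3800) (nat_lit 6) (nat_lit 50) (nat_lit 5) (nat_lit 160) (nat_lit 174) (nat_lit 176)) (PT.lf (nat_lit 4104) (nat_lit 6) (nat_lit 54) (nat_lit 5) (nat_lit 161) (nat_lit 174) (nat_lit 175))) (PT.nd (nat_lit 78) (PT.lf (nat_lit 4408) (nat_lit 3) (nat_lit 58) (nat_lit 4) (nat_lit 162) (nat_lit 174) (nat_lit 174)) (PT.lf (nat_lit 4788) (nat_lit 6) (nat_lit 63) (nat_lit 4) (nat_lit 163) (nat_lit 174) (nat_lit 173)))))) (PT.nd (nat_lit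 546) (PT.nd (nat_lit 234) (PT.nd (nat_lit 78) (PT.lf (nat_lit 5244) (nat_lit 6) (nat_lit 69) (nat_lit 4) (nat_lit 164) (nat_lit 174) (nat_lit 172)) (PT.nd (nat_lit 78) (PT.lf (nat_lit 5624) (nat_lit 6) (nat_lit 74) (nat_lit 4) (nat_lit 165) (nat_lit 174) (nat_lit 171)) (PT.lf (nat_lit 5928) (nat_lit 6) (nat_lit 78) (nat_lit 4) (nat_lit 166) (nat_lit 174) (nat_lit 170)))) (PT.nd (nat_lit 156) (PT.nd (nat_lit 78) (PT.lf (nat_lit 5852) (nat_lit 6) (nat_lit 77) (nat_lit 4) (nat_lit 167) (nat_lit 174) (nat_lit 169)) (PT.lf (nat_lit 5776) (nat_lit 3) (nat_lit 76) (nat_lit 2) (nat_lit 168) (nat_lit 174) (nat_lit 168))) (PT.nd (nat_lit 78) (PT.lf (nat_lit 5852) (nat_lit 6) (nat_lit 77) (nat_lit 2) (nat_lit 169) (nat_lit 174) (nat_lit 167)) (PT.lf (nat_lit 5928) (nat_lit 6) (nat_lit 78) (nat_lit 2) (nat_lit 170) (nat_lit 174) (nat_lit 166))))) (PT.nd (nat_lit 234) (PT.nd (nat_lit 78) (PT.lf (nat_lit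 5624) (nat_lit 6) (nat_lit 74) (nat_lit 2) (nat_lit 171) (nat_lit 174) (nat_lit 165)) (PT.nd (nat_lit 78) (PT.lf (nat_lit 5244) (nat_lit 6) (nat_lit 69) (nat_lit 2) (nat_lit 172) (nat_lit 174) (nat_lit 164)) (PT.lf (nat_lit 4788) (nat_lit 6) (nat_lit 63) (nat_lit 2) (nat_lit 173) (nat_lit 174) (nat_lit 163)))) (PT.nd (nat_lit 156) (PT.nd (nat_lit 78) (PT.lf (nat_lit 4408) (nat_lit 3) (nat_lit 58) (nat_lit 0) (nat_lit 174) (nat_lit 174) (nat_lit 162)) (PT.lf (nat_lit 4104) (nat_lit 6) (nat_lit 54) (nat_lit 0) (nat_lit 175) (nat_lit 174) (nat_lit 161))) (PT.nd (nat_lit 78) (PT.lf (nat_lit 3800) (nat_lit 6) (nat_lit 50) (nat_lit 0) (nat_lit 176) (nat_lit 174) (nat_lit 160)) (PT.lf (nat_lit 3572) (nat_lit 6) (nat_lit 47) (nat_lit 0) (nat_lit 177) (nat_lit 174) (nat_lit 159))))))) (PT.nd (nat_lit 52416) (PT.nd (nat_lit 51870) (PT.nd (nat_lit 51558) (PT.nd (nat_lit 51402) (PT.lf (nat_lit 3268)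 (nat_lit 6) (nat_lit 43) (nat_lit 0) (nat_lit 178) (nat_lit 174) (nat_lit 158)) (PT.nd (nat_lit 78) (PT.lf (nat_lit 2888) (nat_lit 6) (nat_lit 38) (nat_lit 5) (nat_lit 156) (nat_lit 175) (nat_lit 179)) (PT.lf (nat_lit 3116) (nat_lit 6) (nat_lit 41) (nat_lit 5) (nat_lit 157) (nat_lit 175) (nat_lit 178)))) (PT.nd (nat_lit 156) (PT.nd (nat_lit 78) (PT.lf (nat_lit 3344) (nat_lit 6) (nat_lit 44) (nat_lit 5) (nat_lit 158) (nat_lit 175) (nat_lit 177)) (PT.lf (nat_lit 3648) (nat_lit 6) (nat_lit 48) (nat_lit 5) (nat_lit 159) (nat_lit 175) (nat_lit 176))) (PT.nd (nat_lit 78) (PT.lf (nat_lit 3876) (nat_lit 3) (nat_lit 51) (nat_lit 4) (nat_lit 160) (nat_lit 175) (nat_lit 175)) (PT.lf (nat_lit 4104) (nat_lit 6) (nat_lit 54) (nat_lit 4) (nat_lit 161) (nat_lit 175) (nat_lit 174))))) (PT.nd (nat_lit 234) (PT.nd (nat_lit 78) (PT.lf (nat_lit 4332) (nat_lit 6) (nat_lit 57) (nat_lit 4) (nat_lit 162) (nat_lit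 175) (nat_lit 173)) (PT.nd (nat_lit 78) (PT.lf (nat_lit 4712) (nat_lit 6) (nat_lit 62) (nat_lit 4) (nat_lit 163) (nat_lit 175) (nat_lit 172)) (PT.lf (nat_lit 5168) (nat_lit 6) (nat_lit 68) (nat_lit 4) (nat_lit 164) (nat_lit 175) (nat_lit 171)))) (PT.nd (nat_lit 156) (PT.nd (nat_lit 78) (PT.lf (nat_lit 5548) (nat_lit 6) (nat_lit 73) (nat_lit 4) (nat_lit 165) (nat_lit 175) (nat_lit 170)) (PT.lf (nat_lit 5472) (nat_lit 6) (nat_lit 72) (nat_lit 4) (nat_lit 166) (nat_lit 175) (nat_lit 169))) (PT.nd (nat_lit 78) (PT.lf (nat_lit 5396) (nat_lit 6) (nat_lit 71) (nat_lit 4) (nat_lit 167) (nat_lit 175) (nat_lit 168)) (PT.lf (nat_lit 5396) (nat_lit 6) (nat_lit 71) (nat_lit 2) (nat_lit 168) (nat_lit 175) (nat_lit 167)))))) (PT.nd (nat_lit 546) (PT.nd (nat_lit 234) (PT.nd (nat_lit 78) (PT.lf (nat_lit 5472) (nat_lit 6) (nat_lit 72) (nat_lit 2) (nat_lit 169) (nat_lit 175) (nat_lit 166)) (PT.nd (nat_lit 78)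 (PT.lf (nat_lit 5548) (nat_lit 6) (nat_lit 73) (nat_lit 2) (nat_lit 170) (nat_lit 175) (nat_lit 165)) (PT.lf (nat_lit 5168) (nat_lit 6) (nat_lit 68) (nat_lit 2) (nat_lit 171) (nat_lit 175) (nat_lit 164)))) (PT.nd (nat_lit 156) (PT.nd (nat_lit 78) (PT.lf (nat_lit 4712) (nat_lit 6) (nat_lit 62) (nat_lit 2) (nat_lit 172) (nat_lit 175) (nat_lit 163)) (PT.lf (nat_lit 4332) (nat_lit 6) (nat_lit 57) (nat_lit 2) (nat_lit 173) (nat_lit 175) (nat_lit 162))) (PT.nd (nat_lit 78) (PT.lf (nat_lit 4104) (nat_lit 6) (nat_lit 54) (nat_lit 2) (nat_lit 174) (nat_lit 175) (nat_lit 161)) (PT.lf (nat_lit 3876) (nat_lit 3) (nat_lit 51) (nat_lit 0) (nat_lit 175) (nat_lit 175) (nat_lit 160))))) (PT.nd (nat_lit 51480) (PT.nd (nat_lit 156) (PT.nd (nat_lit 78) (PT.lf (nat_lit 3648) (nat_lit 6) (nat_lit 48) (nat_lit 0) (nat_lit 176) (nat_lit 175) (nat_lit 159)) (PT.lf (nat_lit 3344) (nat_lit 6) (nat_lit 44) (nat_lit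 0) (nat_lit 177) (nat_lit 175) (nat_lit 158))) (PT.nd (nat_lit 78) (PT.lf (nat_lit 3116) (nat_lit 6) (nat_lit 41) (nat_lit 0) (nat_lit 178) (nat_lit 175) (nat_lit 157)) (PT.lf (nat_lit 2888) (nat_lit 6) (nat_lit 38) (nat_lit 0) (nat_lit 179) (nat_lit 175) (nat_lit 156)))) (PT.nd (nat_lit 156) (PT.nd (nat_lit 78) (PT.lf (nat_lit 2736) (nat_lit 6) (nat_lit 36) (nat_lit 5) (nat_lit 155) (nat_lit 176) (nat_lit 179)) (PT.lf (nat_lit 2964) (nat_lit 6) (nat_lit 39) (nat_lit 5) (nat_lit 156) (nat_lit 176) (nat_lit 178))) (PT.nd (nat_lit 78) (PT.lf (nat_lit 3192) (nat_lit 6) (nat_lit 42) (nat_lit 5) (nat_lit 157) (nat_lit 176) (nat_lit 177)) (PT.lf (nat_lit 3420) (nat_lit 3) (nat_lit 45) (nat_lit 4) (nat_lit 158) (nat_lit 176) (nat_lit 176))))))))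
noncomputable def pc5 : PT := (PT.nd (nat_lit 53274) (PT.nd (nat_lit 1092) (PT.nd (nat_lit 546) (PT.nd (nat_lit 234) (PT.nd (nat_lit 78) (PT.lf (nat_lit 3648) (nat_lit 6) (nat_lit 48) (nat_lit 4) (nat_lit 159) (nat_lit 176) (nat_lit 175)) (PT.nd (nat_lit 78) (PT.lf (nat_lit 3800) (nat_lit 6) (nat_lit 50) (nat_lit 4) (nat_lit 160) (nat_lit 176) (nat_lit 174)) (PT.lf (nat_lit 4028) (nat_lit 6) (nat_lit 53) (nat_lit 4) (nat_lit 161) (nat_lit 176) (nat_lit 173)))) (PT.nd (nat_lit 156) (PT.nd (nat_lit 78) (PT.lf (nat_lit 4256) (nat_lit 6) (nat_lit 56) (nat_lit 4) (nat_lit 162) (nat_lit 176) (nat_lit 172)) (PT.lf (nat_lit 4636) (nat_lit 6) (nat_lit 61) (nat_lit 4) (nat_lit 163) (nat_lit 176) (nat_lit 171))) (PT.nd (nat_lit 78) (PT.lf (nat_lit 5092) (nat_lit 6) (nat_lit 67) (nat_lit 4) (nat_lit 164) (nat_lit 176) (nat_lit 170)) (PT.lf (nat_lit 5016) (nat_lit 6) (nat_lit 66) (nat_lit 4) (nat_lit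 165) (nat_lit 176) (nat_lit 169))))) (PT.nd (nat_lit 234) (PT.nd (nat_lit 78) (PT.lf (nat_lit 4940) (nat_lit 6) (nat_lit 65) (nat_lit 4) (nat_lit 166) (nat_lit 176) (nat_lit 168)) (PT.nd (nat_lit 78) (PT.lf (nat_lit 4864) (nat_lit 3) (nat_lit 64) (nat_lit 2) (nat_lit 167) (nat_lit 176) (nat_lit 167)) (PT.lf (nat_lit 4940) (nat_lit 6) (nat_lit 65) (nat_lit 2) (nat_lit 168) (nat_lit 176) (nat_lit 166)))) (PT.nd (nat_lit 156) (PT.nd (nat_lit 78) (PT.lf (nat_lit 5016) (nat_lit 6) (nat_lit 66) (nat_lit 2) (nat_lit 169) (nat_lit 176) (nat_lit 165)) (PT.lf (nat_lit 5092) (nat_lit 6) (nat_lit 67) (nat_lit 2) (nat_lit 170) (nat_lit 176) (nat_lit 164))) (PT.nd (nat_lit 78) (PT.lf (nat_lit 4636) (nat_lit 6) (nat_lit 61) (nat_lit 2) (nat_lit 171) (nat_lit 176) (nat_lit 163)) (PT.lf (nat_lit 4256) (nat_lit 6) (nat_lit 56) (nat_lit 2) (nat_lit 172) (nat_lit 176) (nat_lit 162)))))) (PT.nd (nat_lit 51558)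 (PT.nd (nat_lit 234) (PT.nd (nat_lit 78) (PT.lf (nat_lit 4028) (nat_lit 6) (nat_lit 53) (nat_lit 2) (nat_lit 173) (nat_lit 176) (nat_lit 161)) (PT.nd (nat_lit 78) (PT.lf (nat_lit 3800) (nat_lit 6) (nat_lit 50) (nat_lit 2) (nat_lit 174) (nat_lit 176) (nat_lit 160)) (PT.lf (nat_lit 3648) (nat_lit 6) (nat_lit 48) (nat_lit 2) (nat_lit 175) (nat_lit 176) (nat_lit 159)))) (PT.nd (nat_lit 156) (PT.nd (nat_lit 78) (PT.lf (nat_lit 3420) (nat_lit 3) (nat_lit 45) (nat_lit 0) (nat_lit 176) (nat_lit 176) (nat_lit 158)) (PT.lf (nat_lit 3192) (nat_lit 6) (nat_lit 42) (nat_lit 0) (nat_lit 177) (nat_lit 176) (nat_lit 157))) (PT.nd (nat_lit 78) (PT.lf (nat_lit 2964) (nat_lit 6) (nat_lit 39) (nat_lit 0) (nat_lit 178) (nat_lit 176) (nat_lit 156)) (PT.lf (nat_lit 2736) (nat_lit 6) (nat_lit 36) (nat_lit 0) (nat_lit 179) (nat_lit 176) (nat_lit 155))))) (PT.nd (nat_lit 312) (PT.nd (nat_lit 156) (PT.nd (nat_lit 78)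 (PT.lf (nat_lit 2432) (nat_lit 6) (nat_lit 32) (nat_lit 5) (nat_lit 153) (nat_lit 177) (nat_lit 180)) (PT.lf (nat_lit 2584) (nat_lit 6) (nat_lit 34) (nat_lit 5) (nat_lit 154) (nat_lit 177) (nat_lit 179))) (PT.nd (nat_lit 78) (PT.lf (nat_lit 2812) (nat_lit 6) (nat_lit 37) (nat_lit 5) (nat_lit 155) (nat_lit 177) (nat_lit 178)) (PT.lf (nat_lit 3040) (nat_lit 3) (nat_lit 40) (nat_lit 4) (nat_lit 156) (nat_lit 177) (nat_lit 177)))) (PT.nd (nat_lit 156) (PT.nd (nat_lit 78) (PT.lf (nat_lit 3192) (nat_lit 6) (nat_lit 42) (nat_lit 4) (nat_lit 157) (nat_lit 177) (nat_lit 176)) (PT.lf (nat_lit 3344) (nat_lit 6) (nat_lit 44) (nat_lit 4) (nat_lit 158) (nat_lit 177) (nat_lit 175))) (PT.nd (nat_lit 78) (PT.lf (nat_lit 3572) (nat_lit 6) (nat_lit 47) (nat_lit 4) (nat_lit 159) (nat_lit 177) (nat_lit 174)) (PT.lf (nat_lit 3724) (nat_lit 6) (nat_lit 49) (nat_lit 4) (nat_lit 160) (nat_lit 177) (nat_lit 173)))))))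 (PT.nd (nat_lit 1404) (PT.nd (nat_lit 858) (PT.nd (nat_lit 234) (PT.nd (nat_lit 78) (PT.lf (nat_lit 3952) (nat_lit 6) (nat_lit 52) (nat_lit 4) (nat_lit 161) (nat_lit 177) (nat_lit 172)) (PT.nd (nat_lit 78) (PT.lf (nat_lit 4180) (nat_lit 6) (nat_lit 55) (nat_lit 4) (nat_lit 162) (nat_lit 177) (nat_lit 171)) (PT.lf (nat_lit 4560) (nat_lit 6) (nat_lit 60) (nat_lit 4) (nat_lit 163) (nat_lit 177) (nat_lit 170)))) (PT.nd (nat_lit 468) (PT.nd (nat_lit 390) (PT.lf (nat_lit 4484) (nat_lit 6) (nat_lit 59) (nat_lit 4) (nat_lit 164) (nat_lit 177) (nat_lit 169)) (PT.lf (nat_lit 4484) (nat_lit 6) (nat_lit 59) (nat_lit 2) (nat_lit 169) (nat_lit 177) (nat_lit 164))) (PT.nd (nat_lit 78) (PT.lf (nat_lit 4560) (nat_lit 6) (nat_lit 60) (nat_lit 2) (nat_lit 170) (nat_lit 177) (nat_lit 163)) (PT.lf (nat_lit 4180) (nat_lit 6) (nat_lit 55) (nat_lit 2) (nat_lit 171) (nat_lit 177) (nat_lit 162))))) (PT.nd (nat_lit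 234) (PT.nd (nat_lit 78) (PT.lf (nat_lit 3952) (nat_lit 6) (nat_lit 52) (nat_lit 2) (nat_lit 172) (nat_lit 177) (nat_lit 161)) (PT.nd (nat_lit 78) (PT.lf (nat_lit 3724) (nat_lit 6) (nat_lit 49) (nat_lit 2) (nat_lit 173) (nat_lit 177) (nat_lit 160)) (PT.lf (nat_lit 3572) (nat_lit 6) (nat_lit 47) (nat_lit 2) (nat_lit 174) (nat_lit 177) (nat_lit 159)))) (PT.nd (nat_lit 156) (PT.nd (nat_lit 78) (PT.lf (nat_lit 3344) (nat_lit 6) (nat_lit 44) (nat_lit 2) (nat_lit 175) (nat_lit 177) (nat_lit 158)) (PT.lf (nat_lit 3192) (nat_lit 6) (nat_lit 42) (nat_lit 2) (nat_lit 176) (nat_lit 177) (nat_lit 157))) (PT.nd (nat_lit 78) (PT.lf (nat_lit 3040) (nat_lit 3) (nat_lit 40) (nat_lit 0) (nat_lit 177) (nat_lit 177) (nat_lit 156)) (PT.lf (nat_lit 2812) (nat_lit 6) (nat_lit 37) (nat_lit 0) (nat_lit 178) (nat_lit 177) (nat_lit 155)))))) (PT.nd (nat_lit 51324) (PT.nd (nat_lit 51012) (PT.nd (nat_lit 78) (PT.lf (nat_lit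 2584) (nat_lit 6) (nat_lit 34) (nat_lit 0) (nat_lit 179) (nat_lit 177) (nat_lit 154)) (PT.nd (nat_lit 50856) (PT.lf (nat_lit 2432) (nat_lit 6) (nat_lit 32) (nat_lit 0) (nat_lit 180) (nat_lit 177) (nat_lit 153)) (PT.lf (nat_lit 2128) (nat_lit 6) (nat_lit 28) (nat_lit 5) (nat_lit 151) (nat_lit 178) (nat_lit 181)))) (PT.nd (nat_lit 156) (PT.nd (nat_lit 78) (PT.lf (nat_lit 2280) (nat_lit 6) (nat_lit 30) (nat_lit 5) (nat_lit 152) (nat_lit 178) (nat_lit 180)) (PT.lf (nat_lit 2508) (nat_lit 6) (nat_lit 33) (nat_lit 5) (nat_lit 153) (nat_lit 178) (nat_lit 179))) (PT.nd (nat_lit 78) (PT.lf (nat_lit 2660) (nat_lit 3) (nat_lit 35) (nat_lit 4) (nat_lit 154) (nat_lit 178) (nat_lit 178)) (PT.lf (nat_lit 2812) (nat_lit 6) (nat_lit 37) (nat_lit 4) (nat_lit 155) (nat_lit 178) (nat_lit 177))))) (PT.nd (nat_lit 1326) (PT.nd (nat_lit 156) (PT.nd (nat_lit 78) (PT.lf (nat_lit 2964) (nat_lit 6) (nat_lit 39) (nat_lit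 4) (nat_lit 156) (nat_lit 178) (nat_lit 176)) (PT.lf (nat_lit 3116) (nat_lit 6) (nat_lit 41) (nat_lit 4) (nat_lit 157) (nat_lit 178) (nat_lit 175))) (PT.nd (nat_lit 78) (PT.lf (nat_lit 3268) (nat_lit 6) (nat_lit 43) (nat_lit 4) (nat_lit 158) (nat_lit 178) (nat_lit 174)) (PT.lf (nat_lit 3496) (nat_lit 6) (nat_lit 46) (nat_lit 4) (nat_lit 159) (nat_lit 178) (nat_lit 173)))) (PT.nd (nat_lit 156) (PT.nd (nat_lit 78) (PT.lf (nat_lit 3496) (nat_lit 6) (nat_lit 46) (nat_lit 2) (nat_lit 173) (nat_lit 178) (nat_lit 159)) (PT.lf (nat_lit 3268) (nat_lit 6) (nat_lit 43) (nat_lit 2) (nat_lit 174) (nat_lit 178) (nat_lit 158))) (PT.nd (nat_lit 78) (PT.lf (nat_lit 3116) (nat_lit 6) (nat_lit 41) (nat_lit 2) (nat_lit 175) (nat_lit 178) (nat_lit 157)) (PT.lf (nat_lit 2964) (nat_lit 6) (nat_lit 39) (nat_lit 2) (nat_lit 176) (nat_lit 178) (nat_lit 156))))))))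
noncomputable def pc6 : PT := (PT.nd (nat_lit 106470) (PT.nd (nat_lit 53118) (PT.nd (nat_lit 51168) (PT.nd (nat_lit 234) (PT.nd (nat_lit 78) (PT.lf (nat_lit 2812) (nat_lit 6) (nat_lit 37) (nat_lit 2) (nat_lit 177) (nat_lit 178) (nat_lit 155)) (PT.nd (nat_lit 78) (PT.lf (nat_lit 2660) (nat_lit 3) (nat_lit 35) (nat_lit 0) (nat_lit 178) (nat_lit 178) (nat_lit 154)) (PT.lf (nat_lit 2508) (nat_lit 6) (nat_lit 33) (nat_lit 0) (nat_lit 179) (nat_lit 178) (nat_lit 153)))) (PT.nd (nat_lit 50778) (PT.nd (nat_lit 78) (PT.lf (nat_lit 2280) (nat_lit 6) (nat_lit 30) (nat_lit 0) (nat_lit 180) (nat_lit 178) (nat_lit 152)) (PT.lf (nat_lit 2128) (nat_lit 6) (nat_lit 28) (nat_lit 0) (nat_lit 181) (nat_lit 178) (nat_lit 151))) (PT.nd (nat_lit 78) (PT.lf (nat_lit 1976) (nat_lit 6) (nat_lit 26) (nat_lit 5) (nat_lit 150) (nat_lit 179) (nat_lit 181)) (PT.lf (nat_lit 2204) (nat_lit 6) (nat_lit 29) (nat_lit 5) (nat_lit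 151) (nat_lit 179) (nat_lit 180))))) (PT.nd (nat_lit 234) (PT.nd (nat_lit 78) (PT.lf (nat_lit 2356) (nat_lit 3) (nat_lit 31) (nat_lit 4) (nat_lit 152) (nat_lit 179) (nat_lit 179)) (PT.nd (nat_lit 78) (PT.lf (nat_lit 2508) (nat_lit 6) (nat_lit 33) (nat_lit 4) (nat_lit 153) (nat_lit 179) (nat_lit 178)) (PT.lf (nat_lit 2584) (nat_lit 6) (nat_lit 34) (nat_lit 4) (nat_lit 154) (nat_lit 179) (nat_lit 177)))) (PT.nd (nat_lit 1560) (PT.nd (nat_lit 78) (PT.lf (nat_lit 2736) (nat_lit 6) (nat_lit 36) (nat_lit 4) (nat_lit 155) (nat_lit 179) (nat_lit 176)) (PT.lf (nat_lit 2888) (nat_lit 6) (nat_lit 38) (nat_lit 4) (nat_lit 156) (nat_lit 179) (nat_lit 175))) (PT.nd (nat_lit 78) (PT.lf (nat_lit 2888) (nat_lit 6) (nat_lit 38) (nat_lit 2) (nat_lit 175) (nat_lit 179) (nat_lit 156)) (PT.lf (nat_lit 2736) (nat_lit 6) (nat_lit 36) (nat_lit 2) (nat_lit 176) (nat_lit 179) (nat_lit 155)))))) (PT.nd (nat_lit 51012)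 (PT.nd (nat_lit 234) (PT.nd (nat_lit 78) (PT.lf (nat_lit 2584) (nat_lit 6) (nat_lit 34) (nat_lit 2) (nat_lit 177) (nat_lit 179) (nat_lit 154)) (PT.nd (nat_lit 78) (PT.lf (nat_lit 2508) (nat_lit 6) (nat_lit 33) (nat_lit 2) (nat_lit 178) (nat_lit 179) (nat_lit 153)) (PT.lf (nat_lit 2356) (nat_lit 3) (nat_lit 31) (nat_lit 0) (nat_lit 179) (nat_lit 179) (nat_lit 152)))) (PT.nd (nat_lit 50622) (PT.nd (nat_lit 78) (PT.lf (nat_lit 2204) (nat_lit 6) (nat_lit 29) (nat_lit 0) (nat_lit 180) (nat_lit 179) (nat_lit 151)) (PT.lf (nat_lit 1976) (nat_lit 6) (nat_lit 26) (nat_lit 0) (nat_lit 181) (nat_lit 179) (nat_lit 150))) (PT.nd (nat_lit 78) (PT.lf (nat_lit 1748) (nat_lit 6) (nat_lit 23) (nat_lit 5) (nat_lit 148) (nat_lit 180) (nat_lit 182)) (PT.lf (nat_lit 1900) (nat_lit 6) (nat_lit 25) (nat_lit 5) (nat_lit 149) (nat_lit 180) (nat_lit 181))))) (PT.nd (nat_lit 234) (PT.nd (nat_lit 78) (PT.lf (nat_lit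 2052) (nat_lit 3) (nat_lit 27) (nat_lit 4) (nat_lit 150) (nat_lit 180) (nat_lit 180)) (PT.nd (nat_lit 78) (PT.lf (nat_lit 2204) (nat_lit 6) (nat_lit 29) (nat_lit 4) (nat_lit 151) (nat_lit 180) (nat_lit 179)) (PT.lf (nat_lit 2280) (nat_lit 6) (nat_lit 30) (nat_lit 4) (nat_lit 152) (nat_lit 180) (nat_lit 178)))) (PT.nd (nat_lit 1950) (PT.nd (nat_lit 1872) (PT.lf (nat_lit 2432) (nat_lit 6) (nat_lit 32) (nat_lit 4) (nat_lit 153) (nat_lit 180) (nat_lit 177)) (PT.lf (nat_lit 2432) (nat_lit 6) (nat_lit 32) (nat_lit 2) (nat_lit 177) (nat_lit 180) (nat_lit 153))) (PT.nd (nat_lit 78) (PT.lf (nat_lit 2280) (nat_lit 6) (nat_lit 30) (nat_lit 2) (nat_lit 178) (nat_lit 180) (nat_lit 152)) (PT.lf (nat_lit 2204) (nat_lit 6) (nat_lit 29) (nat_lit 2) (nat_lit 179) (nat_lit 180) (nat_lit 151))))))) (PT.nd (nat_lit 53352) (PT.nd (nat_lit 50778) (PT.nd (nat_lit 50466) (PT.nd (nat_lit 78) (PT.lf (nat_lit 2052)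 (nat_lit 3) (nat_lit 27) (nat_lit 0) (nat_lit 180) (nat_lit 180) (nat_lit 150)) (PT.nd (nat_lit 78) (PT.lf (nat_lit 1900) (nat_lit 6) (nat_lit 25) (nat_lit 0) (nat_lit 181) (nat_lit 180) (nat_lit 149)) (PT.lf (nat_lit 1748) (nat_lit 6) (nat_lit 23) (nat_lit 0) (nat_lit 182) (nat_lit 180) (nat_lit 148)))) (PT.nd (nat_lit 156) (PT.nd (nat_lit 78) (PT.lf (nat_lit 1520) (nat_lit 6) (nat_lit 20) (nat_lit 5) (nat_lit 146) (nat_lit 181) (nat_lit 183)) (PT.lf (nat_lit 1672) (nat_lit 6) (nat_lit 22) (nat_lit 5) (nat_lit 147) (nat_lit 181) (nat_lit 182))) (PT.nd (nat_lit 78) (PT.lf (nat_lit 1824) (nat_lit 3) (nat_lit 24) (nat_lit 4) (nat_lit 148) (nat_lit 181) (nat_lit 181)) (PT.lf (nat_lit 1900) (nat_lit 6) (nat_lit 25) (nat_lit 4) (nat_lit 149) (nat_lit 181) (nat_lit 180))))) (PT.nd (nat_lit 2262) (PT.nd (nat_lit 78) (PT.lf (nat_lit 1976) (nat_lit 6) (nat_lit 26) (nat_lit 4) (nat_lit 150) (nat_lit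 181) (nat_lit 179)) (PT.nd (nat_lit 2106) (PT.lf (nat_lit 2128) (nat_lit 6) (nat_lit 28) (nat_lit 4) (nat_lit 151) (nat_lit 181) (nat_lit 178)) (PT.lf (nat_lit 2128) (nat_lit 6) (nat_lit 28) (nat_lit 2) (nat_lit 178) (nat_lit 181) (nat_lit 151)))) (PT.nd (nat_lit 156) (PT.nd (nat_lit 78) (PT.lf (nat_lit 1976) (nat_lit 6) (nat_lit 26) (nat_lit 2) (nat_lit 179) (nat_lit 181) (nat_lit 150)) (PT.lf (nat_lit 1900) (nat_lit 6) (nat_lit 25) (nat_lit 2) (nat_lit 180) (nat_lit 181) (nat_lit 149))) (PT.nd (nat_lit 78) (PT.lf (nat_lit 1824) (nat_lit 3) (nat_lit 24) (nat_lit 0) (nat_lit 181) (nat_lit 181) (nat_lit 148)) (PT.lf (nat_lit 1672) (nat_lit 6) (nat_lit 22) (nat_lit 0) (nat_lit 182) (nat_lit 181) (nat_lit 147)))))) (PT.nd (nat_lit 52962) (PT.nd (nat_lit 50232) (PT.nd (nat_lit 50076) (PT.lf (nat_lit 1520) (nat_lit 6) (nat_lit 20) (nat_lit 0) (nat_lit 183) (nat_lit 181) (nat_lit 146)) (PT.nd (nat_lit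 78) (PT.lf (nat_lit 1292) (nat_lit 6) (nat_lit 17) (nat_lit 5) (nat_lit 144) (nat_lit 182) (nat_lit 184)) (PT.lf (nat_lit 1444) (nat_lit 6) (nat_lit 19) (nat_lit 5) (nat_lit 145) (nat_lit 182) (nat_lit 183)))) (PT.nd (nat_lit 156) (PT.nd (nat_lit 78) (PT.lf (nat_lit 1596) (nat_lit 3) (nat_lit 21) (nat_lit 4) (nat_lit 146) (nat_lit 182) (nat_lit 182)) (PT.lf (nat_lit 1672) (nat_lit 6) (nat_lit 22) (nat_lit 4) (nat_lit 147) (nat_lit 182) (nat_lit 181))) (PT.nd (nat_lit 2496) (PT.lf (nat_lit 1748) (nat_lit 6) (nat_lit 23) (nat_lit 4) (nat_lit 148) (nat_lit 182) (nat_lit 180)) (PT.lf (nat_lit 1748) (nat_lit 6) (nat_lit 23) (nat_lit 2) (nat_lit 180) (nat_lit 182) (nat_lit 148))))) (PT.nd (nat_lit 50076) (PT.nd (nat_lit 156) (PT.nd (nat_lit 78) (PT.lf (nat_lit 1672) (nat_lit 6) (nat_lit 22) (nat_lit 2) (nat_lit 181) (nat_lit 182) (nat_lit 147)) (PT.lf (nat_lit 1596) (nat_lit 3) (nat_lit 21) (nat_lit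 0) (nat_lit 182) (nat_lit 182) (nat_lit 146))) (PT.nd (nat_lit 78) (PT.lf (nat_lit 1444) (nat_lit 6) (nat_lit 19) (nat_lit 0) (nat_lit 183) (nat_lit 182) (nat_lit 145)) (PT.lf (nat_lit 1292) (nat_lit 6) (nat_lit 17) (nat_lit 0) (nat_lit 184) (nat_lit 182) (nat_lit 144)))) (PT.nd (nat_lit 156) (PT.nd (nat_lit 78) (PT.lf (nat_lit 1064) (nat_lit 6) (nat_lit 14) (nat_lit 5) (nat_lit 142) (nat_lit 183) (nat_lit 185)) (PT.lf (nat_lit 1216) (nat_lit 6) (nat_lit 16) (nat_lit 5) (nat_lit 143) (nat_lit 183) (nat_lit 184))) (PT.nd (nat_lit 78) (PT.lf (nat_lit 1368) (nat_lit 3) (nat_lit 18) (nat_lit 4) (nat_lit 144) (nat_lit 183) (nat_lit 183)) (PT.lf (nat_lit 1444) (nat_lit 6) (nat_lit 19) (nat_lit 4) (nat_lit 145) (nat_lit 183) (nat_lit 182))))))))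
noncomputable def pc7 : PT := (PT.nd (nat_lit 158808) (PT.nd (nat_lit 56160) (PT.nd (nat_lit 52728) (PT.nd (nat_lit 2886) (PT.nd (nat_lit 2730) (PT.lf (nat_lit 1520) (nat_lit 6) (nat_lit 20) (nat_lit 4) (nat_lit 146) (nat_lit 183) (nat_lit 181)) (PT.nd (nat_lit 78) (PT.lf (nat_lit 1520) (nat_lit 6) (nat_lit 20) (nat_lit 2) (nat_lit 181) (nat_lit 183) (nat_lit 146)) (PT.lf (nat_lit 1444) (nat_lit 6) (nat_lit 19) (nat_lit 2) (nat_lit 182) (nat_lit 183) (nat_lit 145)))) (PT.nd (nat_lit 156) (PT.nd (nat_lit 78) (PT.lf (nat_lit 1368) (nat_lit 3) (nat_lit 18) (nat_lit 0) (nat_lit 183) (nat_lit 183) (nat_lit 144)) (PT.lf (nat_lit 1216) (nat_lit 6) (nat_lit 16) (nat_lit 0) (nat_lit 184) (nat_lit 183) (nat_lit 143))) (PT.nd (nat_lit 49608) (PT.lf (nat_lit 1064) (nat_lit 6) (nat_lit 14) (nat_lit 0) (nat_lit 185) (nat_lit 183) (nat_lit 142)) (PT.lf (nat_lit 836) (nat_lit 6) (nat_lit 11) (nat_lit 5)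 (nat_lit 140) (nat_lit 184) (nat_lit 186))))) (PT.nd (nat_lit 234) (PT.nd (nat_lit 78) (PT.lf (nat_lit 988) (nat_lit 6) (nat_lit 13) (nat_lit 5) (nat_lit 141) (nat_lit 184) (nat_lit 185)) (PT.nd (nat_lit 78) (PT.lf (nat_lit 1140) (nat_lit 3) (nat_lit 15) (nat_lit 4) (nat_lit 142) (nat_lit 184) (nat_lit 184)) (PT.lf (nat_lit 1216) (nat_lit 6) (nat_lit 16) (nat_lit 4) (nat_lit 143) (nat_lit 184) (nat_lit 183)))) (PT.nd (nat_lit 3042) (PT.nd (nat_lit 2964) (PT.lf (nat_lit 1292) (nat_lit 6) (nat_lit 17) (nat_lit 4) (nat_lit 144) (nat_lit 184) (nat_lit 182)) (PT.lf (nat_lit 1292) (nat_lit 6) (nat_lit 17) (nat_lit 2) (nat_lit 182) (nat_lit 184) (nat_lit 144))) (PT.nd (nat_lit 78) (PT.lf (nat_lit 1216) (nat_lit 6) (nat_lit 16) (nat_lit 2) (nat_lit 183) (nat_lit 184) (nat_lit 143)) (PT.lf (nat_lit 1140) (nat_lit 3) (nat_lit 15) (nat_lit 0) (nat_lit 184) (nat_lit 184) (nat_lit 142)))))) (PT.nd (nat_lit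 52962) (PT.nd (nat_lit 49530) (PT.nd (nat_lit 78) (PT.lf (nat_lit 988) (nat_lit 6) (nat_lit 13) (nat_lit 0) (nat_lit 185) (nat_lit 184) (nat_lit 141)) (PT.nd (nat_lit 49374) (PT.lf (nat_lit 836) (nat_lit 6) (nat_lit 11) (nat_lit 0) (nat_lit 186) (nat_lit 184) (nat_lit 140)) (PT.lf (nat_lit 608) (nat_lit 6) (nat_lit 8) (nat_lit 5) (nat_lit 138) (nat_lit 185) (nat_lit 187)))) (PT.nd (nat_lit 156) (PT.nd (nat_lit 78) (PT.lf (nat_lit 760) (nat_lit 6) (nat_lit 10) (nat_lit 5) (nat_lit 139) (nat_lit 185) (nat_lit 186)) (PT.lf (nat_lit 912) (nat_lit 3) (nat_lit 12) (nat_lit 4) (nat_lit 140) (nat_lit 185) (nat_lit 185))) (PT.nd (nat_lit 78) (PT.lf (nat_lit 988) (nat_lit 6) (nat_lit 13) (nat_lit 4) (nat_lit 141) (nat_lit 185) (nat_lit 184)) (PT.lf (nat_lit 1064) (nat_lit 6) (nat_lit 14) (nat_lit 4) (nat_lit 142) (nat_lit 185) (nat_lit 183))))) (PT.nd (nat_lit 312) (PT.nd (nat_lit 156) (PT.nd (nat_lit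 78) (PT.lf (nat_lit 1064) (nat_lit 6) (nat_lit 14) (nat_lit 2) (nat_lit 183) (nat_lit 185) (nat_lit 142)) (PT.lf (nat_lit 988) (nat_lit 6) (nat_lit 13) (nat_lit 2) (nat_lit 184) (nat_lit 185) (nat_lit 141))) (PT.nd (nat_lit 78) (PT.lf (nat_lit 912) (nat_lit 3) (nat_lit 12) (nat_lit 0) (nat_lit 185) (nat_lit 185) (nat_lit 140)) (PT.lf (nat_lit 760) (nat_lit 6) (nat_lit 10) (nat_lit 0) (nat_lit 186) (nat_lit 185) (nat_lit 139)))) (PT.nd (nat_lit 49218) (PT.nd (nat_lit 49140) (PT.lf (nat_lit 608) (nat_lit 6) (nat_lit 8) (nat_lit 0) (nat_lit 187) (nat_lit 185) (nat_lit 138)) (PT.lf (nat_lit 380) (nat_lit 6) (nat_lit 5) (nat_lit 5) (nat_lit 136) (nat_lit 186) (nat_lit 188))) (PT.nd (nat_lit 78) (PT.lf (nat_lit 532) (nat_lit 6) (nat_lit 7) (nat_lit 5) (nat_lit 137) (nat_lit 186) (nat_lit 187)) (PT.lf (nat_lit 684) (nat_lit 3) (nat_lit 9) (nat_lit 4) (nat_lit 138) (nat_lit 186) (nat_lit 186)))))))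 (PT.nd (nat_lit 56862) (PT.nd (nat_lit 52728) (PT.nd (nat_lit 3588) (PT.nd (nat_lit 78) (PT.lf (nat_lit 760) (nat_lit 6) (nat_lit 10) (nat_lit 4) (nat_lit 139) (nat_lit 186) (nat_lit 185)) (PT.nd (nat_lit 3432) (PT.lf (nat_lit 836) (nat_lit 6) (nat_lit 11) (nat_lit 4) (nat_lit 140) (nat_lit 186) (nat_lit 184)) (PT.lf (nat_lit 836) (nat_lit 6) (nat_lit 11) (nat_lit 2) (nat_lit 184) (nat_lit 186) (nat_lit 140)))) (PT.nd (nat_lit 156) (PT.nd (nat_lit 78) (PT.lf (nat_lit 760) (nat_lit 6) (nat_lit 10) (nat_lit 2) (nat_lit 185) (nat_lit 186) (nat_lit 139)) (PT.lf (nat_lit 684) (nat_lit 3) (nat_lit 9) (nat_lit 0) (nat_lit 186) (nat_lit 186) (nat_lit 138))) (PT.nd (nat_lit 78) (PT.lf (nat_lit 532) (nat_lit 6) (nat_lit 7) (nat_lit 0) (nat_lit 187) (nat_lit 186) (nat_lit 137)) (PT.lf (nat_lit 380) (nat_lit 6) (nat_lit 5) (nat_lit 0) (nat_lit 188) (nat_lit 186) (nat_lit 136))))) (PT.nd (nat_lit 234)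 (PT.nd (nat_lit 78) (PT.lf (nat_lit 152) (nat_lit 6) (nat_lit 2) (nat_lit 5) (nat_lit 134) (nat_lit 187) (nat_lit 189)) (PT.nd (nat_lit 78) (PT.lf (nat_lit 304) (nat_lit 6) (nat_lit 4) (nat_lit 5) (nat_lit 135) (nat_lit 187) (nat_lit 188)) (PT.lf (nat_lit 456) (nat_lit 3) (nat_lit 6) (nat_lit 4) (nat_lit 136) (nat_lit 187) (nat_lit 187)))) (PT.nd (nat_lit 3744) (PT.nd (nat_lit 78) (PT.lf (nat_lit 532) (nat_lit 6) (nat_lit 7) (nat_lit 4) (nat_lit 137) (nat_lit 187) (nat_lit 186)) (PT.lf (nat_lit 608) (nat_lit 6) (nat_lit 8) (nat_lit 4) (nat_lit 138) (nat_lit 187) (nat_lit 185))) (PT.nd (nat_lit 78) (PT.lf (nat_lit 608) (nat_lit 6) (nat_lit 8) (nat_lit 2) (nat_lit 185) (nat_lit 187) (nat_lit 138)) (PT.lf (nat_lit 532) (nat_lit 6) (nat_lit 7) (nat_lit 2) (nat_lit 186) (nat_lit 187) (nat_lit 137)))))) (PT.nd (nat_lit 53040) (PT.nd (nat_lit 48906) (PT.nd (nat_lit 78) (PT.lf (nat_lit 456) (nat_lit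 3) (nat_lit 6) (nat_lit 0) (nat_lit 187) (nat_lit 187) (nat_lit 136)) (PT.nd (nat_lit 78) (PT.lf (nat_lit 304) (nat_lit 6) (nat_lit 4) (nat_lit 0) (nat_lit 188) (nat_lit 187) (nat_lit 135)) (PT.lf (nat_lit 152) (nat_lit 6) (nat_lit 2) (nat_lit 0) (nat_lit 189) (nat_lit 187) (nat_lit 134)))) (PT.nd (nat_lit 156) (PT.nd (nat_lit 78) (PT.lf (nat_lit 76) (nat_lit 6) (nat_lit 1) (nat_lit 5) (nat_lit 133) (nat_lit 188) (nat_lit 189)) (PT.lf (nat_lit 228) (nat_lit 3) (nat_lit 3) (nat_lit 4) (nat_lit 134) (nat_lit 188) (nat_lit 188))) (PT.nd (nat_lit 78) (PT.lf (nat_lit 304) (nat_lit 6) (nat_lit 4) (nat_lit 4) (nat_lit 135) (nat_lit 188) (nat_lit 187)) (PT.lf (nat_lit 380) (nat_lit 6) (nat_lit 5) (nat_lit 4) (nat_lit 136) (nat_lit 188) (nat_lit 186))))) (PT.nd (nat_lit 48984) (PT.nd (nat_lit 156) (PT.nd (nat_lit 78) (PT.lf (nat_lit 380) (nat_lit 6) (nat_lit 5) (nat_lit 2) (nat_lit 186) (nat_lit 188)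 (nat_lit 136)) (PT.lf (nat_lit 304) (nat_lit 6) (nat_lit 4) (nat_lit 2) (nat_lit 187) (nat_lit 188) (nat_lit 135))) (PT.nd (nat_lit 78) (PT.lf (nat_lit 228) (nat_lit 3) (nat_lit 3) (nat_lit 0) (nat_lit 188) (nat_lit 188) (nat_lit 134)) (PT.lf (nat_lit 76) (nat_lit 6) (nat_lit 1) (nat_lit 0) (nat_lit 189) (nat_lit 188) (nat_lit 133)))) (PT.nd (nat_lit 4212) (PT.nd (nat_lit 78) (PT.lf (nat_lit 76) (nat_lit 6) (nat_lit 1) (nat_lit 4) (nat_lit 133) (nat_lit 189) (nat_lit 188)) (PT.lf (nat_lit 152) (nat_lit 6) (nat_lit 2) (nat_lit 4) (nat_lit 134) (nat_lit 189) (nat_lit 187))) (PT.nd (nat_lit 78) (PT.lf (nat_lit 152) (nat_lit 6) (nat_lit 2) (nat_lit 2) (nat_lit 187) (nat_lit 189) (nat_lit 134)) (PT.lf (nat_lit 76) (nat_lit 6) (nat_lit 1) (nat_lit 2) (nat_lit 188) (nat_lit 189) (nat_lit 133))))))))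
noncomputable def xc0 : XT := (XT.nd (nat_lit 212316) (nat_lit 0) (nat_lit 0) (XT.nd (nat_lit 158964) (nat_lit 0) (nat_lit 0) (XT.nd (nat_lit 105924) (nat_lit 0) (nat_lit 0) (XT.nd (nat_lit 53040) (nat_lit 0) (nat_lit 0) (XT.nd (nat_lit 52884) (nat_lit 0) (nat_lit 0) (XT.lf (nat_lit 0) (nat_lit 166527518259) (nat_lit 152) (nat_lit 1241486365641) (nat_lit 0) (nat_lit 166501381824) (nat_lit 1) (nat_lit 5) (nat_lit 3) (nat_lit 4) (nat_lit 1) (nat_lit 4) (nat_lit 439) (nat_lit 291) (nat_lit 290)) (XT.nd (nat_lit 78) (nat_lit 0) (nat_lit 0) (XT.lf (nat_lit 0) (nat_lit 63400547369) (nat_lit 152) (nat_lit 498286845587) (nat_lit 0) (nat_lit 63400547369) (nat_lit 1) (nat_lit 5) (nat_lit 3) (nat_lit 4) (nat_lit 1) (nat_lit 4) (nat_lit 436) (nat_lit 292) (nat_lit 292)) (XT.lf (nat_lit 0) (nat_lit 139115615088) (nat_lit 152) (nat_lit 1071876838583) (nat_lit 0) (nat_lit 139087387738) (nat_lit 1) (nat_lit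 5) (nat_lit 3) (nat_lit 4) (nat_lit 1) (nat_lit 4) (nat_lit 437) (nat_lit 292) (nat_lit 291)))) (XT.nd (nat_lit 78) (nat_lit 0) (nat_lit 0) (XT.lf (nat_lit 0) (nat_lit 152307985531) (nat_lit 152) (nat_lit 1153419880438) (nat_lit 0) (nat_lit 152253621745) (nat_lit 1) (nat_lit 5) (nat_lit 3) (nat_lit 4) (nat_lit 1) (nat_lit 4) (nat_lit 438) (nat_lit 292) (nat_lit 290)) (XT.nd (nat_lit 52728) (nat_lit 0) (nat_lit 0) (XT.lf (nat_lit 0) (nat_lit 166456383076) (nat_lit 152) (nat_lit 1241686034765) (nat_lit 0) (nat_lit 166377818889) (nat_lit 1) (nat_lit 5) (nat_lit 3) (nat_lit 4) (nat_lit 1) (nat_lit 4) (nat_lit 439) (nat_lit 292) (nat_lit 289)) (XT.lf (nat_lit 0) (nat_lit 52304568375) (nat_lit 152) (nat_lit 431407761599) (nat_lit 0) (nat_lit 52304568375) (nat_lit 1) (nat_lit 5) (nat_lit 3) (nat_lit 4) (nat_lit 1) (nat_lit 4) (nat_lit 434) (nat_lit 293) (nat_lit 293))))) (XT.nd (nat_lit 234) (nat_lit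 0) (nat_lit 0) (XT.nd (nat_lit 78) (nat_lit 0) (nat_lit 0) (XT.lf (nat_lit 0) (nat_lit 115321935083) (nat_lit 152) (nat_lit 927064197339) (nat_lit 0) (nat_lit 115291449545) (nat_lit 1) (nat_lit 5) (nat_lit 3) (nat_lit 4) (nat_lit 1) (nat_lit 4) (nat_lit 435) (nat_lit 293) (nat_lit 292)) (XT.nd (nat_lit 78) (nat_lit 0) (nat_lit 0) (XT.lf (nat_lit 0) (nat_lit 126775860825) (nat_lit 152) (nat_lit 996685659475) (nat_lit 0) (nat_lit 126717147937) (nat_lit 1) (nat_lit 5) (nat_lit 3) (nat_lit 4) (nat_lit 1) (nat_lit 4) (nat_lit 436) (nat_lit 293) (nat_lit 291)) (XT.lf (nat_lit 0) (nat_lit 139038789091) (nat_lit 152) (nat_lit 1072092481237) (nat_lit 0) (nat_lit 138953939768) (nat_lit 1) (nat_lit 5) (nat_lit 3) (nat_lit 4) (nat_lit 1) (nat_lit 4) (nat_lit 437) (nat_lit 293) (nat_lit 290)))) (XT.nd (nat_lit 52650) (nat_lit 0) (nat_lit 0) (XT.nd (nat_lit 78) (nat_lit 0) (nat_lit 0) (XT.lf (nat_lit 0)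 (nat_lit 152183389085) (nat_lit 152) (nat_lit 1153731517863) (nat_lit 0) (nat_lit 152074339359) (nat_lit 1) (nat_lit 5) (nat_lit 3) (nat_lit 4) (nat_lit 1) (nat_lit 4) (nat_lit 438) (nat_lit 293) (nat_lit 289)) (XT.lf (nat_lit 0) (nat_lit 166287554735) (nat_lit 152) (nat_lit 1242086556237) (nat_lit 0) (nat_lit 166156097228) (nat_lit 1) (nat_lit 5) (nat_lit 3) (nat_lit 4) (nat_lit 1) (nat_lit 4) (nat_lit 439) (nat_lit 293) (nat_lit 288))) (XT.nd (nat_lit 78) (nat_lit 0) (nat_lit 0) (XT.lf (nat_lit 0) (nat_lit 42627460266) (nat_lit 152) (nat_lit 374406295049) (nat_lit 0) (nat_lit 42627460266) (nat_lit 1) (nat_lit 5) (nat_lit 3) (nat_lit 4) (nat_lit 1) (nat_lit 4) (nat_lit 432) (nat_lit 294) (nat_lit 294)) (XT.lf (nat_lit 0) (nat_lit 94606906959) (nat_lit 152) (nat_lit 803558904173) (nat_lit 0) (nat_lit 94573982578) (nat_lit 1) (nat_lit 5) (nat_lit 3) (nat_lit 4) (nat_lit 1) (nat_lit 4) (nat_lit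 433) (nat_lit 294) (nat_lit 293)))))) (XT.nd (nat_lit 52806) (nat_lit 0) (nat_lit 0) (XT.nd (nat_lit 234) (nat_lit 0) (nat_lit 0) (XT.nd (nat_lit 78) (nat_lit 0) (nat_lit 0) (XT.lf (nat_lit 0) (nat_lit 104581884125) (nat_lit 152) (nat_lit 862936448964) (nat_lit 0) (nat_lit 104518474206) (nat_lit 1) (nat_lit 5) (nat_lit 3) (nat_lit 4) (nat_lit 1) (nat_lit 4) (nat_lit 434) (nat_lit 294) (nat_lit 292)) (XT.nd (nat_lit 78) (nat_lit 0) (nat_lit 0) (XT.lf (nat_lit 0) (nat_lit 115238963007) (nat_lit 152) (nat_lit 927297091405) (nat_lit 0) (nat_lit 115147325738) (nat_lit 1) (nat_lit 5) (nat_lit 3) (nat_lit 4) (nat_lit 1) (nat_lit 4) (nat_lit 435) (nat_lit 294) (nat_lit 291)) (XT.lf (nat_lit 0) (nat_lit 126641296664) (nat_lit 152) (nat_lit 997022227894) (nat_lit 0) (nat_lit 126523522960) (nat_lit 1) (nat_lit 5) (nat_lit 3) (nat_lit 4) (nat_lit 1) (nat_lit 4) (nat_lit 436) (nat_lit 294) (nat_lit 290))))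 (XT.nd (nat_lit 78) (nat_lit 0) (nat_lit 0) (XT.lf (nat_lit 0) (nat_lit 138856454481) (nat_lit 152) (nat_lit 1072525044426) (nat_lit 0) (nat_lit 138714480375) (nat_lit 1) (nat_lit 5) (nat_lit 3) (nat_lit 4) (nat_lit 1) (nat_lit 4) (nat_lit 437) (nat_lit 294) (nat_lit 289)) (XT.nd (nat_lit 78) (nat_lit 0) (nat_lit 0) (XT.lf (nat_lit 0) (nat_lit 151956822579) (nat_lit 152) (nat_lit 1154252965099) (nat_lit 0) (nat_lit 151792440692) (nat_lit 1) (nat_lit 5) (nat_lit 3) (nat_lit 4) (nat_lit 1) (nat_lit 4) (nat_lit 438) (nat_lit 294) (nat_lit 288)) (XT.lf (nat_lit 0) (nat_lit 166020032769) (nat_lit 152) (nat_lit 1242690303517) (nat_lit 0) (nat_lit 165834902937) (nat_lit 1) (nat_lit 5) (nat_lit 3) (nat_lit 4) (nat_lit 1) (nat_lit 4) (nat_lit 439) (nat_lit 294) (nat_lit 287))))) (XT.nd (nat_lit 234) (nat_lit 0) (nat_lit 0) (XT.nd (nat_lit 78) (nat_lit 0) (nat_lit 0) (XT.lf (nat_lit 0) (nat_lit 34153677681)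 (nat_lit 152) (nat_lit 325900218853) (nat_lit 0) (nat_lit 34153677681) (nat_lit 1) (nat_lit 5) (nat_lit 3) (nat_lit 4) (nat_lit 1) (nat_lit 4) (nat_lit 430) (nat_lit 295) (nat_lit 295)) (XT.nd (nat_lit 78) (nat_lit 0) (nat_lit 0) (XT.lf (nat_lit 0) (nat_lit 76506063998) (nat_lit 152) (nat_lit 698373084139) (nat_lit 0) (nat_lit 76470505666) (nat_lit 1) (nat_lit 5) (nat_lit 3) (nat_lit 4) (nat_lit 1) (nat_lit 4) (nat_lit 431) (nat_lit 295) (nat_lit 294)) (XT.lf (nat_lit 0) (nat_lit 85225487696) (nat_lit 152) (nat_lit 748943189924) (nat_lit 0) (nat_lit 85157004984) (nat_lit 1) (nat_lit 5) (nat_lit 3) (nat_lit 4) (nat_lit 1) (nat_lit 4) (nat_lit 432) (nat_lit 295) (nat_lit 293)))) (XT.nd (nat_lit 156) (nat_lit 0) (nat_lit 0) (XT.nd (nat_lit 78) (nat_lit 0) (nat_lit 0) (XT.lf (nat_lit 0) (nat_lit 94517297116) (nat_lit 152) (nat_lit 803810429764) (nat_lit 0) (nat_lit 94418328865) (nat_lit 1) (nat_lit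 5) (nat_lit 3) (nat_lit 4) (nat_lit 1) (nat_lit 4) (nat_lit 433) (nat_lit 295) (nat_lit 292)) (XT.lf (nat_lit 0) (nat_lit 104436554831) (nat_lit 152) (nat_lit 863299942856) (nat_lit 0) (nat_lit 104309359231) (nat_lit 1) (nat_lit 5) (nat_lit 3) (nat_lit 4) (nat_lit 1) (nat_lit 4) (nat_lit 434) (nat_lit 295) (nat_lit 291))) (XT.nd (nat_lit 78) (nat_lit 0) (nat_lit 0) (XT.lf (nat_lit 0) (nat_lit 115042041629) (nat_lit 152) (nat_lit 927764259649) (nat_lit 0) (nat_lit 114888709593) (nat_lit 1) (nat_lit 5) (nat_lit 3) (nat_lit 4) (nat_lit 1) (nat_lit 4) (nat_lit 435) (nat_lit 295) (nat_lit 290)) (XT.lf (nat_lit 0) (nat_lit 126396604838) (nat_lit 152) (nat_lit 997585390910) (nat_lit 0) (nat_lit 126219072399) (nat_lit 1) (nat_lit 5) (nat_lit 3) (nat_lit 4) (nat_lit 1) (nat_lit 4) (nat_lit 436) (nat_lit 295) (nat_lit 289))))))) (XT.nd (nat_lit 53196) (nat_lit 0) (nat_lit 0) (XT.nd (nat_lit 52650)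 (nat_lit 0) (nat_lit 0) (XT.nd (nat_lit 52416) (nat_lit 0) (nat_lit 0) (XT.nd (nat_lit 78) (nat_lit 0) (nat_lit 0) (XT.lf (nat_lit 0) (nat_lit 138567530759) (nat_lit 152) (nat_lit 1073177091489) (nat_lit 0) (nat_lit 138367590540) (nat_lit 1) (nat_lit 5) (nat_lit 3) (nat_lit 4) (nat_lit 1) (nat_lit 4) (nat_lit 437) (nat_lit 295) (nat_lit 288)) (XT.nd (nat_lit 78) (nat_lit 0) (nat_lit 0) (XT.lf (nat_lit 0) (nat_lit 151626943397) (nat_lit 152) (nat_lit 1154987312206) (nat_lit 0) (nat_lit 151406255233) (nat_lit 1) (nat_lit 5) (nat_lit 3) (nat_lit 4) (nat_lit 1) (nat_lit 4) (nat_lit 438) (nat_lit 295) (nat_lit 287)) (XT.lf (nat_lit 0) (nat_lit 165652231865) (nat_lit 152) (nat_lit 1243500854368) (nat_lit 0) (nat_lit 165412332641) (nat_lit 1) (nat_lit 5) (nat_lit 3) (nat_lit 4) (nat_lit 1) (nat_lit 4) (nat_lit 439) (nat_lit 295) (nat_lit 286)))) (XT.nd (nat_lit 78) (nat_lit 0) (nat_lit 0) (XT.lf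 (nat_lit 0) (nat_lit 26697375011) (nat_lit 152) (nat_lit 284706650113) (nat_lit 0) (nat_lit 26697375011) (nat_lit 1) (nat_lit 5) (nat_lit 3) (nat_lit 4) (nat_lit 1) (nat_lit 4) (nat_lit 428) (nat_lit 296) (nat_lit 296)) (XT.nd (nat_lit 78) (nat_lit 0) (nat_lit 0) (XT.lf (nat_lit 0) (nat_lit 60619179847) (nat_lit 152) (nat_lit 608949264575) (nat_lit 0) (nat_lit 60580776849) (nat_lit 1) (nat_lit 5) (nat_lit 3) (nat_lit 4) (nat_lit 1) (nat_lit 4) (nat_lit 429) (nat_lit 296) (nat_lit 295)) (XT.lf (nat_lit 0) (nat_lit 68275567899) (nat_lit 152) (nat_lit 651941485519) (nat_lit 0) (nat_lit 68201606570) (nat_lit 1) (nat_lit 5) (nat_lit 3) (nat_lit 4) (nat_lit 1) (nat_lit 4) (nat_lit 430) (nat_lit 296) (nat_lit 294))))) (XT.nd (nat_lit 234) (nat_lit 0) (nat_lit 0) (XT.nd (nat_lit 78) (nat_lit 0) (nat_lit 0) (XT.lf (nat_lit 0) (nat_lit 76409285367) (nat_lit 152) (nat_lit 698644731778) (nat_lit 0) (nat_lit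 76302399657) (nat_lit 1) (nat_lit 5) (nat_lit 3) (nat_lit 4) (nat_lit 1) (nat_lit 4) (nat_lit 431) (nat_lit 296) (nat_lit 293)) (XT.nd (nat_lit 78) (nat_lit 0) (nat_lit 0) (XT.lf (nat_lit 0) (nat_lit 85068532059) (nat_lit 152) (nat_lit 749335763328) (nat_lit 0) (nat_lit 84931160810) (nat_lit 1) (nat_lit 5) (nat_lit 3) (nat_lit 4) (nat_lit 1) (nat_lit 4) (nat_lit 432) (nat_lit 296) (nat_lit 292)) (XT.lf (nat_lit 0) (nat_lit 94304622027) (nat_lit 152) (nat_lit 804314971468) (nat_lit 0) (nat_lit 94139023429) (nat_lit 1) (nat_lit 5) (nat_lit 3) (nat_lit 4) (nat_lit 1) (nat_lit 4) (nat_lit 433) (nat_lit 296) (nat_lit 291)))) (XT.nd (nat_lit 156) (nat_lit 0) (nat_lit 0) (XT.nd (nat_lit 78) (nat_lit 0) (nat_lit 0) (XT.lf (nat_lit 0) (nat_lit 104172287659) (nat_lit 152) (nat_lit 863908158913) (nat_lit 0) (nat_lit 103980552625) (nat_lit 1) (nat_lit 5) (nat_lit 3) (nat_lit 4) (nat_lit 1) (nat_lit 4)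 (nat_lit 434) (nat_lit 296) (nat_lit 290)) (XT.lf (nat_lit 0) (nat_lit 114730004008) (nat_lit 152) (nat_lit 928468470477) (nat_lit 0) (nat_lit 114514068572) (nat_lit 1) (nat_lit 5) (nat_lit 3) (nat_lit 4) (nat_lit 1) (nat_lit 4) (nat_lit 435) (nat_lit 296) (nat_lit 289))) (XT.nd (nat_lit 78) (nat_lit 0) (nat_lit 0) (XT.lf (nat_lit 0) (nat_lit 126040335321) (nat_lit 152) (nat_lit 998378485785) (nat_lit 0) (nat_lit 125801992104) (nat_lit 1) (nat_lit 5) (nat_lit 3) (nat_lit 4) (nat_lit 1) (nat_lit 4) (nat_lit 436) (nat_lit 296) (nat_lit 288)) (XT.lf (nat_lit 0) (nat_lit 138170305782) (nat_lit 152) (nat_lit 1074052486408) (nat_lit 0) (nat_lit 137911214620) (nat_lit 1) (nat_lit 5) (nat_lit 3) (nat_lit 4) (nat_lit 1) (nat_lit 4) (nat_lit 437) (nat_lit 296) (nat_lit 287)))))) (XT.nd (nat_lit 52494) (nat_lit 0) (nat_lit 0) (XT.nd (nat_lit 52260) (nat_lit 0) (nat_lit 0) (XT.nd (nat_lit 78) (nat_lit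 0) (nat_lit 0) (XT.lf (nat_lit 0) (nat_lit 151191796698) (nat_lit 152) (nat_lit 1155938910869) (nat_lit 0) (nat_lit 150913494476) (nat_lit 1) (nat_lit 5) (nat_lit 3) (nat_lit 4) (nat_lit 1) (nat_lit 4) (nat_lit 438) (nat_lit 296) (nat_lit 286)) (XT.nd (nat_lit 52104) (nat_lit 0) (nat_lit 0) (XT.lf (nat_lit 0) (nat_lit 165181972460) (nat_lit 152) (nat_lit 1244523012054) (nat_lit 0) (nat_lit 164885882220) (nat_lit 1) (nat_lit 5) (nat_lit 3) (nat_lit 4) (nat_lit 1) (nat_lit 4) (nat_lit 439) (nat_lit 296) (nat_lit 285)) (XT.lf (nat_lit 0) (nat_lit 20098085378) (nat_lit 152) (nat_lit 249813783762) (nat_lit 0) (nat_lit 20098085378) (nat_lit 1) (nat_lit 5) (nat_lit 3) (nat_lit 4) (nat_lit 1) (nat_lit 4) (nat_lit 426) (nat_lit 297) (nat_lit 297)))) (XT.nd (nat_lit 78) (nat_lit 0) (nat_lit 0) (XT.lf (nat_lit 0) (nat_lit 46600942226) (nat_lit 152) (nat_lit 533099305281) (nat_lit 0) (nat_lit 46559466988)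 (nat_lit 1) (nat_lit 5) (nat_lit 3) (nat_lit 4) (nat_lit 1) (nat_lit 4) (nat_lit 427) (nat_lit 297) (nat_lit 296)) (XT.nd (nat_lit 78) (nat_lit 0) (nat_lit 0) (XT.lf (nat_lit 0) (nat_lit 53360419562) (nat_lit 152) (nat_lit 569565631865) (nat_lit 0) (nat_lit 53280541326) (nat_lit 1) (nat_lit 5) (nat_lit 3) (nat_lit 4) (nat_lit 1) (nat_lit 4) (nat_lit 428) (nat_lit 297) (nat_lit 295)) (XT.lf (nat_lit 0) (nat_lit 60514658926) (nat_lit 152) (nat_lit 609242644024) (nat_lit 0) (nat_lit 60399222359) (nat_lit 1) (nat_lit 5) (nat_lit 3) (nat_lit 4) (nat_lit 1) (nat_lit 4) (nat_lit 429) (nat_lit 297) (nat_lit 294))))) (XT.nd (nat_lit 234) (nat_lit 0) (nat_lit 0) (XT.nd (nat_lit 78) (nat_lit 0) (nat_lit 0) (XT.lf (nat_lit 0) (nat_lit 68106055811) (nat_lit 152) (nat_lit 652365464795) (nat_lit 0) (nat_lit 67957694863) (nat_lit 1) (nat_lit 5) (nat_lit 3) (nat_lit 4) (nat_lit 1) (nat_lit 4) (nat_lit 430)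 (nat_lit 297) (nat_lit 293)) (XT.nd (nat_lit 78) (nat_lit 0) (nat_lit 0) (XT.lf (nat_lit 0) (nat_lit 76179596272) (nat_lit 152) (nat_lit 699189636818) (nat_lit 0) (nat_lit 76000749786) (nat_lit 1) (nat_lit 5) (nat_lit 3) (nat_lit 4) (nat_lit 1) (nat_lit 4) (nat_lit 431) (nat_lit 297) (nat_lit 292)) (XT.lf (nat_lit 0) (nat_lit 84783123513) (nat_lit 152) (nat_lit 749992636669) (nat_lit 0) (nat_lit 84576049677) (nat_lit 1) (nat_lit 5) (nat_lit 3) (nat_lit 4) (nat_lit 1) (nat_lit 4) (nat_lit 432) (nat_lit 297) (nat_lit 291)))) (XT.nd (nat_lit 156) (nat_lit 0) (nat_lit 0) (XT.nd (nat_lit 78) (nat_lit 0) (nat_lit 0) (XT.lf (nat_lit 0) (nat_lit 93967621397) (nat_lit 152) (nat_lit 805075519162) (nat_lit 0) (nat_lit 93734411126) (nat_lit 1) (nat_lit 5) (nat_lit 3) (nat_lit 4) (nat_lit 1) (nat_lit 4) (nat_lit 433) (nat_lit 297) (nat_lit 290)) (XT.lf (nat_lit 0) (nat_lit 103787516580) (nat_lit 152)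 (nat_lit 864764701378) (nat_lit 0) (nat_lit 103530105906) (nat_lit 1) (nat_lit 5) (nat_lit 3) (nat_lit 4) (nat_lit 1) (nat_lit 4) (nat_lit 434) (nat_lit 297) (nat_lit 289))) (XT.nd (nat_lit 78) (nat_lit 0) (nat_lit 0) (XT.lf (nat_lit 0) (nat_lit 114301001033) (nat_lit 152) (nat_lit 929413896990) (nat_lit 0) (nat_lit 114021182579) (nat_lit 1) (nat_lit 5) (nat_lit 3) (nat_lit 4) (nat_lit 1) (nat_lit 4) (nat_lit 435) (nat_lit 297) (nat_lit 288)) (XT.lf (nat_lit 0) (nat_lit 125570376886) (nat_lit 152) (nat_lit 999406212341) (nat_lit 0) (nat_lit 125269810486) (nat_lit 1) (nat_lit 5) (nat_lit 3) (nat_lit 4) (nat_lit 1) (nat_lit 4) (nat_lit 436) (nat_lit 297) (nat_lit 287))))))))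
noncomputable def xc1 : XT := (XT.nd (nat_lit 105612) (nat_lit 0) (nat_lit 0) (XT.nd (nat_lit 52884) (nat_lit 0) (nat_lit 0) (XT.nd (nat_lit 52338) (nat_lit 0) (nat_lit 0) (XT.nd (nat_lit 52104) (nat_lit 0) (nat_lit 0) (XT.nd (nat_lit 78) (nat_lit 0) (nat_lit 0) (XT.lf (nat_lit 0) (nat_lit 137662425625) (nat_lit 152) (nat_lit 1075156416708) (nat_lit 0) (nat_lit 137342648166) (nat_lit 1) (nat_lit 5) (nat_lit 3) (nat_lit 4) (nat_lit 1) (nat_lit 4) (nat_lit 437) (nat_lit 297) (nat_lit 286)) (XT.nd (nat_lit 78) (nat_lit 0) (nat_lit 0) (XT.lf (nat_lit 0) (nat_lit 150648803836) (nat_lit 152) (nat_lit 1157113400192) (nat_lit 0) (nat_lit 150311238358) (nat_lit 1) (nat_lit 5) (nat_lit 3) (nat_lit 4) (nat_lit 1) (nat_lit 4) (nat_lit 438) (nat_lit 297) (nat_lit 285)) (XT.lf (nat_lit 0) (nat_lit 164606467833) (nat_lit 152) (nat_lit 1245762833804) (nat_lit 0) (nat_lit 164252431968) (nat_lit 1) (nat_lit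 5) (nat_lit 3) (nat_lit 4) (nat_lit 1) (nat_lit 4) (nat_lit 439) (nat_lit 297) (nat_lit 284)))) (XT.nd (nat_lit 78) (nat_lit 0) (nat_lit 0) (XT.lf (nat_lit 0) (nat_lit 14217009340) (nat_lit 152) (nat_lit 220356672505) (nat_lit 0) (nat_lit 14217009340) (nat_lit 1) (nat_lit 5) (nat_lit 3) (nat_lit 4) (nat_lit 1) (nat_lit 4) (nat_lit 424) (nat_lit 298) (nat_lit 298)) (XT.nd (nat_lit 78) (nat_lit 0) (nat_lit 0) (XT.lf (nat_lit 0) (nat_lit 34152944209) (nat_lit 152) (nat_lit 468952067554) (nat_lit 0) (nat_lit 34108150952) (nat_lit 1) (nat_lit 5) (nat_lit 3) (nat_lit 4) (nat_lit 1) (nat_lit 4) (nat_lit 425) (nat_lit 298) (nat_lit 297)) (XT.lf (nat_lit 0) (nat_lit 40159093860) (nat_lit 152) (nat_lit 499792085692) (nat_lit 0) (nat_lit 40072825365) (nat_lit 1) (nat_lit 5) (nat_lit 3) (nat_lit 4) (nat_lit 1) (nat_lit 4) (nat_lit 426) (nat_lit 298) (nat_lit 296))))) (XT.nd (nat_lit 234) (nat_lit 0)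 (nat_lit 0) (XT.nd (nat_lit 78) (nat_lit 0) (nat_lit 0) (XT.lf (nat_lit 0) (nat_lit 46488059632) (nat_lit 152) (nat_lit 533416155087) (nat_lit 0) (nat_lit 46363388139) (nat_lit 1) (nat_lit 5) (nat_lit 3) (nat_lit 4) (nat_lit 1) (nat_lit 4) (nat_lit 427) (nat_lit 298) (nat_lit 295)) (XT.nd (nat_lit 78) (nat_lit 0) (nat_lit 0) (XT.lf (nat_lit 0) (nat_lit 53177346507) (nat_lit 152) (nat_lit 570023529482) (nat_lit 0) (nat_lit 53017116683) (nat_lit 1) (nat_lit 5) (nat_lit 3) (nat_lit 4) (nat_lit 1) (nat_lit 4) (nat_lit 428) (nat_lit 298) (nat_lit 294)) (XT.lf (nat_lit 0) (nat_lit 60266594703) (nat_lit 152) (nat_lit 609831141468) (nat_lit 0) (nat_lit 60073440498) (nat_lit 1) (nat_lit 5) (nat_lit 3) (nat_lit 4) (nat_lit 1) (nat_lit 4) (nat_lit 429) (nat_lit 298) (nat_lit 293)))) (XT.nd (nat_lit 156) (nat_lit 0) (nat_lit 0) (XT.nd (nat_lit 78) (nat_lit 0) (nat_lit 0) (XT.lf (nat_lit 0) (nat_lit 67797814581)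 (nat_lit 152) (nat_lit 653074888004) (nat_lit 0) (nat_lit 67574174838) (nat_lit 1) (nat_lit 5) (nat_lit 3) (nat_lit 4) (nat_lit 1) (nat_lit 4) (nat_lit 430) (nat_lit 298) (nat_lit 292)) (XT.lf (nat_lit 0) (nat_lit 75815635592) (nat_lit 152) (nat_lit 700011028328) (nat_lit 0) (nat_lit 75563768499) (nat_lit 1) (nat_lit 5) (nat_lit 3) (nat_lit 4) (nat_lit 1) (nat_lit 4) (nat_lit 431) (nat_lit 298) (nat_lit 291))) (XT.nd (nat_lit 78) (nat_lit 0) (nat_lit 0) (XT.lf (nat_lit 0) (nat_lit 84367570748) (nat_lit 152) (nat_lit 750917702532) (nat_lit 0) (nat_lit 84089567220) (nat_lit 1) (nat_lit 5) (nat_lit 3) (nat_lit 4) (nat_lit 1) (nat_lit 4) (nat_lit 432) (nat_lit 298) (nat_lit 290)) (XT.lf (nat_lit 0) (nat_lit 93504298184) (nat_lit 152) (nat_lit 806096579796) (nat_lit 0) (nat_lit 93202094253) (nat_lit 1) (nat_lit 5) (nat_lit 3) (nat_lit 4) (nat_lit 1) (nat_lit 4) (nat_lit 433) (nat_lit 298) (nat_lit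 289)))))) (XT.nd (nat_lit 52182) (nat_lit 0) (nat_lit 0) (XT.nd (nat_lit 234) (nat_lit 0) (nat_lit 0) (XT.nd (nat_lit 78) (nat_lit 0) (nat_lit 0) (XT.lf (nat_lit 0) (nat_lit 103279961471) (nat_lit 152) (nat_lit 865874646059) (nat_lit 0) (nat_lit 102955349759) (nat_lit 1) (nat_lit 5) (nat_lit 3) (nat_lit 4) (nat_lit 1) (nat_lit 4) (nat_lit 434) (nat_lit 298) (nat_lit 288)) (XT.nd (nat_lit 78) (nat_lit 0) (nat_lit 0) (XT.lf (nat_lit 0) (nat_lit 113752490464) (nat_lit 152) (nat_lit 930606141714) (nat_lit 0) (nat_lit 113407130808) (nat_lit 1) (nat_lit 5) (nat_lit 3) (nat_lit 4) (nat_lit 1) (nat_lit 4) (nat_lit 435) (nat_lit 298) (nat_lit 287)) (XT.lf (nat_lit 0) (nat_lit 124983944594) (nat_lit 152) (nat_lit 1000674660810) (nat_lit 0) (nat_lit 124619373878) (nat_lit 1) (nat_lit 5) (nat_lit 3) (nat_lit 4) (nat_lit 1) (nat_lit 4) (nat_lit 436) (nat_lit 298) (nat_lit 286)))) (XT.nd (nat_lit 78) (nat_lit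 0) (nat_lit 0) (XT.lf (nat_lit 0) (nat_lit 137040880628) (nat_lit 152) (nat_lit 1076495424199) (nat_lit 0) (nat_lit 136658521893) (nat_lit 1) (nat_lit 5) (nat_lit 3) (nat_lit 4) (nat_lit 1) (nat_lit 4) (nat_lit 437) (nat_lit 298) (nat_lit 285)) (XT.nd (nat_lit 78) (nat_lit 0) (nat_lit 0) (XT.lf (nat_lit 0) (nat_lit 149994747074) (nat_lit 152) (nat_lit 1158517740111) (nat_lit 0) (nat_lit 149595917952) (nat_lit 1) (nat_lit 5) (nat_lit 3) (nat_lit 4) (nat_lit 1) (nat_lit 4) (nat_lit 438) (nat_lit 298) (nat_lit 284)) (XT.lf (nat_lit 0) (nat_lit 163922307587) (nat_lit 152) (nat_lit 1247227666713) (nat_lit 0) (nat_lit 163508228105) (nat_lit 1) (nat_lit 5) (nat_lit 3) (nat_lit 4) (nat_lit 1) (nat_lit 4) (nat_lit 439) (nat_lit 298) (nat_lit 283))))) (XT.nd (nat_lit 234) (nat_lit 0) (nat_lit 0) (XT.nd (nat_lit 78) (nat_lit 0) (nat_lit 0) (XT.lf (nat_lit 0) (nat_lit 8933825790) (nat_lit 152) (nat_lit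 195596476917) (nat_lit 0) (nat_lit 8933825790) (nat_lit 1) (nat_lit 5) (nat_lit 3) (nat_lit 4) (nat_lit 1) (nat_lit 4) (nat_lit 422) (nat_lit 299) (nat_lit 299)) (XT.nd (nat_lit 78) (nat_lit 0) (nat_lit 0) (XT.lf (nat_lit 0) (nat_lit 23016804064) (nat_lit 152) (nat_lit 414908577480) (nat_lit 0) (nat_lit 22968427346) (nat_lit 1) (nat_lit 5) (nat_lit 3) (nat_lit 4) (nat_lit 1) (nat_lit 4) (nat_lit 423) (nat_lit 299) (nat_lit 298)) (XT.lf (nat_lit 0) (nat_lit 28393975632) (nat_lit 152) (nat_lit 440891024631) (nat_lit 0) (nat_lit 28300805658) (nat_lit 1) (nat_lit 5) (nat_lit 3) (nat_lit 4) (nat_lit 1) (nat_lit 4) (nat_lit 424) (nat_lit 299) (nat_lit 297)))) (XT.nd (nat_lit 156) (nat_lit 0) (nat_lit 0) (XT.nd (nat_lit 78) (nat_lit 0) (nat_lit 0) (XT.lf (nat_lit 0) (nat_lit 34031031007) (nat_lit 152) (nat_lit 469294265344) (nat_lit 0) (nat_lit 33896385795) (nat_lit 1) (nat_lit 5) (nat_lit 3) (nat_lit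 4) (nat_lit 1) (nat_lit 4) (nat_lit 425) (nat_lit 299) (nat_lit 296)) (XT.lf (nat_lit 0) (nat_lit 39961374960) (nat_lit 152) (nat_lit 500286615119) (nat_lit 0) (nat_lit 39788326750) (nat_lit 1) (nat_lit 5) (nat_lit 3) (nat_lit 4) (nat_lit 1) (nat_lit 4) (nat_lit 426) (nat_lit 299) (nat_lit 295))) (XT.nd (nat_lit 78) (nat_lit 0) (nat_lit 0) (XT.lf (nat_lit 0) (nat_lit 46220150271) (nat_lit 152) (nat_lit 534051732326) (nat_lit 0) (nat_lit 46011543730) (nat_lit 1) (nat_lit 5) (nat_lit 3) (nat_lit 4) (nat_lit 1) (nat_lit 4) (nat_lit 427) (nat_lit 299) (nat_lit 294)) (XT.lf (nat_lit 0) (nat_lit 52844445978) (nat_lit 152) (nat_lit 570789706548) (nat_lit 0) (nat_lit 52602915056) (nat_lit 1) (nat_lit 5) (nat_lit 3) (nat_lit 4) (nat_lit 1) (nat_lit 4) (nat_lit 428) (nat_lit 299) (nat_lit 293))))))) (XT.nd (nat_lit 52572) (nat_lit 0) (nat_lit 0) (XT.nd (nat_lit 468) (nat_lit 0) (nat_lit 0) (XT.nd (nat_lit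 234) (nat_lit 0) (nat_lit 0) (XT.nd (nat_lit 78) (nat_lit 0) (nat_lit 0) (XT.lf (nat_lit 0) (nat_lit 59873517168) (nat_lit 152) (nat_lit 610718244298) (nat_lit 0) (nat_lit 59601500708) (nat_lit 1) (nat_lit 5) (nat_lit 3) (nat_lit 4) (nat_lit 1) (nat_lit 4) (nat_lit 429) (nat_lit 299) (nat_lit 292)) (XT.nd (nat_lit 78) (nat_lit 0) (nat_lit 0) (XT.lf (nat_lit 0) (nat_lit 67349017595) (nat_lit 152) (nat_lit 654073959135) (nat_lit 0) (nat_lit 67048773785) (nat_lit 1) (nat_lit 5) (nat_lit 3) (nat_lit 4) (nat_lit 1) (nat_lit 4) (nat_lit 430) (nat_lit 299) (nat_lit 291)) (XT.lf (nat_lit 0) (nat_lit 75315246522) (nat_lit 152) (nat_lit 701113773812) (nat_lit 0) (nat_lit 74988866276) (nat_lit 1) (nat_lit 5) (nat_lit 3) (nat_lit 4) (nat_lit 1) (nat_lit 4) (nat_lit 431) (nat_lit 299) (nat_lit 290)))) (XT.nd (nat_lit 78) (nat_lit 0) (nat_lit 0) (XT.lf (nat_lit 0) (nat_lit 83819411229) (nat_lit 152) (nat_lit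 752116442787) (nat_lit 0) (nat_lit 83468830581) (nat_lit 1) (nat_lit 5) (nat_lit 3) (nat_lit 4) (nat_lit 1) (nat_lit 4) (nat_lit 432) (nat_lit 299) (nat_lit 289)) (XT.nd (nat_lit 78) (nat_lit 0) (nat_lit 0) (XT.lf (nat_lit 0) (nat_lit 92911906769) (nat_lit 152) (nat_lit 807384204098) (nat_lit 0) (nat_lit 92538918341) (nat_lit 1) (nat_lit 5) (nat_lit 3) (nat_lit 4) (nat_lit 1) (nat_lit 4) (nat_lit 433) (nat_lit 299) (nat_lit 288)) (XT.lf (nat_lit 0) (nat_lit 102646614596) (nat_lit 152) (nat_lit 867244570405) (nat_lit 0) (nat_lit 102252878222) (nat_lit 1) (nat_lit 5) (nat_lit 3) (nat_lit 4) (nat_lit 1) (nat_lit 4) (nat_lit 434) (nat_lit 299) (nat_lit 287))))) (XT.nd (nat_lit 234) (nat_lit 0) (nat_lit 0) (XT.nd (nat_lit 78) (nat_lit 0) (nat_lit 0) (XT.lf (nat_lit 0) (nat_lit 113081221867) (nat_lit 152) (nat_lit 932052269804) (nat_lit 0) (nat_lit 112668274433) (nat_lit 1) (nat_lit 5) (nat_lit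 3) (nat_lit 4) (nat_lit 1) (nat_lit 4) (nat_lit 435) (nat_lit 299) (nat_lit 286)) (XT.nd (nat_lit 78) (nat_lit 0) (nat_lit 0) (XT.lf (nat_lit 0) (nat_lit 124277563292) (nat_lit 152) (nat_lit 1002191347922) (nat_lit 0) (nat_lit 123846827840) (nat_lit 1) (nat_lit 5) (nat_lit 3) (nat_lit 4) (nat_lit 1) (nat_lit 4) (nat_lit 436) (nat_lit 299) (nat_lit 285)) (XT.lf (nat_lit 0) (nat_lit 136301987562) (nat_lit 152) (nat_lit 1078077443740) (nat_lit 0) (nat_lit 135854781722) (nat_lit 1) (nat_lit 5) (nat_lit 3) (nat_lit 4) (nat_lit 1) (nat_lit 4) (nat_lit 437) (nat_lit 299) (nat_lit 284)))) (XT.nd (nat_lit 51714) (nat_lit 0) (nat_lit 0) (XT.nd (nat_lit 78) (nat_lit 0) (nat_lit 0) (XT.lf (nat_lit 0) (nat_lit 149225750522) (nat_lit 152) (nat_lit 1160160252641) (nat_lit 0) (nat_lit 148763294324) (nat_lit 1) (nat_lit 5) (nat_lit 3) (nat_lit 4) (nat_lit 1) (nat_lit 4) (nat_lit 438) (nat_lit 299) (nat_lit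 283)) (XT.lf (nat_lit 0) (nat_lit 163125437437) (nat_lit 152) (nat_lit 1248926191269) (nat_lit 0) (nat_lit 162648860536) (nat_lit 1) (nat_lit 5) (nat_lit 3) (nat_lit 4) (nat_lit 1) (nat_lit 4) (nat_lit 439) (nat_lit 299) (nat_lit 282))) (XT.nd (nat_lit 78) (nat_lit 0) (nat_lit 0) (XT.lf (nat_lit 0) (nat_lit 4143949980) (nat_lit 152) (nat_lit 174902691823) (nat_lit 0) (nat_lit 4143949980) (nat_lit 1) (nat_lit 5) (nat_lit 3) (nat_lit 4) (nat_lit 1) (nat_lit 4) (nat_lit 420) (nat_lit 300) (nat_lit 300)) (XT.lf (nat_lit 0) (nat_lit 12968251542) (nat_lit 152) (nat_lit 369603616664) (nat_lit 0) (nat_lit 12916004687) (nat_lit 1) (nat_lit 5) (nat_lit 3) (nat_lit 4) (nat_lit 1) (nat_lit 4) (nat_lit 421) (nat_lit 300) (nat_lit 299)))))) (XT.nd (nat_lit 468) (nat_lit 0) (nat_lit 0) (XT.nd (nat_lit 234) (nat_lit 0) (nat_lit 0) (XT.nd (nat_lit 78) (nat_lit 0) (nat_lit 0) (XT.lf (nat_lit 0) (nat_lit 17824405088)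 (nat_lit 152) (nat_lit 391384847826) (nat_lit 0) (nat_lit 17723781516) (nat_lit 1) (nat_lit 5) (nat_lit 3) (nat_lit 4) (nat_lit 1) (nat_lit 4) (nat_lit 422) (nat_lit 300) (nat_lit 298)) (XT.nd (nat_lit 78) (nat_lit 0) (nat_lit 0) (XT.lf (nat_lit 0) (nat_lit 22885137805) (nat_lit 152) (nat_lit 415278151094) (nat_lit 0) (nat_lit 22739720976) (nat_lit 1) (nat_lit 5) (nat_lit 3) (nat_lit 4) (nat_lit 1) (nat_lit 4) (nat_lit 423) (nat_lit 300) (nat_lit 297)) (XT.lf (nat_lit 0) (nat_lit 28180439220) (nat_lit 152) (nat_lit 441425116413) (nat_lit 0) (nat_lit 27993547154) (nat_lit 1) (nat_lit 5) (nat_lit 3) (nat_lit 4) (nat_lit 1) (nat_lit 4) (nat_lit 424) (nat_lit 300) (nat_lit 296)))) (XT.nd (nat_lit 78) (nat_lit 0) (nat_lit 0) (XT.lf (nat_lit 0) (nat_lit 33741688897) (nat_lit 152) (nat_lit 469980688763) (nat_lit 0) (nat_lit 33516393833) (nat_lit 1) (nat_lit 5) (nat_lit 3) (nat_lit 4) (nat_lit 1)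 (nat_lit 4) (nat_lit 425) (nat_lit 300) (nat_lit 295)) (XT.nd (nat_lit 78) (nat_lit 0) (nat_lit 0) (XT.lf (nat_lit 0) (nat_lit 39601842390) (nat_lit 152) (nat_lit 501114086350) (nat_lit 0) (nat_lit 39340988994) (nat_lit 1) (nat_lit 5) (nat_lit 3) (nat_lit 4) (nat_lit 1) (nat_lit 4) (nat_lit 426) (nat_lit 300) (nat_lit 294)) (XT.lf (nat_lit 0) (nat_lit 45795626533) (nat_lit 152) (nat_lit 535009803383) (nat_lit 0) (nat_lit 45501848756) (nat_lit 1) (nat_lit 5) (nat_lit 3) (nat_lit 4) (nat_lit 1) (nat_lit 4) (nat_lit 427) (nat_lit 300) (nat_lit 293))))) (XT.nd (nat_lit 234) (nat_lit 0) (nat_lit 0) (XT.nd (nat_lit 78) (nat_lit 0) (nat_lit 0) (XT.lf (nat_lit 0) (nat_lit 52359745234) (nat_lit 152) (nat_lit 571868703370) (nat_lit 0) (nat_lit 52035481919) (nat_lit 1) (nat_lit 5) (nat_lit 3) (nat_lit 4) (nat_lit 1) (nat_lit 4) (nat_lit 428) (nat_lit 300) (nat_lit 292)) (XT.nd (nat_lit 78) (nat_lit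 0) (nat_lit 0) (XT.lf (nat_lit 0) (nat_lit 59333096973) (nat_lit 152) (nat_lit 611909209421) (nat_lit 0) (nat_lit 58980606308) (nat_lit 1) (nat_lit 5) (nat_lit 3) (nat_lit 4) (nat_lit 1) (nat_lit 4) (nat_lit 429) (nat_lit 300) (nat_lit 291)) (XT.lf (nat_lit 0) (nat_lit 66757005315) (nat_lit 152) (nat_lit 655368598610) (nat_lit 0) (nat_lit 66378378215) (nat_lit 1) (nat_lit 5) (nat_lit 3) (nat_lit 4) (nat_lit 1) (nat_lit 4) (nat_lit 430) (nat_lit 300) (nat_lit 290)))) (XT.nd (nat_lit 156) (nat_lit 0) (nat_lit 0) (XT.nd (nat_lit 78) (nat_lit 0) (nat_lit 0) (XT.lf (nat_lit 0) (nat_lit 74675463793) (nat_lit 152) (nat_lit 702504408059) (nat_lit 0) (nat_lit 74272636291) (nat_lit 1) (nat_lit 5) (nat_lit 3) (nat_lit 4) (nat_lit 1) (nat_lit 4) (nat_lit 431) (nat_lit 300) (nat_lit 289)) (XT.lf (nat_lit 0) (nat_lit 83135396605) (nat_lit 152) (nat_lit 753595961081) (nat_lit 0) (nat_lit 82710161322) (nat_lit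 1) (nat_lit 5) (nat_lit 3) (nat_lit 4) (nat_lit 1) (nat_lit 4) (nat_lit 432) (nat_lit 300) (nat_lit 288))) (XT.nd (nat_lit 78) (nat_lit 0) (nat_lit 0) (XT.lf (nat_lit 0) (nat_lit 92186936685) (nat_lit 152) (nat_lit 808946022435) (nat_lit 0) (nat_lit 91740953457) (nat_lit 1) (nat_lit 5) (nat_lit 3) (nat_lit 4) (nat_lit 1) (nat_lit 4) (nat_lit 433) (nat_lit 300) (nat_lit 287)) (XT.lf (nat_lit 0) (nat_lit 101883722790) (nat_lit 152) (nat_lit 868882592487) (nat_lit 0) (nat_lit 101418528501) (nat_lit 1) (nat_lit 5) (nat_lit 3) (nat_lit 4) (nat_lit 1) (nat_lit 4) (nat_lit 434) (nat_lit 300) (nat_lit 286))))))))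
noncomputable def xc2 : XT := (XT.nd (nat_lit 53430) (nat_lit 0) (nat_lit 0) (XT.nd (nat_lit 52416) (nat_lit 0) (nat_lit 0) (XT.nd (nat_lit 51870) (nat_lit 0) (nat_lit 0) (XT.nd (nat_lit 234) (nat_lit 0) (nat_lit 0) (XT.nd (nat_lit 78) (nat_lit 0) (nat_lit 0) (XT.lf (nat_lit 0) (nat_lit 112283217355) (nat_lit 152) (nat_lit 933760850908) (nat_lit 0) (nat_lit 111800235048) (nat_lit 1) (nat_lit 5) (nat_lit 3) (nat_lit 4) (nat_lit 1) (nat_lit 4) (nat_lit 435) (nat_lit 300) (nat_lit 285)) (XT.nd (nat_lit 78) (nat_lit 0) (nat_lit 0) (XT.lf (nat_lit 0) (nat_lit 123447047016) (nat_lit 152) (nat_lit 1003965261455) (nat_lit 0) (nat_lit 122947594321) (nat_lit 1) (nat_lit 5) (nat_lit 3) (nat_lit 4) (nat_lit 1) (nat_lit 4) (nat_lit 436) (nat_lit 300) (nat_lit 284)) (XT.lf (nat_lit 0) (nat_lit 135441367800) (nat_lit 152) (nat_lit 1079911850261) (nat_lit 0) (nat_lit 134926664746) (nat_lit 1) (nat_lit 5)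 (nat_lit 3) (nat_lit 4) (nat_lit 1) (nat_lit 4) (nat_lit 437) (nat_lit 300) (nat_lit 283)))) (XT.nd (nat_lit 78) (nat_lit 0) (nat_lit 0) (XT.lf (nat_lit 0) (nat_lit 148337257163) (nat_lit 152) (nat_lit 1162050671189) (nat_lit 0) (nat_lit 147808433407) (nat_lit 1) (nat_lit 5) (nat_lit 3) (nat_lit 4) (nat_lit 1) (nat_lit 4) (nat_lit 438) (nat_lit 300) (nat_lit 282)) (XT.nd (nat_lit 51480) (nat_lit 0) (nat_lit 152) (XT.lf (nat_lit 0) (nat_lit 162211135190) (nat_lit 152) (nat_lit 1250868472805) (nat_lit 0) (nat_lit 161669236710) (nat_lit 1) (nat_lit 5) (nat_lit 3) (nat_lit 4) (nat_lit 1) (nat_lit 4) (nat_lit 439) (nat_lit 300) (nat_lit 281)) (XT.lf (nat_lit 0) (nat_lit 156769720182) (nat_lit 76) (nat_lit 239893077) (nat_lit 76) (nat_lit 239893077) (nat_lit 3) (nat_lit 4) (nat_lit 4) (nat_lit 5) (nat_lit 4) (nat_lit 4) (nat_lit 418) (nat_lit 301) (nat_lit 301))))) (XT.nd (nat_lit 234) (nat_lit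 0) (nat_lit 0) (XT.nd (nat_lit 78) (nat_lit 0) (nat_lit 0) (XT.lf (nat_lit 0) (nat_lit 3812041529) (nat_lit 152) (nat_lit 331872825909) (nat_lit 0) (nat_lit 3755614926) (nat_lit 1) (nat_lit 5) (nat_lit 3) (nat_lit 4) (nat_lit 1) (nat_lit 4) (nat_lit 419) (nat_lit 301) (nat_lit 300)) (XT.nd (nat_lit 78) (nat_lit 0) (nat_lit 0) (XT.lf (nat_lit 0) (nat_lit 8241193748) (nat_lit 152) (nat_lit 350012629157) (nat_lit 0) (nat_lit 8132520290) (nat_lit 1) (nat_lit 5) (nat_lit 3) (nat_lit 4) (nat_lit 1) (nat_lit 4) (nat_lit 420) (nat_lit 301) (nat_lit 299)) (XT.lf (nat_lit 0) (nat_lit 12826051983) (nat_lit 152) (nat_lit 370002756166) (nat_lit 0) (nat_lit 12669001808) (nat_lit 1) (nat_lit 5) (nat_lit 3) (nat_lit 4) (nat_lit 1) (nat_lit 4) (nat_lit 421) (nat_lit 301) (nat_lit 298)))) (XT.nd (nat_lit 156) (nat_lit 0) (nat_lit 0) (XT.nd (nat_lit 78) (nat_lit 0) (nat_lit 0) (XT.lf (nat_lit 0) (nat_lit 17593785763)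 (nat_lit 152) (nat_lit 391961666950) (nat_lit 0) (nat_lit 17391942331) (nat_lit 1) (nat_lit 5) (nat_lit 3) (nat_lit 4) (nat_lit 1) (nat_lit 4) (nat_lit 422) (nat_lit 301) (nat_lit 297)) (XT.lf (nat_lit 0) (nat_lit 22572648327) (nat_lit 152) (nat_lit 416019488386) (nat_lit 0) (nat_lit 22329329657) (nat_lit 1) (nat_lit 5) (nat_lit 3) (nat_lit 4) (nat_lit 1) (nat_lit 4) (nat_lit 423) (nat_lit 301) (nat_lit 296))) (XT.nd (nat_lit 78) (nat_lit 0) (nat_lit 0) (XT.lf (nat_lit 0) (nat_lit 27792144044) (nat_lit 152) (nat_lit 442318785342) (nat_lit 0) (nat_lit 27510422376) (nat_lit 1) (nat_lit 5) (nat_lit 3) (nat_lit 4) (nat_lit 1) (nat_lit 4) (nat_lit 424) (nat_lit 301) (nat_lit 295)) (XT.lf (nat_lit 0) (nat_lit 33283203260) (nat_lit 152) (nat_lit 471015405504) (nat_lit 0) (nat_lit 32965923261) (nat_lit 1) (nat_lit 5) (nat_lit 3) (nat_lit 4) (nat_lit 1) (nat_lit 4) (nat_lit 425) (nat_lit 301) (nat_lit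 294)))))) (XT.nd (nat_lit 468) (nat_lit 0) (nat_lit 0) (XT.nd (nat_lit 234) (nat_lit 0) (nat_lit 0) (XT.nd (nat_lit 78) (nat_lit 0) (nat_lit 0) (XT.lf (nat_lit 0) (nat_lit 39078365585) (nat_lit 152) (nat_lit 502279402918) (nat_lit 0) (nat_lit 38728161205) (nat_lit 1) (nat_lit 5) (nat_lit 3) (nat_lit 4) (nat_lit 1) (nat_lit 4) (nat_lit 426) (nat_lit 301) (nat_lit 293)) (XT.nd (nat_lit 78) (nat_lit 0) (nat_lit 0) (XT.lf (nat_lit 0) (nat_lit 45211972722) (nat_lit 152) (nat_lit 536296045716) (nat_lit 0) (nat_lit 44831282804) (nat_lit 1) (nat_lit 5) (nat_lit 3) (nat_lit 4) (nat_lit 1) (nat_lit 4) (nat_lit 427) (nat_lit 301) (nat_lit 292)) (XT.lf (nat_lit 0) (nat_lit 51720371972) (nat_lit 152) (nat_lit 573266914003) (nat_lit 0) (nat_lit 51311454703) (nat_lit 1) (nat_lit 5) (nat_lit 3) (nat_lit 4) (nat_lit 1) (nat_lit 4) (nat_lit 428) (nat_lit 301) (nat_lit 291)))) (XT.nd (nat_lit 78) (nat_lit 0)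 (nat_lit 0) (XT.lf (nat_lit 0) (nat_lit 58642131626) (nat_lit 152) (nat_lit 613411094408) (nat_lit 0) (nat_lit 58207077923) (nat_lit 1) (nat_lit 5) (nat_lit 3) (nat_lit 4) (nat_lit 1) (nat_lit 4) (nat_lit 429) (nat_lit 301) (nat_lit 290)) (XT.nd (nat_lit 78) (nat_lit 0) (nat_lit 0) (XT.lf (nat_lit 0) (nat_lit 66018269521) (nat_lit 152) (nat_lit 656966478368) (nat_lit 0) (nat_lit 65559015415) (nat_lit 1) (nat_lit 5) (nat_lit 3) (nat_lit 4) (nat_lit 1) (nat_lit 4) (nat_lit 430) (nat_lit 301) (nat_lit 289)) (XT.lf (nat_lit 0) (nat_lit 73892496102) (nat_lit 152) (nat_lit 704191171863) (nat_lit 0) (nat_lit 73410834216) (nat_lit 1) (nat_lit 5) (nat_lit 3) (nat_lit 4) (nat_lit 1) (nat_lit 4) (nat_lit 431) (nat_lit 301) (nat_lit 288))))) (XT.nd (nat_lit 234) (nat_lit 0) (nat_lit 0) (XT.nd (nat_lit 78) (nat_lit 0) (nat_lit 0) (XT.lf (nat_lit 0) (nat_lit 82311473454) (nat_lit 152) (nat_lit 755365024929)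 (nat_lit 0) (nat_lit 81809063623) (nat_lit 1) (nat_lit 5) (nat_lit 3) (nat_lit 4) (nat_lit 1) (nat_lit 4) (nat_lit 432) (nat_lit 301) (nat_lit 287)) (XT.nd (nat_lit 78) (nat_lit 0) (nat_lit 0) (XT.lf (nat_lit 0) (nat_lit 91325091812) (nat_lit 152) (nat_lit 810791290028) (nat_lit 0) (nat_lit 90803470921) (nat_lit 1) (nat_lit 5) (nat_lit 3) (nat_lit 4) (nat_lit 1) (nat_lit 4) (nat_lit 433) (nat_lit 301) (nat_lit 286)) (XT.lf (nat_lit 0) (nat_lit 100986765211) (nat_lit 152) (nat_lit 870798419101) (nat_lit 0) (nat_lit 100447356301) (nat_lit 1) (nat_lit 5) (nat_lit 3) (nat_lit 4) (nat_lit 1) (nat_lit 4) (nat_lit 434) (nat_lit 301) (nat_lit 285)))) (XT.nd (nat_lit 156) (nat_lit 0) (nat_lit 0) (XT.nd (nat_lit 78) (nat_lit 0) (nat_lit 0) (XT.lf (nat_lit 0) (nat_lit 111353748012) (nat_lit 152) (nat_lit 935742009951) (nat_lit 0) (nat_lit 110797868715) (nat_lit 1) (nat_lit 5) (nat_lit 3) (nat_lit 4)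 (nat_lit 1) (nat_lit 4) (nat_lit 435) (nat_lit 301) (nat_lit 284)) (XT.lf (nat_lit 0) (nat_lit 122487474188) (nat_lit 152) (nat_lit 1006006913486) (nat_lit 0) (nat_lit 121916344531) (nat_lit 1) (nat_lit 5) (nat_lit 3) (nat_lit 4) (nat_lit 1) (nat_lit 4) (nat_lit 436) (nat_lit 301) (nat_lit 283))) (XT.nd (nat_lit 78) (nat_lit 0) (nat_lit 0) (XT.lf (nat_lit 0) (nat_lit 134453921374) (nat_lit 152) (nat_lit 1082009514320) (nat_lit 0) (nat_lit 133868671014) (nat_lit 1) (nat_lit 5) (nat_lit 3) (nat_lit 4) (nat_lit 1) (nat_lit 4) (nat_lit 437) (nat_lit 301) (nat_lit 282)) (XT.lf (nat_lit 0) (nat_lit 147324001850) (nat_lit 152) (nat_lit 1164200198236) (nat_lit 0) (nat_lit 146725676766) (nat_lit 1) (nat_lit 5) (nat_lit 3) (nat_lit 4) (nat_lit 1) (nat_lit 4) (nat_lit 438) (nat_lit 301) (nat_lit 281))))))) (XT.nd (nat_lit 52260) (nat_lit 0) (nat_lit 0) (XT.nd (nat_lit 51714) (nat_lit 0) (nat_lit 0)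 (XT.nd (nat_lit 51480) (nat_lit 0) (nat_lit 0) (XT.nd (nat_lit 51324) (nat_lit 0) (nat_lit 152) (XT.lf (nat_lit 0) (nat_lit 161173982760) (nat_lit 152) (nat_lit 1253066021137) (nat_lit 0) (nat_lit 160563551450) (nat_lit 1) (nat_lit 5) (nat_lit 3) (nat_lit 4) (nat_lit 1) (nat_lit 4) (nat_lit 439) (nat_lit 301) (nat_lit 280)) (XT.nd (nat_lit 78) (nat_lit 0) (nat_lit 0) (XT.lf (nat_lit 0) (nat_lit 126532856198) (nat_lit 76) (nat_lit 4239857947) (nat_lit 76) (nat_lit 4239857947) (nat_lit 3) (nat_lit 4) (nat_lit 4) (nat_lit 5) (nat_lit 4) (nat_lit 4) (nat_lit 416) (nat_lit 302) (nat_lit 302)) (XT.lf (nat_lit 0) (nat_lit 282248400884) (nat_lit 76) (nat_lit 4609841838) (nat_lit 76) (nat_lit 4545854070) (nat_lit 3) (nat_lit 4) (nat_lit 4) (nat_lit 5) (nat_lit 4) (nat_lit 4) (nat_lit 417) (nat_lit 302) (nat_lit 301)))) (XT.nd (nat_lit 78) (nat_lit 152) (nat_lit 0) (XT.lf (nat_lit 0) (nat_lit 313329936578)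 (nat_lit 76) (nat_lit 648770278) (nat_lit 76) (nat_lit 525534577) (nat_lit 3) (nat_lit 4) (nat_lit 4) (nat_lit 5) (nat_lit 4) (nat_lit 4) (nat_lit 418) (nat_lit 302) (nat_lit 300)) (XT.nd (nat_lit 78) (nat_lit 0) (nat_lit 0) (XT.lf (nat_lit 0) (nat_lit 3658466006) (nat_lit 152) (nat_lit 332303896571) (nat_lit 0) (nat_lit 3488851816) (nat_lit 1) (nat_lit 5) (nat_lit 3) (nat_lit 4) (nat_lit 1) (nat_lit 4) (nat_lit 419) (nat_lit 302) (nat_lit 299)) (XT.lf (nat_lit 0) (nat_lit 7992124878) (nat_lit 152) (nat_lit 350635593810) (nat_lit 0) (nat_lit 7774133971) (nat_lit 1) (nat_lit 5) (nat_lit 3) (nat_lit 4) (nat_lit 1) (nat_lit 4) (nat_lit 420) (nat_lit 302) (nat_lit 298))))) (XT.nd (nat_lit 234) (nat_lit 0) (nat_lit 0) (XT.nd (nat_lit 78) (nat_lit 0) (nat_lit 0) (XT.lf (nat_lit 0) (nat_lit 12488563346) (nat_lit 152) (nat_lit 370803400442) (nat_lit 0) (nat_lit 12225779183) (nat_lit 1) (nat_lit 5)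 (nat_lit 3) (nat_lit 4) (nat_lit 1) (nat_lit 4) (nat_lit 421) (nat_lit 302) (nat_lit 297)) (XT.nd (nat_lit 78) (nat_lit 0) (nat_lit 0) (XT.lf (nat_lit 0) (nat_lit 17174426973) (nat_lit 152) (nat_lit 392926829393) (nat_lit 0) (nat_lit 16870167572) (nat_lit 1) (nat_lit 5) (nat_lit 3) (nat_lit 4) (nat_lit 1) (nat_lit 4) (nat_lit 422) (nat_lit 302) (nat_lit 296)) (XT.lf (nat_lit 0) (nat_lit 22077483839) (nat_lit 152) (nat_lit 417136982466) (nat_lit 0) (nat_lit 21734821440) (nat_lit 1) (nat_lit 5) (nat_lit 3) (nat_lit 4) (nat_lit 1) (nat_lit 4) (nat_lit 423) (nat_lit 302) (nat_lit 295)))) (XT.nd (nat_lit 156) (nat_lit 0) (nat_lit 0) (XT.nd (nat_lit 78) (nat_lit 0) (nat_lit 0) (XT.lf (nat_lit 0) (nat_lit 27226789096) (nat_lit 152) (nat_lit 443577327235) (nat_lit 0) (nat_lit 26848568365) (nat_lit 1) (nat_lit 5) (nat_lit 3) (nat_lit 4) (nat_lit 1) (nat_lit 4) (nat_lit 424) (nat_lit 302) (nat_lit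 294)) (XT.lf (nat_lit 0) (nat_lit 32652857144) (nat_lit 152) (nat_lit 472404547223) (nat_lit 0) (nat_lit 32241712033) (nat_lit 1) (nat_lit 5) (nat_lit 3) (nat_lit 4) (nat_lit 1) (nat_lit 4) (nat_lit 425) (nat_lit 302) (nat_lit 293))) (XT.nd (nat_lit 78) (nat_lit 0) (nat_lit 0) (XT.lf (nat_lit 0) (nat_lit 38387842462) (nat_lit 152) (nat_lit 503789470402) (nat_lit 0) (nat_lit 37946211813) (nat_lit 1) (nat_lit 5) (nat_lit 3) (nat_lit 4) (nat_lit 1) (nat_lit 4) (nat_lit 426) (nat_lit 302) (nat_lit 292)) (XT.lf (nat_lit 0) (nat_lit 44465730148) (nat_lit 152) (nat_lit 537918081501) (nat_lit 0) (nat_lit 43995872148) (nat_lit 1) (nat_lit 5) (nat_lit 3) (nat_lit 4) (nat_lit 1) (nat_lit 4) (nat_lit 427) (nat_lit 302) (nat_lit 291)))))) (XT.nd (nat_lit 468) (nat_lit 0) (nat_lit 0) (XT.nd (nat_lit 234) (nat_lit 0) (nat_lit 0) (XT.nd (nat_lit 78) (nat_lit 0) (nat_lit 0) (XT.lf (nat_lit 0) (nat_lit 50922537313)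 (nat_lit 152) (nat_lit 574992624141) (nat_lit 0) (nat_lit 50426542879) (nat_lit 1) (nat_lit 5) (nat_lit 3) (nat_lit 4) (nat_lit 1) (nat_lit 4) (nat_lit 428) (nat_lit 302) (nat_lit 290)) (XT.nd (nat_lit 78) (nat_lit 0) (nat_lit 0) (XT.lf (nat_lit 0) (nat_lit 57796526520) (nat_lit 152) (nat_lit 615232799316) (nat_lit 0) (nat_lit 57276331682) (nat_lit 1) (nat_lit 5) (nat_lit 3) (nat_lit 4) (nat_lit 1) (nat_lit 4) (nat_lit 429) (nat_lit 302) (nat_lit 289)) (XT.lf (nat_lit 0) (nat_lit 65128432518) (nat_lit 152) (nat_lit 658877067324) (nat_lit 0) (nat_lit 64585829900) (nat_lit 1) (nat_lit 5) (nat_lit 3) (nat_lit 4) (nat_lit 1) (nat_lit 4) (nat_lit 430) (nat_lit 302) (nat_lit 288)))) (XT.nd (nat_lit 78) (nat_lit 0) (nat_lit 0) (XT.lf (nat_lit 0) (nat_lit 72961703640) (nat_lit 152) (nat_lit 706184060863) (nat_lit 0) (nat_lit 72398353077) (nat_lit 1) (nat_lit 5) (nat_lit 3) (nat_lit 4) (nat_lit 1)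 (nat_lit 4) (nat_lit 431) (nat_lit 302) (nat_lit 287)) (XT.nd (nat_lit 78) (nat_lit 0) (nat_lit 0) (XT.lf (nat_lit 0) (nat_lit 81342759269) (nat_lit 152) (nat_lit 757434117673) (nat_lit 0) (nat_lit 80760197647) (nat_lit 1) (nat_lit 5) (nat_lit 3) (nat_lit 4) (nat_lit 1) (nat_lit 4) (nat_lit 432) (nat_lit 302) (nat_lit 286)) (XT.lf (nat_lit 0) (nat_lit 90321264922) (nat_lit 152) (nat_lit 812930941794) (nat_lit 0) (nat_lit 89720915280) (nat_lit 1) (nat_lit 5) (nat_lit 3) (nat_lit 4) (nat_lit 1) (nat_lit 4) (nat_lit 433) (nat_lit 302) (nat_lit 285))))) (XT.nd (nat_lit 234) (nat_lit 0) (nat_lit 0) (XT.nd (nat_lit 78) (nat_lit 0) (nat_lit 0) (XT.lf (nat_lit 0) (nat_lit 99950426557) (nat_lit 152) (nat_lit 873003403296) (nat_lit 0) (nat_lit 99333606528) (nat_lit 1) (nat_lit 5) (nat_lit 3) (nat_lit 4) (nat_lit 1) (nat_lit 4) (nat_lit 434) (nat_lit 302) (nat_lit 284)) (XT.nd (nat_lit 78) (nat_lit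 0) (nat_lit 0) (XT.lf (nat_lit 0) (nat_lit 110287305872) (nat_lit 152) (nat_lit 938007487135) (nat_lit 0) (nat_lit 109655235484) (nat_lit 1) (nat_lit 5) (nat_lit 3) (nat_lit 4) (nat_lit 1) (nat_lit 4) (nat_lit 435) (nat_lit 302) (nat_lit 283)) (XT.lf (nat_lit 0) (nat_lit 121393158450) (nat_lit 152) (nat_lit 1008328402697) (nat_lit 0) (nat_lit 120746967359) (nat_lit 1) (nat_lit 5) (nat_lit 3) (nat_lit 4) (nat_lit 1) (nat_lit 4) (nat_lit 436) (nat_lit 302) (nat_lit 282)))) (XT.nd (nat_lit 156) (nat_lit 0) (nat_lit 0) (XT.nd (nat_lit 78) (nat_lit 0) (nat_lit 0) (XT.lf (nat_lit 0) (nat_lit 133333796749) (nat_lit 152) (nat_lit 1084382866519) (nat_lit 0) (nat_lit 132674530934) (nat_lit 1) (nat_lit 5) (nat_lit 3) (nat_lit 4) (nat_lit 1) (nat_lit 4) (nat_lit 437) (nat_lit 302) (nat_lit 281)) (XT.lf (nat_lit 0) (nat_lit 146179980108) (nat_lit 152) (nat_lit 1166621571719) (nat_lit 0) (nat_lit 145508608066)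 (nat_lit 1) (nat_lit 5) (nat_lit 3) (nat_lit 4) (nat_lit 1) (nat_lit 4) (nat_lit 438) (nat_lit 302) (nat_lit 280))) (XT.nd (nat_lit 51168) (nat_lit 0) (nat_lit 152) (XT.lf (nat_lit 0) (nat_lit 160007834057) (nat_lit 152) (nat_lit 1255531858773) (nat_lit 0) (nat_lit 159325252547) (nat_lit 1) (nat_lit 5) (nat_lit 3) (nat_lit 4) (nat_lit 1) (nat_lit 4) (nat_lit 439) (nat_lit 302) (nat_lit 279)) (XT.lf (nat_lit 0) (nat_lit 99979866039) (nat_lit 76) (nat_lit 7991918173) (nat_lit 76) (nat_lit 7991918173) (nat_lit 3) (nat_lit 4) (nat_lit 4) (nat_lit 5) (nat_lit 4) (nat_lit 4) (nat_lit 414) (nat_lit 303) (nat_lit 303))))))))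
noncomputable def xc3 : XT := (XT.nd (nat_lit 52962) (nat_lit 0) (nat_lit 0) (XT.nd (nat_lit 1014) (nat_lit 0) (nat_lit 0) (XT.nd (nat_lit 468) (nat_lit 0) (nat_lit 0) (XT.nd (nat_lit 234) (nat_lit 152) (nat_lit 0) (XT.nd (nat_lit 78) (nat_lit 0) (nat_lit 0) (XT.lf (nat_lit 0) (nat_lit 225608936661) (nat_lit 76) (nat_lit 12350431821) (nat_lit 76) (nat_lit 12281325032) (nat_lit 3) (nat_lit 4) (nat_lit 4) (nat_lit 5) (nat_lit 4) (nat_lit 4) (nat_lit 415) (nat_lit 303) (nat_lit 302)) (XT.nd (nat_lit 78) (nat_lit 0) (nat_lit 0) (XT.lf (nat_lit 0) (nat_lit 252839448307) (nat_lit 76) (nat_lit 8662218748) (nat_lit 76) (nat_lit 8529124190) (nat_lit 3) (nat_lit 4) (nat_lit 4) (nat_lit 5) (nat_lit 4) (nat_lit 4) (nat_lit 416) (nat_lit 303) (nat_lit 301)) (XT.lf (nat_lit 0) (nat_lit 281812633010) (nat_lit 76) (nat_lit 4897341048) (nat_lit 76) (nat_lit 4704998557) (nat_lit 3) (nat_lit 4) (nat_lit 4)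 (nat_lit 5) (nat_lit 4) (nat_lit 4) (nat_lit 417) (nat_lit 303) (nat_lit 300)))) (XT.nd (nat_lit 78) (nat_lit 152) (nat_lit 0) (XT.lf (nat_lit 0) (nat_lit 312700183717) (nat_lit 76) (nat_lit 1033488336) (nat_lit 76) (nat_lit 786286648) (nat_lit 3) (nat_lit 4) (nat_lit 4) (nat_lit 5) (nat_lit 4) (nat_lit 4) (nat_lit 418) (nat_lit 303) (nat_lit 299)) (XT.nd (nat_lit 78) (nat_lit 0) (nat_lit 0) (XT.lf (nat_lit 0) (nat_lit 3293978278) (nat_lit 152) (nat_lit 333168592389) (nat_lit 0) (nat_lit 3010171382) (nat_lit 1) (nat_lit 5) (nat_lit 3) (nat_lit 4) (nat_lit 1) (nat_lit 4) (nat_lit 419) (nat_lit 303) (nat_lit 298)) (XT.lf (nat_lit 0) (nat_lit 7539217384) (nat_lit 152) (nat_lit 351677969250) (nat_lit 0) (nat_lit 7210617231) (nat_lit 1) (nat_lit 5) (nat_lit 3) (nat_lit 4) (nat_lit 1) (nat_lit 4) (nat_lit 420) (nat_lit 303) (nat_lit 297))))) (XT.nd (nat_lit 234) (nat_lit 0) (nat_lit 0) (XT.nd (nat_lit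 78) (nat_lit 0) (nat_lit 0) (XT.lf (nat_lit 0) (nat_lit 11953785700) (nat_lit 152) (nat_lit 372010294049) (nat_lit 0) (nat_lit 11583710308) (nat_lit 1) (nat_lit 5) (nat_lit 3) (nat_lit 4) (nat_lit 1) (nat_lit 4) (nat_lit 421) (nat_lit 303) (nat_lit 296)) (XT.nd (nat_lit 78) (nat_lit 0) (nat_lit 0) (XT.lf (nat_lit 0) (nat_lit 16563843629) (nat_lit 152) (nat_lit 394286054638) (nat_lit 0) (nat_lit 16155365240) (nat_lit 1) (nat_lit 5) (nat_lit 3) (nat_lit 4) (nat_lit 1) (nat_lit 4) (nat_lit 422) (nat_lit 303) (nat_lit 295)) (XT.lf (nat_lit 0) (nat_lit 21396710034) (nat_lit 152) (nat_lit 418637255523) (nat_lit 0) (nat_lit 20952673313) (nat_lit 1) (nat_lit 5) (nat_lit 3) (nat_lit 4) (nat_lit 1) (nat_lit 4) (nat_lit 423) (nat_lit 303) (nat_lit 294)))) (XT.nd (nat_lit 156) (nat_lit 0) (nat_lit 0) (XT.nd (nat_lit 78) (nat_lit 0) (nat_lit 0) (XT.lf (nat_lit 0) (nat_lit 26481024123) (nat_lit 152) (nat_lit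 445208200118) (nat_lit 0) (nat_lit 26004063021) (nat_lit 1) (nat_lit 5) (nat_lit 3) (nat_lit 4) (nat_lit 1) (nat_lit 4) (nat_lit 424) (nat_lit 303) (nat_lit 293)) (XT.lf (nat_lit 0) (nat_lit 31846915164) (nat_lit 152) (nat_lit 474156345871) (nat_lit 0) (nat_lit 31339468525) (nat_lit 1) (nat_lit 5) (nat_lit 3) (nat_lit 4) (nat_lit 1) (nat_lit 4) (nat_lit 425) (nat_lit 303) (nat_lit 292))) (XT.nd (nat_lit 78) (nat_lit 0) (nat_lit 0) (XT.lf (nat_lit 0) (nat_lit 37526181031) (nat_lit 152) (nat_lit 505653237351) (nat_lit 0) (nat_lit 36990507042) (nat_lit 1) (nat_lit 5) (nat_lit 3) (nat_lit 4) (nat_lit 1) (nat_lit 4) (nat_lit 426) (nat_lit 303) (nat_lit 291)) (XT.lf (nat_lit 0) (nat_lit 43552476633) (nat_lit 152) (nat_lit 539885522802) (nat_lit 0) (nat_lit 42990666208) (nat_lit 1) (nat_lit 5) (nat_lit 3) (nat_lit 4) (nat_lit 1) (nat_lit 4) (nat_lit 427) (nat_lit 303) (nat_lit 290)))))) (XT.nd (nat_lit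 468) (nat_lit 0) (nat_lit 0) (XT.nd (nat_lit 234) (nat_lit 0) (nat_lit 0) (XT.nd (nat_lit 78) (nat_lit 0) (nat_lit 0) (XT.lf (nat_lit 0) (nat_lit 49961513350) (nat_lit 152) (nat_lit 577056060214) (nat_lit 0) (nat_lit 49375502523) (nat_lit 1) (nat_lit 5) (nat_lit 3) (nat_lit 4) (nat_lit 1) (nat_lit 4) (nat_lit 428) (nat_lit 303) (nat_lit 289)) (XT.nd (nat_lit 78) (nat_lit 0) (nat_lit 0) (XT.lf (nat_lit 0) (nat_lit 56791270660) (nat_lit 152) (nat_lit 617385119436) (nat_lit 0) (nat_lit 56182852052) (nat_lit 1) (nat_lit 5) (nat_lit 3) (nat_lit 4) (nat_lit 1) (nat_lit 4) (nat_lit 429) (nat_lit 303) (nat_lit 288)) (XT.lf (nat_lit 0) (nat_lit 64082221199) (nat_lit 152) (nat_lit 661111687487) (nat_lit 0) (nat_lit 63453054646) (nat_lit 1) (nat_lit 5) (nat_lit 3) (nat_lit 4) (nat_lit 1) (nat_lit 4) (nat_lit 430) (nat_lit 303) (nat_lit 287)))) (XT.nd (nat_lit 78) (nat_lit 0) (nat_lit 0) (XT.lf (nat_lit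 0) (nat_lit 71877570598) (nat_lit 152) (nat_lit 708494884770) (nat_lit 0) (nat_lit 71229192986) (nat_lit 1) (nat_lit 5) (nat_lit 3) (nat_lit 4) (nat_lit 1) (nat_lit 4) (nat_lit 431) (nat_lit 303) (nat_lit 286)) (XT.nd (nat_lit 78) (nat_lit 0) (nat_lit 0) (XT.lf (nat_lit 0) (nat_lit 80223513522) (nat_lit 152) (nat_lit 759815500603) (nat_lit 0) (nat_lit 79557347891) (nat_lit 1) (nat_lit 5) (nat_lit 3) (nat_lit 4) (nat_lit 1) (nat_lit 4) (nat_lit 432) (nat_lit 303) (nat_lit 285)) (XT.lf (nat_lit 0) (nat_lit 89169507410) (nat_lit 152) (nat_lit 815377657152) (nat_lit 0) (nat_lit 88486871392) (nat_lit 1) (nat_lit 5) (nat_lit 3) (nat_lit 4) (nat_lit 1) (nat_lit 4) (nat_lit 433) (nat_lit 303) (nat_lit 284))))) (XT.nd (nat_lit 234) (nat_lit 0) (nat_lit 0) (XT.nd (nat_lit 78) (nat_lit 0) (nat_lit 0) (XT.lf (nat_lit 0) (nat_lit 98768565560) (nat_lit 152) (nat_lit 875510611643) (nat_lit 0) (nat_lit 98070679182)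 (nat_lit 1) (nat_lit 5) (nat_lit 3) (nat_lit 4) (nat_lit 1) (nat_lit 4) (nat_lit 434) (nat_lit 303) (nat_lit 283)) (XT.nd (nat_lit 78) (nat_lit 0) (nat_lit 0) (XT.lf (nat_lit 0) (nat_lit 109077571277) (nat_lit 152) (nat_lit 940570707509) (nat_lit 0) (nat_lit 108365564197) (nat_lit 1) (nat_lit 5) (nat_lit 3) (nat_lit 4) (nat_lit 1) (nat_lit 4) (nat_lit 435) (nat_lit 303) (nat_lit 282)) (XT.lf (nat_lit 0) (nat_lit 120157614968) (nat_lit 152) (nat_lit 1010943486059) (nat_lit 0) (nat_lit 119432533163) (nat_lit 1) (nat_lit 5) (nat_lit 3) (nat_lit 4) (nat_lit 1) (nat_lit 4) (nat_lit 436) (nat_lit 303) (nat_lit 281)))) (XT.nd (nat_lit 156) (nat_lit 0) (nat_lit 0) (XT.nd (nat_lit 78) (nat_lit 0) (nat_lit 0) (XT.lf (nat_lit 0) (nat_lit 132074356150) (nat_lit 152) (nat_lit 1087045971166) (nat_lit 0) (nat_lit 131337168118) (nat_lit 1) (nat_lit 5) (nat_lit 3) (nat_lit 4) (nat_lit 1) (nat_lit 4) (nat_lit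 437) (nat_lit 303) (nat_lit 280)) (XT.lf (nat_lit 0) (nat_lit 144898412548) (nat_lit 152) (nat_lit 1169329140519) (nat_lit 0) (nat_lit 144150015048) (nat_lit 1) (nat_lit 5) (nat_lit 3) (nat_lit 4) (nat_lit 1) (nat_lit 4) (nat_lit 438) (nat_lit 303) (nat_lit 279))) (XT.nd (nat_lit 51012) (nat_lit 0) (nat_lit 152) (XT.lf (nat_lit 0) (nat_lit 158705778571) (nat_lit 152) (nat_lit 1258280598085) (nat_lit 0) (nat_lit 157947001933) (nat_lit 1) (nat_lit 5) (nat_lit 3) (nat_lit 4) (nat_lit 1) (nat_lit 4) (nat_lit 439) (nat_lit 303) (nat_lit 278)) (XT.lf (nat_lit 0) (nat_lit 76534823691) (nat_lit 76) (nat_lit 11557258931) (nat_lit 76) (nat_lit 11557258931) (nat_lit 3) (nat_lit 4) (nat_lit 4) (nat_lit 5) (nat_lit 4) (nat_lit 4) (nat_lit 412) (nat_lit 304) (nat_lit 304))))))) (XT.nd (nat_lit 1014) (nat_lit 0) (nat_lit 0) (XT.nd (nat_lit 468) (nat_lit 152) (nat_lit 0) (XT.nd (nat_lit 234) (nat_lit 0)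 (nat_lit 0) (XT.nd (nat_lit 78) (nat_lit 0) (nat_lit 0) (XT.lf (nat_lit 0) (nat_lit 175739839271) (nat_lit 76) (nat_lit 19658598943) (nat_lit 76) (nat_lit 19583963610) (nat_lit 3) (nat_lit 4) (nat_lit 4) (nat_lit 5) (nat_lit 4) (nat_lit 4) (nat_lit 413) (nat_lit 304) (nat_lit 303)) (XT.nd (nat_lit 78) (nat_lit 0) (nat_lit 0) (XT.lf (nat_lit 0) (nat_lit 199715366862) (nat_lit 76) (nat_lit 16180939429) (nat_lit 76) (nat_lit 16037197307) (nat_lit 3) (nat_lit 4) (nat_lit 4) (nat_lit 5) (nat_lit 4) (nat_lit 4) (nat_lit 414) (nat_lit 304) (nat_lit 302)) (XT.lf (nat_lit 0) (nat_lit 225138307357) (nat_lit 76) (nat_lit 12660930968) (nat_lit 76) (nat_lit 12453201078) (nat_lit 3) (nat_lit 4) (nat_lit 4) (nat_lit 5) (nat_lit 4) (nat_lit 4) (nat_lit 415) (nat_lit 304) (nat_lit 301)))) (XT.nd (nat_lit 78) (nat_lit 0) (nat_lit 0) (XT.lf (nat_lit 0) (nat_lit 252159315217) (nat_lit 76) (nat_lit 9077714249)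 (nat_lit 76) (nat_lit 8810736426) (nat_lit 3) (nat_lit 4) (nat_lit 4) (nat_lit 5) (nat_lit 4) (nat_lit 4) (nat_lit 416) (nat_lit 304) (nat_lit 300)) (XT.nd (nat_lit 78) (nat_lit 0) (nat_lit 0) (XT.lf (nat_lit 0) (nat_lit 280938514934) (nat_lit 76) (nat_lit 5410055398) (nat_lit 76) (nat_lit 5088218377) (nat_lit 3) (nat_lit 4) (nat_lit 4) (nat_lit 5) (nat_lit 4) (nat_lit 4) (nat_lit 417) (nat_lit 304) (nat_lit 299)) (XT.lf (nat_lit 0) (nat_lit 311646449912) (nat_lit 76) (nat_lit 1636220137) (nat_lit 76) (nat_lit 1263587564) (nat_lit 3) (nat_lit 4) (nat_lit 4) (nat_lit 5) (nat_lit 4) (nat_lit 4) (nat_lit 418) (nat_lit 304) (nat_lit 298))))) (XT.nd (nat_lit 234) (nat_lit 0) (nat_lit 0) (XT.nd (nat_lit 78) (nat_lit 0) (nat_lit 0) (XT.lf (nat_lit 0) (nat_lit 2716418419) (nat_lit 152) (nat_lit 334472037485) (nat_lit 0) (nat_lit 2316736997) (nat_lit 1) (nat_lit 5) (nat_lit 3) (nat_lit 4) (nat_lit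 1) (nat_lit 4) (nat_lit 419) (nat_lit 304) (nat_lit 297)) (XT.nd (nat_lit 78) (nat_lit 0) (nat_lit 0) (XT.lf (nat_lit 0) (nat_lit 6879787372) (nat_lit 152) (nat_lit 353145932514) (nat_lit 0) (nat_lit 6438630712) (nat_lit 1) (nat_lit 5) (nat_lit 3) (nat_lit 4) (nat_lit 1) (nat_lit 4) (nat_lit 420) (nat_lit 304) (nat_lit 296)) (XT.lf (nat_lit 0) (nat_lit 11218549990) (nat_lit 152) (nat_lit 373630588950) (nat_lit 0) (nat_lit 10738990331) (nat_lit 1) (nat_lit 5) (nat_lit 3) (nat_lit 4) (nat_lit 1) (nat_lit 4) (nat_lit 421) (nat_lit 304) (nat_lit 295)))) (XT.nd (nat_lit 156) (nat_lit 0) (nat_lit 0) (XT.nd (nat_lit 78) (nat_lit 0) (nat_lit 0) (XT.lf (nat_lit 0) (nat_lit 15758417458) (nat_lit 152) (nat_lit 396047397351) (nat_lit 0) (nat_lit 15243299468) (nat_lit 1) (nat_lit 5) (nat_lit 3) (nat_lit 4) (nat_lit 1) (nat_lit 4) (nat_lit 422) (nat_lit 304) (nat_lit 294)) (XT.lf (nat_lit 0) (nat_lit 20526292695)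 (nat_lit 152) (nat_lit 420529198063) (nat_lit 0) (nat_lit 19978250325) (nat_lit 1) (nat_lit 5) (nat_lit 3) (nat_lit 4) (nat_lit 1) (nat_lit 4) (nat_lit 423) (nat_lit 304) (nat_lit 293))) (XT.nd (nat_lit 78) (nat_lit 0) (nat_lit 0) (XT.lf (nat_lit 0) (nat_lit 25550429777) (nat_lit 152) (nat_lit 447221068423) (nat_lit 0) (nat_lit 24971901869) (nat_lit 1) (nat_lit 5) (nat_lit 3) (nat_lit 4) (nat_lit 1) (nat_lit 4) (nat_lit 424) (nat_lit 304) (nat_lit 292)) (XT.lf (nat_lit 0) (nat_lit 30860601368) (nat_lit 152) (nat_lit 476281182477) (nat_lit 0) (nat_lit 30253846110) (nat_lit 1) (nat_lit 5) (nat_lit 3) (nat_lit 4) (nat_lit 1) (nat_lit 4) (nat_lit 425) (nat_lit 304) (nat_lit 291)))))) (XT.nd (nat_lit 546) (nat_lit 0) (nat_lit 0) (XT.nd (nat_lit 234) (nat_lit 0) (nat_lit 0) (XT.nd (nat_lit 78) (nat_lit 0) (nat_lit 0) (XT.lf (nat_lit 0) (nat_lit 36488275151) (nat_lit 152) (nat_lit 507881748309)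 (nat_lit 0) (nat_lit 35855383458) (nat_lit 1) (nat_lit 5) (nat_lit 3) (nat_lit 4) (nat_lit 1) (nat_lit 4) (nat_lit 426) (nat_lit 304) (nat_lit 290)) (XT.nd (nat_lit 78) (nat_lit 0) (nat_lit 0) (XT.lf (nat_lit 0) (nat_lit 42466800304) (nat_lit 152) (nat_lit 542210028532) (nat_lit 0) (nat_lit 41809708208) (nat_lit 1) (nat_lit 5) (nat_lit 3) (nat_lit 4) (nat_lit 1) (nat_lit 4) (nat_lit 427) (nat_lit 304) (nat_lit 289)) (XT.lf (nat_lit 0) (nat_lit 48831605125) (nat_lit 152) (nat_lit 579469449990) (nat_lit 0) (nat_lit 48152105248) (nat_lit 1) (nat_lit 5) (nat_lit 3) (nat_lit 4) (nat_lit 1) (nat_lit 4) (nat_lit 428) (nat_lit 304) (nat_lit 288)))) (XT.nd (nat_lit 156) (nat_lit 0) (nat_lit 0) (XT.nd (nat_lit 78) (nat_lit 0) (nat_lit 0) (XT.lf (nat_lit 0) (nat_lit 55620406975) (nat_lit 152) (nat_lit 619880809256) (nat_lit 0) (nat_lit 54920159154) (nat_lit 1) (nat_lit 5) (nat_lit 3) (nat_lit 4) (nat_lit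 1) (nat_lit 4) (nat_lit 429) (nat_lit 304) (nat_lit 287)) (XT.lf (nat_lit 0) (nat_lit 62873435792) (nat_lit 152) (nat_lit 663683581052) (nat_lit 0) (nat_lit 62153976910) (nat_lit 1) (nat_lit 5) (nat_lit 3) (nat_lit 4) (nat_lit 1) (nat_lit 4) (nat_lit 430) (nat_lit 304) (nat_lit 286))) (XT.nd (nat_lit 78) (nat_lit 0) (nat_lit 0) (XT.lf (nat_lit 0) (nat_lit 70633672486) (nat_lit 152) (nat_lit 711137337357) (nat_lit 0) (nat_lit 69896425586) (nat_lit 1) (nat_lit 5) (nat_lit 3) (nat_lit 4) (nat_lit 1) (nat_lit 4) (nat_lit 431) (nat_lit 304) (nat_lit 285)) (XT.lf (nat_lit 0) (nat_lit 78947103646) (nat_lit 152) (nat_lit 762523285618) (nat_lit 0) (nat_lit 78193386358) (nat_lit 1) (nat_lit 5) (nat_lit 3) (nat_lit 4) (nat_lit 1) (nat_lit 4) (nat_lit 432) (nat_lit 304) (nat_lit 284))))) (XT.nd (nat_lit 234) (nat_lit 0) (nat_lit 0) (XT.nd (nat_lit 78) (nat_lit 0) (nat_lit 0) (XT.lf (nat_lit 0) (nat_lit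 87862994048) (nat_lit 152) (nat_lit 818145935157) (nat_lit 0) (nat_lit 87094026401) (nat_lit 1) (nat_lit 5) (nat_lit 3) (nat_lit 4) (nat_lit 1) (nat_lit 4) (nat_lit 433) (nat_lit 304) (nat_lit 283)) (XT.nd (nat_lit 78) (nat_lit 0) (nat_lit 0) (XT.lf (nat_lit 0) (nat_lit 97434178600) (nat_lit 152) (nat_lit 878334901674) (nat_lit 0) (nat_lit 96651090250) (nat_lit 1) (nat_lit 5) (nat_lit 3) (nat_lit 4) (nat_lit 1) (nat_lit 4) (nat_lit 434) (nat_lit 304) (nat_lit 282)) (XT.lf (nat_lit 0) (nat_lit 107717375431) (nat_lit 152) (nat_lit 943446860528) (nat_lit 0) (nat_lit 106921212356) (nat_lit 1) (nat_lit 5) (nat_lit 3) (nat_lit 4) (nat_lit 1) (nat_lit 4) (nat_lit 435) (nat_lit 304) (nat_lit 281)))) (XT.nd (nat_lit 156) (nat_lit 0) (nat_lit 0) (XT.nd (nat_lit 78) (nat_lit 0) (nat_lit 0) (XT.lf (nat_lit 0) (nat_lit 118773522004) (nat_lit 152) (nat_lit 1013867660363) (nat_lit 0) (nat_lit 117965252703)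 (nat_lit 1) (nat_lit 5) (nat_lit 3) (nat_lit 4) (nat_lit 1) (nat_lit 4) (nat_lit 436) (nat_lit 304) (nat_lit 280)) (XT.lf (nat_lit 0) (nat_lit 130668136225) (nat_lit 152) (nat_lit 1090014609622) (nat_lit 0) (nat_lit 129848657455) (nat_lit 1) (nat_lit 5) (nat_lit 3) (nat_lit 4) (nat_lit 1) (nat_lit 4) (nat_lit 437) (nat_lit 304) (nat_lit 279))) (XT.nd (nat_lit 78) (nat_lit 0) (nat_lit 0) (XT.lf (nat_lit 0) (nat_lit 143471704697) (nat_lit 152) (nat_lit 1172338949487) (nat_lit 0) (nat_lit 142641846789) (nat_lit 1) (nat_lit 5) (nat_lit 3) (nat_lit 4) (nat_lit 1) (nat_lit 4) (nat_lit 438) (nat_lit 304) (nat_lit 278)) (XT.lf (nat_lit 0) (nat_lit 157260100418) (nat_lit 152) (nat_lit 1261328527898) (nat_lit 0) (nat_lit 156420632197) (nat_lit 1) (nat_lit 5) (nat_lit 3) (nat_lit 4) (nat_lit 1) (nat_lit 4) (nat_lit 439) (nat_lit 304) (nat_lit 277))))))))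
noncomputable def xc4 : XT := (XT.nd (nat_lit 2028) (nat_lit 0) (nat_lit 0) (XT.nd (nat_lit 1014) (nat_lit 0) (nat_lit 0) (XT.nd (nat_lit 468) (nat_lit 152) (nat_lit 0) (XT.nd (nat_lit 234) (nat_lit 0) (nat_lit 0) (XT.nd (nat_lit 78) (nat_lit 0) (nat_lit 0) (XT.lf (nat_lit 0) (nat_lit 55699935005) (nat_lit 76) (nat_lit 14990402148) (nat_lit 76) (nat_lit 14990402148) (nat_lit 3) (nat_lit 4) (nat_lit 4) (nat_lit 5) (nat_lit 4) (nat_lit 4) (nat_lit 410) (nat_lit 305) (nat_lit 305)) (XT.nd (nat_lit 78) (nat_lit 0) (nat_lit 0) (XT.lf (nat_lit 0) (nat_lit 131570449318) (nat_lit 76) (nat_lit 26649781865) (nat_lit 76) (nat_lit 26569175705) (nat_lit 3) (nat_lit 4) (nat_lit 4) (nat_lit 5) (nat_lit 4) (nat_lit 4) (nat_lit 411) (nat_lit 305) (nat_lit 304)) (XT.lf (nat_lit 0) (nat_lit 152805732949) (nat_lit 76) (nat_lit 23327389190) (nat_lit 76) (nat_lit 23172147699) (nat_lit 3) (nat_lit 4) (nat_lit 4)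 (nat_lit 5) (nat_lit 4) (nat_lit 4) (nat_lit 412) (nat_lit 305) (nat_lit 303)))) (XT.nd (nat_lit 78) (nat_lit 0) (nat_lit 0) (XT.lf (nat_lit 0) (nat_lit 175231559622) (nat_lit 76) (nat_lit 19993938021) (nat_lit 76) (nat_lit 19769589740) (nat_lit 3) (nat_lit 4) (nat_lit 4) (nat_lit 5) (nat_lit 4) (nat_lit 4) (nat_lit 413) (nat_lit 305) (nat_lit 302)) (XT.nd (nat_lit 78) (nat_lit 0) (nat_lit 0) (XT.lf (nat_lit 0) (nat_lit 198980823125) (nat_lit 76) (nat_lit 16629674571) (nat_lit 76) (nat_lit 16341338522) (nat_lit 3) (nat_lit 4) (nat_lit 4) (nat_lit 5) (nat_lit 4) (nat_lit 4) (nat_lit 414) (nat_lit 305) (nat_lit 301)) (XT.lf (nat_lit 0) (nat_lit 224194259834) (nat_lit 76) (nat_lit 13214662466) (nat_lit 76) (nat_lit 12867078483) (nat_lit 3) (nat_lit 4) (nat_lit 4) (nat_lit 5) (nat_lit 4) (nat_lit 4) (nat_lit 415) (nat_lit 305) (nat_lit 300))))) (XT.nd (nat_lit 234) (nat_lit 152) (nat_lit 0) (XT.nd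 (nat_lit 78) (nat_lit 0) (nat_lit 0) (XT.lf (nat_lit 0) (nat_lit 251021282708) (nat_lit 76) (nat_lit 9728664595) (nat_lit 76) (nat_lit 9326221416) (nat_lit 3) (nat_lit 4) (nat_lit 4) (nat_lit 5) (nat_lit 4) (nat_lit 4) (nat_lit 416) (nat_lit 305) (nat_lit 299)) (XT.nd (nat_lit 78) (nat_lit 0) (nat_lit 0) (XT.lf (nat_lit 0) (nat_lit 279620866696) (nat_lit 76) (nat_lit 6151023195) (nat_lit 76) (nat_lit 5697784462) (nat_lit 3) (nat_lit 4) (nat_lit 4) (nat_lit 5) (nat_lit 4) (nat_lit 4) (nat_lit 417) (nat_lit 305) (nat_lit 298)) (XT.lf (nat_lit 0) (nat_lit 310162490815) (nat_lit 76) (nat_lit 2460537427) (nat_lit 76) (nat_lit 1960265775) (nat_lit 3) (nat_lit 4) (nat_lit 4) (nat_lit 5) (nat_lit 4) (nat_lit 4) (nat_lit 418) (nat_lit 305) (nat_lit 297)))) (XT.nd (nat_lit 156) (nat_lit 0) (nat_lit 0) (XT.nd (nat_lit 78) (nat_lit 0) (nat_lit 0) (XT.lf (nat_lit 0) (nat_lit 1922363853) (nat_lit 152)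 (nat_lit 336221955978) (nat_lit 0) (nat_lit 1404439422) (nat_lit 1) (nat_lit 5) (nat_lit 3) (nat_lit 4) (nat_lit 1) (nat_lit 4) (nat_lit 419) (nat_lit 305) (nat_lit 296)) (XT.lf (nat_lit 0) (nat_lit 6009927108) (nat_lit 152) (nat_lit 355048182644) (nat_lit 0) (nat_lit 5453599679) (nat_lit 1) (nat_lit 5) (nat_lit 3) (nat_lit 4) (nat_lit 1) (nat_lit 4) (nat_lit 420) (nat_lit 305) (nat_lit 295))) (XT.nd (nat_lit 78) (nat_lit 0) (nat_lit 0) (XT.lf (nat_lit 0) (nat_lit 10278499264) (nat_lit 152) (nat_lit 375673886893) (nat_lit 0) (nat_lit 9686613504) (nat_lit 1) (nat_lit 5) (nat_lit 3) (nat_lit 4) (nat_lit 1) (nat_lit 4) (nat_lit 421) (nat_lit 305) (nat_lit 294)) (XT.lf (nat_lit 0) (nat_lit 14753375565) (nat_lit 152) (nat_lit 398221295121) (nat_lit 0) (nat_lit 14128565424) (nat_lit 1) (nat_lit 5) (nat_lit 3) (nat_lit 4) (nat_lit 1) (nat_lit 4) (nat_lit 422) (nat_lit 305) (nat_lit 293)))))) (XT.nd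 (nat_lit 468) (nat_lit 0) (nat_lit 0) (XT.nd (nat_lit 234) (nat_lit 0) (nat_lit 0) (XT.nd (nat_lit 78) (nat_lit 0) (nat_lit 0) (XT.lf (nat_lit 0) (nat_lit 19461073796) (nat_lit 152) (nat_lit 422824021597) (nat_lit 0) (nat_lit 18805778116) (nat_lit 1) (nat_lit 5) (nat_lit 3) (nat_lit 4) (nat_lit 1) (nat_lit 4) (nat_lit 423) (nat_lit 305) (nat_lit 292)) (XT.nd (nat_lit 78) (nat_lit 0) (nat_lit 0) (XT.lf (nat_lit 0) (nat_lit 24429491427) (nat_lit 152) (nat_lit 449627860258) (nat_lit 0) (nat_lit 23745968398) (nat_lit 1) (nat_lit 5) (nat_lit 3) (nat_lit 4) (nat_lit 1) (nat_lit 4) (nat_lit 424) (nat_lit 305) (nat_lit 291)) (XT.lf (nat_lit 0) (nat_lit 29688070933) (nat_lit 152) (nat_lit 478791648665) (nat_lit 0) (nat_lit 28978411469) (nat_lit 1) (nat_lit 5) (nat_lit 3) (nat_lit 4) (nat_lit 1) (nat_lit 4) (nat_lit 425) (nat_lit 305) (nat_lit 290)))) (XT.nd (nat_lit 78) (nat_lit 0) (nat_lit 0) (XT.lf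 (nat_lit 0) (nat_lit 35267974268) (nat_lit 152) (nat_lit 510488209268) (nat_lit 0) (nat_lit 34534114401) (nat_lit 1) (nat_lit 5) (nat_lit 3) (nat_lit 4) (nat_lit 1) (nat_lit 4) (nat_lit 426) (nat_lit 305) (nat_lit 289)) (XT.nd (nat_lit 78) (nat_lit 0) (nat_lit 0) (XT.lf (nat_lit 0) (nat_lit 41202267525) (nat_lit 152) (nat_lit 544905373538) (nat_lit 0) (nat_lit 40445999877) (nat_lit 1) (nat_lit 5) (nat_lit 3) (nat_lit 4) (nat_lit 1) (nat_lit 4) (nat_lit 427) (nat_lit 305) (nat_lit 288)) (XT.lf (nat_lit 0) (nat_lit 47526116886) (nat_lit 152) (nat_lit 582247095040) (nat_lit 0) (nat_lit 46749101294) (nat_lit 1) (nat_lit 5) (nat_lit 3) (nat_lit 4) (nat_lit 1) (nat_lit 4) (nat_lit 428) (nat_lit 305) (nat_lit 287))))) (XT.nd (nat_lit 234) (nat_lit 0) (nat_lit 0) (XT.nd (nat_lit 78) (nat_lit 0) (nat_lit 0) (XT.lf (nat_lit 0) (nat_lit 54276997014) (nat_lit 152) (nat_lit 622734658050) (nat_lit 0) (nat_lit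 53480770362) (nat_lit 1) (nat_lit 5) (nat_lit 3) (nat_lit 4) (nat_lit 1) (nat_lit 4) (nat_lit 429) (nat_lit 305) (nat_lit 286)) (XT.nd (nat_lit 78) (nat_lit 0) (nat_lit 0) (XT.lf (nat_lit 0) (nat_lit 61494913125) (nat_lit 152) (nat_lit 666607988868) (nat_lit 0) (nat_lit 60680898454) (nat_lit 1) (nat_lit 5) (nat_lit 3) (nat_lit 4) (nat_lit 1) (nat_lit 4) (nat_lit 430) (nat_lit 305) (nat_lit 285)) (XT.lf (nat_lit 0) (nat_lit 69222638055) (nat_lit 152) (nat_lit 714127077602) (nat_lit 0) (nat_lit 68392152996) (nat_lit 1) (nat_lit 5) (nat_lit 3) (nat_lit 4) (nat_lit 1) (nat_lit 4) (nat_lit 431) (nat_lit 305) (nat_lit 284)))) (XT.nd (nat_lit 156) (nat_lit 0) (nat_lit 0) (XT.nd (nat_lit 78) (nat_lit 0) (nat_lit 0) (XT.lf (nat_lit 0) (nat_lit 77505965729) (nat_lit 152) (nat_lit 765573518851) (nat_lit 0) (nat_lit 76660230311) (nat_lit 1) (nat_lit 5) (nat_lit 3) (nat_lit 4) (nat_lit 1) (nat_lit 4)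 (nat_lit 432) (nat_lit 305) (nat_lit 283)) (XT.lf (nat_lit 0) (nat_lit 86393982534) (nat_lit 152) (nat_lit 821252180417) (nat_lit 0) (nat_lit 85534126413) (nat_lit 1) (nat_lit 5) (nat_lit 3) (nat_lit 4) (nat_lit 1) (nat_lit 4) (nat_lit 433) (nat_lit 305) (nat_lit 282))) (XT.nd (nat_lit 78) (nat_lit 0) (nat_lit 0) (XT.lf (nat_lit 0) (nat_lit 95939358198) (nat_lit 152) (nat_lit 881493009922) (nat_lit 0) (nat_lit 95066427353) (nat_lit 1) (nat_lit 5) (nat_lit 3) (nat_lit 4) (nat_lit 1) (nat_lit 4) (nat_lit 434) (nat_lit 305) (nat_lit 281)) (XT.lf (nat_lit 0) (nat_lit 106198657912) (nat_lit 152) (nat_lit 946652990061) (nat_lit 0) (nat_lit 105313620841) (nat_lit 1) (nat_lit 5) (nat_lit 3) (nat_lit 4) (nat_lit 1) (nat_lit 4) (nat_lit 435) (nat_lit 305) (nat_lit 280))))))) (XT.nd (nat_lit 51636) (nat_lit 0) (nat_lit 0) (XT.nd (nat_lit 51090) (nat_lit 0) (nat_lit 152) (XT.nd (nat_lit 234) (nat_lit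 0) (nat_lit 0) (XT.nd (nat_lit 78) (nat_lit 0) (nat_lit 0) (XT.lf (nat_lit 0) (nat_lit 117232677525) (nat_lit 152) (nat_lit 1017118254049) (nat_lit 0) (nat_lit 116336430984) (nat_lit 1) (nat_lit 5) (nat_lit 3) (nat_lit 4) (nat_lit 1) (nat_lit 4) (nat_lit 436) (nat_lit 305) (nat_lit 279)) (XT.nd (nat_lit 78) (nat_lit 0) (nat_lit 0) (XT.lf (nat_lit 0) (nat_lit 129106803819) (nat_lit 152) (nat_lit 1093306373820) (nat_lit 0) (nat_lit 128200178141) (nat_lit 1) (nat_lit 5) (nat_lit 3) (nat_lit 4) (nat_lit 1) (nat_lit 4) (nat_lit 437) (nat_lit 305) (nat_lit 278)) (XT.lf (nat_lit 0) (nat_lit 141891401989) (nat_lit 152) (nat_lit 1175668834529) (nat_lit 0) (nat_lit 140975165998) (nat_lit 1) (nat_lit 5) (nat_lit 3) (nat_lit 4) (nat_lit 1) (nat_lit 4) (nat_lit 438) (nat_lit 305) (nat_lit 277)))) (XT.nd (nat_lit 50700) (nat_lit 0) (nat_lit 152) (XT.lf (nat_lit 0) (nat_lit 155662232615) (nat_lit 152) (nat_lit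 1264693710018) (nat_lit 0) (nat_lit 154737098186) (nat_lit 1) (nat_lit 5) (nat_lit 3) (nat_lit 4) (nat_lit 1) (nat_lit 4) (nat_lit 439) (nat_lit 305) (nat_lit 276)) (XT.nd (nat_lit 78) (nat_lit 0) (nat_lit 0) (XT.lf (nat_lit 0) (nat_lit 37044068882) (nat_lit 76) (nat_lit 18340322337) (nat_lit 76) (nat_lit 18340322337) (nat_lit 3) (nat_lit 4) (nat_lit 4) (nat_lit 5) (nat_lit 4) (nat_lit 4) (nat_lit 408) (nat_lit 306) (nat_lit 306)) (XT.lf (nat_lit 0) (nat_lit 92174465669) (nat_lit 76) (nat_lit 33427250530) (nat_lit 76) (nat_lit 33340195879) (nat_lit 3) (nat_lit 4) (nat_lit 4) (nat_lit 5) (nat_lit 4) (nat_lit 4) (nat_lit 409) (nat_lit 306) (nat_lit 305))))) (XT.nd (nat_lit 234) (nat_lit 0) (nat_lit 0) (XT.nd (nat_lit 78) (nat_lit 0) (nat_lit 0) (XT.lf (nat_lit 0) (nat_lit 111114842423) (nat_lit 76) (nat_lit 30210705331) (nat_lit 76) (nat_lit 30043044520) (nat_lit 3) (nat_lit 4) (nat_lit 4)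 (nat_lit 5) (nat_lit 4) (nat_lit 4) (nat_lit 410) (nat_lit 306) (nat_lit 304)) (XT.nd (nat_lit 78) (nat_lit 0) (nat_lit 0) (XT.lf (nat_lit 0) (nat_lit 131021507297) (nat_lit 76) (nat_lit 27011948069) (nat_lit 76) (nat_lit 26769651925) (nat_lit 3) (nat_lit 4) (nat_lit 4) (nat_lit 5) (nat_lit 4) (nat_lit 4) (nat_lit 411) (nat_lit 306) (nat_lit 303)) (XT.lf (nat_lit 0) (nat_lit 152012425713) (nat_lit 76) (nat_lit 23812023144) (nat_lit 76) (nat_lit 23500620211) (nat_lit 3) (nat_lit 4) (nat_lit 4) (nat_lit 5) (nat_lit 4) (nat_lit 4) (nat_lit 412) (nat_lit 306) (nat_lit 302)))) (XT.nd (nat_lit 156) (nat_lit 0) (nat_lit 0) (XT.nd (nat_lit 78) (nat_lit 0) (nat_lit 0) (XT.lf (nat_lit 0) (nat_lit 174211988298) (nat_lit 76) (nat_lit 20591968038) (nat_lit 76) (nat_lit 20216577337) (nat_lit 3) (nat_lit 4) (nat_lit 4) (nat_lit 5) (nat_lit 4) (nat_lit 4) (nat_lit 413) (nat_lit 306) (nat_lit 301)) (XT.lf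 (nat_lit 0) (nat_lit 197751748015) (nat_lit 76) (nat_lit 17332700945) (nat_lit 76) (nat_lit 16898062310) (nat_lit 3) (nat_lit 4) (nat_lit 4) (nat_lit 5) (nat_lit 4) (nat_lit 4) (nat_lit 414) (nat_lit 306) (nat_lit 300))) (XT.nd (nat_lit 78) (nat_lit 0) (nat_lit 0) (XT.lf (nat_lit 0) (nat_lit 222771199737) (nat_lit 76) (nat_lit 14014907687) (nat_lit 76) (nat_lit 13525409855) (nat_lit 3) (nat_lit 4) (nat_lit 4) (nat_lit 5) (nat_lit 4) (nat_lit 4) (nat_lit 415) (nat_lit 306) (nat_lit 299)) (XT.lf (nat_lit 0) (nat_lit 249418606882) (nat_lit 76) (nat_lit 10618927269) (nat_lit 76) (nat_lit 10078633884) (nat_lit 3) (nat_lit 4) (nat_lit 4) (nat_lit 5) (nat_lit 4) (nat_lit 4) (nat_lit 416) (nat_lit 306) (nat_lit 298)))))) (XT.nd (nat_lit 468) (nat_lit 0) (nat_lit 0) (XT.nd (nat_lit 234) (nat_lit 0) (nat_lit 0) (XT.nd (nat_lit 78) (nat_lit 152) (nat_lit 0) (XT.lf (nat_lit 0) (nat_lit 277851880011)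 (nat_lit 76) (nat_lit 7124635361) (nat_lit 76) (nat_lit 6537309056) (nat_lit 3) (nat_lit 4) (nat_lit 4) (nat_lit 5) (nat_lit 4) (nat_lit 4) (nat_lit 417) (nat_lit 306) (nat_lit 297)) (XT.nd (nat_lit 78) (nat_lit 152) (nat_lit 0) (XT.lf (nat_lit 0) (nat_lit 308239512593) (nat_lit 76) (nat_lit 3511325049) (nat_lit 76) (nat_lit 2880449745) (nat_lit 3) (nat_lit 4) (nat_lit 4) (nat_lit 5) (nat_lit 4) (nat_lit 4) (nat_lit 418) (nat_lit 306) (nat_lit 296)) (XT.lf (nat_lit 0) (nat_lit 907109069) (nat_lit 152) (nat_lit 338428717757) (nat_lit 0) (nat_lit 267872448) (nat_lit 1) (nat_lit 5) (nat_lit 3) (nat_lit 4) (nat_lit 1) (nat_lit 4) (nat_lit 419) (nat_lit 306) (nat_lit 295)))) (XT.nd (nat_lit 78) (nat_lit 0) (nat_lit 0) (XT.lf (nat_lit 0) (nat_lit 4924481863) (nat_lit 152) (nat_lit 357395992235) (nat_lit 0) (nat_lit 4249686911) (nat_lit 1) (nat_lit 5) (nat_lit 3) (nat_lit 4) (nat_lit 1) (nat_lit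 4) (nat_lit 420) (nat_lit 306) (nat_lit 294)) (XT.nd (nat_lit 78) (nat_lit 0) (nat_lit 0) (XT.lf (nat_lit 0) (nat_lit 9128062852) (nat_lit 152) (nat_lit 378152296310) (nat_lit 0) (nat_lit 8420343519) (nat_lit 1) (nat_lit 5) (nat_lit 3) (nat_lit 4) (nat_lit 1) (nat_lit 4) (nat_lit 421) (nat_lit 306) (nat_lit 293)) (XT.lf (nat_lit 0) (nat_lit 13542762146) (nat_lit 152) (nat_lit 400820630302) (nat_lit 0) (nat_lit 12804557275) (nat_lit 1) (nat_lit 5) (nat_lit 3) (nat_lit 4) (nat_lit 1) (nat_lit 4) (nat_lit 422) (nat_lit 306) (nat_lit 292))))) (XT.nd (nat_lit 234) (nat_lit 0) (nat_lit 0) (XT.nd (nat_lit 78) (nat_lit 0) (nat_lit 0) (XT.lf (nat_lit 0) (nat_lit 18194740926) (nat_lit 152) (nat_lit 425535325080) (nat_lit 0) (nat_lit 17428308705) (nat_lit 1) (nat_lit 5) (nat_lit 3) (nat_lit 4) (nat_lit 1) (nat_lit 4) (nat_lit 423) (nat_lit 306) (nat_lit 291)) (XT.nd (nat_lit 78) (nat_lit 0) (nat_lit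 0) (XT.lf (nat_lit 0) (nat_lit 23111566473) (nat_lit 152) (nat_lit 452442838093) (nat_lit 0) (nat_lit 22318997817) (nat_lit 1) (nat_lit 5) (nat_lit 3) (nat_lit 4) (nat_lit 1) (nat_lit 4) (nat_lit 424) (nat_lit 306) (nat_lit 290)) (XT.lf (nat_lit 0) (nat_lit 28322375531) (nat_lit 152) (nat_lit 481702621271) (nat_lit 0) (nat_lit 27505606472) (nat_lit 1) (nat_lit 5) (nat_lit 3) (nat_lit 4) (nat_lit 1) (nat_lit 4) (nat_lit 425) (nat_lit 306) (nat_lit 289)))) (XT.nd (nat_lit 156) (nat_lit 0) (nat_lit 0) (XT.nd (nat_lit 78) (nat_lit 0) (nat_lit 0) (XT.lf (nat_lit 0) (nat_lit 33858046970) (nat_lit 152) (nat_lit 513488065922) (nat_lit 0) (nat_lit 33018870130) (nat_lit 1) (nat_lit 5) (nat_lit 3) (nat_lit 4) (nat_lit 1) (nat_lit 4) (nat_lit 426) (nat_lit 306) (nat_lit 288)) (XT.lf (nat_lit 0) (nat_lit 39751384767) (nat_lit 152) (nat_lit 547987530235) (nat_lit 0) (nat_lit 38891459982) (nat_lit 1) (nat_lit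 5) (nat_lit 3) (nat_lit 4) (nat_lit 1) (nat_lit 4) (nat_lit 427) (nat_lit 306) (nat_lit 287))) (XT.nd (nat_lit 78) (nat_lit 0) (nat_lit 0) (XT.lf (nat_lit 0) (nat_lit 46037312406) (nat_lit 152) (nat_lit 585405455481) (nat_lit 0) (nat_lit 45158176561) (nat_lit 1) (nat_lit 5) (nat_lit 3) (nat_lit 4) (nat_lit 1) (nat_lit 4) (nat_lit 428) (nat_lit 306) (nat_lit 286)) (XT.lf (nat_lit 0) (nat_lit 52753079828) (nat_lit 152) (nat_lit 625963577514) (nat_lit 0) (nat_lit 51856155965) (nat_lit 1) (nat_lit 5) (nat_lit 3) (nat_lit 4) (nat_lit 1) (nat_lit 4) (nat_lit 429) (nat_lit 306) (nat_lit 285))))))))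
noncomputable def xc5 : XT := (XT.nd (nat_lit 52494) (nat_lit 0) (nat_lit 0) (XT.nd (nat_lit 51480) (nat_lit 0) (nat_lit 0) (XT.nd (nat_lit 468) (nat_lit 0) (nat_lit 0) (XT.nd (nat_lit 234) (nat_lit 0) (nat_lit 0) (XT.nd (nat_lit 78) (nat_lit 0) (nat_lit 0) (XT.lf (nat_lit 0) (nat_lit 59938484175) (nat_lit 152) (nat_lit 669902240760) (nat_lit 0) (nat_lit 59025089924) (nat_lit 1) (nat_lit 5) (nat_lit 3) (nat_lit 4) (nat_lit 1) (nat_lit 4) (nat_lit 430) (nat_lit 306) (nat_lit 284)) (XT.nd (nat_lit 78) (nat_lit 0) (nat_lit 0) (XT.lf (nat_lit 0) (nat_lit 67636105619) (nat_lit 152) (nat_lit 717481822483) (nat_lit 0) (nat_lit 66707461009) (nat_lit 1) (nat_lit 5) (nat_lit 3) (nat_lit 4) (nat_lit 1) (nat_lit 4) (nat_lit 431) (nat_lit 306) (nat_lit 283)) (XT.lf (nat_lit 0) (nat_lit 75891559695) (nat_lit 152) (nat_lit 768984275759) (nat_lit 0) (nat_lit 74948794383) (nat_lit 1) (nat_lit 5) (nat_lit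 3) (nat_lit 4) (nat_lit 1) (nat_lit 4) (nat_lit 432) (nat_lit 306) (nat_lit 282)))) (XT.nd (nat_lit 78) (nat_lit 0) (nat_lit 0) (XT.lf (nat_lit 0) (nat_lit 84753767613) (nat_lit 152) (nat_lit 824714800313) (nat_lit 0) (nat_lit 83797927576) (nat_lit 1) (nat_lit 5) (nat_lit 3) (nat_lit 4) (nat_lit 1) (nat_lit 4) (nat_lit 433) (nat_lit 306) (nat_lit 281)) (XT.nd (nat_lit 78) (nat_lit 0) (nat_lit 0) (XT.lf (nat_lit 0) (nat_lit 94275246160) (nat_lit 152) (nat_lit 885003651103) (nat_lit 0) (nat_lit 93307299897) (nat_lit 1) (nat_lit 5) (nat_lit 3) (nat_lit 4) (nat_lit 1) (nat_lit 4) (nat_lit 434) (nat_lit 306) (nat_lit 280)) (XT.lf (nat_lit 0) (nat_lit 104512418914) (nat_lit 152) (nat_lit 950208095395) (nat_lit 0) (nat_lit 103533263181) (nat_lit 1) (nat_lit 5) (nat_lit 3) (nat_lit 4) (nat_lit 1) (nat_lit 4) (nat_lit 435) (nat_lit 306) (nat_lit 279))))) (XT.nd (nat_lit 234) (nat_lit 0) (nat_lit 0)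 (XT.nd (nat_lit 78) (nat_lit 0) (nat_lit 0) (XT.lf (nat_lit 0) (nat_lit 115525950600) (nat_lit 152) (nat_lit 1020714529894) (nat_lit 0) (nat_lit 114536415729) (nat_lit 1) (nat_lit 5) (nat_lit 3) (nat_lit 4) (nat_lit 1) (nat_lit 4) (nat_lit 436) (nat_lit 306) (nat_lit 278)) (XT.nd (nat_lit 78) (nat_lit 0) (nat_lit 0) (XT.lf (nat_lit 0) (nat_lit 127381106592) (nat_lit 152) (nat_lit 1096940770510) (nat_lit 0) (nat_lit 126381961409) (nat_lit 1) (nat_lit 5) (nat_lit 3) (nat_lit 4) (nat_lit 1) (nat_lit 4) (nat_lit 437) (nat_lit 306) (nat_lit 277)) (XT.lf (nat_lit 0) (nat_lit 140148139667) (nat_lit 152) (nat_lit 1179338528297) (nat_lit 0) (nat_lit 139140096046) (nat_lit 1) (nat_lit 5) (nat_lit 3) (nat_lit 4) (nat_lit 1) (nat_lit 4) (nat_lit 438) (nat_lit 306) (nat_lit 276)))) (XT.nd (nat_lit 50622) (nat_lit 0) (nat_lit 152) (XT.nd (nat_lit 50544) (nat_lit 0) (nat_lit 152) (XT.lf (nat_lit 0) (nat_lit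 153902706317) (nat_lit 152) (nat_lit 1268396086266) (nat_lit 0) (nat_lit 152886423401) (nat_lit 1) (nat_lit 5) (nat_lit 3) (nat_lit 4) (nat_lit 1) (nat_lit 4) (nat_lit 439) (nat_lit 306) (nat_lit 275)) (XT.lf (nat_lit 0) (nat_lit 20192898814) (nat_lit 76) (nat_lit 21651416451) (nat_lit 76) (nat_lit 21651416451) (nat_lit 3) (nat_lit 4) (nat_lit 4) (nat_lit 5) (nat_lit 4) (nat_lit 4) (nat_lit 406) (nat_lit 307) (nat_lit 307))) (XT.nd (nat_lit 78) (nat_lit 0) (nat_lit 0) (XT.lf (nat_lit 0) (nat_lit 56748680472) (nat_lit 76) (nat_lit 40084186160) (nat_lit 76) (nat_lit 39990167136) (nat_lit 3) (nat_lit 4) (nat_lit 4) (nat_lit 5) (nat_lit 4) (nat_lit 4) (nat_lit 407) (nat_lit 307) (nat_lit 306)) (XT.lf (nat_lit 0) (nat_lit 73780307970) (nat_lit 76) (nat_lit 36928937792) (nat_lit 76) (nat_lit 36747864116) (nat_lit 3) (nat_lit 4) (nat_lit 4) (nat_lit 5) (nat_lit 4) (nat_lit 4) (nat_lit 408) (nat_lit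 307) (nat_lit 305)))))) (XT.nd (nat_lit 468) (nat_lit 152) (nat_lit 0) (XT.nd (nat_lit 234) (nat_lit 0) (nat_lit 0) (XT.nd (nat_lit 78) (nat_lit 0) (nat_lit 0) (XT.lf (nat_lit 0) (nat_lit 91581608287) (nat_lit 76) (nat_lit 33818390031) (nat_lit 76) (nat_lit 33556710196) (nat_lit 3) (nat_lit 4) (nat_lit 4) (nat_lit 5) (nat_lit 4) (nat_lit 4) (nat_lit 409) (nat_lit 307) (nat_lit 304)) (XT.nd (nat_lit 78) (nat_lit 0) (nat_lit 0) (XT.lf (nat_lit 0) (nat_lit 110258070608) (nat_lit 76) (nat_lit 30734110001) (nat_lit 76) (nat_lit 30397794834) (nat_lit 3) (nat_lit 4) (nat_lit 4) (nat_lit 5) (nat_lit 4) (nat_lit 4) (nat_lit 410) (nat_lit 307) (nat_lit 303)) (XT.lf (nat_lit 0) (nat_lit 129920370267) (nat_lit 76) (nat_lit 27657820488) (nat_lit 76) (nat_lit 27252398531) (nat_lit 3) (nat_lit 4) (nat_lit 4) (nat_lit 5) (nat_lit 4) (nat_lit 4) (nat_lit 411) (nat_lit 307) (nat_lit 302)))) (XT.nd (nat_lit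 78) (nat_lit 0) (nat_lit 0) (XT.lf (nat_lit 0) (nat_lit 150685024594) (nat_lit 76) (nat_lit 24571291627) (nat_lit 76) (nat_lit 24101881902) (nat_lit 3) (nat_lit 4) (nat_lit 4) (nat_lit 5) (nat_lit 4) (nat_lit 4) (nat_lit 412) (nat_lit 307) (nat_lit 301)) (XT.nd (nat_lit 78) (nat_lit 0) (nat_lit 0) (XT.lf (nat_lit 0) (nat_lit 172675083393) (nat_lit 76) (nat_lit 21456232877) (nat_lit 76) (nat_lit 20927575219) (nat_lit 3) (nat_lit 4) (nat_lit 4) (nat_lit 5) (nat_lit 4) (nat_lit 4) (nat_lit 413) (nat_lit 307) (nat_lit 300)) (XT.lf (nat_lit 0) (nat_lit 196020858124) (nat_lit 76) (nat_lit 18294184632) (nat_lit 76) (nat_lit 17710667776) (nat_lit 3) (nat_lit 4) (nat_lit 4) (nat_lit 5) (nat_lit 4) (nat_lit 4) (nat_lit 414) (nat_lit 307) (nat_lit 299))))) (XT.nd (nat_lit 234) (nat_lit 152) (nat_lit 0) (XT.nd (nat_lit 78) (nat_lit 0) (nat_lit 0) (XT.lf (nat_lit 0) (nat_lit 220860694118) (nat_lit 76)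 (nat_lit 15066408826) (nat_lit 76) (nat_lit 14432096417) (nat_lit 3) (nat_lit 4) (nat_lit 4) (nat_lit 5) (nat_lit 4) (nat_lit 4) (nat_lit 415) (nat_lit 307) (nat_lit 298)) (XT.nd (nat_lit 78) (nat_lit 0) (nat_lit 0) (XT.lf (nat_lit 0) (nat_lit 247341790403) (nat_lit 76) (nat_lit 11753777900) (nat_lit 76) (nat_lit 11072432571) (nat_lit 3) (nat_lit 4) (nat_lit 4) (nat_lit 5) (nat_lit 4) (nat_lit 4) (nat_lit 416) (nat_lit 307) (nat_lit 297)) (XT.lf (nat_lit 0) (nat_lit 275621071994) (nat_lit 76) (nat_lit 8336661448) (nat_lit 76) (nat_lit 7611767120) (nat_lit 3) (nat_lit 4) (nat_lit 4) (nat_lit 5) (nat_lit 4) (nat_lit 4) (nat_lit 417) (nat_lit 307) (nat_lit 296)))) (XT.nd (nat_lit 156) (nat_lit 152) (nat_lit 0) (XT.nd (nat_lit 78) (nat_lit 0) (nat_lit 0) (XT.lf (nat_lit 0) (nat_lit 305866119820) (nat_lit 76) (nat_lit 4794809892) (nat_lit 76) (nat_lit 4029592416) (nat_lit 3) (nat_lit 4) (nat_lit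 4) (nat_lit 5) (nat_lit 4) (nat_lit 4) (nat_lit 418) (nat_lit 307) (nat_lit 295)) (XT.lf (nat_lit 0) (nat_lit 338256163793) (nat_lit 76) (nat_lit 1107234481) (nat_lit 76) (nat_lit 304680757) (nat_lit 3) (nat_lit 4) (nat_lit 4) (nat_lit 5) (nat_lit 4) (nat_lit 4) (nat_lit 419) (nat_lit 307) (nat_lit 294))) (XT.nd (nat_lit 78) (nat_lit 0) (nat_lit 0) (XT.lf (nat_lit 0) (nat_lit 3617019371) (nat_lit 152) (nat_lit 360203274231) (nat_lit 0) (nat_lit 2819758110) (nat_lit 1) (nat_lit 5) (nat_lit 3) (nat_lit 4) (nat_lit 1) (nat_lit 4) (nat_lit 420) (nat_lit 307) (nat_lit 293)) (XT.lf (nat_lit 0) (nat_lit 7760423353) (nat_lit 152) (nat_lit 381080504072) (nat_lit 0) (nat_lit 6932676554) (nat_lit 1) (nat_lit 5) (nat_lit 3) (nat_lit 4) (nat_lit 1) (nat_lit 4) (nat_lit 421) (nat_lit 307) (nat_lit 292))))))) (XT.nd (nat_lit 1014) (nat_lit 0) (nat_lit 0) (XT.nd (nat_lit 468) (nat_lit 0) (nat_lit 0) (XT.nd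 (nat_lit 234) (nat_lit 0) (nat_lit 0) (XT.nd (nat_lit 78) (nat_lit 0) (nat_lit 0) (XT.lf (nat_lit 0) (nat_lit 12119403196) (nat_lit 152) (nat_lit 403860806365) (nat_lit 0) (nat_lit 11263429048) (nat_lit 1) (nat_lit 5) (nat_lit 3) (nat_lit 4) (nat_lit 1) (nat_lit 4) (nat_lit 422) (nat_lit 307) (nat_lit 291)) (XT.nd (nat_lit 78) (nat_lit 0) (nat_lit 0) (XT.lf (nat_lit 0) (nat_lit 16719789892) (nat_lit 152) (nat_lit 428679175495) (nat_lit 0) (nat_lit 15837679308) (nat_lit 1) (nat_lit 5) (nat_lit 3) (nat_lit 4) (nat_lit 1) (nat_lit 4) (nat_lit 423) (nat_lit 307) (nat_lit 290)) (XT.lf (nat_lit 0) (nat_lit 21588844991) (nat_lit 152) (nat_lit 455682683279) (nat_lit 0) (nat_lit 20682534004) (nat_lit 1) (nat_lit 5) (nat_lit 3) (nat_lit 4) (nat_lit 1) (nat_lit 4) (nat_lit 424) (nat_lit 307) (nat_lit 289)))) (XT.nd (nat_lit 78) (nat_lit 0) (nat_lit 0) (XT.lf (nat_lit 0) (nat_lit 26755422152) (nat_lit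 152) (nat_lit 485031350504) (nat_lit 0) (nat_lit 25826703385) (nat_lit 1) (nat_lit 5) (nat_lit 3) (nat_lit 4) (nat_lit 1) (nat_lit 4) (nat_lit 425) (nat_lit 307) (nat_lit 288)) (XT.nd (nat_lit 78) (nat_lit 0) (nat_lit 0) (XT.lf (nat_lit 0) (nat_lit 32250138131) (nat_lit 152) (nat_lit 516899095198) (nat_lit 0) (nat_lit 31300671419) (nat_lit 1) (nat_lit 5) (nat_lit 3) (nat_lit 4) (nat_lit 1) (nat_lit 4) (nat_lit 426) (nat_lit 307) (nat_lit 287)) (XT.lf (nat_lit 0) (nat_lit 38105554206) (nat_lit 152) (nat_lit 551474763256) (nat_lit 0) (nat_lit 37136876434) (nat_lit 1) (nat_lit 5) (nat_lit 3) (nat_lit 4) (nat_lit 1) (nat_lit 4) (nat_lit 427) (nat_lit 307) (nat_lit 286))))) (XT.nd (nat_lit 234) (nat_lit 0) (nat_lit 0) (XT.nd (nat_lit 78) (nat_lit 0) (nat_lit 0) (XT.lf (nat_lit 0) (nat_lit 44356369139) (nat_lit 152) (nat_lit 588963247525) (nat_lit 0) (nat_lit 43369903349) (nat_lit 1) (nat_lit 5)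 (nat_lit 3) (nat_lit 4) (nat_lit 1) (nat_lit 4) (nat_lit 428) (nat_lit 307) (nat_lit 285)) (XT.nd (nat_lit 78) (nat_lit 0) (nat_lit 0) (XT.lf (nat_lit 0) (nat_lit 51039624798) (nat_lit 152) (nat_lit 629586701986) (nat_lit 0) (nat_lit 50036688619) (nat_lit 1) (nat_lit 5) (nat_lit 3) (nat_lit 4) (nat_lit 1) (nat_lit 4) (nat_lit 429) (nat_lit 307) (nat_lit 284)) (XT.lf (nat_lit 0) (nat_lit 58194925658) (nat_lit 152) (nat_lit 673585858221) (nat_lit 0) (nat_lit 57176739121) (nat_lit 1) (nat_lit 5) (nat_lit 3) (nat_lit 4) (nat_lit 1) (nat_lit 4) (nat_lit 430) (nat_lit 307) (nat_lit 283)))) (XT.nd (nat_lit 156) (nat_lit 0) (nat_lit 0) (XT.nd (nat_lit 78) (nat_lit 0) (nat_lit 0) (XT.lf (nat_lit 0) (nat_lit 65864673505) (nat_lit 152) (nat_lit 721221451970) (nat_lit 0) (nat_lit 64832366265) (nat_lit 1) (nat_lit 5) (nat_lit 3) (nat_lit 4) (nat_lit 1) (nat_lit 4) (nat_lit 431) (nat_lit 307) (nat_lit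 282)) (XT.lf (nat_lit 0) (nat_lit 74094318695) (nat_lit 152) (nat_lit 772775768235) (nat_lit 0) (nat_lit 73048936730) (nat_lit 1) (nat_lit 5) (nat_lit 3) (nat_lit 4) (nat_lit 1) (nat_lit 4) (nat_lit 432) (nat_lit 307) (nat_lit 281))) (XT.nd (nat_lit 78) (nat_lit 0) (nat_lit 0) (XT.lf (nat_lit 0) (nat_lit 82932629495) (nat_lit 152) (nat_lit 828554314073) (nat_lit 0) (nat_lit 81875141304) (nat_lit 1) (nat_lit 5) (nat_lit 3) (nat_lit 4) (nat_lit 1) (nat_lit 4) (nat_lit 433) (nat_lit 307) (nat_lit 280)) (XT.lf (nat_lit 0) (nat_lit 92431981082) (nat_lit 152) (nat_lit 888887629016) (nat_lit 0) (nat_lit 91363283422) (nat_lit 1) (nat_lit 5) (nat_lit 3) (nat_lit 4) (nat_lit 1) (nat_lit 4) (nat_lit 434) (nat_lit 307) (nat_lit 279)))))) (XT.nd (nat_lit 50856) (nat_lit 0) (nat_lit 152) (XT.nd (nat_lit 234) (nat_lit 0) (nat_lit 0) (XT.nd (nat_lit 78) (nat_lit 0) (nat_lit 0) (XT.lf (nat_lit 0) (nat_lit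 102648665908) (nat_lit 152) (nat_lit 954133243820) (nat_lit 0) (nat_lit 101569589110) (nat_lit 1) (nat_lit 5) (nat_lit 3) (nat_lit 4) (nat_lit 1) (nat_lit 4) (nat_lit 435) (nat_lit 307) (nat_lit 278)) (XT.nd (nat_lit 78) (nat_lit 0) (nat_lit 0) (XT.lf (nat_lit 0) (nat_lit 113643227292) (nat_lit 152) (nat_lit 1024677799164) (nat_lit 0) (nat_lit 112554540181) (nat_lit 1) (nat_lit 5) (nat_lit 3) (nat_lit 4) (nat_lit 1) (nat_lit 4) (nat_lit 436) (nat_lit 307) (nat_lit 277)) (XT.lf (nat_lit 0) (nat_lit 125480818190) (nat_lit 152) (nat_lit 1100939336857) (nat_lit 0) (nat_lit 124383232641) (nat_lit 1) (nat_lit 5) (nat_lit 3) (nat_lit 4) (nat_lit 1) (nat_lit 4) (nat_lit 437) (nat_lit 307) (nat_lit 276)))) (XT.nd (nat_lit 50466) (nat_lit 0) (nat_lit 152) (XT.nd (nat_lit 78) (nat_lit 0) (nat_lit 0) (XT.lf (nat_lit 0) (nat_lit 138231587289) (nat_lit 152) (nat_lit 1183369777125) (nat_lit 0) (nat_lit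 137125762445) (nat_lit 1) (nat_lit 5) (nat_lit 3) (nat_lit 4) (nat_lit 1) (nat_lit 4) (nat_lit 438) (nat_lit 307) (nat_lit 275)) (XT.lf (nat_lit 0) (nat_lit 151971094701) (nat_lit 152) (nat_lit 1272457596648) (nat_lit 0) (nat_lit 150857640881) (nat_lit 1) (nat_lit 5) (nat_lit 3) (nat_lit 4) (nat_lit 1) (nat_lit 4) (nat_lit 439) (nat_lit 307) (nat_lit 274))) (XT.nd (nat_lit 78) (nat_lit 0) (nat_lit 0) (XT.lf (nat_lit 0) (nat_lit 4820422987) (nat_lit 76) (nat_lit 24964349664) (nat_lit 76) (nat_lit 24964349664) (nat_lit 3) (nat_lit 4) (nat_lit 4) (nat_lit 5) (nat_lit 4) (nat_lit 4) (nat_lit 404) (nat_lit 308) (nat_lit 308)) (XT.lf (nat_lit 0) (nat_lit 24594694208) (nat_lit 76) (nat_lit 46705492029) (nat_lit 76) (nat_lit 46603951483) (nat_lit 3) (nat_lit 4) (nat_lit 4) (nat_lit 5) (nat_lit 4) (nat_lit 4) (nat_lit 405) (nat_lit 308) (nat_lit 307))))) (XT.nd (nat_lit 234) (nat_lit 0) (nat_lit 0)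 (XT.nd (nat_lit 78) (nat_lit 0) (nat_lit 0) (XT.lf (nat_lit 0) (nat_lit 40053341450) (nat_lit 76) (nat_lit 43570989470) (nat_lit 76) (nat_lit 43375429900) (nat_lit 3) (nat_lit 4) (nat_lit 4) (nat_lit 5) (nat_lit 4) (nat_lit 4) (nat_lit 406) (nat_lit 308) (nat_lit 306)) (XT.nd (nat_lit 78) (nat_lit 0) (nat_lit 0) (XT.lf (nat_lit 0) (nat_lit 56108394499) (nat_lit 76) (nat_lit 40506616820) (nat_lit 76) (nat_lit 40224002598) (nat_lit 3) (nat_lit 4) (nat_lit 4) (nat_lit 5) (nat_lit 4) (nat_lit 4) (nat_lit 407) (nat_lit 308) (nat_lit 305)) (XT.lf (nat_lit 0) (nat_lit 72854994410) (nat_lit 76) (nat_lit 37494214835) (nat_lit 76) (nat_lit 37130994454) (nat_lit 3) (nat_lit 4) (nat_lit 4) (nat_lit 5) (nat_lit 4) (nat_lit 4) (nat_lit 408) (nat_lit 308) (nat_lit 304)))) (XT.nd (nat_lit 156) (nat_lit 0) (nat_lit 0) (XT.nd (nat_lit 78) (nat_lit 0) (nat_lit 0) (XT.lf (nat_lit 0) (nat_lit 90392380294) (nat_lit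 76) (nat_lit 34515932243) (nat_lit 76) (nat_lit 34078076530) (nat_lit 3) (nat_lit 4) (nat_lit 4) (nat_lit 5) (nat_lit 4) (nat_lit 4) (nat_lit 409) (nat_lit 308) (nat_lit 303)) (XT.lf (nat_lit 0) (nat_lit 108824477400) (nat_lit 76) (nat_lit 31554119963) (nat_lit 76) (nat_lit 31047157460) (nat_lit 3) (nat_lit 4) (nat_lit 4) (nat_lit 5) (nat_lit 4) (nat_lit 4) (nat_lit 410) (nat_lit 308) (nat_lit 302))) (XT.nd (nat_lit 78) (nat_lit 0) (nat_lit 0) (XT.lf (nat_lit 0) (nat_lit 128260512970) (nat_lit 76) (nat_lit 28591226514) (nat_lit 76) (nat_lit 28020276243) (nat_lit 3) (nat_lit 4) (nat_lit 4) (nat_lit 5) (nat_lit 4) (nat_lit 4) (nat_lit 411) (nat_lit 308) (nat_lit 301)) (XT.lf (nat_lit 0) (nat_lit 148815663511) (nat_lit 76) (nat_lit 25609694009) (nat_lit 76) (nat_lit 24979495805) (nat_lit 3) (nat_lit 4) (nat_lit 4) (nat_lit 5) (nat_lit 4) (nat_lit 4) (nat_lit 412) (nat_lit 308) (nat_lit 300))))))))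
noncomputable def xc6 : XT := (XT.nd (nat_lit 2028) (nat_lit 0) (nat_lit 0) (XT.nd (nat_lit 1014) (nat_lit 0) (nat_lit 0) (XT.nd (nat_lit 468) (nat_lit 152) (nat_lit 0) (XT.nd (nat_lit 234) (nat_lit 0) (nat_lit 0) (XT.nd (nat_lit 78) (nat_lit 0) (nat_lit 0) (XT.lf (nat_lit 0) (nat_lit 170611737324) (nat_lit 76) (nat_lit 22591854108) (nat_lit 76) (nat_lit 21906796706) (nat_lit 3) (nat_lit 4) (nat_lit 4) (nat_lit 5) (nat_lit 4) (nat_lit 4) (nat_lit 413) (nat_lit 308) (nat_lit 299)) (XT.nd (nat_lit 78) (nat_lit 0) (nat_lit 0) (XT.lf (nat_lit 0) (nat_lit 193777896326) (nat_lit 76) (nat_lit 19519823313) (nat_lit 76) (nat_lit 18783970359) (nat_lit 3) (nat_lit 4) (nat_lit 4) (nat_lit 5) (nat_lit 4) (nat_lit 4) (nat_lit 414) (nat_lit 308) (nat_lit 298)) (XT.lf (nat_lit 0) (nat_lit 218451421460) (nat_lit 76) (nat_lit 16375397000) (nat_lit 76) (nat_lit 15592511126) (nat_lit 3) (nat_lit 4) (nat_lit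 4) (nat_lit 5) (nat_lit 4) (nat_lit 4) (nat_lit 415) (nat_lit 308) (nat_lit 297)))) (XT.nd (nat_lit 78) (nat_lit 0) (nat_lit 0) (XT.lf (nat_lit 0) (nat_lit 244778526208) (nat_lit 76) (nat_lit 13139941530) (nat_lit 76) (nat_lit 12313506656) (nat_lit 3) (nat_lit 4) (nat_lit 4) (nat_lit 5) (nat_lit 4) (nat_lit 4) (nat_lit 416) (nat_lit 308) (nat_lit 296)) (XT.nd (nat_lit 78) (nat_lit 0) (nat_lit 0) (XT.lf (nat_lit 0) (nat_lit 272915223044) (nat_lit 76) (nat_lit 9794283834) (nat_lit 76) (nat_lit 8927525812) (nat_lit 3) (nat_lit 4) (nat_lit 4) (nat_lit 5) (nat_lit 4) (nat_lit 4) (nat_lit 417) (nat_lit 308) (nat_lit 295)) (XT.lf (nat_lit 0) (nat_lit 303028247947) (nat_lit 76) (nat_lit 6318597792) (nat_lit 76) (nat_lit 5414503522) (nat_lit 3) (nat_lit 4) (nat_lit 4) (nat_lit 5) (nat_lit 4) (nat_lit 4) (nat_lit 418) (nat_lit 308) (nat_lit 294))))) (XT.nd (nat_lit 234) (nat_lit 0) (nat_lit 0) (XT.nd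 (nat_lit 78) (nat_lit 152) (nat_lit 0) (XT.lf (nat_lit 0) (nat_lit 335296048474) (nat_lit 76) (nat_lit 2692286746) (nat_lit 76) (nat_lit 1753621876) (nat_lit 3) (nat_lit 4) (nat_lit 4) (nat_lit 5) (nat_lit 4) (nat_lit 4) (nat_lit 419) (nat_lit 308) (nat_lit 293)) (XT.nd (nat_lit 78) (nat_lit 0) (nat_lit 0) (XT.lf (nat_lit 0) (nat_lit 2079791705) (nat_lit 152) (nat_lit 363486664379) (nat_lit 0) (nat_lit 1155339624) (nat_lit 1) (nat_lit 5) (nat_lit 3) (nat_lit 4) (nat_lit 1) (nat_lit 4) (nat_lit 420) (nat_lit 308) (nat_lit 292)) (XT.lf (nat_lit 0) (nat_lit 6167476237) (nat_lit 152) (nat_lit 384475862520) (nat_lit 0) (nat_lit 5214796806) (nat_lit 1) (nat_lit 5) (nat_lit 3) (nat_lit 4) (nat_lit 1) (nat_lit 4) (nat_lit 421) (nat_lit 308) (nat_lit 291)))) (XT.nd (nat_lit 156) (nat_lit 0) (nat_lit 0) (XT.nd (nat_lit 78) (nat_lit 0) (nat_lit 0) (XT.lf (nat_lit 0) (nat_lit 10474863995) (nat_lit 152)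 (nat_lit 407359839165) (nat_lit 0) (nat_lit 9496048130) (nat_lit 1) (nat_lit 5) (nat_lit 3) (nat_lit 4) (nat_lit 1) (nat_lit 4) (nat_lit 422) (nat_lit 308) (nat_lit 290)) (XT.lf (nat_lit 0) (nat_lit 15027480243) (nat_lit 152) (nat_lit 432274203067) (nat_lit 0) (nat_lit 14024463974) (nat_lit 1) (nat_lit 5) (nat_lit 3) (nat_lit 4) (nat_lit 1) (nat_lit 4) (nat_lit 423) (nat_lit 308) (nat_lit 289))) (XT.nd (nat_lit 78) (nat_lit 0) (nat_lit 0) (XT.lf (nat_lit 0) (nat_lit 19852303445) (nat_lit 152) (nat_lit 459366594898) (nat_lit 0) (nat_lit 18826879396) (nat_lit 1) (nat_lit 5) (nat_lit 3) (nat_lit 4) (nat_lit 1) (nat_lit 4) (nat_lit 424) (nat_lit 308) (nat_lit 288)) (XT.lf (nat_lit 0) (nat_lit 24977925147) (nat_lit 152) (nat_lit 488797562167) (nat_lit 0) (nat_lit 23931753153) (nat_lit 1) (nat_lit 5) (nat_lit 3) (nat_lit 4) (nat_lit 1) (nat_lit 4) (nat_lit 425) (nat_lit 308) (nat_lit 287))))))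 (XT.nd (nat_lit 468) (nat_lit 0) (nat_lit 0) (XT.nd (nat_lit 234) (nat_lit 0) (nat_lit 0) (XT.nd (nat_lit 78) (nat_lit 0) (nat_lit 0) (XT.lf (nat_lit 0) (nat_lit 30434719403) (nat_lit 152) (nat_lit 520741510605) (nat_lit 0) (nat_lit 29369336349) (nat_lit 1) (nat_lit 5) (nat_lit 3) (nat_lit 4) (nat_lit 1) (nat_lit 4) (nat_lit 426) (nat_lit 308) (nat_lit 286)) (XT.nd (nat_lit 78) (nat_lit 0) (nat_lit 0) (XT.lf (nat_lit 0) (nat_lit 36255022773) (nat_lit 152) (nat_lit 555387737685) (nat_lit 0) (nat_lit 35171851700) (nat_lit 1) (nat_lit 5) (nat_lit 3) (nat_lit 4) (nat_lit 1) (nat_lit 4) (nat_lit 427) (nat_lit 308) (nat_lit 285)) (XT.lf (nat_lit 0) (nat_lit 42473325942) (nat_lit 152) (nat_lit 592941554382) (nat_lit 0) (nat_lit 41373684482) (nat_lit 1) (nat_lit 5) (nat_lit 3) (nat_lit 4) (nat_lit 1) (nat_lit 4) (nat_lit 428) (nat_lit 308) (nat_lit 284)))) (XT.nd (nat_lit 78) (nat_lit 0) (nat_lit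 0) (XT.lf (nat_lit 0) (nat_lit 49126478115) (nat_lit 152) (nat_lit 633625501832) (nat_lit 0) (nat_lit 48011586295) (nat_lit 1) (nat_lit 5) (nat_lit 3) (nat_lit 4) (nat_lit 1) (nat_lit 4) (nat_lit 429) (nat_lit 308) (nat_lit 283)) (XT.nd (nat_lit 78) (nat_lit 0) (nat_lit 0) (XT.lf (nat_lit 0) (nat_lit 56253905378) (nat_lit 152) (nat_lit 677680670094) (nat_lit 0) (nat_lit 55124892856) (nat_lit 1) (nat_lit 5) (nat_lit 3) (nat_lit 4) (nat_lit 1) (nat_lit 4) (nat_lit 430) (nat_lit 308) (nat_lit 282)) (XT.lf (nat_lit 0) (nat_lit 63897844337) (nat_lit 152) (nat_lit 725368126832) (nat_lit 0) (nat_lit 62755757091) (nat_lit 1) (nat_lit 5) (nat_lit 3) (nat_lit 4) (nat_lit 1) (nat_lit 4) (nat_lit 431) (nat_lit 308) (nat_lit 281))))) (XT.nd (nat_lit 234) (nat_lit 0) (nat_lit 0) (XT.nd (nat_lit 78) (nat_lit 0) (nat_lit 0) (XT.lf (nat_lit 0) (nat_lit 72103592410) (nat_lit 152) (nat_lit 776970464381) (nat_lit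 0) (nat_lit 70949398937) (nat_lit 1) (nat_lit 5) (nat_lit 3) (nat_lit 4) (nat_lit 1) (nat_lit 4) (nat_lit 432) (nat_lit 308) (nat_lit 280)) (XT.nd (nat_lit 78) (nat_lit 0) (nat_lit 0) (XT.lf (nat_lit 0) (nat_lit 80919776250) (nat_lit 152) (nat_lit 832793474372) (nat_lit 0) (nat_lit 79754373308) (nat_lit 1) (nat_lit 5) (nat_lit 3) (nat_lit 4) (nat_lit 1) (nat_lit 4) (nat_lit 433) (nat_lit 308) (nat_lit 279)) (XT.lf (nat_lit 0) (nat_lit 90398639910) (nat_lit 152) (nat_lit 893167959827) (nat_lit 0) (nat_lit 89222857830) (nat_lit 1) (nat_lit 5) (nat_lit 3) (nat_lit 4) (nat_lit 1) (nat_lit 4) (nat_lit 434) (nat_lit 308) (nat_lit 278)))) (XT.nd (nat_lit 156) (nat_lit 0) (nat_lit 0) (XT.nd (nat_lit 78) (nat_lit 0) (nat_lit 0) (XT.lf (nat_lit 0) (nat_lit 100596354434) (nat_lit 152) (nat_lit 958451695475) (nat_lit 0) (nat_lit 99410962041) (nat_lit 1) (nat_lit 5) (nat_lit 3) (nat_lit 4) (nat_lit 1)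 (nat_lit 4) (nat_lit 435) (nat_lit 308) (nat_lit 277)) (XT.lf (nat_lit 0) (nat_lit 111573350724) (nat_lit 152) (nat_lit 1029031547897) (nat_lit 0) (nat_lit 110379059893) (nat_lit 1) (nat_lit 5) (nat_lit 3) (nat_lit 4) (nat_lit 1) (nat_lit 4) (nat_lit 436) (nat_lit 308) (nat_lit 276))) (XT.nd (nat_lit 78) (nat_lit 0) (nat_lit 0) (XT.lf (nat_lit 0) (nat_lit 123394677645) (nat_lit 152) (nat_lit 1105325768071) (nat_lit 0) (nat_lit 122192147520) (nat_lit 1) (nat_lit 5) (nat_lit 3) (nat_lit 4) (nat_lit 1) (nat_lit 4) (nat_lit 437) (nat_lit 308) (nat_lit 275)) (XT.lf (nat_lit 0) (nat_lit 136130387506) (nat_lit 152) (nat_lit 1187786469893) (nat_lit 0) (nat_lit 134920228404) (nat_lit 1) (nat_lit 5) (nat_lit 3) (nat_lit 4) (nat_lit 1) (nat_lit 4) (nat_lit 438) (nat_lit 308) (nat_lit 274))))))) (XT.nd (nat_lit 51168) (nat_lit 0) (nat_lit 0) (XT.nd (nat_lit 50622) (nat_lit 0) (nat_lit 152) (XT.nd (nat_lit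 50388) (nat_lit 0) (nat_lit 152) (XT.nd (nat_lit 50232) (nat_lit 0) (nat_lit 228) (XT.lf (nat_lit 0) (nat_lit 149855951179) (nat_lit 152) (nat_lit 1276902309375) (nat_lit 0) (nat_lit 148638728211) (nat_lit 1) (nat_lit 5) (nat_lit 3) (nat_lit 4) (nat_lit 1) (nat_lit 4) (nat_lit 439) (nat_lit 308) (nat_lit 273)) (XT.nd (nat_lit 78) (nat_lit 0) (nat_lit 0) (XT.lf (nat_lit 0) (nat_lit 19104569805) (nat_lit 152) (nat_lit 9058810754) (nat_lit 0) (nat_lit 19104569805) (nat_lit 4) (nat_lit 5) (nat_lit 6) (nat_lit 4) (nat_lit 4) (nat_lit 4) (nat_lit 402) (nat_lit 309) (nat_lit 309)) (XT.lf (nat_lit 0) (nat_lit 48549010059) (nat_lit 152) (nat_lit 4740089870) (nat_lit 0) (nat_lit 48439346269) (nat_lit 4) (nat_lit 5) (nat_lit 6) (nat_lit 4) (nat_lit 4) (nat_lit 4) (nat_lit 403) (nat_lit 309) (nat_lit 308)))) (XT.nd (nat_lit 78) (nat_lit 0) (nat_lit 0) (XT.lf (nat_lit 0) (nat_lit 9281793302) (nat_lit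 76) (nat_lit 50218308420) (nat_lit 76) (nat_lit 50007104085) (nat_lit 3) (nat_lit 4) (nat_lit 4) (nat_lit 5) (nat_lit 4) (nat_lit 4) (nat_lit 404) (nat_lit 309) (nat_lit 307)) (XT.nd (nat_lit 78) (nat_lit 0) (nat_lit 0) (XT.lf (nat_lit 0) (nat_lit 23903185358) (nat_lit 76) (nat_lit 47161717142) (nat_lit 76) (nat_lit 46856493783) (nat_lit 3) (nat_lit 4) (nat_lit 4) (nat_lit 5) (nat_lit 4) (nat_lit 4) (nat_lit 405) (nat_lit 309) (nat_lit 306)) (XT.lf (nat_lit 0) (nat_lit 39054002805) (nat_lit 76) (nat_lit 44181488677) (nat_lit 76) (nat_lit 43789210665) (nat_lit 3) (nat_lit 4) (nat_lit 4) (nat_lit 5) (nat_lit 4) (nat_lit 4) (nat_lit 406) (nat_lit 309) (nat_lit 305))))) (XT.nd (nat_lit 234) (nat_lit 0) (nat_lit 0) (XT.nd (nat_lit 78) (nat_lit 0) (nat_lit 0) (XT.lf (nat_lit 0) (nat_lit 54824028267) (nat_lit 76) (nat_lit 41259962410) (nat_lit 76) (nat_lit 40787078239) (nat_lit 3) (nat_lit 4) (nat_lit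 4) (nat_lit 5) (nat_lit 4) (nat_lit 4) (nat_lit 407) (nat_lit 309) (nat_lit 304)) (XT.nd (nat_lit 78) (nat_lit 0) (nat_lit 0) (XT.lf (nat_lit 0) (nat_lit 71306713745) (nat_lit 76) (nat_lit 38379825594) (nat_lit 76) (nat_lit 37832306091) (nat_lit 3) (nat_lit 4) (nat_lit 4) (nat_lit 5) (nat_lit 4) (nat_lit 4) (nat_lit 408) (nat_lit 309) (nat_lit 303)) (XT.lf (nat_lit 0) (nat_lit 88599734413) (nat_lit 76) (nat_lit 35524010752) (nat_lit 76) (nat_lit 34907384459) (nat_lit 3) (nat_lit 4) (nat_lit 4) (nat_lit 5) (nat_lit 4) (nat_lit 4) (nat_lit 409) (nat_lit 309) (nat_lit 302)))) (XT.nd (nat_lit 156) (nat_lit 0) (nat_lit 0) (XT.nd (nat_lit 78) (nat_lit 0) (nat_lit 0) (XT.lf (nat_lit 0) (nat_lit 106805567430) (nat_lit 76) (nat_lit 32675594536) (nat_lit 76) (nat_lit 31994980475) (nat_lit 3) (nat_lit 4) (nat_lit 4) (nat_lit 5) (nat_lit 4) (nat_lit 4) (nat_lit 410) (nat_lit 309) (nat_lit 301)) (XT.lf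 (nat_lit 0) (nat_lit 126032099215) (nat_lit 76) (nat_lit 29817697443) (nat_lit 76) (nat_lit 29077835449) (nat_lit 3) (nat_lit 4) (nat_lit 4) (nat_lit 5) (nat_lit 4) (nat_lit 4) (nat_lit 411) (nat_lit 309) (nat_lit 300))) (XT.nd (nat_lit 78) (nat_lit 0) (nat_lit 0) (XT.lf (nat_lit 0) (nat_lit 146393264769) (nat_lit 76) (nat_lit 26933383786) (nat_lit 76) (nat_lit 26138662594) (nat_lit 3) (nat_lit 4) (nat_lit 4) (nat_lit 5) (nat_lit 4) (nat_lit 4) (nat_lit 412) (nat_lit 309) (nat_lit 299)) (XT.lf (nat_lit 0) (nat_lit 168009722853) (nat_lit 76) (nat_lit 24005561336) (nat_lit 76) (nat_lit 23160044591) (nat_lit 3) (nat_lit 4) (nat_lit 4) (nat_lit 5) (nat_lit 4) (nat_lit 4) (nat_lit 413) (nat_lit 309) (nat_lit 298)))))) (XT.nd (nat_lit 468) (nat_lit 152) (nat_lit 0) (XT.nd (nat_lit 234) (nat_lit 0) (nat_lit 0) (XT.nd (nat_lit 78) (nat_lit 0) (nat_lit 0) (XT.lf (nat_lit 0) (nat_lit 191009570996)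 (nat_lit 76) (nat_lit 21016880034) (nat_lit 76) (nat_lit 20124330370) (nat_lit 3) (nat_lit 4) (nat_lit 4) (nat_lit 5) (nat_lit 4) (nat_lit 4) (nat_lit 414) (nat_lit 309) (nat_lit 297)) (XT.nd (nat_lit 78) (nat_lit 0) (nat_lit 0) (XT.lf (nat_lit 0) (nat_lit 215529104593) (nat_lit 76) (nat_lit 17949629177) (nat_lit 76) (nat_lit 17013530513) (nat_lit 3) (nat_lit 4) (nat_lit 4) (nat_lit 5) (nat_lit 4) (nat_lit 4) (nat_lit 415) (nat_lit 309) (nat_lit 296)) (XT.lf (nat_lit 0) (nat_lit 241713624585) (nat_lit 76) (nat_lit 14785632462) (nat_lit 76) (nat_lit 13809210651) (nat_lit 3) (nat_lit 4) (nat_lit 4) (nat_lit 5) (nat_lit 4) (nat_lit 4) (nat_lit 416) (nat_lit 309) (nat_lit 295)))) (XT.nd (nat_lit 78) (nat_lit 0) (nat_lit 0) (XT.lf (nat_lit 0) (nat_lit 269718298498) (nat_lit 76) (nat_lit 11506140280) (nat_lit 76) (nat_lit 10492382221) (nat_lit 3) (nat_lit 4) (nat_lit 4) (nat_lit 5) (nat_lit 4)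 (nat_lit 4) (nat_lit 417) (nat_lit 309) (nat_lit 294)) (XT.nd (nat_lit 78) (nat_lit 0) (nat_lit 0) (XT.lf (nat_lit 0) (nat_lit 299709079955) (nat_lit 76) (nat_lit 8091718603) (nat_lit 76) (nat_lit 7043389944) (nat_lit 3) (nat_lit 4) (nat_lit 4) (nat_lit 5) (nat_lit 4) (nat_lit 4) (nat_lit 418) (nat_lit 309) (nat_lit 293)) (XT.lf (nat_lit 0) (nat_lit 331863692105) (nat_lit 76) (nat_lit 4522133821) (nat_lit 76) (nat_lit 3441795347) (nat_lit 3) (nat_lit 4) (nat_lit 4) (nat_lit 5) (nat_lit 4) (nat_lit 4) (nat_lit 419) (nat_lit 309) (nat_lit 292))))) (XT.nd (nat_lit 234) (nat_lit 0) (nat_lit 0) (XT.nd (nat_lit 78) (nat_lit 76) (nat_lit 0) (XT.lf (nat_lit 0) (nat_lit 323062448) (nat_lit 152) (nat_lit 447699172) (nat_lit 76) (nat_lit 366044147131) (nat_lit 2) (nat_lit 5) (nat_lit 4) (nat_lit 5) (nat_lit 3) (nat_lit 4) (nat_lit 420) (nat_lit 309) (nat_lit 291)) (XT.nd (nat_lit 78) (nat_lit 0) (nat_lit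 0) (XT.lf (nat_lit 0) (nat_lit 4339781815) (nat_lit 152) (nat_lit 388358492297) (nat_lit 0) (nat_lit 3256524245) (nat_lit 1) (nat_lit 5) (nat_lit 3) (nat_lit 4) (nat_lit 1) (nat_lit 4) (nat_lit 421) (nat_lit 309) (nat_lit 290)) (XT.lf (nat_lit 0) (nat_lit 8599399126) (nat_lit 152) (nat_lit 411338463714) (nat_lit 0) (nat_lit 7491941153) (nat_lit 1) (nat_lit 5) (nat_lit 3) (nat_lit 4) (nat_lit 1) (nat_lit 4) (nat_lit 422) (nat_lit 309) (nat_lit 289)))) (XT.nd (nat_lit 156) (nat_lit 0) (nat_lit 0) (XT.nd (nat_lit 78) (nat_lit 0) (nat_lit 0) (XT.lf (nat_lit 0) (nat_lit 13107783477) (nat_lit 152) (nat_lit 436341711662) (nat_lit 0) (nat_lit 11977917723) (nat_lit 1) (nat_lit 5) (nat_lit 3) (nat_lit 4) (nat_lit 1) (nat_lit 4) (nat_lit 423) (nat_lit 309) (nat_lit 288)) (XT.lf (nat_lit 0) (nat_lit 17891651219) (nat_lit 152) (nat_lit 463516403538) (nat_lit 0) (nat_lit 16741037521) (nat_lit 1) (nat_lit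 5) (nat_lit 3) (nat_lit 4) (nat_lit 1) (nat_lit 4) (nat_lit 424) (nat_lit 309) (nat_lit 287))) (XT.nd (nat_lit 78) (nat_lit 0) (nat_lit 0) (XT.lf (nat_lit 0) (nat_lit 22979351199) (nat_lit 152) (nat_lit 493023574551) (nat_lit 0) (nat_lit 21809526441) (nat_lit 1) (nat_lit 5) (nat_lit 3) (nat_lit 4) (nat_lit 1) (nat_lit 4) (nat_lit 425) (nat_lit 309) (nat_lit 286)) (XT.lf (nat_lit 0) (nat_lit 28401032750) (nat_lit 152) (nat_lit 525038082011) (nat_lit 0) (nat_lit 27213419973) (nat_lit 1) (nat_lit 5) (nat_lit 3) (nat_lit 4) (nat_lit 1) (nat_lit 4) (nat_lit 426) (nat_lit 309) (nat_lit 285))))))))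
noncomputable def xc7 : XT := (XT.nd (nat_lit 52026) (nat_lit 0) (nat_lit 0) (XT.nd (nat_lit 51012) (nat_lit 0) (nat_lit 152) (XT.nd (nat_lit 468) (nat_lit 0) (nat_lit 0) (XT.nd (nat_lit 234) (nat_lit 0) (nat_lit 0) (XT.nd (nat_lit 78) (nat_lit 0) (nat_lit 0) (XT.lf (nat_lit 0) (nat_lit 34188824355) (nat_lit 152) (nat_lit 559749641520) (nat_lit 0) (nat_lit 32984741191) (nat_lit 1) (nat_lit 5) (nat_lit 3) (nat_lit 4) (nat_lit 1) (nat_lit 4) (nat_lit 427) (nat_lit 309) (nat_lit 284)) (XT.nd (nat_lit 78) (nat_lit 0) (nat_lit 0) (XT.lf (nat_lit 0) (nat_lit 40377024039) (nat_lit 152) (nat_lit 597363951206) (nat_lit 0) (nat_lit 39157690515) (nat_lit 1) (nat_lit 5) (nat_lit 3) (nat_lit 4) (nat_lit 1) (nat_lit 4) (nat_lit 428) (nat_lit 309) (nat_lit 283)) (XT.lf (nat_lit 0) (nat_lit 47002302614) (nat_lit 152) (nat_lit 638103910682) (nat_lit 0) (nat_lit 45768848387) (nat_lit 1) (nat_lit 5) (nat_lit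 3) (nat_lit 4) (nat_lit 1) (nat_lit 4) (nat_lit 429) (nat_lit 309) (nat_lit 282)))) (XT.nd (nat_lit 78) (nat_lit 0) (nat_lit 0) (XT.lf (nat_lit 0) (nat_lit 54103920990) (nat_lit 152) (nat_lit 682210941932) (nat_lit 0) (nat_lit 52857392039) (nat_lit 1) (nat_lit 5) (nat_lit 3) (nat_lit 4) (nat_lit 1) (nat_lit 4) (nat_lit 430) (nat_lit 309) (nat_lit 281)) (XT.nd (nat_lit 78) (nat_lit 0) (nat_lit 0) (XT.lf (nat_lit 0) (nat_lit 61723962832) (nat_lit 152) (nat_lit 729946419955) (nat_lit 0) (nat_lit 60465327655) (nat_lit 1) (nat_lit 5) (nat_lit 3) (nat_lit 4) (nat_lit 1) (nat_lit 4) (nat_lit 431) (nat_lit 309) (nat_lit 280)) (XT.lf (nat_lit 0) (nat_lit 69907583944) (nat_lit 152) (nat_lit 781593221657) (nat_lit 0) (nat_lit 68637739297) (nat_lit 1) (nat_lit 5) (nat_lit 3) (nat_lit 4) (nat_lit 1) (nat_lit 4) (nat_lit 432) (nat_lit 309) (nat_lit 279))))) (XT.nd (nat_lit 234) (nat_lit 0) (nat_lit 0)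 (XT.nd (nat_lit 78) (nat_lit 0) (nat_lit 0) (XT.lf (nat_lit 0) (nat_lit 78703279857) (nat_lit 152) (nat_lit 837457402160) (nat_lit 0) (nat_lit 77423056073) (nat_lit 1) (nat_lit 5) (nat_lit 3) (nat_lit 4) (nat_lit 1) (nat_lit 4) (nat_lit 433) (nat_lit 309) (nat_lit 278)) (XT.nd (nat_lit 78) (nat_lit 0) (nat_lit 0) (XT.lf (nat_lit 0) (nat_lit 88163173215) (nat_lit 152) (nat_lit 897870008459) (nat_lit 0) (nat_lit 86873339118) (nat_lit 1) (nat_lit 5) (nat_lit 3) (nat_lit 4) (nat_lit 1) (nat_lit 4) (nat_lit 434) (nat_lit 309) (nat_lit 277)) (XT.lf (nat_lit 0) (nat_lit 98343322645) (nat_lit 152) (nat_lit 963189041185) (nat_lit 0) (nat_lit 97044590110) (nat_lit 1) (nat_lit 5) (nat_lit 3) (nat_lit 4) (nat_lit 1) (nat_lit 4) (nat_lit 435) (nat_lit 309) (nat_lit 276)))) (XT.nd (nat_lit 156) (nat_lit 0) (nat_lit 0) (XT.nd (nat_lit 78) (nat_lit 0) (nat_lit 0) (XT.lf (nat_lit 0) (nat_lit 109304054958)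 (nat_lit 152) (nat_lit 1033801576087) (nat_lit 0) (nat_lit 107997083128) (nat_lit 1) (nat_lit 5) (nat_lit 3) (nat_lit 4) (nat_lit 1) (nat_lit 4) (nat_lit 436) (nat_lit 309) (nat_lit 275)) (XT.lf (nat_lit 0) (nat_lit 121110322642) (nat_lit 152) (nat_lit 1110126057816) (nat_lit 0) (nat_lit 119795721836) (nat_lit 1) (nat_lit 5) (nat_lit 3) (nat_lit 4) (nat_lit 1) (nat_lit 4) (nat_lit 437) (nat_lit 309) (nat_lit 274))) (XT.nd (nat_lit 78) (nat_lit 0) (nat_lit 0) (XT.lf (nat_lit 0) (nat_lit 133832088764) (nat_lit 152) (nat_lit 1192614779597) (nat_lit 0) (nat_lit 132510424091) (nat_lit 1) (nat_lit 5) (nat_lit 3) (nat_lit 4) (nat_lit 1) (nat_lit 4) (nat_lit 438) (nat_lit 309) (nat_lit 273)) (XT.lf (nat_lit 0) (nat_lit 147544741569) (nat_lit 152) (nat_lit 1281756563485) (nat_lit 0) (nat_lit 146216536278) (nat_lit 1) (nat_lit 5) (nat_lit 3) (nat_lit 4) (nat_lit 1) (nat_lit 4) (nat_lit 439) (nat_lit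 309) (nat_lit 272)))))) (XT.nd (nat_lit 468) (nat_lit 0) (nat_lit 0) (XT.nd (nat_lit 234) (nat_lit 76) (nat_lit 0) (XT.nd (nat_lit 78) (nat_lit 0) (nat_lit 0) (XT.lf (nat_lit 0) (nat_lit 9503217006) (nat_lit 152) (nat_lit 21870485135) (nat_lit 0) (nat_lit 9503217006) (nat_lit 4) (nat_lit 5) (nat_lit 6) (nat_lit 4) (nat_lit 4) (nat_lit 4) (nat_lit 400) (nat_lit 310) (nat_lit 310)) (XT.nd (nat_lit 78) (nat_lit 0) (nat_lit 0) (XT.lf (nat_lit 0) (nat_lit 28392739157) (nat_lit 152) (nat_lit 31227151225) (nat_lit 0) (nat_lit 28274302264) (nat_lit 4) (nat_lit 5) (nat_lit 6) (nat_lit 4) (nat_lit 4) (nat_lit 4) (nat_lit 401) (nat_lit 310) (nat_lit 309)) (XT.lf (nat_lit 0) (nat_lit 38140194827) (nat_lit 152) (nat_lit 18492987112) (nat_lit 0) (nat_lit 37912094145) (nat_lit 4) (nat_lit 5) (nat_lit 6) (nat_lit 4) (nat_lit 4) (nat_lit 4) (nat_lit 402) (nat_lit 310) (nat_lit 308)))) (XT.nd (nat_lit 78)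 (nat_lit 76) (nat_lit 0) (XT.lf (nat_lit 0) (nat_lit 48306563725) (nat_lit 152) (nat_lit 5463016218) (nat_lit 0) (nat_lit 47976922497) (nat_lit 4) (nat_lit 5) (nat_lit 6) (nat_lit 4) (nat_lit 4) (nat_lit 4) (nat_lit 403) (nat_lit 310) (nat_lit 307)) (XT.nd (nat_lit 78) (nat_lit 0) (nat_lit 0) (XT.lf (nat_lit 0) (nat_lit 8202507565) (nat_lit 76) (nat_lit 50877647564) (nat_lit 76) (nat_lit 50453987311) (nat_lit 3) (nat_lit 4) (nat_lit 4) (nat_lit 5) (nat_lit 4) (nat_lit 4) (nat_lit 404) (nat_lit 310) (nat_lit 306)) (XT.lf (nat_lit 0) (nat_lit 22516069827) (nat_lit 76) (nat_lit 47975330379) (nat_lit 76) (nat_lit 47464615475) (nat_lit 3) (nat_lit 4) (nat_lit 4) (nat_lit 5) (nat_lit 4) (nat_lit 4) (nat_lit 405) (nat_lit 310) (nat_lit 305))))) (XT.nd (nat_lit 234) (nat_lit 0) (nat_lit 0) (XT.nd (nat_lit 78) (nat_lit 0) (nat_lit 0) (XT.lf (nat_lit 0) (nat_lit 37381859687) (nat_lit 76) (nat_lit 45137948296)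 (nat_lit 76) (nat_lit 44546627233) (nat_lit 3) (nat_lit 4) (nat_lit 4) (nat_lit 5) (nat_lit 4) (nat_lit 4) (nat_lit 406) (nat_lit 310) (nat_lit 304)) (XT.nd (nat_lit 78) (nat_lit 0) (nat_lit 0) (XT.lf (nat_lit 0) (nat_lit 52887970716) (nat_lit 76) (nat_lit 42348687199) (nat_lit 76) (nat_lit 41682730803) (nat_lit 3) (nat_lit 4) (nat_lit 4) (nat_lit 5) (nat_lit 4) (nat_lit 4) (nat_lit 407) (nat_lit 310) (nat_lit 303)) (XT.lf (nat_lit 0) (nat_lit 69126290978) (nat_lit 76) (nat_lit 39591018133) (nat_lit 76) (nat_lit 38855954947) (nat_lit 3) (nat_lit 4) (nat_lit 4) (nat_lit 5) (nat_lit 4) (nat_lit 4) (nat_lit 408) (nat_lit 310) (nat_lit 302)))) (XT.nd (nat_lit 156) (nat_lit 0) (nat_lit 0) (XT.nd (nat_lit 78) (nat_lit 0) (nat_lit 0) (XT.lf (nat_lit 0) (nat_lit 86193047558) (nat_lit 76) (nat_lit 36848599355) (nat_lit 76) (nat_lit 36049548401) (nat_lit 3) (nat_lit 4) (nat_lit 4) (nat_lit 5) (nat_lit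 4) (nat_lit 4) (nat_lit 409) (nat_lit 310) (nat_lit 301)) (XT.lf (nat_lit 0) (nat_lit 104189376789) (nat_lit 76) (nat_lit 34105179494) (nat_lit 76) (nat_lit 33246880608) (nat_lit 3) (nat_lit 4) (nat_lit 4) (nat_lit 5) (nat_lit 4) (nat_lit 4) (nat_lit 410) (nat_lit 310) (nat_lit 300))) (XT.nd (nat_lit 78) (nat_lit 0) (nat_lit 0) (XT.lf (nat_lit 0) (nat_lit 123221923587) (nat_lit 76) (nat_lit 31344501249) (nat_lit 76) (nat_lit 30431343165) (nat_lit 3) (nat_lit 4) (nat_lit 4) (nat_lit 5) (nat_lit 4) (nat_lit 4) (nat_lit 411) (nat_lit 310) (nat_lit 299)) (XT.lf (nat_lit 0) (nat_lit 143403473413) (nat_lit 76) (nat_lit 28550205044) (nat_lit 76) (nat_lit 27586251407) (nat_lit 3) (nat_lit 4) (nat_lit 4) (nat_lit 5) (nat_lit 4) (nat_lit 4) (nat_lit 412) (nat_lit 310) (nat_lit 298))))))) (XT.nd (nat_lit 1014) (nat_lit 0) (nat_lit 0) (XT.nd (nat_lit 468) (nat_lit 152) (nat_lit 0) (XT.nd (nat_lit 234)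 (nat_lit 0) (nat_lit 0) (XT.nd (nat_lit 78) (nat_lit 0) (nat_lit 0) (XT.lf (nat_lit 0) (nat_lit 164853620637) (nat_lit 76) (nat_lit 25705732086) (nat_lit 76) (nat_lit 24694745530) (nat_lit 3) (nat_lit 4) (nat_lit 4) (nat_lit 5) (nat_lit 4) (nat_lit 4) (nat_lit 413) (nat_lit 310) (nat_lit 297)) (XT.nd (nat_lit 78) (nat_lit 0) (nat_lit 0) (XT.lf (nat_lit 0) (nat_lit 187699477243) (nat_lit 76) (nat_lit 22794226241) (nat_lit 76) (nat_lit 21739690684) (nat_lit 3) (nat_lit 4) (nat_lit 4) (nat_lit 5) (nat_lit 4) (nat_lit 4) (nat_lit 414) (nat_lit 310) (nat_lit 296)) (XT.lf (nat_lit 0) (nat_lit 212076426084) (nat_lit 76) (nat_lit 19798434139) (nat_lit 76) (nat_lit 18703575434) (nat_lit 3) (nat_lit 4) (nat_lit 4) (nat_lit 5) (nat_lit 4) (nat_lit 4) (nat_lit 415) (nat_lit 310) (nat_lit 295)))) (XT.nd (nat_lit 78) (nat_lit 0) (nat_lit 0) (XT.lf (nat_lit 0) (nat_lit 238128923154) (nat_lit 76) (nat_lit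 16700602939) (nat_lit 76) (nat_lit 15568407986) (nat_lit 3) (nat_lit 4) (nat_lit 4) (nat_lit 5) (nat_lit 4) (nat_lit 4) (nat_lit 416) (nat_lit 310) (nat_lit 294)) (XT.nd (nat_lit 78) (nat_lit 0) (nat_lit 0) (XT.lf (nat_lit 0) (nat_lit 266011353620) (nat_lit 76) (nat_lit 13482375122) (nat_lit 76) (nat_lit 12315609569) (nat_lit 3) (nat_lit 4) (nat_lit 4) (nat_lit 5) (nat_lit 4) (nat_lit 4) (nat_lit 417) (nat_lit 310) (nat_lit 293)) (XT.lf (nat_lit 0) (nat_lit 295888946700) (nat_lit 76) (nat_lit 10124679709) (nat_lit 76) (nat_lit 8925904342) (nat_lit 3) (nat_lit 4) (nat_lit 4) (nat_lit 5) (nat_lit 4) (nat_lit 4) (nat_lit 418) (nat_lit 310) (nat_lit 292))))) (XT.nd (nat_lit 234) (nat_lit 0) (nat_lit 0) (XT.nd (nat_lit 78) (nat_lit 152) (nat_lit 0) (XT.lf (nat_lit 0) (nat_lit 327938754798) (nat_lit 76) (nat_lit 6607619246) (nat_lit 76) (nat_lit 5379205161) (nat_lit 3) (nat_lit 4) (nat_lit 4) (nat_lit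 5) (nat_lit 4) (nat_lit 4) (nat_lit 419) (nat_lit 310) (nat_lit 291)) (XT.nd (nat_lit 78) (nat_lit 152) (nat_lit 0) (XT.lf (nat_lit 0) (nat_lit 362350702701) (nat_lit 76) (nat_lit 2910351892) (nat_lit 76) (nat_lit 1654494550) (nat_lit 3) (nat_lit 4) (nat_lit 4) (nat_lit 5) (nat_lit 4) (nat_lit 4) (nat_lit 420) (nat_lit 310) (nat_lit 290)) (XT.lf (nat_lit 0) (nat_lit 2266509308) (nat_lit 152) (nat_lit 392751401581) (nat_lit 0) (nat_lit 1046254294) (nat_lit 1) (nat_lit 5) (nat_lit 3) (nat_lit 4) (nat_lit 1) (nat_lit 4) (nat_lit 421) (nat_lit 310) (nat_lit 289)))) (XT.nd (nat_lit 156) (nat_lit 0) (nat_lit 0) (XT.nd (nat_lit 78) (nat_lit 0) (nat_lit 0) (XT.lf (nat_lit 0) (nat_lit 6481894722) (nat_lit 152) (nat_lit 415820257045) (nat_lit 0) (nat_lit 5239231928) (nat_lit 1) (nat_lit 5) (nat_lit 3) (nat_lit 4) (nat_lit 1) (nat_lit 4) (nat_lit 422) (nat_lit 310) (nat_lit 288)) (XT.lf (nat_lit 0)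 (nat_lit 10949323613) (nat_lit 152) (nat_lit 440905805037) (nat_lit 0) (nat_lit 9685912874) (nat_lit 1) (nat_lit 5) (nat_lit 3) (nat_lit 4) (nat_lit 1) (nat_lit 4) (nat_lit 423) (nat_lit 310) (nat_lit 287))) (XT.nd (nat_lit 78) (nat_lit 0) (nat_lit 0) (XT.lf (nat_lit 0) (nat_lit 15695269634) (nat_lit 152) (nat_lit 468156700656) (nat_lit 0) (nat_lit 14412647834) (nat_lit 1) (nat_lit 5) (nat_lit 3) (nat_lit 4) (nat_lit 1) (nat_lit 4) (nat_lit 424) (nat_lit 310) (nat_lit 286)) (XT.lf (nat_lit 0) (nat_lit 20747856908) (nat_lit 152) (nat_lit 497734430692) (nat_lit 0) (nat_lit 19447447090) (nat_lit 1) (nat_lit 5) (nat_lit 3) (nat_lit 4) (nat_lit 1) (nat_lit 4) (nat_lit 425) (nat_lit 310) (nat_lit 285)))))) (XT.nd (nat_lit 546) (nat_lit 0) (nat_lit 0) (XT.nd (nat_lit 234) (nat_lit 0) (nat_lit 0) (XT.nd (nat_lit 78) (nat_lit 0) (nat_lit 0) (XT.lf (nat_lit 0) (nat_lit 26137026695) (nat_lit 152) (nat_lit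 529814270581) (nat_lit 0) (nat_lit 24820146489) (nat_lit 1) (nat_lit 5) (nat_lit 3) (nat_lit 4) (nat_lit 1) (nat_lit 4) (nat_lit 426) (nat_lit 310) (nat_lit 284)) (XT.nd (nat_lit 78) (nat_lit 0) (nat_lit 0) (XT.lf (nat_lit 0) (nat_lit 31894714814) (nat_lit 152) (nat_lit 564586323078) (nat_lit 0) (nat_lit 30562584250) (nat_lit 1) (nat_lit 5) (nat_lit 3) (nat_lit 4) (nat_lit 1) (nat_lit 4) (nat_lit 427) (nat_lit 310) (nat_lit 283)) (XT.lf (nat_lit 0) (nat_lit 38055040900) (nat_lit 152) (nat_lit 602256644791) (nat_lit 0) (nat_lit 36708789633) (nat_lit 1) (nat_lit 5) (nat_lit 3) (nat_lit 4) (nat_lit 1) (nat_lit 4) (nat_lit 428) (nat_lit 310) (nat_lit 282)))) (XT.nd (nat_lit 156) (nat_lit 0) (nat_lit 0) (XT.nd (nat_lit 78) (nat_lit 0) (nat_lit 0) (XT.lf (nat_lit 0) (nat_lit 44654510588) (nat_lit 152) (nat_lit 643048467255) (nat_lit 0) (nat_lit 43295184597) (nat_lit 1) (nat_lit 5) (nat_lit 3) (nat_lit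 4) (nat_lit 1) (nat_lit 4) (nat_lit 429) (nat_lit 310) (nat_lit 281)) (XT.lf (nat_lit 0) (nat_lit 51732231847) (nat_lit 152) (nat_lit 687203519790) (nat_lit 0) (nat_lit 50360799629) (nat_lit 1) (nat_lit 5) (nat_lit 3) (nat_lit 4) (nat_lit 1) (nat_lit 4) (nat_lit 430) (nat_lit 310) (nat_lit 280))) (XT.nd (nat_lit 78) (nat_lit 0) (nat_lit 0) (XT.lf (nat_lit 0) (nat_lit 59330146729) (nat_lit 152) (nat_lit 734983461965) (nat_lit 0) (nat_lit 57947505042) (nat_lit 1) (nat_lit 5) (nat_lit 3) (nat_lit 4) (nat_lit 1) (nat_lit 4) (nat_lit 431) (nat_lit 310) (nat_lit 279)) (XT.lf (nat_lit 0) (nat_lit 67493279914) (nat_lit 152) (nat_lit 786671434179) (nat_lit 0) (nat_lit 66100259089) (nat_lit 1) (nat_lit 5) (nat_lit 3) (nat_lit 4) (nat_lit 1) (nat_lit 4) (nat_lit 432) (nat_lit 310) (nat_lit 278))))) (XT.nd (nat_lit 234) (nat_lit 0) (nat_lit 0) (XT.nd (nat_lit 78) (nat_lit 0) (nat_lit 0) (XT.lf (nat_lit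 0) (nat_lit 76270005525) (nat_lit 152) (nat_lit 842573735527) (nat_lit 0) (nat_lit 74867374387) (nat_lit 1) (nat_lit 5) (nat_lit 3) (nat_lit 4) (nat_lit 1) (nat_lit 4) (nat_lit 433) (nat_lit 310) (nat_lit 277)) (XT.nd (nat_lit 78) (nat_lit 0) (nat_lit 0) (XT.lf (nat_lit 0) (nat_lit 85712333789) (nat_lit 152) (nat_lit 903021638904) (nat_lit 0) (nat_lit 84300804213) (nat_lit 1) (nat_lit 5) (nat_lit 3) (nat_lit 4) (nat_lit 1) (nat_lit 4) (nat_lit 434) (nat_lit 310) (nat_lit 276)) (XT.lf (nat_lit 0) (nat_lit 95876219242) (nat_lit 152) (nat_lit 968373354110) (nat_lit 0) (nat_lit 94456450371) (nat_lit 1) (nat_lit 5) (nat_lit 3) (nat_lit 4) (nat_lit 1) (nat_lit 4) (nat_lit 435) (nat_lit 310) (nat_lit 275)))) (XT.nd (nat_lit 156) (nat_lit 0) (nat_lit 0) (XT.nd (nat_lit 78) (nat_lit 0) (nat_lit 0) (XT.lf (nat_lit 0) (nat_lit 106821892317) (nat_lit 152) (nat_lit 1039016150567) (nat_lit 0) (nat_lit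 105394494470) (nat_lit 1) (nat_lit 5) (nat_lit 3) (nat_lit 4) (nat_lit 1) (nat_lit 4) (nat_lit 436) (nat_lit 310) (nat_lit 274)) (XT.lf (nat_lit 0) (nat_lit 118614216262) (nat_lit 152) (nat_lit 1115368652254) (nat_lit 0) (nat_lit 117179754548) (nat_lit 1) (nat_lit 5) (nat_lit 3) (nat_lit 4) (nat_lit 1) (nat_lit 4) (nat_lit 437) (nat_lit 310) (nat_lit 273))) (XT.nd (nat_lit 78) (nat_lit 0) (nat_lit 0) (XT.lf (nat_lit 0) (nat_lit 131323071515) (nat_lit 152) (nat_lit 1197883318441) (nat_lit 0) (nat_lit 129882069184) (nat_lit 1) (nat_lit 5) (nat_lit 3) (nat_lit 4) (nat_lit 1) (nat_lit 4) (nat_lit 438) (nat_lit 310) (nat_lit 272)) (XT.lf (nat_lit 0) (nat_lit 145023769812) (nat_lit 152) (nat_lit 1287049124928) (nat_lit 0) (nat_lit 143576711353) (nat_lit 1) (nat_lit 5) (nat_lit 3) (nat_lit 4) (nat_lit 1) (nat_lit 4) (nat_lit 439) (nat_lit 310) (nat_lit 271))))))))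
noncomputable def xc8 : XT := (XT.nd (nat_lit 2028) (nat_lit 0) (nat_lit 0) (XT.nd (nat_lit 1014) (nat_lit 152) (nat_lit 0) (XT.nd (nat_lit 468) (nat_lit 76) (nat_lit 0) (XT.nd (nat_lit 234) (nat_lit 0) (nat_lit 0) (XT.nd (nat_lit 78) (nat_lit 0) (nat_lit 0) (XT.lf (nat_lit 0) (nat_lit 721534738) (nat_lit 152) (nat_lit 33982752136) (nat_lit 0) (nat_lit 721534738) (nat_lit 4) (nat_lit 5) (nat_lit 6) (nat_lit 4) (nat_lit 4) (nat_lit 4) (nat_lit 398) (nat_lit 311) (nat_lit 311)) (XT.nd (nat_lit 78) (nat_lit 0) (nat_lit 0) (XT.lf (nat_lit 0) (nat_lit 10053568692) (nat_lit 152) (nat_lit 56108600214) (nat_lit 0) (nat_lit 9925656848) (nat_lit 4) (nat_lit 5) (nat_lit 6) (nat_lit 4) (nat_lit 4) (nat_lit 4) (nat_lit 399) (nat_lit 311) (nat_lit 310)) (XT.lf (nat_lit 0) (nat_lit 18931973648) (nat_lit 152) (nat_lit 44146365123) (nat_lit 0) (nat_lit 18685624911) (nat_lit 4) (nat_lit 5) (nat_lit 6) (nat_lit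 4) (nat_lit 4) (nat_lit 4) (nat_lit 400) (nat_lit 311) (nat_lit 309)))) (XT.nd (nat_lit 78) (nat_lit 0) (nat_lit 0) (XT.lf (nat_lit 0) (nat_lit 28130897116) (nat_lit 152) (nat_lit 32007911681) (nat_lit 0) (nat_lit 27774884590) (nat_lit 4) (nat_lit 5) (nat_lit 6) (nat_lit 4) (nat_lit 4) (nat_lit 4) (nat_lit 401) (nat_lit 311) (nat_lit 308)) (XT.nd (nat_lit 78) (nat_lit 0) (nat_lit 0) (XT.lf (nat_lit 0) (nat_lit 37704851236) (nat_lit 152) (nat_lit 19621308313) (nat_lit 0) (nat_lit 37247298163) (nat_lit 4) (nat_lit 5) (nat_lit 6) (nat_lit 4) (nat_lit 4) (nat_lit 4) (nat_lit 402) (nat_lit 311) (nat_lit 307)) (XT.lf (nat_lit 0) (nat_lit 47710570549) (nat_lit 152) (nat_lit 6913152923) (nat_lit 0) (nat_lit 47158998452) (nat_lit 4) (nat_lit 5) (nat_lit 6) (nat_lit 4) (nat_lit 4) (nat_lit 4) (nat_lit 403) (nat_lit 311) (nat_lit 306))))) (XT.nd (nat_lit 234) (nat_lit 0) (nat_lit 0) (XT.nd (nat_lit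 78) (nat_lit 0) (nat_lit 0) (XT.lf (nat_lit 0) (nat_lit 6396592997) (nat_lit 76) (nat_lit 51910623953) (nat_lit 76) (nat_lit 51271997205) (nat_lit 3) (nat_lit 4) (nat_lit 4) (nat_lit 5) (nat_lit 4) (nat_lit 4) (nat_lit 404) (nat_lit 311) (nat_lit 305)) (XT.nd (nat_lit 78) (nat_lit 0) (nat_lit 0) (XT.lf (nat_lit 0) (nat_lit 20425127671) (nat_lit 76) (nat_lit 49151153151) (nat_lit 76) (nat_lit 48431920244) (nat_lit 3) (nat_lit 4) (nat_lit 4) (nat_lit 5) (nat_lit 4) (nat_lit 4) (nat_lit 405) (nat_lit 311) (nat_lit 304)) (XT.lf (nat_lit 0) (nat_lit 35027003099) (nat_lit 76) (nat_lit 46446036238) (nat_lit 76) (nat_lit 45652167998) (nat_lit 3) (nat_lit 4) (nat_lit 4) (nat_lit 5) (nat_lit 4) (nat_lit 4) (nat_lit 406) (nat_lit 311) (nat_lit 303)))) (XT.nd (nat_lit 156) (nat_lit 0) (nat_lit 0) (XT.nd (nat_lit 78) (nat_lit 0) (nat_lit 0) (XT.lf (nat_lit 0) (nat_lit 50288748912) (nat_lit 76) (nat_lit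 43779242890) (nat_lit 76) (nat_lit 42916267861) (nat_lit 3) (nat_lit 4) (nat_lit 4) (nat_lit 5) (nat_lit 4) (nat_lit 4) (nat_lit 407) (nat_lit 311) (nat_lit 302)) (XT.lf (nat_lit 0) (nat_lit 66300805086) (nat_lit 76) (nat_lit 41134969888) (nat_lit 76) (nat_lit 40208007090) (nat_lit 3) (nat_lit 4) (nat_lit 4) (nat_lit 5) (nat_lit 4) (nat_lit 4) (nat_lit 408) (nat_lit 311) (nat_lit 301))) (XT.nd (nat_lit 78) (nat_lit 0) (nat_lit 0) (XT.lf (nat_lit 0) (nat_lit 83158057879) (nat_lit 76) (nat_lit 38497547466) (nat_lit 76) (nat_lit 37511336735) (nat_lit 3) (nat_lit 4) (nat_lit 4) (nat_lit 5) (nat_lit 4) (nat_lit 4) (nat_lit 409) (nat_lit 311) (nat_lit 300)) (XT.lf (nat_lit 0) (nat_lit 100960402124) (nat_lit 76) (nat_lit 35851346453) (nat_lit 76) (nat_lit 34810276525) (nat_lit 3) (nat_lit 4) (nat_lit 4) (nat_lit 5) (nat_lit 4) (nat_lit 4) (nat_lit 410) (nat_lit 311) (nat_lit 299)))))) (XT.nd (nat_lit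 468) (nat_lit 152) (nat_lit 0) (XT.nd (nat_lit 234) (nat_lit 0) (nat_lit 0) (XT.nd (nat_lit 78) (nat_lit 0) (nat_lit 0) (XT.lf (nat_lit 0) (nat_lit 119813333193) (nat_lit 76) (nat_lit 33180685660) (nat_lit 76) (nat_lit 32088820178) (nat_lit 3) (nat_lit 4) (nat_lit 4) (nat_lit 5) (nat_lit 4) (nat_lit 4) (nat_lit 411) (nat_lit 311) (nat_lit 298)) (XT.nd (nat_lit 78) (nat_lit 0) (nat_lit 0) (XT.lf (nat_lit 0) (nat_lit 139828572160) (nat_lit 76) (nat_lit 30469738947) (nat_lit 76) (nat_lit 29330840546) (nat_lit 3) (nat_lit 4) (nat_lit 4) (nat_lit 5) (nat_lit 4) (nat_lit 4) (nat_lit 412) (nat_lit 311) (nat_lit 297)) (XT.lf (nat_lit 0) (nat_lit 161124727847) (nat_lit 76) (nat_lit 27702441445) (nat_lit 76) (nat_lit 26519994045) (nat_lit 3) (nat_lit 4) (nat_lit 4) (nat_lit 5) (nat_lit 4) (nat_lit 4) (nat_lit 413) (nat_lit 311) (nat_lit 296)))) (XT.nd (nat_lit 78) (nat_lit 0) (nat_lit 0) (XT.lf (nat_lit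 0) (nat_lit 183827999697) (nat_lit 76) (nat_lit 24862394355) (nat_lit 76) (nat_lit 23639623807) (nat_lit 3) (nat_lit 4) (nat_lit 4) (nat_lit 5) (nat_lit 4) (nat_lit 4) (nat_lit 414) (nat_lit 311) (nat_lit 295)) (XT.nd (nat_lit 78) (nat_lit 0) (nat_lit 0) (XT.lf (nat_lit 0) (nat_lit 208072925616) (nat_lit 76) (nat_lit 21932767768) (nat_lit 76) (nat_lit 20672660971) (nat_lit 3) (nat_lit 4) (nat_lit 4) (nat_lit 5) (nat_lit 4) (nat_lit 4) (nat_lit 415) (nat_lit 311) (nat_lit 294)) (XT.lf (nat_lit 0) (nat_lit 234003179239) (nat_lit 76) (nat_lit 18896200933) (nat_lit 76) (nat_lit 17601523536) (nat_lit 3) (nat_lit 4) (nat_lit 4) (nat_lit 5) (nat_lit 4) (nat_lit 4) (nat_lit 416) (nat_lit 311) (nat_lit 293))))) (XT.nd (nat_lit 234) (nat_lit 152) (nat_lit 0) (XT.nd (nat_lit 78) (nat_lit 0) (nat_lit 0) (XT.lf (nat_lit 0) (nat_lit 261772421328) (nat_lit 76) (nat_lit 15734699380) (nat_lit 76) (nat_lit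 14408012169) (nat_lit 3) (nat_lit 4) (nat_lit 4) (nat_lit 5) (nat_lit 4) (nat_lit 4) (nat_lit 417) (nat_lit 311) (nat_lit 292)) (XT.nd (nat_lit 78) (nat_lit 0) (nat_lit 0) (XT.lf (nat_lit 0) (nat_lit 291545210356) (nat_lit 76) (nat_lit 12429528286) (nat_lit 76) (nat_lit 11073202357) (nat_lit 3) (nat_lit 4) (nat_lit 4) (nat_lit 5) (nat_lit 4) (nat_lit 4) (nat_lit 418) (nat_lit 311) (nat_lit 291)) (XT.lf (nat_lit 0) (nat_lit 323497977664) (nat_lit 76) (nat_lit 8961101450) (nat_lit 76) (nat_lit 7577332265) (nat_lit 3) (nat_lit 4) (nat_lit 4) (nat_lit 5) (nat_lit 4) (nat_lit 4) (nat_lit 419) (nat_lit 311) (nat_lit 290)))) (XT.nd (nat_lit 156) (nat_lit 152) (nat_lit 0) (XT.nd (nat_lit 78) (nat_lit 0) (nat_lit 0) (XT.lf (nat_lit 0) (nat_lit 357820072985) (nat_lit 76) (nat_lit 5308865234) (nat_lit 76) (nat_lit 3899685625) (nat_lit 3) (nat_lit 4) (nat_lit 4) (nat_lit 5) (nat_lit 4) (nat_lit 4) (nat_lit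 420) (nat_lit 311) (nat_lit 289)) (XT.lf (nat_lit 0) (nat_lit 394714886514) (nat_lit 76) (nat_lit 1451176755) (nat_lit 76) (nat_lit 18468977) (nat_lit 3) (nat_lit 4) (nat_lit 4) (nat_lit 5) (nat_lit 4) (nat_lit 4) (nat_lit 421) (nat_lit 311) (nat_lit 288))) (XT.nd (nat_lit 78) (nat_lit 0) (nat_lit 0) (XT.lf (nat_lit 0) (nat_lit 4109802610) (nat_lit 152) (nat_lit 420831777933) (nat_lit 0) (nat_lit 2724571067) (nat_lit 1) (nat_lit 5) (nat_lit 3) (nat_lit 4) (nat_lit 1) (nat_lit 4) (nat_lit 422) (nat_lit 311) (nat_lit 287)) (XT.lf (nat_lit 0) (nat_lit 8539309779) (nat_lit 152) (nat_lit 445993529669) (nat_lit 0) (nat_lit 7134867176) (nat_lit 1) (nat_lit 5) (nat_lit 3) (nat_lit 4) (nat_lit 1) (nat_lit 4) (nat_lit 423) (nat_lit 311) (nat_lit 286))))))) (XT.nd (nat_lit 1014) (nat_lit 0) (nat_lit 0) (XT.nd (nat_lit 468) (nat_lit 0) (nat_lit 0) (XT.nd (nat_lit 234) (nat_lit 0) (nat_lit 0) (XT.nd (nat_lit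 78) (nat_lit 0) (nat_lit 0) (XT.lf (nat_lit 0) (nat_lit 13250143094) (nat_lit 152) (nat_lit 473314984311) (nat_lit 0) (nat_lit 11827912472) (nat_lit 1) (nat_lit 5) (nat_lit 3) (nat_lit 4) (nat_lit 1) (nat_lit 4) (nat_lit 424) (nat_lit 311) (nat_lit 285)) (XT.nd (nat_lit 78) (nat_lit 0) (nat_lit 0) (XT.lf (nat_lit 0) (nat_lit 18270218604) (nat_lit 152) (nat_lit 502958046774) (nat_lit 0) (nat_lit 16831517595) (nat_lit 1) (nat_lit 5) (nat_lit 3) (nat_lit 4) (nat_lit 1) (nat_lit 4) (nat_lit 425) (nat_lit 311) (nat_lit 284)) (XT.lf (nat_lit 0) (nat_lit 23629284905) (nat_lit 152) (nat_lit 535098379652) (nat_lit 0) (nat_lit 22175333537) (nat_lit 1) (nat_lit 5) (nat_lit 3) (nat_lit 4) (nat_lit 1) (nat_lit 4) (nat_lit 426) (nat_lit 311) (nat_lit 283)))) (XT.nd (nat_lit 78) (nat_lit 0) (nat_lit 0) (XT.lf (nat_lit 0) (nat_lit 29359099427) (nat_lit 152) (nat_lit 569926444176) (nat_lit 0) (nat_lit 27891027356)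 (nat_lit 1) (nat_lit 5) (nat_lit 3) (nat_lit 4) (nat_lit 1) (nat_lit 4) (nat_lit 427) (nat_lit 311) (nat_lit 282)) (XT.nd (nat_lit 78) (nat_lit 0) (nat_lit 0) (XT.lf (nat_lit 0) (nat_lit 35493616626) (nat_lit 152) (nat_lit 607648628877) (nat_lit 0) (nat_lit 34012469830) (nat_lit 1) (nat_lit 5) (nat_lit 3) (nat_lit 4) (nat_lit 1) (nat_lit 4) (nat_lit 428) (nat_lit 311) (nat_lit 281)) (XT.lf (nat_lit 0) (nat_lit 42069189196) (nat_lit 152) (nat_lit 648488472627) (nat_lit 0) (nat_lit 40575936174) (nat_lit 1) (nat_lit 5) (nat_lit 3) (nat_lit 4) (nat_lit 1) (nat_lit 4) (nat_lit 429) (nat_lit 311) (nat_lit 280))))) (XT.nd (nat_lit 234) (nat_lit 0) (nat_lit 0) (XT.nd (nat_lit 78) (nat_lit 0) (nat_lit 0) (XT.lf (nat_lit 0) (nat_lit 49124783495) (nat_lit 152) (nat_lit 692687989314) (nat_lit 0) (nat_lit 47620321003) (nat_lit 1) (nat_lit 5) (nat_lit 3) (nat_lit 4) (nat_lit 1) (nat_lit 4) (nat_lit 430)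 (nat_lit 311) (nat_lit 279)) (XT.nd (nat_lit 78) (nat_lit 0) (nat_lit 0) (XT.lf (nat_lit 0) (nat_lit 56702210450) (nat_lit 152) (nat_lit 740509102002) (nat_lit 0) (nat_lit 55187368821) (nat_lit 1) (nat_lit 5) (nat_lit 3) (nat_lit 4) (nat_lit 1) (nat_lit 4) (nat_lit 431) (nat_lit 311) (nat_lit 278)) (XT.lf (nat_lit 0) (nat_lit 64846373333) (nat_lit 152) (nat_lit 792235195060) (nat_lit 0) (nat_lit 63321921391) (nat_lit 1) (nat_lit 5) (nat_lit 3) (nat_lit 4) (nat_lit 1) (nat_lit 4) (nat_lit 432) (nat_lit 311) (nat_lit 277)))) (XT.nd (nat_lit 156) (nat_lit 0) (nat_lit 0) (XT.nd (nat_lit 78) (nat_lit 0) (nat_lit 0) (XT.lf (nat_lit 0) (nat_lit 73605533849) (nat_lit 152) (nat_lit 848172793485) (nat_lit 0) (nat_lit 72072183469) (nat_lit 1) (nat_lit 5) (nat_lit 3) (nat_lit 4) (nat_lit 1) (nat_lit 4) (nat_lit 433) (nat_lit 311) (nat_lit 276)) (XT.lf (nat_lit 0) (nat_lit 83031598136) (nat_lit 152) (nat_lit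 908653379343) (nat_lit 0) (nat_lit 81490008462) (nat_lit 1) (nat_lit 5) (nat_lit 3) (nat_lit 4) (nat_lit 1) (nat_lit 4) (nat_lit 434) (nat_lit 311) (nat_lit 275))) (XT.nd (nat_lit 78) (nat_lit 0) (nat_lit 0) (XT.lf (nat_lit 0) (nat_lit 93180424352) (nat_lit 152) (nat_lit 974035356103) (nat_lit 0) (nat_lit 91631205701) (nat_lit 1) (nat_lit 5) (nat_lit 3) (nat_lit 4) (nat_lit 1) (nat_lit 4) (nat_lit 435) (nat_lit 311) (nat_lit 274)) (XT.lf (nat_lit 0) (nat_lit 104112153688) (nat_lit 152) (nat_lit 1044706172519) (nat_lit 0) (nat_lit 102555871171) (nat_lit 1) (nat_lit 5) (nat_lit 3) (nat_lit 4) (nat_lit 1) (nat_lit 4) (nat_lit 436) (nat_lit 311) (nat_lit 273)))))) (XT.nd (nat_lit 50154) (nat_lit 0) (nat_lit 152) (XT.nd (nat_lit 49920) (nat_lit 0) (nat_lit 228) (XT.nd (nat_lit 78) (nat_lit 0) (nat_lit 0) (XT.lf (nat_lit 0) (nat_lit 115891566765) (nat_lit 152) (nat_lit 1121084618612) (nat_lit 0)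 (nat_lit 114328743630) (nat_lit 1) (nat_lit 5) (nat_lit 3) (nat_lit 4) (nat_lit 1) (nat_lit 4) (nat_lit 437) (nat_lit 311) (nat_lit 272)) (XT.nd (nat_lit 78) (nat_lit 0) (nat_lit 0) (XT.lf (nat_lit 0) (nat_lit 128588467510) (nat_lit 152) (nat_lit 1203623307398) (nat_lit 0) (nat_lit 127019588247) (nat_lit 1) (nat_lit 5) (nat_lit 3) (nat_lit 4) (nat_lit 1) (nat_lit 4) (nat_lit 438) (nat_lit 311) (nat_lit 271)) (XT.lf (nat_lit 0) (nat_lit 142278096817) (nat_lit 152) (nat_lit 1292811357031) (nat_lit 0) (nat_lit 140703610029) (nat_lit 1) (nat_lit 5) (nat_lit 3) (nat_lit 4) (nat_lit 1) (nat_lit 4) (nat_lit 439) (nat_lit 311) (nat_lit 270)))) (XT.nd (nat_lit 78) (nat_lit 152) (nat_lit 0) (XT.lf (nat_lit 0) (nat_lit 16195433085) (nat_lit 76) (nat_lit 7282040040) (nat_lit 76) (nat_lit 7282040040) (nat_lit 6) (nat_lit 4) (nat_lit 7) (nat_lit 5) (nat_lit 7) (nat_lit 4) (nat_lit 396) (nat_lit 312) (nat_lit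 312)) (XT.nd (nat_lit 78) (nat_lit 152) (nat_lit 0) (XT.lf (nat_lit 0) (nat_lit 52461746659) (nat_lit 76) (nat_lit 6843011234) (nat_lit 76) (nat_lit 6697959202) (nat_lit 6) (nat_lit 4) (nat_lit 7) (nat_lit 5) (nat_lit 7) (nat_lit 4) (nat_lit 397) (nat_lit 312) (nat_lit 311)) (XT.lf (nat_lit 0) (nat_lit 1362652283) (nat_lit 152) (nat_lit 68403330713) (nat_lit 0) (nat_lit 1096595647) (nat_lit 4) (nat_lit 5) (nat_lit 6) (nat_lit 4) (nat_lit 4) (nat_lit 4) (nat_lit 398) (nat_lit 312) (nat_lit 310))))) (XT.nd (nat_lit 234) (nat_lit 76) (nat_lit 0) (XT.nd (nat_lit 78) (nat_lit 0) (nat_lit 0) (XT.lf (nat_lit 0) (nat_lit 9770779288) (nat_lit 152) (nat_lit 56951821507) (nat_lit 0) (nat_lit 9386285760) (nat_lit 4) (nat_lit 5) (nat_lit 6) (nat_lit 4) (nat_lit 4) (nat_lit 4) (nat_lit 399) (nat_lit 312) (nat_lit 309)) (XT.nd (nat_lit 78) (nat_lit 0) (nat_lit 0) (XT.lf (nat_lit 0) (nat_lit 18461802569)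 (nat_lit 152) (nat_lit 45364952020) (nat_lit 0) (nat_lit 17967645251) (nat_lit 4) (nat_lit 5) (nat_lit 6) (nat_lit 4) (nat_lit 4) (nat_lit 4) (nat_lit 400) (nat_lit 312) (nat_lit 308)) (XT.lf (nat_lit 0) (nat_lit 27487224486) (nat_lit 152) (nat_lit 33574059323) (nat_lit 0) (nat_lit 26891526622) (nat_lit 4) (nat_lit 5) (nat_lit 6) (nat_lit 4) (nat_lit 4) (nat_lit 4) (nat_lit 401) (nat_lit 312) (nat_lit 307)))) (XT.nd (nat_lit 156) (nat_lit 76) (nat_lit 0) (XT.nd (nat_lit 78) (nat_lit 0) (nat_lit 0) (XT.lf (nat_lit 0) (nat_lit 36900529021) (nat_lit 152) (nat_lit 21509271458) (nat_lit 0) (nat_lit 36210812133) (nat_lit 4) (nat_lit 5) (nat_lit 6) (nat_lit 4) (nat_lit 4) (nat_lit 4) (nat_lit 402) (nat_lit 312) (nat_lit 306)) (XT.lf (nat_lit 0) (nat_lit 46757498719) (nat_lit 152) (nat_lit 9099093387) (nat_lit 0) (nat_lit 45980727179) (nat_lit 4) (nat_lit 5) (nat_lit 6) (nat_lit 4) (nat_lit 4) (nat_lit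 4) (nat_lit 403) (nat_lit 312) (nat_lit 305))) (XT.nd (nat_lit 78) (nat_lit 0) (nat_lit 0) (XT.lf (nat_lit 0) (nat_lit 3853347882) (nat_lit 76) (nat_lit 53323358930) (nat_lit 76) (nat_lit 52465981231) (nat_lit 3) (nat_lit 4) (nat_lit 4) (nat_lit 5) (nat_lit 4) (nat_lit 4) (nat_lit 404) (nat_lit 312) (nat_lit 304)) (XT.lf (nat_lit 0) (nat_lit 17617968123) (nat_lit 76) (nat_lit 50696153298) (nat_lit 76) (nat_lit 49764140266) (nat_lit 3) (nat_lit 4) (nat_lit 4) (nat_lit 5) (nat_lit 4) (nat_lit 4) (nat_lit 405) (nat_lit 312) (nat_lit 303))))))))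
noncomputable def xc9 : XT := (XT.nd (nat_lit 2028) (nat_lit 0) (nat_lit 0) (XT.nd (nat_lit 1014) (nat_lit 152) (nat_lit 0) (XT.nd (nat_lit 468) (nat_lit 0) (nat_lit 0) (XT.nd (nat_lit 234) (nat_lit 0) (nat_lit 0) (XT.nd (nat_lit 78) (nat_lit 0) (nat_lit 0) (XT.lf (nat_lit 0) (nat_lit 31975478335) (nat_lit 76) (nat_lit 48113504133) (nat_lit 76) (nat_lit 47112384312) (nat_lit 3) (nat_lit 4) (nat_lit 4) (nat_lit 5) (nat_lit 4) (nat_lit 4) (nat_lit 406) (nat_lit 312) (nat_lit 302)) (XT.nd (nat_lit 78) (nat_lit 0) (nat_lit 0) (XT.lf (nat_lit 0) (nat_lit 47010960059) (nat_lit 76) (nat_lit 45560106850) (nat_lit 76) (nat_lit 44494999261) (nat_lit 3) (nat_lit 4) (nat_lit 4) (nat_lit 5) (nat_lit 4) (nat_lit 4) (nat_lit 407) (nat_lit 312) (nat_lit 301)) (XT.lf (nat_lit 0) (nat_lit 62813512448) (nat_lit 76) (nat_lit 43020830203) (nat_lit 76) (nat_lit 41896474681) (nat_lit 3) (nat_lit 4) (nat_lit 4)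 (nat_lit 5) (nat_lit 4) (nat_lit 4) (nat_lit 408) (nat_lit 312) (nat_lit 300)))) (XT.nd (nat_lit 78) (nat_lit 0) (nat_lit 0) (XT.lf (nat_lit 0) (nat_lit 79476780255) (nat_lit 76) (nat_lit 40480626629) (nat_lit 76) (nat_lit 39301411909) (nat_lit 3) (nat_lit 4) (nat_lit 4) (nat_lit 5) (nat_lit 4) (nat_lit 4) (nat_lit 409) (nat_lit 312) (nat_lit 299)) (XT.nd (nat_lit 78) (nat_lit 0) (nat_lit 0) (XT.lf (nat_lit 0) (nat_lit 97099508771) (nat_lit 76) (nat_lit 37924443069) (nat_lit 76) (nat_lit 36694432796) (nat_lit 3) (nat_lit 4) (nat_lit 4) (nat_lit 5) (nat_lit 4) (nat_lit 4) (nat_lit 410) (nat_lit 312) (nat_lit 298)) (XT.lf (nat_lit 0) (nat_lit 115786128980) (nat_lit 76) (nat_lit 35337131768) (nat_lit 76) (nat_lit 34060088575) (nat_lit 3) (nat_lit 4) (nat_lit 4) (nat_lit 5) (nat_lit 4) (nat_lit 4) (nat_lit 411) (nat_lit 312) (nat_lit 297))))) (XT.nd (nat_lit 234) (nat_lit 0) (nat_lit 0) (XT.nd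 (nat_lit 78) (nat_lit 0) (nat_lit 0) (XT.lf (nat_lit 0) (nat_lit 135647376410) (nat_lit 76) (nat_lit 32703360511) (nat_lit 76) (nat_lit 31382768318) (nat_lit 3) (nat_lit 4) (nat_lit 4) (nat_lit 5) (nat_lit 4) (nat_lit 4) (nat_lit 412) (nat_lit 312) (nat_lit 296)) (XT.nd (nat_lit 78) (nat_lit 0) (nat_lit 0) (XT.lf (nat_lit 0) (nat_lit 156800947342) (nat_lit 76) (nat_lit 30007521765) (nat_lit 76) (nat_lit 28646606424) (nat_lit 3) (nat_lit 4) (nat_lit 4) (nat_lit 5) (nat_lit 4) (nat_lit 4) (nat_lit 413) (nat_lit 312) (nat_lit 295)) (XT.lf (nat_lit 0) (nat_lit 179372196268) (nat_lit 76) (nat_lit 27233640189) (nat_lit 76) (nat_lit 25835388601) (nat_lit 3) (nat_lit 4) (nat_lit 4) (nat_lit 5) (nat_lit 4) (nat_lit 4) (nat_lit 414) (nat_lit 312) (nat_lit 294)))) (XT.nd (nat_lit 156) (nat_lit 0) (nat_lit 0) (XT.nd (nat_lit 78) (nat_lit 0) (nat_lit 0) (XT.lf (nat_lit 0) (nat_lit 203494878740) (nat_lit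 76) (nat_lit 24365277966) (nat_lit 76) (nat_lit 22932455778) (nat_lit 3) (nat_lit 4) (nat_lit 4) (nat_lit 5) (nat_lit 4) (nat_lit 4) (nat_lit 415) (nat_lit 312) (nat_lit 293)) (XT.lf (nat_lit 0) (nat_lit 229311943987) (nat_lit 76) (nat_lit 21385437395) (nat_lit 76) (nat_lit 19920605392) (nat_lit 3) (nat_lit 4) (nat_lit 4) (nat_lit 5) (nat_lit 4) (nat_lit 4) (nat_lit 416) (nat_lit 312) (nat_lit 292))) (XT.nd (nat_lit 78) (nat_lit 0) (nat_lit 0) (XT.lf (nat_lit 0) (nat_lit 256976382024) (nat_lit 76) (nat_lit 18276460161) (nat_lit 76) (nat_lit 16781989441) (nat_lit 3) (nat_lit 4) (nat_lit 4) (nat_lit 5) (nat_lit 4) (nat_lit 4) (nat_lit 417) (nat_lit 312) (nat_lit 291)) (XT.lf (nat_lit 0) (nat_lit 286652130263) (nat_lit 76) (nat_lit 15019922695) (nat_lit 76) (nat_lit 13498008718) (nat_lit 3) (nat_lit 4) (nat_lit 4) (nat_lit 5) (nat_lit 4) (nat_lit 4) (nat_lit 418) (nat_lit 312) (nat_lit 290))))))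 (XT.nd (nat_lit 468) (nat_lit 0) (nat_lit 0) (XT.nd (nat_lit 234) (nat_lit 152) (nat_lit 0) (XT.nd (nat_lit 78) (nat_lit 0) (nat_lit 0) (XT.lf (nat_lit 0) (nat_lit 318515044988) (nat_lit 76) (nat_lit 11596526997) (nat_lit 76) (nat_lit 10049202597) (nat_lit 3) (nat_lit 4) (nat_lit 4) (nat_lit 5) (nat_lit 4) (nat_lit 4) (nat_lit 419) (nat_lit 312) (nat_lit 289)) (XT.nd (nat_lit 78) (nat_lit 0) (nat_lit 0) (XT.lf (nat_lit 0) (nat_lit 352753943473) (nat_lit 76) (nat_lit 7985986278) (nat_lit 76) (nat_lit 6415133708) (nat_lit 3) (nat_lit 4) (nat_lit 4) (nat_lit 5) (nat_lit 4) (nat_lit 4) (nat_lit 420) (nat_lit 312) (nat_lit 288)) (XT.lf (nat_lit 0) (nat_lit 389571722895) (nat_lit 76) (nat_lit 4166904742) (nat_lit 76) (nat_lit 2574266830) (nat_lit 3) (nat_lit 4) (nat_lit 4) (nat_lit 5) (nat_lit 4) (nat_lit 4) (nat_lit 421) (nat_lit 312) (nat_lit 287)))) (XT.nd (nat_lit 78) (nat_lit 0) (nat_lit 0)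 (XT.lf (nat_lit 0) (nat_lit 1400989108) (nat_lit 76) (nat_lit 69156566) (nat_lit 152) (nat_lit 426334647441) (nat_lit 1) (nat_lit 5) (nat_lit 2) (nat_lit 5) (nat_lit 3) (nat_lit 4) (nat_lit 422) (nat_lit 312) (nat_lit 286)) (XT.nd (nat_lit 78) (nat_lit 0) (nat_lit 0) (XT.lf (nat_lit 0) (nat_lit 5863460410) (nat_lit 152) (nat_lit 451635035038) (nat_lit 0) (nat_lit 4309663320) (nat_lit 1) (nat_lit 5) (nat_lit 3) (nat_lit 4) (nat_lit 1) (nat_lit 4) (nat_lit 423) (nat_lit 312) (nat_lit 285)) (XT.lf (nat_lit 0) (nat_lit 10541781961) (nat_lit 152) (nat_lit 479021822108) (nat_lit 0) (nat_lit 8971514483) (nat_lit 1) (nat_lit 5) (nat_lit 3) (nat_lit 4) (nat_lit 1) (nat_lit 4) (nat_lit 424) (nat_lit 312) (nat_lit 284))))) (XT.nd (nat_lit 234) (nat_lit 0) (nat_lit 0) (XT.nd (nat_lit 78) (nat_lit 0) (nat_lit 0) (XT.lf (nat_lit 0) (nat_lit 15531753985) (nat_lit 152) (nat_lit 508725377561) (nat_lit 0)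 (nat_lit 13946236149) (nat_lit 1) (nat_lit 5) (nat_lit 3) (nat_lit 4) (nat_lit 1) (nat_lit 4) (nat_lit 425) (nat_lit 312) (nat_lit 283)) (XT.nd (nat_lit 78) (nat_lit 0) (nat_lit 0) (XT.lf (nat_lit 0) (nat_lit 20862946689) (nat_lit 152) (nat_lit 540921722466) (nat_lit 0) (nat_lit 19263308149) (nat_lit 1) (nat_lit 5) (nat_lit 3) (nat_lit 4) (nat_lit 1) (nat_lit 4) (nat_lit 426) (nat_lit 312) (nat_lit 282)) (XT.lf (nat_lit 0) (nat_lit 26566952323) (nat_lit 152) (nat_lit 575801649978) (nat_lit 0) (nat_lit 24954239060) (nat_lit 1) (nat_lit 5) (nat_lit 3) (nat_lit 4) (nat_lit 1) (nat_lit 4) (nat_lit 427) (nat_lit 312) (nat_lit 281)))) (XT.nd (nat_lit 156) (nat_lit 0) (nat_lit 0) (XT.nd (nat_lit 78) (nat_lit 0) (nat_lit 0) (XT.lf (nat_lit 0) (nat_lit 32677572405) (nat_lit 152) (nat_lit 613571855963) (nat_lit 0) (nat_lit 31052752915) (nat_lit 1) (nat_lit 5) (nat_lit 3) (nat_lit 4) (nat_lit 1) (nat_lit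 4) (nat_lit 428) (nat_lit 312) (nat_lit 280)) (XT.lf (nat_lit 0) (nat_lit 39231018015) (nat_lit 152) (nat_lit 654456163866) (nat_lit 0) (nat_lit 37594989056) (nat_lit 1) (nat_lit 5) (nat_lit 3) (nat_lit 4) (nat_lit 1) (nat_lit 4) (nat_lit 429) (nat_lit 312) (nat_lit 279))) (XT.nd (nat_lit 78) (nat_lit 0) (nat_lit 0) (XT.lf (nat_lit 0) (nat_lit 46266124387) (nat_lit 152) (nat_lit 698696851065) (nat_lit 0) (nat_lit 44619716290) (nat_lit 1) (nat_lit 5) (nat_lit 3) (nat_lit 4) (nat_lit 1) (nat_lit 4) (nat_lit 430) (nat_lit 312) (nat_lit 278)) (XT.lf (nat_lit 0) (nat_lit 53824581040) (nat_lit 152) (nat_lit 746556084597) (nat_lit 0) (nat_lit 52168562630) (nat_lit 1) (nat_lit 5) (nat_lit 3) (nat_lit 4) (nat_lit 1) (nat_lit 4) (nat_lit 431) (nat_lit 312) (nat_lit 277))))))) (XT.nd (nat_lit 50544) (nat_lit 0) (nat_lit 152) (XT.nd (nat_lit 468) (nat_lit 0) (nat_lit 0) (XT.nd (nat_lit 234) (nat_lit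 0) (nat_lit 0) (XT.nd (nat_lit 78) (nat_lit 0) (nat_lit 0) (XT.lf (nat_lit 0) (nat_lit 61951178828) (nat_lit 152) (nat_lit 798317474733) (nat_lit 0) (nat_lit 60286261980) (nat_lit 1) (nat_lit 5) (nat_lit 3) (nat_lit 4) (nat_lit 1) (nat_lit 4) (nat_lit 432) (nat_lit 312) (nat_lit 276)) (XT.nd (nat_lit 78) (nat_lit 0) (nat_lit 0) (XT.lf (nat_lit 0) (nat_lit 70694075368) (nat_lit 152) (nat_lit 854287755639) (nat_lit 0) (nat_lit 69020919226) (nat_lit 1) (nat_lit 5) (nat_lit 3) (nat_lit 4) (nat_lit 1) (nat_lit 4) (nat_lit 433) (nat_lit 312) (nat_lit 275)) (XT.lf (nat_lit 0) (nat_lit 80105080418) (nat_lit 152) (nat_lit 914798603051) (nat_lit 0) (nat_lit 78424295299) (nat_lit 1) (nat_lit 5) (nat_lit 3) (nat_lit 4) (nat_lit 1) (nat_lit 4) (nat_lit 434) (nat_lit 312) (nat_lit 274)))) (XT.nd (nat_lit 78) (nat_lit 0) (nat_lit 0) (XT.lf (nat_lit 0) (nat_lit 90239962895) (nat_lit 152) (nat_lit 980208599770)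 (nat_lit 0) (nat_lit 88552113909) (nat_lit 1) (nat_lit 5) (nat_lit 3) (nat_lit 4) (nat_lit 1) (nat_lit 4) (nat_lit 435) (nat_lit 312) (nat_lit 273)) (XT.nd (nat_lit 78) (nat_lit 0) (nat_lit 0) (XT.lf (nat_lit 0) (nat_lit 101158781362) (nat_lit 152) (nat_lit 1050905360592) (nat_lit 0) (nat_lit 99464391759) (nat_lit 1) (nat_lit 5) (nat_lit 3) (nat_lit 4) (nat_lit 1) (nat_lit 4) (nat_lit 436) (nat_lit 312) (nat_lit 272)) (XT.lf (nat_lit 0) (nat_lit 112926239930) (nat_lit 152) (nat_lit 1127307829284) (nat_lit 0) (nat_lit 111225794200) (nat_lit 1) (nat_lit 5) (nat_lit 3) (nat_lit 4) (nat_lit 1) (nat_lit 4) (nat_lit 437) (nat_lit 312) (nat_lit 271))))) (XT.nd (nat_lit 49764) (nat_lit 0) (nat_lit 228) (XT.nd (nat_lit 78) (nat_lit 0) (nat_lit 0) (XT.lf (nat_lit 0) (nat_lit 125612071686) (nat_lit 152) (nat_lit 1209868761216) (nat_lit 0) (nat_lit 123906018430) (nat_lit 1) (nat_lit 5) (nat_lit 3) (nat_lit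 4) (nat_lit 1) (nat_lit 4) (nat_lit 438) (nat_lit 312) (nat_lit 270)) (XT.nd (nat_lit 49608) (nat_lit 0) (nat_lit 456) (XT.lf (nat_lit 0) (nat_lit 139291451929) (nat_lit 152) (nat_lit 1299077406355) (nat_lit 0) (nat_lit 137580206520) (nat_lit 1) (nat_lit 5) (nat_lit 3) (nat_lit 4) (nat_lit 1) (nat_lit 4) (nat_lit 439) (nat_lit 312) (nat_lit 269)) (XT.lf (nat_lit 0) (nat_lit 12065533622) (nat_lit 152) (nat_lit 2654600409) (nat_lit 0) (nat_lit 12065533622) (nat_lit 7) (nat_lit 5) (nat_lit 9) (nat_lit 4) (nat_lit 7) (nat_lit 4) (nat_lit 394) (nat_lit 313) (nat_lit 313)))) (XT.nd (nat_lit 156) (nat_lit 152) (nat_lit 0) (XT.nd (nat_lit 78) (nat_lit 0) (nat_lit 0) (XT.lf (nat_lit 0) (nat_lit 12954453357) (nat_lit 76) (nat_lit 22295505631) (nat_lit 76) (nat_lit 22138849437) (nat_lit 6) (nat_lit 4) (nat_lit 7) (nat_lit 5) (nat_lit 7) (nat_lit 4) (nat_lit 395) (nat_lit 313) (nat_lit 312)) (XT.lf (nat_lit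 0) (nat_lit 31948344367) (nat_lit 76) (nat_lit 14941737264) (nat_lit 76) (nat_lit 14640029039) (nat_lit 6) (nat_lit 4) (nat_lit 7) (nat_lit 5) (nat_lit 7) (nat_lit 4) (nat_lit 396) (nat_lit 313) (nat_lit 311))) (XT.nd (nat_lit 78) (nat_lit 152) (nat_lit 0) (XT.lf (nat_lit 0) (nat_lit 51609482447) (nat_lit 76) (nat_lit 7425298962) (nat_lit 76) (nat_lit 6989283300) (nat_lit 6) (nat_lit 4) (nat_lit 7) (nat_lit 5) (nat_lit 7) (nat_lit 4) (nat_lit 397) (nat_lit 313) (nat_lit 310)) (XT.lf (nat_lit 0) (nat_lit 854867518) (nat_lit 152) (nat_lit 69719404562) (nat_lit 0) (nat_lit 321177614) (nat_lit 4) (nat_lit 5) (nat_lit 6) (nat_lit 4) (nat_lit 4) (nat_lit 4) (nat_lit 398) (nat_lit 313) (nat_lit 309)))))) (XT.nd (nat_lit 546) (nat_lit 0) (nat_lit 0) (XT.nd (nat_lit 234) (nat_lit 76) (nat_lit 0) (XT.nd (nat_lit 78) (nat_lit 0) (nat_lit 0) (XT.lf (nat_lit 0) (nat_lit 9075612848) (nat_lit 152) (nat_lit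 58643260959) (nat_lit 0) (nat_lit 8432259154) (nat_lit 4) (nat_lit 5) (nat_lit 6) (nat_lit 4) (nat_lit 4) (nat_lit 4) (nat_lit 399) (nat_lit 313) (nat_lit 308)) (XT.nd (nat_lit 78) (nat_lit 0) (nat_lit 0) (XT.lf (nat_lit 0) (nat_lit 17593134578) (nat_lit 152) (nat_lit 47403952217) (nat_lit 0) (nat_lit 16848240338) (nat_lit 4) (nat_lit 5) (nat_lit 6) (nat_lit 4) (nat_lit 4) (nat_lit 4) (nat_lit 400) (nat_lit 313) (nat_lit 307)) (XT.lf (nat_lit 0) (nat_lit 26457906910) (nat_lit 152) (nat_lit 35934875024) (nat_lit 0) (nat_lit 25618993647) (nat_lit 4) (nat_lit 5) (nat_lit 6) (nat_lit 4) (nat_lit 4) (nat_lit 4) (nat_lit 401) (nat_lit 313) (nat_lit 306)))) (XT.nd (nat_lit 156) (nat_lit 76) (nat_lit 0) (XT.nd (nat_lit 78) (nat_lit 0) (nat_lit 0) (XT.lf (nat_lit 0) (nat_lit 35722461830) (nat_lit 152) (nat_lit 24168064478) (nat_lit 0) (nat_lit 34796493915) (nat_lit 4) (nat_lit 5) (nat_lit 6) (nat_lit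 4) (nat_lit 4) (nat_lit 4) (nat_lit 402) (nat_lit 313) (nat_lit 305)) (XT.lf (nat_lit 0) (nat_lit 45441700403) (nat_lit 152) (nat_lit 12033791332) (nat_lit 0) (nat_lit 44435126329) (nat_lit 4) (nat_lit 5) (nat_lit 6) (nat_lit 4) (nat_lit 4) (nat_lit 4) (nat_lit 403) (nat_lit 313) (nat_lit 304))) (XT.nd (nat_lit 78) (nat_lit 0) (nat_lit 0) (XT.lf (nat_lit 0) (nat_lit 557701137) (nat_lit 76) (nat_lit 55124224257) (nat_lit 76) (nat_lit 54043014850) (nat_lit 3) (nat_lit 4) (nat_lit 4) (nat_lit 5) (nat_lit 4) (nat_lit 4) (nat_lit 404) (nat_lit 313) (nat_lit 303)) (XT.lf (nat_lit 0) (nat_lit 14077956162) (nat_lit 76) (nat_lit 52619486374) (nat_lit 76) (nat_lit 51469170178) (nat_lit 3) (nat_lit 4) (nat_lit 4) (nat_lit 5) (nat_lit 4) (nat_lit 4) (nat_lit 405) (nat_lit 313) (nat_lit 302))))) (XT.nd (nat_lit 234) (nat_lit 0) (nat_lit 0) (XT.nd (nat_lit 78) (nat_lit 0) (nat_lit 0) (XT.lf (nat_lit 0)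 (nat_lit 28209202286) (nat_lit 76) (nat_lit 50150233274) (nat_lit 76) (nat_lit 48935929310) (nat_lit 3) (nat_lit 4) (nat_lit 4) (nat_lit 5) (nat_lit 4) (nat_lit 4) (nat_lit 406) (nat_lit 313) (nat_lit 301)) (XT.nd (nat_lit 78) (nat_lit 0) (nat_lit 0) (XT.lf (nat_lit 0) (nat_lit 43035180225) (nat_lit 76) (nat_lit 47701832346) (nat_lit 76) (nat_lit 46428280449) (nat_lit 3) (nat_lit 4) (nat_lit 4) (nat_lit 5) (nat_lit 4) (nat_lit 4) (nat_lit 407) (nat_lit 313) (nat_lit 300)) (XT.lf (nat_lit 0) (nat_lit 58643747626) (nat_lit 76) (nat_lit 45259774548) (nat_lit 76) (nat_lit 43931363453) (nat_lit 3) (nat_lit 4) (nat_lit 4) (nat_lit 5) (nat_lit 4) (nat_lit 4) (nat_lit 408) (nat_lit 313) (nat_lit 299)))) (XT.nd (nat_lit 156) (nat_lit 0) (nat_lit 0) (XT.nd (nat_lit 78) (nat_lit 0) (nat_lit 0) (XT.lf (nat_lit 0) (nat_lit 75127399705) (nat_lit 76) (nat_lit 42809588426) (nat_lit 76) (nat_lit 41430381777)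 (nat_lit 3) (nat_lit 4) (nat_lit 4) (nat_lit 5) (nat_lit 4) (nat_lit 4) (nat_lit 409) (nat_lit 313) (nat_lit 298)) (XT.lf (nat_lit 0) (nat_lit 92583817361) (nat_lit 76) (nat_lit 40336754357) (nat_lit 76) (nat_lit 38910514790) (nat_lit 3) (nat_lit 4) (nat_lit 4) (nat_lit 5) (nat_lit 4) (nat_lit 4) (nat_lit 410) (nat_lit 313) (nat_lit 297))) (XT.nd (nat_lit 78) (nat_lit 0) (nat_lit 0) (XT.lf (nat_lit 0) (nat_lit 111116446034) (nat_lit 76) (nat_lit 37826618512) (nat_lit 76) (nat_lit 36356829945) (nat_lit 3) (nat_lit 4) (nat_lit 4) (nat_lit 5) (nat_lit 4) (nat_lit 4) (nat_lit 411) (nat_lit 313) (nat_lit 296)) (XT.lf (nat_lit 0) (nat_lit 130835108708) (nat_lit 76) (nat_lit 35264306011) (nat_lit 76) (nat_lit 33754194296) (nat_lit 3) (nat_lit 4) (nat_lit 4) (nat_lit 5) (nat_lit 4) (nat_lit 4) (nat_lit 412) (nat_lit 313) (nat_lit 295))))))))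
noncomputable def xc10 : XT := (XT.nd (nat_lit 2028) (nat_lit 0) (nat_lit 0) (XT.nd (nat_lit 1014) (nat_lit 0) (nat_lit 0) (XT.nd (nat_lit 468) (nat_lit 152) (nat_lit 0) (XT.nd (nat_lit 234) (nat_lit 0) (nat_lit 0) (XT.nd (nat_lit 78) (nat_lit 0) (nat_lit 0) (XT.lf (nat_lit 0) (nat_lit 151856656716) (nat_lit 76) (nat_lit 32634632779) (nat_lit 76) (nat_lit 31087184816) (nat_lit 3) (nat_lit 4) (nat_lit 4) (nat_lit 5) (nat_lit 4) (nat_lit 4) (nat_lit 413) (nat_lit 313) (nat_lit 294)) (XT.nd (nat_lit 78) (nat_lit 0) (nat_lit 0) (XT.lf (nat_lit 0) (nat_lit 174305662197) (nat_lit 76) (nat_lit 29922015569) (nat_lit 76) (nat_lit 28339997005) (nat_lit 3) (nat_lit 4) (nat_lit 4) (nat_lit 5) (nat_lit 4) (nat_lit 4) (nat_lit 414) (nat_lit 313) (nat_lit 293)) (XT.lf (nat_lit 0) (nat_lit 198315156292) (nat_lit 76) (nat_lit 27110379610) (nat_lit 76) (nat_lit 25496351232) (nat_lit 3) (nat_lit 4) (nat_lit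 4) (nat_lit 5) (nat_lit 4) (nat_lit 4) (nat_lit 415) (nat_lit 313) (nat_lit 292)))) (XT.nd (nat_lit 78) (nat_lit 0) (nat_lit 0) (XT.lf (nat_lit 0) (nat_lit 224027417486) (nat_lit 76) (nat_lit 24183063358) (nat_lit 76) (nat_lit 22539396262) (nat_lit 3) (nat_lit 4) (nat_lit 4) (nat_lit 5) (nat_lit 4) (nat_lit 4) (nat_lit 416) (nat_lit 313) (nat_lit 291)) (XT.nd (nat_lit 78) (nat_lit 0) (nat_lit 0) (XT.lf (nat_lit 0) (nat_lit 251594814734) (nat_lit 76) (nat_lit 21122719752) (nat_lit 76) (nat_lit 19451609399) (nat_lit 3) (nat_lit 4) (nat_lit 4) (nat_lit 5) (nat_lit 4) (nat_lit 4) (nat_lit 417) (nat_lit 313) (nat_lit 290)) (XT.lf (nat_lit 0) (nat_lit 281180710390) (nat_lit 76) (nat_lit 17911213423) (nat_lit 76) (nat_lit 16214692647) (nat_lit 3) (nat_lit 4) (nat_lit 4) (nat_lit 5) (nat_lit 4) (nat_lit 4) (nat_lit 418) (nat_lit 313) (nat_lit 289))))) (XT.nd (nat_lit 234) (nat_lit 152) (nat_lit 0)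 (XT.nd (nat_lit 78) (nat_lit 0) (nat_lit 0) (XT.lf (nat_lit 0) (nat_lit 312960428280) (nat_lit 76) (nat_lit 14529513223) (nat_lit 76) (nat_lit 12809464278) (nat_lit 3) (nat_lit 4) (nat_lit 4) (nat_lit 5) (nat_lit 4) (nat_lit 4) (nat_lit 419) (nat_lit 313) (nat_lit 288)) (XT.nd (nat_lit 78) (nat_lit 0) (nat_lit 0) (XT.lf (nat_lit 0) (nat_lit 347122292658) (nat_lit 76) (nat_lit 10957579446) (nat_lit 76) (nat_lit 9215745159) (nat_lit 3) (nat_lit 4) (nat_lit 4) (nat_lit 5) (nat_lit 4) (nat_lit 4) (nat_lit 420) (nat_lit 313) (nat_lit 287)) (XT.lf (nat_lit 0) (nat_lit 383868744202) (nat_lit 76) (nat_lit 7174245078) (nat_lit 76) (nat_lit 5412239177) (nat_lit 3) (nat_lit 4) (nat_lit 4) (nat_lit 5) (nat_lit 4) (nat_lit 4) (nat_lit 421) (nat_lit 313) (nat_lit 286)))) (XT.nd (nat_lit 156) (nat_lit 0) (nat_lit 0) (XT.nd (nat_lit 78) (nat_lit 152) (nat_lit 0) (XT.lf (nat_lit 0) (nat_lit 423417539662)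 (nat_lit 76) (nat_lit 3157090359) (nat_lit 76) (nat_lit 1376407039) (nat_lit 3) (nat_lit 4) (nat_lit 4) (nat_lit 5) (nat_lit 4) (nat_lit 4) (nat_lit 422) (nat_lit 313) (nat_lit 285)) (XT.lf (nat_lit 0) (nat_lit 2905918622) (nat_lit 152) (nat_lit 457863752288) (nat_lit 0) (nat_lit 1193559359) (nat_lit 1) (nat_lit 5) (nat_lit 3) (nat_lit 4) (nat_lit 1) (nat_lit 4) (nat_lit 423) (nat_lit 313) (nat_lit 284))) (XT.nd (nat_lit 78) (nat_lit 0) (nat_lit 0) (XT.lf (nat_lit 0) (nat_lit 7554136687) (nat_lit 152) (nat_lit 485311032347) (nat_lit 0) (nat_lit 5826527065) (nat_lit 1) (nat_lit 5) (nat_lit 3) (nat_lit 4) (nat_lit 1) (nat_lit 4) (nat_lit 424) (nat_lit 313) (nat_lit 283)) (XT.lf (nat_lit 0) (nat_lit 12516235114) (nat_lit 152) (nat_lit 515070599826) (nat_lit 0) (nat_lit 10774504789) (nat_lit 1) (nat_lit 5) (nat_lit 3) (nat_lit 4) (nat_lit 1) (nat_lit 4) (nat_lit 425) (nat_lit 313) (nat_lit 282))))))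 (XT.nd (nat_lit 468) (nat_lit 0) (nat_lit 0) (XT.nd (nat_lit 234) (nat_lit 0) (nat_lit 0) (XT.nd (nat_lit 78) (nat_lit 0) (nat_lit 0) (XT.lf (nat_lit 0) (nat_lit 17821618930) (nat_lit 152) (nat_lit 547318807719) (nat_lit 0) (nat_lit 16066813881) (nat_lit 1) (nat_lit 5) (nat_lit 3) (nat_lit 4) (nat_lit 1) (nat_lit 4) (nat_lit 426) (nat_lit 313) (nat_lit 281)) (XT.nd (nat_lit 78) (nat_lit 0) (nat_lit 0) (XT.lf (nat_lit 0) (nat_lit 23501727448) (nat_lit 152) (nat_lit 582246756516) (nat_lit 0) (nat_lit 21734816172) (nat_lit 1) (nat_lit 5) (nat_lit 3) (nat_lit 4) (nat_lit 1) (nat_lit 4) (nat_lit 427) (nat_lit 313) (nat_lit 280)) (XT.lf (nat_lit 0) (nat_lit 29590220569) (nat_lit 152) (nat_lit 620061426655) (nat_lit 0) (nat_lit 27812099824) (nat_lit 1) (nat_lit 5) (nat_lit 3) (nat_lit 4) (nat_lit 1) (nat_lit 4) (nat_lit 428) (nat_lit 313) (nat_lit 279)))) (XT.nd (nat_lit 78) (nat_lit 0) (nat_lit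 0) (XT.lf (nat_lit 0) (nat_lit 36123178253) (nat_lit 152) (nat_lit 660986905069) (nat_lit 0) (nat_lit 34334678369) (nat_lit 1) (nat_lit 5) (nat_lit 3) (nat_lit 4) (nat_lit 1) (nat_lit 4) (nat_lit 429) (nat_lit 313) (nat_lit 278)) (XT.nd (nat_lit 78) (nat_lit 0) (nat_lit 0) (XT.lf (nat_lit 0) (nat_lit 43139314322) (nat_lit 152) (nat_lit 705265713113) (nat_lit 0) (nat_lit 41341204126) (nat_lit 1) (nat_lit 5) (nat_lit 3) (nat_lit 4) (nat_lit 1) (nat_lit 4) (nat_lit 430) (nat_lit 313) (nat_lit 277)) (XT.lf (nat_lit 0) (nat_lit 50680205880) (nat_lit 152) (nat_lit 753160243722) (nat_lit 0) (nat_lit 48873197246) (nat_lit 1) (nat_lit 5) (nat_lit 3) (nat_lit 4) (nat_lit 1) (nat_lit 4) (nat_lit 431) (nat_lit 313) (nat_lit 276))))) (XT.nd (nat_lit 234) (nat_lit 0) (nat_lit 0) (XT.nd (nat_lit 78) (nat_lit 0) (nat_lit 0) (XT.lf (nat_lit 0) (nat_lit 58790539692) (nat_lit 152) (nat_lit 804954316338) (nat_lit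 0) (nat_lit 56975291764) (nat_lit 1) (nat_lit 5) (nat_lit 3) (nat_lit 4) (nat_lit 1) (nat_lit 4) (nat_lit 432) (nat_lit 313) (nat_lit 275)) (XT.nd (nat_lit 78) (nat_lit 0) (nat_lit 0) (XT.lf (nat_lit 0) (nat_lit 67518376995) (nat_lit 152) (nat_lit 860954858799) (nat_lit 0) (nat_lit 65695500090) (nat_lit 1) (nat_lit 5) (nat_lit 3) (nat_lit 4) (nat_lit 1) (nat_lit 4) (nat_lit 433) (nat_lit 313) (nat_lit 274)) (XT.lf (nat_lit 0) (nat_lit 76915438305) (nat_lit 152) (nat_lit 921493726170) (nat_lit 0) (nat_lit 75085497534) (nat_lit 1) (nat_lit 5) (nat_lit 3) (nat_lit 4) (nat_lit 1) (nat_lit 4) (nat_lit 434) (nat_lit 313) (nat_lit 273)))) (XT.nd (nat_lit 156) (nat_lit 0) (nat_lit 0) (XT.nd (nat_lit 78) (nat_lit 0) (nat_lit 0) (XT.lf (nat_lit 0) (nat_lit 87037409914) (nat_lit 152) (nat_lit 986929667296) (nat_lit 0) (nat_lit 85200928524) (nat_lit 1) (nat_lit 5) (nat_lit 3) (nat_lit 4) (nat_lit 1)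 (nat_lit 4) (nat_lit 435) (nat_lit 313) (nat_lit 272)) (XT.lf (nat_lit 0) (nat_lit 97944273873) (nat_lit 152) (nat_lit 1057650450715) (nat_lit 0) (nat_lit 96101736356) (nat_lit 1) (nat_lit 5) (nat_lit 3) (nat_lit 4) (nat_lit 1) (nat_lit 4) (nat_lit 436) (nat_lit 313) (nat_lit 271))) (XT.nd (nat_lit 78) (nat_lit 0) (nat_lit 0) (XT.lf (nat_lit 0) (nat_lit 109700663452) (nat_lit 152) (nat_lit 1134075162554) (nat_lit 0) (nat_lit 107852518410) (nat_lit 1) (nat_lit 5) (nat_lit 3) (nat_lit 4) (nat_lit 1) (nat_lit 4) (nat_lit 437) (nat_lit 313) (nat_lit 270)) (XT.lf (nat_lit 0) (nat_lit 122376246144) (nat_lit 152) (nat_lit 1216656689992) (nat_lit 0) (nat_lit 120522908949) (nat_lit 1) (nat_lit 5) (nat_lit 3) (nat_lit 4) (nat_lit 1) (nat_lit 4) (nat_lit 438) (nat_lit 313) (nat_lit 269))))))) (XT.nd (nat_lit 50388) (nat_lit 0) (nat_lit 152) (XT.nd (nat_lit 49842) (nat_lit 0) (nat_lit 228) (XT.nd (nat_lit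 49608) (nat_lit 0) (nat_lit 380) (XT.nd (nat_lit 49452) (nat_lit 0) (nat_lit 456) (XT.lf (nat_lit 0) (nat_lit 136046136513) (nat_lit 152) (nat_lit 1305884405043) (nat_lit 0) (nat_lit 134187991769) (nat_lit 1) (nat_lit 5) (nat_lit 3) (nat_lit 4) (nat_lit 1) (nat_lit 4) (nat_lit 439) (nat_lit 313) (nat_lit 268)) (XT.nd (nat_lit 78) (nat_lit 0) (nat_lit 0) (XT.lf (nat_lit 0) (nat_lit 1870751649) (nat_lit 152) (nat_lit 19658673466) (nat_lit 0) (nat_lit 1870751649) (nat_lit 7) (nat_lit 5) (nat_lit 9) (nat_lit 4) (nat_lit 7) (nat_lit 4) (nat_lit 392) (nat_lit 314) (nat_lit 314)) (XT.lf (nat_lit 0) (nat_lit 13745866688) (nat_lit 152) (nat_lit 22727066508) (nat_lit 0) (nat_lit 13576677998) (nat_lit 7) (nat_lit 5) (nat_lit 9) (nat_lit 4) (nat_lit 7) (nat_lit 4) (nat_lit 393) (nat_lit 314) (nat_lit 313)))) (XT.nd (nat_lit 78) (nat_lit 76) (nat_lit 0) (XT.lf (nat_lit 0) (nat_lit 24068475182) (nat_lit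 152) (nat_lit 5771827827) (nat_lit 0) (nat_lit 23742630299) (nat_lit 7) (nat_lit 5) (nat_lit 9) (nat_lit 4) (nat_lit 7) (nat_lit 4) (nat_lit 394) (nat_lit 314) (nat_lit 312)) (XT.nd (nat_lit 78) (nat_lit 0) (nat_lit 0) (XT.lf (nat_lit 0) (nat_lit 12034008008) (nat_lit 76) (nat_lit 22924376377) (nat_lit 76) (nat_lit 22453479463) (nat_lit 6) (nat_lit 4) (nat_lit 7) (nat_lit 5) (nat_lit 7) (nat_lit 4) (nat_lit 395) (nat_lit 314) (nat_lit 311)) (XT.lf (nat_lit 0) (nat_lit 30618156609) (nat_lit 76) (nat_lit 15775238555) (nat_lit 76) (nat_lit 15170034204) (nat_lit 6) (nat_lit 4) (nat_lit 7) (nat_lit 5) (nat_lit 7) (nat_lit 4) (nat_lit 396) (nat_lit 314) (nat_lit 310))))) (XT.nd (nat_lit 234) (nat_lit 0) (nat_lit 0) (XT.nd (nat_lit 78) (nat_lit 152) (nat_lit 0) (XT.lf (nat_lit 0) (nat_lit 49899903568) (nat_lit 76) (nat_lit 8448272980) (nat_lit 76) (nat_lit 7718709892) (nat_lit 6) (nat_lit 4) (nat_lit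 7) (nat_lit 5) (nat_lit 7) (nat_lit 4) (nat_lit 397) (nat_lit 314) (nat_lit 309)) (XT.nd (nat_lit 78) (nat_lit 152) (nat_lit 0) (XT.lf (nat_lit 0) (nat_lit 69993511090) (nat_lit 76) (nat_lit 900060596) (nat_lit 76) (nat_lit 55350529) (nat_lit 6) (nat_lit 4) (nat_lit 7) (nat_lit 5) (nat_lit 7) (nat_lit 4) (nat_lit 398) (nat_lit 314) (nat_lit 308)) (XT.lf (nat_lit 0) (nat_lit 7963949866) (nat_lit 152) (nat_lit 61192941917) (nat_lit 0) (nat_lit 7057923541) (nat_lit 4) (nat_lit 5) (nat_lit 6) (nat_lit 4) (nat_lit 4) (nat_lit 4) (nat_lit 399) (nat_lit 314) (nat_lit 307)))) (XT.nd (nat_lit 156) (nat_lit 0) (nat_lit 0) (XT.nd (nat_lit 78) (nat_lit 0) (nat_lit 0) (XT.lf (nat_lit 0) (nat_lit 16320822011) (nat_lit 152) (nat_lit 50275448678) (nat_lit 0) (nat_lit 15320776663) (nat_lit 4) (nat_lit 5) (nat_lit 6) (nat_lit 4) (nat_lit 4) (nat_lit 4) (nat_lit 400) (nat_lit 314) (nat_lit 306)) (XT.lf (nat_lit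 0) (nat_lit 25036844729) (nat_lit 152) (nat_lit 39104348804) (nat_lit 0) (nat_lit 23949744729) (nat_lit 4) (nat_lit 5) (nat_lit 6) (nat_lit 4) (nat_lit 4) (nat_lit 4) (nat_lit 401) (nat_lit 314) (nat_lit 305))) (XT.nd (nat_lit 78) (nat_lit 0) (nat_lit 0) (XT.lf (nat_lit 0) (nat_lit 34163668523) (nat_lit 152) (nat_lit 27613443183) (nat_lit 0) (nat_lit 32995962364) (nat_lit 4) (nat_lit 5) (nat_lit 6) (nat_lit 4) (nat_lit 4) (nat_lit 4) (nat_lit 402) (nat_lit 314) (nat_lit 304)) (XT.lf (nat_lit 0) (nat_lit 43755378277) (nat_lit 152) (nat_lit 15734637559) (nat_lit 0) (nat_lit 42513036785) (nat_lit 4) (nat_lit 5) (nat_lit 6) (nat_lit 4) (nat_lit 4) (nat_lit 4) (nat_lit 403) (nat_lit 314) (nat_lit 303)))))) (XT.nd (nat_lit 468) (nat_lit 0) (nat_lit 0) (XT.nd (nat_lit 234) (nat_lit 0) (nat_lit 0) (XT.nd (nat_lit 78) (nat_lit 76) (nat_lit 0) (XT.lf (nat_lit 0) (nat_lit 53868813750) (nat_lit 152)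 (nat_lit 3397539012) (nat_lit 0) (nat_lit 52557365469) (nat_lit 4) (nat_lit 5) (nat_lit 6) (nat_lit 4) (nat_lit 4) (nat_lit 4) (nat_lit 404) (nat_lit 314) (nat_lit 302)) (XT.nd (nat_lit 78) (nat_lit 0) (nat_lit 0) (XT.lf (nat_lit 0) (nat_lit 9784113941) (nat_lit 76) (nat_lit 54932549911) (nat_lit 76) (nat_lit 53557113861) (nat_lit 3) (nat_lit 4) (nat_lit 4) (nat_lit 5) (nat_lit 4) (nat_lit 4) (nat_lit 405) (nat_lit 314) (nat_lit 301)) (XT.lf (nat_lit 0) (nat_lit 23705856278) (nat_lit 76) (nat_lit 52568293167) (nat_lit 76) (nat_lit 51133609184) (nat_lit 3) (nat_lit 4) (nat_lit 4) (nat_lit 5) (nat_lit 4) (nat_lit 4) (nat_lit 406) (nat_lit 314) (nat_lit 300)))) (XT.nd (nat_lit 78) (nat_lit 0) (nat_lit 0) (XT.lf (nat_lit 0) (nat_lit 38337849231) (nat_lit 76) (nat_lit 50217111087) (nat_lit 76) (nat_lit 48727567907) (nat_lit 3) (nat_lit 4) (nat_lit 4) (nat_lit 5) (nat_lit 4) (nat_lit 4) (nat_lit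 407) (nat_lit 314) (nat_lit 299)) (XT.nd (nat_lit 78) (nat_lit 0) (nat_lit 0) (XT.lf (nat_lit 0) (nat_lit 53766800904) (nat_lit 76) (nat_lit 47865070740) (nat_lit 76) (nat_lit 46324732007) (nat_lit 3) (nat_lit 4) (nat_lit 4) (nat_lit 5) (nat_lit 4) (nat_lit 4) (nat_lit 408) (nat_lit 314) (nat_lit 298)) (XT.lf (nat_lit 0) (nat_lit 70084142123) (nat_lit 76) (nat_lit 45498234110) (nat_lit 76) (nat_lit 43910862457) (nat_lit 3) (nat_lit 4) (nat_lit 4) (nat_lit 5) (nat_lit 4) (nat_lit 4) (nat_lit 409) (nat_lit 314) (nat_lit 297))))) (XT.nd (nat_lit 234) (nat_lit 0) (nat_lit 0) (XT.nd (nat_lit 78) (nat_lit 0) (nat_lit 0) (XT.lf (nat_lit 0) (nat_lit 87386568242) (nat_lit 76) (nat_lit 43102575498) (nat_lit 76) (nat_lit 41471654845) (nat_lit 3) (nat_lit 4) (nat_lit 4) (nat_lit 5) (nat_lit 4) (nat_lit 4) (nat_lit 410) (nat_lit 314) (nat_lit 296)) (XT.nd (nat_lit 78) (nat_lit 0) (nat_lit 0) (XT.lf (nat_lit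 0) (nat_lit 105776612159) (nat_lit 76) (nat_lit 40663898408) (nat_lit 76) (nat_lit 38992654608) (nat_lit 3) (nat_lit 4) (nat_lit 4) (nat_lit 5) (nat_lit 4) (nat_lit 4) (nat_lit 411) (nat_lit 314) (nat_lit 295)) (XT.lf (nat_lit 0) (nat_lit 125363251910) (nat_lit 76) (nat_lit 38167751421) (nat_lit 76) (nat_lit 36459171373) (nat_lit 3) (nat_lit 4) (nat_lit 4) (nat_lit 5) (nat_lit 4) (nat_lit 4) (nat_lit 412) (nat_lit 314) (nat_lit 294)))) (XT.nd (nat_lit 156) (nat_lit 0) (nat_lit 0) (XT.nd (nat_lit 78) (nat_lit 0) (nat_lit 0) (XT.lf (nat_lit 0) (nat_lit 146262556472) (nat_lit 76) (nat_lit 35599342555) (nat_lit 76) (nat_lit 33856191906) (nat_lit 3) (nat_lit 4) (nat_lit 4) (nat_lit 5) (nat_lit 4) (nat_lit 4) (nat_lit 413) (nat_lit 314) (nat_lit 293)) (XT.lf (nat_lit 0) (nat_lit 168598373576) (nat_lit 76) (nat_lit 32943451608) (nat_lit 76) (nat_lit 31168291145) (nat_lit 3) (nat_lit 4) (nat_lit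 4) (nat_lit 5) (nat_lit 4) (nat_lit 4) (nat_lit 414) (nat_lit 314) (nat_lit 292))) (XT.nd (nat_lit 78) (nat_lit 0) (nat_lit 0) (XT.lf (nat_lit 0) (nat_lit 192503063619) (nat_lit 76) (nat_lit 30184339968) (nat_lit 76) (nat_lit 28379540787) (nat_lit 3) (nat_lit 4) (nat_lit 4) (nat_lit 5) (nat_lit 4) (nat_lit 4) (nat_lit 415) (nat_lit 314) (nat_lit 291)) (XT.lf (nat_lit 0) (nat_lit 218118284023) (nat_lit 76) (nat_lit 27305657344) (nat_lit 76) (nat_lit 25473414906) (nat_lit 3) (nat_lit 4) (nat_lit 4) (nat_lit 5) (nat_lit 4) (nat_lit 4) (nat_lit 416) (nat_lit 314) (nat_lit 290))))))))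
noncomputable def xc11 : XT := (XT.nd (nat_lit 51246) (nat_lit 0) (nat_lit 152) (XT.nd (nat_lit 1014) (nat_lit 0) (nat_lit 0) (XT.nd (nat_lit 468) (nat_lit 152) (nat_lit 0) (XT.nd (nat_lit 234) (nat_lit 0) (nat_lit 0) (XT.nd (nat_lit 78) (nat_lit 0) (nat_lit 0) (XT.lf (nat_lit 0) (nat_lit 245595828689) (nat_lit 76) (nat_lit 24290344875) (nat_lit 76) (nat_lit 22432692015) (nat_lit 3) (nat_lit 4) (nat_lit 4) (nat_lit 5) (nat_lit 4) (nat_lit 4) (nat_lit 417) (nat_lit 314) (nat_lit 289)) (XT.nd (nat_lit 78) (nat_lit 0) (nat_lit 0) (XT.lf (nat_lit 0) (nat_lit 275098527509) (nat_lit 76) (nat_lit 21120534044) (nat_lit 76) (nat_lit 19239353014) (nat_lit 3) (nat_lit 4) (nat_lit 4) (nat_lit 5) (nat_lit 4) (nat_lit 4) (nat_lit 418) (nat_lit 314) (nat_lit 288)) (XT.lf (nat_lit 0) (nat_lit 306801211291) (nat_lit 76) (nat_lit 17777440786) (nat_lit 76) (nat_lit 15874474413) (nat_lit 3) (nat_lit 4) (nat_lit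 4) (nat_lit 5) (nat_lit 4) (nat_lit 4) (nat_lit 419) (nat_lit 314) (nat_lit 287)))) (XT.nd (nat_lit 78) (nat_lit 0) (nat_lit 0) (XT.lf (nat_lit 0) (nat_lit 340891747792) (nat_lit 76) (nat_lit 14241254177) (nat_lit 76) (nat_lit 12318116192) (nat_lit 3) (nat_lit 4) (nat_lit 4) (nat_lit 5) (nat_lit 4) (nat_lit 4) (nat_lit 420) (nat_lit 314) (nat_lit 286)) (XT.nd (nat_lit 78) (nat_lit 0) (nat_lit 0) (XT.lf (nat_lit 0) (nat_lit 377572155006) (nat_lit 76) (nat_lit 10491019040) (nat_lit 76) (nat_lit 8549203635) (nat_lit 3) (nat_lit 4) (nat_lit 4) (nat_lit 5) (nat_lit 4) (nat_lit 4) (nat_lit 421) (nat_lit 314) (nat_lit 285)) (XT.lf (nat_lit 0) (nat_lit 417059798308) (nat_lit 76) (nat_lit 6504511756) (nat_lit 76) (nat_lit 4545402444) (nat_lit 3) (nat_lit 4) (nat_lit 4) (nat_lit 5) (nat_lit 4) (nat_lit 4) (nat_lit 422) (nat_lit 314) (nat_lit 284))))) (XT.nd (nat_lit 234) (nat_lit 0) (nat_lit 0) (XT.nd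 (nat_lit 78) (nat_lit 152) (nat_lit 0) (XT.lf (nat_lit 0) (nat_lit 459588678548) (nat_lit 76) (nat_lit 2258108580) (nat_lit 76) (nat_lit 282986392) (nat_lit 3) (nat_lit 4) (nat_lit 4) (nat_lit 5) (nat_lit 4) (nat_lit 4) (nat_lit 423) (nat_lit 314) (nat_lit 283)) (XT.nd (nat_lit 78) (nat_lit 0) (nat_lit 0) (XT.lf (nat_lit 0) (nat_lit 4269502708) (nat_lit 152) (nat_lit 492219884420) (nat_lit 0) (nat_lit 2374313255) (nat_lit 1) (nat_lit 5) (nat_lit 3) (nat_lit 4) (nat_lit 1) (nat_lit 4) (nat_lit 424) (nat_lit 314) (nat_lit 282)) (XT.lf (nat_lit 0) (nat_lit 9205792248) (nat_lit 152) (nat_lit 522031314888) (nat_lit 0) (nat_lit 7297528070) (nat_lit 1) (nat_lit 5) (nat_lit 3) (nat_lit 4) (nat_lit 1) (nat_lit 4) (nat_lit 425) (nat_lit 314) (nat_lit 281)))) (XT.nd (nat_lit 156) (nat_lit 0) (nat_lit 0) (XT.nd (nat_lit 78) (nat_lit 0) (nat_lit 0) (XT.lf (nat_lit 0) (nat_lit 14487278947) (nat_lit 152)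 (nat_lit 554327544065) (nat_lit 0) (nat_lit 12566908542) (nat_lit 1) (nat_lit 5) (nat_lit 3) (nat_lit 4) (nat_lit 1) (nat_lit 4) (nat_lit 426) (nat_lit 314) (nat_lit 280)) (XT.lf (nat_lit 0) (nat_lit 20145260504) (nat_lit 152) (nat_lit 589299957015) (nat_lit 0) (nat_lit 18213680630) (nat_lit 1) (nat_lit 5) (nat_lit 3) (nat_lit 4) (nat_lit 1) (nat_lit 4) (nat_lit 427) (nat_lit 314) (nat_lit 279))) (XT.nd (nat_lit 78) (nat_lit 0) (nat_lit 0) (XT.lf (nat_lit 0) (nat_lit 26213265699) (nat_lit 152) (nat_lit 627155797666) (nat_lit 0) (nat_lit 24271306687) (nat_lit 1) (nat_lit 5) (nat_lit 3) (nat_lit 4) (nat_lit 1) (nat_lit 4) (nat_lit 428) (nat_lit 314) (nat_lit 278)) (XT.lf (nat_lit 0) (nat_lit 32727253080) (nat_lit 152) (nat_lit 668119396924) (nat_lit 0) (nat_lit 30775683755) (nat_lit 1) (nat_lit 5) (nat_lit 3) (nat_lit 4) (nat_lit 1) (nat_lit 4) (nat_lit 429) (nat_lit 314) (nat_lit 277))))))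 (XT.nd (nat_lit 468) (nat_lit 0) (nat_lit 0) (XT.nd (nat_lit 234) (nat_lit 0) (nat_lit 0) (XT.nd (nat_lit 78) (nat_lit 0) (nat_lit 0) (XT.lf (nat_lit 0) (nat_lit 39725824055) (nat_lit 152) (nat_lit 712433502046) (nat_lit 0) (nat_lit 37765356292) (nat_lit 1) (nat_lit 5) (nat_lit 3) (nat_lit 4) (nat_lit 1) (nat_lit 4) (nat_lit 430) (nat_lit 314) (nat_lit 276)) (XT.nd (nat_lit 78) (nat_lit 0) (nat_lit 0) (XT.lf (nat_lit 0) (nat_lit 47250451637) (nat_lit 152) (nat_lit 760360715135) (nat_lit 0) (nat_lit 45281744580) (nat_lit 1) (nat_lit 5) (nat_lit 3) (nat_lit 4) (nat_lit 1) (nat_lit 4) (nat_lit 431) (nat_lit 314) (nat_lit 275)) (XT.lf (nat_lit 0) (nat_lit 55345726211) (nat_lit 152) (nat_lit 812185049307) (nat_lit 0) (nat_lit 53369390178) (nat_lit 1) (nat_lit 5) (nat_lit 3) (nat_lit 4) (nat_lit 1) (nat_lit 4) (nat_lit 432) (nat_lit 314) (nat_lit 274)))) (XT.nd (nat_lit 78) (nat_lit 0) (nat_lit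 0) (XT.lf (nat_lit 0) (nat_lit 64059619775) (nat_lit 152) (nat_lit 868213611726) (nat_lit 0) (nat_lit 62076219875) (nat_lit 1) (nat_lit 5) (nat_lit 3) (nat_lit 4) (nat_lit 1) (nat_lit 4) (nat_lit 433) (nat_lit 314) (nat_lit 273)) (XT.nd (nat_lit 78) (nat_lit 0) (nat_lit 0) (XT.lf (nat_lit 0) (nat_lit 73443770217) (nat_lit 152) (nat_lit 928778423503) (nat_lit 0) (nat_lit 71453829699) (nat_lit 1) (nat_lit 5) (nat_lit 3) (nat_lit 4) (nat_lit 1) (nat_lit 4) (nat_lit 434) (nat_lit 314) (nat_lit 272)) (XT.lf (nat_lit 0) (nat_lit 83553787317) (nat_lit 152) (nat_lit 994238387227) (nat_lit 0) (nat_lit 81557790671) (nat_lit 1) (nat_lit 5) (nat_lit 3) (nat_lit 4) (nat_lit 1) (nat_lit 4) (nat_lit 435) (nat_lit 314) (nat_lit 271))))) (XT.nd (nat_lit 234) (nat_lit 0) (nat_lit 0) (XT.nd (nat_lit 78) (nat_lit 0) (nat_lit 0) (XT.lf (nat_lit 0) (nat_lit 94449582287) (nat_lit 152) (nat_lit 1064981413793) (nat_lit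 0) (nat_lit 92447978116) (nat_lit 1) (nat_lit 5) (nat_lit 3) (nat_lit 4) (nat_lit 1) (nat_lit 4) (nat_lit 436) (nat_lit 314) (nat_lit 270)) (XT.nd (nat_lit 78) (nat_lit 0) (nat_lit 0) (XT.lf (nat_lit 0) (nat_lit 106195722802) (nat_lit 152) (nat_lit 1141426721138) (nat_lit 0) (nat_lit 104188926478) (nat_lit 1) (nat_lit 5) (nat_lit 3) (nat_lit 4) (nat_lit 1) (nat_lit 4) (nat_lit 437) (nat_lit 314) (nat_lit 269)) (XT.lf (nat_lit 0) (nat_lit 118861815619) (nat_lit 152) (nat_lit 1224027318489) (nat_lit 0) (nat_lit 116850211747) (nat_lit 1) (nat_lit 5) (nat_lit 3) (nat_lit 4) (nat_lit 1) (nat_lit 4) (nat_lit 438) (nat_lit 314) (nat_lit 268)))) (XT.nd (nat_lit 49374) (nat_lit 0) (nat_lit 456) (XT.nd (nat_lit 49296) (nat_lit 0) (nat_lit 608) (XT.lf (nat_lit 0) (nat_lit 132522919068) (nat_lit 152) (nat_lit 1313272690867) (nat_lit 0) (nat_lit 130506863761) (nat_lit 1) (nat_lit 5) (nat_lit 3) (nat_lit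 4) (nat_lit 1) (nat_lit 4) (nat_lit 439) (nat_lit 314) (nat_lit 267)) (XT.lf (nat_lit 0) (nat_lit 5657206490) (nat_lit 76) (nat_lit 7425776555) (nat_lit 76) (nat_lit 7425776555) (nat_lit 9) (nat_lit 4) (nat_lit 10) (nat_lit 5) (nat_lit 10) (nat_lit 4) (nat_lit 390) (nat_lit 315) (nat_lit 315))) (XT.nd (nat_lit 78) (nat_lit 152) (nat_lit 0) (XT.lf (nat_lit 0) (nat_lit 32162937487) (nat_lit 76) (nat_lit 5913104675) (nat_lit 76) (nat_lit 5721244702) (nat_lit 9) (nat_lit 4) (nat_lit 10) (nat_lit 5) (nat_lit 10) (nat_lit 4) (nat_lit 391) (nat_lit 315) (nat_lit 314)) (XT.lf (nat_lit 0) (nat_lit 3673903870) (nat_lit 152) (nat_lit 39816984102) (nat_lit 0) (nat_lit 3321991396) (nat_lit 7) (nat_lit 5) (nat_lit 9) (nat_lit 4) (nat_lit 7) (nat_lit 4) (nat_lit 392) (nat_lit 315) (nat_lit 313))))))) (XT.nd (nat_lit 1014) (nat_lit 0) (nat_lit 0) (XT.nd (nat_lit 468) (nat_lit 228) (nat_lit 0) (XT.nd (nat_lit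 234) (nat_lit 0) (nat_lit 0) (XT.nd (nat_lit 78) (nat_lit 76) (nat_lit 0) (XT.lf (nat_lit 0) (nat_lit 13446486506) (nat_lit 152) (nat_lit 23689330686) (nat_lit 0) (nat_lit 12937917839) (nat_lit 7) (nat_lit 5) (nat_lit 9) (nat_lit 4) (nat_lit 7) (nat_lit 4) (nat_lit 393) (nat_lit 315) (nat_lit 312)) (XT.nd (nat_lit 78) (nat_lit 76) (nat_lit 0) (XT.lf (nat_lit 0) (nat_lit 23554483193) (nat_lit 152) (nat_lit 7162450346) (nat_lit 0) (nat_lit 22900862494) (nat_lit 7) (nat_lit 5) (nat_lit 9) (nat_lit 4) (nat_lit 7) (nat_lit 4) (nat_lit 394) (nat_lit 315) (nat_lit 311)) (XT.lf (nat_lit 0) (nat_lit 10187662819) (nat_lit 76) (nat_lit 24029188317) (nat_lit 76) (nat_lit 23241260182) (nat_lit 6) (nat_lit 4) (nat_lit 7) (nat_lit 5) (nat_lit 7) (nat_lit 4) (nat_lit 395) (nat_lit 315) (nat_lit 310)))) (XT.nd (nat_lit 78) (nat_lit 0) (nat_lit 0) (XT.lf (nat_lit 0) (nat_lit 28392420300) (nat_lit 76) (nat_lit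 17069523222) (nat_lit 76) (nat_lit 16157236350) (nat_lit 6) (nat_lit 4) (nat_lit 7) (nat_lit 5) (nat_lit 7) (nat_lit 4) (nat_lit 396) (nat_lit 315) (nat_lit 309)) (XT.nd (nat_lit 78) (nat_lit 0) (nat_lit 0) (XT.lf (nat_lit 0) (nat_lit 47322879185) (nat_lit 76) (nat_lit 9917995357) (nat_lit 76) (nat_lit 8890561505) (nat_lit 6) (nat_lit 4) (nat_lit 7) (nat_lit 5) (nat_lit 7) (nat_lit 4) (nat_lit 397) (nat_lit 315) (nat_lit 308)) (XT.lf (nat_lit 0) (nat_lit 67091219971) (nat_lit 76) (nat_lit 2532225298) (nat_lit 76) (nat_lit 1398173873) (nat_lit 6) (nat_lit 4) (nat_lit 7) (nat_lit 5) (nat_lit 7) (nat_lit 4) (nat_lit 398) (nat_lit 315) (nat_lit 307))))) (XT.nd (nat_lit 234) (nat_lit 76) (nat_lit 0) (XT.nd (nat_lit 78) (nat_lit 0) (nat_lit 0) (XT.lf (nat_lit 0) (nat_lit 6429202710) (nat_lit 152) (nat_lit 64615973599) (nat_lit 0) (nat_lit 5255134709) (nat_lit 4) (nat_lit 5) (nat_lit 6) (nat_lit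 4) (nat_lit 4) (nat_lit 4) (nat_lit 399) (nat_lit 315) (nat_lit 306)) (XT.nd (nat_lit 78) (nat_lit 0) (nat_lit 0) (XT.lf (nat_lit 0) (nat_lit 14637325240) (nat_lit 152) (nat_lit 53996457680) (nat_lit 0) (nat_lit 13376202588) (nat_lit 4) (nat_lit 5) (nat_lit 6) (nat_lit 4) (nat_lit 4) (nat_lit 4) (nat_lit 400) (nat_lit 315) (nat_lit 305)) (XT.lf (nat_lit 0) (nat_lit 23215616832) (nat_lit 152) (nat_lit 43101262730) (nat_lit 0) (nat_lit 21873888021) (nat_lit 4) (nat_lit 5) (nat_lit 6) (nat_lit 4) (nat_lit 4) (nat_lit 4) (nat_lit 401) (nat_lit 315) (nat_lit 304)))) (XT.nd (nat_lit 156) (nat_lit 76) (nat_lit 0) (XT.nd (nat_lit 78) (nat_lit 0) (nat_lit 0) (XT.lf (nat_lit 0) (nat_lit 32214911807) (nat_lit 152) (nat_lit 31865824631) (nat_lit 0) (nat_lit 30798547663) (nat_lit 4) (nat_lit 5) (nat_lit 6) (nat_lit 4) (nat_lit 4) (nat_lit 4) (nat_lit 402) (nat_lit 315) (nat_lit 303)) (XT.lf (nat_lit 0)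 (nat_lit 41688539320) (nat_lit 152) (nat_lit 20223563011) (nat_lit 0) (nat_lit 40203068387) (nat_lit 4) (nat_lit 5) (nat_lit 6) (nat_lit 4) (nat_lit 4) (nat_lit 4) (nat_lit 403) (nat_lit 315) (nat_lit 302))) (XT.nd (nat_lit 78) (nat_lit 76) (nat_lit 0) (XT.lf (nat_lit 0) (nat_lit 51692639386) (nat_lit 152) (nat_lit 8105486688) (nat_lit 0) (nat_lit 50143180685) (nat_lit 4) (nat_lit 5) (nat_lit 6) (nat_lit 4) (nat_lit 4) (nat_lit 4) (nat_lit 404) (nat_lit 315) (nat_lit 301)) (XT.lf (nat_lit 0) (nat_lit 4710996467) (nat_lit 76) (nat_lit 57649050950) (nat_lit 76) (nat_lit 56040344316) (nat_lit 3) (nat_lit 4) (nat_lit 4) (nat_lit 5) (nat_lit 4) (nat_lit 4) (nat_lit 405) (nat_lit 315) (nat_lit 300)))))) (XT.nd (nat_lit 546) (nat_lit 0) (nat_lit 0) (XT.nd (nat_lit 234) (nat_lit 0) (nat_lit 0) (XT.nd (nat_lit 78) (nat_lit 0) (nat_lit 0) (XT.lf (nat_lit 0) (nat_lit 18438753818) (nat_lit 76) (nat_lit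 55382013054) (nat_lit 76) (nat_lit 53718447222) (nat_lit 3) (nat_lit 4) (nat_lit 4) (nat_lit 5) (nat_lit 4) (nat_lit 4) (nat_lit 406) (nat_lit 315) (nat_lit 299)) (XT.nd (nat_lit 78) (nat_lit 0) (nat_lit 0) (XT.lf (nat_lit 0) (nat_lit 32891131042) (nat_lit 76) (nat_lit 53120848426) (nat_lit 76) (nat_lit 51406487041) (nat_lit 3) (nat_lit 4) (nat_lit 4) (nat_lit 5) (nat_lit 4) (nat_lit 4) (nat_lit 407) (nat_lit 315) (nat_lit 298)) (XT.lf (nat_lit 0) (nat_lit 48153771855) (nat_lit 76) (nat_lit 50852157572) (nat_lit 76) (nat_lit 49090763267) (nat_lit 3) (nat_lit 4) (nat_lit 4) (nat_lit 5) (nat_lit 4) (nat_lit 4) (nat_lit 408) (nat_lit 315) (nat_lit 297)))) (XT.nd (nat_lit 156) (nat_lit 0) (nat_lit 0) (XT.nd (nat_lit 78) (nat_lit 0) (nat_lit 0) (XT.lf (nat_lit 0) (nat_lit 64317121537) (nat_lit 76) (nat_lit 48562496397) (nat_lit 76) (nat_lit 46757553093) (nat_lit 3) (nat_lit 4) (nat_lit 4) (nat_lit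 5) (nat_lit 4) (nat_lit 4) (nat_lit 409) (nat_lit 315) (nat_lit 296)) (XT.lf (nat_lit 0) (nat_lit 81476962901) (nat_lit 76) (nat_lit 46238296541) (nat_lit 76) (nat_lit 44393030088) (nat_lit 3) (nat_lit 4) (nat_lit 4) (nat_lit 5) (nat_lit 4) (nat_lit 4) (nat_lit 410) (nat_lit 315) (nat_lit 295))) (XT.nd (nat_lit 78) (nat_lit 0) (nat_lit 0) (XT.lf (nat_lit 0) (nat_lit 99734983895) (nat_lit 76) (nat_lit 43865784965) (nat_lit 76) (nat_lit 41983182265) (nat_lit 3) (nat_lit 4) (nat_lit 4) (nat_lit 5) (nat_lit 4) (nat_lit 4) (nat_lit 411) (nat_lit 315) (nat_lit 294)) (XT.lf (nat_lit 0) (nat_lit 119199380199) (nat_lit 76) (nat_lit 41430902343) (nat_lit 76) (nat_lit 39513729043) (nat_lit 3) (nat_lit 4) (nat_lit 4) (nat_lit 5) (nat_lit 4) (nat_lit 4) (nat_lit 412) (nat_lit 315) (nat_lit 293))))) (XT.nd (nat_lit 234) (nat_lit 0) (nat_lit 0) (XT.nd (nat_lit 78) (nat_lit 0) (nat_lit 0) (XT.lf (nat_lit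 0) (nat_lit 139985496385) (nat_lit 76) (nat_lit 38919219741) (nat_lit 76) (nat_lit 36970036626) (nat_lit 3) (nat_lit 4) (nat_lit 4) (nat_lit 5) (nat_lit 4) (nat_lit 4) (nat_lit 413) (nat_lit 315) (nat_lit 292)) (XT.nd (nat_lit 78) (nat_lit 0) (nat_lit 0) (XT.lf (nat_lit 0) (nat_lit 162216509436) (nat_lit 76) (nat_lit 36315853113) (nat_lit 76) (nat_lit 34337031280) (nat_lit 3) (nat_lit 4) (nat_lit 4) (nat_lit 5) (nat_lit 4) (nat_lit 4) (nat_lit 414) (nat_lit 315) (nat_lit 291)) (XT.lf (nat_lit 0) (nat_lit 186024158690) (nat_lit 76) (nat_lit 33605375101) (nat_lit 76) (nat_lit 31599110012) (nat_lit 3) (nat_lit 4) (nat_lit 4) (nat_lit 5) (nat_lit 4) (nat_lit 4) (nat_lit 415) (nat_lit 315) (nat_lit 290)))) (XT.nd (nat_lit 156) (nat_lit 0) (nat_lit 0) (XT.nd (nat_lit 78) (nat_lit 0) (nat_lit 0) (XT.lf (nat_lit 0) (nat_lit 211549526512) (nat_lit 76) (nat_lit 30771723614) (nat_lit 76) (nat_lit 28740048102)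 (nat_lit 3) (nat_lit 4) (nat_lit 4) (nat_lit 5) (nat_lit 4) (nat_lit 4) (nat_lit 416) (nat_lit 315) (nat_lit 289)) (XT.lf (nat_lit 0) (nat_lit 238943874341) (nat_lit 76) (nat_lit 27798106643) (nat_lit 76) (nat_lit 25742902961) (nat_lit 3) (nat_lit 4) (nat_lit 4) (nat_lit 5) (nat_lit 4) (nat_lit 4) (nat_lit 417) (nat_lit 315) (nat_lit 288))) (XT.nd (nat_lit 78) (nat_lit 0) (nat_lit 0) (XT.lf (nat_lit 0) (nat_lit 268369539054) (nat_lit 76) (nat_lit 24666902754) (nat_lit 76) (nat_lit 22589913730) (nat_lit 3) (nat_lit 4) (nat_lit 4) (nat_lit 5) (nat_lit 4) (nat_lit 4) (nat_lit 418) (nat_lit 315) (nat_lit 287)) (XT.lf (nat_lit 0) (nat_lit 300000894960) (nat_lit 76) (nat_lit 21359556664) (nat_lit 76) (nat_lit 19262396027) (nat_lit 3) (nat_lit 4) (nat_lit 4) (nat_lit 5) (nat_lit 4) (nat_lit 4) (nat_lit 419) (nat_lit 315) (nat_lit 286))))))))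
noncomputable def xc12 : XT := (XT.nd (nat_lit 51090) (nat_lit 0) (nat_lit 152) (XT.nd (nat_lit 1014) (nat_lit 0) (nat_lit 0) (XT.nd (nat_lit 468) (nat_lit 0) (nat_lit 0) (XT.nd (nat_lit 234) (nat_lit 152) (nat_lit 0) (XT.nd (nat_lit 78) (nat_lit 0) (nat_lit 0) (XT.lf (nat_lit 0) (nat_lit 334025387130) (nat_lit 76) (nat_lit 17856469286) (nat_lit 76) (nat_lit 15740631230) (nat_lit 3) (nat_lit 4) (nat_lit 4) (nat_lit 5) (nat_lit 4) (nat_lit 4) (nat_lit 420) (nat_lit 315) (nat_lit 285)) (XT.nd (nat_lit 78) (nat_lit 0) (nat_lit 0) (XT.lf (nat_lit 0) (nat_lit 370644642186) (nat_lit 76) (nat_lit 14136881584) (nat_lit 76) (nat_lit 12003749620) (nat_lit 3) (nat_lit 4) (nat_lit 4) (nat_lit 5) (nat_lit 4) (nat_lit 4) (nat_lit 421) (nat_lit 315) (nat_lit 284)) (XT.lf (nat_lit 0) (nat_lit 410075663119) (nat_lit 76) (nat_lit 10178751556) (nat_lit 76) (nat_lit 8029606715) (nat_lit 3) (nat_lit 4) (nat_lit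 4) (nat_lit 5) (nat_lit 4) (nat_lit 4) (nat_lit 422) (nat_lit 315) (nat_lit 283)))) (XT.nd (nat_lit 78) (nat_lit 152) (nat_lit 0) (XT.lf (nat_lit 0) (nat_lit 452552115240) (nat_lit 76) (nat_lit 5958623616) (nat_lit 76) (nat_lit 3794652038) (nat_lit 3) (nat_lit 4) (nat_lit 4) (nat_lit 5) (nat_lit 4) (nat_lit 4) (nat_lit 423) (nat_lit 315) (nat_lit 282)) (XT.nd (nat_lit 78) (nat_lit 76) (nat_lit 0) (XT.lf (nat_lit 0) (nat_lit 702967169) (nat_lit 152) (nat_lit 736617341) (nat_lit 76) (nat_lit 497610838598) (nat_lit 2) (nat_lit 5) (nat_lit 4) (nat_lit 5) (nat_lit 3) (nat_lit 4) (nat_lit 424) (nat_lit 315) (nat_lit 281)) (XT.lf (nat_lit 0) (nat_lit 5580807949) (nat_lit 152) (nat_lit 529648771427) (nat_lit 0) (nat_lit 3494701685) (nat_lit 1) (nat_lit 5) (nat_lit 3) (nat_lit 4) (nat_lit 1) (nat_lit 4) (nat_lit 425) (nat_lit 315) (nat_lit 280))))) (XT.nd (nat_lit 234) (nat_lit 0) (nat_lit 0) (XT.nd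 (nat_lit 78) (nat_lit 0) (nat_lit 0) (XT.lf (nat_lit 0) (nat_lit 10840167688) (nat_lit 152) (nat_lit 561989464757) (nat_lit 0) (nat_lit 8742851955) (nat_lit 1) (nat_lit 5) (nat_lit 3) (nat_lit 4) (nat_lit 1) (nat_lit 4) (nat_lit 426) (nat_lit 315) (nat_lit 279)) (XT.nd (nat_lit 78) (nat_lit 0) (nat_lit 0) (XT.lf (nat_lit 0) (nat_lit 16477661318) (nat_lit 152) (nat_lit 597003048219) (nat_lit 0) (nat_lit 14369966447) (nat_lit 1) (nat_lit 5) (nat_lit 3) (nat_lit 4) (nat_lit 1) (nat_lit 4) (nat_lit 427) (nat_lit 315) (nat_lit 278)) (XT.lf (nat_lit 0) (nat_lit 22526696210) (nat_lit 152) (nat_lit 634897009714) (nat_lit 0) (nat_lit 20409391027) (nat_lit 1) (nat_lit 5) (nat_lit 3) (nat_lit 4) (nat_lit 1) (nat_lit 4) (nat_lit 428) (nat_lit 315) (nat_lit 277)))) (XT.nd (nat_lit 156) (nat_lit 0) (nat_lit 0) (XT.nd (nat_lit 78) (nat_lit 0) (nat_lit 0) (XT.lf (nat_lit 0) (nat_lit 29023118497) (nat_lit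 152) (nat_lit 675895906051) (nat_lit 0) (nat_lit 26896914875) (nat_lit 1) (nat_lit 5) (nat_lit 3) (nat_lit 4) (nat_lit 1) (nat_lit 4) (nat_lit 429) (nat_lit 315) (nat_lit 276)) (XT.lf (nat_lit 0) (nat_lit 36005425496) (nat_lit 152) (nat_lit 720242693652) (nat_lit 0) (nat_lit 33870982579) (nat_lit 1) (nat_lit 5) (nat_lit 3) (nat_lit 4) (nat_lit 1) (nat_lit 4) (nat_lit 430) (nat_lit 315) (nat_lit 275))) (XT.nd (nat_lit 78) (nat_lit 0) (nat_lit 0) (XT.lf (nat_lit 0) (nat_lit 43514993840) (nat_lit 152) (nat_lit 768200168297) (nat_lit 0) (nat_lit 41372921947) (nat_lit 1) (nat_lit 5) (nat_lit 3) (nat_lit 4) (nat_lit 1) (nat_lit 4) (nat_lit 431) (nat_lit 315) (nat_lit 274)) (XT.lf (nat_lit 0) (nat_lit 51596324675) (nat_lit 152) (nat_lit 820052522427) (nat_lit 0) (nat_lit 49447188916) (nat_lit 1) (nat_lit 5) (nat_lit 3) (nat_lit 4) (nat_lit 1) (nat_lit 4) (nat_lit 432) (nat_lit 315) (nat_lit 273))))))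 (XT.nd (nat_lit 468) (nat_lit 0) (nat_lit 0) (XT.nd (nat_lit 234) (nat_lit 0) (nat_lit 0) (XT.nd (nat_lit 78) (nat_lit 0) (nat_lit 0) (XT.lf (nat_lit 0) (nat_lit 60297307370) (nat_lit 152) (nat_lit 876107029252) (nat_lit 0) (nat_lit 58141630994) (nat_lit 1) (nat_lit 5) (nat_lit 3) (nat_lit 4) (nat_lit 1) (nat_lit 4) (nat_lit 433) (nat_lit 315) (nat_lit 272)) (XT.nd (nat_lit 78) (nat_lit 0) (nat_lit 0) (XT.lf (nat_lit 0) (nat_lit 69669503304) (nat_lit 152) (nat_lit 936695863627) (nat_lit 0) (nat_lit 67507770800) (nat_lit 1) (nat_lit 5) (nat_lit 3) (nat_lit 4) (nat_lit 1) (nat_lit 4) (nat_lit 434) (nat_lit 315) (nat_lit 271)) (XT.lf (nat_lit 0) (nat_lit 79768451415) (nat_lit 152) (nat_lit 1002178070498) (nat_lit 0) (nat_lit 77601111385) (nat_lit 1) (nat_lit 5) (nat_lit 3) (nat_lit 4) (nat_lit 1) (nat_lit 4) (nat_lit 435) (nat_lit 315) (nat_lit 270)))) (XT.nd (nat_lit 78) (nat_lit 0) (nat_lit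 0) (XT.lf (nat_lit 0) (nat_lit 90653997321) (nat_lit 152) (nat_lit 1072941692570) (nat_lit 0) (nat_lit 88481465138) (nat_lit 1) (nat_lit 5) (nat_lit 3) (nat_lit 4) (nat_lit 1) (nat_lit 4) (nat_lit 436) (nat_lit 315) (nat_lit 269)) (XT.nd (nat_lit 78) (nat_lit 0) (nat_lit 0) (XT.lf (nat_lit 0) (nat_lit 102390647961) (nat_lit 152) (nat_lit 1149406069827) (nat_lit 0) (nat_lit 100213308230) (nat_lit 1) (nat_lit 5) (nat_lit 3) (nat_lit 4) (nat_lit 1) (nat_lit 4) (nat_lit 437) (nat_lit 315) (nat_lit 268)) (XT.lf (nat_lit 0) (nat_lit 115047953859) (nat_lit 152) (nat_lit 1232024324505) (nat_lit 0) (nat_lit 112866162693) (nat_lit 1) (nat_lit 5) (nat_lit 3) (nat_lit 4) (nat_lit 1) (nat_lit 4) (nat_lit 438) (nat_lit 315) (nat_lit 267))))) (XT.nd (nat_lit 49296) (nat_lit 0) (nat_lit 456) (XT.nd (nat_lit 49140) (nat_lit 0) (nat_lit 684) (XT.lf (nat_lit 0) (nat_lit 128700921270) (nat_lit 152) (nat_lit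 1321286046261) (nat_lit 0) (nat_lit 126515008405) (nat_lit 1) (nat_lit 5) (nat_lit 3) (nat_lit 4) (nat_lit 1) (nat_lit 4) (nat_lit 439) (nat_lit 315) (nat_lit 266)) (XT.nd (nat_lit 78) (nat_lit 0) (nat_lit 0) (XT.lf (nat_lit 0) (nat_lit 2190112711) (nat_lit 152) (nat_lit 13668882449) (nat_lit 0) (nat_lit 2190112711) (nat_lit 10) (nat_lit 5) (nat_lit 12) (nat_lit 4) (nat_lit 10) (nat_lit 4) (nat_lit 388) (nat_lit 316) (nat_lit 316)) (XT.lf (nat_lit 0) (nat_lit 14996504469) (nat_lit 152) (nat_lit 8675322336) (nat_lit 0) (nat_lit 14789295698) (nat_lit 10) (nat_lit 5) (nat_lit 12) (nat_lit 4) (nat_lit 10) (nat_lit 4) (nat_lit 389) (nat_lit 316) (nat_lit 315)))) (XT.nd (nat_lit 156) (nat_lit 152) (nat_lit 0) (XT.nd (nat_lit 78) (nat_lit 0) (nat_lit 0) (XT.lf (nat_lit 0) (nat_lit 10809517501) (nat_lit 76) (nat_lit 15309885020) (nat_lit 76) (nat_lit 14910816274) (nat_lit 9) (nat_lit 4) (nat_lit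 10) (nat_lit 5) (nat_lit 10) (nat_lit 4) (nat_lit 390) (nat_lit 316) (nat_lit 314)) (XT.lf (nat_lit 0) (nat_lit 31190546192) (nat_lit 76) (nat_lit 6603958007) (nat_lit 76) (nat_lit 6027241138) (nat_lit 9) (nat_lit 4) (nat_lit 10) (nat_lit 5) (nat_lit 10) (nat_lit 4) (nat_lit 391) (nat_lit 316) (nat_lit 313))) (XT.nd (nat_lit 78) (nat_lit 0) (nat_lit 0) (XT.lf (nat_lit 0) (nat_lit 3118792522) (nat_lit 152) (nat_lit 41318856422) (nat_lit 0) (nat_lit 2412882167) (nat_lit 7) (nat_lit 5) (nat_lit 9) (nat_lit 4) (nat_lit 7) (nat_lit 4) (nat_lit 392) (nat_lit 316) (nat_lit 312)) (XT.lf (nat_lit 0) (nat_lit 12676763350) (nat_lit 152) (nat_lit 25619561347) (nat_lit 0) (nat_lit 11825800964) (nat_lit 7) (nat_lit 5) (nat_lit 9) (nat_lit 4) (nat_lit 7) (nat_lit 4) (nat_lit 393) (nat_lit 316) (nat_lit 311))))))) (XT.nd (nat_lit 1014) (nat_lit 0) (nat_lit 0) (XT.nd (nat_lit 468) (nat_lit 76) (nat_lit 0)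 (XT.nd (nat_lit 234) (nat_lit 152) (nat_lit 0) (XT.nd (nat_lit 78) (nat_lit 76) (nat_lit 0) (XT.lf (nat_lit 0) (nat_lit 22586045400) (nat_lit 152) (nat_lit 9489309101) (nat_lit 0) (nat_lit 21600775577) (nat_lit 7) (nat_lit 5) (nat_lit 9) (nat_lit 4) (nat_lit 7) (nat_lit 4) (nat_lit 394) (nat_lit 316) (nat_lit 310)) (XT.nd (nat_lit 78) (nat_lit 0) (nat_lit 0) (XT.lf (nat_lit 0) (nat_lit 7404476485) (nat_lit 76) (nat_lit 25616488485) (nat_lit 76) (nat_lit 24506859925) (nat_lit 6) (nat_lit 4) (nat_lit 7) (nat_lit 5) (nat_lit 7) (nat_lit 4) (nat_lit 395) (nat_lit 316) (nat_lit 309)) (XT.lf (nat_lit 0) (nat_lit 25257945892) (nat_lit 76) (nat_lit 18832261100) (nat_lit 76) (nat_lit 17607485561) (nat_lit 6) (nat_lit 4) (nat_lit 7) (nat_lit 5) (nat_lit 7) (nat_lit 4) (nat_lit 396) (nat_lit 316) (nat_lit 308)))) (XT.nd (nat_lit 78) (nat_lit 152) (nat_lit 0) (XT.lf (nat_lit 0) (nat_lit 43863138042)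 (nat_lit 76) (nat_lit 11843175559) (nat_lit 76) (nat_lit 10511782447) (nat_lit 6) (nat_lit 4) (nat_lit 7) (nat_lit 5) (nat_lit 7) (nat_lit 4) (nat_lit 397) (nat_lit 316) (nat_lit 307)) (XT.nd (nat_lit 78) (nat_lit 152) (nat_lit 0) (XT.lf (nat_lit 0) (nat_lit 63330305925) (nat_lit 76) (nat_lit 4607815059) (nat_lit 76) (nat_lit 3177701972) (nat_lit 6) (nat_lit 4) (nat_lit 7) (nat_lit 5) (nat_lit 7) (nat_lit 4) (nat_lit 398) (nat_lit 316) (nat_lit 306)) (XT.lf (nat_lit 0) (nat_lit 4462276581) (nat_lit 152) (nat_lit 68932640639) (nat_lit 0) (nat_lit 3013209465) (nat_lit 4) (nat_lit 5) (nat_lit 6) (nat_lit 4) (nat_lit 4) (nat_lit 4) (nat_lit 399) (nat_lit 316) (nat_lit 305))))) (XT.nd (nat_lit 234) (nat_lit 76) (nat_lit 0) (XT.nd (nat_lit 78) (nat_lit 0) (nat_lit 0) (XT.lf (nat_lit 0) (nat_lit 12532667986) (nat_lit 152) (nat_lit 58589029644) (nat_lit 0) (nat_lit 11002994711) (nat_lit 4) (nat_lit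 5) (nat_lit 6) (nat_lit 4) (nat_lit 4) (nat_lit 4) (nat_lit 400) (nat_lit 316) (nat_lit 304)) (XT.nd (nat_lit 78) (nat_lit 0) (nat_lit 0) (XT.lf (nat_lit 0) (nat_lit 20983430759) (nat_lit 152) (nat_lit 47949302217) (nat_lit 0) (nat_lit 19379122151) (nat_lit 4) (nat_lit 5) (nat_lit 6) (nat_lit 4) (nat_lit 4) (nat_lit 4) (nat_lit 401) (nat_lit 316) (nat_lit 303)) (XT.lf (nat_lit 0) (nat_lit 29864643494) (nat_lit 152) (nat_lit 36950408121) (nat_lit 0) (nat_lit 28191228096) (nat_lit 4) (nat_lit 5) (nat_lit 6) (nat_lit 4) (nat_lit 4) (nat_lit 4) (nat_lit 402) (nat_lit 316) (nat_lit 302)))) (XT.nd (nat_lit 156) (nat_lit 76) (nat_lit 0) (XT.nd (nat_lit 78) (nat_lit 0) (nat_lit 0) (XT.lf (nat_lit 0) (nat_lit 39228935599) (nat_lit 152) (nat_lit 25527168725) (nat_lit 0) (nat_lit 37491532434) (nat_lit 4) (nat_lit 5) (nat_lit 6) (nat_lit 4) (nat_lit 4) (nat_lit 4) (nat_lit 403) (nat_lit 316) (nat_lit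 301)) (XT.lf (nat_lit 0) (nat_lit 49131799176) (nat_lit 152) (nat_lit 13611890758) (nat_lit 0) (nat_lit 47335148077) (nat_lit 4) (nat_lit 5) (nat_lit 6) (nat_lit 4) (nat_lit 4) (nat_lit 4) (nat_lit 404) (nat_lit 316) (nat_lit 300))) (XT.nd (nat_lit 78) (nat_lit 76) (nat_lit 0) (XT.lf (nat_lit 0) (nat_lit 59631917861) (nat_lit 152) (nat_lit 1133965166) (nat_lit 0) (nat_lit 57780407565) (nat_lit 4) (nat_lit 5) (nat_lit 6) (nat_lit 4) (nat_lit 4) (nat_lit 4) (nat_lit 405) (nat_lit 316) (nat_lit 299)) (XT.lf (nat_lit 0) (nat_lit 12376682446) (nat_lit 76) (nat_lit 58608066832) (nat_lit 76) (nat_lit 56705760983) (nat_lit 3) (nat_lit 4) (nat_lit 4) (nat_lit 5) (nat_lit 4) (nat_lit 4) (nat_lit 406) (nat_lit 316) (nat_lit 298)))))) (XT.nd (nat_lit 468) (nat_lit 0) (nat_lit 0) (XT.nd (nat_lit 234) (nat_lit 0) (nat_lit 0) (XT.nd (nat_lit 78) (nat_lit 0) (nat_lit 0) (XT.lf (nat_lit 0) (nat_lit 26662748810)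 (nat_lit 76) (nat_lit 56430251696) (nat_lit 76) (nat_lit 54480912927) (nat_lit 3) (nat_lit 4) (nat_lit 4) (nat_lit 5) (nat_lit 4) (nat_lit 4) (nat_lit 407) (nat_lit 316) (nat_lit 297)) (XT.nd (nat_lit 78) (nat_lit 0) (nat_lit 0) (XT.lf (nat_lit 0) (nat_lit 41771398087) (nat_lit 76) (nat_lit 54238736298) (nat_lit 76) (nat_lit 52245848529) (nat_lit 3) (nat_lit 4) (nat_lit 4) (nat_lit 5) (nat_lit 4) (nat_lit 4) (nat_lit 408) (nat_lit 316) (nat_lit 296)) (XT.lf (nat_lit 0) (nat_lit 57792163012) (nat_lit 76) (nat_lit 52020533879) (nat_lit 76) (nat_lit 49987322963) (nat_lit 3) (nat_lit 4) (nat_lit 4) (nat_lit 5) (nat_lit 4) (nat_lit 4) (nat_lit 409) (nat_lit 316) (nat_lit 295)))) (XT.nd (nat_lit 78) (nat_lit 0) (nat_lit 0) (XT.lf (nat_lit 0) (nat_lit 74819981454) (nat_lit 76) (nat_lit 49762499537) (nat_lit 76) (nat_lit 47691952373) (nat_lit 3) (nat_lit 4) (nat_lit 4) (nat_lit 5) (nat_lit 4) (nat_lit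 4) (nat_lit 410) (nat_lit 316) (nat_lit 294)) (XT.nd (nat_lit 78) (nat_lit 0) (nat_lit 0) (XT.lf (nat_lit 0) (nat_lit 92955759001) (nat_lit 76) (nat_lit 47451252327) (nat_lit 76) (nat_lit 45346134562) (nat_lit 3) (nat_lit 4) (nat_lit 4) (nat_lit 5) (nat_lit 4) (nat_lit 4) (nat_lit 411) (nat_lit 316) (nat_lit 293)) (XT.lf (nat_lit 0) (nat_lit 112306966929) (nat_lit 76) (nat_lit 45073095969) (nat_lit 76) (nat_lit 42935968390) (nat_lit 3) (nat_lit 4) (nat_lit 4) (nat_lit 5) (nat_lit 4) (nat_lit 4) (nat_lit 412) (nat_lit 316) (nat_lit 292))))) (XT.nd (nat_lit 234) (nat_lit 0) (nat_lit 0) (XT.nd (nat_lit 78) (nat_lit 0) (nat_lit 0) (XT.lf (nat_lit 0) (nat_lit 132988279062) (nat_lit 76) (nat_lit 42613937685) (nat_lit 76) (nat_lit 40447171388) (nat_lit 3) (nat_lit 4) (nat_lit 4) (nat_lit 5) (nat_lit 4) (nat_lit 4) (nat_lit 413) (nat_lit 316) (nat_lit 291)) (XT.nd (nat_lit 78) (nat_lit 0) (nat_lit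 0) (XT.lf (nat_lit 0) (nat_lit 155122251324) (nat_lit 76) (nat_lit 40059204685) (nat_lit 76) (nat_lit 37864995131) (nat_lit 3) (nat_lit 4) (nat_lit 4) (nat_lit 5) (nat_lit 4) (nat_lit 4) (nat_lit 414) (nat_lit 316) (nat_lit 290)) (XT.lf (nat_lit 0) (nat_lit 178840047995) (nat_lit 76) (nat_lit 37393757811) (nat_lit 76) (nat_lit 35174137834) (nat_lit 3) (nat_lit 4) (nat_lit 4) (nat_lit 5) (nat_lit 4) (nat_lit 4) (nat_lit 415) (nat_lit 316) (nat_lit 289)))) (XT.nd (nat_lit 156) (nat_lit 0) (nat_lit 0) (XT.nd (nat_lit 78) (nat_lit 0) (nat_lit 0) (XT.lf (nat_lit 0) (nat_lit 204282218981) (nat_lit 76) (nat_lit 34601801821) (nat_lit 76) (nat_lit 32358653675) (nat_lit 3) (nat_lit 4) (nat_lit 4) (nat_lit 5) (nat_lit 4) (nat_lit 4) (nat_lit 416) (nat_lit 316) (nat_lit 288)) (XT.lf (nat_lit 0) (nat_lit 231599532703) (nat_lit 76) (nat_lit 31666791792) (nat_lit 76) (nat_lit 29401858304) (nat_lit 3) (nat_lit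 4) (nat_lit 4) (nat_lit 5) (nat_lit 4) (nat_lit 4) (nat_lit 417) (nat_lit 316) (nat_lit 287))) (XT.nd (nat_lit 78) (nat_lit 0) (nat_lit 0) (XT.lf (nat_lit 0) (nat_lit 260953869539) (nat_lit 76) (nat_lit 28571335072) (nat_lit 76) (nat_lit 26286229970) (nat_lit 3) (nat_lit 4) (nat_lit 4) (nat_lit 5) (nat_lit 4) (nat_lit 4) (nat_lit 418) (nat_lit 316) (nat_lit 286)) (XT.lf (nat_lit 0) (nat_lit 292519181114) (nat_lit 76) (nat_lit 25297088212) (nat_lit 76) (nat_lit 22993305692) (nat_lit 3) (nat_lit 4) (nat_lit 4) (nat_lit 5) (nat_lit 4) (nat_lit 4) (nat_lit 419) (nat_lit 316) (nat_lit 285))))))))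
noncomputable def xc13 : XT := (XT.nd (nat_lit 51012) (nat_lit 0) (nat_lit 152) (XT.nd (nat_lit 1014) (nat_lit 0) (nat_lit 0) (XT.nd (nat_lit 468) (nat_lit 0) (nat_lit 0) (XT.nd (nat_lit 234) (nat_lit 152) (nat_lit 0) (XT.nd (nat_lit 78) (nat_lit 0) (nat_lit 0) (XT.lf (nat_lit 0) (nat_lit 326482521127) (nat_lit 76) (nat_lit 21824648270) (nat_lit 76) (nat_lit 19503571842) (nat_lit 3) (nat_lit 4) (nat_lit 4) (nat_lit 5) (nat_lit 4) (nat_lit 4) (nat_lit 420) (nat_lit 316) (nat_lit 284)) (XT.nd (nat_lit 78) (nat_lit 0) (nat_lit 0) (XT.lf (nat_lit 0) (nat_lit 363045153814) (nat_lit 76) (nat_lit 18133437822) (nat_lit 76) (nat_lit 15796348518) (nat_lit 3) (nat_lit 4) (nat_lit 4) (nat_lit 5) (nat_lit 4) (nat_lit 4) (nat_lit 421) (nat_lit 316) (nat_lit 283)) (XT.lf (nat_lit 0) (nat_lit 402423746628) (nat_lit 76) (nat_lit 14201583030) (nat_lit 76) (nat_lit 11849666988) (nat_lit 3) (nat_lit 4) (nat_lit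 4) (nat_lit 5) (nat_lit 4) (nat_lit 4) (nat_lit 422) (nat_lit 316) (nat_lit 282)))) (XT.nd (nat_lit 78) (nat_lit 152) (nat_lit 0) (XT.lf (nat_lit 0) (nat_lit 444851654194) (nat_lit 76) (nat_lit 10005784013) (nat_lit 76) (nat_lit 7640139509) (nat_lit 3) (nat_lit 4) (nat_lit 4) (nat_lit 5) (nat_lit 4) (nat_lit 4) (nat_lit 423) (nat_lit 316) (nat_lit 281)) (XT.nd (nat_lit 78) (nat_lit 152) (nat_lit 0) (XT.lf (nat_lit 0) (nat_lit 490580301150) (nat_lit 76) (nat_lit 5521176776) (nat_lit 76) (nat_lit 3142820735) (nat_lit 3) (nat_lit 4) (nat_lit 4) (nat_lit 5) (nat_lit 4) (nat_lit 4) (nat_lit 424) (nat_lit 316) (nat_lit 280)) (XT.lf (nat_lit 0) (nat_lit 952172888) (nat_lit 76) (nat_lit 678216805) (nat_lit 152) (nat_lit 537300481987) (nat_lit 1) (nat_lit 5) (nat_lit 2) (nat_lit 5) (nat_lit 3) (nat_lit 4) (nat_lit 425) (nat_lit 316) (nat_lit 279))))) (XT.nd (nat_lit 234) (nat_lit 0) (nat_lit 0) (XT.nd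 (nat_lit 78) (nat_lit 0) (nat_lit 0) (XT.lf (nat_lit 0) (nat_lit 6858672640) (nat_lit 152) (nat_lit 570349973769) (nat_lit 0) (nat_lit 4571983042) (nat_lit 1) (nat_lit 5) (nat_lit 3) (nat_lit 4) (nat_lit 1) (nat_lit 4) (nat_lit 426) (nat_lit 316) (nat_lit 278)) (XT.nd (nat_lit 78) (nat_lit 0) (nat_lit 0) (XT.lf (nat_lit 0) (nat_lit 12477195968) (nat_lit 152) (nat_lit 605401678075) (nat_lit 0) (nat_lit 10180896057) (nat_lit 1) (nat_lit 5) (nat_lit 3) (nat_lit 4) (nat_lit 1) (nat_lit 4) (nat_lit 427) (nat_lit 316) (nat_lit 277)) (XT.lf (nat_lit 0) (nat_lit 18508665766) (nat_lit 152) (nat_lit 643330936648) (nat_lit 0) (nat_lit 16203467417) (nat_lit 1) (nat_lit 5) (nat_lit 3) (nat_lit 4) (nat_lit 1) (nat_lit 4) (nat_lit 428) (nat_lit 316) (nat_lit 276)))) (XT.nd (nat_lit 156) (nat_lit 0) (nat_lit 0) (XT.nd (nat_lit 78) (nat_lit 0) (nat_lit 0) (XT.lf (nat_lit 0) (nat_lit 24988824076) (nat_lit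 152) (nat_lit 684362515465) (nat_lit 0) (nat_lit 22675386432) (nat_lit 1) (nat_lit 5) (nat_lit 3) (nat_lit 4) (nat_lit 1) (nat_lit 4) (nat_lit 429) (nat_lit 316) (nat_lit 275)) (XT.lf (nat_lit 0) (nat_lit 31956071837) (nat_lit 152) (nat_lit 728739564621) (nat_lit 0) (nat_lit 29635005217) (nat_lit 1) (nat_lit 5) (nat_lit 3) (nat_lit 4) (nat_lit 1) (nat_lit 4) (nat_lit 430) (nat_lit 316) (nat_lit 274))) (XT.nd (nat_lit 78) (nat_lit 0) (nat_lit 0) (XT.lf (nat_lit 0) (nat_lit 39451696443) (nat_lit 152) (nat_lit 776725059225) (nat_lit 0) (nat_lit 37123565956) (nat_lit 1) (nat_lit 5) (nat_lit 3) (nat_lit 4) (nat_lit 1) (nat_lit 4) (nat_lit 431) (nat_lit 316) (nat_lit 273)) (XT.lf (nat_lit 0) (nat_lit 47520116409) (nat_lit 152) (nat_lit 828603357761) (nat_lit 0) (nat_lit 45185445305) (nat_lit 1) (nat_lit 5) (nat_lit 3) (nat_lit 4) (nat_lit 1) (nat_lit 4) (nat_lit 432) (nat_lit 316) (nat_lit 272))))))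 (XT.nd (nat_lit 49452) (nat_lit 0) (nat_lit 456) (XT.nd (nat_lit 234) (nat_lit 0) (nat_lit 0) (XT.nd (nat_lit 78) (nat_lit 0) (nat_lit 0) (XT.lf (nat_lit 0) (nat_lit 56209144596) (nat_lit 152) (nat_lit 884681887184) (nat_lit 0) (nat_lit 53868417364) (nat_lit 1) (nat_lit 5) (nat_lit 3) (nat_lit 4) (nat_lit 1) (nat_lit 4) (nat_lit 433) (nat_lit 316) (nat_lit 271)) (XT.nd (nat_lit 78) (nat_lit 0) (nat_lit 0) (XT.lf (nat_lit 0) (nat_lit 65570271540) (nat_lit 152) (nat_lit 945292964706) (nat_lit 0) (nat_lit 63223936783) (nat_lit 1) (nat_lit 5) (nat_lit 3) (nat_lit 4) (nat_lit 1) (nat_lit 4) (nat_lit 434) (nat_lit 316) (nat_lit 270)) (XT.lf (nat_lit 0) (nat_lit 75658970587) (nat_lit 152) (nat_lit 1010795767082) (nat_lit 0) (nat_lit 73307443677) (nat_lit 1) (nat_lit 5) (nat_lit 3) (nat_lit 4) (nat_lit 1) (nat_lit 4) (nat_lit 435) (nat_lit 316) (nat_lit 269)))) (XT.nd (nat_lit 78) (nat_lit 0) (nat_lit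 0) (XT.lf (nat_lit 0) (nat_lit 86535026619) (nat_lit 152) (nat_lit 1081578459068) (nat_lit 0) (nat_lit 84178692160) (nat_lit 1) (nat_lit 5) (nat_lit 3) (nat_lit 4) (nat_lit 1) (nat_lit 4) (nat_lit 436) (nat_lit 316) (nat_lit 268)) (XT.nd (nat_lit 78) (nat_lit 0) (nat_lit 0) (XT.lf (nat_lit 0) (nat_lit 98262890339) (nat_lit 152) (nat_lit 1158060493652) (nat_lit 0) (nat_lit 95902104446) (nat_lit 1) (nat_lit 5) (nat_lit 3) (nat_lit 4) (nat_lit 1) (nat_lit 4) (nat_lit 437) (nat_lit 316) (nat_lit 267)) (XT.lf (nat_lit 0) (nat_lit 110912060199) (nat_lit 152) (nat_lit 1240695097707) (nat_lit 0) (nat_lit 108547152607) (nat_lit 1) (nat_lit 5) (nat_lit 3) (nat_lit 4) (nat_lit 1) (nat_lit 4) (nat_lit 438) (nat_lit 316) (nat_lit 266))))) (XT.nd (nat_lit 234) (nat_lit 228) (nat_lit 0) (XT.nd (nat_lit 78) (nat_lit 152) (nat_lit 0) (XT.lf (nat_lit 0) (nat_lit 622088340) (nat_lit 76) (nat_lit 7663469893)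 (nat_lit 76) (nat_lit 7663469893) (nat_lit 12) (nat_lit 4) (nat_lit 13) (nat_lit 5) (nat_lit 13) (nat_lit 4) (nat_lit 386) (nat_lit 317) (nat_lit 317)) (XT.nd (nat_lit 78) (nat_lit 152) (nat_lit 0) (XT.lf (nat_lit 0) (nat_lit 22407759718) (nat_lit 76) (nat_lit 5872365140) (nat_lit 76) (nat_lit 5637390393) (nat_lit 12) (nat_lit 4) (nat_lit 13) (nat_lit 5) (nat_lit 13) (nat_lit 4) (nat_lit 387) (nat_lit 317) (nat_lit 316)) (XT.lf (nat_lit 0) (nat_lit 4338450226) (nat_lit 152) (nat_lit 27865599424) (nat_lit 0) (nat_lit 3907455981) (nat_lit 10) (nat_lit 5) (nat_lit 12) (nat_lit 4) (nat_lit 10) (nat_lit 4) (nat_lit 388) (nat_lit 317) (nat_lit 315)))) (XT.nd (nat_lit 156) (nat_lit 152) (nat_lit 0) (XT.nd (nat_lit 78) (nat_lit 76) (nat_lit 0) (XT.lf (nat_lit 0) (nat_lit 14708839762) (nat_lit 152) (nat_lit 9691892533) (nat_lit 0) (nat_lit 14085985544) (nat_lit 10) (nat_lit 5) (nat_lit 12) (nat_lit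 4) (nat_lit 10) (nat_lit 4) (nat_lit 389) (nat_lit 317) (nat_lit 314)) (XT.lf (nat_lit 0) (nat_lit 9291839087) (nat_lit 76) (nat_lit 16288528041) (nat_lit 76) (nat_lit 15488025699) (nat_lit 9) (nat_lit 4) (nat_lit 10) (nat_lit 5) (nat_lit 10) (nat_lit 4) (nat_lit 390) (nat_lit 317) (nat_lit 313))) (XT.nd (nat_lit 78) (nat_lit 152) (nat_lit 0) (XT.lf (nat_lit 0) (nat_lit 29240001283) (nat_lit 76) (nat_lit 7797898643) (nat_lit 76) (nat_lit 6832907297) (nat_lit 9) (nat_lit 4) (nat_lit 10) (nat_lit 5) (nat_lit 10) (nat_lit 4) (nat_lit 391) (nat_lit 317) (nat_lit 312)) (XT.lf (nat_lit 0) (nat_lit 2072879705) (nat_lit 152) (nat_lit 43831863877) (nat_lit 0) (nat_lit 1008788297) (nat_lit 7) (nat_lit 5) (nat_lit 9) (nat_lit 4) (nat_lit 7) (nat_lit 4) (nat_lit 392) (nat_lit 317) (nat_lit 311))))))) (XT.nd (nat_lit 1014) (nat_lit 76) (nat_lit 0) (XT.nd (nat_lit 468) (nat_lit 152) (nat_lit 0) (XT.nd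 (nat_lit 234) (nat_lit 0) (nat_lit 0) (XT.nd (nat_lit 78) (nat_lit 76) (nat_lit 0) (XT.lf (nat_lit 0) (nat_lit 11432135896) (nat_lit 152) (nat_lit 28529196896) (nat_lit 0) (nat_lit 10233737051) (nat_lit 7) (nat_lit 5) (nat_lit 9) (nat_lit 4) (nat_lit 7) (nat_lit 4) (nat_lit 393) (nat_lit 317) (nat_lit 310)) (XT.nd (nat_lit 78) (nat_lit 76) (nat_lit 0) (XT.lf (nat_lit 0) (nat_lit 21157422911) (nat_lit 152) (nat_lit 12766192884) (nat_lit 0) (nat_lit 19834665329) (nat_lit 7) (nat_lit 5) (nat_lit 9) (nat_lit 4) (nat_lit 7) (nat_lit 4) (nat_lit 394) (nat_lit 317) (nat_lit 309)) (XT.lf (nat_lit 0) (nat_lit 3667956051) (nat_lit 76) (nat_lit 27695683103) (nat_lit 76) (nat_lit 26257778541) (nat_lit 6) (nat_lit 4) (nat_lit 7) (nat_lit 5) (nat_lit 7) (nat_lit 4) (nat_lit 395) (nat_lit 317) (nat_lit 308)))) (XT.nd (nat_lit 78) (nat_lit 0) (nat_lit 0) (XT.lf (nat_lit 0) (nat_lit 21196158722) (nat_lit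 76) (nat_lit 21073898043) (nat_lit 76) (nat_lit 19529375908) (nat_lit 6) (nat_lit 4) (nat_lit 7) (nat_lit 5) (nat_lit 7) (nat_lit 4) (nat_lit 396) (nat_lit 317) (nat_lit 307)) (XT.nd (nat_lit 78) (nat_lit 0) (nat_lit 0) (XT.lf (nat_lit 0) (nat_lit 39500177969) (nat_lit 76) (nat_lit 14235222062) (nat_lit 76) (nat_lit 12591979952) (nat_lit 6) (nat_lit 4) (nat_lit 7) (nat_lit 5) (nat_lit 7) (nat_lit 4) (nat_lit 397) (nat_lit 317) (nat_lit 306)) (XT.lf (nat_lit 0) (nat_lit 58688482053) (nat_lit 76) (nat_lit 7139129672) (nat_lit 76) (nat_lit 5404480178) (nat_lit 6) (nat_lit 4) (nat_lit 7) (nat_lit 5) (nat_lit 7) (nat_lit 4) (nat_lit 398) (nat_lit 317) (nat_lit 305))))) (XT.nd (nat_lit 234) (nat_lit 0) (nat_lit 0) (XT.nd (nat_lit 78) (nat_lit 0) (nat_lit 0) (XT.lf (nat_lit 0) (nat_lit 2051515622) (nat_lit 152) (nat_lit 74168523286) (nat_lit 0) (nat_lit 318862326) (nat_lit 4) (nat_lit 5) (nat_lit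 6) (nat_lit 4) (nat_lit 4) (nat_lit 4) (nat_lit 399) (nat_lit 317) (nat_lit 304)) (XT.nd (nat_lit 78) (nat_lit 0) (nat_lit 0) (XT.lf (nat_lit 0) (nat_lit 9994378208) (nat_lit 152) (nat_lit 64080379813) (nat_lit 0) (nat_lit 8187089579) (nat_lit 4) (nat_lit 5) (nat_lit 6) (nat_lit 4) (nat_lit 4) (nat_lit 4) (nat_lit 400) (nat_lit 317) (nat_lit 303)) (XT.lf (nat_lit 0) (nat_lit 18327058740) (nat_lit 152) (nat_lit 53677196389) (nat_lit 0) (nat_lit 16450663322) (nat_lit 4) (nat_lit 5) (nat_lit 6) (nat_lit 4) (nat_lit 4) (nat_lit 4) (nat_lit 401) (nat_lit 317) (nat_lit 302)))) (XT.nd (nat_lit 156) (nat_lit 0) (nat_lit 0) (XT.nd (nat_lit 78) (nat_lit 0) (nat_lit 0) (XT.lf (nat_lit 0) (nat_lit 27098936067) (nat_lit 152) (nat_lit 42897324518) (nat_lit 0) (nat_lit 25158552881) (nat_lit 4) (nat_lit 5) (nat_lit 6) (nat_lit 4) (nat_lit 4) (nat_lit 4) (nat_lit 402) (nat_lit 317) (nat_lit 301)) (XT.lf (nat_lit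 0) (nat_lit 36361991683) (nat_lit 152) (nat_lit 31676883478) (nat_lit 0) (nat_lit 34362360564) (nat_lit 4) (nat_lit 5) (nat_lit 6) (nat_lit 4) (nat_lit 4) (nat_lit 4) (nat_lit 403) (nat_lit 317) (nat_lit 300))) (XT.nd (nat_lit 78) (nat_lit 0) (nat_lit 0) (XT.lf (nat_lit 0) (nat_lit 46171117771) (nat_lit 152) (nat_lit 19949381767) (nat_lit 0) (nat_lit 44116627454) (nat_lit 4) (nat_lit 5) (nat_lit 6) (nat_lit 4) (nat_lit 4) (nat_lit 4) (nat_lit 404) (nat_lit 317) (nat_lit 299)) (XT.lf (nat_lit 0) (nat_lit 56584442484) (nat_lit 152) (nat_lit 7645323078) (nat_lit 0) (nat_lit 54479156614) (nat_lit 4) (nat_lit 5) (nat_lit 6) (nat_lit 4) (nat_lit 4) (nat_lit 4) (nat_lit 405) (nat_lit 317) (nat_lit 298)))))) (XT.nd (nat_lit 546) (nat_lit 0) (nat_lit 0) (XT.nd (nat_lit 234) (nat_lit 0) (nat_lit 0) (XT.nd (nat_lit 78) (nat_lit 0) (nat_lit 0) (XT.lf (nat_lit 0) (nat_lit 5483718776) (nat_lit 76) (nat_lit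 62265571856) (nat_lit 76) (nat_lit 60113253066) (nat_lit 3) (nat_lit 4) (nat_lit 4) (nat_lit 5) (nat_lit 4) (nat_lit 4) (nat_lit 406) (nat_lit 317) (nat_lit 297)) (XT.nd (nat_lit 78) (nat_lit 0) (nat_lit 0) (XT.lf (nat_lit 0) (nat_lit 19615793603) (nat_lit 76) (nat_lit 60164932177) (nat_lit 76) (nat_lit 57969064387) (nat_lit 3) (nat_lit 4) (nat_lit 4) (nat_lit 5) (nat_lit 4) (nat_lit 4) (nat_lit 407) (nat_lit 317) (nat_lit 296)) (XT.lf (nat_lit 0) (nat_lit 34581858123) (nat_lit 76) (nat_lit 58044875534) (nat_lit 76) (nat_lit 55808684596) (nat_lit 3) (nat_lit 4) (nat_lit 4) (nat_lit 5) (nat_lit 4) (nat_lit 4) (nat_lit 408) (nat_lit 317) (nat_lit 295)))) (XT.nd (nat_lit 156) (nat_lit 0) (nat_lit 0) (XT.nd (nat_lit 78) (nat_lit 0) (nat_lit 0) (XT.lf (nat_lit 0) (nat_lit 50470600127) (nat_lit 76) (nat_lit 55892838629) (nat_lit 76) (nat_lit 53619311444) (nat_lit 3) (nat_lit 4) (nat_lit 4) (nat_lit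 5) (nat_lit 4) (nat_lit 4) (nat_lit 409) (nat_lit 317) (nat_lit 294)) (XT.lf (nat_lit 0) (nat_lit 67376175121) (nat_lit 76) (nat_lit 53696068652) (nat_lit 76) (nat_lit 51387970867) (nat_lit 3) (nat_lit 4) (nat_lit 4) (nat_lit 5) (nat_lit 4) (nat_lit 4) (nat_lit 410) (nat_lit 317) (nat_lit 293))) (XT.nd (nat_lit 78) (nat_lit 0) (nat_lit 0) (XT.lf (nat_lit 0) (nat_lit 85398764292) (nat_lit 76) (nat_lit 51441547706) (nat_lit 76) (nat_lit 49101440106) (nat_lit 3) (nat_lit 4) (nat_lit 4) (nat_lit 5) (nat_lit 4) (nat_lit 4) (nat_lit 411) (nat_lit 317) (nat_lit 292)) (XT.lf (nat_lit 0) (nat_lit 104645168167) (nat_lit 76) (nat_lit 49115915667) (nat_lit 76) (nat_lit 46746169349) (nat_lit 3) (nat_lit 4) (nat_lit 4) (nat_lit 5) (nat_lit 4) (nat_lit 4) (nat_lit 412) (nat_lit 317) (nat_lit 291))))) (XT.nd (nat_lit 234) (nat_lit 0) (nat_lit 0) (XT.nd (nat_lit 78) (nat_lit 0) (nat_lit 0) (XT.lf (nat_lit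 0) (nat_lit 125229439511) (nat_lit 76) (nat_lit 46705391011) (nat_lit 76) (nat_lit 44308201436) (nat_lit 3) (nat_lit 4) (nat_lit 4) (nat_lit 5) (nat_lit 4) (nat_lit 4) (nat_lit 413) (nat_lit 317) (nat_lit 290)) (XT.nd (nat_lit 78) (nat_lit 0) (nat_lit 0) (XT.lf (nat_lit 0) (nat_lit 147273559190) (nat_lit 76) (nat_lit 44195689149) (nat_lit 76) (nat_lit 41773089151) (nat_lit 3) (nat_lit 4) (nat_lit 4) (nat_lit 5) (nat_lit 4) (nat_lit 4) (nat_lit 414) (nat_lit 317) (nat_lit 289)) (XT.lf (nat_lit 0) (nat_lit 170908159026) (nat_lit 76) (nat_lit 41571937772) (nat_lit 76) (nat_lit 39125809604) (nat_lit 3) (nat_lit 4) (nat_lit 4) (nat_lit 5) (nat_lit 4) (nat_lit 4) (nat_lit 415) (nat_lit 317) (nat_lit 288)))) (XT.nd (nat_lit 156) (nat_lit 0) (nat_lit 0) (XT.nd (nat_lit 78) (nat_lit 0) (nat_lit 0) (XT.lf (nat_lit 0) (nat_lit 196273295905) (nat_lit 76) (nat_lit 38818588724) (nat_lit 76) (nat_lit 36350675215)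 (nat_lit 3) (nat_lit 4) (nat_lit 4) (nat_lit 5) (nat_lit 4) (nat_lit 4) (nat_lit 416) (nat_lit 317) (nat_lit 287)) (XT.lf (nat_lit 0) (nat_lit 223519281750) (nat_lit 76) (nat_lit 35919325864) (nat_lit 76) (nat_lit 33431240742) (nat_lit 3) (nat_lit 4) (nat_lit 4) (nat_lit 5) (nat_lit 4) (nat_lit 4) (nat_lit 417) (nat_lit 317) (nat_lit 286))) (XT.nd (nat_lit 78) (nat_lit 0) (nat_lit 0) (XT.lf (nat_lit 0) (nat_lit 252807574255) (nat_lit 76) (nat_lit 32856968374) (nat_lit 76) (nat_lit 30350205832) (nat_lit 3) (nat_lit 4) (nat_lit 4) (nat_lit 5) (nat_lit 4) (nat_lit 4) (nat_lit 418) (nat_lit 317) (nat_lit 285)) (XT.lf (nat_lit 0) (nat_lit 284311733672) (nat_lit 76) (nat_lit 29613368950) (nat_lit 76) (nat_lit 27089312501) (nat_lit 3) (nat_lit 4) (nat_lit 4) (nat_lit 5) (nat_lit 4) (nat_lit 4) (nat_lit 419) (nat_lit 317) (nat_lit 284))))))))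
noncomputable def xc14 : XT := (XT.nd (nat_lit 50856) (nat_lit 0) (nat_lit 152) (XT.nd (nat_lit 1014) (nat_lit 0) (nat_lit 0) (XT.nd (nat_lit 468) (nat_lit 152) (nat_lit 0) (XT.nd (nat_lit 234) (nat_lit 0) (nat_lit 0) (XT.nd (nat_lit 78) (nat_lit 0) (nat_lit 0) (XT.lf (nat_lit 0) (nat_lit 318218451316) (nat_lit 76) (nat_lit 26169306262) (nat_lit 76) (nat_lit 23629236936) (nat_lit 3) (nat_lit 4) (nat_lit 4) (nat_lit 5) (nat_lit 4) (nat_lit 4) (nat_lit 420) (nat_lit 317) (nat_lit 283)) (XT.nd (nat_lit 78) (nat_lit 0) (nat_lit 0) (XT.lf (nat_lit 0) (nat_lit 354728655884) (nat_lit 76) (nat_lit 22504371051) (nat_lit 76) (nat_lit 19949474987) (nat_lit 3) (nat_lit 4) (nat_lit 4) (nat_lit 5) (nat_lit 4) (nat_lit 4) (nat_lit 421) (nat_lit 317) (nat_lit 282)) (XT.lf (nat_lit 0) (nat_lit 394058704144) (nat_lit 76) (nat_lit 18596845181) (nat_lit 76) (nat_lit 16028220656) (nat_lit 3) (nat_lit 4) (nat_lit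 4) (nat_lit 5) (nat_lit 4) (nat_lit 4) (nat_lit 422) (nat_lit 317) (nat_lit 281)))) (XT.nd (nat_lit 78) (nat_lit 0) (nat_lit 0) (XT.lf (nat_lit 0) (nat_lit 436441663049) (nat_lit 76) (nat_lit 14423572943) (nat_lit 76) (nat_lit 11842236881) (nat_lit 3) (nat_lit 4) (nat_lit 4) (nat_lit 5) (nat_lit 4) (nat_lit 4) (nat_lit 423) (nat_lit 317) (nat_lit 280)) (XT.nd (nat_lit 78) (nat_lit 0) (nat_lit 0) (XT.lf (nat_lit 0) (nat_lit 482128690873) (nat_lit 76) (nat_lit 9959823836) (nat_lit 76) (nat_lit 7366717832) (nat_lit 3) (nat_lit 4) (nat_lit 4) (nat_lit 5) (nat_lit 4) (nat_lit 4) (nat_lit 424) (nat_lit 317) (nat_lit 279)) (XT.lf (nat_lit 0) (nat_lit 531390525559) (nat_lit 76) (nat_lit 5179146013) (nat_lit 76) (nat_lit 2575141914) (nat_lit 3) (nat_lit 4) (nat_lit 4) (nat_lit 5) (nat_lit 4) (nat_lit 4) (nat_lit 425) (nat_lit 317) (nat_lit 278))))) (XT.nd (nat_lit 234) (nat_lit 0) (nat_lit 0) (XT.nd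 (nat_lit 78) (nat_lit 0) (nat_lit 0) (XT.lf (nat_lit 0) (nat_lit 2519199760) (nat_lit 152) (nat_lit 579458614859) (nat_lit 0) (nat_lit 29585543) (nat_lit 1) (nat_lit 5) (nat_lit 3) (nat_lit 4) (nat_lit 1) (nat_lit 4) (nat_lit 426) (nat_lit 317) (nat_lit 277)) (XT.nd (nat_lit 78) (nat_lit 0) (nat_lit 0) (XT.lf (nat_lit 0) (nat_lit 8120157994) (nat_lit 152) (nat_lit 614545616243) (nat_lit 0) (nat_lit 5621645339) (nat_lit 1) (nat_lit 5) (nat_lit 3) (nat_lit 4) (nat_lit 1) (nat_lit 4) (nat_lit 427) (nat_lit 317) (nat_lit 276)) (XT.lf (nat_lit 0) (nat_lit 14135363815) (nat_lit 152) (nat_lit 652507557295) (nat_lit 0) (nat_lit 11628611865) (nat_lit 1) (nat_lit 5) (nat_lit 3) (nat_lit 4) (nat_lit 1) (nat_lit 4) (nat_lit 428) (nat_lit 317) (nat_lit 275)))) (XT.nd (nat_lit 156) (nat_lit 0) (nat_lit 0) (XT.nd (nat_lit 78) (nat_lit 0) (nat_lit 0) (XT.lf (nat_lit 0) (nat_lit 20600462887) (nat_lit 152)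 (nat_lit 693569397667) (nat_lit 0) (nat_lit 18086081962) (nat_lit 1) (nat_lit 5) (nat_lit 3) (nat_lit 4) (nat_lit 1) (nat_lit 4) (nat_lit 429) (nat_lit 317) (nat_lit 274)) (XT.lf (nat_lit 0) (nat_lit 27553766910) (nat_lit 152) (nat_lit 737974466782) (nat_lit 0) (nat_lit 25032322117) (nat_lit 1) (nat_lit 5) (nat_lit 3) (nat_lit 4) (nat_lit 1) (nat_lit 4) (nat_lit 430) (nat_lit 317) (nat_lit 273))) (XT.nd (nat_lit 78) (nat_lit 0) (nat_lit 0) (XT.lf (nat_lit 0) (nat_lit 35036480647) (nat_lit 152) (nat_lit 785985905792) (nat_lit 0) (nat_lit 32508495236) (nat_lit 1) (nat_lit 5) (nat_lit 3) (nat_lit 4) (nat_lit 1) (nat_lit 4) (nat_lit 431) (nat_lit 317) (nat_lit 272)) (XT.lf (nat_lit 0) (nat_lit 43092946105) (nat_lit 152) (nat_lit 837888226926) (nat_lit 0) (nat_lit 40558904567) (nat_lit 1) (nat_lit 5) (nat_lit 3) (nat_lit 4) (nat_lit 1) (nat_lit 4) (nat_lit 432) (nat_lit 317) (nat_lit 271))))))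 (XT.nd (nat_lit 49296) (nat_lit 0) (nat_lit 608) (XT.nd (nat_lit 234) (nat_lit 0) (nat_lit 0) (XT.nd (nat_lit 78) (nat_lit 0) (nat_lit 0) (XT.lf (nat_lit 0) (nat_lit 51770905303) (nat_lit 152) (nat_lit 893988999496) (nat_lit 0) (nat_lit 49231256240) (nat_lit 1) (nat_lit 5) (nat_lit 3) (nat_lit 4) (nat_lit 1) (nat_lit 4) (nat_lit 433) (nat_lit 317) (nat_lit 270)) (XT.nd (nat_lit 78) (nat_lit 0) (nat_lit 0) (XT.lf (nat_lit 0) (nat_lit 61121783183) (nat_lit 152) (nat_lit 954620672524) (nat_lit 0) (nat_lit 58576941967) (nat_lit 1) (nat_lit 5) (nat_lit 3) (nat_lit 4) (nat_lit 1) (nat_lit 4) (nat_lit 434) (nat_lit 317) (nat_lit 269)) (XT.lf (nat_lit 0) (nat_lit 71200992355) (nat_lit 152) (nat_lit 1020142544813) (nat_lit 0) (nat_lit 68651343590) (nat_lit 1) (nat_lit 5) (nat_lit 3) (nat_lit 4) (nat_lit 1) (nat_lit 4) (nat_lit 435) (nat_lit 317) (nat_lit 268)))) (XT.nd (nat_lit 78) (nat_lit 0) (nat_lit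 0) (XT.lf (nat_lit 0) (nat_lit 82068261467) (nat_lit 152) (nat_lit 1090942894126) (nat_lit 0) (nat_lit 79514161267) (nat_lit 1) (nat_lit 5) (nat_lit 3) (nat_lit 4) (nat_lit 1) (nat_lit 4) (nat_lit 436) (nat_lit 317) (nat_lit 267)) (XT.nd (nat_lit 78) (nat_lit 0) (nat_lit 0) (XT.lf (nat_lit 0) (nat_lit 93787989150) (nat_lit 152) (nat_lit 1167441278086) (nat_lit 0) (nat_lit 91229767252) (nat_lit 1) (nat_lit 5) (nat_lit 3) (nat_lit 4) (nat_lit 1) (nat_lit 4) (nat_lit 437) (nat_lit 317) (nat_lit 266)) (XT.lf (nat_lit 0) (nat_lit 106429625641) (nat_lit 152) (nat_lit 1250091020453) (nat_lit 0) (nat_lit 103867587356) (nat_lit 1) (nat_lit 5) (nat_lit 3) (nat_lit 4) (nat_lit 1) (nat_lit 4) (nat_lit 438) (nat_lit 317) (nat_lit 265))))) (XT.nd (nat_lit 234) (nat_lit 228) (nat_lit 0) (XT.nd (nat_lit 78) (nat_lit 228) (nat_lit 0) (XT.lf (nat_lit 0) (nat_lit 9519027911) (nat_lit 76) (nat_lit 2319236173)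 (nat_lit 76) (nat_lit 2319236173) (nat_lit 15) (nat_lit 4) (nat_lit 16) (nat_lit 5) (nat_lit 16) (nat_lit 4) (nat_lit 384) (nat_lit 318) (nat_lit 318)) (XT.nd (nat_lit 78) (nat_lit 76) (nat_lit 0) (XT.lf (nat_lit 0) (nat_lit 5767132349) (nat_lit 152) (nat_lit 18758524847) (nat_lit 0) (nat_lit 5513359622) (nat_lit 13) (nat_lit 5) (nat_lit 15) (nat_lit 4) (nat_lit 13) (nat_lit 4) (nat_lit 385) (nat_lit 318) (nat_lit 317)) (XT.lf (nat_lit 0) (nat_lit 710909621) (nat_lit 76) (nat_lit 15844686111) (nat_lit 76) (nat_lit 15355938637) (nat_lit 12) (nat_lit 4) (nat_lit 13) (nat_lit 5) (nat_lit 13) (nat_lit 4) (nat_lit 386) (nat_lit 318) (nat_lit 316)))) (XT.nd (nat_lit 156) (nat_lit 76) (nat_lit 0) (XT.nd (nat_lit 78) (nat_lit 152) (nat_lit 0) (XT.lf (nat_lit 0) (nat_lit 21380726860) (nat_lit 76) (nat_lit 6634531462) (nat_lit 76) (nat_lit 5928214778) (nat_lit 12) (nat_lit 4) (nat_lit 13) (nat_lit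 5) (nat_lit 13) (nat_lit 4) (nat_lit 387) (nat_lit 318) (nat_lit 315)) (XT.lf (nat_lit 0) (nat_lit 3781882833) (nat_lit 152) (nat_lit 29452230909) (nat_lit 0) (nat_lit 2917340303) (nat_lit 10) (nat_lit 5) (nat_lit 12) (nat_lit 4) (nat_lit 10) (nat_lit 4) (nat_lit 388) (nat_lit 318) (nat_lit 314))) (XT.nd (nat_lit 78) (nat_lit 76) (nat_lit 0) (XT.lf (nat_lit 0) (nat_lit 13924596897) (nat_lit 152) (nat_lit 11731057047) (nat_lit 0) (nat_lit 12882406244) (nat_lit 10) (nat_lit 5) (nat_lit 12) (nat_lit 4) (nat_lit 10) (nat_lit 4) (nat_lit 389) (nat_lit 318) (nat_lit 313)) (XT.lf (nat_lit 0) (nat_lit 6752384089) (nat_lit 76) (nat_lit 17793281542) (nat_lit 76) (nat_lit 16586601885) (nat_lit 9) (nat_lit 4) (nat_lit 10) (nat_lit 5) (nat_lit 10) (nat_lit 4) (nat_lit 390) (nat_lit 318) (nat_lit 312))))))) (XT.nd (nat_lit 1014) (nat_lit 76) (nat_lit 0) (XT.nd (nat_lit 468) (nat_lit 152) (nat_lit 0) (XT.nd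 (nat_lit 234) (nat_lit 76) (nat_lit 0) (XT.nd (nat_lit 78) (nat_lit 152) (nat_lit 0) (XT.lf (nat_lit 0) (nat_lit 26299743975) (nat_lit 76) (nat_lit 9502001786) (nat_lit 76) (nat_lit 8143017496) (nat_lit 9) (nat_lit 4) (nat_lit 10) (nat_lit 5) (nat_lit 10) (nat_lit 4) (nat_lit 391) (nat_lit 318) (nat_lit 311)) (XT.nd (nat_lit 78) (nat_lit 76) (nat_lit 0) (XT.lf (nat_lit 0) (nat_lit 550454298) (nat_lit 152) (nat_lit 371575786) (nat_lit 76) (nat_lit 46079200582) (nat_lit 8) (nat_lit 5) (nat_lit 10) (nat_lit 5) (nat_lit 9) (nat_lit 4) (nat_lit 392) (nat_lit 318) (nat_lit 310)) (XT.lf (nat_lit 0) (nat_lit 9705228575) (nat_lit 152) (nat_lit 32435479617) (nat_lit 0) (nat_lit 8152291648) (nat_lit 7) (nat_lit 5) (nat_lit 9) (nat_lit 4) (nat_lit 7) (nat_lit 4) (nat_lit 393) (nat_lit 318) (nat_lit 309)))) (XT.nd (nat_lit 78) (nat_lit 76) (nat_lit 0) (XT.lf (nat_lit 0) (nat_lit 19260149817) (nat_lit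 152) (nat_lit 17012520268) (nat_lit 0) (nat_lit 17592065912) (nat_lit 7) (nat_lit 5) (nat_lit 9) (nat_lit 4) (nat_lit 7) (nat_lit 4) (nat_lit 394) (nat_lit 318) (nat_lit 308)) (XT.nd (nat_lit 78) (nat_lit 76) (nat_lit 0) (XT.lf (nat_lit 0) (nat_lit 29251352901) (nat_lit 152) (nat_lit 1010625000) (nat_lit 0) (nat_lit 27476651422) (nat_lit 7) (nat_lit 5) (nat_lit 9) (nat_lit 4) (nat_lit 7) (nat_lit 4) (nat_lit 395) (nat_lit 318) (nat_lit 307)) (XT.lf (nat_lit 0) (nat_lit 16182988940) (nat_lit 76) (nat_lit 23807717825) (nat_lit 76) (nat_lit 21934296371) (nat_lit 6) (nat_lit 4) (nat_lit 7) (nat_lit 5) (nat_lit 7) (nat_lit 4) (nat_lit 396) (nat_lit 318) (nat_lit 306))))) (XT.nd (nat_lit 234) (nat_lit 152) (nat_lit 0) (XT.nd (nat_lit 78) (nat_lit 0) (nat_lit 0) (XT.lf (nat_lit 0) (nat_lit 34208144388) (nat_lit 76) (nat_lit 17108309954) (nat_lit 76) (nat_lit 15143481116) (nat_lit 6) (nat_lit 4)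 (nat_lit 7) (nat_lit 5) (nat_lit 7) (nat_lit 4) (nat_lit 397) (nat_lit 318) (nat_lit 305)) (XT.nd (nat_lit 78) (nat_lit 0) (nat_lit 0) (XT.lf (nat_lit 0) (nat_lit 53138241251) (nat_lit 76) (nat_lit 10141169519) (nat_lit 76) (nat_lit 8091704214) (nat_lit 6) (nat_lit 4) (nat_lit 7) (nat_lit 5) (nat_lit 7) (nat_lit 4) (nat_lit 398) (nat_lit 318) (nat_lit 304)) (XT.lf (nat_lit 0) (nat_lit 73085457881) (nat_lit 76) (nat_lit 2865009761) (nat_lit 76) (nat_lit 737177357) (nat_lit 6) (nat_lit 4) (nat_lit 7) (nat_lit 5) (nat_lit 7) (nat_lit 4) (nat_lit 399) (nat_lit 318) (nat_lit 303)))) (XT.nd (nat_lit 156) (nat_lit 0) (nat_lit 0) (XT.nd (nat_lit 78) (nat_lit 0) (nat_lit 0) (XT.lf (nat_lit 0) (nat_lit 7007414187) (nat_lit 152) (nat_lit 70503049522) (nat_lit 0) (nat_lit 4911800346) (nat_lit 4) (nat_lit 5) (nat_lit 6) (nat_lit 4) (nat_lit 4) (nat_lit 4) (nat_lit 400) (nat_lit 318) (nat_lit 302)) (XT.lf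 (nat_lit 0) (nat_lit 15230759312) (nat_lit 152) (nat_lit 60318888322) (nat_lit 0) (nat_lit 13071157702) (nat_lit 4) (nat_lit 5) (nat_lit 6) (nat_lit 4) (nat_lit 4) (nat_lit 4) (nat_lit 401) (nat_lit 318) (nat_lit 301))) (XT.nd (nat_lit 78) (nat_lit 0) (nat_lit 0) (XT.lf (nat_lit 0) (nat_lit 23901400150) (nat_lit 152) (nat_lit 49741814807) (nat_lit 0) (nat_lit 21682550607) (nat_lit 4) (nat_lit 5) (nat_lit 6) (nat_lit 4) (nat_lit 4) (nat_lit 4) (nat_lit 402) (nat_lit 318) (nat_lit 300)) (XT.lf (nat_lit 0) (nat_lit 33070718277) (nat_lit 152) (nat_lit 38709150023) (nat_lit 0) (nat_lit 30797009537) (nat_lit 4) (nat_lit 5) (nat_lit 6) (nat_lit 4) (nat_lit 4) (nat_lit 4) (nat_lit 403) (nat_lit 318) (nat_lit 299)))))) (XT.nd (nat_lit 468) (nat_lit 0) (nat_lit 0) (XT.nd (nat_lit 234) (nat_lit 76) (nat_lit 0) (XT.nd (nat_lit 78) (nat_lit 0) (nat_lit 0) (XT.lf (nat_lit 0) (nat_lit 42793050392) (nat_lit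 152) (nat_lit 27155515215) (nat_lit 0) (nat_lit 40468546099) (nat_lit 4) (nat_lit 5) (nat_lit 6) (nat_lit 4) (nat_lit 4) (nat_lit 4) (nat_lit 404) (nat_lit 318) (nat_lit 298)) (XT.nd (nat_lit 78) (nat_lit 0) (nat_lit 0) (XT.lf (nat_lit 0) (nat_lit 53126010317) (nat_lit 152) (nat_lit 15012444400) (nat_lit 0) (nat_lit 50754473104) (nat_lit 4) (nat_lit 5) (nat_lit 6) (nat_lit 4) (nat_lit 4) (nat_lit 4) (nat_lit 405) (nat_lit 318) (nat_lit 297)) (XT.lf (nat_lit 0) (nat_lit 64130830406) (nat_lit 152) (nat_lit 2207978638) (nat_lit 0) (nat_lit 61715744193) (nat_lit 4) (nat_lit 5) (nat_lit 6) (nat_lit 4) (nat_lit 4) (nat_lit 4) (nat_lit 406) (nat_lit 318) (nat_lit 296)))) (XT.nd (nat_lit 78) (nat_lit 0) (nat_lit 0) (XT.lf (nat_lit 0) (nat_lit 11708505686) (nat_lit 76) (nat_lit 64347021307) (nat_lit 76) (nat_lit 61891611946) (nat_lit 3) (nat_lit 4) (nat_lit 4) (nat_lit 5) (nat_lit 4) (nat_lit 4) (nat_lit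 407) (nat_lit 318) (nat_lit 295)) (XT.nd (nat_lit 78) (nat_lit 0) (nat_lit 0) (XT.lf (nat_lit 0) (nat_lit 26542547284) (nat_lit 76) (nat_lit 62293130178) (nat_lit 76) (nat_lit 59800384570) (nat_lit 3) (nat_lit 4) (nat_lit 4) (nat_lit 5) (nat_lit 4) (nat_lit 4) (nat_lit 408) (nat_lit 318) (nat_lit 294)) (XT.lf (nat_lit 0) (nat_lit 42309045841) (nat_lit 76) (nat_lit 60202357639) (nat_lit 76) (nat_lit 57675041431) (nat_lit 3) (nat_lit 4) (nat_lit 4) (nat_lit 5) (nat_lit 4) (nat_lit 4) (nat_lit 409) (nat_lit 318) (nat_lit 293))))) (XT.nd (nat_lit 234) (nat_lit 0) (nat_lit 0) (XT.nd (nat_lit 78) (nat_lit 0) (nat_lit 0) (XT.lf (nat_lit 0) (nat_lit 59101432459) (nat_lit 76) (nat_lit 58062313926) (nat_lit 76) (nat_lit 55502987903) (nat_lit 3) (nat_lit 4) (nat_lit 4) (nat_lit 5) (nat_lit 4) (nat_lit 4) (nat_lit 410) (nat_lit 318) (nat_lit 292)) (XT.nd (nat_lit 78) (nat_lit 0) (nat_lit 0) (XT.lf (nat_lit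 0) (nat_lit 77019217577) (nat_lit 76) (nat_lit 55860317298) (nat_lit 76) (nat_lit 53271352558) (nat_lit 3) (nat_lit 4) (nat_lit 4) (nat_lit 5) (nat_lit 4) (nat_lit 4) (nat_lit 411) (nat_lit 318) (nat_lit 291)) (XT.lf (nat_lit 0) (nat_lit 96168580663) (nat_lit 76) (nat_lit 53583318887) (nat_lit 76) (nat_lit 50966910890) (nat_lit 3) (nat_lit 4) (nat_lit 4) (nat_lit 5) (nat_lit 4) (nat_lit 4) (nat_lit 412) (nat_lit 318) (nat_lit 290)))) (XT.nd (nat_lit 156) (nat_lit 0) (nat_lit 0) (XT.nd (nat_lit 78) (nat_lit 0) (nat_lit 0) (XT.lf (nat_lit 0) (nat_lit 116662999424) (nat_lit 76) (nat_lit 51217825369) (nat_lit 76) (nat_lit 48576006948) (nat_lit 3) (nat_lit 4) (nat_lit 4) (nat_lit 5) (nat_lit 4) (nat_lit 4) (nat_lit 413) (nat_lit 318) (nat_lit 289)) (XT.lf (nat_lit 0) (nat_lit 138623922268) (nat_lit 76) (nat_lit 48749819004) (nat_lit 76) (nat_lit 46084472414) (nat_lit 3) (nat_lit 4) (nat_lit 4)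 (nat_lit 5) (nat_lit 4) (nat_lit 4) (nat_lit 414) (nat_lit 318) (nat_lit 288))) (XT.nd (nat_lit 78) (nat_lit 0) (nat_lit 0) (XT.lf (nat_lit 0) (nat_lit 162181487996) (nat_lit 76) (nat_lit 46164674569) (nat_lit 76) (nat_lit 43477542637) (nat_lit 3) (nat_lit 4) (nat_lit 4) (nat_lit 5) (nat_lit 4) (nat_lit 4) (nat_lit 415) (nat_lit 318) (nat_lit 287)) (XT.lf (nat_lit 0) (nat_lit 187475296998) (nat_lit 76) (nat_lit 43447072690) (nat_lit 76) (nat_lit 40739769145) (nat_lit 3) (nat_lit 4) (nat_lit 4) (nat_lit 5) (nat_lit 4) (nat_lit 4) (nat_lit 416) (nat_lit 318) (nat_lit 286))))))))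
noncomputable def xc15 : XT := (XT.nd (nat_lit 50700) (nat_lit 0) (nat_lit 152) (XT.nd (nat_lit 1014) (nat_lit 0) (nat_lit 0) (XT.nd (nat_lit 468) (nat_lit 152) (nat_lit 0) (XT.nd (nat_lit 234) (nat_lit 0) (nat_lit 0) (XT.nd (nat_lit 78) (nat_lit 0) (nat_lit 0) (XT.lf (nat_lit 0) (nat_lit 214655238513) (nat_lit 76) (nat_lit 40580909060) (nat_lit 76) (nat_lit 37854928096) (nat_lit 3) (nat_lit 4) (nat_lit 4) (nat_lit 5) (nat_lit 4) (nat_lit 4) (nat_lit 417) (nat_lit 318) (nat_lit 285)) (XT.nd (nat_lit 78) (nat_lit 0) (nat_lit 0) (XT.lf (nat_lit 0) (nat_lit 243882378860) (nat_lit 76) (nat_lit 37549199005) (nat_lit 76) (nat_lit 34805924134) (nat_lit 3) (nat_lit 4) (nat_lit 4) (nat_lit 5) (nat_lit 4) (nat_lit 4) (nat_lit 418) (nat_lit 318) (nat_lit 284)) (XT.lf (nat_lit 0) (nat_lit 275329915909) (nat_lit 76) (nat_lit 34333976836) (nat_lit 76) (nat_lit 31574689088) (nat_lit 3) (nat_lit 4) (nat_lit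 4) (nat_lit 5) (nat_lit 4) (nat_lit 4) (nat_lit 419) (nat_lit 318) (nat_lit 283)))) (XT.nd (nat_lit 78) (nat_lit 0) (nat_lit 0) (XT.lf (nat_lit 0) (nat_lit 309184205434) (nat_lit 76) (nat_lit 30916189385) (nat_lit 76) (nat_lit 28142074899) (nat_lit 3) (nat_lit 4) (nat_lit 4) (nat_lit 5) (nat_lit 4) (nat_lit 4) (nat_lit 420) (nat_lit 318) (nat_lit 282)) (XT.nd (nat_lit 78) (nat_lit 0) (nat_lit 0) (XT.lf (nat_lit 0) (nat_lit 345645865447) (nat_lit 76) (nat_lit 27275583096) (nat_lit 76) (nat_lit 24487740149) (nat_lit 3) (nat_lit 4) (nat_lit 4) (nat_lit 5) (nat_lit 4) (nat_lit 4) (nat_lit 421) (nat_lit 318) (nat_lit 281)) (XT.lf (nat_lit 0) (nat_lit 384930965045) (nat_lit 76) (nat_lit 23390584006) (nat_lit 76) (nat_lit 20590029521) (nat_lit 3) (nat_lit 4) (nat_lit 4) (nat_lit 5) (nat_lit 4) (nat_lit 4) (nat_lit 422) (nat_lit 318) (nat_lit 280))))) (XT.nd (nat_lit 234) (nat_lit 152) (nat_lit 0)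 (XT.nd (nat_lit 78) (nat_lit 0) (nat_lit 0) (XT.lf (nat_lit 0) (nat_lit 427272304819) (nat_lit 76) (nat_lit 19238169898) (nat_lit 76) (nat_lit 16425845470) (nat_lit 3) (nat_lit 4) (nat_lit 4) (nat_lit 5) (nat_lit 4) (nat_lit 4) (nat_lit 423) (nat_lit 318) (nat_lit 279)) (XT.nd (nat_lit 78) (nat_lit 0) (nat_lit 0) (XT.lf (nat_lit 0) (nat_lit 472920796410) (nat_lit 76) (nat_lit 14793733874) (nat_lit 76) (nat_lit 11970511351) (nat_lit 3) (nat_lit 4) (nat_lit 4) (nat_lit 5) (nat_lit 4) (nat_lit 4) (nat_lit 424) (nat_lit 318) (nat_lit 278)) (XT.lf (nat_lit 0) (nat_lit 522146949400) (nat_lit 76) (nat_lit 10030938535) (nat_lit 76) (nat_lit 7197625184) (nat_lit 3) (nat_lit 4) (nat_lit 4) (nat_lit 5) (nat_lit 4) (nat_lit 4) (nat_lit 425) (nat_lit 318) (nat_lit 277)))) (XT.nd (nat_lit 156) (nat_lit 0) (nat_lit 0) (XT.nd (nat_lit 78) (nat_lit 152) (nat_lit 0) (XT.lf (nat_lit 0) (nat_lit 575242474323)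 (nat_lit 76) (nat_lit 4921559909) (nat_lit 76) (nat_lit 2078903198) (nat_lit 3) (nat_lit 4) (nat_lit 4) (nat_lit 5) (nat_lit 4) (nat_lit 4) (nat_lit 426) (nat_lit 318) (nat_lit 276)) (XT.lf (nat_lit 0) (nat_lit 3380727910) (nat_lit 152) (nat_lit 624489049021) (nat_lit 0) (nat_lit 665196510) (nat_lit 1) (nat_lit 5) (nat_lit 3) (nat_lit 4) (nat_lit 1) (nat_lit 4) (nat_lit 427) (nat_lit 318) (nat_lit 275))) (XT.nd (nat_lit 78) (nat_lit 0) (nat_lit 0) (XT.lf (nat_lit 0) (nat_lit 9380874493) (nat_lit 152) (nat_lit 662481251629) (nat_lit 0) (nat_lit 6657714117) (nat_lit 1) (nat_lit 5) (nat_lit 3) (nat_lit 4) (nat_lit 1) (nat_lit 4) (nat_lit 428) (nat_lit 318) (nat_lit 274)) (XT.lf (nat_lit 0) (nat_lit 15832029828) (nat_lit 152) (nat_lit 703571111959) (nat_lit 0) (nat_lit 13101805584) (nat_lit 1) (nat_lit 5) (nat_lit 3) (nat_lit 4) (nat_lit 1) (nat_lit 4) (nat_lit 429) (nat_lit 318) (nat_lit 273))))))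 (XT.nd (nat_lit 468) (nat_lit 0) (nat_lit 0) (XT.nd (nat_lit 234) (nat_lit 0) (nat_lit 0) (XT.nd (nat_lit 78) (nat_lit 0) (nat_lit 0) (XT.lf (nat_lit 0) (nat_lit 22772422981) (nat_lit 152) (nat_lit 748002125481) (nat_lit 0) (nat_lit 20035658120) (nat_lit 1) (nat_lit 5) (nat_lit 3) (nat_lit 4) (nat_lit 1) (nat_lit 4) (nat_lit 430) (nat_lit 318) (nat_lit 272)) (XT.nd (nat_lit 78) (nat_lit 0) (nat_lit 0) (XT.lf (nat_lit 0) (nat_lit 30243182209) (nat_lit 152) (nat_lit 796037587088) (nat_lit 0) (nat_lit 27500361221) (nat_lit 1) (nat_lit 5) (nat_lit 3) (nat_lit 4) (nat_lit 1) (nat_lit 4) (nat_lit 431) (nat_lit 318) (nat_lit 271)) (XT.lf (nat_lit 0) (nat_lit 38288578679) (nat_lit 152) (nat_lit 847962151369) (nat_lit 0) (nat_lit 35540150165) (nat_lit 1) (nat_lit 5) (nat_lit 3) (nat_lit 4) (nat_lit 1) (nat_lit 4) (nat_lit 432) (nat_lit 318) (nat_lit 270)))) (XT.nd (nat_lit 78) (nat_lit 0) (nat_lit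 0) (XT.lf (nat_lit 0) (nat_lit 46956288812) (nat_lit 152) (nat_lit 904083519445) (nat_lit 0) (nat_lit 44202668146) (nat_lit 1) (nat_lit 5) (nat_lit 3) (nat_lit 4) (nat_lit 1) (nat_lit 4) (nat_lit 433) (nat_lit 318) (nat_lit 269)) (XT.nd (nat_lit 78) (nat_lit 0) (nat_lit 0) (XT.lf (nat_lit 0) (nat_lit 56297676818) (nat_lit 152) (nat_lit 964734262386) (nat_lit 0) (nat_lit 53539248603) (nat_lit 1) (nat_lit 5) (nat_lit 3) (nat_lit 4) (nat_lit 1) (nat_lit 4) (nat_lit 434) (nat_lit 318) (nat_lit 268)) (XT.lf (nat_lit 0) (nat_lit 66368099070) (nat_lit 152) (nat_lit 1030273792002) (nat_lit 0) (nat_lit 63605219420) (nat_lit 1) (nat_lit 5) (nat_lit 3) (nat_lit 4) (nat_lit 1) (nat_lit 4) (nat_lit 435) (nat_lit 318) (nat_lit 267))))) (XT.nd (nat_lit 48906) (nat_lit 0) (nat_lit 912) (XT.nd (nat_lit 78) (nat_lit 0) (nat_lit 0) (XT.lf (nat_lit 0) (nat_lit 77227232145) (nat_lit 152) (nat_lit 1101090490691)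 (nat_lit 0) (nat_lit 74460230796) (nat_lit 1) (nat_lit 5) (nat_lit 3) (nat_lit 4) (nat_lit 1) (nat_lit 4) (nat_lit 436) (nat_lit 318) (nat_lit 266)) (XT.nd (nat_lit 78) (nat_lit 0) (nat_lit 0) (XT.lf (nat_lit 0) (nat_lit 88939426459) (nat_lit 152) (nat_lit 1177604012964) (nat_lit 0) (nat_lit 86168608723) (nat_lit 1) (nat_lit 5) (nat_lit 3) (nat_lit 4) (nat_lit 1) (nat_lit 4) (nat_lit 437) (nat_lit 318) (nat_lit 265)) (XT.lf (nat_lit 0) (nat_lit 101574087610) (nat_lit 152) (nat_lit 1260267772285) (nat_lit 0) (nat_lit 98799736182) (nat_lit 1) (nat_lit 5) (nat_lit 3) (nat_lit 4) (nat_lit 1) (nat_lit 4) (nat_lit 438) (nat_lit 318) (nat_lit 264)))) (XT.nd (nat_lit 156) (nat_lit 228) (nat_lit 0) (XT.nd (nat_lit 78) (nat_lit 0) (nat_lit 0) (XT.lf (nat_lit 0) (nat_lit 781743631) (nat_lit 152) (nat_lit 11063267071) (nat_lit 0) (nat_lit 781743631) (nat_lit 16) (nat_lit 5) (nat_lit 18) (nat_lit 4) (nat_lit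 16) (nat_lit 4) (nat_lit 382) (nat_lit 319) (nat_lit 319)) (XT.lf (nat_lit 0) (nat_lit 12323433069) (nat_lit 152) (nat_lit 2366767909) (nat_lit 0) (nat_lit 12035654797) (nat_lit 16) (nat_lit 5) (nat_lit 18) (nat_lit 4) (nat_lit 16) (nat_lit 4) (nat_lit 383) (nat_lit 319) (nat_lit 318))) (XT.nd (nat_lit 78) (nat_lit 152) (nat_lit 0) (XT.lf (nat_lit 0) (nat_lit 18516683007) (nat_lit 76) (nat_lit 5182904174) (nat_lit 76) (nat_lit 4628664539) (nat_lit 15) (nat_lit 4) (nat_lit 16) (nat_lit 5) (nat_lit 16) (nat_lit 4) (nat_lit 384) (nat_lit 319) (nat_lit 317)) (XT.lf (nat_lit 0) (nat_lit 5498394141) (nat_lit 152) (nat_lit 19832219151) (nat_lit 0) (nat_lit 4735572122) (nat_lit 13) (nat_lit 5) (nat_lit 15) (nat_lit 4) (nat_lit 13) (nat_lit 4) (nat_lit 385) (nat_lit 319) (nat_lit 316))))))) (XT.nd (nat_lit 1014) (nat_lit 228) (nat_lit 0) (XT.nd (nat_lit 468) (nat_lit 228) (nat_lit 0) (XT.nd (nat_lit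 234) (nat_lit 76) (nat_lit 0) (XT.nd (nat_lit 78) (nat_lit 228) (nat_lit 0) (XT.lf (nat_lit 0) (nat_lit 16034121500) (nat_lit 152) (nat_lit 863500438) (nat_lit 0) (nat_lit 15053730271) (nat_lit 13) (nat_lit 5) (nat_lit 15) (nat_lit 4) (nat_lit 13) (nat_lit 4) (nat_lit 386) (nat_lit 319) (nat_lit 315)) (XT.nd (nat_lit 78) (nat_lit 152) (nat_lit 0) (XT.lf (nat_lit 0) (nat_lit 19320575023) (nat_lit 76) (nat_lit 7928405900) (nat_lit 76) (nat_lit 6746561699) (nat_lit 12) (nat_lit 4) (nat_lit 13) (nat_lit 5) (nat_lit 13) (nat_lit 4) (nat_lit 387) (nat_lit 319) (nat_lit 314)) (XT.lf (nat_lit 0) (nat_lit 2707225066) (nat_lit 152) (nat_lit 32107061613) (nat_lit 0) (nat_lit 1404011037) (nat_lit 10) (nat_lit 5) (nat_lit 12) (nat_lit 4) (nat_lit 10) (nat_lit 4) (nat_lit 388) (nat_lit 319) (nat_lit 313)))) (XT.nd (nat_lit 78) (nat_lit 76) (nat_lit 0) (XT.lf (nat_lit 0) (nat_lit 12639128509) (nat_lit 152)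 (nat_lit 14804899816) (nat_lit 0) (nat_lit 11171425475) (nat_lit 10) (nat_lit 5) (nat_lit 12) (nat_lit 4) (nat_lit 10) (nat_lit 4) (nat_lit 389) (nat_lit 319) (nat_lit 312)) (XT.nd (nat_lit 78) (nat_lit 0) (nat_lit 0) (XT.lf (nat_lit 0) (nat_lit 3176103886) (nat_lit 76) (nat_lit 19833062579) (nat_lit 76) (nat_lit 18213054913) (nat_lit 9) (nat_lit 4) (nat_lit 10) (nat_lit 5) (nat_lit 10) (nat_lit 4) (nat_lit 390) (nat_lit 319) (nat_lit 311)) (XT.lf (nat_lit 0) (nat_lit 22352350522) (nat_lit 76) (nat_lit 11726365826) (nat_lit 76) (nat_lit 9965335351) (nat_lit 9) (nat_lit 4) (nat_lit 10) (nat_lit 5) (nat_lit 10) (nat_lit 4) (nat_lit 391) (nat_lit 319) (nat_lit 310))))) (XT.nd (nat_lit 234) (nat_lit 76) (nat_lit 0) (XT.nd (nat_lit 78) (nat_lit 152) (nat_lit 0) (XT.lf (nat_lit 0) (nat_lit 42347960257) (nat_lit 76) (nat_lit 3326626522) (nat_lit 76) (nat_lit 1435019373) (nat_lit 9) (nat_lit 4) (nat_lit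 10) (nat_lit 5) (nat_lit 10) (nat_lit 4) (nat_lit 392) (nat_lit 319) (nat_lit 309)) (XT.nd (nat_lit 78) (nat_lit 0) (nat_lit 0) (XT.lf (nat_lit 0) (nat_lit 7485807860) (nat_lit 152) (nat_lit 37361557853) (nat_lit 0) (nat_lit 5569130264) (nat_lit 7) (nat_lit 5) (nat_lit 9) (nat_lit 4) (nat_lit 7) (nat_lit 4) (nat_lit 393) (nat_lit 319) (nat_lit 308)) (XT.lf (nat_lit 0) (nat_lit 16882983017) (nat_lit 152) (nat_lit 22253454672) (nat_lit 0) (nat_lit 14859687847) (nat_lit 7) (nat_lit 5) (nat_lit 9) (nat_lit 4) (nat_lit 7) (nat_lit 4) (nat_lit 394) (nat_lit 319) (nat_lit 307)))) (XT.nd (nat_lit 156) (nat_lit 0) (nat_lit 0) (XT.nd (nat_lit 78) (nat_lit 76) (nat_lit 0) (XT.lf (nat_lit 0) (nat_lit 26728124910) (nat_lit 152) (nat_lit 6543092894) (nat_lit 0) (nat_lit 24606109765) (nat_lit 7) (nat_lit 5) (nat_lit 9) (nat_lit 4) (nat_lit 7) (nat_lit 4) (nat_lit 395) (nat_lit 319) (nat_lit 306)) (XT.lf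 (nat_lit 0) (nat_lit 10188728874) (nat_lit 76) (nat_lit 27049920859) (nat_lit 76) (nat_lit 24836498329) (nat_lit 6) (nat_lit 4) (nat_lit 7) (nat_lit 5) (nat_lit 7) (nat_lit 4) (nat_lit 396) (nat_lit 319) (nat_lit 305))) (XT.nd (nat_lit 78) (nat_lit 0) (nat_lit 0) (XT.lf (nat_lit 0) (nat_lit 27955677100) (nat_lit 76) (nat_lit 20479464943) (nat_lit 76) (nat_lit 18181405946) (nat_lit 6) (nat_lit 4) (nat_lit 7) (nat_lit 5) (nat_lit 7) (nat_lit 4) (nat_lit 397) (nat_lit 319) (nat_lit 304)) (XT.lf (nat_lit 0) (nat_lit 46646693202) (nat_lit 76) (nat_lit 13631724466) (nat_lit 76) (nat_lit 11255298370) (nat_lit 6) (nat_lit 4) (nat_lit 7) (nat_lit 5) (nat_lit 7) (nat_lit 4) (nat_lit 398) (nat_lit 319) (nat_lit 303)))))) (XT.nd (nat_lit 546) (nat_lit 76) (nat_lit 0) (XT.nd (nat_lit 234) (nat_lit 0) (nat_lit 0) (XT.nd (nat_lit 78) (nat_lit 152) (nat_lit 0) (XT.lf (nat_lit 0) (nat_lit 66372538757) (nat_lit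 76) (nat_lit 6466120225) (nat_lit 76) (nat_lit 4017132000) (nat_lit 6) (nat_lit 4) (nat_lit 7) (nat_lit 5) (nat_lit 7) (nat_lit 4) (nat_lit 399) (nat_lit 319) (nat_lit 302)) (XT.nd (nat_lit 78) (nat_lit 0) (nat_lit 0) (XT.lf (nat_lit 0) (nat_lit 3554075396) (nat_lit 152) (nat_lit 77895099034) (nat_lit 0) (nat_lit 1157717890) (nat_lit 4) (nat_lit 5) (nat_lit 6) (nat_lit 4) (nat_lit 4) (nat_lit 4) (nat_lit 400) (nat_lit 319) (nat_lit 301)) (XT.lf (nat_lit 0) (nat_lit 11676184032) (nat_lit 152) (nat_lit 67913736190) (nat_lit 0) (nat_lit 9220578593) (nat_lit 4) (nat_lit 5) (nat_lit 6) (nat_lit 4) (nat_lit 4) (nat_lit 4) (nat_lit 401) (nat_lit 319) (nat_lit 300)))) (XT.nd (nat_lit 156) (nat_lit 0) (nat_lit 0) (XT.nd (nat_lit 78) (nat_lit 0) (nat_lit 0) (XT.lf (nat_lit 0) (nat_lit 20253087381) (nat_lit 152) (nat_lit 57524438931) (nat_lit 0) (nat_lit 17742622744) (nat_lit 4) (nat_lit 5) (nat_lit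 6) (nat_lit 4) (nat_lit 4) (nat_lit 4) (nat_lit 402) (nat_lit 319) (nat_lit 299)) (XT.lf (nat_lit 0) (nat_lit 29335611536) (nat_lit 152) (nat_lit 46665641050) (nat_lit 0) (nat_lit 26774351346) (nat_lit 4) (nat_lit 5) (nat_lit 6) (nat_lit 4) (nat_lit 4) (nat_lit 4) (nat_lit 403) (nat_lit 319) (nat_lit 298))) (XT.nd (nat_lit 78) (nat_lit 0) (nat_lit 0) (XT.lf (nat_lit 0) (nat_lit 38977578863) (nat_lit 152) (nat_lit 35272994116) (nat_lit 0) (nat_lit 36369285754) (nat_lit 4) (nat_lit 5) (nat_lit 6) (nat_lit 4) (nat_lit 4) (nat_lit 4) (nat_lit 404) (nat_lit 319) (nat_lit 297)) (XT.lf (nat_lit 0) (nat_lit 49236126946) (nat_lit 152) (nat_lit 23278986147) (nat_lit 0) (nat_lit 46584284837) (nat_lit 4) (nat_lit 5) (nat_lit 6) (nat_lit 4) (nat_lit 4) (nat_lit 4) (nat_lit 405) (nat_lit 319) (nat_lit 296))))) (XT.nd (nat_lit 234) (nat_lit 0) (nat_lit 0) (XT.nd (nat_lit 78) (nat_lit 76) (nat_lit 0) (XT.lf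 (nat_lit 0) (nat_lit 60172047182) (nat_lit 152) (nat_lit 10612541539) (nat_lit 0) (nat_lit 57479881925) (nat_lit 4) (nat_lit 5) (nat_lit 6) (nat_lit 4) (nat_lit 4) (nat_lit 4) (nat_lit 406) (nat_lit 319) (nat_lit 295)) (XT.nd (nat_lit 78) (nat_lit 0) (nat_lit 0) (XT.lf (nat_lit 0) (nat_lit 2894027058) (nat_lit 76) (nat_lit 69001301837) (nat_lit 76) (nat_lit 66271800332) (nat_lit 3) (nat_lit 4) (nat_lit 4) (nat_lit 5) (nat_lit 4) (nat_lit 4) (nat_lit 407) (nat_lit 319) (nat_lit 294)) (XT.lf (nat_lit 0) (nat_lit 17605825209) (nat_lit 76) (nat_lit 67008675074) (nat_lit 76) (nat_lit 64244602969) (nat_lit 3) (nat_lit 4) (nat_lit 4) (nat_lit 5) (nat_lit 4) (nat_lit 4) (nat_lit 408) (nat_lit 319) (nat_lit 293)))) (XT.nd (nat_lit 156) (nat_lit 0) (nat_lit 0) (XT.nd (nat_lit 78) (nat_lit 0) (nat_lit 0) (XT.lf (nat_lit 0) (nat_lit 33259135389) (nat_lit 76) (nat_lit 64974628799) (nat_lit 76) (nat_lit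 62178546879) (nat_lit 3) (nat_lit 4) (nat_lit 4) (nat_lit 5) (nat_lit 4) (nat_lit 4) (nat_lit 409) (nat_lit 319) (nat_lit 292)) (XT.lf (nat_lit 0) (nat_lit 49946717955) (nat_lit 76) (nat_lit 62887109404) (nat_lit 76) (nat_lit 60061388767) (nat_lit 3) (nat_lit 4) (nat_lit 4) (nat_lit 5) (nat_lit 4) (nat_lit 4) (nat_lit 410) (nat_lit 319) (nat_lit 291))) (XT.nd (nat_lit 78) (nat_lit 0) (nat_lit 0) (XT.lf (nat_lit 0) (nat_lit 67767462284) (nat_lit 76) (nat_lit 60733746405) (nat_lit 76) (nat_lit 57880582511) (nat_lit 3) (nat_lit 4) (nat_lit 4) (nat_lit 5) (nat_lit 4) (nat_lit 4) (nat_lit 411) (nat_lit 319) (nat_lit 290)) (XT.lf (nat_lit 0) (nat_lit 86826972787) (nat_lit 76) (nat_lit 58501779131) (nat_lit 76) (nat_lit 55623204814) (nat_lit 3) (nat_lit 4) (nat_lit 4) (nat_lit 5) (nat_lit 4) (nat_lit 4) (nat_lit 412) (nat_lit 319) (nat_lit 289))))))))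
noncomputable def xc16 : XT := (XT.nd (nat_lit 50544) (nat_lit 0) (nat_lit 228) (XT.nd (nat_lit 1014) (nat_lit 152) (nat_lit 0) (XT.nd (nat_lit 468) (nat_lit 0) (nat_lit 0) (XT.nd (nat_lit 234) (nat_lit 0) (nat_lit 0) (XT.nd (nat_lit 78) (nat_lit 0) (nat_lit 0) (XT.lf (nat_lit 0) (nat_lit 107238194712) (nat_lit 76) (nat_lit 56177981110) (nat_lit 76) (nat_lit 53275878624) (nat_lit 3) (nat_lit 4) (nat_lit 4) (nat_lit 5) (nat_lit 4) (nat_lit 4) (nat_lit 413) (nat_lit 319) (nat_lit 288)) (XT.nd (nat_lit 78) (nat_lit 0) (nat_lit 0) (XT.lf (nat_lit 0) (nat_lit 129122083449) (nat_lit 76) (nat_lit 53748581687) (nat_lit 76) (nat_lit 50824693858) (nat_lit 3) (nat_lit 4) (nat_lit 4) (nat_lit 5) (nat_lit 4) (nat_lit 4) (nat_lit 414) (nat_lit 319) (nat_lit 287)) (XT.lf (nat_lit 0) (nat_lit 152608321300) (nat_lit 76) (nat_lit 51199184421) (nat_lit 76) (nat_lit 48255124979) (nat_lit 3) (nat_lit 4) (nat_lit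 4) (nat_lit 5) (nat_lit 4) (nat_lit 4) (nat_lit 415) (nat_lit 319) (nat_lit 286)))) (XT.nd (nat_lit 78) (nat_lit 0) (nat_lit 0) (XT.lf (nat_lit 0) (nat_lit 177836085971) (nat_lit 76) (nat_lit 48514681773) (nat_lit 76) (nat_lit 45551944911) (nat_lit 3) (nat_lit 4) (nat_lit 4) (nat_lit 5) (nat_lit 4) (nat_lit 4) (nat_lit 416) (nat_lit 319) (nat_lit 285)) (XT.nd (nat_lit 78) (nat_lit 0) (nat_lit 0) (XT.lf (nat_lit 0) (nat_lit 204954875328) (nat_lit 76) (nat_lit 45679165578) (nat_lit 76) (nat_lit 42699134810) (nat_lit 3) (nat_lit 4) (nat_lit 4) (nat_lit 5) (nat_lit 4) (nat_lit 4) (nat_lit 417) (nat_lit 319) (nat_lit 284)) (XT.lf (nat_lit 0) (nat_lit 234125393307) (nat_lit 76) (nat_lit 42675832778) (nat_lit 76) (nat_lit 39679789133) (nat_lit 3) (nat_lit 4) (nat_lit 4) (nat_lit 5) (nat_lit 4) (nat_lit 4) (nat_lit 418) (nat_lit 319) (nat_lit 283))))) (XT.nd (nat_lit 234) (nat_lit 0) (nat_lit 0)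 (XT.nd (nat_lit 78) (nat_lit 0) (nat_lit 0) (XT.lf (nat_lit 0) (nat_lit 265520502236) (nat_lit 76) (nat_lit 39486885845) (nat_lit 76) (nat_lit 36476015462) (nat_lit 3) (nat_lit 4) (nat_lit 4) (nat_lit 5) (nat_lit 4) (nat_lit 4) (nat_lit 419) (nat_lit 319) (nat_lit 282)) (XT.nd (nat_lit 78) (nat_lit 0) (nat_lit 0) (XT.lf (nat_lit 0) (nat_lit 299326247207) (nat_lit 76) (nat_lit 36093427316) (nat_lit 76) (nat_lit 33068828472) (nat_lit 3) (nat_lit 4) (nat_lit 4) (nat_lit 5) (nat_lit 4) (nat_lit 4) (nat_lit 420) (nat_lit 319) (nat_lit 281)) (XT.lf (nat_lit 0) (nat_lit 335742958559) (nat_lit 76) (nat_lit 32475347807) (nat_lit 76) (nat_lit 29438037425) (nat_lit 3) (nat_lit 4) (nat_lit 4) (nat_lit 5) (nat_lit 4) (nat_lit 4) (nat_lit 421) (nat_lit 319) (nat_lit 280)))) (XT.nd (nat_lit 156) (nat_lit 0) (nat_lit 0) (XT.nd (nat_lit 78) (nat_lit 0) (nat_lit 0) (XT.lf (nat_lit 0) (nat_lit 374986439026)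 (nat_lit 76) (nat_lit 28611206846) (nat_lit 76) (nat_lit 25562126522) (nat_lit 3) (nat_lit 4) (nat_lit 4) (nat_lit 5) (nat_lit 4) (nat_lit 4) (nat_lit 422) (nat_lit 319) (nat_lit 279)) (XT.lf (nat_lit 0) (nat_lit 417289242567) (nat_lit 76) (nat_lit 24478105821) (nat_lit 76) (nat_lit 21418127402) (nat_lit 3) (nat_lit 4) (nat_lit 4) (nat_lit 5) (nat_lit 4) (nat_lit 4) (nat_lit 423) (nat_lit 319) (nat_lit 278))) (XT.nd (nat_lit 78) (nat_lit 0) (nat_lit 0) (XT.lf (nat_lit 0) (nat_lit 462902052461) (nat_lit 76) (nat_lit 20051552281) (nat_lit 76) (nat_lit 16981483034) (nat_lit 3) (nat_lit 4) (nat_lit 4) (nat_lit 5) (nat_lit 4) (nat_lit 4) (nat_lit 424) (nat_lit 319) (nat_lit 277)) (XT.lf (nat_lit 0) (nat_lit 512095166842) (nat_lit 76) (nat_lit 15305314798) (nat_lit 76) (nat_lit 12225902191) (nat_lit 3) (nat_lit 4) (nat_lit 4) (nat_lit 5) (nat_lit 4) (nat_lit 4) (nat_lit 425) (nat_lit 319) (nat_lit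 276)))))) (XT.nd (nat_lit 468) (nat_lit 0) (nat_lit 0) (XT.nd (nat_lit 234) (nat_lit 0) (nat_lit 0) (XT.nd (nat_lit 78) (nat_lit 152) (nat_lit 0) (XT.lf (nat_lit 0) (nat_lit 565160100462) (nat_lit 76) (nat_lit 10211267520) (nat_lit 76) (nat_lit 7123203654) (nat_lit 3) (nat_lit 4) (nat_lit 4) (nat_lit 5) (nat_lit 4) (nat_lit 4) (nat_lit 426) (nat_lit 319) (nat_lit 275)) (XT.nd (nat_lit 78) (nat_lit 152) (nat_lit 0) (XT.lf (nat_lit 0) (nat_lit 622411312186) (nat_lit 76) (nat_lit 4739223500) (nat_lit 76) (nat_lit 1643149209) (nat_lit 3) (nat_lit 4) (nat_lit 4) (nat_lit 5) (nat_lit 4) (nat_lit 4) (nat_lit 427) (nat_lit 319) (nat_lit 274)) (XT.lf (nat_lit 0) (nat_lit 4217023050) (nat_lit 152) (nat_lit 673311123023) (nat_lit 0) (nat_lit 1261317001) (nat_lit 1) (nat_lit 5) (nat_lit 3) (nat_lit 4) (nat_lit 1) (nat_lit 4) (nat_lit 428) (nat_lit 319) (nat_lit 273)))) (XT.nd (nat_lit 78) (nat_lit 0)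 (nat_lit 0) (XT.lf (nat_lit 0) (nat_lit 10655267515) (nat_lit 152) (nat_lit 714426927760) (nat_lit 0) (nat_lit 7693020848) (nat_lit 1) (nat_lit 5) (nat_lit 3) (nat_lit 4) (nat_lit 1) (nat_lit 4) (nat_lit 429) (nat_lit 319) (nat_lit 272)) (XT.nd (nat_lit 78) (nat_lit 0) (nat_lit 0) (XT.lf (nat_lit 0) (nat_lit 17583706161) (nat_lit 152) (nat_lit 758881963879) (nat_lit 0) (nat_lit 14615403366) (nat_lit 1) (nat_lit 5) (nat_lit 3) (nat_lit 4) (nat_lit 1) (nat_lit 4) (nat_lit 430) (nat_lit 319) (nat_lit 271)) (XT.lf (nat_lit 0) (nat_lit 25043396400) (nat_lit 152) (nat_lit 806939668633) (nat_lit 0) (nat_lit 22069486080) (nat_lit 1) (nat_lit 5) (nat_lit 3) (nat_lit 4) (nat_lit 1) (nat_lit 4) (nat_lit 431) (nat_lit 319) (nat_lit 270))))) (XT.nd (nat_lit 234) (nat_lit 0) (nat_lit 0) (XT.nd (nat_lit 78) (nat_lit 0) (nat_lit 0) (XT.lf (nat_lit 0) (nat_lit 33078543805) (nat_lit 152) (nat_lit 858884828420)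 (nat_lit 0) (nat_lit 30099441332) (nat_lit 1) (nat_lit 5) (nat_lit 3) (nat_lit 4) (nat_lit 1) (nat_lit 4) (nat_lit 432) (nat_lit 319) (nat_lit 269)) (XT.nd (nat_lit 78) (nat_lit 0) (nat_lit 0) (XT.lf (nat_lit 0) (nat_lit 41736764064) (nat_lit 152) (nat_lit 915025266409) (nat_lit 0) (nat_lit 38752854043) (nat_lit 1) (nat_lit 5) (nat_lit 3) (nat_lit 4) (nat_lit 1) (nat_lit 4) (nat_lit 433) (nat_lit 319) (nat_lit 268)) (XT.lf (nat_lit 0) (nat_lit 51069365150) (nat_lit 152) (nat_lit 975693666677) (nat_lit 0) (nat_lit 48081003694) (nat_lit 1) (nat_lit 5) (nat_lit 3) (nat_lit 4) (nat_lit 1) (nat_lit 4) (nat_lit 434) (nat_lit 319) (nat_lit 267)))) (XT.nd (nat_lit 156) (nat_lit 0) (nat_lit 0) (XT.nd (nat_lit 78) (nat_lit 0) (nat_lit 0) (XT.lf (nat_lit 0) (nat_lit 61131651365) (nat_lit 152) (nat_lit 1041249545670) (nat_lit 0) (nat_lit 58139168210) (nat_lit 1) (nat_lit 5) (nat_lit 3) (nat_lit 4) (nat_lit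 1) (nat_lit 4) (nat_lit 435) (nat_lit 319) (nat_lit 266)) (XT.lf (nat_lit 0) (nat_lit 71983251071) (nat_lit 152) (nat_lit 1112081382671) (nat_lit 0) (nat_lit 68986951529) (nat_lit 1) (nat_lit 5) (nat_lit 3) (nat_lit 4) (nat_lit 1) (nat_lit 4) (nat_lit 436) (nat_lit 319) (nat_lit 265))) (XT.nd (nat_lit 78) (nat_lit 0) (nat_lit 0) (XT.lf (nat_lit 0) (nat_lit 83688470045) (nat_lit 152) (nat_lit 1188608921899) (nat_lit 0) (nat_lit 80688636810) (nat_lit 1) (nat_lit 5) (nat_lit 3) (nat_lit 4) (nat_lit 1) (nat_lit 4) (nat_lit 437) (nat_lit 319) (nat_lit 264)) (XT.lf (nat_lit 0) (nat_lit 96316672547) (nat_lit 152) (nat_lit 1271285659883) (nat_lit 0) (nat_lit 93313567375) (nat_lit 1) (nat_lit 5) (nat_lit 3) (nat_lit 4) (nat_lit 1) (nat_lit 4) (nat_lit 438) (nat_lit 319) (nat_lit 263))))))) (XT.nd (nat_lit 1014) (nat_lit 380) (nat_lit 0) (XT.nd (nat_lit 468) (nat_lit 304) (nat_lit 0) (XT.nd (nat_lit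 234) (nat_lit 228) (nat_lit 0) (XT.nd (nat_lit 78) (nat_lit 228) (nat_lit 0) (XT.lf (nat_lit 0) (nat_lit 2267518488) (nat_lit 152) (nat_lit 6776807350) (nat_lit 0) (nat_lit 2267518488) (nat_lit 19) (nat_lit 5) (nat_lit 21) (nat_lit 4) (nat_lit 19) (nat_lit 4) (nat_lit 380) (nat_lit 320) (nat_lit 320)) (XT.nd (nat_lit 78) (nat_lit 152) (nat_lit 0) (XT.lf (nat_lit 0) (nat_lit 6617031313) (nat_lit 76) (nat_lit 8799304237) (nat_lit 76) (nat_lit 8472963677) (nat_lit 18) (nat_lit 4) (nat_lit 19) (nat_lit 5) (nat_lit 19) (nat_lit 4) (nat_lit 381) (nat_lit 320) (nat_lit 319)) (XT.lf (nat_lit 0) (nat_lit 1597182295) (nat_lit 152) (nat_lit 22671594622) (nat_lit 0) (nat_lit 998603488) (nat_lit 16) (nat_lit 5) (nat_lit 18) (nat_lit 4) (nat_lit 16) (nat_lit 4) (nat_lit 382) (nat_lit 320) (nat_lit 318)))) (XT.nd (nat_lit 78) (nat_lit 228) (nat_lit 0) (XT.lf (nat_lit 0) (nat_lit 12100548931) (nat_lit 152)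 (nat_lit 3416514019) (nat_lit 0) (nat_lit 11235508762) (nat_lit 16) (nat_lit 5) (nat_lit 18) (nat_lit 4) (nat_lit 16) (nat_lit 4) (nat_lit 383) (nat_lit 320) (nat_lit 317)) (XT.nd (nat_lit 78) (nat_lit 152) (nat_lit 0) (XT.lf (nat_lit 0) (nat_lit 16949474943) (nat_lit 76) (nat_lit 6265186285) (nat_lit 76) (nat_lit 5153422632) (nat_lit 15) (nat_lit 4) (nat_lit 16) (nat_lit 5) (nat_lit 16) (nat_lit 4) (nat_lit 384) (nat_lit 320) (nat_lit 316)) (XT.lf (nat_lit 0) (nat_lit 4705552474) (nat_lit 152) (nat_lit 21985970391) (nat_lit 0) (nat_lit 3429160736) (nat_lit 13) (nat_lit 5) (nat_lit 15) (nat_lit 4) (nat_lit 13) (nat_lit 4) (nat_lit 385) (nat_lit 320) (nat_lit 315))))) (XT.nd (nat_lit 234) (nat_lit 76) (nat_lit 0) (XT.nd (nat_lit 78) (nat_lit 228) (nat_lit 0) (XT.lf (nat_lit 0) (nat_lit 15017542119) (nat_lit 152) (nat_lit 3459809278) (nat_lit 0) (nat_lit 13539697409) (nat_lit 13) (nat_lit 5)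 (nat_lit 15) (nat_lit 4) (nat_lit 13) (nat_lit 4) (nat_lit 386) (nat_lit 320) (nat_lit 314)) (XT.nd (nat_lit 78) (nat_lit 152) (nat_lit 0) (XT.lf (nat_lit 0) (nat_lit 16215095901) (nat_lit 76) (nat_lit 9761655859) (nat_lit 76) (nat_lit 8097280619) (nat_lit 12) (nat_lit 4) (nat_lit 13) (nat_lit 5) (nat_lit 13) (nat_lit 4) (nat_lit 387) (nat_lit 320) (nat_lit 313)) (XT.lf (nat_lit 0) (nat_lit 455744782) (nat_lit 76) (nat_lit 662710571) (nat_lit 152) (nat_lit 35193460065) (nat_lit 10) (nat_lit 5) (nat_lit 11) (nat_lit 5) (nat_lit 12) (nat_lit 4) (nat_lit 388) (nat_lit 320) (nat_lit 312)))) (XT.nd (nat_lit 156) (nat_lit 76) (nat_lit 0) (XT.nd (nat_lit 78) (nat_lit 0) (nat_lit 0) (XT.lf (nat_lit 0) (nat_lit 10844817006) (nat_lit 152) (nat_lit 18931636204) (nat_lit 0) (nat_lit 8942904094) (nat_lit 10) (nat_lit 5) (nat_lit 12) (nat_lit 4) (nat_lit 10) (nat_lit 4) (nat_lit 389) (nat_lit 320) (nat_lit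 311)) (XT.lf (nat_lit 0) (nat_lit 20984530951) (nat_lit 152) (nat_lit 1411522969) (nat_lit 0) (nat_lit 18941595230) (nat_lit 10) (nat_lit 5) (nat_lit 12) (nat_lit 4) (nat_lit 10) (nat_lit 4) (nat_lit 390) (nat_lit 320) (nat_lit 310))) (XT.nd (nat_lit 78) (nat_lit 0) (nat_lit 0) (XT.lf (nat_lit 0) (nat_lit 17374428961) (nat_lit 76) (nat_lit 14484172179) (nat_lit 76) (nat_lit 12310659784) (nat_lit 9) (nat_lit 4) (nat_lit 10) (nat_lit 5) (nat_lit 10) (nat_lit 4) (nat_lit 391) (nat_lit 320) (nat_lit 309)) (XT.lf (nat_lit 0) (nat_lit 37051868900) (nat_lit 76) (nat_lit 6242683048) (nat_lit 76) (nat_lit 3948266325) (nat_lit 9) (nat_lit 4) (nat_lit 10) (nat_lit 5) (nat_lit 10) (nat_lit 4) (nat_lit 392) (nat_lit 320) (nat_lit 308)))))) (XT.nd (nat_lit 468) (nat_lit 152) (nat_lit 0) (XT.nd (nat_lit 234) (nat_lit 76) (nat_lit 0) (XT.nd (nat_lit 78) (nat_lit 0) (nat_lit 0) (XT.lf (nat_lit 0) (nat_lit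 4760721631) (nat_lit 152) (nat_lit 43336623178) (nat_lit 0) (nat_lit 2468945274) (nat_lit 7) (nat_lit 5) (nat_lit 9) (nat_lit 4) (nat_lit 7) (nat_lit 4) (nat_lit 393) (nat_lit 320) (nat_lit 307)) (XT.nd (nat_lit 78) (nat_lit 0) (nat_lit 0) (XT.lf (nat_lit 0) (nat_lit 14011835597) (nat_lit 152) (nat_lit 28520053486) (nat_lit 0) (nat_lit 11621339265) (nat_lit 7) (nat_lit 5) (nat_lit 9) (nat_lit 4) (nat_lit 7) (nat_lit 4) (nat_lit 394) (nat_lit 320) (nat_lit 306)) (XT.lf (nat_lit 0) (nat_lit 23721735647) (nat_lit 152) (nat_lit 13079630124) (nat_lit 0) (nat_lit 21239831931) (nat_lit 7) (nat_lit 5) (nat_lit 9) (nat_lit 4) (nat_lit 7) (nat_lit 4) (nat_lit 395) (nat_lit 320) (nat_lit 305)))) (XT.nd (nat_lit 78) (nat_lit 0) (nat_lit 0) (XT.lf (nat_lit 0) (nat_lit 3177856981) (nat_lit 76) (nat_lit 30819720202) (nat_lit 76) (nat_lit 28253180018) (nat_lit 6) (nat_lit 4) (nat_lit 7) (nat_lit 5) (nat_lit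 7) (nat_lit 4) (nat_lit 396) (nat_lit 320) (nat_lit 304)) (XT.nd (nat_lit 78) (nat_lit 0) (nat_lit 0) (XT.lf (nat_lit 0) (nat_lit 20705724447) (nat_lit 76) (nat_lit 24368664243) (nat_lit 76) (nat_lit 21723756960) (nat_lit 6) (nat_lit 4) (nat_lit 7) (nat_lit 5) (nat_lit 7) (nat_lit 4) (nat_lit 397) (nat_lit 320) (nat_lit 303)) (XT.lf (nat_lit 0) (nat_lit 39175369475) (nat_lit 76) (nat_lit 17631479282) (nat_lit 76) (nat_lit 14914009871) (nat_lit 6) (nat_lit 4) (nat_lit 7) (nat_lit 5) (nat_lit 7) (nat_lit 4) (nat_lit 398) (nat_lit 320) (nat_lit 302))))) (XT.nd (nat_lit 234) (nat_lit 0) (nat_lit 0) (XT.nd (nat_lit 78) (nat_lit 152) (nat_lit 0) (XT.lf (nat_lit 0) (nat_lit 58696241813) (nat_lit 76) (nat_lit 10568241260) (nat_lit 76) (nat_lit 7783584692) (nat_lit 6) (nat_lit 4) (nat_lit 7) (nat_lit 5) (nat_lit 7) (nat_lit 4) (nat_lit 399) (nat_lit 320) (nat_lit 301)) (XT.nd (nat_lit 78) (nat_lit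 152) (nat_lit 0) (XT.lf (nat_lit 0) (nat_lit 79384020705) (nat_lit 76) (nat_lit 3137093951) (nat_lit 76) (nat_lit 290227053) (nat_lit 6) (nat_lit 4) (nat_lit 7) (nat_lit 5) (nat_lit 7) (nat_lit 4) (nat_lit 400) (nat_lit 320) (nat_lit 300)) (XT.lf (nat_lit 0) (nat_lit 7642268752) (nat_lit 152) (nat_lit 76506746500) (nat_lit 0) (nat_lit 4876107747) (nat_lit 4) (nat_lit 5) (nat_lit 6) (nat_lit 4) (nat_lit 4) (nat_lit 4) (nat_lit 401) (nat_lit 320) (nat_lit 299)))) (XT.nd (nat_lit 156) (nat_lit 0) (nat_lit 0) (XT.nd (nat_lit 78) (nat_lit 0) (nat_lit 0) (XT.lf (nat_lit 0) (nat_lit 16132378129) (nat_lit 152) (nat_lit 66291316144) (nat_lit 0) (nat_lit 13315421571) (nat_lit 4) (nat_lit 5) (nat_lit 6) (nat_lit 4) (nat_lit 4) (nat_lit 4) (nat_lit 402) (nat_lit 320) (nat_lit 298)) (XT.lf (nat_lit 0) (nat_lit 25134537496) (nat_lit 152) (nat_lit 55593506137) (nat_lit 0) (nat_lit 22270548018) (nat_lit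 4) (nat_lit 5) (nat_lit 6) (nat_lit 4) (nat_lit 4) (nat_lit 4) (nat_lit 403) (nat_lit 320) (nat_lit 297))) (XT.nd (nat_lit 78) (nat_lit 0) (nat_lit 0) (XT.lf (nat_lit 0) (nat_lit 34702092981) (nat_lit 152) (nat_lit 44349922049) (nat_lit 0) (nat_lit 31794554504) (nat_lit 4) (nat_lit 5) (nat_lit 6) (nat_lit 4) (nat_lit 4) (nat_lit 4) (nat_lit 404) (nat_lit 320) (nat_lit 296)) (XT.lf (nat_lit 0) (nat_lit 44891741212) (nat_lit 152) (nat_lit 32493935233) (nat_lit 0) (nat_lit 41943879586) (nat_lit 4) (nat_lit 5) (nat_lit 6) (nat_lit 4) (nat_lit 4) (nat_lit 4) (nat_lit 405) (nat_lit 320) (nat_lit 295))))))))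
noncomputable def xc17 : XT := (XT.nd (nat_lit 2028) (nat_lit 0) (nat_lit 0) (XT.nd (nat_lit 1014) (nat_lit 152) (nat_lit 0) (XT.nd (nat_lit 468) (nat_lit 0) (nat_lit 0) (XT.nd (nat_lit 234) (nat_lit 0) (nat_lit 0) (XT.nd (nat_lit 78) (nat_lit 76) (nat_lit 0) (XT.lf (nat_lit 0) (nat_lit 55763865287) (nat_lit 152) (nat_lit 19955287990) (nat_lit 0) (nat_lit 52778667413) (nat_lit 4) (nat_lit 5) (nat_lit 6) (nat_lit 4) (nat_lit 4) (nat_lit 4) (nat_lit 406) (nat_lit 320) (nat_lit 294)) (XT.nd (nat_lit 78) (nat_lit 76) (nat_lit 0) (XT.lf (nat_lit 0) (nat_lit 67382892609) (nat_lit 152) (nat_lit 6659677224) (nat_lit 0) (nat_lit 64363124135) (nat_lit 4) (nat_lit 5) (nat_lit 6) (nat_lit 4) (nat_lit 4) (nat_lit 4) (nat_lit 407) (nat_lit 320) (nat_lit 293)) (XT.lf (nat_lit 0) (nat_lit 7718733544) (nat_lit 76) (nat_lit 72219454191) (nat_lit 76) (nat_lit 69167675902) (nat_lit 3) (nat_lit 4) (nat_lit 4)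 (nat_lit 5) (nat_lit 4) (nat_lit 4) (nat_lit 408) (nat_lit 320) (nat_lit 292)))) (XT.nd (nat_lit 78) (nat_lit 0) (nat_lit 0) (XT.lf (nat_lit 0) (nat_lit 23267239672) (nat_lit 76) (nat_lit 70237932234) (nat_lit 76) (nat_lit 67156515228) (nat_lit 3) (nat_lit 4) (nat_lit 4) (nat_lit 5) (nat_lit 4) (nat_lit 4) (nat_lit 409) (nat_lit 320) (nat_lit 291)) (XT.nd (nat_lit 78) (nat_lit 0) (nat_lit 0) (XT.lf (nat_lit 0) (nat_lit 39857781448) (nat_lit 76) (nat_lit 68199046468) (nat_lit 76) (nat_lit 65090186205) (nat_lit 3) (nat_lit 4) (nat_lit 4) (nat_lit 5) (nat_lit 4) (nat_lit 4) (nat_lit 410) (nat_lit 320) (nat_lit 290)) (XT.lf (nat_lit 0) (nat_lit 57588673195) (nat_lit 76) (nat_lit 66090714606) (nat_lit 76) (nat_lit 62956443920) (nat_lit 3) (nat_lit 4) (nat_lit 4) (nat_lit 5) (nat_lit 4) (nat_lit 4) (nat_lit 411) (nat_lit 320) (nat_lit 289))))) (XT.nd (nat_lit 234) (nat_lit 0) (nat_lit 0) (XT.nd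 (nat_lit 78) (nat_lit 0) (nat_lit 0) (XT.lf (nat_lit 0) (nat_lit 76564986862) (nat_lit 76) (nat_lit 63900442829) (nat_lit 76) (nat_lit 60742643974) (nat_lit 3) (nat_lit 4) (nat_lit 4) (nat_lit 5) (nat_lit 4) (nat_lit 4) (nat_lit 412) (nat_lit 320) (nat_lit 288)) (XT.nd (nat_lit 78) (nat_lit 0) (nat_lit 0) (XT.lf (nat_lit 0) (nat_lit 96899174681) (nat_lit 76) (nat_lit 61615251750) (nat_lit 76) (nat_lit 58435667553) (nat_lit 3) (nat_lit 4) (nat_lit 4) (nat_lit 5) (nat_lit 4) (nat_lit 4) (nat_lit 413) (nat_lit 320) (nat_lit 287)) (XT.lf (nat_lit 0) (nat_lit 118711735540) (nat_lit 76) (nat_lit 59221599496) (nat_lit 76) (nat_lit 56021843686) (nat_lit 3) (nat_lit 4) (nat_lit 4) (nat_lit 5) (nat_lit 4) (nat_lit 4) (nat_lit 414) (nat_lit 320) (nat_lit 286)))) (XT.nd (nat_lit 156) (nat_lit 0) (nat_lit 0) (XT.nd (nat_lit 78) (nat_lit 0) (nat_lit 0) (XT.lf (nat_lit 0) (nat_lit 142131929060) (nat_lit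 76) (nat_lit 56705301460) (nat_lit 76) (nat_lit 53486868230) (nat_lit 3) (nat_lit 4) (nat_lit 4) (nat_lit 5) (nat_lit 4) (nat_lit 4) (nat_lit 415) (nat_lit 320) (nat_lit 285)) (XT.lf (nat_lit 0) (nat_lit 167298541574) (nat_lit 76) (nat_lit 54051446247) (nat_lit 76) (nat_lit 50815719110) (nat_lit 3) (nat_lit 4) (nat_lit 4) (nat_lit 5) (nat_lit 4) (nat_lit 4) (nat_lit 416) (nat_lit 320) (nat_lit 284))) (XT.nd (nat_lit 78) (nat_lit 0) (nat_lit 0) (XT.lf (nat_lit 0) (nat_lit 194360708562) (nat_lit 76) (nat_lit 51244307307) (nat_lit 76) (nat_lit 47992567294) (nat_lit 3) (nat_lit 4) (nat_lit 4) (nat_lit 5) (nat_lit 4) (nat_lit 4) (nat_lit 417) (nat_lit 320) (nat_lit 283)) (XT.lf (nat_lit 0) (nat_lit 223478798422) (nat_lit 76) (nat_lit 48267249743) (nat_lit 76) (nat_lit 45000682992) (nat_lit 3) (nat_lit 4) (nat_lit 4) (nat_lit 5) (nat_lit 4) (nat_lit 4) (nat_lit 418) (nat_lit 320) (nat_lit 282))))))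 (XT.nd (nat_lit 468) (nat_lit 152) (nat_lit 0) (XT.nd (nat_lit 234) (nat_lit 0) (nat_lit 0) (XT.nd (nat_lit 78) (nat_lit 0) (nat_lit 0) (XT.lf (nat_lit 0) (nat_lit 254825362797) (nat_lit 76) (nat_lit 45102631733) (nat_lit 76) (nat_lit 41822336521) (nat_lit 3) (nat_lit 4) (nat_lit 4) (nat_lit 5) (nat_lit 4) (nat_lit 4) (nat_lit 419) (nat_lit 320) (nat_lit 281)) (XT.nd (nat_lit 78) (nat_lit 0) (nat_lit 0) (XT.lf (nat_lit 0) (nat_lit 288586159106) (nat_lit 76) (nat_lit 41731699984) (nat_lit 76) (nat_lit 38438693233) (nat_lit 3) (nat_lit 4) (nat_lit 4) (nat_lit 5) (nat_lit 4) (nat_lit 4) (nat_lit 420) (nat_lit 320) (nat_lit 280)) (XT.lf (nat_lit 0) (nat_lit 324961251326) (nat_lit 76) (nat_lit 38134478604) (nat_lit 76) (nat_lit 34829701911) (nat_lit 3) (nat_lit 4) (nat_lit 4) (nat_lit 5) (nat_lit 4) (nat_lit 4) (nat_lit 421) (nat_lit 320) (nat_lit 279)))) (XT.nd (nat_lit 78) (nat_lit 0) (nat_lit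 0) (XT.lf (nat_lit 0) (nat_lit 364166195561) (nat_lit 76) (nat_lit 34289650726) (nat_lit 76) (nat_lit 30973975939) (nat_lit 3) (nat_lit 4) (nat_lit 4) (nat_lit 5) (nat_lit 4) (nat_lit 4) (nat_lit 422) (nat_lit 320) (nat_lit 278)) (XT.nd (nat_lit 78) (nat_lit 0) (nat_lit 0) (XT.lf (nat_lit 0) (nat_lit 406433317405) (nat_lit 76) (nat_lit 30174432186) (nat_lit 76) (nat_lit 26848666570) (nat_lit 3) (nat_lit 4) (nat_lit 4) (nat_lit 5) (nat_lit 4) (nat_lit 4) (nat_lit 423) (nat_lit 320) (nat_lit 277)) (XT.lf (nat_lit 0) (nat_lit 452013088691) (nat_lit 76) (nat_lit 25764436502) (nat_lit 76) (nat_lit 22429327526) (nat_lit 3) (nat_lit 4) (nat_lit 4) (nat_lit 5) (nat_lit 4) (nat_lit 4) (nat_lit 424) (nat_lit 320) (nat_lit 276))))) (XT.nd (nat_lit 234) (nat_lit 152) (nat_lit 0) (XT.nd (nat_lit 78) (nat_lit 0) (nat_lit 0) (XT.lf (nat_lit 0) (nat_lit 501175611769) (nat_lit 76) (nat_lit 21033530366) (nat_lit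 76) (nat_lit 17689770131) (nat_lit 3) (nat_lit 4) (nat_lit 4) (nat_lit 5) (nat_lit 4) (nat_lit 4) (nat_lit 425) (nat_lit 320) (nat_lit 275)) (XT.nd (nat_lit 78) (nat_lit 0) (nat_lit 0) (XT.lf (nat_lit 0) (nat_lit 554212220107) (nat_lit 76) (nat_lit 15953678781) (nat_lit 76) (nat_lit 12601908121) (nat_lit 3) (nat_lit 4) (nat_lit 4) (nat_lit 5) (nat_lit 4) (nat_lit 4) (nat_lit 426) (nat_lit 320) (nat_lit 274)) (XT.lf (nat_lit 0) (nat_lit 611437204719) (nat_lit 76) (nat_lit 10494778921) (nat_lit 76) (nat_lit 7135591200) (nat_lit 3) (nat_lit 4) (nat_lit 4) (nat_lit 5) (nat_lit 4) (nat_lit 4) (nat_lit 427) (nat_lit 320) (nat_lit 273)))) (XT.nd (nat_lit 156) (nat_lit 0) (nat_lit 0) (XT.nd (nat_lit 78) (nat_lit 152) (nat_lit 0) (XT.lf (nat_lit 0) (nat_lit 673189676624) (nat_lit 76) (nat_lit 4624481750) (nat_lit 76) (nat_lit 1258426381) (nat_lit 3) (nat_lit 4) (nat_lit 4) (nat_lit 5) (nat_lit 4)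 (nat_lit 4) (nat_lit 428) (nat_lit 320) (nat_lit 272)) (XT.lf (nat_lit 0) (nat_lit 5039498841) (nat_lit 152) (nat_lit 726201175828) (nat_lit 0) (nat_lit 1827675696) (nat_lit 1) (nat_lit 5) (nat_lit 3) (nat_lit 4) (nat_lit 1) (nat_lit 4) (nat_lit 429) (nat_lit 320) (nat_lit 271))) (XT.nd (nat_lit 78) (nat_lit 0) (nat_lit 0) (XT.lf (nat_lit 0) (nat_lit 11956868497) (nat_lit 152) (nat_lit 770678455095) (nat_lit 0) (nat_lit 8739437827) (nat_lit 1) (nat_lit 5) (nat_lit 3) (nat_lit 4) (nat_lit 1) (nat_lit 4) (nat_lit 430) (nat_lit 320) (nat_lit 270)) (XT.lf (nat_lit 0) (nat_lit 19406309672) (nat_lit 152) (nat_lit 818756755355) (nat_lit 0) (nat_lit 16183686849) (nat_lit 1) (nat_lit 5) (nat_lit 3) (nat_lit 4) (nat_lit 1) (nat_lit 4) (nat_lit 431) (nat_lit 320) (nat_lit 269))))))) (XT.nd (nat_lit 49374) (nat_lit 0) (nat_lit 380) (XT.nd (nat_lit 468) (nat_lit 0) (nat_lit 0) (XT.nd (nat_lit 234) (nat_lit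 0) (nat_lit 0) (XT.nd (nat_lit 78) (nat_lit 0) (nat_lit 0) (XT.lf (nat_lit 0) (nat_lit 27431967203) (nat_lit 152) (nat_lit 870720985055) (nat_lit 0) (nat_lit 24204536831) (nat_lit 1) (nat_lit 5) (nat_lit 3) (nat_lit 4) (nat_lit 1) (nat_lit 4) (nat_lit 432) (nat_lit 320) (nat_lit 268)) (XT.nd (nat_lit 78) (nat_lit 0) (nat_lit 0) (XT.lf (nat_lit 0) (nat_lit 36081400542) (nat_lit 152) (nat_lit 926879080370) (nat_lit 0) (nat_lit 32849518735) (nat_lit 1) (nat_lit 5) (nat_lit 3) (nat_lit 4) (nat_lit 1) (nat_lit 4) (nat_lit 433) (nat_lit 320) (nat_lit 267)) (XT.lf (nat_lit 0) (nat_lit 45405865590) (nat_lit 152) (nat_lit 987563830015) (nat_lit 0) (nat_lit 42169862085) (nat_lit 1) (nat_lit 5) (nat_lit 3) (nat_lit 4) (nat_lit 1) (nat_lit 4) (nat_lit 434) (nat_lit 320) (nat_lit 266)))) (XT.nd (nat_lit 78) (nat_lit 0) (nat_lit 0) (XT.lf (nat_lit 0) (nat_lit 55460618437) (nat_lit 152) (nat_lit 1053134847320)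 (nat_lit 0) (nat_lit 52220798544) (nat_lit 1) (nat_lit 5) (nat_lit 3) (nat_lit 4) (nat_lit 1) (nat_lit 4) (nat_lit 435) (nat_lit 320) (nat_lit 265)) (XT.nd (nat_lit 78) (nat_lit 0) (nat_lit 0) (XT.lf (nat_lit 0) (nat_lit 66305242802) (nat_lit 152) (nat_lit 1123980701276) (nat_lit 0) (nat_lit 63061889217) (nat_lit 1) (nat_lit 5) (nat_lit 3) (nat_lit 4) (nat_lit 1) (nat_lit 4) (nat_lit 436) (nat_lit 320) (nat_lit 264)) (XT.lf (nat_lit 0) (nat_lit 78004003127) (nat_lit 152) (nat_lit 1200521219166) (nat_lit 0) (nat_lit 74757377605) (nat_lit 1) (nat_lit 5) (nat_lit 3) (nat_lit 4) (nat_lit 1) (nat_lit 4) (nat_lit 437) (nat_lit 320) (nat_lit 263))))) (XT.nd (nat_lit 48594) (nat_lit 0) (nat_lit 1140) (XT.nd (nat_lit 48438) (nat_lit 0) (nat_lit 1520) (XT.lf (nat_lit 0) (nat_lit 90626225399) (nat_lit 152) (nat_lit 1283209974430) (nat_lit 0) (nat_lit 87376570305) (nat_lit 1) (nat_lit 5) (nat_lit 3)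 (nat_lit 4) (nat_lit 1) (nat_lit 4) (nat_lit 438) (nat_lit 320) (nat_lit 262)) (XT.nd (nat_lit 78) (nat_lit 76) (nat_lit 0) (XT.lf (nat_lit 0) (nat_lit 2584989920) (nat_lit 152) (nat_lit 5012306309) (nat_lit 0) (nat_lit 2584989920) (nat_lit 22) (nat_lit 5) (nat_lit 24) (nat_lit 4) (nat_lit 22) (nat_lit 4) (nat_lit 378) (nat_lit 321) (nat_lit 321)) (XT.lf (nat_lit 0) (nat_lit 10055245748) (nat_lit 76) (nat_lit 5884955713) (nat_lit 76) (nat_lit 5514885517) (nat_lit 21) (nat_lit 4) (nat_lit 22) (nat_lit 5) (nat_lit 22) (nat_lit 4) (nat_lit 379) (nat_lit 321) (nat_lit 320)))) (XT.nd (nat_lit 156) (nat_lit 152) (nat_lit 0) (XT.nd (nat_lit 78) (nat_lit 76) (nat_lit 0) (XT.lf (nat_lit 0) (nat_lit 4614886479) (nat_lit 152) (nat_lit 14086352646) (nat_lit 0) (nat_lit 3936098112) (nat_lit 19) (nat_lit 5) (nat_lit 21) (nat_lit 4) (nat_lit 19) (nat_lit 4) (nat_lit 380) (nat_lit 321) (nat_lit 319)) (XT.lf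 (nat_lit 0) (nat_lit 5557092841) (nat_lit 76) (nat_lit 9670137764) (nat_lit 76) (nat_lit 8689182212) (nat_lit 18) (nat_lit 4) (nat_lit 19) (nat_lit 5) (nat_lit 19) (nat_lit 4) (nat_lit 381) (nat_lit 321) (nat_lit 318))) (XT.nd (nat_lit 78) (nat_lit 0) (nat_lit 0) (XT.lf (nat_lit 0) (nat_lit 997364391) (nat_lit 76) (nat_lit 104149937) (nat_lit 152) (nat_lit 24207482186) (nat_lit 16) (nat_lit 5) (nat_lit 17) (nat_lit 5) (nat_lit 18) (nat_lit 4) (nat_lit 382) (nat_lit 321) (nat_lit 317)) (XT.lf (nat_lit 0) (nat_lit 11365681588) (nat_lit 152) (nat_lit 5522226956) (nat_lit 0) (nat_lit 9918253358) (nat_lit 16) (nat_lit 5) (nat_lit 18) (nat_lit 4) (nat_lit 16) (nat_lit 4) (nat_lit 383) (nat_lit 321) (nat_lit 316)))))) (XT.nd (nat_lit 546) (nat_lit 304) (nat_lit 0) (XT.nd (nat_lit 234) (nat_lit 228) (nat_lit 0) (XT.nd (nat_lit 78) (nat_lit 152) (nat_lit 0) (XT.lf (nat_lit 0) (nat_lit 14327144471)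 (nat_lit 76) (nat_lit 7891732204) (nat_lit 76) (nat_lit 6215856303) (nat_lit 15) (nat_lit 4) (nat_lit 16) (nat_lit 5) (nat_lit 16) (nat_lit 4) (nat_lit 384) (nat_lit 321) (nat_lit 315)) (XT.nd (nat_lit 78) (nat_lit 0) (nat_lit 0) (XT.lf (nat_lit 0) (nat_lit 3383909028) (nat_lit 152) (nat_lit 25232541539) (nat_lit 0) (nat_lit 1586383769) (nat_lit 13) (nat_lit 5) (nat_lit 15) (nat_lit 4) (nat_lit 13) (nat_lit 4) (nat_lit 385) (nat_lit 321) (nat_lit 314)) (XT.lf (nat_lit 0) (nat_lit 13488734123) (nat_lit 152) (nat_lit 7116155981) (nat_lit 0) (nat_lit 11504678334) (nat_lit 13) (nat_lit 5) (nat_lit 15) (nat_lit 4) (nat_lit 13) (nat_lit 4) (nat_lit 386) (nat_lit 321) (nat_lit 313)))) (XT.nd (nat_lit 156) (nat_lit 152) (nat_lit 0) (XT.nd (nat_lit 78) (nat_lit 0) (nat_lit 0) (XT.lf (nat_lit 0) (nat_lit 12045886655) (nat_lit 76) (nat_lit 12145145041) (nat_lit 76) (nat_lit 9988375798) (nat_lit 12)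 (nat_lit 4) (nat_lit 13) (nat_lit 5) (nat_lit 13) (nat_lit 4) (nat_lit 387) (nat_lit 321) (nat_lit 312)) (XT.lf (nat_lit 0) (nat_lit 32240108527) (nat_lit 76) (nat_lit 3252148053) (nat_lit 76) (nat_lit 935458946) (nat_lit 12) (nat_lit 4) (nat_lit 13) (nat_lit 5) (nat_lit 13) (nat_lit 4) (nat_lit 388) (nat_lit 321) (nat_lit 311))) (XT.nd (nat_lit 78) (nat_lit 0) (nat_lit 0) (XT.lf (nat_lit 0) (nat_lit 8531029433) (nat_lit 152) (nat_lit 24135720945) (nat_lit 0) (nat_lit 6183636046) (nat_lit 10) (nat_lit 5) (nat_lit 12) (nat_lit 4) (nat_lit 10) (nat_lit 4) (nat_lit 389) (nat_lit 321) (nat_lit 310)) (XT.lf (nat_lit 0) (nat_lit 18503395109) (nat_lit 152) (nat_lit 6948232996) (nat_lit 0) (nat_lit 16025425048) (nat_lit 10) (nat_lit 5) (nat_lit 12) (nat_lit 4) (nat_lit 10) (nat_lit 4) (nat_lit 390) (nat_lit 321) (nat_lit 309))))) (XT.nd (nat_lit 234) (nat_lit 76) (nat_lit 0) (XT.nd (nat_lit 78) (nat_lit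 152) (nat_lit 0) (XT.lf (nat_lit 0) (nat_lit 11336480500) (nat_lit 76) (nat_lit 17791763401) (nat_lit 76) (nat_lit 15192889012) (nat_lit 9) (nat_lit 4) (nat_lit 10) (nat_lit 5) (nat_lit 10) (nat_lit 4) (nat_lit 391) (nat_lit 321) (nat_lit 308)) (XT.nd (nat_lit 78) (nat_lit 152) (nat_lit 0) (XT.lf (nat_lit 0) (nat_lit 30719318775) (nat_lit 76) (nat_lit 9696802209) (nat_lit 76) (nat_lit 6985979368) (nat_lit 9) (nat_lit 4) (nat_lit 10) (nat_lit 5) (nat_lit 10) (nat_lit 4) (nat_lit 392) (nat_lit 321) (nat_lit 307)) (XT.lf (nat_lit 0) (nat_lit 327428915) (nat_lit 76) (nat_lit 1205209001) (nat_lit 152) (nat_lit 49209691075) (nat_lit 7) (nat_lit 5) (nat_lit 8) (nat_lit 5) (nat_lit 9) (nat_lit 4) (nat_lit 393) (nat_lit 321) (nat_lit 306)))) (XT.nd (nat_lit 156) (nat_lit 76) (nat_lit 0) (XT.nd (nat_lit 78) (nat_lit 0) (nat_lit 0) (XT.lf (nat_lit 0) (nat_lit 10629693350) (nat_lit 152) (nat_lit 35849452111)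 (nat_lit 0) (nat_lit 7857829952) (nat_lit 7) (nat_lit 5) (nat_lit 9) (nat_lit 4) (nat_lit 7) (nat_lit 4) (nat_lit 394) (nat_lit 321) (nat_lit 305)) (XT.lf (nat_lit 0) (nat_lit 20214369472) (nat_lit 152) (nat_lit 20658971727) (nat_lit 0) (nat_lit 17357869606) (nat_lit 7) (nat_lit 5) (nat_lit 9) (nat_lit 4) (nat_lit 7) (nat_lit 4) (nat_lit 395) (nat_lit 321) (nat_lit 304))) (XT.nd (nat_lit 78) (nat_lit 76) (nat_lit 0) (XT.lf (nat_lit 0) (nat_lit 30324647672) (nat_lit 152) (nat_lit 4734624573) (nat_lit 0) (nat_lit 27389780707) (nat_lit 7) (nat_lit 5) (nat_lit 9) (nat_lit 4) (nat_lit 7) (nat_lit 4) (nat_lit 396) (nat_lit 321) (nat_lit 303)) (XT.lf (nat_lit 0) (nat_lit 12415323747) (nat_lit 76) (nat_lit 28798954962) (nat_lit 76) (nat_lit 25791525868) (nat_lit 6) (nat_lit 4) (nat_lit 7) (nat_lit 5) (nat_lit 7) (nat_lit 4) (nat_lit 397) (nat_lit 321) (nat_lit 302))))))))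
noncomputable def xc18 : XT := (XT.nd (nat_lit 2028) (nat_lit 152) (nat_lit 0) (XT.nd (nat_lit 1014) (nat_lit 0) (nat_lit 0) (XT.nd (nat_lit 468) (nat_lit 76) (nat_lit 0) (XT.nd (nat_lit 234) (nat_lit 152) (nat_lit 0) (XT.nd (nat_lit 78) (nat_lit 0) (nat_lit 0) (XT.lf (nat_lit 0) (nat_lit 30679995557) (nat_lit 76) (nat_lit 22164136220) (nat_lit 76) (nat_lit 19089519970) (nat_lit 6) (nat_lit 4) (nat_lit 7) (nat_lit 5) (nat_lit 7) (nat_lit 4) (nat_lit 398) (nat_lit 321) (nat_lit 301)) (XT.nd (nat_lit 78) (nat_lit 0) (nat_lit 0) (XT.lf (nat_lit 0) (nat_lit 50011077879) (nat_lit 76) (nat_lit 15195681733) (nat_lit 76) (nat_lit 12058855154) (nat_lit 6) (nat_lit 4) (nat_lit 7) (nat_lit 5) (nat_lit 7) (nat_lit 4) (nat_lit 399) (nat_lit 321) (nat_lit 300)) (XT.lf (nat_lit 0) (nat_lit 70523125275) (nat_lit 76) (nat_lit 7852296957) (nat_lit 76) (nat_lit 4657868220) (nat_lit 6) (nat_lit 4) (nat_lit 7)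 (nat_lit 5) (nat_lit 7) (nat_lit 4) (nat_lit 400) (nat_lit 321) (nat_lit 299)))) (XT.nd (nat_lit 78) (nat_lit 0) (nat_lit 0) (XT.lf (nat_lit 0) (nat_lit 3105108789) (nat_lit 152) (nat_lit 86148840794) (nat_lit 0) (nat_lit 12000153) (nat_lit 4) (nat_lit 5) (nat_lit 6) (nat_lit 4) (nat_lit 4) (nat_lit 4) (nat_lit 401) (nat_lit 321) (nat_lit 298)) (XT.nd (nat_lit 78) (nat_lit 0) (nat_lit 0) (XT.lf (nat_lit 0) (nat_lit 11514853377) (nat_lit 152) (nat_lit 76094398312) (nat_lit 0) (nat_lit 8374711821) (nat_lit 4) (nat_lit 5) (nat_lit 6) (nat_lit 4) (nat_lit 4) (nat_lit 4) (nat_lit 402) (nat_lit 321) (nat_lit 297)) (XT.lf (nat_lit 0) (nat_lit 20442600902) (nat_lit 152) (nat_lit 65545651150) (nat_lit 0) (nat_lit 17258910346) (nat_lit 4) (nat_lit 5) (nat_lit 6) (nat_lit 4) (nat_lit 4) (nat_lit 4) (nat_lit 403) (nat_lit 321) (nat_lit 296))))) (XT.nd (nat_lit 234) (nat_lit 76) (nat_lit 0) (XT.nd (nat_lit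 78) (nat_lit 0) (nat_lit 0) (XT.lf (nat_lit 0) (nat_lit 29941256535) (nat_lit 152) (nat_lit 54440088215) (nat_lit 0) (nat_lit 26717242831) (nat_lit 4) (nat_lit 5) (nat_lit 6) (nat_lit 4) (nat_lit 4) (nat_lit 4) (nat_lit 404) (nat_lit 321) (nat_lit 295)) (XT.nd (nat_lit 78) (nat_lit 0) (nat_lit 0) (XT.lf (nat_lit 0) (nat_lit 40067108605) (nat_lit 152) (nat_lit 42711898764) (nat_lit 0) (nat_lit 36805758653) (nat_lit 4) (nat_lit 5) (nat_lit 6) (nat_lit 4) (nat_lit 4) (nat_lit 4) (nat_lit 405) (nat_lit 321) (nat_lit 294)) (XT.lf (nat_lit 0) (nat_lit 50880162161) (nat_lit 152) (nat_lit 30291582414) (nat_lit 0) (nat_lit 47584241610) (nat_lit 4) (nat_lit 5) (nat_lit 6) (nat_lit 4) (nat_lit 4) (nat_lit 4) (nat_lit 406) (nat_lit 321) (nat_lit 293)))) (XT.nd (nat_lit 156) (nat_lit 76) (nat_lit 0) (XT.nd (nat_lit 78) (nat_lit 0) (nat_lit 0) (XT.lf (nat_lit 0) (nat_lit 62444494558) (nat_lit 152) (nat_lit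 17105537290) (nat_lit 0) (nat_lit 59116564192) (nat_lit 4) (nat_lit 5) (nat_lit 6) (nat_lit 4) (nat_lit 4) (nat_lit 4) (nat_lit 407) (nat_lit 321) (nat_lit 292)) (XT.lf (nat_lit 0) (nat_lit 74828635174) (nat_lit 152) (nat_lit 3075623866) (nat_lit 0) (nat_lit 71471066090) (nat_lit 4) (nat_lit 5) (nat_lit 6) (nat_lit 4) (nat_lit 4) (nat_lit 4) (nat_lit 408) (nat_lit 321) (nat_lit 291))) (XT.nd (nat_lit 78) (nat_lit 0) (nat_lit 0) (XT.lf (nat_lit 0) (nat_lit 12274147456) (nat_lit 76) (nat_lit 76023457891) (nat_lit 76) (nat_lit 72638445550) (nat_lit 3) (nat_lit 4) (nat_lit 4) (nat_lit 5) (nat_lit 4) (nat_lit 4) (nat_lit 409) (nat_lit 321) (nat_lit 290)) (XT.lf (nat_lit 0) (nat_lit 28774836650) (nat_lit 76) (nat_lit 74029603262) (nat_lit 76) (nat_lit 70619180498) (nat_lit 3) (nat_lit 4) (nat_lit 4) (nat_lit 5) (nat_lit 4) (nat_lit 4) (nat_lit 410) (nat_lit 321) (nat_lit 289)))))) (XT.nd (nat_lit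 468) (nat_lit 0) (nat_lit 0) (XT.nd (nat_lit 234) (nat_lit 0) (nat_lit 0) (XT.nd (nat_lit 78) (nat_lit 0) (nat_lit 0) (XT.lf (nat_lit 0) (nat_lit 46422531560) (nat_lit 76) (nat_lit 71962966897) (nat_lit 76) (nat_lit 68529015964) (nat_lit 3) (nat_lit 4) (nat_lit 4) (nat_lit 5) (nat_lit 4) (nat_lit 4) (nat_lit 411) (nat_lit 321) (nat_lit 288)) (XT.nd (nat_lit 78) (nat_lit 0) (nat_lit 0) (XT.lf (nat_lit 0) (nat_lit 65321811121) (nat_lit 76) (nat_lit 69811302063) (nat_lit 76) (nat_lit 66355565788) (nat_lit 3) (nat_lit 4) (nat_lit 4) (nat_lit 5) (nat_lit 4) (nat_lit 4) (nat_lit 412) (nat_lit 321) (nat_lit 287)) (XT.lf (nat_lit 0) (nat_lit 85584671062) (nat_lit 76) (nat_lit 67561858153) (nat_lit 76) (nat_lit 64085950264) (nat_lit 3) (nat_lit 4) (nat_lit 4) (nat_lit 5) (nat_lit 4) (nat_lit 4) (nat_lit 413) (nat_lit 321) (nat_lit 286)))) (XT.nd (nat_lit 78) (nat_lit 0) (nat_lit 0) (XT.lf (nat_lit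 0) (nat_lit 107331187591) (nat_lit 76) (nat_lit 65201305129) (nat_lit 76) (nat_lit 61706719821) (nat_lit 3) (nat_lit 4) (nat_lit 4) (nat_lit 5) (nat_lit 4) (nat_lit 4) (nat_lit 414) (nat_lit 321) (nat_lit 285)) (XT.nd (nat_lit 78) (nat_lit 0) (nat_lit 0) (XT.lf (nat_lit 0) (nat_lit 130690228953) (nat_lit 76) (nat_lit 62715654528) (nat_lit 76) (nat_lit 59203775313) (nat_lit 3) (nat_lit 4) (nat_lit 4) (nat_lit 5) (nat_lit 4) (nat_lit 4) (nat_lit 415) (nat_lit 321) (nat_lit 284)) (XT.lf (nat_lit 0) (nat_lit 155800219098) (nat_lit 76) (nat_lit 60090176570) (nat_lit 76) (nat_lit 56562284478) (nat_lit 3) (nat_lit 4) (nat_lit 4) (nat_lit 5) (nat_lit 4) (nat_lit 4) (nat_lit 416) (nat_lit 321) (nat_lit 283))))) (XT.nd (nat_lit 234) (nat_lit 0) (nat_lit 0) (XT.nd (nat_lit 78) (nat_lit 0) (nat_lit 0) (XT.lf (nat_lit 0) (nat_lit 182809957967) (nat_lit 76) (nat_lit 57309312866) (nat_lit 76) (nat_lit 53766594037)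 (nat_lit 3) (nat_lit 4) (nat_lit 4) (nat_lit 5) (nat_lit 4) (nat_lit 4) (nat_lit 417) (nat_lit 321) (nat_lit 282)) (XT.nd (nat_lit 78) (nat_lit 0) (nat_lit 0) (XT.lf (nat_lit 0) (nat_lit 211879503273) (nat_lit 76) (nat_lit 54356584225) (nat_lit 76) (nat_lit 50800136934) (nat_lit 3) (nat_lit 4) (nat_lit 4) (nat_lit 5) (nat_lit 4) (nat_lit 4) (nat_lit 418) (nat_lit 321) (nat_lit 281)) (XT.lf (nat_lit 0) (nat_lit 243181118986) (nat_lit 76) (nat_lit 51214492994) (nat_lit 76) (nat_lit 47645334166) (nat_lit 3) (nat_lit 4) (nat_lit 4) (nat_lit 5) (nat_lit 4) (nat_lit 4) (nat_lit 419) (nat_lit 321) (nat_lit 280)))) (XT.nd (nat_lit 156) (nat_lit 0) (nat_lit 0) (XT.nd (nat_lit 78) (nat_lit 0) (nat_lit 0) (XT.lf (nat_lit 0) (nat_lit 276900296164) (nat_lit 76) (nat_lit 47864419374) (nat_lit 76) (nat_lit 44283490604) (nat_lit 3) (nat_lit 4) (nat_lit 4) (nat_lit 5) (nat_lit 4) (nat_lit 4) (nat_lit 420)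 (nat_lit 321) (nat_lit 279)) (XT.lf (nat_lit 0) (nat_lit 313236852152) (nat_lit 76) (nat_lit 44286511077) (nat_lit 76) (nat_lit 40694684212) (nat_lit 3) (nat_lit 4) (nat_lit 4) (nat_lit 5) (nat_lit 4) (nat_lit 4) (nat_lit 421) (nat_lit 321) (nat_lit 278))) (XT.nd (nat_lit 78) (nat_lit 0) (nat_lit 0) (XT.lf (nat_lit 0) (nat_lit 352406114689) (nat_lit 76) (nat_lit 40459565684) (nat_lit 76) (nat_lit 36857647990) (nat_lit 3) (nat_lit 4) (nat_lit 4) (nat_lit 5) (nat_lit 4) (nat_lit 4) (nat_lit 422) (nat_lit 321) (nat_lit 277)) (XT.lf (nat_lit 0) (nat_lit 394640197925) (nat_lit 76) (nat_lit 36360904999) (nat_lit 76) (nat_lit 32749643945) (nat_lit 3) (nat_lit 4) (nat_lit 4) (nat_lit 5) (nat_lit 4) (nat_lit 4) (nat_lit 423) (nat_lit 321) (nat_lit 276))))))) (XT.nd (nat_lit 1014) (nat_lit 0) (nat_lit 0) (XT.nd (nat_lit 468) (nat_lit 152) (nat_lit 0) (XT.nd (nat_lit 234) (nat_lit 0) (nat_lit 0) (XT.nd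 (nat_lit 78) (nat_lit 0) (nat_lit 0) (XT.lf (nat_lit 0) (nat_lit 440189377908) (nat_lit 76) (nat_lit 31966240663) (nat_lit 76) (nat_lit 28346328350) (nat_lit 3) (nat_lit 4) (nat_lit 4) (nat_lit 5) (nat_lit 4) (nat_lit 4) (nat_lit 424) (nat_lit 321) (nat_lit 275)) (XT.nd (nat_lit 78) (nat_lit 0) (nat_lit 0) (XT.lf (nat_lit 0) (nat_lit 489323575704) (nat_lit 76) (nat_lit 27249530220) (nat_lit 76) (nat_lit 23621607482) (nat_lit 3) (nat_lit 4) (nat_lit 4) (nat_lit 5) (nat_lit 4) (nat_lit 4) (nat_lit 425) (nat_lit 321) (nat_lit 274)) (XT.lf (nat_lit 0) (nat_lit 542333956930) (nat_lit 76) (nat_lit 22182822794) (nat_lit 76) (nat_lit 18547482996) (nat_lit 3) (nat_lit 4) (nat_lit 4) (nat_lit 5) (nat_lit 4) (nat_lit 4) (nat_lit 426) (nat_lit 321) (nat_lit 273)))) (XT.nd (nat_lit 78) (nat_lit 0) (nat_lit 0) (XT.lf (nat_lit 0) (nat_lit 599534657178) (nat_lit 76) (nat_lit 16736093453) (nat_lit 76) (nat_lit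 13093886006) (nat_lit 3) (nat_lit 4) (nat_lit 4) (nat_lit 5) (nat_lit 4) (nat_lit 4) (nat_lit 427) (nat_lit 321) (nat_lit 272)) (XT.nd (nat_lit 78) (nat_lit 0) (nat_lit 0) (XT.lf (nat_lit 0) (nat_lit 661264643562) (nat_lit 76) (nat_lit 10877065280) (nat_lit 76) (nat_lit 7228498900) (nat_lit 3) (nat_lit 4) (nat_lit 4) (nat_lit 5) (nat_lit 4) (nat_lit 4) (nat_lit 428) (nat_lit 321) (nat_lit 271)) (XT.lf (nat_lit 0) (nat_lit 727889723407) (nat_lit 76) (nat_lit 4571018110) (nat_lit 76) (nat_lit 916563828) (nat_lit 3) (nat_lit 4) (nat_lit 4) (nat_lit 5) (nat_lit 4) (nat_lit 4) (nat_lit 429) (nat_lit 321) (nat_lit 270))))) (XT.nd (nat_lit 234) (nat_lit 0) (nat_lit 0) (XT.nd (nat_lit 78) (nat_lit 0) (nat_lit 0) (XT.lf (nat_lit 0) (nat_lit 5858565767) (nat_lit 152) (nat_lit 783461504260) (nat_lit 0) (nat_lit 2372940965) (nat_lit 1) (nat_lit 5) (nat_lit 3) (nat_lit 4) (nat_lit 1) (nat_lit 4) (nat_lit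 430) (nat_lit 321) (nat_lit 269)) (XT.nd (nat_lit 78) (nat_lit 0) (nat_lit 0) (XT.lf (nat_lit 0) (nat_lit 13298517068) (nat_lit 152) (nat_lit 831558874433) (nat_lit 0) (nat_lit 9808084717) (nat_lit 1) (nat_lit 5) (nat_lit 3) (nat_lit 4) (nat_lit 1) (nat_lit 4) (nat_lit 431) (nat_lit 321) (nat_lit 268)) (XT.lf (nat_lit 0) (nat_lit 21315387679) (nat_lit 152) (nat_lit 883540761459) (nat_lit 0) (nat_lit 17820503893) (nat_lit 1) (nat_lit 5) (nat_lit 3) (nat_lit 4) (nat_lit 1) (nat_lit 4) (nat_lit 432) (nat_lit 321) (nat_lit 267)))) (XT.nd (nat_lit 156) (nat_lit 0) (nat_lit 0) (XT.nd (nat_lit 78) (nat_lit 0) (nat_lit 0) (XT.lf (nat_lit 0) (nat_lit 29956684980) (nat_lit 152) (nat_lit 939715206152) (nat_lit 0) (nat_lit 26457679496) (nat_lit 1) (nat_lit 5) (nat_lit 3) (nat_lit 4) (nat_lit 1) (nat_lit 4) (nat_lit 433) (nat_lit 321) (nat_lit 266)) (XT.lf (nat_lit 0) (nat_lit 39273616661) (nat_lit 152)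 (nat_lit 1000415094108) (nat_lit 0) (nat_lit 35770794789) (nat_lit 1) (nat_lit 5) (nat_lit 3) (nat_lit 4) (nat_lit 1) (nat_lit 4) (nat_lit 434) (nat_lit 321) (nat_lit 265))) (XT.nd (nat_lit 78) (nat_lit 0) (nat_lit 0) (XT.lf (nat_lit 0) (nat_lit 49321394166) (nat_lit 152) (nat_lit 1066000128368) (nat_lit 0) (nat_lit 45815038602) (nat_lit 1) (nat_lit 5) (nat_lit 3) (nat_lit 4) (nat_lit 1) (nat_lit 4) (nat_lit 435) (nat_lit 321) (nat_lit 264)) (XT.lf (nat_lit 0) (nat_lit 60159559883) (nat_lit 152) (nat_lit 1136858960987) (nat_lit 0) (nat_lit 56649932382) (nat_lit 1) (nat_lit 5) (nat_lit 3) (nat_lit 4) (nat_lit 1) (nat_lit 4) (nat_lit 436) (nat_lit 321) (nat_lit 263)))))) (XT.nd (nat_lit 48672) (nat_lit 0) (nat_lit 912) (XT.nd (nat_lit 48438) (nat_lit 0) (nat_lit 1520) (XT.nd (nat_lit 78) (nat_lit 0) (nat_lit 0) (XT.lf (nat_lit 0) (nat_lit 71852339977) (nat_lit 152) (nat_lit 1213411496157) (nat_lit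 0) (nat_lit 68339682905) (nat_lit 1) (nat_lit 5) (nat_lit 3) (nat_lit 4) (nat_lit 1) (nat_lit 4) (nat_lit 437) (nat_lit 321) (nat_lit 262)) (XT.nd (nat_lit 48282) (nat_lit 0) (nat_lit 1824) (XT.lf (nat_lit 0) (nat_lit 84469024999) (nat_lit 152) (nat_lit 1296111378532) (nat_lit 0) (nat_lit 80953562767) (nat_lit 1) (nat_lit 5) (nat_lit 3) (nat_lit 4) (nat_lit 1) (nat_lit 4) (nat_lit 438) (nat_lit 321) (nat_lit 261)) (XT.lf (nat_lit 0) (nat_lit 2100140143) (nat_lit 152) (nat_lit 5007252252) (nat_lit 0) (nat_lit 2100140143) (nat_lit 25) (nat_lit 5) (nat_lit 27) (nat_lit 4) (nat_lit 25) (nat_lit 4) (nat_lit 376) (nat_lit 322) (nat_lit 322)))) (XT.nd (nat_lit 78) (nat_lit 228) (nat_lit 0) (XT.lf (nat_lit 0) (nat_lit 9570148657) (nat_lit 76) (nat_lit 5103648348) (nat_lit 76) (nat_lit 4683988746) (nat_lit 24) (nat_lit 4) (nat_lit 25) (nat_lit 5) (nat_lit 25) (nat_lit 4) (nat_lit 377) (nat_lit 322)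 (nat_lit 321)) (XT.nd (nat_lit 78) (nat_lit 76) (nat_lit 0) (XT.lf (nat_lit 0) (nat_lit 5301318729) (nat_lit 152) (nat_lit 10545118864) (nat_lit 0) (nat_lit 4531572722) (nat_lit 22) (nat_lit 5) (nat_lit 24) (nat_lit 4) (nat_lit 22) (nat_lit 4) (nat_lit 378) (nat_lit 322) (nat_lit 320)) (XT.lf (nat_lit 0) (nat_lit 9019643536) (nat_lit 76) (nat_lit 6787268046) (nat_lit 76) (nat_lit 5674864450) (nat_lit 21) (nat_lit 4) (nat_lit 22) (nat_lit 5) (nat_lit 22) (nat_lit 4) (nat_lit 379) (nat_lit 322) (nat_lit 319))))) (XT.nd (nat_lit 234) (nat_lit 304) (nat_lit 0) (XT.nd (nat_lit 78) (nat_lit 152) (nat_lit 0) (XT.lf (nat_lit 0) (nat_lit 4176119798) (nat_lit 152) (nat_lit 15687723450) (nat_lit 0) (nat_lit 2814520617) (nat_lit 19) (nat_lit 5) (nat_lit 21) (nat_lit 4) (nat_lit 19) (nat_lit 4) (nat_lit 380) (nat_lit 322) (nat_lit 318)) (XT.nd (nat_lit 78) (nat_lit 76) (nat_lit 0) (XT.lf (nat_lit 0) (nat_lit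 3430934779) (nat_lit 76) (nat_lit 11090624750) (nat_lit 76) (nat_lit 9449241137) (nat_lit 18) (nat_lit 4) (nat_lit 19) (nat_lit 5) (nat_lit 19) (nat_lit 4) (nat_lit 381) (nat_lit 322) (nat_lit 317)) (XT.lf (nat_lit 0) (nat_lit 123318356) (nat_lit 152) (nat_lit 1647640640) (nat_lit 76) (nat_lit 23605155998) (nat_lit 17) (nat_lit 5) (nat_lit 19) (nat_lit 5) (nat_lit 18) (nat_lit 4) (nat_lit 382) (nat_lit 322) (nat_lit 316)))) (XT.nd (nat_lit 156) (nat_lit 152) (nat_lit 0) (XT.nd (nat_lit 78) (nat_lit 76) (nat_lit 0) (XT.lf (nat_lit 0) (nat_lit 10114476270) (nat_lit 152) (nat_lit 8696385020) (nat_lit 0) (nat_lit 8076082627) (nat_lit 16) (nat_lit 5) (nat_lit 18) (nat_lit 4) (nat_lit 16) (nat_lit 4) (nat_lit 383) (nat_lit 322) (nat_lit 315)) (XT.lf (nat_lit 0) (nat_lit 10634151856) (nat_lit 76) (nat_lit 10072180720) (nat_lit 76) (nat_lit 7822261456) (nat_lit 15) (nat_lit 4) (nat_lit 16) (nat_lit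 5) (nat_lit 16) (nat_lit 4) (nat_lit 384) (nat_lit 322) (nat_lit 314))) (XT.nd (nat_lit 78) (nat_lit 0) (nat_lit 0) (XT.lf (nat_lit 0) (nat_lit 708342210) (nat_lit 76) (nat_lit 830252195) (nat_lit 152) (nat_lit 28773881902) (nat_lit 13) (nat_lit 5) (nat_lit 14) (nat_lit 5) (nat_lit 15) (nat_lit 4) (nat_lit 385) (nat_lit 322) (nat_lit 313)) (XT.lf (nat_lit 0) (nat_lit 11438637908) (nat_lit 152) (nat_lit 11854207787) (nat_lit 0) (nat_lit 8936613673) (nat_lit 13) (nat_lit 5) (nat_lit 15) (nat_lit 4) (nat_lit 13) (nat_lit 4) (nat_lit 386) (nat_lit 322) (nat_lit 312))))))))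
noncomputable def xc19 : XT := (XT.nd (nat_lit 2028) (nat_lit 152) (nat_lit 0) (XT.nd (nat_lit 1014) (nat_lit 228) (nat_lit 0) (XT.nd (nat_lit 468) (nat_lit 228) (nat_lit 0) (XT.nd (nat_lit 234) (nat_lit 76) (nat_lit 0) (XT.nd (nat_lit 78) (nat_lit 152) (nat_lit 0) (XT.lf (nat_lit 0) (nat_lit 6788240858) (nat_lit 76) (nat_lit 15092997827) (nat_lit 76) (nat_lit 12431053727) (nat_lit 12) (nat_lit 4) (nat_lit 13) (nat_lit 5) (nat_lit 13) (nat_lit 4) (nat_lit 387) (nat_lit 322) (nat_lit 311)) (XT.nd (nat_lit 78) (nat_lit 152) (nat_lit 0) (XT.lf (nat_lit 0) (nat_lit 26646414025) (nat_lit 76) (nat_lit 6366348983) (nat_lit 76) (nat_lit 3556330934) (nat_lit 12) (nat_lit 4) (nat_lit 13) (nat_lit 5) (nat_lit 13) (nat_lit 4) (nat_lit 388) (nat_lit 322) (nat_lit 310)) (XT.lf (nat_lit 0) (nat_lit 5684054455) (nat_lit 152) (nat_lit 30447993060) (nat_lit 0) (nat_lit 2877270115) (nat_lit 10) (nat_lit 5)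 (nat_lit 12) (nat_lit 4) (nat_lit 10) (nat_lit 4) (nat_lit 389) (nat_lit 322) (nat_lit 309)))) (XT.nd (nat_lit 78) (nat_lit 76) (nat_lit 0) (XT.lf (nat_lit 0) (nat_lit 15501468030) (nat_lit 152) (nat_lit 13568491487) (nat_lit 0) (nat_lit 12573779362) (nat_lit 10) (nat_lit 5) (nat_lit 12) (nat_lit 4) (nat_lit 10) (nat_lit 4) (nat_lit 390) (nat_lit 322) (nat_lit 308)) (XT.nd (nat_lit 78) (nat_lit 0) (nat_lit 0) (XT.lf (nat_lit 0) (nat_lit 4202724701) (nat_lit 76) (nat_lit 21668740033) (nat_lit 76) (nat_lit 18629102913) (nat_lit 9) (nat_lit 4) (nat_lit 10) (nat_lit 5) (nat_lit 10) (nat_lit 4) (nat_lit 391) (nat_lit 322) (nat_lit 307)) (XT.lf (nat_lit 0) (nat_lit 23312783659) (nat_lit 76) (nat_lit 13709452858) (nat_lit 76) (nat_lit 10566159764) (nat_lit 9) (nat_lit 4) (nat_lit 10) (nat_lit 5) (nat_lit 10) (nat_lit 4) (nat_lit 392) (nat_lit 322) (nat_lit 306))))) (XT.nd (nat_lit 234) (nat_lit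 76) (nat_lit 0) (XT.nd (nat_lit 78) (nat_lit 152) (nat_lit 0) (XT.lf (nat_lit 0) (nat_lit 43426294573) (nat_lit 76) (nat_lit 5374720816) (nat_lit 76) (nat_lit 2135449969) (nat_lit 9) (nat_lit 4) (nat_lit 10) (nat_lit 5) (nat_lit 10) (nat_lit 4) (nat_lit 393) (nat_lit 322) (nat_lit 305)) (XT.nd (nat_lit 78) (nat_lit 0) (nat_lit 0) (XT.lf (nat_lit 0) (nat_lit 6716513952) (nat_lit 152) (nat_lit 44285084019) (nat_lit 0) (nat_lit 3546857630) (nat_lit 7) (nat_lit 5) (nat_lit 9) (nat_lit 4) (nat_lit 7) (nat_lit 4) (nat_lit 394) (nat_lit 322) (nat_lit 304)) (XT.lf (nat_lit 0) (nat_lit 16185241991) (nat_lit 152) (nat_lit 29326032318) (nat_lit 0) (nat_lit 12937218570) (nat_lit 7) (nat_lit 5) (nat_lit 9) (nat_lit 4) (nat_lit 7) (nat_lit 4) (nat_lit 395) (nat_lit 322) (nat_lit 303)))) (XT.nd (nat_lit 156) (nat_lit 0) (nat_lit 0) (XT.nd (nat_lit 78) (nat_lit 76) (nat_lit 0) (XT.lf (nat_lit 0) (nat_lit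 26188160856) (nat_lit 152) (nat_lit 13615970982) (nat_lit 0) (nat_lit 22867575306) (nat_lit 7) (nat_lit 5) (nat_lit 9) (nat_lit 4) (nat_lit 7) (nat_lit 4) (nat_lit 396) (nat_lit 322) (nat_lit 302)) (XT.lf (nat_lit 0) (nat_lit 3035346699) (nat_lit 76) (nat_lit 33796590673) (nat_lit 76) (nat_lit 30408817967) (nat_lit 6) (nat_lit 4) (nat_lit 7) (nat_lit 5) (nat_lit 7) (nat_lit 4) (nat_lit 397) (nat_lit 322) (nat_lit 301))) (XT.nd (nat_lit 78) (nat_lit 0) (nat_lit 0) (XT.lf (nat_lit 0) (nat_lit 21110228493) (nat_lit 76) (nat_lit 27256555467) (nat_lit 76) (nat_lit 23806572431) (nat_lit 6) (nat_lit 4) (nat_lit 7) (nat_lit 5) (nat_lit 7) (nat_lit 4) (nat_lit 398) (nat_lit 322) (nat_lit 300)) (XT.lf (nat_lit 0) (nat_lit 40265579319) (nat_lit 76) (nat_lit 20375863514) (nat_lit 76) (nat_lit 16868278320) (nat_lit 6) (nat_lit 4) (nat_lit 7) (nat_lit 5) (nat_lit 7) (nat_lit 4) (nat_lit 399) (nat_lit 322)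 (nat_lit 299)))))) (XT.nd (nat_lit 468) (nat_lit 76) (nat_lit 0) (XT.nd (nat_lit 234) (nat_lit 0) (nat_lit 0) (XT.nd (nat_lit 78) (nat_lit 152) (nat_lit 0) (XT.lf (nat_lit 0) (nat_lit 60614912367) (nat_lit 76) (nat_lit 13113740343) (nat_lit 76) (nat_lit 9552819818) (nat_lit 6) (nat_lit 4) (nat_lit 7) (nat_lit 5) (nat_lit 7) (nat_lit 4) (nat_lit 400) (nat_lit 322) (nat_lit 298)) (XT.nd (nat_lit 78) (nat_lit 152) (nat_lit 0) (XT.lf (nat_lit 0) (nat_lit 82278816276) (nat_lit 76) (nat_lit 5427151150) (nat_lit 76) (nat_lit 1816846060) (nat_lit 6) (nat_lit 4) (nat_lit 7) (nat_lit 5) (nat_lit 7) (nat_lit 4) (nat_lit 401) (nat_lit 322) (nat_lit 297)) (XT.lf (nat_lit 0) (nat_lit 6373150014) (nat_lit 152) (nat_lit 86991777772) (nat_lit 0) (nat_lit 2891215215) (nat_lit 4) (nat_lit 5) (nat_lit 6) (nat_lit 4) (nat_lit 4) (nat_lit 4) (nat_lit 402) (nat_lit 322) (nat_lit 296)))) (XT.nd (nat_lit 78) (nat_lit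 0) (nat_lit 0) (XT.lf (nat_lit 0) (nat_lit 15231997686) (nat_lit 152) (nat_lit 76581051764) (nat_lit 0) (nat_lit 11709739739) (nat_lit 4) (nat_lit 5) (nat_lit 6) (nat_lit 4) (nat_lit 4) (nat_lit 4) (nat_lit 403) (nat_lit 322) (nat_lit 295)) (XT.nd (nat_lit 78) (nat_lit 0) (nat_lit 0) (XT.lf (nat_lit 0) (nat_lit 24666857159) (nat_lit 152) (nat_lit 65603286193) (nat_lit 0) (nat_lit 21107262963) (nat_lit 4) (nat_lit 5) (nat_lit 6) (nat_lit 4) (nat_lit 4) (nat_lit 4) (nat_lit 404) (nat_lit 322) (nat_lit 294)) (XT.lf (nat_lit 0) (nat_lit 34733638710) (nat_lit 152) (nat_lit 53993427635) (nat_lit 0) (nat_lit 31139473914) (nat_lit 4) (nat_lit 5) (nat_lit 6) (nat_lit 4) (nat_lit 4) (nat_lit 4) (nat_lit 405) (nat_lit 322) (nat_lit 293))))) (XT.nd (nat_lit 234) (nat_lit 76) (nat_lit 0) (XT.nd (nat_lit 78) (nat_lit 0) (nat_lit 0) (XT.lf (nat_lit 0) (nat_lit 45491997342) (nat_lit 152) (nat_lit 41682676926)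 (nat_lit 0) (nat_lit 41865822731) (nat_lit 4) (nat_lit 5) (nat_lit 6) (nat_lit 4) (nat_lit 4) (nat_lit 4) (nat_lit 406) (nat_lit 322) (nat_lit 292)) (XT.nd (nat_lit 78) (nat_lit 0) (nat_lit 0) (XT.lf (nat_lit 0) (nat_lit 57005686290) (nat_lit 152) (nat_lit 28598081471) (nat_lit 0) (nat_lit 53349872962) (nat_lit 4) (nat_lit 5) (nat_lit 6) (nat_lit 4) (nat_lit 4) (nat_lit 4) (nat_lit 407) (nat_lit 322) (nat_lit 291)) (XT.lf (nat_lit 0) (nat_lit 69342934823) (nat_lit 152) (nat_lit 14662102925) (nat_lit 0) (nat_lit 65659678238) (nat_lit 4) (nat_lit 5) (nat_lit 6) (nat_lit 4) (nat_lit 4) (nat_lit 4) (nat_lit 408) (nat_lit 322) (nat_lit 290)))) (XT.nd (nat_lit 156) (nat_lit 0) (nat_lit 0) (XT.nd (nat_lit 78) (nat_lit 0) (nat_lit 0) (XT.lf (nat_lit 0) (nat_lit 214714491) (nat_lit 76) (nat_lit 82365490365) (nat_lit 76) (nat_lit 78656823358) (nat_lit 3) (nat_lit 4) (nat_lit 4) (nat_lit 5) (nat_lit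 4) (nat_lit 4) (nat_lit 409) (nat_lit 322) (nat_lit 289)) (XT.lf (nat_lit 0) (nat_lit 16632206849) (nat_lit 76) (nat_lit 80413331234) (nat_lit 76) (nat_lit 76681136057) (nat_lit 3) (nat_lit 4) (nat_lit 4) (nat_lit 5) (nat_lit 4) (nat_lit 4) (nat_lit 410) (nat_lit 322) (nat_lit 288))) (XT.nd (nat_lit 78) (nat_lit 0) (nat_lit 0) (XT.lf (nat_lit 0) (nat_lit 34202867652) (nat_lit 76) (nat_lit 78385301811) (nat_lit 76) (nat_lit 74631321292) (nat_lit 3) (nat_lit 4) (nat_lit 4) (nat_lit 5) (nat_lit 4) (nat_lit 4) (nat_lit 411) (nat_lit 322) (nat_lit 287)) (XT.lf (nat_lit 0) (nat_lit 53030819336) (nat_lit 76) (nat_lit 76269384146) (nat_lit 76) (nat_lit 72495232013) (nat_lit 3) (nat_lit 4) (nat_lit 4) (nat_lit 5) (nat_lit 4) (nat_lit 4) (nat_lit 412) (nat_lit 322) (nat_lit 286))))))) (XT.nd (nat_lit 1014) (nat_lit 152) (nat_lit 0) (XT.nd (nat_lit 468) (nat_lit 0) (nat_lit 0) (XT.nd (nat_lit 234) (nat_lit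 0) (nat_lit 0) (XT.nd (nat_lit 78) (nat_lit 0) (nat_lit 0) (XT.lf (nat_lit 0) (nat_lit 73227634946) (nat_lit 76) (nat_lit 74053039466) (nat_lit 76) (nat_lit 70260209914) (nat_lit 3) (nat_lit 4) (nat_lit 4) (nat_lit 5) (nat_lit 4) (nat_lit 4) (nat_lit 413) (nat_lit 322) (nat_lit 285)) (XT.nd (nat_lit 78) (nat_lit 0) (nat_lit 0) (XT.lf (nat_lit 0) (nat_lit 94912999317) (nat_lit 76) (nat_lit 71723133877) (nat_lit 76) (nat_lit 67913010418) (nat_lit 3) (nat_lit 4) (nat_lit 4) (nat_lit 5) (nat_lit 4) (nat_lit 4) (nat_lit 414) (nat_lit 322) (nat_lit 284)) (XT.lf (nat_lit 0) (nat_lit 118215418311) (nat_lit 76) (nat_lit 69265860532) (nat_lit 76) (nat_lit 65439724196) (nat_lit 3) (nat_lit 4) (nat_lit 4) (nat_lit 5) (nat_lit 4) (nat_lit 4) (nat_lit 415) (nat_lit 322) (nat_lit 283)))) (XT.nd (nat_lit 78) (nat_lit 0) (nat_lit 0) (XT.lf (nat_lit 0) (nat_lit 143272980337) (nat_lit 76) (nat_lit 66666657810)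 (nat_lit 76) (nat_lit 62825694736) (nat_lit 3) (nat_lit 4) (nat_lit 4) (nat_lit 5) (nat_lit 4) (nat_lit 4) (nat_lit 416) (nat_lit 322) (nat_lit 282)) (XT.nd (nat_lit 78) (nat_lit 0) (nat_lit 0) (XT.lf (nat_lit 0) (nat_lit 170234174652) (nat_lit 76) (nat_lit 63910123028) (nat_lit 76) (nat_lit 60055431494) (nat_lit 3) (nat_lit 4) (nat_lit 4) (nat_lit 5) (nat_lit 4) (nat_lit 4) (nat_lit 417) (nat_lit 322) (nat_lit 281)) (XT.lf (nat_lit 0) (nat_lit 199258771295) (nat_lit 76) (nat_lit 60979921167) (nat_lit 76) (nat_lit 57112518094) (nat_lit 3) (nat_lit 4) (nat_lit 4) (nat_lit 5) (nat_lit 4) (nat_lit 4) (nat_lit 418) (nat_lit 322) (nat_lit 280))))) (XT.nd (nat_lit 234) (nat_lit 0) (nat_lit 0) (XT.nd (nat_lit 78) (nat_lit 0) (nat_lit 0) (XT.lf (nat_lit 0) (nat_lit 230518767877) (nat_lit 76) (nat_lit 57858688065) (nat_lit 76) (nat_lit 53979515051) (nat_lit 3) (nat_lit 4) (nat_lit 4) (nat_lit 5) (nat_lit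 4) (nat_lit 4) (nat_lit 419) (nat_lit 322) (nat_lit 279)) (XT.nd (nat_lit 78) (nat_lit 0) (nat_lit 0) (XT.lf (nat_lit 0) (nat_lit 264199408822) (nat_lit 76) (nat_lit 54527927529) (nat_lit 76) (nat_lit 50637856419) (nat_lit 3) (nat_lit 4) (nat_lit 4) (nat_lit 5) (nat_lit 4) (nat_lit 4) (nat_lit 420) (nat_lit 322) (nat_lit 278)) (XT.lf (nat_lit 0) (nat_lit 300500283114) (nat_lit 76) (nat_lit 50967901716) (nat_lit 76) (nat_lit 47067739778) (nat_lit 3) (nat_lit 4) (nat_lit 4) (nat_lit 5) (nat_lit 4) (nat_lit 4) (nat_lit 421) (nat_lit 322) (nat_lit 277)))) (XT.nd (nat_lit 156) (nat_lit 0) (nat_lit 0) (XT.nd (nat_lit 78) (nat_lit 0) (nat_lit 0) (XT.lf (nat_lit 0) (nat_lit 339636507043) (nat_lit 76) (nat_lit 47157514178) (nat_lit 76) (nat_lit 43248008880) (nat_lit 3) (nat_lit 4) (nat_lit 4) (nat_lit 5) (nat_lit 4) (nat_lit 4) (nat_lit 422) (nat_lit 322) (nat_lit 276)) (XT.lf (nat_lit 0) (nat_lit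 381839998975) (nat_lit 76) (nat_lit 43074184841) (nat_lit 76) (nat_lit 39156028284) (nat_lit 3) (nat_lit 4) (nat_lit 4) (nat_lit 5) (nat_lit 4) (nat_lit 4) (nat_lit 423) (nat_lit 322) (nat_lit 275))) (XT.nd (nat_lit 78) (nat_lit 0) (nat_lit 0) (XT.lf (nat_lit 0) (nat_lit 427360853676) (nat_lit 76) (nat_lit 38693716198) (nat_lit 76) (nat_lit 34767549215) (nat_lit 3) (nat_lit 4) (nat_lit 4) (nat_lit 5) (nat_lit 4) (nat_lit 4) (nat_lit 424) (nat_lit 322) (nat_lit 274)) (XT.lf (nat_lit 0) (nat_lit 476468824360) (nat_lit 76) (nat_lit 33990149915) (nat_lit 76) (nat_lit 30056565872) (nat_lit 3) (nat_lit 4) (nat_lit 4) (nat_lit 5) (nat_lit 4) (nat_lit 4) (nat_lit 425) (nat_lit 322) (nat_lit 273)))))) (XT.nd (nat_lit 546) (nat_lit 0) (nat_lit 0) (XT.nd (nat_lit 234) (nat_lit 152) (nat_lit 0) (XT.nd (nat_lit 78) (nat_lit 0) (nat_lit 0) (XT.lf (nat_lit 0) (nat_lit 529454921223) (nat_lit 76) (nat_lit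 28935613007) (nat_lit 76) (nat_lit 24995161316) (nat_lit 3) (nat_lit 4) (nat_lit 4) (nat_lit 5) (nat_lit 4) (nat_lit 4) (nat_lit 426) (nat_lit 322) (nat_lit 272)) (XT.nd (nat_lit 78) (nat_lit 0) (nat_lit 0) (XT.lf (nat_lit 0) (nat_lit 586633135949) (nat_lit 76) (nat_lit 23500152664) (nat_lit 76) (nat_lit 19553342039) (nat_lit 3) (nat_lit 4) (nat_lit 4) (nat_lit 5) (nat_lit 4) (nat_lit 4) (nat_lit 427) (nat_lit 322) (nat_lit 271)) (XT.lf (nat_lit 0) (nat_lit 648342302406) (nat_lit 76) (nat_lit 17651558749) (nat_lit 76) (nat_lit 13698860223) (nat_lit 3) (nat_lit 4) (nat_lit 4) (nat_lit 5) (nat_lit 4) (nat_lit 4) (nat_lit 428) (nat_lit 322) (nat_lit 270)))) (XT.nd (nat_lit 156) (nat_lit 152) (nat_lit 0) (XT.nd (nat_lit 78) (nat_lit 0) (nat_lit 0) (XT.lf (nat_lit 0) (nat_lit 714948104540) (nat_lit 76) (nat_lit 11355172928) (nat_lit 76) (nat_lit 7397022641) (nat_lit 3) (nat_lit 4) (nat_lit 4)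 (nat_lit 5) (nat_lit 4) (nat_lit 4) (nat_lit 429) (nat_lit 322) (nat_lit 269)) (XT.lf (nat_lit 0) (nat_lit 786845243403) (nat_lit 76) (nat_lit 4573683286) (nat_lit 76) (nat_lit 610485073) (nat_lit 3) (nat_lit 4) (nat_lit 4) (nat_lit 5) (nat_lit 4) (nat_lit 4) (nat_lit 430) (nat_lit 322) (nat_lit 268))) (XT.nd (nat_lit 78) (nat_lit 0) (nat_lit 0) (XT.lf (nat_lit 0) (nat_lit 6683824262) (nat_lit 152) (nat_lit 845421890277) (nat_lit 0) (nat_lit 2904898338) (nat_lit 1) (nat_lit 5) (nat_lit 3) (nat_lit 4) (nat_lit 1) (nat_lit 4) (nat_lit 431) (nat_lit 322) (nat_lit 267)) (XT.lf (nat_lit 0) (nat_lit 14692558835) (nat_lit 152) (nat_lit 897420126680) (nat_lit 0) (nat_lit 10909511213) (nat_lit 1) (nat_lit 5) (nat_lit 3) (nat_lit 4) (nat_lit 1) (nat_lit 4) (nat_lit 432) (nat_lit 322) (nat_lit 266))))) (XT.nd (nat_lit 234) (nat_lit 0) (nat_lit 0) (XT.nd (nat_lit 78) (nat_lit 0) (nat_lit 0) (XT.lf (nat_lit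 0) (nat_lit 23326322768) (nat_lit 152) (nat_lit 953609709685) (nat_lit 0) (nat_lit 19539458759) (nat_lit 1) (nat_lit 5) (nat_lit 3) (nat_lit 4) (nat_lit 1) (nat_lit 4) (nat_lit 433) (nat_lit 322) (nat_lit 265)) (XT.nd (nat_lit 78) (nat_lit 0) (nat_lit 0) (XT.lf (nat_lit 0) (nat_lit 32636279107) (nat_lit 152) (nat_lit 1014323614596) (nat_lit 0) (nat_lit 28845881406) (nat_lit 1) (nat_lit 5) (nat_lit 3) (nat_lit 4) (nat_lit 1) (nat_lit 4) (nat_lit 434) (nat_lit 322) (nat_lit 264)) (XT.lf (nat_lit 0) (nat_lit 42677597964) (nat_lit 152) (nat_lit 1079921627519) (nat_lit 0) (nat_lit 38883928326) (nat_lit 1) (nat_lit 5) (nat_lit 3) (nat_lit 4) (nat_lit 1) (nat_lit 4) (nat_lit 435) (nat_lit 322) (nat_lit 263)))) (XT.nd (nat_lit 156) (nat_lit 0) (nat_lit 0) (XT.nd (nat_lit 78) (nat_lit 0) (nat_lit 0) (XT.lf (nat_lit 0) (nat_lit 53509783450) (nat_lit 152) (nat_lit 1150792477417) (nat_lit 0) (nat_lit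 49713084240) (nat_lit 1) (nat_lit 5) (nat_lit 3) (nat_lit 4) (nat_lit 1) (nat_lit 4) (nat_lit 436) (nat_lit 322) (nat_lit 262)) (XT.lf (nat_lit 0) (nat_lit 65197026295) (nat_lit 152) (nat_lit 1227356139698) (nat_lit 0) (nat_lit 61397521926) (nat_lit 1) (nat_lit 5) (nat_lit 3) (nat_lit 4) (nat_lit 1) (nat_lit 4) (nat_lit 437) (nat_lit 322) (nat_lit 261))) (XT.nd (nat_lit 48126) (nat_lit 0) (nat_lit 2052) (XT.lf (nat_lit 0) (nat_lit 77808584232) (nat_lit 152) (nat_lit 1310066324954) (nat_lit 0) (nat_lit 74006482494) (nat_lit 1) (nat_lit 5) (nat_lit 3) (nat_lit 4) (nat_lit 1) (nat_lit 4) (nat_lit 438) (nat_lit 322) (nat_lit 260)) (XT.lf (nat_lit 0) (nat_lit 1087696676) (nat_lit 152) (nat_lit 6187484104) (nat_lit 0) (nat_lit 1087696676) (nat_lit 28) (nat_lit 5) (nat_lit 30) (nat_lit 4) (nat_lit 28) (nat_lit 4) (nat_lit 374) (nat_lit 323) (nat_lit 323))))))))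
noncomputable def xc20 : XT := (XT.nd (nat_lit 2028) (nat_lit 228) (nat_lit 0) (XT.nd (nat_lit 1014) (nat_lit 456) (nat_lit 0) (XT.nd (nat_lit 468) (nat_lit 532) (nat_lit 0) (XT.nd (nat_lit 234) (nat_lit 380) (nat_lit 0) (XT.nd (nat_lit 78) (nat_lit 228) (nat_lit 0) (XT.lf (nat_lit 0) (nat_lit 6441881882) (nat_lit 76) (nat_lit 5788502941) (nat_lit 76) (nat_lit 5312608952) (nat_lit 27) (nat_lit 4) (nat_lit 28) (nat_lit 5) (nat_lit 28) (nat_lit 4) (nat_lit 375) (nat_lit 323) (nat_lit 322)) (XT.nd (nat_lit 78) (nat_lit 76) (nat_lit 0) (XT.lf (nat_lit 0) (nat_lit 4389175699) (nat_lit 152) (nat_lit 10522846505) (nat_lit 0) (nat_lit 3516283727) (nat_lit 25) (nat_lit 5) (nat_lit 27) (nat_lit 4) (nat_lit 25) (nat_lit 4) (nat_lit 376) (nat_lit 323) (nat_lit 321)) (XT.lf (nat_lit 0) (nat_lit 8558748499) (nat_lit 76) (nat_lit 6043396686) (nat_lit 76) (nat_lit 4781931009) (nat_lit 24) (nat_lit 4) (nat_lit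 25) (nat_lit 5) (nat_lit 25) (nat_lit 4) (nat_lit 377) (nat_lit 323) (nat_lit 320)))) (XT.nd (nat_lit 78) (nat_lit 228) (nat_lit 0) (XT.lf (nat_lit 0) (nat_lit 4926367690) (nat_lit 152) (nat_lit 12109722084) (nat_lit 0) (nat_lit 3382314218) (nat_lit 22) (nat_lit 5) (nat_lit 24) (nat_lit 4) (nat_lit 22) (nat_lit 4) (nat_lit 378) (nat_lit 323) (nat_lit 319)) (XT.nd (nat_lit 78) (nat_lit 152) (nat_lit 0) (XT.lf (nat_lit 0) (nat_lit 6942302210) (nat_lit 76) (nat_lit 8227169551) (nat_lit 76) (nat_lit 6365840534) (nat_lit 21) (nat_lit 4) (nat_lit 22) (nat_lit 5) (nat_lit 22) (nat_lit 4) (nat_lit 379) (nat_lit 323) (nat_lit 318)) (XT.lf (nat_lit 0) (nat_lit 3216136838) (nat_lit 152) (nat_lit 18367216715) (nat_lit 0) (nat_lit 1163658105) (nat_lit 19) (nat_lit 5) (nat_lit 21) (nat_lit 4) (nat_lit 19) (nat_lit 4) (nat_lit 380) (nat_lit 323) (nat_lit 317))))) (XT.nd (nat_lit 234) (nat_lit 304) (nat_lit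 0) (XT.nd (nat_lit 78) (nat_lit 152) (nat_lit 0) (XT.lf (nat_lit 0) (nat_lit 225957673) (nat_lit 76) (nat_lit 13069182899) (nat_lit 76) (nat_lit 10757644507) (nat_lit 18) (nat_lit 4) (nat_lit 19) (nat_lit 5) (nat_lit 19) (nat_lit 4) (nat_lit 381) (nat_lit 323) (nat_lit 316)) (XT.nd (nat_lit 78) (nat_lit 152) (nat_lit 0) (XT.lf (nat_lit 0) (nat_lit 20121060065) (nat_lit 76) (nat_lit 3949447571) (nat_lit 76) (nat_lit 1398039125) (nat_lit 18) (nat_lit 4) (nat_lit 19) (nat_lit 5) (nat_lit 19) (nat_lit 4) (nat_lit 382) (nat_lit 323) (nat_lit 315)) (XT.lf (nat_lit 0) (nat_lit 8339518428) (nat_lit 152) (nat_lit 12957798036) (nat_lit 0) (nat_lit 5698080001) (nat_lit 16) (nat_lit 5) (nat_lit 18) (nat_lit 4) (nat_lit 16) (nat_lit 4) (nat_lit 383) (nat_lit 323) (nat_lit 314)))) (XT.nd (nat_lit 156) (nat_lit 228) (nat_lit 0) (XT.nd (nat_lit 78) (nat_lit 0) (nat_lit 0) (XT.lf (nat_lit 0) (nat_lit 5848612697)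 (nat_lit 76) (nat_lit 12819453011) (nat_lit 76) (nat_lit 9982157528) (nat_lit 15) (nat_lit 4) (nat_lit 16) (nat_lit 5) (nat_lit 16) (nat_lit 4) (nat_lit 384) (nat_lit 323) (nat_lit 313)) (XT.lf (nat_lit 0) (nat_lit 25884192915) (nat_lit 76) (nat_lit 3789680298) (nat_lit 76) (nat_lit 771035688) (nat_lit 15) (nat_lit 4) (nat_lit 16) (nat_lit 5) (nat_lit 16) (nat_lit 4) (nat_lit 385) (nat_lit 323) (nat_lit 312))) (XT.nd (nat_lit 78) (nat_lit 76) (nat_lit 0) (XT.lf (nat_lit 0) (nat_lit 8855104758) (nat_lit 152) (nat_lit 17702042039) (nat_lit 0) (nat_lit 5820285265) (nat_lit 13) (nat_lit 5) (nat_lit 15) (nat_lit 4) (nat_lit 13) (nat_lit 4) (nat_lit 386) (nat_lit 323) (nat_lit 311)) (XT.lf (nat_lit 0) (nat_lit 411002091) (nat_lit 76) (nat_lit 18622682974) (nat_lit 76) (nat_lit 15439789533) (nat_lit 12) (nat_lit 4) (nat_lit 13) (nat_lit 5) (nat_lit 13) (nat_lit 4) (nat_lit 387) (nat_lit 323) (nat_lit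 310)))))) (XT.nd (nat_lit 468) (nat_lit 228) (nat_lit 0) (XT.nd (nat_lit 234) (nat_lit 76) (nat_lit 0) (XT.nd (nat_lit 78) (nat_lit 152) (nat_lit 0) (XT.lf (nat_lit 0) (nat_lit 19958019050) (nat_lit 76) (nat_lit 10050060189) (nat_lit 76) (nat_lit 6730061239) (nat_lit 12) (nat_lit 4) (nat_lit 13) (nat_lit 5) (nat_lit 13) (nat_lit 4) (nat_lit 388) (nat_lit 323) (nat_lit 309)) (XT.nd (nat_lit 78) (nat_lit 0) (nat_lit 0) (XT.lf (nat_lit 0) (nat_lit 1274369995) (nat_lit 76) (nat_lit 1028712194) (nat_lit 152) (nat_lit 36893207493) (nat_lit 10) (nat_lit 5) (nat_lit 11) (nat_lit 5) (nat_lit 12) (nat_lit 4) (nat_lit 389) (nat_lit 323) (nat_lit 308)) (XT.lf (nat_lit 0) (nat_lit 11960960517) (nat_lit 152) (nat_lit 21311529604) (nat_lit 0) (nat_lit 8566203976) (nat_lit 10) (nat_lit 5) (nat_lit 12) (nat_lit 4) (nat_lit 10) (nat_lit 4) (nat_lit 390) (nat_lit 323) (nat_lit 307)))) (XT.nd (nat_lit 78) (nat_lit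 76) (nat_lit 0) (XT.lf (nat_lit 0) (nat_lit 22132494460) (nat_lit 152) (nat_lit 3938875527) (nat_lit 0) (nat_lit 18634081945) (nat_lit 10) (nat_lit 5) (nat_lit 12) (nat_lit 4) (nat_lit 10) (nat_lit 4) (nat_lit 391) (nat_lit 323) (nat_lit 306)) (XT.nd (nat_lit 78) (nat_lit 0) (nat_lit 0) (XT.lf (nat_lit 0) (nat_lit 14788372973) (nat_lit 76) (nat_lit 18304413666) (nat_lit 76) (nat_lit 14710023397) (nat_lit 9) (nat_lit 4) (nat_lit 10) (nat_lit 5) (nat_lit 10) (nat_lit 4) (nat_lit 392) (nat_lit 323) (nat_lit 305)) (XT.lf (nat_lit 0) (nat_lit 34668019589) (nat_lit 76) (nat_lit 10086000226) (nat_lit 76) (nat_lit 6402741667) (nat_lit 9) (nat_lit 4) (nat_lit 10) (nat_lit 5) (nat_lit 10) (nat_lit 4) (nat_lit 393) (nat_lit 323) (nat_lit 304))))) (XT.nd (nat_lit 234) (nat_lit 76) (nat_lit 0) (XT.nd (nat_lit 78) (nat_lit 0) (nat_lit 0) (XT.lf (nat_lit 0) (nat_lit 889339142) (nat_lit 76) (nat_lit 1381335567)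 (nat_lit 152) (nat_lit 52517169093) (nat_lit 7) (nat_lit 5) (nat_lit 8) (nat_lit 5) (nat_lit 9) (nat_lit 4) (nat_lit 394) (nat_lit 323) (nat_lit 303)) (XT.nd (nat_lit 78) (nat_lit 0) (nat_lit 0) (XT.lf (nat_lit 0) (nat_lit 11610476895) (nat_lit 152) (nat_lit 39132172258) (nat_lit 0) (nat_lit 7951682372) (nat_lit 7) (nat_lit 5) (nat_lit 9) (nat_lit 4) (nat_lit 7) (nat_lit 4) (nat_lit 395) (nat_lit 323) (nat_lit 302)) (XT.lf (nat_lit 0) (nat_lit 21513988968) (nat_lit 152) (nat_lit 23620523716) (nat_lit 0) (nat_lit 17788007289) (nat_lit 7) (nat_lit 5) (nat_lit 9) (nat_lit 4) (nat_lit 7) (nat_lit 4) (nat_lit 396) (nat_lit 323) (nat_lit 301)))) (XT.nd (nat_lit 156) (nat_lit 0) (nat_lit 0) (XT.nd (nat_lit 78) (nat_lit 76) (nat_lit 0) (XT.lf (nat_lit 0) (nat_lit 32018331889) (nat_lit 152) (nat_lit 7250071635) (nat_lit 0) (nat_lit 28230139880) (nat_lit 7) (nat_lit 5) (nat_lit 9) (nat_lit 4) (nat_lit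 7) (nat_lit 4) (nat_lit 397) (nat_lit 323) (nat_lit 300)) (XT.lf (nat_lit 0) (nat_lit 10409358552) (nat_lit 76) (nat_lit 32938914323) (nat_lit 76) (nat_lit 29093120157) (nat_lit 6) (nat_lit 4) (nat_lit 7) (nat_lit 5) (nat_lit 7) (nat_lit 4) (nat_lit 398) (nat_lit 323) (nat_lit 299))) (XT.nd (nat_lit 78) (nat_lit 0) (nat_lit 0) (XT.lf (nat_lit 0) (nat_lit 29401995029) (nat_lit 76) (nat_lit 26139483975) (nat_lit 76) (nat_lit 22240354478) (nat_lit 6) (nat_lit 4) (nat_lit 7) (nat_lit 5) (nat_lit 7) (nat_lit 4) (nat_lit 399) (nat_lit 323) (nat_lit 298)) (XT.lf (nat_lit 0) (nat_lit 49600666643) (nat_lit 76) (nat_lit 18952603031) (nat_lit 76) (nat_lit 15004088968) (nat_lit 6) (nat_lit 4) (nat_lit 7) (nat_lit 5) (nat_lit 7) (nat_lit 4) (nat_lit 400) (nat_lit 323) (nat_lit 297))))))) (XT.nd (nat_lit 1014) (nat_lit 0) (nat_lit 0) (XT.nd (nat_lit 468) (nat_lit 76) (nat_lit 0) (XT.nd (nat_lit 234) (nat_lit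 0) (nat_lit 0) (XT.nd (nat_lit 78) (nat_lit 152) (nat_lit 0) (XT.lf (nat_lit 0) (nat_lit 71125069225) (nat_lit 76) (nat_lit 11335682567) (nat_lit 76) (nat_lit 7341442054) (nat_lit 6) (nat_lit 4) (nat_lit 7) (nat_lit 5) (nat_lit 7) (nat_lit 4) (nat_lit 401) (nat_lit 323) (nat_lit 296)) (XT.nd (nat_lit 78) (nat_lit 76) (nat_lit 0) (XT.lf (nat_lit 0) (nat_lit 767613763) (nat_lit 152) (nat_lit 2462971601) (nat_lit 76) (nat_lit 93322141115) (nat_lit 5) (nat_lit 5) (nat_lit 7) (nat_lit 5) (nat_lit 6) (nat_lit 4) (nat_lit 402) (nat_lit 323) (nat_lit 295)) (XT.lf (nat_lit 0) (nat_lit 9471850200) (nat_lit 152) (nat_lit 88765102944) (nat_lit 0) (nat_lit 5590152221) (nat_lit 4) (nat_lit 5) (nat_lit 6) (nat_lit 4) (nat_lit 4) (nat_lit 4) (nat_lit 403) (nat_lit 323) (nat_lit 294)))) (XT.nd (nat_lit 78) (nat_lit 0) (nat_lit 0) (XT.lf (nat_lit 0) (nat_lit 18847639154) (nat_lit 152) (nat_lit 77905668267)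 (nat_lit 0) (nat_lit 14931370575) (nat_lit 4) (nat_lit 5) (nat_lit 6) (nat_lit 4) (nat_lit 4) (nat_lit 4) (nat_lit 404) (nat_lit 323) (nat_lit 293)) (XT.nd (nat_lit 78) (nat_lit 0) (nat_lit 0) (XT.lf (nat_lit 0) (nat_lit 28859725780) (nat_lit 152) (nat_lit 66405375350) (nat_lit 0) (nat_lit 24911447386) (nat_lit 4) (nat_lit 5) (nat_lit 6) (nat_lit 4) (nat_lit 4) (nat_lit 4) (nat_lit 405) (nat_lit 323) (nat_lit 292)) (XT.lf (nat_lit 0) (nat_lit 39567440963) (nat_lit 152) (nat_lit 54196074310) (nat_lit 0) (nat_lit 35589523851) (nat_lit 4) (nat_lit 5) (nat_lit 6) (nat_lit 4) (nat_lit 4) (nat_lit 4) (nat_lit 406) (nat_lit 323) (nat_lit 291))))) (XT.nd (nat_lit 234) (nat_lit 76) (nat_lit 0) (XT.nd (nat_lit 78) (nat_lit 0) (nat_lit 0) (XT.lf (nat_lit 0) (nat_lit 51034237829) (nat_lit 152) (nat_lit 41205413732) (nat_lit 0) (nat_lit 47028877461) (nat_lit 4) (nat_lit 5) (nat_lit 6) (nat_lit 4) (nat_lit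 4) (nat_lit 4) (nat_lit 407) (nat_lit 323) (nat_lit 290)) (XT.nd (nat_lit 78) (nat_lit 0) (nat_lit 0) (XT.lf (nat_lit 0) (nat_lit 63328067767) (nat_lit 152) (nat_lit 27356411926) (nat_lit 0) (nat_lit 59297296976) (nat_lit 4) (nat_lit 5) (nat_lit 6) (nat_lit 4) (nat_lit 4) (nat_lit 4) (nat_lit 408) (nat_lit 323) (nat_lit 289)) (XT.lf (nat_lit 0) (nat_lit 76521783103) (nat_lit 152) (nat_lit 12567000731) (nat_lit 0) (nat_lit 72467484143) (nat_lit 4) (nat_lit 5) (nat_lit 6) (nat_lit 4) (nat_lit 4) (nat_lit 4) (nat_lit 409) (nat_lit 323) (nat_lit 288)))) (XT.nd (nat_lit 156) (nat_lit 0) (nat_lit 0) (XT.nd (nat_lit 78) (nat_lit 0) (nat_lit 0) (XT.lf (nat_lit 0) (nat_lit 3357935721) (nat_lit 76) (nat_lit 87388059883) (nat_lit 76) (nat_lit 83311975580) (nat_lit 3) (nat_lit 4) (nat_lit 4) (nat_lit 5) (nat_lit 4) (nat_lit 4) (nat_lit 410) (nat_lit 323) (nat_lit 287)) (XT.lf (nat_lit 0) (nat_lit 20857268647)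 (nat_lit 76) (nat_lit 85395777630) (nat_lit 76) (nat_lit 81299521714) (nat_lit 3) (nat_lit 4) (nat_lit 4) (nat_lit 5) (nat_lit 4) (nat_lit 4) (nat_lit 411) (nat_lit 323) (nat_lit 286))) (XT.nd (nat_lit 78) (nat_lit 0) (nat_lit 0) (XT.lf (nat_lit 0) (nat_lit 39619176000) (nat_lit 76) (nat_lit 83312959194) (nat_lit 76) (nat_lit 79198025859) (nat_lit 3) (nat_lit 4) (nat_lit 4) (nat_lit 5) (nat_lit 4) (nat_lit 4) (nat_lit 412) (nat_lit 323) (nat_lit 285)) (XT.lf (nat_lit 0) (nat_lit 59754839452) (nat_lit 76) (nat_lit 81127261950) (nat_lit 76) (nat_lit 76995034707) (nat_lit 3) (nat_lit 4) (nat_lit 4) (nat_lit 5) (nat_lit 4) (nat_lit 4) (nat_lit 413) (nat_lit 323) (nat_lit 284)))))) (XT.nd (nat_lit 468) (nat_lit 0) (nat_lit 0) (XT.nd (nat_lit 234) (nat_lit 0) (nat_lit 0) (XT.nd (nat_lit 78) (nat_lit 0) (nat_lit 0) (XT.lf (nat_lit 0) (nat_lit 81383581455) (nat_lit 76) (nat_lit 78825733616) (nat_lit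 76) (nat_lit 74677493497) (nat_lit 3) (nat_lit 4) (nat_lit 4) (nat_lit 5) (nat_lit 4) (nat_lit 4) (nat_lit 414) (nat_lit 323) (nat_lit 283)) (XT.nd (nat_lit 78) (nat_lit 0) (nat_lit 0) (XT.lf (nat_lit 0) (nat_lit 104633572330) (nat_lit 76) (nat_lit 76394735507) (nat_lit 76) (nat_lit 72231668649) (nat_lit 3) (nat_lit 4) (nat_lit 4) (nat_lit 5) (nat_lit 4) (nat_lit 4) (nat_lit 415) (nat_lit 323) (nat_lit 282)) (XT.lf (nat_lit 0) (nat_lit 129642589801) (nat_lit 76) (nat_lit 73819861707) (nat_lit 76) (nat_lit 69643066389) (nat_lit 3) (nat_lit 4) (nat_lit 4) (nat_lit 5) (nat_lit 4) (nat_lit 4) (nat_lit 416) (nat_lit 323) (nat_lit 281)))) (XT.nd (nat_lit 78) (nat_lit 0) (nat_lit 0) (XT.lf (nat_lit 0) (nat_lit 156558835454) (nat_lit 76) (nat_lit 71085853705) (nat_lit 76) (nat_lit 66896346849) (nat_lit 3) (nat_lit 4) (nat_lit 4) (nat_lit 5) (nat_lit 4) (nat_lit 4) (nat_lit 417) (nat_lit 323) (nat_lit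 280)) (XT.nd (nat_lit 78) (nat_lit 0) (nat_lit 0) (XT.lf (nat_lit 0) (nat_lit 185541812967) (nat_lit 76) (nat_lit 68176509973) (nat_lit 76) (nat_lit 63975233175) (nat_lit 3) (nat_lit 4) (nat_lit 4) (nat_lit 5) (nat_lit 4) (nat_lit 4) (nat_lit 418) (nat_lit 323) (nat_lit 279)) (XT.lf (nat_lit 0) (nat_lit 216763273316) (nat_lit 76) (nat_lit 65074589955) (nat_lit 76) (nat_lit 60862415062) (nat_lit 3) (nat_lit 4) (nat_lit 4) (nat_lit 5) (nat_lit 4) (nat_lit 4) (nat_lit 419) (nat_lit 323) (nat_lit 278))))) (XT.nd (nat_lit 234) (nat_lit 0) (nat_lit 0) (XT.nd (nat_lit 78) (nat_lit 0) (nat_lit 0) (XT.lf (nat_lit 0) (nat_lit 250408232564) (nat_lit 76) (nat_lit 61761711902) (nat_lit 76) (nat_lit 57539446181) (nat_lit 3) (nat_lit 4) (nat_lit 4) (nat_lit 5) (nat_lit 4) (nat_lit 4) (nat_lit 420) (nat_lit 323) (nat_lit 277)) (XT.nd (nat_lit 78) (nat_lit 0) (nat_lit 0) (XT.lf (nat_lit 0) (nat_lit 286676068248)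 (nat_lit 76) (nat_lit 58218243946) (nat_lit 76) (nat_lit 53986634864) (nat_lit 3) (nat_lit 4) (nat_lit 4) (nat_lit 5) (nat_lit 4) (nat_lit 4) (nat_lit 421) (nat_lit 323) (nat_lit 276)) (XT.lf (nat_lit 0) (nat_lit 325781700873) (nat_lit 76) (nat_lit 54423187756) (nat_lit 76) (nat_lit 50182927415) (nat_lit 3) (nat_lit 4) (nat_lit 4) (nat_lit 5) (nat_lit 4) (nat_lit 4) (nat_lit 422) (nat_lit 323) (nat_lit 275)))) (XT.nd (nat_lit 156) (nat_lit 0) (nat_lit 0) (XT.nd (nat_lit 78) (nat_lit 0) (nat_lit 0) (XT.lf (nat_lit 0) (nat_lit 367956867524) (nat_lit 76) (nat_lit 50354054111) (nat_lit 76) (nat_lit 46105783345) (nat_lit 3) (nat_lit 4) (nat_lit 4) (nat_lit 5) (nat_lit 4) (nat_lit 4) (nat_lit 423) (nat_lit 323) (nat_lit 274)) (XT.lf (nat_lit 0) (nat_lit 413451495113) (nat_lit 76) (nat_lit 45986729627) (nat_lit 76) (nat_lit 41731041801) (nat_lit 3) (nat_lit 4) (nat_lit 4) (nat_lit 5) (nat_lit 4)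 (nat_lit 4) (nat_lit 424) (nat_lit 323) (nat_lit 273))) (XT.nd (nat_lit 78) (nat_lit 0) (nat_lit 0) (XT.lf (nat_lit 0) (nat_lit 462535181433) (nat_lit 76) (nat_lit 41295333863) (nat_lit 76) (nat_lit 37032778388) (nat_lit 3) (nat_lit 4) (nat_lit 4) (nat_lit 5) (nat_lit 4) (nat_lit 4) (nat_lit 425) (nat_lit 323) (nat_lit 272)) (XT.lf (nat_lit 0) (nat_lit 515498792774) (nat_lit 76) (nat_lit 36252065953) (nat_lit 76) (nat_lit 31983151545) (nat_lit 3) (nat_lit 4) (nat_lit 4) (nat_lit 5) (nat_lit 4) (nat_lit 4) (nat_lit 426) (nat_lit 323) (nat_lit 271))))))))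
noncomputable def xc21 : XT := (XT.nd (nat_lit 49920) (nat_lit 0) (nat_lit 152) (XT.nd (nat_lit 48906) (nat_lit 0) (nat_lit 1064) (XT.nd (nat_lit 468) (nat_lit 0) (nat_lit 0) (XT.nd (nat_lit 234) (nat_lit 152) (nat_lit 0) (XT.nd (nat_lit 78) (nat_lit 0) (nat_lit 0) (XT.lf (nat_lit 0) (nat_lit 572656187574) (nat_lit 76) (nat_lit 30827039868) (nat_lit 76) (nat_lit 26552237558) (nat_lit 3) (nat_lit 4) (nat_lit 4) (nat_lit 5) (nat_lit 4) (nat_lit 4) (nat_lit 427) (nat_lit 323) (nat_lit 270)) (XT.nd (nat_lit 78) (nat_lit 0) (nat_lit 0) (XT.lf (nat_lit 0) (nat_lit 634346076319) (nat_lit 76) (nat_lit 24988107302) (nat_lit 76) (nat_lit 20707853232) (nat_lit 3) (nat_lit 4) (nat_lit 4) (nat_lit 5) (nat_lit 4) (nat_lit 4) (nat_lit 428) (nat_lit 323) (nat_lit 269)) (XT.lf (nat_lit 0) (nat_lit 700934028722) (nat_lit 76) (nat_lit 18700667176) (nat_lit 76) (nat_lit 14415365179) (nat_lit 3) (nat_lit 4) (nat_lit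 4) (nat_lit 5) (nat_lit 4) (nat_lit 4) (nat_lit 429) (nat_lit 323) (nat_lit 268)))) (XT.nd (nat_lit 78) (nat_lit 152) (nat_lit 0) (XT.lf (nat_lit 0) (nat_lit 772814640055) (nat_lit 76) (nat_lit 11927460584) (nat_lit 76) (nat_lit 7637484581) (nat_lit 3) (nat_lit 4) (nat_lit 4) (nat_lit 5) (nat_lit 4) (nat_lit 4) (nat_lit 430) (nat_lit 323) (nat_lit 267)) (XT.nd (nat_lit 78) (nat_lit 152) (nat_lit 0) (XT.lf (nat_lit 0) (nat_lit 850413869497) (nat_lit 76) (nat_lit 4628350006) (nat_lit 76) (nat_lit 334046220) (nat_lit 3) (nat_lit 4) (nat_lit 4) (nat_lit 5) (nat_lit 4) (nat_lit 4) (nat_lit 431) (nat_lit 323) (nat_lit 266)) (XT.lf (nat_lit 0) (nat_lit 7524234277) (nat_lit 152) (nat_lit 912441328807) (nat_lit 0) (nat_lit 3430604760) (nat_lit 1) (nat_lit 5) (nat_lit 3) (nat_lit 4) (nat_lit 1) (nat_lit 4) (nat_lit 432) (nat_lit 323) (nat_lit 265))))) (XT.nd (nat_lit 234) (nat_lit 0) (nat_lit 0) (XT.nd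 (nat_lit 78) (nat_lit 0) (nat_lit 0) (XT.lf (nat_lit 0) (nat_lit 16151022870) (nat_lit 152) (nat_lit 968644928767) (nat_lit 0) (nat_lit 12053859660) (nat_lit 1) (nat_lit 5) (nat_lit 3) (nat_lit 4) (nat_lit 1) (nat_lit 4) (nat_lit 433) (nat_lit 323) (nat_lit 264)) (XT.nd (nat_lit 78) (nat_lit 0) (nat_lit 0) (XT.lf (nat_lit 0) (nat_lit 25454520560) (nat_lit 152) (nat_lit 1029371812341) (nat_lit 0) (nat_lit 21354085414) (nat_lit 1) (nat_lit 5) (nat_lit 3) (nat_lit 4) (nat_lit 1) (nat_lit 4) (nat_lit 434) (nat_lit 323) (nat_lit 263)) (XT.lf (nat_lit 0) (nat_lit 35489859187) (nat_lit 152) (nat_lit 1094981842543) (nat_lit 0) (nat_lit 31386394469) (nat_lit 1) (nat_lit 5) (nat_lit 3) (nat_lit 4) (nat_lit 1) (nat_lit 4) (nat_lit 435) (nat_lit 323) (nat_lit 262)))) (XT.nd (nat_lit 156) (nat_lit 0) (nat_lit 0) (XT.nd (nat_lit 78) (nat_lit 0) (nat_lit 0) (XT.lf (nat_lit 0) (nat_lit 46316507423) (nat_lit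 152) (nat_lit 1165863819553) (nat_lit 0) (nat_lit 42210237546) (nat_lit 1) (nat_lit 5) (nat_lit 3) (nat_lit 4) (nat_lit 1) (nat_lit 4) (nat_lit 436) (nat_lit 323) (nat_lit 261)) (XT.lf (nat_lit 0) (nat_lit 57998623183) (nat_lit 152) (nat_lit 1242437784715) (nat_lit 0) (nat_lit 53889755937) (nat_lit 1) (nat_lit 5) (nat_lit 3) (nat_lit 4) (nat_lit 1) (nat_lit 4) (nat_lit 437) (nat_lit 323) (nat_lit 260))) (XT.nd (nat_lit 47970) (nat_lit 0) (nat_lit 2432) (XT.lf (nat_lit 0) (nat_lit 70605433821) (nat_lit 152) (nat_lit 1325157509675) (nat_lit 0) (nat_lit 66494161603) (nat_lit 1) (nat_lit 5) (nat_lit 3) (nat_lit 4) (nat_lit 1) (nat_lit 4) (nat_lit 438) (nat_lit 323) (nat_lit 259)) (XT.lf (nat_lit 0) (nat_lit 7140575410) (nat_lit 152) (nat_lit 243455177) (nat_lit 152) (nat_lit 243455177) (nat_lit 33) (nat_lit 4) (nat_lit 35) (nat_lit 5) (nat_lit 35) (nat_lit 4) (nat_lit 372) (nat_lit 324) (nat_lit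 324)))))) (XT.nd (nat_lit 468) (nat_lit 532) (nat_lit 0) (XT.nd (nat_lit 234) (nat_lit 380) (nat_lit 0) (XT.nd (nat_lit 78) (nat_lit 228) (nat_lit 0) (XT.lf (nat_lit 0) (nat_lit 1628444233) (nat_lit 76) (nat_lit 7438909415) (nat_lit 76) (nat_lit 6899245631) (nat_lit 30) (nat_lit 4) (nat_lit 31) (nat_lit 5) (nat_lit 31) (nat_lit 4) (nat_lit 373) (nat_lit 324) (nat_lit 323)) (XT.nd (nat_lit 78) (nat_lit 76) (nat_lit 0) (XT.lf (nat_lit 0) (nat_lit 2428742413) (nat_lit 152) (nat_lit 12871187629) (nat_lit 0) (nat_lit 1438882917) (nat_lit 28) (nat_lit 5) (nat_lit 30) (nat_lit 4) (nat_lit 28) (nat_lit 4) (nat_lit 374) (nat_lit 324) (nat_lit 322)) (XT.lf (nat_lit 0) (nat_lit 5454600878) (nat_lit 76) (nat_lit 6772407256) (nat_lit 76) (nat_lit 5341905178) (nat_lit 27) (nat_lit 4) (nat_lit 28) (nat_lit 5) (nat_lit 28) (nat_lit 4) (nat_lit 375) (nat_lit 324) (nat_lit 321)))) (XT.nd (nat_lit 78) (nat_lit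 228) (nat_lit 0) (XT.lf (nat_lit 0) (nat_lit 4084089344) (nat_lit 152) (nat_lit 12050884902) (nat_lit 0) (nat_lit 2333132707) (nat_lit 25) (nat_lit 5) (nat_lit 27) (nat_lit 4) (nat_lit 25) (nat_lit 4) (nat_lit 376) (nat_lit 324) (nat_lit 320)) (XT.nd (nat_lit 78) (nat_lit 152) (nat_lit 0) (XT.lf (nat_lit 0) (nat_lit 6529954699) (nat_lit 76) (nat_lit 7508802639) (nat_lit 76) (nat_lit 5398055533) (nat_lit 24) (nat_lit 4) (nat_lit 25) (nat_lit 5) (nat_lit 25) (nat_lit 4) (nat_lit 377) (nat_lit 324) (nat_lit 319)) (XT.lf (nat_lit 0) (nat_lit 4042904792) (nat_lit 152) (nat_lit 14727693999) (nat_lit 0) (nat_lit 1715393909) (nat_lit 22) (nat_lit 5) (nat_lit 24) (nat_lit 4) (nat_lit 22) (nat_lit 4) (nat_lit 378) (nat_lit 324) (nat_lit 318))))) (XT.nd (nat_lit 234) (nat_lit 304) (nat_lit 0) (XT.nd (nat_lit 78) (nat_lit 152) (nat_lit 0) (XT.lf (nat_lit 0) (nat_lit 3810911599) (nat_lit 76) (nat_lit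 10213192980) (nat_lit 76) (nat_lit 7591908444) (nat_lit 21) (nat_lit 4) (nat_lit 22) (nat_lit 5) (nat_lit 22) (nat_lit 4) (nat_lit 379) (nat_lit 324) (nat_lit 317)) (XT.nd (nat_lit 78) (nat_lit 0) (nat_lit 0) (XT.lf (nat_lit 0) (nat_lit 685596079) (nat_lit 76) (nat_lit 1060205509) (nat_lit 152) (nat_lit 21097058192) (nat_lit 19) (nat_lit 5) (nat_lit 20) (nat_lit 5) (nat_lit 21) (nat_lit 4) (nat_lit 380) (nat_lit 324) (nat_lit 316)) (XT.lf (nat_lit 0) (nat_lit 11604356820) (nat_lit 152) (nat_lit 3946346883) (nat_lit 0) (nat_lit 8608965644) (nat_lit 19) (nat_lit 5) (nat_lit 21) (nat_lit 4) (nat_lit 19) (nat_lit 4) (nat_lit 381) (nat_lit 324) (nat_lit 315)))) (XT.nd (nat_lit 156) (nat_lit 76) (nat_lit 0) (XT.nd (nat_lit 78) (nat_lit 152) (nat_lit 0) (XT.lf (nat_lit 0) (nat_lit 15443710679) (nat_lit 76) (nat_lit 6680988679) (nat_lit 76) (nat_lit 3463495601) (nat_lit 18) (nat_lit 4) (nat_lit 19)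 (nat_lit 5) (nat_lit 19) (nat_lit 4) (nat_lit 382) (nat_lit 324) (nat_lit 314)) (XT.lf (nat_lit 0) (nat_lit 6030289793) (nat_lit 152) (nat_lit 18331718822) (nat_lit 0) (nat_lit 2770153614) (nat_lit 16) (nat_lit 5) (nat_lit 18) (nat_lit 4) (nat_lit 16) (nat_lit 4) (nat_lit 383) (nat_lit 324) (nat_lit 313))) (XT.nd (nat_lit 78) (nat_lit 76) (nat_lit 0) (XT.lf (nat_lit 0) (nat_lit 16092900366) (nat_lit 152) (nat_lit 55980779) (nat_lit 0) (nat_lit 12651415062) (nat_lit 16) (nat_lit 5) (nat_lit 18) (nat_lit 4) (nat_lit 16) (nat_lit 4) (nat_lit 384) (nat_lit 324) (nat_lit 312)) (XT.lf (nat_lit 0) (nat_lit 19649195148) (nat_lit 76) (nat_lit 7281791770) (nat_lit 76) (nat_lit 3672390607) (nat_lit 15) (nat_lit 4) (nat_lit 16) (nat_lit 5) (nat_lit 16) (nat_lit 4) (nat_lit 385) (nat_lit 324) (nat_lit 311))))))) (XT.nd (nat_lit 1014) (nat_lit 304) (nat_lit 0) (XT.nd (nat_lit 468) (nat_lit 228) (nat_lit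 0) (XT.nd (nat_lit 234) (nat_lit 152) (nat_lit 0) (XT.nd (nat_lit 78) (nat_lit 76) (nat_lit 0) (XT.lf (nat_lit 0) (nat_lit 5722824845) (nat_lit 152) (nat_lit 24694312570) (nat_lit 0) (nat_lit 2137225979) (nat_lit 13) (nat_lit 5) (nat_lit 15) (nat_lit 4) (nat_lit 13) (nat_lit 4) (nat_lit 386) (nat_lit 324) (nat_lit 310)) (XT.nd (nat_lit 78) (nat_lit 76) (nat_lit 0) (XT.lf (nat_lit 0) (nat_lit 15742716129) (nat_lit 152) (nat_lit 6895620339) (nat_lit 0) (nat_lit 12020011756) (nat_lit 13) (nat_lit 5) (nat_lit 15) (nat_lit 4) (nat_lit 13) (nat_lit 4) (nat_lit 387) (nat_lit 324) (nat_lit 309)) (XT.lf (nat_lit 0) (nat_lit 12135288670) (nat_lit 76) (nat_lit 14325111071) (nat_lit 76) (nat_lit 10475457153) (nat_lit 12) (nat_lit 4) (nat_lit 13) (nat_lit 5) (nat_lit 13) (nat_lit 4) (nat_lit 388) (nat_lit 324) (nat_lit 308)))) (XT.nd (nat_lit 78) (nat_lit 152) (nat_lit 0) (XT.lf (nat_lit 0) (nat_lit 32380036881)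 (nat_lit 76) (nat_lit 5495373762) (nat_lit 76) (nat_lit 1528173970) (nat_lit 12) (nat_lit 4) (nat_lit 13) (nat_lit 5) (nat_lit 13) (nat_lit 4) (nat_lit 389) (nat_lit 324) (nat_lit 307)) (XT.nd (nat_lit 78) (nat_lit 0) (nat_lit 0) (XT.lf (nat_lit 0) (nat_lit 7860891785) (nat_lit 152) (nat_lit 30223232016) (nat_lit 0) (nat_lit 3978950295) (nat_lit 10) (nat_lit 5) (nat_lit 12) (nat_lit 4) (nat_lit 10) (nat_lit 4) (nat_lit 390) (nat_lit 324) (nat_lit 306)) (XT.lf (nat_lit 0) (nat_lit 17909419754) (nat_lit 152) (nat_lit 13095067455) (nat_lit 0) (nat_lit 13931500510) (nat_lit 10) (nat_lit 5) (nat_lit 12) (nat_lit 4) (nat_lit 10) (nat_lit 4) (nat_lit 391) (nat_lit 324) (nat_lit 305))))) (XT.nd (nat_lit 234) (nat_lit 152) (nat_lit 0) (XT.nd (nat_lit 78) (nat_lit 0) (nat_lit 0) (XT.lf (nat_lit 0) (nat_lit 5095571692) (nat_lit 76) (nat_lit 23508914030) (nat_lit 76) (nat_lit 19442126496) (nat_lit 9)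 (nat_lit 4) (nat_lit 10) (nat_lit 5) (nat_lit 10) (nat_lit 4) (nat_lit 392) (nat_lit 324) (nat_lit 304)) (XT.nd (nat_lit 78) (nat_lit 0) (nat_lit 0) (XT.lf (nat_lit 0) (nat_lit 24758677290) (nat_lit 76) (nat_lit 15398203000) (nat_lit 76) (nat_lit 11249130011) (nat_lit 9) (nat_lit 4) (nat_lit 10) (nat_lit 5) (nat_lit 10) (nat_lit 4) (nat_lit 393) (nat_lit 324) (nat_lit 303)) (XT.lf (nat_lit 0) (nat_lit 45577789377) (nat_lit 76) (nat_lit 6846061948) (nat_lit 76) (nat_lit 2620798724) (nat_lit 9) (nat_lit 4) (nat_lit 10) (nat_lit 5) (nat_lit 10) (nat_lit 4) (nat_lit 394) (nat_lit 324) (nat_lit 302)))) (XT.nd (nat_lit 156) (nat_lit 0) (nat_lit 0) (XT.nd (nat_lit 78) (nat_lit 0) (nat_lit 0) (XT.lf (nat_lit 0) (nat_lit 6462964463) (nat_lit 152) (nat_lit 50135502005) (nat_lit 0) (nat_lit 2371717093) (nat_lit 7) (nat_lit 5) (nat_lit 9) (nat_lit 4) (nat_lit 7) (nat_lit 4) (nat_lit 395) (nat_lit 324)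 (nat_lit 301)) (XT.lf (nat_lit 0) (nat_lit 16274433210) (nat_lit 152) (nat_lit 34807569013) (nat_lit 0) (nat_lit 12120975511) (nat_lit 7) (nat_lit 5) (nat_lit 9) (nat_lit 4) (nat_lit 7) (nat_lit 4) (nat_lit 396) (nat_lit 324) (nat_lit 300))) (XT.nd (nat_lit 78) (nat_lit 0) (nat_lit 0) (XT.lf (nat_lit 0) (nat_lit 26693550830) (nat_lit 152) (nat_lit 18607223923) (nat_lit 0) (nat_lit 22482490973) (nat_lit 7) (nat_lit 5) (nat_lit 9) (nat_lit 4) (nat_lit 7) (nat_lit 4) (nat_lit 397) (nat_lit 324) (nat_lit 299)) (XT.lf (nat_lit 0) (nat_lit 37782060241) (nat_lit 152) (nat_lit 1438464690) (nat_lit 0) (nat_lit 33517665053) (nat_lit 7) (nat_lit 5) (nat_lit 9) (nat_lit 4) (nat_lit 7) (nat_lit 4) (nat_lit 398) (nat_lit 324) (nat_lit 298)))))) (XT.nd (nat_lit 546) (nat_lit 76) (nat_lit 0) (XT.nd (nat_lit 234) (nat_lit 152) (nat_lit 0) (XT.nd (nat_lit 78) (nat_lit 0) (nat_lit 0) (XT.lf (nat_lit 0) (nat_lit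 17355948214) (nat_lit 76) (nat_lit 32520697905) (nat_lit 76) (nat_lit 28206918151) (nat_lit 6) (nat_lit 4) (nat_lit 7) (nat_lit 5) (nat_lit 7) (nat_lit 4) (nat_lit 399) (nat_lit 324) (nat_lit 297)) (XT.nd (nat_lit 78) (nat_lit 0) (nat_lit 0) (XT.lf (nat_lit 0) (nat_lit 37415118501) (nat_lit 76) (nat_lit 25403485689) (nat_lit 76) (nat_lit 21043979486) (nat_lit 6) (nat_lit 4) (nat_lit 7) (nat_lit 5) (nat_lit 7) (nat_lit 4) (nat_lit 400) (nat_lit 324) (nat_lit 296)) (XT.lf (nat_lit 0) (nat_lit 58810353187) (nat_lit 76) (nat_lit 17851073307) (nat_lit 76) (nat_lit 13449227799) (nat_lit 6) (nat_lit 4) (nat_lit 7) (nat_lit 5) (nat_lit 7) (nat_lit 4) (nat_lit 401) (nat_lit 324) (nat_lit 295)))) (XT.nd (nat_lit 156) (nat_lit 0) (nat_lit 0) (XT.nd (nat_lit 78) (nat_lit 152) (nat_lit 0) (XT.lf (nat_lit 0) (nat_lit 81668438848) (nat_lit 76) (nat_lit 9818705722) (nat_lit 76) (nat_lit 5377657153) (nat_lit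 6) (nat_lit 4) (nat_lit 7) (nat_lit 5) (nat_lit 7) (nat_lit 4) (nat_lit 402) (nat_lit 324) (nat_lit 294)) (XT.lf (nat_lit 0) (nat_lit 1972667126) (nat_lit 76) (nat_lit 1173681568) (nat_lit 152) (nat_lit 101014649367) (nat_lit 4) (nat_lit 5) (nat_lit 5) (nat_lit 5) (nat_lit 6) (nat_lit 4) (nat_lit 403) (nat_lit 324) (nat_lit 293))) (XT.nd (nat_lit 78) (nat_lit 0) (nat_lit 0) (XT.lf (nat_lit 0) (nat_lit 12449118265) (nat_lit 152) (nat_lit 91420137441) (nat_lit 0) (nat_lit 8152967785) (nat_lit 4) (nat_lit 5) (nat_lit 6) (nat_lit 4) (nat_lit 4) (nat_lit 4) (nat_lit 404) (nat_lit 324) (nat_lit 292)) (XT.lf (nat_lit 0) (nat_lit 22410561442) (nat_lit 152) (nat_lit 80021294193) (nat_lit 0) (nat_lit 18084772245) (nat_lit 4) (nat_lit 5) (nat_lit 6) (nat_lit 4) (nat_lit 4) (nat_lit 4) (nat_lit 405) (nat_lit 324) (nat_lit 291))))) (XT.nd (nat_lit 234) (nat_lit 76) (nat_lit 0) (XT.nd (nat_lit 78) (nat_lit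 0) (nat_lit 0) (XT.lf (nat_lit 0) (nat_lit 33071384543) (nat_lit 152) (nat_lit 67905928030) (nat_lit 0) (nat_lit 28718152088) (nat_lit 4) (nat_lit 5) (nat_lit 6) (nat_lit 4) (nat_lit 4) (nat_lit 4) (nat_lit 406) (nat_lit 324) (nat_lit 290)) (XT.nd (nat_lit 78) (nat_lit 0) (nat_lit 0) (XT.lf (nat_lit 0) (nat_lit 44494762814) (nat_lit 152) (nat_lit 55002244192) (nat_lit 0) (nat_lit 40116119936) (nat_lit 4) (nat_lit 5) (nat_lit 6) (nat_lit 4) (nat_lit 4) (nat_lit 4) (nat_lit 407) (nat_lit 324) (nat_lit 289)) (XT.lf (nat_lit 0) (nat_lit 56748390350) (nat_lit 152) (nat_lit 41233776402) (nat_lit 0) (nat_lit 52346219303) (nat_lit 4) (nat_lit 5) (nat_lit 6) (nat_lit 4) (nat_lit 4) (nat_lit 4) (nat_lit 408) (nat_lit 324) (nat_lit 288)))) (XT.nd (nat_lit 156) (nat_lit 76) (nat_lit 0) (XT.nd (nat_lit 78) (nat_lit 0) (nat_lit 0) (XT.lf (nat_lit 0) (nat_lit 69904881239) (nat_lit 152) (nat_lit 26518933742)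 (nat_lit 0) (nat_lit 65480924850) (nat_lit 4) (nat_lit 5) (nat_lit 6) (nat_lit 4) (nat_lit 4) (nat_lit 4) (nat_lit 409) (nat_lit 324) (nat_lit 287)) (XT.lf (nat_lit 0) (nat_lit 84042199873) (nat_lit 152) (nat_lit 10770517143) (nat_lit 0) (nat_lit 79598071870) (nat_lit 4) (nat_lit 5) (nat_lit 6) (nat_lit 4) (nat_lit 4) (nat_lit 4) (nat_lit 410) (nat_lit 324) (nat_lit 286))) (XT.nd (nat_lit 78) (nat_lit 0) (nat_lit 0) (XT.lf (nat_lit 0) (nat_lit 6306649514) (nat_lit 76) (nat_lit 93035937912) (nat_lit 76) (nat_lit 88573132490) (nat_lit 3) (nat_lit 4) (nat_lit 4) (nat_lit 5) (nat_lit 4) (nat_lit 4) (nat_lit 411) (nat_lit 324) (nat_lit 285)) (XT.lf (nat_lit 0) (nat_lit 25007404709) (nat_lit 76) (nat_lit 90983766912) (nat_lit 76) (nat_lit 86503667583) (nat_lit 3) (nat_lit 4) (nat_lit 4) (nat_lit 5) (nat_lit 4) (nat_lit 4) (nat_lit 412) (nat_lit 324) (nat_lit 284))))))))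
noncomputable def xc22 : XT := (XT.nd (nat_lit 49764) (nat_lit 0) (nat_lit 532) (XT.nd (nat_lit 1014) (nat_lit 152) (nat_lit 0) (XT.nd (nat_lit 468) (nat_lit 0) (nat_lit 0) (XT.nd (nat_lit 234) (nat_lit 0) (nat_lit 0) (XT.nd (nat_lit 78) (nat_lit 0) (nat_lit 0) (XT.lf (nat_lit 0) (nat_lit 45086445793) (nat_lit 76) (nat_lit 88826446923) (nat_lit 76) (nat_lit 84330334717) (nat_lit 3) (nat_lit 4) (nat_lit 4) (nat_lit 5) (nat_lit 4) (nat_lit 4) (nat_lit 413) (nat_lit 324) (nat_lit 283)) (XT.nd (nat_lit 78) (nat_lit 0) (nat_lit 0) (XT.lf (nat_lit 0) (nat_lit 66662759676) (nat_lit 76) (nat_lit 86551193825) (nat_lit 76) (nat_lit 82040254882) (nat_lit 3) (nat_lit 4) (nat_lit 4) (nat_lit 5) (nat_lit 4) (nat_lit 4) (nat_lit 414) (nat_lit 324) (nat_lit 282)) (XT.lf (nat_lit 0) (nat_lit 89864205997) (nat_lit 76) (nat_lit 84144524638) (nat_lit 76) (nat_lit 79619857234) (nat_lit 3) (nat_lit 4) (nat_lit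 4) (nat_lit 5) (nat_lit 4) (nat_lit 4) (nat_lit 415) (nat_lit 324) (nat_lit 281)))) (XT.nd (nat_lit 78) (nat_lit 0) (nat_lit 0) (XT.lf (nat_lit 0) (nat_lit 114828274806) (nat_lit 76) (nat_lit 81592177618) (nat_lit 76) (nat_lit 77054798676) (nat_lit 3) (nat_lit 4) (nat_lit 4) (nat_lit 5) (nat_lit 4) (nat_lit 4) (nat_lit 416) (nat_lit 324) (nat_lit 280)) (XT.nd (nat_lit 78) (nat_lit 0) (nat_lit 0) (XT.lf (nat_lit 0) (nat_lit 141702901328) (nat_lit 76) (nat_lit 78879027746) (nat_lit 76) (nat_lit 74329878861) (nat_lit 3) (nat_lit 4) (nat_lit 4) (nat_lit 5) (nat_lit 4) (nat_lit 4) (nat_lit 417) (nat_lit 324) (nat_lit 279)) (XT.lf (nat_lit 0) (nat_lit 170647342608) (nat_lit 76) (nat_lit 75988997097) (nat_lit 76) (nat_lit 71428950117) (nat_lit 3) (nat_lit 4) (nat_lit 4) (nat_lit 5) (nat_lit 4) (nat_lit 4) (nat_lit 418) (nat_lit 324) (nat_lit 278))))) (XT.nd (nat_lit 234) (nat_lit 0) (nat_lit 0)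 (XT.nd (nat_lit 78) (nat_lit 0) (nat_lit 0) (XT.lf (nat_lit 0) (nat_lit 201833121261) (nat_lit 76) (nat_lit 72904959563) (nat_lit 76) (nat_lit 68334821755) (nat_lit 3) (nat_lit 4) (nat_lit 4) (nat_lit 5) (nat_lit 4) (nat_lit 4) (nat_lit 419) (nat_lit 324) (nat_lit 277)) (XT.nd (nat_lit 78) (nat_lit 0) (nat_lit 0) (XT.lf (nat_lit 0) (nat_lit 235445041901) (nat_lit 76) (nat_lit 69608639366) (nat_lit 76) (nat_lit 65029158198) (nat_lit 3) (nat_lit 4) (nat_lit 4) (nat_lit 5) (nat_lit 4) (nat_lit 4) (nat_lit 420) (nat_lit 324) (nat_lit 276)) (XT.lf (nat_lit 0) (nat_lit 271682286280) (nat_lit 76) (nat_lit 66080502757) (nat_lit 76) (nat_lit 61492370330) (nat_lit 3) (nat_lit 4) (nat_lit 4) (nat_lit 5) (nat_lit 4) (nat_lit 4) (nat_lit 421) (nat_lit 324) (nat_lit 275)))) (XT.nd (nat_lit 156) (nat_lit 0) (nat_lit 0) (XT.nd (nat_lit 78) (nat_lit 0) (nat_lit 0) (XT.lf (nat_lit 0) (nat_lit 310759593624)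 (nat_lit 76) (nat_lit 62299642260) (nat_lit 76) (nat_lit 57703499408) (nat_lit 3) (nat_lit 4) (nat_lit 4) (nat_lit 5) (nat_lit 4) (nat_lit 4) (nat_lit 422) (nat_lit 324) (nat_lit 274)) (XT.lf (nat_lit 0) (nat_lit 352908533163) (nat_lit 76) (nat_lit 58243652775) (nat_lit 76) (nat_lit 53640092863) (nat_lit 3) (nat_lit 4) (nat_lit 4) (nat_lit 5) (nat_lit 4) (nat_lit 4) (nat_lit 423) (nat_lit 324) (nat_lit 273))) (XT.nd (nat_lit 78) (nat_lit 0) (nat_lit 0) (XT.lf (nat_lit 0) (nat_lit 398378876388) (nat_lit 76) (nat_lit 53888498809) (nat_lit 76) (nat_lit 49278071248) (nat_lit 3) (nat_lit 4) (nat_lit 4) (nat_lit 5) (nat_lit 4) (nat_lit 4) (nat_lit 424) (nat_lit 324) (nat_lit 272)) (XT.lf (nat_lit 0) (nat_lit 447440077187) (nat_lit 76) (nat_lit 49208372043) (nat_lit 76) (nat_lit 44591585548) (nat_lit 3) (nat_lit 4) (nat_lit 4) (nat_lit 5) (nat_lit 4) (nat_lit 4) (nat_lit 425) (nat_lit 324) (nat_lit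 271)))))) (XT.nd (nat_lit 468) (nat_lit 152) (nat_lit 0) (XT.nd (nat_lit 234) (nat_lit 0) (nat_lit 0) (XT.nd (nat_lit 78) (nat_lit 0) (nat_lit 0) (XT.lf (nat_lit 0) (nat_lit 500382868601) (nat_lit 76) (nat_lit 44175538391) (nat_lit 76) (nat_lit 39552863995) (nat_lit 3) (nat_lit 4) (nat_lit 4) (nat_lit 5) (nat_lit 4) (nat_lit 4) (nat_lit 426) (nat_lit 324) (nat_lit 270)) (XT.nd (nat_lit 78) (nat_lit 0) (nat_lit 0) (XT.lf (nat_lit 0) (nat_lit 557520985690) (nat_lit 76) (nat_lit 38760173655) (nat_lit 76) (nat_lit 34132047499) (nat_lit 3) (nat_lit 4) (nat_lit 4) (nat_lit 5) (nat_lit 4) (nat_lit 4) (nat_lit 427) (nat_lit 324) (nat_lit 269)) (XT.lf (nat_lit 0) (nat_lit 619193024703) (nat_lit 76) (nat_lit 32930186785) (nat_lit 76) (nat_lit 28297012701) (nat_lit 3) (nat_lit 4) (nat_lit 4) (nat_lit 5) (nat_lit 4) (nat_lit 4) (nat_lit 428) (nat_lit 324) (nat_lit 268)))) (XT.nd (nat_lit 78) (nat_lit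 0) (nat_lit 0) (XT.lf (nat_lit 0) (nat_lit 685764449576) (nat_lit 76) (nat_lit 26651029709) (nat_lit 76) (nat_lit 22013181619) (nat_lit 3) (nat_lit 4) (nat_lit 4) (nat_lit 5) (nat_lit 4) (nat_lit 4) (nat_lit 429) (nat_lit 324) (nat_lit 267)) (XT.nd (nat_lit 78) (nat_lit 0) (nat_lit 0) (XT.lf (nat_lit 0) (nat_lit 757629757641) (nat_lit 76) (nat_lit 19885492608) (nat_lit 76) (nat_lit 15243316735) (nat_lit 3) (nat_lit 4) (nat_lit 4) (nat_lit 5) (nat_lit 4) (nat_lit 4) (nat_lit 430) (nat_lit 324) (nat_lit 266)) (XT.lf (nat_lit 0) (nat_lit 835214817391) (nat_lit 76) (nat_lit 12593483410) (nat_lit 76) (nat_lit 7947300330) (nat_lit 3) (nat_lit 4) (nat_lit 4) (nat_lit 5) (nat_lit 4) (nat_lit 4) (nat_lit 431) (nat_lit 324) (nat_lit 265))))) (XT.nd (nat_lit 234) (nat_lit 0) (nat_lit 0) (XT.nd (nat_lit 78) (nat_lit 152) (nat_lit 0) (XT.lf (nat_lit 0) (nat_lit 918979392141) (nat_lit 76) (nat_lit 4731790209)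 (nat_lit 76) (nat_lit 81896753) (nat_lit 3) (nat_lit 4) (nat_lit 4) (nat_lit 5) (nat_lit 4) (nat_lit 4) (nat_lit 432) (nat_lit 324) (nat_lit 264)) (XT.nd (nat_lit 78) (nat_lit 0) (nat_lit 0) (XT.lf (nat_lit 0) (nat_lit 8388264990) (nat_lit 152) (nat_lit 984909960993) (nat_lit 0) (nat_lit 3956523095) (nat_lit 1) (nat_lit 5) (nat_lit 3) (nat_lit 4) (nat_lit 1) (nat_lit 4) (nat_lit 433) (nat_lit 324) (nat_lit 263)) (XT.lf (nat_lit 0) (nat_lit 17685782450) (nat_lit 152) (nat_lit 1045648861847) (nat_lit 0) (nat_lit 13251010983) (nat_lit 1) (nat_lit 5) (nat_lit 3) (nat_lit 4) (nat_lit 1) (nat_lit 4) (nat_lit 434) (nat_lit 324) (nat_lit 262)))) (XT.nd (nat_lit 156) (nat_lit 0) (nat_lit 0) (XT.nd (nat_lit 78) (nat_lit 0) (nat_lit 0) (XT.lf (nat_lit 0) (nat_lit 27715583826) (nat_lit 152) (nat_lit 1111270019161) (nat_lit 0) (nat_lit 23278007201) (nat_lit 1) (nat_lit 5) (nat_lit 3) (nat_lit 4) (nat_lit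 1) (nat_lit 4) (nat_lit 435) (nat_lit 324) (nat_lit 261)) (XT.lf (nat_lit 0) (nat_lit 38537104978) (nat_lit 152) (nat_lit 1182162299051) (nat_lit 0) (nat_lit 34096930983) (nat_lit 1) (nat_lit 5) (nat_lit 3) (nat_lit 4) (nat_lit 1) (nat_lit 4) (nat_lit 436) (nat_lit 324) (nat_lit 260))) (XT.nd (nat_lit 78) (nat_lit 0) (nat_lit 0) (XT.lf (nat_lit 0) (nat_lit 50214473439) (nat_lit 152) (nat_lit 1258745803917) (nat_lit 0) (nat_lit 45771894473) (nat_lit 1) (nat_lit 5) (nat_lit 3) (nat_lit 4) (nat_lit 1) (nat_lit 4) (nat_lit 437) (nat_lit 324) (nat_lit 259)) (XT.lf (nat_lit 0) (nat_lit 62816888429) (nat_lit 152) (nat_lit 1341474361937) (nat_lit 0) (nat_lit 58372082637) (nat_lit 1) (nat_lit 5) (nat_lit 3) (nat_lit 4) (nat_lit 1) (nat_lit 4) (nat_lit 438) (nat_lit 324) (nat_lit 258))))))) (XT.nd (nat_lit 1014) (nat_lit 760) (nat_lit 0) (XT.nd (nat_lit 468) (nat_lit 684) (nat_lit 0) (XT.nd (nat_lit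 234) (nat_lit 456) (nat_lit 0) (XT.nd (nat_lit 78) (nat_lit 304) (nat_lit 0) (XT.lf (nat_lit 0) (nat_lit 3531073410) (nat_lit 152) (nat_lit 1725379154) (nat_lit 152) (nat_lit 1725379154) (nat_lit 37) (nat_lit 4) (nat_lit 39) (nat_lit 5) (nat_lit 39) (nat_lit 4) (nat_lit 370) (nat_lit 325) (nat_lit 325)) (XT.nd (nat_lit 78) (nat_lit 152) (nat_lit 0) (XT.lf (nat_lit 0) (nat_lit 5588104277) (nat_lit 152) (nat_lit 4025224319) (nat_lit 0) (nat_lit 4976125547) (nat_lit 35) (nat_lit 5) (nat_lit 37) (nat_lit 4) (nat_lit 35) (nat_lit 4) (nat_lit 371) (nat_lit 325) (nat_lit 324)) (XT.lf (nat_lit 0) (nat_lit 13829680582) (nat_lit 152) (nat_lit 1308032697) (nat_lit 152) (nat_lit 129406995) (nat_lit 33) (nat_lit 4) (nat_lit 35) (nat_lit 5) (nat_lit 35) (nat_lit 4) (nat_lit 372) (nat_lit 325) (nat_lit 323)))) (XT.nd (nat_lit 78) (nat_lit 228) (nat_lit 0) (XT.lf (nat_lit 0) (nat_lit 665256253) (nat_lit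 76) (nat_lit 8474555390) (nat_lit 76) (nat_lit 6852366033) (nat_lit 30) (nat_lit 4) (nat_lit 31) (nat_lit 5) (nat_lit 31) (nat_lit 4) (nat_lit 373) (nat_lit 325) (nat_lit 322)) (XT.nd (nat_lit 78) (nat_lit 76) (nat_lit 0) (XT.lf (nat_lit 0) (nat_lit 2200431425) (nat_lit 152) (nat_lit 14362786449) (nat_lit 0) (nat_lit 214846599) (nat_lit 28) (nat_lit 5) (nat_lit 30) (nat_lit 4) (nat_lit 28) (nat_lit 4) (nat_lit 374) (nat_lit 325) (nat_lit 321)) (XT.lf (nat_lit 0) (nat_lit 3474188316) (nat_lit 76) (nat_lit 8270152442) (nat_lit 76) (nat_lit 5876565225) (nat_lit 27) (nat_lit 4) (nat_lit 28) (nat_lit 5) (nat_lit 28) (nat_lit 4) (nat_lit 375) (nat_lit 325) (nat_lit 320))))) (XT.nd (nat_lit 234) (nat_lit 304) (nat_lit 0) (XT.nd (nat_lit 78) (nat_lit 228) (nat_lit 0) (XT.lf (nat_lit 0) (nat_lit 3283213304) (nat_lit 152) (nat_lit 14607674739) (nat_lit 0) (nat_lit 643815962) (nat_lit 25) (nat_lit 5)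 (nat_lit 27) (nat_lit 4) (nat_lit 25) (nat_lit 4) (nat_lit 376) (nat_lit 325) (nat_lit 319)) (XT.nd (nat_lit 78) (nat_lit 152) (nat_lit 0) (XT.lf (nat_lit 0) (nat_lit 3471744777) (nat_lit 76) (nat_lit 9508550093) (nat_lit 76) (nat_lit 6536013429) (nat_lit 24) (nat_lit 4) (nat_lit 25) (nat_lit 5) (nat_lit 25) (nat_lit 4) (nat_lit 377) (nat_lit 325) (nat_lit 318)) (XT.lf (nat_lit 0) (nat_lit 2158515229) (nat_lit 76) (nat_lit 494906345) (nat_lit 152) (nat_lit 17927369048) (nat_lit 22) (nat_lit 5) (nat_lit 23) (nat_lit 5) (nat_lit 24) (nat_lit 4) (nat_lit 378) (nat_lit 325) (nat_lit 317)))) (XT.nd (nat_lit 156) (nat_lit 228) (nat_lit 0) (XT.nd (nat_lit 78) (nat_lit 76) (nat_lit 0) (XT.lf (nat_lit 0) (nat_lit 12370159828) (nat_lit 152) (nat_lit 380503519) (nat_lit 0) (nat_lit 8973386234) (nat_lit 22) (nat_lit 5) (nat_lit 24) (nat_lit 4) (nat_lit 22) (nat_lit 4) (nat_lit 379) (nat_lit 325) (nat_lit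 316)) (XT.lf (nat_lit 0) (nat_lit 18966475302) (nat_lit 76) (nat_lit 3822365445) (nat_lit 76) (nat_lit 173728295) (nat_lit 21) (nat_lit 4) (nat_lit 22) (nat_lit 5) (nat_lit 22) (nat_lit 4) (nat_lit 380) (nat_lit 325) (nat_lit 315))) (XT.nd (nat_lit 78) (nat_lit 76) (nat_lit 0) (XT.lf (nat_lit 0) (nat_lit 9396226709) (nat_lit 152) (nat_lit 9198775972) (nat_lit 0) (nat_lit 5699232283) (nat_lit 19) (nat_lit 5) (nat_lit 21) (nat_lit 4) (nat_lit 19) (nat_lit 4) (nat_lit 381) (nat_lit 325) (nat_lit 314)) (XT.lf (nat_lit 0) (nat_lit 9670797028) (nat_lit 76) (nat_lit 9983857687) (nat_lit 76) (nat_lit 6081213352) (nat_lit 18) (nat_lit 4) (nat_lit 19) (nat_lit 5) (nat_lit 19) (nat_lit 4) (nat_lit 382) (nat_lit 325) (nat_lit 313)))))) (XT.nd (nat_lit 468) (nat_lit 304) (nat_lit 0) (XT.nd (nat_lit 234) (nat_lit 228) (nat_lit 0) (XT.nd (nat_lit 78) (nat_lit 76) (nat_lit 0) (XT.lf (nat_lit 0) (nat_lit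 2435779812) (nat_lit 76) (nat_lit 749020544) (nat_lit 152) (nat_lit 24112666600) (nat_lit 16) (nat_lit 5) (nat_lit 17) (nat_lit 5) (nat_lit 18) (nat_lit 4) (nat_lit 383) (nat_lit 325) (nat_lit 312)) (XT.nd (nat_lit 78) (nat_lit 76) (nat_lit 0) (XT.lf (nat_lit 0) (nat_lit 13074028221) (nat_lit 152) (nat_lit 6892292346) (nat_lit 0) (nat_lit 9007959107) (nat_lit 16) (nat_lit 5) (nat_lit 18) (nat_lit 4) (nat_lit 16) (nat_lit 4) (nat_lit 384) (nat_lit 325) (nat_lit 311)) (XT.lf (nat_lit 0) (nat_lit 12282628217) (nat_lit 76) (nat_lit 11364762320) (nat_lit 76) (nat_lit 7143215561) (nat_lit 15) (nat_lit 4) (nat_lit 16) (nat_lit 5) (nat_lit 16) (nat_lit 4) (nat_lit 385) (nat_lit 325) (nat_lit 310)))) (XT.nd (nat_lit 78) (nat_lit 152) (nat_lit 0) (XT.lf (nat_lit 0) (nat_lit 2059961919) (nat_lit 152) (nat_lit 142585607) (nat_lit 76) (nat_lit 30556918050) (nat_lit 14) (nat_lit 5) (nat_lit 16) (nat_lit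 5) (nat_lit 15) (nat_lit 4) (nat_lit 386) (nat_lit 325) (nat_lit 309)) (XT.nd (nat_lit 78) (nat_lit 76) (nat_lit 0) (XT.lf (nat_lit 0) (nat_lit 11902135083) (nat_lit 152) (nat_lit 15352649183) (nat_lit 0) (nat_lit 7617559308) (nat_lit 13) (nat_lit 5) (nat_lit 15) (nat_lit 4) (nat_lit 13) (nat_lit 4) (nat_lit 387) (nat_lit 325) (nat_lit 308)) (XT.lf (nat_lit 0) (nat_lit 3131865962) (nat_lit 76) (nat_lit 19216835265) (nat_lit 76) (nat_lit 14814713615) (nat_lit 12) (nat_lit 4) (nat_lit 13) (nat_lit 5) (nat_lit 13) (nat_lit 4) (nat_lit 388) (nat_lit 325) (nat_lit 307))))) (XT.nd (nat_lit 234) (nat_lit 152) (nat_lit 0) (XT.nd (nat_lit 78) (nat_lit 152) (nat_lit 0) (XT.lf (nat_lit 0) (nat_lit 23129608344) (nat_lit 76) (nat_lit 10509368807) (nat_lit 76) (nat_lit 5998408384) (nat_lit 12) (nat_lit 4) (nat_lit 13) (nat_lit 5) (nat_lit 13) (nat_lit 4) (nat_lit 389) (nat_lit 325) (nat_lit 306)) (XT.nd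 (nat_lit 78) (nat_lit 0) (nat_lit 0) (XT.lf (nat_lit 0) (nat_lit 1941220309) (nat_lit 76) (nat_lit 1255344263) (nat_lit 152) (nat_lit 39120663992) (nat_lit 10) (nat_lit 5) (nat_lit 11) (nat_lit 5) (nat_lit 12) (nat_lit 4) (nat_lit 390) (nat_lit 325) (nat_lit 305)) (XT.lf (nat_lit 0) (nat_lit 13111598679) (nat_lit 152) (nat_lit 23454623432) (nat_lit 0) (nat_lit 8630599852) (nat_lit 10) (nat_lit 5) (nat_lit 12) (nat_lit 4) (nat_lit 10) (nat_lit 4) (nat_lit 391) (nat_lit 325) (nat_lit 304)))) (XT.nd (nat_lit 156) (nat_lit 76) (nat_lit 0) (XT.nd (nat_lit 78) (nat_lit 76) (nat_lit 0) (XT.lf (nat_lit 0) (nat_lit 23621650697) (nat_lit 152) (nat_lit 5636684753) (nat_lit 0) (nat_lit 19058366415) (nat_lit 10) (nat_lit 5) (nat_lit 12) (nat_lit 4) (nat_lit 10) (nat_lit 4) (nat_lit 392) (nat_lit 325) (nat_lit 303)) (XT.lf (nat_lit 0) (nat_lit 13639545648) (nat_lit 76) (nat_lit 21342808857) (nat_lit 76)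 (nat_lit 16703334340) (nat_lit 9) (nat_lit 4) (nat_lit 10) (nat_lit 5) (nat_lit 10) (nat_lit 4) (nat_lit 393) (nat_lit 325) (nat_lit 302))) (XT.nd (nat_lit 78) (nat_lit 76) (nat_lit 0) (XT.lf (nat_lit 0) (nat_lit 34273008715) (nat_lit 76) (nat_lit 12883005262) (nat_lit 76) (nat_lit 8172984230) (nat_lit 9) (nat_lit 4) (nat_lit 10) (nat_lit 5) (nat_lit 10) (nat_lit 4) (nat_lit 394) (nat_lit 325) (nat_lit 301)) (XT.lf (nat_lit 0) (nat_lit 823849221) (nat_lit 152) (nat_lit 3086450974) (nat_lit 76) (nat_lit 55361801059) (nat_lit 8) (nat_lit 5) (nat_lit 10) (nat_lit 5) (nat_lit 9) (nat_lit 4) (nat_lit 395) (nat_lit 325) (nat_lit 300))))))))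
noncomputable def xc23 : XT := (XT.nd (nat_lit 2028) (nat_lit 152) (nat_lit 0) (XT.nd (nat_lit 1014) (nat_lit 76) (nat_lit 0) (XT.nd (nat_lit 468) (nat_lit 152) (nat_lit 0) (XT.nd (nat_lit 234) (nat_lit 76) (nat_lit 0) (XT.nd (nat_lit 78) (nat_lit 0) (nat_lit 0) (XT.lf (nat_lit 0) (nat_lit 10438444365) (nat_lit 152) (nat_lit 47243400475) (nat_lit 0) (nat_lit 5832897562) (nat_lit 7) (nat_lit 5) (nat_lit 9) (nat_lit 4) (nat_lit 7) (nat_lit 4) (nat_lit 396) (nat_lit 325) (nat_lit 299)) (XT.nd (nat_lit 78) (nat_lit 0) (nat_lit 0) (XT.lf (nat_lit 0) (nat_lit 20778649668) (nat_lit 152) (nat_lit 31200561858) (nat_lit 0) (nat_lit 16119767534) (nat_lit 7) (nat_lit 5) (nat_lit 9) (nat_lit 4) (nat_lit 7) (nat_lit 4) (nat_lit 397) (nat_lit 325) (nat_lit 298)) (XT.lf (nat_lit 0) (nat_lit 31794092119) (nat_lit 152) (nat_lit 14177641951) (nat_lit 0) (nat_lit 27085825420) (nat_lit 7) (nat_lit 5) (nat_lit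 9) (nat_lit 4) (nat_lit 7) (nat_lit 4) (nat_lit 398) (nat_lit 325) (nat_lit 297)))) (XT.nd (nat_lit 78) (nat_lit 0) (nat_lit 0) (XT.lf (nat_lit 0) (nat_lit 4056054893) (nat_lit 76) (nat_lit 39557319905) (nat_lit 76) (nat_lit 34803326756) (nat_lit 6) (nat_lit 4) (nat_lit 7) (nat_lit 5) (nat_lit 7) (nat_lit 4) (nat_lit 399) (nat_lit 325) (nat_lit 296)) (XT.nd (nat_lit 78) (nat_lit 0) (nat_lit 0) (XT.lf (nat_lit 0) (nat_lit 23986057284) (nat_lit 76) (nat_lit 32504615771) (nat_lit 76) (nat_lit 27708283317) (nat_lit 6) (nat_lit 4) (nat_lit 7) (nat_lit 5) (nat_lit 7) (nat_lit 4) (nat_lit 400) (nat_lit 325) (nat_lit 295)) (XT.lf (nat_lit 0) (nat_lit 45261692066) (nat_lit 76) (nat_lit 25011933094) (nat_lit 76) (nat_lit 20176397579) (nat_lit 6) (nat_lit 4) (nat_lit 7) (nat_lit 5) (nat_lit 7) (nat_lit 4) (nat_lit 401) (nat_lit 325) (nat_lit 294))))) (XT.nd (nat_lit 234) (nat_lit 0) (nat_lit 0) (XT.nd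 (nat_lit 78) (nat_lit 152) (nat_lit 0) (XT.lf (nat_lit 0) (nat_lit 68009037076) (nat_lit 76) (nat_lit 17034870792) (nat_lit 76) (nat_lit 12163036147) (nat_lit 6) (nat_lit 4) (nat_lit 7) (nat_lit 5) (nat_lit 7) (nat_lit 4) (nat_lit 402) (nat_lit 325) (nat_lit 293)) (XT.nd (nat_lit 78) (nat_lit 152) (nat_lit 0) (XT.lf (nat_lit 0) (nat_lit 92362891395) (nat_lit 76) (nat_lit 8526157383) (nat_lit 76) (nat_lit 3620712433) (nat_lit 6) (nat_lit 4) (nat_lit 7) (nat_lit 5) (nat_lit 7) (nat_lit 4) (nat_lit 403) (nat_lit 325) (nat_lit 292)) (XT.lf (nat_lit 0) (nat_lit 5433377331) (nat_lit 152) (nat_lit 106226779459) (nat_lit 0) (nat_lit 731886280) (nat_lit 4) (nat_lit 5) (nat_lit 6) (nat_lit 4) (nat_lit 4) (nat_lit 4) (nat_lit 404) (nat_lit 325) (nat_lit 291)))) (XT.nd (nat_lit 156) (nat_lit 0) (nat_lit 0) (XT.nd (nat_lit 78) (nat_lit 0) (nat_lit 0) (XT.lf (nat_lit 0) (nat_lit 15347928426) (nat_lit 152)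 (nat_lit 94921871089) (nat_lit 0) (nat_lit 10618994118) (nat_lit 4) (nat_lit 5) (nat_lit 6) (nat_lit 4) (nat_lit 4) (nat_lit 4) (nat_lit 405) (nat_lit 325) (nat_lit 290)) (XT.lf (nat_lit 0) (nat_lit 25965332932) (nat_lit 152) (nat_lit 82893481665) (nat_lit 0) (nat_lit 21210988201) (nat_lit 4) (nat_lit 5) (nat_lit 6) (nat_lit 4) (nat_lit 4) (nat_lit 4) (nat_lit 406) (nat_lit 325) (nat_lit 289))) (XT.nd (nat_lit 78) (nat_lit 0) (nat_lit 0) (XT.lf (nat_lit 0) (nat_lit 37348508801) (nat_lit 152) (nat_lit 70070331844) (nat_lit 0) (nat_lit 32570635900) (nat_lit 4) (nat_lit 5) (nat_lit 6) (nat_lit 4) (nat_lit 4) (nat_lit 4) (nat_lit 407) (nat_lit 325) (nat_lit 288)) (XT.lf (nat_lit 0) (nat_lit 49564911890) (nat_lit 152) (nat_lit 56376432589) (nat_lit 0) (nat_lit 44765253647) (nat_lit 4) (nat_lit 5) (nat_lit 6) (nat_lit 4) (nat_lit 4) (nat_lit 4) (nat_lit 408) (nat_lit 325) (nat_lit 287)))))) (XT.nd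 (nat_lit 468) (nat_lit 0) (nat_lit 0) (XT.nd (nat_lit 234) (nat_lit 76) (nat_lit 0) (XT.nd (nat_lit 78) (nat_lit 0) (nat_lit 0) (XT.lf (nat_lit 0) (nat_lit 62686935699) (nat_lit 152) (nat_lit 41730634869) (nat_lit 0) (nat_lit 57867105843) (nat_lit 4) (nat_lit 5) (nat_lit 6) (nat_lit 4) (nat_lit 4) (nat_lit 4) (nat_lit 409) (nat_lit 325) (nat_lit 286)) (XT.nd (nat_lit 78) (nat_lit 0) (nat_lit 0) (XT.lf (nat_lit 0) (nat_lit 76792340369) (nat_lit 152) (nat_lit 26046148769) (nat_lit 0) (nat_lit 71953833094) (nat_lit 4) (nat_lit 5) (nat_lit 6) (nat_lit 4) (nat_lit 4) (nat_lit 4) (nat_lit 410) (nat_lit 325) (nat_lit 285)) (XT.lf (nat_lit 0) (nat_lit 91964713483) (nat_lit 152) (nat_lit 9230029189) (nat_lit 0) (nat_lit 87108912301) (nat_lit 4) (nat_lit 5) (nat_lit 6) (nat_lit 4) (nat_lit 4) (nat_lit 4) (nat_lit 411) (nat_lit 325) (nat_lit 284)))) (XT.nd (nat_lit 78) (nat_lit 0) (nat_lit 0) (XT.lf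 (nat_lit 0) (nat_lit 9108917188) (nat_lit 76) (nat_lit 99327263938) (nat_lit 76) (nat_lit 94455449879) (nat_lit 3) (nat_lit 4) (nat_lit 4) (nat_lit 5) (nat_lit 4) (nat_lit 4) (nat_lit 412) (nat_lit 325) (nat_lit 283)) (XT.nd (nat_lit 78) (nat_lit 0) (nat_lit 0) (XT.lf (nat_lit 0) (nat_lit 29135530153) (nat_lit 76) (nat_lit 97196219184) (nat_lit 76) (nat_lit 92309578388) (nat_lit 3) (nat_lit 4) (nat_lit 4) (nat_lit 5) (nat_lit 4) (nat_lit 4) (nat_lit 413) (nat_lit 325) (nat_lit 282)) (XT.lf (nat_lit 0) (nat_lit 50663299482) (nat_lit 76) (nat_lit 94945295009) (nat_lit 76) (nat_lit 90044925751) (nat_lit 3) (nat_lit 4) (nat_lit 4) (nat_lit 5) (nat_lit 4) (nat_lit 4) (nat_lit 414) (nat_lit 325) (nat_lit 281))))) (XT.nd (nat_lit 234) (nat_lit 0) (nat_lit 0) (XT.nd (nat_lit 78) (nat_lit 0) (nat_lit 0) (XT.lf (nat_lit 0) (nat_lit 73819797141) (nat_lit 76) (nat_lit 92561152602) (nat_lit 76) (nat_lit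 87648071806) (nat_lit 3) (nat_lit 4) (nat_lit 4) (nat_lit 5) (nat_lit 4) (nat_lit 4) (nat_lit 415) (nat_lit 325) (nat_lit 280)) (XT.nd (nat_lit 78) (nat_lit 0) (nat_lit 0) (XT.lf (nat_lit 0) (nat_lit 98742246819) (nat_lit 76) (nat_lit 90029663712) (nat_lit 76) (nat_lit 85104812974) (nat_lit 3) (nat_lit 4) (nat_lit 4) (nat_lit 5) (nat_lit 4) (nat_lit 4) (nat_lit 416) (nat_lit 325) (nat_lit 279)) (XT.lf (nat_lit 0) (nat_lit 125578337108) (nat_lit 76) (nat_lit 87335826923) (nat_lit 76) (nat_lit 82400078090) (nat_lit 3) (nat_lit 4) (nat_lit 4) (nat_lit 5) (nat_lit 4) (nat_lit 4) (nat_lit 417) (nat_lit 325) (nat_lit 278)))) (XT.nd (nat_lit 156) (nat_lit 0) (nat_lit 0) (XT.nd (nat_lit 78) (nat_lit 0) (nat_lit 0) (XT.lf (nat_lit 0) (nat_lit 154487096691) (nat_lit 76) (nat_lit 84463678758) (nat_lit 76) (nat_lit 79517839096) (nat_lit 3) (nat_lit 4) (nat_lit 4) (nat_lit 5) (nat_lit 4) (nat_lit 4) (nat_lit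 418) (nat_lit 325) (nat_lit 277)) (XT.lf (nat_lit 0) (nat_lit 185639836736) (nat_lit 76) (nat_lit 81396199079) (nat_lit 76) (nat_lit 76441016058) (nat_lit 3) (nat_lit 4) (nat_lit 4) (nat_lit 5) (nat_lit 4) (nat_lit 4) (nat_lit 419) (nat_lit 325) (nat_lit 276))) (XT.nd (nat_lit 78) (nat_lit 0) (nat_lit 0) (XT.lf (nat_lit 0) (nat_lit 219221166072) (nat_lit 76) (nat_lit 78115210230) (nat_lit 76) (nat_lit 73151375950) (nat_lit 3) (nat_lit 4) (nat_lit 4) (nat_lit 5) (nat_lit 4) (nat_lit 4) (nat_lit 420) (nat_lit 325) (nat_lit 275)) (XT.lf (nat_lit 0) (nat_lit 255430085170) (nat_lit 76) (nat_lit 74601269314) (nat_lit 76) (nat_lit 69629424609) (nat_lit 3) (nat_lit 4) (nat_lit 4) (nat_lit 5) (nat_lit 4) (nat_lit 4) (nat_lit 421) (nat_lit 325) (nat_lit 274))))))) (XT.nd (nat_lit 1014) (nat_lit 0) (nat_lit 0) (XT.nd (nat_lit 468) (nat_lit 152) (nat_lit 0) (XT.nd (nat_lit 234) (nat_lit 0) (nat_lit 0)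 (XT.nd (nat_lit 78) (nat_lit 0) (nat_lit 0) (XT.lf (nat_lit 0) (nat_lit 294481165402) (nat_lit 76) (nat_lit 70833552976) (nat_lit 76) (nat_lit 65854291211) (nat_lit 3) (nat_lit 4) (nat_lit 4) (nat_lit 5) (nat_lit 4) (nat_lit 4) (nat_lit 422) (nat_lit 325) (nat_lit 273)) (XT.nd (nat_lit 78) (nat_lit 0) (nat_lit 0) (XT.lf (nat_lit 0) (nat_lit 336605820577) (nat_lit 76) (nat_lit 66789734010) (nat_lit 76) (nat_lit 61803604596) (nat_lit 3) (nat_lit 4) (nat_lit 4) (nat_lit 5) (nat_lit 4) (nat_lit 4) (nat_lit 423) (nat_lit 325) (nat_lit 272)) (XT.lf (nat_lit 0) (nat_lit 382053678281) (nat_lit 76) (nat_lit 62445849042) (nat_lit 76) (nat_lit 57453360695) (nat_lit 3) (nat_lit 4) (nat_lit 4) (nat_lit 5) (nat_lit 4) (nat_lit 4) (nat_lit 424) (nat_lit 325) (nat_lit 271)))) (XT.nd (nat_lit 78) (nat_lit 0) (nat_lit 0) (XT.lf (nat_lit 0) (nat_lit 431094059152) (nat_lit 76) (nat_lit 57776156534) (nat_lit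 76) (nat_lit 52777780285) (nat_lit 3) (nat_lit 4) (nat_lit 4) (nat_lit 5) (nat_lit 4) (nat_lit 4) (nat_lit 425) (nat_lit 325) (nat_lit 270)) (XT.nd (nat_lit 78) (nat_lit 0) (nat_lit 0) (XT.lf (nat_lit 0) (nat_lit 484017572856) (nat_lit 76) (nat_lit 52752984232) (nat_lit 76) (nat_lit 47749156222) (nat_lit 3) (nat_lit 4) (nat_lit 4) (nat_lit 5) (nat_lit 4) (nat_lit 4) (nat_lit 426) (nat_lit 325) (nat_lit 269)) (XT.lf (nat_lit 0) (nat_lit 541137840213) (nat_lit 76) (nat_lit 47346565190) (nat_lit 76) (nat_lit 42337689254) (nat_lit 3) (nat_lit 4) (nat_lit 4) (nat_lit 5) (nat_lit 4) (nat_lit 4) (nat_lit 427) (nat_lit 325) (nat_lit 268))))) (XT.nd (nat_lit 234) (nat_lit 152) (nat_lit 0) (XT.nd (nat_lit 78) (nat_lit 0) (nat_lit 0) (XT.lf (nat_lit 0) (nat_lit 602793351697) (nat_lit 76) (nat_lit 41524861370) (nat_lit 76) (nat_lit 36511311427) (nat_lit 3) (nat_lit 4) (nat_lit 4) (nat_lit 5) (nat_lit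 4) (nat_lit 4) (nat_lit 428) (nat_lit 325) (nat_lit 267)) (XT.nd (nat_lit 78) (nat_lit 0) (nat_lit 0) (XT.lf (nat_lit 0) (nat_lit 669349473301) (nat_lit 76) (nat_lit 35253373785) (nat_lit 76) (nat_lit 30235496059) (nat_lit 3) (nat_lit 4) (nat_lit 4) (nat_lit 5) (nat_lit 4) (nat_lit 4) (nat_lit 429) (nat_lit 325) (nat_lit 266)) (XT.lf (nat_lit 0) (nat_lit 741200611674) (nat_lit 76) (nat_lit 28494938064) (nat_lit 76) (nat_lit 23473053131) (nat_lit 3) (nat_lit 4) (nat_lit 4) (nat_lit 5) (nat_lit 4) (nat_lit 4) (nat_lit 430) (nat_lit 325) (nat_lit 265)))) (XT.nd (nat_lit 156) (nat_lit 152) (nat_lit 0) (XT.nd (nat_lit 78) (nat_lit 0) (nat_lit 0) (XT.lf (nat_lit 0) (nat_lit 818772551337) (nat_lit 76) (nat_lit 21209504219) (nat_lit 76) (nat_lit 16183908909) (nat_lit 3) (nat_lit 4) (nat_lit 4) (nat_lit 5) (nat_lit 4) (nat_lit 4) (nat_lit 431) (nat_lit 325) (nat_lit 264)) (XT.lf (nat_lit 0) (nat_lit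 902524977860) (nat_lit 76) (nat_lit 13353899308) (nat_lit 76) (nat_lit 8324868464) (nat_lit 3) (nat_lit 4) (nat_lit 4) (nat_lit 5) (nat_lit 4) (nat_lit 4) (nat_lit 432) (nat_lit 325) (nat_lit 263))) (XT.nd (nat_lit 78) (nat_lit 76) (nat_lit 0) (XT.lf (nat_lit 0) (nat_lit 145818865) (nat_lit 152) (nat_lit 4733283219) (nat_lit 76) (nat_lit 992805913540) (nat_lit 2) (nat_lit 5) (nat_lit 4) (nat_lit 5) (nat_lit 3) (nat_lit 4) (nat_lit 433) (nat_lit 325) (nat_lit 262)) (XT.lf (nat_lit 0) (nat_lit 9284027811) (nat_lit 152) (nat_lit 1063251219706) (nat_lit 0) (nat_lit 4488639896) (nat_lit 1) (nat_lit 5) (nat_lit 3) (nat_lit 4) (nat_lit 1) (nat_lit 4) (nat_lit 434) (nat_lit 325) (nat_lit 261)))))) (XT.nd (nat_lit 48126) (nat_lit 0) (nat_lit 1824) (XT.nd (nat_lit 234) (nat_lit 0) (nat_lit 0) (XT.nd (nat_lit 78) (nat_lit 0) (nat_lit 0) (XT.lf (nat_lit 0) (nat_lit 19308702103) (nat_lit 152) (nat_lit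 1128882679900) (nat_lit 0) (nat_lit 14510716819) (nat_lit 1) (nat_lit 5) (nat_lit 3) (nat_lit 4) (nat_lit 1) (nat_lit 4) (nat_lit 435) (nat_lit 325) (nat_lit 260)) (XT.nd (nat_lit 78) (nat_lit 0) (nat_lit 0) (XT.lf (nat_lit 0) (nat_lit 30125475955) (nat_lit 152) (nat_lit 1199784499494) (nat_lit 0) (nat_lit 25325085700) (nat_lit 1) (nat_lit 5) (nat_lit 3) (nat_lit 4) (nat_lit 1) (nat_lit 4) (nat_lit 436) (nat_lit 325) (nat_lit 259)) (XT.lf (nat_lit 0) (nat_lit 41798448768) (nat_lit 152) (nat_lit 1276376837420) (nat_lit 0) (nat_lit 36995831687) (nat_lit 1) (nat_lit 5) (nat_lit 3) (nat_lit 4) (nat_lit 1) (nat_lit 4) (nat_lit 437) (nat_lit 325) (nat_lit 258)))) (XT.nd (nat_lit 47736) (nat_lit 0) (nat_lit 2736) (XT.nd (nat_lit 47658) (nat_lit 0) (nat_lit 3192) (XT.lf (nat_lit 0) (nat_lit 54396793714) (nat_lit 152) (nat_lit 1359113574198) (nat_lit 0) (nat_lit 49592114758) (nat_lit 1) (nat_lit 5)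 (nat_lit 3) (nat_lit 4) (nat_lit 1) (nat_lit 4) (nat_lit 438) (nat_lit 325) (nat_lit 257)) (XT.lf (nat_lit 0) (nat_lit 3151884479) (nat_lit 152) (nat_lit 112469482) (nat_lit 0) (nat_lit 3151884479) (nat_lit 43) (nat_lit 5) (nat_lit 45) (nat_lit 4) (nat_lit 43) (nat_lit 4) (nat_lit 368) (nat_lit 326) (nat_lit 326))) (XT.nd (nat_lit 78) (nat_lit 152) (nat_lit 0) (XT.lf (nat_lit 0) (nat_lit 2008273275) (nat_lit 152) (nat_lit 10061293427) (nat_lit 0) (nat_lit 1314289395) (nat_lit 39) (nat_lit 5) (nat_lit 41) (nat_lit 4) (nat_lit 39) (nat_lit 4) (nat_lit 369) (nat_lit 326) (nat_lit 325)) (XT.lf (nat_lit 0) (nat_lit 6622328898) (nat_lit 152) (nat_lit 4344956511) (nat_lit 152) (nat_lit 3008394965) (nat_lit 37) (nat_lit 4) (nat_lit 39) (nat_lit 5) (nat_lit 39) (nat_lit 4) (nat_lit 370) (nat_lit 326) (nat_lit 324))))) (XT.nd (nat_lit 234) (nat_lit 456) (nat_lit 0) (XT.nd (nat_lit 78) (nat_lit 304)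 (nat_lit 0) (XT.lf (nat_lit 0) (nat_lit 5759663251) (nat_lit 152) (nat_lit 4934226693) (nat_lit 0) (nat_lit 3920100520) (nat_lit 35) (nat_lit 5) (nat_lit 37) (nat_lit 4) (nat_lit 35) (nat_lit 4) (nat_lit 371) (nat_lit 326) (nat_lit 323)) (XT.nd (nat_lit 78) (nat_lit 152) (nat_lit 0) (XT.lf (nat_lit 0) (nat_lit 12472594485) (nat_lit 152) (nat_lit 2597639934) (nat_lit 152) (nat_lit 233404081) (nat_lit 33) (nat_lit 4) (nat_lit 35) (nat_lit 5) (nat_lit 35) (nat_lit 4) (nat_lit 372) (nat_lit 326) (nat_lit 322)) (XT.lf (nat_lit 0) (nat_lit 8765271958) (nat_lit 152) (nat_lit 1226281097) (nat_lit 0) (nat_lit 6050944054) (nat_lit 31) (nat_lit 5) (nat_lit 33) (nat_lit 4) (nat_lit 31) (nat_lit 4) (nat_lit 373) (nat_lit 326) (nat_lit 321)))) (XT.nd (nat_lit 156) (nat_lit 152) (nat_lit 0) (XT.nd (nat_lit 78) (nat_lit 152) (nat_lit 0) (XT.lf (nat_lit 0) (nat_lit 1513994700) (nat_lit 152) (nat_lit 39041279)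 (nat_lit 76) (nat_lit 15289461715) (nat_lit 29) (nat_lit 5) (nat_lit 31) (nat_lit 5) (nat_lit 30) (nat_lit 4) (nat_lit 374) (nat_lit 326) (nat_lit 320)) (XT.lf (nat_lit 0) (nat_lit 488908417) (nat_lit 76) (nat_lit 10290614027) (nat_lit 76) (nat_lit 6919757449) (nat_lit 27) (nat_lit 4) (nat_lit 28) (nat_lit 5) (nat_lit 28) (nat_lit 4) (nat_lit 375) (nat_lit 326) (nat_lit 319))) (XT.nd (nat_lit 78) (nat_lit 0) (nat_lit 0) (XT.lf (nat_lit 0) (nat_lit 393676612) (nat_lit 76) (nat_lit 1613313376) (nat_lit 152) (nat_lit 16620242328) (nat_lit 25) (nat_lit 5) (nat_lit 26) (nat_lit 5) (nat_lit 27) (nat_lit 4) (nat_lit 376) (nat_lit 326) (nat_lit 318)) (XT.lf (nat_lit 0) (nat_lit 11430383992) (nat_lit 152) (nat_lit 613711904) (nat_lit 0) (nat_lit 7578442737) (nat_lit 25) (nat_lit 5) (nat_lit 27) (nat_lit 4) (nat_lit 25) (nat_lit 4) (nat_lit 377) (nat_lit 326) (nat_lit 317))))))))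
noncomputable def xc24 : XT := (XT.nd (nat_lit 2028) (nat_lit 228) (nat_lit 0) (XT.nd (nat_lit 1014) (nat_lit 456) (nat_lit 0) (XT.nd (nat_lit 468) (nat_lit 456) (nat_lit 0) (XT.nd (nat_lit 234) (nat_lit 228) (nat_lit 0) (XT.nd (nat_lit 78) (nat_lit 152) (nat_lit 0) (XT.lf (nat_lit 0) (nat_lit 817985937) (nat_lit 152) (nat_lit 2460683356) (nat_lit 76) (nat_lit 17421275138) (nat_lit 23) (nat_lit 5) (nat_lit 25) (nat_lit 5) (nat_lit 24) (nat_lit 4) (nat_lit 378) (nat_lit 326) (nat_lit 316)) (XT.nd (nat_lit 78) (nat_lit 76) (nat_lit 0) (XT.lf (nat_lit 0) (nat_lit 10268297176) (nat_lit 152) (nat_lit 5512336475) (nat_lit 0) (nat_lit 6075905496) (nat_lit 22) (nat_lit 5) (nat_lit 24) (nat_lit 4) (nat_lit 22) (nat_lit 4) (nat_lit 379) (nat_lit 326) (nat_lit 315)) (XT.lf (nat_lit 0) (nat_lit 13326108147) (nat_lit 76) (nat_lit 7103710232) (nat_lit 76) (nat_lit 2678111555) (nat_lit 21) (nat_lit 4) (nat_lit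 22) (nat_lit 5) (nat_lit 22) (nat_lit 4) (nat_lit 380) (nat_lit 326) (nat_lit 314)))) (XT.nd (nat_lit 78) (nat_lit 76) (nat_lit 0) (XT.lf (nat_lit 0) (nat_lit 6654137193) (nat_lit 152) (nat_lit 15569687155) (nat_lit 0) (nat_lit 2233631401) (nat_lit 19) (nat_lit 5) (nat_lit 21) (nat_lit 4) (nat_lit 19) (nat_lit 4) (nat_lit 381) (nat_lit 326) (nat_lit 313)) (XT.nd (nat_lit 78) (nat_lit 0) (nat_lit 0) (XT.lf (nat_lit 0) (nat_lit 2768109253) (nat_lit 76) (nat_lit 13877627152) (nat_lit 76) (nat_lit 9266704778) (nat_lit 18) (nat_lit 4) (nat_lit 19) (nat_lit 5) (nat_lit 19) (nat_lit 4) (nat_lit 382) (nat_lit 326) (nat_lit 312)) (XT.lf (nat_lit 0) (nat_lit 22510453963) (nat_lit 76) (nat_lit 4881432669) (nat_lit 76) (nat_lit 94198644) (nat_lit 18) (nat_lit 4) (nat_lit 19) (nat_lit 5) (nat_lit 19) (nat_lit 4) (nat_lit 383) (nat_lit 326) (nat_lit 311))))) (XT.nd (nat_lit 234) (nat_lit 228) (nat_lit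 0) (XT.nd (nat_lit 78) (nat_lit 76) (nat_lit 0) (XT.lf (nat_lit 0) (nat_lit 9502246423) (nat_lit 152) (nat_lit 14888025611) (nat_lit 0) (nat_lit 4787498277) (nat_lit 16) (nat_lit 5) (nat_lit 18) (nat_lit 4) (nat_lit 16) (nat_lit 4) (nat_lit 384) (nat_lit 326) (nat_lit 310)) (XT.nd (nat_lit 78) (nat_lit 0) (nat_lit 0) (XT.lf (nat_lit 0) (nat_lit 3740838390) (nat_lit 76) (nat_lit 16062787330) (nat_lit 76) (nat_lit 11204078400) (nat_lit 15) (nat_lit 4) (nat_lit 16) (nat_lit 5) (nat_lit 16) (nat_lit 4) (nat_lit 385) (nat_lit 326) (nat_lit 309)) (XT.lf (nat_lit 0) (nat_lit 23849160383) (nat_lit 76) (nat_lit 7063849664) (nat_lit 76) (nat_lit 2071843713) (nat_lit 15) (nat_lit 4) (nat_lit 16) (nat_lit 5) (nat_lit 16) (nat_lit 4) (nat_lit 386) (nat_lit 326) (nat_lit 308)))) (XT.nd (nat_lit 156) (nat_lit 76) (nat_lit 0) (XT.nd (nat_lit 78) (nat_lit 0) (nat_lit 0) (XT.lf (nat_lit 0) (nat_lit 7482766034)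 (nat_lit 152) (nat_lit 25023354802) (nat_lit 0) (nat_lit 2610928778) (nat_lit 13) (nat_lit 5) (nat_lit 15) (nat_lit 4) (nat_lit 13) (nat_lit 4) (nat_lit 387) (nat_lit 326) (nat_lit 307)) (XT.lf (nat_lit 0) (nat_lit 17759556448) (nat_lit 152) (nat_lit 6878179026) (nat_lit 0) (nat_lit 12778880419) (nat_lit 13) (nat_lit 5) (nat_lit 15) (nat_lit 4) (nat_lit 13) (nat_lit 4) (nat_lit 388) (nat_lit 326) (nat_lit 306))) (XT.nd (nat_lit 78) (nat_lit 0) (nat_lit 0) (XT.lf (nat_lit 0) (nat_lit 12663430591) (nat_lit 76) (nat_lit 16159968058) (nat_lit 76) (nat_lit 11078515388) (nat_lit 12) (nat_lit 4) (nat_lit 13) (nat_lit 5) (nat_lit 13) (nat_lit 4) (nat_lit 389) (nat_lit 326) (nat_lit 305)) (XT.lf (nat_lit 0) (nat_lit 33573509745) (nat_lit 76) (nat_lit 7096216434) (nat_lit 76) (nat_lit 1921452059) (nat_lit 12) (nat_lit 4) (nat_lit 13) (nat_lit 5) (nat_lit 13) (nat_lit 4) (nat_lit 390) (nat_lit 326)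 (nat_lit 304)))))) (XT.nd (nat_lit 468) (nat_lit 76) (nat_lit 0) (XT.nd (nat_lit 234) (nat_lit 152) (nat_lit 0) (XT.nd (nat_lit 78) (nat_lit 76) (nat_lit 0) (XT.lf (nat_lit 0) (nat_lit 7710599703) (nat_lit 152) (nat_lit 35078933420) (nat_lit 0) (nat_lit 2699967224) (nat_lit 10) (nat_lit 5) (nat_lit 12) (nat_lit 4) (nat_lit 10) (nat_lit 4) (nat_lit 391) (nat_lit 326) (nat_lit 303)) (XT.nd (nat_lit 78) (nat_lit 76) (nat_lit 0) (XT.lf (nat_lit 0) (nat_lit 18123005613) (nat_lit 152) (nat_lit 17455078401) (nat_lit 0) (nat_lit 13036182899) (nat_lit 10) (nat_lit 5) (nat_lit 12) (nat_lit 4) (nat_lit 10) (nat_lit 4) (nat_lit 392) (nat_lit 326) (nat_lit 302)) (XT.lf (nat_lit 0) (nat_lit 1244733513) (nat_lit 76) (nat_lit 27955045092) (nat_lit 76) (nat_lit 22797675864) (nat_lit 9) (nat_lit 4) (nat_lit 10) (nat_lit 5) (nat_lit 10) (nat_lit 4) (nat_lit 393) (nat_lit 326) (nat_lit 301)))) (XT.nd (nat_lit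 78) (nat_lit 152) (nat_lit 0) (XT.lf (nat_lit 0) (nat_lit 21706299338) (nat_lit 76) (nat_lit 19580739141) (nat_lit 76) (nat_lit 14358049067) (nat_lit 9) (nat_lit 4) (nat_lit 10) (nat_lit 5) (nat_lit 10) (nat_lit 4) (nat_lit 394) (nat_lit 326) (nat_lit 300)) (XT.nd (nat_lit 78) (nat_lit 152) (nat_lit 0) (XT.lf (nat_lit 0) (nat_lit 43473729077) (nat_lit 76) (nat_lit 10701150846) (nat_lit 76) (nat_lit 5417978506) (nat_lit 9) (nat_lit 4) (nat_lit 10) (nat_lit 5) (nat_lit 10) (nat_lit 4) (nat_lit 395) (nat_lit 326) (nat_lit 299)) (XT.lf (nat_lit 0) (nat_lit 2839092073) (nat_lit 76) (nat_lit 1150306224) (nat_lit 152) (nat_lit 59869365197) (nat_lit 7) (nat_lit 5) (nat_lit 8) (nat_lit 5) (nat_lit 9) (nat_lit 4) (nat_lit 396) (nat_lit 326) (nat_lit 298))))) (XT.nd (nat_lit 234) (nat_lit 76) (nat_lit 0) (XT.nd (nat_lit 78) (nat_lit 0) (nat_lit 0) (XT.lf (nat_lit 0) (nat_lit 14238577137) (nat_lit 152)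 (nat_lit 45104712627) (nat_lit 0) (nat_lit 9104264536) (nat_lit 7) (nat_lit 5) (nat_lit 9) (nat_lit 4) (nat_lit 7) (nat_lit 4) (nat_lit 397) (nat_lit 326) (nat_lit 297)) (XT.nd (nat_lit 78) (nat_lit 0) (nat_lit 0) (XT.lf (nat_lit 0) (nat_lit 25186364996) (nat_lit 152) (nat_lit 28216829135) (nat_lit 0) (nat_lit 20006325945) (nat_lit 7) (nat_lit 5) (nat_lit 9) (nat_lit 4) (nat_lit 7) (nat_lit 4) (nat_lit 398) (nat_lit 326) (nat_lit 296)) (XT.lf (nat_lit 0) (nat_lit 36879678150) (nat_lit 152) (nat_lit 10237985093) (nat_lit 0) (nat_lit 31657299794) (nat_lit 7) (nat_lit 5) (nat_lit 9) (nat_lit 4) (nat_lit 7) (nat_lit 4) (nat_lit 399) (nat_lit 326) (nat_lit 295)))) (XT.nd (nat_lit 156) (nat_lit 0) (nat_lit 0) (XT.nd (nat_lit 78) (nat_lit 0) (nat_lit 0) (XT.lf (nat_lit 0) (nat_lit 9233903370) (nat_lit 76) (nat_lit 40298074047) (nat_lit 76) (nat_lit 35036492630) (nat_lit 6) (nat_lit 4) (nat_lit 7)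 (nat_lit 5) (nat_lit 7) (nat_lit 4) (nat_lit 400) (nat_lit 326) (nat_lit 294)) (XT.lf (nat_lit 0) (nat_lit 30398797501) (nat_lit 76) (nat_lit 32860696653) (nat_lit 76) (nat_lit 27562816106) (nat_lit 6) (nat_lit 4) (nat_lit 7) (nat_lit 5) (nat_lit 7) (nat_lit 4) (nat_lit 401) (nat_lit 326) (nat_lit 293))) (XT.nd (nat_lit 78) (nat_lit 0) (nat_lit 0) (XT.lf (nat_lit 0) (nat_lit 53043604871) (nat_lit 76) (nat_lit 24934842945) (nat_lit 76) (nat_lit 19603352094) (nat_lit 6) (nat_lit 4) (nat_lit 7) (nat_lit 5) (nat_lit 7) (nat_lit 4) (nat_lit 402) (nat_lit 326) (nat_lit 292)) (XT.lf (nat_lit 0) (nat_lit 77302516930) (nat_lit 76) (nat_lit 16473544903) (nat_lit 76) (nat_lit 11110933398) (nat_lit 6) (nat_lit 4) (nat_lit 7) (nat_lit 5) (nat_lit 7) (nat_lit 4) (nat_lit 403) (nat_lit 326) (nat_lit 291))))))) (XT.nd (nat_lit 1014) (nat_lit 0) (nat_lit 0) (XT.nd (nat_lit 468) (nat_lit 76) (nat_lit 0) (XT.nd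 (nat_lit 234) (nat_lit 0) (nat_lit 0) (XT.nd (nat_lit 78) (nat_lit 152) (nat_lit 0) (XT.lf (nat_lit 0) (nat_lit 103319290196) (nat_lit 76) (nat_lit 7426661500) (nat_lit 76) (nat_lit 2035234575) (nat_lit 6) (nat_lit 4) (nat_lit 7) (nat_lit 5) (nat_lit 7) (nat_lit 4) (nat_lit 404) (nat_lit 326) (nat_lit 290)) (XT.nd (nat_lit 78) (nat_lit 0) (nat_lit 0) (XT.lf (nat_lit 0) (nat_lit 7629974092) (nat_lit 152) (nat_lit 111195405753) (nat_lit 0) (nat_lit 2469871359) (nat_lit 4) (nat_lit 5) (nat_lit 6) (nat_lit 4) (nat_lit 4) (nat_lit 4) (nat_lit 405) (nat_lit 326) (nat_lit 289)) (XT.lf (nat_lit 0) (nat_lit 18207176195) (nat_lit 152) (nat_lit 99247550347) (nat_lit 0) (nat_lit 13023545293) (nat_lit 4) (nat_lit 5) (nat_lit 6) (nat_lit 4) (nat_lit 4) (nat_lit 4) (nat_lit 406) (nat_lit 326) (nat_lit 288)))) (XT.nd (nat_lit 78) (nat_lit 0) (nat_lit 0) (XT.lf (nat_lit 0) (nat_lit 29553127617) (nat_lit 152)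 (nat_lit 86498969061) (nat_lit 0) (nat_lit 24347711373) (nat_lit 4) (nat_lit 5) (nat_lit 6) (nat_lit 4) (nat_lit 4) (nat_lit 4) (nat_lit 407) (nat_lit 326) (nat_lit 287)) (XT.nd (nat_lit 78) (nat_lit 0) (nat_lit 0) (XT.lf (nat_lit 0) (nat_lit 41735063626) (nat_lit 152) (nat_lit 72874114746) (nat_lit 0) (nat_lit 36509475769) (nat_lit 4) (nat_lit 5) (nat_lit 6) (nat_lit 4) (nat_lit 4) (nat_lit 4) (nat_lit 408) (nat_lit 326) (nat_lit 286)) (XT.lf (nat_lit 0) (nat_lit 54825173471) (nat_lit 152) (nat_lit 58292247524) (nat_lit 0) (nat_lit 49580908195) (nat_lit 4) (nat_lit 5) (nat_lit 6) (nat_lit 4) (nat_lit 4) (nat_lit 4) (nat_lit 409) (nat_lit 326) (nat_lit 285))))) (XT.nd (nat_lit 234) (nat_lit 76) (nat_lit 0) (XT.nd (nat_lit 78) (nat_lit 0) (nat_lit 0) (XT.lf (nat_lit 0) (nat_lit 68901028175) (nat_lit 152) (nat_lit 42666956332) (nat_lit 0) (nat_lit 63639468992) (nat_lit 4) (nat_lit 5) (nat_lit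 6) (nat_lit 4) (nat_lit 4) (nat_lit 4) (nat_lit 410) (nat_lit 326) (nat_lit 284)) (XT.nd (nat_lit 78) (nat_lit 0) (nat_lit 0) (XT.lf (nat_lit 0) (nat_lit 84046040210) (nat_lit 152) (nat_lit 25905646850) (nat_lit 0) (nat_lit 78768468150) (nat_lit 4) (nat_lit 5) (nat_lit 6) (nat_lit 4) (nat_lit 4) (nat_lit 4) (nat_lit 411) (nat_lit 326) (nat_lit 283)) (XT.lf (nat_lit 0) (nat_lit 100349957795) (nat_lit 152) (nat_lit 7908992801) (nat_lit 0) (nat_lit 95057558997) (nat_lit 4) (nat_lit 5) (nat_lit 6) (nat_lit 4) (nat_lit 4) (nat_lit 4) (nat_lit 412) (nat_lit 326) (nat_lit 282)))) (XT.nd (nat_lit 156) (nat_lit 0) (nat_lit 0) (XT.nd (nat_lit 78) (nat_lit 0) (nat_lit 0) (XT.lf (nat_lit 0) (nat_lit 11807568588) (nat_lit 76) (nat_lit 106286177386) (nat_lit 76) (nat_lit 100980050126) (nat_lit 3) (nat_lit 4) (nat_lit 4) (nat_lit 5) (nat_lit 4) (nat_lit 4) (nat_lit 413) (nat_lit 326) (nat_lit 281)) (XT.lf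 (nat_lit 0) (nat_lit 33290389256) (nat_lit 76) (nat_lit 104057779990) (nat_lit 76) (nat_lit 98738941193) (nat_lit 3) (nat_lit 4) (nat_lit 4) (nat_lit 5) (nat_lit 4) (nat_lit 4) (nat_lit 414) (nat_lit 326) (nat_lit 280))) (XT.nd (nat_lit 78) (nat_lit 0) (nat_lit 0) (XT.lf (nat_lit 0) (nat_lit 56405267783) (nat_lit 76) (nat_lit 101694495713) (nat_lit 76) (nat_lit 96363886973) (nat_lit 3) (nat_lit 4) (nat_lit 4) (nat_lit 5) (nat_lit 4) (nat_lit 4) (nat_lit 415) (nat_lit 326) (nat_lit 279)) (XT.lf (nat_lit 0) (nat_lit 81289181229) (nat_lit 76) (nat_lit 99182319905) (nat_lit 76) (nat_lit 93840813071) (nat_lit 3) (nat_lit 4) (nat_lit 4) (nat_lit 5) (nat_lit 4) (nat_lit 4) (nat_lit 416) (nat_lit 326) (nat_lit 278)))))) (XT.nd (nat_lit 468) (nat_lit 0) (nat_lit 0) (XT.nd (nat_lit 234) (nat_lit 0) (nat_lit 0) (XT.nd (nat_lit 78) (nat_lit 0) (nat_lit 0) (XT.lf (nat_lit 0) (nat_lit 108089589822) (nat_lit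 76) (nat_lit 96506365600) (nat_lit 76) (nat_lit 91154767937) (nat_lit 3) (nat_lit 4) (nat_lit 4) (nat_lit 5) (nat_lit 4) (nat_lit 4) (nat_lit 417) (nat_lit 326) (nat_lit 277)) (XT.nd (nat_lit 78) (nat_lit 0) (nat_lit 0) (XT.lf (nat_lit 0) (nat_lit 136965310796) (nat_lit 76) (nat_lit 93650775291) (nat_lit 76) (nat_lit 88289834268) (nat_lit 3) (nat_lit 4) (nat_lit 4) (nat_lit 5) (nat_lit 4) (nat_lit 4) (nat_lit 418) (nat_lit 326) (nat_lit 276)) (XT.lf (nat_lit 0) (nat_lit 168087459537) (nat_lit 76) (nat_lit 90598626961) (nat_lit 76) (nat_lit 85229034679) (nat_lit 3) (nat_lit 4) (nat_lit 4) (nat_lit 5) (nat_lit 4) (nat_lit 4) (nat_lit 419) (nat_lit 326) (nat_lit 275)))) (XT.nd (nat_lit 78) (nat_lit 0) (nat_lit 0) (XT.lf (nat_lit 0) (nat_lit 201640463592) (nat_lit 76) (nat_lit 87331833804) (nat_lit 76) (nat_lit 81954231097) (nat_lit 3) (nat_lit 4) (nat_lit 4) (nat_lit 5) (nat_lit 4) (nat_lit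 4) (nat_lit 420) (nat_lit 326) (nat_lit 274)) (XT.nd (nat_lit 78) (nat_lit 0) (nat_lit 0) (XT.lf (nat_lit 0) (nat_lit 237823155578) (nat_lit 76) (nat_lit 83831037047) (nat_lit 76) (nat_lit 78446017280) (nat_lit 3) (nat_lit 4) (nat_lit 4) (nat_lit 5) (nat_lit 4) (nat_lit 4) (nat_lit 421) (nat_lit 326) (nat_lit 273)) (XT.lf (nat_lit 0) (nat_lit 276849951446) (nat_lit 76) (nat_lit 80075491228) (nat_lit 76) (nat_lit 74683603813) (nat_lit 3) (nat_lit 4) (nat_lit 4) (nat_lit 5) (nat_lit 4) (nat_lit 4) (nat_lit 422) (nat_lit 326) (nat_lit 272))))) (XT.nd (nat_lit 234) (nat_lit 0) (nat_lit 0) (XT.nd (nat_lit 78) (nat_lit 0) (nat_lit 0) (XT.lf (nat_lit 0) (nat_lit 318952121100) (nat_lit 76) (nat_lit 76042941260) (nat_lit 76) (nat_lit 70644694911) (nat_lit 3) (nat_lit 4) (nat_lit 4) (nat_lit 5) (nat_lit 4) (nat_lit 4) (nat_lit 423) (nat_lit 326) (nat_lit 271)) (XT.nd (nat_lit 78) (nat_lit 0) (nat_lit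 0) (XT.lf (nat_lit 0) (nat_lit 364379158876) (nat_lit 76) (nat_lit 71709490550) (nat_lit 76) (nat_lit 66305356300) (nat_lit 3) (nat_lit 4) (nat_lit 4) (nat_lit 5) (nat_lit 4) (nat_lit 4) (nat_lit 424) (nat_lit 326) (nat_lit 270)) (XT.lf (nat_lit 0) (nat_lit 413400262037) (nat_lit 76) (nat_lit 67049459392) (nat_lit 76) (nat_lit 61639873380) (nat_lit 3) (nat_lit 4) (nat_lit 4) (nat_lit 5) (nat_lit 4) (nat_lit 4) (nat_lit 425) (nat_lit 326) (nat_lit 269)))) (XT.nd (nat_lit 156) (nat_lit 0) (nat_lit 0) (XT.nd (nat_lit 78) (nat_lit 0) (nat_lit 0) (XT.lf (nat_lit 0) (nat_lit 466305926008) (nat_lit 76) (nat_lit 62035232784) (nat_lit 76) (nat_lit 56620598846) (nat_lit 3) (nat_lit 4) (nat_lit 4) (nat_lit 5) (nat_lit 4) (nat_lit 4) (nat_lit 426) (nat_lit 326) (nat_lit 268)) (XT.lf (nat_lit 0) (nat_lit 523409665836) (nat_lit 76) (nat_lit 56637096793) (nat_lit 76) (nat_lit 51217788849) (nat_lit 3) (nat_lit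 4) (nat_lit 4) (nat_lit 5) (nat_lit 4) (nat_lit 4) (nat_lit 427) (nat_lit 326) (nat_lit 267))) (XT.nd (nat_lit 78) (nat_lit 0) (nat_lit 0) (XT.lf (nat_lit 0) (nat_lit 585049874051) (nat_lit 76) (nat_lit 50823062463) (nat_lit 76) (nat_lit 45399426735) (nat_lit 3) (nat_lit 4) (nat_lit 4) (nat_lit 5) (nat_lit 4) (nat_lit 4) (nat_lit 428) (nat_lit 326) (nat_lit 266)) (XT.lf (nat_lit 0) (nat_lit 651591825964) (nat_lit 76) (nat_lit 44558676258) (nat_lit 76) (nat_lit 39131033324) (nat_lit 3) (nat_lit 4) (nat_lit 4) (nat_lit 5) (nat_lit 4) (nat_lit 4) (nat_lit 429) (nat_lit 326) (nat_lit 265))))))))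
noncomputable def xc25 : XT := (XT.nd (nat_lit 49452) (nat_lit 0) (nat_lit 228) (XT.nd (nat_lit 48438) (nat_lit 0) (nat_lit 1368) (XT.nd (nat_lit 468) (nat_lit 0) (nat_lit 0) (XT.nd (nat_lit 234) (nat_lit 152) (nat_lit 0) (XT.nd (nat_lit 78) (nat_lit 0) (nat_lit 0) (XT.lf (nat_lit 0) (nat_lit 723429844250) (nat_lit 76) (nat_lit 37806815890) (nat_lit 76) (nat_lit 32375462579) (nat_lit 3) (nat_lit 4) (nat_lit 4) (nat_lit 5) (nat_lit 4) (nat_lit 4) (nat_lit 430) (nat_lit 326) (nat_lit 264)) (XT.nd (nat_lit 78) (nat_lit 0) (nat_lit 0) (XT.lf (nat_lit 0) (nat_lit 800989635686) (nat_lit 76) (nat_lit 30527470334) (nat_lit 76) (nat_lit 25092681489) (nat_lit 3) (nat_lit 4) (nat_lit 4) (nat_lit 5) (nat_lit 4) (nat_lit 4) (nat_lit 431) (nat_lit 326) (nat_lit 263)) (XT.lf (nat_lit 0) (nat_lit 884730813850) (nat_lit 76) (nat_lit 22677502728) (nat_lit 76) (nat_lit 17239532832) (nat_lit 3) (nat_lit 4) (nat_lit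 4) (nat_lit 5) (nat_lit 4) (nat_lit 4) (nat_lit 432) (nat_lit 326) (nat_lit 262)))) (XT.nd (nat_lit 78) (nat_lit 152) (nat_lit 0) (XT.lf (nat_lit 0) (nat_lit 975149622761) (nat_lit 76) (nat_lit 14210394744) (nat_lit 76) (nat_lit 8769479432) (nat_lit 3) (nat_lit 4) (nat_lit 4) (nat_lit 5) (nat_lit 4) (nat_lit 4) (nat_lit 433) (nat_lit 326) (nat_lit 261)) (XT.nd (nat_lit 78) (nat_lit 76) (nat_lit 0) (XT.lf (nat_lit 0) (nat_lit 355903832) (nat_lit 152) (nat_lit 4714039692) (nat_lit 76) (nat_lit 1072419946347) (nat_lit 2) (nat_lit 5) (nat_lit 4) (nat_lit 5) (nat_lit 3) (nat_lit 4) (nat_lit 434) (nat_lit 326) (nat_lit 260)) (XT.lf (nat_lit 0) (nat_lit 10219395458) (nat_lit 152) (nat_lit 1147924196082) (nat_lit 0) (nat_lit 5032569011) (nat_lit 1) (nat_lit 5) (nat_lit 3) (nat_lit 4) (nat_lit 1) (nat_lit 4) (nat_lit 435) (nat_lit 326) (nat_lit 259))))) (XT.nd (nat_lit 47658) (nat_lit 0) (nat_lit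 2888) (XT.nd (nat_lit 78) (nat_lit 0) (nat_lit 0) (XT.lf (nat_lit 0) (nat_lit 21031773663) (nat_lit 152) (nat_lit 1218834848736) (nat_lit 0) (nat_lit 15842720390) (nat_lit 1) (nat_lit 5) (nat_lit 3) (nat_lit 4) (nat_lit 1) (nat_lit 4) (nat_lit 436) (nat_lit 326) (nat_lit 258)) (XT.nd (nat_lit 78) (nat_lit 0) (nat_lit 0) (XT.lf (nat_lit 0) (nat_lit 32700676431) (nat_lit 152) (nat_lit 1295435365421) (nat_lit 0) (nat_lit 27509561283) (nat_lit 1) (nat_lit 5) (nat_lit 3) (nat_lit 4) (nat_lit 1) (nat_lit 4) (nat_lit 437) (nat_lit 326) (nat_lit 257)) (XT.lf (nat_lit 0) (nat_lit 45295252817) (nat_lit 152) (nat_lit 1378179675124) (nat_lit 0) (nat_lit 40102228525) (nat_lit 1) (nat_lit 5) (nat_lit 3) (nat_lit 4) (nat_lit 1) (nat_lit 4) (nat_lit 438) (nat_lit 326) (nat_lit 256)))) (XT.nd (nat_lit 156) (nat_lit 456) (nat_lit 0) (XT.nd (nat_lit 78) (nat_lit 152) (nat_lit 0) (XT.lf (nat_lit 0) (nat_lit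 1190479944) (nat_lit 152) (nat_lit 3536459748) (nat_lit 0) (nat_lit 1190479944) (nat_lit 47) (nat_lit 5) (nat_lit 49) (nat_lit 4) (nat_lit 47) (nat_lit 4) (nat_lit 366) (nat_lit 327) (nat_lit 327)) (XT.lf (nat_lit 0) (nat_lit 8548748873) (nat_lit 152) (nat_lit 2299438957) (nat_lit 152) (nat_lit 1473112351) (nat_lit 45) (nat_lit 4) (nat_lit 47) (nat_lit 5) (nat_lit 47) (nat_lit 4) (nat_lit 367) (nat_lit 327) (nat_lit 326))) (XT.nd (nat_lit 78) (nat_lit 304) (nat_lit 0) (XT.lf (nat_lit 0) (nat_lit 6860196204) (nat_lit 152) (nat_lit 639314472) (nat_lit 0) (nat_lit 5344535411) (nat_lit 43) (nat_lit 5) (nat_lit 45) (nat_lit 4) (nat_lit 43) (nat_lit 4) (nat_lit 368) (nat_lit 327) (nat_lit 325)) (XT.lf (nat_lit 0) (nat_lit 2273683300) (nat_lit 152) (nat_lit 10946834715) (nat_lit 0) (nat_lit 187619163) (nat_lit 39) (nat_lit 5) (nat_lit 41) (nat_lit 4) (nat_lit 39) (nat_lit 4) (nat_lit 369) (nat_lit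 327) (nat_lit 324)))))) (XT.nd (nat_lit 468) (nat_lit 684) (nat_lit 0) (XT.nd (nat_lit 234) (nat_lit 380) (nat_lit 0) (XT.nd (nat_lit 78) (nat_lit 304) (nat_lit 0) (XT.lf (nat_lit 0) (nat_lit 5300268798) (nat_lit 152) (nat_lit 5696288527) (nat_lit 152) (nat_lit 3015245069) (nat_lit 37) (nat_lit 4) (nat_lit 39) (nat_lit 5) (nat_lit 39) (nat_lit 4) (nat_lit 370) (nat_lit 327) (nat_lit 323)) (XT.nd (nat_lit 78) (nat_lit 152) (nat_lit 0) (XT.lf (nat_lit 0) (nat_lit 5491819115) (nat_lit 152) (nat_lit 6757618122) (nat_lit 0) (nat_lit 2413771271) (nat_lit 35) (nat_lit 5) (nat_lit 37) (nat_lit 4) (nat_lit 35) (nat_lit 4) (nat_lit 371) (nat_lit 327) (nat_lit 322)) (XT.lf (nat_lit 0) (nat_lit 10201850539) (nat_lit 152) (nat_lit 4363374181) (nat_lit 152) (nat_lit 799517890) (nat_lit 33) (nat_lit 4) (nat_lit 35) (nat_lit 5) (nat_lit 35) (nat_lit 4) (nat_lit 372) (nat_lit 327) (nat_lit 321)))) (XT.nd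 (nat_lit 78) (nat_lit 228) (nat_lit 0) (XT.lf (nat_lit 0) (nat_lit 7947311614) (nat_lit 152) (nat_lit 4045494073) (nat_lit 0) (nat_lit 4124760255) (nat_lit 31) (nat_lit 5) (nat_lit 33) (nat_lit 4) (nat_lit 31) (nat_lit 4) (nat_lit 373) (nat_lit 327) (nat_lit 320)) (XT.nd (nat_lit 78) (nat_lit 76) (nat_lit 0) (XT.lf (nat_lit 0) (nat_lit 405330085) (nat_lit 152) (nat_lit 3388293674) (nat_lit 76) (nat_lit 13136872409) (nat_lit 29) (nat_lit 5) (nat_lit 31) (nat_lit 5) (nat_lit 30) (nat_lit 4) (nat_lit 374) (nat_lit 327) (nat_lit 319)) (XT.lf (nat_lit 0) (nat_lit 9381776098) (nat_lit 152) (nat_lit 3406301649) (nat_lit 0) (nat_lit 5013674715) (nat_lit 28) (nat_lit 5) (nat_lit 30) (nat_lit 4) (nat_lit 28) (nat_lit 4) (nat_lit 375) (nat_lit 327) (nat_lit 318))))) (XT.nd (nat_lit 234) (nat_lit 380) (nat_lit 0) (XT.nd (nat_lit 78) (nat_lit 152) (nat_lit 0) (XT.lf (nat_lit 0) (nat_lit 306966839) (nat_lit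 152) (nat_lit 4062704814) (nat_lit 76) (nat_lit 14373613038) (nat_lit 26) (nat_lit 5) (nat_lit 28) (nat_lit 5) (nat_lit 27) (nat_lit 4) (nat_lit 376) (nat_lit 327) (nat_lit 317)) (XT.nd (nat_lit 78) (nat_lit 76) (nat_lit 0) (XT.lf (nat_lit 0) (nat_lit 9440821355) (nat_lit 152) (nat_lit 5625613775) (nat_lit 0) (nat_lit 4686649190) (nat_lit 25) (nat_lit 5) (nat_lit 27) (nat_lit 4) (nat_lit 25) (nat_lit 4) (nat_lit 377) (nat_lit 327) (nat_lit 316)) (XT.lf (nat_lit 0) (nat_lit 12744562450) (nat_lit 76) (nat_lit 6558930206) (nat_lit 76) (nat_lit 1540301307) (nat_lit 24) (nat_lit 4) (nat_lit 25) (nat_lit 5) (nat_lit 25) (nat_lit 4) (nat_lit 378) (nat_lit 327) (nat_lit 315)))) (XT.nd (nat_lit 156) (nat_lit 152) (nat_lit 0) (XT.nd (nat_lit 78) (nat_lit 76) (nat_lit 0) (XT.lf (nat_lit 0) (nat_lit 7646562132) (nat_lit 152) (nat_lit 11736971098) (nat_lit 0) (nat_lit 2633708564) (nat_lit 22) (nat_lit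 5) (nat_lit 24) (nat_lit 4) (nat_lit 22) (nat_lit 4) (nat_lit 379) (nat_lit 327) (nat_lit 314)) (XT.lf (nat_lit 0) (nat_lit 6581906559) (nat_lit 76) (nat_lit 10964308870) (nat_lit 76) (nat_lit 5735522898) (nat_lit 21) (nat_lit 4) (nat_lit 22) (nat_lit 5) (nat_lit 22) (nat_lit 4) (nat_lit 380) (nat_lit 327) (nat_lit 313))) (XT.nd (nat_lit 78) (nat_lit 0) (nat_lit 0) (XT.lf (nat_lit 0) (nat_lit 1522839269) (nat_lit 76) (nat_lit 1868166903) (nat_lit 152) (nat_lit 21257834397) (nat_lit 19) (nat_lit 5) (nat_lit 20) (nat_lit 5) (nat_lit 21) (nat_lit 4) (nat_lit 381) (nat_lit 327) (nat_lit 312)) (XT.lf (nat_lit 0) (nat_lit 13162943740) (nat_lit 152) (nat_lit 5135456089) (nat_lit 0) (nat_lit 7816419342) (nat_lit 19) (nat_lit 5) (nat_lit 21) (nat_lit 4) (nat_lit 19) (nat_lit 4) (nat_lit 382) (nat_lit 327) (nat_lit 311))))))) (XT.nd (nat_lit 1014) (nat_lit 380) (nat_lit 0) (XT.nd (nat_lit 468) (nat_lit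 304) (nat_lit 0) (XT.nd (nat_lit 234) (nat_lit 228) (nat_lit 0) (XT.nd (nat_lit 78) (nat_lit 152) (nat_lit 0) (XT.lf (nat_lit 0) (nat_lit 14161773895) (nat_lit 76) (nat_lit 9523824701) (nat_lit 76) (nat_lit 4014048775) (nat_lit 18) (nat_lit 4) (nat_lit 19) (nat_lit 5) (nat_lit 19) (nat_lit 4) (nat_lit 383) (nat_lit 327) (nat_lit 310)) (XT.nd (nat_lit 78) (nat_lit 0) (nat_lit 0) (XT.lf (nat_lit 0) (nat_lit 5320818929) (nat_lit 76) (nat_lit 36134084) (nat_lit 152) (nat_lit 24054992767) (nat_lit 16) (nat_lit 5) (nat_lit 17) (nat_lit 5) (nat_lit 18) (nat_lit 4) (nat_lit 384) (nat_lit 327) (nat_lit 309)) (XT.lf (nat_lit 0) (nat_lit 15471009722) (nat_lit 152) (nat_lit 5833897350) (nat_lit 0) (nat_lit 9946346273) (nat_lit 16) (nat_lit 5) (nat_lit 18) (nat_lit 4) (nat_lit 16) (nat_lit 4) (nat_lit 385) (nat_lit 327) (nat_lit 308)))) (XT.nd (nat_lit 78) (nat_lit 152) (nat_lit 0) (XT.lf (nat_lit 0)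 (nat_lit 13840033155) (nat_lit 76) (nat_lit 12523649537) (nat_lit 76) (nat_lit 6875562920) (nat_lit 15) (nat_lit 4) (nat_lit 16) (nat_lit 5) (nat_lit 16) (nat_lit 4) (nat_lit 386) (nat_lit 327) (nat_lit 307)) (XT.nd (nat_lit 78) (nat_lit 76) (nat_lit 0) (XT.lf (nat_lit 0) (nat_lit 2517001781) (nat_lit 152) (nat_lit 602513677) (nat_lit 76) (nat_lit 32271471913) (nat_lit 14) (nat_lit 5) (nat_lit 16) (nat_lit 5) (nat_lit 15) (nat_lit 4) (nat_lit 387) (nat_lit 327) (nat_lit 306)) (XT.lf (nat_lit 0) (nat_lit 12623285982) (nat_lit 152) (nat_lit 18041258287) (nat_lit 0) (nat_lit 7034540456) (nat_lit 13) (nat_lit 5) (nat_lit 15) (nat_lit 4) (nat_lit 13) (nat_lit 4) (nat_lit 388) (nat_lit 327) (nat_lit 305))))) (XT.nd (nat_lit 234) (nat_lit 152) (nat_lit 0) (XT.nd (nat_lit 78) (nat_lit 76) (nat_lit 0) (XT.lf (nat_lit 0) (nat_lit 919481830) (nat_lit 76) (nat_lit 22480656549) (nat_lit 76) (nat_lit 16798599318)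 (nat_lit 12) (nat_lit 4) (nat_lit 13) (nat_lit 5) (nat_lit 13) (nat_lit 4) (nat_lit 389) (nat_lit 327) (nat_lit 304)) (XT.nd (nat_lit 78) (nat_lit 76) (nat_lit 0) (XT.lf (nat_lit 0) (nat_lit 21633479792) (nat_lit 76) (nat_lit 13513967469) (nat_lit 76) (nat_lit 7745510511) (nat_lit 12) (nat_lit 4) (nat_lit 13) (nat_lit 5) (nat_lit 13) (nat_lit 4) (nat_lit 390) (nat_lit 327) (nat_lit 303)) (XT.lf (nat_lit 0) (nat_lit 1772956232) (nat_lit 152) (nat_lit 2213896428) (nat_lit 76) (nat_lit 41823977636) (nat_lit 11) (nat_lit 5) (nat_lit 13) (nat_lit 5) (nat_lit 12) (nat_lit 4) (nat_lit 391) (nat_lit 327) (nat_lit 302)))) (XT.nd (nat_lit 156) (nat_lit 76) (nat_lit 0) (XT.nd (nat_lit 78) (nat_lit 0) (nat_lit 0) (XT.lf (nat_lit 0) (nat_lit 11996409752) (nat_lit 152) (nat_lit 30592734292) (nat_lit 0) (nat_lit 6355904472) (nat_lit 10) (nat_lit 5) (nat_lit 12) (nat_lit 4) (nat_lit 10) (nat_lit 4) (nat_lit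 392) (nat_lit 327) (nat_lit 301)) (XT.lf (nat_lit 0) (nat_lit 22970033167) (nat_lit 152) (nat_lit 12099157079) (nat_lit 0) (nat_lit 17264207040) (nat_lit 10) (nat_lit 5) (nat_lit 12) (nat_lit 4) (nat_lit 10) (nat_lit 4) (nat_lit 393) (nat_lit 327) (nat_lit 300))) (XT.nd (nat_lit 78) (nat_lit 0) (nat_lit 0) (XT.lf (nat_lit 0) (nat_lit 7803191859) (nat_lit 76) (nat_lit 26978953862) (nat_lit 76) (nat_lit 21212645470) (nat_lit 9) (nat_lit 4) (nat_lit 10) (nat_lit 5) (nat_lit 10) (nat_lit 4) (nat_lit 394) (nat_lit 327) (nat_lit 299)) (XT.lf (nat_lit 0) (nat_lit 29423247420) (nat_lit 76) (nat_lit 18172666016) (nat_lit 76) (nat_lit 12350355527) (nat_lit 9) (nat_lit 4) (nat_lit 10) (nat_lit 5) (nat_lit 10) (nat_lit 4) (nat_lit 395) (nat_lit 327) (nat_lit 298)))))) (XT.nd (nat_lit 546) (nat_lit 152) (nat_lit 0) (XT.nd (nat_lit 234) (nat_lit 76) (nat_lit 0) (XT.nd (nat_lit 78) (nat_lit 152) (nat_lit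 0) (XT.lf (nat_lit 0) (nat_lit 52489075676) (nat_lit 76) (nat_lit 8803046380) (nat_lit 76) (nat_lit 2928882096) (nat_lit 9) (nat_lit 4) (nat_lit 10) (nat_lit 5) (nat_lit 10) (nat_lit 4) (nat_lit 396) (nat_lit 327) (nat_lit 297)) (XT.nd (nat_lit 78) (nat_lit 0) (nat_lit 0) (XT.lf (nat_lit 0) (nat_lit 7034577251) (nat_lit 152) (nat_lit 60402071199) (nat_lit 0) (nat_lit 1394408627) (nat_lit 7) (nat_lit 5) (nat_lit 9) (nat_lit 4) (nat_lit 7) (nat_lit 4) (nat_lit 397) (nat_lit 327) (nat_lit 296)) (XT.lf (nat_lit 0) (nat_lit 17919721969) (nat_lit 152) (nat_lit 43639221423) (nat_lit 0) (nat_lit 12237214040) (nat_lit 7) (nat_lit 5) (nat_lit 9) (nat_lit 4) (nat_lit 7) (nat_lit 4) (nat_lit 398) (nat_lit 327) (nat_lit 295)))) (XT.nd (nat_lit 156) (nat_lit 76) (nat_lit 0) (XT.nd (nat_lit 78) (nat_lit 0) (nat_lit 0) (XT.lf (nat_lit 0) (nat_lit 29555032215) (nat_lit 152) (nat_lit 25776149341) (nat_lit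 0) (nat_lit 23833321225) (nat_lit 7) (nat_lit 5) (nat_lit 9) (nat_lit 4) (nat_lit 7) (nat_lit 4) (nat_lit 399) (nat_lit 327) (nat_lit 294)) (XT.lf (nat_lit 0) (nat_lit 42009457976) (nat_lit 152) (nat_lit 6706999711) (nat_lit 0) (nat_lit 36251447856) (nat_lit 7) (nat_lit 5) (nat_lit 9) (nat_lit 4) (nat_lit 7) (nat_lit 4) (nat_lit 400) (nat_lit 327) (nat_lit 293))) (XT.nd (nat_lit 78) (nat_lit 0) (nat_lit 0) (XT.lf (nat_lit 0) (nat_lit 14133593079) (nat_lit 76) (nat_lit 41443875174) (nat_lit 76) (nat_lit 35652254749) (nat_lit 6) (nat_lit 4) (nat_lit 7) (nat_lit 5) (nat_lit 7) (nat_lit 4) (nat_lit 401) (nat_lit 327) (nat_lit 292)) (XT.lf (nat_lit 0) (nat_lit 36683458189) (nat_lit 76) (nat_lit 33565436833) (nat_lit 76) (nat_lit 27742695754) (nat_lit 6) (nat_lit 4) (nat_lit 7) (nat_lit 5) (nat_lit 7) (nat_lit 4) (nat_lit 402) (nat_lit 327) (nat_lit 291))))) (XT.nd (nat_lit 234) (nat_lit 152) (nat_lit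 0) (XT.nd (nat_lit 78) (nat_lit 0) (nat_lit 0) (XT.lf (nat_lit 0) (nat_lit 60854460749) (nat_lit 76) (nat_lit 25148041907) (nat_lit 76) (nat_lit 19296485408) (nat_lit 6) (nat_lit 4) (nat_lit 7) (nat_lit 5) (nat_lit 7) (nat_lit 4) (nat_lit 403) (nat_lit 327) (nat_lit 290)) (XT.nd (nat_lit 78) (nat_lit 0) (nat_lit 0) (XT.lf (nat_lit 0) (nat_lit 86789836330) (nat_lit 76) (nat_lit 16141809538) (nat_lit 76) (nat_lit 10263572095) (nat_lit 6) (nat_lit 4) (nat_lit 7) (nat_lit 5) (nat_lit 7) (nat_lit 4) (nat_lit 404) (nat_lit 327) (nat_lit 289)) (XT.lf (nat_lit 0) (nat_lit 114643276047) (nat_lit 76) (nat_lit 6493369459) (nat_lit 76) (nat_lit 590427438) (nat_lit 6) (nat_lit 4) (nat_lit 7) (nat_lit 5) (nat_lit 7) (nat_lit 4) (nat_lit 405) (nat_lit 327) (nat_lit 288)))) (XT.nd (nat_lit 156) (nat_lit 0) (nat_lit 0) (XT.nd (nat_lit 78) (nat_lit 0) (nat_lit 0) (XT.lf (nat_lit 0) (nat_lit 9750940070) (nat_lit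 152) (nat_lit 117065047076) (nat_lit 0) (nat_lit 4107305184) (nat_lit 4) (nat_lit 5) (nat_lit 6) (nat_lit 4) (nat_lit 4) (nat_lit 4) (nat_lit 406) (nat_lit 327) (nat_lit 287)) (XT.lf (nat_lit 0) (nat_lit 21062424411) (nat_lit 152) (nat_lit 104385510729) (nat_lit 0) (nat_lit 15398617913) (nat_lit 4) (nat_lit 5) (nat_lit 6) (nat_lit 4) (nat_lit 4) (nat_lit 4) (nat_lit 407) (nat_lit 327) (nat_lit 286))) (XT.nd (nat_lit 78) (nat_lit 0) (nat_lit 0) (XT.lf (nat_lit 0) (nat_lit 33212446457) (nat_lit 152) (nat_lit 90824586913) (nat_lit 0) (nat_lit 27529962539) (nat_lit 4) (nat_lit 5) (nat_lit 6) (nat_lit 4) (nat_lit 4) (nat_lit 4) (nat_lit 408) (nat_lit 327) (nat_lit 285)) (XT.lf (nat_lit 0) (nat_lit 46273006337) (nat_lit 152) (nat_lit 76301914599) (nat_lit 0) (nat_lit 40573228511) (nat_lit 4) (nat_lit 5) (nat_lit 6) (nat_lit 4) (nat_lit 4) (nat_lit 4) (nat_lit 409) (nat_lit 327) (nat_lit 284))))))))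
noncomputable def xc26 : XT := (XT.nd (nat_lit 2028) (nat_lit 76) (nat_lit 0) (XT.nd (nat_lit 1014) (nat_lit 76) (nat_lit 0) (XT.nd (nat_lit 468) (nat_lit 0) (nat_lit 0) (XT.nd (nat_lit 234) (nat_lit 76) (nat_lit 0) (XT.nd (nat_lit 78) (nat_lit 0) (nat_lit 0) (XT.lf (nat_lit 0) (nat_lit 60321499961) (nat_lit 152) (nat_lit 60731433506) (nat_lit 0) (nat_lit 54605709259) (nat_lit 4) (nat_lit 5) (nat_lit 6) (nat_lit 4) (nat_lit 4) (nat_lit 4) (nat_lit 410) (nat_lit 327) (nat_lit 283)) (XT.nd (nat_lit 78) (nat_lit 0) (nat_lit 0) (XT.lf (nat_lit 0) (nat_lit 75441177663) (nat_lit 152) (nat_lit 44020874116) (nat_lit 0) (nat_lit 69710560223) (nat_lit 4) (nat_lit 5) (nat_lit 6) (nat_lit 4) (nat_lit 4) (nat_lit 4) (nat_lit 411) (nat_lit 327) (nat_lit 282)) (XT.lf (nat_lit 0) (nat_lit 91721637532) (nat_lit 152) (nat_lit 26071210892) (nat_lit 0) (nat_lit 85977291631) (nat_lit 4) (nat_lit 5) (nat_lit 6)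 (nat_lit 4) (nat_lit 4) (nat_lit 4) (nat_lit 412) (nat_lit 327) (nat_lit 281)))) (XT.nd (nat_lit 78) (nat_lit 76) (nat_lit 0) (XT.lf (nat_lit 0) (nat_lit 109259356368) (nat_lit 152) (nat_lit 6776075460) (nat_lit 0) (nat_lit 103502298929) (nat_lit 4) (nat_lit 5) (nat_lit 6) (nat_lit 4) (nat_lit 4) (nat_lit 4) (nat_lit 413) (nat_lit 327) (nat_lit 280)) (XT.nd (nat_lit 78) (nat_lit 0) (nat_lit 0) (XT.lf (nat_lit 0) (nat_lit 14441078418) (nat_lit 76) (nat_lit 113942648679) (nat_lit 76) (nat_lit 108173821298) (nat_lit 3) (nat_lit 4) (nat_lit 4) (nat_lit 5) (nat_lit 4) (nat_lit 4) (nat_lit 414) (nat_lit 327) (nat_lit 279)) (XT.lf (nat_lit 0) (nat_lit 37517420713) (nat_lit 76) (nat_lit 111598677484) (nat_lit 76) (nat_lit 105818952009) (nat_lit 3) (nat_lit 4) (nat_lit 4) (nat_lit 5) (nat_lit 4) (nat_lit 4) (nat_lit 415) (nat_lit 327) (nat_lit 278))))) (XT.nd (nat_lit 234) (nat_lit 0) (nat_lit 0)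 (XT.nd (nat_lit 78) (nat_lit 0) (nat_lit 0) (XT.lf (nat_lit 0) (nat_lit 62365652463) (nat_lit 76) (nat_lit 109104384161) (nat_lit 76) (nat_lit 103314567857) (nat_lit 3) (nat_lit 4) (nat_lit 4) (nat_lit 5) (nat_lit 4) (nat_lit 4) (nat_lit 416) (nat_lit 327) (nat_lit 277)) (XT.nd (nat_lit 78) (nat_lit 0) (nat_lit 0) (XT.lf (nat_lit 0) (nat_lit 89133022447) (nat_lit 76) (nat_lit 106444987712) (nat_lit 76) (nat_lit 100645828048) (nat_lit 3) (nat_lit 4) (nat_lit 4) (nat_lit 5) (nat_lit 4) (nat_lit 4) (nat_lit 417) (nat_lit 327) (nat_lit 276)) (XT.lf (nat_lit 0) (nat_lit 117978152118) (nat_lit 76) (nat_lit 103604728751) (nat_lit 76) (nat_lit 97796917827) (nat_lit 3) (nat_lit 4) (nat_lit 4) (nat_lit 5) (nat_lit 4) (nat_lit 4) (nat_lit 418) (nat_lit 327) (nat_lit 275)))) (XT.nd (nat_lit 156) (nat_lit 0) (nat_lit 0) (XT.nd (nat_lit 78) (nat_lit 0) (nat_lit 0) (XT.lf (nat_lit 0) (nat_lit 149071975577)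 (nat_lit 76) (nat_lit 100566776113) (nat_lit 76) (nat_lit 94750954764) (nat_lit 3) (nat_lit 4) (nat_lit 4) (nat_lit 5) (nat_lit 4) (nat_lit 4) (nat_lit 419) (nat_lit 327) (nat_lit 274)) (XT.lf (nat_lit 0) (nat_lit 182598752520) (nat_lit 76) (nat_lit 97313127116) (nat_lit 76) (nat_lit 91489888707) (nat_lit 3) (nat_lit 4) (nat_lit 4) (nat_lit 5) (nat_lit 4) (nat_lit 4) (nat_lit 420) (nat_lit 327) (nat_lit 273))) (XT.nd (nat_lit 78) (nat_lit 0) (nat_lit 0) (XT.lf (nat_lit 0) (nat_lit 218757160142) (nat_lit 76) (nat_lit 93824500878) (nat_lit 76) (nat_lit 87994394821) (nat_lit 3) (nat_lit 4) (nat_lit 4) (nat_lit 5) (nat_lit 4) (nat_lit 4) (nat_lit 421) (nat_lit 327) (nat_lit 272)) (XT.lf (nat_lit 0) (nat_lit 257761470489) (nat_lit 76) (nat_lit 90080224057) (nat_lit 76) (nat_lit 84243759066) (nat_lit 3) (nat_lit 4) (nat_lit 4) (nat_lit 5) (nat_lit 4) (nat_lit 4) (nat_lit 422) (nat_lit 327) (nat_lit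 271)))))) (XT.nd (nat_lit 468) (nat_lit 76) (nat_lit 0) (XT.nd (nat_lit 234) (nat_lit 0) (nat_lit 0) (XT.nd (nat_lit 78) (nat_lit 0) (nat_lit 0) (XT.lf (nat_lit 0) (nat_lit 299842820215) (nat_lit 76) (nat_lit 86058108346) (nat_lit 76) (nat_lit 80215755454) (nat_lit 3) (nat_lit 4) (nat_lit 4) (nat_lit 5) (nat_lit 4) (nat_lit 4) (nat_lit 423) (nat_lit 327) (nat_lit 270)) (XT.nd (nat_lit 78) (nat_lit 0) (nat_lit 0) (XT.lf (nat_lit 0) (nat_lit 345250580281) (nat_lit 76) (nat_lit 81734318987) (nat_lit 76) (nat_lit 75886514333) (nat_lit 3) (nat_lit 4) (nat_lit 4) (nat_lit 5) (nat_lit 4) (nat_lit 4) (nat_lit 424) (nat_lit 327) (nat_lit 269)) (XT.lf (nat_lit 0) (nat_lit 394253833710) (nat_lit 76) (nat_lit 77083233522) (nat_lit 76) (nat_lit 71230380942) (nat_lit 3) (nat_lit 4) (nat_lit 4) (nat_lit 5) (nat_lit 4) (nat_lit 4) (nat_lit 425) (nat_lit 327) (nat_lit 268)))) (XT.nd (nat_lit 78) (nat_lit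 0) (nat_lit 0) (XT.lf (nat_lit 0) (nat_lit 447142970152) (nat_lit 76) (nat_lit 72077289965) (nat_lit 76) (nat_lit 66219763379) (nat_lit 3) (nat_lit 4) (nat_lit 4) (nat_lit 5) (nat_lit 4) (nat_lit 4) (nat_lit 426) (nat_lit 327) (nat_lit 267)) (XT.nd (nat_lit 78) (nat_lit 0) (nat_lit 0) (XT.lf (nat_lit 0) (nat_lit 504231406711) (nat_lit 76) (nat_lit 66686823464) (nat_lit 76) (nat_lit 60824969095) (nat_lit 3) (nat_lit 4) (nat_lit 4) (nat_lit 5) (nat_lit 4) (nat_lit 4) (nat_lit 427) (nat_lit 327) (nat_lit 266)) (XT.lf (nat_lit 0) (nat_lit 565857445234) (nat_lit 76) (nat_lit 60879890515) (nat_lit 76) (nat_lit 55014028939) (nat_lit 3) (nat_lit 4) (nat_lit 4) (nat_lit 5) (nat_lit 4) (nat_lit 4) (nat_lit 428) (nat_lit 327) (nat_lit 265))))) (XT.nd (nat_lit 234) (nat_lit 76) (nat_lit 0) (XT.nd (nat_lit 78) (nat_lit 0) (nat_lit 0) (XT.lf (nat_lit 0) (nat_lit 632386277060) (nat_lit 76) (nat_lit 54622079663)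 (nat_lit 76) (nat_lit 48752507710) (nat_lit 3) (nat_lit 4) (nat_lit 4) (nat_lit 5) (nat_lit 4) (nat_lit 4) (nat_lit 429) (nat_lit 327) (nat_lit 264)) (XT.nd (nat_lit 78) (nat_lit 0) (nat_lit 0) (XT.lf (nat_lit 0) (nat_lit 704212147119) (nat_lit 76) (nat_lit 47876307584) (nat_lit 76) (nat_lit 42003300097) (nat_lit 3) (nat_lit 4) (nat_lit 4) (nat_lit 5) (nat_lit 4) (nat_lit 4) (nat_lit 430) (nat_lit 327) (nat_lit 263)) (XT.lf (nat_lit 0) (nat_lit 781760690196) (nat_lit 76) (nat_lit 40602599333) (nat_lit 76) (nat_lit 34726410796) (nat_lit 3) (nat_lit 4) (nat_lit 4) (nat_lit 5) (nat_lit 4) (nat_lit 4) (nat_lit 431) (nat_lit 327) (nat_lit 262)))) (XT.nd (nat_lit 156) (nat_lit 76) (nat_lit 0) (XT.nd (nat_lit 78) (nat_lit 0) (nat_lit 0) (XT.lf (nat_lit 0) (nat_lit 865491453213) (nat_lit 76) (nat_lit 32757851453) (nat_lit 76) (nat_lit 26878717499) (nat_lit 3) (nat_lit 4) (nat_lit 4) (nat_lit 5) (nat_lit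 4) (nat_lit 4) (nat_lit 432) (nat_lit 327) (nat_lit 261)) (XT.lf (nat_lit 0) (nat_lit 955900618469) (nat_lit 76) (nat_lit 24295576549) (nat_lit 76) (nat_lit 18413715358) (nat_lit 3) (nat_lit 4) (nat_lit 4) (nat_lit 5) (nat_lit 4) (nat_lit 4) (nat_lit 433) (nat_lit 327) (nat_lit 260))) (XT.nd (nat_lit 78) (nat_lit 76) (nat_lit 0) (XT.lf (nat_lit 0) (nat_lit 1053523943981) (nat_lit 76) (nat_lit 15165627808) (nat_lit 76) (nat_lit 9281241397) (nat_lit 3) (nat_lit 4) (nat_lit 4) (nat_lit 5) (nat_lit 4) (nat_lit 4) (nat_lit 434) (nat_lit 327) (nat_lit 259)) (XT.lf (nat_lit 0) (nat_lit 554488842) (nat_lit 152) (nat_lit 4750022450) (nat_lit 76) (nat_lit 1158376058965) (nat_lit 2) (nat_lit 5) (nat_lit 4) (nat_lit 5) (nat_lit 3) (nat_lit 4) (nat_lit 435) (nat_lit 327) (nat_lit 258))))))) (XT.nd (nat_lit 48282) (nat_lit 0) (nat_lit 1064) (XT.nd (nat_lit 47736) (nat_lit 0) (nat_lit 2280) (XT.nd (nat_lit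 47502) (nat_lit 0) (nat_lit 3496) (XT.nd (nat_lit 78) (nat_lit 0) (nat_lit 0) (XT.lf (nat_lit 0) (nat_lit 11202109495) (nat_lit 152) (nat_lit 1239426237736) (nat_lit 0) (nat_lit 5593643259) (nat_lit 1) (nat_lit 5) (nat_lit 3) (nat_lit 4) (nat_lit 1) (nat_lit 4) (nat_lit 436) (nat_lit 327) (nat_lit 257)) (XT.nd (nat_lit 78) (nat_lit 0) (nat_lit 0) (XT.lf (nat_lit 0) (nat_lit 22867243704) (nat_lit 152) (nat_lit 1316034327346) (nat_lit 0) (nat_lit 17256868324) (nat_lit 1) (nat_lit 5) (nat_lit 3) (nat_lit 4) (nat_lit 1) (nat_lit 4) (nat_lit 437) (nat_lit 327) (nat_lit 256)) (XT.lf (nat_lit 0) (nat_lit 35458330683) (nat_lit 152) (nat_lit 1398785649016) (nat_lit 0) (nat_lit 29846187577) (nat_lit 1) (nat_lit 5) (nat_lit 3) (nat_lit 4) (nat_lit 1) (nat_lit 4) (nat_lit 438) (nat_lit 327) (nat_lit 255)))) (XT.nd (nat_lit 78) (nat_lit 532) (nat_lit 0) (XT.lf (nat_lit 0) (nat_lit 4224531069) (nat_lit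 152) (nat_lit 626422110) (nat_lit 152) (nat_lit 626422110) (nat_lit 54) (nat_lit 4) (nat_lit 56) (nat_lit 5) (nat_lit 56) (nat_lit 4) (nat_lit 364) (nat_lit 328) (nat_lit 328)) (XT.nd (nat_lit 78) (nat_lit 152) (nat_lit 0) (XT.lf (nat_lit 0) (nat_lit 895846141) (nat_lit 152) (nat_lit 5712388487) (nat_lit 152) (nat_lit 4775334116) (nat_lit 49) (nat_lit 4) (nat_lit 51) (nat_lit 5) (nat_lit 51) (nat_lit 4) (nat_lit 365) (nat_lit 328) (nat_lit 327)) (XT.lf (nat_lit 0) (nat_lit 3044640371) (nat_lit 152) (nat_lit 7475802753) (nat_lit 0) (nat_lit 1325881031) (nat_lit 47) (nat_lit 5) (nat_lit 49) (nat_lit 4) (nat_lit 47) (nat_lit 4) (nat_lit 366) (nat_lit 328) (nat_lit 326))))) (XT.nd (nat_lit 234) (nat_lit 608) (nat_lit 0) (XT.nd (nat_lit 78) (nat_lit 456) (nat_lit 0) (XT.lf (nat_lit 0) (nat_lit 7747170038) (nat_lit 152) (nat_lit 3540375741) (nat_lit 152) (nat_lit 1056499174) (nat_lit 45) (nat_lit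 4) (nat_lit 47) (nat_lit 5) (nat_lit 47) (nat_lit 4) (nat_lit 367) (nat_lit 328) (nat_lit 325)) (XT.nd (nat_lit 78) (nat_lit 304) (nat_lit 0) (XT.lf (nat_lit 0) (nat_lit 7017114494) (nat_lit 152) (nat_lit 1884896553) (nat_lit 0) (nat_lit 3976811214) (nat_lit 43) (nat_lit 5) (nat_lit 45) (nat_lit 4) (nat_lit 43) (nat_lit 4) (nat_lit 368) (nat_lit 328) (nat_lit 324)) (XT.lf (nat_lit 0) (nat_lit 710334180) (nat_lit 76) (nat_lit 1423990574) (nat_lit 152) (nat_lit 11321406850) (nat_lit 39) (nat_lit 5) (nat_lit 40) (nat_lit 5) (nat_lit 41) (nat_lit 4) (nat_lit 369) (nat_lit 328) (nat_lit 323)))) (XT.nd (nat_lit 156) (nat_lit 304) (nat_lit 0) (XT.nd (nat_lit 78) (nat_lit 152) (nat_lit 0) (XT.lf (nat_lit 0) (nat_lit 3088132093) (nat_lit 152) (nat_lit 7512762248) (nat_lit 152) (nat_lit 3471349214) (nat_lit 37) (nat_lit 4) (nat_lit 39) (nat_lit 5) (nat_lit 39) (nat_lit 4) (nat_lit 370) (nat_lit 328)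 (nat_lit 322)) (XT.lf (nat_lit 0) (nat_lit 4782984644) (nat_lit 152) (nat_lit 9506203888) (nat_lit 0) (nat_lit 448211404) (nat_lit 35) (nat_lit 5) (nat_lit 37) (nat_lit 4) (nat_lit 35) (nat_lit 4) (nat_lit 371) (nat_lit 328) (nat_lit 321))) (XT.nd (nat_lit 78) (nat_lit 152) (nat_lit 0) (XT.lf (nat_lit 0) (nat_lit 7003992482) (nat_lit 152) (nat_lit 6615699049) (nat_lit 152) (nat_lit 1831103173) (nat_lit 33) (nat_lit 4) (nat_lit 35) (nat_lit 5) (nat_lit 35) (nat_lit 4) (nat_lit 372) (nat_lit 328) (nat_lit 320)) (XT.lf (nat_lit 0) (nat_lit 6670696923) (nat_lit 152) (nat_lit 7830381475) (nat_lit 0) (nat_lit 1717269954) (nat_lit 31) (nat_lit 5) (nat_lit 33) (nat_lit 4) (nat_lit 31) (nat_lit 4) (nat_lit 373) (nat_lit 328) (nat_lit 319)))))) (XT.nd (nat_lit 468) (nat_lit 532) (nat_lit 0) (XT.nd (nat_lit 234) (nat_lit 380) (nat_lit 0) (XT.nd (nat_lit 78) (nat_lit 228) (nat_lit 0) (XT.lf (nat_lit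 0) (nat_lit 9298662967) (nat_lit 76) (nat_lit 6532873388) (nat_lit 76) (nat_lit 1212160317) (nat_lit 30) (nat_lit 4) (nat_lit 31) (nat_lit 5) (nat_lit 31) (nat_lit 4) (nat_lit 374) (nat_lit 328) (nat_lit 318)) (XT.nd (nat_lit 78) (nat_lit 76) (nat_lit 0) (XT.lf (nat_lit 0) (nat_lit 7511521889) (nat_lit 152) (nat_lit 8298683235) (nat_lit 0) (nat_lit 2120290655) (nat_lit 28) (nat_lit 5) (nat_lit 30) (nat_lit 4) (nat_lit 28) (nat_lit 4) (nat_lit 375) (nat_lit 328) (nat_lit 317)) (XT.lf (nat_lit 0) (nat_lit 9308590933) (nat_lit 76) (nat_lit 7633618117) (nat_lit 76) (nat_lit 1942492945) (nat_lit 27) (nat_lit 4) (nat_lit 28) (nat_lit 5) (nat_lit 28) (nat_lit 4) (nat_lit 376) (nat_lit 328) (nat_lit 316)))) (XT.nd (nat_lit 78) (nat_lit 228) (nat_lit 0) (XT.lf (nat_lit 0) (nat_lit 6945613293) (nat_lit 152) (nat_lit 11704778508) (nat_lit 0) (nat_lit 1261037347) (nat_lit 25) (nat_lit 5) (nat_lit 27)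 (nat_lit 4) (nat_lit 25) (nat_lit 4) (nat_lit 377) (nat_lit 328) (nat_lit 315)) (XT.nd (nat_lit 78) (nat_lit 152) (nat_lit 0) (XT.lf (nat_lit 0) (nat_lit 6157973048) (nat_lit 76) (nat_lit 10393238351) (nat_lit 76) (nat_lit 4463795058) (nat_lit 24) (nat_lit 4) (nat_lit 25) (nat_lit 5) (nat_lit 25) (nat_lit 4) (nat_lit 378) (nat_lit 328) (nat_lit 314)) (XT.lf (nat_lit 0) (nat_lit 3092553092) (nat_lit 76) (nat_lit 1419020278) (nat_lit 152) (nat_lit 17694428718) (nat_lit 22) (nat_lit 5) (nat_lit 23) (nat_lit 5) (nat_lit 24) (nat_lit 4) (nat_lit 379) (nat_lit 328) (nat_lit 313))))) (XT.nd (nat_lit 234) (nat_lit 304) (nat_lit 0) (XT.nd (nat_lit 78) (nat_lit 228) (nat_lit 0) (XT.lf (nat_lit 0) (nat_lit 14141335688) (nat_lit 152) (nat_lit 1264291899) (nat_lit 0) (nat_lit 8078377021) (nat_lit 22) (nat_lit 5) (nat_lit 24) (nat_lit 4) (nat_lit 22) (nat_lit 4) (nat_lit 380) (nat_lit 328) (nat_lit 312))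 (XT.nd (nat_lit 78) (nat_lit 152) (nat_lit 0) (XT.lf (nat_lit 0) (nat_lit 18024160138) (nat_lit 76) (nat_lit 6543444419) (nat_lit 76) (nat_lit 295358519) (nat_lit 21) (nat_lit 4) (nat_lit 22) (nat_lit 5) (nat_lit 22) (nat_lit 4) (nat_lit 381) (nat_lit 328) (nat_lit 311)) (XT.lf (nat_lit 0) (nat_lit 9164559636) (nat_lit 152) (nat_lit 14129945478) (nat_lit 0) (nat_lit 3050750108) (nat_lit 19) (nat_lit 5) (nat_lit 21) (nat_lit 4) (nat_lit 19) (nat_lit 4) (nat_lit 382) (nat_lit 328) (nat_lit 310)))) (XT.nd (nat_lit 156) (nat_lit 152) (nat_lit 0) (XT.nd (nat_lit 78) (nat_lit 76) (nat_lit 0) (XT.lf (nat_lit 0) (nat_lit 4614966295) (nat_lit 76) (nat_lit 14796930017) (nat_lit 76) (nat_lit 8531961666) (nat_lit 18) (nat_lit 4) (nat_lit 19) (nat_lit 5) (nat_lit 19) (nat_lit 4) (nat_lit 383) (nat_lit 328) (nat_lit 309)) (XT.lf (nat_lit 0) (nat_lit 777985953) (nat_lit 152) (nat_lit 4810059018) (nat_lit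 76) (nat_lit 24081928684) (nat_lit 17) (nat_lit 5) (nat_lit 19) (nat_lit 5) (nat_lit 18) (nat_lit 4) (nat_lit 384) (nat_lit 328) (nat_lit 308))) (XT.nd (nat_lit 78) (nat_lit 76) (nat_lit 0) (XT.lf (nat_lit 0) (nat_lit 10607662546) (nat_lit 152) (nat_lit 16531538907) (nat_lit 0) (nat_lit 4384305831) (nat_lit 16) (nat_lit 5) (nat_lit 18) (nat_lit 4) (nat_lit 16) (nat_lit 4) (nat_lit 385) (nat_lit 328) (nat_lit 307)) (XT.lf (nat_lit 0) (nat_lit 2565071392) (nat_lit 76) (nat_lit 18649187966) (nat_lit 76) (nat_lit 12311550540) (nat_lit 15) (nat_lit 4) (nat_lit 16) (nat_lit 5) (nat_lit 16) (nat_lit 4) (nat_lit 386) (nat_lit 328) (nat_lit 306))))))))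
noncomputable def xc27 : XT := (XT.nd (nat_lit 2028) (nat_lit 228) (nat_lit 0) (XT.nd (nat_lit 1014) (nat_lit 228) (nat_lit 0) (XT.nd (nat_lit 468) (nat_lit 228) (nat_lit 0) (XT.nd (nat_lit 234) (nat_lit 228) (nat_lit 0) (XT.nd (nat_lit 78) (nat_lit 152) (nat_lit 0) (XT.lf (nat_lit 0) (nat_lit 23349094255) (nat_lit 76) (nat_lit 9389601188) (nat_lit 76) (nat_lit 2946148289) (nat_lit 15) (nat_lit 4) (nat_lit 16) (nat_lit 5) (nat_lit 16) (nat_lit 4) (nat_lit 387) (nat_lit 328) (nat_lit 305)) (XT.nd (nat_lit 78) (nat_lit 0) (nat_lit 0) (XT.lf (nat_lit 0) (nat_lit 6860555466) (nat_lit 152) (nat_lit 30523762668) (nat_lit 0) (nat_lit 630621951) (nat_lit 13) (nat_lit 5) (nat_lit 15) (nat_lit 4) (nat_lit 13) (nat_lit 4) (nat_lit 388) (nat_lit 328) (nat_lit 304)) (XT.lf (nat_lit 0) (nat_lit 17527094904) (nat_lit 152) (nat_lit 11782257081) (nat_lit 0) (nat_lit 11210761663) (nat_lit 13) (nat_lit 5) (nat_lit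 15) (nat_lit 4) (nat_lit 13) (nat_lit 4) (nat_lit 389) (nat_lit 328) (nat_lit 303)))) (XT.nd (nat_lit 78) (nat_lit 152) (nat_lit 0) (XT.lf (nat_lit 0) (nat_lit 8360609592) (nat_lit 76) (nat_lit 20632073855) (nat_lit 76) (nat_lit 14235740867) (nat_lit 12) (nat_lit 4) (nat_lit 13) (nat_lit 5) (nat_lit 13) (nat_lit 4) (nat_lit 390) (nat_lit 328) (nat_lit 302)) (XT.nd (nat_lit 78) (nat_lit 152) (nat_lit 0) (XT.lf (nat_lit 0) (nat_lit 30185981523) (nat_lit 76) (nat_lit 11218200406) (nat_lit 76) (nat_lit 4747793578) (nat_lit 12) (nat_lit 4) (nat_lit 13) (nat_lit 5) (nat_lit 13) (nat_lit 4) (nat_lit 391) (nat_lit 328) (nat_lit 301)) (XT.lf (nat_lit 0) (nat_lit 4166192653) (nat_lit 76) (nat_lit 1055849478) (nat_lit 152) (nat_lit 44088140494) (nat_lit 10) (nat_lit 5) (nat_lit 11) (nat_lit 5) (nat_lit 12) (nat_lit 4) (nat_lit 392) (nat_lit 328) (nat_lit 300))))) (XT.nd (nat_lit 234) (nat_lit 152) (nat_lit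 0) (XT.nd (nat_lit 78) (nat_lit 76) (nat_lit 0) (XT.lf (nat_lit 0) (nat_lit 16101666149) (nat_lit 152) (nat_lit 26787997856) (nat_lit 0) (nat_lit 9813570820) (nat_lit 10) (nat_lit 5) (nat_lit 12) (nat_lit 4) (nat_lit 10) (nat_lit 4) (nat_lit 393) (nat_lit 328) (nat_lit 299)) (XT.nd (nat_lit 78) (nat_lit 76) (nat_lit 0) (XT.lf (nat_lit 0) (nat_lit 27720176206) (nat_lit 152) (nat_lit 7278057072) (nat_lit 0) (nat_lit 21376078780) (nat_lit 10) (nat_lit 5) (nat_lit 12) (nat_lit 4) (nat_lit 10) (nat_lit 4) (nat_lit 394) (nat_lit 328) (nat_lit 298)) (XT.lf (nat_lit 0) (nat_lit 13964895480) (nat_lit 76) (nat_lit 26383073638) (nat_lit 76) (nat_lit 19987122418) (nat_lit 9) (nat_lit 4) (nat_lit 10) (nat_lit 5) (nat_lit 10) (nat_lit 4) (nat_lit 395) (nat_lit 328) (nat_lit 297)))) (XT.nd (nat_lit 156) (nat_lit 152) (nat_lit 0) (XT.nd (nat_lit 78) (nat_lit 0) (nat_lit 0) (XT.lf (nat_lit 0) (nat_lit 36904374133)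 (nat_lit 76) (nat_lit 17076297322) (nat_lit 76) (nat_lit 10632333330) (nat_lit 9) (nat_lit 4) (nat_lit 10) (nat_lit 5) (nat_lit 10) (nat_lit 4) (nat_lit 396) (nat_lit 328) (nat_lit 296)) (XT.lf (nat_lit 0) (nat_lit 61435671100) (nat_lit 76) (nat_lit 7146010483) (nat_lit 76) (nat_lit 657590220) (nat_lit 9) (nat_lit 4) (nat_lit 10) (nat_lit 5) (nat_lit 10) (nat_lit 4) (nat_lit 397) (nat_lit 328) (nat_lit 295))) (XT.nd (nat_lit 78) (nat_lit 0) (nat_lit 0) (XT.lf (nat_lit 0) (nat_lit 9951101451) (nat_lit 152) (nat_lit 60536210771) (nat_lit 0) (nat_lit 3732450522) (nat_lit 7) (nat_lit 5) (nat_lit 9) (nat_lit 4) (nat_lit 7) (nat_lit 4) (nat_lit 398) (nat_lit 328) (nat_lit 294)) (XT.lf (nat_lit 0) (nat_lit 21532705301) (nat_lit 152) (nat_lit 42780334947) (nat_lit 0) (nat_lit 15277755241) (nat_lit 7) (nat_lit 5) (nat_lit 9) (nat_lit 4) (nat_lit 7) (nat_lit 4) (nat_lit 399) (nat_lit 328) (nat_lit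 293)))))) (XT.nd (nat_lit 468) (nat_lit 152) (nat_lit 0) (XT.nd (nat_lit 234) (nat_lit 0) (nat_lit 0) (XT.nd (nat_lit 78) (nat_lit 76) (nat_lit 0) (XT.lf (nat_lit 0) (nat_lit 33937402917) (nat_lit 152) (nat_lit 23810441113) (nat_lit 0) (nat_lit 27648842551) (nat_lit 7) (nat_lit 5) (nat_lit 9) (nat_lit 4) (nat_lit 7) (nat_lit 4) (nat_lit 400) (nat_lit 328) (nat_lit 292)) (XT.nd (nat_lit 78) (nat_lit 76) (nat_lit 0) (XT.lf (nat_lit 0) (nat_lit 47238703618) (nat_lit 152) (nat_lit 3514115081) (nat_lit 0) (nat_lit 40919022599) (nat_lit 7) (nat_lit 5) (nat_lit 9) (nat_lit 4) (nat_lit 7) (nat_lit 4) (nat_lit 401) (nat_lit 328) (nat_lit 291)) (XT.lf (nat_lit 0) (nat_lit 18831648014) (nat_lit 76) (nat_lit 42977796714) (nat_lit 76) (nat_lit 36629300276) (nat_lit 6) (nat_lit 4) (nat_lit 7) (nat_lit 5) (nat_lit 7) (nat_lit 4) (nat_lit 402) (nat_lit 328) (nat_lit 290)))) (XT.nd (nat_lit 78) (nat_lit 0)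 (nat_lit 0) (XT.lf (nat_lit 0) (nat_lit 42921252890) (nat_lit 76) (nat_lit 34601052822) (nat_lit 76) (nat_lit 28225875440) (nat_lit 6) (nat_lit 4) (nat_lit 7) (nat_lit 5) (nat_lit 7) (nat_lit 4) (nat_lit 403) (nat_lit 328) (nat_lit 289)) (XT.nd (nat_lit 78) (nat_lit 0) (nat_lit 0) (XT.lf (nat_lit 0) (nat_lit 68781260244) (nat_lit 76) (nat_lit 25632460299) (nat_lit 76) (nat_lit 19232578338) (nat_lit 6) (nat_lit 4) (nat_lit 7) (nat_lit 5) (nat_lit 7) (nat_lit 4) (nat_lit 404) (nat_lit 328) (nat_lit 288)) (XT.lf (nat_lit 0) (nat_lit 96564914565) (nat_lit 76) (nat_lit 16018871930) (nat_lit 76) (nat_lit 9596115360) (nat_lit 6) (nat_lit 4) (nat_lit 7) (nat_lit 5) (nat_lit 7) (nat_lit 4) (nat_lit 405) (nat_lit 328) (nat_lit 287))))) (XT.nd (nat_lit 234) (nat_lit 0) (nat_lit 0) (XT.nd (nat_lit 78) (nat_lit 76) (nat_lit 0) (XT.lf (nat_lit 0) (nat_lit 716914045) (nat_lit 152) (nat_lit 4974262970) (nat_lit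 76) (nat_lit 125707804399) (nat_lit 5) (nat_lit 5) (nat_lit 7) (nat_lit 5) (nat_lit 6) (nat_lit 4) (nat_lit 406) (nat_lit 328) (nat_lit 286)) (XT.nd (nat_lit 78) (nat_lit 0) (nat_lit 0) (XT.lf (nat_lit 0) (nat_lit 11826083906) (nat_lit 152) (nat_lit 123835951170) (nat_lit 0) (nat_lit 5670323855) (nat_lit 4) (nat_lit 5) (nat_lit 6) (nat_lit 4) (nat_lit 4) (nat_lit 4) (nat_lit 407) (nat_lit 328) (nat_lit 285)) (XT.lf (nat_lit 0) (nat_lit 23946555985) (nat_lit 152) (nat_lit 110334222261) (nat_lit 0) (nat_lit 17773502027) (nat_lit 4) (nat_lit 5) (nat_lit 6) (nat_lit 4) (nat_lit 4) (nat_lit 4) (nat_lit 408) (nat_lit 328) (nat_lit 284)))) (XT.nd (nat_lit 156) (nat_lit 0) (nat_lit 0) (XT.nd (nat_lit 78) (nat_lit 0) (nat_lit 0) (XT.lf (nat_lit 0) (nat_lit 36979754785) (nat_lit 152) (nat_lit 95866360046) (nat_lit 0) (nat_lit 30790687950) (nat_lit 4) (nat_lit 5) (nat_lit 6) (nat_lit 4) (nat_lit 4)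 (nat_lit 4) (nat_lit 409) (nat_lit 328) (nat_lit 283)) (XT.lf (nat_lit 0) (nat_lit 51002914077) (nat_lit 152) (nat_lit 80346629045) (nat_lit 0) (nat_lit 44799020504) (nat_lit 4) (nat_lit 5) (nat_lit 6) (nat_lit 4) (nat_lit 4) (nat_lit 4) (nat_lit 410) (nat_lit 328) (nat_lit 282))) (XT.nd (nat_lit 78) (nat_lit 0) (nat_lit 0) (XT.lf (nat_lit 0) (nat_lit 66099134063) (nat_lit 152) (nat_lit 63683060480) (nat_lit 0) (nat_lit 59881512029) (nat_lit 4) (nat_lit 5) (nat_lit 6) (nat_lit 4) (nat_lit 4) (nat_lit 4) (nat_lit 411) (nat_lit 328) (nat_lit 281)) (XT.lf (nat_lit 0) (nat_lit 82357873825) (nat_lit 152) (nat_lit 45776907280) (nat_lit 0) (nat_lit 76127540253) (nat_lit 4) (nat_lit 5) (nat_lit 6) (nat_lit 4) (nat_lit 4) (nat_lit 4) (nat_lit 412) (nat_lit 328) (nat_lit 280))))))) (XT.nd (nat_lit 1014) (nat_lit 152) (nat_lit 0) (XT.nd (nat_lit 468) (nat_lit 0) (nat_lit 0) (XT.nd (nat_lit 234) (nat_lit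 0) (nat_lit 0) (XT.nd (nat_lit 78) (nat_lit 76) (nat_lit 0) (XT.lf (nat_lit 0) (nat_lit 99875481450) (nat_lit 152) (nat_lit 26522058907) (nat_lit 0) (nat_lit 93633377936) (nat_lit 4) (nat_lit 5) (nat_lit 6) (nat_lit 4) (nat_lit 4) (nat_lit 4) (nat_lit 413) (nat_lit 328) (nat_lit 279)) (XT.nd (nat_lit 78) (nat_lit 76) (nat_lit 0) (XT.lf (nat_lit 0) (nat_lit 118755764984) (nat_lit 152) (nat_lit 5804412556) (nat_lit 0) (nat_lit 112502763375) (nat_lit 4) (nat_lit 5) (nat_lit 6) (nat_lit 4) (nat_lit 4) (nat_lit 4) (nat_lit 414) (nat_lit 328) (nat_lit 278)) (XT.lf (nat_lit 0) (nat_lit 17044327949) (nat_lit 76) (nat_lit 122332389365) (nat_lit 76) (nat_lit 116069296928) (nat_lit 3) (nat_lit 4) (nat_lit 4) (nat_lit 5) (nat_lit 4) (nat_lit 4) (nat_lit 415) (nat_lit 328) (nat_lit 277)))) (XT.nd (nat_lit 78) (nat_lit 0) (nat_lit 0) (XT.lf (nat_lit 0) (nat_lit 41859521090) (nat_lit 76) (nat_lit 119854653898)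 (nat_lit 76) (nat_lit 113582218101) (nat_lit 3) (nat_lit 4) (nat_lit 4) (nat_lit 5) (nat_lit 4) (nat_lit 4) (nat_lit 416) (nat_lit 328) (nat_lit 276)) (XT.nd (nat_lit 78) (nat_lit 0) (nat_lit 0) (XT.lf (nat_lit 0) (nat_lit 68596299770) (nat_lit 76) (nat_lit 117210588797) (nat_lit 76) (nat_lit 110929501740) (nat_lit 3) (nat_lit 4) (nat_lit 4) (nat_lit 5) (nat_lit 4) (nat_lit 4) (nat_lit 417) (nat_lit 328) (nat_lit 275)) (XT.lf (nat_lit 0) (nat_lit 97413104160) (nat_lit 76) (nat_lit 114384525528) (nat_lit 76) (nat_lit 108095428046) (nat_lit 3) (nat_lit 4) (nat_lit 4) (nat_lit 5) (nat_lit 4) (nat_lit 4) (nat_lit 418) (nat_lit 328) (nat_lit 274))))) (XT.nd (nat_lit 234) (nat_lit 0) (nat_lit 0) (XT.nd (nat_lit 78) (nat_lit 0) (nat_lit 0) (XT.lf (nat_lit 0) (nat_lit 128480700507) (nat_lit 76) (nat_lit 111359717050) (nat_lit 76) (nat_lit 105063202508) (nat_lit 3) (nat_lit 4) (nat_lit 4) (nat_lit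 5) (nat_lit 4) (nat_lit 4) (nat_lit 419) (nat_lit 328) (nat_lit 273)) (XT.nd (nat_lit 78) (nat_lit 0) (nat_lit 0) (XT.lf (nat_lit 0) (nat_lit 161983193086) (nat_lit 76) (nat_lit 108118238571) (nat_lit 76) (nat_lit 101814856381) (nat_lit 3) (nat_lit 4) (nat_lit 4) (nat_lit 5) (nat_lit 4) (nat_lit 4) (nat_lit 420) (nat_lit 328) (nat_lit 272)) (XT.lf (nat_lit 0) (nat_lit 198119115187) (nat_lit 76) (nat_lit 104640881331) (nat_lit 76) (nat_lit 98331140207) (nat_lit 3) (nat_lit 4) (nat_lit 4) (nat_lit 5) (nat_lit 4) (nat_lit 4) (nat_lit 421) (nat_lit 328) (nat_lit 271)))) (XT.nd (nat_lit 156) (nat_lit 0) (nat_lit 0) (XT.nd (nat_lit 78) (nat_lit 0) (nat_lit 0) (XT.lf (nat_lit 0) (nat_lit 237102605607) (nat_lit 76) (nat_lit 100907038768) (nat_lit 76) (nat_lit 94591409742) (nat_lit 3) (nat_lit 4) (nat_lit 4) (nat_lit 5) (nat_lit 4) (nat_lit 4) (nat_lit 422) (nat_lit 328) (nat_lit 270)) (XT.lf (nat_lit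 0) (nat_lit 279164677622) (nat_lit 76) (nat_lit 96894584407) (nat_lit 76) (nat_lit 90573503621) (nat_lit 3) (nat_lit 4) (nat_lit 4) (nat_lit 5) (nat_lit 4) (nat_lit 4) (nat_lit 423) (nat_lit 328) (nat_lit 269))) (XT.nd (nat_lit 78) (nat_lit 0) (nat_lit 0) (XT.lf (nat_lit 0) (nat_lit 324554587956) (nat_lit 76) (nat_lit 92579740742) (nat_lit 76) (nat_lit 86253612029) (nat_lit 3) (nat_lit 4) (nat_lit 4) (nat_lit 5) (nat_lit 4) (nat_lit 4) (nat_lit 424) (nat_lit 328) (nat_lit 268)) (XT.lf (nat_lit 0) (nat_lit 373541313855) (nat_lit 76) (nat_lit 87936938327) (nat_lit 76) (nat_lit 81606135609) (nat_lit 3) (nat_lit 4) (nat_lit 4) (nat_lit 5) (nat_lit 4) (nat_lit 4) (nat_lit 425) (nat_lit 328) (nat_lit 267)))))) (XT.nd (nat_lit 546) (nat_lit 152) (nat_lit 0) (XT.nd (nat_lit 234) (nat_lit 0) (nat_lit 0) (XT.nd (nat_lit 78) (nat_lit 0) (nat_lit 0) (XT.lf (nat_lit 0) (nat_lit 426415147029) (nat_lit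 76) (nat_lit 82938664261) (nat_lit 76) (nat_lit 76603533759) (nat_lit 3) (nat_lit 4) (nat_lit 4) (nat_lit 5) (nat_lit 4) (nat_lit 4) (nat_lit 426) (nat_lit 328) (nat_lit 266)) (XT.nd (nat_lit 78) (nat_lit 0) (nat_lit 0) (XT.lf (nat_lit 0) (nat_lit 483489413895) (nat_lit 76) (nat_lit 77555299141) (nat_lit 76) (nat_lit 71216161432) (nat_lit 3) (nat_lit 4) (nat_lit 4) (nat_lit 5) (nat_lit 4) (nat_lit 4) (nat_lit 427) (nat_lit 328) (nat_lit 265)) (XT.lf (nat_lit 0) (nat_lit 545102332332) (nat_lit 76) (nat_lit 71754941544) (nat_lit 76) (nat_lit 65412093458) (nat_lit 3) (nat_lit 4) (nat_lit 4) (nat_lit 5) (nat_lit 4) (nat_lit 4) (nat_lit 428) (nat_lit 328) (nat_lit 264)))) (XT.nd (nat_lit 156) (nat_lit 0) (nat_lit 0) (XT.nd (nat_lit 78) (nat_lit 0) (nat_lit 0) (XT.lf (nat_lit 0) (nat_lit 611619015931) (nat_lit 76) (nat_lit 65503218981) (nat_lit 76) (nat_lit 59156935361) (nat_lit 3) (nat_lit 4)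 (nat_lit 4) (nat_lit 5) (nat_lit 4) (nat_lit 4) (nat_lit 429) (nat_lit 328) (nat_lit 263)) (XT.lf (nat_lit 0) (nat_lit 683433637631) (nat_lit 76) (nat_lit 58763084207) (nat_lit 76) (nat_lit 52413619537) (nat_lit 3) (nat_lit 4) (nat_lit 4) (nat_lit 5) (nat_lit 4) (nat_lit 4) (nat_lit 430) (nat_lit 328) (nat_lit 262))) (XT.nd (nat_lit 78) (nat_lit 0) (nat_lit 0) (XT.lf (nat_lit 0) (nat_lit 760971765561) (nat_lit 76) (nat_lit 51494595682) (nat_lit 76) (nat_lit 45142185596) (nat_lit 3) (nat_lit 4) (nat_lit 4) (nat_lit 5) (nat_lit 4) (nat_lit 4) (nat_lit 431) (nat_lit 328) (nat_lit 261)) (XT.lf (nat_lit 0) (nat_lit 844692884923) (nat_lit 76) (nat_lit 43654680883) (nat_lit 76) (nat_lit 37299543559) (nat_lit 3) (nat_lit 4) (nat_lit 4) (nat_lit 5) (nat_lit 4) (nat_lit 4) (nat_lit 432) (nat_lit 328) (nat_lit 260))))) (XT.nd (nat_lit 234) (nat_lit 152) (nat_lit 0) (XT.nd (nat_lit 78) (nat_lit 0) (nat_lit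 0) (XT.lf (nat_lit 0) (nat_lit 935093120869) (nat_lit 76) (nat_lit 35196881054) (nat_lit 76) (nat_lit 28839218509) (nat_lit 3) (nat_lit 4) (nat_lit 4) (nat_lit 5) (nat_lit 4) (nat_lit 4) (nat_lit 433) (nat_lit 328) (nat_lit 259)) (XT.nd (nat_lit 78) (nat_lit 0) (nat_lit 0) (XT.lf (nat_lit 0) (nat_lit 1032708178502) (nat_lit 76) (nat_lit 26071075900) (nat_lit 76) (nat_lit 19711075189) (nat_lit 3) (nat_lit 4) (nat_lit 4) (nat_lit 5) (nat_lit 4) (nat_lit 4) (nat_lit 434) (nat_lit 328) (nat_lit 258)) (XT.lf (nat_lit 0) (nat_lit 1138116517421) (nat_lit 76) (nat_lit 16223186576) (nat_lit 76) (nat_lit 9861020896) (nat_lit 3) (nat_lit 4) (nat_lit 4) (nat_lit 5) (nat_lit 4) (nat_lit 4) (nat_lit 435) (nat_lit 328) (nat_lit 257)))) (XT.nd (nat_lit 156) (nat_lit 0) (nat_lit 0) (XT.nd (nat_lit 78) (nat_lit 76) (nat_lit 0) (XT.lf (nat_lit 0) (nat_lit 744692174) (nat_lit 152) (nat_lit 4837551322) (nat_lit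 76) (nat_lit 1251185475739) (nat_lit 2) (nat_lit 5) (nat_lit 4) (nat_lit 5) (nat_lit 3) (nat_lit 4) (nat_lit 436) (nat_lit 328) (nat_lit 256)) (XT.lf (nat_lit 0) (nat_lit 12239878391) (nat_lit 152) (nat_lit 1338295791117) (nat_lit 0) (nat_lit 6176996112) (nat_lit 1) (nat_lit 5) (nat_lit 3) (nat_lit 4) (nat_lit 1) (nat_lit 4) (nat_lit 437) (nat_lit 328) (nat_lit 255))) (XT.nd (nat_lit 47190) (nat_lit 0) (nat_lit 4408) (XT.lf (nat_lit 0) (nat_lit 24827734438) (nat_lit 152) (nat_lit 1421053605350) (nat_lit 0) (nat_lit 18763215375) (nat_lit 1) (nat_lit 5) (nat_lit 3) (nat_lit 4) (nat_lit 1) (nat_lit 4) (nat_lit 438) (nat_lit 328) (nat_lit 254)) (XT.lf (nat_lit 0) (nat_lit 565349335) (nat_lit 152) (nat_lit 2261144856) (nat_lit 152) (nat_lit 2261144856) (nat_lit 59) (nat_lit 4) (nat_lit 61) (nat_lit 5) (nat_lit 61) (nat_lit 4) (nat_lit 362) (nat_lit 329) (nat_lit 329))))))))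
noncomputable def xc28 : XT := (XT.nd (nat_lit 2028) (nat_lit 760) (nat_lit 0) (XT.nd (nat_lit 1014) (nat_lit 1064) (nat_lit 0) (XT.nd (nat_lit 468) (nat_lit 1140) (nat_lit 0) (XT.nd (nat_lit 234) (nat_lit 456) (nat_lit 0) (XT.nd (nat_lit 78) (nat_lit 532) (nat_lit 0) (XT.lf (nat_lit 0) (nat_lit 2834110956) (nat_lit 228) (nat_lit 5949635246) (nat_lit 0) (nat_lit 1771491299) (nat_lit 56) (nat_lit 5) (nat_lit 59) (nat_lit 4) (nat_lit 56) (nat_lit 4) (nat_lit 363) (nat_lit 329) (nat_lit 328)) (XT.nd (nat_lit 78) (nat_lit 380) (nat_lit 0) (XT.lf (nat_lit 0) (nat_lit 8086216353) (nat_lit 152) (nat_lit 2462942798) (nat_lit 152) (nat_lit 416416052) (nat_lit 54) (nat_lit 4) (nat_lit 56) (nat_lit 5) (nat_lit 56) (nat_lit 4) (nat_lit 364) (nat_lit 329) (nat_lit 327)) (XT.lf (nat_lit 0) (nat_lit 117475039) (nat_lit 152) (nat_lit 7052708234) (nat_lit 152) (nat_lit 4235992206) (nat_lit 49) (nat_lit 4)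 (nat_lit 51) (nat_lit 5) (nat_lit 51) (nat_lit 4) (nat_lit 365) (nat_lit 329) (nat_lit 326)))) (XT.nd (nat_lit 78) (nat_lit 304) (nat_lit 0) (XT.lf (nat_lit 0) (nat_lit 3191858637) (nat_lit 76) (nat_lit 131042705) (nat_lit 152) (nat_lit 8557843213) (nat_lit 47) (nat_lit 5) (nat_lit 48) (nat_lit 5) (nat_lit 49) (nat_lit 4) (nat_lit 366) (nat_lit 329) (nat_lit 325)) (XT.nd (nat_lit 78) (nat_lit 152) (nat_lit 0) (XT.lf (nat_lit 0) (nat_lit 6139262272) (nat_lit 152) (nat_lit 5203276403) (nat_lit 152) (nat_lit 1047130606) (nat_lit 45) (nat_lit 4) (nat_lit 47) (nat_lit 5) (nat_lit 47) (nat_lit 4) (nat_lit 367) (nat_lit 329) (nat_lit 324)) (XT.lf (nat_lit 0) (nat_lit 6775453715) (nat_lit 152) (nat_lit 3969066435) (nat_lit 0) (nat_lit 2192491335) (nat_lit 43) (nat_lit 5) (nat_lit 45) (nat_lit 4) (nat_lit 43) (nat_lit 4) (nat_lit 368) (nat_lit 329) (nat_lit 323))))) (XT.nd (nat_lit 234) (nat_lit 532)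 (nat_lit 0) (XT.nd (nat_lit 78) (nat_lit 380) (nat_lit 0) (XT.lf (nat_lit 0) (nat_lit 1607371533) (nat_lit 228) (nat_lit 1866302854) (nat_lit 76) (nat_lit 10052347043) (nat_lit 40) (nat_lit 5) (nat_lit 43) (nat_lit 5) (nat_lit 41) (nat_lit 4) (nat_lit 369) (nat_lit 329) (nat_lit 322)) (XT.nd (nat_lit 78) (nat_lit 304) (nat_lit 0) (XT.lf (nat_lit 0) (nat_lit 9778376301) (nat_lit 152) (nat_lit 26319921) (nat_lit 0) (nat_lit 4352644577) (nat_lit 39) (nat_lit 5) (nat_lit 41) (nat_lit 4) (nat_lit 39) (nat_lit 4) (nat_lit 370) (nat_lit 329) (nat_lit 321)) (XT.lf (nat_lit 0) (nat_lit 1607060911) (nat_lit 76) (nat_lit 2053966602) (nat_lit 152) (nat_lit 11174373480) (nat_lit 35) (nat_lit 5) (nat_lit 36) (nat_lit 5) (nat_lit 37) (nat_lit 4) (nat_lit 371) (nat_lit 329) (nat_lit 320)))) (XT.nd (nat_lit 156) (nat_lit 228) (nat_lit 0) (XT.nd (nat_lit 78) (nat_lit 152) (nat_lit 0) (XT.lf (nat_lit 0) (nat_lit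 2860070046) (nat_lit 152) (nat_lit 9367961649) (nat_lit 152) (nat_lit 3334273026) (nat_lit 33) (nat_lit 4) (nat_lit 35) (nat_lit 5) (nat_lit 35) (nat_lit 4) (nat_lit 372) (nat_lit 329) (nat_lit 319)) (XT.lf (nat_lit 0) (nat_lit 3721987317) (nat_lit 76) (nat_lit 1225001145) (nat_lit 152) (nat_lit 11397496822) (nat_lit 31) (nat_lit 5) (nat_lit 32) (nat_lit 5) (nat_lit 33) (nat_lit 4) (nat_lit 373) (nat_lit 329) (nat_lit 318))) (XT.nd (nat_lit 78) (nat_lit 152) (nat_lit 0) (XT.lf (nat_lit 0) (nat_lit 4052697105) (nat_lit 76) (nat_lit 9792023627) (nat_lit 76) (nat_lit 3338287683) (nat_lit 30) (nat_lit 4) (nat_lit 31) (nat_lit 5) (nat_lit 31) (nat_lit 4) (nat_lit 374) (nat_lit 329) (nat_lit 317)) (XT.lf (nat_lit 0) (nat_lit 3831825192) (nat_lit 76) (nat_lit 1339125915) (nat_lit 152) (nat_lit 12914657948) (nat_lit 28) (nat_lit 5) (nat_lit 29) (nat_lit 5) (nat_lit 30) (nat_lit 4) (nat_lit 375) (nat_lit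 329) (nat_lit 316)))))) (XT.nd (nat_lit 468) (nat_lit 532) (nat_lit 0) (XT.nd (nat_lit 234) (nat_lit 304) (nat_lit 0) (XT.nd (nat_lit 78) (nat_lit 152) (nat_lit 0) (XT.lf (nat_lit 0) (nat_lit 2879073847) (nat_lit 76) (nat_lit 11449206938) (nat_lit 76) (nat_lit 4725218243) (nat_lit 27) (nat_lit 4) (nat_lit 28) (nat_lit 5) (nat_lit 28) (nat_lit 4) (nat_lit 376) (nat_lit 329) (nat_lit 315)) (XT.nd (nat_lit 78) (nat_lit 0) (nat_lit 0) (XT.lf (nat_lit 0) (nat_lit 1165238297) (nat_lit 76) (nat_lit 2808584973) (nat_lit 152) (nat_lit 16122495691) (nat_lit 25) (nat_lit 5) (nat_lit 26) (nat_lit 5) (nat_lit 27) (nat_lit 4) (nat_lit 377) (nat_lit 329) (nat_lit 314)) (XT.lf (nat_lit 0) (nat_lit 13296615245) (nat_lit 152) (nat_lit 1496214185) (nat_lit 0) (nat_lit 6421220116) (nat_lit 25) (nat_lit 5) (nat_lit 27) (nat_lit 4) (nat_lit 25) (nat_lit 4) (nat_lit 378) (nat_lit 329) (nat_lit 313)))) (XT.nd (nat_lit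 78) (nat_lit 152) (nat_lit 0) (XT.lf (nat_lit 0) (nat_lit 957078127) (nat_lit 152) (nat_lit 5123319249) (nat_lit 76) (nat_lit 16337924989) (nat_lit 23) (nat_lit 5) (nat_lit 25) (nat_lit 5) (nat_lit 24) (nat_lit 4) (nat_lit 379) (nat_lit 329) (nat_lit 312)) (XT.nd (nat_lit 78) (nat_lit 76) (nat_lit 0) (XT.lf (nat_lit 0) (nat_lit 10295839175) (nat_lit 152) (nat_lit 10052267192) (nat_lit 0) (nat_lit 3362779170) (nat_lit 22) (nat_lit 5) (nat_lit 24) (nat_lit 4) (nat_lit 22) (nat_lit 4) (nat_lit 380) (nat_lit 329) (nat_lit 311)) (XT.lf (nat_lit 0) (nat_lit 8696547898) (nat_lit 76) (nat_lit 11755638064) (nat_lit 76) (nat_lit 4651163953) (nat_lit 21) (nat_lit 4) (nat_lit 22) (nat_lit 5) (nat_lit 22) (nat_lit 4) (nat_lit 381) (nat_lit 329) (nat_lit 310))))) (XT.nd (nat_lit 234) (nat_lit 304) (nat_lit 0) (XT.nd (nat_lit 78) (nat_lit 76) (nat_lit 0) (XT.lf (nat_lit 0) (nat_lit 2210497873) (nat_lit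 76) (nat_lit 2410813710) (nat_lit 152) (nat_lit 21984082220) (nat_lit 19) (nat_lit 5) (nat_lit 20) (nat_lit 5) (nat_lit 21) (nat_lit 4) (nat_lit 382) (nat_lit 329) (nat_lit 309)) (XT.nd (nat_lit 78) (nat_lit 76) (nat_lit 0) (XT.lf (nat_lit 0) (nat_lit 14642043404) (nat_lit 152) (nat_lit 5988534514) (nat_lit 0) (nat_lit 7584756889) (nat_lit 19) (nat_lit 5) (nat_lit 21) (nat_lit 4) (nat_lit 19) (nat_lit 4) (nat_lit 383) (nat_lit 329) (nat_lit 308)) (XT.lf (nat_lit 0) (nat_lit 13853028784) (nat_lit 76) (nat_lit 11643175032) (nat_lit 76) (nat_lit 4456294191) (nat_lit 18) (nat_lit 4) (nat_lit 19) (nat_lit 5) (nat_lit 19) (nat_lit 4) (nat_lit 384) (nat_lit 329) (nat_lit 307)))) (XT.nd (nat_lit 156) (nat_lit 152) (nat_lit 0) (XT.nd (nat_lit 78) (nat_lit 0) (nat_lit 0) (XT.lf (nat_lit 0) (nat_lit 3262754192) (nat_lit 76) (nat_lit 1893162773) (nat_lit 152) (nat_lit 26671604705) (nat_lit 16) (nat_lit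 5) (nat_lit 17) (nat_lit 5) (nat_lit 18) (nat_lit 4) (nat_lit 385) (nat_lit 329) (nat_lit 306)) (XT.lf (nat_lit 0) (nat_lit 15591017130) (nat_lit 152) (nat_lit 9721115513) (nat_lit 0) (nat_lit 8526272525) (nat_lit 16) (nat_lit 5) (nat_lit 18) (nat_lit 4) (nat_lit 16) (nat_lit 4) (nat_lit 386) (nat_lit 329) (nat_lit 305))) (XT.nd (nat_lit 78) (nat_lit 76) (nat_lit 0) (XT.lf (nat_lit 0) (nat_lit 10549775666) (nat_lit 76) (nat_lit 16311548641) (nat_lit 76) (nat_lit 9148826746) (nat_lit 15) (nat_lit 4) (nat_lit 16) (nat_lit 5) (nat_lit 16) (nat_lit 4) (nat_lit 387) (nat_lit 329) (nat_lit 304)) (XT.lf (nat_lit 0) (nat_lit 637496014) (nat_lit 152) (nat_lit 5946574778) (nat_lit 76) (nat_lit 31771968887) (nat_lit 14) (nat_lit 5) (nat_lit 16) (nat_lit 5) (nat_lit 15) (nat_lit 4) (nat_lit 388) (nat_lit 329) (nat_lit 303))))))) (XT.nd (nat_lit 1014) (nat_lit 228) (nat_lit 0) (XT.nd (nat_lit 468) (nat_lit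 228) (nat_lit 0) (XT.nd (nat_lit 234) (nat_lit 152) (nat_lit 0) (XT.nd (nat_lit 78) (nat_lit 76) (nat_lit 0) (XT.lf (nat_lit 0) (nat_lit 11014905498) (nat_lit 152) (nat_lit 25833902692) (nat_lit 0) (nat_lit 4026866124) (nat_lit 13) (nat_lit 5) (nat_lit 15) (nat_lit 4) (nat_lit 13) (nat_lit 4) (nat_lit 389) (nat_lit 329) (nat_lit 302)) (XT.nd (nat_lit 78) (nat_lit 76) (nat_lit 0) (XT.lf (nat_lit 0) (nat_lit 22267693603) (nat_lit 152) (nat_lit 6121355249) (nat_lit 0) (nat_lit 15205580389) (nat_lit 13) (nat_lit 5) (nat_lit 15) (nat_lit 4) (nat_lit 13) (nat_lit 4) (nat_lit 390) (nat_lit 329) (nat_lit 301)) (XT.lf (nat_lit 0) (nat_lit 15345961460) (nat_lit 76) (nat_lit 19155894893) (nat_lit 76) (nat_lit 12025194790) (nat_lit 12) (nat_lit 4) (nat_lit 13) (nat_lit 5) (nat_lit 13) (nat_lit 4) (nat_lit 391) (nat_lit 329) (nat_lit 300)))) (XT.nd (nat_lit 78) (nat_lit 152) (nat_lit 0) (XT.lf (nat_lit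 0) (nat_lit 38449474027) (nat_lit 76) (nat_lit 9220522299) (nat_lit 76) (nat_lit 2026315817) (nat_lit 12) (nat_lit 4) (nat_lit 13) (nat_lit 5) (nat_lit 13) (nat_lit 4) (nat_lit 392) (nat_lit 329) (nat_lit 299)) (XT.nd (nat_lit 78) (nat_lit 0) (nat_lit 0) (XT.lf (nat_lit 0) (nat_lit 8534542336) (nat_lit 152) (nat_lit 42948673046) (nat_lit 0) (nat_lit 1626915018) (nat_lit 10) (nat_lit 5) (nat_lit 12) (nat_lit 4) (nat_lit 10) (nat_lit 4) (nat_lit 393) (nat_lit 329) (nat_lit 298)) (XT.lf (nat_lit 0) (nat_lit 20086596093) (nat_lit 152) (nat_lit 23570822339) (nat_lit 0) (nat_lit 13127114982) (nat_lit 10) (nat_lit 5) (nat_lit 12) (nat_lit 4) (nat_lit 10) (nat_lit 4) (nat_lit 394) (nat_lit 329) (nat_lit 297))))) (XT.nd (nat_lit 234) (nat_lit 152) (nat_lit 0) (XT.nd (nat_lit 78) (nat_lit 76) (nat_lit 0) (XT.lf (nat_lit 0) (nat_lit 32434824240) (nat_lit 152) (nat_lit 2897139281) (nat_lit 0) (nat_lit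 25427330356) (nat_lit 10) (nat_lit 5) (nat_lit 12) (nat_lit 4) (nat_lit 10) (nat_lit 4) (nat_lit 395) (nat_lit 329) (nat_lit 296)) (XT.nd (nat_lit 78) (nat_lit 0) (nat_lit 0) (XT.lf (nat_lit 0) (nat_lit 19829556489) (nat_lit 76) (nat_lit 26132439921) (nat_lit 76) (nat_lit 19080489767) (nat_lit 9) (nat_lit 4) (nat_lit 10) (nat_lit 5) (nat_lit 10) (nat_lit 4) (nat_lit 396) (nat_lit 329) (nat_lit 295)) (XT.lf (nat_lit 0) (nat_lit 44252529035) (nat_lit 76) (nat_lit 16256031101) (nat_lit 76) (nat_lit 9162917734) (nat_lit 9) (nat_lit 4) (nat_lit 10) (nat_lit 5) (nat_lit 10) (nat_lit 4) (nat_lit 397) (nat_lit 329) (nat_lit 294)))) (XT.nd (nat_lit 156) (nat_lit 0) (nat_lit 0) (XT.nd (nat_lit 78) (nat_lit 76) (nat_lit 0) (XT.lf (nat_lit 0) (nat_lit 1391929334) (nat_lit 152) (nat_lit 4277772317) (nat_lit 76) (nat_lit 69005212245) (nat_lit 8) (nat_lit 5) (nat_lit 10) (nat_lit 5) (nat_lit 9) (nat_lit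 4) (nat_lit 398) (nat_lit 329) (nat_lit 293)) (XT.lf (nat_lit 0) (nat_lit 12765157692) (nat_lit 152) (nat_lit 61351307457) (nat_lit 0) (nat_lit 5939902192) (nat_lit 7) (nat_lit 5) (nat_lit 9) (nat_lit 4) (nat_lit 7) (nat_lit 4) (nat_lit 399) (nat_lit 329) (nat_lit 292))) (XT.nd (nat_lit 78) (nat_lit 0) (nat_lit 0) (XT.lf (nat_lit 0) (nat_lit 25123810729) (nat_lit 152) (nat_lit 42473317136) (nat_lit 0) (nat_lit 18267434575) (nat_lit 7) (nat_lit 5) (nat_lit 9) (nat_lit 4) (nat_lit 7) (nat_lit 4) (nat_lit 400) (nat_lit 329) (nat_lit 291)) (XT.lf (nat_lit 0) (nat_lit 38382477561) (nat_lit 152) (nat_lit 22262086951) (nat_lit 0) (nat_lit 31497285988) (nat_lit 7) (nat_lit 5) (nat_lit 9) (nat_lit 4) (nat_lit 7) (nat_lit 4) (nat_lit 401) (nat_lit 329) (nat_lit 290)))))) (XT.nd (nat_lit 468) (nat_lit 76) (nat_lit 0) (XT.nd (nat_lit 234) (nat_lit 76) (nat_lit 0) (XT.nd (nat_lit 78) (nat_lit 76) (nat_lit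 0) (XT.lf (nat_lit 0) (nat_lit 52619728066) (nat_lit 152) (nat_lit 597846648) (nat_lit 0) (nat_lit 45707855548) (nat_lit 7) (nat_lit 5) (nat_lit 9) (nat_lit 4) (nat_lit 7) (nat_lit 4) (nat_lit 402) (nat_lit 329) (nat_lit 289)) (XT.nd (nat_lit 78) (nat_lit 0) (nat_lit 0) (XT.lf (nat_lit 0) (nat_lit 23396622490) (nat_lit 76) (nat_lit 44888595490) (nat_lit 76) (nat_lit 37952018395) (nat_lit 6) (nat_lit 4) (nat_lit 7) (nat_lit 5) (nat_lit 7) (nat_lit 4) (nat_lit 403) (nat_lit 329) (nat_lit 288)) (XT.lf (nat_lit 0) (nat_lit 49186844450) (nat_lit 76) (nat_lit 35954854677) (nat_lit 76) (nat_lit 28995402972) (nat_lit 6) (nat_lit 4) (nat_lit 7) (nat_lit 5) (nat_lit 7) (nat_lit 4) (nat_lit 404) (nat_lit 329) (nat_lit 287)))) (XT.nd (nat_lit 78) (nat_lit 76) (nat_lit 0) (XT.lf (nat_lit 0) (nat_lit 76905882664) (nat_lit 76) (nat_lit 26373536409) (nat_lit 76) (nat_lit 19392904511) (nat_lit 6) (nat_lit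 4) (nat_lit 7) (nat_lit 5) (nat_lit 7) (nat_lit 4) (nat_lit 405) (nat_lit 329) (nat_lit 286)) (XT.nd (nat_lit 78) (nat_lit 76) (nat_lit 0) (XT.lf (nat_lit 0) (nat_lit 106717998101) (nat_lit 76) (nat_lit 16087862504) (nat_lit 76) (nat_lit 9087619316) (nat_lit 6) (nat_lit 4) (nat_lit 7) (nat_lit 5) (nat_lit 7) (nat_lit 4) (nat_lit 406) (nat_lit 329) (nat_lit 285)) (XT.lf (nat_lit 0) (nat_lit 1918099922) (nat_lit 152) (nat_lit 3086296949) (nat_lit 76) (nat_lit 136849271276) (nat_lit 5) (nat_lit 5) (nat_lit 7) (nat_lit 5) (nat_lit 6) (nat_lit 4) (nat_lit 407) (nat_lit 329) (nat_lit 284))))) (XT.nd (nat_lit 234) (nat_lit 0) (nat_lit 0) (XT.nd (nat_lit 78) (nat_lit 0) (nat_lit 0) (XT.lf (nat_lit 0) (nat_lit 13882483230) (nat_lit 152) (nat_lit 131518633443) (nat_lit 0) (nat_lit 7182278171) (nat_lit 4) (nat_lit 5) (nat_lit 6) (nat_lit 4) (nat_lit 4) (nat_lit 4) (nat_lit 408) (nat_lit 329) (nat_lit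 283)) (XT.nd (nat_lit 78) (nat_lit 0) (nat_lit 0) (XT.lf (nat_lit 0) (nat_lit 26890347697) (nat_lit 152) (nat_lit 117101521320) (nat_lit 0) (nat_lit 20175315901) (nat_lit 4) (nat_lit 5) (nat_lit 6) (nat_lit 4) (nat_lit 4) (nat_lit 4) (nat_lit 409) (nat_lit 329) (nat_lit 282)) (XT.lf (nat_lit 0) (nat_lit 40890049273) (nat_lit 152) (nat_lit 101628781144) (nat_lit 0) (nat_lit 34161289016) (nat_lit 4) (nat_lit 5) (nat_lit 6) (nat_lit 4) (nat_lit 4) (nat_lit 4) (nat_lit 410) (nat_lit 329) (nat_lit 281)))) (XT.nd (nat_lit 156) (nat_lit 0) (nat_lit 0) (XT.nd (nat_lit 78) (nat_lit 0) (nat_lit 0) (XT.lf (nat_lit 0) (nat_lit 55964549152) (nat_lit 152) (nat_lit 85008722603) (nat_lit 0) (nat_lit 49223077357) (nat_lit 4) (nat_lit 5) (nat_lit 6) (nat_lit 4) (nat_lit 4) (nat_lit 4) (nat_lit 411) (nat_lit 329) (nat_lit 280)) (XT.lf (nat_lit 0) (nat_lit 72203177703) (nat_lit 152) (nat_lit 67142856462) (nat_lit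 0) (nat_lit 65449935966) (nat_lit 4) (nat_lit 5) (nat_lit 6) (nat_lit 4) (nat_lit 4) (nat_lit 4) (nat_lit 412) (nat_lit 329) (nat_lit 279))) (XT.nd (nat_lit 78) (nat_lit 0) (nat_lit 0) (XT.lf (nat_lit 0) (nat_lit 89702163838) (nat_lit 152) (nat_lit 47925310922) (nat_lit 0) (nat_lit 82938024005) (nat_lit 4) (nat_lit 5) (nat_lit 6) (nat_lit 4) (nat_lit 4) (nat_lit 4) (nat_lit 413) (nat_lit 329) (nat_lit 278)) (XT.lf (nat_lit 0) (nat_lit 108565205250) (nat_lit 152) (nat_lit 27242204230) (nat_lit 0) (nat_lit 101790974589) (nat_lit 4) (nat_lit 5) (nat_lit 6) (nat_lit 4) (nat_lit 4) (nat_lit 4) (nat_lit 414) (nat_lit 329) (nat_lit 277))))))))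
noncomputable def xc29 : XT := (XT.nd (nat_lit 48984) (nat_lit 0) (nat_lit 1064) (XT.nd (nat_lit 1014) (nat_lit 152) (nat_lit 0) (XT.nd (nat_lit 468) (nat_lit 0) (nat_lit 0) (XT.nd (nat_lit 234) (nat_lit 0) (nat_lit 0) (XT.nd (nat_lit 78) (nat_lit 76) (nat_lit 0) (XT.lf (nat_lit 0) (nat_lit 128904082928) (nat_lit 152) (nat_lit 4970969829) (nat_lit 0) (nat_lit 122120508907) (nat_lit 4) (nat_lit 5) (nat_lit 6) (nat_lit 4) (nat_lit 4) (nat_lit 4) (nat_lit 415) (nat_lit 329) (nat_lit 276)) (XT.nd (nat_lit 78) (nat_lit 0) (nat_lit 0) (XT.lf (nat_lit 0) (nat_lit 19649269295) (nat_lit 76) (nat_lit 131496834417) (nat_lit 76) (nat_lit 124704609137) (nat_lit 3) (nat_lit 4) (nat_lit 4) (nat_lit 5) (nat_lit 4) (nat_lit 4) (nat_lit 416) (nat_lit 329) (nat_lit 275)) (XT.lf (nat_lit 0) (nat_lit 46357722694) (nat_lit 76) (nat_lit 128866965008) (nat_lit 76) (nat_lit 122066729303) (nat_lit 3) (nat_lit 4) (nat_lit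 4) (nat_lit 5) (nat_lit 4) (nat_lit 4) (nat_lit 417) (nat_lit 329) (nat_lit 274)))) (XT.nd (nat_lit 78) (nat_lit 0) (nat_lit 0) (XT.lf (nat_lit 0) (nat_lit 75148299972) (nat_lit 76) (nat_lit 126054045899) (nat_lit 76) (nat_lit 119246393134) (nat_lit 3) (nat_lit 4) (nat_lit 4) (nat_lit 5) (nat_lit 4) (nat_lit 4) (nat_lit 418) (nat_lit 329) (nat_lit 273)) (XT.nd (nat_lit 78) (nat_lit 0) (nat_lit 0) (XT.lf (nat_lit 0) (nat_lit 106191611955) (nat_lit 76) (nat_lit 123041407939) (nat_lit 76) (nat_lit 116226887525) (nat_lit 3) (nat_lit 4) (nat_lit 4) (nat_lit 5) (nat_lit 4) (nat_lit 4) (nat_lit 419) (nat_lit 329) (nat_lit 272)) (XT.lf (nat_lit 0) (nat_lit 139671619013) (nat_lit 76) (nat_lit 119811198459) (nat_lit 76) (nat_lit 112990319112) (nat_lit 3) (nat_lit 4) (nat_lit 4) (nat_lit 5) (nat_lit 4) (nat_lit 4) (nat_lit 420) (nat_lit 329) (nat_lit 271))))) (XT.nd (nat_lit 234) (nat_lit 0) (nat_lit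 0) (XT.nd (nat_lit 78) (nat_lit 0) (nat_lit 0) (XT.lf (nat_lit 0) (nat_lit 175786721186) (nat_lit 76) (nat_lit 116344275477) (nat_lit 76) (nat_lit 109517508228) (nat_lit 3) (nat_lit 4) (nat_lit 4) (nat_lit 5) (nat_lit 4) (nat_lit 4) (nat_lit 421) (nat_lit 329) (nat_lit 270)) (XT.nd (nat_lit 78) (nat_lit 0) (nat_lit 0) (XT.lf (nat_lit 0) (nat_lit 214750933895) (nat_lit 76) (nat_lit 112620094263) (nat_lit 76) (nat_lit 105787875254) (nat_lit 3) (nat_lit 4) (nat_lit 4) (nat_lit 5) (nat_lit 4) (nat_lit 4) (nat_lit 422) (nat_lit 329) (nat_lit 269)) (XT.lf (nat_lit 0) (nat_lit 256795156179) (nat_lit 76) (nat_lit 108616585597) (nat_lit 76) (nat_lit 101779318661) (nat_lit 3) (nat_lit 4) (nat_lit 4) (nat_lit 5) (nat_lit 4) (nat_lit 4) (nat_lit 423) (nat_lit 329) (nat_lit 268)))) (XT.nd (nat_lit 156) (nat_lit 0) (nat_lit 0) (XT.nd (nat_lit 78) (nat_lit 0) (nat_lit 0) (XT.lf (nat_lit 0) (nat_lit 302168538983)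 (nat_lit 76) (nat_lit 104310024982) (nat_lit 76) (nat_lit 97468084039) (nat_lit 3) (nat_lit 4) (nat_lit 4) (nat_lit 5) (nat_lit 4) (nat_lit 4) (nat_lit 424) (nat_lit 329) (nat_lit 267)) (XT.lf (nat_lit 0) (nat_lit 351139961614) (nat_lit 76) (nat_lit 99674892058) (nat_lit 76) (nat_lit 92828623333) (nat_lit 3) (nat_lit 4) (nat_lit 4) (nat_lit 5) (nat_lit 4) (nat_lit 4) (nat_lit 425) (nat_lit 329) (nat_lit 266))) (XT.nd (nat_lit 78) (nat_lit 0) (nat_lit 0) (XT.lf (nat_lit 0) (nat_lit 403999625095) (nat_lit 76) (nat_lit 94683719373) (nat_lit 76) (nat_lit 87833443440) (nat_lit 3) (nat_lit 4) (nat_lit 4) (nat_lit 5) (nat_lit 4) (nat_lit 4) (nat_lit 426) (nat_lit 329) (nat_lit 265)) (XT.lf (nat_lit 0) (nat_lit 461060771876) (nat_lit 76) (nat_lit 89306929605) (nat_lit 76) (nat_lit 82452943295) (nat_lit 3) (nat_lit 4) (nat_lit 4) (nat_lit 5) (nat_lit 4) (nat_lit 4) (nat_lit 427) (nat_lit 329) (nat_lit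 264)))))) (XT.nd (nat_lit 468) (nat_lit 152) (nat_lit 0) (XT.nd (nat_lit 234) (nat_lit 0) (nat_lit 0) (XT.nd (nat_lit 78) (nat_lit 0) (nat_lit 0) (XT.lf (nat_lit 0) (nat_lit 522661542085) (nat_lit 76) (nat_lit 83512660297) (nat_lit 76) (nat_lit 76655238454) (nat_lit 3) (nat_lit 4) (nat_lit 4) (nat_lit 5) (nat_lit 4) (nat_lit 4) (nat_lit 428) (nat_lit 329) (nat_lit 263)) (XT.nd (nat_lit 78) (nat_lit 0) (nat_lit 0) (XT.lf (nat_lit 0) (nat_lit 589166977325) (nat_lit 76) (nat_lit 77266575039) (nat_lit 76) (nat_lit 70405972145) (nat_lit 3) (nat_lit 4) (nat_lit 4) (nat_lit 5) (nat_lit 4) (nat_lit 4) (nat_lit 429) (nat_lit 329) (nat_lit 262)) (XT.lf (nat_lit 0) (nat_lit 660971183878) (nat_lit 76) (nat_lit 70531659991) (nat_lit 76) (nat_lit 63668111681) (nat_lit 3) (nat_lit 4) (nat_lit 4) (nat_lit 5) (nat_lit 4) (nat_lit 4) (nat_lit 430) (nat_lit 329) (nat_lit 261)))) (XT.nd (nat_lit 78) (nat_lit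 0) (nat_lit 0) (XT.lf (nat_lit 0) (nat_lit 738499668153) (nat_lit 76) (nat_lit 63268004547) (nat_lit 76) (nat_lit 56401728999) (nat_lit 3) (nat_lit 4) (nat_lit 4) (nat_lit 5) (nat_lit 4) (nat_lit 4) (nat_lit 431) (nat_lit 329) (nat_lit 260)) (XT.nd (nat_lit 78) (nat_lit 0) (nat_lit 0) (XT.lf (nat_lit 0) (nat_lit 822211858205) (nat_lit 76) (nat_lit 55432564822) (nat_lit 76) (nat_lit 48563764054) (nat_lit 3) (nat_lit 4) (nat_lit 4) (nat_lit 5) (nat_lit 4) (nat_lit 4) (nat_lit 432) (nat_lit 329) (nat_lit 259)) (XT.lf (nat_lit 0) (nat_lit 912603826272) (nat_lit 76) (nat_lit 46978908580) (nat_lit 76) (nat_lit 40107769645) (nat_lit 3) (nat_lit 4) (nat_lit 4) (nat_lit 5) (nat_lit 4) (nat_lit 4) (nat_lit 433) (nat_lit 329) (nat_lit 258))))) (XT.nd (nat_lit 234) (nat_lit 152) (nat_lit 0) (XT.nd (nat_lit 78) (nat_lit 0) (nat_lit 0) (XT.lf (nat_lit 0) (nat_lit 1010211228460) (nat_lit 76) (nat_lit 37856940081)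 (nat_lit 76) (nat_lit 30983636177) (nat_lit 3) (nat_lit 4) (nat_lit 4) (nat_lit 5) (nat_lit 4) (nat_lit 4) (nat_lit 434) (nat_lit 329) (nat_lit 257)) (XT.nd (nat_lit 78) (nat_lit 0) (nat_lit 0) (XT.lf (nat_lit 0) (nat_lit 1115612479005) (nat_lit 76) (nat_lit 28012603216) (nat_lit 76) (nat_lit 21137294711) (nat_lit 3) (nat_lit 4) (nat_lit 4) (nat_lit 5) (nat_lit 4) (nat_lit 4) (nat_lit 435) (nat_lit 329) (nat_lit 256)) (XT.lf (nat_lit 0) (nat_lit 1229432177910) (nat_lit 76) (nat_lit 17387561172) (nat_lit 76) (nat_lit 10510396555) (nat_lit 3) (nat_lit 4) (nat_lit 4) (nat_lit 5) (nat_lit 4) (nat_lit 4) (nat_lit 436) (nat_lit 329) (nat_lit 255)))) (XT.nd (nat_lit 47112) (nat_lit 0) (nat_lit 4788) (XT.nd (nat_lit 78) (nat_lit 76) (nat_lit 0) (XT.lf (nat_lit 0) (nat_lit 929305464) (nat_lit 152) (nat_lit 4973807037) (nat_lit 76) (nat_lit 1351399768578) (nat_lit 2) (nat_lit 5) (nat_lit 4) (nat_lit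 5) (nat_lit 3) (nat_lit 4) (nat_lit 437) (nat_lit 329) (nat_lit 254)) (XT.lf (nat_lit 0) (nat_lit 13340467957) (nat_lit 152) (nat_lit 1445115502384) (nat_lit 0) (nat_lit 6787635046) (nat_lit 1) (nat_lit 5) (nat_lit 3) (nat_lit 4) (nat_lit 1) (nat_lit 4) (nat_lit 438) (nat_lit 329) (nat_lit 253))) (XT.nd (nat_lit 78) (nat_lit 228) (nat_lit 0) (XT.lf (nat_lit 0) (nat_lit 1075313831) (nat_lit 228) (nat_lit 2593306838) (nat_lit 0) (nat_lit 1075313831) (nat_lit 67) (nat_lit 5) (nat_lit 70) (nat_lit 4) (nat_lit 67) (nat_lit 4) (nat_lit 360) (nat_lit 330) (nat_lit 330)) (XT.lf (nat_lit 0) (nat_lit 7613112278) (nat_lit 228) (nat_lit 1738216024) (nat_lit 228) (nat_lit 472954799) (nat_lit 64) (nat_lit 4) (nat_lit 67) (nat_lit 5) (nat_lit 67) (nat_lit 4) (nat_lit 361) (nat_lit 330) (nat_lit 329))))))) (XT.nd (nat_lit 1014) (nat_lit 1216) (nat_lit 0) (XT.nd (nat_lit 468) (nat_lit 1064) (nat_lit 0) (XT.nd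 (nat_lit 234) (nat_lit 608) (nat_lit 0) (XT.nd (nat_lit 78) (nat_lit 456) (nat_lit 0) (XT.lf (nat_lit 0) (nat_lit 779492270) (nat_lit 152) (nat_lit 5863676253) (nat_lit 152) (nat_lit 3542914923) (nat_lit 59) (nat_lit 4) (nat_lit 61) (nat_lit 5) (nat_lit 61) (nat_lit 4) (nat_lit 362) (nat_lit 330) (nat_lit 328)) (XT.nd (nat_lit 78) (nat_lit 228) (nat_lit 0) (XT.lf (nat_lit 0) (nat_lit 3545560389) (nat_lit 228) (nat_lit 6680198751) (nat_lit 0) (nat_lit 351404414) (nat_lit 56) (nat_lit 5) (nat_lit 59) (nat_lit 4) (nat_lit 56) (nat_lit 4) (nat_lit 363) (nat_lit 330) (nat_lit 327)) (XT.lf (nat_lit 0) (nat_lit 49656450) (nat_lit 228) (nat_lit 4003385333) (nat_lit 76) (nat_lit 6945031392) (nat_lit 53) (nat_lit 5) (nat_lit 56) (nat_lit 5) (nat_lit 54) (nat_lit 4) (nat_lit 364) (nat_lit 330) (nat_lit 326)))) (XT.nd (nat_lit 78) (nat_lit 456) (nat_lit 0) (XT.lf (nat_lit 0) (nat_lit 7382899266) (nat_lit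 228) (nat_lit 1397666566) (nat_lit 0) (nat_lit 2669829931) (nat_lit 51) (nat_lit 5) (nat_lit 54) (nat_lit 4) (nat_lit 51) (nat_lit 4) (nat_lit 365) (nat_lit 330) (nat_lit 325)) (XT.nd (nat_lit 78) (nat_lit 152) (nat_lit 0) (XT.lf (nat_lit 0) (nat_lit 1191773147) (nat_lit 76) (nat_lit 2051498293) (nat_lit 152) (nat_lit 8693739024) (nat_lit 47) (nat_lit 5) (nat_lit 48) (nat_lit 5) (nat_lit 49) (nat_lit 4) (nat_lit 366) (nat_lit 330) (nat_lit 324)) (XT.lf (nat_lit 0) (nat_lit 3715497231) (nat_lit 152) (nat_lit 7297995170) (nat_lit 152) (nat_lit 1444951129) (nat_lit 45) (nat_lit 4) (nat_lit 47) (nat_lit 5) (nat_lit 47) (nat_lit 4) (nat_lit 367) (nat_lit 330) (nat_lit 323))))) (XT.nd (nat_lit 234) (nat_lit 608) (nat_lit 0) (XT.nd (nat_lit 78) (nat_lit 304) (nat_lit 0) (XT.lf (nat_lit 0) (nat_lit 6114462092) (nat_lit 76) (nat_lit 19626130) (nat_lit 152) (nat_lit 6884855042) (nat_lit 43) (nat_lit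 5) (nat_lit 44) (nat_lit 5) (nat_lit 45) (nat_lit 4) (nat_lit 368) (nat_lit 330) (nat_lit 322)) (XT.nd (nat_lit 78) (nat_lit 76) (nat_lit 0) (XT.lf (nat_lit 0) (nat_lit 681534036) (nat_lit 228) (nat_lit 5291238811) (nat_lit 76) (nat_lit 7647058686) (nat_lit 40) (nat_lit 5) (nat_lit 43) (nat_lit 5) (nat_lit 41) (nat_lit 4) (nat_lit 369) (nat_lit 330) (nat_lit 321)) (XT.lf (nat_lit 0) (nat_lit 8586305880) (nat_lit 152) (nat_lit 3934080704) (nat_lit 0) (nat_lit 1744102982) (nat_lit 39) (nat_lit 5) (nat_lit 41) (nat_lit 4) (nat_lit 39) (nat_lit 4) (nat_lit 370) (nat_lit 330) (nat_lit 320)))) (XT.nd (nat_lit 156) (nat_lit 304) (nat_lit 0) (XT.nd (nat_lit 78) (nat_lit 76) (nat_lit 0) (XT.lf (nat_lit 0) (nat_lit 2148471395) (nat_lit 228) (nat_lit 2875164100) (nat_lit 76) (nat_lit 9932698314) (nat_lit 36) (nat_lit 5) (nat_lit 39) (nat_lit 5) (nat_lit 37) (nat_lit 4) (nat_lit 371) (nat_lit 330) (nat_lit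 319)) (XT.lf (nat_lit 0) (nat_lit 10417196984) (nat_lit 152) (nat_lit 2182316120) (nat_lit 0) (nat_lit 3098660423) (nat_lit 35) (nat_lit 5) (nat_lit 37) (nat_lit 4) (nat_lit 35) (nat_lit 4) (nat_lit 372) (nat_lit 330) (nat_lit 318))) (XT.nd (nat_lit 78) (nat_lit 76) (nat_lit 0) (XT.lf (nat_lit 0) (nat_lit 2813475245) (nat_lit 228) (nat_lit 1907996019) (nat_lit 76) (nat_lit 11772877772) (nat_lit 32) (nat_lit 5) (nat_lit 35) (nat_lit 5) (nat_lit 33) (nat_lit 4) (nat_lit 373) (nat_lit 330) (nat_lit 317)) (XT.lf (nat_lit 0) (nat_lit 11411993724) (nat_lit 152) (nat_lit 2148866601) (nat_lit 0) (nat_lit 3786990545) (nat_lit 31) (nat_lit 5) (nat_lit 33) (nat_lit 4) (nat_lit 31) (nat_lit 4) (nat_lit 374) (nat_lit 330) (nat_lit 316)))))) (XT.nd (nat_lit 546) (nat_lit 532) (nat_lit 0) (XT.nd (nat_lit 234) (nat_lit 304) (nat_lit 0) (XT.nd (nat_lit 78) (nat_lit 228) (nat_lit 0) (XT.lf (nat_lit 0) (nat_lit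 2415930341) (nat_lit 152) (nat_lit 2963909530) (nat_lit 76) (nat_lit 12884684778) (nat_lit 29) (nat_lit 5) (nat_lit 31) (nat_lit 5) (nat_lit 30) (nat_lit 4) (nat_lit 375) (nat_lit 330) (nat_lit 315)) (XT.nd (nat_lit 78) (nat_lit 152) (nat_lit 0) (XT.lf (nat_lit 0) (nat_lit 11275831100) (nat_lit 152) (nat_lit 4492336650) (nat_lit 0) (nat_lit 3479133024) (nat_lit 28) (nat_lit 5) (nat_lit 30) (nat_lit 4) (nat_lit 28) (nat_lit 4) (nat_lit 376) (nat_lit 330) (nat_lit 314)) (XT.lf (nat_lit 0) (nat_lit 603041708) (nat_lit 152) (nat_lit 6798528048) (nat_lit 76) (nat_lit 12902519595) (nat_lit 26) (nat_lit 5) (nat_lit 28) (nat_lit 5) (nat_lit 27) (nat_lit 4) (nat_lit 377) (nat_lit 330) (nat_lit 313)))) (XT.nd (nat_lit 156) (nat_lit 152) (nat_lit 0) (XT.nd (nat_lit 78) (nat_lit 76) (nat_lit 0) (XT.lf (nat_lit 0) (nat_lit 9610438748) (nat_lit 152) (nat_lit 10078814241) (nat_lit 0) (nat_lit 1748348702)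 (nat_lit 25) (nat_lit 5) (nat_lit 27) (nat_lit 4) (nat_lit 25) (nat_lit 4) (nat_lit 378) (nat_lit 330) (nat_lit 312)) (XT.lf (nat_lit 0) (nat_lit 8201586025) (nat_lit 76) (nat_lit 11255389190) (nat_lit 76) (nat_lit 3198915549) (nat_lit 24) (nat_lit 4) (nat_lit 25) (nat_lit 5) (nat_lit 25) (nat_lit 4) (nat_lit 379) (nat_lit 330) (nat_lit 311))) (XT.nd (nat_lit 78) (nat_lit 0) (nat_lit 0) (XT.lf (nat_lit 0) (nat_lit 3890910631) (nat_lit 76) (nat_lit 2024879164) (nat_lit 152) (nat_lit 18051493197) (nat_lit 22) (nat_lit 5) (nat_lit 23) (nat_lit 5) (nat_lit 24) (nat_lit 4) (nat_lit 380) (nat_lit 330) (nat_lit 310)) (XT.lf (nat_lit 0) (nat_lit 15789659952) (nat_lit 152) (nat_lit 1797523284) (nat_lit 0) (nat_lit 7786697045) (nat_lit 22) (nat_lit 5) (nat_lit 24) (nat_lit 4) (nat_lit 22) (nat_lit 4) (nat_lit 381) (nat_lit 330) (nat_lit 309))))) (XT.nd (nat_lit 234) (nat_lit 228) (nat_lit 0) (XT.nd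 (nat_lit 78) (nat_lit 228) (nat_lit 0) (XT.lf (nat_lit 0) (nat_lit 18057507160) (nat_lit 76) (nat_lit 8490358624) (nat_lit 76) (nat_lit 340435750) (nat_lit 21) (nat_lit 4) (nat_lit 22) (nat_lit 5) (nat_lit 22) (nat_lit 4) (nat_lit 382) (nat_lit 330) (nat_lit 308)) (XT.nd (nat_lit 78) (nat_lit 76) (nat_lit 0) (XT.lf (nat_lit 0) (nat_lit 9343253747) (nat_lit 152) (nat_lit 17720830769) (nat_lit 0) (nat_lit 1451828112) (nat_lit 19) (nat_lit 5) (nat_lit 21) (nat_lit 4) (nat_lit 19) (nat_lit 4) (nat_lit 383) (nat_lit 330) (nat_lit 307)) (XT.lf (nat_lit 0) (nat_lit 1530446297) (nat_lit 76) (nat_lit 18374343986) (nat_lit 76) (nat_lit 10362923604) (nat_lit 18) (nat_lit 4) (nat_lit 19) (nat_lit 5) (nat_lit 19) (nat_lit 4) (nat_lit 384) (nat_lit 330) (nat_lit 306)))) (XT.nd (nat_lit 156) (nat_lit 76) (nat_lit 0) (XT.nd (nat_lit 78) (nat_lit 152) (nat_lit 0) (XT.lf (nat_lit 0) (nat_lit 22564893502) (nat_lit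 76) (nat_lit 8855913855) (nat_lit 76) (nat_lit 733387226) (nat_lit 18) (nat_lit 4) (nat_lit 19) (nat_lit 5) (nat_lit 19) (nat_lit 4) (nat_lit 385) (nat_lit 330) (nat_lit 305)) (XT.lf (nat_lit 0) (nat_lit 9364932566) (nat_lit 152) (nat_lit 23287520670) (nat_lit 0) (nat_lit 1531215629) (nat_lit 16) (nat_lit 5) (nat_lit 18) (nat_lit 4) (nat_lit 16) (nat_lit 4) (nat_lit 386) (nat_lit 330) (nat_lit 304))) (XT.nd (nat_lit 78) (nat_lit 76) (nat_lit 0) (XT.lf (nat_lit 0) (nat_lit 20383172968) (nat_lit 152) (nat_lit 3526113991) (nat_lit 0) (nat_lit 12458736318) (nat_lit 16) (nat_lit 5) (nat_lit 18) (nat_lit 4) (nat_lit 16) (nat_lit 4) (nat_lit 387) (nat_lit 330) (nat_lit 303)) (XT.lf (nat_lit 0) (nat_lit 18063423839) (nat_lit 76) (nat_lit 14333229766) (nat_lit 76) (nat_lit 6324793381) (nat_lit 15) (nat_lit 4) (nat_lit 16) (nat_lit 5) (nat_lit 16) (nat_lit 4) (nat_lit 388) (nat_lit 330) (nat_lit 302))))))))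
noncomputable def xc30 : XT := (XT.nd (nat_lit 2028) (nat_lit 152) (nat_lit 0) (XT.nd (nat_lit 1014) (nat_lit 228) (nat_lit 0) (XT.nd (nat_lit 468) (nat_lit 228) (nat_lit 0) (XT.nd (nat_lit 234) (nat_lit 228) (nat_lit 0) (XT.nd (nat_lit 78) (nat_lit 76) (nat_lit 0) (XT.lf (nat_lit 0) (nat_lit 3875650540) (nat_lit 152) (nat_lit 141130307) (nat_lit 76) (nat_lit 37248212322) (nat_lit 14) (nat_lit 5) (nat_lit 16) (nat_lit 5) (nat_lit 15) (nat_lit 4) (nat_lit 389) (nat_lit 330) (nat_lit 301)) (XT.nd (nat_lit 78) (nat_lit 0) (nat_lit 0) (XT.lf (nat_lit 0) (nat_lit 14987237852) (nat_lit 152) (nat_lit 21786279354) (nat_lit 0) (nat_lit 7217494853) (nat_lit 13) (nat_lit 5) (nat_lit 15) (nat_lit 4) (nat_lit 13) (nat_lit 4) (nat_lit 390) (nat_lit 330) (nat_lit 300)) (XT.lf (nat_lit 0) (nat_lit 26911275678) (nat_lit 152) (nat_lit 949641861) (nat_lit 0) (nat_lit 19078026300) (nat_lit 13) (nat_lit 5) (nat_lit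 15) (nat_lit 4) (nat_lit 13) (nat_lit 4) (nat_lit 391) (nat_lit 330) (nat_lit 299)))) (XT.nd (nat_lit 78) (nat_lit 152) (nat_lit 0) (XT.lf (nat_lit 0) (nat_lit 21989021693) (nat_lit 76) (nat_lit 18007686726) (nat_lit 76) (nat_lit 10115635145) (nat_lit 12) (nat_lit 4) (nat_lit 13) (nat_lit 5) (nat_lit 13) (nat_lit 4) (nat_lit 392) (nat_lit 330) (nat_lit 298)) (XT.nd (nat_lit 78) (nat_lit 76) (nat_lit 0) (XT.lf (nat_lit 0) (nat_lit 455387695) (nat_lit 152) (nat_lit 7012953288) (nat_lit 76) (nat_lit 46076575854) (nat_lit 11) (nat_lit 5) (nat_lit 13) (nat_lit 5) (nat_lit 12) (nat_lit 4) (nat_lit 393) (nat_lit 330) (nat_lit 297)) (XT.lf (nat_lit 0) (nat_lit 11714339661) (nat_lit 152) (nat_lit 41421404532) (nat_lit 0) (nat_lit 4098233494) (nat_lit 10) (nat_lit 5) (nat_lit 12) (nat_lit 4) (nat_lit 10) (nat_lit 4) (nat_lit 394) (nat_lit 330) (nat_lit 296))))) (XT.nd (nat_lit 234) (nat_lit 152) (nat_lit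 0) (XT.nd (nat_lit 78) (nat_lit 76) (nat_lit 0) (XT.lf (nat_lit 0) (nat_lit 24005592242) (nat_lit 152) (nat_lit 20860967425) (nat_lit 0) (nat_lit 16345029805) (nat_lit 10) (nat_lit 5) (nat_lit 12) (nat_lit 4) (nat_lit 10) (nat_lit 4) (nat_lit 395) (nat_lit 330) (nat_lit 295)) (XT.nd (nat_lit 78) (nat_lit 0) (nat_lit 0) (XT.lf (nat_lit 0) (nat_lit 1163438639) (nat_lit 76) (nat_lit 36025140208) (nat_lit 76) (nat_lit 28323414558) (nat_lit 9) (nat_lit 4) (nat_lit 10) (nat_lit 5) (nat_lit 10) (nat_lit 4) (nat_lit 396) (nat_lit 330) (nat_lit 294)) (XT.lf (nat_lit 0) (nat_lit 25486110796) (nat_lit 76) (nat_lit 26198618442) (nat_lit 76) (nat_lit 18458778706) (nat_lit 9) (nat_lit 4) (nat_lit 10) (nat_lit 5) (nat_lit 10) (nat_lit 4) (nat_lit 397) (nat_lit 330) (nat_lit 293)))) (XT.nd (nat_lit 156) (nat_lit 76) (nat_lit 0) (XT.nd (nat_lit 78) (nat_lit 76) (nat_lit 0) (XT.lf (nat_lit 0) (nat_lit 51561425607)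 (nat_lit 76) (nat_lit 15682053707) (nat_lit 76) (nat_lit 7906923149) (nat_lit 9) (nat_lit 4) (nat_lit 10) (nat_lit 5) (nat_lit 10) (nat_lit 4) (nat_lit 398) (nat_lit 330) (nat_lit 292)) (XT.lf (nat_lit 0) (nat_lit 3286030612) (nat_lit 152) (nat_lit 1071444488) (nat_lit 76) (nat_lit 76202222324) (nat_lit 8) (nat_lit 5) (nat_lit 10) (nat_lit 5) (nat_lit 9) (nat_lit 4) (nat_lit 399) (nat_lit 330) (nat_lit 291))) (XT.nd (nat_lit 78) (nat_lit 0) (nat_lit 0) (XT.lf (nat_lit 0) (nat_lit 15516452718) (nat_lit 152) (nat_lit 62806222603) (nat_lit 0) (nat_lit 8051630399) (nat_lit 7) (nat_lit 5) (nat_lit 9) (nat_lit 4) (nat_lit 7) (nat_lit 4) (nat_lit 400) (nat_lit 330) (nat_lit 290)) (XT.lf (nat_lit 0) (nat_lit 28735643745) (nat_lit 152) (nat_lit 42673784868) (nat_lit 0) (nat_lit 21244140482) (nat_lit 7) (nat_lit 5) (nat_lit 9) (nat_lit 4) (nat_lit 7) (nat_lit 4) (nat_lit 401) (nat_lit 330) (nat_lit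 289)))))) (XT.nd (nat_lit 468) (nat_lit 152) (nat_lit 0) (XT.nd (nat_lit 234) (nat_lit 0) (nat_lit 0) (XT.nd (nat_lit 78) (nat_lit 76) (nat_lit 0) (XT.lf (nat_lit 0) (nat_lit 42936342579) (nat_lit 152) (nat_lit 21082500537) (nat_lit 0) (nat_lit 35420134738) (nat_lit 7) (nat_lit 5) (nat_lit 9) (nat_lit 4) (nat_lit 7) (nat_lit 4) (nat_lit 402) (nat_lit 330) (nat_lit 288)) (XT.nd (nat_lit 78) (nat_lit 0) (nat_lit 0) (XT.lf (nat_lit 0) (nat_lit 2164868037) (nat_lit 76) (nat_lit 56071633128) (nat_lit 76) (nat_lit 48532550678) (nat_lit 6) (nat_lit 4) (nat_lit 7) (nat_lit 5) (nat_lit 7) (nat_lit 4) (nat_lit 403) (nat_lit 330) (nat_lit 287)) (XT.lf (nat_lit 0) (nat_lit 27890473890) (nat_lit 76) (nat_lit 47170162416) (nat_lit 76) (nat_lit 39609899772) (nat_lit 6) (nat_lit 4) (nat_lit 7) (nat_lit 5) (nat_lit 7) (nat_lit 4) (nat_lit 404) (nat_lit 330) (nat_lit 286)))) (XT.nd (nat_lit 78) (nat_lit 0)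 (nat_lit 0) (XT.lf (nat_lit 0) (nat_lit 55549682376) (nat_lit 76) (nat_lit 37618723871) (nat_lit 76) (nat_lit 30038849937) (nat_lit 6) (nat_lit 4) (nat_lit 7) (nat_lit 5) (nat_lit 7) (nat_lit 4) (nat_lit 405) (nat_lit 330) (nat_lit 285)) (XT.nd (nat_lit 78) (nat_lit 0) (nat_lit 0) (XT.lf (nat_lit 0) (nat_lit 85306399917) (nat_lit 76) (nat_lit 27360716378) (nat_lit 76) (nat_lit 19762683841) (nat_lit 6) (nat_lit 4) (nat_lit 7) (nat_lit 5) (nat_lit 7) (nat_lit 4) (nat_lit 406) (nat_lit 330) (nat_lit 284)) (XT.lf (nat_lit 0) (nat_lit 117336962616) (nat_lit 76) (nat_lit 16335351742) (nat_lit 76) (nat_lit 8720505685) (nat_lit 6) (nat_lit 4) (nat_lit 7) (nat_lit 5) (nat_lit 7) (nat_lit 4) (nat_lit 407) (nat_lit 330) (nat_lit 283))))) (XT.nd (nat_lit 234) (nat_lit 0) (nat_lit 0) (XT.nd (nat_lit 78) (nat_lit 76) (nat_lit 0) (XT.lf (nat_lit 0) (nat_lit 3052200140) (nat_lit 152) (nat_lit 1373403843)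 (nat_lit 76) (nat_lit 148727290588) (nat_lit 5) (nat_lit 5) (nat_lit 7) (nat_lit 5) (nat_lit 6) (nat_lit 4) (nat_lit 408) (nat_lit 330) (nat_lit 282)) (XT.nd (nat_lit 78) (nat_lit 0) (nat_lit 0) (XT.lf (nat_lit 0) (nat_lit 15944995993) (nat_lit 152) (nat_lit 140133236412) (nat_lit 0) (nat_lit 8664206455) (nat_lit 4) (nat_lit 5) (nat_lit 6) (nat_lit 4) (nat_lit 4) (nat_lit 4) (nat_lit 409) (nat_lit 330) (nat_lit 281)) (XT.lf (nat_lit 0) (nat_lit 29922977462) (nat_lit 152) (nat_lit 124704006260) (nat_lit 0) (nat_lit 22629476385) (nat_lit 4) (nat_lit 5) (nat_lit 6) (nat_lit 4) (nat_lit 4) (nat_lit 4) (nat_lit 410) (nat_lit 330) (nat_lit 280)))) (XT.nd (nat_lit 156) (nat_lit 0) (nat_lit 0) (XT.nd (nat_lit 78) (nat_lit 0) (nat_lit 0) (XT.lf (nat_lit 0) (nat_lit 44977366130) (nat_lit 152) (nat_lit 108124234779) (nat_lit 0) (nat_lit 37672095111) (nat_lit 4) (nat_lit 5) (nat_lit 6) (nat_lit 4) (nat_lit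 4) (nat_lit 4) (nat_lit 411) (nat_lit 330) (nat_lit 279)) (XT.lf (nat_lit 0) (nat_lit 61197373191) (nat_lit 152) (nat_lit 90295671470) (nat_lit 0) (nat_lit 53881204077) (nat_lit 4) (nat_lit 5) (nat_lit 6) (nat_lit 4) (nat_lit 4) (nat_lit 4) (nat_lit 412) (nat_lit 330) (nat_lit 278))) (XT.nd (nat_lit 78) (nat_lit 0) (nat_lit 0) (XT.lf (nat_lit 0) (nat_lit 78679117204) (nat_lit 152) (nat_lit 71112665589) (nat_lit 0) (nat_lit 71352857261) (nat_lit 4) (nat_lit 5) (nat_lit 6) (nat_lit 4) (nat_lit 4) (nat_lit 4) (nat_lit 413) (nat_lit 330) (nat_lit 277)) (XT.lf (nat_lit 0) (nat_lit 97526193690) (nat_lit 152) (nat_lit 50461540064) (nat_lit 0) (nat_lit 90190590387) (nat_lit 4) (nat_lit 5) (nat_lit 6) (nat_lit 4) (nat_lit 4) (nat_lit 4) (nat_lit 414) (nat_lit 330) (nat_lit 276))))))) (XT.nd (nat_lit 1014) (nat_lit 76) (nat_lit 0) (XT.nd (nat_lit 468) (nat_lit 0) (nat_lit 0) (XT.nd (nat_lit 234) (nat_lit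 0) (nat_lit 0) (XT.nd (nat_lit 78) (nat_lit 76) (nat_lit 0) (XT.lf (nat_lit 0) (nat_lit 117850289027) (nat_lit 152) (nat_lit 28219917854) (nat_lit 0) (nat_lit 110506034465) (nat_lit 4) (nat_lit 5) (nat_lit 6) (nat_lit 4) (nat_lit 4) (nat_lit 4) (nat_lit 415) (nat_lit 330) (nat_lit 275)) (XT.nd (nat_lit 78) (nat_lit 76) (nat_lit 0) (XT.lf (nat_lit 0) (nat_lit 139771842299) (nat_lit 152) (nat_lit 4255996754) (nat_lit 0) (nat_lit 132419577313) (nat_lit 4) (nat_lit 5) (nat_lit 6) (nat_lit 4) (nat_lit 4) (nat_lit 4) (nat_lit 416) (nat_lit 330) (nat_lit 274)) (XT.lf (nat_lit 0) (nat_lit 22285507058) (nat_lit 76) (nat_lit 141483191169) (nat_lit 76) (nat_lit 134123509122) (nat_lit 3) (nat_lit 4) (nat_lit 4) (nat_lit 5) (nat_lit 4) (nat_lit 4) (nat_lit 417) (nat_lit 330) (nat_lit 273)))) (XT.nd (nat_lit 78) (nat_lit 0) (nat_lit 0) (XT.lf (nat_lit 0) (nat_lit 51051799972) (nat_lit 76) (nat_lit 138682442578)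 (nat_lit 76) (nat_lit 131315892883) (nat_lit 3) (nat_lit 4) (nat_lit 4) (nat_lit 5) (nat_lit 4) (nat_lit 4) (nat_lit 418) (nat_lit 330) (nat_lit 272)) (XT.nd (nat_lit 78) (nat_lit 0) (nat_lit 0) (XT.lf (nat_lit 0) (nat_lit 82072626435) (nat_lit 76) (nat_lit 135681073617) (nat_lit 76) (nat_lit 128308164988) (nat_lit 3) (nat_lit 4) (nat_lit 4) (nat_lit 5) (nat_lit 4) (nat_lit 4) (nat_lit 419) (nat_lit 330) (nat_lit 271)) (XT.lf (nat_lit 0) (nat_lit 115531813565) (nat_lit 76) (nat_lit 132461298394) (nat_lit 76) (nat_lit 125082501864) (nat_lit 3) (nat_lit 4) (nat_lit 4) (nat_lit 5) (nat_lit 4) (nat_lit 4) (nat_lit 420) (nat_lit 330) (nat_lit 270))))) (XT.nd (nat_lit 234) (nat_lit 0) (nat_lit 0) (XT.nd (nat_lit 78) (nat_lit 0) (nat_lit 0) (XT.lf (nat_lit 0) (nat_lit 151627638028) (nat_lit 76) (nat_lit 129004036762) (nat_lit 76) (nat_lit 121619788470) (nat_lit 3) (nat_lit 4) (nat_lit 4) (nat_lit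 5) (nat_lit 4) (nat_lit 4) (nat_lit 421) (nat_lit 330) (nat_lit 269)) (XT.nd (nat_lit 78) (nat_lit 0) (nat_lit 0) (XT.lf (nat_lit 0) (nat_lit 190574001005) (nat_lit 76) (nat_lit 125288801243) (nat_lit 76) (nat_lit 117899505025) (nat_lit 3) (nat_lit 4) (nat_lit 4) (nat_lit 5) (nat_lit 4) (nat_lit 4) (nat_lit 422) (nat_lit 330) (nat_lit 268)) (XT.lf (nat_lit 0) (nat_lit 232601695759) (nat_lit 76) (nat_lit 121293575626) (nat_lit 76) (nat_lit 113899605402) (nat_lit 3) (nat_lit 4) (nat_lit 4) (nat_lit 5) (nat_lit 4) (nat_lit 4) (nat_lit 423) (nat_lit 330) (nat_lit 267)))) (XT.nd (nat_lit 156) (nat_lit 0) (nat_lit 0) (XT.nd (nat_lit 78) (nat_lit 0) (nat_lit 0) (XT.lf (nat_lit 0) (nat_lit 277959775295) (nat_lit 76) (nat_lit 116994684502) (nat_lit 76) (nat_lit 109596386495) (nat_lit 3) (nat_lit 4) (nat_lit 4) (nat_lit 5) (nat_lit 4) (nat_lit 4) (nat_lit 424) (nat_lit 330) (nat_lit 266)) (XT.lf (nat_lit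 0) (nat_lit 326917028233) (nat_lit 76) (nat_lit 112366652959) (nat_lit 76) (nat_lit 104964347745) (nat_lit 3) (nat_lit 4) (nat_lit 4) (nat_lit 5) (nat_lit 4) (nat_lit 4) (nat_lit 425) (nat_lit 330) (nat_lit 265))) (XT.nd (nat_lit 78) (nat_lit 0) (nat_lit 0) (XT.lf (nat_lit 0) (nat_lit 379763571628) (nat_lit 76) (nat_lit 107382055626) (nat_lit 76) (nat_lit 99976040035) (nat_lit 3) (nat_lit 4) (nat_lit 4) (nat_lit 5) (nat_lit 4) (nat_lit 4) (nat_lit 426) (nat_lit 330) (nat_lit 264)) (XT.lf (nat_lit 0) (nat_lit 436812570181) (nat_lit 76) (nat_lit 102011354147) (nat_lit 76) (nat_lit 94601903022) (nat_lit 3) (nat_lit 4) (nat_lit 4) (nat_lit 5) (nat_lit 4) (nat_lit 4) (nat_lit 427) (nat_lit 330) (nat_lit 263)))))) (XT.nd (nat_lit 468) (nat_lit 76) (nat_lit 0) (XT.nd (nat_lit 234) (nat_lit 0) (nat_lit 0) (XT.nd (nat_lit 78) (nat_lit 0) (nat_lit 0) (XT.lf (nat_lit 0) (nat_lit 498402092032) (nat_lit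 76) (nat_lit 96222722144) (nat_lit 76) (nat_lit 88810089969) (nat_lit 3) (nat_lit 4) (nat_lit 4) (nat_lit 5) (nat_lit 4) (nat_lit 4) (nat_lit 428) (nat_lit 330) (nat_lit 262)) (XT.nd (nat_lit 78) (nat_lit 0) (nat_lit 0) (XT.lf (nat_lit 0) (nat_lit 564897112124) (nat_lit 76) (nat_lit 89981856613) (nat_lit 76) (nat_lit 82566279021) (nat_lit 3) (nat_lit 4) (nat_lit 4) (nat_lit 5) (nat_lit 4) (nat_lit 4) (nat_lit 429) (nat_lit 330) (nat_lit 261)) (XT.lf (nat_lit 0) (nat_lit 636691675022) (nat_lit 76) (nat_lit 83251774645) (nat_lit 76) (nat_lit 75833469816) (nat_lit 3) (nat_lit 4) (nat_lit 4) (nat_lit 5) (nat_lit 4) (nat_lit 4) (nat_lit 430) (nat_lit 330) (nat_lit 260)))) (XT.nd (nat_lit 78) (nat_lit 0) (nat_lit 0) (XT.lf (nat_lit 0) (nat_lit 714211229987) (nat_lit 76) (nat_lit 75992594275) (nat_lit 76) (nat_lit 68571764226) (nat_lit 3) (nat_lit 4) (nat_lit 4) (nat_lit 5) (nat_lit 4) (nat_lit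 4) (nat_lit 431) (nat_lit 330) (nat_lit 259)) (XT.nd (nat_lit 78) (nat_lit 0) (nat_lit 0) (XT.lf (nat_lit 0) (nat_lit 797915152160) (nat_lit 76) (nat_lit 68161298137) (nat_lit 76) (nat_lit 60738129921) (nat_lit 3) (nat_lit 4) (nat_lit 4) (nat_lit 5) (nat_lit 4) (nat_lit 4) (nat_lit 432) (nat_lit 330) (nat_lit 258)) (XT.lf (nat_lit 0) (nat_lit 888299464782) (nat_lit 76) (nat_lit 59711478551) (nat_lit 76) (nat_lit 52286145365) (nat_lit 3) (nat_lit 4) (nat_lit 4) (nat_lit 5) (nat_lit 4) (nat_lit 4) (nat_lit 433) (nat_lit 330) (nat_lit 257))))) (XT.nd (nat_lit 234) (nat_lit 76) (nat_lit 0) (XT.nd (nat_lit 78) (nat_lit 0) (nat_lit 0) (XT.lf (nat_lit 0) (nat_lit 985899778597) (nat_lit 76) (nat_lit 50593062510) (nat_lit 76) (nat_lit 43165724724) (nat_lit 3) (nat_lit 4) (nat_lit 4) (nat_lit 5) (nat_lit 4) (nat_lit 4) (nat_lit 434) (nat_lit 330) (nat_lit 256)) (XT.nd (nat_lit 78) (nat_lit 0) (nat_lit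 0) (XT.lf (nat_lit 0) (nat_lit 1091294465832) (nat_lit 76) (nat_lit 40752014958) (nat_lit 76) (nat_lit 33322821059) (nat_lit 3) (nat_lit 4) (nat_lit 4) (nat_lit 5) (nat_lit 4) (nat_lit 4) (nat_lit 435) (nat_lit 330) (nat_lit 255)) (XT.lf (nat_lit 0) (nat_lit 1205108087599) (nat_lit 76) (nat_lit 30130018575) (nat_lit 76) (nat_lit 22699106054) (nat_lit 3) (nat_lit 4) (nat_lit 4) (nat_lit 5) (nat_lit 4) (nat_lit 4) (nat_lit 436) (nat_lit 330) (nat_lit 254)))) (XT.nd (nat_lit 46956) (nat_lit 0) (nat_lit 5168) (XT.nd (nat_lit 78) (nat_lit 76) (nat_lit 0) (XT.lf (nat_lit 0) (nat_lit 1328015094989) (nat_lit 76) (nat_lit 18664128197) (nat_lit 76) (nat_lit 11231624360) (nat_lit 3) (nat_lit 4) (nat_lit 4) (nat_lit 5) (nat_lit 4) (nat_lit 4) (nat_lit 437) (nat_lit 330) (nat_lit 253)) (XT.lf (nat_lit 0) (nat_lit 1110849760) (nat_lit 152) (nat_lit 5156735270) (nat_lit 76) (nat_lit 1459614163285) (nat_lit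 2) (nat_lit 5) (nat_lit 4) (nat_lit 5) (nat_lit 3) (nat_lit 4) (nat_lit 438) (nat_lit 330) (nat_lit 252))) (XT.nd (nat_lit 78) (nat_lit 532) (nat_lit 0) (XT.lf (nat_lit 0) (nat_lit 3587068751) (nat_lit 228) (nat_lit 427447377) (nat_lit 228) (nat_lit 427447377) (nat_lit 77) (nat_lit 4) (nat_lit 80) (nat_lit 5) (nat_lit 80) (nat_lit 4) (nat_lit 358) (nat_lit 331) (nat_lit 331)) (XT.lf (nat_lit 0) (nat_lit 1057477333) (nat_lit 228) (nat_lit 4777760379) (nat_lit 228) (nat_lit 3342954150) (nat_lit 70) (nat_lit 4) (nat_lit 73) (nat_lit 5) (nat_lit 73) (nat_lit 4) (nat_lit 359) (nat_lit 331) (nat_lit 330))))))))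
noncomputable def xc31 : XT := (XT.nd (nat_lit 2028) (nat_lit 1064) (nat_lit 0) (XT.nd (nat_lit 1014) (nat_lit 1292) (nat_lit 0) (XT.nd (nat_lit 468) (nat_lit 1216) (nat_lit 0) (XT.nd (nat_lit 234) (nat_lit 760) (nat_lit 0) (XT.nd (nat_lit 78) (nat_lit 456) (nat_lit 0) (XT.lf (nat_lit 0) (nat_lit 3307583949) (nat_lit 228) (nat_lit 5514993117) (nat_lit 0) (nat_lit 675840601) (nat_lit 67) (nat_lit 5) (nat_lit 70) (nat_lit 4) (nat_lit 67) (nat_lit 4) (nat_lit 360) (nat_lit 331) (nat_lit 329)) (XT.nd (nat_lit 78) (nat_lit 152) (nat_lit 0) (XT.lf (nat_lit 0) (nat_lit 444279658) (nat_lit 304) (nat_lit 2892508220) (nat_lit 76) (nat_lit 6507962910) (nat_lit 63) (nat_lit 5) (nat_lit 67) (nat_lit 5) (nat_lit 64) (nat_lit 4) (nat_lit 361) (nat_lit 331) (nat_lit 328)) (XT.lf (nat_lit 0) (nat_lit 7303127730) (nat_lit 228) (nat_lit 267367768) (nat_lit 0) (nat_lit 2647852411) (nat_lit 61) (nat_lit 5) (nat_lit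 64) (nat_lit 4) (nat_lit 61) (nat_lit 4) (nat_lit 362) (nat_lit 331) (nat_lit 327)))) (XT.nd (nat_lit 78) (nat_lit 380) (nat_lit 0) (XT.lf (nat_lit 0) (nat_lit 2451195515) (nat_lit 152) (nat_lit 1481998226) (nat_lit 228) (nat_lit 6686794945) (nat_lit 56) (nat_lit 5) (nat_lit 58) (nat_lit 5) (nat_lit 59) (nat_lit 4) (nat_lit 363) (nat_lit 331) (nat_lit 326)) (XT.nd (nat_lit 78) (nat_lit 152) (nat_lit 0) (XT.lf (nat_lit 0) (nat_lit 148171317) (nat_lit 228) (nat_lit 5884411167) (nat_lit 76) (nat_lit 5019855473) (nat_lit 53) (nat_lit 5) (nat_lit 56) (nat_lit 5) (nat_lit 54) (nat_lit 4) (nat_lit 364) (nat_lit 331) (nat_lit 325)) (XT.lf (nat_lit 0) (nat_lit 7239169691) (nat_lit 228) (nat_lit 3675927877) (nat_lit 0) (nat_lit 601817749) (nat_lit 51) (nat_lit 5) (nat_lit 54) (nat_lit 4) (nat_lit 51) (nat_lit 4) (nat_lit 365) (nat_lit 331) (nat_lit 324))))) (XT.nd (nat_lit 234) (nat_lit 608) (nat_lit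 0) (XT.nd (nat_lit 78) (nat_lit 380) (nat_lit 0) (XT.lf (nat_lit 0) (nat_lit 2809172807) (nat_lit 228) (nat_lit 1567310621) (nat_lit 76) (nat_lit 7638777179) (nat_lit 48) (nat_lit 5) (nat_lit 51) (nat_lit 5) (nat_lit 49) (nat_lit 4) (nat_lit 366) (nat_lit 331) (nat_lit 323)) (XT.nd (nat_lit 78) (nat_lit 152) (nat_lit 0) (XT.lf (nat_lit 0) (nat_lit 461511864) (nat_lit 152) (nat_lit 9836945188) (nat_lit 152) (nat_lit 2252318200) (nat_lit 45) (nat_lit 4) (nat_lit 47) (nat_lit 5) (nat_lit 47) (nat_lit 4) (nat_lit 367) (nat_lit 331) (nat_lit 322)) (XT.lf (nat_lit 0) (nat_lit 2372303784) (nat_lit 76) (nat_lit 2759069276) (nat_lit 152) (nat_lit 7991622269) (nat_lit 43) (nat_lit 5) (nat_lit 44) (nat_lit 5) (nat_lit 45) (nat_lit 4) (nat_lit 368) (nat_lit 331) (nat_lit 321)))) (XT.nd (nat_lit 156) (nat_lit 304) (nat_lit 0) (XT.nd (nat_lit 78) (nat_lit 152) (nat_lit 0) (XT.lf (nat_lit 0) (nat_lit 4119594176)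 (nat_lit 152) (nat_lit 8936566821) (nat_lit 152) (nat_lit 681579278) (nat_lit 41) (nat_lit 4) (nat_lit 43) (nat_lit 5) (nat_lit 43) (nat_lit 4) (nat_lit 369) (nat_lit 331) (nat_lit 320)) (XT.lf (nat_lit 0) (nat_lit 5617067584) (nat_lit 76) (nat_lit 1373785619) (nat_lit 152) (nat_lit 7404809895) (nat_lit 39) (nat_lit 5) (nat_lit 40) (nat_lit 5) (nat_lit 41) (nat_lit 4) (nat_lit 370) (nat_lit 331) (nat_lit 319))) (XT.nd (nat_lit 78) (nat_lit 76) (nat_lit 0) (XT.lf (nat_lit 0) (nat_lit 222752496) (nat_lit 228) (nat_lit 8247510772) (nat_lit 76) (nat_lit 6631331783) (nat_lit 36) (nat_lit 5) (nat_lit 39) (nat_lit 5) (nat_lit 37) (nat_lit 4) (nat_lit 371) (nat_lit 331) (nat_lit 318)) (XT.lf (nat_lit 0) (nat_lit 7748363568) (nat_lit 76) (nat_lit 460150994) (nat_lit 152) (nat_lit 7649088807) (nat_lit 35) (nat_lit 5) (nat_lit 36) (nat_lit 5) (nat_lit 37) (nat_lit 4) (nat_lit 372) (nat_lit 331) (nat_lit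 317)))))) (XT.nd (nat_lit 468) (nat_lit 532) (nat_lit 0) (XT.nd (nat_lit 234) (nat_lit 380) (nat_lit 0) (XT.nd (nat_lit 78) (nat_lit 152) (nat_lit 0) (XT.lf (nat_lit 0) (nat_lit 273078911) (nat_lit 228) (nat_lit 8417574903) (nat_lit 76) (nat_lit 7977395643) (nat_lit 32) (nat_lit 5) (nat_lit 35) (nat_lit 5) (nat_lit 33) (nat_lit 4) (nat_lit 373) (nat_lit 331) (nat_lit 316)) (XT.nd (nat_lit 78) (nat_lit 76) (nat_lit 0) (XT.lf (nat_lit 0) (nat_lit 8281760453) (nat_lit 76) (nat_lit 286673132) (nat_lit 152) (nat_lit 8968292572) (nat_lit 31) (nat_lit 5) (nat_lit 32) (nat_lit 5) (nat_lit 33) (nat_lit 4) (nat_lit 374) (nat_lit 331) (nat_lit 315)) (XT.lf (nat_lit 0) (nat_lit 7754912065) (nat_lit 76) (nat_lit 9912226413) (nat_lit 76) (nat_lit 800804545) (nat_lit 30) (nat_lit 4) (nat_lit 31) (nat_lit 5) (nat_lit 31) (nat_lit 4) (nat_lit 375) (nat_lit 331) (nat_lit 314)))) (XT.nd (nat_lit 78) (nat_lit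 228) (nat_lit 0) (XT.lf (nat_lit 0) (nat_lit 6577872377) (nat_lit 76) (nat_lit 1197377864) (nat_lit 152) (nat_lit 11691581502) (nat_lit 28) (nat_lit 5) (nat_lit 29) (nat_lit 5) (nat_lit 30) (nat_lit 4) (nat_lit 376) (nat_lit 331) (nat_lit 313)) (XT.nd (nat_lit 78) (nat_lit 152) (nat_lit 0) (XT.lf (nat_lit 0) (nat_lit 4623388332) (nat_lit 76) (nat_lit 12525342149) (nat_lit 76) (nat_lit 3389301040) (nat_lit 27) (nat_lit 4) (nat_lit 28) (nat_lit 5) (nat_lit 28) (nat_lit 4) (nat_lit 377) (nat_lit 331) (nat_lit 312)) (XT.lf (nat_lit 0) (nat_lit 1794389817) (nat_lit 76) (nat_lit 3637090036) (nat_lit 152) (nat_lit 16257475698) (nat_lit 25) (nat_lit 5) (nat_lit 26) (nat_lit 5) (nat_lit 27) (nat_lit 4) (nat_lit 378) (nat_lit 331) (nat_lit 311))))) (XT.nd (nat_lit 234) (nat_lit 304) (nat_lit 0) (XT.nd (nat_lit 78) (nat_lit 228) (nat_lit 0) (XT.lf (nat_lit 0) (nat_lit 14979811819) (nat_lit 152) (nat_lit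 2037901443) (nat_lit 0) (nat_lit 5904451882) (nat_lit 25) (nat_lit 5) (nat_lit 27) (nat_lit 4) (nat_lit 25) (nat_lit 4) (nat_lit 379) (nat_lit 331) (nat_lit 310)) (XT.nd (nat_lit 78) (nat_lit 76) (nat_lit 0) (XT.lf (nat_lit 0) (nat_lit 1120004154) (nat_lit 152) (nat_lit 6946004021) (nat_lit 76) (nat_lit 16181469568) (nat_lit 23) (nat_lit 5) (nat_lit 25) (nat_lit 5) (nat_lit 24) (nat_lit 4) (nat_lit 380) (nat_lit 331) (nat_lit 309)) (XT.lf (nat_lit 0) (nat_lit 10679126154) (nat_lit 152) (nat_lit 13260445208) (nat_lit 0) (nat_lit 1730249484) (nat_lit 22) (nat_lit 5) (nat_lit 24) (nat_lit 4) (nat_lit 22) (nat_lit 4) (nat_lit 381) (nat_lit 331) (nat_lit 308)))) (XT.nd (nat_lit 156) (nat_lit 152) (nat_lit 0) (XT.nd (nat_lit 78) (nat_lit 76) (nat_lit 0) (XT.lf (nat_lit 0) (nat_lit 6017852015) (nat_lit 76) (nat_lit 15132840282) (nat_lit 76) (nat_lit 6047889569) (nat_lit 21) (nat_lit 4) (nat_lit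 22) (nat_lit 5) (nat_lit 22) (nat_lit 4) (nat_lit 382) (nat_lit 331) (nat_lit 307)) (XT.lf (nat_lit 0) (nat_lit 3530364114) (nat_lit 152) (nat_lit 1973698762) (nat_lit 76) (nat_lit 23340997915) (nat_lit 20) (nat_lit 5) (nat_lit 22) (nat_lit 5) (nat_lit 21) (nat_lit 4) (nat_lit 383) (nat_lit 331) (nat_lit 306))) (XT.nd (nat_lit 78) (nat_lit 76) (nat_lit 0) (XT.lf (nat_lit 0) (nat_lit 13856907428) (nat_lit 152) (nat_lit 11778238218) (nat_lit 0) (nat_lit 4973472421) (nat_lit 19) (nat_lit 5) (nat_lit 21) (nat_lit 4) (nat_lit 19) (nat_lit 4) (nat_lit 384) (nat_lit 331) (nat_lit 305)) (XT.lf (nat_lit 0) (nat_lit 8693273126) (nat_lit 76) (nat_lit 16401036709) (nat_lit 76) (nat_lit 7414725547) (nat_lit 18) (nat_lit 4) (nat_lit 19) (nat_lit 5) (nat_lit 19) (nat_lit 4) (nat_lit 385) (nat_lit 331) (nat_lit 304))))))) (XT.nd (nat_lit 1014) (nat_lit 380) (nat_lit 0) (XT.nd (nat_lit 468) (nat_lit 304)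 (nat_lit 0) (XT.nd (nat_lit 234) (nat_lit 152) (nat_lit 0) (XT.nd (nat_lit 78) (nat_lit 152) (nat_lit 0) (XT.lf (nat_lit 0) (nat_lit 2618789764) (nat_lit 152) (nat_lit 3713047842) (nat_lit 76) (nat_lit 28225825418) (nat_lit 17) (nat_lit 5) (nat_lit 19) (nat_lit 5) (nat_lit 18) (nat_lit 4) (nat_lit 386) (nat_lit 331) (nat_lit 303)) (XT.nd (nat_lit 78) (nat_lit 76) (nat_lit 0) (XT.lf (nat_lit 0) (nat_lit 13396418345) (nat_lit 152) (nat_lit 18694327172) (nat_lit 0) (nat_lit 4663307315) (nat_lit 16) (nat_lit 5) (nat_lit 18) (nat_lit 4) (nat_lit 16) (nat_lit 4) (nat_lit 387) (nat_lit 331) (nat_lit 302)) (XT.lf (nat_lit 0) (nat_lit 2241497274) (nat_lit 76) (nat_lit 22846484080) (nat_lit 76) (nat_lit 14035595519) (nat_lit 15) (nat_lit 4) (nat_lit 16) (nat_lit 5) (nat_lit 16) (nat_lit 4) (nat_lit 388) (nat_lit 331) (nat_lit 301)))) (XT.nd (nat_lit 78) (nat_lit 152) (nat_lit 0) (XT.lf (nat_lit 0)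 (nat_lit 25226661430) (nat_lit 76) (nat_lit 12665036667) (nat_lit 76) (nat_lit 3782131872) (nat_lit 15) (nat_lit 4) (nat_lit 16) (nat_lit 5) (nat_lit 16) (nat_lit 4) (nat_lit 389) (nat_lit 331) (nat_lit 300)) (XT.nd (nat_lit 78) (nat_lit 0) (nat_lit 0) (XT.lf (nat_lit 0) (nat_lit 5405686253) (nat_lit 76) (nat_lit 1596885817) (nat_lit 152) (nat_lit 37422629666) (nat_lit 13) (nat_lit 5) (nat_lit 14) (nat_lit 5) (nat_lit 15) (nat_lit 4) (nat_lit 390) (nat_lit 331) (nat_lit 299)) (XT.lf (nat_lit 0) (nat_lit 18836371128) (nat_lit 152) (nat_lit 18287124472) (nat_lit 0) (nat_lit 10254153219) (nat_lit 13) (nat_lit 5) (nat_lit 15) (nat_lit 4) (nat_lit 13) (nat_lit 4) (nat_lit 391) (nat_lit 331) (nat_lit 298))))) (XT.nd (nat_lit 234) (nat_lit 152) (nat_lit 0) (XT.nd (nat_lit 78) (nat_lit 76) (nat_lit 0) (XT.lf (nat_lit 0) (nat_lit 3954719196) (nat_lit 76) (nat_lit 27625049311) (nat_lit 76) (nat_lit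 18988384918) (nat_lit 12) (nat_lit 4) (nat_lit 13) (nat_lit 5) (nat_lit 13) (nat_lit 4) (nat_lit 392) (nat_lit 331) (nat_lit 297)) (XT.nd (nat_lit 78) (nat_lit 76) (nat_lit 0) (XT.lf (nat_lit 0) (nat_lit 28390961772) (nat_lit 76) (nat_lit 17150050842) (nat_lit 76) (nat_lit 8462973038) (nat_lit 12) (nat_lit 4) (nat_lit 13) (nat_lit 5) (nat_lit 13) (nat_lit 4) (nat_lit 393) (nat_lit 331) (nat_lit 296)) (XT.lf (nat_lit 0) (nat_lit 2698407905) (nat_lit 152) (nat_lit 3202020681) (nat_lit 76) (nat_lit 51817648946) (nat_lit 11) (nat_lit 5) (nat_lit 13) (nat_lit 5) (nat_lit 12) (nat_lit 4) (nat_lit 394) (nat_lit 331) (nat_lit 295)))) (XT.nd (nat_lit 156) (nat_lit 76) (nat_lit 0) (XT.nd (nat_lit 78) (nat_lit 0) (nat_lit 0) (XT.lf (nat_lit 0) (nat_lit 14792290964) (nat_lit 152) (nat_lit 40480005134) (nat_lit 0) (nat_lit 6433264048) (nat_lit 10) (nat_lit 5) (nat_lit 12) (nat_lit 4) (nat_lit 10) (nat_lit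 4) (nat_lit 395) (nat_lit 331) (nat_lit 294)) (XT.lf (nat_lit 0) (nat_lit 27908265668) (nat_lit 152) (nat_lit 18589926522) (nat_lit 0) (nat_lit 19511124665) (nat_lit 10) (nat_lit 5) (nat_lit 12) (nat_lit 4) (nat_lit 10) (nat_lit 4) (nat_lit 396) (nat_lit 331) (nat_lit 293))) (XT.nd (nat_lit 78) (nat_lit 0) (nat_lit 0) (XT.lf (nat_lit 0) (nat_lit 5025207979) (nat_lit 76) (nat_lit 37032691543) (nat_lit 76) (nat_lit 28600259719) (nat_lit 9) (nat_lit 4) (nat_lit 10) (nat_lit 5) (nat_lit 10) (nat_lit 4) (nat_lit 397) (nat_lit 331) (nat_lit 292)) (XT.lf (nat_lit 0) (nat_lit 31014531372) (nat_lit 76) (nat_lit 26558896916) (nat_lit 76) (nat_lit 18093788407) (nat_lit 9) (nat_lit 4) (nat_lit 10) (nat_lit 5) (nat_lit 10) (nat_lit 4) (nat_lit 398) (nat_lit 331) (nat_lit 291)))))) (XT.nd (nat_lit 546) (nat_lit 152) (nat_lit 0) (XT.nd (nat_lit 234) (nat_lit 76) (nat_lit 0) (XT.nd (nat_lit 78) (nat_lit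 152) (nat_lit 0) (XT.lf (nat_lit 0) (nat_lit 58917387537) (nat_lit 76) (nat_lit 15329570780) (nat_lit 76) (nat_lit 6834206080) (nat_lit 9) (nat_lit 4) (nat_lit 10) (nat_lit 5) (nat_lit 10) (nat_lit 4) (nat_lit 399) (nat_lit 331) (nat_lit 290)) (XT.nd (nat_lit 78) (nat_lit 0) (nat_lit 0) (XT.lf (nat_lit 0) (nat_lit 1947480841) (nat_lit 76) (nat_lit 3160256003) (nat_lit 152) (nat_lit 81818733252) (nat_lit 7) (nat_lit 5) (nat_lit 8) (nat_lit 5) (nat_lit 9) (nat_lit 4) (nat_lit 400) (nat_lit 331) (nat_lit 289)) (XT.lf (nat_lit 0) (nat_lit 18241035748) (nat_lit 152) (nat_lit 64870167041) (nat_lit 0) (nat_lit 10098826702) (nat_lit 7) (nat_lit 5) (nat_lit 9) (nat_lit 4) (nat_lit 7) (nat_lit 4) (nat_lit 401) (nat_lit 331) (nat_lit 288)))) (XT.nd (nat_lit 156) (nat_lit 76) (nat_lit 0) (XT.nd (nat_lit 78) (nat_lit 0) (nat_lit 0) (XT.lf (nat_lit 0) (nat_lit 32407890442) (nat_lit 152) (nat_lit 43346434537)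 (nat_lit 0) (nat_lit 24242806787) (nat_lit 7) (nat_lit 5) (nat_lit 9) (nat_lit 4) (nat_lit 7) (nat_lit 4) (nat_lit 402) (nat_lit 331) (nat_lit 287)) (XT.lf (nat_lit 0) (nat_lit 47642912205) (nat_lit 152) (nat_lit 20230903246) (nat_lit 0) (nat_lit 39456648356) (nat_lit 7) (nat_lit 5) (nat_lit 9) (nat_lit 4) (nat_lit 7) (nat_lit 4) (nat_lit 403) (nat_lit 331) (nat_lit 286))) (XT.nd (nat_lit 78) (nat_lit 0) (nat_lit 0) (XT.lf (nat_lit 0) (nat_lit 4765947851) (nat_lit 76) (nat_lit 59344844599) (nat_lit 76) (nat_lit 51138969459) (nat_lit 6) (nat_lit 4) (nat_lit 7) (nat_lit 5) (nat_lit 7) (nat_lit 4) (nat_lit 404) (nat_lit 331) (nat_lit 285)) (XT.lf (nat_lit 0) (nat_lit 32369758441) (nat_lit 76) (nat_lit 49821072465) (nat_lit 76) (nat_lit 41597038723) (nat_lit 6) (nat_lit 4) (nat_lit 7) (nat_lit 5) (nat_lit 7) (nat_lit 4) (nat_lit 405) (nat_lit 331) (nat_lit 284))))) (XT.nd (nat_lit 234) (nat_lit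 152) (nat_lit 0) (XT.nd (nat_lit 78) (nat_lit 0) (nat_lit 0) (XT.lf (nat_lit 0) (nat_lit 62075181633) (nat_lit 76) (nat_lit 39588682018) (nat_lit 76) (nat_lit 31347834756) (nat_lit 6) (nat_lit 4) (nat_lit 7) (nat_lit 5) (nat_lit 7) (nat_lit 4) (nat_lit 406) (nat_lit 331) (nat_lit 283)) (XT.nd (nat_lit 78) (nat_lit 0) (nat_lit 0) (XT.lf (nat_lit 0) (nat_lit 94058249564) (nat_lit 76) (nat_lit 28587036870) (nat_lit 76) (nat_lit 20330621533) (nat_lit 6) (nat_lit 4) (nat_lit 7) (nat_lit 5) (nat_lit 7) (nat_lit 4) (nat_lit 407) (nat_lit 331) (nat_lit 282)) (XT.lf (nat_lit 0) (nat_lit 128508491527) (nat_lit 76) (nat_lit 16750942087) (nat_lit 76) (nat_lit 8480111866) (nat_lit 6) (nat_lit 4) (nat_lit 7) (nat_lit 5) (nat_lit 7) (nat_lit 4) (nat_lit 408) (nat_lit 331) (nat_lit 281)))) (XT.nd (nat_lit 156) (nat_lit 0) (nat_lit 0) (XT.nd (nat_lit 78) (nat_lit 0) (nat_lit 0) (XT.lf (nat_lit 0) (nat_lit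 203445298) (nat_lit 76) (nat_lit 3936858425) (nat_lit 152) (nat_lit 161222596529) (nat_lit 4) (nat_lit 5) (nat_lit 5) (nat_lit 5) (nat_lit 6) (nat_lit 4) (nat_lit 409) (nat_lit 331) (nat_lit 280)) (XT.lf (nat_lit 0) (nat_lit 18036708588) (nat_lit 152) (nat_lit 149709046469) (nat_lit 0) (nat_lit 10135245945) (nat_lit 4) (nat_lit 5) (nat_lit 6) (nat_lit 4) (nat_lit 4) (nat_lit 4) (nat_lit 410) (nat_lit 331) (nat_lit 279))) (XT.nd (nat_lit 78) (nat_lit 0) (nat_lit 0) (XT.lf (nat_lit 0) (nat_lit 33072475766) (nat_lit 152) (nat_lit 133166577820) (nat_lit 0) (nat_lit 25160115028) (nat_lit 4) (nat_lit 5) (nat_lit 6) (nat_lit 4) (nat_lit 4) (nat_lit 4) (nat_lit 411) (nat_lit 331) (nat_lit 278)) (XT.lf (nat_lit 0) (nat_lit 49275240705) (nat_lit 152) (nat_lit 115372554171) (nat_lit 0) (nat_lit 41352789139) (nat_lit 4) (nat_lit 5) (nat_lit 6) (nat_lit 4) (nat_lit 4) (nat_lit 4) (nat_lit 412) (nat_lit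 331) (nat_lit 277))))))))
noncomputable def xc32 : XT := (XT.nd (nat_lit 48672) (nat_lit 0) (nat_lit 1520) (XT.nd (nat_lit 1014) (nat_lit 0) (nat_lit 0) (XT.nd (nat_lit 468) (nat_lit 0) (nat_lit 0) (XT.nd (nat_lit 234) (nat_lit 76) (nat_lit 0) (XT.nd (nat_lit 78) (nat_lit 0) (nat_lit 0) (XT.lf (nat_lit 0) (nat_lit 66741019791) (nat_lit 152) (nat_lit 96221529457) (nat_lit 0) (nat_lit 58809224865) (nat_lit 4) (nat_lit 5) (nat_lit 6) (nat_lit 4) (nat_lit 4) (nat_lit 4) (nat_lit 413) (nat_lit 331) (nat_lit 276)) (XT.nd (nat_lit 78) (nat_lit 0) (nat_lit 0) (XT.lf (nat_lit 0) (nat_lit 85573313937) (nat_lit 152) (nat_lit 75600016122) (nat_lit 0) (nat_lit 77632867751) (nat_lit 4) (nat_lit 5) (nat_lit 6) (nat_lit 4) (nat_lit 4) (nat_lit 4) (nat_lit 414) (nat_lit 331) (nat_lit 275)) (XT.lf (nat_lit 0) (nat_lit 105883721922) (nat_lit 152) (nat_lit 53385812608) (nat_lit 0) (nat_lit 97935265311) (nat_lit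 4) (nat_lit 5) (nat_lit 6) (nat_lit 4) (nat_lit 4) (nat_lit 4) (nat_lit 415) (nat_lit 331) (nat_lit 274)))) (XT.nd (nat_lit 78) (nat_lit 76) (nat_lit 0) (XT.lf (nat_lit 0) (nat_lit 127792601721) (nat_lit 152) (nat_lit 29447279189) (nat_lit 0) (nat_lit 119836728050) (nat_lit 4) (nat_lit 5) (nat_lit 6) (nat_lit 4) (nat_lit 4) (nat_lit 4) (nat_lit 416) (nat_lit 331) (nat_lit 273)) (XT.nd (nat_lit 78) (nat_lit 76) (nat_lit 0) (XT.lf (nat_lit 0) (nat_lit 151429783731) (nat_lit 152) (nat_lit 3642557889) (nat_lit 0) (nat_lit 143467042412) (nat_lit 4) (nat_lit 5) (nat_lit 6) (nat_lit 4) (nat_lit 4) (nat_lit 4) (nat_lit 417) (nat_lit 331) (nat_lit 272)) (XT.lf (nat_lit 0) (nat_lit 24980810089) (nat_lit 76) (nat_lit 152344550508) (nat_lit 76) (nat_lit 144375450255) (nat_lit 3) (nat_lit 4) (nat_lit 4) (nat_lit 5) (nat_lit 4) (nat_lit 4) (nat_lit 418) (nat_lit 331) (nat_lit 271))))) (XT.nd (nat_lit 234)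 (nat_lit 0) (nat_lit 0) (XT.nd (nat_lit 78) (nat_lit 0) (nat_lit 0) (XT.lf (nat_lit 0) (nat_lit 55980816623) (nat_lit 76) (nat_lit 149353615804) (nat_lit 76) (nat_lit 141378627650) (nat_lit 3) (nat_lit 4) (nat_lit 4) (nat_lit 5) (nat_lit 4) (nat_lit 4) (nat_lit 419) (nat_lit 331) (nat_lit 270)) (XT.nd (nat_lit 78) (nat_lit 0) (nat_lit 0) (XT.lf (nat_lit 0) (nat_lit 89420726043) (nat_lit 76) (nat_lit 146143501932) (nat_lit 76) (nat_lit 138163062017) (nat_lit 3) (nat_lit 4) (nat_lit 4) (nat_lit 5) (nat_lit 4) (nat_lit 4) (nat_lit 420) (nat_lit 331) (nat_lit 269)) (XT.lf (nat_lit 0) (nat_lit 125498700774) (nat_lit 76) (nat_lit 142695185993) (nat_lit 76) (nat_lit 134709698152) (nat_lit 3) (nat_lit 4) (nat_lit 4) (nat_lit 5) (nat_lit 4) (nat_lit 4) (nat_lit 421) (nat_lit 331) (nat_lit 268)))) (XT.nd (nat_lit 156) (nat_lit 0) (nat_lit 0) (XT.nd (nat_lit 78) (nat_lit 0) (nat_lit 0) (XT.lf (nat_lit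 0) (nat_lit 164428536221) (nat_lit 76) (nat_lit 138988233525) (nat_lit 76) (nat_lit 130998071677) (nat_lit 3) (nat_lit 4) (nat_lit 4) (nat_lit 5) (nat_lit 4) (nat_lit 4) (nat_lit 422) (nat_lit 331) (nat_lit 267)) (XT.lf (nat_lit 0) (nat_lit 206440927707) (nat_lit 76) (nat_lit 135000677399) (nat_lit 76) (nat_lit 127006187768) (nat_lit 3) (nat_lit 4) (nat_lit 4) (nat_lit 5) (nat_lit 4) (nat_lit 4) (nat_lit 423) (nat_lit 331) (nat_lit 266))) (XT.nd (nat_lit 78) (nat_lit 0) (nat_lit 0) (XT.lf (nat_lit 0) (nat_lit 251784837551) (nat_lit 76) (nat_lit 130708887655) (nat_lit 76) (nat_lit 122710390817) (nat_lit 3) (nat_lit 4) (nat_lit 4) (nat_lit 5) (nat_lit 4) (nat_lit 4) (nat_lit 424) (nat_lit 331) (nat_lit 265)) (XT.lf (nat_lit 0) (nat_lit 300728970403) (nat_lit 76) (nat_lit 126087431465) (nat_lit 76) (nat_lit 118085224250) (nat_lit 3) (nat_lit 4) (nat_lit 4) (nat_lit 5) (nat_lit 4) (nat_lit 4)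 (nat_lit 425) (nat_lit 331) (nat_lit 264)))))) (XT.nd (nat_lit 468) (nat_lit 0) (nat_lit 0) (XT.nd (nat_lit 234) (nat_lit 0) (nat_lit 0) (XT.nd (nat_lit 78) (nat_lit 0) (nat_lit 0) (XT.lf (nat_lit 0) (nat_lit 353563365570) (nat_lit 76) (nat_lit 121108922421) (nat_lit 76) (nat_lit 113103279672) (nat_lit 3) (nat_lit 4) (nat_lit 4) (nat_lit 5) (nat_lit 4) (nat_lit 4) (nat_lit 426) (nat_lit 331) (nat_lit 263)) (XT.nd (nat_lit 78) (nat_lit 0) (nat_lit 0) (XT.lf (nat_lit 0) (nat_lit 410601115764) (nat_lit 76) (nat_lit 115743858247) (nat_lit 76) (nat_lit 107735034448) (nat_lit 3) (nat_lit 4) (nat_lit 4) (nat_lit 5) (nat_lit 4) (nat_lit 4) (nat_lit 427) (nat_lit 331) (nat_lit 262)) (XT.lf (nat_lit 0) (nat_lit 472180222468) (nat_lit 76) (nat_lit 109960445971) (nat_lit 76) (nat_lit 101948676755) (nat_lit 3) (nat_lit 4) (nat_lit 4) (nat_lit 5) (nat_lit 4) (nat_lit 4) (nat_lit 428) (nat_lit 331) (nat_lit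 261)))) (XT.nd (nat_lit 78) (nat_lit 0) (nat_lit 0) (XT.lf (nat_lit 0) (nat_lit 538665598905) (nat_lit 76) (nat_lit 103724413519) (nat_lit 76) (nat_lit 95709917066) (nat_lit 3) (nat_lit 4) (nat_lit 4) (nat_lit 5) (nat_lit 4) (nat_lit 4) (nat_lit 429) (nat_lit 331) (nat_lit 260)) (XT.nd (nat_lit 78) (nat_lit 0) (nat_lit 0) (XT.lf (nat_lit 0) (nat_lit 610451232493) (nat_lit 76) (nat_lit 96998806626) (nat_lit 76) (nat_lit 88981784953) (nat_lit 3) (nat_lit 4) (nat_lit 4) (nat_lit 5) (nat_lit 4) (nat_lit 4) (nat_lit 430) (nat_lit 331) (nat_lit 259)) (XT.lf (nat_lit 0) (nat_lit 687962519579) (nat_lit 76) (nat_lit 89743769844) (nat_lit 76) (nat_lit 81724410004) (nat_lit 3) (nat_lit 4) (nat_lit 4) (nat_lit 5) (nat_lit 4) (nat_lit 4) (nat_lit 431) (nat_lit 331) (nat_lit 258))))) (XT.nd (nat_lit 234) (nat_lit 0) (nat_lit 0) (XT.nd (nat_lit 78) (nat_lit 0) (nat_lit 0) (XT.lf (nat_lit 0) (nat_lit 771658786307)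 (nat_lit 76) (nat_lit 81916310361) (nat_lit 76) (nat_lit 73894785551) (nat_lit 3) (nat_lit 4) (nat_lit 4) (nat_lit 5) (nat_lit 4) (nat_lit 4) (nat_lit 432) (nat_lit 331) (nat_lit 257)) (XT.nd (nat_lit 78) (nat_lit 0) (nat_lit 0) (XT.lf (nat_lit 0) (nat_lit 862036010556) (nat_lit 76) (nat_lit 73470043232) (nat_lit 76) (nat_lit 65446513822) (nat_lit 3) (nat_lit 4) (nat_lit 4) (nat_lit 5) (nat_lit 4) (nat_lit 4) (nat_lit 433) (nat_lit 331) (nat_lit 256)) (XT.lf (nat_lit 0) (nat_lit 959629761061) (nat_lit 76) (nat_lit 64354916505) (nat_lit 76) (nat_lit 56329530982) (nat_lit 3) (nat_lit 4) (nat_lit 4) (nat_lit 5) (nat_lit 4) (nat_lit 4) (nat_lit 434) (nat_lit 331) (nat_lit 255)))) (XT.nd (nat_lit 156) (nat_lit 0) (nat_lit 0) (XT.nd (nat_lit 78) (nat_lit 0) (nat_lit 0) (XT.lf (nat_lit 0) (nat_lit 1065018371158) (nat_lit 76) (nat_lit 54516914613) (nat_lit 76) (nat_lit 46489810468) (nat_lit 3) (nat_lit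 4) (nat_lit 4) (nat_lit 5) (nat_lit 4) (nat_lit 4) (nat_lit 435) (nat_lit 331) (nat_lit 254)) (XT.lf (nat_lit 0) (nat_lit 1178826365945) (nat_lit 76) (nat_lit 43897738286) (nat_lit 76) (nat_lit 35869042824) (nat_lit 3) (nat_lit 4) (nat_lit 4) (nat_lit 5) (nat_lit 4) (nat_lit 4) (nat_lit 436) (nat_lit 331) (nat_lit 253))) (XT.nd (nat_lit 78) (nat_lit 0) (nat_lit 0) (XT.lf (nat_lit 0) (nat_lit 1301728163169) (nat_lit 76) (nat_lit 32434459071) (nat_lit 76) (nat_lit 24404290168) (nat_lit 3) (nat_lit 4) (nat_lit 4) (nat_lit 5) (nat_lit 4) (nat_lit 4) (nat_lit 437) (nat_lit 331) (nat_lit 252)) (XT.lf (nat_lit 0) (nat_lit 1434452069775) (nat_lit 76) (nat_lit 20059146426) (nat_lit 76) (nat_lit 12027613225) (nat_lit 3) (nat_lit 4) (nat_lit 4) (nat_lit 5) (nat_lit 4) (nat_lit 4) (nat_lit 438) (nat_lit 331) (nat_lit 251))))))) (XT.nd (nat_lit 1014) (nat_lit 1596) (nat_lit 0) (XT.nd (nat_lit 468) (nat_lit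 1444) (nat_lit 0) (XT.nd (nat_lit 234) (nat_lit 988) (nat_lit 0) (XT.nd (nat_lit 78) (nat_lit 608) (nat_lit 0) (XT.lf (nat_lit 0) (nat_lit 815617780) (nat_lit 304) (nat_lit 1680610626) (nat_lit 304) (nat_lit 1680610626) (nat_lit 84) (nat_lit 4) (nat_lit 88) (nat_lit 5) (nat_lit 88) (nat_lit 4) (nat_lit 356) (nat_lit 332) (nat_lit 332)) (XT.nd (nat_lit 78) (nat_lit 304) (nat_lit 0) (XT.lf (nat_lit 0) (nat_lit 2916439547) (nat_lit 304) (nat_lit 4405940620) (nat_lit 0) (nat_lit 1289369283) (nat_lit 80) (nat_lit 5) (nat_lit 84) (nat_lit 4) (nat_lit 80) (nat_lit 4) (nat_lit 357) (nat_lit 332) (nat_lit 331)) (XT.lf (nat_lit 0) (nat_lit 543504177) (nat_lit 304) (nat_lit 2019433240) (nat_lit 76) (nat_lit 6330666720) (nat_lit 76) (nat_lit 5) (nat_lit 80) (nat_lit 5) (nat_lit 77) (nat_lit 4) (nat_lit 358) (nat_lit 332) (nat_lit 330)))) (XT.nd (nat_lit 78) (nat_lit 532) (nat_lit 0) (XT.lf (nat_lit 0)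 (nat_lit 427952375) (nat_lit 228) (nat_lit 6542030537) (nat_lit 228) (nat_lit 2229109294) (nat_lit 70) (nat_lit 4) (nat_lit 73) (nat_lit 5) (nat_lit 73) (nat_lit 4) (nat_lit 359) (nat_lit 332) (nat_lit 329)) (XT.nd (nat_lit 78) (nat_lit 304) (nat_lit 0) (XT.lf (nat_lit 0) (nat_lit 3008987615) (nat_lit 152) (nat_lit 1162731379) (nat_lit 228) (nat_lit 5357499508) (nat_lit 67) (nat_lit 5) (nat_lit 69) (nat_lit 5) (nat_lit 70) (nat_lit 4) (nat_lit 360) (nat_lit 332) (nat_lit 328)) (XT.lf (nat_lit 0) (nat_lit 1029054353) (nat_lit 304) (nat_lit 4254278354) (nat_lit 76) (nat_lit 4602721858) (nat_lit 63) (nat_lit 5) (nat_lit 67) (nat_lit 5) (nat_lit 64) (nat_lit 4) (nat_lit 361) (nat_lit 332) (nat_lit 327))))) (XT.nd (nat_lit 234) (nat_lit 760) (nat_lit 0) (XT.nd (nat_lit 78) (nat_lit 532) (nat_lit 0) (XT.lf (nat_lit 0) (nat_lit 7655705794) (nat_lit 228) (nat_lit 1977280772) (nat_lit 0) (nat_lit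 638329668) (nat_lit 61) (nat_lit 5) (nat_lit 64) (nat_lit 4) (nat_lit 61) (nat_lit 4) (nat_lit 362) (nat_lit 332) (nat_lit 326)) (XT.nd (nat_lit 78) (nat_lit 152) (nat_lit 0) (XT.lf (nat_lit 0) (nat_lit 271839052) (nat_lit 152) (nat_lit 3715933634) (nat_lit 228) (nat_lit 6696770760) (nat_lit 56) (nat_lit 5) (nat_lit 58) (nat_lit 5) (nat_lit 59) (nat_lit 4) (nat_lit 363) (nat_lit 332) (nat_lit 325)) (XT.lf (nat_lit 0) (nat_lit 2600423615) (nat_lit 152) (nat_lit 8418310590) (nat_lit 152) (nat_lit 110496319) (nat_lit 54) (nat_lit 4) (nat_lit 56) (nat_lit 5) (nat_lit 56) (nat_lit 4) (nat_lit 364) (nat_lit 332) (nat_lit 324)))) (XT.nd (nat_lit 156) (nat_lit 304) (nat_lit 0) (XT.nd (nat_lit 78) (nat_lit 228) (nat_lit 0) (XT.lf (nat_lit 0) (nat_lit 4840071509) (nat_lit 152) (nat_lit 1926312326) (nat_lit 228) (nat_lit 4838332444) (nat_lit 51) (nat_lit 5) (nat_lit 53) (nat_lit 5) (nat_lit 54) (nat_lit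 4) (nat_lit 365) (nat_lit 332) (nat_lit 323)) (XT.lf (nat_lit 0) (nat_lit 2024130169) (nat_lit 228) (nat_lit 5089243615) (nat_lit 76) (nat_lit 5002280050) (nat_lit 48) (nat_lit 5) (nat_lit 51) (nat_lit 5) (nat_lit 49) (nat_lit 4) (nat_lit 366) (nat_lit 332) (nat_lit 322))) (XT.nd (nat_lit 78) (nat_lit 228) (nat_lit 0) (XT.lf (nat_lit 0) (nat_lit 9137076305) (nat_lit 76) (nat_lit 114772461) (nat_lit 152) (nat_lit 3412430164) (nat_lit 47) (nat_lit 5) (nat_lit 48) (nat_lit 5) (nat_lit 49) (nat_lit 4) (nat_lit 367) (nat_lit 332) (nat_lit 321)) (XT.lf (nat_lit 0) (nat_lit 3761031942) (nat_lit 228) (nat_lit 2171766320) (nat_lit 76) (nat_lit 7317002742) (nat_lit 44) (nat_lit 5) (nat_lit 47) (nat_lit 5) (nat_lit 45) (nat_lit 4) (nat_lit 368) (nat_lit 332) (nat_lit 320)))))) (XT.nd (nat_lit 468) (nat_lit 608) (nat_lit 0) (XT.nd (nat_lit 234) (nat_lit 456) (nat_lit 0) (XT.nd (nat_lit 78) (nat_lit 456)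 (nat_lit 0) (XT.lf (nat_lit 0) (nat_lit 11391062031) (nat_lit 152) (nat_lit 967695988) (nat_lit 0) (nat_lit 1520552088) (nat_lit 43) (nat_lit 5) (nat_lit 45) (nat_lit 4) (nat_lit 43) (nat_lit 4) (nat_lit 369) (nat_lit 332) (nat_lit 319)) (XT.nd (nat_lit 78) (nat_lit 228) (nat_lit 0) (XT.lf (nat_lit 0) (nat_lit 4997730539) (nat_lit 228) (nat_lit 50341912) (nat_lit 76) (nat_lit 9502807929) (nat_lit 40) (nat_lit 5) (nat_lit 43) (nat_lit 5) (nat_lit 41) (nat_lit 4) (nat_lit 370) (nat_lit 332) (nat_lit 318)) (XT.lf (nat_lit 0) (nat_lit 643592984) (nat_lit 152) (nat_lit 12404163783) (nat_lit 152) (nat_lit 2223807298) (nat_lit 37) (nat_lit 4) (nat_lit 39) (nat_lit 5) (nat_lit 39) (nat_lit 4) (nat_lit 371) (nat_lit 332) (nat_lit 317)))) (XT.nd (nat_lit 78) (nat_lit 304) (nat_lit 0) (XT.lf (nat_lit 0) (nat_lit 942813138) (nat_lit 76) (nat_lit 4652471906) (nat_lit 152) (nat_lit 10445934519) (nat_lit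 35) (nat_lit 5) (nat_lit 36) (nat_lit 5) (nat_lit 37) (nat_lit 4) (nat_lit 372) (nat_lit 332) (nat_lit 316)) (XT.nd (nat_lit 78) (nat_lit 152) (nat_lit 0) (XT.lf (nat_lit 0) (nat_lit 858541998) (nat_lit 152) (nat_lit 13170558098) (nat_lit 152) (nat_lit 2838205700) (nat_lit 33) (nat_lit 4) (nat_lit 35) (nat_lit 5) (nat_lit 35) (nat_lit 4) (nat_lit 373) (nat_lit 332) (nat_lit 315)) (XT.lf (nat_lit 0) (nat_lit 247809921) (nat_lit 76) (nat_lit 5051520265) (nat_lit 152) (nat_lit 12451316327) (nat_lit 31) (nat_lit 5) (nat_lit 32) (nat_lit 5) (nat_lit 33) (nat_lit 4) (nat_lit 374) (nat_lit 332) (nat_lit 314))))) (XT.nd (nat_lit 234) (nat_lit 380) (nat_lit 0) (XT.nd (nat_lit 78) (nat_lit 228) (nat_lit 0) (XT.lf (nat_lit 0) (nat_lit 14083434946) (nat_lit 152) (nat_lit 891008408) (nat_lit 0) (nat_lit 3723164329) (nat_lit 31) (nat_lit 5) (nat_lit 33) (nat_lit 4) (nat_lit 31) (nat_lit 4) (nat_lit 375)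 (nat_lit 332) (nat_lit 313)) (XT.nd (nat_lit 78) (nat_lit 76) (nat_lit 0) (XT.lf (nat_lit 0) (nat_lit 3851096048) (nat_lit 152) (nat_lit 2696976265) (nat_lit 76) (nat_lit 13163055447) (nat_lit 29) (nat_lit 5) (nat_lit 31) (nat_lit 5) (nat_lit 30) (nat_lit 4) (nat_lit 376) (nat_lit 332) (nat_lit 312)) (XT.lf (nat_lit 0) (nat_lit 12912866250) (nat_lit 152) (nat_lit 5263650383) (nat_lit 0) (nat_lit 2621408081) (nat_lit 28) (nat_lit 5) (nat_lit 30) (nat_lit 4) (nat_lit 28) (nat_lit 4) (nat_lit 377) (nat_lit 332) (nat_lit 311)))) (XT.nd (nat_lit 156) (nat_lit 152) (nat_lit 0) (XT.nd (nat_lit 78) (nat_lit 76) (nat_lit 0) (XT.lf (nat_lit 0) (nat_lit 856878049) (nat_lit 152) (nat_lit 8723842217) (nat_lit 76) (nat_lit 12382785177) (nat_lit 26) (nat_lit 5) (nat_lit 28) (nat_lit 5) (nat_lit 27) (nat_lit 4) (nat_lit 378) (nat_lit 332) (nat_lit 310)) (XT.lf (nat_lit 0) (nat_lit 9979413356) (nat_lit 76)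 (nat_lit 86362647) (nat_lit 152) (nat_lit 13147920267) (nat_lit 25) (nat_lit 5) (nat_lit 26) (nat_lit 5) (nat_lit 27) (nat_lit 4) (nat_lit 379) (nat_lit 332) (nat_lit 309))) (XT.nd (nat_lit 78) (nat_lit 76) (nat_lit 0) (XT.lf (nat_lit 0) (nat_lit 5562153478) (nat_lit 76) (nat_lit 14647103886) (nat_lit 76) (nat_lit 4344769777) (nat_lit 24) (nat_lit 4) (nat_lit 25) (nat_lit 5) (nat_lit 25) (nat_lit 4) (nat_lit 380) (nat_lit 332) (nat_lit 308)) (XT.lf (nat_lit 0) (nat_lit 5036985189) (nat_lit 152) (nat_lit 119392215) (nat_lit 76) (nat_lit 20839213665) (nat_lit 23) (nat_lit 5) (nat_lit 25) (nat_lit 5) (nat_lit 24) (nat_lit 4) (nat_lit 381) (nat_lit 332) (nat_lit 307))))))))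
noncomputable def xc33 : XT := (XT.nd (nat_lit 2028) (nat_lit 228) (nat_lit 0) (XT.nd (nat_lit 1014) (nat_lit 456) (nat_lit 0) (XT.nd (nat_lit 468) (nat_lit 304) (nat_lit 0) (XT.nd (nat_lit 234) (nat_lit 228) (nat_lit 0) (XT.nd (nat_lit 78) (nat_lit 228) (nat_lit 0) (XT.lf (nat_lit 0) (nat_lit 15240774778) (nat_lit 152) (nat_lit 7130013866) (nat_lit 0) (nat_lit 5166959481) (nat_lit 22) (nat_lit 5) (nat_lit 24) (nat_lit 4) (nat_lit 22) (nat_lit 4) (nat_lit 382) (nat_lit 332) (nat_lit 306)) (XT.nd (nat_lit 78) (nat_lit 152) (nat_lit 0) (XT.lf (nat_lit 0) (nat_lit 13378023437) (nat_lit 76) (nat_lit 13004823049) (nat_lit 76) (nat_lit 2814346192) (nat_lit 21) (nat_lit 4) (nat_lit 22) (nat_lit 5) (nat_lit 22) (nat_lit 4) (nat_lit 383) (nat_lit 332) (nat_lit 305)) (XT.lf (nat_lit 0) (nat_lit 4491781855) (nat_lit 76) (nat_lit 2722988229) (nat_lit 152) (nat_lit 23767557930) (nat_lit 19) (nat_lit 5)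 (nat_lit 20) (nat_lit 5) (nat_lit 21) (nat_lit 4) (nat_lit 384) (nat_lit 332) (nat_lit 304)))) (XT.nd (nat_lit 78) (nat_lit 228) (nat_lit 0) (XT.lf (nat_lit 0) (nat_lit 18194363812) (nat_lit 152) (nat_lit 6410261496) (nat_lit 0) (nat_lit 8291015904) (nat_lit 19) (nat_lit 5) (nat_lit 21) (nat_lit 4) (nat_lit 19) (nat_lit 4) (nat_lit 385) (nat_lit 332) (nat_lit 303)) (XT.nd (nat_lit 78) (nat_lit 152) (nat_lit 0) (XT.lf (nat_lit 0) (nat_lit 15424735598) (nat_lit 76) (nat_lit 14761083641) (nat_lit 76) (nat_lit 4769536012) (nat_lit 18) (nat_lit 4) (nat_lit 19) (nat_lit 5) (nat_lit 19) (nat_lit 4) (nat_lit 386) (nat_lit 332) (nat_lit 302)) (XT.lf (nat_lit 0) (nat_lit 1730330060) (nat_lit 76) (nat_lit 4027496328) (nat_lit 152) (nat_lit 31417792467) (nat_lit 16) (nat_lit 5) (nat_lit 17) (nat_lit 5) (nat_lit 18) (nat_lit 4) (nat_lit 387) (nat_lit 332) (nat_lit 301))))) (XT.nd (nat_lit 234) (nat_lit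 228) (nat_lit 0) (XT.nd (nat_lit 78) (nat_lit 76) (nat_lit 0) (XT.lf (nat_lit 0) (nat_lit 17282167456) (nat_lit 152) (nat_lit 14654726611) (nat_lit 0) (nat_lit 7616614044) (nat_lit 16) (nat_lit 5) (nat_lit 18) (nat_lit 4) (nat_lit 16) (nat_lit 4) (nat_lit 388) (nat_lit 332) (nat_lit 300)) (XT.nd (nat_lit 78) (nat_lit 0) (nat_lit 0) (XT.lf (nat_lit 0) (nat_lit 7715413059) (nat_lit 76) (nat_lit 22067858844) (nat_lit 76) (nat_lit 12335623735) (nat_lit 15) (nat_lit 4) (nat_lit 16) (nat_lit 5) (nat_lit 16) (nat_lit 4) (nat_lit 389) (nat_lit 332) (nat_lit 299)) (XT.lf (nat_lit 0) (nat_lit 32147198051) (nat_lit 76) (nat_lit 11264958153) (nat_lit 76) (nat_lit 1470980732) (nat_lit 15) (nat_lit 4) (nat_lit 16) (nat_lit 5) (nat_lit 16) (nat_lit 4) (nat_lit 390) (nat_lit 332) (nat_lit 298)))) (XT.nd (nat_lit 156) (nat_lit 76) (nat_lit 0) (XT.nd (nat_lit 78) (nat_lit 0) (nat_lit 0) (XT.lf (nat_lit 0)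 (nat_lit 9989697949) (nat_lit 152) (nat_lit 37260393616) (nat_lit 0) (nat_lit 607653922) (nat_lit 13) (nat_lit 5) (nat_lit 15) (nat_lit 4) (nat_lit 13) (nat_lit 4) (nat_lit 391) (nat_lit 332) (nat_lit 297)) (XT.lf (nat_lit 0) (nat_lit 22615360934) (nat_lit 152) (nat_lit 15255875268) (nat_lit 0) (nat_lit 13182903495) (nat_lit 13) (nat_lit 5) (nat_lit 15) (nat_lit 4) (nat_lit 13) (nat_lit 4) (nat_lit 392) (nat_lit 332) (nat_lit 296))) (XT.nd (nat_lit 78) (nat_lit 0) (nat_lit 0) (XT.lf (nat_lit 0) (nat_lit 8570002606) (nat_lit 76) (nat_lit 27707043235) (nat_lit 76) (nat_lit 18227906713) (nat_lit 12) (nat_lit 4) (nat_lit 13) (nat_lit 5) (nat_lit 13) (nat_lit 4) (nat_lit 393) (nat_lit 332) (nat_lit 295)) (XT.lf (nat_lit 0) (nat_lit 34642707116) (nat_lit 76) (nat_lit 16551675261) (nat_lit 76) (nat_lit 7029317364) (nat_lit 12) (nat_lit 4) (nat_lit 13) (nat_lit 5) (nat_lit 13) (nat_lit 4) (nat_lit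 394) (nat_lit 332) (nat_lit 294)))))) (XT.nd (nat_lit 468) (nat_lit 228) (nat_lit 0) (XT.nd (nat_lit 234) (nat_lit 76) (nat_lit 0) (XT.nd (nat_lit 78) (nat_lit 0) (nat_lit 0) (XT.lf (nat_lit 0) (nat_lit 299667531) (nat_lit 76) (nat_lit 4511086234) (nat_lit 152) (nat_lit 57429857837) (nat_lit 10) (nat_lit 5) (nat_lit 11) (nat_lit 5) (nat_lit 12) (nat_lit 4) (nat_lit 395) (nat_lit 332) (nat_lit 293)) (XT.nd (nat_lit 78) (nat_lit 0) (nat_lit 0) (XT.lf (nat_lit 0) (nat_lit 17811068729) (nat_lit 152) (nat_lit 40070333048) (nat_lit 0) (nat_lit 8668751539) (nat_lit 10) (nat_lit 5) (nat_lit 12) (nat_lit 4) (nat_lit 10) (nat_lit 4) (nat_lit 396) (nat_lit 332) (nat_lit 292)) (XT.lf (nat_lit 0) (nat_lit 31840366262) (nat_lit 152) (nat_lit 16699275739) (nat_lit 0) (nat_lit 22665372386) (nat_lit 10) (nat_lit 5) (nat_lit 12) (nat_lit 4) (nat_lit 10) (nat_lit 4) (nat_lit 397) (nat_lit 332) (nat_lit 291))))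 (XT.nd (nat_lit 78) (nat_lit 0) (nat_lit 0) (XT.lf (nat_lit 0) (nat_lit 8658272498) (nat_lit 76) (nat_lit 38388259642) (nat_lit 76) (nat_lit 29183009575) (nat_lit 9) (nat_lit 4) (nat_lit 10) (nat_lit 5) (nat_lit 10) (nat_lit 4) (nat_lit 398) (nat_lit 332) (nat_lit 290)) (XT.nd (nat_lit 78) (nat_lit 0) (nat_lit 0) (XT.lf (nat_lit 0) (nat_lit 36487404883) (nat_lit 76) (nat_lit 27195601980) (nat_lit 76) (nat_lit 17962336922) (nat_lit 9) (nat_lit 4) (nat_lit 10) (nat_lit 5) (nat_lit 10) (nat_lit 4) (nat_lit 399) (nat_lit 332) (nat_lit 289)) (XT.lf (nat_lit 0) (nat_lit 66400881319) (nat_lit 76) (nat_lit 15178152471) (nat_lit 76) (nat_lit 5918947606) (nat_lit 9) (nat_lit 4) (nat_lit 10) (nat_lit 5) (nat_lit 10) (nat_lit 4) (nat_lit 400) (nat_lit 332) (nat_lit 288))))) (XT.nd (nat_lit 234) (nat_lit 76) (nat_lit 0) (XT.nd (nat_lit 78) (nat_lit 0) (nat_lit 0) (XT.lf (nat_lit 0) (nat_lit 4797811053)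 (nat_lit 76) (nat_lit 2070986145) (nat_lit 152) (nat_lit 86944115339) (nat_lit 7) (nat_lit 5) (nat_lit 8) (nat_lit 5) (nat_lit 9) (nat_lit 4) (nat_lit 401) (nat_lit 332) (nat_lit 287)) (XT.nd (nat_lit 78) (nat_lit 0) (nat_lit 0) (XT.lf (nat_lit 0) (nat_lit 20971980828) (nat_lit 152) (nat_lit 67521583070) (nat_lit 0) (nat_lit 12109635678) (nat_lit 7) (nat_lit 5) (nat_lit 9) (nat_lit 4) (nat_lit 7) (nat_lit 4) (nat_lit 402) (nat_lit 332) (nat_lit 286)) (XT.lf (nat_lit 0) (nat_lit 36177986696) (nat_lit 152) (nat_lit 44463966583) (nat_lit 0) (nat_lit 27296030255) (nat_lit 7) (nat_lit 5) (nat_lit 9) (nat_lit 4) (nat_lit 7) (nat_lit 4) (nat_lit 403) (nat_lit 332) (nat_lit 285)))) (XT.nd (nat_lit 156) (nat_lit 0) (nat_lit 0) (XT.nd (nat_lit 78) (nat_lit 76) (nat_lit 0) (XT.lf (nat_lit 0) (nat_lit 52544590569) (nat_lit 152) (nat_lit 19673280398) (nat_lit 0) (nat_lit 43644475526) (nat_lit 7) (nat_lit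 5) (nat_lit 9) (nat_lit 4) (nat_lit 7) (nat_lit 4) (nat_lit 404) (nat_lit 332) (nat_lit 284)) (XT.lf (nat_lit 0) (nat_lit 7228748345) (nat_lit 76) (nat_lit 63052892404) (nat_lit 76) (nat_lit 54135963840) (nat_lit 6) (nat_lit 4) (nat_lit 7) (nat_lit 5) (nat_lit 7) (nat_lit 4) (nat_lit 405) (nat_lit 332) (nat_lit 283))) (XT.nd (nat_lit 78) (nat_lit 0) (nat_lit 0) (XT.lf (nat_lit 0) (nat_lit 36886676770) (nat_lit 76) (nat_lit 52844221445) (nat_lit 76) (nat_lit 43911724806) (nat_lit 6) (nat_lit 4) (nat_lit 7) (nat_lit 5) (nat_lit 7) (nat_lit 4) (nat_lit 406) (nat_lit 332) (nat_lit 282)) (XT.lf (nat_lit 0) (nat_lit 68825768065) (nat_lit 76) (nat_lit 41864538786) (nat_lit 76) (nat_lit 32917627263) (nat_lit 6) (nat_lit 4) (nat_lit 7) (nat_lit 5) (nat_lit 7) (nat_lit 4) (nat_lit 407) (nat_lit 332) (nat_lit 281))))))) (XT.nd (nat_lit 1014) (nat_lit 0) (nat_lit 0) (XT.nd (nat_lit 468) (nat_lit 76)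 (nat_lit 0) (XT.nd (nat_lit 234) (nat_lit 0) (nat_lit 0) (XT.nd (nat_lit 78) (nat_lit 152) (nat_lit 0) (XT.lf (nat_lit 0) (nat_lit 103235290920) (nat_lit 76) (nat_lit 30048779640) (nat_lit 76) (nat_lit 21088521003) (nat_lit 6) (nat_lit 4) (nat_lit 7) (nat_lit 5) (nat_lit 7) (nat_lit 4) (nat_lit 408) (nat_lit 332) (nat_lit 280)) (XT.nd (nat_lit 78) (nat_lit 152) (nat_lit 0) (XT.lf (nat_lit 0) (nat_lit 140319153618) (nat_lit 76) (nat_lit 17326924695) (nat_lit 76) (nat_lit 8354307618) (nat_lit 6) (nat_lit 4) (nat_lit 7) (nat_lit 5) (nat_lit 7) (nat_lit 4) (nat_lit 409) (nat_lit 332) (nat_lit 279)) (XT.lf (nat_lit 0) (nat_lit 1707859860) (nat_lit 76) (nat_lit 3507710840) (nat_lit 152) (nat_lit 173339134142) (nat_lit 4) (nat_lit 5) (nat_lit 5) (nat_lit 5) (nat_lit 6) (nat_lit 4) (nat_lit 410) (nat_lit 332) (nat_lit 278)))) (XT.nd (nat_lit 78) (nat_lit 0) (nat_lit 0) (XT.lf (nat_lit 0) (nat_lit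 20179330560) (nat_lit 152) (nat_lit 160284150796) (nat_lit 0) (nat_lit 11612992039) (nat_lit 4) (nat_lit 5) (nat_lit 6) (nat_lit 4) (nat_lit 4) (nat_lit 4) (nat_lit 411) (nat_lit 332) (nat_lit 277)) (XT.nd (nat_lit 78) (nat_lit 0) (nat_lit 0) (XT.lf (nat_lit 0) (nat_lit 36366130572) (nat_lit 152) (nat_lit 142522108314) (nat_lit 0) (nat_lit 27790448692) (nat_lit 4) (nat_lit 5) (nat_lit 6) (nat_lit 4) (nat_lit 4) (nat_lit 4) (nat_lit 412) (nat_lit 332) (nat_lit 276)) (XT.lf (nat_lit 0) (nat_lit 53817127318) (nat_lit 152) (nat_lit 123400695791) (nat_lit 0) (nat_lit 45232794178) (nat_lit 4) (nat_lit 5) (nat_lit 6) (nat_lit 4) (nat_lit 4) (nat_lit 4) (nat_lit 413) (nat_lit 332) (nat_lit 275))))) (XT.nd (nat_lit 234) (nat_lit 76) (nat_lit 0) (XT.nd (nat_lit 78) (nat_lit 0) (nat_lit 0) (XT.lf (nat_lit 0) (nat_lit 72635734112) (nat_lit 152) (nat_lit 102806601152) (nat_lit 0) (nat_lit 64043390547)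 (nat_lit 4) (nat_lit 5) (nat_lit 6) (nat_lit 4) (nat_lit 4) (nat_lit 4) (nat_lit 414) (nat_lit 332) (nat_lit 274)) (XT.nd (nat_lit 78) (nat_lit 0) (nat_lit 0) (XT.lf (nat_lit 0) (nat_lit 92933468623) (nat_lit 152) (nat_lit 80617785318) (nat_lit 0) (nat_lit 84333707998) (nat_lit 4) (nat_lit 5) (nat_lit 6) (nat_lit 4) (nat_lit 4) (nat_lit 4) (nat_lit 415) (nat_lit 332) (nat_lit 273)) (XT.lf (nat_lit 0) (nat_lit 114830613724) (nat_lit 152) (nat_lit 56702759011) (nat_lit 0) (nat_lit 106223985450) (nat_lit 4) (nat_lit 5) (nat_lit 6) (nat_lit 4) (nat_lit 4) (nat_lit 4) (nat_lit 416) (nat_lit 332) (nat_lit 272)))) (XT.nd (nat_lit 156) (nat_lit 76) (nat_lit 0) (XT.nd (nat_lit 78) (nat_lit 0) (nat_lit 0) (XT.lf (nat_lit 0) (nat_lit 138456930273) (nat_lit 152) (nat_lit 30919803556) (nat_lit 0) (nat_lit 129843943066) (nat_lit 4) (nat_lit 5) (nat_lit 6) (nat_lit 4) (nat_lit 4) (nat_lit 4) (nat_lit 417)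 (nat_lit 332) (nat_lit 271)) (XT.lf (nat_lit 0) (nat_lit 163952426073) (nat_lit 152) (nat_lit 3116131068) (nat_lit 0) (nat_lit 155333550964) (nat_lit 4) (nat_lit 5) (nat_lit 6) (nat_lit 4) (nat_lit 4) (nat_lit 4) (nat_lit 418) (nat_lit 332) (nat_lit 270))) (XT.nd (nat_lit 78) (nat_lit 0) (nat_lit 0) (XT.lf (nat_lit 0) (nat_lit 27761564389) (nat_lit 76) (nat_lit 164140056975) (nat_lit 76) (nat_lit 155515730105) (nat_lit 3) (nat_lit 4) (nat_lit 4) (nat_lit 5) (nat_lit 4) (nat_lit 4) (nat_lit 419) (nat_lit 332) (nat_lit 269)) (XT.lf (nat_lit 0) (nat_lit 61183624077) (nat_lit 76) (nat_lit 160938888796) (nat_lit 76) (nat_lit 152309514001) (nat_lit 3) (nat_lit 4) (nat_lit 4) (nat_lit 5) (nat_lit 4) (nat_lit 4) (nat_lit 420) (nat_lit 332) (nat_lit 268)))))) (XT.nd (nat_lit 546) (nat_lit 0) (nat_lit 0) (XT.nd (nat_lit 234) (nat_lit 0) (nat_lit 0) (XT.nd (nat_lit 78) (nat_lit 0) (nat_lit 0) (XT.lf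 (nat_lit 0) (nat_lit 97245071278) (nat_lit 76) (nat_lit 157498855908) (nat_lit 76) (nat_lit 148864807106) (nat_lit 3) (nat_lit 4) (nat_lit 4) (nat_lit 5) (nat_lit 4) (nat_lit 4) (nat_lit 421) (nat_lit 332) (nat_lit 267)) (XT.nd (nat_lit 78) (nat_lit 0) (nat_lit 0) (XT.lf (nat_lit 0) (nat_lit 136159603458) (nat_lit 76) (nat_lit 153799572930) (nat_lit 76) (nat_lit 145161196345) (nat_lit 3) (nat_lit 4) (nat_lit 4) (nat_lit 5) (nat_lit 4) (nat_lit 4) (nat_lit 422) (nat_lit 332) (nat_lit 266)) (XT.lf (nat_lit 0) (nat_lit 178157825250) (nat_lit 76) (nat_lit 149819118185) (nat_lit 76) (nat_lit 141176734393) (nat_lit 3) (nat_lit 4) (nat_lit 4) (nat_lit 5) (nat_lit 4) (nat_lit 4) (nat_lit 423) (nat_lit 332) (nat_lit 265)))) (XT.nd (nat_lit 156) (nat_lit 0) (nat_lit 0) (XT.nd (nat_lit 78) (nat_lit 0) (nat_lit 0) (XT.lf (nat_lit 0) (nat_lit 223488615008) (nat_lit 76) (nat_lit 145533903794) (nat_lit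 76) (nat_lit 136887809625) (nat_lit 3) (nat_lit 4) (nat_lit 4) (nat_lit 5) (nat_lit 4) (nat_lit 4) (nat_lit 424) (nat_lit 332) (nat_lit 264)) (XT.lf (nat_lit 0) (nat_lit 272420599633) (nat_lit 76) (nat_lit 140918535893) (nat_lit 76) (nat_lit 132269006190) (nat_lit 3) (nat_lit 4) (nat_lit 4) (nat_lit 5) (nat_lit 4) (nat_lit 4) (nat_lit 425) (nat_lit 332) (nat_lit 263))) (XT.nd (nat_lit 78) (nat_lit 0) (nat_lit 0) (XT.lf (nat_lit 0) (nat_lit 325243746441) (nat_lit 76) (nat_lit 135945664153) (nat_lit 76) (nat_lit 127292953400) (nat_lit 3) (nat_lit 4) (nat_lit 4) (nat_lit 5) (nat_lit 4) (nat_lit 4) (nat_lit 426) (nat_lit 332) (nat_lit 262)) (XT.lf (nat_lit 0) (nat_lit 382271081488) (nat_lit 76) (nat_lit 130585819706) (nat_lit 76) (nat_lit 121930163537) (nat_lit 3) (nat_lit 4) (nat_lit 4) (nat_lit 5) (nat_lit 4) (nat_lit 4) (nat_lit 427) (nat_lit 332) (nat_lit 261))))) (XT.nd (nat_lit 234) (nat_lit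 0) (nat_lit 0) (XT.nd (nat_lit 78) (nat_lit 0) (nat_lit 0) (XT.lf (nat_lit 0) (nat_lit 443840544537) (nat_lit 76) (nat_lit 124807240510) (nat_lit 76) (nat_lit 116148857103) (nat_lit 3) (nat_lit 4) (nat_lit 4) (nat_lit 5) (nat_lit 4) (nat_lit 4) (nat_lit 428) (nat_lit 332) (nat_lit 260)) (XT.nd (nat_lit 78) (nat_lit 0) (nat_lit 0) (XT.lf (nat_lit 0) (nat_lit 510316991664) (nat_lit 76) (nat_lit 118575683133) (nat_lit 76) (nat_lit 109914774506) (nat_lit 3) (nat_lit 4) (nat_lit 4) (nat_lit 5) (nat_lit 4) (nat_lit 4) (nat_lit 429) (nat_lit 332) (nat_lit 259)) (XT.lf (nat_lit 0) (nat_lit 582094357373) (nat_lit 76) (nat_lit 111854219828) (nat_lit 76) (nat_lit 103190973034) (nat_lit 3) (nat_lit 4) (nat_lit 4) (nat_lit 5) (nat_lit 4) (nat_lit 4) (nat_lit 430) (nat_lit 332) (nat_lit 258)))) (XT.nd (nat_lit 156) (nat_lit 0) (nat_lit 0) (XT.nd (nat_lit 78) (nat_lit 0) (nat_lit 0) (XT.lf (nat_lit 0) (nat_lit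 659597989014) (nat_lit 76) (nat_lit 104603019700) (nat_lit 76) (nat_lit 95937607937) (nat_lit 3) (nat_lit 4) (nat_lit 4) (nat_lit 5) (nat_lit 4) (nat_lit 4) (nat_lit 431) (nat_lit 332) (nat_lit 257)) (XT.lf (nat_lit 0) (nat_lit 743287167368) (nat_lit 76) (nat_lit 96779112675) (nat_lit 76) (nat_lit 88111696311) (nat_lit 3) (nat_lit 4) (nat_lit 4) (nat_lit 5) (nat_lit 4) (nat_lit 4) (nat_lit 432) (nat_lit 332) (nat_lit 256))) (XT.nd (nat_lit 78) (nat_lit 0) (nat_lit 0) (XT.lf (nat_lit 0) (nat_lit 833657828308) (nat_lit 76) (nat_lit 88336134860) (nat_lit 76) (nat_lit 79666862383) (nat_lit 3) (nat_lit 4) (nat_lit 4) (nat_lit 5) (nat_lit 4) (nat_lit 4) (nat_lit 433) (nat_lit 332) (nat_lit 255)) (XT.lf (nat_lit 0) (nat_lit 931245501674) (nat_lit 76) (nat_lit 79224053793) (nat_lit 76) (nat_lit 70553062694) (nat_lit 3) (nat_lit 4) (nat_lit 4) (nat_lit 5) (nat_lit 4) (nat_lit 4) (nat_lit 434) (nat_lit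 332) (nat_lit 254))))))))
noncomputable def xc34 : XT := (XT.nd (nat_lit 48516) (nat_lit 0) (nat_lit 456) (XT.nd (nat_lit 47502) (nat_lit 0) (nat_lit 2128) (XT.nd (nat_lit 46956) (nat_lit 0) (nat_lit 4408) (XT.nd (nat_lit 234) (nat_lit 0) (nat_lit 0) (XT.nd (nat_lit 78) (nat_lit 0) (nat_lit 0) (XT.lf (nat_lit 0) (nat_lit 1036628484792) (nat_lit 76) (nat_lit 69388871956) (nat_lit 76) (nat_lit 60716289541) (nat_lit 3) (nat_lit 4) (nat_lit 4) (nat_lit 5) (nat_lit 4) (nat_lit 4) (nat_lit 435) (nat_lit 332) (nat_lit 253)) (XT.nd (nat_lit 78) (nat_lit 0) (nat_lit 0) (XT.lf (nat_lit 0) (nat_lit 1150431269412) (nat_lit 76) (nat_lit 58772306792) (nat_lit 76) (nat_lit 50098250935) (nat_lit 3) (nat_lit 4) (nat_lit 4) (nat_lit 5) (nat_lit 4) (nat_lit 4) (nat_lit 436) (nat_lit 332) (nat_lit 252)) (XT.lf (nat_lit 0) (nat_lit 1273328242407) (nat_lit 76) (nat_lit 47311445321) (nat_lit 76) (nat_lit 38636025166)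 (nat_lit 3) (nat_lit 4) (nat_lit 4) (nat_lit 5) (nat_lit 4) (nat_lit 4) (nat_lit 437) (nat_lit 332) (nat_lit 251)))) (XT.nd (nat_lit 46566) (nat_lit 0) (nat_lit 6688) (XT.lf (nat_lit 0) (nat_lit 1406047682135) (nat_lit 76) (nat_lit 34938371327) (nat_lit 76) (nat_lit 26261687933) (nat_lit 3) (nat_lit 4) (nat_lit 4) (nat_lit 5) (nat_lit 4) (nat_lit 4) (nat_lit 438) (nat_lit 332) (nat_lit 250)) (XT.nd (nat_lit 78) (nat_lit 380) (nat_lit 0) (XT.lf (nat_lit 0) (nat_lit 1270749845) (nat_lit 380) (nat_lit 1405992946) (nat_lit 0) (nat_lit 1270749845) (nat_lit 96) (nat_lit 5) (nat_lit 101) (nat_lit 4) (nat_lit 96) (nat_lit 4) (nat_lit 354) (nat_lit 333) (nat_lit 333)) (XT.lf (nat_lit 0) (nat_lit 561418474) (nat_lit 380) (nat_lit 786444690) (nat_lit 76) (nat_lit 6771523713) (nat_lit 91) (nat_lit 5) (nat_lit 96) (nat_lit 5) (nat_lit 92) (nat_lit 4) (nat_lit 355) (nat_lit 333) (nat_lit 332))))) (XT.nd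 (nat_lit 234) (nat_lit 1140) (nat_lit 0) (XT.nd (nat_lit 78) (nat_lit 608) (nat_lit 0) (XT.lf (nat_lit 0) (nat_lit 1352890997) (nat_lit 304) (nat_lit 5282263134) (nat_lit 304) (nat_lit 1728741677) (nat_lit 84) (nat_lit 4) (nat_lit 88) (nat_lit 5) (nat_lit 88) (nat_lit 4) (nat_lit 356) (nat_lit 333) (nat_lit 331)) (XT.nd (nat_lit 78) (nat_lit 304) (nat_lit 0) (XT.lf (nat_lit 0) (nat_lit 3630364688) (nat_lit 228) (nat_lit 645615805) (nat_lit 304) (nat_lit 4355832951) (nat_lit 80) (nat_lit 5) (nat_lit 83) (nat_lit 5) (nat_lit 84) (nat_lit 4) (nat_lit 357) (nat_lit 333) (nat_lit 330)) (XT.lf (nat_lit 0) (nat_lit 1631418227) (nat_lit 304) (nat_lit 2941395825) (nat_lit 76) (nat_lit 4350318987) (nat_lit 76) (nat_lit 5) (nat_lit 80) (nat_lit 5) (nat_lit 77) (nat_lit 4) (nat_lit 358) (nat_lit 333) (nat_lit 329)))) (XT.nd (nat_lit 156) (nat_lit 456) (nat_lit 0) (XT.nd (nat_lit 78) (nat_lit 456) (nat_lit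 0) (XT.lf (nat_lit 0) (nat_lit 7824425502) (nat_lit 304) (nat_lit 808108349) (nat_lit 0) (nat_lit 607831193) (nat_lit 73) (nat_lit 5) (nat_lit 77) (nat_lit 4) (nat_lit 73) (nat_lit 4) (nat_lit 359) (nat_lit 333) (nat_lit 328)) (XT.lf (nat_lit 0) (nat_lit 1374187109) (nat_lit 152) (nat_lit 3372045506) (nat_lit 228) (nat_lit 4834317462) (nat_lit 67) (nat_lit 5) (nat_lit 69) (nat_lit 5) (nat_lit 70) (nat_lit 4) (nat_lit 360) (nat_lit 333) (nat_lit 327))) (XT.nd (nat_lit 78) (nat_lit 152) (nat_lit 0) (XT.lf (nat_lit 0) (nat_lit 1299972125) (nat_lit 304) (nat_lit 6297166822) (nat_lit 76) (nat_lit 2351669452) (nat_lit 63) (nat_lit 5) (nat_lit 67) (nat_lit 5) (nat_lit 64) (nat_lit 4) (nat_lit 361) (nat_lit 333) (nat_lit 326)) (XT.lf (nat_lit 0) (nat_lit 5931280190) (nat_lit 152) (nat_lit 1787448903) (nat_lit 228) (nat_lit 2625786363) (nat_lit 61) (nat_lit 5) (nat_lit 63) (nat_lit 5) (nat_lit 64)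 (nat_lit 4) (nat_lit 362) (nat_lit 333) (nat_lit 325)))))) (XT.nd (nat_lit 468) (nat_lit 988) (nat_lit 0) (XT.nd (nat_lit 234) (nat_lit 532) (nat_lit 0) (XT.nd (nat_lit 78) (nat_lit 532) (nat_lit 0) (XT.lf (nat_lit 0) (nat_lit 3745296605) (nat_lit 228) (nat_lit 2563313369) (nat_lit 76) (nat_lit 4460816609) (nat_lit 58) (nat_lit 5) (nat_lit 61) (nat_lit 5) (nat_lit 59) (nat_lit 4) (nat_lit 363) (nat_lit 333) (nat_lit 324)) (XT.nd (nat_lit 78) (nat_lit 380) (nat_lit 0) (XT.lf (nat_lit 0) (nat_lit 10499020648) (nat_lit 228) (nat_lit 706673273) (nat_lit 0) (nat_lit 22322982) (nat_lit 56) (nat_lit 5) (nat_lit 59) (nat_lit 4) (nat_lit 56) (nat_lit 4) (nat_lit 364) (nat_lit 333) (nat_lit 323)) (XT.lf (nat_lit 0) (nat_lit 1046776437) (nat_lit 152) (nat_lit 4901079531) (nat_lit 228) (nat_lit 5767157185) (nat_lit 51) (nat_lit 5) (nat_lit 53) (nat_lit 5) (nat_lit 54) (nat_lit 4) (nat_lit 365) (nat_lit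 333) (nat_lit 322)))) (XT.nd (nat_lit 78) (nat_lit 304) (nat_lit 0) (XT.lf (nat_lit 0) (nat_lit 864884503) (nat_lit 228) (nat_lit 9433040731) (nat_lit 76) (nat_lit 1941790176) (nat_lit 48) (nat_lit 5) (nat_lit 51) (nat_lit 5) (nat_lit 49) (nat_lit 4) (nat_lit 366) (nat_lit 333) (nat_lit 321)) (XT.nd (nat_lit 78) (nat_lit 228) (nat_lit 0) (XT.lf (nat_lit 0) (nat_lit 4401270475) (nat_lit 76) (nat_lit 3478771800) (nat_lit 152) (nat_lit 4918956060) (nat_lit 47) (nat_lit 5) (nat_lit 48) (nat_lit 5) (nat_lit 49) (nat_lit 4) (nat_lit 367) (nat_lit 333) (nat_lit 320)) (XT.lf (nat_lit 0) (nat_lit 2030814854) (nat_lit 228) (nat_lit 7512141461) (nat_lit 76) (nat_lit 3856361886) (nat_lit 44) (nat_lit 5) (nat_lit 47) (nat_lit 5) (nat_lit 45) (nat_lit 4) (nat_lit 368) (nat_lit 333) (nat_lit 319))))) (XT.nd (nat_lit 234) (nat_lit 608) (nat_lit 0) (XT.nd (nat_lit 78) (nat_lit 304) (nat_lit 0) (XT.lf (nat_lit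 0) (nat_lit 7183677557) (nat_lit 76) (nat_lit 2233604405) (nat_lit 152) (nat_lit 4623747811) (nat_lit 43) (nat_lit 5) (nat_lit 44) (nat_lit 5) (nat_lit 45) (nat_lit 4) (nat_lit 369) (nat_lit 333) (nat_lit 318)) (XT.nd (nat_lit 78) (nat_lit 76) (nat_lit 0) (XT.lf (nat_lit 0) (nat_lit 2668862496) (nat_lit 228) (nat_lit 6467040927) (nat_lit 76) (nat_lit 5591471008) (nat_lit 40) (nat_lit 5) (nat_lit 43) (nat_lit 5) (nat_lit 41) (nat_lit 4) (nat_lit 370) (nat_lit 333) (nat_lit 317)) (XT.lf (nat_lit 0) (nat_lit 9089220187) (nat_lit 76) (nat_lit 1345878441) (nat_lit 152) (nat_lit 5027168853) (nat_lit 39) (nat_lit 5) (nat_lit 40) (nat_lit 5) (nat_lit 41) (nat_lit 4) (nat_lit 371) (nat_lit 333) (nat_lit 316)))) (XT.nd (nat_lit 156) (nat_lit 304) (nat_lit 0) (XT.nd (nat_lit 78) (nat_lit 76) (nat_lit 0) (XT.lf (nat_lit 0) (nat_lit 2619595298) (nat_lit 228) (nat_lit 6668166071) (nat_lit 76) (nat_lit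 6959470200) (nat_lit 36) (nat_lit 5) (nat_lit 39) (nat_lit 5) (nat_lit 37) (nat_lit 4) (nat_lit 372) (nat_lit 333) (nat_lit 315)) (XT.lf (nat_lit 0) (nat_lit 9715632497) (nat_lit 76) (nat_lit 1041248830) (nat_lit 152) (nat_lit 6331279142) (nat_lit 35) (nat_lit 5) (nat_lit 36) (nat_lit 5) (nat_lit 37) (nat_lit 4) (nat_lit 373) (nat_lit 333) (nat_lit 314))) (XT.nd (nat_lit 78) (nat_lit 76) (nat_lit 0) (XT.lf (nat_lit 0) (nat_lit 1662971259) (nat_lit 228) (nat_lit 8601922985) (nat_lit 76) (nat_lit 7722102355) (nat_lit 32) (nat_lit 5) (nat_lit 35) (nat_lit 5) (nat_lit 33) (nat_lit 4) (nat_lit 374) (nat_lit 333) (nat_lit 313)) (XT.lf (nat_lit 0) (nat_lit 8531849136) (nat_lit 76) (nat_lit 1607608608) (nat_lit 152) (nat_lit 8809894178) (nat_lit 31) (nat_lit 5) (nat_lit 32) (nat_lit 5) (nat_lit 33) (nat_lit 4) (nat_lit 375) (nat_lit 333) (nat_lit 312))))))) (XT.nd (nat_lit 1014) (nat_lit 532) (nat_lit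 0) (XT.nd (nat_lit 468) (nat_lit 608) (nat_lit 0) (XT.nd (nat_lit 234) (nat_lit 228) (nat_lit 0) (XT.nd (nat_lit 78) (nat_lit 228) (nat_lit 0) (XT.lf (nat_lit 0) (nat_lit 7065214258) (nat_lit 76) (nat_lit 12399888211) (nat_lit 76) (nat_lit 515066735) (nat_lit 30) (nat_lit 4) (nat_lit 31) (nat_lit 5) (nat_lit 31) (nat_lit 4) (nat_lit 376) (nat_lit 333) (nat_lit 311)) (XT.nd (nat_lit 78) (nat_lit 76) (nat_lit 0) (XT.lf (nat_lit 0) (nat_lit 4837778757) (nat_lit 76) (nat_lit 3416383919) (nat_lit 152) (nat_lit 12828667683) (nat_lit 28) (nat_lit 5) (nat_lit 29) (nat_lit 5) (nat_lit 30) (nat_lit 4) (nat_lit 377) (nat_lit 333) (nat_lit 310)) (XT.lf (nat_lit 0) (nat_lit 1776290136) (nat_lit 76) (nat_lit 16086043671) (nat_lit 76) (nat_lit 4403196791) (nat_lit 27) (nat_lit 4) (nat_lit 28) (nat_lit 5) (nat_lit 28) (nat_lit 4) (nat_lit 378) (nat_lit 333) (nat_lit 309)))) (XT.nd (nat_lit 78) (nat_lit 152)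 (nat_lit 0) (XT.lf (nat_lit 0) (nat_lit 4697861480) (nat_lit 152) (nat_lit 2214254207) (nat_lit 76) (nat_lit 16619490349) (nat_lit 26) (nat_lit 5) (nat_lit 28) (nat_lit 5) (nat_lit 27) (nat_lit 4) (nat_lit 379) (nat_lit 333) (nat_lit 308)) (XT.nd (nat_lit 78) (nat_lit 76) (nat_lit 0) (XT.lf (nat_lit 0) (nat_lit 14521637219) (nat_lit 152) (nat_lit 7268362473) (nat_lit 0) (nat_lit 3097930671) (nat_lit 25) (nat_lit 5) (nat_lit 27) (nat_lit 4) (nat_lit 25) (nat_lit 4) (nat_lit 380) (nat_lit 333) (nat_lit 307)) (XT.lf (nat_lit 0) (nat_lit 12725112589) (nat_lit 76) (nat_lit 12587304714) (nat_lit 76) (nat_lit 1031303958) (nat_lit 24) (nat_lit 4) (nat_lit 25) (nat_lit 5) (nat_lit 25) (nat_lit 4) (nat_lit 381) (nat_lit 333) (nat_lit 306))))) (XT.nd (nat_lit 234) (nat_lit 304) (nat_lit 0) (XT.nd (nat_lit 78) (nat_lit 152) (nat_lit 0) (XT.lf (nat_lit 0) (nat_lit 6405188050) (nat_lit 76) (nat_lit 2416120946)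 (nat_lit 152) (nat_lit 19084590312) (nat_lit 22) (nat_lit 5) (nat_lit 23) (nat_lit 5) (nat_lit 24) (nat_lit 4) (nat_lit 382) (nat_lit 333) (nat_lit 305)) (XT.nd (nat_lit 78) (nat_lit 152) (nat_lit 0) (XT.lf (nat_lit 0) (nat_lit 19638464858) (nat_lit 152) (nat_lit 1535062644) (nat_lit 0) (nat_lit 8408068330) (nat_lit 22) (nat_lit 5) (nat_lit 24) (nat_lit 4) (nat_lit 22) (nat_lit 4) (nat_lit 383) (nat_lit 333) (nat_lit 304)) (XT.lf (nat_lit 0) (nat_lit 142832915) (nat_lit 152) (nat_lit 11037607534) (nat_lit 76) (nat_lit 20200427084) (nat_lit 20) (nat_lit 5) (nat_lit 22) (nat_lit 5) (nat_lit 21) (nat_lit 4) (nat_lit 384) (nat_lit 333) (nat_lit 303)))) (XT.nd (nat_lit 156) (nat_lit 228) (nat_lit 0) (XT.nd (nat_lit 78) (nat_lit 0) (nat_lit 0) (XT.lf (nat_lit 0) (nat_lit 10590027580) (nat_lit 76) (nat_lit 148046711) (nat_lit 152) (nat_lit 22575329103) (nat_lit 19) (nat_lit 5) (nat_lit 20) (nat_lit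 5) (nat_lit 21) (nat_lit 4) (nat_lit 385) (nat_lit 333) (nat_lit 302)) (XT.lf (nat_lit 0) (nat_lit 22418177483) (nat_lit 152) (nat_lit 1513072317) (nat_lit 0) (nat_lit 11457439915) (nat_lit 19) (nat_lit 5) (nat_lit 21) (nat_lit 4) (nat_lit 19) (nat_lit 4) (nat_lit 386) (nat_lit 333) (nat_lit 301))) (XT.nd (nat_lit 78) (nat_lit 152) (nat_lit 0) (XT.lf (nat_lit 0) (nat_lit 21833612099) (nat_lit 76) (nat_lit 13411075266) (nat_lit 76) (nat_lit 2374720652) (nat_lit 18) (nat_lit 4) (nat_lit 19) (nat_lit 5) (nat_lit 19) (nat_lit 4) (nat_lit 387) (nat_lit 333) (nat_lit 300)) (XT.lf (nat_lit 0) (nat_lit 6903918905) (nat_lit 76) (nat_lit 1881588070) (nat_lit 152) (nat_lit 31235653881) (nat_lit 16) (nat_lit 5) (nat_lit 17) (nat_lit 5) (nat_lit 18) (nat_lit 4) (nat_lit 388) (nat_lit 333) (nat_lit 299)))))) (XT.nd (nat_lit 468) (nat_lit 228) (nat_lit 0) (XT.nd (nat_lit 234) (nat_lit 152) (nat_lit 0) (XT.nd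 (nat_lit 78) (nat_lit 152) (nat_lit 0) (XT.lf (nat_lit 0) (nat_lit 21077322851) (nat_lit 152) (nat_lit 11081608568) (nat_lit 0) (nat_lit 10438084923) (nat_lit 16) (nat_lit 5) (nat_lit 18) (nat_lit 4) (nat_lit 16) (nat_lit 4) (nat_lit 389) (nat_lit 333) (nat_lit 298)) (XT.nd (nat_lit 78) (nat_lit 76) (nat_lit 0) (XT.lf (nat_lit 0) (nat_lit 12871908795) (nat_lit 76) (nat_lit 21598767693) (nat_lit 76) (nat_lit 10902360957) (nat_lit 15) (nat_lit 4) (nat_lit 16) (nat_lit 5) (nat_lit 16) (nat_lit 4) (nat_lit 390) (nat_lit 333) (nat_lit 297)) (XT.lf (nat_lit 0) (nat_lit 631311858) (nat_lit 152) (nat_lit 9455151506) (nat_lit 76) (nat_lit 38279991475) (nat_lit 14) (nat_lit 5) (nat_lit 16) (nat_lit 5) (nat_lit 15) (nat_lit 4) (nat_lit 391) (nat_lit 333) (nat_lit 296)))) (XT.nd (nat_lit 78) (nat_lit 76) (nat_lit 0) (XT.lf (nat_lit 0) (nat_lit 12892651671) (nat_lit 152) (nat_lit 36079911066) (nat_lit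 0) (nat_lit 2608505142) (nat_lit 13) (nat_lit 5) (nat_lit 15) (nat_lit 4) (nat_lit 13) (nat_lit 4) (nat_lit 392) (nat_lit 333) (nat_lit 295)) (XT.nd (nat_lit 78) (nat_lit 76) (nat_lit 0) (XT.lf (nat_lit 0) (nat_lit 26372532295) (nat_lit 152) (nat_lit 12623276735) (nat_lit 0) (nat_lit 16045164392) (nat_lit 13) (nat_lit 5) (nat_lit 15) (nat_lit 4) (nat_lit 13) (nat_lit 4) (nat_lit 393) (nat_lit 333) (nat_lit 294)) (XT.lf (nat_lit 0) (nat_lit 12941221705) (nat_lit 76) (nat_lit 28099181094) (nat_lit 76) (nat_lit 17731793400) (nat_lit 12) (nat_lit 4) (nat_lit 13) (nat_lit 5) (nat_lit 13) (nat_lit 4) (nat_lit 394) (nat_lit 333) (nat_lit 293))))) (XT.nd (nat_lit 234) (nat_lit 76) (nat_lit 0) (XT.nd (nat_lit 78) (nat_lit 152) (nat_lit 0) (XT.lf (nat_lit 0) (nat_lit 40826733769) (nat_lit 76) (nat_lit 16186526318) (nat_lit 76) (nat_lit 5782083263) (nat_lit 12) (nat_lit 4) (nat_lit 13) (nat_lit 5) (nat_lit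 13) (nat_lit 4) (nat_lit 395) (nat_lit 333) (nat_lit 292)) (XT.nd (nat_lit 78) (nat_lit 0) (nat_lit 0) (XT.lf (nat_lit 0) (nat_lit 3643422305) (nat_lit 76) (nat_lit 3225931782) (nat_lit 152) (nat_lit 60266743591) (nat_lit 10) (nat_lit 5) (nat_lit 11) (nat_lit 5) (nat_lit 12) (nat_lit 4) (nat_lit 396) (nat_lit 333) (nat_lit 291)) (XT.lf (nat_lit 0) (nat_lit 20809509172) (nat_lit 152) (nat_lit 40148325521) (nat_lit 0) (nat_lit 10837582909) (nat_lit 10) (nat_lit 5) (nat_lit 12) (nat_lit 4) (nat_lit 10) (nat_lit 4) (nat_lit 397) (nat_lit 333) (nat_lit 290)))) (XT.nd (nat_lit 156) (nat_lit 0) (nat_lit 0) (XT.nd (nat_lit 78) (nat_lit 76) (nat_lit 0) (XT.lf (nat_lit 0) (nat_lit 35844590882) (nat_lit 152) (nat_lit 15139260233) (nat_lit 0) (nat_lit 25844649628) (nat_lit 10) (nat_lit 5) (nat_lit 12) (nat_lit 4) (nat_lit 10) (nat_lit 4) (nat_lit 398) (nat_lit 333) (nat_lit 289)) (XT.lf (nat_lit 0) (nat_lit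 12121037077) (nat_lit 76) (nat_lit 40081536442) (nat_lit 76) (nat_lit 30055655381) (nat_lit 9) (nat_lit 4) (nat_lit 10) (nat_lit 5) (nat_lit 10) (nat_lit 4) (nat_lit 399) (nat_lit 333) (nat_lit 288))) (XT.nd (nat_lit 78) (nat_lit 0) (nat_lit 0) (XT.lf (nat_lit 0) (nat_lit 41971307254) (nat_lit 76) (nat_lit 28095524239) (nat_lit 76) (nat_lit 18045624839) (nat_lit 9) (nat_lit 4) (nat_lit 10) (nat_lit 5) (nat_lit 10) (nat_lit 4) (nat_lit 400) (nat_lit 333) (nat_lit 287)) (XT.lf (nat_lit 0) (nat_lit 74087868473) (nat_lit 76) (nat_lit 15211176984) (nat_lit 76) (nat_lit 5139038380) (nat_lit 9) (nat_lit 4) (nat_lit 10) (nat_lit 5) (nat_lit 10) (nat_lit 4) (nat_lit 401) (nat_lit 333) (nat_lit 286))))))))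
noncomputable def xc35 : XT := (XT.nd (nat_lit 2028) (nat_lit 0) (nat_lit 0) (XT.nd (nat_lit 1014) (nat_lit 76) (nat_lit 0) (XT.nd (nat_lit 468) (nat_lit 152) (nat_lit 0) (XT.nd (nat_lit 234) (nat_lit 76) (nat_lit 0) (XT.nd (nat_lit 78) (nat_lit 0) (nat_lit 0) (XT.lf (nat_lit 0) (nat_lit 7491762604) (nat_lit 76) (nat_lit 1086038889) (nat_lit 152) (nat_lit 92682123498) (nat_lit 7) (nat_lit 5) (nat_lit 8) (nat_lit 5) (nat_lit 9) (nat_lit 4) (nat_lit 402) (nat_lit 333) (nat_lit 285)) (XT.nd (nat_lit 78) (nat_lit 0) (nat_lit 0) (XT.lf (nat_lit 0) (nat_lit 23739984682) (nat_lit 152) (nat_lit 70747214608) (nat_lit 0) (nat_lit 14109701833) (nat_lit 7) (nat_lit 5) (nat_lit 9) (nat_lit 4) (nat_lit 7) (nat_lit 4) (nat_lit 403) (nat_lit 333) (nat_lit 284)) (XT.lf (nat_lit 0) (nat_lit 40081712101) (nat_lit 152) (nat_lit 46006181032) (nat_lit 0) (nat_lit 30434615732) (nat_lit 7) (nat_lit 5) (nat_lit 9)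 (nat_lit 4) (nat_lit 7) (nat_lit 4) (nat_lit 404) (nat_lit 333) (nat_lit 283)))) (XT.nd (nat_lit 78) (nat_lit 76) (nat_lit 0) (XT.lf (nat_lit 0) (nat_lit 57682867509) (nat_lit 152) (nat_lit 19381492018) (nat_lit 0) (nat_lit 48020203064) (nat_lit 7) (nat_lit 5) (nat_lit 9) (nat_lit 4) (nat_lit 7) (nat_lit 4) (nat_lit 405) (nat_lit 333) (nat_lit 282)) (XT.nd (nat_lit 78) (nat_lit 0) (nat_lit 0) (XT.lf (nat_lit 0) (nat_lit 9591620114) (nat_lit 76) (nat_lit 67205886002) (nat_lit 76) (nat_lit 57528806674) (nat_lit 6) (nat_lit 4) (nat_lit 7) (nat_lit 5) (nat_lit 7) (nat_lit 4) (nat_lit 406) (nat_lit 333) (nat_lit 281)) (XT.lf (nat_lit 0) (nat_lit 41489992302) (nat_lit 76) (nat_lit 56246538981) (nat_lit 76) (nat_lit 46556112538) (nat_lit 6) (nat_lit 4) (nat_lit 7) (nat_lit 5) (nat_lit 7) (nat_lit 4) (nat_lit 407) (nat_lit 333) (nat_lit 280))))) (XT.nd (nat_lit 234) (nat_lit 152) (nat_lit 0) (XT.nd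 (nat_lit 78) (nat_lit 0) (nat_lit 0) (XT.lf (nat_lit 0) (nat_lit 75861812279) (nat_lit 76) (nat_lit 44449609129) (nat_lit 76) (nat_lit 34746824247) (nat_lit 6) (nat_lit 4) (nat_lit 7) (nat_lit 5) (nat_lit 7) (nat_lit 4) (nat_lit 408) (nat_lit 333) (nat_lit 279)) (XT.nd (nat_lit 78) (nat_lit 0) (nat_lit 0) (XT.lf (nat_lit 0) (nat_lit 112910764906) (nat_lit 76) (nat_lit 31745188716) (nat_lit 76) (nat_lit 22030960834) (nat_lit 6) (nat_lit 4) (nat_lit 7) (nat_lit 5) (nat_lit 7) (nat_lit 4) (nat_lit 409) (nat_lit 333) (nat_lit 278)) (XT.lf (nat_lit 0) (nat_lit 152856399530) (nat_lit 76) (nat_lit 18057992286) (nat_lit 76) (nat_lit 8333169034) (nat_lit 6) (nat_lit 4) (nat_lit 7) (nat_lit 5) (nat_lit 7) (nat_lit 4) (nat_lit 410) (nat_lit 333) (nat_lit 277)))) (XT.nd (nat_lit 156) (nat_lit 0) (nat_lit 0) (XT.nd (nat_lit 78) (nat_lit 0) (nat_lit 0) (XT.lf (nat_lit 0) (nat_lit 3120327930) (nat_lit 76)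 (nat_lit 3150385098) (nat_lit 152) (nat_lit 186536451678) (nat_lit 4) (nat_lit 5) (nat_lit 5) (nat_lit 5) (nat_lit 6) (nat_lit 4) (nat_lit 411) (nat_lit 333) (nat_lit 276)) (XT.lf (nat_lit 0) (nat_lit 22393544361) (nat_lit 152) (nat_lit 171905220146) (nat_lit 0) (nat_lit 13113813311) (nat_lit 4) (nat_lit 5) (nat_lit 6) (nat_lit 4) (nat_lit 4) (nat_lit 4) (nat_lit 412) (nat_lit 333) (nat_lit 275))) (XT.nd (nat_lit 78) (nat_lit 0) (nat_lit 0) (XT.lf (nat_lit 0) (nat_lit 39830853755) (nat_lit 152) (nat_lit 152811226318) (nat_lit 0) (nat_lit 30543112280) (nat_lit 4) (nat_lit 5) (nat_lit 6) (nat_lit 4) (nat_lit 4) (nat_lit 4) (nat_lit 413) (nat_lit 333) (nat_lit 274)) (XT.lf (nat_lit 0) (nat_lit 58636787075) (nat_lit 152) (nat_lit 132242519360) (nat_lit 0) (nat_lit 49341628540) (nat_lit 4) (nat_lit 5) (nat_lit 6) (nat_lit 4) (nat_lit 4) (nat_lit 4) (nat_lit 414) (nat_lit 333) (nat_lit 273))))))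 (XT.nd (nat_lit 468) (nat_lit 0) (nat_lit 0) (XT.nd (nat_lit 234) (nat_lit 76) (nat_lit 0) (XT.nd (nat_lit 78) (nat_lit 0) (nat_lit 0) (XT.lf (nat_lit 0) (nat_lit 78922786888) (nat_lit 152) (nat_lit 110077210638) (nat_lit 0) (nat_lit 69620760705) (nat_lit 4) (nat_lit 5) (nat_lit 6) (nat_lit 4) (nat_lit 4) (nat_lit 4) (nat_lit 415) (nat_lit 333) (nat_lit 272)) (XT.nd (nat_lit 78) (nat_lit 0) (nat_lit 0) (XT.lf (nat_lit 0) (nat_lit 100809066527) (nat_lit 152) (nat_lit 86183950176) (nat_lit 0) (nat_lit 91500681410) (nat_lit 4) (nat_lit 5) (nat_lit 6) (nat_lit 4) (nat_lit 4) (nat_lit 4) (nat_lit 416) (nat_lit 333) (nat_lit 271)) (XT.lf (nat_lit 0) (nat_lit 124425322465) (nat_lit 152) (nat_lit 60421148280) (nat_lit 0) (nat_lit 115111049446) (nat_lit 4) (nat_lit 5) (nat_lit 6) (nat_lit 4) (nat_lit 4) (nat_lit 4) (nat_lit 417) (nat_lit 333) (nat_lit 270)))) (XT.nd (nat_lit 78) (nat_lit 76) (nat_lit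 0) (XT.lf (nat_lit 0) (nat_lit 149911502883) (nat_lit 152) (nat_lit 32636136496) (nat_lit 0) (nat_lit 140591778103) (nat_lit 4) (nat_lit 5) (nat_lit 6) (nat_lit 4) (nat_lit 4) (nat_lit 4) (nat_lit 418) (nat_lit 333) (nat_lit 269)) (XT.nd (nat_lit 78) (nat_lit 76) (nat_lit 0) (XT.lf (nat_lit 0) (nat_lit 177418636999) (nat_lit 152) (nat_lit 2664262901) (nat_lit 0) (nat_lit 168093864293) (nat_lit 4) (nat_lit 5) (nat_lit 6) (nat_lit 4) (nat_lit 4) (nat_lit 4) (nat_lit 419) (nat_lit 333) (nat_lit 268)) (XT.lf (nat_lit 0) (nat_lit 30653176692) (nat_lit 76) (nat_lit 176935135354) (nat_lit 76) (nat_lit 167605688642) (nat_lit 3) (nat_lit 4) (nat_lit 4) (nat_lit 5) (nat_lit 4) (nat_lit 4) (nat_lit 420) (nat_lit 333) (nat_lit 267))))) (XT.nd (nat_lit 234) (nat_lit 0) (nat_lit 0) (XT.nd (nat_lit 78) (nat_lit 0) (nat_lit 0) (XT.lf (nat_lit 0) (nat_lit 66699320625) (nat_lit 76) (nat_lit 173502771957) (nat_lit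 76) (nat_lit 164168997462) (nat_lit 3) (nat_lit 4) (nat_lit 4) (nat_lit 5) (nat_lit 4) (nat_lit 4) (nat_lit 421) (nat_lit 333) (nat_lit 266)) (XT.nd (nat_lit 78) (nat_lit 0) (nat_lit 0) (XT.lf (nat_lit 0) (nat_lit 105599683112) (nat_lit 76) (nat_lit 169810590360) (nat_lit 76) (nat_lit 160472808657) (nat_lit 3) (nat_lit 4) (nat_lit 4) (nat_lit 5) (nat_lit 4) (nat_lit 4) (nat_lit 422) (nat_lit 333) (nat_lit 265)) (XT.lf (nat_lit 0) (nat_lit 147584784819) (nat_lit 76) (nat_lit 165836710967) (nat_lit 76) (nat_lit 156495218888) (nat_lit 3) (nat_lit 4) (nat_lit 4) (nat_lit 5) (nat_lit 4) (nat_lit 4) (nat_lit 423) (nat_lit 333) (nat_lit 264)))) (XT.nd (nat_lit 156) (nat_lit 0) (nat_lit 0) (XT.nd (nat_lit 78) (nat_lit 0) (nat_lit 0) (XT.lf (nat_lit 0) (nat_lit 192903426349) (nat_lit 76) (nat_lit 161557584865) (nat_lit 76) (nat_lit 152212657252) (nat_lit 3) (nat_lit 4) (nat_lit 4) (nat_lit 5) (nat_lit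 4) (nat_lit 4) (nat_lit 424) (nat_lit 333) (nat_lit 263)) (XT.lf (nat_lit 0) (nat_lit 241824162615) (nat_lit 76) (nat_lit 156947854269) (nat_lit 76) (nat_lit 147599745605) (nat_lit 3) (nat_lit 4) (nat_lit 4) (nat_lit 5) (nat_lit 4) (nat_lit 4) (nat_lit 425) (nat_lit 333) (nat_lit 262))) (XT.nd (nat_lit 78) (nat_lit 0) (nat_lit 0) (XT.lf (nat_lit 0) (nat_lit 294636894276) (nat_lit 76) (nat_lit 151980202256) (nat_lit 76) (nat_lit 142629148176) (nat_lit 3) (nat_lit 4) (nat_lit 4) (nat_lit 5) (nat_lit 4) (nat_lit 4) (nat_lit 426) (nat_lit 333) (nat_lit 261)) (XT.lf (nat_lit 0) (nat_lit 351654585668) (nat_lit 76) (nat_lit 146625190889) (nat_lit 76) (nat_lit 137271409572) (nat_lit 3) (nat_lit 4) (nat_lit 4) (nat_lit 5) (nat_lit 4) (nat_lit 4) (nat_lit 427) (nat_lit 333) (nat_lit 260))))))) (XT.nd (nat_lit 47346) (nat_lit 0) (nat_lit 3420) (XT.nd (nat_lit 468) (nat_lit 0) (nat_lit 0) (XT.nd (nat_lit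 234) (nat_lit 0) (nat_lit 0) (XT.nd (nat_lit 78) (nat_lit 0) (nat_lit 0) (XT.lf (nat_lit 0) (nat_lit 413215119406) (nat_lit 76) (nat_lit 140851086767) (nat_lit 76) (nat_lit 131494780230) (nat_lit 3) (nat_lit 4) (nat_lit 4) (nat_lit 5) (nat_lit 4) (nat_lit 4) (nat_lit 428) (nat_lit 333) (nat_lit 259)) (XT.nd (nat_lit 78) (nat_lit 0) (nat_lit 0) (XT.lf (nat_lit 0) (nat_lit 479683298655) (nat_lit 76) (nat_lit 134623672978) (nat_lit 76) (nat_lit 125265028273) (nat_lit 3) (nat_lit 4) (nat_lit 4) (nat_lit 5) (nat_lit 4) (nat_lit 4) (nat_lit 429) (nat_lit 333) (nat_lit 258)) (XT.lf (nat_lit 0) (nat_lit 551453008919) (nat_lit 76) (nat_lit 127906046327) (nat_lit 76) (nat_lit 118545236654) (nat_lit 3) (nat_lit 4) (nat_lit 4) (nat_lit 5) (nat_lit 4) (nat_lit 4) (nat_lit 430) (nat_lit 333) (nat_lit 257)))) (XT.nd (nat_lit 78) (nat_lit 0) (nat_lit 0) (XT.lf (nat_lit 0) (nat_lit 628949552186) (nat_lit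 76) (nat_lit 120658398657) (nat_lit 76) (nat_lit 111295584383) (nat_lit 3) (nat_lit 4) (nat_lit 4) (nat_lit 5) (nat_lit 4) (nat_lit 4) (nat_lit 431) (nat_lit 333) (nat_lit 256)) (XT.nd (nat_lit 78) (nat_lit 0) (nat_lit 0) (XT.lf (nat_lit 0) (nat_lit 712632167231) (nat_lit 76) (nat_lit 112837780946) (nat_lit 76) (nat_lit 103473110559) (nat_lit 3) (nat_lit 4) (nat_lit 4) (nat_lit 5) (nat_lit 4) (nat_lit 4) (nat_lit 432) (nat_lit 333) (nat_lit 255)) (XT.lf (nat_lit 0) (nat_lit 802996751032) (nat_lit 76) (nat_lit 104397848791) (nat_lit 76) (nat_lit 95031459782) (nat_lit 3) (nat_lit 4) (nat_lit 4) (nat_lit 5) (nat_lit 4) (nat_lit 4) (nat_lit 433) (nat_lit 333) (nat_lit 254))))) (XT.nd (nat_lit 234) (nat_lit 0) (nat_lit 0) (XT.nd (nat_lit 78) (nat_lit 0) (nat_lit 0) (XT.lf (nat_lit 0) (nat_lit 900578797418) (nat_lit 76) (nat_lit 95288587780) (nat_lit 76) (nat_lit 85920607454) (nat_lit 3) (nat_lit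 4) (nat_lit 4) (nat_lit 5) (nat_lit 4) (nat_lit 4) (nat_lit 434) (nat_lit 333) (nat_lit 253)) (XT.nd (nat_lit 78) (nat_lit 0) (nat_lit 0) (XT.lf (nat_lit 0) (nat_lit 1005956570369) (nat_lit 76) (nat_lit 85456017106) (nat_lit 76) (nat_lit 76086563339) (nat_lit 3) (nat_lit 4) (nat_lit 4) (nat_lit 5) (nat_lit 4) (nat_lit 4) (nat_lit 435) (nat_lit 333) (nat_lit 252)) (XT.lf (nat_lit 0) (nat_lit 1119754530761) (nat_lit 76) (nat_lit 74841869686) (nat_lit 76) (nat_lit 65471051620) (nat_lit 3) (nat_lit 4) (nat_lit 4) (nat_lit 5) (nat_lit 4) (nat_lit 4) (nat_lit 436) (nat_lit 333) (nat_lit 251)))) (XT.nd (nat_lit 46488) (nat_lit 0) (nat_lit 7448) (XT.nd (nat_lit 78) (nat_lit 0) (nat_lit 0) (XT.lf (nat_lit 0) (nat_lit 1242647036878) (nat_lit 76) (nat_lit 63383246866) (nat_lit 76) (nat_lit 54011165562) (nat_lit 3) (nat_lit 4) (nat_lit 4) (nat_lit 5) (nat_lit 4) (nat_lit 4) (nat_lit 437) (nat_lit 333)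 (nat_lit 250)) (XT.lf (nat_lit 0) (nat_lit 1375362340608) (nat_lit 76) (nat_lit 51012245697) (nat_lit 76) (nat_lit 41638994728) (nat_lit 3) (nat_lit 4) (nat_lit 4) (nat_lit 5) (nat_lit 4) (nat_lit 4) (nat_lit 438) (nat_lit 333) (nat_lit 249))) (XT.nd (nat_lit 78) (nat_lit 380) (nat_lit 0) (XT.lf (nat_lit 0) (nat_lit 317394861) (nat_lit 456) (nat_lit 3117332959) (nat_lit 0) (nat_lit 317394861) (nat_lit 106) (nat_lit 5) (nat_lit 112) (nat_lit 4) (nat_lit 106) (nat_lit 4) (nat_lit 352) (nat_lit 334) (nat_lit 334)) (XT.lf (nat_lit 0) (nat_lit 2980522286) (nat_lit 380) (nat_lit 3454962640) (nat_lit 380) (nat_lit 1258004833) (nat_lit 101) (nat_lit 4) (nat_lit 106) (nat_lit 5) (nat_lit 106) (nat_lit 4) (nat_lit 353) (nat_lit 334) (nat_lit 333)))))) (XT.nd (nat_lit 546) (nat_lit 1596) (nat_lit 0) (XT.nd (nat_lit 234) (nat_lit 1140) (nat_lit 0) (XT.nd (nat_lit 78) (nat_lit 912) (nat_lit 0) (XT.lf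 (nat_lit 0) (nat_lit 4433012458) (nat_lit 380) (nat_lit 3068805908) (nat_lit 0) (nat_lit 403319126) (nat_lit 96) (nat_lit 5) (nat_lit 101) (nat_lit 4) (nat_lit 96) (nat_lit 4) (nat_lit 354) (nat_lit 334) (nat_lit 332)) (XT.nd (nat_lit 78) (nat_lit 532) (nat_lit 0) (XT.lf (nat_lit 0) (nat_lit 2185355702) (nat_lit 380) (nat_lit 1343559107) (nat_lit 76) (nat_lit 4609113748) (nat_lit 91) (nat_lit 5) (nat_lit 96) (nat_lit 5) (nat_lit 92) (nat_lit 4) (nat_lit 355) (nat_lit 334) (nat_lit 331)) (XT.lf (nat_lit 0) (nat_lit 516207854) (nat_lit 304) (nat_lit 7503251274) (nat_lit 304) (nat_lit 375150455) (nat_lit 84) (nat_lit 4) (nat_lit 88) (nat_lit 5) (nat_lit 88) (nat_lit 4) (nat_lit 356) (nat_lit 334) (nat_lit 330)))) (XT.nd (nat_lit 156) (nat_lit 532) (nat_lit 0) (XT.nd (nat_lit 78) (nat_lit 304) (nat_lit 0) (XT.lf (nat_lit 0) (nat_lit 2459820001) (nat_lit 228) (nat_lit 2931701386) (nat_lit 304)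 (nat_lit 3279765306) (nat_lit 80) (nat_lit 5) (nat_lit 83) (nat_lit 5) (nat_lit 84) (nat_lit 4) (nat_lit 357) (nat_lit 334) (nat_lit 329)) (XT.lf (nat_lit 0) (nat_lit 2442656262) (nat_lit 304) (nat_lit 4467793442) (nat_lit 76) (nat_lit 2062906362) (nat_lit 76) (nat_lit 5) (nat_lit 80) (nat_lit 5) (nat_lit 77) (nat_lit 4) (nat_lit 358) (nat_lit 334) (nat_lit 328))) (XT.nd (nat_lit 78) (nat_lit 304) (nat_lit 0) (XT.lf (nat_lit 0) (nat_lit 6621637527) (nat_lit 228) (nat_lit 1813885167) (nat_lit 304) (nat_lit 865137571) (nat_lit 73) (nat_lit 5) (nat_lit 76) (nat_lit 5) (nat_lit 77) (nat_lit 4) (nat_lit 359) (nat_lit 334) (nat_lit 327)) (XT.lf (nat_lit 0) (nat_lit 5037980268) (nat_lit 304) (nat_lit 889798238) (nat_lit 76) (nat_lit 3724765528) (nat_lit 69) (nat_lit 5) (nat_lit 73) (nat_lit 5) (nat_lit 70) (nat_lit 4) (nat_lit 360) (nat_lit 334) (nat_lit 326))))) (XT.nd (nat_lit 234) (nat_lit 760)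 (nat_lit 0) (XT.nd (nat_lit 78) (nat_lit 380) (nat_lit 0) (XT.lf (nat_lit 0) (nat_lit 995726140) (nat_lit 228) (nat_lit 267082174) (nat_lit 304) (nat_lit 8770367359) (nat_lit 63) (nat_lit 5) (nat_lit 66) (nat_lit 5) (nat_lit 67) (nat_lit 5) (nat_lit 361) (nat_lit 334) (nat_lit 325)) (XT.nd (nat_lit 78) (nat_lit 228) (nat_lit 0) (XT.lf (nat_lit 0) (nat_lit 2861060147) (nat_lit 152) (nat_lit 4619751588) (nat_lit 228) (nat_lit 2958155584) (nat_lit 61) (nat_lit 5) (nat_lit 63) (nat_lit 5) (nat_lit 64) (nat_lit 4) (nat_lit 362) (nat_lit 334) (nat_lit 324)) (XT.lf (nat_lit 0) (nat_lit 3178816230) (nat_lit 228) (nat_lit 6123363018) (nat_lit 76) (nat_lit 1574237479) (nat_lit 58) (nat_lit 5) (nat_lit 61) (nat_lit 5) (nat_lit 59) (nat_lit 4) (nat_lit 363) (nat_lit 334) (nat_lit 323)))) (XT.nd (nat_lit 156) (nat_lit 380) (nat_lit 0) (XT.nd (nat_lit 78) (nat_lit 228) (nat_lit 0) (XT.lf (nat_lit 0) (nat_lit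 6610582304) (nat_lit 152) (nat_lit 3122896114) (nat_lit 228) (nat_lit 1611520024) (nat_lit 56) (nat_lit 5) (nat_lit 58) (nat_lit 5) (nat_lit 59) (nat_lit 4) (nat_lit 364) (nat_lit 334) (nat_lit 322)) (XT.lf (nat_lit 0) (nat_lit 4824472758) (nat_lit 228) (nat_lit 3437524403) (nat_lit 76) (nat_lit 3584175529) (nat_lit 53) (nat_lit 5) (nat_lit 56) (nat_lit 5) (nat_lit 54) (nat_lit 4) (nat_lit 365) (nat_lit 334) (nat_lit 321))) (XT.nd (nat_lit 78) (nat_lit 228) (nat_lit 0) (XT.lf (nat_lit 0) (nat_lit 10184465800) (nat_lit 152) (nat_lit 1564929172) (nat_lit 228) (nat_lit 635264548) (nat_lit 51) (nat_lit 5) (nat_lit 53) (nat_lit 5) (nat_lit 54) (nat_lit 4) (nat_lit 366) (nat_lit 334) (nat_lit 320)) (XT.lf (nat_lit 0) (nat_lit 6142654453) (nat_lit 228) (nat_lit 1153623399) (nat_lit 76) (nat_lit 5661066645) (nat_lit 48) (nat_lit 5) (nat_lit 51) (nat_lit 5) (nat_lit 49) (nat_lit 4) (nat_lit 367) (nat_lit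 334) (nat_lit 319))))))))
noncomputable def xc36 : XT := (XT.nd (nat_lit 2028) (nat_lit 684) (nat_lit 0) (XT.nd (nat_lit 1014) (nat_lit 912) (nat_lit 0) (XT.nd (nat_lit 468) (nat_lit 760) (nat_lit 0) (XT.nd (nat_lit 234) (nat_lit 456) (nat_lit 0) (XT.nd (nat_lit 78) (nat_lit 456) (nat_lit 0) (XT.lf (nat_lit 0) (nat_lit 13394823440) (nat_lit 76) (nat_lit 73297999) (nat_lit 152) (nat_lit 105876689) (nat_lit 47) (nat_lit 5) (nat_lit 48) (nat_lit 5) (nat_lit 49) (nat_lit 4) (nat_lit 368) (nat_lit 334) (nat_lit 318)) (XT.nd (nat_lit 78) (nat_lit 152) (nat_lit 0) (XT.lf (nat_lit 0) (nat_lit 513759090) (nat_lit 76) (nat_lit 6542366362) (nat_lit 152) (nat_lit 7171082103) (nat_lit 43) (nat_lit 5) (nat_lit 44) (nat_lit 5) (nat_lit 45) (nat_lit 4) (nat_lit 369) (nat_lit 334) (nat_lit 317)) (XT.lf (nat_lit 0) (nat_lit 1078093497) (nat_lit 152) (nat_lit 13751938822) (nat_lit 152) (nat_lit 100465307) (nat_lit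 41) (nat_lit 4) (nat_lit 43) (nat_lit 5) (nat_lit 43) (nat_lit 4) (nat_lit 370) (nat_lit 334) (nat_lit 316)))) (XT.nd (nat_lit 78) (nat_lit 304) (nat_lit 0) (XT.lf (nat_lit 0) (nat_lit 1252610914) (nat_lit 76) (nat_lit 6182318687) (nat_lit 152) (nat_lit 8242260724) (nat_lit 39) (nat_lit 5) (nat_lit 40) (nat_lit 5) (nat_lit 41) (nat_lit 4) (nat_lit 371) (nat_lit 334) (nat_lit 315)) (XT.nd (nat_lit 78) (nat_lit 152) (nat_lit 0) (XT.lf (nat_lit 0) (nat_lit 1179963783) (nat_lit 152) (nat_lit 14460283561) (nat_lit 152) (nat_lit 839793608) (nat_lit 37) (nat_lit 4) (nat_lit 39) (nat_lit 5) (nat_lit 39) (nat_lit 4) (nat_lit 372) (nat_lit 334) (nat_lit 314)) (XT.lf (nat_lit 0) (nat_lit 613405461) (nat_lit 76) (nat_lit 6464392568) (nat_lit 152) (nat_lit 10256171065) (nat_lit 35) (nat_lit 5) (nat_lit 36) (nat_lit 5) (nat_lit 37) (nat_lit 4) (nat_lit 373) (nat_lit 334) (nat_lit 313))))) (XT.nd (nat_lit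 234) (nat_lit 456) (nat_lit 0) (XT.nd (nat_lit 78) (nat_lit 304) (nat_lit 0) (XT.lf (nat_lit 0) (nat_lit 15694666865) (nat_lit 152) (nat_lit 338841264) (nat_lit 0) (nat_lit 2217279310) (nat_lit 35) (nat_lit 5) (nat_lit 37) (nat_lit 4) (nat_lit 35) (nat_lit 4) (nat_lit 374) (nat_lit 334) (nat_lit 312)) (XT.nd (nat_lit 78) (nat_lit 76) (nat_lit 0) (XT.lf (nat_lit 0) (nat_lit 5765595624) (nat_lit 228) (nat_lit 1882939834) (nat_lit 76) (nat_lit 11578444079) (nat_lit 32) (nat_lit 5) (nat_lit 35) (nat_lit 5) (nat_lit 33) (nat_lit 4) (nat_lit 375) (nat_lit 334) (nat_lit 311)) (XT.lf (nat_lit 0) (nat_lit 14761178381) (nat_lit 152) (nat_lit 4000302866) (nat_lit 0) (nat_lit 1512830020) (nat_lit 31) (nat_lit 5) (nat_lit 33) (nat_lit 4) (nat_lit 31) (nat_lit 4) (nat_lit 376) (nat_lit 334) (nat_lit 310)))) (XT.nd (nat_lit 156) (nat_lit 228) (nat_lit 0) (XT.nd (nat_lit 78) (nat_lit 76) (nat_lit 0) (XT.lf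 (nat_lit 0) (nat_lit 3183242902) (nat_lit 152) (nat_lit 6906434903) (nat_lit 76) (nat_lit 11302847463) (nat_lit 29) (nat_lit 5) (nat_lit 31) (nat_lit 5) (nat_lit 30) (nat_lit 4) (nat_lit 377) (nat_lit 334) (nat_lit 309)) (XT.lf (nat_lit 0) (nat_lit 11952185553) (nat_lit 76) (nat_lit 513371977) (nat_lit 152) (nat_lit 10125970071) (nat_lit 28) (nat_lit 5) (nat_lit 29) (nat_lit 5) (nat_lit 30) (nat_lit 4) (nat_lit 378) (nat_lit 334) (nat_lit 308))) (XT.nd (nat_lit 78) (nat_lit 152) (nat_lit 0) (XT.lf (nat_lit 0) (nat_lit 8476174390) (nat_lit 76) (nat_lit 14251469554) (nat_lit 76) (nat_lit 1146964697) (nat_lit 27) (nat_lit 4) (nat_lit 28) (nat_lit 5) (nat_lit 28) (nat_lit 4) (nat_lit 379) (nat_lit 334) (nat_lit 307)) (XT.lf (nat_lit 0) (nat_lit 3913115172) (nat_lit 76) (nat_lit 4455923339) (nat_lit 152) (nat_lit 16880021519) (nat_lit 25) (nat_lit 5) (nat_lit 26) (nat_lit 5) (nat_lit 27) (nat_lit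 4) (nat_lit 380) (nat_lit 334) (nat_lit 306)))))) (XT.nd (nat_lit 468) (nat_lit 456) (nat_lit 0) (XT.nd (nat_lit 234) (nat_lit 228) (nat_lit 0) (XT.nd (nat_lit 78) (nat_lit 228) (nat_lit 0) (XT.lf (nat_lit 0) (nat_lit 18814417036) (nat_lit 152) (nat_lit 1828563601) (nat_lit 0) (nat_lit 6079147374) (nat_lit 25) (nat_lit 5) (nat_lit 27) (nat_lit 4) (nat_lit 25) (nat_lit 4) (nat_lit 381) (nat_lit 334) (nat_lit 305)) (XT.nd (nat_lit 78) (nat_lit 76) (nat_lit 0) (XT.lf (nat_lit 0) (nat_lit 1960138745) (nat_lit 152) (nat_lit 8830406194) (nat_lit 76) (nat_lit 17509377858) (nat_lit 23) (nat_lit 5) (nat_lit 25) (nat_lit 5) (nat_lit 24) (nat_lit 4) (nat_lit 382) (nat_lit 334) (nat_lit 304)) (XT.lf (nat_lit 0) (nat_lit 12429262482) (nat_lit 152) (nat_lit 17471368380) (nat_lit 0) (nat_lit 92395786) (nat_lit 22) (nat_lit 5) (nat_lit 24) (nat_lit 4) (nat_lit 22) (nat_lit 4) (nat_lit 383) (nat_lit 334)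 (nat_lit 303)))) (XT.nd (nat_lit 78) (nat_lit 152) (nat_lit 0) (XT.lf (nat_lit 0) (nat_lit 3747883930) (nat_lit 76) (nat_lit 20245162883) (nat_lit 76) (nat_lit 7815686480) (nat_lit 21) (nat_lit 4) (nat_lit 22) (nat_lit 5) (nat_lit 22) (nat_lit 4) (nat_lit 384) (nat_lit 334) (nat_lit 302)) (XT.nd (nat_lit 78) (nat_lit 76) (nat_lit 0) (XT.lf (nat_lit 0) (nat_lit 2799187547) (nat_lit 152) (nat_lit 6776891659) (nat_lit 76) (nat_lit 24182821763) (nat_lit 20) (nat_lit 5) (nat_lit 22) (nat_lit 5) (nat_lit 21) (nat_lit 4) (nat_lit 385) (nat_lit 334) (nat_lit 301)) (XT.lf (nat_lit 0) (nat_lit 14157831829) (nat_lit 152) (nat_lit 19529480931) (nat_lit 0) (nat_lit 2162951801) (nat_lit 19) (nat_lit 5) (nat_lit 21) (nat_lit 4) (nat_lit 19) (nat_lit 4) (nat_lit 386) (nat_lit 334) (nat_lit 300))))) (XT.nd (nat_lit 234) (nat_lit 228) (nat_lit 0) (XT.nd (nat_lit 78) (nat_lit 152) (nat_lit 0) (XT.lf (nat_lit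 0) (nat_lit 3103422473) (nat_lit 76) (nat_lit 23530003008) (nat_lit 76) (nat_lit 11465107198) (nat_lit 18) (nat_lit 4) (nat_lit 19) (nat_lit 5) (nat_lit 19) (nat_lit 4) (nat_lit 387) (nat_lit 334) (nat_lit 299)) (XT.nd (nat_lit 78) (nat_lit 152) (nat_lit 0) (XT.lf (nat_lit 0) (nat_lit 28016941716) (nat_lit 76) (nat_lit 12314126697) (nat_lit 76) (nat_lit 184401459) (nat_lit 18) (nat_lit 4) (nat_lit 19) (nat_lit 5) (nat_lit 19) (nat_lit 4) (nat_lit 388) (nat_lit 334) (nat_lit 298)) (XT.lf (nat_lit 0) (nat_lit 11690492743) (nat_lit 152) (nat_lit 31340916359) (nat_lit 0) (nat_lit 81204661) (nat_lit 16) (nat_lit 5) (nat_lit 18) (nat_lit 4) (nat_lit 16) (nat_lit 4) (nat_lit 389) (nat_lit 334) (nat_lit 297)))) (XT.nd (nat_lit 156) (nat_lit 152) (nat_lit 0) (XT.nd (nat_lit 78) (nat_lit 76) (nat_lit 0) (XT.lf (nat_lit 0) (nat_lit 24831908884) (nat_lit 152) (nat_lit 7899639164) (nat_lit 0) (nat_lit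 13169686720) (nat_lit 16) (nat_lit 5) (nat_lit 18) (nat_lit 4) (nat_lit 16) (nat_lit 4) (nat_lit 390) (nat_lit 334) (nat_lit 296)) (XT.lf (nat_lit 0) (nat_lit 17793347619) (nat_lit 76) (nat_lit 21410928489) (nat_lit 76) (nat_lit 9699693287) (nat_lit 15) (nat_lit 4) (nat_lit 16) (nat_lit 5) (nat_lit 16) (nat_lit 4) (nat_lit 391) (nat_lit 334) (nat_lit 295))) (XT.nd (nat_lit 78) (nat_lit 76) (nat_lit 0) (XT.lf (nat_lit 0) (nat_lit 2541491047) (nat_lit 152) (nat_lit 6546560997) (nat_lit 76) (nat_lit 43054635145) (nat_lit 14) (nat_lit 5) (nat_lit 16) (nat_lit 5) (nat_lit 15) (nat_lit 4) (nat_lit 392) (nat_lit 334) (nat_lit 294)) (XT.lf (nat_lit 0) (nat_lit 15727714254) (nat_lit 152) (nat_lit 35398647882) (nat_lit 0) (nat_lit 4490915755) (nat_lit 13) (nat_lit 5) (nat_lit 15) (nat_lit 4) (nat_lit 13) (nat_lit 4) (nat_lit 393) (nat_lit 334) (nat_lit 293))))))) (XT.nd (nat_lit 1014) (nat_lit 228)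 (nat_lit 0) (XT.nd (nat_lit 468) (nat_lit 228) (nat_lit 0) (XT.nd (nat_lit 234) (nat_lit 152) (nat_lit 0) (XT.nd (nat_lit 78) (nat_lit 76) (nat_lit 0) (XT.lf (nat_lit 0) (nat_lit 30152381592) (nat_lit 152) (nat_lit 10329753625) (nat_lit 0) (nat_lit 18878527730) (nat_lit 13) (nat_lit 5) (nat_lit 15) (nat_lit 4) (nat_lit 13) (nat_lit 4) (nat_lit 394) (nat_lit 334) (nat_lit 292)) (XT.nd (nat_lit 78) (nat_lit 0) (nat_lit 0) (XT.lf (nat_lit 0) (nat_lit 17136343593) (nat_lit 76) (nat_lit 28782964689) (nat_lit 76) (nat_lit 17474800307) (nat_lit 12) (nat_lit 4) (nat_lit 13) (nat_lit 5) (nat_lit 13) (nat_lit 4) (nat_lit 395) (nat_lit 334) (nat_lit 291)) (XT.lf (nat_lit 0) (nat_lit 47018635574) (nat_lit 76) (nat_lit 16033160560) (nat_lit 76) (nat_lit 4693227178) (nat_lit 12) (nat_lit 4) (nat_lit 13) (nat_lit 5) (nat_lit 13) (nat_lit 4) (nat_lit 396) (nat_lit 334) (nat_lit 290)))) (XT.nd (nat_lit 78)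 (nat_lit 0) (nat_lit 0) (XT.lf (nat_lit 0) (nat_lit 6781073535) (nat_lit 76) (nat_lit 2072791176) (nat_lit 152) (nat_lit 63581307639) (nat_lit 10) (nat_lit 5) (nat_lit 11) (nat_lit 5) (nat_lit 12) (nat_lit 4) (nat_lit 397) (nat_lit 334) (nat_lit 289)) (XT.nd (nat_lit 78) (nat_lit 0) (nat_lit 0) (XT.lf (nat_lit 0) (nat_lit 23823339646) (nat_lit 152) (nat_lit 40678749372) (nat_lit 0) (nat_lit 12969448293) (nat_lit 10) (nat_lit 5) (nat_lit 12) (nat_lit 4) (nat_lit 10) (nat_lit 4) (nat_lit 398) (nat_lit 334) (nat_lit 288)) (XT.lf (nat_lit 0) (nat_lit 39961296801) (nat_lit 152) (nat_lit 13867584209) (nat_lit 0) (nat_lit 29083387108) (nat_lit 10) (nat_lit 5) (nat_lit 12) (nat_lit 4) (nat_lit 10) (nat_lit 4) (nat_lit 399) (nat_lit 334) (nat_lit 287))))) (XT.nd (nat_lit 234) (nat_lit 152) (nat_lit 0) (XT.nd (nat_lit 78) (nat_lit 0) (nat_lit 0) (XT.lf (nat_lit 0) (nat_lit 15465636692) (nat_lit 76)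 (nat_lit 42106831673) (nat_lit 76) (nat_lit 31206682777) (nat_lit 9) (nat_lit 4) (nat_lit 10) (nat_lit 5) (nat_lit 10) (nat_lit 4) (nat_lit 400) (nat_lit 334) (nat_lit 286)) (XT.nd (nat_lit 78) (nat_lit 0) (nat_lit 0) (XT.lf (nat_lit 0) (nat_lit 47528008732) (nat_lit 76) (nat_lit 29249436841) (nat_lit 76) (nat_lit 18328696090) (nat_lit 9) (nat_lit 4) (nat_lit 10) (nat_lit 5) (nat_lit 10) (nat_lit 4) (nat_lit 401) (nat_lit 334) (nat_lit 285)) (XT.lf (nat_lit 0) (nat_lit 82051006189) (nat_lit 76) (nat_lit 15415358793) (nat_lit 76) (nat_lit 4475551510) (nat_lit 9) (nat_lit 4) (nat_lit 10) (nat_lit 5) (nat_lit 10) (nat_lit 4) (nat_lit 402) (nat_lit 334) (nat_lit 284)))) (XT.nd (nat_lit 156) (nat_lit 0) (nat_lit 0) (XT.nd (nat_lit 78) (nat_lit 0) (nat_lit 0) (XT.lf (nat_lit 0) (nat_lit 10071664884) (nat_lit 76) (nat_lit 186445537) (nat_lit 152) (nat_lit 99052865302) (nat_lit 7) (nat_lit 5) (nat_lit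 8) (nat_lit 5) (nat_lit 9) (nat_lit 4) (nat_lit 403) (nat_lit 334) (nat_lit 283)) (XT.lf (nat_lit 0) (nat_lit 26573893151) (nat_lit 152) (nat_lit 74541340964) (nat_lit 0) (nat_lit 16122647476) (nat_lit 7) (nat_lit 5) (nat_lit 9) (nat_lit 4) (nat_lit 7) (nat_lit 4) (nat_lit 404) (nat_lit 334) (nat_lit 282))) (XT.nd (nat_lit 78) (nat_lit 0) (nat_lit 0) (XT.lf (nat_lit 0) (nat_lit 44153721009) (nat_lit 152) (nat_lit 47959221059) (nat_lit 0) (nat_lit 33688060450) (nat_lit 7) (nat_lit 5) (nat_lit 9) (nat_lit 4) (nat_lit 7) (nat_lit 4) (nat_lit 405) (nat_lit 334) (nat_lit 281)) (XT.lf (nat_lit 0) (nat_lit 63098859816) (nat_lit 152) (nat_lit 19332516512) (nat_lit 0) (nat_lit 52619852143) (nat_lit 7) (nat_lit 5) (nat_lit 9) (nat_lit 4) (nat_lit 7) (nat_lit 4) (nat_lit 406) (nat_lit 334) (nat_lit 280)))))) (XT.nd (nat_lit 468) (nat_lit 0) (nat_lit 0) (XT.nd (nat_lit 234) (nat_lit 152) (nat_lit 0)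 (XT.nd (nat_lit 78) (nat_lit 0) (nat_lit 0) (XT.lf (nat_lit 0) (nat_lit 11888932493) (nat_lit 76) (nat_lit 71818264123) (nat_lit 76) (nat_lit 61326898010) (nat_lit 6) (nat_lit 4) (nat_lit 7) (nat_lit 5) (nat_lit 7) (nat_lit 4) (nat_lit 407) (nat_lit 334) (nat_lit 279)) (XT.nd (nat_lit 78) (nat_lit 0) (nat_lit 0) (XT.lf (nat_lit 0) (nat_lit 46225842398) (nat_lit 76) (nat_lit 60038768804) (nat_lit 76) (nat_lit 49535959691) (nat_lit 6) (nat_lit 4) (nat_lit 7) (nat_lit 5) (nat_lit 7) (nat_lit 4) (nat_lit 408) (nat_lit 334) (nat_lit 278)) (XT.lf (nat_lit 0) (nat_lit 83242470884) (nat_lit 76) (nat_lit 47350491475) (nat_lit 76) (nat_lit 36837086993) (nat_lit 6) (nat_lit 4) (nat_lit 7) (nat_lit 5) (nat_lit 7) (nat_lit 4) (nat_lit 409) (nat_lit 334) (nat_lit 277)))) (XT.nd (nat_lit 78) (nat_lit 152) (nat_lit 0) (XT.lf (nat_lit 0) (nat_lit 123158175748) (nat_lit 76) (nat_lit 33678242346) (nat_lit 76)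 (nat_lit 23155027336) (nat_lit 6) (nat_lit 4) (nat_lit 7) (nat_lit 5) (nat_lit 7) (nat_lit 4) (nat_lit 410) (nat_lit 334) (nat_lit 276)) (XT.nd (nat_lit 78) (nat_lit 152) (nat_lit 0) (XT.lf (nat_lit 0) (nat_lit 166209494502) (nat_lit 76) (nat_lit 18941000681) (nat_lit 76) (nat_lit 8408701849) (nat_lit 6) (nat_lit 4) (nat_lit 7) (nat_lit 5) (nat_lit 7) (nat_lit 4) (nat_lit 411) (nat_lit 334) (nat_lit 275)) (XT.lf (nat_lit 0) (nat_lit 4463780709) (nat_lit 76) (nat_lit 2855482943) (nat_lit 152) (nat_lit 200885110959) (nat_lit 4) (nat_lit 5) (nat_lit 5) (nat_lit 5) (nat_lit 6) (nat_lit 4) (nat_lit 412) (nat_lit 334) (nat_lit 274))))) (XT.nd (nat_lit 234) (nat_lit 0) (nat_lit 0) (XT.nd (nat_lit 78) (nat_lit 0) (nat_lit 0) (XT.lf (nat_lit 0) (nat_lit 24699317481) (nat_lit 152) (nat_lit 184627405664) (nat_lit 0) (nat_lit 14653129203) (nat_lit 4) (nat_lit 5) (nat_lit 6) (nat_lit 4) (nat_lit 4) (nat_lit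 4) (nat_lit 413) (nat_lit 334) (nat_lit 273)) (XT.nd (nat_lit 78) (nat_lit 0) (nat_lit 0) (XT.lf (nat_lit 0) (nat_lit 43493516103) (nat_lit 152) (nat_lit 164082205818) (nat_lit 0) (nat_lit 33440460177) (nat_lit 4) (nat_lit 5) (nat_lit 6) (nat_lit 4) (nat_lit 4) (nat_lit 4) (nat_lit 414) (nat_lit 334) (nat_lit 272)) (XT.lf (nat_lit 0) (nat_lit 63768650455) (nat_lit 152) (nat_lit 141938662941) (nat_lit 0) (nat_lit 53709235595) (nat_lit 4) (nat_lit 5) (nat_lit 6) (nat_lit 4) (nat_lit 4) (nat_lit 4) (nat_lit 415) (nat_lit 334) (nat_lit 271)))) (XT.nd (nat_lit 156) (nat_lit 0) (nat_lit 0) (XT.nd (nat_lit 78) (nat_lit 0) (nat_lit 0) (XT.lf (nat_lit 0) (nat_lit 85644869482) (nat_lit 152) (nat_lit 118065556038) (nat_lit 0) (nat_lit 75579566721) (nat_lit 4) (nat_lit 5) (nat_lit 6) (nat_lit 4) (nat_lit 4) (nat_lit 4) (nat_lit 416) (nat_lit 334) (nat_lit 270)) (XT.lf (nat_lit 0) (nat_lit 109251810038)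 (nat_lit 152) (nat_lit 92321414845) (nat_lit 0) (nat_lit 99181055515) (nat_lit 4) (nat_lit 5) (nat_lit 6) (nat_lit 4) (nat_lit 4) (nat_lit 4) (nat_lit 417) (nat_lit 334) (nat_lit 269))) (XT.nd (nat_lit 78) (nat_lit 0) (nat_lit 0) (XT.lf (nat_lit 0) (nat_lit 134729365103) (nat_lit 152) (nat_lit 64553681490) (nat_lit 0) (nat_lit 124653562654) (nat_lit 4) (nat_lit 5) (nat_lit 6) (nat_lit 4) (nat_lit 4) (nat_lit 4) (nat_lit 418) (nat_lit 334) (nat_lit 268)) (XT.lf (nat_lit 0) (nat_lit 162228512781) (nat_lit 152) (nat_lit 34597806441) (nat_lit 0) (nat_lit 152148036326) (nat_lit 4) (nat_lit 5) (nat_lit 6) (nat_lit 4) (nat_lit 4) (nat_lit 4) (nat_lit 419) (nat_lit 334) (nat_lit 267))))))))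
noncomputable def xc37 : XT := (XT.nd (nat_lit 48204) (nat_lit 0) (nat_lit 1520) (XT.nd (nat_lit 1014) (nat_lit 0) (nat_lit 0) (XT.nd (nat_lit 468) (nat_lit 0) (nat_lit 0) (XT.nd (nat_lit 234) (nat_lit 0) (nat_lit 0) (XT.nd (nat_lit 78) (nat_lit 76) (nat_lit 0) (XT.lf (nat_lit 0) (nat_lit 191912210985) (nat_lit 152) (nat_lit 2276273402) (nat_lit 0) (nat_lit 181827406746) (nat_lit 4) (nat_lit 5) (nat_lit 6) (nat_lit 4) (nat_lit 4) (nat_lit 4) (nat_lit 420) (nat_lit 334) (nat_lit 266)) (XT.nd (nat_lit 78) (nat_lit 0) (nat_lit 0) (XT.lf (nat_lit 0) (nat_lit 33680436959) (nat_lit 76) (nat_lit 190801772162) (nat_lit 76) (nat_lit 180712960716) (nat_lit 3) (nat_lit 4) (nat_lit 4) (nat_lit 5) (nat_lit 4) (nat_lit 4) (nat_lit 421) (nat_lit 334) (nat_lit 265)) (XT.lf (nat_lit 0) (nat_lit 72567679360) (nat_lit 76) (nat_lit 187116165917) (nat_lit 76) (nat_lit 177023644095) (nat_lit 3) (nat_lit 4) (nat_lit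 4) (nat_lit 5) (nat_lit 4) (nat_lit 4) (nat_lit 422) (nat_lit 334) (nat_lit 264)))) (XT.nd (nat_lit 78) (nat_lit 0) (nat_lit 0) (XT.lf (nat_lit 0) (nat_lit 114540632839) (nat_lit 76) (nat_lit 183148374813) (nat_lit 76) (nat_lit 173052417457) (nat_lit 3) (nat_lit 4) (nat_lit 4) (nat_lit 5) (nat_lit 4) (nat_lit 4) (nat_lit 423) (nat_lit 334) (nat_lit 263)) (XT.nd (nat_lit 78) (nat_lit 0) (nat_lit 0) (XT.lf (nat_lit 0) (nat_lit 159848026010) (nat_lit 76) (nat_lit 178874886016) (nat_lit 76) (nat_lit 168775747610) (nat_lit 3) (nat_lit 4) (nat_lit 4) (nat_lit 5) (nat_lit 4) (nat_lit 4) (nat_lit 424) (nat_lit 334) (nat_lit 262)) (XT.lf (nat_lit 0) (nat_lit 208758347129) (nat_lit 76) (nat_lit 174270375146) (nat_lit 76) (nat_lit 164168291323) (nat_lit 3) (nat_lit 4) (nat_lit 4) (nat_lit 5) (nat_lit 4) (nat_lit 4) (nat_lit 425) (nat_lit 334) (nat_lit 261))))) (XT.nd (nat_lit 234) (nat_lit 0) (nat_lit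 0) (XT.nd (nat_lit 78) (nat_lit 0) (nat_lit 0) (XT.lf (nat_lit 0) (nat_lit 261561435135) (nat_lit 76) (nat_lit 169307556214) (nat_lit 76) (nat_lit 159202745153) (nat_lit 3) (nat_lit 4) (nat_lit 4) (nat_lit 5) (nat_lit 4) (nat_lit 4) (nat_lit 426) (nat_lit 334) (nat_lit 260)) (XT.nd (nat_lit 78) (nat_lit 0) (nat_lit 0) (XT.lf (nat_lit 0) (nat_lit 318570197217) (nat_lit 76) (nat_lit 163957019921) (nat_lit 76) (nat_lit 153849683640) (nat_lit 3) (nat_lit 4) (nat_lit 4) (nat_lit 5) (nat_lit 4) (nat_lit 4) (nat_lit 427) (nat_lit 334) (nat_lit 259)) (XT.lf (nat_lit 0) (nat_lit 380122463076) (nat_lit 76) (nat_lit 158187059387) (nat_lit 76) (nat_lit 148077384939) (nat_lit 3) (nat_lit 4) (nat_lit 4) (nat_lit 5) (nat_lit 4) (nat_lit 4) (nat_lit 428) (nat_lit 334) (nat_lit 258)))) (XT.nd (nat_lit 156) (nat_lit 0) (nat_lit 0) (XT.nd (nat_lit 78) (nat_lit 0) (nat_lit 0) (XT.lf (nat_lit 0) (nat_lit 446582986880)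 (nat_lit 76) (nat_lit 151963482252) (nat_lit 76) (nat_lit 141851642835) (nat_lit 3) (nat_lit 4) (nat_lit 4) (nat_lit 5) (nat_lit 4) (nat_lit 4) (nat_lit 429) (nat_lit 334) (nat_lit 257)) (XT.lf (nat_lit 0) (nat_lit 518345608770) (nat_lit 76) (nat_lit 145249408059) (nat_lit 76) (nat_lit 135135564042) (nat_lit 3) (nat_lit 4) (nat_lit 4) (nat_lit 5) (nat_lit 4) (nat_lit 4) (nat_lit 430) (nat_lit 334) (nat_lit 256))) (XT.nd (nat_lit 78) (nat_lit 0) (nat_lit 0) (XT.lf (nat_lit 0) (nat_lit 595835588728) (nat_lit 76) (nat_lit 138005049703) (nat_lit 76) (nat_lit 127889349573) (nat_lit 3) (nat_lit 4) (nat_lit 4) (nat_lit 5) (nat_lit 4) (nat_lit 4) (nat_lit 431) (nat_lit 334) (nat_lit 255)) (XT.lf (nat_lit 0) (nat_lit 679512126635) (nat_lit 76) (nat_lit 130187477652) (nat_lit 76) (nat_lit 120070058900) (nat_lit 3) (nat_lit 4) (nat_lit 4) (nat_lit 5) (nat_lit 4) (nat_lit 4) (nat_lit 432) (nat_lit 334)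 (nat_lit 254)))))) (XT.nd (nat_lit 46644) (nat_lit 0) (nat_lit 6384) (XT.nd (nat_lit 234) (nat_lit 0) (nat_lit 0) (XT.nd (nat_lit 78) (nat_lit 0) (nat_lit 0) (XT.lf (nat_lit 0) (nat_lit 769871083455) (nat_lit 76) (nat_lit 121750365553) (nat_lit 76) (nat_lit 111631355484) (nat_lit 3) (nat_lit 4) (nat_lit 4) (nat_lit 5) (nat_lit 4) (nat_lit 4) (nat_lit 433) (nat_lit 334) (nat_lit 253)) (XT.nd (nat_lit 78) (nat_lit 0) (nat_lit 0) (XT.lf (nat_lit 0) (nat_lit 867447919675) (nat_lit 76) (nat_lit 112643715705) (nat_lit 76) (nat_lit 102523232194) (nat_lit 3) (nat_lit 4) (nat_lit 4) (nat_lit 5) (nat_lit 4) (nat_lit 4) (nat_lit 434) (nat_lit 334) (nat_lit 252)) (XT.lf (nat_lit 0) (nat_lit 972820868398) (nat_lit 76) (nat_lit 102813562775) (nat_lit 76) (nat_lit 92691714966) (nat_lit 3) (nat_lit 4) (nat_lit 4) (nat_lit 5) (nat_lit 4) (nat_lit 4) (nat_lit 435) (nat_lit 334) (nat_lit 251)))) (XT.nd (nat_lit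 78) (nat_lit 0) (nat_lit 0) (XT.lf (nat_lit 0) (nat_lit 1086614361912) (nat_lit 76) (nat_lit 92201654005) (nat_lit 76) (nat_lit 82078542958) (nat_lit 3) (nat_lit 4) (nat_lit 4) (nat_lit 5) (nat_lit 4) (nat_lit 4) (nat_lit 436) (nat_lit 334) (nat_lit 250)) (XT.nd (nat_lit 78) (nat_lit 0) (nat_lit 0) (XT.lf (nat_lit 0) (nat_lit 1209502732031) (nat_lit 76) (nat_lit 80745104011) (nat_lit 76) (nat_lit 70620823298) (nat_lit 3) (nat_lit 4) (nat_lit 4) (nat_lit 5) (nat_lit 4) (nat_lit 4) (nat_lit 437) (nat_lit 334) (nat_lit 249)) (XT.lf (nat_lit 0) (nat_lit 1342214206133) (nat_lit 76) (nat_lit 68376022125) (nat_lit 76) (nat_lit 58250658388) (nat_lit 3) (nat_lit 4) (nat_lit 4) (nat_lit 5) (nat_lit 4) (nat_lit 4) (nat_lit 438) (nat_lit 334) (nat_lit 248))))) (XT.nd (nat_lit 234) (nat_lit 1444) (nat_lit 0) (XT.nd (nat_lit 78) (nat_lit 1672) (nat_lit 0) (XT.lf (nat_lit 0) (nat_lit 2842001271) (nat_lit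 684) (nat_lit 373020118) (nat_lit 684) (nat_lit 373020118) (nat_lit 128) (nat_lit 4) (nat_lit 137) (nat_lit 5) (nat_lit 137) (nat_lit 4) (nat_lit 350) (nat_lit 335) (nat_lit 335)) (XT.nd (nat_lit 78) (nat_lit 836) (nat_lit 0) (XT.lf (nat_lit 0) (nat_lit 4747869096) (nat_lit 836) (nat_lit 329858395) (nat_lit 0) (nat_lit 2256518943) (nat_lit 117) (nat_lit 5) (nat_lit 128) (nat_lit 4) (nat_lit 117) (nat_lit 4) (nat_lit 351) (nat_lit 335) (nat_lit 334)) (XT.lf (nat_lit 0) (nat_lit 1006501345) (nat_lit 380) (nat_lit 1825038749) (nat_lit 456) (nat_lit 4681629143) (nat_lit 106) (nat_lit 5) (nat_lit 111) (nat_lit 5) (nat_lit 112) (nat_lit 4) (nat_lit 352) (nat_lit 335) (nat_lit 333)))) (XT.nd (nat_lit 156) (nat_lit 684) (nat_lit 0) (XT.nd (nat_lit 78) (nat_lit 304) (nat_lit 0) (XT.lf (nat_lit 0) (nat_lit 670883195) (nat_lit 456) (nat_lit 5228581879) (nat_lit 76) (nat_lit 1813792439) (nat_lit 100)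 (nat_lit 5) (nat_lit 106) (nat_lit 5) (nat_lit 101) (nat_lit 4) (nat_lit 353) (nat_lit 335) (nat_lit 332)) (XT.lf (nat_lit 0) (nat_lit 4061093721) (nat_lit 304) (nat_lit 2060137188) (nat_lit 380) (nat_lit 1812815175) (nat_lit 96) (nat_lit 5) (nat_lit 100) (nat_lit 5) (nat_lit 101) (nat_lit 4) (nat_lit 354) (nat_lit 335) (nat_lit 331))) (XT.nd (nat_lit 78) (nat_lit 304) (nat_lit 0) (XT.lf (nat_lit 0) (nat_lit 3567508309) (nat_lit 380) (nat_lit 2430841855) (nat_lit 76) (nat_lit 2178584596) (nat_lit 91) (nat_lit 5) (nat_lit 96) (nat_lit 5) (nat_lit 92) (nat_lit 4) (nat_lit 355) (nat_lit 335) (nat_lit 330)) (XT.lf (nat_lit 0) (nat_lit 724812707) (nat_lit 304) (nat_lit 892620608) (nat_lit 76) (nat_lit 6826021434) (nat_lit 87) (nat_lit 5) (nat_lit 91) (nat_lit 5) (nat_lit 88) (nat_lit 5) (nat_lit 356) (nat_lit 335) (nat_lit 329))))))) (XT.nd (nat_lit 1014) (nat_lit 1596) (nat_lit 0) (XT.nd (nat_lit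 468) (nat_lit 1444) (nat_lit 0) (XT.nd (nat_lit 234) (nat_lit 760) (nat_lit 0) (XT.nd (nat_lit 78) (nat_lit 532) (nat_lit 0) (XT.lf (nat_lit 0) (nat_lit 709074301) (nat_lit 228) (nat_lit 5539802261) (nat_lit 304) (nat_lit 2482566364) (nat_lit 80) (nat_lit 5) (nat_lit 83) (nat_lit 5) (nat_lit 84) (nat_lit 4) (nat_lit 357) (nat_lit 335) (nat_lit 328)) (XT.nd (nat_lit 78) (nat_lit 228) (nat_lit 0) (XT.lf (nat_lit 0) (nat_lit 2427667452) (nat_lit 228) (nat_lit 563150526) (nat_lit 304) (nat_lit 6053313241) (nat_lit 76) (nat_lit 5) (nat_lit 79) (nat_lit 5) (nat_lit 80) (nat_lit 5) (nat_lit 358) (nat_lit 335) (nat_lit 327)) (XT.lf (nat_lit 0) (nat_lit 4185037133) (nat_lit 228) (nat_lit 4601898353) (nat_lit 304) (nat_lit 594397704) (nat_lit 73) (nat_lit 5) (nat_lit 76) (nat_lit 5) (nat_lit 77) (nat_lit 4) (nat_lit 359) (nat_lit 335) (nat_lit 326)))) (XT.nd (nat_lit 78) (nat_lit 456) (nat_lit 0) (XT.lf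 (nat_lit 0) (nat_lit 5066203974) (nat_lit 304) (nat_lit 3760482686) (nat_lit 76) (nat_lit 918064687) (nat_lit 69) (nat_lit 5) (nat_lit 73) (nat_lit 5) (nat_lit 70) (nat_lit 4) (nat_lit 360) (nat_lit 335) (nat_lit 325)) (XT.nd (nat_lit 78) (nat_lit 228) (nat_lit 0) (XT.lf (nat_lit 0) (nat_lit 994489331) (nat_lit 228) (nat_lit 2316869362) (nat_lit 76) (nat_lit 6824440316) (nat_lit 66) (nat_lit 5) (nat_lit 69) (nat_lit 5) (nat_lit 67) (nat_lit 5) (nat_lit 361) (nat_lit 335) (nat_lit 324)) (XT.lf (nat_lit 0) (nat_lit 6944674554) (nat_lit 304) (nat_lit 894434111) (nat_lit 76) (nat_lit 2715916335) (nat_lit 63) (nat_lit 5) (nat_lit 67) (nat_lit 5) (nat_lit 64) (nat_lit 4) (nat_lit 362) (nat_lit 335) (nat_lit 323))))) (XT.nd (nat_lit 234) (nat_lit 684) (nat_lit 0) (XT.nd (nat_lit 78) (nat_lit 380) (nat_lit 0) (XT.lf (nat_lit 0) (nat_lit 539251437) (nat_lit 152) (nat_lit 1769099635) (nat_lit 228)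 (nat_lit 8696627999) (nat_lit 58) (nat_lit 5) (nat_lit 60) (nat_lit 5) (nat_lit 61) (nat_lit 5) (nat_lit 363) (nat_lit 335) (nat_lit 322)) (XT.nd (nat_lit 78) (nat_lit 228) (nat_lit 0) (XT.lf (nat_lit 0) (nat_lit 1937082248) (nat_lit 152) (nat_lit 6697901422) (nat_lit 228) (nat_lit 2850014063) (nat_lit 56) (nat_lit 5) (nat_lit 58) (nat_lit 5) (nat_lit 59) (nat_lit 4) (nat_lit 364) (nat_lit 335) (nat_lit 321)) (XT.lf (nat_lit 0) (nat_lit 3305729684) (nat_lit 152) (nat_lit 58317036) (nat_lit 228) (nat_lit 8636201931) (nat_lit 53) (nat_lit 5) (nat_lit 55) (nat_lit 5) (nat_lit 56) (nat_lit 5) (nat_lit 365) (nat_lit 335) (nat_lit 320)))) (XT.nd (nat_lit 156) (nat_lit 304) (nat_lit 0) (XT.nd (nat_lit 78) (nat_lit 228) (nat_lit 0) (XT.lf (nat_lit 0) (nat_lit 4548005245) (nat_lit 152) (nat_lit 5533759327) (nat_lit 228) (nat_lit 2467360086) (nat_lit 51) (nat_lit 5) (nat_lit 53) (nat_lit 5) (nat_lit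 54) (nat_lit 4) (nat_lit 366) (nat_lit 335) (nat_lit 319)) (XT.lf (nat_lit 0) (nat_lit 4093290010) (nat_lit 228) (nat_lit 7429527511) (nat_lit 76) (nat_lit 1614243228) (nat_lit 48) (nat_lit 5) (nat_lit 51) (nat_lit 5) (nat_lit 49) (nat_lit 4) (nat_lit 367) (nat_lit 335) (nat_lit 318))) (XT.nd (nat_lit 78) (nat_lit 228) (nat_lit 0) (XT.lf (nat_lit 0) (nat_lit 6714235030) (nat_lit 76) (nat_lit 4490176942) (nat_lit 152) (nat_lit 2560043303) (nat_lit 47) (nat_lit 5) (nat_lit 48) (nat_lit 5) (nat_lit 49) (nat_lit 4) (nat_lit 368) (nat_lit 335) (nat_lit 317)) (XT.lf (nat_lit 0) (nat_lit 4380112361) (nat_lit 228) (nat_lit 6884289729) (nat_lit 76) (nat_lit 3170219043) (nat_lit 44) (nat_lit 5) (nat_lit 47) (nat_lit 5) (nat_lit 45) (nat_lit 4) (nat_lit 369) (nat_lit 335) (nat_lit 316)))))) (XT.nd (nat_lit 546) (nat_lit 608) (nat_lit 0) (XT.nd (nat_lit 234) (nat_lit 608) (nat_lit 0) (XT.nd (nat_lit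 78) (nat_lit 304) (nat_lit 0) (XT.lf (nat_lit 0) (nat_lit 8180998377) (nat_lit 76) (nat_lit 3720911751) (nat_lit 152) (nat_lit 3248625836) (nat_lit 43) (nat_lit 5) (nat_lit 44) (nat_lit 5) (nat_lit 45) (nat_lit 4) (nat_lit 370) (nat_lit 335) (nat_lit 315)) (XT.nd (nat_lit 78) (nat_lit 76) (nat_lit 0) (XT.lf (nat_lit 0) (nat_lit 4092193689) (nat_lit 228) (nat_lit 7369158224) (nat_lit 76) (nat_lit 4453118167) (nat_lit 40) (nat_lit 5) (nat_lit 43) (nat_lit 5) (nat_lit 41) (nat_lit 4) (nat_lit 371) (nat_lit 335) (nat_lit 314)) (XT.lf (nat_lit 0) (nat_lit 8612722960) (nat_lit 76) (nat_lit 3416666464) (nat_lit 152) (nat_lit 4701353147) (nat_lit 39) (nat_lit 5) (nat_lit 40) (nat_lit 5) (nat_lit 41) (nat_lit 4) (nat_lit 372) (nat_lit 335) (nat_lit 313)))) (XT.nd (nat_lit 156) (nat_lit 304) (nat_lit 0) (XT.nd (nat_lit 78) (nat_lit 76) (nat_lit 0) (XT.lf (nat_lit 0) (nat_lit 3047105657) (nat_lit 228)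 (nat_lit 9291967322) (nat_lit 76) (nat_lit 5263262466) (nat_lit 36) (nat_lit 5) (nat_lit 39) (nat_lit 5) (nat_lit 37) (nat_lit 4) (nat_lit 373) (nat_lit 335) (nat_lit 312)) (XT.lf (nat_lit 0) (nat_lit 7566749913) (nat_lit 76) (nat_lit 3819376090) (nat_lit 152) (nat_lit 7146933083) (nat_lit 35) (nat_lit 5) (nat_lit 36) (nat_lit 5) (nat_lit 37) (nat_lit 4) (nat_lit 374) (nat_lit 335) (nat_lit 311))) (XT.nd (nat_lit 78) (nat_lit 76) (nat_lit 0) (XT.lf (nat_lit 0) (nat_lit 997290596) (nat_lit 228) (nat_lit 13187536233) (nat_lit 76) (nat_lit 5344240836) (nat_lit 32) (nat_lit 5) (nat_lit 35) (nat_lit 5) (nat_lit 33) (nat_lit 4) (nat_lit 375) (nat_lit 335) (nat_lit 310)) (XT.lf (nat_lit 0) (nat_lit 4459585659) (nat_lit 76) (nat_lit 5240164991) (nat_lit 152) (nat_lit 10891315391) (nat_lit 31) (nat_lit 5) (nat_lit 32) (nat_lit 5) (nat_lit 33) (nat_lit 4) (nat_lit 376) (nat_lit 335) (nat_lit 309)))))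 (XT.nd (nat_lit 234) (nat_lit 380) (nat_lit 0) (XT.nd (nat_lit 78) (nat_lit 152) (nat_lit 0) (XT.lf (nat_lit 0) (nat_lit 1934572199) (nat_lit 76) (nat_lit 17327889074) (nat_lit 76) (nat_lit 2467380566) (nat_lit 30) (nat_lit 4) (nat_lit 31) (nat_lit 5) (nat_lit 31) (nat_lit 4) (nat_lit 377) (nat_lit 335) (nat_lit 308)) (XT.nd (nat_lit 78) (nat_lit 76) (nat_lit 0) (XT.lf (nat_lit 0) (nat_lit 6628669479) (nat_lit 152) (nat_lit 1429258789) (nat_lit 76) (nat_lit 14886112432) (nat_lit 29) (nat_lit 5) (nat_lit 31) (nat_lit 5) (nat_lit 30) (nat_lit 4) (nat_lit 378) (nat_lit 335) (nat_lit 307)) (XT.lf (nat_lit 0) (nat_lit 16541125459) (nat_lit 152) (nat_lit 5604156084) (nat_lit 0) (nat_lit 2099329662) (nat_lit 28) (nat_lit 5) (nat_lit 30) (nat_lit 4) (nat_lit 28) (nat_lit 4) (nat_lit 379) (nat_lit 335) (nat_lit 306)))) (XT.nd (nat_lit 156) (nat_lit 152) (nat_lit 0) (XT.nd (nat_lit 78) (nat_lit 76)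 (nat_lit 0) (XT.lf (nat_lit 0) (nat_lit 1795604053) (nat_lit 152) (nat_lit 10889426856) (nat_lit 76) (nat_lit 12950495127) (nat_lit 26) (nat_lit 5) (nat_lit 28) (nat_lit 5) (nat_lit 27) (nat_lit 4) (nat_lit 380) (nat_lit 335) (nat_lit 305)) (XT.lf (nat_lit 0) (nat_lit 9699055349) (nat_lit 76) (nat_lit 2197804418) (nat_lit 152) (nat_lit 15228946880) (nat_lit 25) (nat_lit 5) (nat_lit 26) (nat_lit 5) (nat_lit 27) (nat_lit 4) (nat_lit 381) (nat_lit 335) (nat_lit 304))) (XT.nd (nat_lit 78) (nat_lit 76) (nat_lit 0) (XT.lf (nat_lit 0) (nat_lit 3292808435) (nat_lit 76) (nat_lit 19762541650) (nat_lit 76) (nat_lit 5667515409) (nat_lit 24) (nat_lit 4) (nat_lit 25) (nat_lit 5) (nat_lit 25) (nat_lit 4) (nat_lit 382) (nat_lit 335) (nat_lit 303)) (XT.lf (nat_lit 0) (nat_lit 4721800839) (nat_lit 152) (nat_lit 4512574712) (nat_lit 76) (nat_lit 21199083552) (nat_lit 23) (nat_lit 5) (nat_lit 25) (nat_lit 5)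 (nat_lit 24) (nat_lit 4) (nat_lit 383) (nat_lit 335) (nat_lit 302))))))))
noncomputable def xc38 : XT := (XT.nd (nat_lit 2028) (nat_lit 228) (nat_lit 0) (XT.nd (nat_lit 1014) (nat_lit 456) (nat_lit 0) (XT.nd (nat_lit 468) (nat_lit 380) (nat_lit 0) (XT.nd (nat_lit 234) (nat_lit 228) (nat_lit 0) (XT.nd (nat_lit 78) (nat_lit 152) (nat_lit 0) (XT.lf (nat_lit 0) (nat_lit 15946742180) (nat_lit 152) (nat_lit 13974822393) (nat_lit 0) (nat_lit 2344548228) (nat_lit 22) (nat_lit 5) (nat_lit 24) (nat_lit 4) (nat_lit 22) (nat_lit 4) (nat_lit 384) (nat_lit 335) (nat_lit 301)) (XT.nd (nat_lit 78) (nat_lit 76) (nat_lit 0) (XT.lf (nat_lit 0) (nat_lit 8729271724) (nat_lit 76) (nat_lit 19592550596) (nat_lit 76) (nat_lit 5910958747) (nat_lit 21) (nat_lit 4) (nat_lit 22) (nat_lit 5) (nat_lit 22) (nat_lit 4) (nat_lit 385) (nat_lit 335) (nat_lit 300)) (XT.lf (nat_lit 0) (nat_lit 5290722000) (nat_lit 152) (nat_lit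 2909128317) (nat_lit 76) (nat_lit 28146220234) (nat_lit 20) (nat_lit 5) (nat_lit 22) (nat_lit 5) (nat_lit 21) (nat_lit 4) (nat_lit 386) (nat_lit 335) (nat_lit 299)))) (XT.nd (nat_lit 78) (nat_lit 152) (nat_lit 0) (XT.lf (nat_lit 0) (nat_lit 17487996040) (nat_lit 152) (nat_lit 16797198965) (nat_lit 0) (nat_lit 4323063355) (nat_lit 19) (nat_lit 5) (nat_lit 21) (nat_lit 4) (nat_lit 19) (nat_lit 4) (nat_lit 387) (nat_lit 335) (nat_lit 298)) (XT.nd (nat_lit 78) (nat_lit 76) (nat_lit 0) (XT.lf (nat_lit 0) (nat_lit 7459696872) (nat_lit 76) (nat_lit 23403297147) (nat_lit 76) (nat_lit 10178337214) (nat_lit 18) (nat_lit 4) (nat_lit 19) (nat_lit 5) (nat_lit 19) (nat_lit 4) (nat_lit 388) (nat_lit 335) (nat_lit 297)) (XT.lf (nat_lit 0) (nat_lit 1782625658) (nat_lit 152) (nat_lit 9626158119) (nat_lit 76) (nat_lit 32249186027) (nat_lit 17) (nat_lit 5) (nat_lit 19) (nat_lit 5) (nat_lit 18) (nat_lit 4) (nat_lit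 389) (nat_lit 335) (nat_lit 296))))) (XT.nd (nat_lit 234) (nat_lit 228) (nat_lit 0) (XT.nd (nat_lit 78) (nat_lit 76) (nat_lit 0) (XT.lf (nat_lit 0) (nat_lit 14540917537) (nat_lit 152) (nat_lit 30081061807) (nat_lit 0) (nat_lit 1843770481) (nat_lit 16) (nat_lit 5) (nat_lit 18) (nat_lit 4) (nat_lit 16) (nat_lit 4) (nat_lit 390) (nat_lit 335) (nat_lit 295)) (XT.nd (nat_lit 78) (nat_lit 76) (nat_lit 0) (XT.lf (nat_lit 0) (nat_lit 28591781386) (nat_lit 152) (nat_lit 5043528945) (nat_lit 0) (nat_lit 15849251887) (nat_lit 16) (nat_lit 5) (nat_lit 18) (nat_lit 4) (nat_lit 16) (nat_lit 4) (nat_lit 391) (nat_lit 335) (nat_lit 294)) (XT.lf (nat_lit 0) (nat_lit 22553309016) (nat_lit 76) (nat_lit 21481363965) (nat_lit 76) (nat_lit 8696813686) (nat_lit 15) (nat_lit 4) (nat_lit 16) (nat_lit 5) (nat_lit 16) (nat_lit 4) (nat_lit 392) (nat_lit 335) (nat_lit 293)))) (XT.nd (nat_lit 156) (nat_lit 76) (nat_lit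 0) (XT.nd (nat_lit 78) (nat_lit 76) (nat_lit 0) (XT.lf (nat_lit 0) (nat_lit 4339181250) (nat_lit 152) (nat_lit 3928136845) (nat_lit 76) (nat_lit 47966979509) (nat_lit 14) (nat_lit 5) (nat_lit 16) (nat_lit 5) (nat_lit 15) (nat_lit 4) (nat_lit 393) (nat_lit 335) (nat_lit 292)) (XT.lf (nat_lit 0) (nat_lit 18532270944) (nat_lit 152) (nat_lit 35171849668) (nat_lit 0) (nat_lit 6285142891) (nat_lit 13) (nat_lit 5) (nat_lit 15) (nat_lit 4) (nat_lit 13) (nat_lit 4) (nat_lit 394) (nat_lit 335) (nat_lit 291))) (XT.nd (nat_lit 78) (nat_lit 76) (nat_lit 0) (XT.lf (nat_lit 0) (nat_lit 33996367998) (nat_lit 152) (nat_lit 8324013502) (nat_lit 0) (nat_lit 21717470945) (nat_lit 13) (nat_lit 5) (nat_lit 15) (nat_lit 4) (nat_lit 13) (nat_lit 4) (nat_lit 395) (nat_lit 335) (nat_lit 290)) (XT.lf (nat_lit 0) (nat_lit 21216290991) (nat_lit 76) (nat_lit 29744594584) (nat_lit 76) (nat_lit 17436281790) (nat_lit 12)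 (nat_lit 4) (nat_lit 13) (nat_lit 5) (nat_lit 13) (nat_lit 4) (nat_lit 396) (nat_lit 335) (nat_lit 289)))))) (XT.nd (nat_lit 468) (nat_lit 228) (nat_lit 0) (XT.nd (nat_lit 234) (nat_lit 76) (nat_lit 0) (XT.nd (nat_lit 78) (nat_lit 152) (nat_lit 0) (XT.lf (nat_lit 0) (nat_lit 53288496707) (nat_lit 76) (nat_lit 16074139997) (nat_lit 76) (nat_lit 3738590406) (nat_lit 12) (nat_lit 4) (nat_lit 13) (nat_lit 5) (nat_lit 13) (nat_lit 4) (nat_lit 397) (nat_lit 335) (nat_lit 288)) (XT.nd (nat_lit 78) (nat_lit 0) (nat_lit 0) (XT.lf (nat_lit 0) (nat_lit 9763697831) (nat_lit 76) (nat_lit 1028724939) (nat_lit 152) (nat_lit 67375995172) (nat_lit 10) (nat_lit 5) (nat_lit 11) (nat_lit 5) (nat_lit 12) (nat_lit 4) (nat_lit 398) (nat_lit 335) (nat_lit 287)) (XT.lf (nat_lit 0) (nat_lit 26885816677) (nat_lit 152) (nat_lit 41634144838) (nat_lit 0) (nat_lit 15091416666) (nat_lit 10) (nat_lit 5) (nat_lit 12) (nat_lit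 4) (nat_lit 10) (nat_lit 4) (nat_lit 399) (nat_lit 335) (nat_lit 286)))) (XT.nd (nat_lit 78) (nat_lit 76) (nat_lit 0) (XT.lf (nat_lit 0) (nat_lit 44229135600) (nat_lit 152) (nat_lit 12848375682) (nat_lit 0) (nat_lit 32414143734) (nat_lit 10) (nat_lit 5) (nat_lit 12) (nat_lit 4) (nat_lit 10) (nat_lit 4) (nat_lit 400) (nat_lit 335) (nat_lit 285)) (XT.nd (nat_lit 78) (nat_lit 0) (nat_lit 0) (XT.lf (nat_lit 0) (nat_lit 18738995865) (nat_lit 76) (nat_lit 44462665857) (nat_lit 76) (nat_lit 32628607459) (nat_lit 9) (nat_lit 4) (nat_lit 10) (nat_lit 5) (nat_lit 10) (nat_lit 4) (nat_lit 401) (nat_lit 335) (nat_lit 284)) (XT.lf (nat_lit 0) (nat_lit 53215534836) (nat_lit 76) (nat_lit 30651695168) (nat_lit 76) (nat_lit 18799982573) (nat_lit 9) (nat_lit 4) (nat_lit 10) (nat_lit 5) (nat_lit 10) (nat_lit 4) (nat_lit 402) (nat_lit 335) (nat_lit 283))))) (XT.nd (nat_lit 234) (nat_lit 76) (nat_lit 0) (XT.nd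 (nat_lit 78) (nat_lit 152) (nat_lit 0) (XT.lf (nat_lit 0) (nat_lit 90360721319) (nat_lit 76) (nat_lit 15780349886) (nat_lit 76) (nat_lit 3912290812) (nat_lit 9) (nat_lit 4) (nat_lit 10) (nat_lit 5) (nat_lit 10) (nat_lit 4) (nat_lit 403) (nat_lit 335) (nat_lit 282)) (XT.nd (nat_lit 78) (nat_lit 0) (nat_lit 0) (XT.lf (nat_lit 0) (nat_lit 11941087382) (nat_lit 152) (nat_lit 105447857438) (nat_lit 0) (nat_lit 623759095) (nat_lit 7) (nat_lit 5) (nat_lit 9) (nat_lit 4) (nat_lit 7) (nat_lit 4) (nat_lit 404) (nat_lit 335) (nat_lit 281)) (XT.lf (nat_lit 0) (nat_lit 29501167509) (nat_lit 152) (nat_lit 78905153375) (nat_lit 0) (nat_lit 18170492107) (nat_lit 7) (nat_lit 5) (nat_lit 9) (nat_lit 4) (nat_lit 7) (nat_lit 4) (nat_lit 405) (nat_lit 335) (nat_lit 280)))) (XT.nd (nat_lit 156) (nat_lit 76) (nat_lit 0) (XT.nd (nat_lit 78) (nat_lit 0) (nat_lit 0) (XT.lf (nat_lit 0) (nat_lit 48428021381) (nat_lit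 152) (nat_lit 50314944978) (nat_lit 0) (nat_lit 37084987539) (nat_lit 7) (nat_lit 5) (nat_lit 9) (nat_lit 4) (nat_lit 7) (nat_lit 4) (nat_lit 406) (nat_lit 335) (nat_lit 279)) (XT.lf (nat_lit 0) (nat_lit 68833808130) (nat_lit 152) (nat_lit 19507808791) (nat_lit 0) (nat_lit 57479331289) (nat_lit 7) (nat_lit 5) (nat_lit 9) (nat_lit 4) (nat_lit 7) (nat_lit 4) (nat_lit 407) (nat_lit 335) (nat_lit 278))) (XT.nd (nat_lit 78) (nat_lit 0) (nat_lit 0) (XT.lf (nat_lit 0) (nat_lit 14151760714) (nat_lit 76) (nat_lit 76908638868) (nat_lit 76) (nat_lit 65543566657) (nat_lit 6) (nat_lit 4) (nat_lit 7) (nat_lit 5) (nat_lit 7) (nat_lit 4) (nat_lit 408) (nat_lit 335) (nat_lit 277)) (XT.lf (nat_lit 0) (nat_lit 51138459441) (nat_lit 76) (nat_lit 64235308841) (nat_lit 76) (nat_lit 52860426102) (nat_lit 6) (nat_lit 4) (nat_lit 7) (nat_lit 5) (nat_lit 7) (nat_lit 4) (nat_lit 409) (nat_lit 335) (nat_lit 276)))))))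 (XT.nd (nat_lit 1014) (nat_lit 0) (nat_lit 0) (XT.nd (nat_lit 468) (nat_lit 76) (nat_lit 0) (XT.nd (nat_lit 234) (nat_lit 152) (nat_lit 0) (XT.nd (nat_lit 78) (nat_lit 0) (nat_lit 0) (XT.lf (nat_lit 0) (nat_lit 91026451564) (nat_lit 76) (nat_lit 50576899805) (nat_lit 76) (nat_lit 39192933244) (nat_lit 6) (nat_lit 4) (nat_lit 7) (nat_lit 5) (nat_lit 7) (nat_lit 4) (nat_lit 410) (nat_lit 335) (nat_lit 275)) (XT.nd (nat_lit 78) (nat_lit 0) (nat_lit 0) (XT.lf (nat_lit 0) (nat_lit 134052110373) (nat_lit 76) (nat_lit 35852473041) (nat_lit 76) (nat_lit 24460095534) (nat_lit 6) (nat_lit 4) (nat_lit 7) (nat_lit 5) (nat_lit 7) (nat_lit 4) (nat_lit 411) (nat_lit 335) (nat_lit 274)) (XT.lf (nat_lit 0) (nat_lit 180470402733) (nat_lit 76) (nat_lit 19974772687) (nat_lit 76) (nat_lit 8574607266) (nat_lit 6) (nat_lit 4) (nat_lit 7) (nat_lit 5) (nat_lit 7) (nat_lit 4) (nat_lit 412) (nat_lit 335) (nat_lit 273))))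 (XT.nd (nat_lit 78) (nat_lit 0) (nat_lit 0) (XT.lf (nat_lit 0) (nat_lit 5758663126) (nat_lit 76) (nat_lit 2615014716) (nat_lit 152) (nat_lit 216463587142) (nat_lit 4) (nat_lit 5) (nat_lit 5) (nat_lit 5) (nat_lit 6) (nat_lit 4) (nat_lit 413) (nat_lit 335) (nat_lit 272)) (XT.nd (nat_lit 78) (nat_lit 0) (nat_lit 0) (XT.lf (nat_lit 0) (nat_lit 27116183294) (nat_lit 152) (nat_lit 198514340149) (nat_lit 0) (nat_lit 16245656312) (nat_lit 4) (nat_lit 5) (nat_lit 6) (nat_lit 4) (nat_lit 4) (nat_lit 4) (nat_lit 414) (nat_lit 335) (nat_lit 271)) (XT.lf (nat_lit 0) (nat_lit 47381257034) (nat_lit 152) (nat_lit 176390950831) (nat_lit 0) (nat_lit 36504842150) (nat_lit 4) (nat_lit 5) (nat_lit 6) (nat_lit 4) (nat_lit 4) (nat_lit 4) (nat_lit 415) (nat_lit 335) (nat_lit 270))))) (XT.nd (nat_lit 234) (nat_lit 76) (nat_lit 0) (XT.nd (nat_lit 78) (nat_lit 0) (nat_lit 0) (XT.lf (nat_lit 0) (nat_lit 69248160680)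 (nat_lit 152) (nat_lit 152536504632) (nat_lit 0) (nat_lit 58366294035) (nat_lit 4) (nat_lit 5) (nat_lit 6) (nat_lit 4) (nat_lit 4) (nat_lit 4) (nat_lit 416) (nat_lit 335) (nat_lit 269)) (XT.nd (nat_lit 78) (nat_lit 0) (nat_lit 0) (XT.lf (nat_lit 0) (nat_lit 92846475882) (nat_lit 152) (nat_lit 126809641869) (nat_lit 0) (nat_lit 81959561310) (nat_lit 4) (nat_lit 5) (nat_lit 6) (nat_lit 4) (nat_lit 4) (nat_lit 4) (nat_lit 417) (nat_lit 335) (nat_lit 268)) (XT.lf (nat_lit 0) (nat_lit 118316044508) (nat_lit 152) (nat_lit 99057907059) (nat_lit 0) (nat_lit 107424455931) (nat_lit 4) (nat_lit 5) (nat_lit 6) (nat_lit 4) (nat_lit 4) (nat_lit 4) (nat_lit 418) (nat_lit 335) (nat_lit 267)))) (XT.nd (nat_lit 156) (nat_lit 76) (nat_lit 0) (XT.nd (nat_lit 78) (nat_lit 0) (nat_lit 0) (XT.lf (nat_lit 0) (nat_lit 145807797336) (nat_lit 152) (nat_lit 69116845478) (nat_lit 0) (nat_lit 134911880975) (nat_lit 4)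 (nat_lit 5) (nat_lit 6) (nat_lit 4) (nat_lit 4) (nat_lit 4) (nat_lit 419) (nat_lit 335) (nat_lit 266)) (XT.lf (nat_lit 0) (nat_lit 175484648456) (nat_lit 152) (nat_lit 36809028613) (nat_lit 0) (nat_lit 164584724888) (nat_lit 4) (nat_lit 5) (nat_lit 6) (nat_lit 4) (nat_lit 4) (nat_lit 4) (nat_lit 420) (nat_lit 335) (nat_lit 265))) (XT.nd (nat_lit 78) (nat_lit 76) (nat_lit 0) (XT.lf (nat_lit 0) (nat_lit 207522460690) (nat_lit 152) (nat_lit 1943002733) (nat_lit 0) (nat_lit 196618826746) (nat_lit 4) (nat_lit 5) (nat_lit 6) (nat_lit 4) (nat_lit 4) (nat_lit 4) (nat_lit 421) (nat_lit 335) (nat_lit 264)) (XT.lf (nat_lit 0) (nat_lit 36867846994) (nat_lit 76) (nat_lit 205818851160) (nat_lit 76) (nat_lit 194911781681) (nat_lit 3) (nat_lit 4) (nat_lit 4) (nat_lit 5) (nat_lit 4) (nat_lit 4) (nat_lit 422) (nat_lit 335) (nat_lit 263)))))) (XT.nd (nat_lit 468) (nat_lit 0) (nat_lit 0) (XT.nd (nat_lit 234)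 (nat_lit 0) (nat_lit 0) (XT.nd (nat_lit 78) (nat_lit 0) (nat_lit 0) (XT.lf (nat_lit 0) (nat_lit 78829552114) (nat_lit 76) (nat_lit 201856697361) (nat_lit 76) (nat_lit 190946446832) (nat_lit 3) (nat_lit 4) (nat_lit 4) (nat_lit 5) (nat_lit 4) (nat_lit 4) (nat_lit 423) (nat_lit 335) (nat_lit 262)) (XT.nd (nat_lit 78) (nat_lit 0) (nat_lit 0) (XT.lf (nat_lit 0) (nat_lit 124126530138) (nat_lit 76) (nat_lit 197588428290) (nat_lit 76) (nat_lit 186675232345) (nat_lit 3) (nat_lit 4) (nat_lit 4) (nat_lit 5) (nat_lit 4) (nat_lit 4) (nat_lit 424) (nat_lit 335) (nat_lit 261)) (XT.lf (nat_lit 0) (nat_lit 173027207602) (nat_lit 76) (nat_lit 192988750501) (nat_lit 76) (nat_lit 182072827318) (nat_lit 3) (nat_lit 4) (nat_lit 4) (nat_lit 5) (nat_lit 4) (nat_lit 4) (nat_lit 425) (nat_lit 335) (nat_lit 260)))) (XT.nd (nat_lit 78) (nat_lit 0) (nat_lit 0) (XT.lf (nat_lit 0) (nat_lit 225821366298) (nat_lit 76) (nat_lit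 188030406642) (nat_lit 76) (nat_lit 177111958239) (nat_lit 3) (nat_lit 4) (nat_lit 4) (nat_lit 5) (nat_lit 4) (nat_lit 4) (nat_lit 426) (nat_lit 335) (nat_lit 259)) (XT.nd (nat_lit 78) (nat_lit 0) (nat_lit 0) (XT.lf (nat_lit 0) (nat_lit 282821860501) (nat_lit 76) (nat_lit 182684013937) (nat_lit 76) (nat_lit 171763227367) (nat_lit 3) (nat_lit 4) (nat_lit 4) (nat_lit 5) (nat_lit 4) (nat_lit 4) (nat_lit 427) (nat_lit 335) (nat_lit 258)) (XT.lf (nat_lit 0) (nat_lit 344366470916) (nat_lit 76) (nat_lit 176917890058) (nat_lit 76) (nat_lit 165994938519) (nat_lit 3) (nat_lit 4) (nat_lit 4) (nat_lit 5) (nat_lit 4) (nat_lit 4) (nat_lit 428) (nat_lit 335) (nat_lit 257))))) (XT.nd (nat_lit 234) (nat_lit 0) (nat_lit 0) (XT.nd (nat_lit 78) (nat_lit 0) (nat_lit 0) (XT.lf (nat_lit 0) (nat_lit 410819906346) (nat_lit 76) (nat_lit 170697865381) (nat_lit 76) (nat_lit 159772909241) (nat_lit 3) (nat_lit 4) (nat_lit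 4) (nat_lit 5) (nat_lit 4) (nat_lit 4) (nat_lit 429) (nat_lit 335) (nat_lit 256)) (XT.nd (nat_lit 78) (nat_lit 0) (nat_lit 0) (XT.lf (nat_lit 0) (nat_lit 482575964926) (nat_lit 76) (nat_lit 163987080502) (nat_lit 76) (nat_lit 153060268250) (nat_lit 3) (nat_lit 4) (nat_lit 4) (nat_lit 5) (nat_lit 4) (nat_lit 4) (nat_lit 430) (nat_lit 335) (nat_lit 255)) (XT.lf (nat_lit 0) (nat_lit 560059867746) (nat_lit 76) (nat_lit 156745767806) (nat_lit 76) (nat_lit 145817236932) (nat_lit 3) (nat_lit 4) (nat_lit 4) (nat_lit 5) (nat_lit 4) (nat_lit 4) (nat_lit 431) (nat_lit 335) (nat_lit 254)))) (XT.nd (nat_lit 156) (nat_lit 0) (nat_lit 0) (XT.nd (nat_lit 78) (nat_lit 0) (nat_lit 0) (XT.lf (nat_lit 0) (nat_lit 643730778672) (nat_lit 76) (nat_lit 148931015811) (nat_lit 76) (nat_lit 138000893619) (nat_lit 3) (nat_lit 4) (nat_lit 4) (nat_lit 5) (nat_lit 4) (nat_lit 4) (nat_lit 432) (nat_lit 335) (nat_lit 253))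 (XT.lf (nat_lit 0) (nat_lit 734084525327) (nat_lit 76) (nat_lit 140496514875) (nat_lit 76) (nat_lit 129564919241) (nat_lit 3) (nat_lit 4) (nat_lit 4) (nat_lit 5) (nat_lit 4) (nat_lit 4) (nat_lit 433) (nat_lit 335) (nat_lit 252))) (XT.nd (nat_lit 78) (nat_lit 0) (nat_lit 0) (XT.lf (nat_lit 0) (nat_lit 831656537318) (nat_lit 76) (nat_lit 131392282770) (nat_lit 76) (nat_lit 120459322839) (nat_lit 3) (nat_lit 4) (nat_lit 4) (nat_lit 5) (nat_lit 4) (nat_lit 4) (nat_lit 434) (nat_lit 335) (nat_lit 251)) (XT.lf (nat_lit 0) (nat_lit 937025019163) (nat_lit 76) (nat_lit 121564368491) (nat_lit 76) (nat_lit 110630145322) (nat_lit 3) (nat_lit 4) (nat_lit 4) (nat_lit 5) (nat_lit 4) (nat_lit 4) (nat_lit 435) (nat_lit 335) (nat_lit 250))))))))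
noncomputable def xc39 : XT := (XT.nd (nat_lit 48048) (nat_lit 0) (nat_lit 684) (XT.nd (nat_lit 47034) (nat_lit 0) (nat_lit 3116) (XT.nd (nat_lit 46488) (nat_lit 0) (nat_lit 6080) (XT.nd (nat_lit 46254) (nat_lit 0) (nat_lit 9424) (XT.nd (nat_lit 78) (nat_lit 0) (nat_lit 0) (XT.lf (nat_lit 0) (nat_lit 1050814376678) (nat_lit 76) (nat_lit 110954532547) (nat_lit 76) (nat_lit 100019139712) (nat_lit 3) (nat_lit 4) (nat_lit 4) (nat_lit 5) (nat_lit 4) (nat_lit 4) (nat_lit 436) (nat_lit 335) (nat_lit 249)) (XT.nd (nat_lit 78) (nat_lit 0) (nat_lit 0) (XT.lf (nat_lit 0) (nat_lit 1173698917169) (nat_lit 76) (nat_lit 99499901835) (nat_lit 76) (nat_lit 88563425976) (nat_lit 3) (nat_lit 4) (nat_lit 4) (nat_lit 5) (nat_lit 4) (nat_lit 4) (nat_lit 437) (nat_lit 335) (nat_lit 248)) (XT.lf (nat_lit 0) (nat_lit 1306406845319) (nat_lit 76) (nat_lit 87132597063) (nat_lit 76) (nat_lit 76195118404) (nat_lit 3)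 (nat_lit 4) (nat_lit 4) (nat_lit 5) (nat_lit 4) (nat_lit 4) (nat_lit 438) (nat_lit 335) (nat_lit 247)))) (XT.nd (nat_lit 78) (nat_lit 1444) (nat_lit 0) (XT.lf (nat_lit 0) (nat_lit 1840291779) (nat_lit 532) (nat_lit 807166931) (nat_lit 532) (nat_lit 807166931) (nat_lit 146) (nat_lit 4) (nat_lit 153) (nat_lit 5) (nat_lit 153) (nat_lit 4) (nat_lit 348) (nat_lit 336) (nat_lit 336)) (XT.nd (nat_lit 78) (nat_lit 760) (nat_lit 0) (XT.lf (nat_lit 0) (nat_lit 3658245334) (nat_lit 684) (nat_lit 2545812950) (nat_lit 0) (nat_lit 833054260) (nat_lit 137) (nat_lit 5) (nat_lit 146) (nat_lit 4) (nat_lit 137) (nat_lit 4) (nat_lit 349) (nat_lit 336) (nat_lit 335)) (XT.lf (nat_lit 0) (nat_lit 1807131064) (nat_lit 760) (nat_lit 1736490052) (nat_lit 76) (nat_lit 3641255038) (nat_lit 127) (nat_lit 5) (nat_lit 137) (nat_lit 5) (nat_lit 128) (nat_lit 4) (nat_lit 350) (nat_lit 336) (nat_lit 334))))) (XT.nd (nat_lit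 234) (nat_lit 1292) (nat_lit 0) (XT.nd (nat_lit 78) (nat_lit 1292) (nat_lit 0) (XT.lf (nat_lit 0) (nat_lit 6575342314) (nat_lit 760) (nat_lit 467875749) (nat_lit 836) (nat_lit 311068291) (nat_lit 117) (nat_lit 5) (nat_lit 127) (nat_lit 5) (nat_lit 128) (nat_lit 4) (nat_lit 351) (nat_lit 336) (nat_lit 333)) (XT.nd (nat_lit 78) (nat_lit 456) (nat_lit 0) (XT.lf (nat_lit 0) (nat_lit 260782549) (nat_lit 380) (nat_lit 4561426116) (nat_lit 456) (nat_lit 2719931474) (nat_lit 106) (nat_lit 5) (nat_lit 111) (nat_lit 5) (nat_lit 112) (nat_lit 4) (nat_lit 352) (nat_lit 336) (nat_lit 332)) (XT.lf (nat_lit 0) (nat_lit 1470330285) (nat_lit 380) (nat_lit 876028616) (nat_lit 456) (nat_lit 5405612513) (nat_lit 100) (nat_lit 5) (nat_lit 105) (nat_lit 5) (nat_lit 106) (nat_lit 5) (nat_lit 353) (nat_lit 336) (nat_lit 331)))) (XT.nd (nat_lit 156) (nat_lit 608) (nat_lit 0) (XT.nd (nat_lit 78) (nat_lit 380) (nat_lit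 0) (XT.lf (nat_lit 0) (nat_lit 2775201624) (nat_lit 304) (nat_lit 4819519738) (nat_lit 380) (nat_lit 388232895) (nat_lit 96) (nat_lit 5) (nat_lit 100) (nat_lit 5) (nat_lit 101) (nat_lit 4) (nat_lit 354) (nat_lit 336) (nat_lit 330)) (XT.lf (nat_lit 0) (nat_lit 4172548493) (nat_lit 304) (nat_lit 552138766) (nat_lit 380) (nat_lit 3511217759) (nat_lit 91) (nat_lit 5) (nat_lit 95) (nat_lit 5) (nat_lit 96) (nat_lit 5) (nat_lit 355) (nat_lit 336) (nat_lit 329))) (XT.nd (nat_lit 78) (nat_lit 304) (nat_lit 0) (XT.lf (nat_lit 0) (nat_lit 1593413029) (nat_lit 304) (nat_lit 2859601407) (nat_lit 76) (nat_lit 4058350091) (nat_lit 87) (nat_lit 5) (nat_lit 91) (nat_lit 5) (nat_lit 88) (nat_lit 5) (nat_lit 356) (nat_lit 336) (nat_lit 328)) (XT.lf (nat_lit 0) (nat_lit 6878610595) (nat_lit 380) (nat_lit 1580005097) (nat_lit 76) (nat_lit 352748736) (nat_lit 83) (nat_lit 5) (nat_lit 88) (nat_lit 5) (nat_lit 84)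 (nat_lit 4) (nat_lit 357) (nat_lit 336) (nat_lit 327)))))) (XT.nd (nat_lit 468) (nat_lit 1216) (nat_lit 0) (XT.nd (nat_lit 234) (nat_lit 684) (nat_lit 0) (XT.nd (nat_lit 78) (nat_lit 760) (nat_lit 0) (XT.lf (nat_lit 0) (nat_lit 3313615718) (nat_lit 304) (nat_lit 286141839) (nat_lit 76) (nat_lit 5534397151) (nat_lit 79) (nat_lit 5) (nat_lit 83) (nat_lit 5) (nat_lit 80) (nat_lit 5) (nat_lit 358) (nat_lit 336) (nat_lit 326)) (XT.nd (nat_lit 78) (nat_lit 304) (nat_lit 0) (XT.lf (nat_lit 0) (nat_lit 1118310316) (nat_lit 228) (nat_lit 7752632281) (nat_lit 304) (nat_lit 612409473) (nat_lit 73) (nat_lit 5) (nat_lit 76) (nat_lit 5) (nat_lit 77) (nat_lit 4) (nat_lit 359) (nat_lit 336) (nat_lit 325)) (XT.lf (nat_lit 0) (nat_lit 2521831400) (nat_lit 228) (nat_lit 2324069917) (nat_lit 304) (nat_lit 5011075595) (nat_lit 69) (nat_lit 5) (nat_lit 72) (nat_lit 5) (nat_lit 73) (nat_lit 5) (nat_lit 360) (nat_lit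 336) (nat_lit 324)))) (XT.nd (nat_lit 78) (nat_lit 456) (nat_lit 0) (XT.lf (nat_lit 0) (nat_lit 444591170) (nat_lit 228) (nat_lit 6288301282) (nat_lit 76) (nat_lit 3526835788) (nat_lit 66) (nat_lit 5) (nat_lit 69) (nat_lit 5) (nat_lit 67) (nat_lit 5) (nat_lit 361) (nat_lit 336) (nat_lit 323)) (XT.nd (nat_lit 78) (nat_lit 228) (nat_lit 0) (XT.lf (nat_lit 0) (nat_lit 5406900149) (nat_lit 228) (nat_lit 753675580) (nat_lit 304) (nat_lit 4530128755) (nat_lit 63) (nat_lit 5) (nat_lit 66) (nat_lit 5) (nat_lit 67) (nat_lit 5) (nat_lit 362) (nat_lit 336) (nat_lit 322)) (XT.lf (nat_lit 0) (nat_lit 1202826353) (nat_lit 228) (nat_lit 4321954275) (nat_lit 76) (nat_lit 5627390663) (nat_lit 60) (nat_lit 5) (nat_lit 63) (nat_lit 5) (nat_lit 61) (nat_lit 5) (nat_lit 363) (nat_lit 336) (nat_lit 321))))) (XT.nd (nat_lit 234) (nat_lit 684) (nat_lit 0) (XT.nd (nat_lit 78) (nat_lit 380) (nat_lit 0) (XT.lf (nat_lit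 0) (nat_lit 7251724888) (nat_lit 228) (nat_lit 3413604132) (nat_lit 76) (nat_lit 980780474) (nat_lit 58) (nat_lit 5) (nat_lit 61) (nat_lit 5) (nat_lit 59) (nat_lit 4) (nat_lit 364) (nat_lit 336) (nat_lit 320)) (XT.nd (nat_lit 78) (nat_lit 152) (nat_lit 0) (XT.lf (nat_lit 0) (nat_lit 1647511299) (nat_lit 228) (nat_lit 2591542327) (nat_lit 76) (nat_lit 7934621061) (nat_lit 55) (nat_lit 5) (nat_lit 58) (nat_lit 5) (nat_lit 56) (nat_lit 5) (nat_lit 365) (nat_lit 336) (nat_lit 319)) (XT.lf (nat_lit 0) (nat_lit 8076934243) (nat_lit 228) (nat_lit 1875238791) (nat_lit 76) (nat_lit 2784819221) (nat_lit 53) (nat_lit 5) (nat_lit 56) (nat_lit 5) (nat_lit 54) (nat_lit 4) (nat_lit 366) (nat_lit 336) (nat_lit 318)))) (XT.nd (nat_lit 156) (nat_lit 304) (nat_lit 0) (XT.nd (nat_lit 78) (nat_lit 152) (nat_lit 0) (XT.lf (nat_lit 0) (nat_lit 1718542584) (nat_lit 228) (nat_lit 1269218627) (nat_lit 76) (nat_lit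 10351513964) (nat_lit 50) (nat_lit 5) (nat_lit 53) (nat_lit 5) (nat_lit 51) (nat_lit 5) (nat_lit 367) (nat_lit 336) (nat_lit 317)) (XT.lf (nat_lit 0) (nat_lit 8555491301) (nat_lit 228) (nat_lit 852361147) (nat_lit 76) (nat_lit 4572547808) (nat_lit 48) (nat_lit 5) (nat_lit 51) (nat_lit 5) (nat_lit 49) (nat_lit 4) (nat_lit 368) (nat_lit 336) (nat_lit 316))) (XT.nd (nat_lit 78) (nat_lit 152) (nat_lit 0) (XT.lf (nat_lit 0) (nat_lit 1324522202) (nat_lit 152) (nat_lit 578137674) (nat_lit 76) (nat_lit 12764282878) (nat_lit 46) (nat_lit 5) (nat_lit 48) (nat_lit 5) (nat_lit 47) (nat_lit 5) (nat_lit 369) (nat_lit 336) (nat_lit 315)) (XT.lf (nat_lit 0) (nat_lit 8584437317) (nat_lit 228) (nat_lit 599797259) (nat_lit 76) (nat_lit 6211735020) (nat_lit 44) (nat_lit 5) (nat_lit 47) (nat_lit 5) (nat_lit 45) (nat_lit 4) (nat_lit 370) (nat_lit 336) (nat_lit 314))))))) (XT.nd (nat_lit 1014) (nat_lit 912) (nat_lit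 0) (XT.nd (nat_lit 468) (nat_lit 608) (nat_lit 0) (XT.nd (nat_lit 234) (nat_lit 532) (nat_lit 0) (XT.nd (nat_lit 78) (nat_lit 228) (nat_lit 0) (XT.lf (nat_lit 0) (nat_lit 335121267) (nat_lit 152) (nat_lit 810123442) (nat_lit 76) (nat_lit 15032866175) (nat_lit 42) (nat_lit 5) (nat_lit 44) (nat_lit 5) (nat_lit 43) (nat_lit 5) (nat_lit 371) (nat_lit 336) (nat_lit 313)) (XT.nd (nat_lit 78) (nat_lit 76) (nat_lit 0) (XT.lf (nat_lit 0) (nat_lit 8018011795) (nat_lit 228) (nat_lit 1451708537) (nat_lit 76) (nat_lit 7537392901) (nat_lit 40) (nat_lit 5) (nat_lit 43) (nat_lit 5) (nat_lit 41) (nat_lit 4) (nat_lit 372) (nat_lit 336) (nat_lit 312)) (XT.lf (nat_lit 0) (nat_lit 15525937619) (nat_lit 76) (nat_lit 894871422) (nat_lit 152) (nat_lit 1476391066) (nat_lit 39) (nat_lit 5) (nat_lit 40) (nat_lit 5) (nat_lit 41) (nat_lit 4) (nat_lit 373) (nat_lit 336) (nat_lit 311)))) (XT.nd (nat_lit 78) (nat_lit 304)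 (nat_lit 0) (XT.lf (nat_lit 0) (nat_lit 6655975124) (nat_lit 228) (nat_lit 3847091196) (nat_lit 76) (nat_lit 8338717271) (nat_lit 36) (nat_lit 5) (nat_lit 39) (nat_lit 5) (nat_lit 37) (nat_lit 4) (nat_lit 374) (nat_lit 336) (nat_lit 310)) (XT.nd (nat_lit 78) (nat_lit 228) (nat_lit 0) (XT.lf (nat_lit 0) (nat_lit 14091390330) (nat_lit 76) (nat_lit 1413876894) (nat_lit 152) (nat_lit 4349576218) (nat_lit 35) (nat_lit 5) (nat_lit 36) (nat_lit 5) (nat_lit 37) (nat_lit 4) (nat_lit 375) (nat_lit 336) (nat_lit 309)) (XT.lf (nat_lit 0) (nat_lit 4228259721) (nat_lit 228) (nat_lit 8362514976) (nat_lit 76) (nat_lit 8342664191) (nat_lit 32) (nat_lit 5) (nat_lit 35) (nat_lit 5) (nat_lit 33) (nat_lit 4) (nat_lit 376) (nat_lit 336) (nat_lit 308))))) (XT.nd (nat_lit 234) (nat_lit 304) (nat_lit 0) (XT.nd (nat_lit 78) (nat_lit 228) (nat_lit 0) (XT.lf (nat_lit 0) (nat_lit 10440837984) (nat_lit 76) (nat_lit 3040471400)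 (nat_lit 152) (nat_lit 8606397361) (nat_lit 31) (nat_lit 5) (nat_lit 32) (nat_lit 5) (nat_lit 33) (nat_lit 4) (nat_lit 377) (nat_lit 336) (nat_lit 307)) (XT.nd (nat_lit 78) (nat_lit 76) (nat_lit 0) (XT.lf (nat_lit 0) (nat_lit 374932324) (nat_lit 152) (nat_lit 15754239534) (nat_lit 76) (nat_lit 7193094418) (nat_lit 29) (nat_lit 5) (nat_lit 31) (nat_lit 5) (nat_lit 30) (nat_lit 4) (nat_lit 378) (nat_lit 336) (nat_lit 306)) (XT.lf (nat_lit 0) (nat_lit 3745776847) (nat_lit 76) (nat_lit 6207236803) (nat_lit 152) (nat_lit 14686549221) (nat_lit 28) (nat_lit 5) (nat_lit 29) (nat_lit 5) (nat_lit 30) (nat_lit 4) (nat_lit 379) (nat_lit 336) (nat_lit 305)))) (XT.nd (nat_lit 156) (nat_lit 152) (nat_lit 0) (XT.nd (nat_lit 78) (nat_lit 152) (nat_lit 0) (XT.lf (nat_lit 0) (nat_lit 20511003042) (nat_lit 152) (nat_lit 1013327957) (nat_lit 0) (nat_lit 4527243285) (nat_lit 28) (nat_lit 5) (nat_lit 30) (nat_lit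 4) (nat_lit 28) (nat_lit 4) (nat_lit 380) (nat_lit 336) (nat_lit 304)) (XT.lf (nat_lit 0) (nat_lit 4506707016) (nat_lit 152) (nat_lit 6855280751) (nat_lit 76) (nat_lit 16195763846) (nat_lit 26) (nat_lit 5) (nat_lit 28) (nat_lit 5) (nat_lit 27) (nat_lit 4) (nat_lit 381) (nat_lit 336) (nat_lit 303))) (XT.nd (nat_lit 78) (nat_lit 76) (nat_lit 0) (XT.lf (nat_lit 0) (nat_lit 15167101659) (nat_lit 76) (nat_lit 132036875) (nat_lit 152) (nat_lit 13873980429) (nat_lit 25) (nat_lit 5) (nat_lit 26) (nat_lit 5) (nat_lit 27) (nat_lit 4) (nat_lit 382) (nat_lit 336) (nat_lit 302)) (XT.lf (nat_lit 0) (nat_lit 8128382066) (nat_lit 76) (nat_lit 19144194453) (nat_lit 76) (nat_lit 3629269297) (nat_lit 24) (nat_lit 4) (nat_lit 25) (nat_lit 5) (nat_lit 25) (nat_lit 4) (nat_lit 383) (nat_lit 336) (nat_lit 301)))))) (XT.nd (nat_lit 546) (nat_lit 380) (nat_lit 0) (XT.nd (nat_lit 234) (nat_lit 304) (nat_lit 0) (XT.nd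 (nat_lit 78) (nat_lit 152) (nat_lit 0) (XT.lf (nat_lit 0) (nat_lit 7332784785) (nat_lit 152) (nat_lit 566084137) (nat_lit 76) (nat_lit 24857420615) (nat_lit 23) (nat_lit 5) (nat_lit 25) (nat_lit 5) (nat_lit 24) (nat_lit 4) (nat_lit 384) (nat_lit 336) (nat_lit 300)) (XT.nd (nat_lit 78) (nat_lit 76) (nat_lit 0) (XT.lf (nat_lit 0) (nat_lit 19385666310) (nat_lit 152) (nat_lit 10896772984) (nat_lit 0) (nat_lit 4456632645) (nat_lit 22) (nat_lit 5) (nat_lit 24) (nat_lit 4) (nat_lit 22) (nat_lit 4) (nat_lit 385) (nat_lit 336) (nat_lit 299)) (XT.lf (nat_lit 0) (nat_lit 13441294086) (nat_lit 76) (nat_lit 19211887670) (nat_lit 76) (nat_lit 4214783106) (nat_lit 21) (nat_lit 4) (nat_lit 22) (nat_lit 5) (nat_lit 22) (nat_lit 4) (nat_lit 386) (nat_lit 336) (nat_lit 298)))) (XT.nd (nat_lit 156) (nat_lit 152) (nat_lit 0) (XT.nd (nat_lit 78) (nat_lit 0) (nat_lit 0) (XT.lf (nat_lit 0) (nat_lit 660058454) (nat_lit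 76) (nat_lit 7008327706) (nat_lit 152) (nat_lit 31487510380) (nat_lit 19) (nat_lit 5) (nat_lit 20) (nat_lit 5) (nat_lit 21) (nat_lit 4) (nat_lit 387) (nat_lit 336) (nat_lit 297)) (XT.lf (nat_lit 0) (nat_lit 20771070072) (nat_lit 152) (nat_lit 14459012913) (nat_lit 0) (nat_lit 6372505310) (nat_lit 19) (nat_lit 5) (nat_lit 21) (nat_lit 4) (nat_lit 19) (nat_lit 4) (nat_lit 388) (nat_lit 336) (nat_lit 296))) (XT.nd (nat_lit 78) (nat_lit 76) (nat_lit 0) (XT.lf (nat_lit 0) (nat_lit 11578421010) (nat_lit 76) (nat_lit 23553076264) (nat_lit 76) (nat_lit 9103047812) (nat_lit 18) (nat_lit 4) (nat_lit 19) (nat_lit 5) (nat_lit 19) (nat_lit 4) (nat_lit 389) (nat_lit 336) (nat_lit 295)) (XT.lf (nat_lit 0) (nat_lit 3618827168) (nat_lit 152) (nat_lit 7079084320) (nat_lit 76) (nat_lit 36367910983) (nat_lit 17) (nat_lit 5) (nat_lit 19) (nat_lit 5) (nat_lit 18) (nat_lit 4) (nat_lit 390) (nat_lit 336) (nat_lit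 294))))) (XT.nd (nat_lit 234) (nat_lit 228) (nat_lit 0) (XT.nd (nat_lit 78) (nat_lit 76) (nat_lit 0) (XT.lf (nat_lit 0) (nat_lit 17346153710) (nat_lit 152) (nat_lit 29257841795) (nat_lit 0) (nat_lit 3496818628) (nat_lit 16) (nat_lit 5) (nat_lit 18) (nat_lit 4) (nat_lit 16) (nat_lit 4) (nat_lit 391) (nat_lit 336) (nat_lit 293)) (XT.nd (nat_lit 78) (nat_lit 76) (nat_lit 0) (XT.lf (nat_lit 0) (nat_lit 32399459794) (nat_lit 152) (nat_lit 2456543708) (nat_lit 0) (nat_lit 18511216583) (nat_lit 16) (nat_lit 5) (nat_lit 18) (nat_lit 4) (nat_lit 16) (nat_lit 4) (nat_lit 392) (nat_lit 336) (nat_lit 292)) (XT.lf (nat_lit 0) (nat_lit 27218079214) (nat_lit 76) (nat_lit 21791746537) (nat_lit 76) (nat_lit 7867477279) (nat_lit 15) (nat_lit 4) (nat_lit 16) (nat_lit 5) (nat_lit 16) (nat_lit 4) (nat_lit 393) (nat_lit 336) (nat_lit 291)))) (XT.nd (nat_lit 156) (nat_lit 76) (nat_lit 0) (XT.nd (nat_lit 78) (nat_lit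 76) (nat_lit 0) (XT.lf (nat_lit 0) (nat_lit 6053231833) (nat_lit 152) (nat_lit 1548501449) (nat_lit 76) (nat_lit 53062888583) (nat_lit 14) (nat_lit 5) (nat_lit 16) (nat_lit 5) (nat_lit 15) (nat_lit 4) (nat_lit 394) (nat_lit 336) (nat_lit 290)) (XT.lf (nat_lit 0) (nat_lit 21340589545) (nat_lit 152) (nat_lit 35363263926) (nat_lit 0) (nat_lit 8018195986) (nat_lit 13) (nat_lit 5) (nat_lit 15) (nat_lit 4) (nat_lit 13) (nat_lit 4) (nat_lit 395) (nat_lit 336) (nat_lit 289))) (XT.nd (nat_lit 78) (nat_lit 76) (nat_lit 0) (XT.lf (nat_lit 0) (nat_lit 37943611628) (nat_lit 152) (nat_lit 6561847809) (nat_lit 0) (nat_lit 24593981272) (nat_lit 13) (nat_lit 5) (nat_lit 15) (nat_lit 4) (nat_lit 13) (nat_lit 4) (nat_lit 396) (nat_lit 336) (nat_lit 288)) (XT.lf (nat_lit 0) (nat_lit 25236159352) (nat_lit 76) (nat_lit 30974464550) (nat_lit 76) (nat_lit 17599614938) (nat_lit 12) (nat_lit 4) (nat_lit 13) (nat_lit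 5) (nat_lit 13) (nat_lit 4) (nat_lit 397) (nat_lit 336) (nat_lit 287))))))))
noncomputable def xc40 : XT := (XT.nd (nat_lit 2028) (nat_lit 0) (nat_lit 0) (XT.nd (nat_lit 1014) (nat_lit 228) (nat_lit 0) (XT.nd (nat_lit 468) (nat_lit 228) (nat_lit 0) (XT.nd (nat_lit 234) (nat_lit 76) (nat_lit 0) (XT.nd (nat_lit 78) (nat_lit 152) (nat_lit 0) (XT.lf (nat_lit 0) (nat_lit 59702099667) (nat_lit 76) (nat_lit 16295536382) (nat_lit 76) (nat_lit 2897335607) (nat_lit 12) (nat_lit 4) (nat_lit 13) (nat_lit 5) (nat_lit 13) (nat_lit 4) (nat_lit 398) (nat_lit 336) (nat_lit 286)) (XT.nd (nat_lit 78) (nat_lit 0) (nat_lit 0) (XT.lf (nat_lit 0) (nat_lit 12636819046) (nat_lit 76) (nat_lit 73737670) (nat_lit 152) (nat_lit 71658549856) (nat_lit 10) (nat_lit 5) (nat_lit 11) (nat_lit 5) (nat_lit 12) (nat_lit 4) (nat_lit 399) (nat_lit 336) (nat_lit 285)) (XT.lf (nat_lit 0) (nat_lit 30028288544) (nat_lit 152) (nat_lit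 42993936366) (nat_lit 0) (nat_lit 17228438941) (nat_lit 10) (nat_lit 5) (nat_lit 12) (nat_lit 4) (nat_lit 10) (nat_lit 4) (nat_lit 400) (nat_lit 336) (nat_lit 284)))) (XT.nd (nat_lit 78) (nat_lit 76) (nat_lit 0) (XT.lf (nat_lit 0) (nat_lit 48685620645) (nat_lit 152) (nat_lit 12051301238) (nat_lit 0) (nat_lit 35868116845) (nat_lit 10) (nat_lit 5) (nat_lit 12) (nat_lit 4) (nat_lit 10) (nat_lit 4) (nat_lit 401) (nat_lit 336) (nat_lit 283)) (XT.nd (nat_lit 78) (nat_lit 0) (nat_lit 0) (XT.lf (nat_lit 0) (nat_lit 21983750169) (nat_lit 76) (nat_lit 47151441515) (nat_lit 76) (nat_lit 34317591237) (nat_lit 9) (nat_lit 4) (nat_lit 10) (nat_lit 5) (nat_lit 10) (nat_lit 4) (nat_lit 402) (nat_lit 336) (nat_lit 282)) (XT.lf (nat_lit 0) (nat_lit 59089105988) (nat_lit 76) (nat_lit 32299907068) (nat_lit 76) (nat_lit 19450921162) (nat_lit 9) (nat_lit 4) (nat_lit 10) (nat_lit 5) (nat_lit 10) (nat_lit 4) (nat_lit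 403) (nat_lit 336) (nat_lit 281))))) (XT.nd (nat_lit 234) (nat_lit 76) (nat_lit 0) (XT.nd (nat_lit 78) (nat_lit 152) (nat_lit 0) (XT.lf (nat_lit 0) (nat_lit 99086179363) (nat_lit 76) (nat_lit 16298404067) (nat_lit 76) (nat_lit 3435403691) (nat_lit 9) (nat_lit 4) (nat_lit 10) (nat_lit 5) (nat_lit 10) (nat_lit 4) (nat_lit 404) (nat_lit 336) (nat_lit 280)) (XT.nd (nat_lit 78) (nat_lit 0) (nat_lit 0) (XT.lf (nat_lit 0) (nat_lit 13638377063) (nat_lit 152) (nat_lit 112402672268) (nat_lit 0) (nat_lit 1375542075) (nat_lit 7) (nat_lit 5) (nat_lit 9) (nat_lit 4) (nat_lit 7) (nat_lit 4) (nat_lit 405) (nat_lit 336) (nat_lit 279)) (XT.lf (nat_lit 0) (nat_lit 32548300439) (nat_lit 152) (nat_lit 83846256603) (nat_lit 0) (nat_lit 20274022451) (nat_lit 7) (nat_lit 5) (nat_lit 9) (nat_lit 4) (nat_lit 7) (nat_lit 4) (nat_lit 406) (nat_lit 336) (nat_lit 278)))) (XT.nd (nat_lit 156) (nat_lit 76) (nat_lit 0) (XT.nd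 (nat_lit 78) (nat_lit 0) (nat_lit 0) (XT.lf (nat_lit 0) (nat_lit 52938410803) (nat_lit 152) (nat_lit 53070409982) (nat_lit 0) (nat_lit 40653537445) (nat_lit 7) (nat_lit 5) (nat_lit 9) (nat_lit 4) (nat_lit 7) (nat_lit 4) (nat_lit 407) (nat_lit 336) (nat_lit 277)) (XT.lf (nat_lit 0) (nat_lit 74929538440) (nat_lit 152) (nat_lit 19892757018) (nat_lit 0) (nat_lit 62634854554) (nat_lit 7) (nat_lit 5) (nat_lit 9) (nat_lit 4) (nat_lit 7) (nat_lit 4) (nat_lit 408) (nat_lit 336) (nat_lit 276))) (XT.nd (nat_lit 78) (nat_lit 0) (nat_lit 0) (XT.lf (nat_lit 0) (nat_lit 16408484581) (nat_lit 76) (nat_lit 82499698990) (nat_lit 76) (nat_lit 70195931282) (nat_lit 6) (nat_lit 4) (nat_lit 7) (nat_lit 5) (nat_lit 7) (nat_lit 4) (nat_lit 409) (nat_lit 336) (nat_lit 275)) (XT.lf (nat_lit 0) (nat_lit 56270816760) (nat_lit 76) (nat_lit 68854104855) (nat_lit 76) (nat_lit 56541926201) (nat_lit 6) (nat_lit 4) (nat_lit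 7) (nat_lit 5) (nat_lit 7) (nat_lit 4) (nat_lit 410) (nat_lit 336) (nat_lit 274)))))) (XT.nd (nat_lit 468) (nat_lit 76) (nat_lit 0) (XT.nd (nat_lit 234) (nat_lit 152) (nat_lit 0) (XT.nd (nat_lit 78) (nat_lit 0) (nat_lit 0) (XT.lf (nat_lit 0) (nat_lit 99272716360) (nat_lit 76) (nat_lit 54141543741) (nat_lit 76) (nat_lit 41821577173) (nat_lit 6) (nat_lit 4) (nat_lit 7) (nat_lit 5) (nat_lit 7) (nat_lit 4) (nat_lit 411) (nat_lit 336) (nat_lit 273)) (XT.nd (nat_lit 78) (nat_lit 0) (nat_lit 0) (XT.lf (nat_lit 0) (nat_lit 145669009453) (nat_lit 76) (nat_lit 38274830099) (nat_lit 76) (nat_lit 25947652500) (nat_lit 6) (nat_lit 4) (nat_lit 7) (nat_lit 5) (nat_lit 7) (nat_lit 4) (nat_lit 412) (nat_lit 336) (nat_lit 272)) (XT.lf (nat_lit 0) (nat_lit 195734637035) (nat_lit 76) (nat_lit 21159938959) (nat_lit 76) (nat_lit 8826084480) (nat_lit 6) (nat_lit 4) (nat_lit 7) (nat_lit 5) (nat_lit 7) (nat_lit 4)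 (nat_lit 413) (nat_lit 336) (nat_lit 271)))) (XT.nd (nat_lit 78) (nat_lit 0) (nat_lit 0) (XT.lf (nat_lit 0) (nat_lit 7023351340) (nat_lit 76) (nat_lit 2422203838) (nat_lit 152) (nat_lit 233358578182) (nat_lit 4) (nat_lit 5) (nat_lit 5) (nat_lit 5) (nat_lit 6) (nat_lit 4) (nat_lit 414) (nat_lit 336) (nat_lit 270)) (XT.nd (nat_lit 78) (nat_lit 0) (nat_lit 0) (XT.lf (nat_lit 0) (nat_lit 29663496146) (nat_lit 152) (nat_lit 213638236016) (nat_lit 0) (nat_lit 17905628409) (nat_lit 4) (nat_lit 5) (nat_lit 6) (nat_lit 4) (nat_lit 4) (nat_lit 4) (nat_lit 415) (nat_lit 336) (nat_lit 269)) (XT.lf (nat_lit 0) (nat_lit 51521774438) (nat_lit 152) (nat_lit 189801068246) (nat_lit 0) (nat_lit 39758858774) (nat_lit 4) (nat_lit 5) (nat_lit 6) (nat_lit 4) (nat_lit 4) (nat_lit 4) (nat_lit 416) (nat_lit 336) (nat_lit 268))))) (XT.nd (nat_lit 234) (nat_lit 76) (nat_lit 0) (XT.nd (nat_lit 78) (nat_lit 0) (nat_lit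 0) (XT.lf (nat_lit 0) (nat_lit 75112103202) (nat_lit 152) (nat_lit 164090204028) (nat_lit 0) (nat_lit 63344513532) (nat_lit 4) (nat_lit 5) (nat_lit 6) (nat_lit 4) (nat_lit 4) (nat_lit 4) (nat_lit 417) (nat_lit 336) (nat_lit 267)) (XT.nd (nat_lit 78) (nat_lit 0) (nat_lit 0) (XT.lf (nat_lit 0) (nat_lit 100574276978) (nat_lit 152) (nat_lit 136353282686) (nat_lit 0) (nat_lit 88802359524) (nat_lit 4) (nat_lit 5) (nat_lit 6) (nat_lit 4) (nat_lit 4) (nat_lit 4) (nat_lit 418) (nat_lit 336) (nat_lit 266)) (XT.lf (nat_lit 0) (nat_lit 128059182722) (nat_lit 152) (nat_lit 106425937280) (nat_lit 0) (nat_lit 116283258062) (nat_lit 4) (nat_lit 5) (nat_lit 6) (nat_lit 4) (nat_lit 4) (nat_lit 4) (nat_lit 419) (nat_lit 336) (nat_lit 265)))) (XT.nd (nat_lit 156) (nat_lit 76) (nat_lit 0) (XT.nd (nat_lit 78) (nat_lit 0) (nat_lit 0) (XT.lf (nat_lit 0) (nat_lit 157729693950) (nat_lit 152) (nat_lit 74130820575)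 (nat_lit 0) (nat_lit 145950058913) (nat_lit 4) (nat_lit 5) (nat_lit 6) (nat_lit 4) (nat_lit 4) (nat_lit 4) (nat_lit 420) (nat_lit 336) (nat_lit 264)) (XT.lf (nat_lit 0) (nat_lit 189761635913) (nat_lit 152) (nat_lit 39276554105) (nat_lit 0) (nat_lit 177978565342) (nat_lit 4) (nat_lit 5) (nat_lit 6) (nat_lit 4) (nat_lit 4) (nat_lit 4) (nat_lit 421) (nat_lit 336) (nat_lit 263))) (XT.nd (nat_lit 78) (nat_lit 76) (nat_lit 0) (XT.lf (nat_lit 0) (nat_lit 224344827528) (nat_lit 152) (nat_lit 1656594066) (nat_lit 0) (nat_lit 212558575907) (nat_lit 4) (nat_lit 5) (nat_lit 6) (nat_lit 4) (nat_lit 4) (nat_lit 4) (nat_lit 422) (nat_lit 336) (nat_lit 262)) (XT.lf (nat_lit 0) (nat_lit 40239921425) (nat_lit 76) (nat_lit 222072542744) (nat_lit 76) (nat_lit 210283345706) (nat_lit 3) (nat_lit 4) (nat_lit 4) (nat_lit 5) (nat_lit 4) (nat_lit 4) (nat_lit 423) (nat_lit 336) (nat_lit 261))))))) (XT.nd (nat_lit 1014)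 (nat_lit 0) (nat_lit 0) (XT.nd (nat_lit 468) (nat_lit 0) (nat_lit 0) (XT.nd (nat_lit 234) (nat_lit 0) (nat_lit 0) (XT.nd (nat_lit 78) (nat_lit 0) (nat_lit 0) (XT.lf (nat_lit 0) (nat_lit 85527255795) (nat_lit 76) (nat_lit 217809106753) (nat_lit 76) (nat_lit 206017182478) (nat_lit 3) (nat_lit 4) (nat_lit 4) (nat_lit 5) (nat_lit 4) (nat_lit 4) (nat_lit 424) (nat_lit 336) (nat_lit 260)) (XT.nd (nat_lit 78) (nat_lit 0) (nat_lit 0) (XT.lf (nat_lit 0) (nat_lit 134419003949) (nat_lit 76) (nat_lit 213213904038) (nat_lit 76) (nat_lit 201419454543) (nat_lit 3) (nat_lit 4) (nat_lit 4) (nat_lit 5) (nat_lit 4) (nat_lit 4) (nat_lit 425) (nat_lit 336) (nat_lit 259)) (XT.lf (nat_lit 0) (nat_lit 187204894765) (nat_lit 76) (nat_lit 208259703767) (nat_lit 76) (nat_lit 196462916105) (nat_lit 3) (nat_lit 4) (nat_lit 4) (nat_lit 5) (nat_lit 4) (nat_lit 4) (nat_lit 426) (nat_lit 336) (nat_lit 258)))) (XT.nd (nat_lit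 78) (nat_lit 0) (nat_lit 0) (XT.lf (nat_lit 0) (nat_lit 244197733524) (nat_lit 76) (nat_lit 202917147717) (nat_lit 76) (nat_lit 191118195086) (nat_lit 3) (nat_lit 4) (nat_lit 4) (nat_lit 5) (nat_lit 4) (nat_lit 4) (nat_lit 427) (nat_lit 336) (nat_lit 257)) (XT.nd (nat_lit 78) (nat_lit 0) (nat_lit 0) (XT.lf (nat_lit 0) (nat_lit 305735255564) (nat_lit 76) (nat_lit 197154576296) (nat_lit 76) (nat_lit 185353619064) (nat_lit 3) (nat_lit 4) (nat_lit 4) (nat_lit 5) (nat_lit 4) (nat_lit 4) (nat_lit 428) (nat_lit 336) (nat_lit 256)) (XT.lf (nat_lit 0) (nat_lit 372182127685) (nat_lit 76) (nat_lit 190937840933) (nat_lit 76) (nat_lit 179135027588) (nat_lit 3) (nat_lit 4) (nat_lit 4) (nat_lit 5) (nat_lit 4) (nat_lit 4) (nat_lit 429) (nat_lit 336) (nat_lit 255))))) (XT.nd (nat_lit 234) (nat_lit 0) (nat_lit 0) (XT.nd (nat_lit 78) (nat_lit 0) (nat_lit 0) (XT.lf (nat_lit 0) (nat_lit 443932109127) (nat_lit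 76) (nat_lit 184230101714) (nat_lit 76) (nat_lit 172425569747) (nat_lit 3) (nat_lit 4) (nat_lit 4) (nat_lit 5) (nat_lit 4) (nat_lit 4) (nat_lit 430) (nat_lit 336) (nat_lit 254)) (XT.nd (nat_lit 78) (nat_lit 0) (nat_lit 0) (XT.lf (nat_lit 0) (nat_lit 521410384966) (nat_lit 76) (nat_lit 176991609074) (nat_lit 76) (nat_lit 165185485790) (nat_lit 3) (nat_lit 4) (nat_lit 4) (nat_lit 5) (nat_lit 4) (nat_lit 4) (nat_lit 431) (nat_lit 336) (nat_lit 253)) (XT.lf (nat_lit 0) (nat_lit 605076085727) (nat_lit 76) (nat_lit 169179468241) (nat_lit 76) (nat_lit 157371871516) (nat_lit 3) (nat_lit 4) (nat_lit 4) (nat_lit 5) (nat_lit 4) (nat_lit 4) (nat_lit 432) (nat_lit 336) (nat_lit 252)))) (XT.nd (nat_lit 156) (nat_lit 0) (nat_lit 0) (XT.nd (nat_lit 78) (nat_lit 0) (nat_lit 0) (XT.lf (nat_lit 0) (nat_lit 695425008152) (nat_lit 76) (nat_lit 160747385048) (nat_lit 76) (nat_lit 148938424025) (nat_lit 3) (nat_lit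 4) (nat_lit 4) (nat_lit 5) (nat_lit 4) (nat_lit 4) (nat_lit 433) (nat_lit 336) (nat_lit 251)) (XT.lf (nat_lit 0) (nat_lit 792992553266) (nat_lit 76) (nat_lit 151645391595) (nat_lit 76) (nat_lit 139835167333) (nat_lit 3) (nat_lit 4) (nat_lit 4) (nat_lit 5) (nat_lit 4) (nat_lit 4) (nat_lit 434) (nat_lit 336) (nat_lit 250))) (XT.nd (nat_lit 78) (nat_lit 0) (nat_lit 0) (XT.lf (nat_lit 0) (nat_lit 898356899112) (nat_lit 76) (nat_lit 141819550142) (nat_lit 76) (nat_lit 130008156214) (nat_lit 3) (nat_lit 4) (nat_lit 4) (nat_lit 5) (nat_lit 4) (nat_lit 4) (nat_lit 435) (nat_lit 336) (nat_lit 249)) (XT.lf (nat_lit 0) (nat_lit 1012142427000) (nat_lit 76) (nat_lit 131211633480) (nat_lit 76) (nat_lit 119399156529) (nat_lit 3) (nat_lit 4) (nat_lit 4) (nat_lit 5) (nat_lit 4) (nat_lit 4) (nat_lit 436) (nat_lit 336) (nat_lit 248)))))) (XT.nd (nat_lit 46332) (nat_lit 0) (nat_lit 6384) (XT.nd (nat_lit 46098)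 (nat_lit 0) (nat_lit 10184) (XT.nd (nat_lit 78) (nat_lit 0) (nat_lit 0) (XT.lf (nat_lit 0) (nat_lit 1135023421539) (nat_lit 76) (nat_lit 119758779882) (nat_lit 76) (nat_lit 107945300131) (nat_lit 3) (nat_lit 4) (nat_lit 4) (nat_lit 5) (nat_lit 4) (nat_lit 4) (nat_lit 437) (nat_lit 336) (nat_lit 247)) (XT.nd (nat_lit 45942) (nat_lit 0) (nat_lit 11932) (XT.lf (nat_lit 0) (nat_lit 1267728066400) (nat_lit 76) (nat_lit 107393120585) (nat_lit 76) (nat_lit 95578712316) (nat_lit 3) (nat_lit 4) (nat_lit 4) (nat_lit 5) (nat_lit 4) (nat_lit 4) (nat_lit 438) (nat_lit 336) (nat_lit 246)) (XT.lf (nat_lit 0) (nat_lit 1371396956) (nat_lit 380) (nat_lit 990162900) (nat_lit 380) (nat_lit 990162900) (nat_lit 160) (nat_lit 4) (nat_lit 165) (nat_lit 5) (nat_lit 165) (nat_lit 4) (nat_lit 346) (nat_lit 337) (nat_lit 337)))) (XT.nd (nat_lit 78) (nat_lit 1216) (nat_lit 0) (XT.lf (nat_lit 0) (nat_lit 3034249035) (nat_lit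 456) (nat_lit 86826109) (nat_lit 532) (nat_lit 3680504780) (nat_lit 153) (nat_lit 5) (nat_lit 159) (nat_lit 5) (nat_lit 160) (nat_lit 4) (nat_lit 347) (nat_lit 337) (nat_lit 336)) (XT.nd (nat_lit 78) (nat_lit 608) (nat_lit 0) (XT.lf (nat_lit 0) (nat_lit 1326830117) (nat_lit 608) (nat_lit 3450215563) (nat_lit 76) (nat_lit 2141712979) (nat_lit 145) (nat_lit 5) (nat_lit 153) (nat_lit 5) (nat_lit 146) (nat_lit 4) (nat_lit 348) (nat_lit 337) (nat_lit 335)) (XT.lf (nat_lit 0) (nat_lit 4062314328) (nat_lit 608) (nat_lit 2269024782) (nat_lit 684) (nat_lit 724990302) (nat_lit 137) (nat_lit 5) (nat_lit 145) (nat_lit 5) (nat_lit 146) (nat_lit 4) (nat_lit 349) (nat_lit 337) (nat_lit 334))))) (XT.nd (nat_lit 234) (nat_lit 1824) (nat_lit 0) (XT.nd (nat_lit 78) (nat_lit 1216) (nat_lit 0) (XT.lf (nat_lit 0) (nat_lit 4143040259) (nat_lit 760) (nat_lit 2421228543) (nat_lit 76) (nat_lit 649535802) (nat_lit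 127) (nat_lit 5) (nat_lit 137) (nat_lit 5) (nat_lit 128) (nat_lit 4) (nat_lit 350) (nat_lit 337) (nat_lit 333)) (XT.nd (nat_lit 78) (nat_lit 380) (nat_lit 0) (XT.lf (nat_lit 0) (nat_lit 1738659740) (nat_lit 836) (nat_lit 1740643021) (nat_lit 76) (nat_lit 3912138866) (nat_lit 116) (nat_lit 5) (nat_lit 127) (nat_lit 5) (nat_lit 117) (nat_lit 5) (nat_lit 351) (nat_lit 337) (nat_lit 332)) (XT.lf (nat_lit 0) (nat_lit 6623361183) (nat_lit 456) (nat_lit 930479683) (nat_lit 76) (nat_lit 37250424) (nat_lit 111) (nat_lit 5) (nat_lit 117) (nat_lit 5) (nat_lit 112) (nat_lit 4) (nat_lit 352) (nat_lit 337) (nat_lit 331)))) (XT.nd (nat_lit 156) (nat_lit 608) (nat_lit 0) (XT.nd (nat_lit 78) (nat_lit 760) (nat_lit 0) (XT.lf (nat_lit 0) (nat_lit 3839579963) (nat_lit 456) (nat_lit 66585556) (nat_lit 76) (nat_lit 3903629162) (nat_lit 105) (nat_lit 5) (nat_lit 111) (nat_lit 5) (nat_lit 106) (nat_lit 5) (nat_lit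 353) (nat_lit 337) (nat_lit 330)) (XT.lf (nat_lit 0) (nat_lit 777524884) (nat_lit 380) (nat_lit 7087152222) (nat_lit 76) (nat_lit 187172952) (nat_lit 95) (nat_lit 5) (nat_lit 100) (nat_lit 5) (nat_lit 96) (nat_lit 5) (nat_lit 354) (nat_lit 337) (nat_lit 329))) (XT.nd (nat_lit 78) (nat_lit 304) (nat_lit 0) (XT.lf (nat_lit 0) (nat_lit 2031664288) (nat_lit 304) (nat_lit 3663368693) (nat_lit 380) (nat_lit 2618691655) (nat_lit 91) (nat_lit 5) (nat_lit 95) (nat_lit 5) (nat_lit 96) (nat_lit 5) (nat_lit 355) (nat_lit 337) (nat_lit 328)) (XT.lf (nat_lit 0) (nat_lit 2225133045) (nat_lit 304) (nat_lit 5392443018) (nat_lit 76) (nat_lit 982591733) (nat_lit 87) (nat_lit 5) (nat_lit 91) (nat_lit 5) (nat_lit 88) (nat_lit 5) (nat_lit 356) (nat_lit 337) (nat_lit 327))))))))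
noncomputable def xc41 : XT := (XT.nd (nat_lit 2028) (nat_lit 1444) (nat_lit 0) (XT.nd (nat_lit 1014) (nat_lit 1596) (nat_lit 0) (XT.nd (nat_lit 468) (nat_lit 1216) (nat_lit 0) (XT.nd (nat_lit 234) (nat_lit 988) (nat_lit 0) (XT.nd (nat_lit 78) (nat_lit 532) (nat_lit 0) (XT.lf (nat_lit 0) (nat_lit 4432884252) (nat_lit 304) (nat_lit 2891589639) (nat_lit 380) (nat_lit 1585049983) (nat_lit 83) (nat_lit 5) (nat_lit 87) (nat_lit 5) (nat_lit 88) (nat_lit 5) (nat_lit 357) (nat_lit 337) (nat_lit 326)) (XT.nd (nat_lit 78) (nat_lit 228) (nat_lit 0) (XT.lf (nat_lit 0) (nat_lit 3422732447) (nat_lit 304) (nat_lit 3528773082) (nat_lit 76) (nat_lit 2291965974) (nat_lit 79) (nat_lit 5) (nat_lit 83) (nat_lit 5) (nat_lit 80) (nat_lit 5) (nat_lit 358) (nat_lit 337) (nat_lit 325)) (XT.lf (nat_lit 0) (nat_lit 7063967767) (nat_lit 228) (nat_lit 1691017615) (nat_lit 304) (nat_lit 848988897) (nat_lit 76) (nat_lit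 5) (nat_lit 79) (nat_lit 5) (nat_lit 80) (nat_lit 5) (nat_lit 359) (nat_lit 337) (nat_lit 324)))) (XT.nd (nat_lit 78) (nat_lit 684) (nat_lit 0) (XT.lf (nat_lit 0) (nat_lit 4385629353) (nat_lit 304) (nat_lit 1576609346) (nat_lit 76) (nat_lit 4027153943) (nat_lit 72) (nat_lit 5) (nat_lit 76) (nat_lit 5) (nat_lit 73) (nat_lit 5) (nat_lit 360) (nat_lit 337) (nat_lit 323)) (XT.nd (nat_lit 78) (nat_lit 456) (nat_lit 0) (XT.lf (nat_lit 0) (nat_lit 9847236326) (nat_lit 228) (nat_lit 151133834) (nat_lit 304) (nat_lit 407211382) (nat_lit 69) (nat_lit 5) (nat_lit 72) (nat_lit 5) (nat_lit 73) (nat_lit 5) (nat_lit 361) (nat_lit 337) (nat_lit 322)) (XT.lf (nat_lit 0) (nat_lit 383945957) (nat_lit 228) (nat_lit 4733790671) (nat_lit 304) (nat_lit 5729379776) (nat_lit 63) (nat_lit 5) (nat_lit 66) (nat_lit 5) (nat_lit 67) (nat_lit 5) (nat_lit 362) (nat_lit 337) (nat_lit 321))))) (XT.nd (nat_lit 234) (nat_lit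 684) (nat_lit 0) (XT.nd (nat_lit 78) (nat_lit 380) (nat_lit 0) (XT.lf (nat_lit 0) (nat_lit 1385081593) (nat_lit 152) (nat_lit 9711083845) (nat_lit 228) (nat_lit 226258975) (nat_lit 61) (nat_lit 5) (nat_lit 63) (nat_lit 5) (nat_lit 64) (nat_lit 4) (nat_lit 363) (nat_lit 337) (nat_lit 320)) (XT.nd (nat_lit 78) (nat_lit 152) (nat_lit 0) (XT.lf (nat_lit 0) (nat_lit 2276772126) (nat_lit 152) (nat_lit 3338556430) (nat_lit 228) (nat_lit 6211968729) (nat_lit 58) (nat_lit 5) (nat_lit 60) (nat_lit 5) (nat_lit 61) (nat_lit 5) (nat_lit 364) (nat_lit 337) (nat_lit 319)) (XT.lf (nat_lit 0) (nat_lit 3152505996) (nat_lit 152) (nat_lit 8833974126) (nat_lit 228) (nat_lit 382444766) (nat_lit 56) (nat_lit 5) (nat_lit 58) (nat_lit 5) (nat_lit 59) (nat_lit 4) (nat_lit 365) (nat_lit 337) (nat_lit 318)))) (XT.nd (nat_lit 156) (nat_lit 304) (nat_lit 0) (XT.nd (nat_lit 78) (nat_lit 152) (nat_lit 0) (XT.lf (nat_lit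 0) (nat_lit 3903709354) (nat_lit 152) (nat_lit 1903466655) (nat_lit 228) (nat_lit 7137991965) (nat_lit 53) (nat_lit 5) (nat_lit 55) (nat_lit 5) (nat_lit 56) (nat_lit 5) (nat_lit 366) (nat_lit 337) (nat_lit 317)) (XT.lf (nat_lit 0) (nat_lit 4562699445) (nat_lit 152) (nat_lit 8042280311) (nat_lit 228) (nat_lit 955944471) (nat_lit 51) (nat_lit 5) (nat_lit 53) (nat_lit 5) (nat_lit 54) (nat_lit 4) (nat_lit 367) (nat_lit 337) (nat_lit 316))) (XT.nd (nat_lit 78) (nat_lit 76) (nat_lit 0) (XT.lf (nat_lit 0) (nat_lit 5076343173) (nat_lit 152) (nat_lit 543783473) (nat_lit 228) (nat_lit 8597262873) (nat_lit 48) (nat_lit 5) (nat_lit 50) (nat_lit 5) (nat_lit 51) (nat_lit 5) (nat_lit 368) (nat_lit 337) (nat_lit 315)) (XT.lf (nat_lit 0) (nat_lit 5400737115) (nat_lit 76) (nat_lit 7468385609) (nat_lit 152) (nat_lit 2047488248) (nat_lit 47) (nat_lit 5) (nat_lit 48) (nat_lit 5) (nat_lit 49) (nat_lit 4) (nat_lit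 369) (nat_lit 337) (nat_lit 314)))))) (XT.nd (nat_lit 468) (nat_lit 684) (nat_lit 0) (XT.nd (nat_lit 234) (nat_lit 380) (nat_lit 0) (XT.nd (nat_lit 78) (nat_lit 304) (nat_lit 0) (XT.lf (nat_lit 0) (nat_lit 4956606488) (nat_lit 228) (nat_lit 10124666201) (nat_lit 76) (nat_lit 582047667) (nat_lit 44) (nat_lit 5) (nat_lit 47) (nat_lit 5) (nat_lit 45) (nat_lit 4) (nat_lit 370) (nat_lit 337) (nat_lit 313)) (XT.nd (nat_lit 78) (nat_lit 228) (nat_lit 0) (XT.lf (nat_lit 0) (nat_lit 5384675056) (nat_lit 76) (nat_lit 7274698883) (nat_lit 152) (nat_lit 3798242205) (nat_lit 43) (nat_lit 5) (nat_lit 44) (nat_lit 5) (nat_lit 45) (nat_lit 4) (nat_lit 371) (nat_lit 337) (nat_lit 312)) (XT.lf (nat_lit 0) (nat_lit 3660168188) (nat_lit 228) (nat_lit 12332402000) (nat_lit 76) (nat_lit 1314329259) (nat_lit 40) (nat_lit 5) (nat_lit 43) (nat_lit 5) (nat_lit 41) (nat_lit 4) (nat_lit 372) (nat_lit 337) (nat_lit 311))))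 (XT.nd (nat_lit 78) (nat_lit 304) (nat_lit 0) (XT.lf (nat_lit 0) (nat_lit 4143459941) (nat_lit 76) (nat_lit 7665768362) (nat_lit 152) (nat_lit 6400457389) (nat_lit 39) (nat_lit 5) (nat_lit 40) (nat_lit 5) (nat_lit 41) (nat_lit 4) (nat_lit 373) (nat_lit 337) (nat_lit 310)) (XT.nd (nat_lit 78) (nat_lit 76) (nat_lit 0) (XT.lf (nat_lit 0) (nat_lit 1515293778) (nat_lit 228) (nat_lit 16206175111) (nat_lit 76) (nat_lit 1455366041) (nat_lit 36) (nat_lit 5) (nat_lit 39) (nat_lit 5) (nat_lit 37) (nat_lit 4) (nat_lit 374) (nat_lit 337) (nat_lit 309)) (XT.lf (nat_lit 0) (nat_lit 1188596848) (nat_lit 76) (nat_lit 8903445347) (nat_lit 152) (nat_lit 10111489988) (nat_lit 35) (nat_lit 5) (nat_lit 36) (nat_lit 5) (nat_lit 37) (nat_lit 4) (nat_lit 375) (nat_lit 337) (nat_lit 308))))) (XT.nd (nat_lit 234) (nat_lit 380) (nat_lit 0) (XT.nd (nat_lit 78) (nat_lit 304) (nat_lit 0) (XT.lf (nat_lit 0) (nat_lit 19508694950)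 (nat_lit 152) (nat_lit 1024219577) (nat_lit 0) (nat_lit 771782145) (nat_lit 35) (nat_lit 5) (nat_lit 37) (nat_lit 4) (nat_lit 35) (nat_lit 4) (nat_lit 376) (nat_lit 337) (nat_lit 307)) (XT.nd (nat_lit 78) (nat_lit 76) (nat_lit 0) (XT.lf (nat_lit 0) (nat_lit 7268154481) (nat_lit 228) (nat_lit 3990343200) (nat_lit 76) (nat_lit 11214196057) (nat_lit 32) (nat_lit 5) (nat_lit 35) (nat_lit 5) (nat_lit 33) (nat_lit 4) (nat_lit 377) (nat_lit 337) (nat_lit 306)) (XT.lf (nat_lit 0) (nat_lit 16098194762) (nat_lit 76) (nat_lit 1038418654) (nat_lit 152) (nat_lit 6588956422) (nat_lit 31) (nat_lit 5) (nat_lit 32) (nat_lit 5) (nat_lit 33) (nat_lit 4) (nat_lit 378) (nat_lit 337) (nat_lit 305)))) (XT.nd (nat_lit 156) (nat_lit 152) (nat_lit 0) (XT.nd (nat_lit 78) (nat_lit 76) (nat_lit 0) (XT.lf (nat_lit 0) (nat_lit 2937860742) (nat_lit 152) (nat_lit 12228015652) (nat_lit 76) (nat_lit 9895248052) (nat_lit 29)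 (nat_lit 5) (nat_lit 31) (nat_lit 5) (nat_lit 30) (nat_lit 4) (nat_lit 379) (nat_lit 337) (nat_lit 304)) (XT.lf (nat_lit 0) (nat_lit 8623983843) (nat_lit 76) (nat_lit 4542063919) (nat_lit 152) (nat_lit 13323584524) (nat_lit 28) (nat_lit 5) (nat_lit 29) (nat_lit 5) (nat_lit 30) (nat_lit 4) (nat_lit 380) (nat_lit 337) (nat_lit 303))) (XT.nd (nat_lit 78) (nat_lit 76) (nat_lit 0) (XT.lf (nat_lit 0) (nat_lit 3332535778) (nat_lit 76) (nat_lit 21140399975) (nat_lit 76) (nat_lit 3546474848) (nat_lit 27) (nat_lit 4) (nat_lit 28) (nat_lit 5) (nat_lit 28) (nat_lit 4) (nat_lit 381) (nat_lit 337) (nat_lit 302)) (XT.lf (nat_lit 0) (nat_lit 7068422109) (nat_lit 152) (nat_lit 3198198878) (nat_lit 76) (nat_lit 19385482831) (nat_lit 26) (nat_lit 5) (nat_lit 28) (nat_lit 5) (nat_lit 27) (nat_lit 4) (nat_lit 382) (nat_lit 337) (nat_lit 301))))))) (XT.nd (nat_lit 1014) (nat_lit 456) (nat_lit 0) (XT.nd (nat_lit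 468) (nat_lit 456) (nat_lit 0) (XT.nd (nat_lit 234) (nat_lit 228) (nat_lit 0) (XT.nd (nat_lit 78) (nat_lit 228) (nat_lit 0) (XT.lf (nat_lit 0) (nat_lit 18651782464) (nat_lit 152) (nat_lit 11026298570) (nat_lit 0) (nat_lit 1722258288) (nat_lit 25) (nat_lit 5) (nat_lit 27) (nat_lit 4) (nat_lit 25) (nat_lit 4) (nat_lit 383) (nat_lit 337) (nat_lit 300)) (XT.nd (nat_lit 78) (nat_lit 152) (nat_lit 0) (XT.lf (nat_lit 0) (nat_lit 12698533423) (nat_lit 76) (nat_lit 18790141422) (nat_lit 76) (nat_lit 1783424846) (nat_lit 24) (nat_lit 4) (nat_lit 25) (nat_lit 5) (nat_lit 25) (nat_lit 4) (nat_lit 384) (nat_lit 337) (nat_lit 299)) (XT.lf (nat_lit 0) (nat_lit 3183505191) (nat_lit 76) (nat_lit 6700249058) (nat_lit 152) (nat_lit 25394663109) (nat_lit 22) (nat_lit 5) (nat_lit 23) (nat_lit 5) (nat_lit 24) (nat_lit 4) (nat_lit 385) (nat_lit 337) (nat_lit 298)))) (XT.nd (nat_lit 78) (nat_lit 228) (nat_lit 0)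 (XT.lf (nat_lit 0) (nat_lit 22791101881) (nat_lit 152) (nat_lit 8171090954) (nat_lit 0) (nat_lit 6463129442) (nat_lit 22) (nat_lit 5) (nat_lit 24) (nat_lit 4) (nat_lit 22) (nat_lit 4) (nat_lit 386) (nat_lit 337) (nat_lit 297)) (XT.nd (nat_lit 78) (nat_lit 152) (nat_lit 0) (XT.lf (nat_lit 0) (nat_lit 17957681824) (nat_lit 76) (nat_lit 19078685243) (nat_lit 76) (nat_lit 2692352979) (nat_lit 21) (nat_lit 4) (nat_lit 22) (nat_lit 5) (nat_lit 22) (nat_lit 4) (nat_lit 387) (nat_lit 337) (nat_lit 296)) (XT.lf (nat_lit 0) (nat_lit 4061458013) (nat_lit 76) (nat_lit 5939433280) (nat_lit 152) (nat_lit 32201405799) (nat_lit 19) (nat_lit 5) (nat_lit 20) (nat_lit 5) (nat_lit 21) (nat_lit 4) (nat_lit 388) (nat_lit 337) (nat_lit 295))))) (XT.nd (nat_lit 234) (nat_lit 304) (nat_lit 0) (XT.nd (nat_lit 78) (nat_lit 152) (nat_lit 0) (XT.lf (nat_lit 0) (nat_lit 24048011464) (nat_lit 152) (nat_lit 12459045016)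 (nat_lit 0) (nat_lit 8342865481) (nat_lit 19) (nat_lit 5) (nat_lit 21) (nat_lit 4) (nat_lit 19) (nat_lit 4) (nat_lit 389) (nat_lit 337) (nat_lit 294)) (XT.nd (nat_lit 78) (nat_lit 76) (nat_lit 0) (XT.lf (nat_lit 0) (nat_lit 15524197768) (nat_lit 76) (nat_lit 23960569402) (nat_lit 76) (nat_lit 8211301600) (nat_lit 18) (nat_lit 4) (nat_lit 19) (nat_lit 5) (nat_lit 19) (nat_lit 4) (nat_lit 390) (nat_lit 337) (nat_lit 293)) (XT.lf (nat_lit 0) (nat_lit 5360315044) (nat_lit 152) (nat_lit 4801475497) (nat_lit 76) (nat_lit 40596608329) (nat_lit 17) (nat_lit 5) (nat_lit 19) (nat_lit 5) (nat_lit 18) (nat_lit 4) (nat_lit 391) (nat_lit 337) (nat_lit 292)))) (XT.nd (nat_lit 156) (nat_lit 228) (nat_lit 0) (XT.nd (nat_lit 78) (nat_lit 0) (nat_lit 0) (XT.lf (nat_lit 0) (nat_lit 20141564431) (nat_lit 152) (nat_lit 28829517702) (nat_lit 0) (nat_lit 5067327586) (nat_lit 16) (nat_lit 5) (nat_lit 18) (nat_lit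 4) (nat_lit 16) (nat_lit 4) (nat_lit 392) (nat_lit 337) (nat_lit 291)) (XT.lf (nat_lit 0) (nat_lit 36294859563) (nat_lit 152) (nat_lit 89223282) (nat_lit 0) (nat_lit 21187265268) (nat_lit 16) (nat_lit 5) (nat_lit 18) (nat_lit 4) (nat_lit 16) (nat_lit 4) (nat_lit 393) (nat_lit 337) (nat_lit 290))) (XT.nd (nat_lit 78) (nat_lit 152) (nat_lit 0) (XT.lf (nat_lit 0) (nat_lit 31847947942) (nat_lit 76) (nat_lit 22327844709) (nat_lit 76) (nat_lit 7189363886) (nat_lit 15) (nat_lit 4) (nat_lit 16) (nat_lit 5) (nat_lit 16) (nat_lit 4) (nat_lit 394) (nat_lit 337) (nat_lit 289)) (XT.lf (nat_lit 0) (nat_lit 658260212) (nat_lit 76) (nat_lit 7061417676) (nat_lit 152) (nat_lit 57738941128) (nat_lit 13) (nat_lit 5) (nat_lit 14) (nat_lit 5) (nat_lit 15) (nat_lit 4) (nat_lit 395) (nat_lit 337) (nat_lit 288)))))) (XT.nd (nat_lit 546) (nat_lit 228) (nat_lit 0) (XT.nd (nat_lit 234) (nat_lit 152) (nat_lit 0) (XT.nd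 (nat_lit 78) (nat_lit 76) (nat_lit 0) (XT.lf (nat_lit 0) (nat_lit 24184442439) (nat_lit 152) (nat_lit 35944096546) (nat_lit 0) (nat_lit 9714385602) (nat_lit 13) (nat_lit 5) (nat_lit 15) (nat_lit 4) (nat_lit 13) (nat_lit 4) (nat_lit 396) (nat_lit 337) (nat_lit 287)) (XT.nd (nat_lit 78) (nat_lit 76) (nat_lit 0) (XT.lf (nat_lit 0) (nat_lit 42031513272) (nat_lit 152) (nat_lit 5005102584) (nat_lit 0) (nat_lit 27538105270) (nat_lit 13) (nat_lit 5) (nat_lit 15) (nat_lit 4) (nat_lit 13) (nat_lit 4) (nat_lit 397) (nat_lit 337) (nat_lit 286)) (XT.lf (nat_lit 0) (nat_lit 29246277307) (nat_lit 76) (nat_lit 32466741330) (nat_lit 76) (nat_lit 17951711881) (nat_lit 12) (nat_lit 4) (nat_lit 13) (nat_lit 5) (nat_lit 13) (nat_lit 4) (nat_lit 398) (nat_lit 337) (nat_lit 285)))) (XT.nd (nat_lit 156) (nat_lit 0) (nat_lit 0) (XT.nd (nat_lit 78) (nat_lit 152) (nat_lit 0) (XT.lf (nat_lit 0) (nat_lit 66321994684)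 (nat_lit 76) (nat_lit 16686512271) (nat_lit 76) (nat_lit 2151462963) (nat_lit 12) (nat_lit 4) (nat_lit 13) (nat_lit 5) (nat_lit 13) (nat_lit 4) (nat_lit 399) (nat_lit 337) (nat_lit 284)) (XT.lf (nat_lit 0) (nat_lit 14644312099) (nat_lit 152) (nat_lit 75644682678) (nat_lit 0) (nat_lit 783753799) (nat_lit 10) (nat_lit 5) (nat_lit 12) (nat_lit 4) (nat_lit 10) (nat_lit 4) (nat_lit 400) (nat_lit 337) (nat_lit 283))) (XT.nd (nat_lit 78) (nat_lit 0) (nat_lit 0) (XT.lf (nat_lit 0) (nat_lit 33280694402) (nat_lit 152) (nat_lit 44743687851) (nat_lit 0) (nat_lit 19403789624) (nat_lit 10) (nat_lit 5) (nat_lit 12) (nat_lit 4) (nat_lit 10) (nat_lit 4) (nat_lit 401) (nat_lit 337) (nat_lit 282)) (XT.lf (nat_lit 0) (nat_lit 53367639532) (nat_lit 152) (nat_lit 11450809574) (nat_lit 0) (nat_lit 39475599126) (nat_lit 10) (nat_lit 5) (nat_lit 12) (nat_lit 4) (nat_lit 10) (nat_lit 4) (nat_lit 402) (nat_lit 337)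 (nat_lit 281))))) (XT.nd (nat_lit 234) (nat_lit 152) (nat_lit 0) (XT.nd (nat_lit 78) (nat_lit 0) (nat_lit 0) (XT.lf (nat_lit 0) (nat_lit 25239050521) (nat_lit 76) (nat_lit 50179183027) (nat_lit 76) (nat_lit 36273128150) (nat_lit 9) (nat_lit 4) (nat_lit 10) (nat_lit 5) (nat_lit 10) (nat_lit 4) (nat_lit 403) (nat_lit 337) (nat_lit 280)) (XT.nd (nat_lit 78) (nat_lit 0) (nat_lit 0) (XT.lf (nat_lit 0) (nat_lit 65201975521) (nat_lit 76) (nat_lit 34194664625) (nat_lit 76) (nat_lit 20275633386) (nat_lit 9) (nat_lit 4) (nat_lit 10) (nat_lit 5) (nat_lit 10) (nat_lit 4) (nat_lit 404) (nat_lit 337) (nat_lit 279)) (XT.lf (nat_lit 0) (nat_lit 108296167281) (nat_lit 76) (nat_lit 16964095829) (nat_lit 76) (nat_lit 3033049441) (nat_lit 9) (nat_lit 4) (nat_lit 10) (nat_lit 5) (nat_lit 10) (nat_lit 4) (nat_lit 405) (nat_lit 337) (nat_lit 278)))) (XT.nd (nat_lit 156) (nat_lit 0) (nat_lit 0) (XT.nd (nat_lit 78)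 (nat_lit 0) (nat_lit 0) (XT.lf (nat_lit 0) (nat_lit 15365594941) (nat_lit 152) (nat_lit 120125155455) (nat_lit 0) (nat_lit 2087336344) (nat_lit 7) (nat_lit 5) (nat_lit 9) (nat_lit 4) (nat_lit 7) (nat_lit 4) (nat_lit 406) (nat_lit 337) (nat_lit 277)) (XT.lf (nat_lit 0) (nat_lit 35741190133) (nat_lit 152) (nat_lit 89378280654) (nat_lit 0) (nat_lit 22453121009) (nat_lit 7) (nat_lit 5) (nat_lit 9) (nat_lit 4) (nat_lit 7) (nat_lit 4) (nat_lit 407) (nat_lit 337) (nat_lit 276))) (XT.nd (nat_lit 78) (nat_lit 0) (nat_lit 0) (XT.lf (nat_lit 0) (nat_lit 57718877796) (nat_lit 152) (nat_lit 56227453450) (nat_lit 0) (nat_lit 44421724850) (nat_lit 7) (nat_lit 5) (nat_lit 9) (nat_lit 4) (nat_lit 7) (nat_lit 4) (nat_lit 408) (nat_lit 337) (nat_lit 275)) (XT.lf (nat_lit 0) (nat_lit 81428896079) (nat_lit 152) (nat_lit 20476224496) (nat_lit 0) (nat_lit 68123332186) (nat_lit 7) (nat_lit 5) (nat_lit 9) (nat_lit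 4) (nat_lit 7) (nat_lit 4) (nat_lit 409) (nat_lit 337) (nat_lit 274))))))))
noncomputable def xc42 : XT := (XT.nd (nat_lit 2028) (nat_lit 0) (nat_lit 0) (XT.nd (nat_lit 1014) (nat_lit 76) (nat_lit 0) (XT.nd (nat_lit 468) (nat_lit 0) (nat_lit 0) (XT.nd (nat_lit 234) (nat_lit 152) (nat_lit 0) (XT.nd (nat_lit 78) (nat_lit 0) (nat_lit 0) (XT.lf (nat_lit 0) (nat_lit 18685312018) (nat_lit 76) (nat_lit 88618166860) (nat_lit 76) (nat_lit 75304815054) (nat_lit 6) (nat_lit 4) (nat_lit 7) (nat_lit 5) (nat_lit 7) (nat_lit 4) (nat_lit 410) (nat_lit 337) (nat_lit 273)) (XT.nd (nat_lit 78) (nat_lit 0) (nat_lit 0) (XT.lf (nat_lit 0) (nat_lit 61665212352) (nat_lit 76) (nat_lit 73916592458) (nat_lit 76) (nat_lit 60596029621) (nat_lit 6) (nat_lit 4) (nat_lit 7) (nat_lit 5) (nat_lit 7) (nat_lit 4) (nat_lit 411) (nat_lit 337) (nat_lit 272)) (XT.lf (nat_lit 0) (nat_lit 108041135753) (nat_lit 76) (nat_lit 58060051698)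 (nat_lit 76) (nat_lit 44732811980) (nat_lit 6) (nat_lit 4) (nat_lit 7) (nat_lit 5) (nat_lit 7) (nat_lit 4) (nat_lit 412) (nat_lit 337) (nat_lit 271)))) (XT.nd (nat_lit 78) (nat_lit 152) (nat_lit 0) (XT.lf (nat_lit 0) (nat_lit 158087902510) (nat_lit 76) (nat_lit 40954579893) (nat_lit 76) (nat_lit 27621157879) (nat_lit 6) (nat_lit 4) (nat_lit 7) (nat_lit 5) (nat_lit 7) (nat_lit 4) (nat_lit 413) (nat_lit 337) (nat_lit 270)) (XT.nd (nat_lit 78) (nat_lit 152) (nat_lit 0) (XT.lf (nat_lit 0) (nat_lit 212102086054) (nat_lit 76) (nat_lit 22498811286) (nat_lit 76) (nat_lit 9159664923) (nat_lit 6) (nat_lit 4) (nat_lit 7) (nat_lit 5) (nat_lit 7) (nat_lit 4) (nat_lit 414) (nat_lit 337) (nat_lit 269)) (XT.lf (nat_lit 0) (nat_lit 8274515712) (nat_lit 76) (nat_lit 2271319603) (nat_lit 152) (nat_lit 251665385210) (nat_lit 4) (nat_lit 5) (nat_lit 5) (nat_lit 5) (nat_lit 6) (nat_lit 4) (nat_lit 415) (nat_lit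 337) (nat_lit 268))))) (XT.nd (nat_lit 234) (nat_lit 0) (nat_lit 0) (XT.nd (nat_lit 78) (nat_lit 0) (nat_lit 0) (XT.lf (nat_lit 0) (nat_lit 32360665505) (nat_lit 152) (nat_lit 230080073924) (nat_lit 0) (nat_lit 19646994656) (nat_lit 4) (nat_lit 5) (nat_lit 6) (nat_lit 4) (nat_lit 4) (nat_lit 4) (nat_lit 416) (nat_lit 337) (nat_lit 267)) (XT.nd (nat_lit 78) (nat_lit 0) (nat_lit 0) (XT.lf (nat_lit 0) (nat_lit 55943599419) (nat_lit 152) (nat_lit 204384023174) (nat_lit 0) (nat_lit 43225600786) (nat_lit 4) (nat_lit 5) (nat_lit 6) (nat_lit 4) (nat_lit 4) (nat_lit 4) (nat_lit 417) (nat_lit 337) (nat_lit 266)) (XT.lf (nat_lit 0) (nat_lit 81398926111) (nat_lit 152) (nat_lit 176660818006) (nat_lit 0) (nat_lit 68676920271) (nat_lit 4) (nat_lit 5) (nat_lit 6) (nat_lit 4) (nat_lit 4) (nat_lit 4) (nat_lit 418) (nat_lit 337) (nat_lit 265)))) (XT.nd (nat_lit 156) (nat_lit 0) (nat_lit 0) (XT.nd (nat_lit 78)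 (nat_lit 0) (nat_lit 0) (XT.lf (nat_lit 0) (nat_lit 108877491963) (nat_lit 152) (nat_lit 146746172761) (nat_lit 0) (nat_lit 96151775746) (nat_lit 4) (nat_lit 5) (nat_lit 6) (nat_lit 4) (nat_lit 4) (nat_lit 4) (nat_lit 419) (nat_lit 337) (nat_lit 264)) (XT.lf (nat_lit 0) (nat_lit 138542132920) (nat_lit 152) (nat_lit 114462815465) (nat_lit 0) (nat_lit 125812981170) (nat_lit 4) (nat_lit 5) (nat_lit 6) (nat_lit 4) (nat_lit 4) (nat_lit 4) (nat_lit 420) (nat_lit 337) (nat_lit 263))) (XT.nd (nat_lit 78) (nat_lit 0) (nat_lit 0) (XT.lf (nat_lit 0) (nat_lit 170568639448) (nat_lit 152) (nat_lit 79619437335) (nat_lit 0) (nat_lit 157836306647) (nat_lit 4) (nat_lit 5) (nat_lit 6) (nat_lit 4) (nat_lit 4) (nat_lit 4) (nat_lit 421) (nat_lit 337) (nat_lit 262)) (XT.lf (nat_lit 0) (nat_lit 205146798251) (nat_lit 152) (nat_lit 42009559094) (nat_lit 0) (nat_lit 192411520034) (nat_lit 4) (nat_lit 5) (nat_lit 6)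 (nat_lit 4) (nat_lit 4) (nat_lit 4) (nat_lit 422) (nat_lit 337) (nat_lit 261)))))) (XT.nd (nat_lit 468) (nat_lit 0) (nat_lit 0) (XT.nd (nat_lit 234) (nat_lit 0) (nat_lit 0) (XT.nd (nat_lit 78) (nat_lit 76) (nat_lit 0) (XT.lf (nat_lit 0) (nat_lit 242481516938) (nat_lit 152) (nat_lit 1410307388) (nat_lit 0) (nat_lit 229743511483) (nat_lit 4) (nat_lit 5) (nat_lit 6) (nat_lit 4) (nat_lit 4) (nat_lit 4) (nat_lit 423) (nat_lit 337) (nat_lit 260)) (XT.nd (nat_lit 78) (nat_lit 0) (nat_lit 0) (XT.lf (nat_lit 0) (nat_lit 43821466539) (nat_lit 76) (nat_lit 239656747648) (nat_lit 76) (nat_lit 226916216973) (nat_lit 3) (nat_lit 4) (nat_lit 4) (nat_lit 5) (nat_lit 4) (nat_lit 4) (nat_lit 424) (nat_lit 337) (nat_lit 259)) (XT.lf (nat_lit 0) (nat_lit 92704946813) (nat_lit 76) (nat_lit 235065688520) (nat_lit 76) (nat_lit 222322819679) (nat_lit 3) (nat_lit 4) (nat_lit 4) (nat_lit 5) (nat_lit 4) (nat_lit 4)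 (nat_lit 425) (nat_lit 337) (nat_lit 258)))) (XT.nd (nat_lit 78) (nat_lit 0) (nat_lit 0) (XT.lf (nat_lit 0) (nat_lit 145483182186) (nat_lit 76) (nat_lit 230115324904) (nat_lit 76) (nat_lit 217370291093) (nat_lit 3) (nat_lit 4) (nat_lit 4) (nat_lit 5) (nat_lit 4) (nat_lit 4) (nat_lit 426) (nat_lit 337) (nat_lit 257)) (XT.nd (nat_lit 78) (nat_lit 0) (nat_lit 0) (XT.lf (nat_lit 0) (nat_lit 202468932570) (nat_lit 76) (nat_lit 224776321312) (nat_lit 76) (nat_lit 212029282900) (nat_lit 3) (nat_lit 4) (nat_lit 4) (nat_lit 5) (nat_lit 4) (nat_lit 4) (nat_lit 427) (nat_lit 337) (nat_lit 256)) (XT.lf (nat_lit 0) (nat_lit 263999891301) (nat_lit 76) (nat_lit 219017039204) (nat_lit 76) (nat_lit 206268144680) (nat_lit 3) (nat_lit 4) (nat_lit 4) (nat_lit 5) (nat_lit 4) (nat_lit 4) (nat_lit 428) (nat_lit 337) (nat_lit 255))))) (XT.nd (nat_lit 234) (nat_lit 0) (nat_lit 0) (XT.nd (nat_lit 78) (nat_lit 0) (nat_lit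 0) (XT.lf (nat_lit 0) (nat_lit 330440686283) (nat_lit 76) (nat_lit 212803349502) (nat_lit 76) (nat_lit 200052736355) (nat_lit 3) (nat_lit 4) (nat_lit 4) (nat_lit 5) (nat_lit 4) (nat_lit 4) (nat_lit 429) (nat_lit 337) (nat_lit 254)) (XT.nd (nat_lit 78) (nat_lit 0) (nat_lit 0) (XT.lf (nat_lit 0) (nat_lit 402185040746) (nat_lit 76) (nat_lit 206098430339) (nat_lit 76) (nat_lit 193346225875) (nat_lit 3) (nat_lit 4) (nat_lit 4) (nat_lit 5) (nat_lit 4) (nat_lit 4) (nat_lit 430) (nat_lit 337) (nat_lit 253)) (XT.lf (nat_lit 0) (nat_lit 479658106418) (nat_lit 76) (nat_lit 198862548861) (nat_lit 76) (nat_lit 186108870956) (nat_lit 3) (nat_lit 4) (nat_lit 4) (nat_lit 5) (nat_lit 4) (nat_lit 4) (nat_lit 431) (nat_lit 337) (nat_lit 252)))) (XT.nd (nat_lit 156) (nat_lit 0) (nat_lit 0) (XT.nd (nat_lit 78) (nat_lit 0) (nat_lit 0) (XT.lf (nat_lit 0) (nat_lit 563318982950) (nat_lit 76) (nat_lit 191052825772)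 (nat_lit 76) (nat_lit 178297783569) (nat_lit 3) (nat_lit 4) (nat_lit 4) (nat_lit 5) (nat_lit 4) (nat_lit 4) (nat_lit 432) (nat_lit 337) (nat_lit 251)) (XT.lf (nat_lit 0) (nat_lit 653663438498) (nat_lit 76) (nat_lit 182622981231) (nat_lit 76) (nat_lit 169866675789) (nat_lit 3) (nat_lit 4) (nat_lit 4) (nat_lit 5) (nat_lit 4) (nat_lit 4) (nat_lit 433) (nat_lit 337) (nat_lit 250))) (XT.nd (nat_lit 78) (nat_lit 0) (nat_lit 0) (XT.lf (nat_lit 0) (nat_lit 751226847613) (nat_lit 76) (nat_lit 173523060603) (nat_lit 76) (nat_lit 160765585495) (nat_lit 3) (nat_lit 4) (nat_lit 4) (nat_lit 5) (nat_lit 4) (nat_lit 4) (nat_lit 434) (nat_lit 337) (nat_lit 249)) (XT.lf (nat_lit 0) (nat_lit 856587363831) (nat_lit 76) (nat_lit 163699138432) (nat_lit 76) (nat_lit 150940580301) (nat_lit 3) (nat_lit 4) (nat_lit 4) (nat_lit 5) (nat_lit 4) (nat_lit 4) (nat_lit 435) (nat_lit 337) (nat_lit 248))))))) (XT.nd (nat_lit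 46800) (nat_lit 0) (nat_lit 3800) (XT.nd (nat_lit 46254) (nat_lit 0) (nat_lit 7296) (XT.nd (nat_lit 46020) (nat_lit 0) (nat_lit 11400) (XT.nd (nat_lit 78) (nat_lit 0) (nat_lit 0) (XT.lf (nat_lit 0) (nat_lit 970369345767) (nat_lit 76) (nat_lit 153092998884) (nat_lit 76) (nat_lit 140333437954) (nat_lit 3) (nat_lit 4) (nat_lit 4) (nat_lit 5) (nat_lit 4) (nat_lit 4) (nat_lit 436) (nat_lit 337) (nat_lit 247)) (XT.nd (nat_lit 45864) (nat_lit 0) (nat_lit 12692) (XT.lf (nat_lit 0) (nat_lit 1093247057017) (nat_lit 76) (nat_lit 141641790761) (nat_lit 76) (nat_lit 128881301313) (nat_lit 3) (nat_lit 4) (nat_lit 4) (nat_lit 5) (nat_lit 4) (nat_lit 4) (nat_lit 437) (nat_lit 337) (nat_lit 246)) (XT.lf (nat_lit 0) (nat_lit 1438601415) (nat_lit 228) (nat_lit 920014377) (nat_lit 228) (nat_lit 920014377) (nat_lit 170) (nat_lit 4) (nat_lit 173) (nat_lit 5) (nat_lit 173) (nat_lit 4) (nat_lit 344) (nat_lit 338)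 (nat_lit 338)))) (XT.nd (nat_lit 78) (nat_lit 912) (nat_lit 0) (XT.lf (nat_lit 0) (nat_lit 2631041723) (nat_lit 304) (nat_lit 513234718) (nat_lit 380) (nat_lit 3481326261) (nat_lit 165) (nat_lit 5) (nat_lit 169) (nat_lit 5) (nat_lit 170) (nat_lit 4) (nat_lit 345) (nat_lit 338) (nat_lit 337)) (XT.nd (nat_lit 78) (nat_lit 456) (nat_lit 0) (XT.lf (nat_lit 0) (nat_lit 1380586901) (nat_lit 456) (nat_lit 4166823274) (nat_lit 76) (nat_lit 1165891423) (nat_lit 159) (nat_lit 5) (nat_lit 165) (nat_lit 5) (nat_lit 160) (nat_lit 4) (nat_lit 346) (nat_lit 338) (nat_lit 336)) (XT.lf (nat_lit 0) (nat_lit 2616790531) (nat_lit 456) (nat_lit 3592277816) (nat_lit 532) (nat_lit 611468261) (nat_lit 153) (nat_lit 5) (nat_lit 159) (nat_lit 5) (nat_lit 160) (nat_lit 4) (nat_lit 347) (nat_lit 338) (nat_lit 335))))) (XT.nd (nat_lit 234) (nat_lit 2128) (nat_lit 0) (XT.nd (nat_lit 78) (nat_lit 1368) (nat_lit 0) (XT.lf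 (nat_lit 0) (nat_lit 2832664561) (nat_lit 532) (nat_lit 1226186525) (nat_lit 608) (nat_lit 2888557438) (nat_lit 145) (nat_lit 5) (nat_lit 152) (nat_lit 5) (nat_lit 153) (nat_lit 5) (nat_lit 348) (nat_lit 338) (nat_lit 334)) (XT.nd (nat_lit 78) (nat_lit 684) (nat_lit 0) (XT.lf (nat_lit 0) (nat_lit 1697622049) (nat_lit 684) (nat_lit 3901841107) (nat_lit 76) (nat_lit 1494975580) (nat_lit 136) (nat_lit 5) (nat_lit 145) (nat_lit 5) (nat_lit 137) (nat_lit 5) (nat_lit 349) (nat_lit 338) (nat_lit 333)) (XT.lf (nat_lit 0) (nat_lit 3681316049) (nat_lit 684) (nat_lit 2659615725) (nat_lit 760) (nat_lit 920614207) (nat_lit 127) (nat_lit 5) (nat_lit 136) (nat_lit 5) (nat_lit 137) (nat_lit 5) (nat_lit 350) (nat_lit 338) (nat_lit 332)))) (XT.nd (nat_lit 156) (nat_lit 836) (nat_lit 0) (XT.nd (nat_lit 78) (nat_lit 456) (nat_lit 0) (XT.lf (nat_lit 0) (nat_lit 3590814024) (nat_lit 836) (nat_lit 3157880306) (nat_lit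 76) (nat_lit 700376803) (nat_lit 116) (nat_lit 5) (nat_lit 127) (nat_lit 5) (nat_lit 117) (nat_lit 5) (nat_lit 351) (nat_lit 338) (nat_lit 331)) (XT.lf (nat_lit 0) (nat_lit 614946118) (nat_lit 456) (nat_lit 2642407037) (nat_lit 76) (nat_lit 4400086519) (nat_lit 110) (nat_lit 5) (nat_lit 116) (nat_lit 5) (nat_lit 111) (nat_lit 5) (nat_lit 352) (nat_lit 338) (nat_lit 330))) (XT.nd (nat_lit 78) (nat_lit 456) (nat_lit 0) (XT.lf (nat_lit 0) (nat_lit 5159872009) (nat_lit 456) (nat_lit 2043512247) (nat_lit 76) (nat_lit 683661870) (nat_lit 105) (nat_lit 5) (nat_lit 111) (nat_lit 5) (nat_lit 106) (nat_lit 5) (nat_lit 353) (nat_lit 338) (nat_lit 329)) (XT.lf (nat_lit 0) (nat_lit 1783969133) (nat_lit 456) (nat_lit 1377227304) (nat_lit 76) (nat_lit 4976852840) (nat_lit 99) (nat_lit 5) (nat_lit 105) (nat_lit 5) (nat_lit 100) (nat_lit 5) (nat_lit 354) (nat_lit 338) (nat_lit 328)))))) (XT.nd (nat_lit 468)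 (nat_lit 1444) (nat_lit 0) (XT.nd (nat_lit 234) (nat_lit 836) (nat_lit 0) (XT.nd (nat_lit 78) (nat_lit 912) (nat_lit 0) (XT.lf (nat_lit 0) (nat_lit 6459342235) (nat_lit 380) (nat_lit 631471740) (nat_lit 76) (nat_lit 1321288459) (nat_lit 95) (nat_lit 5) (nat_lit 100) (nat_lit 5) (nat_lit 96) (nat_lit 5) (nat_lit 355) (nat_lit 338) (nat_lit 327)) (XT.nd (nat_lit 78) (nat_lit 304) (nat_lit 0) (XT.lf (nat_lit 0) (nat_lit 163260853) (nat_lit 228) (nat_lit 2499479303) (nat_lit 304) (nat_lit 6045699446) (nat_lit 87) (nat_lit 5) (nat_lit 90) (nat_lit 5) (nat_lit 91) (nat_lit 5) (nat_lit 356) (nat_lit 338) (nat_lit 326)) (XT.lf (nat_lit 0) (nat_lit 1042274339) (nat_lit 304) (nat_lit 6501566315) (nat_lit 380) (nat_lit 1484925694) (nat_lit 83) (nat_lit 5) (nat_lit 87) (nat_lit 5) (nat_lit 88) (nat_lit 5) (nat_lit 357) (nat_lit 338) (nat_lit 325)))) (XT.nd (nat_lit 78) (nat_lit 532) (nat_lit 0) (XT.lf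 (nat_lit 0) (nat_lit 1955407934) (nat_lit 228) (nat_lit 1346527218) (nat_lit 304) (nat_lit 6071638233) (nat_lit 79) (nat_lit 5) (nat_lit 82) (nat_lit 5) (nat_lit 83) (nat_lit 5) (nat_lit 358) (nat_lit 338) (nat_lit 324)) (XT.nd (nat_lit 78) (nat_lit 304) (nat_lit 0) (XT.lf (nat_lit 0) (nat_lit 2899227599) (nat_lit 228) (nat_lit 5533321912) (nat_lit 304) (nat_lit 1311656467) (nat_lit 76) (nat_lit 5) (nat_lit 79) (nat_lit 5) (nat_lit 80) (nat_lit 5) (nat_lit 359) (nat_lit 338) (nat_lit 323)) (XT.lf (nat_lit 0) (nat_lit 3692530986) (nat_lit 304) (nat_lit 6269202995) (nat_lit 76) (nat_lit 180555720) (nat_lit 72) (nat_lit 5) (nat_lit 76) (nat_lit 5) (nat_lit 73) (nat_lit 5) (nat_lit 360) (nat_lit 338) (nat_lit 322))))) (XT.nd (nat_lit 234) (nat_lit 760) (nat_lit 0) (XT.nd (nat_lit 78) (nat_lit 456) (nat_lit 0) (XT.lf (nat_lit 0) (nat_lit 4836941707) (nat_lit 228) (nat_lit 4283923307) (nat_lit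 304) (nat_lit 1446873027) (nat_lit 69) (nat_lit 5) (nat_lit 72) (nat_lit 5) (nat_lit 73) (nat_lit 5) (nat_lit 361) (nat_lit 338) (nat_lit 321)) (XT.nd (nat_lit 78) (nat_lit 228) (nat_lit 0) (XT.lf (nat_lit 0) (nat_lit 3850357249) (nat_lit 228) (nat_lit 5219462963) (nat_lit 76) (nat_lit 1953348444) (nat_lit 66) (nat_lit 5) (nat_lit 69) (nat_lit 5) (nat_lit 67) (nat_lit 5) (nat_lit 362) (nat_lit 338) (nat_lit 320)) (XT.lf (nat_lit 0) (nat_lit 6758852781) (nat_lit 228) (nat_lit 2838189881) (nat_lit 304) (nat_lit 1913053100) (nat_lit 63) (nat_lit 5) (nat_lit 66) (nat_lit 5) (nat_lit 67) (nat_lit 5) (nat_lit 363) (nat_lit 338) (nat_lit 319)))) (XT.nd (nat_lit 156) (nat_lit 380) (nat_lit 0) (XT.nd (nat_lit 78) (nat_lit 152) (nat_lit 0) (XT.lf (nat_lit 0) (nat_lit 3727099584) (nat_lit 228) (nat_lit 4365911573) (nat_lit 76) (nat_lit 3936073551) (nat_lit 60) (nat_lit 5) (nat_lit 63) (nat_lit 5) (nat_lit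 61) (nat_lit 5) (nat_lit 364) (nat_lit 338) (nat_lit 318)) (XT.lf (nat_lit 0) (nat_lit 8545006434) (nat_lit 152) (nat_lit 1284604777) (nat_lit 228) (nat_lit 2754559165) (nat_lit 58) (nat_lit 5) (nat_lit 60) (nat_lit 5) (nat_lit 61) (nat_lit 5) (nat_lit 365) (nat_lit 338) (nat_lit 317))) (XT.nd (nat_lit 78) (nat_lit 152) (nat_lit 0) (XT.lf (nat_lit 0) (nat_lit 3273249858) (nat_lit 228) (nat_lit 3856883696) (nat_lit 76) (nat_lit 6044041375) (nat_lit 55) (nat_lit 5) (nat_lit 58) (nat_lit 5) (nat_lit 56) (nat_lit 5) (nat_lit 366) (nat_lit 338) (nat_lit 316)) (XT.lf (nat_lit 0) (nat_lit 9768037730) (nat_lit 228) (nat_lit 3767936363) (nat_lit 76) (nat_lit 269129169) (nat_lit 53) (nat_lit 5) (nat_lit 56) (nat_lit 5) (nat_lit 54) (nat_lit 4) (nat_lit 367) (nat_lit 338) (nat_lit 315))))))))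
noncomputable def xc43 : XT := (XT.nd (nat_lit 2028) (nat_lit 912) (nat_lit 0) (XT.nd (nat_lit 1014) (nat_lit 988) (nat_lit 0) (XT.nd (nat_lit 468) (nat_lit 836) (nat_lit 0) (XT.nd (nat_lit 234) (nat_lit 456) (nat_lit 0) (XT.nd (nat_lit 78) (nat_lit 304) (nat_lit 0) (XT.lf (nat_lit 0) (nat_lit 2412517111) (nat_lit 228) (nat_lit 3882866937) (nat_lit 76) (nat_lit 8179863703) (nat_lit 50) (nat_lit 5) (nat_lit 53) (nat_lit 5) (nat_lit 51) (nat_lit 5) (nat_lit 368) (nat_lit 338) (nat_lit 314)) (XT.nd (nat_lit 78) (nat_lit 152) (nat_lit 0) (XT.lf (nat_lit 0) (nat_lit 9342856001) (nat_lit 228) (nat_lit 4170170280) (nat_lit 76) (nat_lit 1677393162) (nat_lit 48) (nat_lit 5) (nat_lit 51) (nat_lit 5) (nat_lit 49) (nat_lit 4) (nat_lit 369) (nat_lit 338) (nat_lit 313)) (XT.lf (nat_lit 0) (nat_lit 1035512538) (nat_lit 152) (nat_lit 4691403553) (nat_lit 76) (nat_lit 10225326798) (nat_lit 46) (nat_lit 5)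 (nat_lit 48) (nat_lit 5) (nat_lit 47) (nat_lit 5) (nat_lit 370) (nat_lit 338) (nat_lit 312)))) (XT.nd (nat_lit 78) (nat_lit 304) (nat_lit 0) (XT.lf (nat_lit 0) (nat_lit 8412497756) (nat_lit 228) (nat_lit 5508609065) (nat_lit 76) (nat_lit 2841735158) (nat_lit 44) (nat_lit 5) (nat_lit 47) (nat_lit 5) (nat_lit 45) (nat_lit 4) (nat_lit 371) (nat_lit 338) (nat_lit 311)) (XT.nd (nat_lit 78) (nat_lit 228) (nat_lit 0) (XT.lf (nat_lit 0) (nat_lit 11005670823) (nat_lit 76) (nat_lit 5580230224) (nat_lit 152) (nat_lit 1042102317) (nat_lit 43) (nat_lit 5) (nat_lit 44) (nat_lit 5) (nat_lit 45) (nat_lit 4) (nat_lit 372) (nat_lit 338) (nat_lit 310)) (XT.lf (nat_lit 0) (nat_lit 6809541406) (nat_lit 228) (nat_lit 8153541783) (nat_lit 76) (nat_lit 3585070022) (nat_lit 40) (nat_lit 5) (nat_lit 43) (nat_lit 5) (nat_lit 41) (nat_lit 4) (nat_lit 373) (nat_lit 338) (nat_lit 309))))) (XT.nd (nat_lit 234) (nat_lit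 456) (nat_lit 0) (XT.nd (nat_lit 78) (nat_lit 304) (nat_lit 0) (XT.lf (nat_lit 0) (nat_lit 9415904848) (nat_lit 76) (nat_lit 6060166822) (nat_lit 152) (nat_lit 4053848249) (nat_lit 39) (nat_lit 5) (nat_lit 40) (nat_lit 5) (nat_lit 41) (nat_lit 4) (nat_lit 374) (nat_lit 338) (nat_lit 308)) (XT.nd (nat_lit 78) (nat_lit 76) (nat_lit 0) (XT.lf (nat_lit 0) (nat_lit 4307842960) (nat_lit 228) (nat_lit 12590249844) (nat_lit 76) (nat_lit 3678938709) (nat_lit 36) (nat_lit 5) (nat_lit 39) (nat_lit 5) (nat_lit 37) (nat_lit 4) (nat_lit 375) (nat_lit 338) (nat_lit 307)) (XT.lf (nat_lit 0) (nat_lit 5982616117) (nat_lit 76) (nat_lit 7463602647) (nat_lit 152) (nat_lit 8245899845) (nat_lit 35) (nat_lit 5) (nat_lit 36) (nat_lit 5) (nat_lit 37) (nat_lit 4) (nat_lit 376) (nat_lit 338) (nat_lit 306)))) (XT.nd (nat_lit 156) (nat_lit 152) (nat_lit 0) (XT.nd (nat_lit 78) (nat_lit 76) (nat_lit 0) (XT.lf (nat_lit 0)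 (nat_lit 605779295) (nat_lit 228) (nat_lit 19454367060) (nat_lit 76) (nat_lit 2825957800) (nat_lit 32) (nat_lit 5) (nat_lit 35) (nat_lit 5) (nat_lit 33) (nat_lit 4) (nat_lit 377) (nat_lit 338) (nat_lit 305)) (XT.lf (nat_lit 0) (nat_lit 12833381) (nat_lit 76) (nat_lit 10153189515) (nat_lit 152) (nat_lit 13988375278) (nat_lit 31) (nat_lit 5) (nat_lit 32) (nat_lit 5) (nat_lit 33) (nat_lit 4) (nat_lit 378) (nat_lit 338) (nat_lit 304))) (XT.nd (nat_lit 78) (nat_lit 152) (nat_lit 0) (XT.lf (nat_lit 0) (nat_lit 20729277160) (nat_lit 152) (nat_lit 4005216705) (nat_lit 0) (nat_lit 777766066) (nat_lit 31) (nat_lit 5) (nat_lit 33) (nat_lit 4) (nat_lit 31) (nat_lit 4) (nat_lit 379) (nat_lit 338) (nat_lit 303)) (XT.lf (nat_lit 0) (nat_lit 5344472105) (nat_lit 152) (nat_lit 9102550590) (nat_lit 76) (nat_lit 12510175580) (nat_lit 29) (nat_lit 5) (nat_lit 31) (nat_lit 5) (nat_lit 30) (nat_lit 4) (nat_lit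 380) (nat_lit 338) (nat_lit 302)))))) (XT.nd (nat_lit 468) (nat_lit 456) (nat_lit 0) (XT.nd (nat_lit 234) (nat_lit 228) (nat_lit 0) (XT.nd (nat_lit 78) (nat_lit 228) (nat_lit 0) (XT.lf (nat_lit 0) (nat_lit 13239266789) (nat_lit 76) (nat_lit 3052075271) (nat_lit 152) (nat_lit 12213640839) (nat_lit 28) (nat_lit 5) (nat_lit 29) (nat_lit 5) (nat_lit 30) (nat_lit 4) (nat_lit 381) (nat_lit 338) (nat_lit 301)) (XT.nd (nat_lit 78) (nat_lit 152) (nat_lit 0) (XT.lf (nat_lit 0) (nat_lit 7425540893) (nat_lit 76) (nat_lit 21010291439) (nat_lit 76) (nat_lit 1724674842) (nat_lit 27) (nat_lit 4) (nat_lit 28) (nat_lit 5) (nat_lit 28) (nat_lit 4) (nat_lit 382) (nat_lit 338) (nat_lit 300)) (XT.lf (nat_lit 0) (nat_lit 156496189) (nat_lit 76) (nat_lit 9366998838) (nat_lit 152) (nat_lit 22406117959) (nat_lit 25) (nat_lit 5) (nat_lit 26) (nat_lit 5) (nat_lit 27) (nat_lit 4) (nat_lit 383) (nat_lit 338) (nat_lit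 299)))) (XT.nd (nat_lit 78) (nat_lit 228) (nat_lit 0) (XT.lf (nat_lit 0) (nat_lit 21970861987) (nat_lit 152) (nat_lit 8395050486) (nat_lit 0) (nat_lit 3454941241) (nat_lit 25) (nat_lit 5) (nat_lit 27) (nat_lit 4) (nat_lit 25) (nat_lit 4) (nat_lit 384) (nat_lit 338) (nat_lit 298)) (XT.nd (nat_lit 78) (nat_lit 152) (nat_lit 0) (XT.lf (nat_lit 0) (nat_lit 17075082071) (nat_lit 76) (nat_lit 18676764440) (nat_lit 76) (nat_lit 94663653) (nat_lit 24) (nat_lit 4) (nat_lit 25) (nat_lit 5) (nat_lit 25) (nat_lit 4) (nat_lit 385) (nat_lit 338) (nat_lit 297)) (XT.lf (nat_lit 0) (nat_lit 6709011002) (nat_lit 76) (nat_lit 5658008317) (nat_lit 152) (nat_lit 25648907725) (nat_lit 22) (nat_lit 5) (nat_lit 23) (nat_lit 5) (nat_lit 24) (nat_lit 4) (nat_lit 386) (nat_lit 338) (nat_lit 296))))) (XT.nd (nat_lit 234) (nat_lit 228) (nat_lit 0) (XT.nd (nat_lit 78) (nat_lit 228) (nat_lit 0) (XT.lf (nat_lit 0) (nat_lit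 26204395404) (nat_lit 152) (nat_lit 5740567095) (nat_lit 0) (nat_lit 8394759860) (nat_lit 22) (nat_lit 5) (nat_lit 24) (nat_lit 4) (nat_lit 22) (nat_lit 4) (nat_lit 387) (nat_lit 338) (nat_lit 295)) (XT.nd (nat_lit 78) (nat_lit 152) (nat_lit 0) (XT.lf (nat_lit 0) (nat_lit 22344471448) (nat_lit 76) (nat_lit 19173092682) (nat_lit 76) (nat_lit 1313422994) (nat_lit 21) (nat_lit 4) (nat_lit 22) (nat_lit 5) (nat_lit 22) (nat_lit 4) (nat_lit 388) (nat_lit 338) (nat_lit 294)) (XT.lf (nat_lit 0) (nat_lit 7257255041) (nat_lit 76) (nat_lit 5017502343) (nat_lit 152) (nat_lit 33229931319) (nat_lit 19) (nat_lit 5) (nat_lit 20) (nat_lit 5) (nat_lit 21) (nat_lit 4) (nat_lit 389) (nat_lit 338) (nat_lit 293)))) (XT.nd (nat_lit 156) (nat_lit 152) (nat_lit 0) (XT.nd (nat_lit 78) (nat_lit 76) (nat_lit 0) (XT.lf (nat_lit 0) (nat_lit 27356673871) (nat_lit 152) (nat_lit 10749416653) (nat_lit 0) (nat_lit 10262489289)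 (nat_lit 19) (nat_lit 5) (nat_lit 21) (nat_lit 4) (nat_lit 19) (nat_lit 4) (nat_lit 390) (nat_lit 338) (nat_lit 292)) (XT.lf (nat_lit 0) (nat_lit 19354870795) (nat_lit 76) (nat_lit 24611337312) (nat_lit 76) (nat_lit 7479325381) (nat_lit 18) (nat_lit 4) (nat_lit 19) (nat_lit 5) (nat_lit 19) (nat_lit 4) (nat_lit 391) (nat_lit 338) (nat_lit 291))) (XT.nd (nat_lit 78) (nat_lit 76) (nat_lit 0) (XT.lf (nat_lit 0) (nat_lit 7033980528) (nat_lit 152) (nat_lit 2747377171) (nat_lit 76) (nat_lit 44975393637) (nat_lit 17) (nat_lit 5) (nat_lit 19) (nat_lit 5) (nat_lit 18) (nat_lit 4) (nat_lit 392) (nat_lit 338) (nat_lit 290)) (XT.lf (nat_lit 0) (nat_lit 22959781238) (nat_lit 152) (nat_lit 28761949559) (nat_lit 0) (nat_lit 6579335421) (nat_lit 16) (nat_lit 5) (nat_lit 18) (nat_lit 4) (nat_lit 16) (nat_lit 4) (nat_lit 393) (nat_lit 338) (nat_lit 289))))))) (XT.nd (nat_lit 1014) (nat_lit 380) (nat_lit 0)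 (XT.nd (nat_lit 468) (nat_lit 228) (nat_lit 0) (XT.nd (nat_lit 234) (nat_lit 76) (nat_lit 0) (XT.nd (nat_lit 78) (nat_lit 152) (nat_lit 0) (XT.lf (nat_lit 0) (nat_lit 2171214193) (nat_lit 76) (nat_lit 38178625144) (nat_lit 76) (nat_lit 21769580690) (nat_lit 15) (nat_lit 4) (nat_lit 16) (nat_lit 5) (nat_lit 16) (nat_lit 4) (nat_lit 394) (nat_lit 338) (nat_lit 288)) (XT.nd (nat_lit 78) (nat_lit 152) (nat_lit 0) (XT.lf (nat_lit 0) (nat_lit 36498340697) (nat_lit 76) (nat_lit 23079057238) (nat_lit 76) (nat_lit 6643532564) (nat_lit 15) (nat_lit 4) (nat_lit 16) (nat_lit 5) (nat_lit 16) (nat_lit 4) (nat_lit 395) (nat_lit 338) (nat_lit 287)) (XT.lf (nat_lit 0) (nat_lit 2756478526) (nat_lit 76) (nat_lit 6617434606) (nat_lit 152) (nat_lit 61269508152) (nat_lit 13) (nat_lit 5) (nat_lit 14) (nat_lit 5) (nat_lit 15) (nat_lit 4) (nat_lit 396) (nat_lit 338) (nat_lit 286)))) (XT.nd (nat_lit 78) (nat_lit 76)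 (nat_lit 0) (XT.lf (nat_lit 0) (nat_lit 27093654051) (nat_lit 152) (nat_lit 36892130705) (nat_lit 0) (nat_lit 11395800798) (nat_lit 13) (nat_lit 5) (nat_lit 15) (nat_lit 4) (nat_lit 13) (nat_lit 4) (nat_lit 397) (nat_lit 338) (nat_lit 285)) (XT.nd (nat_lit 78) (nat_lit 76) (nat_lit 0) (XT.lf (nat_lit 0) (nat_lit 46296308608) (nat_lit 152) (nat_lit 3620794527) (nat_lit 0) (nat_lit 30578435497) (nat_lit 13) (nat_lit 5) (nat_lit 15) (nat_lit 4) (nat_lit 13) (nat_lit 4) (nat_lit 398) (nat_lit 338) (nat_lit 284)) (XT.lf (nat_lit 0) (nat_lit 33293134161) (nat_lit 76) (nat_lit 34219018579) (nat_lit 76) (nat_lit 18482608561) (nat_lit 12) (nat_lit 4) (nat_lit 13) (nat_lit 5) (nat_lit 13) (nat_lit 4) (nat_lit 399) (nat_lit 338) (nat_lit 283))))) (XT.nd (nat_lit 234) (nat_lit 76) (nat_lit 0) (XT.nd (nat_lit 78) (nat_lit 152) (nat_lit 0) (XT.lf (nat_lit 0) (nat_lit 73208453027) (nat_lit 76) (nat_lit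 17238968384) (nat_lit 76) (nat_lit 1485394564) (nat_lit 12) (nat_lit 4) (nat_lit 13) (nat_lit 5) (nat_lit 13) (nat_lit 4) (nat_lit 400) (nat_lit 338) (nat_lit 282)) (XT.nd (nat_lit 78) (nat_lit 0) (nat_lit 0) (XT.lf (nat_lit 0) (nat_lit 16603026303) (nat_lit 152) (nat_lit 80131661529) (nat_lit 0) (nat_lit 1584487036) (nat_lit 10) (nat_lit 5) (nat_lit 12) (nat_lit 4) (nat_lit 10) (nat_lit 4) (nat_lit 401) (nat_lit 338) (nat_lit 281)) (XT.lf (nat_lit 0) (nat_lit 36672010358) (nat_lit 152) (nat_lit 46874483098) (nat_lit 0) (nat_lit 21639456621) (nat_lit 10) (nat_lit 5) (nat_lit 12) (nat_lit 4) (nat_lit 10) (nat_lit 4) (nat_lit 402) (nat_lit 338) (nat_lit 280)))) (XT.nd (nat_lit 156) (nat_lit 0) (nat_lit 0) (XT.nd (nat_lit 78) (nat_lit 76) (nat_lit 0) (XT.lf (nat_lit 0) (nat_lit 58311921439) (nat_lit 152) (nat_lit 11025485653) (nat_lit 0) (nat_lit 43266391340) (nat_lit 10) (nat_lit 5) (nat_lit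 12) (nat_lit 4) (nat_lit 10) (nat_lit 4) (nat_lit 403) (nat_lit 338) (nat_lit 279)) (XT.lf (nat_lit 0) (nat_lit 28541268132) (nat_lit 76) (nat_lit 53555337105) (nat_lit 76) (nat_lit 38497791857) (nat_lit 9) (nat_lit 4) (nat_lit 10) (nat_lit 5) (nat_lit 10) (nat_lit 4) (nat_lit 404) (nat_lit 338) (nat_lit 278))) (XT.nd (nat_lit 78) (nat_lit 0) (nat_lit 0) (XT.lf (nat_lit 0) (nat_lit 71606183163) (nat_lit 76) (nat_lit 36339329866) (nat_lit 76) (nat_lit 21270659478) (nat_lit 9) (nat_lit 4) (nat_lit 10) (nat_lit 5) (nat_lit 10) (nat_lit 4) (nat_lit 405) (nat_lit 338) (nat_lit 277)) (XT.lf (nat_lit 0) (nat_lit 118059906589) (nat_lit 76) (nat_lit 17774086524) (nat_lit 76) (nat_lit 2695115083) (nat_lit 9) (nat_lit 4) (nat_lit 10) (nat_lit 5) (nat_lit 10) (nat_lit 4) (nat_lit 406) (nat_lit 338) (nat_lit 276)))))) (XT.nd (nat_lit 546) (nat_lit 152) (nat_lit 0) (XT.nd (nat_lit 234) (nat_lit 76) (nat_lit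 0) (XT.nd (nat_lit 78) (nat_lit 0) (nat_lit 0) (XT.lf (nat_lit 0) (nat_lit 17140236665) (nat_lit 152) (nat_lit 128646578561) (nat_lit 0) (nat_lit 2770227660) (nat_lit 7) (nat_lit 5) (nat_lit 9) (nat_lit 4) (nat_lit 7) (nat_lit 4) (nat_lit 407) (nat_lit 338) (nat_lit 275)) (XT.nd (nat_lit 78) (nat_lit 0) (nat_lit 0) (XT.lf (nat_lit 0) (nat_lit 39105479908) (nat_lit 152) (nat_lit 95520590023) (nat_lit 0) (nat_lit 24727059957) (nat_lit 7) (nat_lit 5) (nat_lit 9) (nat_lit 4) (nat_lit 7) (nat_lit 4) (nat_lit 408) (nat_lit 338) (nat_lit 274)) (XT.lf (nat_lit 0) (nat_lit 62803975579) (nat_lit 152) (nat_lit 59792359834) (nat_lit 0) (nat_lit 48417767715) (nat_lit 7) (nat_lit 5) (nat_lit 9) (nat_lit 4) (nat_lit 7) (nat_lit 4) (nat_lit 409) (nat_lit 338) (nat_lit 273)))) (XT.nd (nat_lit 156) (nat_lit 0) (nat_lit 0) (XT.nd (nat_lit 78) (nat_lit 76) (nat_lit 0) (XT.lf (nat_lit 0) (nat_lit 88376159209)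 (nat_lit 152) (nat_lit 21250165148) (nat_lit 0) (nat_lit 73982740314) (nat_lit 7) (nat_lit 5) (nat_lit 9) (nat_lit 4) (nat_lit 7) (nat_lit 4) (nat_lit 410) (nat_lit 338) (nat_lit 272)) (XT.lf (nat_lit 0) (nat_lit 21006739064) (nat_lit 76) (nat_lit 95294804667) (nat_lit 76) (nat_lit 80894708891) (nat_lit 6) (nat_lit 4) (nat_lit 7) (nat_lit 5) (nat_lit 7) (nat_lit 4) (nat_lit 411) (nat_lit 338) (nat_lit 271))) (XT.nd (nat_lit 78) (nat_lit 0) (nat_lit 0) (XT.lf (nat_lit 0) (nat_lit 67363801640) (nat_lit 76) (nat_lit 79447683241) (nat_lit 76) (nat_lit 65041405169) (nat_lit 6) (nat_lit 4) (nat_lit 7) (nat_lit 5) (nat_lit 7) (nat_lit 4) (nat_lit 412) (nat_lit 338) (nat_lit 270)) (XT.lf (nat_lit 0) (nat_lit 117393104669) (nat_lit 76) (nat_lit 62350933043) (nat_lit 76) (nat_lit 47938930623) (nat_lit 6) (nat_lit 4) (nat_lit 7) (nat_lit 5) (nat_lit 7) (nat_lit 4) (nat_lit 413) (nat_lit 338) (nat_lit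 269))))) (XT.nd (nat_lit 234) (nat_lit 0) (nat_lit 0) (XT.nd (nat_lit 78) (nat_lit 152) (nat_lit 0) (XT.lf (nat_lit 0) (nat_lit 171391118095) (nat_lit 76) (nat_lit 43903239997) (nat_lit 76) (nat_lit 29485937254) (nat_lit 6) (nat_lit 4) (nat_lit 7) (nat_lit 5) (nat_lit 7) (nat_lit 4) (nat_lit 414) (nat_lit 338) (nat_lit 268)) (XT.nd (nat_lit 78) (nat_lit 152) (nat_lit 0) (XT.lf (nat_lit 0) (nat_lit 229677830146) (nat_lit 76) (nat_lit 23995284441) (nat_lit 76) (nat_lit 9573073991) (nat_lit 6) (nat_lit 4) (nat_lit 7) (nat_lit 5) (nat_lit 7) (nat_lit 4) (nat_lit 415) (nat_lit 338) (nat_lit 267)) (XT.lf (nat_lit 0) (nat_lit 9527437417) (nat_lit 76) (nat_lit 2157534309) (nat_lit 152) (nat_lit 271488362916) (nat_lit 4) (nat_lit 5) (nat_lit 5) (nat_lit 5) (nat_lit 6) (nat_lit 4) (nat_lit 416) (nat_lit 338) (nat_lit 266)))) (XT.nd (nat_lit 156) (nat_lit 0) (nat_lit 0) (XT.nd (nat_lit 78) (nat_lit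 0) (nat_lit 0) (XT.lf (nat_lit 0) (nat_lit 35227373399) (nat_lit 152) (nat_lit 247929877493) (nat_lit 0) (nat_lit 21483599885) (nat_lit 4) (nat_lit 5) (nat_lit 6) (nat_lit 4) (nat_lit 4) (nat_lit 4) (nat_lit 417) (nat_lit 338) (nat_lit 265)) (XT.lf (nat_lit 0) (nat_lit 60676360199) (nat_lit 152) (nat_lit 220219372487) (nat_lit 0) (nat_lit 46928876308) (nat_lit 4) (nat_lit 5) (nat_lit 6) (nat_lit 4) (nat_lit 4) (nat_lit 4) (nat_lit 418) (nat_lit 338) (nat_lit 264))) (XT.nd (nat_lit 78) (nat_lit 0) (nat_lit 0) (XT.lf (nat_lit 0) (nat_lit 88149055780) (nat_lit 152) (nat_lit 190316486650) (nat_lit 0) (nat_lit 74398136356) (nat_lit 4) (nat_lit 5) (nat_lit 6) (nat_lit 4) (nat_lit 4) (nat_lit 4) (nat_lit 419) (nat_lit 338) (nat_lit 263)) (XT.lf (nat_lit 0) (nat_lit 117808261302) (nat_lit 152) (nat_lit 158044017695) (nat_lit 0) (nat_lit 104054160827) (nat_lit 4) (nat_lit 5) (nat_lit 6) (nat_lit 4)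 (nat_lit 4) (nat_lit 4) (nat_lit 420) (nat_lit 338) (nat_lit 262))))))))
noncomputable def xc44 : XT := (XT.nd (nat_lit 47658) (nat_lit 0) (nat_lit 2508) (XT.nd (nat_lit 1014) (nat_lit 0) (nat_lit 0) (XT.nd (nat_lit 468) (nat_lit 0) (nat_lit 0) (XT.nd (nat_lit 234) (nat_lit 76) (nat_lit 0) (XT.nd (nat_lit 78) (nat_lit 0) (nat_lit 0) (XT.lf (nat_lit 0) (nat_lit 149829735019) (nat_lit 152) (nat_lit 123210721363) (nat_lit 0) (nat_lit 136072689127) (nat_lit 4) (nat_lit 5) (nat_lit 6) (nat_lit 4) (nat_lit 4) (nat_lit 4) (nat_lit 421) (nat_lit 338) (nat_lit 261)) (XT.nd (nat_lit 78) (nat_lit 0) (nat_lit 0) (XT.lf (nat_lit 0) (nat_lit 184403233812) (nat_lit 152) (nat_lit 85610178119) (nat_lit 0) (nat_lit 170643460683) (nat_lit 4) (nat_lit 5) (nat_lit 6) (nat_lit 4) (nat_lit 4) (nat_lit 4) (nat_lit 422) (nat_lit 338) (nat_lit 260)) (XT.lf (nat_lit 0) (nat_lit 221733637675) (nat_lit 152) (nat_lit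 45019569930) (nat_lit 0) (nat_lit 207971339325) (nat_lit 4) (nat_lit 5) (nat_lit 6) (nat_lit 4) (nat_lit 4) (nat_lit 4) (nat_lit 423) (nat_lit 338) (nat_lit 259)))) (XT.nd (nat_lit 78) (nat_lit 76) (nat_lit 0) (XT.lf (nat_lit 0) (nat_lit 262042163814) (nat_lit 152) (nat_lit 1198359857) (nat_lit 0) (nat_lit 248277527298) (nat_lit 4) (nat_lit 5) (nat_lit 6) (nat_lit 4) (nat_lit 4) (nat_lit 4) (nat_lit 424) (nat_lit 338) (nat_lit 258)) (XT.nd (nat_lit 78) (nat_lit 0) (nat_lit 0) (XT.lf (nat_lit 0) (nat_lit 47637841783) (nat_lit 76) (nat_lit 258673596003) (nat_lit 76) (nat_lit 244906794518) (nat_lit 3) (nat_lit 4) (nat_lit 4) (nat_lit 5) (nat_lit 4) (nat_lit 4) (nat_lit 425) (nat_lit 338) (nat_lit 257)) (XT.lf (nat_lit 0) (nat_lit 100408988781) (nat_lit 76) (nat_lit 253726784846) (nat_lit 76) (nat_lit 239957978760) (nat_lit 3) (nat_lit 4) (nat_lit 4) (nat_lit 5) (nat_lit 4) (nat_lit 4) (nat_lit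 426) (nat_lit 338) (nat_lit 256))))) (XT.nd (nat_lit 234) (nat_lit 0) (nat_lit 0) (XT.nd (nat_lit 78) (nat_lit 0) (nat_lit 0) (XT.lf (nat_lit 0) (nat_lit 157388175856) (nat_lit 76) (nat_lit 248391070567) (nat_lit 76) (nat_lit 234620408369) (nat_lit 3) (nat_lit 4) (nat_lit 4) (nat_lit 5) (nat_lit 4) (nat_lit 4) (nat_lit 427) (nat_lit 338) (nat_lit 255)) (XT.nd (nat_lit 78) (nat_lit 0) (nat_lit 0) (XT.lf (nat_lit 0) (nat_lit 218913057449) (nat_lit 76) (nat_lit 242634834119) (nat_lit 76) (nat_lit 228862453299) (nat_lit 3) (nat_lit 4) (nat_lit 4) (nat_lit 5) (nat_lit 4) (nat_lit 4) (nat_lit 428) (nat_lit 338) (nat_lit 254)) (XT.lf (nat_lit 0) (nat_lit 285348225451) (nat_lit 76) (nat_lit 236423964472) (nat_lit 76) (nat_lit 222649992335) (nat_lit 3) (nat_lit 4) (nat_lit 4) (nat_lit 5) (nat_lit 4) (nat_lit 4) (nat_lit 429) (nat_lit 338) (nat_lit 253)))) (XT.nd (nat_lit 156) (nat_lit 0) (nat_lit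 0) (XT.nd (nat_lit 78) (nat_lit 0) (nat_lit 0) (XT.lf (nat_lit 0) (nat_lit 357087369747) (nat_lit 76) (nat_lit 229721656472) (nat_lit 76) (nat_lit 215946210893) (nat_lit 3) (nat_lit 4) (nat_lit 4) (nat_lit 5) (nat_lit 4) (nat_lit 4) (nat_lit 430) (nat_lit 338) (nat_lit 252)) (XT.lf (nat_lit 0) (nat_lit 434555611192) (nat_lit 76) (nat_lit 222488192738) (nat_lit 76) (nat_lit 208711382861) (nat_lit 3) (nat_lit 4) (nat_lit 4) (nat_lit 5) (nat_lit 4) (nat_lit 4) (nat_lit 431) (nat_lit 338) (nat_lit 251))) (XT.nd (nat_lit 78) (nat_lit 0) (nat_lit 0) (XT.lf (nat_lit 0) (nat_lit 518212020845) (nat_lit 76) (nat_lit 214680708301) (nat_lit 76) (nat_lit 200902635185) (nat_lit 3) (nat_lit 4) (nat_lit 4) (nat_lit 5) (nat_lit 4) (nat_lit 4) (nat_lit 432) (nat_lit 338) (nat_lit 250)) (XT.lf (nat_lit 0) (nat_lit 608552340395) (nat_lit 76) (nat_lit 206252936584) (nat_lit 76) (nat_lit 192473693803) (nat_lit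 3) (nat_lit 4) (nat_lit 4) (nat_lit 5) (nat_lit 4) (nat_lit 4) (nat_lit 433) (nat_lit 338) (nat_lit 249)))))) (XT.nd (nat_lit 46098) (nat_lit 0) (nat_lit 9348) (XT.nd (nat_lit 234) (nat_lit 0) (nat_lit 0) (XT.nd (nat_lit 78) (nat_lit 0) (nat_lit 0) (XT.lf (nat_lit 0) (nat_lit 706111919882) (nat_lit 76) (nat_lit 197154935239) (nat_lit 76) (nat_lit 183374609434) (nat_lit 3) (nat_lit 4) (nat_lit 4) (nat_lit 5) (nat_lit 4) (nat_lit 4) (nat_lit 434) (nat_lit 338) (nat_lit 248)) (XT.nd (nat_lit 78) (nat_lit 0) (nat_lit 0) (XT.lf (nat_lit 0) (nat_lit 811468890148) (nat_lit 76) (nat_lit 187332790182) (nat_lit 76) (nat_lit 173551461577) (nat_lit 3) (nat_lit 4) (nat_lit 4) (nat_lit 5) (nat_lit 4) (nat_lit 4) (nat_lit 435) (nat_lit 338) (nat_lit 247)) (XT.lf (nat_lit 0) (nat_lit 925247588795) (nat_lit 76) (nat_lit 176728296109) (nat_lit 76) (nat_lit 162946038987) (nat_lit 3) (nat_lit 4) (nat_lit 4)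 (nat_lit 5) (nat_lit 4) (nat_lit 4) (nat_lit 436) (nat_lit 338) (nat_lit 246)))) (XT.nd (nat_lit 45708) (nat_lit 0) (nat_lit 12920) (XT.lf (nat_lit 0) (nat_lit 1048122259963) (nat_lit 76) (nat_lit 165278611575) (nat_lit 76) (nat_lit 151495494713) (nat_lit 3) (nat_lit 4) (nat_lit 4) (nat_lit 5) (nat_lit 4) (nat_lit 4) (nat_lit 437) (nat_lit 338) (nat_lit 245)) (XT.nd (nat_lit 78) (nat_lit 228) (nat_lit 0) (XT.lf (nat_lit 0) (nat_lit 2050401333) (nat_lit 76) (nat_lit 592338639) (nat_lit 76) (nat_lit 592338639) (nat_lit 176) (nat_lit 4) (nat_lit 177) (nat_lit 5) (nat_lit 177) (nat_lit 4) (nat_lit 342) (nat_lit 339) (nat_lit 339)) (XT.lf (nat_lit 0) (nat_lit 3307368082) (nat_lit 152) (nat_lit 416176411) (nat_lit 228) (nat_lit 2785338352) (nat_lit 173) (nat_lit 5) (nat_lit 175) (nat_lit 5) (nat_lit 176) (nat_lit 4) (nat_lit 343) (nat_lit 339) (nat_lit 338))))) (XT.nd (nat_lit 234) (nat_lit 2508)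 (nat_lit 0) (XT.nd (nat_lit 78) (nat_lit 760) (nat_lit 0) (XT.lf (nat_lit 0) (nat_lit 1978679553) (nat_lit 304) (nat_lit 3878334878) (nat_lit 76) (nat_lit 710085187) (nat_lit 169) (nat_lit 5) (nat_lit 173) (nat_lit 5) (nat_lit 170) (nat_lit 4) (nat_lit 344) (nat_lit 339) (nat_lit 337)) (XT.nd (nat_lit 78) (nat_lit 380) (nat_lit 0) (XT.lf (nat_lit 0) (nat_lit 40282073) (nat_lit 380) (nat_lit 4404799854) (nat_lit 76) (nat_lit 2199954083) (nat_lit 164) (nat_lit 5) (nat_lit 169) (nat_lit 5) (nat_lit 165) (nat_lit 5) (nat_lit 345) (nat_lit 339) (nat_lit 336)) (XT.lf (nat_lit 0) (nat_lit 1930367798) (nat_lit 380) (nat_lit 2630338828) (nat_lit 456) (nat_lit 2180983524) (nat_lit 159) (nat_lit 5) (nat_lit 164) (nat_lit 5) (nat_lit 165) (nat_lit 5) (nat_lit 346) (nat_lit 339) (nat_lit 335)))) (XT.nd (nat_lit 156) (nat_lit 1444) (nat_lit 0) (XT.nd (nat_lit 78) (nat_lit 532) (nat_lit 0) (XT.lf (nat_lit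 0) (nat_lit 1789100037) (nat_lit 456) (nat_lit 431209142) (nat_lit 532) (nat_lit 4638715054) (nat_lit 152) (nat_lit 5) (nat_lit 158) (nat_lit 5) (nat_lit 159) (nat_lit 5) (nat_lit 347) (nat_lit 339) (nat_lit 334)) (XT.lf (nat_lit 0) (nat_lit 1775861641) (nat_lit 532) (nat_lit 4892566529) (nat_lit 608) (nat_lit 327260671) (nat_lit 145) (nat_lit 5) (nat_lit 152) (nat_lit 5) (nat_lit 153) (nat_lit 5) (nat_lit 348) (nat_lit 339) (nat_lit 333))) (XT.nd (nat_lit 78) (nat_lit 760) (nat_lit 0) (XT.lf (nat_lit 0) (nat_lit 1876840710) (nat_lit 608) (nat_lit 2083756702) (nat_lit 684) (nat_lit 3191061563) (nat_lit 136) (nat_lit 5) (nat_lit 144) (nat_lit 5) (nat_lit 145) (nat_lit 5) (nat_lit 349) (nat_lit 339) (nat_lit 332)) (XT.lf (nat_lit 0) (nat_lit 1023020651) (nat_lit 760) (nat_lit 5209624025) (nat_lit 76) (nat_lit 1096275439) (nat_lit 126) (nat_lit 5) (nat_lit 136) (nat_lit 5) (nat_lit 127) (nat_lit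 5) (nat_lit 350) (nat_lit 339) (nat_lit 331))))))) (XT.nd (nat_lit 1014) (nat_lit 2052) (nat_lit 0) (XT.nd (nat_lit 468) (nat_lit 2052) (nat_lit 0) (XT.nd (nat_lit 234) (nat_lit 1140) (nat_lit 0) (XT.nd (nat_lit 78) (nat_lit 836) (nat_lit 0) (XT.lf (nat_lit 0) (nat_lit 2446603406) (nat_lit 760) (nat_lit 2864445024) (nat_lit 836) (nat_lit 2214474680) (nat_lit 116) (nat_lit 5) (nat_lit 126) (nat_lit 5) (nat_lit 127) (nat_lit 5) (nat_lit 351) (nat_lit 339) (nat_lit 330)) (XT.nd (nat_lit 78) (nat_lit 380) (nat_lit 0) (XT.lf (nat_lit 0) (nat_lit 1980326948) (nat_lit 456) (nat_lit 4849413097) (nat_lit 76) (nat_lit 914245890) (nat_lit 110) (nat_lit 5) (nat_lit 116) (nat_lit 5) (nat_lit 111) (nat_lit 5) (nat_lit 352) (nat_lit 339) (nat_lit 329)) (XT.lf (nat_lit 0) (nat_lit 3418247060) (nat_lit 380) (nat_lit 2919436543) (nat_lit 456) (nat_lit 1645368702) (nat_lit 105) (nat_lit 5) (nat_lit 110) (nat_lit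 5) (nat_lit 111) (nat_lit 5) (nat_lit 353) (nat_lit 339) (nat_lit 328)))) (XT.nd (nat_lit 78) (nat_lit 684) (nat_lit 0) (XT.lf (nat_lit 0) (nat_lit 2608799159) (nat_lit 456) (nat_lit 4211766046) (nat_lit 76) (nat_lit 1423835122) (nat_lit 99) (nat_lit 5) (nat_lit 105) (nat_lit 5) (nat_lit 100) (nat_lit 5) (nat_lit 354) (nat_lit 339) (nat_lit 327)) (XT.nd (nat_lit 78) (nat_lit 380) (nat_lit 0) (XT.lf (nat_lit 0) (nat_lit 4720553275) (nat_lit 304) (nat_lit 2368776947) (nat_lit 380) (nat_lit 1438931873) (nat_lit 95) (nat_lit 5) (nat_lit 99) (nat_lit 5) (nat_lit 100) (nat_lit 5) (nat_lit 355) (nat_lit 339) (nat_lit 326)) (XT.lf (nat_lit 0) (nat_lit 2945356558) (nat_lit 380) (nat_lit 3369547936) (nat_lit 76) (nat_lit 2520090616) (nat_lit 90) (nat_lit 5) (nat_lit 95) (nat_lit 5) (nat_lit 91) (nat_lit 5) (nat_lit 356) (nat_lit 339) (nat_lit 325))))) (XT.nd (nat_lit 234) (nat_lit 1216) (nat_lit 0)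 (XT.nd (nat_lit 78) (nat_lit 608) (nat_lit 0) (XT.lf (nat_lit 0) (nat_lit 6286232953) (nat_lit 228) (nat_lit 1312712926) (nat_lit 304) (nat_lit 1567805841) (nat_lit 87) (nat_lit 5) (nat_lit 90) (nat_lit 5) (nat_lit 91) (nat_lit 5) (nat_lit 357) (nat_lit 339) (nat_lit 324)) (XT.nd (nat_lit 78) (nat_lit 228) (nat_lit 0) (XT.lf (nat_lit 0) (nat_lit 3011007184) (nat_lit 380) (nat_lit 2395866678) (nat_lit 76) (nat_lit 4115332508) (nat_lit 82) (nat_lit 5) (nat_lit 87) (nat_lit 5) (nat_lit 83) (nat_lit 5) (nat_lit 358) (nat_lit 339) (nat_lit 323)) (XT.lf (nat_lit 0) (nat_lit 7886656724) (nat_lit 304) (nat_lit 1861590501) (nat_lit 76) (nat_lit 157384322) (nat_lit 79) (nat_lit 5) (nat_lit 83) (nat_lit 5) (nat_lit 80) (nat_lit 5) (nat_lit 359) (nat_lit 339) (nat_lit 322)))) (XT.nd (nat_lit 156) (nat_lit 684) (nat_lit 0) (XT.nd (nat_lit 78) (nat_lit 228) (nat_lit 0) (XT.lf (nat_lit 0) (nat_lit 2810845657)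 (nat_lit 304) (nat_lit 1369556760) (nat_lit 76) (nat_lit 6133754393) (nat_lit 75) (nat_lit 5) (nat_lit 79) (nat_lit 5) (nat_lit 76) (nat_lit 5) (nat_lit 360) (nat_lit 339) (nat_lit 321)) (XT.lf (nat_lit 0) (nat_lit 7977625222) (nat_lit 304) (nat_lit 858824919) (nat_lit 76) (nat_lit 1916268938) (nat_lit 72) (nat_lit 5) (nat_lit 76) (nat_lit 5) (nat_lit 73) (nat_lit 5) (nat_lit 361) (nat_lit 339) (nat_lit 320))) (XT.nd (nat_lit 78) (nat_lit 380) (nat_lit 0) (XT.lf (nat_lit 0) (nat_lit 2333164296) (nat_lit 304) (nat_lit 381419157) (nat_lit 76) (nat_lit 8506209204) (nat_lit 68) (nat_lit 5) (nat_lit 72) (nat_lit 5) (nat_lit 69) (nat_lit 5) (nat_lit 362) (nat_lit 339) (nat_lit 319)) (XT.lf (nat_lit 0) (nat_lit 50845722) (nat_lit 228) (nat_lit 7785034413) (nat_lit 304) (nat_lit 3884067670) (nat_lit 63) (nat_lit 5) (nat_lit 66) (nat_lit 5) (nat_lit 67) (nat_lit 5) (nat_lit 363) (nat_lit 339) (nat_lit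 318)))))) (XT.nd (nat_lit 468) (nat_lit 912) (nat_lit 0) (XT.nd (nat_lit 234) (nat_lit 532) (nat_lit 0) (XT.nd (nat_lit 78) (nat_lit 380) (nat_lit 0) (XT.lf (nat_lit 0) (nat_lit 473548876) (nat_lit 152) (nat_lit 1081423825) (nat_lit 228) (nat_lit 10698738626) (nat_lit 60) (nat_lit 5) (nat_lit 62) (nat_lit 5) (nat_lit 63) (nat_lit 5) (nat_lit 364) (nat_lit 339) (nat_lit 317)) (XT.nd (nat_lit 78) (nat_lit 228) (nat_lit 0) (XT.lf (nat_lit 0) (nat_lit 764181075) (nat_lit 152) (nat_lit 6671198418) (nat_lit 228) (nat_lit 5384546882) (nat_lit 58) (nat_lit 5) (nat_lit 60) (nat_lit 5) (nat_lit 61) (nat_lit 5) (nat_lit 365) (nat_lit 339) (nat_lit 316)) (XT.lf (nat_lit 0) (nat_lit 428109446) (nat_lit 228) (nat_lit 12392435919) (nat_lit 76) (nat_lit 606426358) (nat_lit 55) (nat_lit 5) (nat_lit 58) (nat_lit 5) (nat_lit 56) (nat_lit 5) (nat_lit 366) (nat_lit 339) (nat_lit 315)))) (XT.nd (nat_lit 78) (nat_lit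 380) (nat_lit 0) (XT.lf (nat_lit 0) (nat_lit 1091021451) (nat_lit 152) (nat_lit 5610188087) (nat_lit 228) (nat_lit 7367794616) (nat_lit 53) (nat_lit 5) (nat_lit 55) (nat_lit 5) (nat_lit 56) (nat_lit 5) (nat_lit 367) (nat_lit 339) (nat_lit 314)) (XT.nd (nat_lit 78) (nat_lit 228) (nat_lit 0) (XT.lf (nat_lit 0) (nat_lit 1078968193) (nat_lit 152) (nat_lit 12512378474) (nat_lit 228) (nat_lit 1165331017) (nat_lit 51) (nat_lit 5) (nat_lit 53) (nat_lit 5) (nat_lit 54) (nat_lit 4) (nat_lit 368) (nat_lit 339) (nat_lit 313)) (XT.lf (nat_lit 0) (nat_lit 821742227) (nat_lit 152) (nat_lit 4721754488) (nat_lit 228) (nat_lit 9942218910) (nat_lit 48) (nat_lit 5) (nat_lit 50) (nat_lit 5) (nat_lit 51) (nat_lit 5) (nat_lit 369) (nat_lit 339) (nat_lit 312))))) (XT.nd (nat_lit 234) (nat_lit 608) (nat_lit 0) (XT.nd (nat_lit 78) (nat_lit 228) (nat_lit 0) (XT.lf (nat_lit 0) (nat_lit 389504511) (nat_lit 76) (nat_lit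 12520894495) (nat_lit 152) (nat_lit 3353643604) (nat_lit 47) (nat_lit 5) (nat_lit 48) (nat_lit 5) (nat_lit 49) (nat_lit 4) (nat_lit 370) (nat_lit 339) (nat_lit 311)) (XT.nd (nat_lit 78) (nat_lit 152) (nat_lit 0) (XT.lf (nat_lit 0) (nat_lit 3841282933) (nat_lit 152) (nat_lit 307443013) (nat_lit 76) (nat_lit 12943016692) (nat_lit 46) (nat_lit 5) (nat_lit 48) (nat_lit 5) (nat_lit 47) (nat_lit 5) (nat_lit 371) (nat_lit 339) (nat_lit 310)) (XT.lf (nat_lit 0) (nat_lit 11708408026) (nat_lit 228) (nat_lit 1297351261) (nat_lit 76) (nat_lit 4966470813) (nat_lit 44) (nat_lit 5) (nat_lit 47) (nat_lit 5) (nat_lit 45) (nat_lit 4) (nat_lit 372) (nat_lit 339) (nat_lit 309)))) (XT.nd (nat_lit 156) (nat_lit 304) (nat_lit 0) (XT.nd (nat_lit 78) (nat_lit 152) (nat_lit 0) (XT.lf (nat_lit 0) (nat_lit 1450040760) (nat_lit 152) (nat_lit 2600366438) (nat_lit 76) (nat_lit 14861305188) (nat_lit 42) (nat_lit 5) (nat_lit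 44) (nat_lit 5) (nat_lit 43) (nat_lit 5) (nat_lit 373) (nat_lit 339) (nat_lit 308)) (XT.lf (nat_lit 0) (nat_lit 9803344295) (nat_lit 228) (nat_lit 4377282279) (nat_lit 76) (nat_lit 5728523791) (nat_lit 40) (nat_lit 5) (nat_lit 43) (nat_lit 5) (nat_lit 41) (nat_lit 4) (nat_lit 374) (nat_lit 339) (nat_lit 307))) (XT.nd (nat_lit 78) (nat_lit 228) (nat_lit 0) (XT.lf (nat_lit 0) (nat_lit 14405261008) (nat_lit 76) (nat_lit 4642662773) (nat_lit 152) (nat_lit 1927328149) (nat_lit 39) (nat_lit 5) (nat_lit 40) (nat_lit 5) (nat_lit 41) (nat_lit 4) (nat_lit 375) (nat_lit 339) (nat_lit 306)) (XT.lf (nat_lit 0) (nat_lit 6942701604) (nat_lit 228) (nat_lit 9385862084) (nat_lit 76) (nat_lit 5779789629) (nat_lit 36) (nat_lit 5) (nat_lit 39) (nat_lit 5) (nat_lit 37) (nat_lit 4) (nat_lit 376) (nat_lit 339) (nat_lit 305))))))))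
noncomputable def xc45 : XT := (XT.nd (nat_lit 2028) (nat_lit 532) (nat_lit 0) (XT.nd (nat_lit 1014) (nat_lit 836) (nat_lit 0) (XT.nd (nat_lit 468) (nat_lit 532) (nat_lit 0) (XT.nd (nat_lit 234) (nat_lit 228) (nat_lit 0) (XT.nd (nat_lit 78) (nat_lit 304) (nat_lit 0) (XT.lf (nat_lit 0) (nat_lit 10489801813) (nat_lit 76) (nat_lit 6215596271) (nat_lit 152) (nat_lit 6612611149) (nat_lit 35) (nat_lit 5) (nat_lit 36) (nat_lit 5) (nat_lit 37) (nat_lit 4) (nat_lit 377) (nat_lit 339) (nat_lit 304)) (XT.nd (nat_lit 78) (nat_lit 76) (nat_lit 0) (XT.lf (nat_lit 0) (nat_lit 2798885798) (nat_lit 228) (nat_lit 17008870786) (nat_lit 76) (nat_lit 4801734935) (nat_lit 32) (nat_lit 5) (nat_lit 35) (nat_lit 5) (nat_lit 33) (nat_lit 4) (nat_lit 378) (nat_lit 339) (nat_lit 303)) (XT.lf (nat_lit 0) (nat_lit 3841790356) (nat_lit 76) (nat_lit 9183060720) (nat_lit 152) (nat_lit 12959372783) (nat_lit 31) (nat_lit 5)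 (nat_lit 32) (nat_lit 5) (nat_lit 33) (nat_lit 4) (nat_lit 379) (nat_lit 339) (nat_lit 302)))) (XT.nd (nat_lit 78) (nat_lit 228) (nat_lit 0) (XT.lf (nat_lit 0) (nat_lit 24307410404) (nat_lit 152) (nat_lit 712089166) (nat_lit 0) (nat_lit 2437521183) (nat_lit 31) (nat_lit 5) (nat_lit 33) (nat_lit 4) (nat_lit 31) (nat_lit 4) (nat_lit 380) (nat_lit 339) (nat_lit 301)) (XT.nd (nat_lit 78) (nat_lit 76) (nat_lit 0) (XT.lf (nat_lit 0) (nat_lit 7633811855) (nat_lit 152) (nat_lit 6312487906) (nat_lit 76) (nat_lit 15074182084) (nat_lit 29) (nat_lit 5) (nat_lit 31) (nat_lit 5) (nat_lit 30) (nat_lit 4) (nat_lit 381) (nat_lit 339) (nat_lit 300)) (XT.lf (nat_lit 0) (nat_lit 17663775278) (nat_lit 76) (nat_lit 1707289166) (nat_lit 152) (nat_lit 11325308197) (nat_lit 28) (nat_lit 5) (nat_lit 29) (nat_lit 5) (nat_lit 30) (nat_lit 4) (nat_lit 382) (nat_lit 339) (nat_lit 299))))) (XT.nd (nat_lit 234) (nat_lit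 304) (nat_lit 0) (XT.nd (nat_lit 78) (nat_lit 152) (nat_lit 0) (XT.lf (nat_lit 0) (nat_lit 11300107358) (nat_lit 76) (nat_lit 21129608808) (nat_lit 76) (nat_lit 57506515) (nat_lit 27) (nat_lit 4) (nat_lit 28) (nat_lit 5) (nat_lit 28) (nat_lit 4) (nat_lit 383) (nat_lit 339) (nat_lit 298)) (XT.nd (nat_lit 78) (nat_lit 0) (nat_lit 0) (XT.lf (nat_lit 0) (nat_lit 3362395196) (nat_lit 76) (nat_lit 8590768965) (nat_lit 152) (nat_lit 22447274768) (nat_lit 25) (nat_lit 5) (nat_lit 26) (nat_lit 5) (nat_lit 27) (nat_lit 4) (nat_lit 384) (nat_lit 339) (nat_lit 297)) (XT.lf (nat_lit 0) (nat_lit 25294834894) (nat_lit 152) (nat_lit 6054521493) (nat_lit 0) (nat_lit 5098708187) (nat_lit 25) (nat_lit 5) (nat_lit 27) (nat_lit 4) (nat_lit 25) (nat_lit 4) (nat_lit 385) (nat_lit 339) (nat_lit 296)))) (XT.nd (nat_lit 156) (nat_lit 76) (nat_lit 0) (XT.nd (nat_lit 78) (nat_lit 76) (nat_lit 0) (XT.lf (nat_lit 0) (nat_lit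 1420941005) (nat_lit 152) (nat_lit 17339936364) (nat_lit 76) (nat_lit 19877312709) (nat_lit 23) (nat_lit 5) (nat_lit 25) (nat_lit 5) (nat_lit 24) (nat_lit 4) (nat_lit 386) (nat_lit 339) (nat_lit 295)) (XT.lf (nat_lit 0) (nat_lit 10049937468) (nat_lit 76) (nat_lit 4757544845) (nat_lit 152) (nat_lit 26177047681) (nat_lit 22) (nat_lit 5) (nat_lit 23) (nat_lit 5) (nat_lit 24) (nat_lit 4) (nat_lit 387) (nat_lit 339) (nat_lit 294))) (XT.nd (nat_lit 78) (nat_lit 76) (nat_lit 0) (XT.lf (nat_lit 0) (nat_lit 29663920367) (nat_lit 152) (nat_lit 3555598526) (nat_lit 0) (nat_lit 10279115051) (nat_lit 22) (nat_lit 5) (nat_lit 24) (nat_lit 4) (nat_lit 22) (nat_lit 4) (nat_lit 388) (nat_lit 339) (nat_lit 293)) (XT.lf (nat_lit 0) (nat_lit 26661328785) (nat_lit 76) (nat_lit 19479327459) (nat_lit 76) (nat_lit 51625930) (nat_lit 21) (nat_lit 4) (nat_lit 22) (nat_lit 5) (nat_lit 22) (nat_lit 4) (nat_lit 389)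 (nat_lit 339) (nat_lit 292)))))) (XT.nd (nat_lit 468) (nat_lit 380) (nat_lit 0) (XT.nd (nat_lit 234) (nat_lit 228) (nat_lit 0) (XT.nd (nat_lit 78) (nat_lit 76) (nat_lit 0) (XT.lf (nat_lit 0) (nat_lit 10299152648) (nat_lit 76) (nat_lit 4221126811) (nat_lit 152) (nat_lit 34561519460) (nat_lit 19) (nat_lit 5) (nat_lit 20) (nat_lit 5) (nat_lit 21) (nat_lit 4) (nat_lit 390) (nat_lit 339) (nat_lit 291)) (XT.nd (nat_lit 78) (nat_lit 76) (nat_lit 0) (XT.lf (nat_lit 0) (nat_lit 30732469003) (nat_lit 152) (nat_lit 9289109385) (nat_lit 0) (nat_lit 12157043446) (nat_lit 19) (nat_lit 5) (nat_lit 21) (nat_lit 4) (nat_lit 19) (nat_lit 4) (nat_lit 391) (nat_lit 339) (nat_lit 290)) (XT.lf (nat_lit 0) (nat_lit 23122685361) (nat_lit 76) (nat_lit 25494786784) (nat_lit 76) (nat_lit 6886930373) (nat_lit 18) (nat_lit 4) (nat_lit 19) (nat_lit 5) (nat_lit 19) (nat_lit 4) (nat_lit 392) (nat_lit 339) (nat_lit 289))))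 (XT.nd (nat_lit 78) (nat_lit 152) (nat_lit 0) (XT.lf (nat_lit 0) (nat_lit 8663948867) (nat_lit 152) (nat_lit 876789802) (nat_lit 76) (nat_lit 49543123896) (nat_lit 17) (nat_lit 5) (nat_lit 19) (nat_lit 5) (nat_lit 18) (nat_lit 4) (nat_lit 393) (nat_lit 339) (nat_lit 288)) (XT.nd (nat_lit 78) (nat_lit 76) (nat_lit 0) (XT.lf (nat_lit 0) (nat_lit 25831278803) (nat_lit 152) (nat_lit 29027643557) (nat_lit 0) (nat_lit 8054431936) (nat_lit 16) (nat_lit 5) (nat_lit 18) (nat_lit 4) (nat_lit 16) (nat_lit 4) (nat_lit 394) (nat_lit 339) (nat_lit 287)) (XT.lf (nat_lit 0) (nat_lit 4291723291) (nat_lit 76) (nat_lit 40274567890) (nat_lit 76) (nat_lit 22473202301) (nat_lit 15) (nat_lit 4) (nat_lit 16) (nat_lit 5) (nat_lit 16) (nat_lit 4) (nat_lit 395) (nat_lit 339) (nat_lit 286))))) (XT.nd (nat_lit 234) (nat_lit 228) (nat_lit 0) (XT.nd (nat_lit 78) (nat_lit 152) (nat_lit 0) (XT.lf (nat_lit 0) (nat_lit 41220811621)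 (nat_lit 76) (nat_lit 24038023237) (nat_lit 76) (nat_lit 6213955128) (nat_lit 15) (nat_lit 4) (nat_lit 16) (nat_lit 5) (nat_lit 16) (nat_lit 4) (nat_lit 396) (nat_lit 339) (nat_lit 285)) (XT.nd (nat_lit 78) (nat_lit 0) (nat_lit 0) (XT.lf (nat_lit 0) (nat_lit 4730732660) (nat_lit 76) (nat_lit 6281863252) (nat_lit 152) (nat_lit 65237814117) (nat_lit 13) (nat_lit 5) (nat_lit 14) (nat_lit 5) (nat_lit 15) (nat_lit 4) (nat_lit 397) (nat_lit 339) (nat_lit 284)) (XT.lf (nat_lit 0) (nat_lit 30096585519) (nat_lit 152) (nat_lit 38190986103) (nat_lit 0) (nat_lit 13082725792) (nat_lit 13) (nat_lit 5) (nat_lit 15) (nat_lit 4) (nat_lit 13) (nat_lit 4) (nat_lit 398) (nat_lit 339) (nat_lit 283)))) (XT.nd (nat_lit 156) (nat_lit 152) (nat_lit 0) (XT.nd (nat_lit 78) (nat_lit 76) (nat_lit 0) (XT.lf (nat_lit 0) (nat_lit 50773568060) (nat_lit 152) (nat_lit 2380351554) (nat_lit 0) (nat_lit 33742544531) (nat_lit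 13) (nat_lit 5) (nat_lit 15) (nat_lit 4) (nat_lit 13) (nat_lit 4) (nat_lit 399) (nat_lit 339) (nat_lit 282)) (XT.lf (nat_lit 0) (nat_lit 37420194865) (nat_lit 76) (nat_lit 36232035558) (nat_lit 76) (nat_lit 19185119620) (nat_lit 12) (nat_lit 4) (nat_lit 13) (nat_lit 5) (nat_lit 13) (nat_lit 4) (nat_lit 400) (nat_lit 339) (nat_lit 281))) (XT.nd (nat_lit 78) (nat_lit 152) (nat_lit 0) (XT.lf (nat_lit 0) (nat_lit 80420323686) (nat_lit 76) (nat_lit 17947248348) (nat_lit 76) (nat_lit 885617216) (nat_lit 12) (nat_lit 4) (nat_lit 13) (nat_lit 5) (nat_lit 13) (nat_lit 4) (nat_lit 401) (nat_lit 339) (nat_lit 280)) (XT.lf (nat_lit 0) (nat_lit 18606139151) (nat_lit 152) (nat_lit 85200805765) (nat_lit 0) (nat_lit 2343990282) (nat_lit 10) (nat_lit 5) (nat_lit 12) (nat_lit 4) (nat_lit 10) (nat_lit 4) (nat_lit 402) (nat_lit 339) (nat_lit 279))))))) (XT.nd (nat_lit 1014) (nat_lit 228) (nat_lit 0) (XT.nd (nat_lit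 468) (nat_lit 76) (nat_lit 0) (XT.nd (nat_lit 234) (nat_lit 152) (nat_lit 0) (XT.nd (nat_lit 78) (nat_lit 76) (nat_lit 0) (XT.lf (nat_lit 0) (nat_lit 40230651505) (nat_lit 152) (nat_lit 49382415185) (nat_lit 0) (nat_lit 23956487487) (nat_lit 10) (nat_lit 5) (nat_lit 12) (nat_lit 4) (nat_lit 10) (nat_lit 4) (nat_lit 403) (nat_lit 339) (nat_lit 278)) (XT.nd (nat_lit 78) (nat_lit 76) (nat_lit 0) (XT.lf (nat_lit 0) (nat_lit 63555468042) (nat_lit 152) (nat_lit 10757499912) (nat_lit 0) (nat_lit 47270178885) (nat_lit 10) (nat_lit 5) (nat_lit 12) (nat_lit 4) (nat_lit 10) (nat_lit 4) (nat_lit 404) (nat_lit 339) (nat_lit 277)) (XT.lf (nat_lit 0) (nat_lit 31924615509) (nat_lit 76) (nat_lit 57292627102) (nat_lit 76) (nat_lit 40997036891) (nat_lit 9) (nat_lit 4) (nat_lit 10) (nat_lit 5) (nat_lit 10) (nat_lit 4) (nat_lit 405) (nat_lit 339) (nat_lit 276)))) (XT.nd (nat_lit 78) (nat_lit 152) (nat_lit 0)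 (XT.lf (nat_lit 0) (nat_lit 78353238860) (nat_lit 76) (nat_lit 38739867948) (nat_lit 76) (nat_lit 22434739724) (nat_lit 9) (nat_lit 4) (nat_lit 10) (nat_lit 5) (nat_lit 10) (nat_lit 4) (nat_lit 406) (nat_lit 339) (nat_lit 275)) (XT.nd (nat_lit 78) (nat_lit 152) (nat_lit 0) (XT.lf (nat_lit 0) (nat_lit 128447811193) (nat_lit 76) (nat_lit 18726931681) (nat_lit 76) (nat_lit 2412971963) (nat_lit 9) (nat_lit 4) (nat_lit 10) (nat_lit 5) (nat_lit 10) (nat_lit 4) (nat_lit 407) (nat_lit 339) (nat_lit 274)) (XT.lf (nat_lit 0) (nat_lit 18979043157) (nat_lit 152) (nat_lit 138005014954) (nat_lit 0) (nat_lit 3434150751) (nat_lit 7) (nat_lit 5) (nat_lit 9) (nat_lit 4) (nat_lit 7) (nat_lit 4) (nat_lit 408) (nat_lit 339) (nat_lit 273))))) (XT.nd (nat_lit 234) (nat_lit 76) (nat_lit 0) (XT.nd (nat_lit 78) (nat_lit 0) (nat_lit 0) (XT.lf (nat_lit 0) (nat_lit 42666869744) (nat_lit 152) (nat_lit 102298079918) (nat_lit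 0) (nat_lit 27114766307) (nat_lit 7) (nat_lit 5) (nat_lit 9) (nat_lit 4) (nat_lit 7) (nat_lit 4) (nat_lit 409) (nat_lit 339) (nat_lit 272)) (XT.nd (nat_lit 78) (nat_lit 0) (nat_lit 0) (XT.lf (nat_lit 0) (nat_lit 68229174592) (nat_lit 152) (nat_lit 63775602966) (nat_lit 0) (nat_lit 52670394274) (nat_lit 7) (nat_lit 5) (nat_lit 9) (nat_lit 4) (nat_lit 7) (nat_lit 4) (nat_lit 410) (nat_lit 339) (nat_lit 271)) (XT.lf (nat_lit 0) (nat_lit 95817438026) (nat_lit 152) (nat_lit 22209302754) (nat_lit 0) (nat_lit 80252475411) (nat_lit 7) (nat_lit 5) (nat_lit 9) (nat_lit 4) (nat_lit 7) (nat_lit 4) (nat_lit 411) (nat_lit 339) (nat_lit 270)))) (XT.nd (nat_lit 156) (nat_lit 0) (nat_lit 0) (XT.nd (nat_lit 78) (nat_lit 0) (nat_lit 0) (XT.lf (nat_lit 0) (nat_lit 23395956245) (nat_lit 76) (nat_lit 102564466250) (nat_lit 76) (nat_lit 86993779287) (nat_lit 6) (nat_lit 4) (nat_lit 7) (nat_lit 5) (nat_lit 7) (nat_lit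 4) (nat_lit 412) (nat_lit 339) (nat_lit 269)) (XT.lf (nat_lit 0) (nat_lit 73409089156) (nat_lit 76) (nat_lit 85475791613) (nat_lit 76) (nat_lit 69899804327) (nat_lit 6) (nat_lit 4) (nat_lit 7) (nat_lit 5) (nat_lit 7) (nat_lit 4) (nat_lit 413) (nat_lit 339) (nat_lit 268))) (XT.nd (nat_lit 78) (nat_lit 0) (nat_lit 0) (XT.lf (nat_lit 0) (nat_lit 127392130250) (nat_lit 76) (nat_lit 67035575939) (nat_lit 76) (nat_lit 51454680947) (nat_lit 6) (nat_lit 4) (nat_lit 7) (nat_lit 5) (nat_lit 7) (nat_lit 4) (nat_lit 414) (nat_lit 339) (nat_lit 267)) (XT.lf (nat_lit 0) (nat_lit 185664979032) (nat_lit 76) (nat_lit 47134543875) (nat_lit 76) (nat_lit 31549104711) (nat_lit 6) (nat_lit 4) (nat_lit 7) (nat_lit 5) (nat_lit 7) (nat_lit 4) (nat_lit 415) (nat_lit 339) (nat_lit 266)))))) (XT.nd (nat_lit 546) (nat_lit 76) (nat_lit 0) (XT.nd (nat_lit 234) (nat_lit 0) (nat_lit 0) (XT.nd (nat_lit 78) (nat_lit 152) (nat_lit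 0) (XT.lf (nat_lit 0) (nat_lit 248572956085) (nat_lit 76) (nat_lit 25654763380) (nat_lit 76) (nat_lit 10065116648) (nat_lit 6) (nat_lit 4) (nat_lit 7) (nat_lit 5) (nat_lit 7) (nat_lit 4) (nat_lit 416) (nat_lit 339) (nat_lit 265)) (XT.nd (nat_lit 78) (nat_lit 0) (nat_lit 0) (XT.lf (nat_lit 0) (nat_lit 10796285743) (nat_lit 76) (nat_lit 2076801267) (nat_lit 152) (nat_lit 292941439915) (nat_lit 4) (nat_lit 5) (nat_lit 5) (nat_lit 5) (nat_lit 6) (nat_lit 4) (nat_lit 417) (nat_lit 339) (nat_lit 264)) (XT.lf (nat_lit 0) (nat_lit 38283778851) (nat_lit 152) (nat_lit 267287070896) (nat_lit 0) (nat_lit 23429350339) (nat_lit 4) (nat_lit 5) (nat_lit 6) (nat_lit 4) (nat_lit 4) (nat_lit 4) (nat_lit 418) (nat_lit 339) (nat_lit 263)))) (XT.nd (nat_lit 156) (nat_lit 0) (nat_lit 0) (XT.nd (nat_lit 78) (nat_lit 0) (nat_lit 0) (XT.lf (nat_lit 0) (nat_lit 65751038997) (nat_lit 152) (nat_lit 237395073400) (nat_lit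 0) (nat_lit 50893429434) (nat_lit 4) (nat_lit 5) (nat_lit 6) (nat_lit 4) (nat_lit 4) (nat_lit 4) (nat_lit 419) (nat_lit 339) (nat_lit 262)) (XT.lf (nat_lit 0) (nat_lit 95405211708) (nat_lit 152) (nat_lit 205132686243) (nat_lit 0) (nat_lit 80544656728) (nat_lit 4) (nat_lit 5) (nat_lit 6) (nat_lit 4) (nat_lit 4) (nat_lit 4) (nat_lit 420) (nat_lit 339) (nat_lit 261))) (XT.nd (nat_lit 78) (nat_lit 0) (nat_lit 0) (XT.lf (nat_lit 0) (nat_lit 127422025414) (nat_lit 152) (nat_lit 170308724908) (nat_lit 0) (nat_lit 112558743197) (nat_lit 4) (nat_lit 5) (nat_lit 6) (nat_lit 4) (nat_lit 4) (nat_lit 4) (nat_lit 421) (nat_lit 339) (nat_lit 260)) (XT.lf (nat_lit 0) (nat_lit 161991209384) (nat_lit 152) (nat_lit 132716825181) (nat_lit 0) (nat_lit 147125401946) (nat_lit 4) (nat_lit 5) (nat_lit 6) (nat_lit 4) (nat_lit 4) (nat_lit 4) (nat_lit 422) (nat_lit 339) (nat_lit 259))))) (XT.nd (nat_lit 234) (nat_lit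 76) (nat_lit 0) (XT.nd (nat_lit 78) (nat_lit 0) (nat_lit 0) (XT.lf (nat_lit 0) (nat_lit 199317618038) (nat_lit 152) (nat_lit 92134220247) (nat_lit 0) (nat_lit 184449472435) (nat_lit 4) (nat_lit 5) (nat_lit 6) (nat_lit 4) (nat_lit 4) (nat_lit 4) (nat_lit 423) (nat_lit 339) (nat_lit 258)) (XT.nd (nat_lit 78) (nat_lit 0) (nat_lit 0) (XT.lf (nat_lit 0) (nat_lit 239622444912) (nat_lit 152) (nat_lit 48320420597) (nat_lit 0) (nat_lit 224752134339) (nat_lit 4) (nat_lit 5) (nat_lit 6) (nat_lit 4) (nat_lit 4) (nat_lit 4) (nat_lit 424) (nat_lit 339) (nat_lit 257)) (XT.lf (nat_lit 0) (nat_lit 283144533423) (nat_lit 152) (nat_lit 1015788898) (nat_lit 0) (nat_lit 268272218249) (nat_lit 4) (nat_lit 5) (nat_lit 6) (nat_lit 4) (nat_lit 4) (nat_lit 4) (nat_lit 425) (nat_lit 339) (nat_lit 256)))) (XT.nd (nat_lit 156) (nat_lit 0) (nat_lit 0) (XT.nd (nat_lit 78) (nat_lit 0) (nat_lit 0) (XT.lf (nat_lit 0) (nat_lit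 51715208221) (nat_lit 76) (nat_lit 279234003354) (nat_lit 76) (nat_lit 264359832067) (nat_lit 3) (nat_lit 4) (nat_lit 4) (nat_lit 5) (nat_lit 4) (nat_lit 4) (nat_lit 426) (nat_lit 339) (nat_lit 255)) (XT.lf (nat_lit 0) (nat_lit 108688318158) (nat_lit 76) (nat_lit 273901334735) (nat_lit 76) (nat_lit 259025444827) (nat_lit 3) (nat_lit 4) (nat_lit 4) (nat_lit 5) (nat_lit 4) (nat_lit 4) (nat_lit 427) (nat_lit 339) (nat_lit 254))) (XT.nd (nat_lit 78) (nat_lit 0) (nat_lit 0) (XT.lf (nat_lit 0) (nat_lit 170207572771) (nat_lit 76) (nat_lit 268147918344) (nat_lit 76) (nat_lit 253270437118) (nat_lit 3) (nat_lit 4) (nat_lit 4) (nat_lit 5) (nat_lit 4) (nat_lit 4) (nat_lit 428) (nat_lit 339) (nat_lit 253)) (XT.lf (nat_lit 0) (nat_lit 236637530606) (nat_lit 76) (nat_lit 261939659859) (nat_lit 76) (nat_lit 247060705192) (nat_lit 3) (nat_lit 4) (nat_lit 4) (nat_lit 5) (nat_lit 4) (nat_lit 4) (nat_lit 429)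 (nat_lit 339) (nat_lit 252))))))))
noncomputable def xc46 : XT := (XT.nd (nat_lit 47502) (nat_lit 0) (nat_lit 1900) (XT.nd (nat_lit 46488) (nat_lit 0) (nat_lit 6384) (XT.nd (nat_lit 468) (nat_lit 0) (nat_lit 0) (XT.nd (nat_lit 234) (nat_lit 0) (nat_lit 0) (XT.nd (nat_lit 78) (nat_lit 0) (nat_lit 0) (XT.lf (nat_lit 0) (nat_lit 308371850674) (nat_lit 76) (nat_lit 255239769603) (nat_lit 76) (nat_lit 240359450638) (nat_lit 3) (nat_lit 4) (nat_lit 4) (nat_lit 5) (nat_lit 4) (nat_lit 4) (nat_lit 430) (nat_lit 339) (nat_lit 251)) (XT.nd (nat_lit 78) (nat_lit 0) (nat_lit 0) (XT.lf (nat_lit 0) (nat_lit 385835625240) (nat_lit 76) (nat_lit 248008544520) (nat_lit 76) (nat_lit 233126962316) (nat_lit 3) (nat_lit 4) (nat_lit 4) (nat_lit 5) (nat_lit 4) (nat_lit 4) (nat_lit 431) (nat_lit 339) (nat_lit 250)) (XT.lf (nat_lit 0) (nat_lit 469487898895) (nat_lit 76) (nat_lit 240203132908) (nat_lit 76) (nat_lit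 225320381038) (nat_lit 3) (nat_lit 4) (nat_lit 4) (nat_lit 5) (nat_lit 4) (nat_lit 4) (nat_lit 432) (nat_lit 339) (nat_lit 249)))) (XT.nd (nat_lit 78) (nat_lit 0) (nat_lit 0) (XT.lf (nat_lit 0) (nat_lit 559824388817) (nat_lit 76) (nat_lit 231777280474) (nat_lit 76) (nat_lit 216893445581) (nat_lit 3) (nat_lit 4) (nat_lit 4) (nat_lit 5) (nat_lit 4) (nat_lit 4) (nat_lit 433) (nat_lit 339) (nat_lit 248)) (XT.nd (nat_lit 78) (nat_lit 0) (nat_lit 0) (XT.lf (nat_lit 0) (nat_lit 657380422352) (nat_lit 76) (nat_lit 222681056242) (nat_lit 76) (nat_lit 207796218550) (nat_lit 3) (nat_lit 4) (nat_lit 4) (nat_lit 5) (nat_lit 4) (nat_lit 4) (nat_lit 434) (nat_lit 339) (nat_lit 247)) (XT.lf (nat_lit 0) (nat_lit 762734109330) (nat_lit 76) (nat_lit 212860556661) (nat_lit 76) (nat_lit 197974790450) (nat_lit 3) (nat_lit 4) (nat_lit 4) (nat_lit 5) (nat_lit 4) (nat_lit 4) (nat_lit 435) (nat_lit 339) (nat_lit 246)))))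 (XT.nd (nat_lit 45708) (nat_lit 0) (nat_lit 12616) (XT.nd (nat_lit 78) (nat_lit 0) (nat_lit 0) (XT.lf (nat_lit 0) (nat_lit 876509767895) (nat_lit 76) (nat_lit 202257586177) (nat_lit 76) (nat_lit 187370960227) (nat_lit 3) (nat_lit 4) (nat_lit 4) (nat_lit 5) (nat_lit 4) (nat_lit 4) (nat_lit 436) (nat_lit 339) (nat_lit 245)) (XT.nd (nat_lit 45552) (nat_lit 0) (nat_lit 13300) (XT.lf (nat_lit 0) (nat_lit 999381624172) (nat_lit 76) (nat_lit 190809312373) (nat_lit 76) (nat_lit 175921890368) (nat_lit 3) (nat_lit 4) (nat_lit 4) (nat_lit 5) (nat_lit 4) (nat_lit 4) (nat_lit 437) (nat_lit 339) (nat_lit 244)) (XT.lf (nat_lit 0) (nat_lit 1073741823) (nat_lit 0) (nat_lit 0) (nat_lit 0) (nat_lit 0) (nat_lit 178) (nat_lit 0) (nat_lit 1) (nat_lit 0) (nat_lit 1) (nat_lit 0) (nat_lit 340) (nat_lit 340) (nat_lit 340)))) (XT.nd (nat_lit 156) (nat_lit 456) (nat_lit 0) (XT.nd (nat_lit 78) (nat_lit 152) (nat_lit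 0) (XT.lf (nat_lit 0) (nat_lit 4877230301) (nat_lit 76) (nat_lit 1368652428) (nat_lit 0) (nat_lit 205260320) (nat_lit 177) (nat_lit 5) (nat_lit 178) (nat_lit 0) (nat_lit 177) (nat_lit 4) (nat_lit 341) (nat_lit 340) (nat_lit 339)) (XT.lf (nat_lit 0) (nat_lit 3136871329) (nat_lit 152) (nat_lit 2567281884) (nat_lit 76) (nat_lit 775457661) (nat_lit 175) (nat_lit 5) (nat_lit 177) (nat_lit 5) (nat_lit 176) (nat_lit 4) (nat_lit 342) (nat_lit 340) (nat_lit 338))) (XT.nd (nat_lit 78) (nat_lit 228) (nat_lit 0) (XT.lf (nat_lit 0) (nat_lit 1211403768) (nat_lit 228) (nat_lit 3601962915) (nat_lit 76) (nat_lit 1714623796) (nat_lit 172) (nat_lit 5) (nat_lit 175) (nat_lit 5) (nat_lit 173) (nat_lit 5) (nat_lit 343) (nat_lit 340) (nat_lit 337)) (XT.lf (nat_lit 0) (nat_lit 2103513513) (nat_lit 228) (nat_lit 3551675414) (nat_lit 304) (nat_lit 940590627) (nat_lit 169) (nat_lit 5) (nat_lit 172) (nat_lit 5) (nat_lit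 173) (nat_lit 5) (nat_lit 344) (nat_lit 340) (nat_lit 336)))))) (XT.nd (nat_lit 468) (nat_lit 2964) (nat_lit 0) (XT.nd (nat_lit 234) (nat_lit 1976) (nat_lit 0) (XT.nd (nat_lit 78) (nat_lit 912) (nat_lit 0) (XT.lf (nat_lit 0) (nat_lit 1432752909) (nat_lit 304) (nat_lit 1901443852) (nat_lit 380) (nat_lit 3348699299) (nat_lit 164) (nat_lit 5) (nat_lit 168) (nat_lit 5) (nat_lit 169) (nat_lit 5) (nat_lit 345) (nat_lit 340) (nat_lit 335)) (XT.nd (nat_lit 78) (nat_lit 456) (nat_lit 0) (XT.lf (nat_lit 0) (nat_lit 805199584) (nat_lit 456) (nat_lit 5860881613) (nat_lit 76) (nat_lit 124552520) (nat_lit 158) (nat_lit 5) (nat_lit 164) (nat_lit 5) (nat_lit 159) (nat_lit 5) (nat_lit 346) (nat_lit 340) (nat_lit 334)) (XT.lf (nat_lit 0) (nat_lit 525367332) (nat_lit 456) (nat_lit 4413887986) (nat_lit 532) (nat_lit 1977020063) (nat_lit 152) (nat_lit 5) (nat_lit 158) (nat_lit 5) (nat_lit 159) (nat_lit 5) (nat_lit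 347) (nat_lit 340) (nat_lit 333)))) (XT.nd (nat_lit 78) (nat_lit 1368) (nat_lit 0) (XT.lf (nat_lit 0) (nat_lit 265227724) (nat_lit 532) (nat_lit 1766947405) (nat_lit 608) (nat_lit 5030441820) (nat_lit 144) (nat_lit 5) (nat_lit 151) (nat_lit 5) (nat_lit 152) (nat_lit 5) (nat_lit 348) (nat_lit 340) (nat_lit 332)) (XT.nd (nat_lit 78) (nat_lit 760) (nat_lit 0) (XT.lf (nat_lit 0) (nat_lit 123910766) (nat_lit 608) (nat_lit 5972087856) (nat_lit 684) (nat_lit 1133124126) (nat_lit 136) (nat_lit 5) (nat_lit 144) (nat_lit 5) (nat_lit 145) (nat_lit 5) (nat_lit 349) (nat_lit 340) (nat_lit 331)) (XT.lf (nat_lit 0) (nat_lit 68412372) (nat_lit 684) (nat_lit 2745170182) (nat_lit 760) (nat_lit 4601370019) (nat_lit 126) (nat_lit 5) (nat_lit 135) (nat_lit 5) (nat_lit 136) (nat_lit 5) (nat_lit 350) (nat_lit 340) (nat_lit 330))))) (XT.nd (nat_lit 234) (nat_lit 1368) (nat_lit 0) (XT.nd (nat_lit 78) (nat_lit 836)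 (nat_lit 0) (XT.lf (nat_lit 0) (nat_lit 136705471) (nat_lit 760) (nat_lit 6743708598) (nat_lit 836) (nat_lit 742293683) (nat_lit 116) (nat_lit 5) (nat_lit 126) (nat_lit 5) (nat_lit 127) (nat_lit 5) (nat_lit 351) (nat_lit 340) (nat_lit 329)) (XT.nd (nat_lit 78) (nat_lit 380) (nat_lit 0) (XT.lf (nat_lit 0) (nat_lit 254674100) (nat_lit 380) (nat_lit 2958380787) (nat_lit 456) (nat_lit 4636664605) (nat_lit 110) (nat_lit 5) (nat_lit 115) (nat_lit 5) (nat_lit 116) (nat_lit 5) (nat_lit 352) (nat_lit 340) (nat_lit 328)) (XT.lf (nat_lit 0) (nat_lit 484283398) (nat_lit 380) (nat_lit 6865894967) (nat_lit 456) (nat_lit 749694577) (nat_lit 105) (nat_lit 5) (nat_lit 110) (nat_lit 5) (nat_lit 111) (nat_lit 5) (nat_lit 353) (nat_lit 340) (nat_lit 327)))) (XT.nd (nat_lit 156) (nat_lit 608) (nat_lit 0) (XT.nd (nat_lit 78) (nat_lit 304) (nat_lit 0) (XT.lf (nat_lit 0) (nat_lit 747426835) (nat_lit 380) (nat_lit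 2530859777) (nat_lit 456) (nat_lit 5092177639) (nat_lit 99) (nat_lit 5) (nat_lit 104) (nat_lit 5) (nat_lit 105) (nat_lit 5) (nat_lit 354) (nat_lit 340) (nat_lit 326)) (XT.lf (nat_lit 0) (nat_lit 1094539183) (nat_lit 304) (nat_lit 6452036522) (nat_lit 380) (nat_lit 1118423994) (nat_lit 95) (nat_lit 5) (nat_lit 99) (nat_lit 5) (nat_lit 100) (nat_lit 5) (nat_lit 355) (nat_lit 340) (nat_lit 325))) (XT.nd (nat_lit 78) (nat_lit 228) (nat_lit 0) (XT.lf (nat_lit 0) (nat_lit 1475362726) (nat_lit 304) (nat_lit 1565203852) (nat_lit 380) (nat_lit 5941722220) (nat_lit 90) (nat_lit 5) (nat_lit 94) (nat_lit 5) (nat_lit 95) (nat_lit 5) (nat_lit 356) (nat_lit 340) (nat_lit 324)) (XT.lf (nat_lit 0) (nat_lit 1897887972) (nat_lit 228) (nat_lit 5597722602) (nat_lit 304) (nat_lit 1828412385) (nat_lit 87) (nat_lit 5) (nat_lit 90) (nat_lit 5) (nat_lit 91) (nat_lit 5) (nat_lit 357) (nat_lit 340) (nat_lit 323)))))))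 (XT.nd (nat_lit 1014) (nat_lit 1520) (nat_lit 0) (XT.nd (nat_lit 468) (nat_lit 1368) (nat_lit 0) (XT.nd (nat_lit 234) (nat_lit 684) (nat_lit 0) (XT.nd (nat_lit 78) (nat_lit 532) (nat_lit 0) (XT.lf (nat_lit 0) (nat_lit 2367458612) (nat_lit 304) (nat_lit 148050838) (nat_lit 380) (nat_lit 7176377550) (nat_lit 82) (nat_lit 5) (nat_lit 86) (nat_lit 5) (nat_lit 87) (nat_lit 5) (nat_lit 358) (nat_lit 340) (nat_lit 322)) (XT.nd (nat_lit 78) (nat_lit 304) (nat_lit 0) (XT.lf (nat_lit 0) (nat_lit 2822154525) (nat_lit 228) (nat_lit 4386173136) (nat_lit 304) (nat_lit 2876167140) (nat_lit 79) (nat_lit 5) (nat_lit 82) (nat_lit 5) (nat_lit 83) (nat_lit 5) (nat_lit 359) (nat_lit 340) (nat_lit 321)) (XT.lf (nat_lit 0) (nat_lit 1728647408) (nat_lit 304) (nat_lit 7185731154) (nat_lit 76) (nat_lit 1591968938) (nat_lit 75) (nat_lit 5) (nat_lit 79) (nat_lit 5) (nat_lit 76) (nat_lit 5) (nat_lit 360) (nat_lit 340)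 (nat_lit 320)))) (XT.nd (nat_lit 78) (nat_lit 456) (nat_lit 0) (XT.lf (nat_lit 0) (nat_lit 3786889895) (nat_lit 228) (nat_lit 2893419728) (nat_lit 304) (nat_lit 4275389536) (nat_lit 72) (nat_lit 5) (nat_lit 75) (nat_lit 5) (nat_lit 76) (nat_lit 5) (nat_lit 361) (nat_lit 340) (nat_lit 319)) (XT.nd (nat_lit 78) (nat_lit 152) (nat_lit 0) (XT.lf (nat_lit 0) (nat_lit 644520535) (nat_lit 304) (nat_lit 7169804784) (nat_lit 76) (nat_lit 3622466518) (nat_lit 68) (nat_lit 5) (nat_lit 72) (nat_lit 5) (nat_lit 69) (nat_lit 5) (nat_lit 362) (nat_lit 340) (nat_lit 318)) (XT.lf (nat_lit 0) (nat_lit 4696764116) (nat_lit 152) (nat_lit 1193513869) (nat_lit 228) (nat_lit 6058544290) (nat_lit 66) (nat_lit 5) (nat_lit 68) (nat_lit 5) (nat_lit 69) (nat_lit 5) (nat_lit 363) (nat_lit 340) (nat_lit 317))))) (XT.nd (nat_lit 234) (nat_lit 760) (nat_lit 0) (XT.nd (nat_lit 78) (nat_lit 380) (nat_lit 0) (XT.lf (nat_lit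 0) (nat_lit 5091136855) (nat_lit 228) (nat_lit 6602421290) (nat_lit 304) (nat_lit 801416615) (nat_lit 63) (nat_lit 5) (nat_lit 66) (nat_lit 5) (nat_lit 67) (nat_lit 5) (nat_lit 364) (nat_lit 340) (nat_lit 316)) (XT.nd (nat_lit 78) (nat_lit 152) (nat_lit 0) (XT.lf (nat_lit 0) (nat_lit 4807599564) (nat_lit 228) (nat_lit 7653500844) (nat_lit 76) (nat_lit 615589415) (nat_lit 60) (nat_lit 5) (nat_lit 63) (nat_lit 5) (nat_lit 61) (nat_lit 5) (nat_lit 365) (nat_lit 340) (nat_lit 315)) (XT.lf (nat_lit 0) (nat_lit 5656652039) (nat_lit 152) (nat_lit 5362380949) (nat_lit 228) (nat_lit 2676206565) (nat_lit 58) (nat_lit 5) (nat_lit 60) (nat_lit 5) (nat_lit 61) (nat_lit 5) (nat_lit 366) (nat_lit 340) (nat_lit 314)))) (XT.nd (nat_lit 156) (nat_lit 380) (nat_lit 0) (XT.nd (nat_lit 78) (nat_lit 152) (nat_lit 0) (XT.lf (nat_lit 0) (nat_lit 3378159858) (nat_lit 228) (nat_lit 8549074919) (nat_lit 76) (nat_lit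 2427364059) (nat_lit 55) (nat_lit 5) (nat_lit 58) (nat_lit 5) (nat_lit 56) (nat_lit 5) (nat_lit 367) (nat_lit 340) (nat_lit 313)) (XT.lf (nat_lit 0) (nat_lit 5802946442) (nat_lit 152) (nat_lit 4206379849) (nat_lit 228) (nat_lit 5045911508) (nat_lit 53) (nat_lit 5) (nat_lit 55) (nat_lit 5) (nat_lit 56) (nat_lit 5) (nat_lit 368) (nat_lit 340) (nat_lit 312))) (XT.nd (nat_lit 78) (nat_lit 152) (nat_lit 0) (XT.lf (nat_lit 0) (nat_lit 1490195066) (nat_lit 228) (nat_lit 10132889942) (nat_lit 76) (nat_lit 4179081166) (nat_lit 50) (nat_lit 5) (nat_lit 53) (nat_lit 5) (nat_lit 51) (nat_lit 5) (nat_lit 369) (nat_lit 340) (nat_lit 311)) (XT.lf (nat_lit 0) (nat_lit 5306115388) (nat_lit 152) (nat_lit 3257691715) (nat_lit 228) (nat_lit 8031364366) (nat_lit 48) (nat_lit 5) (nat_lit 50) (nat_lit 5) (nat_lit 51) (nat_lit 5) (nat_lit 370) (nat_lit 340) (nat_lit 310)))))) (XT.nd (nat_lit 468) (nat_lit 760) (nat_lit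 0) (XT.nd (nat_lit 234) (nat_lit 380) (nat_lit 0) (XT.nd (nat_lit 78) (nat_lit 304) (nat_lit 0) (XT.lf (nat_lit 0) (nat_lit 4743541973) (nat_lit 76) (nat_lit 11679761143) (nat_lit 152) (nat_lit 1017340893) (nat_lit 47) (nat_lit 5) (nat_lit 48) (nat_lit 5) (nat_lit 49) (nat_lit 4) (nat_lit 371) (nat_lit 340) (nat_lit 309)) (XT.nd (nat_lit 78) (nat_lit 76) (nat_lit 0) (XT.lf (nat_lit 0) (nat_lit 3872205656) (nat_lit 152) (nat_lit 2671308967) (nat_lit 228) (nat_lit 11795363831) (nat_lit 44) (nat_lit 5) (nat_lit 46) (nat_lit 5) (nat_lit 47) (nat_lit 5) (nat_lit 372) (nat_lit 340) (nat_lit 308)) (XT.lf (nat_lit 0) (nat_lit 2672698015) (nat_lit 76) (nat_lit 12262833910) (nat_lit 152) (nat_lit 4359530740) (nat_lit 43) (nat_lit 5) (nat_lit 44) (nat_lit 5) (nat_lit 45) (nat_lit 4) (nat_lit 373) (nat_lit 340) (nat_lit 307)))) (XT.nd (nat_lit 78) (nat_lit 152) (nat_lit 0) (XT.lf (nat_lit 0) (nat_lit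 1114608017) (nat_lit 152) (nat_lit 2646040816) (nat_lit 228) (nat_lit 16553897042) (nat_lit 40) (nat_lit 5) (nat_lit 42) (nat_lit 5) (nat_lit 43) (nat_lit 5) (nat_lit 374) (nat_lit 340) (nat_lit 306)) (XT.nd (nat_lit 78) (nat_lit 152) (nat_lit 0) (XT.lf (nat_lit 0) (nat_lit 12687268541) (nat_lit 228) (nat_lit 930703160) (nat_lit 76) (nat_lit 7778582244) (nat_lit 40) (nat_lit 5) (nat_lit 43) (nat_lit 5) (nat_lit 41) (nat_lit 4) (nat_lit 375) (nat_lit 340) (nat_lit 305)) (XT.lf (nat_lit 0) (nat_lit 19045809) (nat_lit 152) (nat_lit 3363776884) (nat_lit 76) (nat_lit 19170072593) (nat_lit 38) (nat_lit 5) (nat_lit 40) (nat_lit 5) (nat_lit 39) (nat_lit 5) (nat_lit 376) (nat_lit 340) (nat_lit 304))))) (XT.nd (nat_lit 234) (nat_lit 304) (nat_lit 0) (XT.nd (nat_lit 78) (nat_lit 304) (nat_lit 0) (XT.lf (nat_lit 0) (nat_lit 9461621853) (nat_lit 228) (nat_lit 6525956233) (nat_lit 76) (nat_lit 7790986091)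 (nat_lit 36) (nat_lit 5) (nat_lit 39) (nat_lit 5) (nat_lit 37) (nat_lit 4) (nat_lit 377) (nat_lit 340) (nat_lit 303)) (XT.nd (nat_lit 78) (nat_lit 228) (nat_lit 0) (XT.lf (nat_lit 0) (nat_lit 14782840902) (nat_lit 76) (nat_lit 5130972754) (nat_lit 152) (nat_lit 5175775833) (nat_lit 35) (nat_lit 5) (nat_lit 36) (nat_lit 5) (nat_lit 37) (nat_lit 4) (nat_lit 378) (nat_lit 340) (nat_lit 302)) (XT.lf (nat_lit 0) (nat_lit 4861483355) (nat_lit 228) (nat_lit 14938642830) (nat_lit 76) (nat_lit 6685959903) (nat_lit 32) (nat_lit 5) (nat_lit 35) (nat_lit 5) (nat_lit 33) (nat_lit 4) (nat_lit 379) (nat_lit 340) (nat_lit 301)))) (XT.nd (nat_lit 156) (nat_lit 152) (nat_lit 0) (XT.nd (nat_lit 78) (nat_lit 76) (nat_lit 0) (XT.lf (nat_lit 0) (nat_lit 7430966835) (nat_lit 76) (nat_lit 8389598619) (nat_lit 152) (nat_lit 12154496647) (nat_lit 31) (nat_lit 5) (nat_lit 32) (nat_lit 5) (nat_lit 33) (nat_lit 4) (nat_lit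 380) (nat_lit 340) (nat_lit 300)) (XT.lf (nat_lit 0) (nat_lit 2405982464) (nat_lit 76) (nat_lit 25529496313) (nat_lit 76) (nat_lit 1633732313) (nat_lit 30) (nat_lit 4) (nat_lit 31) (nat_lit 5) (nat_lit 31) (nat_lit 4) (nat_lit 381) (nat_lit 340) (nat_lit 299))) (XT.nd (nat_lit 78) (nat_lit 76) (nat_lit 0) (XT.lf (nat_lit 0) (nat_lit 9840694772) (nat_lit 152) (nat_lit 3801140291) (nat_lit 76) (nat_lit 17620302228) (nat_lit 29) (nat_lit 5) (nat_lit 31) (nat_lit 5) (nat_lit 30) (nat_lit 4) (nat_lit 382) (nat_lit 340) (nat_lit 298)) (XT.lf (nat_lit 0) (nat_lit 21962137199) (nat_lit 76) (nat_lit 481601956) (nat_lit 152) (nat_lit 10632032519) (nat_lit 28) (nat_lit 5) (nat_lit 29) (nat_lit 5) (nat_lit 30) (nat_lit 4) (nat_lit 383) (nat_lit 340) (nat_lit 297))))))))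
noncomputable def xc47 : XT := (XT.nd (nat_lit 2028) (nat_lit 304) (nat_lit 0) (XT.nd (nat_lit 1014) (nat_lit 608) (nat_lit 0) (XT.nd (nat_lit 468) (nat_lit 532) (nat_lit 0) (XT.nd (nat_lit 234) (nat_lit 228) (nat_lit 0) (XT.nd (nat_lit 78) (nat_lit 76) (nat_lit 0) (XT.lf (nat_lit 0) (nat_lit 1437965898) (nat_lit 152) (nat_lit 20018919301) (nat_lit 76) (nat_lit 13554317284) (nat_lit 26) (nat_lit 5) (nat_lit 28) (nat_lit 5) (nat_lit 27) (nat_lit 4) (nat_lit 384) (nat_lit 340) (nat_lit 296)) (XT.nd (nat_lit 78) (nat_lit 0) (nat_lit 0) (XT.lf (nat_lit 0) (nat_lit 6369194863) (nat_lit 76) (nat_lit 7970083141) (nat_lit 152) (nat_lit 22741571300) (nat_lit 25) (nat_lit 5) (nat_lit 26) (nat_lit 5) (nat_lit 27) (nat_lit 4) (nat_lit 385) (nat_lit 340) (nat_lit 295)) (XT.lf (nat_lit 0) (nat_lit 28661274865) (nat_lit 152) (nat_lit 3956464632) (nat_lit 0) (nat_lit 6678905637) (nat_lit 25) (nat_lit 5)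 (nat_lit 27) (nat_lit 4) (nat_lit 25) (nat_lit 4) (nat_lit 386) (nat_lit 340) (nat_lit 294)))) (XT.nd (nat_lit 78) (nat_lit 76) (nat_lit 0) (XT.lf (nat_lit 0) (nat_lit 2837690305) (nat_lit 152) (nat_lit 16213748408) (nat_lit 76) (nat_lit 22612545333) (nat_lit 23) (nat_lit 5) (nat_lit 25) (nat_lit 5) (nat_lit 24) (nat_lit 4) (nat_lit 387) (nat_lit 340) (nat_lit 293)) (XT.nd (nat_lit 78) (nat_lit 0) (nat_lit 0) (XT.lf (nat_lit 0) (nat_lit 13258086775) (nat_lit 76) (nat_lit 3978079728) (nat_lit 152) (nat_lit 26964822039) (nat_lit 22) (nat_lit 5) (nat_lit 23) (nat_lit 5) (nat_lit 24) (nat_lit 4) (nat_lit 388) (nat_lit 340) (nat_lit 292)) (XT.lf (nat_lit 0) (nat_lit 33205735411) (nat_lit 152) (nat_lit 1573059151) (nat_lit 0) (nat_lit 12141202830) (nat_lit 22) (nat_lit 5) (nat_lit 24) (nat_lit 4) (nat_lit 22) (nat_lit 4) (nat_lit 389) (nat_lit 340) (nat_lit 291))))) (XT.nd (nat_lit 234) (nat_lit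 304) (nat_lit 0) (XT.nd (nat_lit 78) (nat_lit 76) (nat_lit 0) (XT.lf (nat_lit 0) (nat_lit 1080392818) (nat_lit 152) (nat_lit 18886503891) (nat_lit 76) (nat_lit 29864012048) (nat_lit 20) (nat_lit 5) (nat_lit 22) (nat_lit 5) (nat_lit 21) (nat_lit 4) (nat_lit 390) (nat_lit 340) (nat_lit 290)) (XT.nd (nat_lit 78) (nat_lit 0) (nat_lit 0) (XT.lf (nat_lit 0) (nat_lit 13233267648) (nat_lit 76) (nat_lit 3531917334) (nat_lit 152) (nat_lit 36188918413) (nat_lit 19) (nat_lit 5) (nat_lit 20) (nat_lit 5) (nat_lit 21) (nat_lit 4) (nat_lit 391) (nat_lit 340) (nat_lit 289)) (XT.lf (nat_lit 0) (nat_lit 34208951659) (nat_lit 152) (nat_lit 8042988650) (nat_lit 0) (nat_lit 14050007312) (nat_lit 19) (nat_lit 5) (nat_lit 21) (nat_lit 4) (nat_lit 19) (nat_lit 4) (nat_lit 392) (nat_lit 340) (nat_lit 288)))) (XT.nd (nat_lit 156) (nat_lit 76) (nat_lit 0) (XT.nd (nat_lit 78) (nat_lit 152) (nat_lit 0) (XT.lf (nat_lit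 0) (nat_lit 26875299317) (nat_lit 76) (nat_lit 26603764864) (nat_lit 76) (nat_lit 6417016286) (nat_lit 18) (nat_lit 4) (nat_lit 19) (nat_lit 5) (nat_lit 19) (nat_lit 4) (nat_lit 393) (nat_lit 340) (nat_lit 287)) (XT.lf (nat_lit 0) (nat_lit 873175912) (nat_lit 76) (nat_lit 9412516354) (nat_lit 152) (nat_lit 53478391015) (nat_lit 16) (nat_lit 5) (nat_lit 17) (nat_lit 5) (nat_lit 18) (nat_lit 4) (nat_lit 394) (nat_lit 340) (nat_lit 286))) (XT.nd (nat_lit 78) (nat_lit 76) (nat_lit 0) (XT.lf (nat_lit 0) (nat_lit 28784882501) (nat_lit 152) (nat_lit 29604945948) (nat_lit 0) (nat_lit 9512186423) (nat_lit 16) (nat_lit 5) (nat_lit 18) (nat_lit 4) (nat_lit 16) (nat_lit 4) (nat_lit 395) (nat_lit 340) (nat_lit 285)) (XT.lf (nat_lit 0) (nat_lit 6304138625) (nat_lit 76) (nat_lit 42674905006) (nat_lit 76) (nat_lit 23381188076) (nat_lit 15) (nat_lit 4) (nat_lit 16) (nat_lit 5) (nat_lit 16) (nat_lit 4) (nat_lit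 396) (nat_lit 340) (nat_lit 284)))))) (XT.nd (nat_lit 468) (nat_lit 380) (nat_lit 0) (XT.nd (nat_lit 234) (nat_lit 76) (nat_lit 0) (XT.nd (nat_lit 78) (nat_lit 152) (nat_lit 0) (XT.lf (nat_lit 0) (nat_lit 46063918654) (nat_lit 76) (nat_lit 25200298138) (nat_lit 76) (nat_lit 5887117457) (nat_lit 15) (nat_lit 4) (nat_lit 16) (nat_lit 5) (nat_lit 16) (nat_lit 4) (nat_lit 397) (nat_lit 340) (nat_lit 283)) (XT.nd (nat_lit 78) (nat_lit 0) (nat_lit 0) (XT.lf (nat_lit 0) (nat_lit 6612737099) (nat_lit 76) (nat_lit 6042843277) (nat_lit 152) (nat_lit 69656723775) (nat_lit 13) (nat_lit 5) (nat_lit 14) (nat_lit 5) (nat_lit 15) (nat_lit 4) (nat_lit 398) (nat_lit 340) (nat_lit 282)) (XT.lf (nat_lit 0) (nat_lit 33220566770) (nat_lit 152) (nat_lit 39829499680) (nat_lit 0) (nat_lit 14794005147) (nat_lit 13) (nat_lit 5) (nat_lit 15) (nat_lit 4) (nat_lit 13) (nat_lit 4) (nat_lit 399) (nat_lit 340) (nat_lit 281))))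 (XT.nd (nat_lit 78) (nat_lit 76) (nat_lit 0) (XT.lf (nat_lit 0) (nat_lit 55498652032) (nat_lit 152) (nat_lit 1258959946) (nat_lit 0) (nat_lit 37057375215) (nat_lit 13) (nat_lit 5) (nat_lit 15) (nat_lit 4) (nat_lit 13) (nat_lit 4) (nat_lit 400) (nat_lit 340) (nat_lit 280)) (XT.nd (nat_lit 78) (nat_lit 0) (nat_lit 0) (XT.lf (nat_lit 0) (nat_lit 41668620099) (nat_lit 76) (nat_lit 38509452563) (nat_lit 76) (nat_lit 20054550566) (nat_lit 12) (nat_lit 4) (nat_lit 13) (nat_lit 5) (nat_lit 13) (nat_lit 4) (nat_lit 401) (nat_lit 340) (nat_lit 279)) (XT.lf (nat_lit 0) (nat_lit 88015810364) (nat_lit 76) (nat_lit 18807893179) (nat_lit 76) (nat_lit 340375275) (nat_lit 12) (nat_lit 4) (nat_lit 13) (nat_lit 5) (nat_lit 13) (nat_lit 4) (nat_lit 402) (nat_lit 340) (nat_lit 278))))) (XT.nd (nat_lit 234) (nat_lit 228) (nat_lit 0) (XT.nd (nat_lit 78) (nat_lit 0) (nat_lit 0) (XT.lf (nat_lit 0) (nat_lit 20673223171)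 (nat_lit 152) (nat_lit 90866845632) (nat_lit 0) (nat_lit 3073985743) (nat_lit 10) (nat_lit 5) (nat_lit 12) (nat_lit 4) (nat_lit 10) (nat_lit 4) (nat_lit 403) (nat_lit 340) (nat_lit 277)) (XT.nd (nat_lit 78) (nat_lit 0) (nat_lit 0) (XT.lf (nat_lit 0) (nat_lit 43984837781) (nat_lit 152) (nat_lit 52268170813) (nat_lit 0) (nat_lit 26375299299) (nat_lit 10) (nat_lit 5) (nat_lit 12) (nat_lit 4) (nat_lit 10) (nat_lit 4) (nat_lit 404) (nat_lit 340) (nat_lit 276)) (XT.lf (nat_lit 0) (nat_lit 69135955629) (nat_lit 152) (nat_lit 10632139176) (nat_lit 0) (nat_lit 51516879133) (nat_lit 10) (nat_lit 5) (nat_lit 12) (nat_lit 4) (nat_lit 10) (nat_lit 4) (nat_lit 405) (nat_lit 340) (nat_lit 275)))) (XT.nd (nat_lit 156) (nat_lit 152) (nat_lit 0) (XT.nd (nat_lit 78) (nat_lit 0) (nat_lit 0) (XT.lf (nat_lit 0) (nat_lit 35421696826) (nat_lit 76) (nat_lit 61406955505) (nat_lit 76) (nat_lit 43779047516) (nat_lit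 9) (nat_lit 4) (nat_lit 10) (nat_lit 5) (nat_lit 10) (nat_lit 4) (nat_lit 406) (nat_lit 340) (nat_lit 274)) (XT.lf (nat_lit 0) (nat_lit 85494749891) (nat_lit 76) (nat_lit 41404722416) (nat_lit 76) (nat_lit 23768637118) (nat_lit 9) (nat_lit 4) (nat_lit 10) (nat_lit 5) (nat_lit 10) (nat_lit 4) (nat_lit 407) (nat_lit 340) (nat_lit 273))) (XT.nd (nat_lit 78) (nat_lit 152) (nat_lit 0) (XT.lf (nat_lit 0) (nat_lit 139532202684) (nat_lit 76) (nat_lit 19822924207) (nat_lit 76) (nat_lit 2179267327) (nat_lit 9) (nat_lit 4) (nat_lit 10) (nat_lit 5) (nat_lit 10) (nat_lit 4) (nat_lit 408) (nat_lit 340) (nat_lit 272)) (XT.lf (nat_lit 0) (nat_lit 20898247576) (nat_lit 152) (nat_lit 148245270495) (nat_lit 0) (nat_lit 4088087953) (nat_lit 7) (nat_lit 5) (nat_lit 9) (nat_lit 4) (nat_lit 7) (nat_lit 4) (nat_lit 409) (nat_lit 340) (nat_lit 271))))))) (XT.nd (nat_lit 1014) (nat_lit 76) (nat_lit 0) (XT.nd (nat_lit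 468) (nat_lit 152) (nat_lit 0) (XT.nd (nat_lit 234) (nat_lit 76) (nat_lit 0) (XT.nd (nat_lit 78) (nat_lit 0) (nat_lit 0) (XT.lf (nat_lit 0) (nat_lit 46451405404) (nat_lit 152) (nat_lit 109741050705) (nat_lit 0) (nat_lit 29635063484) (nat_lit 7) (nat_lit 5) (nat_lit 9) (nat_lit 4) (nat_lit 7) (nat_lit 4) (nat_lit 410) (nat_lit 340) (nat_lit 270)) (XT.nd (nat_lit 78) (nat_lit 0) (nat_lit 0) (XT.lf (nat_lit 0) (nat_lit 74031199374) (nat_lit 152) (nat_lit 68191655272) (nat_lit 0) (nat_lit 57209133105) (nat_lit 7) (nat_lit 5) (nat_lit 9) (nat_lit 4) (nat_lit 7) (nat_lit 4) (nat_lit 411) (nat_lit 340) (nat_lit 269)) (XT.lf (nat_lit 0) (nat_lit 103801065304) (nat_lit 152) (nat_lit 23350865556) (nat_lit 0) (nat_lit 86973698712) (nat_lit 7) (nat_lit 5) (nat_lit 9) (nat_lit 4) (nat_lit 7) (nat_lit 4) (nat_lit 412) (nat_lit 340) (nat_lit 268)))) (XT.nd (nat_lit 78) (nat_lit 0) (nat_lit 0) (XT.lf (nat_lit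 0) (nat_lit 25875209952) (nat_lit 76) (nat_lit 110466191802) (nat_lit 76) (nat_lit 93633917504) (nat_lit 6) (nat_lit 4) (nat_lit 7) (nat_lit 5) (nat_lit 7) (nat_lit 4) (nat_lit 413) (nat_lit 340) (nat_lit 267)) (XT.nd (nat_lit 78) (nat_lit 0) (nat_lit 0) (XT.lf (nat_lit 0) (nat_lit 79844387777) (nat_lit 76) (nat_lit 92032899621) (nat_lit 76) (nat_lit 75196081150) (nat_lit 6) (nat_lit 4) (nat_lit 7) (nat_lit 5) (nat_lit 7) (nat_lit 4) (nat_lit 414) (nat_lit 340) (nat_lit 266)) (XT.lf (nat_lit 0) (nat_lit 138104400197) (nat_lit 76) (nat_lit 72138278198) (nat_lit 76) (nat_lit 55297252160) (nat_lit 6) (nat_lit 4) (nat_lit 7) (nat_lit 5) (nat_lit 7) (nat_lit 4) (nat_lit 415) (nat_lit 340) (nat_lit 265))))) (XT.nd (nat_lit 234) (nat_lit 0) (nat_lit 0) (XT.nd (nat_lit 78) (nat_lit 152) (nat_lit 0) (XT.lf (nat_lit 0) (nat_lit 201000491731) (nat_lit 76) (nat_lit 50664433481) (nat_lit 76) (nat_lit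 33819511548) (nat_lit 6) (nat_lit 4) (nat_lit 7) (nat_lit 5) (nat_lit 7) (nat_lit 4) (nat_lit 416) (nat_lit 340) (nat_lit 264)) (XT.nd (nat_lit 78) (nat_lit 152) (nat_lit 0) (XT.lf (nat_lit 0) (nat_lit 268905379957) (nat_lit 76) (nat_lit 27484113058) (nat_lit 76) (nat_lit 10635583814) (nat_lit 6) (nat_lit 4) (nat_lit 7) (nat_lit 5) (nat_lit 7) (nat_lit 4) (nat_lit 417) (nat_lit 340) (nat_lit 263)) (XT.lf (nat_lit 0) (nat_lit 12094362173) (nat_lit 76) (nat_lit 2025750763) (nat_lit 152) (nat_lit 316148709810) (nat_lit 4) (nat_lit 5) (nat_lit 5) (nat_lit 5) (nat_lit 6) (nat_lit 4) (nat_lit 418) (nat_lit 340) (nat_lit 262)))) (XT.nd (nat_lit 156) (nat_lit 0) (nat_lit 0) (XT.nd (nat_lit 78) (nat_lit 0) (nat_lit 0) (XT.lf (nat_lit 0) (nat_lit 41550712624) (nat_lit 152) (nat_lit 288260917228) (nat_lit 0) (nat_lit 25498367830) (nat_lit 4) (nat_lit 5) (nat_lit 6) (nat_lit 4) (nat_lit 4) (nat_lit 4)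 (nat_lit 419) (nat_lit 340) (nat_lit 261)) (XT.lf (nat_lit 0) (nat_lit 71200225325) (nat_lit 152) (nat_lit 256007865069) (nat_lit 0) (nat_lit 55145153293) (nat_lit 4) (nat_lit 5) (nat_lit 6) (nat_lit 4) (nat_lit 4) (nat_lit 4) (nat_lit 420) (nat_lit 340) (nat_lit 260))) (XT.nd (nat_lit 78) (nat_lit 0) (nat_lit 0) (XT.lf (nat_lit 0) (nat_lit 103212724207) (nat_lit 152) (nat_lit 221192547251) (nat_lit 0) (nat_lit 87155126955) (nat_lit 4) (nat_lit 5) (nat_lit 6) (nat_lit 4) (nat_lit 4) (nat_lit 4) (nat_lit 421) (nat_lit 340) (nat_lit 259)) (XT.lf (nat_lit 0) (nat_lit 137777912969) (nat_lit 152) (nat_lit 183608650779) (nat_lit 0) (nat_lit 121717977550) (nat_lit 4) (nat_lit 5) (nat_lit 6) (nat_lit 4) (nat_lit 4) (nat_lit 4) (nat_lit 422) (nat_lit 340) (nat_lit 258)))))) (XT.nd (nat_lit 546) (nat_lit 0) (nat_lit 0) (XT.nd (nat_lit 234) (nat_lit 76) (nat_lit 0) (XT.nd (nat_lit 78) (nat_lit 0) (nat_lit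 0) (XT.lf (nat_lit 0) (nat_lit 175100622358) (nat_lit 152) (nat_lit 143033456267) (nat_lit 0) (nat_lit 159038521970) (nat_lit 4) (nat_lit 5) (nat_lit 6) (nat_lit 4) (nat_lit 4) (nat_lit 4) (nat_lit 423) (nat_lit 340) (nat_lit 257)) (XT.nd (nat_lit 78) (nat_lit 0) (nat_lit 0) (XT.lf (nat_lit 0) (nat_lit 215402023985) (nat_lit 152) (nat_lit 99226518119) (nat_lit 0) (nat_lit 199337918996) (nat_lit 4) (nat_lit 5) (nat_lit 6) (nat_lit 4) (nat_lit 4) (nat_lit 4) (nat_lit 424) (nat_lit 340) (nat_lit 256)) (XT.lf (nat_lit 0) (nat_lit 258920940971) (nat_lit 152) (nat_lit 51928239663) (nat_lit 0) (nat_lit 242854979870) (nat_lit 4) (nat_lit 5) (nat_lit 6) (nat_lit 4) (nat_lit 4) (nat_lit 4) (nat_lit 425) (nat_lit 340) (nat_lit 255)))) (XT.nd (nat_lit 156) (nat_lit 0) (nat_lit 0) (XT.nd (nat_lit 78) (nat_lit 76) (nat_lit 0) (XT.lf (nat_lit 0) (nat_lit 305915263195) (nat_lit 152) (nat_lit 858334805) (nat_lit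 0) (nat_lit 289847583471) (nat_lit 4) (nat_lit 5) (nat_lit 6) (nat_lit 4) (nat_lit 4) (nat_lit 4) (nat_lit 426) (nat_lit 340) (nat_lit 254)) (XT.lf (nat_lit 0) (nat_lit 56080767725) (nat_lit 76) (nat_lit 301458285753) (nat_lit 76) (nat_lit 285389014713) (nat_lit 3) (nat_lit 4) (nat_lit 4) (nat_lit 5) (nat_lit 4) (nat_lit 4) (nat_lit 427) (nat_lit 340) (nat_lit 253))) (XT.nd (nat_lit 78) (nat_lit 0) (nat_lit 0) (XT.lf (nat_lit 0) (nat_lit 117594812171) (nat_lit 76) (nat_lit 295707480525) (nat_lit 76) (nat_lit 279636736042) (nat_lit 3) (nat_lit 4) (nat_lit 4) (nat_lit 5) (nat_lit 4) (nat_lit 4) (nat_lit 428) (nat_lit 340) (nat_lit 252)) (XT.lf (nat_lit 0) (nat_lit 184019945779) (nat_lit 76) (nat_lit 289501639784) (nat_lit 76) (nat_lit 273429531004) (nat_lit 3) (nat_lit 4) (nat_lit 4) (nat_lit 5) (nat_lit 4) (nat_lit 4) (nat_lit 429) (nat_lit 340) (nat_lit 251))))) (XT.nd (nat_lit 234) (nat_lit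 0) (nat_lit 0) (XT.nd (nat_lit 78) (nat_lit 0) (nat_lit 0) (XT.lf (nat_lit 0) (nat_lit 255749798968) (nat_lit 76) (nat_lit 282803988178) (nat_lit 76) (nat_lit 266730616160) (nat_lit 3) (nat_lit 4) (nat_lit 4) (nat_lit 5) (nat_lit 4) (nat_lit 4) (nat_lit 430) (nat_lit 340) (nat_lit 250)) (XT.nd (nat_lit 78) (nat_lit 0) (nat_lit 0) (XT.lf (nat_lit 0) (nat_lit 333209437536) (nat_lit 76) (nat_lit 275574835921) (nat_lit 76) (nat_lit 259500294237) (nat_lit 3) (nat_lit 4) (nat_lit 4) (nat_lit 5) (nat_lit 4) (nat_lit 4) (nat_lit 431) (nat_lit 340) (nat_lit 249)) (XT.lf (nat_lit 0) (nat_lit 416857881564) (nat_lit 76) (nat_lit 267771343591) (nat_lit 76) (nat_lit 251695718884) (nat_lit 3) (nat_lit 4) (nat_lit 4) (nat_lit 5) (nat_lit 4) (nat_lit 4) (nat_lit 432) (nat_lit 340) (nat_lit 248)))) (XT.nd (nat_lit 156) (nat_lit 0) (nat_lit 0) (XT.nd (nat_lit 78) (nat_lit 0) (nat_lit 0) (XT.lf (nat_lit 0) (nat_lit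 507190825533) (nat_lit 76) (nat_lit 259347268271) (nat_lit 76) (nat_lit 243270640764) (nat_lit 3) (nat_lit 4) (nat_lit 4) (nat_lit 5) (nat_lit 4) (nat_lit 4) (nat_lit 433) (nat_lit 340) (nat_lit 247)) (XT.lf (nat_lit 0) (nat_lit 604743575780) (nat_lit 76) (nat_lit 250252689515) (nat_lit 76) (nat_lit 234175133489) (nat_lit 3) (nat_lit 4) (nat_lit 4) (nat_lit 5) (nat_lit 4) (nat_lit 4) (nat_lit 434) (nat_lit 340) (nat_lit 246))) (XT.nd (nat_lit 78) (nat_lit 0) (nat_lit 0) (XT.lf (nat_lit 0) (nat_lit 710094222675) (nat_lit 76) (nat_lit 240433713522) (nat_lit 76) (nat_lit 224355297757) (nat_lit 3) (nat_lit 4) (nat_lit 4) (nat_lit 5) (nat_lit 4) (nat_lit 4) (nat_lit 435) (nat_lit 340) (nat_lit 245)) (XT.lf (nat_lit 0) (nat_lit 823867066349) (nat_lit 76) (nat_lit 229832153768) (nat_lit 76) (nat_lit 213752941949) (nat_lit 3) (nat_lit 4) (nat_lit 4) (nat_lit 5) (nat_lit 4) (nat_lit 4) (nat_lit 436)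 (nat_lit 340) (nat_lit 244))))))))
noncomputable def xc48 : XT := (XT.nd (nat_lit 47580) (nat_lit 0) (nat_lit 1292) (XT.nd (nat_lit 46566) (nat_lit 0) (nat_lit 4484) (XT.nd (nat_lit 46020) (nat_lit 0) (nat_lit 8512) (XT.nd (nat_lit 45786) (nat_lit 0) (nat_lit 12236) (XT.nd (nat_lit 45630) (nat_lit 0) (nat_lit 12768) (XT.lf (nat_lit 0) (nat_lit 946736316246) (nat_lit 76) (nat_lit 218385186195) (nat_lit 76) (nat_lit 202305237288) (nat_lit 3) (nat_lit 4) (nat_lit 4) (nat_lit 5) (nat_lit 4) (nat_lit 4) (nat_lit 437) (nat_lit 340) (nat_lit 243)) (XT.nd (nat_lit 78) (nat_lit 228) (nat_lit 0) (XT.lf (nat_lit 0) (nat_lit 1471964252) (nat_lit 228) (nat_lit 881458204) (nat_lit 228) (nat_lit 881458204) (nat_lit 174) (nat_lit 3) (nat_lit 177) (nat_lit 3) (nat_lit 177) (nat_lit 5) (nat_lit 341) (nat_lit 341) (nat_lit 338)) (XT.lf (nat_lit 0) (nat_lit 829096934) (nat_lit 228) (nat_lit 3153118130) (nat_lit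 304) (nat_lit 2526268728) (nat_lit 171) (nat_lit 5) (nat_lit 174) (nat_lit 3) (nat_lit 175) (nat_lit 5) (nat_lit 342) (nat_lit 341) (nat_lit 337)))) (XT.nd (nat_lit 78) (nat_lit 532) (nat_lit 0) (XT.lf (nat_lit 76) (nat_lit 2160763374) (nat_lit 0) (nat_lit 2878343561) (nat_lit 304) (nat_lit 1527196645) (nat_lit 172) (nat_lit 5) (nat_lit 171) (nat_lit 5) (nat_lit 175) (nat_lit 5) (nat_lit 343) (nat_lit 341) (nat_lit 336)) (XT.nd (nat_lit 78) (nat_lit 228) (nat_lit 0) (XT.lf (nat_lit 76) (nat_lit 1126203048) (nat_lit 0) (nat_lit 1394953472) (nat_lit 380) (nat_lit 4122705111) (nat_lit 168) (nat_lit 5) (nat_lit 167) (nat_lit 5) (nat_lit 172) (nat_lit 5) (nat_lit 344) (nat_lit 341) (nat_lit 335)) (XT.lf (nat_lit 0) (nat_lit 251480581) (nat_lit 304) (nat_lit 6288830642) (nat_lit 380) (nat_lit 201366160) (nat_lit 164) (nat_lit 5) (nat_lit 168) (nat_lit 5) (nat_lit 169) (nat_lit 5) (nat_lit 345)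 (nat_lit 341) (nat_lit 334))))) (XT.nd (nat_lit 234) (nat_lit 2736) (nat_lit 0) (XT.nd (nat_lit 78) (nat_lit 912) (nat_lit 0) (XT.lf (nat_lit 0) (nat_lit 3658807575) (nat_lit 380) (nat_lit 512854514) (nat_lit 76) (nat_lit 2685084109) (nat_lit 163) (nat_lit 5) (nat_lit 168) (nat_lit 5) (nat_lit 164) (nat_lit 5) (nat_lit 346) (nat_lit 341) (nat_lit 333)) (XT.nd (nat_lit 78) (nat_lit 456) (nat_lit 0) (XT.lf (nat_lit 0) (nat_lit 560870255) (nat_lit 456) (nat_lit 1116989993) (nat_lit 76) (nat_lit 5315200348) (nat_lit 157) (nat_lit 5) (nat_lit 163) (nat_lit 5) (nat_lit 158) (nat_lit 5) (nat_lit 347) (nat_lit 341) (nat_lit 332)) (XT.lf (nat_lit 0) (nat_lit 4301214110) (nat_lit 532) (nat_lit 1633622575) (nat_lit 76) (nat_lit 1213413982) (nat_lit 151) (nat_lit 5) (nat_lit 158) (nat_lit 5) (nat_lit 152) (nat_lit 5) (nat_lit 348) (nat_lit 341) (nat_lit 331)))) (XT.nd (nat_lit 156) (nat_lit 1520) (nat_lit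 0) (XT.nd (nat_lit 78) (nat_lit 608) (nat_lit 0) (XT.lf (nat_lit 0) (nat_lit 817599667) (nat_lit 608) (nat_lit 2043684552) (nat_lit 76) (nat_lit 4462705411) (nat_lit 143) (nat_lit 5) (nat_lit 151) (nat_lit 5) (nat_lit 144) (nat_lit 5) (nat_lit 349) (nat_lit 341) (nat_lit 330)) (XT.lf (nat_lit 0) (nat_lit 4508502063) (nat_lit 684) (nat_lit 2368208187) (nat_lit 76) (nat_lit 643293876) (nat_lit 135) (nat_lit 5) (nat_lit 144) (nat_lit 5) (nat_lit 136) (nat_lit 5) (nat_lit 350) (nat_lit 341) (nat_lit 329))) (XT.nd (nat_lit 78) (nat_lit 760) (nat_lit 0) (XT.lf (nat_lit 0) (nat_lit 630988320) (nat_lit 760) (nat_lit 2616875316) (nat_lit 76) (nat_lit 4488788387) (nat_lit 125) (nat_lit 5) (nat_lit 135) (nat_lit 5) (nat_lit 126) (nat_lit 5) (nat_lit 351) (nat_lit 341) (nat_lit 328)) (XT.lf (nat_lit 0) (nat_lit 4338948336) (nat_lit 836) (nat_lit 2799758507) (nat_lit 76) (nat_lit 835634404) (nat_lit 115)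 (nat_lit 5) (nat_lit 126) (nat_lit 5) (nat_lit 116) (nat_lit 5) (nat_lit 352) (nat_lit 341) (nat_lit 327)))))) (XT.nd (nat_lit 468) (nat_lit 1824) (nat_lit 0) (XT.nd (nat_lit 234) (nat_lit 988) (nat_lit 0) (XT.nd (nat_lit 78) (nat_lit 760) (nat_lit 0) (XT.lf (nat_lit 0) (nat_lit 49174395) (nat_lit 456) (nat_lit 2916400681) (nat_lit 76) (nat_lit 5268507273) (nat_lit 109) (nat_lit 5) (nat_lit 115) (nat_lit 5) (nat_lit 110) (nat_lit 5) (nat_lit 353) (nat_lit 341) (nat_lit 326)) (XT.nd (nat_lit 78) (nat_lit 380) (nat_lit 0) (XT.lf (nat_lit 0) (nat_lit 3833596527) (nat_lit 456) (nat_lit 3003167476) (nat_lit 76) (nat_lit 1678364203) (nat_lit 104) (nat_lit 5) (nat_lit 110) (nat_lit 5) (nat_lit 105) (nat_lit 5) (nat_lit 354) (nat_lit 341) (nat_lit 325)) (XT.lf (nat_lit 0) (nat_lit 5789870984) (nat_lit 380) (nat_lit 2103797770) (nat_lit 456) (nat_lit 926462765) (nat_lit 99) (nat_lit 5) (nat_lit 104)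 (nat_lit 5) (nat_lit 105) (nat_lit 5) (nat_lit 355) (nat_lit 341) (nat_lit 324)))) (XT.nd (nat_lit 78) (nat_lit 608) (nat_lit 0) (XT.lf (nat_lit 0) (nat_lit 3017650570) (nat_lit 380) (nat_lit 3049642008) (nat_lit 76) (nat_lit 3080465134) (nat_lit 94) (nat_lit 5) (nat_lit 99) (nat_lit 5) (nat_lit 95) (nat_lit 5) (nat_lit 356) (nat_lit 341) (nat_lit 323)) (XT.nd (nat_lit 78) (nat_lit 304) (nat_lit 0) (XT.lf (nat_lit 0) (nat_lit 6479018495) (nat_lit 304) (nat_lit 757820077) (nat_lit 380) (nat_lit 2264492659) (nat_lit 90) (nat_lit 5) (nat_lit 94) (nat_lit 5) (nat_lit 95) (nat_lit 5) (nat_lit 357) (nat_lit 341) (nat_lit 322)) (XT.lf (nat_lit 0) (nat_lit 1901093881) (nat_lit 304) (nat_lit 3011423791) (nat_lit 76) (nat_lit 4966673708) (nat_lit 86) (nat_lit 5) (nat_lit 90) (nat_lit 5) (nat_lit 87) (nat_lit 5) (nat_lit 358) (nat_lit 341) (nat_lit 321))))) (XT.nd (nat_lit 234) (nat_lit 988) (nat_lit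 0) (XT.nd (nat_lit 78) (nat_lit 532) (nat_lit 0) (XT.lf (nat_lit 0) (nat_lit 6336826171) (nat_lit 380) (nat_lit 2982549244) (nat_lit 76) (nat_lit 965316077) (nat_lit 82) (nat_lit 5) (nat_lit 87) (nat_lit 5) (nat_lit 83) (nat_lit 5) (nat_lit 359) (nat_lit 341) (nat_lit 320)) (XT.nd (nat_lit 78) (nat_lit 228) (nat_lit 0) (XT.lf (nat_lit 0) (nat_lit 478525268) (nat_lit 304) (nat_lit 2966939882) (nat_lit 76) (nat_lit 7272585424) (nat_lit 78) (nat_lit 5) (nat_lit 82) (nat_lit 5) (nat_lit 79) (nat_lit 5) (nat_lit 360) (nat_lit 341) (nat_lit 319)) (XT.lf (nat_lit 0) (nat_lit 5186821006) (nat_lit 304) (nat_lit 2996879396) (nat_lit 76) (nat_lit 2995901197) (nat_lit 75) (nat_lit 5) (nat_lit 79) (nat_lit 5) (nat_lit 76) (nat_lit 5) (nat_lit 361) (nat_lit 341) (nat_lit 318)))) (XT.nd (nat_lit 156) (nat_lit 456) (nat_lit 0) (XT.nd (nat_lit 78) (nat_lit 304) (nat_lit 0) (XT.lf (nat_lit 0) (nat_lit 8646526295)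 (nat_lit 228) (nat_lit 1713315359) (nat_lit 304) (nat_lit 1313891769) (nat_lit 72) (nat_lit 5) (nat_lit 75) (nat_lit 5) (nat_lit 76) (nat_lit 5) (nat_lit 362) (nat_lit 341) (nat_lit 317)) (XT.lf (nat_lit 0) (nat_lit 3748981155) (nat_lit 304) (nat_lit 3152304885) (nat_lit 76) (nat_lit 5296775706) (nat_lit 68) (nat_lit 5) (nat_lit 72) (nat_lit 5) (nat_lit 69) (nat_lit 5) (nat_lit 363) (nat_lit 341) (nat_lit 316))) (XT.nd (nat_lit 78) (nat_lit 304) (nat_lit 0) (XT.lf (nat_lit 0) (nat_lit 9260058768) (nat_lit 228) (nat_lit 3298178662) (nat_lit 76) (nat_lit 200610396) (nat_lit 66) (nat_lit 5) (nat_lit 69) (nat_lit 5) (nat_lit 67) (nat_lit 5) (nat_lit 364) (nat_lit 341) (nat_lit 315)) (XT.lf (nat_lit 0) (nat_lit 1978330879) (nat_lit 304) (nat_lit 3570927005) (nat_lit 76) (nat_lit 7804342827) (nat_lit 62) (nat_lit 5) (nat_lit 66) (nat_lit 5) (nat_lit 63) (nat_lit 5) (nat_lit 365) (nat_lit 341) (nat_lit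 314))))))) (XT.nd (nat_lit 1014) (nat_lit 1216) (nat_lit 0) (XT.nd (nat_lit 468) (nat_lit 912) (nat_lit 0) (XT.nd (nat_lit 234) (nat_lit 532) (nat_lit 0) (XT.nd (nat_lit 78) (nat_lit 380) (nat_lit 0) (XT.lf (nat_lit 0) (nat_lit 7889793116) (nat_lit 228) (nat_lit 3935499857) (nat_lit 76) (nat_lit 2161875188) (nat_lit 60) (nat_lit 5) (nat_lit 63) (nat_lit 5) (nat_lit 61) (nat_lit 5) (nat_lit 366) (nat_lit 341) (nat_lit 313)) (XT.nd (nat_lit 78) (nat_lit 228) (nat_lit 0) (XT.lf (nat_lit 0) (nat_lit 10251276519) (nat_lit 152) (nat_lit 4211713209) (nat_lit 228) (nat_lit 199027313) (nat_lit 58) (nat_lit 5) (nat_lit 60) (nat_lit 5) (nat_lit 61) (nat_lit 5) (nat_lit 367) (nat_lit 341) (nat_lit 312)) (XT.lf (nat_lit 0) (nat_lit 6148242599) (nat_lit 228) (nat_lit 5087977015) (nat_lit 76) (nat_lit 4141120736) (nat_lit 55) (nat_lit 5) (nat_lit 58) (nat_lit 5) (nat_lit 56) (nat_lit 5) (nat_lit 368) (nat_lit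 341) (nat_lit 311)))) (XT.nd (nat_lit 78) (nat_lit 380) (nat_lit 0) (XT.lf (nat_lit 0) (nat_lit 10232068367) (nat_lit 152) (nat_lit 2954564376) (nat_lit 228) (nat_lit 2953608197) (nat_lit 53) (nat_lit 5) (nat_lit 55) (nat_lit 5) (nat_lit 56) (nat_lit 5) (nat_lit 369) (nat_lit 341) (nat_lit 310)) (XT.nd (nat_lit 78) (nat_lit 152) (nat_lit 0) (XT.lf (nat_lit 0) (nat_lit 3931487889) (nat_lit 228) (nat_lit 6983141594) (nat_lit 76) (nat_lit 6035087725) (nat_lit 50) (nat_lit 5) (nat_lit 53) (nat_lit 5) (nat_lit 51) (nat_lit 5) (nat_lit 370) (nat_lit 341) (nat_lit 309)) (XT.lf (nat_lit 0) (nat_lit 9518870894) (nat_lit 152) (nat_lit 1939257728) (nat_lit 228) (nat_lit 6353715717) (nat_lit 48) (nat_lit 5) (nat_lit 50) (nat_lit 5) (nat_lit 51) (nat_lit 5) (nat_lit 371) (nat_lit 341) (nat_lit 308))))) (XT.nd (nat_lit 234) (nat_lit 532) (nat_lit 0) (XT.nd (nat_lit 78) (nat_lit 228) (nat_lit 0) (XT.lf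 (nat_lit 0) (nat_lit 1097987139) (nat_lit 152) (nat_lit 9917651762) (nat_lit 76) (nat_lit 7712613601) (nat_lit 46) (nat_lit 5) (nat_lit 48) (nat_lit 5) (nat_lit 47) (nat_lit 5) (nat_lit 372) (nat_lit 341) (nat_lit 307)) (XT.nd (nat_lit 78) (nat_lit 76) (nat_lit 0) (XT.lf (nat_lit 0) (nat_lit 7795856253) (nat_lit 152) (nat_lit 1328996633) (nat_lit 228) (nat_lit 10577851063) (nat_lit 44) (nat_lit 5) (nat_lit 46) (nat_lit 5) (nat_lit 47) (nat_lit 5) (nat_lit 373) (nat_lit 341) (nat_lit 306)) (XT.lf (nat_lit 0) (nat_lit 6418891577) (nat_lit 76) (nat_lit 11694550700) (nat_lit 152) (nat_lit 2625709116) (nat_lit 43) (nat_lit 5) (nat_lit 44) (nat_lit 5) (nat_lit 45) (nat_lit 4) (nat_lit 374) (nat_lit 341) (nat_lit 305)))) (XT.nd (nat_lit 156) (nat_lit 228) (nat_lit 0) (XT.nd (nat_lit 78) (nat_lit 76) (nat_lit 0) (XT.lf (nat_lit 0) (nat_lit 4646731063) (nat_lit 152) (nat_lit 1335124201) (nat_lit 228)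 (nat_lit 15861516541) (nat_lit 40) (nat_lit 5) (nat_lit 42) (nat_lit 5) (nat_lit 43) (nat_lit 5) (nat_lit 375) (nat_lit 341) (nat_lit 304)) (XT.lf (nat_lit 0) (nat_lit 2324345350) (nat_lit 76) (nat_lit 13214311418) (nat_lit 152) (nat_lit 7477504847) (nat_lit 39) (nat_lit 5) (nat_lit 40) (nat_lit 5) (nat_lit 41) (nat_lit 4) (nat_lit 376) (nat_lit 341) (nat_lit 303))) (XT.nd (nat_lit 78) (nat_lit 152) (nat_lit 0) (XT.lf (nat_lit 0) (nat_lit 1764344123) (nat_lit 152) (nat_lit 461312644) (nat_lit 76) (nat_lit 22044020116) (nat_lit 38) (nat_lit 5) (nat_lit 40) (nat_lit 5) (nat_lit 39) (nat_lit 5) (nat_lit 377) (nat_lit 341) (nat_lit 302)) (XT.lf (nat_lit 0) (nat_lit 11901939908) (nat_lit 228) (nat_lit 3952375309) (nat_lit 76) (nat_lit 9742122739) (nat_lit 36) (nat_lit 5) (nat_lit 39) (nat_lit 5) (nat_lit 37) (nat_lit 4) (nat_lit 378) (nat_lit 341) (nat_lit 301)))))) (XT.nd (nat_lit 468) (nat_lit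 608) (nat_lit 0) (XT.nd (nat_lit 234) (nat_lit 228) (nat_lit 0) (XT.nd (nat_lit 78) (nat_lit 304) (nat_lit 0) (XT.lf (nat_lit 0) (nat_lit 18926592098) (nat_lit 76) (nat_lit 4185250971) (nat_lit 152) (nat_lit 3904443346) (nat_lit 35) (nat_lit 5) (nat_lit 36) (nat_lit 5) (nat_lit 37) (nat_lit 4) (nat_lit 379) (nat_lit 341) (nat_lit 300)) (XT.nd (nat_lit 78) (nat_lit 76) (nat_lit 0) (XT.lf (nat_lit 0) (nat_lit 6826779503) (nat_lit 228) (nat_lit 13192258245) (nat_lit 76) (nat_lit 8506918805) (nat_lit 32) (nat_lit 5) (nat_lit 35) (nat_lit 5) (nat_lit 33) (nat_lit 4) (nat_lit 380) (nat_lit 341) (nat_lit 299)) (XT.lf (nat_lit 0) (nat_lit 10839087230) (nat_lit 76) (nat_lit 7750661092) (nat_lit 152) (nat_lit 11547958952) (nat_lit 31) (nat_lit 5) (nat_lit 32) (nat_lit 5) (nat_lit 33) (nat_lit 4) (nat_lit 381) (nat_lit 341) (nat_lit 298)))) (XT.nd (nat_lit 78) (nat_lit 152) (nat_lit 0) (XT.lf (nat_lit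 0) (nat_lit 5342345869) (nat_lit 76) (nat_lit 26281914691) (nat_lit 76) (nat_lit 237620879) (nat_lit 30) (nat_lit 4) (nat_lit 31) (nat_lit 5) (nat_lit 31) (nat_lit 4) (nat_lit 382) (nat_lit 341) (nat_lit 297)) (XT.nd (nat_lit 78) (nat_lit 76) (nat_lit 0) (XT.lf (nat_lit 0) (nat_lit 11996415690) (nat_lit 152) (nat_lit 1519200437) (nat_lit 76) (nat_lit 20178919529) (nat_lit 29) (nat_lit 5) (nat_lit 31) (nat_lit 5) (nat_lit 30) (nat_lit 4) (nat_lit 383) (nat_lit 341) (nat_lit 296)) (XT.lf (nat_lit 0) (nat_lit 25555070286) (nat_lit 152) (nat_lit 9473769653) (nat_lit 0) (nat_lit 627063581) (nat_lit 28) (nat_lit 5) (nat_lit 30) (nat_lit 4) (nat_lit 28) (nat_lit 4) (nat_lit 384) (nat_lit 341) (nat_lit 295))))) (XT.nd (nat_lit 234) (nat_lit 380) (nat_lit 0) (XT.nd (nat_lit 78) (nat_lit 76) (nat_lit 0) (XT.lf (nat_lit 0) (nat_lit 2837369701) (nat_lit 152) (nat_lit 19166561460) (nat_lit 76) (nat_lit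 15743827247) (nat_lit 26) (nat_lit 5) (nat_lit 28) (nat_lit 5) (nat_lit 27) (nat_lit 4) (nat_lit 385) (nat_lit 341) (nat_lit 294)) (XT.nd (nat_lit 78) (nat_lit 0) (nat_lit 0) (XT.lf (nat_lit 0) (nat_lit 9225959577) (nat_lit 76) (nat_lit 7486335762) (nat_lit 152) (nat_lit 23273615241) (nat_lit 25) (nat_lit 5) (nat_lit 26) (nat_lit 5) (nat_lit 27) (nat_lit 4) (nat_lit 386) (nat_lit 341) (nat_lit 293)) (XT.lf (nat_lit 0) (nat_lit 32105457015) (nat_lit 152) (nat_lit 2058974103) (nat_lit 0) (nat_lit 8218277068) (nat_lit 25) (nat_lit 5) (nat_lit 27) (nat_lit 4) (nat_lit 25) (nat_lit 4) (nat_lit 387) (nat_lit 341) (nat_lit 292)))) (XT.nd (nat_lit 156) (nat_lit 152) (nat_lit 0) (XT.nd (nat_lit 78) (nat_lit 76) (nat_lit 0) (XT.lf (nat_lit 0) (nat_lit 4181881472) (nat_lit 152) (nat_lit 15356027580) (nat_lit 76) (nat_lit 25403242725) (nat_lit 23) (nat_lit 5) (nat_lit 25) (nat_lit 5) (nat_lit 24) (nat_lit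 4) (nat_lit 388) (nat_lit 341) (nat_lit 291)) (XT.lf (nat_lit 0) (nat_lit 16379908536) (nat_lit 76) (nat_lit 3301754172) (nat_lit 152) (nat_lit 28001989406) (nat_lit 22) (nat_lit 5) (nat_lit 23) (nat_lit 5) (nat_lit 24) (nat_lit 4) (nat_lit 389) (nat_lit 341) (nat_lit 290))) (XT.nd (nat_lit 78) (nat_lit 76) (nat_lit 0) (XT.lf (nat_lit 0) (nat_lit 252762268) (nat_lit 76) (nat_lit 36615351396) (nat_lit 76) (nat_lit 13755108506) (nat_lit 21) (nat_lit 4) (nat_lit 22) (nat_lit 5) (nat_lit 22) (nat_lit 4) (nat_lit 390) (nat_lit 341) (nat_lit 289)) (XT.lf (nat_lit 0) (nat_lit 2139358780) (nat_lit 152) (nat_lit 18506087388) (nat_lit 76) (nat_lit 33123238861) (nat_lit 20) (nat_lit 5) (nat_lit 22) (nat_lit 5) (nat_lit 21) (nat_lit 4) (nat_lit 391) (nat_lit 341) (nat_lit 288))))))))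
noncomputable def xc49 : XT := (XT.nd (nat_lit 2028) (nat_lit 228) (nat_lit 0) (XT.nd (nat_lit 1014) (nat_lit 304) (nat_lit 0) (XT.nd (nat_lit 468) (nat_lit 380) (nat_lit 0) (XT.nd (nat_lit 234) (nat_lit 228) (nat_lit 0) (XT.nd (nat_lit 78) (nat_lit 76) (nat_lit 0) (XT.lf (nat_lit 0) (nat_lit 16101070682) (nat_lit 76) (nat_lit 2934069810) (nat_lit 152) (nat_lit 38108789600) (nat_lit 19) (nat_lit 5) (nat_lit 20) (nat_lit 5) (nat_lit 21) (nat_lit 4) (nat_lit 392) (nat_lit 341) (nat_lit 287)) (XT.nd (nat_lit 78) (nat_lit 76) (nat_lit 0) (XT.lf (nat_lit 0) (nat_lit 37818340234) (nat_lit 152) (nat_lit 6980966934) (nat_lit 0) (nat_lit 15963102882) (nat_lit 19) (nat_lit 5) (nat_lit 21) (nat_lit 4) (nat_lit 19) (nat_lit 4) (nat_lit 393) (nat_lit 341) (nat_lit 286)) (XT.lf (nat_lit 0) (nat_lit 30656666822) (nat_lit 76) (nat_lit 27934222377) (nat_lit 76) (nat_lit 6055147379) (nat_lit 18) (nat_lit 4)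 (nat_lit 19) (nat_lit 5) (nat_lit 19) (nat_lit 4) (nat_lit 394) (nat_lit 341) (nat_lit 285)))) (XT.nd (nat_lit 78) (nat_lit 76) (nat_lit 0) (XT.lf (nat_lit 0) (nat_lit 2530323178) (nat_lit 76) (nat_lit 9387467100) (nat_lit 152) (nat_lit 56906908740) (nat_lit 16) (nat_lit 5) (nat_lit 17) (nat_lit 5) (nat_lit 18) (nat_lit 4) (nat_lit 395) (nat_lit 341) (nat_lit 284)) (XT.nd (nat_lit 78) (nat_lit 76) (nat_lit 0) (XT.lf (nat_lit 0) (nat_lit 31848219564) (nat_lit 152) (nat_lit 30477363319) (nat_lit 0) (nat_lit 10970520676) (nat_lit 16) (nat_lit 5) (nat_lit 18) (nat_lit 4) (nat_lit 16) (nat_lit 4) (nat_lit 396) (nat_lit 341) (nat_lit 283)) (XT.lf (nat_lit 0) (nat_lit 8239434625) (nat_lit 76) (nat_lit 45384483557) (nat_lit 76) (nat_lit 24488762676) (nat_lit 15) (nat_lit 4) (nat_lit 16) (nat_lit 5) (nat_lit 16) (nat_lit 4) (nat_lit 397) (nat_lit 341) (nat_lit 282))))) (XT.nd (nat_lit 234) (nat_lit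 228) (nat_lit 0) (XT.nd (nat_lit 78) (nat_lit 152) (nat_lit 0) (XT.lf (nat_lit 0) (nat_lit 51073999656) (nat_lit 76) (nat_lit 26564086943) (nat_lit 76) (nat_lit 5651679033) (nat_lit 15) (nat_lit 4) (nat_lit 16) (nat_lit 5) (nat_lit 16) (nat_lit 4) (nat_lit 398) (nat_lit 341) (nat_lit 281)) (XT.nd (nat_lit 78) (nat_lit 0) (nat_lit 0) (XT.lf (nat_lit 0) (nat_lit 8430804272) (nat_lit 76) (nat_lit 5890494818) (nat_lit 152) (nat_lit 74543291622) (nat_lit 13) (nat_lit 5) (nat_lit 14) (nat_lit 5) (nat_lit 15) (nat_lit 4) (nat_lit 399) (nat_lit 341) (nat_lit 280)) (XT.lf (nat_lit 0) (nat_lit 36492284822) (nat_lit 152) (nat_lit 41801211754) (nat_lit 0) (nat_lit 16547365486) (nat_lit 13) (nat_lit 5) (nat_lit 15) (nat_lit 4) (nat_lit 13) (nat_lit 4) (nat_lit 400) (nat_lit 341) (nat_lit 279)))) (XT.nd (nat_lit 156) (nat_lit 152) (nat_lit 0) (XT.nd (nat_lit 78) (nat_lit 76) (nat_lit 0) (XT.lf (nat_lit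 0) (nat_lit 60507130037) (nat_lit 152) (nat_lit 235002759) (nat_lit 0) (nat_lit 40549594794) (nat_lit 13) (nat_lit 5) (nat_lit 15) (nat_lit 4) (nat_lit 13) (nat_lit 4) (nat_lit 401) (nat_lit 341) (nat_lit 278)) (XT.lf (nat_lit 0) (nat_lit 46077906729) (nat_lit 76) (nat_lit 41057676326) (nat_lit 76) (nat_lit 21088459688) (nat_lit 12) (nat_lit 4) (nat_lit 13) (nat_lit 5) (nat_lit 13) (nat_lit 4) (nat_lit 402) (nat_lit 341) (nat_lit 277))) (XT.nd (nat_lit 78) (nat_lit 76) (nat_lit 0) (XT.lf (nat_lit 0) (nat_lit 155453704) (nat_lit 152) (nat_lit 19661352652) (nat_lit 76) (nat_lit 95895097158) (nat_lit 11) (nat_lit 5) (nat_lit 13) (nat_lit 5) (nat_lit 12) (nat_lit 4) (nat_lit 403) (nat_lit 341) (nat_lit 276)) (XT.lf (nat_lit 0) (nat_lit 22823131168) (nat_lit 152) (nat_lit 97150232555) (nat_lit 0) (nat_lit 3784990540) (nat_lit 10) (nat_lit 5) (nat_lit 12) (nat_lit 4) (nat_lit 10) (nat_lit 4) (nat_lit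 404) (nat_lit 341) (nat_lit 275)))))) (XT.nd (nat_lit 468) (nat_lit 76) (nat_lit 0) (XT.nd (nat_lit 234) (nat_lit 152) (nat_lit 0) (XT.nd (nat_lit 78) (nat_lit 76) (nat_lit 0) (XT.lf (nat_lit 0) (nat_lit 47962930492) (nat_lit 152) (nat_lit 55536697877) (nat_lit 0) (nat_lit 28915958370) (nat_lit 10) (nat_lit 5) (nat_lit 12) (nat_lit 4) (nat_lit 10) (nat_lit 4) (nat_lit 405) (nat_lit 341) (nat_lit 274)) (XT.nd (nat_lit 78) (nat_lit 76) (nat_lit 0) (XT.lf (nat_lit 0) (nat_lit 75092115124) (nat_lit 152) (nat_lit 10637407903) (nat_lit 0) (nat_lit 56036965693) (nat_lit 10) (nat_lit 5) (nat_lit 12) (nat_lit 4) (nat_lit 10) (nat_lit 4) (nat_lit 406) (nat_lit 341) (nat_lit 273)) (XT.lf (nat_lit 0) (nat_lit 39063999168) (nat_lit 76) (nat_lit 65917349938) (nat_lit 76) (nat_lit 46854628925) (nat_lit 9) (nat_lit 4) (nat_lit 10) (nat_lit 5) (nat_lit 10) (nat_lit 4) (nat_lit 407) (nat_lit 341) (nat_lit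 272)))) (XT.nd (nat_lit 78) (nat_lit 152) (nat_lit 0) (XT.lf (nat_lit 0) (nat_lit 93083002656) (nat_lit 76) (nat_lit 44344727980) (nat_lit 76) (nat_lit 25274996242) (nat_lit 9) (nat_lit 4) (nat_lit 10) (nat_lit 5) (nat_lit 10) (nat_lit 4) (nat_lit 408) (nat_lit 341) (nat_lit 271)) (XT.nd (nat_lit 78) (nat_lit 152) (nat_lit 0) (XT.lf (nat_lit 0) (nat_lit 151387994430) (nat_lit 76) (nat_lit 21063969043) (nat_lit 76) (nat_lit 1987745894) (nat_lit 9) (nat_lit 4) (nat_lit 10) (nat_lit 5) (nat_lit 10) (nat_lit 4) (nat_lit 409) (nat_lit 341) (nat_lit 270)) (XT.lf (nat_lit 0) (nat_lit 22913798197) (nat_lit 152) (nat_lit 159418896203) (nat_lit 0) (nat_lit 4740242278) (nat_lit 7) (nat_lit 5) (nat_lit 9) (nat_lit 4) (nat_lit 7) (nat_lit 4) (nat_lit 410) (nat_lit 341) (nat_lit 269))))) (XT.nd (nat_lit 234) (nat_lit 76) (nat_lit 0) (XT.nd (nat_lit 78) (nat_lit 0) (nat_lit 0) (XT.lf (nat_lit 0) (nat_lit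 50485750072) (nat_lit 152) (nat_lit 117885153343) (nat_lit 0) (nat_lit 32306893830) (nat_lit 7) (nat_lit 5) (nat_lit 9) (nat_lit 4) (nat_lit 7) (nat_lit 4) (nat_lit 411) (nat_lit 341) (nat_lit 268)) (XT.nd (nat_lit 78) (nat_lit 0) (nat_lit 0) (XT.lf (nat_lit 0) (nat_lit 80248354802) (nat_lit 152) (nat_lit 73058856750) (nat_lit 0) (nat_lit 62064590853) (nat_lit 7) (nat_lit 5) (nat_lit 9) (nat_lit 4) (nat_lit 7) (nat_lit 4) (nat_lit 412) (nat_lit 341) (nat_lit 267)) (XT.lf (nat_lit 0) (nat_lit 112377983378) (nat_lit 152) (nat_lit 24674369112) (nat_lit 0) (nat_lit 94189675257) (nat_lit 7) (nat_lit 5) (nat_lit 9) (nat_lit 4) (nat_lit 7) (nat_lit 4) (nat_lit 413) (nat_lit 341) (nat_lit 266)))) (XT.nd (nat_lit 156) (nat_lit 0) (nat_lit 0) (XT.nd (nat_lit 78) (nat_lit 0) (nat_lit 0) (XT.lf (nat_lit 0) (nat_lit 28466126275) (nat_lit 76) (nat_lit 119043343330) (nat_lit 76) (nat_lit 100850827642) (nat_lit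 6) (nat_lit 4) (nat_lit 7) (nat_lit 5) (nat_lit 7) (nat_lit 4) (nat_lit 414) (nat_lit 341) (nat_lit 265)) (XT.lf (nat_lit 0) (nat_lit 86714253176) (nat_lit 76) (nat_lit 99154657686) (nat_lit 76) (nat_lit 80958246102) (nat_lit 6) (nat_lit 4) (nat_lit 7) (nat_lit 5) (nat_lit 7) (nat_lit 4) (nat_lit 415) (nat_lit 341) (nat_lit 264))) (XT.nd (nat_lit 78) (nat_lit 0) (nat_lit 0) (XT.lf (nat_lit 0) (nat_lit 149599339599) (nat_lit 76) (nat_lit 77686309061) (nat_lit 76) (nat_lit 59486290167) (nat_lit 6) (nat_lit 4) (nat_lit 7) (nat_lit 5) (nat_lit 7) (nat_lit 4) (nat_lit 416) (nat_lit 341) (nat_lit 263)) (XT.lf (nat_lit 0) (nat_lit 217494037908) (nat_lit 76) (nat_lit 54511077611) (nat_lit 76) (nat_lit 36307718614) (nat_lit 6) (nat_lit 4) (nat_lit 7) (nat_lit 5) (nat_lit 7) (nat_lit 4) (nat_lit 417) (nat_lit 341) (nat_lit 262))))))) (XT.nd (nat_lit 1014) (nat_lit 0) (nat_lit 0) (XT.nd (nat_lit 468)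 (nat_lit 76) (nat_lit 0) (XT.nd (nat_lit 234) (nat_lit 0) (nat_lit 0) (XT.nd (nat_lit 78) (nat_lit 152) (nat_lit 0) (XT.lf (nat_lit 0) (nat_lit 290800687056) (nat_lit 76) (nat_lit 29491628631) (nat_lit 76) (nat_lit 11285176947) (nat_lit 6) (nat_lit 4) (nat_lit 7) (nat_lit 5) (nat_lit 7) (nat_lit 4) (nat_lit 418) (nat_lit 341) (nat_lit 261)) (XT.nd (nat_lit 78) (nat_lit 0) (nat_lit 0) (XT.lf (nat_lit 0) (nat_lit 13434316471) (nat_lit 76) (nat_lit 2001601458) (nat_lit 152) (nat_lit 341245094508) (nat_lit 4) (nat_lit 5) (nat_lit 5) (nat_lit 5) (nat_lit 6) (nat_lit 4) (nat_lit 419) (nat_lit 341) (nat_lit 260)) (XT.lf (nat_lit 0) (nat_lit 45049865197) (nat_lit 152) (nat_lit 310971036715) (nat_lit 0) (nat_lit 27705134945) (nat_lit 4) (nat_lit 5) (nat_lit 6) (nat_lit 4) (nat_lit 4) (nat_lit 4) (nat_lit 420) (nat_lit 341) (nat_lit 259)))) (XT.nd (nat_lit 78) (nat_lit 0) (nat_lit 0) (XT.lf (nat_lit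 0) (nat_lit 77058368872) (nat_lit 152) (nat_lit 276163722153) (nat_lit 0) (nat_lit 59711300453) (nat_lit 4) (nat_lit 5) (nat_lit 6) (nat_lit 4) (nat_lit 4) (nat_lit 4) (nat_lit 421) (nat_lit 341) (nat_lit 258)) (XT.nd (nat_lit 78) (nat_lit 0) (nat_lit 0) (XT.lf (nat_lit 0) (nat_lit 111619858368) (nat_lit 152) (nat_lit 238587236103) (nat_lit 0) (nat_lit 94270624979) (nat_lit 4) (nat_lit 5) (nat_lit 6) (nat_lit 4) (nat_lit 4) (nat_lit 4) (nat_lit 422) (nat_lit 341) (nat_lit 257)) (XT.lf (nat_lit 0) (nat_lit 148939142510) (nat_lit 152) (nat_lit 198018903094) (nat_lit 0) (nat_lit 131587904520) (nat_lit 4) (nat_lit 5) (nat_lit 6) (nat_lit 4) (nat_lit 4) (nat_lit 4) (nat_lit 423) (nat_lit 341) (nat_lit 256))))) (XT.nd (nat_lit 234) (nat_lit 76) (nat_lit 0) (XT.nd (nat_lit 78) (nat_lit 0) (nat_lit 0) (XT.lf (nat_lit 0) (nat_lit 189237372612) (nat_lit 152) (nat_lit 154218318188) (nat_lit 0) (nat_lit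 171884278511) (nat_lit 4) (nat_lit 5) (nat_lit 6) (nat_lit 4) (nat_lit 4) (nat_lit 4) (nat_lit 424) (nat_lit 341) (nat_lit 255)) (XT.nd (nat_lit 78) (nat_lit 0) (nat_lit 0) (XT.lf (nat_lit 0) (nat_lit 232753353002) (nat_lit 152) (nat_lit 106925922364) (nat_lit 0) (nat_lit 215398540278) (nat_lit 4) (nat_lit 5) (nat_lit 6) (nat_lit 4) (nat_lit 4) (nat_lit 4) (nat_lit 425) (nat_lit 341) (nat_lit 254)) (XT.lf (nat_lit 0) (nat_lit 279744956154) (nat_lit 152) (nat_lit 55861464387) (nat_lit 0) (nat_lit 262388552113) (nat_lit 4) (nat_lit 5) (nat_lit 6) (nat_lit 4) (nat_lit 4) (nat_lit 4) (nat_lit 426) (nat_lit 341) (nat_lit 253)))) (XT.nd (nat_lit 156) (nat_lit 0) (nat_lit 0) (XT.nd (nat_lit 78) (nat_lit 76) (nat_lit 0) (XT.lf (nat_lit 0) (nat_lit 330490650830) (nat_lit 152) (nat_lit 722340063) (nat_lit 0) (nat_lit 313132773347) (nat_lit 4) (nat_lit 5) (nat_lit 6) (nat_lit 4) (nat_lit 4) (nat_lit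 4) (nat_lit 427) (nat_lit 341) (nat_lit 252)) (XT.lf (nat_lit 0) (nat_lit 60762996329) (nat_lit 76) (nat_lit 325476836586) (nat_lit 76) (nat_lit 308117594806) (nat_lit 3) (nat_lit 4) (nat_lit 4) (nat_lit 5) (nat_lit 4) (nat_lit 4) (nat_lit 428) (nat_lit 341) (nat_lit 251))) (XT.nd (nat_lit 78) (nat_lit 0) (nat_lit 0) (XT.lf (nat_lit 0) (nat_lit 127183663058) (nat_lit 76) (nat_lit 319273234497) (nat_lit 76) (nat_lit 301912729478) (nat_lit 3) (nat_lit 4) (nat_lit 4) (nat_lit 5) (nat_lit 4) (nat_lit 4) (nat_lit 429) (nat_lit 341) (nat_lit 250)) (XT.lf (nat_lit 0) (nat_lit 198909380250) (nat_lit 76) (nat_lit 312577655717) (nat_lit 76) (nat_lit 295215981032) (nat_lit 3) (nat_lit 4) (nat_lit 4) (nat_lit 5) (nat_lit 4) (nat_lit 4) (nat_lit 430) (nat_lit 341) (nat_lit 249)))))) (XT.nd (nat_lit 46176) (nat_lit 0) (nat_lit 11248) (XT.nd (nat_lit 234) (nat_lit 0) (nat_lit 0) (XT.nd (nat_lit 78) (nat_lit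 0) (nat_lit 0) (XT.lf (nat_lit 0) (nat_lit 276365189190) (nat_lit 76) (nat_lit 305350422742) (nat_lit 76) (nat_lit 287987665034) (nat_lit 3) (nat_lit 4) (nat_lit 4) (nat_lit 5) (nat_lit 4) (nat_lit 4) (nat_lit 431) (nat_lit 341) (nat_lit 248)) (XT.nd (nat_lit 78) (nat_lit 0) (nat_lit 0) (XT.lf (nat_lit 0) (nat_lit 360010087265) (nat_lit 76) (nat_lit 297548707526) (nat_lit 76) (nat_lit 280184947018) (nat_lit 3) (nat_lit 4) (nat_lit 4) (nat_lit 5) (nat_lit 4) (nat_lit 4) (nat_lit 432) (nat_lit 341) (nat_lit 247)) (XT.lf (nat_lit 0) (nat_lit 450339747946) (nat_lit 76) (nat_lit 289126277682) (nat_lit 76) (nat_lit 271761588656) (nat_lit 3) (nat_lit 4) (nat_lit 4) (nat_lit 5) (nat_lit 4) (nat_lit 4) (nat_lit 433) (nat_lit 341) (nat_lit 246)))) (XT.nd (nat_lit 156) (nat_lit 0) (nat_lit 0) (XT.nd (nat_lit 78) (nat_lit 0) (nat_lit 0) (XT.lf (nat_lit 0) (nat_lit 547889458111) (nat_lit 76) (nat_lit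 280033222514) (nat_lit 76) (nat_lit 262667673749) (nat_lit 3) (nat_lit 4) (nat_lit 4) (nat_lit 5) (nat_lit 4) (nat_lit 4) (nat_lit 434) (nat_lit 341) (nat_lit 245)) (XT.lf (nat_lit 0) (nat_lit 653237290115) (nat_lit 76) (nat_lit 270215657251) (nat_lit 76) (nat_lit 252849312431) (nat_lit 3) (nat_lit 4) (nat_lit 4) (nat_lit 5) (nat_lit 4) (nat_lit 4) (nat_lit 435) (nat_lit 341) (nat_lit 244))) (XT.nd (nat_lit 78) (nat_lit 0) (nat_lit 0) (XT.lf (nat_lit 0) (nat_lit 767007527409) (nat_lit 76) (nat_lit 259615403728) (nat_lit 76) (nat_lit 242248321821) (nat_lit 3) (nat_lit 4) (nat_lit 4) (nat_lit 5) (nat_lit 4) (nat_lit 4) (nat_lit 436) (nat_lit 341) (nat_lit 243)) (XT.lf (nat_lit 0) (nat_lit 889874363990) (nat_lit 76) (nat_lit 248169645629) (nat_lit 76) (nat_lit 230801881233) (nat_lit 3) (nat_lit 4) (nat_lit 4) (nat_lit 5) (nat_lit 4) (nat_lit 4) (nat_lit 437) (nat_lit 341) (nat_lit 242))))) (XT.nd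 (nat_lit 234) (nat_lit 1140) (nat_lit 0) (XT.nd (nat_lit 78) (nat_lit 380) (nat_lit 0) (XT.lf (nat_lit 0) (nat_lit 1208553628) (nat_lit 0) (nat_lit 1208553628) (nat_lit 228) (nat_lit 861139971) (nat_lit 171) (nat_lit 5) (nat_lit 171) (nat_lit 3) (nat_lit 174) (nat_lit 3) (nat_lit 342) (nat_lit 342) (nat_lit 336)) (XT.nd (nat_lit 78) (nat_lit 0) (nat_lit 76) (XT.lf (nat_lit 76) (nat_lit 1014256013) (nat_lit 0) (nat_lit 1101767233) (nat_lit 380) (nat_lit 4508369533) (nat_lit 167) (nat_lit 5) (nat_lit 166) (nat_lit 3) (nat_lit 171) (nat_lit 5) (nat_lit 343) (nat_lit 342) (nat_lit 335)) (XT.lf (nat_lit 0) (nat_lit 5896072620) (nat_lit 304) (nat_lit 231979478) (nat_lit 380) (nat_lit 583834854) (nat_lit 167) (nat_lit 5) (nat_lit 171) (nat_lit 5) (nat_lit 172) (nat_lit 5) (nat_lit 344) (nat_lit 342) (nat_lit 334)))) (XT.nd (nat_lit 156) (nat_lit 836) (nat_lit 0) (XT.nd (nat_lit 78) (nat_lit 0) (nat_lit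 0) (XT.lf (nat_lit 0) (nat_lit 2815386510) (nat_lit 380) (nat_lit 1343657571) (nat_lit 456) (nat_lit 2657909973) (nat_lit 162) (nat_lit 5) (nat_lit 167) (nat_lit 5) (nat_lit 168) (nat_lit 5) (nat_lit 345) (nat_lit 342) (nat_lit 333)) (XT.lf (nat_lit 76) (nat_lit 4631727610) (nat_lit 0) (nat_lit 1815405882) (nat_lit 456) (nat_lit 495959555) (nat_lit 163) (nat_lit 5) (nat_lit 162) (nat_lit 5) (nat_lit 168) (nat_lit 5) (nat_lit 346) (nat_lit 342) (nat_lit 332))) (XT.nd (nat_lit 78) (nat_lit 456) (nat_lit 0) (XT.lf (nat_lit 0) (nat_lit 2962917584) (nat_lit 456) (nat_lit 3192719405) (nat_lit 76) (nat_lit 932446889) (nat_lit 157) (nat_lit 5) (nat_lit 163) (nat_lit 5) (nat_lit 158) (nat_lit 5) (nat_lit 347) (nat_lit 342) (nat_lit 331)) (XT.lf (nat_lit 0) (nat_lit 3279294233) (nat_lit 456) (nat_lit 3225078889) (nat_lit 532) (nat_lit 748949992) (nat_lit 151) (nat_lit 5) (nat_lit 157) (nat_lit 5) (nat_lit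 158) (nat_lit 5) (nat_lit 348) (nat_lit 342) (nat_lit 330))))))))
noncomputable def xc50 : XT := (XT.nd (nat_lit 2028) (nat_lit 2356) (nat_lit 0) (XT.nd (nat_lit 1014) (nat_lit 2356) (nat_lit 0) (XT.nd (nat_lit 468) (nat_lit 2204) (nat_lit 0) (XT.nd (nat_lit 234) (nat_lit 1596) (nat_lit 0) (XT.nd (nat_lit 78) (nat_lit 1368) (nat_lit 0) (XT.lf (nat_lit 0) (nat_lit 2621163145) (nat_lit 608) (nat_lit 4669159912) (nat_lit 76) (nat_lit 148562100) (nat_lit 143) (nat_lit 5) (nat_lit 151) (nat_lit 5) (nat_lit 144) (nat_lit 5) (nat_lit 349) (nat_lit 342) (nat_lit 329)) (XT.nd (nat_lit 78) (nat_lit 760) (nat_lit 0) (XT.lf (nat_lit 0) (nat_lit 2336634831) (nat_lit 608) (nat_lit 3792551446) (nat_lit 684) (nat_lit 1514942867) (nat_lit 135) (nat_lit 5) (nat_lit 143) (nat_lit 5) (nat_lit 144) (nat_lit 5) (nat_lit 350) (nat_lit 342) (nat_lit 328)) (XT.lf (nat_lit 0) (nat_lit 1848092550) (nat_lit 760) (nat_lit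 5862776963) (nat_lit 76) (nat_lit 160392462) (nat_lit 125) (nat_lit 5) (nat_lit 135) (nat_lit 5) (nat_lit 126) (nat_lit 5) (nat_lit 351) (nat_lit 342) (nat_lit 327)))) (XT.nd (nat_lit 78) (nat_lit 836) (nat_lit 0) (XT.lf (nat_lit 0) (nat_lit 1721146560) (nat_lit 760) (nat_lit 3652327828) (nat_lit 836) (nat_lit 2744675554) (nat_lit 115) (nat_lit 5) (nat_lit 125) (nat_lit 5) (nat_lit 126) (nat_lit 5) (nat_lit 352) (nat_lit 342) (nat_lit 326)) (XT.nd (nat_lit 78) (nat_lit 380) (nat_lit 0) (XT.lf (nat_lit 0) (nat_lit 683664088) (nat_lit 456) (nat_lit 6854062773) (nat_lit 76) (nat_lit 850916393) (nat_lit 109) (nat_lit 5) (nat_lit 115) (nat_lit 5) (nat_lit 110) (nat_lit 5) (nat_lit 353) (nat_lit 342) (nat_lit 325)) (XT.lf (nat_lit 0) (nat_lit 1358856053) (nat_lit 380) (nat_lit 2913425465) (nat_lit 456) (nat_lit 4407254849) (nat_lit 104) (nat_lit 5) (nat_lit 109) (nat_lit 5) (nat_lit 110) (nat_lit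 5) (nat_lit 354) (nat_lit 342) (nat_lit 324))))) (XT.nd (nat_lit 234) (nat_lit 1140) (nat_lit 0) (XT.nd (nat_lit 78) (nat_lit 684) (nat_lit 0) (XT.lf (nat_lit 0) (nat_lit 1262901799) (nat_lit 380) (nat_lit 6855735148) (nat_lit 456) (nat_lit 876641371) (nat_lit 99) (nat_lit 5) (nat_lit 104) (nat_lit 5) (nat_lit 105) (nat_lit 5) (nat_lit 355) (nat_lit 342) (nat_lit 323)) (XT.nd (nat_lit 78) (nat_lit 304) (nat_lit 0) (XT.lf (nat_lit 0) (nat_lit 1179899711) (nat_lit 304) (nat_lit 1665167183) (nat_lit 380) (nat_lit 6488885807) (nat_lit 94) (nat_lit 5) (nat_lit 98) (nat_lit 5) (nat_lit 99) (nat_lit 5) (nat_lit 356) (nat_lit 342) (nat_lit 322)) (XT.lf (nat_lit 0) (nat_lit 1121213371) (nat_lit 304) (nat_lit 5744936325) (nat_lit 380) (nat_lit 2831324892) (nat_lit 90) (nat_lit 5) (nat_lit 94) (nat_lit 5) (nat_lit 95) (nat_lit 5) (nat_lit 357) (nat_lit 342) (nat_lit 321)))) (XT.nd (nat_lit 156) (nat_lit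 532) (nat_lit 0) (XT.nd (nat_lit 78) (nat_lit 304) (nat_lit 0) (XT.lf (nat_lit 0) (nat_lit 1096499920) (nat_lit 304) (nat_lit 8975035877) (nat_lit 76) (nat_lit 17074644) (nat_lit 86) (nat_lit 5) (nat_lit 90) (nat_lit 5) (nat_lit 87) (nat_lit 5) (nat_lit 358) (nat_lit 342) (nat_lit 320)) (XT.lf (nat_lit 0) (nat_lit 1049046667) (nat_lit 304) (nat_lit 4289183543) (nat_lit 380) (nat_lit 5165615641) (nat_lit 82) (nat_lit 5) (nat_lit 86) (nat_lit 5) (nat_lit 87) (nat_lit 5) (nat_lit 359) (nat_lit 342) (nat_lit 319))) (XT.nd (nat_lit 78) (nat_lit 304) (nat_lit 0) (XT.lf (nat_lit 0) (nat_lit 1034644521) (nat_lit 228) (nat_lit 8931053368) (nat_lit 304) (nat_lit 984350051) (nat_lit 79) (nat_lit 5) (nat_lit 82) (nat_lit 5) (nat_lit 83) (nat_lit 5) (nat_lit 360) (nat_lit 342) (nat_lit 318)) (XT.lf (nat_lit 0) (nat_lit 965752720) (nat_lit 228) (nat_lit 2554272289) (nat_lit 304) (nat_lit 7904142420) (nat_lit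 75) (nat_lit 5) (nat_lit 78) (nat_lit 5) (nat_lit 79) (nat_lit 5) (nat_lit 361) (nat_lit 342) (nat_lit 317)))))) (XT.nd (nat_lit 468) (nat_lit 1216) (nat_lit 0) (XT.nd (nat_lit 234) (nat_lit 456) (nat_lit 0) (XT.nd (nat_lit 78) (nat_lit 456) (nat_lit 0) (XT.lf (nat_lit 0) (nat_lit 875505626) (nat_lit 228) (nat_lit 7586193708) (nat_lit 304) (nat_lit 3468193848) (nat_lit 72) (nat_lit 5) (nat_lit 75) (nat_lit 5) (nat_lit 76) (nat_lit 5) (nat_lit 362) (nat_lit 342) (nat_lit 316)) (XT.nd (nat_lit 78) (nat_lit 152) (nat_lit 0) (XT.lf (nat_lit 0) (nat_lit 775827136) (nat_lit 228) (nat_lit 604293662) (nat_lit 304) (nat_lit 11089981379) (nat_lit 68) (nat_lit 5) (nat_lit 71) (nat_lit 5) (nat_lit 72) (nat_lit 5) (nat_lit 363) (nat_lit 342) (nat_lit 315)) (XT.lf (nat_lit 0) (nat_lit 549203444) (nat_lit 152) (nat_lit 6125639615) (nat_lit 228) (nat_lit 6366884693) (nat_lit 66) (nat_lit 5) (nat_lit 68)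 (nat_lit 5) (nat_lit 69) (nat_lit 5) (nat_lit 364) (nat_lit 342) (nat_lit 314)))) (XT.nd (nat_lit 78) (nat_lit 228) (nat_lit 0) (XT.lf (nat_lit 0) (nat_lit 318106716) (nat_lit 228) (nat_lit 12190023846) (nat_lit 304) (nat_lit 1145245289) (nat_lit 63) (nat_lit 5) (nat_lit 66) (nat_lit 5) (nat_lit 67) (nat_lit 5) (nat_lit 365) (nat_lit 342) (nat_lit 313)) (XT.nd (nat_lit 78) (nat_lit 152) (nat_lit 0) (XT.lf (nat_lit 0) (nat_lit 4550999322) (nat_lit 304) (nat_lit 74275562) (nat_lit 76) (nat_lit 9675173814) (nat_lit 62) (nat_lit 5) (nat_lit 66) (nat_lit 5) (nat_lit 63) (nat_lit 5) (nat_lit 366) (nat_lit 342) (nat_lit 312)) (XT.lf (nat_lit 0) (nat_lit 10833721410) (nat_lit 228) (nat_lit 537821795) (nat_lit 76) (nat_lit 3618294527) (nat_lit 60) (nat_lit 5) (nat_lit 63) (nat_lit 5) (nat_lit 61) (nat_lit 5) (nat_lit 367) (nat_lit 342) (nat_lit 311))))) (XT.nd (nat_lit 234) (nat_lit 684) (nat_lit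 0) (XT.nd (nat_lit 78) (nat_lit 304) (nat_lit 0) (XT.lf (nat_lit 0) (nat_lit 2025416292) (nat_lit 228) (nat_lit 1134630258) (nat_lit 76) (nat_lit 12562837484) (nat_lit 57) (nat_lit 5) (nat_lit 60) (nat_lit 5) (nat_lit 58) (nat_lit 5) (nat_lit 368) (nat_lit 342) (nat_lit 310)) (XT.nd (nat_lit 78) (nat_lit 152) (nat_lit 0) (XT.lf (nat_lit 0) (nat_lit 8783303270) (nat_lit 228) (nat_lit 1941325279) (nat_lit 76) (nat_lit 5775194647) (nat_lit 55) (nat_lit 5) (nat_lit 58) (nat_lit 5) (nat_lit 56) (nat_lit 5) (nat_lit 369) (nat_lit 342) (nat_lit 309)) (XT.lf (nat_lit 0) (nat_lit 14449884702) (nat_lit 152) (nat_lit 1829196106) (nat_lit 228) (nat_lit 1049999535) (nat_lit 53) (nat_lit 5) (nat_lit 55) (nat_lit 5) (nat_lit 56) (nat_lit 5) (nat_lit 370) (nat_lit 342) (nat_lit 308)))) (XT.nd (nat_lit 156) (nat_lit 304) (nat_lit 0) (XT.nd (nat_lit 78) (nat_lit 152) (nat_lit 0) (XT.lf (nat_lit 0) (nat_lit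 6236813863) (nat_lit 228) (nat_lit 4146405795) (nat_lit 76) (nat_lit 7822490135) (nat_lit 50) (nat_lit 5) (nat_lit 53) (nat_lit 5) (nat_lit 51) (nat_lit 5) (nat_lit 371) (nat_lit 342) (nat_lit 307)) (XT.lf (nat_lit 0) (nat_lit 13528208305) (nat_lit 152) (nat_lit 740618062) (nat_lit 228) (nat_lit 4872851624) (nat_lit 48) (nat_lit 5) (nat_lit 50) (nat_lit 5) (nat_lit 51) (nat_lit 5) (nat_lit 372) (nat_lit 342) (nat_lit 306))) (XT.nd (nat_lit 78) (nat_lit 152) (nat_lit 0) (XT.lf (nat_lit 0) (nat_lit 3039006102) (nat_lit 152) (nat_lit 7471982789) (nat_lit 76) (nat_lit 9622501918) (nat_lit 46) (nat_lit 5) (nat_lit 48) (nat_lit 5) (nat_lit 47) (nat_lit 5) (nat_lit 373) (nat_lit 342) (nat_lit 305)) (XT.lf (nat_lit 0) (nat_lit 11517839349) (nat_lit 152) (nat_lit 101282541) (nat_lit 228) (nat_lit 9571248323) (nat_lit 44) (nat_lit 5) (nat_lit 46) (nat_lit 5) (nat_lit 47) (nat_lit 5) (nat_lit 374) (nat_lit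 342) (nat_lit 304))))))) (XT.nd (nat_lit 1014) (nat_lit 912) (nat_lit 0) (XT.nd (nat_lit 468) (nat_lit 760) (nat_lit 0) (XT.nd (nat_lit 234) (nat_lit 304) (nat_lit 0) (XT.nd (nat_lit 78) (nat_lit 304) (nat_lit 0) (XT.lf (nat_lit 0) (nat_lit 9960847451) (nat_lit 76) (nat_lit 11301831214) (nat_lit 152) (nat_lit 1050285665) (nat_lit 43) (nat_lit 5) (nat_lit 44) (nat_lit 5) (nat_lit 45) (nat_lit 4) (nat_lit 375) (nat_lit 342) (nat_lit 303)) (XT.nd (nat_lit 78) (nat_lit 76) (nat_lit 0) (XT.lf (nat_lit 0) (nat_lit 7970248016) (nat_lit 152) (nat_lit 136550152) (nat_lit 228) (nat_lit 15401449298) (nat_lit 40) (nat_lit 5) (nat_lit 42) (nat_lit 5) (nat_lit 43) (nat_lit 5) (nat_lit 376) (nat_lit 342) (nat_lit 302)) (XT.lf (nat_lit 0) (nat_lit 5393300415) (nat_lit 76) (nat_lit 12976771077) (nat_lit 152) (nat_lit 6407712907) (nat_lit 39) (nat_lit 5) (nat_lit 40) (nat_lit 5) (nat_lit 41) (nat_lit 4) (nat_lit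 377) (nat_lit 342) (nat_lit 301)))) (XT.nd (nat_lit 78) (nat_lit 76) (nat_lit 0) (XT.lf (nat_lit 0) (nat_lit 2294321964) (nat_lit 152) (nat_lit 1141996185) (nat_lit 228) (nat_lit 22698167541) (nat_lit 36) (nat_lit 5) (nat_lit 38) (nat_lit 5) (nat_lit 39) (nat_lit 5) (nat_lit 378) (nat_lit 342) (nat_lit 300)) (XT.nd (nat_lit 78) (nat_lit 76) (nat_lit 0) (XT.lf (nat_lit 0) (nat_lit 14297329246) (nat_lit 228) (nat_lit 1614538051) (nat_lit 76) (nat_lit 11659916564) (nat_lit 36) (nat_lit 5) (nat_lit 39) (nat_lit 5) (nat_lit 37) (nat_lit 4) (nat_lit 379) (nat_lit 342) (nat_lit 299)) (XT.lf (nat_lit 0) (nat_lit 22979405957) (nat_lit 76) (nat_lit 3357348480) (nat_lit 152) (nat_lit 2771844635) (nat_lit 35) (nat_lit 5) (nat_lit 36) (nat_lit 5) (nat_lit 37) (nat_lit 4) (nat_lit 380) (nat_lit 342) (nat_lit 298))))) (XT.nd (nat_lit 234) (nat_lit 304) (nat_lit 0) (XT.nd (nat_lit 78) (nat_lit 228) (nat_lit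 0) (XT.lf (nat_lit 0) (nat_lit 8724411473) (nat_lit 228) (nat_lit 11725797332) (nat_lit 76) (nat_lit 10290080428) (nat_lit 32) (nat_lit 5) (nat_lit 35) (nat_lit 5) (nat_lit 33) (nat_lit 4) (nat_lit 381) (nat_lit 342) (nat_lit 297)) (XT.nd (nat_lit 78) (nat_lit 152) (nat_lit 0) (XT.lf (nat_lit 0) (nat_lit 14118459620) (nat_lit 76) (nat_lit 7247509747) (nat_lit 152) (nat_lit 11118145611) (nat_lit 31) (nat_lit 5) (nat_lit 32) (nat_lit 5) (nat_lit 33) (nat_lit 4) (nat_lit 382) (nat_lit 342) (nat_lit 296)) (XT.lf (nat_lit 0) (nat_lit 1018680763) (nat_lit 152) (nat_lit 26242618474) (nat_lit 76) (nat_lit 7086239887) (nat_lit 29) (nat_lit 5) (nat_lit 31) (nat_lit 5) (nat_lit 30) (nat_lit 4) (nat_lit 383) (nat_lit 342) (nat_lit 295)))) (XT.nd (nat_lit 156) (nat_lit 228) (nat_lit 0) (XT.nd (nat_lit 78) (nat_lit 0) (nat_lit 0) (XT.lf (nat_lit 0) (nat_lit 595425700) (nat_lit 76) (nat_lit 13543237965)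 (nat_lit 152) (nat_lit 22192180063) (nat_lit 28) (nat_lit 5) (nat_lit 29) (nat_lit 5) (nat_lit 30) (nat_lit 4) (nat_lit 384) (nat_lit 342) (nat_lit 294)) (XT.lf (nat_lit 0) (nat_lit 28734551943) (nat_lit 152) (nat_lit 8070461613) (nat_lit 0) (nat_lit 1646489883) (nat_lit 28) (nat_lit 5) (nat_lit 30) (nat_lit 4) (nat_lit 28) (nat_lit 4) (nat_lit 385) (nat_lit 342) (nat_lit 293))) (XT.nd (nat_lit 78) (nat_lit 76) (nat_lit 0) (XT.lf (nat_lit 0) (nat_lit 4165496564) (nat_lit 152) (nat_lit 18596087178) (nat_lit 76) (nat_lit 17950833924) (nat_lit 26) (nat_lit 5) (nat_lit 28) (nat_lit 5) (nat_lit 27) (nat_lit 4) (nat_lit 386) (nat_lit 342) (nat_lit 292)) (XT.lf (nat_lit 0) (nat_lit 11976406993) (nat_lit 76) (nat_lit 7123862281) (nat_lit 152) (nat_lit 24031867832) (nat_lit 25) (nat_lit 5) (nat_lit 26) (nat_lit 5) (nat_lit 27) (nat_lit 4) (nat_lit 387) (nat_lit 342) (nat_lit 291)))))) (XT.nd (nat_lit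 468) (nat_lit 456) (nat_lit 0) (XT.nd (nat_lit 234) (nat_lit 228) (nat_lit 0) (XT.nd (nat_lit 78) (nat_lit 228) (nat_lit 0) (XT.lf (nat_lit 0) (nat_lit 35660930751) (nat_lit 152) (nat_lit 325537282) (nat_lit 0) (nat_lit 9737415314) (nat_lit 25) (nat_lit 5) (nat_lit 27) (nat_lit 4) (nat_lit 25) (nat_lit 4) (nat_lit 388) (nat_lit 342) (nat_lit 290)) (XT.nd (nat_lit 78) (nat_lit 76) (nat_lit 0) (XT.lf (nat_lit 0) (nat_lit 5474230295) (nat_lit 152) (nat_lit 14737098348) (nat_lit 76) (nat_lit 28277146318) (nat_lit 23) (nat_lit 5) (nat_lit 25) (nat_lit 5) (nat_lit 24) (nat_lit 4) (nat_lit 389) (nat_lit 342) (nat_lit 289)) (XT.lf (nat_lit 0) (nat_lit 19457426407) (nat_lit 76) (nat_lit 2713209377) (nat_lit 152) (nat_lit 29281913309) (nat_lit 22) (nat_lit 5) (nat_lit 23) (nat_lit 5) (nat_lit 24) (nat_lit 4) (nat_lit 390) (nat_lit 342) (nat_lit 288)))) (XT.nd (nat_lit 78) (nat_lit 152) (nat_lit 0)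 (XT.lf (nat_lit 0) (nat_lit 1994382072) (nat_lit 76) (nat_lit 38709086974) (nat_lit 76) (nat_lit 13925247817) (nat_lit 21) (nat_lit 4) (nat_lit 22) (nat_lit 5) (nat_lit 22) (nat_lit 4) (nat_lit 391) (nat_lit 342) (nat_lit 287)) (XT.nd (nat_lit 78) (nat_lit 76) (nat_lit 0) (XT.lf (nat_lit 0) (nat_lit 3144299094) (nat_lit 152) (nat_lit 18365057905) (nat_lit 76) (nat_lit 36519073492) (nat_lit 20) (nat_lit 5) (nat_lit 22) (nat_lit 5) (nat_lit 21) (nat_lit 4) (nat_lit 392) (nat_lit 342) (nat_lit 286)) (XT.lf (nat_lit 0) (nat_lit 18940203681) (nat_lit 76) (nat_lit 2413993517) (nat_lit 152) (nat_lit 40321379696) (nat_lit 19) (nat_lit 5) (nat_lit 20) (nat_lit 5) (nat_lit 21) (nat_lit 4) (nat_lit 393) (nat_lit 342) (nat_lit 285))))) (XT.nd (nat_lit 234) (nat_lit 228) (nat_lit 0) (XT.nd (nat_lit 78) (nat_lit 228) (nat_lit 0) (XT.lf (nat_lit 0) (nat_lit 41591983414) (nat_lit 152) (nat_lit 6077286533)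 (nat_lit 0) (nat_lit 17916672875) (nat_lit 19) (nat_lit 5) (nat_lit 21) (nat_lit 4) (nat_lit 19) (nat_lit 4) (nat_lit 394) (nat_lit 342) (nat_lit 284)) (XT.nd (nat_lit 78) (nat_lit 152) (nat_lit 0) (XT.lf (nat_lit 0) (nat_lit 34507814330) (nat_lit 76) (nat_lit 29484937812) (nat_lit 76) (nat_lit 5789190333) (nat_lit 18) (nat_lit 4) (nat_lit 19) (nat_lit 5) (nat_lit 19) (nat_lit 4) (nat_lit 395) (nat_lit 342) (nat_lit 283)) (XT.lf (nat_lit 0) (nat_lit 4093597105) (nat_lit 76) (nat_lit 9471411516) (nat_lit 152) (nat_lit 60730934729) (nat_lit 16) (nat_lit 5) (nat_lit 17) (nat_lit 5) (nat_lit 18) (nat_lit 4) (nat_lit 396) (nat_lit 342) (nat_lit 282)))) (XT.nd (nat_lit 156) (nat_lit 152) (nat_lit 0) (XT.nd (nat_lit 78) (nat_lit 76) (nat_lit 0) (XT.lf (nat_lit 0) (nat_lit 35048123136) (nat_lit 152) (nat_lit 31632992111) (nat_lit 0) (nat_lit 12446035563) (nat_lit 16) (nat_lit 5) (nat_lit 18) (nat_lit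 4) (nat_lit 16) (nat_lit 4) (nat_lit 397) (nat_lit 342) (nat_lit 281)) (XT.lf (nat_lit 0) (nat_lit 10125411163) (nat_lit 76) (nat_lit 48411320902) (nat_lit 76) (nat_lit 25793782375) (nat_lit 15) (nat_lit 4) (nat_lit 16) (nat_lit 5) (nat_lit 16) (nat_lit 4) (nat_lit 398) (nat_lit 342) (nat_lit 280))) (XT.nd (nat_lit 78) (nat_lit 152) (nat_lit 0) (XT.lf (nat_lit 0) (nat_lit 56295865710) (nat_lit 76) (nat_lit 28130027474) (nat_lit 76) (nat_lit 5498182508) (nat_lit 15) (nat_lit 4) (nat_lit 16) (nat_lit 5) (nat_lit 16) (nat_lit 4) (nat_lit 399) (nat_lit 342) (nat_lit 279)) (XT.lf (nat_lit 0) (nat_lit 10210419681) (nat_lit 76) (nat_lit 5816659025) (nat_lit 152) (nat_lit 79918646194) (nat_lit 13) (nat_lit 5) (nat_lit 14) (nat_lit 5) (nat_lit 15) (nat_lit 4) (nat_lit 400) (nat_lit 342) (nat_lit 278))))))))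
noncomputable def xc51 : XT := (XT.nd (nat_lit 2028) (nat_lit 76) (nat_lit 0) (XT.nd (nat_lit 1014) (nat_lit 228) (nat_lit 0) (XT.nd (nat_lit 468) (nat_lit 228) (nat_lit 0) (XT.nd (nat_lit 234) (nat_lit 152) (nat_lit 0) (XT.nd (nat_lit 78) (nat_lit 76) (nat_lit 0) (XT.lf (nat_lit 0) (nat_lit 39938135981) (nat_lit 152) (nat_lit 44103943897) (nat_lit 0) (nat_lit 18359700616) (nat_lit 13) (nat_lit 5) (nat_lit 15) (nat_lit 4) (nat_lit 13) (nat_lit 4) (nat_lit 401) (nat_lit 342) (nat_lit 277)) (XT.nd (nat_lit 78) (nat_lit 0) (nat_lit 0) (XT.lf (nat_lit 0) (nat_lit 733913499) (nat_lit 76) (nat_lit 65112716103) (nat_lit 76) (nat_lit 43523464631) (nat_lit 12) (nat_lit 4) (nat_lit 13) (nat_lit 5) (nat_lit 13) (nat_lit 4) (nat_lit 402) (nat_lit 342) (nat_lit 276)) (XT.lf (nat_lit 0) (nat_lit 50686461816) (nat_lit 76) (nat_lit 43885729697) (nat_lit 76) (nat_lit 22286463311) (nat_lit 12) (nat_lit 4)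 (nat_lit 13) (nat_lit 5) (nat_lit 13) (nat_lit 4) (nat_lit 403) (nat_lit 342) (nat_lit 275)))) (XT.nd (nat_lit 78) (nat_lit 76) (nat_lit 0) (XT.lf (nat_lit 0) (nat_lit 606241626) (nat_lit 152) (nat_lit 20365744119) (nat_lit 76) (nat_lit 103974931968) (nat_lit 11) (nat_lit 5) (nat_lit 13) (nat_lit 5) (nat_lit 12) (nat_lit 4) (nat_lit 404) (nat_lit 342) (nat_lit 274)) (XT.nd (nat_lit 78) (nat_lit 0) (nat_lit 0) (XT.lf (nat_lit 0) (nat_lit 25074264707) (nat_lit 152) (nat_lit 104076948751) (nat_lit 0) (nat_lit 4486526013) (nat_lit 10) (nat_lit 5) (nat_lit 12) (nat_lit 4) (nat_lit 10) (nat_lit 4) (nat_lit 405) (nat_lit 342) (nat_lit 273)) (XT.lf (nat_lit 0) (nat_lit 52193745529) (nat_lit 152) (nat_lit 59196946293) (nat_lit 0) (nat_lit 31598435252) (nat_lit 10) (nat_lit 5) (nat_lit 12) (nat_lit 4) (nat_lit 10) (nat_lit 4) (nat_lit 406) (nat_lit 342) (nat_lit 272))))) (XT.nd (nat_lit 234) (nat_lit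 152) (nat_lit 0) (XT.nd (nat_lit 78) (nat_lit 76) (nat_lit 0) (XT.lf (nat_lit 0) (nat_lit 81464095998) (nat_lit 152) (nat_lit 10763689966) (nat_lit 0) (nat_lit 60861774997) (nat_lit 10) (nat_lit 5) (nat_lit 12) (nat_lit 4) (nat_lit 10) (nat_lit 4) (nat_lit 407) (nat_lit 342) (nat_lit 271)) (XT.nd (nat_lit 78) (nat_lit 0) (nat_lit 0) (XT.lf (nat_lit 0) (nat_lit 42882334632) (nat_lit 76) (nat_lit 70845948832) (nat_lit 76) (nat_lit 50237136420) (nat_lit 9) (nat_lit 4) (nat_lit 10) (nat_lit 5) (nat_lit 10) (nat_lit 4) (nat_lit 408) (nat_lit 342) (nat_lit 270)) (XT.lf (nat_lit 0) (nat_lit 101171509101) (nat_lit 76) (nat_lit 47573057050) (nat_lit 76) (nat_lit 26958234072) (nat_lit 9) (nat_lit 4) (nat_lit 10) (nat_lit 5) (nat_lit 10) (nat_lit 4) (nat_lit 409) (nat_lit 342) (nat_lit 269)))) (XT.nd (nat_lit 156) (nat_lit 0) (nat_lit 0) (XT.nd (nat_lit 78) (nat_lit 152) (nat_lit 0) (XT.lf (nat_lit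 0) (nat_lit 164093354570) (nat_lit 76) (nat_lit 22453485485) (nat_lit 76) (nat_lit 1833097168) (nat_lit 9) (nat_lit 4) (nat_lit 10) (nat_lit 5) (nat_lit 10) (nat_lit 4) (nat_lit 410) (nat_lit 342) (nat_lit 268)) (XT.lf (nat_lit 0) (nat_lit 25041561530) (nat_lit 152) (nat_lit 171584276956) (nat_lit 0) (nat_lit 5398188760) (nat_lit 7) (nat_lit 5) (nat_lit 9) (nat_lit 4) (nat_lit 7) (nat_lit 4) (nat_lit 411) (nat_lit 342) (nat_lit 267))) (XT.nd (nat_lit 78) (nat_lit 0) (nat_lit 0) (XT.lf (nat_lit 0) (nat_lit 54797442927) (nat_lit 152) (nat_lit 126771399922) (nat_lit 0) (nat_lit 35149525984) (nat_lit 7) (nat_lit 5) (nat_lit 9) (nat_lit 4) (nat_lit 7) (nat_lit 4) (nat_lit 412) (nat_lit 342) (nat_lit 266)) (XT.lf (nat_lit 0) (nat_lit 86920846195) (nat_lit 152) (nat_lit 78399337802) (nat_lit 0) (nat_lit 67268721685) (nat_lit 7) (nat_lit 5) (nat_lit 9) (nat_lit 4) (nat_lit 7) (nat_lit 4) (nat_lit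 413) (nat_lit 342) (nat_lit 265)))))) (XT.nd (nat_lit 468) (nat_lit 152) (nat_lit 0) (XT.nd (nat_lit 234) (nat_lit 0) (nat_lit 0) (XT.nd (nat_lit 78) (nat_lit 76) (nat_lit 0) (XT.lf (nat_lit 0) (nat_lit 121602132241) (nat_lit 152) (nat_lit 26181441337) (nat_lit 0) (nat_lit 101946111835) (nat_lit 7) (nat_lit 5) (nat_lit 9) (nat_lit 4) (nat_lit 7) (nat_lit 4) (nat_lit 414) (nat_lit 342) (nat_lit 264)) (XT.nd (nat_lit 78) (nat_lit 0) (nat_lit 0) (XT.lf (nat_lit 0) (nat_lit 31190003763) (nat_lit 76) (nat_lit 128343779404) (nat_lit 76) (nat_lit 108684151687) (nat_lit 6) (nat_lit 4) (nat_lit 7) (nat_lit 5) (nat_lit 7) (nat_lit 4) (nat_lit 415) (nat_lit 342) (nat_lit 263)) (XT.lf (nat_lit 0) (nat_lit 94064900269) (nat_lit 76) (nat_lit 106880519752) (nat_lit 76) (nat_lit 87217551933) (nat_lit 6) (nat_lit 4) (nat_lit 7) (nat_lit 5) (nat_lit 7) (nat_lit 4) (nat_lit 416) (nat_lit 342) (nat_lit 262))))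 (XT.nd (nat_lit 78) (nat_lit 0) (nat_lit 0) (XT.lf (nat_lit 0) (nat_lit 161950163469) (nat_lit 76) (nat_lit 83710000315) (nat_lit 76) (nat_lit 64043939808) (nat_lit 6) (nat_lit 4) (nat_lit 7) (nat_lit 5) (nat_lit 7) (nat_lit 4) (nat_lit 417) (nat_lit 342) (nat_lit 261)) (XT.nd (nat_lit 78) (nat_lit 0) (nat_lit 0) (XT.lf (nat_lit 0) (nat_lit 235248076406) (nat_lit 76) (nat_lit 58694914310) (nat_lit 76) (nat_lit 39025990204) (nat_lit 6) (nat_lit 4) (nat_lit 7) (nat_lit 5) (nat_lit 7) (nat_lit 4) (nat_lit 418) (nat_lit 342) (nat_lit 260)) (XT.lf (nat_lit 0) (nat_lit 314392997081) (nat_lit 76) (nat_lit 31687024190) (nat_lit 76) (nat_lit 12015448603) (nat_lit 6) (nat_lit 4) (nat_lit 7) (nat_lit 5) (nat_lit 7) (nat_lit 4) (nat_lit 419) (nat_lit 342) (nat_lit 259))))) (XT.nd (nat_lit 234) (nat_lit 0) (nat_lit 0) (XT.nd (nat_lit 78) (nat_lit 0) (nat_lit 0) (XT.lf (nat_lit 0) (nat_lit 14828339330)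 (nat_lit 76) (nat_lit 2002085056) (nat_lit 152) (nat_lit 368377081968) (nat_lit 4) (nat_lit 5) (nat_lit 5) (nat_lit 5) (nat_lit 6) (nat_lit 4) (nat_lit 420) (nat_lit 342) (nat_lit 258)) (XT.nd (nat_lit 78) (nat_lit 0) (nat_lit 0) (XT.lf (nat_lit 0) (nat_lit 48803970637) (nat_lit 152) (nat_lit 335548004725) (nat_lit 0) (nat_lit 30064633608) (nat_lit 4) (nat_lit 5) (nat_lit 6) (nat_lit 4) (nat_lit 4) (nat_lit 4) (nat_lit 421) (nat_lit 342) (nat_lit 257)) (XT.lf (nat_lit 0) (nat_lit 83362034885) (nat_lit 152) (nat_lit 297978380177) (nat_lit 0) (nat_lit 64620693256) (nat_lit 4) (nat_lit 5) (nat_lit 6) (nat_lit 4) (nat_lit 4) (nat_lit 4) (nat_lit 422) (nat_lit 342) (nat_lit 256)))) (XT.nd (nat_lit 156) (nat_lit 0) (nat_lit 0) (XT.nd (nat_lit 78) (nat_lit 0) (nat_lit 0) (XT.lf (nat_lit 0) (nat_lit 120678147503) (nat_lit 152) (nat_lit 257416400410) (nat_lit 0) (nat_lit 101934949761) (nat_lit 4)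 (nat_lit 5) (nat_lit 6) (nat_lit 4) (nat_lit 4) (nat_lit 4) (nat_lit 423) (nat_lit 342) (nat_lit 255)) (XT.lf (nat_lit 0) (nat_lit 160973441009) (nat_lit 152) (nat_lit 213621698136) (nat_lit 0) (nat_lit 142228524645) (nat_lit 4) (nat_lit 5) (nat_lit 6) (nat_lit 4) (nat_lit 4) (nat_lit 4) (nat_lit 424) (nat_lit 342) (nat_lit 254))) (XT.nd (nat_lit 78) (nat_lit 0) (nat_lit 0) (XT.lf (nat_lit 0) (nat_lit 204486702327) (nat_lit 152) (nat_lit 166334749194) (nat_lit 0) (nat_lit 185740194646) (nat_lit 4) (nat_lit 5) (nat_lit 6) (nat_lit 4) (nat_lit 4) (nat_lit 4) (nat_lit 425) (nat_lit 342) (nat_lit 253)) (XT.lf (nat_lit 0) (nat_lit 251475787821) (nat_lit 152) (nat_lit 115275334626) (nat_lit 0) (nat_lit 232727806698) (nat_lit 4) (nat_lit 5) (nat_lit 6) (nat_lit 4) (nat_lit 4) (nat_lit 4) (nat_lit 426) (nat_lit 342) (nat_lit 252))))))) (XT.nd (nat_lit 46722) (nat_lit 0) (nat_lit 6536) (XT.nd (nat_lit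 468) (nat_lit 0) (nat_lit 0) (XT.nd (nat_lit 234) (nat_lit 0) (nat_lit 0) (XT.nd (nat_lit 78) (nat_lit 76) (nat_lit 0) (XT.lf (nat_lit 0) (nat_lit 302219151331) (nat_lit 152) (nat_lit 60140880125) (nat_lit 0) (nat_lit 283469805911) (nat_lit 4) (nat_lit 5) (nat_lit 6) (nat_lit 4) (nat_lit 4) (nat_lit 4) (nat_lit 427) (nat_lit 342) (nat_lit 251)) (XT.nd (nat_lit 78) (nat_lit 76) (nat_lit 0) (XT.lf (nat_lit 0) (nat_lit 357017494271) (nat_lit 152) (nat_lit 604662996) (nat_lit 0) (nat_lit 338266885611) (nat_lit 4) (nat_lit 5) (nat_lit 6) (nat_lit 4) (nat_lit 4) (nat_lit 4) (nat_lit 428) (nat_lit 342) (nat_lit 250)) (XT.lf (nat_lit 0) (nat_lit 65791874844) (nat_lit 76) (nat_lit 351430868264) (nat_lit 76) (nat_lit 332679089939) (nat_lit 3) (nat_lit 4) (nat_lit 4) (nat_lit 5) (nat_lit 4) (nat_lit 4) (nat_lit 429) (nat_lit 342) (nat_lit 249)))) (XT.nd (nat_lit 78) (nat_lit 0) (nat_lit 0) (XT.lf (nat_lit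 0) (nat_lit 137513762407) (nat_lit 76) (nat_lit 344737208766) (nat_lit 76) (nat_lit 325984347418) (nat_lit 3) (nat_lit 4) (nat_lit 4) (nat_lit 5) (nat_lit 4) (nat_lit 4) (nat_lit 430) (nat_lit 342) (nat_lit 248)) (XT.nd (nat_lit 78) (nat_lit 0) (nat_lit 0) (XT.lf (nat_lit 0) (nat_lit 214966025396) (nat_lit 76) (nat_lit 337511752905) (nat_lit 76) (nat_lit 318757888757) (nat_lit 3) (nat_lit 4) (nat_lit 4) (nat_lit 5) (nat_lit 4) (nat_lit 4) (nat_lit 431) (nat_lit 342) (nat_lit 247)) (XT.lf (nat_lit 0) (nat_lit 298607640182) (nat_lit 76) (nat_lit 329711683165) (nat_lit 76) (nat_lit 310956890498) (nat_lit 3) (nat_lit 4) (nat_lit 4) (nat_lit 5) (nat_lit 4) (nat_lit 4) (nat_lit 432) (nat_lit 342) (nat_lit 246))))) (XT.nd (nat_lit 234) (nat_lit 0) (nat_lit 0) (XT.nd (nat_lit 78) (nat_lit 0) (nat_lit 0) (XT.lf (nat_lit 0) (nat_lit 388934260781) (nat_lit 76) (nat_lit 321290776909) (nat_lit 76) (nat_lit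 302535124503) (nat_lit 3) (nat_lit 4) (nat_lit 4) (nat_lit 5) (nat_lit 4) (nat_lit 4) (nat_lit 433) (nat_lit 342) (nat_lit 245)) (XT.nd (nat_lit 78) (nat_lit 0) (nat_lit 0) (XT.lf (nat_lit 0) (nat_lit 486481156055) (nat_lit 76) (nat_lit 312199132471) (nat_lit 76) (nat_lit 293442684011) (nat_lit 3) (nat_lit 4) (nat_lit 4) (nat_lit 5) (nat_lit 4) (nat_lit 4) (nat_lit 434) (nat_lit 342) (nat_lit 244)) (XT.lf (nat_lit 0) (nat_lit 591826381679) (nat_lit 76) (nat_lit 302382873439) (nat_lit 76) (nat_lit 283625687892) (nat_lit 3) (nat_lit 4) (nat_lit 4) (nat_lit 5) (nat_lit 4) (nat_lit 4) (nat_lit 435) (nat_lit 342) (nat_lit 243)))) (XT.nd (nat_lit 45864) (nat_lit 0) (nat_lit 12008) (XT.nd (nat_lit 78) (nat_lit 0) (nat_lit 0) (XT.lf (nat_lit 0) (nat_lit 705594205657) (nat_lit 76) (nat_lit 291783829390) (nat_lit 76) (nat_lit 273025961354) (nat_lit 3) (nat_lit 4) (nat_lit 4) (nat_lit 5) (nat_lit 4)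 (nat_lit 4) (nat_lit 436) (nat_lit 342) (nat_lit 242)) (XT.lf (nat_lit 0) (nat_lit 828458807687) (nat_lit 76) (nat_lit 280339191174) (nat_lit 76) (nat_lit 261580691204) (nat_lit 3) (nat_lit 4) (nat_lit 4) (nat_lit 5) (nat_lit 4) (nat_lit 4) (nat_lit 437) (nat_lit 342) (nat_lit 241))) (XT.nd (nat_lit 78) (nat_lit 380) (nat_lit 0) (XT.lf (nat_lit 0) (nat_lit 2841557460) (nat_lit 380) (nat_lit 254698301) (nat_lit 380) (nat_lit 254698301) (nat_lit 166) (nat_lit 3) (nat_lit 171) (nat_lit 3) (nat_lit 171) (nat_lit 5) (nat_lit 343) (nat_lit 343) (nat_lit 334)) (XT.lf (nat_lit 0) (nat_lit 2395095635) (nat_lit 380) (nat_lit 1981057199) (nat_lit 456) (nat_lit 2420955233) (nat_lit 161) (nat_lit 5) (nat_lit 166) (nat_lit 3) (nat_lit 167) (nat_lit 5) (nat_lit 344) (nat_lit 343) (nat_lit 333)))))) (XT.nd (nat_lit 546) (nat_lit 3420) (nat_lit 0) (XT.nd (nat_lit 234) (nat_lit 1672) (nat_lit 0) (XT.nd (nat_lit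 78) (nat_lit 380) (nat_lit 0) (XT.lf (nat_lit 76) (nat_lit 3594022457) (nat_lit 0) (nat_lit 2180628820) (nat_lit 456) (nat_lit 1138292024) (nat_lit 162) (nat_lit 5) (nat_lit 161) (nat_lit 5) (nat_lit 167) (nat_lit 5) (nat_lit 345) (nat_lit 343) (nat_lit 332)) (XT.nd (nat_lit 78) (nat_lit 0) (nat_lit 0) (XT.lf (nat_lit 0) (nat_lit 2070423461) (nat_lit 456) (nat_lit 4556359887) (nat_lit 532) (nat_lit 421620234) (nat_lit 156) (nat_lit 5) (nat_lit 162) (nat_lit 5) (nat_lit 163) (nat_lit 5) (nat_lit 346) (nat_lit 343) (nat_lit 331)) (XT.lf (nat_lit 76) (nat_lit 1484026114) (nat_lit 0) (nat_lit 3833229405) (nat_lit 532) (nat_lit 1885665038) (nat_lit 157) (nat_lit 5) (nat_lit 156) (nat_lit 5) (nat_lit 163) (nat_lit 5) (nat_lit 347) (nat_lit 343) (nat_lit 330)))) (XT.nd (nat_lit 156) (nat_lit 1140) (nat_lit 0) (XT.nd (nat_lit 78) (nat_lit 0) (nat_lit 76) (XT.lf (nat_lit 76) (nat_lit 597662280) (nat_lit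 0) (nat_lit 616200084) (nat_lit 608) (nat_lit 6164675312) (nat_lit 150) (nat_lit 5) (nat_lit 149) (nat_lit 5) (nat_lit 157) (nat_lit 5) (nat_lit 348) (nat_lit 343) (nat_lit 329)) (XT.lf (nat_lit 0) (nat_lit 4377536308) (nat_lit 532) (nat_lit 225308698) (nat_lit 76) (nat_lit 2969878987) (nat_lit 150) (nat_lit 5) (nat_lit 157) (nat_lit 5) (nat_lit 151) (nat_lit 5) (nat_lit 349) (nat_lit 343) (nat_lit 328))) (XT.nd (nat_lit 78) (nat_lit 684) (nat_lit 0) (XT.lf (nat_lit 0) (nat_lit 6871851841) (nat_lit 532) (nat_lit 795213588) (nat_lit 608) (nat_lit 121906444) (nat_lit 143) (nat_lit 5) (nat_lit 150) (nat_lit 5) (nat_lit 151) (nat_lit 5) (nat_lit 350) (nat_lit 343) (nat_lit 327)) (XT.lf (nat_lit 0) (nat_lit 3021616269) (nat_lit 684) (nat_lit 1593284076) (nat_lit 76) (nat_lit 3408933075) (nat_lit 134) (nat_lit 5) (nat_lit 143) (nat_lit 5) (nat_lit 135) (nat_lit 5) (nat_lit 351) (nat_lit 343) (nat_lit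 326))))) (XT.nd (nat_lit 234) (nat_lit 1520) (nat_lit 0) (XT.nd (nat_lit 78) (nat_lit 1216) (nat_lit 0) (XT.lf (nat_lit 0) (nat_lit 6106605034) (nat_lit 684) (nat_lit 212217753) (nat_lit 760) (nat_lit 1963372029) (nat_lit 125) (nat_lit 5) (nat_lit 134) (nat_lit 5) (nat_lit 135) (nat_lit 5) (nat_lit 352) (nat_lit 343) (nat_lit 325)) (XT.nd (nat_lit 78) (nat_lit 380) (nat_lit 0) (XT.lf (nat_lit 0) (nat_lit 1261283254) (nat_lit 836) (nat_lit 2744836413) (nat_lit 76) (nat_lit 4554949454) (nat_lit 114) (nat_lit 5) (nat_lit 125) (nat_lit 5) (nat_lit 115) (nat_lit 5) (nat_lit 353) (nat_lit 343) (nat_lit 324)) (XT.lf (nat_lit 0) (nat_lit 4625355012) (nat_lit 456) (nat_lit 3268057322) (nat_lit 76) (nat_lit 969829980) (nat_lit 109) (nat_lit 5) (nat_lit 115) (nat_lit 5) (nat_lit 110) (nat_lit 5) (nat_lit 354) (nat_lit 343) (nat_lit 323)))) (XT.nd (nat_lit 156) (nat_lit 684) (nat_lit 0) (XT.nd (nat_lit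 78) (nat_lit 456) (nat_lit 0) (XT.lf (nat_lit 0) (nat_lit 5422222045) (nat_lit 380) (nat_lit 2852657314) (nat_lit 456) (nat_lit 913995345) (nat_lit 104) (nat_lit 5) (nat_lit 109) (nat_lit 5) (nat_lit 110) (nat_lit 5) (nat_lit 355) (nat_lit 343) (nat_lit 322)) (XT.lf (nat_lit 0) (nat_lit 2597604345) (nat_lit 456) (nat_lit 4262856091) (nat_lit 76) (nat_lit 2677726129) (nat_lit 98) (nat_lit 5) (nat_lit 104) (nat_lit 5) (nat_lit 99) (nat_lit 5) (nat_lit 356) (nat_lit 343) (nat_lit 321))) (XT.nd (nat_lit 78) (nat_lit 380) (nat_lit 0) (XT.lf (nat_lit 0) (nat_lit 5170598558) (nat_lit 304) (nat_lit 1216678539) (nat_lit 380) (nat_lit 3526041774) (nat_lit 94) (nat_lit 5) (nat_lit 98) (nat_lit 5) (nat_lit 99) (nat_lit 5) (nat_lit 357) (nat_lit 343) (nat_lit 320)) (XT.lf (nat_lit 0) (nat_lit 230973912) (nat_lit 380) (nat_lit 5229317649) (nat_lit 76) (nat_lit 4854392905) (nat_lit 89) (nat_lit 5) (nat_lit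 94) (nat_lit 5) (nat_lit 90) (nat_lit 5) (nat_lit 358) (nat_lit 343) (nat_lit 319))))))))
noncomputable def xc52 : XT := (XT.nd (nat_lit 2028) (nat_lit 1520) (nat_lit 0) (XT.nd (nat_lit 1014) (nat_lit 1748) (nat_lit 0) (XT.nd (nat_lit 468) (nat_lit 1216) (nat_lit 0) (XT.nd (nat_lit 234) (nat_lit 760) (nat_lit 0) (XT.nd (nat_lit 78) (nat_lit 608) (nat_lit 0) (XT.lf (nat_lit 0) (nat_lit 4210766452) (nat_lit 304) (nat_lit 5741364378) (nat_lit 76) (nat_lit 790918528) (nat_lit 86) (nat_lit 5) (nat_lit 90) (nat_lit 5) (nat_lit 87) (nat_lit 5) (nat_lit 359) (nat_lit 343) (nat_lit 318)) (XT.nd (nat_lit 78) (nat_lit 304) (nat_lit 0) (XT.lf (nat_lit 0) (nat_lit 4912909817) (nat_lit 304) (nat_lit 3713752164) (nat_lit 380) (nat_lit 2573198250) (nat_lit 82) (nat_lit 5) (nat_lit 86) (nat_lit 5) (nat_lit 87) (nat_lit 5) (nat_lit 360) (nat_lit 343) (nat_lit 317)) (XT.lf (nat_lit 0) (nat_lit 1737723659) (nat_lit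 304) (nat_lit 6859502868) (nat_lit 76) (nat_lit 3090235435) (nat_lit 78) (nat_lit 5) (nat_lit 82) (nat_lit 5) (nat_lit 79) (nat_lit 5) (nat_lit 361) (nat_lit 343) (nat_lit 316)))) (XT.nd (nat_lit 78) (nat_lit 532) (nat_lit 0) (XT.lf (nat_lit 0) (nat_lit 4708990527) (nat_lit 228) (nat_lit 1711720758) (nat_lit 304) (nat_lit 5785435405) (nat_lit 75) (nat_lit 5) (nat_lit 78) (nat_lit 5) (nat_lit 79) (nat_lit 5) (nat_lit 362) (nat_lit 343) (nat_lit 315)) (XT.nd (nat_lit 78) (nat_lit 304) (nat_lit 0) (XT.lf (nat_lit 0) (nat_lit 4562789706) (nat_lit 228) (nat_lit 7072533119) (nat_lit 304) (nat_lit 1123201582) (nat_lit 72) (nat_lit 5) (nat_lit 75) (nat_lit 5) (nat_lit 76) (nat_lit 5) (nat_lit 363) (nat_lit 343) (nat_lit 314)) (XT.lf (nat_lit 0) (nat_lit 3903830604) (nat_lit 304) (nat_lit 8975076825) (nat_lit 76) (nat_lit 467321467) (nat_lit 68) (nat_lit 5) (nat_lit 72) (nat_lit 5) (nat_lit 69) (nat_lit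 5) (nat_lit 364) (nat_lit 343) (nat_lit 313))))) (XT.nd (nat_lit 234) (nat_lit 608) (nat_lit 0) (XT.nd (nat_lit 78) (nat_lit 456) (nat_lit 0) (XT.lf (nat_lit 0) (nat_lit 4079302711) (nat_lit 152) (nat_lit 5427928454) (nat_lit 228) (nat_lit 4462158806) (nat_lit 66) (nat_lit 5) (nat_lit 68) (nat_lit 5) (nat_lit 69) (nat_lit 5) (nat_lit 365) (nat_lit 343) (nat_lit 312)) (XT.nd (nat_lit 78) (nat_lit 152) (nat_lit 0) (XT.lf (nat_lit 0) (nat_lit 1038279871) (nat_lit 304) (nat_lit 10880626401) (nat_lit 76) (nat_lit 2715260684) (nat_lit 62) (nat_lit 5) (nat_lit 66) (nat_lit 5) (nat_lit 63) (nat_lit 5) (nat_lit 366) (nat_lit 343) (nat_lit 311)) (XT.lf (nat_lit 0) (nat_lit 3267084057) (nat_lit 152) (nat_lit 3768964088) (nat_lit 228) (nat_lit 8301770747) (nat_lit 60) (nat_lit 5) (nat_lit 62) (nat_lit 5) (nat_lit 63) (nat_lit 5) (nat_lit 367) (nat_lit 343) (nat_lit 310)))) (XT.nd (nat_lit 156) (nat_lit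 228) (nat_lit 0) (XT.nd (nat_lit 78) (nat_lit 228) (nat_lit 0) (XT.lf (nat_lit 0) (nat_lit 2688073444) (nat_lit 152) (nat_lit 11037119975) (nat_lit 228) (nat_lit 2362021081) (nat_lit 58) (nat_lit 5) (nat_lit 60) (nat_lit 5) (nat_lit 61) (nat_lit 5) (nat_lit 368) (nat_lit 343) (nat_lit 309)) (XT.lf (nat_lit 0) (nat_lit 1945238333) (nat_lit 152) (nat_lit 2187436191) (nat_lit 228) (nat_lit 12750274985) (nat_lit 55) (nat_lit 5) (nat_lit 57) (nat_lit 5) (nat_lit 58) (nat_lit 5) (nat_lit 369) (nat_lit 343) (nat_lit 308))) (XT.nd (nat_lit 78) (nat_lit 76) (nat_lit 0) (XT.lf (nat_lit 0) (nat_lit 981499104) (nat_lit 152) (nat_lit 10357242020) (nat_lit 228) (nat_lit 6387962580) (nat_lit 53) (nat_lit 5) (nat_lit 55) (nat_lit 5) (nat_lit 56) (nat_lit 5) (nat_lit 370) (nat_lit 343) (nat_lit 307)) (XT.lf (nat_lit 0) (nat_lit 678193407) (nat_lit 228) (nat_lit 118385929) (nat_lit 76) (nat_lit 17830506265)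 (nat_lit 52) (nat_lit 5) (nat_lit 55) (nat_lit 5) (nat_lit 53) (nat_lit 5) (nat_lit 371) (nat_lit 343) (nat_lit 306)))))) (XT.nd (nat_lit 468) (nat_lit 836) (nat_lit 0) (XT.nd (nat_lit 234) (nat_lit 456) (nat_lit 0) (XT.nd (nat_lit 78) (nat_lit 304) (nat_lit 0) (XT.lf (nat_lit 0) (nat_lit 8442555047) (nat_lit 228) (nat_lit 1567121066) (nat_lit 76) (nat_lit 9566769620) (nat_lit 50) (nat_lit 5) (nat_lit 53) (nat_lit 5) (nat_lit 51) (nat_lit 5) (nat_lit 372) (nat_lit 343) (nat_lit 305)) (XT.nd (nat_lit 78) (nat_lit 152) (nat_lit 0) (XT.lf (nat_lit 0) (nat_lit 17039805688) (nat_lit 228) (nat_lit 3202146424) (nat_lit 76) (nat_lit 349233643) (nat_lit 48) (nat_lit 5) (nat_lit 51) (nat_lit 5) (nat_lit 49) (nat_lit 4) (nat_lit 373) (nat_lit 343) (nat_lit 304)) (XT.lf (nat_lit 0) (nat_lit 4870929737) (nat_lit 152) (nat_lit 5292751432) (nat_lit 76) (nat_lit 11500737623) (nat_lit 46) (nat_lit 5) (nat_lit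 48) (nat_lit 5) (nat_lit 47) (nat_lit 5) (nat_lit 374) (nat_lit 343) (nat_lit 303)))) (XT.nd (nat_lit 78) (nat_lit 304) (nat_lit 0) (XT.lf (nat_lit 0) (nat_lit 14077386889) (nat_lit 228) (nat_lit 7730259405) (nat_lit 76) (nat_lit 1001228696) (nat_lit 44) (nat_lit 5) (nat_lit 47) (nat_lit 5) (nat_lit 45) (nat_lit 4) (nat_lit 375) (nat_lit 343) (nat_lit 302)) (XT.nd (nat_lit 78) (nat_lit 152) (nat_lit 0) (XT.lf (nat_lit 0) (nat_lit 383763982) (nat_lit 152) (nat_lit 10676925456) (nat_lit 76) (nat_lit 12963855112) (nat_lit 42) (nat_lit 5) (nat_lit 44) (nat_lit 5) (nat_lit 43) (nat_lit 5) (nat_lit 376) (nat_lit 343) (nat_lit 301)) (XT.lf (nat_lit 0) (nat_lit 10182030607) (nat_lit 228) (nat_lit 14194724705) (nat_lit 76) (nat_lit 940582303) (nat_lit 40) (nat_lit 5) (nat_lit 43) (nat_lit 5) (nat_lit 41) (nat_lit 4) (nat_lit 377) (nat_lit 343) (nat_lit 300))))) (XT.nd (nat_lit 234) (nat_lit 456) (nat_lit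 0) (XT.nd (nat_lit 78) (nat_lit 304) (nat_lit 0) (XT.lf (nat_lit 0) (nat_lit 8296478642) (nat_lit 76) (nat_lit 12904928835) (nat_lit 152) (nat_lit 5490295364) (nat_lit 39) (nat_lit 5) (nat_lit 40) (nat_lit 5) (nat_lit 41) (nat_lit 4) (nat_lit 378) (nat_lit 343) (nat_lit 299)) (XT.nd (nat_lit 78) (nat_lit 76) (nat_lit 0) (XT.lf (nat_lit 0) (nat_lit 4886143566) (nat_lit 152) (nat_lit 144406394) (nat_lit 228) (nat_lit 23128536208) (nat_lit 36) (nat_lit 5) (nat_lit 38) (nat_lit 5) (nat_lit 39) (nat_lit 5) (nat_lit 379) (nat_lit 343) (nat_lit 298)) (XT.lf (nat_lit 0) (nat_lit 549279911) (nat_lit 76) (nat_lit 16137752133) (nat_lit 152) (nat_lit 13028020872) (nat_lit 35) (nat_lit 5) (nat_lit 36) (nat_lit 5) (nat_lit 37) (nat_lit 4) (nat_lit 380) (nat_lit 343) (nat_lit 297)))) (XT.nd (nat_lit 156) (nat_lit 228) (nat_lit 0) (XT.nd (nat_lit 78) (nat_lit 228) (nat_lit 0) (XT.lf (nat_lit 0) (nat_lit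 26994272915) (nat_lit 76) (nat_lit 2629089164) (nat_lit 152) (nat_lit 1754776894) (nat_lit 35) (nat_lit 5) (nat_lit 36) (nat_lit 5) (nat_lit 37) (nat_lit 4) (nat_lit 381) (nat_lit 343) (nat_lit 296)) (XT.lf (nat_lit 0) (nat_lit 10581048898) (nat_lit 228) (nat_lit 10501788439) (nat_lit 76) (nat_lit 12058595606) (nat_lit 32) (nat_lit 5) (nat_lit 35) (nat_lit 5) (nat_lit 33) (nat_lit 4) (nat_lit 382) (nat_lit 343) (nat_lit 295))) (XT.nd (nat_lit 78) (nat_lit 152) (nat_lit 0) (XT.lf (nat_lit 0) (nat_lit 17316048025) (nat_lit 76) (nat_lit 6864343935) (nat_lit 152) (nat_lit 10847060517) (nat_lit 31) (nat_lit 5) (nat_lit 32) (nat_lit 5) (nat_lit 33) (nat_lit 4) (nat_lit 383) (nat_lit 343) (nat_lit 294)) (XT.lf (nat_lit 0) (nat_lit 2186507129) (nat_lit 152) (nat_lit 26289153107) (nat_lit 76) (nat_lit 8565246863) (nat_lit 29) (nat_lit 5) (nat_lit 31) (nat_lit 5) (nat_lit 30) (nat_lit 4) (nat_lit 384)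 (nat_lit 343) (nat_lit 293))))))) (XT.nd (nat_lit 1014) (nat_lit 532) (nat_lit 0) (XT.nd (nat_lit 468) (nat_lit 532) (nat_lit 0) (XT.nd (nat_lit 234) (nat_lit 228) (nat_lit 0) (XT.nd (nat_lit 78) (nat_lit 152) (nat_lit 0) (XT.lf (nat_lit 0) (nat_lit 2606719162) (nat_lit 76) (nat_lit 13699558698) (nat_lit 152) (nat_lit 22879097534) (nat_lit 28) (nat_lit 5) (nat_lit 29) (nat_lit 5) (nat_lit 30) (nat_lit 4) (nat_lit 385) (nat_lit 343) (nat_lit 292)) (XT.nd (nat_lit 78) (nat_lit 152) (nat_lit 0) (XT.lf (nat_lit 0) (nat_lit 32006460847) (nat_lit 152) (nat_lit 6863209642) (nat_lit 0) (nat_lit 2609194342) (nat_lit 28) (nat_lit 5) (nat_lit 30) (nat_lit 4) (nat_lit 28) (nat_lit 4) (nat_lit 386) (nat_lit 343) (nat_lit 291)) (XT.lf (nat_lit 0) (nat_lit 5442784031) (nat_lit 152) (nat_lit 18280105430) (nat_lit 76) (nat_lit 20199229596) (nat_lit 26) (nat_lit 5) (nat_lit 28) (nat_lit 5) (nat_lit 27) (nat_lit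 4) (nat_lit 387) (nat_lit 343) (nat_lit 290)))) (XT.nd (nat_lit 78) (nat_lit 152) (nat_lit 0) (XT.lf (nat_lit 0) (nat_lit 14659803031) (nat_lit 76) (nat_lit 6869542575) (nat_lit 152) (nat_lit 25008226733) (nat_lit 25) (nat_lit 5) (nat_lit 26) (nat_lit 5) (nat_lit 27) (nat_lit 4) (nat_lit 388) (nat_lit 343) (nat_lit 289)) (XT.nd (nat_lit 78) (nat_lit 76) (nat_lit 0) (XT.lf (nat_lit 0) (nat_lit 1317964586) (nat_lit 76) (nat_lit 38062643033) (nat_lit 76) (nat_lit 9957769428) (nat_lit 24) (nat_lit 4) (nat_lit 25) (nat_lit 5) (nat_lit 25) (nat_lit 4) (nat_lit 389) (nat_lit 343) (nat_lit 288)) (XT.lf (nat_lit 0) (nat_lit 6733326387) (nat_lit 152) (nat_lit 14332208674) (nat_lit 76) (nat_lit 31260892247) (nat_lit 23) (nat_lit 5) (nat_lit 25) (nat_lit 5) (nat_lit 24) (nat_lit 4) (nat_lit 390) (nat_lit 343) (nat_lit 287))))) (XT.nd (nat_lit 234) (nat_lit 304) (nat_lit 0) (XT.nd (nat_lit 78) (nat_lit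 152) (nat_lit 0) (XT.lf (nat_lit 0) (nat_lit 22529045543) (nat_lit 76) (nat_lit 2199226064) (nat_lit 152) (nat_lit 30801219417) (nat_lit 22) (nat_lit 5) (nat_lit 23) (nat_lit 5) (nat_lit 24) (nat_lit 4) (nat_lit 391) (nat_lit 343) (nat_lit 286)) (XT.nd (nat_lit 78) (nat_lit 76) (nat_lit 0) (XT.lf (nat_lit 0) (nat_lit 3629754673) (nat_lit 76) (nat_lit 41089513749) (nat_lit 76) (nat_lit 14241711598) (nat_lit 21) (nat_lit 4) (nat_lit 22) (nat_lit 5) (nat_lit 22) (nat_lit 4) (nat_lit 392) (nat_lit 343) (nat_lit 285)) (XT.lf (nat_lit 0) (nat_lit 4110684938) (nat_lit 152) (nat_lit 18444073516) (nat_lit 76) (nat_lit 40080153146) (nat_lit 20) (nat_lit 5) (nat_lit 22) (nat_lit 5) (nat_lit 21) (nat_lit 4) (nat_lit 393) (nat_lit 343) (nat_lit 284)))) (XT.nd (nat_lit 156) (nat_lit 228) (nat_lit 0) (XT.nd (nat_lit 78) (nat_lit 0) (nat_lit 0) (XT.lf (nat_lit 0) (nat_lit 21785193076) (nat_lit 76) (nat_lit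 1959992047) (nat_lit 152) (nat_lit 42830257877) (nat_lit 19) (nat_lit 5) (nat_lit 20) (nat_lit 5) (nat_lit 21) (nat_lit 4) (nat_lit 394) (nat_lit 343) (nat_lit 283)) (XT.lf (nat_lit 0) (nat_lit 45560782384) (nat_lit 152) (nat_lit 5309904849) (nat_lit 0) (nat_lit 19930015076) (nat_lit 19) (nat_lit 5) (nat_lit 21) (nat_lit 4) (nat_lit 19) (nat_lit 4) (nat_lit 395) (nat_lit 343) (nat_lit 282))) (XT.nd (nat_lit 78) (nat_lit 152) (nat_lit 0) (XT.lf (nat_lit 0) (nat_lit 38467525692) (nat_lit 76) (nat_lit 31257293917) (nat_lit 76) (nat_lit 5609005228) (nat_lit 18) (nat_lit 4) (nat_lit 19) (nat_lit 5) (nat_lit 19) (nat_lit 4) (nat_lit 396) (nat_lit 343) (nat_lit 281)) (XT.lf (nat_lit 0) (nat_lit 5587792755) (nat_lit 76) (nat_lit 9657234047) (nat_lit 152) (nat_lit 64964815276) (nat_lit 16) (nat_lit 5) (nat_lit 17) (nat_lit 5) (nat_lit 18) (nat_lit 4) (nat_lit 397) (nat_lit 343) (nat_lit 280))))))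 (XT.nd (nat_lit 468) (nat_lit 228) (nat_lit 0) (XT.nd (nat_lit 234) (nat_lit 228) (nat_lit 0) (XT.nd (nat_lit 78) (nat_lit 76) (nat_lit 0) (XT.lf (nat_lit 0) (nat_lit 38410997341) (nat_lit 152) (nat_lit 33064042767) (nat_lit 0) (nat_lit 13954298340) (nat_lit 16) (nat_lit 5) (nat_lit 18) (nat_lit 4) (nat_lit 16) (nat_lit 4) (nat_lit 398) (nat_lit 343) (nat_lit 279)) (XT.nd (nat_lit 78) (nat_lit 0) (nat_lit 0) (XT.lf (nat_lit 0) (nat_lit 11987245984) (nat_lit 76) (nat_lit 51766461366) (nat_lit 76) (nat_lit 27296515662) (nat_lit 15) (nat_lit 4) (nat_lit 16) (nat_lit 5) (nat_lit 16) (nat_lit 4) (nat_lit 399) (nat_lit 343) (nat_lit 278)) (XT.lf (nat_lit 0) (nat_lit 61773425640) (nat_lit 76) (nat_lit 29901017442) (nat_lit 76) (nat_lit 5418806272) (nat_lit 15) (nat_lit 4) (nat_lit 16) (nat_lit 5) (nat_lit 16) (nat_lit 4) (nat_lit 400) (nat_lit 343) (nat_lit 277)))) (XT.nd (nat_lit 78) (nat_lit 76)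 (nat_lit 0) (XT.lf (nat_lit 0) (nat_lit 11974742168) (nat_lit 76) (nat_lit 5814677465) (nat_lit 152) (nat_lit 85807929421) (nat_lit 13) (nat_lit 5) (nat_lit 14) (nat_lit 5) (nat_lit 15) (nat_lit 4) (nat_lit 401) (nat_lit 343) (nat_lit 276)) (XT.nd (nat_lit 78) (nat_lit 76) (nat_lit 0) (XT.lf (nat_lit 0) (nat_lit 43584548634) (nat_lit 152) (nat_lit 46739456941) (nat_lit 0) (nat_lit 20247326023) (nat_lit 13) (nat_lit 5) (nat_lit 15) (nat_lit 4) (nat_lit 13) (nat_lit 4) (nat_lit 402) (nat_lit 343) (nat_lit 275)) (XT.lf (nat_lit 0) (nat_lit 1646628939) (nat_lit 76) (nat_lit 69898991970) (nat_lit 76) (nat_lit 46552496291) (nat_lit 12) (nat_lit 4) (nat_lit 13) (nat_lit 5) (nat_lit 13) (nat_lit 4) (nat_lit 403) (nat_lit 343) (nat_lit 274))))) (XT.nd (nat_lit 234) (nat_lit 76) (nat_lit 0) (XT.nd (nat_lit 78) (nat_lit 152) (nat_lit 0) (XT.lf (nat_lit 0) (nat_lit 55532121687) (nat_lit 76) (nat_lit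 47005160831) (nat_lit 76) (nat_lit 23650078978) (nat_lit 12) (nat_lit 4) (nat_lit 13) (nat_lit 5) (nat_lit 13) (nat_lit 4) (nat_lit 404) (nat_lit 343) (nat_lit 273)) (XT.nd (nat_lit 78) (nat_lit 76) (nat_lit 0) (XT.lf (nat_lit 0) (nat_lit 1030556822) (nat_lit 152) (nat_lit 21250390528) (nat_lit 76) (nat_lit 112642915412) (nat_lit 11) (nat_lit 5) (nat_lit 13) (nat_lit 5) (nat_lit 12) (nat_lit 4) (nat_lit 405) (nat_lit 343) (nat_lit 272)) (XT.lf (nat_lit 0) (nat_lit 27444817547) (nat_lit 152) (nat_lit 111678394082) (nat_lit 0) (nat_lit 5187300142) (nat_lit 10) (nat_lit 5) (nat_lit 12) (nat_lit 4) (nat_lit 10) (nat_lit 4) (nat_lit 406) (nat_lit 343) (nat_lit 271)))) (XT.nd (nat_lit 156) (nat_lit 76) (nat_lit 0) (XT.nd (nat_lit 78) (nat_lit 0) (nat_lit 0) (XT.lf (nat_lit 0) (nat_lit 56706848564) (nat_lit 152) (nat_lit 63261673692) (nat_lit 0) (nat_lit 34442839747) (nat_lit 10) (nat_lit 5) (nat_lit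 12) (nat_lit 4) (nat_lit 10) (nat_lit 4) (nat_lit 407) (nat_lit 343) (nat_lit 270)) (XT.lf (nat_lit 0) (nat_lit 88293819412) (nat_lit 152) (nat_lit 11003462659) (nat_lit 0) (nat_lit 66023800029) (nat_lit 10) (nat_lit 5) (nat_lit 12) (nat_lit 4) (nat_lit 10) (nat_lit 4) (nat_lit 408) (nat_lit 343) (nat_lit 269))) (XT.nd (nat_lit 78) (nat_lit 0) (nat_lit 0) (XT.lf (nat_lit 0) (nat_lit 46907241988) (nat_lit 76) (nat_lit 76218023657) (nat_lit 76) (nat_lit 53942438935) (nat_lit 9) (nat_lit 4) (nat_lit 10) (nat_lit 5) (nat_lit 10) (nat_lit 4) (nat_lit 409) (nat_lit 343) (nat_lit 268)) (XT.lf (nat_lit 0) (nat_lit 109815526668) (nat_lit 76) (nat_lit 51105196910) (nat_lit 76) (nat_lit 28824459096) (nat_lit 9) (nat_lit 4) (nat_lit 10) (nat_lit 5) (nat_lit 10) (nat_lit 4) (nat_lit 410) (nat_lit 343) (nat_lit 267))))))))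
noncomputable def xc53 : XT := (XT.nd (nat_lit 2028) (nat_lit 0) (nat_lit 0) (XT.nd (nat_lit 1014) (nat_lit 76) (nat_lit 0) (XT.nd (nat_lit 468) (nat_lit 152) (nat_lit 0) (XT.nd (nat_lit 234) (nat_lit 76) (nat_lit 0) (XT.nd (nat_lit 78) (nat_lit 152) (nat_lit 0) (XT.lf (nat_lit 0) (nat_lit 177730357045) (nat_lit 76) (nat_lit 23996334042) (nat_lit 76) (nat_lit 1710824847) (nat_lit 9) (nat_lit 4) (nat_lit 10) (nat_lit 5) (nat_lit 10) (nat_lit 4) (nat_lit 411) (nat_lit 343) (nat_lit 266)) (XT.nd (nat_lit 78) (nat_lit 0) (nat_lit 0) (XT.lf (nat_lit 0) (nat_lit 27297509462) (nat_lit 152) (nat_lit 184806791624) (nat_lit 0) (nat_lit 6069007423) (nat_lit 7) (nat_lit 5) (nat_lit 9) (nat_lit 4) (nat_lit 7) (nat_lit 4) (nat_lit 412) (nat_lit 343) (nat_lit 265)) (XT.lf (nat_lit 0) (nat_lit 59415148555) (nat_lit 152) (nat_lit 136446234612) (nat_lit 0) (nat_lit 38182750621) (nat_lit 7) (nat_lit 5) (nat_lit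 9) (nat_lit 4) (nat_lit 7) (nat_lit 4) (nat_lit 413) (nat_lit 343) (nat_lit 264)))) (XT.nd (nat_lit 78) (nat_lit 76) (nat_lit 0) (XT.lf (nat_lit 0) (nat_lit 94091097403) (nat_lit 152) (nat_lit 84238991025) (nat_lit 0) (nat_lit 72855092158) (nat_lit 7) (nat_lit 5) (nat_lit 9) (nat_lit 4) (nat_lit 7) (nat_lit 4) (nat_lit 414) (nat_lit 343) (nat_lit 263)) (XT.nd (nat_lit 78) (nat_lit 76) (nat_lit 0) (XT.lf (nat_lit 0) (nat_lit 131530843110) (nat_lit 152) (nat_lit 27875684606) (nat_lit 0) (nat_lit 110291497763) (nat_lit 7) (nat_lit 5) (nat_lit 9) (nat_lit 4) (nat_lit 7) (nat_lit 4) (nat_lit 415) (nat_lit 343) (nat_lit 262)) (XT.lf (nat_lit 0) (nat_lit 34068080767) (nat_lit 76) (nat_lit 138420068285) (nat_lit 76) (nat_lit 117177630250) (nat_lit 6) (nat_lit 4) (nat_lit 7) (nat_lit 5) (nat_lit 7) (nat_lit 4) (nat_lit 416) (nat_lit 343) (nat_lit 261))))) (XT.nd (nat_lit 234) (nat_lit 152) (nat_lit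 0) (XT.nd (nat_lit 78) (nat_lit 0) (nat_lit 0) (XT.lf (nat_lit 0) (nat_lit 101944607756) (nat_lit 76) (nat_lit 115253911822) (nat_lit 76) (nat_lit 94008610188) (nat_lit 6) (nat_lit 4) (nat_lit 7) (nat_lit 5) (nat_lit 7) (nat_lit 4) (nat_lit 417) (nat_lit 343) (nat_lit 260)) (XT.nd (nat_lit 78) (nat_lit 0) (nat_lit 0) (XT.lf (nat_lit 0) (nat_lit 175234431608) (nat_lit 76) (nat_lit 90242865608) (nat_lit 76) (nat_lit 68994912493) (nat_lit 6) (nat_lit 4) (nat_lit 7) (nat_lit 5) (nat_lit 7) (nat_lit 4) (nat_lit 418) (nat_lit 343) (nat_lit 259)) (XT.lf (nat_lit 0) (nat_lit 254371862389) (nat_lit 76) (nat_lit 63238716036) (nat_lit 76) (nat_lit 41988307846) (nat_lit 6) (nat_lit 4) (nat_lit 7) (nat_lit 5) (nat_lit 7) (nat_lit 4) (nat_lit 419) (nat_lit 343) (nat_lit 258)))) (XT.nd (nat_lit 156) (nat_lit 0) (nat_lit 0) (XT.nd (nat_lit 78) (nat_lit 152) (nat_lit 0) (XT.lf (nat_lit 0) (nat_lit 339825862654)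 (nat_lit 76) (nat_lit 34081438516) (nat_lit 76) (nat_lit 12828757108) (nat_lit 6) (nat_lit 4) (nat_lit 7) (nat_lit 5) (nat_lit 7) (nat_lit 4) (nat_lit 420) (nat_lit 343) (nat_lit 257)) (XT.lf (nat_lit 0) (nat_lit 16288335507) (nat_lit 76) (nat_lit 2025382417) (nat_lit 152) (nat_lit 397703541305) (nat_lit 4) (nat_lit 5) (nat_lit 5) (nat_lit 5) (nat_lit 6) (nat_lit 4) (nat_lit 421) (nat_lit 343) (nat_lit 256))) (XT.nd (nat_lit 78) (nat_lit 0) (nat_lit 0) (XT.lf (nat_lit 0) (nat_lit 52836988753) (nat_lit 152) (nat_lit 362134030522) (nat_lit 0) (nat_lit 32592479080) (nat_lit 4) (nat_lit 5) (nat_lit 6) (nat_lit 4) (nat_lit 4) (nat_lit 4) (nat_lit 422) (nat_lit 343) (nat_lit 255)) (XT.lf (nat_lit 0) (nat_lit 90150164774) (nat_lit 152) (nat_lit 321577933386) (nat_lit 0) (nat_lit 69903936479) (nat_lit 4) (nat_lit 5) (nat_lit 6) (nat_lit 4) (nat_lit 4) (nat_lit 4) (nat_lit 423) (nat_lit 343) (nat_lit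 254)))))) (XT.nd (nat_lit 468) (nat_lit 76) (nat_lit 0) (XT.nd (nat_lit 234) (nat_lit 0) (nat_lit 0) (XT.nd (nat_lit 78) (nat_lit 0) (nat_lit 0) (XT.lf (nat_lit 0) (nat_lit 130442739209) (nat_lit 152) (nat_lit 277788677994) (nat_lit 0) (nat_lit 110194919596) (nat_lit 4) (nat_lit 5) (nat_lit 6) (nat_lit 4) (nat_lit 4) (nat_lit 4) (nat_lit 424) (nat_lit 343) (nat_lit 253)) (XT.nd (nat_lit 78) (nat_lit 0) (nat_lit 0) (XT.lf (nat_lit 0) (nat_lit 173953482869) (nat_lit 152) (nat_lit 230506772460) (nat_lit 0) (nat_lit 153704189815) (nat_lit 4) (nat_lit 5) (nat_lit 6) (nat_lit 4) (nat_lit 4) (nat_lit 4) (nat_lit 425) (nat_lit 343) (nat_lit 252)) (XT.lf (nat_lit 0) (nat_lit 220940237198) (nat_lit 152) (nat_lit 179452027716) (nat_lit 0) (nat_lit 200689579846) (nat_lit 4) (nat_lit 5) (nat_lit 6) (nat_lit 4) (nat_lit 4) (nat_lit 4) (nat_lit 426) (nat_lit 343) (nat_lit 251)))) (XT.nd (nat_lit 78) (nat_lit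 0) (nat_lit 0) (XT.lf (nat_lit 0) (nat_lit 271681442222) (nat_lit 152) (nat_lit 124321897124) (nat_lit 0) (nat_lit 251429521631) (nat_lit 4) (nat_lit 5) (nat_lit 6) (nat_lit 4) (nat_lit 4) (nat_lit 4) (nat_lit 427) (nat_lit 343) (nat_lit 250)) (XT.nd (nat_lit 78) (nat_lit 0) (nat_lit 0) (XT.lf (nat_lit 0) (nat_lit 326477786562) (nat_lit 152) (nat_lit 64789683616) (nat_lit 0) (nat_lit 306224696306) (nat_lit 4) (nat_lit 5) (nat_lit 6) (nat_lit 4) (nat_lit 4) (nat_lit 4) (nat_lit 428) (nat_lit 343) (nat_lit 249)) (XT.lf (nat_lit 0) (nat_lit 385653989298) (nat_lit 152) (nat_lit 502603704) (nat_lit 0) (nat_lit 365399816018) (nat_lit 4) (nat_lit 5) (nat_lit 6) (nat_lit 4) (nat_lit 4) (nat_lit 4) (nat_lit 429) (nat_lit 343) (nat_lit 248))))) (XT.nd (nat_lit 234) (nat_lit 0) (nat_lit 0) (XT.nd (nat_lit 78) (nat_lit 0) (nat_lit 0) (XT.lf (nat_lit 0) (nat_lit 71199119558) (nat_lit 76) (nat_lit 379473222456)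 (nat_lit 76) (nat_lit 359218046376) (nat_lit 3) (nat_lit 4) (nat_lit 4) (nat_lit 5) (nat_lit 4) (nat_lit 4) (nat_lit 430) (nat_lit 343) (nat_lit 247)) (XT.nd (nat_lit 78) (nat_lit 0) (nat_lit 0) (XT.lf (nat_lit 0) (nat_lit 148648099257) (nat_lit 76) (nat_lit 372249412070) (nat_lit 76) (nat_lit 351993307473) (nat_lit 3) (nat_lit 4) (nat_lit 4) (nat_lit 5) (nat_lit 4) (nat_lit 4) (nat_lit 431) (nat_lit 343) (nat_lit 246)) (XT.lf (nat_lit 0) (nat_lit 232286673962) (nat_lit 76) (nat_lit 364450865918) (nat_lit 76) (nat_lit 344193901581) (nat_lit 3) (nat_lit 4) (nat_lit 4) (nat_lit 5) (nat_lit 4) (nat_lit 4) (nat_lit 432) (nat_lit 343) (nat_lit 245)))) (XT.nd (nat_lit 156) (nat_lit 0) (nat_lit 0) (XT.nd (nat_lit 78) (nat_lit 0) (nat_lit 0) (XT.lf (nat_lit 0) (nat_lit 322610479670) (nat_lit 76) (nat_lit 356031370392) (nat_lit 76) (nat_lit 335773610001) (nat_lit 3) (nat_lit 4) (nat_lit 4) (nat_lit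 5) (nat_lit 4) (nat_lit 4) (nat_lit 433) (nat_lit 343) (nat_lit 244)) (XT.lf (nat_lit 0) (nat_lit 420154768563) (nat_lit 76) (nat_lit 346941032186) (nat_lit 76) (nat_lit 326682534707) (nat_lit 3) (nat_lit 4) (nat_lit 4) (nat_lit 5) (nat_lit 4) (nat_lit 4) (nat_lit 434) (nat_lit 343) (nat_lit 243))) (XT.nd (nat_lit 78) (nat_lit 0) (nat_lit 0) (XT.lf (nat_lit 0) (nat_lit 525497580872) (nat_lit 76) (nat_lit 337125982628) (nat_lit 76) (nat_lit 316866802660) (nat_lit 3) (nat_lit 4) (nat_lit 4) (nat_lit 5) (nat_lit 4) (nat_lit 4) (nat_lit 435) (nat_lit 343) (nat_lit 242)) (XT.lf (nat_lit 0) (nat_lit 639263170299) (nat_lit 76) (nat_lit 326528058462) (nat_lit 76) (nat_lit 306268246561) (nat_lit 3) (nat_lit 4) (nat_lit 4) (nat_lit 5) (nat_lit 4) (nat_lit 4) (nat_lit 436) (nat_lit 343) (nat_lit 241))))))) (XT.nd (nat_lit 46800) (nat_lit 0) (nat_lit 4180) (XT.nd (nat_lit 46254) (nat_lit 0) (nat_lit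 7676) (XT.nd (nat_lit 46020) (nat_lit 0) (nat_lit 11020) (XT.nd (nat_lit 45864) (nat_lit 0) (nat_lit 11476) (XT.lf (nat_lit 0) (nat_lit 762125703300) (nat_lit 76) (nat_lit 315084457175) (nat_lit 76) (nat_lit 294824060149) (nat_lit 3) (nat_lit 4) (nat_lit 4) (nat_lit 5) (nat_lit 4) (nat_lit 4) (nat_lit 437) (nat_lit 343) (nat_lit 240)) (XT.nd (nat_lit 78) (nat_lit 532) (nat_lit 0) (XT.lf (nat_lit 0) (nat_lit 1387747204) (nat_lit 0) (nat_lit 1387747204) (nat_lit 380) (nat_lit 675960780) (nat_lit 161) (nat_lit 5) (nat_lit 161) (nat_lit 3) (nat_lit 166) (nat_lit 3) (nat_lit 344) (nat_lit 344) (nat_lit 332)) (XT.lf (nat_lit 76) (nat_lit 1301446213) (nat_lit 0) (nat_lit 321522745) (nat_lit 532) (nat_lit 5405779375) (nat_lit 155) (nat_lit 5) (nat_lit 154) (nat_lit 3) (nat_lit 161) (nat_lit 5) (nat_lit 345) (nat_lit 344) (nat_lit 331)))) (XT.nd (nat_lit 78) (nat_lit 532) (nat_lit 0) (XT.lf (nat_lit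 0) (nat_lit 4601689562) (nat_lit 456) (nat_lit 87636290) (nat_lit 532) (nat_lit 2483777035) (nat_lit 155) (nat_lit 5) (nat_lit 161) (nat_lit 5) (nat_lit 162) (nat_lit 5) (nat_lit 346) (nat_lit 344) (nat_lit 330)) (XT.nd (nat_lit 78) (nat_lit 0) (nat_lit 76) (XT.lf (nat_lit 0) (nat_lit 295582151) (nat_lit 532) (nat_lit 1317152953) (nat_lit 608) (nat_lit 5725002867) (nat_lit 148) (nat_lit 5) (nat_lit 155) (nat_lit 5) (nat_lit 156) (nat_lit 5) (nat_lit 347) (nat_lit 344) (nat_lit 329)) (XT.lf (nat_lit 0) (nat_lit 3152390936) (nat_lit 532) (nat_lit 2495903226) (nat_lit 608) (nat_lit 1872792708) (nat_lit 149) (nat_lit 5) (nat_lit 156) (nat_lit 5) (nat_lit 157) (nat_lit 5) (nat_lit 348) (nat_lit 344) (nat_lit 328))))) (XT.nd (nat_lit 234) (nat_lit 2280) (nat_lit 0) (XT.nd (nat_lit 78) (nat_lit 1140) (nat_lit 0) (XT.lf (nat_lit 76) (nat_lit 4135613920) (nat_lit 0) (nat_lit 1974040758) (nat_lit 608)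 (nat_lit 1616018211) (nat_lit 150) (nat_lit 5) (nat_lit 149) (nat_lit 5) (nat_lit 157) (nat_lit 5) (nat_lit 349) (nat_lit 344) (nat_lit 327)) (XT.nd (nat_lit 78) (nat_lit 608) (nat_lit 0) (XT.lf (nat_lit 0) (nat_lit 1212352140) (nat_lit 608) (nat_lit 4632092779) (nat_lit 76) (nat_lit 2106321556) (nat_lit 142) (nat_lit 5) (nat_lit 150) (nat_lit 5) (nat_lit 143) (nat_lit 5) (nat_lit 350) (nat_lit 344) (nat_lit 326)) (XT.lf (nat_lit 0) (nat_lit 2560253959) (nat_lit 608) (nat_lit 1571437318) (nat_lit 684) (nat_lit 4064920333) (nat_lit 134) (nat_lit 5) (nat_lit 142) (nat_lit 5) (nat_lit 143) (nat_lit 5) (nat_lit 351) (nat_lit 344) (nat_lit 325)))) (XT.nd (nat_lit 156) (nat_lit 760) (nat_lit 0) (XT.nd (nat_lit 78) (nat_lit 836) (nat_lit 0) (XT.lf (nat_lit 0) (nat_lit 1865420121) (nat_lit 684) (nat_lit 5375427735) (nat_lit 760) (nat_lit 1223587518) (nat_lit 125) (nat_lit 5) (nat_lit 134) (nat_lit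 5) (nat_lit 135) (nat_lit 5) (nat_lit 352) (nat_lit 344) (nat_lit 324)) (XT.lf (nat_lit 0) (nat_lit 1222654555) (nat_lit 760) (nat_lit 515404586) (nat_lit 836) (nat_lit 7016692374) (nat_lit 114) (nat_lit 5) (nat_lit 124) (nat_lit 5) (nat_lit 125) (nat_lit 5) (nat_lit 353) (nat_lit 344) (nat_lit 323))) (XT.nd (nat_lit 78) (nat_lit 380) (nat_lit 0) (XT.lf (nat_lit 0) (nat_lit 584503040) (nat_lit 380) (nat_lit 4328182365) (nat_lit 456) (nat_lit 4153760465) (nat_lit 109) (nat_lit 5) (nat_lit 114) (nat_lit 5) (nat_lit 115) (nat_lit 5) (nat_lit 354) (nat_lit 344) (nat_lit 322)) (XT.lf (nat_lit 0) (nat_lit 15516733) (nat_lit 380) (nat_lit 8312583045) (nat_lit 456) (nat_lit 1075729247) (nat_lit 104) (nat_lit 5) (nat_lit 109) (nat_lit 5) (nat_lit 110) (nat_lit 5) (nat_lit 355) (nat_lit 344) (nat_lit 321)))))) (XT.nd (nat_lit 546) (nat_lit 1520) (nat_lit 0) (XT.nd (nat_lit 234) (nat_lit 1216) (nat_lit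 0) (XT.nd (nat_lit 78) (nat_lit 684) (nat_lit 0) (XT.lf (nat_lit 0) (nat_lit 2236136104) (nat_lit 456) (nat_lit 554941433) (nat_lit 76) (nat_lit 6972475060) (nat_lit 103) (nat_lit 5) (nat_lit 109) (nat_lit 5) (nat_lit 104) (nat_lit 5) (nat_lit 356) (nat_lit 344) (nat_lit 320)) (XT.nd (nat_lit 78) (nat_lit 304) (nat_lit 0) (XT.lf (nat_lit 0) (nat_lit 5818165083) (nat_lit 456) (nat_lit 1111661692) (nat_lit 76) (nat_lit 3219277277) (nat_lit 98) (nat_lit 5) (nat_lit 104) (nat_lit 5) (nat_lit 99) (nat_lit 5) (nat_lit 357) (nat_lit 344) (nat_lit 319)) (XT.lf (nat_lit 0) (nat_lit 8924701578) (nat_lit 304) (nat_lit 815297099) (nat_lit 380) (nat_lit 822910012) (nat_lit 94) (nat_lit 5) (nat_lit 98) (nat_lit 5) (nat_lit 99) (nat_lit 5) (nat_lit 358) (nat_lit 344) (nat_lit 318)))) (XT.nd (nat_lit 156) (nat_lit 608) (nat_lit 0) (XT.nd (nat_lit 78) (nat_lit 228) (nat_lit 0) (XT.lf (nat_lit 0) (nat_lit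 2985164370) (nat_lit 380) (nat_lit 2230907954) (nat_lit 76) (nat_lit 5785776652) (nat_lit 89) (nat_lit 5) (nat_lit 94) (nat_lit 5) (nat_lit 90) (nat_lit 5) (nat_lit 359) (nat_lit 344) (nat_lit 317)) (XT.lf (nat_lit 0) (nat_lit 7142403607) (nat_lit 304) (nat_lit 2812749687) (nat_lit 76) (nat_lit 1516467312) (nat_lit 86) (nat_lit 5) (nat_lit 90) (nat_lit 5) (nat_lit 87) (nat_lit 5) (nat_lit 360) (nat_lit 344) (nat_lit 316))) (XT.nd (nat_lit 78) (nat_lit 304) (nat_lit 0) (XT.lf (nat_lit 0) (nat_lit 8546631402) (nat_lit 304) (nat_lit 3223329993) (nat_lit 380) (nat_lit 202179416) (nat_lit 82) (nat_lit 5) (nat_lit 86) (nat_lit 5) (nat_lit 87) (nat_lit 5) (nat_lit 361) (nat_lit 344) (nat_lit 315)) (XT.lf (nat_lit 0) (nat_lit 4248823118) (nat_lit 304) (nat_lit 4122482161) (nat_lit 76) (nat_lit 4131623711) (nat_lit 78) (nat_lit 5) (nat_lit 82) (nat_lit 5) (nat_lit 79) (nat_lit 5) (nat_lit 362) (nat_lit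 344) (nat_lit 314))))) (XT.nd (nat_lit 234) (nat_lit 760) (nat_lit 0) (XT.nd (nat_lit 78) (nat_lit 532) (nat_lit 0) (XT.lf (nat_lit 0) (nat_lit 8228694670) (nat_lit 228) (nat_lit 951116140) (nat_lit 304) (nat_lit 3889698214) (nat_lit 75) (nat_lit 5) (nat_lit 78) (nat_lit 5) (nat_lit 79) (nat_lit 5) (nat_lit 363) (nat_lit 344) (nat_lit 313)) (XT.nd (nat_lit 78) (nat_lit 228) (nat_lit 0) (XT.lf (nat_lit 0) (nat_lit 1002133511) (nat_lit 304) (nat_lit 5658534409) (nat_lit 76) (nat_lit 7009911142) (nat_lit 71) (nat_lit 5) (nat_lit 75) (nat_lit 5) (nat_lit 72) (nat_lit 5) (nat_lit 364) (nat_lit 344) (nat_lit 312)) (XT.lf (nat_lit 0) (nat_lit 6293888798) (nat_lit 304) (nat_lit 6568468154) (nat_lit 76) (nat_lit 1446982697) (nat_lit 68) (nat_lit 5) (nat_lit 72) (nat_lit 5) (nat_lit 69) (nat_lit 5) (nat_lit 365) (nat_lit 344) (nat_lit 311)))) (XT.nd (nat_lit 156) (nat_lit 304) (nat_lit 0) (XT.nd (nat_lit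 78) (nat_lit 304) (nat_lit 0) (XT.lf (nat_lit 0) (nat_lit 7394469793) (nat_lit 152) (nat_lit 4843847975) (nat_lit 228) (nat_lit 2749449873) (nat_lit 66) (nat_lit 5) (nat_lit 68) (nat_lit 5) (nat_lit 69) (nat_lit 5) (nat_lit 366) (nat_lit 344) (nat_lit 310)) (XT.lf (nat_lit 0) (nat_lit 3037972390) (nat_lit 304) (nat_lit 8748544503) (nat_lit 76) (nat_lit 3921980377) (nat_lit 62) (nat_lit 5) (nat_lit 66) (nat_lit 5) (nat_lit 63) (nat_lit 5) (nat_lit 367) (nat_lit 344) (nat_lit 309))) (XT.nd (nat_lit 78) (nat_lit 152) (nat_lit 0) (XT.lf (nat_lit 0) (nat_lit 6400496410) (nat_lit 152) (nat_lit 3017933795) (nat_lit 228) (nat_lit 7054910088) (nat_lit 60) (nat_lit 5) (nat_lit 62) (nat_lit 5) (nat_lit 63) (nat_lit 5) (nat_lit 368) (nat_lit 344) (nat_lit 308)) (XT.lf (nat_lit 0) (nat_lit 5722157751) (nat_lit 152) (nat_lit 10845000734) (nat_lit 228) (nat_lit 719345695) (nat_lit 58) (nat_lit 5) (nat_lit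 60) (nat_lit 5) (nat_lit 61) (nat_lit 5) (nat_lit 369) (nat_lit 344) (nat_lit 307))))))))
noncomputable def xc54 : XT := (XT.nd (nat_lit 2028) (nat_lit 988) (nat_lit 0) (XT.nd (nat_lit 1014) (nat_lit 1216) (nat_lit 0) (XT.nd (nat_lit 468) (nat_lit 836) (nat_lit 0) (XT.nd (nat_lit 234) (nat_lit 304) (nat_lit 0) (XT.nd (nat_lit 78) (nat_lit 380) (nat_lit 0) (XT.lf (nat_lit 0) (nat_lit 4853906348) (nat_lit 152) (nat_lit 1294043881) (nat_lit 228) (nat_lit 12000970055) (nat_lit 55) (nat_lit 5) (nat_lit 57) (nat_lit 5) (nat_lit 58) (nat_lit 5) (nat_lit 370) (nat_lit 344) (nat_lit 306)) (XT.nd (nat_lit 78) (nat_lit 228) (nat_lit 0) (XT.lf (nat_lit 0) (nat_lit 3758453965) (nat_lit 152) (nat_lit 10104833489) (nat_lit 228) (nat_lit 5200280103) (nat_lit 53) (nat_lit 5) (nat_lit 55) (nat_lit 5) (nat_lit 56) (nat_lit 5) (nat_lit 371) (nat_lit 344) (nat_lit 305)) (XT.lf (nat_lit 0) (nat_lit 2297287820)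 (nat_lit 228) (nat_lit 17540606528) (nat_lit 76) (nat_lit 200763340) (nat_lit 50) (nat_lit 5) (nat_lit 53) (nat_lit 5) (nat_lit 51) (nat_lit 5) (nat_lit 372) (nat_lit 344) (nat_lit 304)))) (XT.nd (nat_lit 78) (nat_lit 152) (nat_lit 0) (XT.lf (nat_lit 0) (nat_lit 829778233) (nat_lit 152) (nat_lit 9764438915) (nat_lit 228) (nat_lit 10474204679) (nat_lit 48) (nat_lit 5) (nat_lit 50) (nat_lit 5) (nat_lit 51) (nat_lit 5) (nat_lit 373) (nat_lit 344) (nat_lit 303)) (XT.nd (nat_lit 78) (nat_lit 152) (nat_lit 0) (XT.lf (nat_lit 0) (nat_lit 19810707379) (nat_lit 228) (nat_lit 1016692055) (nat_lit 76) (nat_lit 1340392838) (nat_lit 48) (nat_lit 5) (nat_lit 51) (nat_lit 5) (nat_lit 49) (nat_lit 4) (nat_lit 374) (nat_lit 344) (nat_lit 302)) (XT.lf (nat_lit 0) (nat_lit 6622746732) (nat_lit 152) (nat_lit 3335350232) (nat_lit 76) (nat_lit 13371101462) (nat_lit 46) (nat_lit 5) (nat_lit 48) (nat_lit 5) (nat_lit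 47) (nat_lit 5) (nat_lit 375) (nat_lit 344) (nat_lit 301))))) (XT.nd (nat_lit 234) (nat_lit 380) (nat_lit 0) (XT.nd (nat_lit 78) (nat_lit 304) (nat_lit 0) (XT.lf (nat_lit 0) (nat_lit 16515686083) (nat_lit 228) (nat_lit 6021548711) (nat_lit 76) (nat_lit 2030497803) (nat_lit 44) (nat_lit 5) (nat_lit 47) (nat_lit 5) (nat_lit 45) (nat_lit 4) (nat_lit 376) (nat_lit 344) (nat_lit 300)) (XT.nd (nat_lit 78) (nat_lit 152) (nat_lit 0) (XT.lf (nat_lit 0) (nat_lit 1684841939) (nat_lit 152) (nat_lit 9262860152) (nat_lit 76) (nat_lit 14935069385) (nat_lit 42) (nat_lit 5) (nat_lit 44) (nat_lit 5) (nat_lit 43) (nat_lit 5) (nat_lit 377) (nat_lit 344) (nat_lit 299)) (XT.lf (nat_lit 0) (nat_lit 12221722574) (nat_lit 228) (nat_lit 13114928696) (nat_lit 76) (nat_lit 1944615215) (nat_lit 40) (nat_lit 5) (nat_lit 43) (nat_lit 5) (nat_lit 41) (nat_lit 4) (nat_lit 378) (nat_lit 344) (nat_lit 298)))) (XT.nd (nat_lit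 156) (nat_lit 76) (nat_lit 0) (XT.nd (nat_lit 78) (nat_lit 228) (nat_lit 0) (XT.lf (nat_lit 0) (nat_lit 11079293465) (nat_lit 76) (nat_lit 12985690830) (nat_lit 152) (nat_lit 4703494838) (nat_lit 39) (nat_lit 5) (nat_lit 40) (nat_lit 5) (nat_lit 41) (nat_lit 4) (nat_lit 379) (nat_lit 344) (nat_lit 297)) (XT.lf (nat_lit 0) (nat_lit 6576244797) (nat_lit 228) (nat_lit 23025490629) (nat_lit 76) (nat_lit 752750432) (nat_lit 36) (nat_lit 5) (nat_lit 39) (nat_lit 5) (nat_lit 37) (nat_lit 4) (nat_lit 380) (nat_lit 344) (nat_lit 296))) (XT.nd (nat_lit 78) (nat_lit 0) (nat_lit 0) (XT.lf (nat_lit 0) (nat_lit 2608513490) (nat_lit 76) (nat_lit 16505765642) (nat_lit 152) (nat_lit 12923211328) (nat_lit 35) (nat_lit 5) (nat_lit 36) (nat_lit 5) (nat_lit 37) (nat_lit 4) (nat_lit 381) (nat_lit 344) (nat_lit 295)) (XT.lf (nat_lit 0) (nat_lit 31019825106) (nat_lit 76) (nat_lit 1984780499) (nat_lit 152) (nat_lit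 833074589) (nat_lit 35) (nat_lit 5) (nat_lit 36) (nat_lit 5) (nat_lit 37) (nat_lit 4) (nat_lit 382) (nat_lit 344) (nat_lit 294)))))) (XT.nd (nat_lit 468) (nat_lit 532) (nat_lit 0) (XT.nd (nat_lit 234) (nat_lit 228) (nat_lit 0) (XT.nd (nat_lit 78) (nat_lit 228) (nat_lit 0) (XT.lf (nat_lit 0) (nat_lit 12420918018) (nat_lit 228) (nat_lit 9488302674) (nat_lit 76) (nat_lit 13833733138) (nat_lit 32) (nat_lit 5) (nat_lit 35) (nat_lit 5) (nat_lit 33) (nat_lit 4) (nat_lit 383) (nat_lit 344) (nat_lit 293)) (XT.nd (nat_lit 78) (nat_lit 152) (nat_lit 0) (XT.lf (nat_lit 0) (nat_lit 20474404257) (nat_lit 76) (nat_lit 6587902808) (nat_lit 152) (nat_lit 10719852156) (nat_lit 31) (nat_lit 5) (nat_lit 32) (nat_lit 5) (nat_lit 33) (nat_lit 4) (nat_lit 384) (nat_lit 344) (nat_lit 292)) (XT.lf (nat_lit 0) (nat_lit 3292782213) (nat_lit 152) (nat_lit 26632276058) (nat_lit 76) (nat_lit 10032452025) (nat_lit 29)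 (nat_lit 5) (nat_lit 31) (nat_lit 5) (nat_lit 30) (nat_lit 4) (nat_lit 385) (nat_lit 344) (nat_lit 291)))) (XT.nd (nat_lit 78) (nat_lit 152) (nat_lit 0) (XT.lf (nat_lit 0) (nat_lit 4498778134) (nat_lit 76) (nat_lit 14000651733) (nat_lit 152) (nat_lit 23776248952) (nat_lit 28) (nat_lit 5) (nat_lit 29) (nat_lit 5) (nat_lit 30) (nat_lit 4) (nat_lit 386) (nat_lit 344) (nat_lit 290)) (XT.nd (nat_lit 78) (nat_lit 152) (nat_lit 0) (XT.lf (nat_lit 0) (nat_lit 35401292486) (nat_lit 152) (nat_lit 5823712830) (nat_lit 0) (nat_lit 3530365818) (nat_lit 28) (nat_lit 5) (nat_lit 30) (nat_lit 4) (nat_lit 28) (nat_lit 4) (nat_lit 387) (nat_lit 344) (nat_lit 289)) (XT.lf (nat_lit 0) (nat_lit 6687575531) (nat_lit 152) (nat_lit 18196158649) (nat_lit 76) (nat_lit 22511609115) (nat_lit 26) (nat_lit 5) (nat_lit 28) (nat_lit 5) (nat_lit 27) (nat_lit 4) (nat_lit 388) (nat_lit 344) (nat_lit 288))))) (XT.nd (nat_lit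 234) (nat_lit 304) (nat_lit 0) (XT.nd (nat_lit 78) (nat_lit 152) (nat_lit 0) (XT.lf (nat_lit 0) (nat_lit 17311739775) (nat_lit 76) (nat_lit 6712462730) (nat_lit 152) (nat_lit 26197679003) (nat_lit 25) (nat_lit 5) (nat_lit 26) (nat_lit 5) (nat_lit 27) (nat_lit 4) (nat_lit 389) (nat_lit 344) (nat_lit 287)) (XT.nd (nat_lit 78) (nat_lit 76) (nat_lit 0) (XT.lf (nat_lit 0) (nat_lit 2864733785) (nat_lit 76) (nat_lit 40414327465) (nat_lit 76) (nat_lit 9968919825) (nat_lit 24) (nat_lit 4) (nat_lit 25) (nat_lit 5) (nat_lit 25) (nat_lit 4) (nat_lit 390) (nat_lit 344) (nat_lit 286)) (XT.lf (nat_lit 0) (nat_lit 7976002845) (nat_lit 152) (nat_lit 14120882810) (nat_lit 76) (nat_lit 34380397220) (nat_lit 23) (nat_lit 5) (nat_lit 25) (nat_lit 5) (nat_lit 24) (nat_lit 4) (nat_lit 391) (nat_lit 344) (nat_lit 285)))) (XT.nd (nat_lit 156) (nat_lit 152) (nat_lit 0) (XT.nd (nat_lit 78) (nat_lit 76) (nat_lit 0)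 (XT.lf (nat_lit 0) (nat_lit 25630258954) (nat_lit 76) (nat_lit 1748415124) (nat_lit 152) (nat_lit 32559515396) (nat_lit 22) (nat_lit 5) (nat_lit 23) (nat_lit 5) (nat_lit 24) (nat_lit 4) (nat_lit 392) (nat_lit 344) (nat_lit 284)) (XT.lf (nat_lit 0) (nat_lit 5185414570) (nat_lit 76) (nat_lit 43762562895) (nat_lit 76) (nat_lit 14697272767) (nat_lit 21) (nat_lit 4) (nat_lit 22) (nat_lit 5) (nat_lit 22) (nat_lit 4) (nat_lit 393) (nat_lit 344) (nat_lit 283))) (XT.nd (nat_lit 78) (nat_lit 76) (nat_lit 0) (XT.lf (nat_lit 0) (nat_lit 5052401459) (nat_lit 152) (nat_lit 18727736382) (nat_lit 76) (nat_lit 43834879677) (nat_lit 20) (nat_lit 5) (nat_lit 22) (nat_lit 5) (nat_lit 21) (nat_lit 4) (nat_lit 394) (nat_lit 344) (nat_lit 282)) (XT.lf (nat_lit 0) (nat_lit 24668074623) (nat_lit 76) (nat_lit 1561989497) (nat_lit 152) (nat_lit 45642110439) (nat_lit 19) (nat_lit 5) (nat_lit 20) (nat_lit 5) (nat_lit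 21) (nat_lit 4) (nat_lit 395) (nat_lit 344) (nat_lit 281))))))) (XT.nd (nat_lit 1014) (nat_lit 304) (nat_lit 0) (XT.nd (nat_lit 468) (nat_lit 380) (nat_lit 0) (XT.nd (nat_lit 234) (nat_lit 76) (nat_lit 0) (XT.nd (nat_lit 78) (nat_lit 228) (nat_lit 0) (XT.lf (nat_lit 0) (nat_lit 49755576641) (nat_lit 152) (nat_lit 4659967636) (nat_lit 0) (nat_lit 22021679974) (nat_lit 19) (nat_lit 5) (nat_lit 21) (nat_lit 4) (nat_lit 19) (nat_lit 4) (nat_lit 396) (nat_lit 344) (nat_lit 280)) (XT.nd (nat_lit 78) (nat_lit 152) (nat_lit 0) (XT.lf (nat_lit 0) (nat_lit 42572950910) (nat_lit 76) (nat_lit 33255100579) (nat_lit 76) (nat_lit 5506182151) (nat_lit 18) (nat_lit 4) (nat_lit 19) (nat_lit 5) (nat_lit 19) (nat_lit 4) (nat_lit 397) (nat_lit 344) (nat_lit 279)) (XT.lf (nat_lit 0) (nat_lit 7035080135) (nat_lit 76) (nat_lit 9939508938) (nat_lit 152) (nat_lit 69626511618) (nat_lit 16) (nat_lit 5) (nat_lit 17)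 (nat_lit 5) (nat_lit 18) (nat_lit 4) (nat_lit 398) (nat_lit 344) (nat_lit 278)))) (XT.nd (nat_lit 78) (nat_lit 76) (nat_lit 0) (XT.lf (nat_lit 0) (nat_lit 41963150409) (nat_lit 152) (nat_lit 34766446099) (nat_lit 0) (nat_lit 15510096881) (nat_lit 16) (nat_lit 5) (nat_lit 18) (nat_lit 4) (nat_lit 16) (nat_lit 4) (nat_lit 399) (nat_lit 344) (nat_lit 277)) (XT.nd (nat_lit 78) (nat_lit 0) (nat_lit 0) (XT.lf (nat_lit 0) (nat_lit 13847976286) (nat_lit 76) (nat_lit 55463878062) (nat_lit 76) (nat_lit 28999467622) (nat_lit 15) (nat_lit 4) (nat_lit 16) (nat_lit 5) (nat_lit 16) (nat_lit 4) (nat_lit 400) (nat_lit 344) (nat_lit 276)) (XT.lf (nat_lit 0) (nat_lit 67550253972) (nat_lit 76) (nat_lit 31882080121) (nat_lit 76) (nat_lit 5407154021) (nat_lit 15) (nat_lit 4) (nat_lit 16) (nat_lit 5) (nat_lit 16) (nat_lit 4) (nat_lit 401) (nat_lit 344) (nat_lit 275))))) (XT.nd (nat_lit 234) (nat_lit 152) (nat_lit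 0) (XT.nd (nat_lit 78) (nat_lit 76) (nat_lit 0) (XT.lf (nat_lit 0) (nat_lit 13745040568) (nat_lit 76) (nat_lit 5879204987) (nat_lit 152) (nat_lit 92240286281) (nat_lit 13) (nat_lit 5) (nat_lit 14) (nat_lit 5) (nat_lit 15) (nat_lit 4) (nat_lit 402) (nat_lit 344) (nat_lit 274)) (XT.nd (nat_lit 78) (nat_lit 76) (nat_lit 0) (XT.lf (nat_lit 0) (nat_lit 47458282495) (nat_lit 152) (nat_lit 49713179282) (nat_lit 0) (nat_lit 22226207919) (nat_lit 13) (nat_lit 5) (nat_lit 15) (nat_lit 4) (nat_lit 13) (nat_lit 4) (nat_lit 403) (nat_lit 344) (nat_lit 273)) (XT.lf (nat_lit 0) (nat_lit 2510528630) (nat_lit 76) (nat_lit 75128478696) (nat_lit 76) (nat_lit 49888453959) (nat_lit 12) (nat_lit 4) (nat_lit 13) (nat_lit 5) (nat_lit 13) (nat_lit 4) (nat_lit 404) (nat_lit 344) (nat_lit 272)))) (XT.nd (nat_lit 156) (nat_lit 76) (nat_lit 0) (XT.nd (nat_lit 78) (nat_lit 76) (nat_lit 0) (XT.lf (nat_lit 0) (nat_lit 60652626030)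 (nat_lit 76) (nat_lit 50429987927) (nat_lit 76) (nat_lit 25182601929) (nat_lit 12) (nat_lit 4) (nat_lit 13) (nat_lit 5) (nat_lit 13) (nat_lit 4) (nat_lit 405) (nat_lit 344) (nat_lit 271)) (XT.lf (nat_lit 0) (nat_lit 1435202899) (nat_lit 152) (nat_lit 22312036035) (nat_lit 76) (nat_lit 121954407704) (nat_lit 11) (nat_lit 5) (nat_lit 13) (nat_lit 5) (nat_lit 12) (nat_lit 4) (nat_lit 406) (nat_lit 344) (nat_lit 270))) (XT.nd (nat_lit 78) (nat_lit 0) (nat_lit 0) (XT.lf (nat_lit 0) (nat_lit 29952998685) (nat_lit 152) (nat_lit 119991343104) (nat_lit 0) (nat_lit 5895367185) (nat_lit 10) (nat_lit 5) (nat_lit 12) (nat_lit 4) (nat_lit 10) (nat_lit 4) (nat_lit 407) (nat_lit 344) (nat_lit 269)) (XT.lf (nat_lit 0) (nat_lit 61532836943) (nat_lit 152) (nat_lit 67747308972) (nat_lit 0) (nat_lit 37469640105) (nat_lit 10) (nat_lit 5) (nat_lit 12) (nat_lit 4) (nat_lit 10) (nat_lit 4) (nat_lit 408) (nat_lit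 344) (nat_lit 268)))))) (XT.nd (nat_lit 468) (nat_lit 76) (nat_lit 0) (XT.nd (nat_lit 234) (nat_lit 152) (nat_lit 0) (XT.nd (nat_lit 78) (nat_lit 76) (nat_lit 0) (XT.lf (nat_lit 0) (nat_lit 95625325423) (nat_lit 152) (nat_lit 11351055768) (nat_lit 0) (nat_lit 71556975492) (nat_lit 10) (nat_lit 5) (nat_lit 12) (nat_lit 4) (nat_lit 10) (nat_lit 4) (nat_lit 409) (nat_lit 344) (nat_lit 267)) (XT.nd (nat_lit 78) (nat_lit 0) (nat_lit 0) (XT.lf (nat_lit 0) (nat_lit 51169355457) (nat_lit 76) (nat_lit 82062035268) (nat_lit 76) (nat_lit 57988913956) (nat_lit 9) (nat_lit 4) (nat_lit 10) (nat_lit 5) (nat_lit 10) (nat_lit 4) (nat_lit 410) (nat_lit 344) (nat_lit 266)) (XT.lf (nat_lit 0) (nat_lit 119072559643) (nat_lit 76) (nat_lit 54958954994) (nat_lit 76) (nat_lit 30881415737) (nat_lit 9) (nat_lit 4) (nat_lit 10) (nat_lit 5) (nat_lit 10) (nat_lit 4) (nat_lit 411) (nat_lit 344) (nat_lit 265)))) (XT.nd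 (nat_lit 78) (nat_lit 152) (nat_lit 0) (XT.lf (nat_lit 0) (nat_lit 192385628982) (nat_lit 76) (nat_lit 25698765146) (nat_lit 76) (nat_lit 1617135198) (nat_lit 9) (nat_lit 4) (nat_lit 10) (nat_lit 5) (nat_lit 10) (nat_lit 4) (nat_lit 412) (nat_lit 344) (nat_lit 264)) (XT.nd (nat_lit 78) (nat_lit 0) (nat_lit 0) (XT.lf (nat_lit 0) (nat_lit 29697893731) (nat_lit 152) (nat_lit 199159041154) (nat_lit 0) (nat_lit 6759400756) (nat_lit 7) (nat_lit 5) (nat_lit 9) (nat_lit 4) (nat_lit 7) (nat_lit 4) (nat_lit 413) (nat_lit 344) (nat_lit 263)) (XT.lf (nat_lit 0) (nat_lit 64368900729) (nat_lit 152) (nat_lit 146961661343) (nat_lit 0) (nat_lit 41427067651) (nat_lit 7) (nat_lit 5) (nat_lit 9) (nat_lit 4) (nat_lit 7) (nat_lit 4) (nat_lit 414) (nat_lit 344) (nat_lit 262))))) (XT.nd (nat_lit 234) (nat_lit 0) (nat_lit 0) (XT.nd (nat_lit 78) (nat_lit 76) (nat_lit 0) (XT.lf (nat_lit 0) (nat_lit 101804070648) (nat_lit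 152) (nat_lit 90607488050) (nat_lit 0) (nat_lit 78859144883) (nat_lit 7) (nat_lit 5) (nat_lit 9) (nat_lit 4) (nat_lit 7) (nat_lit 4) (nat_lit 415) (nat_lit 344) (nat_lit 261)) (XT.nd (nat_lit 78) (nat_lit 76) (nat_lit 0) (XT.lf (nat_lit 0) (nat_lit 142225241534) (nat_lit 152) (nat_lit 29762570618) (nat_lit 0) (nat_lit 119277452169) (nat_lit 7) (nat_lit 5) (nat_lit 9) (nat_lit 4) (nat_lit 7) (nat_lit 4) (nat_lit 416) (nat_lit 344) (nat_lit 260)) (XT.lf (nat_lit 0) (nat_lit 37121782289) (nat_lit 76) (nat_lit 149329739016) (nat_lit 76) (nat_lit 126379298170) (nat_lit 6) (nat_lit 4) (nat_lit 7) (nat_lit 5) (nat_lit 7) (nat_lit 4) (nat_lit 417) (nat_lit 344) (nat_lit 259)))) (XT.nd (nat_lit 156) (nat_lit 0) (nat_lit 0) (XT.nd (nat_lit 78) (nat_lit 0) (nat_lit 0) (XT.lf (nat_lit 0) (nat_lit 110404116247) (nat_lit 76) (nat_lit 124322433350) (nat_lit 76) (nat_lit 101369537429) (nat_lit 6) (nat_lit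 4) (nat_lit 7) (nat_lit 5) (nat_lit 7) (nat_lit 4) (nat_lit 418) (nat_lit 344) (nat_lit 258)) (XT.lf (nat_lit 0) (nat_lit 189534611942) (nat_lit 76) (nat_lit 97321747248) (nat_lit 76) (nat_lit 74366578109) (nat_lit 6) (nat_lit 4) (nat_lit 7) (nat_lit 5) (nat_lit 7) (nat_lit 4) (nat_lit 419) (nat_lit 344) (nat_lit 257))) (XT.nd (nat_lit 78) (nat_lit 0) (nat_lit 0) (XT.lf (nat_lit 0) (nat_lit 274982190831) (nat_lit 76) (nat_lit 68167676644) (nat_lit 76) (nat_lit 45210402674) (nat_lit 6) (nat_lit 4) (nat_lit 7) (nat_lit 5) (nat_lit 7) (nat_lit 4) (nat_lit 420) (nat_lit 344) (nat_lit 256)) (XT.lf (nat_lit 0) (nat_lit 367253208935) (nat_lit 76) (nat_lit 36687456676) (nat_lit 76) (nat_lit 13728233788) (nat_lit 6) (nat_lit 4) (nat_lit 7) (nat_lit 5) (nat_lit 7) (nat_lit 4) (nat_lit 421) (nat_lit 344) (nat_lit 255))))))))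
noncomputable def xc55 : XT := (XT.nd (nat_lit 47892) (nat_lit 0) (nat_lit 2508) (XT.nd (nat_lit 1014) (nat_lit 0) (nat_lit 0) (XT.nd (nat_lit 468) (nat_lit 76) (nat_lit 0) (XT.nd (nat_lit 234) (nat_lit 0) (nat_lit 0) (XT.nd (nat_lit 78) (nat_lit 0) (nat_lit 0) (XT.lf (nat_lit 0) (nat_lit 17826080872) (nat_lit 76) (nat_lit 2070069523) (nat_lit 152) (nat_lit 429396618831) (nat_lit 4) (nat_lit 5) (nat_lit 5) (nat_lit 5) (nat_lit 6) (nat_lit 4) (nat_lit 422) (nat_lit 344) (nat_lit 254)) (XT.nd (nat_lit 78) (nat_lit 0) (nat_lit 0) (XT.lf (nat_lit 0) (nat_lit 57174287759) (nat_lit 152) (nat_lit 390883718514) (nat_lit 0) (nat_lit 35305051261) (nat_lit 4) (nat_lit 5) (nat_lit 6) (nat_lit 4) (nat_lit 4) (nat_lit 4) (nat_lit 423) (nat_lit 344) (nat_lit 253)) (XT.lf (nat_lit 0) (nat_lit 97464344536) (nat_lit 152) (nat_lit 347099506531) (nat_lit 0) (nat_lit 75593634595) (nat_lit 4) (nat_lit 5) (nat_lit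 6) (nat_lit 4) (nat_lit 4) (nat_lit 4) (nat_lit 424) (nat_lit 344) (nat_lit 252)))) (XT.nd (nat_lit 78) (nat_lit 0) (nat_lit 0) (XT.lf (nat_lit 0) (nat_lit 140972757030) (nat_lit 152) (nat_lit 299822270820) (nat_lit 0) (nat_lit 119100682792) (nat_lit 4) (nat_lit 5) (nat_lit 6) (nat_lit 4) (nat_lit 4) (nat_lit 4) (nat_lit 425) (nat_lit 344) (nat_lit 251)) (XT.nd (nat_lit 78) (nat_lit 0) (nat_lit 0) (XT.lf (nat_lit 0) (nat_lit 187957352873) (nat_lit 152) (nat_lit 248771849985) (nat_lit 0) (nat_lit 166084015396) (nat_lit 4) (nat_lit 5) (nat_lit 6) (nat_lit 4) (nat_lit 4) (nat_lit 4) (nat_lit 426) (nat_lit 344) (nat_lit 250)) (XT.lf (nat_lit 0) (nat_lit 238696559298) (nat_lit 152) (nat_lit 193645723014) (nat_lit 0) (nat_lit 216822052156) (nat_lit 4) (nat_lit 5) (nat_lit 6) (nat_lit 4) (nat_lit 4) (nat_lit 4) (nat_lit 427) (nat_lit 344) (nat_lit 249))))) (XT.nd (nat_lit 234) (nat_lit 76) (nat_lit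 0) (XT.nd (nat_lit 78) (nat_lit 0) (nat_lit 0) (XT.lf (nat_lit 0) (nat_lit 293491053085) (nat_lit 152) (nat_lit 134117216562) (nat_lit 0) (nat_lit 271615462919) (nat_lit 4) (nat_lit 5) (nat_lit 6) (nat_lit 4) (nat_lit 4) (nat_lit 4) (nat_lit 428) (nat_lit 344) (nat_lit 248)) (XT.nd (nat_lit 78) (nat_lit 0) (nat_lit 0) (XT.lf (nat_lit 0) (nat_lit 352665542345) (nat_lit 152) (nat_lit 69833569109) (nat_lit 0) (nat_lit 330788949379) (nat_lit 4) (nat_lit 5) (nat_lit 6) (nat_lit 4) (nat_lit 4) (nat_lit 4) (nat_lit 429) (nat_lit 344) (nat_lit 247)) (XT.lf (nat_lit 0) (nat_lit 416570690717) (nat_lit 152) (nat_lit 413840522) (nat_lit 0) (nat_lit 394693169233) (nat_lit 4) (nat_lit 5) (nat_lit 6) (nat_lit 4) (nat_lit 4) (nat_lit 4) (nat_lit 430) (nat_lit 344) (nat_lit 246)))) (XT.nd (nat_lit 156) (nat_lit 0) (nat_lit 0) (XT.nd (nat_lit 78) (nat_lit 0) (nat_lit 0) (XT.lf (nat_lit 0) (nat_lit 77018415657)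 (nat_lit 76) (nat_lit 409769253033) (nat_lit 76) (nat_lit 387890871810) (nat_lit 3) (nat_lit 4) (nat_lit 4) (nat_lit 5) (nat_lit 4) (nat_lit 4) (nat_lit 431) (nat_lit 344) (nat_lit 245)) (XT.lf (nat_lit 0) (nat_lit 160654175471) (nat_lit 76) (nat_lit 401972117610) (nat_lit 76) (nat_lit 380092940333) (nat_lit 3) (nat_lit 4) (nat_lit 4) (nat_lit 5) (nat_lit 4) (nat_lit 4) (nat_lit 432) (nat_lit 344) (nat_lit 244))) (XT.nd (nat_lit 78) (nat_lit 0) (nat_lit 0) (XT.lf (nat_lit 0) (nat_lit 250975374798) (nat_lit 76) (nat_lit 393553928316) (nat_lit 76) (nat_lit 371674013951) (nat_lit 3) (nat_lit 4) (nat_lit 4) (nat_lit 5) (nat_lit 4) (nat_lit 4) (nat_lit 433) (nat_lit 344) (nat_lit 243)) (XT.lf (nat_lit 0) (nat_lit 348517250376) (nat_lit 76) (nat_lit 384464799583) (nat_lit 76) (nat_lit 362584202730) (nat_lit 3) (nat_lit 4) (nat_lit 4) (nat_lit 5) (nat_lit 4) (nat_lit 4) (nat_lit 434) (nat_lit 344)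 (nat_lit 242)))))) (XT.nd (nat_lit 46332) (nat_lit 0) (nat_lit 8436) (XT.nd (nat_lit 46098) (nat_lit 0) (nat_lit 11020) (XT.nd (nat_lit 78) (nat_lit 0) (nat_lit 0) (XT.lf (nat_lit 0) (nat_lit 453857828134) (nat_lit 76) (nat_lit 374650869908) (nat_lit 76) (nat_lit 352769641121) (nat_lit 3) (nat_lit 4) (nat_lit 4) (nat_lit 5) (nat_lit 4) (nat_lit 4) (nat_lit 435) (nat_lit 344) (nat_lit 241)) (XT.nd (nat_lit 78) (nat_lit 0) (nat_lit 0) (XT.lf (nat_lit 0) (nat_lit 567621348532) (nat_lit 76) (nat_lit 364053982671) (nat_lit 76) (nat_lit 342172168760) (nat_lit 3) (nat_lit 4) (nat_lit 4) (nat_lit 5) (nat_lit 4) (nat_lit 4) (nat_lit 436) (nat_lit 344) (nat_lit 240)) (XT.lf (nat_lit 0) (nat_lit 690481965766) (nat_lit 76) (nat_lit 352611341503) (nat_lit 76) (nat_lit 330728985810) (nat_lit 3) (nat_lit 4) (nat_lit 4) (nat_lit 5) (nat_lit 4) (nat_lit 4) (nat_lit 437) (nat_lit 344) (nat_lit 239)))) (XT.nd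 (nat_lit 78) (nat_lit 456) (nat_lit 0) (XT.lf (nat_lit 0) (nat_lit 2185699758) (nat_lit 532) (nat_lit 697848914) (nat_lit 532) (nat_lit 697848914) (nat_lit 154) (nat_lit 3) (nat_lit 161) (nat_lit 3) (nat_lit 161) (nat_lit 5) (nat_lit 345) (nat_lit 345) (nat_lit 330)) (XT.nd (nat_lit 78) (nat_lit 456) (nat_lit 0) (XT.lf (nat_lit 76) (nat_lit 4312601205) (nat_lit 0) (nat_lit 2841836073) (nat_lit 532) (nat_lit 162593578) (nat_lit 155) (nat_lit 5) (nat_lit 154) (nat_lit 3) (nat_lit 161) (nat_lit 5) (nat_lit 346) (nat_lit 345) (nat_lit 329)) (XT.lf (nat_lit 0) (nat_lit 2409460056) (nat_lit 532) (nat_lit 4549278562) (nat_lit 608) (nat_lit 532024657) (nat_lit 148) (nat_lit 5) (nat_lit 155) (nat_lit 5) (nat_lit 156) (nat_lit 5) (nat_lit 347) (nat_lit 345) (nat_lit 328))))) (XT.nd (nat_lit 234) (nat_lit 2052) (nat_lit 0) (XT.nd (nat_lit 78) (nat_lit 532) (nat_lit 0) (XT.lf (nat_lit 76) (nat_lit 1641247376)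 (nat_lit 0) (nat_lit 3425136053) (nat_lit 608) (nat_lit 2617802209) (nat_lit 149) (nat_lit 5) (nat_lit 148) (nat_lit 5) (nat_lit 156) (nat_lit 5) (nat_lit 348) (nat_lit 345) (nat_lit 327)) (XT.nd (nat_lit 78) (nat_lit 608) (nat_lit 0) (XT.lf (nat_lit 76) (nat_lit 446906484) (nat_lit 0) (nat_lit 7357424004) (nat_lit 608) (nat_lit 95480331) (nat_lit 150) (nat_lit 5) (nat_lit 149) (nat_lit 5) (nat_lit 157) (nat_lit 5) (nat_lit 349) (nat_lit 345) (nat_lit 326)) (XT.lf (nat_lit 0) (nat_lit 2494769532) (nat_lit 608) (nat_lit 716810499) (nat_lit 684) (nat_lit 4921674730) (nat_lit 141) (nat_lit 5) (nat_lit 149) (nat_lit 5) (nat_lit 150) (nat_lit 5) (nat_lit 350) (nat_lit 345) (nat_lit 325)))) (XT.nd (nat_lit 156) (nat_lit 1520) (nat_lit 0) (XT.nd (nat_lit 78) (nat_lit 608) (nat_lit 0) (XT.lf (nat_lit 0) (nat_lit 5215973264) (nat_lit 608) (nat_lit 1792712133) (nat_lit 76) (nat_lit 1380381141) (nat_lit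 142) (nat_lit 5) (nat_lit 150) (nat_lit 5) (nat_lit 143) (nat_lit 5) (nat_lit 351) (nat_lit 345) (nat_lit 324)) (XT.lf (nat_lit 0) (nat_lit 5835521912) (nat_lit 608) (nat_lit 2291895694) (nat_lit 684) (nat_lit 539413745) (nat_lit 134) (nat_lit 5) (nat_lit 142) (nat_lit 5) (nat_lit 143) (nat_lit 5) (nat_lit 352) (nat_lit 345) (nat_lit 323))) (XT.nd (nat_lit 78) (nat_lit 760) (nat_lit 0) (XT.lf (nat_lit 0) (nat_lit 2212991741) (nat_lit 760) (nat_lit 3865514830) (nat_lit 76) (nat_lit 2887522882) (nat_lit 124) (nat_lit 5) (nat_lit 134) (nat_lit 5) (nat_lit 125) (nat_lit 5) (nat_lit 353) (nat_lit 345) (nat_lit 322)) (XT.lf (nat_lit 0) (nat_lit 4420415870) (nat_lit 760) (nat_lit 738578396) (nat_lit 836) (nat_lit 4130205993) (nat_lit 114) (nat_lit 5) (nat_lit 124) (nat_lit 5) (nat_lit 125) (nat_lit 5) (nat_lit 354) (nat_lit 345) (nat_lit 321))))))) (XT.nd (nat_lit 1014) (nat_lit 2280) (nat_lit 0)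 (XT.nd (nat_lit 468) (nat_lit 1520) (nat_lit 0) (XT.nd (nat_lit 234) (nat_lit 912) (nat_lit 0) (XT.nd (nat_lit 78) (nat_lit 836) (nat_lit 0) (XT.lf (nat_lit 0) (nat_lit 3757929598) (nat_lit 380) (nat_lit 4632743865) (nat_lit 456) (nat_lit 1245138622) (nat_lit 109) (nat_lit 5) (nat_lit 114) (nat_lit 5) (nat_lit 115) (nat_lit 5) (nat_lit 355) (nat_lit 345) (nat_lit 320)) (XT.nd (nat_lit 78) (nat_lit 380) (nat_lit 0) (XT.lf (nat_lit 0) (nat_lit 1830635051) (nat_lit 456) (nat_lit 6882690544) (nat_lit 76) (nat_lit 1294454962) (nat_lit 103) (nat_lit 5) (nat_lit 109) (nat_lit 5) (nat_lit 104) (nat_lit 5) (nat_lit 356) (nat_lit 345) (nat_lit 319)) (XT.lf (nat_lit 0) (nat_lit 2478651094) (nat_lit 380) (nat_lit 2711406236) (nat_lit 456) (nat_lit 5214439238) (nat_lit 98) (nat_lit 5) (nat_lit 103) (nat_lit 5) (nat_lit 104) (nat_lit 5) (nat_lit 357) (nat_lit 345) (nat_lit 318)))) (XT.nd (nat_lit 78) (nat_lit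 608) (nat_lit 0) (XT.lf (nat_lit 0) (nat_lit 1852722306) (nat_lit 304) (nat_lit 7042771751) (nat_lit 380) (nat_lit 1933658679) (nat_lit 94) (nat_lit 5) (nat_lit 98) (nat_lit 5) (nat_lit 99) (nat_lit 5) (nat_lit 358) (nat_lit 345) (nat_lit 317)) (XT.nd (nat_lit 78) (nat_lit 228) (nat_lit 0) (XT.lf (nat_lit 0) (nat_lit 1230961192) (nat_lit 304) (nat_lit 405385974) (nat_lit 380) (nat_lit 9646321865) (nat_lit 89) (nat_lit 5) (nat_lit 93) (nat_lit 5) (nat_lit 94) (nat_lit 5) (nat_lit 359) (nat_lit 345) (nat_lit 316)) (XT.lf (nat_lit 0) (nat_lit 537127640) (nat_lit 228) (nat_lit 5040668512) (nat_lit 304) (nat_lit 6185459895) (nat_lit 86) (nat_lit 5) (nat_lit 89) (nat_lit 5) (nat_lit 90) (nat_lit 5) (nat_lit 360) (nat_lit 345) (nat_lit 315))))) (XT.nd (nat_lit 234) (nat_lit 912) (nat_lit 0) (XT.nd (nat_lit 78) (nat_lit 608) (nat_lit 0) (XT.lf (nat_lit 0) (nat_lit 9938397952) (nat_lit 304) (nat_lit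 133171033) (nat_lit 76) (nat_lit 2205579023) (nat_lit 86) (nat_lit 5) (nat_lit 90) (nat_lit 5) (nat_lit 87) (nat_lit 5) (nat_lit 361) (nat_lit 345) (nat_lit 314)) (XT.nd (nat_lit 78) (nat_lit 228) (nat_lit 0) (XT.lf (nat_lit 0) (nat_lit 1927179676) (nat_lit 380) (nat_lit 846205518) (nat_lit 76) (nat_lit 10048912830) (nat_lit 81) (nat_lit 5) (nat_lit 86) (nat_lit 5) (nat_lit 82) (nat_lit 5) (nat_lit 362) (nat_lit 345) (nat_lit 313)) (XT.lf (nat_lit 0) (nat_lit 6622406578) (nat_lit 304) (nat_lit 1635253181) (nat_lit 76) (nat_lit 5143025900) (nat_lit 78) (nat_lit 5) (nat_lit 82) (nat_lit 5) (nat_lit 79) (nat_lit 5) (nat_lit 363) (nat_lit 345) (nat_lit 312)))) (XT.nd (nat_lit 156) (nat_lit 380) (nat_lit 0) (XT.nd (nat_lit 78) (nat_lit 304) (nat_lit 0) (XT.lf (nat_lit 0) (nat_lit 11581593212) (nat_lit 228) (nat_lit 257707593) (nat_lit 304) (nat_lit 2178778715) (nat_lit 75) (nat_lit 5) (nat_lit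 78) (nat_lit 5) (nat_lit 79) (nat_lit 5) (nat_lit 364) (nat_lit 345) (nat_lit 311)) (XT.lf (nat_lit 0) (nat_lit 2948187078) (nat_lit 304) (nat_lit 3390092472) (nat_lit 76) (nat_lit 8332003571) (nat_lit 71) (nat_lit 5) (nat_lit 75) (nat_lit 5) (nat_lit 72) (nat_lit 5) (nat_lit 365) (nat_lit 345) (nat_lit 310))) (XT.nd (nat_lit 78) (nat_lit 152) (nat_lit 0) (XT.lf (nat_lit 0) (nat_lit 8578737133) (nat_lit 304) (nat_lit 4415092024) (nat_lit 76) (nat_lit 2370590689) (nat_lit 68) (nat_lit 5) (nat_lit 72) (nat_lit 5) (nat_lit 69) (nat_lit 5) (nat_lit 366) (nat_lit 345) (nat_lit 309)) (XT.lf (nat_lit 0) (nat_lit 10548461246) (nat_lit 152) (nat_lit 4358315041) (nat_lit 228) (nat_lit 1194987449) (nat_lit 66) (nat_lit 5) (nat_lit 68) (nat_lit 5) (nat_lit 69) (nat_lit 5) (nat_lit 367) (nat_lit 345) (nat_lit 308)))))) (XT.nd (nat_lit 546) (nat_lit 912) (nat_lit 0) (XT.nd (nat_lit 234) (nat_lit 684) (nat_lit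 0) (XT.nd (nat_lit 78) (nat_lit 380) (nat_lit 0) (XT.lf (nat_lit 0) (nat_lit 4924211594) (nat_lit 304) (nat_lit 6874240811) (nat_lit 76) (nat_lit 5084074575) (nat_lit 62) (nat_lit 5) (nat_lit 66) (nat_lit 5) (nat_lit 63) (nat_lit 5) (nat_lit 368) (nat_lit 345) (nat_lit 307)) (XT.nd (nat_lit 78) (nat_lit 228) (nat_lit 0) (XT.lf (nat_lit 0) (nat_lit 9374852333) (nat_lit 152) (nat_lit 2356978734) (nat_lit 228) (nat_lit 5980926421) (nat_lit 60) (nat_lit 5) (nat_lit 62) (nat_lit 5) (nat_lit 63) (nat_lit 5) (nat_lit 369) (nat_lit 345) (nat_lit 306)) (XT.lf (nat_lit 0) (nat_lit 768045174) (nat_lit 228) (nat_lit 10009833005) (nat_lit 76) (nat_lit 7815749063) (nat_lit 57) (nat_lit 5) (nat_lit 60) (nat_lit 5) (nat_lit 58) (nat_lit 5) (nat_lit 370) (nat_lit 345) (nat_lit 305)))) (XT.nd (nat_lit 156) (nat_lit 380) (nat_lit 0) (XT.nd (nat_lit 78) (nat_lit 152) (nat_lit 0) (XT.lf (nat_lit 0) (nat_lit 7602514593)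 (nat_lit 152) (nat_lit 481597565) (nat_lit 228) (nat_lit 11444134998) (nat_lit 55) (nat_lit 5) (nat_lit 57) (nat_lit 5) (nat_lit 58) (nat_lit 5) (nat_lit 371) (nat_lit 345) (nat_lit 304)) (XT.lf (nat_lit 0) (nat_lit 6372603304) (nat_lit 152) (nat_lit 9986447284) (nat_lit 228) (nat_lit 4159924353) (nat_lit 53) (nat_lit 5) (nat_lit 55) (nat_lit 5) (nat_lit 56) (nat_lit 5) (nat_lit 372) (nat_lit 345) (nat_lit 303))) (XT.nd (nat_lit 78) (nat_lit 152) (nat_lit 0) (XT.lf (nat_lit 0) (nat_lit 3835980599) (nat_lit 228) (nat_lit 16633011625) (nat_lit 76) (nat_lit 1104710110) (nat_lit 50) (nat_lit 5) (nat_lit 53) (nat_lit 5) (nat_lit 51) (nat_lit 5) (nat_lit 373) (nat_lit 345) (nat_lit 302)) (XT.lf (nat_lit 0) (nat_lit 3106577478) (nat_lit 152) (nat_lit 9624233913) (nat_lit 228) (nat_lit 9958351262) (nat_lit 48) (nat_lit 5) (nat_lit 50) (nat_lit 5) (nat_lit 51) (nat_lit 5) (nat_lit 374) (nat_lit 345)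 (nat_lit 301))))) (XT.nd (nat_lit 234) (nat_lit 608) (nat_lit 0) (XT.nd (nat_lit 78) (nat_lit 228) (nat_lit 0) (XT.lf (nat_lit 0) (nat_lit 1028181639) (nat_lit 76) (nat_lit 21590325762) (nat_lit 152) (nat_lit 1261301753) (nat_lit 47) (nat_lit 5) (nat_lit 48) (nat_lit 5) (nat_lit 49) (nat_lit 4) (nat_lit 375) (nat_lit 345) (nat_lit 300)) (XT.nd (nat_lit 78) (nat_lit 152) (nat_lit 0) (XT.lf (nat_lit 0) (nat_lit 8320384214) (nat_lit 152) (nat_lit 1561007714) (nat_lit 76) (nat_lit 15255522800) (nat_lit 46) (nat_lit 5) (nat_lit 48) (nat_lit 5) (nat_lit 47) (nat_lit 5) (nat_lit 376) (nat_lit 345) (nat_lit 299)) (XT.lf (nat_lit 0) (nat_lit 18961862304) (nat_lit 228) (nat_lit 4508132479) (nat_lit 76) (nat_lit 3006698610) (nat_lit 44) (nat_lit 5) (nat_lit 47) (nat_lit 5) (nat_lit 45) (nat_lit 4) (nat_lit 377) (nat_lit 345) (nat_lit 298)))) (XT.nd (nat_lit 156) (nat_lit 304) (nat_lit 0) (XT.nd (nat_lit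 78) (nat_lit 152) (nat_lit 0) (XT.lf (nat_lit 0) (nat_lit 2908772675) (nat_lit 152) (nat_lit 8059256470) (nat_lit 76) (nat_lit 16930720156) (nat_lit 42) (nat_lit 5) (nat_lit 44) (nat_lit 5) (nat_lit 43) (nat_lit 5) (nat_lit 378) (nat_lit 345) (nat_lit 297)) (XT.lf (nat_lit 0) (nat_lit 14249811477) (nat_lit 228) (nat_lit 12264796873) (nat_lit 76) (nat_lit 2896469007) (nat_lit 40) (nat_lit 5) (nat_lit 43) (nat_lit 5) (nat_lit 41) (nat_lit 4) (nat_lit 379) (nat_lit 345) (nat_lit 296))) (XT.nd (nat_lit 78) (nat_lit 228) (nat_lit 0) (XT.lf (nat_lit 0) (nat_lit 13782420663) (nat_lit 76) (nat_lit 13208674772) (nat_lit 152) (nat_lit 4028656323) (nat_lit 39) (nat_lit 5) (nat_lit 40) (nat_lit 5) (nat_lit 41) (nat_lit 4) (nat_lit 380) (nat_lit 345) (nat_lit 295)) (XT.lf (nat_lit 0) (nat_lit 8084585289) (nat_lit 228) (nat_lit 23061243507) (nat_lit 76) (nat_lit 1587762717) (nat_lit 36) (nat_lit 5) (nat_lit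 39) (nat_lit 5) (nat_lit 37) (nat_lit 4) (nat_lit 381) (nat_lit 345) (nat_lit 294))))))))
noncomputable def xc56 : XT := (XT.nd (nat_lit 2028) (nat_lit 608) (nat_lit 0) (XT.nd (nat_lit 1014) (nat_lit 760) (nat_lit 0) (XT.nd (nat_lit 468) (nat_lit 532) (nat_lit 0) (XT.nd (nat_lit 234) (nat_lit 304) (nat_lit 0) (XT.nd (nat_lit 78) (nat_lit 228) (nat_lit 0) (XT.lf (nat_lit 0) (nat_lit 4544981938) (nat_lit 76) (nat_lit 17034897450) (nat_lit 152) (nat_lit 12973656699) (nat_lit 35) (nat_lit 5) (nat_lit 36) (nat_lit 5) (nat_lit 37) (nat_lit 4) (nat_lit 382) (nat_lit 345) (nat_lit 293)) (XT.nd (nat_lit 78) (nat_lit 152) (nat_lit 0) (XT.lf (nat_lit 0) (nat_lit 10498549) (nat_lit 152) (nat_lit 1400174144) (nat_lit 76) (nat_lit 35090537886) (nat_lit 34) (nat_lit 5) (nat_lit 36) (nat_lit 5) (nat_lit 35) (nat_lit 5) (nat_lit 383) (nat_lit 345) (nat_lit 292)) (XT.lf (nat_lit 0) (nat_lit 14266259163) (nat_lit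 228) (nat_lit 8658178925) (nat_lit 76) (nat_lit 15635261935) (nat_lit 32) (nat_lit 5) (nat_lit 35) (nat_lit 5) (nat_lit 33) (nat_lit 4) (nat_lit 384) (nat_lit 345) (nat_lit 291)))) (XT.nd (nat_lit 78) (nat_lit 228) (nat_lit 0) (XT.lf (nat_lit 0) (nat_lit 23632480389) (nat_lit 76) (nat_lit 6407125841) (nat_lit 152) (nat_lit 10724411177) (nat_lit 31) (nat_lit 5) (nat_lit 32) (nat_lit 5) (nat_lit 33) (nat_lit 4) (nat_lit 385) (nat_lit 345) (nat_lit 290)) (XT.nd (nat_lit 78) (nat_lit 76) (nat_lit 0) (XT.lf (nat_lit 0) (nat_lit 4354691170) (nat_lit 152) (nat_lit 27253933847) (nat_lit 76) (nat_lit 11505474638) (nat_lit 29) (nat_lit 5) (nat_lit 31) (nat_lit 5) (nat_lit 30) (nat_lit 4) (nat_lit 386) (nat_lit 345) (nat_lit 289)) (XT.lf (nat_lit 0) (nat_lit 6302028669) (nat_lit 76) (nat_lit 14439229540) (nat_lit 152) (nat_lit 24878300529) (nat_lit 28) (nat_lit 5) (nat_lit 29) (nat_lit 5) (nat_lit 30)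 (nat_lit 4) (nat_lit 387) (nat_lit 345) (nat_lit 288))))) (XT.nd (nat_lit 234) (nat_lit 304) (nat_lit 0) (XT.nd (nat_lit 78) (nat_lit 228) (nat_lit 0) (XT.lf (nat_lit 0) (nat_lit 38948686326) (nat_lit 152) (nat_lit 4927681201) (nat_lit 0) (nat_lit 4423594063) (nat_lit 28) (nat_lit 5) (nat_lit 30) (nat_lit 4) (nat_lit 28) (nat_lit 4) (nat_lit 388) (nat_lit 345) (nat_lit 287)) (XT.nd (nat_lit 78) (nat_lit 76) (nat_lit 0) (XT.lf (nat_lit 0) (nat_lit 7916484847) (nat_lit 152) (nat_lit 18326100985) (nat_lit 76) (nat_lit 24909623879) (nat_lit 26) (nat_lit 5) (nat_lit 28) (nat_lit 5) (nat_lit 27) (nat_lit 4) (nat_lit 389) (nat_lit 345) (nat_lit 286)) (XT.lf (nat_lit 0) (nat_lit 19964813818) (nat_lit 76) (nat_lit 6643627057) (nat_lit 152) (nat_lit 27598015041) (nat_lit 25) (nat_lit 5) (nat_lit 26) (nat_lit 5) (nat_lit 27) (nat_lit 4) (nat_lit 390) (nat_lit 345) (nat_lit 285)))) (XT.nd (nat_lit 156)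 (nat_lit 152) (nat_lit 0) (XT.nd (nat_lit 78) (nat_lit 76) (nat_lit 0) (XT.lf (nat_lit 0) (nat_lit 4329622391) (nat_lit 76) (nat_lit 43053057501) (nat_lit 76) (nat_lit 10093018496) (nat_lit 24) (nat_lit 4) (nat_lit 25) (nat_lit 5) (nat_lit 25) (nat_lit 4) (nat_lit 391) (nat_lit 345) (nat_lit 284)) (XT.lf (nat_lit 0) (nat_lit 9217658473) (nat_lit 152) (nat_lit 14086370859) (nat_lit 76) (nat_lit 37661207593) (nat_lit 23) (nat_lit 5) (nat_lit 25) (nat_lit 5) (nat_lit 24) (nat_lit 4) (nat_lit 392) (nat_lit 345) (nat_lit 283))) (XT.nd (nat_lit 78) (nat_lit 76) (nat_lit 0) (XT.lf (nat_lit 0) (nat_lit 28794268290) (nat_lit 76) (nat_lit 1350952065) (nat_lit 152) (nat_lit 34559165539) (nat_lit 22) (nat_lit 5) (nat_lit 23) (nat_lit 5) (nat_lit 24) (nat_lit 4) (nat_lit 393) (nat_lit 345) (nat_lit 282)) (XT.lf (nat_lit 0) (nat_lit 6685020989) (nat_lit 76) (nat_lit 46737065908) (nat_lit 76) (nat_lit 15286827087)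 (nat_lit 21) (nat_lit 4) (nat_lit 22) (nat_lit 5) (nat_lit 22) (nat_lit 4) (nat_lit 394) (nat_lit 345) (nat_lit 281)))))) (XT.nd (nat_lit 468) (nat_lit 380) (nat_lit 0) (XT.nd (nat_lit 234) (nat_lit 228) (nat_lit 0) (XT.nd (nat_lit 78) (nat_lit 76) (nat_lit 0) (XT.lf (nat_lit 0) (nat_lit 5982023724) (nat_lit 152) (nat_lit 19204124862) (nat_lit 76) (nat_lit 47811761167) (nat_lit 20) (nat_lit 5) (nat_lit 22) (nat_lit 5) (nat_lit 21) (nat_lit 4) (nat_lit 395) (nat_lit 345) (nat_lit 280)) (XT.nd (nat_lit 78) (nat_lit 0) (nat_lit 0) (XT.lf (nat_lit 0) (nat_lit 27618943519) (nat_lit 76) (nat_lit 1211295439) (nat_lit 152) (nat_lit 48766586212) (nat_lit 19) (nat_lit 5) (nat_lit 20) (nat_lit 5) (nat_lit 21) (nat_lit 4) (nat_lit 396) (nat_lit 345) (nat_lit 279)) (XT.lf (nat_lit 0) (nat_lit 54207500539) (nat_lit 152) (nat_lit 4111357639) (nat_lit 0) (nat_lit 24209737839) (nat_lit 19) (nat_lit 5) (nat_lit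 21) (nat_lit 4) (nat_lit 19) (nat_lit 4) (nat_lit 397) (nat_lit 345) (nat_lit 278)))) (XT.nd (nat_lit 78) (nat_lit 152) (nat_lit 0) (XT.lf (nat_lit 0) (nat_lit 46860151148) (nat_lit 76) (nat_lit 35484458513) (nat_lit 76) (nat_lit 5473817074) (nat_lit 18) (nat_lit 4) (nat_lit 19) (nat_lit 5) (nat_lit 19) (nat_lit 4) (nat_lit 398) (nat_lit 345) (nat_lit 277)) (XT.nd (nat_lit 78) (nat_lit 0) (nat_lit 0) (XT.lf (nat_lit 0) (nat_lit 8455451668) (nat_lit 76) (nat_lit 10314313144) (nat_lit 152) (nat_lit 74737537141) (nat_lit 16) (nat_lit 5) (nat_lit 17) (nat_lit 5) (nat_lit 18) (nat_lit 4) (nat_lit 399) (nat_lit 345) (nat_lit 276)) (XT.lf (nat_lit 0) (nat_lit 45731102031) (nat_lit 152) (nat_lit 36739531257) (nat_lit 0) (nat_lit 17127666184) (nat_lit 16) (nat_lit 5) (nat_lit 18) (nat_lit 4) (nat_lit 16) (nat_lit 4) (nat_lit 400) (nat_lit 345) (nat_lit 275))))) (XT.nd (nat_lit 234) (nat_lit 152) (nat_lit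 0) (XT.nd (nat_lit 78) (nat_lit 152) (nat_lit 0) (XT.lf (nat_lit 0) (nat_lit 15728920204) (nat_lit 76) (nat_lit 59520415422) (nat_lit 76) (nat_lit 30907242853) (nat_lit 15) (nat_lit 4) (nat_lit 16) (nat_lit 5) (nat_lit 16) (nat_lit 4) (nat_lit 401) (nat_lit 345) (nat_lit 274)) (XT.nd (nat_lit 78) (nat_lit 152) (nat_lit 0) (XT.lf (nat_lit 0) (nat_lit 73670113008) (nat_lit 76) (nat_lit 34080264230) (nat_lit 76) (nat_lit 5458076178) (nat_lit 15) (nat_lit 4) (nat_lit 16) (nat_lit 5) (nat_lit 16) (nat_lit 4) (nat_lit 402) (nat_lit 345) (nat_lit 273)) (XT.lf (nat_lit 0) (nat_lit 15541076449) (nat_lit 76) (nat_lit 6006051438) (nat_lit 152) (nat_lit 99248900907) (nat_lit 13) (nat_lit 5) (nat_lit 14) (nat_lit 5) (nat_lit 15) (nat_lit 4) (nat_lit 403) (nat_lit 345) (nat_lit 272)))) (XT.nd (nat_lit 156) (nat_lit 76) (nat_lit 0) (XT.nd (nat_lit 78) (nat_lit 76) (nat_lit 0) (XT.lf (nat_lit 0) (nat_lit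 51586709473) (nat_lit 152) (nat_lit 53033997158) (nat_lit 0) (nat_lit 24312171335) (nat_lit 13) (nat_lit 5) (nat_lit 15) (nat_lit 4) (nat_lit 13) (nat_lit 4) (nat_lit 404) (nat_lit 345) (nat_lit 271)) (XT.lf (nat_lit 0) (nat_lit 3339088150) (nat_lit 76) (nat_lit 80828029427) (nat_lit 76) (nat_lit 53546675307) (nat_lit 12) (nat_lit 4) (nat_lit 13) (nat_lit 5) (nat_lit 13) (nat_lit 4) (nat_lit 405) (nat_lit 345) (nat_lit 270))) (XT.nd (nat_lit 78) (nat_lit 76) (nat_lit 0) (XT.lf (nat_lit 0) (nat_lit 66086055769) (nat_lit 76) (nat_lit 54176676253) (nat_lit 76) (nat_lit 26889011038) (nat_lit 12) (nat_lit 4) (nat_lit 13) (nat_lit 5) (nat_lit 13) (nat_lit 4) (nat_lit 406) (nat_lit 345) (nat_lit 269)) (XT.lf (nat_lit 0) (nat_lit 1826255012) (nat_lit 152) (nat_lit 23549686045) (nat_lit 76) (nat_lit 131968012600) (nat_lit 11) (nat_lit 5) (nat_lit 13) (nat_lit 5) (nat_lit 12) (nat_lit 4) (nat_lit 407)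 (nat_lit 345) (nat_lit 268))))))) (XT.nd (nat_lit 1014) (nat_lit 228) (nat_lit 0) (XT.nd (nat_lit 468) (nat_lit 228) (nat_lit 0) (XT.nd (nat_lit 234) (nat_lit 76) (nat_lit 0) (XT.nd (nat_lit 78) (nat_lit 0) (nat_lit 0) (XT.lf (nat_lit 0) (nat_lit 32617239038) (nat_lit 152) (nat_lit 129057966650) (nat_lit 0) (nat_lit 6618268021) (nat_lit 10) (nat_lit 5) (nat_lit 12) (nat_lit 4) (nat_lit 10) (nat_lit 4) (nat_lit 408) (nat_lit 345) (nat_lit 267)) (XT.nd (nat_lit 78) (nat_lit 0) (nat_lit 0) (XT.lf (nat_lit 0) (nat_lit 66703612471) (nat_lit 152) (nat_lit 72673867853) (nat_lit 0) (nat_lit 40699870073) (nat_lit 10) (nat_lit 5) (nat_lit 12) (nat_lit 4) (nat_lit 10) (nat_lit 4) (nat_lit 409) (nat_lit 345) (nat_lit 266)) (XT.lf (nat_lit 0) (nat_lit 103505118653) (nat_lit 152) (nat_lit 11802449641) (nat_lit 0) (nat_lit 77496958309) (nat_lit 10) (nat_lit 5) (nat_lit 12) (nat_lit 4) (nat_lit 10) (nat_lit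 4) (nat_lit 410) (nat_lit 345) (nat_lit 265)))) (XT.nd (nat_lit 78) (nat_lit 0) (nat_lit 0) (XT.lf (nat_lit 0) (nat_lit 55699747266) (nat_lit 76) (nat_lit 88409722470) (nat_lit 76) (nat_lit 62397471436) (nat_lit 9) (nat_lit 4) (nat_lit 10) (nat_lit 5) (nat_lit 10) (nat_lit 4) (nat_lit 411) (nat_lit 345) (nat_lit 264)) (XT.nd (nat_lit 78) (nat_lit 0) (nat_lit 0) (XT.lf (nat_lit 0) (nat_lit 129002849019) (nat_lit 76) (nat_lit 59154490264) (nat_lit 76) (nat_lit 33138451554) (nat_lit 9) (nat_lit 4) (nat_lit 10) (nat_lit 5) (nat_lit 10) (nat_lit 4) (nat_lit 412) (nat_lit 345) (nat_lit 263)) (XT.lf (nat_lit 0) (nat_lit 208151002082) (nat_lit 76) (nat_lit 27568387535) (nat_lit 76) (nat_lit 1548841717) (nat_lit 9) (nat_lit 4) (nat_lit 10) (nat_lit 5) (nat_lit 10) (nat_lit 4) (nat_lit 413) (nat_lit 345) (nat_lit 262))))) (XT.nd (nat_lit 234) (nat_lit 76) (nat_lit 0) (XT.nd (nat_lit 78) (nat_lit 0)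 (nat_lit 0) (XT.lf (nat_lit 0) (nat_lit 32259410683) (nat_lit 152) (nat_lit 214721142189) (nat_lit 0) (nat_lit 7475798169) (nat_lit 7) (nat_lit 5) (nat_lit 9) (nat_lit 4) (nat_lit 7) (nat_lit 4) (nat_lit 414) (nat_lit 345) (nat_lit 261)) (XT.nd (nat_lit 78) (nat_lit 0) (nat_lit 0) (XT.lf (nat_lit 0) (nat_lit 69690343762) (nat_lit 152) (nat_lit 158375425494) (nat_lit 0) (nat_lit 44903867649) (nat_lit 7) (nat_lit 5) (nat_lit 9) (nat_lit 4) (nat_lit 7) (nat_lit 4) (nat_lit 415) (nat_lit 345) (nat_lit 260)) (XT.lf (nat_lit 0) (nat_lit 110107591648) (nat_lit 152) (nat_lit 97538338246) (nat_lit 0) (nat_lit 85318464053) (nat_lit 7) (nat_lit 5) (nat_lit 9) (nat_lit 4) (nat_lit 7) (nat_lit 4) (nat_lit 416) (nat_lit 345) (nat_lit 259)))) (XT.nd (nat_lit 156) (nat_lit 0) (nat_lit 0) (XT.nd (nat_lit 78) (nat_lit 76) (nat_lit 0) (XT.lf (nat_lit 0) (nat_lit 153750663956) (nat_lit 152) (nat_lit 31849364371)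 (nat_lit 0) (nat_lit 128959081287) (nat_lit 7) (nat_lit 5) (nat_lit 9) (nat_lit 4) (nat_lit 7) (nat_lit 4) (nat_lit 417) (nat_lit 345) (nat_lit 258)) (XT.lf (nat_lit 0) (nat_lit 40372950678) (nat_lit 76) (nat_lit 161135570528) (nat_lit 76) (nat_lit 136341714641) (nat_lit 6) (nat_lit 4) (nat_lit 7) (nat_lit 5) (nat_lit 7) (nat_lit 4) (nat_lit 418) (nat_lit 345) (nat_lit 257))) (XT.nd (nat_lit 78) (nat_lit 0) (nat_lit 0) (XT.lf (nat_lit 0) (nat_lit 119497024997) (nat_lit 76) (nat_lit 134138091342) (nat_lit 76) (nat_lit 109342130624) (nat_lit 6) (nat_lit 4) (nat_lit 7) (nat_lit 5) (nat_lit 7) (nat_lit 4) (nat_lit 419) (nat_lit 345) (nat_lit 256)) (XT.lf (nat_lit 0) (nat_lit 204938658167) (nat_lit 76) (nat_lit 104986990106) (nat_lit 76) (nat_lit 80189080470) (nat_lit 6) (nat_lit 4) (nat_lit 7) (nat_lit 5) (nat_lit 7) (nat_lit 4) (nat_lit 420) (nat_lit 345) (nat_lit 255)))))) (XT.nd (nat_lit 468)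 (nat_lit 76) (nat_lit 0) (XT.nd (nat_lit 234) (nat_lit 0) (nat_lit 0) (XT.nd (nat_lit 78) (nat_lit 152) (nat_lit 0) (XT.lf (nat_lit 0) (nat_lit 297204170976) (nat_lit 76) (nat_lit 73509519552) (nat_lit 76) (nat_lit 48709805362) (nat_lit 6) (nat_lit 4) (nat_lit 7) (nat_lit 5) (nat_lit 7) (nat_lit 4) (nat_lit 421) (nat_lit 345) (nat_lit 254)) (XT.nd (nat_lit 78) (nat_lit 152) (nat_lit 0) (XT.lf (nat_lit 0) (nat_lit 396840322019) (nat_lit 76) (nat_lit 39519146521) (nat_lit 76) (nat_lit 14717761449) (nat_lit 6) (nat_lit 4) (nat_lit 7) (nat_lit 5) (nat_lit 7) (nat_lit 4) (nat_lit 422) (nat_lit 345) (nat_lit 253)) (XT.lf (nat_lit 0) (nat_lit 19453366351) (nat_lit 76) (nat_lit 2135071959) (nat_lit 152) (nat_lit 463642719240) (nat_lit 4) (nat_lit 5) (nat_lit 5) (nat_lit 5) (nat_lit 6) (nat_lit 4) (nat_lit 423) (nat_lit 345) (nat_lit 252)))) (XT.nd (nat_lit 78) (nat_lit 0) (nat_lit 0) (XT.lf (nat_lit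 0) (nat_lit 61842829465) (nat_lit 152) (nat_lit 421964914582) (nat_lit 0) (nat_lit 38219624990) (nat_lit 4) (nat_lit 5) (nat_lit 6) (nat_lit 4) (nat_lit 4) (nat_lit 4) (nat_lit 424) (nat_lit 345) (nat_lit 251)) (XT.nd (nat_lit 78) (nat_lit 0) (nat_lit 0) (XT.lf (nat_lit 0) (nat_lit 105349083473) (nat_lit 152) (nat_lit 374692002781) (nat_lit 0) (nat_lit 81724615759) (nat_lit 4) (nat_lit 5) (nat_lit 6) (nat_lit 4) (nat_lit 4) (nat_lit 4) (nat_lit 425) (nat_lit 345) (nat_lit 250)) (XT.lf (nat_lit 0) (nat_lit 152331680717) (nat_lit 152) (nat_lit 323645585567) (nat_lit 0) (nat_lit 128706043338) (nat_lit 4) (nat_lit 5) (nat_lit 6) (nat_lit 4) (nat_lit 4) (nat_lit 4) (nat_lit 426) (nat_lit 345) (nat_lit 249))))) (XT.nd (nat_lit 234) (nat_lit 76) (nat_lit 0) (XT.nd (nat_lit 78) (nat_lit 0) (nat_lit 0) (XT.lf (nat_lit 0) (nat_lit 203069036589) (nat_lit 152) (nat_lit 268523165652) (nat_lit 0) (nat_lit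 179442316186) (nat_lit 4) (nat_lit 5) (nat_lit 6) (nat_lit 4) (nat_lit 4) (nat_lit 4) (nat_lit 427) (nat_lit 345) (nat_lit 248)) (XT.nd (nat_lit 78) (nat_lit 0) (nat_lit 0) (XT.lf (nat_lit 0) (nat_lit 257861816899) (nat_lit 152) (nat_lit 208998091659) (nat_lit 0) (nat_lit 234234093697) (nat_lit 4) (nat_lit 5) (nat_lit 6) (nat_lit 4) (nat_lit 4) (nat_lit 4) (nat_lit 428) (nat_lit 345) (nat_lit 247)) (XT.lf (nat_lit 0) (nat_lit 317034719607) (nat_lit 152) (nat_lit 144717622409) (nat_lit 0) (nat_lit 293406067887) (nat_lit 4) (nat_lit 5) (nat_lit 6) (nat_lit 4) (nat_lit 4) (nat_lit 4) (nat_lit 429) (nat_lit 345) (nat_lit 246)))) (XT.nd (nat_lit 156) (nat_lit 76) (nat_lit 0) (XT.nd (nat_lit 78) (nat_lit 0) (nat_lit 0) (XT.lf (nat_lit 0) (nat_lit 380938398950) (nat_lit 152) (nat_lit 75300836603) (nat_lit 0) (nat_lit 357308887490) (nat_lit 4) (nat_lit 5) (nat_lit 6) (nat_lit 4) (nat_lit 4) (nat_lit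 4) (nat_lit 430) (nat_lit 345) (nat_lit 245)) (XT.lf (nat_lit 0) (nat_lit 449951543398) (nat_lit 152) (nat_lit 336375509) (nat_lit 0) (nat_lit 426321235884) (nat_lit 4) (nat_lit 5) (nat_lit 6) (nat_lit 4) (nat_lit 4) (nat_lit 4) (nat_lit 431) (nat_lit 345) (nat_lit 244))) (XT.nd (nat_lit 78) (nat_lit 0) (nat_lit 0) (XT.lf (nat_lit 0) (nat_lit 83285655829) (nat_lit 76) (nat_lit 442497786400) (nat_lit 76) (nat_lit 418866741798) (nat_lit 3) (nat_lit 4) (nat_lit 4) (nat_lit 5) (nat_lit 4) (nat_lit 4) (nat_lit 432) (nat_lit 345) (nat_lit 243)) (XT.lf (nat_lit 0) (nat_lit 173604441841) (nat_lit 76) (nat_lit 434080806579) (nat_lit 76) (nat_lit 410449079488) (nat_lit 3) (nat_lit 4) (nat_lit 4) (nat_lit 5) (nat_lit 4) (nat_lit 4) (nat_lit 433) (nat_lit 345) (nat_lit 242))))))))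
noncomputable def xc57 : XT := (XT.nd (nat_lit 47970) (nat_lit 0) (nat_lit 1444) (XT.nd (nat_lit 46956) (nat_lit 0) (nat_lit 4940) (XT.nd (nat_lit 46410) (nat_lit 0) (nat_lit 9196) (XT.nd (nat_lit 234) (nat_lit 0) (nat_lit 0) (XT.nd (nat_lit 78) (nat_lit 0) (nat_lit 0) (XT.lf (nat_lit 0) (nat_lit 271144082868) (nat_lit 76) (nat_lit 424992797729) (nat_lit 76) (nat_lit 401360438705) (nat_lit 3) (nat_lit 4) (nat_lit 4) (nat_lit 5) (nat_lit 4) (nat_lit 4) (nat_lit 434) (nat_lit 345) (nat_lit 241)) (XT.nd (nat_lit 78) (nat_lit 0) (nat_lit 0) (XT.lf (nat_lit 0) (nat_lit 376482591597) (nat_lit 76) (nat_lit 415179904983) (nat_lit 76) (nat_lit 391546960835) (nat_lit 3) (nat_lit 4) (nat_lit 4) (nat_lit 5) (nat_lit 4) (nat_lit 4) (nat_lit 435) (nat_lit 345) (nat_lit 240)) (XT.lf (nat_lit 0) (nat_lit 490244196228) (nat_lit 76) (nat_lit 404583977865) (nat_lit 76) (nat_lit 380950491935) (nat_lit 3) (nat_lit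 4) (nat_lit 4) (nat_lit 5) (nat_lit 4) (nat_lit 4) (nat_lit 436) (nat_lit 345) (nat_lit 239)))) (XT.nd (nat_lit 46020) (nat_lit 0) (nat_lit 10944) (XT.lf (nat_lit 0) (nat_lit 613103039603) (nat_lit 76) (nat_lit 393142225696) (nat_lit 76) (nat_lit 369508238117) (nat_lit 3) (nat_lit 4) (nat_lit 4) (nat_lit 5) (nat_lit 4) (nat_lit 4) (nat_lit 437) (nat_lit 345) (nat_lit 238)) (XT.nd (nat_lit 78) (nat_lit 0) (nat_lit 0) (XT.lf (nat_lit 0) (nat_lit 540242608) (nat_lit 0) (nat_lit 540242608) (nat_lit 532) (nat_lit 2659885808) (nat_lit 147) (nat_lit 5) (nat_lit 147) (nat_lit 3) (nat_lit 154) (nat_lit 3) (nat_lit 346) (nat_lit 346) (nat_lit 328)) (XT.lf (nat_lit 0) (nat_lit 4540231852) (nat_lit 532) (nat_lit 590770224) (nat_lit 608) (nat_lit 2532804065) (nat_lit 147) (nat_lit 5) (nat_lit 154) (nat_lit 3) (nat_lit 155) (nat_lit 5) (nat_lit 347) (nat_lit 346) (nat_lit 327))))) (XT.nd (nat_lit 234)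 (nat_lit 1216) (nat_lit 0) (XT.nd (nat_lit 78) (nat_lit 532) (nat_lit 0) (XT.lf (nat_lit 76) (nat_lit 5722585511) (nat_lit 0) (nat_lit 1271266639) (nat_lit 608) (nat_lit 873614835) (nat_lit 148) (nat_lit 5) (nat_lit 147) (nat_lit 5) (nat_lit 155) (nat_lit 5) (nat_lit 348) (nat_lit 346) (nat_lit 326)) (XT.nd (nat_lit 78) (nat_lit 0) (nat_lit 0) (XT.lf (nat_lit 0) (nat_lit 1422562735) (nat_lit 608) (nat_lit 3675066992) (nat_lit 684) (nat_lit 2992908822) (nat_lit 140) (nat_lit 5) (nat_lit 148) (nat_lit 5) (nat_lit 149) (nat_lit 5) (nat_lit 349) (nat_lit 346) (nat_lit 325)) (XT.lf (nat_lit 76) (nat_lit 3179412055) (nat_lit 0) (nat_lit 604474498) (nat_lit 684) (nat_lit 4551374779) (nat_lit 141) (nat_lit 5) (nat_lit 140) (nat_lit 5) (nat_lit 149) (nat_lit 5) (nat_lit 350) (nat_lit 346) (nat_lit 324)))) (XT.nd (nat_lit 156) (nat_lit 684) (nat_lit 0) (XT.nd (nat_lit 78) (nat_lit 608) (nat_lit 0)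 (XT.lf (nat_lit 76) (nat_lit 1975283640) (nat_lit 0) (nat_lit 4337191730) (nat_lit 684) (nat_lit 2288283923) (nat_lit 142) (nat_lit 5) (nat_lit 141) (nat_lit 5) (nat_lit 150) (nat_lit 5) (nat_lit 351) (nat_lit 346) (nat_lit 323)) (XT.lf (nat_lit 0) (nat_lit 102349019) (nat_lit 684) (nat_lit 8048775487) (nat_lit 76) (nat_lit 738778444) (nat_lit 133) (nat_lit 5) (nat_lit 142) (nat_lit 5) (nat_lit 134) (nat_lit 5) (nat_lit 352) (nat_lit 346) (nat_lit 322))) (XT.nd (nat_lit 78) (nat_lit 684) (nat_lit 0) (XT.lf (nat_lit 0) (nat_lit 2631769740) (nat_lit 684) (nat_lit 308803911) (nat_lit 76) (nat_lit 6258437586) (nat_lit 133) (nat_lit 5) (nat_lit 142) (nat_lit 5) (nat_lit 134) (nat_lit 5) (nat_lit 353) (nat_lit 346) (nat_lit 321)) (XT.lf (nat_lit 0) (nat_lit 5384004694) (nat_lit 760) (nat_lit 1396301179) (nat_lit 76) (nat_lit 2751606461) (nat_lit 124) (nat_lit 5) (nat_lit 134) (nat_lit 5) (nat_lit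 125) (nat_lit 5) (nat_lit 354) (nat_lit 346) (nat_lit 320)))))) (XT.nd (nat_lit 468) (nat_lit 1596) (nat_lit 0) (XT.nd (nat_lit 234) (nat_lit 1064) (nat_lit 0) (XT.nd (nat_lit 78) (nat_lit 836) (nat_lit 0) (XT.lf (nat_lit 0) (nat_lit 7431755716) (nat_lit 760) (nat_lit 953650130) (nat_lit 836) (nat_lit 1504671023) (nat_lit 114) (nat_lit 5) (nat_lit 124) (nat_lit 5) (nat_lit 125) (nat_lit 5) (nat_lit 355) (nat_lit 346) (nat_lit 319)) (XT.nd (nat_lit 78) (nat_lit 380) (nat_lit 0) (XT.lf (nat_lit 0) (nat_lit 1387927949) (nat_lit 456) (nat_lit 3556185089) (nat_lit 76) (nat_lit 5327743194) (nat_lit 108) (nat_lit 5) (nat_lit 114) (nat_lit 5) (nat_lit 109) (nat_lit 5) (nat_lit 356) (nat_lit 346) (nat_lit 318)) (XT.lf (nat_lit 0) (nat_lit 4510726270) (nat_lit 456) (nat_lit 4656772891) (nat_lit 76) (nat_lit 1512935967) (nat_lit 103) (nat_lit 5) (nat_lit 109) (nat_lit 5) (nat_lit 104) (nat_lit 5) (nat_lit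 357) (nat_lit 346) (nat_lit 317)))) (XT.nd (nat_lit 78) (nat_lit 684) (nat_lit 0) (XT.lf (nat_lit 0) (nat_lit 5332811342) (nat_lit 380) (nat_lit 2659879467) (nat_lit 456) (nat_lit 3123603436) (nat_lit 98) (nat_lit 5) (nat_lit 103) (nat_lit 5) (nat_lit 104) (nat_lit 5) (nat_lit 358) (nat_lit 346) (nat_lit 316)) (XT.nd (nat_lit 78) (nat_lit 304) (nat_lit 0) (XT.lf (nat_lit 0) (nat_lit 272401788) (nat_lit 380) (nat_lit 6933281826) (nat_lit 76) (nat_lit 4375686032) (nat_lit 93) (nat_lit 5) (nat_lit 98) (nat_lit 5) (nat_lit 94) (nat_lit 5) (nat_lit 359) (nat_lit 346) (nat_lit 315)) (XT.lf (nat_lit 0) (nat_lit 3932116212) (nat_lit 380) (nat_lit 8136678555) (nat_lit 76) (nat_lit 7272580) (nat_lit 89) (nat_lit 5) (nat_lit 94) (nat_lit 5) (nat_lit 90) (nat_lit 5) (nat_lit 360) (nat_lit 346) (nat_lit 314))))) (XT.nd (nat_lit 234) (nat_lit 760) (nat_lit 0) (XT.nd (nat_lit 78) (nat_lit 608) (nat_lit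 0) (XT.lf (nat_lit 0) (nat_lit 3174553642) (nat_lit 228) (nat_lit 4900803316) (nat_lit 304) (nat_lit 4525492583) (nat_lit 86) (nat_lit 5) (nat_lit 89) (nat_lit 5) (nat_lit 90) (nat_lit 5) (nat_lit 361) (nat_lit 346) (nat_lit 313)) (XT.nd (nat_lit 78) (nat_lit 304) (nat_lit 0) (XT.lf (nat_lit 0) (nat_lit 2423983041) (nat_lit 304) (nat_lit 10254569618) (nat_lit 380) (nat_lit 482679589) (nat_lit 82) (nat_lit 5) (nat_lit 86) (nat_lit 5) (nat_lit 87) (nat_lit 5) (nat_lit 362) (nat_lit 346) (nat_lit 312)) (XT.lf (nat_lit 0) (nat_lit 1580029207) (nat_lit 228) (nat_lit 2359450970) (nat_lit 304) (nat_lit 9814960413) (nat_lit 78) (nat_lit 5) (nat_lit 81) (nat_lit 5) (nat_lit 82) (nat_lit 5) (nat_lit 363) (nat_lit 346) (nat_lit 311)))) (XT.nd (nat_lit 156) (nat_lit 532) (nat_lit 0) (XT.nd (nat_lit 78) (nat_lit 0) (nat_lit 0) (XT.lf (nat_lit 0) (nat_lit 670534947) (nat_lit 228) (nat_lit 8235683851) (nat_lit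 304) (nat_lit 5478140201) (nat_lit 75) (nat_lit 5) (nat_lit 78) (nat_lit 5) (nat_lit 79) (nat_lit 5) (nat_lit 364) (nat_lit 346) (nat_lit 310)) (XT.lf (nat_lit 0) (nat_lit 14442866893) (nat_lit 304) (nat_lit 244018660) (nat_lit 76) (nat_lit 369189108) (nat_lit 75) (nat_lit 5) (nat_lit 79) (nat_lit 5) (nat_lit 76) (nat_lit 5) (nat_lit 365) (nat_lit 346) (nat_lit 309))) (XT.nd (nat_lit 78) (nat_lit 228) (nat_lit 0) (XT.lf (nat_lit 0) (nat_lit 4783735877) (nat_lit 304) (nat_lit 1328374038) (nat_lit 76) (nat_lit 9651255504) (nat_lit 71) (nat_lit 5) (nat_lit 75) (nat_lit 5) (nat_lit 72) (nat_lit 5) (nat_lit 366) (nat_lit 346) (nat_lit 308)) (XT.lf (nat_lit 0) (nat_lit 10792245664) (nat_lit 304) (nat_lit 2471614216) (nat_lit 76) (nat_lit 3252838576) (nat_lit 68) (nat_lit 5) (nat_lit 72) (nat_lit 5) (nat_lit 69) (nat_lit 5) (nat_lit 367) (nat_lit 346) (nat_lit 307))))))) (XT.nd (nat_lit 1014) (nat_lit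 1368) (nat_lit 0) (XT.nd (nat_lit 468) (nat_lit 988) (nat_lit 0) (XT.nd (nat_lit 234) (nat_lit 532) (nat_lit 0) (XT.nd (nat_lit 78) (nat_lit 380) (nat_lit 0) (XT.lf (nat_lit 0) (nat_lit 223307781) (nat_lit 228) (nat_lit 3731398894) (nat_lit 76) (nat_lit 13362122571) (nat_lit 65) (nat_lit 5) (nat_lit 68) (nat_lit 5) (nat_lit 66) (nat_lit 5) (nat_lit 368) (nat_lit 346) (nat_lit 306)) (XT.nd (nat_lit 78) (nat_lit 152) (nat_lit 0) (XT.lf (nat_lit 0) (nat_lit 6726928883) (nat_lit 304) (nat_lit 5217229414) (nat_lit 76) (nat_lit 6218111727) (nat_lit 62) (nat_lit 5) (nat_lit 66) (nat_lit 5) (nat_lit 63) (nat_lit 5) (nat_lit 369) (nat_lit 346) (nat_lit 305)) (XT.lf (nat_lit 0) (nat_lit 12235879796) (nat_lit 152) (nat_lit 1771883257) (nat_lit 228) (nat_lit 5054756782) (nat_lit 60) (nat_lit 5) (nat_lit 62) (nat_lit 5) (nat_lit 63) (nat_lit 5) (nat_lit 370) (nat_lit 346) (nat_lit 304)))) (XT.nd (nat_lit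 78) (nat_lit 304) (nat_lit 0) (XT.lf (nat_lit 0) (nat_lit 2132706454) (nat_lit 228) (nat_lit 8695108966) (nat_lit 76) (nat_lit 9187798104) (nat_lit 57) (nat_lit 5) (nat_lit 60) (nat_lit 5) (nat_lit 58) (nat_lit 5) (nat_lit 371) (nat_lit 346) (nat_lit 303)) (XT.nd (nat_lit 78) (nat_lit 152) (nat_lit 0) (XT.lf (nat_lit 0) (nat_lit 9973257868) (nat_lit 228) (nat_lit 10798126631) (nat_lit 76) (nat_lit 256683987) (nat_lit 55) (nat_lit 5) (nat_lit 58) (nat_lit 5) (nat_lit 56) (nat_lit 5) (nat_lit 372) (nat_lit 346) (nat_lit 302)) (XT.lf (nat_lit 0) (nat_lit 8865841799) (nat_lit 152) (nat_lit 9990804695) (nat_lit 228) (nat_lit 3244108769) (nat_lit 53) (nat_lit 5) (nat_lit 55) (nat_lit 5) (nat_lit 56) (nat_lit 5) (nat_lit 373) (nat_lit 346) (nat_lit 301))))) (XT.nd (nat_lit 234) (nat_lit 532) (nat_lit 0) (XT.nd (nat_lit 78) (nat_lit 228) (nat_lit 0) (XT.lf (nat_lit 0) (nat_lit 5304475777) (nat_lit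 228) (nat_lit 15982476778) (nat_lit 76) (nat_lit 1954305800) (nat_lit 50) (nat_lit 5) (nat_lit 53) (nat_lit 5) (nat_lit 51) (nat_lit 5) (nat_lit 374) (nat_lit 346) (nat_lit 300)) (XT.nd (nat_lit 78) (nat_lit 76) (nat_lit 0) (XT.lf (nat_lit 0) (nat_lit 5250179968) (nat_lit 152) (nat_lit 9604254833) (nat_lit 228) (nat_lit 9594362820) (nat_lit 48) (nat_lit 5) (nat_lit 50) (nat_lit 5) (nat_lit 51) (nat_lit 5) (nat_lit 375) (nat_lit 346) (nat_lit 299)) (XT.lf (nat_lit 0) (nat_lit 2964444061) (nat_lit 76) (nat_lit 22527204383) (nat_lit 152) (nat_lit 245140086) (nat_lit 47) (nat_lit 5) (nat_lit 48) (nat_lit 5) (nat_lit 49) (nat_lit 4) (nat_lit 376) (nat_lit 346) (nat_lit 298)))) (XT.nd (nat_lit 156) (nat_lit 304) (nat_lit 0) (XT.nd (nat_lit 78) (nat_lit 0) (nat_lit 0) (XT.lf (nat_lit 0) (nat_lit 66205394) (nat_lit 152) (nat_lit 9922058695) (nat_lit 228) (nat_lit 17109295299) (nat_lit 44) (nat_lit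 5) (nat_lit 46) (nat_lit 5) (nat_lit 47) (nat_lit 5) (nat_lit 377) (nat_lit 346) (nat_lit 297)) (XT.lf (nat_lit 0) (nat_lit 21443250017) (nat_lit 228) (nat_lit 3158271992) (nat_lit 76) (nat_lit 3944903380) (nat_lit 44) (nat_lit 5) (nat_lit 47) (nat_lit 5) (nat_lit 45) (nat_lit 4) (nat_lit 378) (nat_lit 346) (nat_lit 296))) (XT.nd (nat_lit 78) (nat_lit 152) (nat_lit 0) (XT.lf (nat_lit 0) (nat_lit 4075239389) (nat_lit 152) (nat_lit 7036788059) (nat_lit 76) (nat_lit 18971773465) (nat_lit 42) (nat_lit 5) (nat_lit 44) (nat_lit 5) (nat_lit 43) (nat_lit 5) (nat_lit 379) (nat_lit 346) (nat_lit 295)) (XT.lf (nat_lit 0) (nat_lit 16290303165) (nat_lit 228) (nat_lit 11617614608) (nat_lit 76) (nat_lit 3810872205) (nat_lit 40) (nat_lit 5) (nat_lit 43) (nat_lit 5) (nat_lit 41) (nat_lit 4) (nat_lit 380) (nat_lit 346) (nat_lit 294)))))) (XT.nd (nat_lit 546) (nat_lit 532) (nat_lit 0) (XT.nd (nat_lit 234) (nat_lit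 456) (nat_lit 0) (XT.nd (nat_lit 78) (nat_lit 304) (nat_lit 0) (XT.lf (nat_lit 0) (nat_lit 16442613528) (nat_lit 76) (nat_lit 13565890596) (nat_lit 152) (nat_lit 3449784474) (nat_lit 39) (nat_lit 5) (nat_lit 40) (nat_lit 5) (nat_lit 41) (nat_lit 4) (nat_lit 381) (nat_lit 346) (nat_lit 293)) (XT.nd (nat_lit 78) (nat_lit 76) (nat_lit 0) (XT.lf (nat_lit 0) (nat_lit 9573465374) (nat_lit 228) (nat_lit 23357543559) (nat_lit 76) (nat_lit 2379043207) (nat_lit 36) (nat_lit 5) (nat_lit 39) (nat_lit 5) (nat_lit 37) (nat_lit 4) (nat_lit 382) (nat_lit 346) (nat_lit 292)) (XT.lf (nat_lit 0) (nat_lit 6389879677) (nat_lit 76) (nat_lit 17719251795) (nat_lit 152) (nat_lit 13168432350) (nat_lit 35) (nat_lit 5) (nat_lit 36) (nat_lit 5) (nat_lit 37) (nat_lit 4) (nat_lit 383) (nat_lit 346) (nat_lit 291)))) (XT.nd (nat_lit 156) (nat_lit 228) (nat_lit 0) (XT.nd (nat_lit 78) (nat_lit 152) (nat_lit 0) (XT.lf (nat_lit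 0) (nat_lit 767016099) (nat_lit 152) (nat_lit 115529818) (nat_lit 76) (nat_lit 38500878803) (nat_lit 34) (nat_lit 5) (nat_lit 36) (nat_lit 5) (nat_lit 35) (nat_lit 5) (nat_lit 384) (nat_lit 346) (nat_lit 290)) (XT.lf (nat_lit 0) (nat_lit 16137727679) (nat_lit 228) (nat_lit 7988360705) (nat_lit 76) (nat_lit 17481787749) (nat_lit 32) (nat_lit 5) (nat_lit 35) (nat_lit 5) (nat_lit 33) (nat_lit 4) (nat_lit 385) (nat_lit 346) (nat_lit 289))) (XT.nd (nat_lit 78) (nat_lit 152) (nat_lit 0) (XT.lf (nat_lit 0) (nat_lit 26826339958) (nat_lit 76) (nat_lit 6312863610) (nat_lit 152) (nat_lit 10851029065) (nat_lit 31) (nat_lit 5) (nat_lit 32) (nat_lit 5) (nat_lit 33) (nat_lit 4) (nat_lit 386) (nat_lit 346) (nat_lit 288)) (XT.lf (nat_lit 0) (nat_lit 5387639834) (nat_lit 152) (nat_lit 28140589180) (nat_lit 76) (nat_lit 13000695232) (nat_lit 29) (nat_lit 5) (nat_lit 31) (nat_lit 5) (nat_lit 30) (nat_lit 4)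 (nat_lit 387) (nat_lit 346) (nat_lit 287))))) (XT.nd (nat_lit 234) (nat_lit 304) (nat_lit 0) (XT.nd (nat_lit 78) (nat_lit 152) (nat_lit 0) (XT.lf (nat_lit 0) (nat_lit 8043629477) (nat_lit 76) (nat_lit 15010113503) (nat_lit 152) (nat_lit 26182652071) (nat_lit 28) (nat_lit 5) (nat_lit 29) (nat_lit 5) (nat_lit 30) (nat_lit 4) (nat_lit 388) (nat_lit 346) (nat_lit 286)) (XT.nd (nat_lit 78) (nat_lit 152) (nat_lit 0) (XT.lf (nat_lit 0) (nat_lit 42677827495) (nat_lit 152) (nat_lit 4154261391) (nat_lit 0) (nat_lit 5301143264) (nat_lit 28) (nat_lit 5) (nat_lit 30) (nat_lit 4) (nat_lit 28) (nat_lit 4) (nat_lit 389) (nat_lit 346) (nat_lit 285)) (XT.lf (nat_lit 0) (nat_lit 9144713848) (nat_lit 152) (nat_lit 18655571817) (nat_lit 76) (nat_lit 27414298826) (nat_lit 26) (nat_lit 5) (nat_lit 28) (nat_lit 5) (nat_lit 27) (nat_lit 4) (nat_lit 390) (nat_lit 346) (nat_lit 284)))) (XT.nd (nat_lit 156) (nat_lit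 152) (nat_lit 0) (XT.nd (nat_lit 78) (nat_lit 76) (nat_lit 0) (XT.lf (nat_lit 0) (nat_lit 22649220170) (nat_lit 76) (nat_lit 6655713337) (nat_lit 152) (nat_lit 29209595714) (nat_lit 25) (nat_lit 5) (nat_lit 26) (nat_lit 5) (nat_lit 27) (nat_lit 4) (nat_lit 391) (nat_lit 346) (nat_lit 283)) (XT.lf (nat_lit 0) (nat_lit 5735414254) (nat_lit 76) (nat_lit 45987686050) (nat_lit 76) (nat_lit 10323115227) (nat_lit 24) (nat_lit 4) (nat_lit 25) (nat_lit 5) (nat_lit 25) (nat_lit 4) (nat_lit 392) (nat_lit 346) (nat_lit 282))) (XT.nd (nat_lit 78) (nat_lit 76) (nat_lit 0) (XT.lf (nat_lit 0) (nat_lit 10472539773) (nat_lit 152) (nat_lit 14215181611) (nat_lit 76) (nat_lit 41128818360) (nat_lit 23) (nat_lit 5) (nat_lit 25) (nat_lit 5) (nat_lit 24) (nat_lit 4) (nat_lit 393) (nat_lit 346) (nat_lit 281)) (XT.lf (nat_lit 0) (nat_lit 32052532508) (nat_lit 76) (nat_lit 998348986) (nat_lit 152) (nat_lit 36805113555)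 (nat_lit 22) (nat_lit 5) (nat_lit 23) (nat_lit 5) (nat_lit 24) (nat_lit 4) (nat_lit 394) (nat_lit 346) (nat_lit 280))))))))
noncomputable def xc58 : XT := (XT.nd (nat_lit 2028) (nat_lit 228) (nat_lit 0) (XT.nd (nat_lit 1014) (nat_lit 456) (nat_lit 0) (XT.nd (nat_lit 468) (nat_lit 304) (nat_lit 0) (XT.nd (nat_lit 234) (nat_lit 228) (nat_lit 0) (XT.nd (nat_lit 78) (nat_lit 152) (nat_lit 0) (XT.lf (nat_lit 0) (nat_lit 8149840890) (nat_lit 76) (nat_lit 50024640562) (nat_lit 76) (nat_lit 16007177659) (nat_lit 21) (nat_lit 4) (nat_lit 22) (nat_lit 5) (nat_lit 22) (nat_lit 4) (nat_lit 395) (nat_lit 346) (nat_lit 279)) (XT.nd (nat_lit 78) (nat_lit 76) (nat_lit 0) (XT.lf (nat_lit 0) (nat_lit 6911057286) (nat_lit 152) (nat_lit 19864399954) (nat_lit 76) (nat_lit 52039729424) (nat_lit 20) (nat_lit 5) (nat_lit 22) (nat_lit 5) (nat_lit 21) (nat_lit 4) (nat_lit 396) (nat_lit 346) (nat_lit 278)) (XT.lf (nat_lit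 0) (nat_lit 30666441618) (nat_lit 76) (nat_lit 900403106) (nat_lit 152) (nat_lit 52216187232) (nat_lit 19) (nat_lit 5) (nat_lit 20) (nat_lit 5) (nat_lit 21) (nat_lit 4) (nat_lit 397) (nat_lit 346) (nat_lit 277)))) (XT.nd (nat_lit 78) (nat_lit 228) (nat_lit 0) (XT.lf (nat_lit 0) (nat_lit 58948316775) (nat_lit 152) (nat_lit 3650307910) (nat_lit 0) (nat_lit 26512020524) (nat_lit 19) (nat_lit 5) (nat_lit 21) (nat_lit 4) (nat_lit 19) (nat_lit 4) (nat_lit 398) (nat_lit 346) (nat_lit 276)) (XT.nd (nat_lit 78) (nat_lit 152) (nat_lit 0) (XT.lf (nat_lit 0) (nat_lit 51364590953) (nat_lit 76) (nat_lit 37953659199) (nat_lit 76) (nat_lit 5506321506) (nat_lit 18) (nat_lit 4) (nat_lit 19) (nat_lit 5) (nat_lit 19) (nat_lit 4) (nat_lit 399) (nat_lit 346) (nat_lit 275)) (XT.lf (nat_lit 0) (nat_lit 9867111672) (nat_lit 76) (nat_lit 10779070241) (nat_lit 152) (nat_lit 80322939799) (nat_lit 16) (nat_lit 5) (nat_lit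 17) (nat_lit 5) (nat_lit 18) (nat_lit 4) (nat_lit 400) (nat_lit 346) (nat_lit 274))))) (XT.nd (nat_lit 234) (nat_lit 228) (nat_lit 0) (XT.nd (nat_lit 78) (nat_lit 76) (nat_lit 0) (XT.lf (nat_lit 0) (nat_lit 49741870362) (nat_lit 152) (nat_lit 38985766349) (nat_lit 0) (nat_lit 18820891783) (nat_lit 16) (nat_lit 5) (nat_lit 18) (nat_lit 4) (nat_lit 16) (nat_lit 4) (nat_lit 401) (nat_lit 346) (nat_lit 273)) (XT.nd (nat_lit 78) (nat_lit 0) (nat_lit 0) (XT.lf (nat_lit 0) (nat_lit 17650047449) (nat_lit 76) (nat_lit 63955768748) (nat_lit 76) (nat_lit 33026442499) (nat_lit 15) (nat_lit 4) (nat_lit 16) (nat_lit 5) (nat_lit 16) (nat_lit 4) (nat_lit 402) (nat_lit 346) (nat_lit 272)) (XT.lf (nat_lit 0) (nat_lit 80177438371) (nat_lit 76) (nat_lit 36504574342) (nat_lit 76) (nat_lit 5567518770) (nat_lit 15) (nat_lit 4) (nat_lit 16) (nat_lit 5) (nat_lit 16) (nat_lit 4) (nat_lit 403) (nat_lit 346) (nat_lit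 271)))) (XT.nd (nat_lit 156) (nat_lit 76) (nat_lit 0) (XT.nd (nat_lit 78) (nat_lit 0) (nat_lit 0) (XT.lf (nat_lit 0) (nat_lit 17381441299) (nat_lit 76) (nat_lit 6192048287) (nat_lit 152) (nat_lit 106871076117) (nat_lit 13) (nat_lit 5) (nat_lit 14) (nat_lit 5) (nat_lit 15) (nat_lit 4) (nat_lit 404) (nat_lit 346) (nat_lit 270)) (XT.lf (nat_lit 0) (nat_lit 55998080712) (nat_lit 152) (nat_lit 56714099933) (nat_lit 0) (nat_lit 26521091185) (nat_lit 13) (nat_lit 5) (nat_lit 15) (nat_lit 4) (nat_lit 13) (nat_lit 4) (nat_lit 405) (nat_lit 346) (nat_lit 269))) (XT.nd (nat_lit 78) (nat_lit 0) (nat_lit 0) (XT.lf (nat_lit 0) (nat_lit 4144381551) (nat_lit 76) (nat_lit 87027872977) (nat_lit 76) (nat_lit 57545039845) (nat_lit 12) (nat_lit 4) (nat_lit 13) (nat_lit 5) (nat_lit 13) (nat_lit 4) (nat_lit 406) (nat_lit 346) (nat_lit 268)) (XT.lf (nat_lit 0) (nat_lit 71871242405) (nat_lit 76) (nat_lit 58264144795)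 (nat_lit 76) (nat_lit 28775900915) (nat_lit 12) (nat_lit 4) (nat_lit 13) (nat_lit 5) (nat_lit 13) (nat_lit 4) (nat_lit 407) (nat_lit 346) (nat_lit 267)))))) (XT.nd (nat_lit 468) (nat_lit 228) (nat_lit 0) (XT.nd (nat_lit 234) (nat_lit 76) (nat_lit 0) (XT.nd (nat_lit 78) (nat_lit 76) (nat_lit 0) (XT.lf (nat_lit 0) (nat_lit 2209183157) (nat_lit 152) (nat_lit 24964428356) (nat_lit 76) (nat_lit 142746005974) (nat_lit 11) (nat_lit 5) (nat_lit 13) (nat_lit 5) (nat_lit 12) (nat_lit 4) (nat_lit 408) (nat_lit 346) (nat_lit 266)) (XT.nd (nat_lit 78) (nat_lit 0) (nat_lit 0) (XT.lf (nat_lit 0) (nat_lit 35456385357) (nat_lit 152) (nat_lit 138925913393) (nat_lit 0) (nat_lit 7363154241) (nat_lit 10) (nat_lit 5) (nat_lit 12) (nat_lit 4) (nat_lit 10) (nat_lit 4) (nat_lit 409) (nat_lit 346) (nat_lit 265)) (XT.lf (nat_lit 0) (nat_lit 72252648872) (nat_lit 152) (nat_lit 78064915625) (nat_lit 0) (nat_lit 44155327066)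 (nat_lit 10) (nat_lit 5) (nat_lit 12) (nat_lit 4) (nat_lit 10) (nat_lit 4) (nat_lit 410) (nat_lit 346) (nat_lit 264)))) (XT.nd (nat_lit 78) (nat_lit 76) (nat_lit 0) (XT.lf (nat_lit 0) (nat_lit 111982516482) (nat_lit 152) (nat_lit 12355107042) (nat_lit 0) (nat_lit 83881406999) (nat_lit 10) (nat_lit 5) (nat_lit 12) (nat_lit 4) (nat_lit 10) (nat_lit 4) (nat_lit 411) (nat_lit 346) (nat_lit 263)) (XT.nd (nat_lit 78) (nat_lit 0) (nat_lit 0) (XT.lf (nat_lit 0) (nat_lit 60530249829) (nat_lit 76) (nat_lit 95296221444) (nat_lit 76) (nat_lit 67191604854) (nat_lit 9) (nat_lit 4) (nat_lit 10) (nat_lit 5) (nat_lit 10) (nat_lit 4) (nat_lit 412) (nat_lit 346) (nat_lit 262)) (XT.lf (nat_lit 0) (nat_lit 139669857294) (nat_lit 76) (nat_lit 63714369094) (nat_lit 76) (nat_lit 35606505181) (nat_lit 9) (nat_lit 4) (nat_lit 10) (nat_lit 5) (nat_lit 10) (nat_lit 4) (nat_lit 413) (nat_lit 346) (nat_lit 261))))) (XT.nd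 (nat_lit 234) (nat_lit 76) (nat_lit 0) (XT.nd (nat_lit 78) (nat_lit 152) (nat_lit 0) (XT.lf (nat_lit 0) (nat_lit 225124175168) (nat_lit 76) (nat_lit 29614154471) (nat_lit 76) (nat_lit 1503283779) (nat_lit 9) (nat_lit 4) (nat_lit 10) (nat_lit 5) (nat_lit 10) (nat_lit 4) (nat_lit 414) (nat_lit 346) (nat_lit 260)) (XT.nd (nat_lit 78) (nat_lit 0) (nat_lit 0) (XT.lf (nat_lit 0) (nat_lit 34999358885) (nat_lit 152) (nat_lit 231581084716) (nat_lit 0) (nat_lit 8224449602) (nat_lit 7) (nat_lit 5) (nat_lit 9) (nat_lit 4) (nat_lit 7) (nat_lit 4) (nat_lit 415) (nat_lit 346) (nat_lit 259)) (XT.lf (nat_lit 0) (nat_lit 75412974363) (nat_lit 152) (nat_lit 170751247637) (nat_lit 0) (nat_lit 48635610005) (nat_lit 7) (nat_lit 5) (nat_lit 9) (nat_lit 4) (nat_lit 7) (nat_lit 4) (nat_lit 416) (nat_lit 346) (nat_lit 258)))) (XT.nd (nat_lit 156) (nat_lit 76) (nat_lit 0) (XT.nd (nat_lit 78) (nat_lit 0) (nat_lit 0)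 (XT.lf (nat_lit 0) (nat_lit 119052683331) (nat_lit 152) (nat_lit 105068986883) (nat_lit 0) (nat_lit 92273045755) (nat_lit 7) (nat_lit 5) (nat_lit 9) (nat_lit 4) (nat_lit 7) (nat_lit 4) (nat_lit 417) (nat_lit 346) (nat_lit 257)) (XT.lf (nat_lit 0) (nat_lit 166177091472) (nat_lit 152) (nat_lit 34145074240) (nat_lit 0) (nat_lit 139395349065) (nat_lit 7) (nat_lit 5) (nat_lit 9) (nat_lit 4) (nat_lit 7) (nat_lit 4) (nat_lit 418) (nat_lit 346) (nat_lit 256))) (XT.nd (nat_lit 78) (nat_lit 0) (nat_lit 0) (XT.lf (nat_lit 0) (nat_lit 43844064001) (nat_lit 76) (nat_lit 173905919248) (nat_lit 76) (nat_lit 147122227924) (nat_lit 6) (nat_lit 4) (nat_lit 7) (nat_lit 5) (nat_lit 7) (nat_lit 4) (nat_lit 419) (nat_lit 346) (nat_lit 255)) (XT.lf (nat_lit 0) (nat_lit 129280191875) (nat_lit 76) (nat_lit 144757567426) (nat_lit 76) (nat_lit 117972071548) (nat_lit 6) (nat_lit 4) (nat_lit 7) (nat_lit 5) (nat_lit 7)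 (nat_lit 4) (nat_lit 420) (nat_lit 346) (nat_lit 254))))))) (XT.nd (nat_lit 1014) (nat_lit 0) (nat_lit 0) (XT.nd (nat_lit 468) (nat_lit 76) (nat_lit 0) (XT.nd (nat_lit 234) (nat_lit 152) (nat_lit 0) (XT.nd (nat_lit 78) (nat_lit 0) (nat_lit 0) (XT.lf (nat_lit 0) (nat_lit 221540607189) (nat_lit 76) (nat_lit 113282642626) (nat_lit 76) (nat_lit 86495475865) (nat_lit 6) (nat_lit 4) (nat_lit 7) (nat_lit 5) (nat_lit 7) (nat_lit 4) (nat_lit 421) (nat_lit 346) (nat_lit 253)) (XT.nd (nat_lit 78) (nat_lit 0) (nat_lit 0) (XT.lf (nat_lit 0) (nat_lit 321172038329) (nat_lit 76) (nat_lit 79294626774) (nat_lit 76) (nat_lit 52505912900) (nat_lit 6) (nat_lit 4) (nat_lit 7) (nat_lit 5) (nat_lit 7) (nat_lit 4) (nat_lit 422) (nat_lit 346) (nat_lit 252)) (XT.lf (nat_lit 0) (nat_lit 428764893776) (nat_lit 76) (nat_lit 42592109408) (nat_lit 76) (nat_lit 15801963021) (nat_lit 6) (nat_lit 4) (nat_lit 7) (nat_lit 5)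 (nat_lit 7) (nat_lit 4) (nat_lit 423) (nat_lit 346) (nat_lit 251)))) (XT.nd (nat_lit 78) (nat_lit 0) (nat_lit 0) (XT.lf (nat_lit 0) (nat_lit 21182131381) (nat_lit 76) (nat_lit 2219626750) (nat_lit 152) (nat_lit 500643576854) (nat_lit 4) (nat_lit 5) (nat_lit 5) (nat_lit 5) (nat_lit 6) (nat_lit 4) (nat_lit 424) (nat_lit 346) (nat_lit 250)) (XT.nd (nat_lit 78) (nat_lit 0) (nat_lit 0) (XT.lf (nat_lit 0) (nat_lit 66871358947) (nat_lit 152) (nat_lit 455559640830) (nat_lit 0) (nat_lit 41354500912) (nat_lit 4) (nat_lit 5) (nat_lit 6) (nat_lit 4) (nat_lit 4) (nat_lit 4) (nat_lit 425) (nat_lit 346) (nat_lit 249)) (XT.lf (nat_lit 0) (nat_lit 113852105637) (nat_lit 152) (nat_lit 404516930672) (nat_lit 0) (nat_lit 88334164578) (nat_lit 4) (nat_lit 5) (nat_lit 6) (nat_lit 4) (nat_lit 4) (nat_lit 4) (nat_lit 426) (nat_lit 346) (nat_lit 248))))) (XT.nd (nat_lit 234) (nat_lit 76) (nat_lit 0) (XT.nd (nat_lit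 78) (nat_lit 0) (nat_lit 0) (XT.lf (nat_lit 0) (nat_lit 164587748032) (nat_lit 152) (nat_lit 349397943216) (nat_lit 0) (nat_lit 139068804174) (nat_lit 4) (nat_lit 5) (nat_lit 6) (nat_lit 4) (nat_lit 4) (nat_lit 4) (nat_lit 427) (nat_lit 346) (nat_lit 247)) (XT.nd (nat_lit 78) (nat_lit 0) (nat_lit 0) (XT.lf (nat_lit 0) (nat_lit 219378941791) (nat_lit 152) (nat_lit 289876047426) (nat_lit 0) (nat_lit 193859069414) (nat_lit 4) (nat_lit 5) (nat_lit 6) (nat_lit 4) (nat_lit 4) (nat_lit 4) (nat_lit 428) (nat_lit 346) (nat_lit 246)) (XT.lf (nat_lit 0) (nat_lit 278550375469) (nat_lit 152) (nat_lit 225598520957) (nat_lit 0) (nat_lit 253029643354) (nat_lit 4) (nat_lit 5) (nat_lit 6) (nat_lit 4) (nat_lit 4) (nat_lit 4) (nat_lit 429) (nat_lit 346) (nat_lit 245)))) (XT.nd (nat_lit 156) (nat_lit 76) (nat_lit 0) (XT.nd (nat_lit 78) (nat_lit 0) (nat_lit 0) (XT.lf (nat_lit 0) (nat_lit 342452694600) (nat_lit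 152) (nat_lit 156184459947) (nat_lit 0) (nat_lit 316931166429) (nat_lit 4) (nat_lit 5) (nat_lit 6) (nat_lit 4) (nat_lit 4) (nat_lit 4) (nat_lit 430) (nat_lit 346) (nat_lit 244)) (XT.lf (nat_lit 0) (nat_lit 411464579592) (nat_lit 152) (nat_lit 81222521814) (nat_lit 0) (nat_lit 385942314334) (nat_lit 4) (nat_lit 5) (nat_lit 6) (nat_lit 4) (nat_lit 4) (nat_lit 4) (nat_lit 431) (nat_lit 346) (nat_lit 243))) (XT.nd (nat_lit 78) (nat_lit 76) (nat_lit 0) (XT.lf (nat_lit 0) (nat_lit 485994989765) (nat_lit 152) (nat_lit 268487664) (nat_lit 0) (nat_lit 460472042018) (nat_lit 4) (nat_lit 5) (nat_lit 6) (nat_lit 4) (nat_lit 4) (nat_lit 4) (nat_lit 432) (nat_lit 346) (nat_lit 242)) (XT.lf (nat_lit 0) (nat_lit 90039186382) (nat_lit 76) (nat_lit 477852164460) (nat_lit 76) (nat_lit 452328584779) (nat_lit 3) (nat_lit 4) (nat_lit 4) (nat_lit 5) (nat_lit 4) (nat_lit 4) (nat_lit 433) (nat_lit 346) (nat_lit 241))))))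 (XT.nd (nat_lit 46488) (nat_lit 0) (nat_lit 8436) (XT.nd (nat_lit 234) (nat_lit 0) (nat_lit 0) (XT.nd (nat_lit 78) (nat_lit 0) (nat_lit 0) (XT.lf (nat_lit 0) (nat_lit 187576758379) (nat_lit 76) (nat_lit 468765192539) (nat_lit 76) (nat_lit 443241027734) (nat_lit 3) (nat_lit 4) (nat_lit 4) (nat_lit 5) (nat_lit 4) (nat_lit 4) (nat_lit 434) (nat_lit 346) (nat_lit 240)) (XT.nd (nat_lit 78) (nat_lit 0) (nat_lit 0) (XT.lf (nat_lit 0) (nat_lit 292913351341) (nat_lit 76) (nat_lit 458953259912) (nat_lit 76) (nat_lit 433428553326) (nat_lit 3) (nat_lit 4) (nat_lit 4) (nat_lit 5) (nat_lit 4) (nat_lit 4) (nat_lit 435) (nat_lit 346) (nat_lit 239)) (XT.lf (nat_lit 0) (nat_lit 406673182113) (nat_lit 76) (nat_lit 448358221793) (nat_lit 76) (nat_lit 422833013558) (nat_lit 3) (nat_lit 4) (nat_lit 4) (nat_lit 5) (nat_lit 4) (nat_lit 4) (nat_lit 436) (nat_lit 346) (nat_lit 238)))) (XT.nd (nat_lit 46098) (nat_lit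 0) (nat_lit 10336) (XT.lf (nat_lit 0) (nat_lit 529530383026) (nat_lit 76) (nat_lit 436917292772) (nat_lit 76) (nat_lit 411391620046) (nat_lit 3) (nat_lit 4) (nat_lit 4) (nat_lit 5) (nat_lit 4) (nat_lit 4) (nat_lit 437) (nat_lit 346) (nat_lit 237)) (XT.nd (nat_lit 78) (nat_lit 608) (nat_lit 0) (XT.lf (nat_lit 0) (nat_lit 1682367501) (nat_lit 0) (nat_lit 1682367501) (nat_lit 532) (nat_lit 563487360) (nat_lit 147) (nat_lit 5) (nat_lit 147) (nat_lit 3) (nat_lit 154) (nat_lit 3) (nat_lit 347) (nat_lit 347) (nat_lit 326)) (XT.lf (nat_lit 0) (nat_lit 868430832) (nat_lit 608) (nat_lit 6395864029) (nat_lit 684) (nat_lit 805929292) (nat_lit 139) (nat_lit 5) (nat_lit 147) (nat_lit 5) (nat_lit 148) (nat_lit 5) (nat_lit 348) (nat_lit 347) (nat_lit 325))))) (XT.nd (nat_lit 234) (nat_lit 1900) (nat_lit 0) (XT.nd (nat_lit 78) (nat_lit 0) (nat_lit 76) (XT.lf (nat_lit 76) (nat_lit 1885135) (nat_lit 0) (nat_lit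 2922226082) (nat_lit 684) (nat_lit 5379189196) (nat_lit 140) (nat_lit 5) (nat_lit 139) (nat_lit 5) (nat_lit 148) (nat_lit 5) (nat_lit 349) (nat_lit 347) (nat_lit 324)) (XT.nd (nat_lit 78) (nat_lit 0) (nat_lit 0) (XT.lf (nat_lit 0) (nat_lit 5102297300) (nat_lit 608) (nat_lit 1562380474) (nat_lit 684) (nat_lit 1892557746) (nat_lit 140) (nat_lit 5) (nat_lit 148) (nat_lit 5) (nat_lit 149) (nat_lit 5) (nat_lit 350) (nat_lit 347) (nat_lit 323)) (XT.lf (nat_lit 76) (nat_lit 5735865000) (nat_lit 0) (nat_lit 1688461325) (nat_lit 684) (nat_lit 1408786475) (nat_lit 141) (nat_lit 5) (nat_lit 140) (nat_lit 5) (nat_lit 149) (nat_lit 5) (nat_lit 351) (nat_lit 347) (nat_lit 322)))) (XT.nd (nat_lit 156) (nat_lit 1368) (nat_lit 0) (XT.nd (nat_lit 78) (nat_lit 0) (nat_lit 76) (XT.lf (nat_lit 0) (nat_lit 773309581) (nat_lit 684) (nat_lit 4631278433) (nat_lit 760) (nat_lit 3726046512) (nat_lit 132) (nat_lit 5)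 (nat_lit 141) (nat_lit 5) (nat_lit 142) (nat_lit 5) (nat_lit 352) (nat_lit 347) (nat_lit 321)) (XT.lf (nat_lit 0) (nat_lit 3069509912) (nat_lit 684) (nat_lit 6155719394) (nat_lit 76) (nat_lit 226216438) (nat_lit 133) (nat_lit 5) (nat_lit 142) (nat_lit 5) (nat_lit 134) (nat_lit 5) (nat_lit 353) (nat_lit 347) (nat_lit 320))) (XT.nd (nat_lit 78) (nat_lit 760) (nat_lit 0) (XT.lf (nat_lit 0) (nat_lit 2082169510) (nat_lit 684) (nat_lit 3532440098) (nat_lit 760) (nat_lit 4180132804) (nat_lit 124) (nat_lit 5) (nat_lit 133) (nat_lit 5) (nat_lit 134) (nat_lit 5) (nat_lit 354) (nat_lit 347) (nat_lit 319)) (XT.lf (nat_lit 0) (nat_lit 902972683) (nat_lit 760) (nat_lit 7492700126) (nat_lit 836) (nat_lit 1768286968) (nat_lit 114) (nat_lit 5) (nat_lit 124) (nat_lit 5) (nat_lit 125) (nat_lit 5) (nat_lit 355) (nat_lit 347) (nat_lit 318))))))))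
noncomputable def xc59 : XT := (XT.nd (nat_lit 2028) (nat_lit 2128) (nat_lit 0) (XT.nd (nat_lit 1014) (nat_lit 2128) (nat_lit 0) (XT.nd (nat_lit 468) (nat_lit 1596) (nat_lit 0) (XT.nd (nat_lit 234) (nat_lit 1064) (nat_lit 0) (XT.nd (nat_lit 78) (nat_lit 760) (nat_lit 0) (XT.lf (nat_lit 0) (nat_lit 880106914) (nat_lit 836) (nat_lit 268662583) (nat_lit 76) (nat_lit 9409839243) (nat_lit 113) (nat_lit 5) (nat_lit 124) (nat_lit 5) (nat_lit 114) (nat_lit 5) (nat_lit 356) (nat_lit 347) (nat_lit 317)) (XT.nd (nat_lit 78) (nat_lit 380) (nat_lit 0) (XT.lf (nat_lit 0) (nat_lit 3804892632) (nat_lit 456) (nat_lit 1465051737) (nat_lit 76) (nat_lit 5707173236) (nat_lit 108) (nat_lit 5) (nat_lit 114) (nat_lit 5) (nat_lit 109) (nat_lit 5) (nat_lit 357) (nat_lit 347) (nat_lit 316)) (XT.lf (nat_lit 0) (nat_lit 7043772656) (nat_lit 456) (nat_lit 2648885284) (nat_lit 76) (nat_lit 1732500173) (nat_lit 103) (nat_lit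 5) (nat_lit 109) (nat_lit 5) (nat_lit 104) (nat_lit 5) (nat_lit 358) (nat_lit 347) (nat_lit 315)))) (XT.nd (nat_lit 78) (nat_lit 684) (nat_lit 0) (XT.lf (nat_lit 0) (nat_lit 8036415125) (nat_lit 380) (nat_lit 2642526419) (nat_lit 456) (nat_lit 1223293716) (nat_lit 98) (nat_lit 5) (nat_lit 103) (nat_lit 5) (nat_lit 104) (nat_lit 5) (nat_lit 359) (nat_lit 347) (nat_lit 314)) (XT.nd (nat_lit 78) (nat_lit 304) (nat_lit 0) (XT.lf (nat_lit 0) (nat_lit 2260854491) (nat_lit 380) (nat_lit 5148559924) (nat_lit 76) (nat_lit 4999231642) (nat_lit 93) (nat_lit 5) (nat_lit 98) (nat_lit 5) (nat_lit 94) (nat_lit 5) (nat_lit 360) (nat_lit 347) (nat_lit 313)) (XT.lf (nat_lit 0) (nat_lit 6108565498) (nat_lit 380) (nat_lit 6462226725) (nat_lit 76) (nat_lit 377433054) (nat_lit 89) (nat_lit 5) (nat_lit 94) (nat_lit 5) (nat_lit 90) (nat_lit 5) (nat_lit 361) (nat_lit 347) (nat_lit 312))))) (XT.nd (nat_lit 234) (nat_lit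 760) (nat_lit 0) (XT.nd (nat_lit 78) (nat_lit 608) (nat_lit 0) (XT.lf (nat_lit 0) (nat_lit 5652845600) (nat_lit 228) (nat_lit 4827230856) (nat_lit 304) (nat_lit 3040134782) (nat_lit 86) (nat_lit 5) (nat_lit 89) (nat_lit 5) (nat_lit 90) (nat_lit 5) (nat_lit 362) (nat_lit 347) (nat_lit 311)) (XT.nd (nat_lit 78) (nat_lit 228) (nat_lit 0) (XT.lf (nat_lit 0) (nat_lit 1193036486) (nat_lit 380) (nat_lit 9325719576) (nat_lit 76) (nat_lit 3610218892) (nat_lit 81) (nat_lit 5) (nat_lit 86) (nat_lit 5) (nat_lit 82) (nat_lit 5) (nat_lit 363) (nat_lit 347) (nat_lit 310)) (XT.lf (nat_lit 0) (nat_lit 3870482378) (nat_lit 228) (nat_lit 1989837353) (nat_lit 304) (nat_lit 8913561930) (nat_lit 78) (nat_lit 5) (nat_lit 81) (nat_lit 5) (nat_lit 82) (nat_lit 5) (nat_lit 364) (nat_lit 347) (nat_lit 309)))) (XT.nd (nat_lit 156) (nat_lit 228) (nat_lit 0) (XT.nd (nat_lit 78) (nat_lit 304) (nat_lit 0) (XT.lf (nat_lit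 0) (nat_lit 2863240456) (nat_lit 228) (nat_lit 8283686365) (nat_lit 304) (nat_lit 4311186929) (nat_lit 75) (nat_lit 5) (nat_lit 78) (nat_lit 5) (nat_lit 79) (nat_lit 5) (nat_lit 365) (nat_lit 347) (nat_lit 308)) (XT.lf (nat_lit 0) (nat_lit 835809868) (nat_lit 304) (nat_lit 14362501152) (nat_lit 76) (nat_lit 988408221) (nat_lit 71) (nat_lit 5) (nat_lit 75) (nat_lit 5) (nat_lit 72) (nat_lit 5) (nat_lit 366) (nat_lit 347) (nat_lit 307))) (XT.nd (nat_lit 78) (nat_lit 0) (nat_lit 0) (XT.lf (nat_lit 0) (nat_lit 584160710) (nat_lit 228) (nat_lit 5962874046) (nat_lit 304) (nat_lit 10407893507) (nat_lit 68) (nat_lit 5) (nat_lit 71) (nat_lit 5) (nat_lit 72) (nat_lit 5) (nat_lit 367) (nat_lit 347) (nat_lit 306)) (XT.lf (nat_lit 0) (nat_lit 12964961359) (nat_lit 304) (nat_lit 700306000) (nat_lit 76) (nat_lit 4106859070) (nat_lit 68) (nat_lit 5) (nat_lit 72) (nat_lit 5) (nat_lit 69) (nat_lit 5) (nat_lit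 368) (nat_lit 347) (nat_lit 305)))))) (XT.nd (nat_lit 468) (nat_lit 988) (nat_lit 0) (XT.nd (nat_lit 234) (nat_lit 532) (nat_lit 0) (XT.nd (nat_lit 78) (nat_lit 380) (nat_lit 0) (XT.lf (nat_lit 0) (nat_lit 1503678747) (nat_lit 228) (nat_lit 2104312276) (nat_lit 76) (nat_lit 15030670267) (nat_lit 65) (nat_lit 5) (nat_lit 68) (nat_lit 5) (nat_lit 66) (nat_lit 5) (nat_lit 369) (nat_lit 347) (nat_lit 304)) (XT.nd (nat_lit 78) (nat_lit 152) (nat_lit 0) (XT.lf (nat_lit 0) (nat_lit 8472885287) (nat_lit 304) (nat_lit 3742503291) (nat_lit 76) (nat_lit 7339112779) (nat_lit 62) (nat_lit 5) (nat_lit 66) (nat_lit 5) (nat_lit 63) (nat_lit 5) (nat_lit 370) (nat_lit 347) (nat_lit 303)) (XT.lf (nat_lit 0) (nat_lit 15024626101) (nat_lit 152) (nat_lit 1250350503) (nat_lit 228) (nat_lit 4254881707) (nat_lit 60) (nat_lit 5) (nat_lit 62) (nat_lit 5) (nat_lit 63) (nat_lit 5) (nat_lit 371) (nat_lit 347) (nat_lit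 302)))) (XT.nd (nat_lit 78) (nat_lit 304) (nat_lit 0) (XT.lf (nat_lit 0) (nat_lit 3420622068) (nat_lit 228) (nat_lit 7577008254) (nat_lit 76) (nat_lit 10563073251) (nat_lit 57) (nat_lit 5) (nat_lit 60) (nat_lit 5) (nat_lit 58) (nat_lit 5) (nat_lit 372) (nat_lit 347) (nat_lit 301)) (XT.nd (nat_lit 78) (nat_lit 152) (nat_lit 0) (XT.lf (nat_lit 0) (nat_lit 11843252716) (nat_lit 228) (nat_lit 9884247061) (nat_lit 76) (nat_lit 928935182) (nat_lit 55) (nat_lit 5) (nat_lit 58) (nat_lit 5) (nat_lit 56) (nat_lit 5) (nat_lit 373) (nat_lit 347) (nat_lit 300)) (XT.lf (nat_lit 0) (nat_lit 11275580878) (nat_lit 152) (nat_lit 10108863334) (nat_lit 228) (nat_lit 2433156047) (nat_lit 53) (nat_lit 5) (nat_lit 55) (nat_lit 5) (nat_lit 56) (nat_lit 5) (nat_lit 374) (nat_lit 347) (nat_lit 299))))) (XT.nd (nat_lit 234) (nat_lit 456) (nat_lit 0) (XT.nd (nat_lit 78) (nat_lit 304) (nat_lit 0) (XT.lf (nat_lit 0) (nat_lit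 6724732956) (nat_lit 228) (nat_lit 15562536018) (nat_lit 76) (nat_lit 2763272761) (nat_lit 50) (nat_lit 5) (nat_lit 53) (nat_lit 5) (nat_lit 51) (nat_lit 5) (nat_lit 375) (nat_lit 347) (nat_lit 298)) (XT.nd (nat_lit 78) (nat_lit 152) (nat_lit 0) (XT.lf (nat_lit 0) (nat_lit 7294916837) (nat_lit 152) (nat_lit 9695368030) (nat_lit 228) (nat_lit 9366835935) (nat_lit 48) (nat_lit 5) (nat_lit 50) (nat_lit 5) (nat_lit 51) (nat_lit 5) (nat_lit 376) (nat_lit 347) (nat_lit 297)) (XT.lf (nat_lit 0) (nat_lit 670773777) (nat_lit 152) (nat_lit 22969651536) (nat_lit 76) (nat_lit 4108978869) (nat_lit 46) (nat_lit 5) (nat_lit 48) (nat_lit 5) (nat_lit 47) (nat_lit 5) (nat_lit 377) (nat_lit 347) (nat_lit 296)))) (XT.nd (nat_lit 156) (nat_lit 304) (nat_lit 0) (XT.nd (nat_lit 78) (nat_lit 0) (nat_lit 0) (XT.lf (nat_lit 0) (nat_lit 1621430502) (nat_lit 152) (nat_lit 10048474349) (nat_lit 228) (nat_lit 17551162216)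 (nat_lit 44) (nat_lit 5) (nat_lit 46) (nat_lit 5) (nat_lit 47) (nat_lit 5) (nat_lit 378) (nat_lit 347) (nat_lit 295)) (XT.lf (nat_lit 0) (nat_lit 23985560781) (nat_lit 228) (nat_lit 1944446196) (nat_lit 76) (nat_lit 4858634266) (nat_lit 44) (nat_lit 5) (nat_lit 47) (nat_lit 5) (nat_lit 45) (nat_lit 4) (nat_lit 379) (nat_lit 347) (nat_lit 294))) (XT.nd (nat_lit 78) (nat_lit 152) (nat_lit 0) (XT.lf (nat_lit 0) (nat_lit 5201811439) (nat_lit 152) (nat_lit 6170368168) (nat_lit 76) (nat_lit 21078160487) (nat_lit 42) (nat_lit 5) (nat_lit 44) (nat_lit 5) (nat_lit 43) (nat_lit 5) (nat_lit 380) (nat_lit 347) (nat_lit 293)) (XT.lf (nat_lit 0) (nat_lit 18365566830) (nat_lit 228) (nat_lit 11150962379) (nat_lit 76) (nat_lit 4701034915) (nat_lit 40) (nat_lit 5) (nat_lit 43) (nat_lit 5) (nat_lit 41) (nat_lit 4) (nat_lit 381) (nat_lit 347) (nat_lit 292))))))) (XT.nd (nat_lit 1014) (nat_lit 836) (nat_lit 0)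 (XT.nd (nat_lit 468) (nat_lit 608) (nat_lit 0) (XT.nd (nat_lit 234) (nat_lit 304) (nat_lit 0) (XT.nd (nat_lit 78) (nat_lit 304) (nat_lit 0) (XT.lf (nat_lit 0) (nat_lit 19093412881) (nat_lit 76) (nat_lit 14051472065) (nat_lit 152) (nat_lit 2953164047) (nat_lit 39) (nat_lit 5) (nat_lit 40) (nat_lit 5) (nat_lit 41) (nat_lit 4) (nat_lit 382) (nat_lit 347) (nat_lit 291)) (XT.nd (nat_lit 78) (nat_lit 76) (nat_lit 0) (XT.lf (nat_lit 0) (nat_lit 11061318995) (nat_lit 228) (nat_lit 23898472637) (nat_lit 76) (nat_lit 3138862097) (nat_lit 36) (nat_lit 5) (nat_lit 39) (nat_lit 5) (nat_lit 37) (nat_lit 4) (nat_lit 383) (nat_lit 347) (nat_lit 290)) (XT.lf (nat_lit 0) (nat_lit 8171045346) (nat_lit 76) (nat_lit 18555141175) (nat_lit 152) (nat_lit 13499070103) (nat_lit 35) (nat_lit 5) (nat_lit 36) (nat_lit 5) (nat_lit 37) (nat_lit 4) (nat_lit 384) (nat_lit 347) (nat_lit 289)))) (XT.nd (nat_lit 78) (nat_lit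 76) (nat_lit 0) (XT.lf (nat_lit 0) (nat_lit 1108103367) (nat_lit 152) (nat_lit 385446417) (nat_lit 228) (nat_lit 41007205569) (nat_lit 32) (nat_lit 5) (nat_lit 34) (nat_lit 5) (nat_lit 35) (nat_lit 5) (nat_lit 385) (nat_lit 347) (nat_lit 288)) (XT.nd (nat_lit 78) (nat_lit 76) (nat_lit 0) (XT.lf (nat_lit 0) (nat_lit 18054747080) (nat_lit 228) (nat_lit 7459328967) (nat_lit 76) (nat_lit 19391051669) (nat_lit 32) (nat_lit 5) (nat_lit 35) (nat_lit 5) (nat_lit 33) (nat_lit 4) (nat_lit 386) (nat_lit 347) (nat_lit 287)) (XT.lf (nat_lit 0) (nat_lit 30089783520) (nat_lit 76) (nat_lit 6297631813) (nat_lit 152) (nat_lit 11092109499) (nat_lit 31) (nat_lit 5) (nat_lit 32) (nat_lit 5) (nat_lit 33) (nat_lit 4) (nat_lit 387) (nat_lit 347) (nat_lit 286))))) (XT.nd (nat_lit 234) (nat_lit 380) (nat_lit 0) (XT.nd (nat_lit 78) (nat_lit 76) (nat_lit 0) (XT.lf (nat_lit 0) (nat_lit 6405562348) (nat_lit 152) (nat_lit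 29282731912) (nat_lit 76) (nat_lit 14533534306) (nat_lit 29) (nat_lit 5) (nat_lit 31) (nat_lit 5) (nat_lit 30) (nat_lit 4) (nat_lit 388) (nat_lit 347) (nat_lit 285)) (XT.nd (nat_lit 78) (nat_lit 0) (nat_lit 0) (XT.lf (nat_lit 0) (nat_lit 9748023913) (nat_lit 76) (nat_lit 15710018606) (nat_lit 152) (nat_lit 27689204823) (nat_lit 28) (nat_lit 5) (nat_lit 29) (nat_lit 5) (nat_lit 30) (nat_lit 4) (nat_lit 389) (nat_lit 347) (nat_lit 284)) (XT.lf (nat_lit 0) (nat_lit 46617813522) (nat_lit 152) (nat_lit 3485544083) (nat_lit 0) (nat_lit 6174190209) (nat_lit 28) (nat_lit 5) (nat_lit 30) (nat_lit 4) (nat_lit 28) (nat_lit 4) (nat_lit 390) (nat_lit 347) (nat_lit 283)))) (XT.nd (nat_lit 156) (nat_lit 152) (nat_lit 0) (XT.nd (nat_lit 78) (nat_lit 76) (nat_lit 0) (XT.lf (nat_lit 0) (nat_lit 10386330577) (nat_lit 152) (nat_lit 19173551474) (nat_lit 76) (nat_lit 30046318792) (nat_lit 26) (nat_lit 5) (nat_lit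 28) (nat_lit 5) (nat_lit 27) (nat_lit 4) (nat_lit 391) (nat_lit 347) (nat_lit 282)) (XT.lf (nat_lit 0) (nat_lit 25393274764) (nat_lit 76) (nat_lit 6742865290) (nat_lit 152) (nat_lit 31035166072) (nat_lit 25) (nat_lit 5) (nat_lit 26) (nat_lit 5) (nat_lit 27) (nat_lit 4) (nat_lit 392) (nat_lit 347) (nat_lit 281))) (XT.nd (nat_lit 78) (nat_lit 76) (nat_lit 0) (XT.lf (nat_lit 0) (nat_lit 7102531064) (nat_lit 76) (nat_lit 49229787311) (nat_lit 76) (nat_lit 10653984379) (nat_lit 24) (nat_lit 4) (nat_lit 25) (nat_lit 5) (nat_lit 25) (nat_lit 4) (nat_lit 393) (nat_lit 347) (nat_lit 280)) (XT.lf (nat_lit 0) (nat_lit 11753988892) (nat_lit 152) (nat_lit 14496687192) (nat_lit 76) (nat_lit 44808967929) (nat_lit 23) (nat_lit 5) (nat_lit 25) (nat_lit 5) (nat_lit 24) (nat_lit 4) (nat_lit 394) (nat_lit 347) (nat_lit 279)))))) (XT.nd (nat_lit 546) (nat_lit 304) (nat_lit 0) (XT.nd (nat_lit 234) (nat_lit 304)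 (nat_lit 0) (XT.nd (nat_lit 78) (nat_lit 152) (nat_lit 0) (XT.lf (nat_lit 0) (nat_lit 35435255988) (nat_lit 76) (nat_lit 683258706) (nat_lit 152) (nat_lit 39304747924) (nat_lit 22) (nat_lit 5) (nat_lit 23) (nat_lit 5) (nat_lit 24) (nat_lit 4) (nat_lit 395) (nat_lit 347) (nat_lit 278)) (XT.nd (nat_lit 78) (nat_lit 76) (nat_lit 0) (XT.lf (nat_lit 0) (nat_lit 9599168886) (nat_lit 76) (nat_lit 53639617106) (nat_lit 76) (nat_lit 16856857157) (nat_lit 21) (nat_lit 4) (nat_lit 22) (nat_lit 5) (nat_lit 22) (nat_lit 4) (nat_lit 396) (nat_lit 347) (nat_lit 277)) (XT.lf (nat_lit 0) (nat_lit 7850148714) (nat_lit 152) (nat_lit 20702476079) (nat_lit 76) (nat_lit 56548438782) (nat_lit 20) (nat_lit 5) (nat_lit 22) (nat_lit 5) (nat_lit 21) (nat_lit 4) (nat_lit 397) (nat_lit 347) (nat_lit 276)))) (XT.nd (nat_lit 156) (nat_lit 228) (nat_lit 0) (XT.nd (nat_lit 78) (nat_lit 0) (nat_lit 0) (XT.lf (nat_lit 0) (nat_lit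 33838191977) (nat_lit 76) (nat_lit 622816039) (nat_lit 152) (nat_lit 56006200080) (nat_lit 19) (nat_lit 5) (nat_lit 20) (nat_lit 5) (nat_lit 21) (nat_lit 4) (nat_lit 398) (nat_lit 347) (nat_lit 275)) (XT.lf (nat_lit 0) (nat_lit 64010732350) (nat_lit 152) (nat_lit 3265070591) (nat_lit 0) (nat_lit 28946342641) (nat_lit 19) (nat_lit 5) (nat_lit 21) (nat_lit 4) (nat_lit 19) (nat_lit 4) (nat_lit 399) (nat_lit 347) (nat_lit 274))) (XT.nd (nat_lit 78) (nat_lit 152) (nat_lit 0) (XT.lf (nat_lit 0) (nat_lit 56121587201) (nat_lit 76) (nat_lit 40673117234) (nat_lit 76) (nat_lit 5599261268) (nat_lit 18) (nat_lit 4) (nat_lit 19) (nat_lit 5) (nat_lit 19) (nat_lit 4) (nat_lit 400) (nat_lit 347) (nat_lit 273)) (XT.lf (nat_lit 0) (nat_lit 11286816572) (nat_lit 76) (nat_lit 11332421277) (nat_lit 152) (nat_lit 86411326155) (nat_lit 16) (nat_lit 5) (nat_lit 17) (nat_lit 5) (nat_lit 18) (nat_lit 4) (nat_lit 401)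 (nat_lit 347) (nat_lit 272))))) (XT.nd (nat_lit 234) (nat_lit 228) (nat_lit 0) (XT.nd (nat_lit 78) (nat_lit 76) (nat_lit 0) (XT.lf (nat_lit 0) (nat_lit 54023243456) (nat_lit 152) (nat_lit 41510554089) (nat_lit 0) (nat_lit 20603494114) (nat_lit 16) (nat_lit 5) (nat_lit 18) (nat_lit 4) (nat_lit 16) (nat_lit 4) (nat_lit 402) (nat_lit 347) (nat_lit 271)) (XT.nd (nat_lit 78) (nat_lit 0) (nat_lit 0) (XT.lf (nat_lit 0) (nat_lit 19630307099) (nat_lit 76) (nat_lit 68792497816) (nat_lit 76) (nat_lit 35365591693) (nat_lit 15) (nat_lit 4) (nat_lit 16) (nat_lit 5) (nat_lit 16) (nat_lit 4) (nat_lit 403) (nat_lit 347) (nat_lit 270)) (XT.lf (nat_lit 0) (nat_lit 87117796268) (nat_lit 76) (nat_lit 39165928779) (nat_lit 76) (nat_lit 5732396007) (nat_lit 15) (nat_lit 4) (nat_lit 16) (nat_lit 5) (nat_lit 16) (nat_lit 4) (nat_lit 404) (nat_lit 347) (nat_lit 269)))) (XT.nd (nat_lit 156) (nat_lit 76) (nat_lit 0)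 (XT.nd (nat_lit 78) (nat_lit 0) (nat_lit 0) (XT.lf (nat_lit 0) (nat_lit 19283855381) (nat_lit 76) (nat_lit 6434936784) (nat_lit 152) (nat_lit 115148354060) (nat_lit 13) (nat_lit 5) (nat_lit 14) (nat_lit 5) (nat_lit 15) (nat_lit 4) (nat_lit 405) (nat_lit 347) (nat_lit 268)) (XT.lf (nat_lit 0) (nat_lit 60721783891) (nat_lit 152) (nat_lit 60768874535) (nat_lit 0) (nat_lit 28869069755) (nat_lit 13) (nat_lit 5) (nat_lit 15) (nat_lit 4) (nat_lit 13) (nat_lit 4) (nat_lit 406) (nat_lit 347) (nat_lit 267))) (XT.nd (nat_lit 78) (nat_lit 0) (nat_lit 0) (XT.lf (nat_lit 0) (nat_lit 4937322977) (nat_lit 76) (nat_lit 93761708779) (nat_lit 76) (nat_lit 61903984694) (nat_lit 12) (nat_lit 4) (nat_lit 13) (nat_lit 5) (nat_lit 13) (nat_lit 4) (nat_lit 407) (nat_lit 347) (nat_lit 266)) (XT.lf (nat_lit 0) (nat_lit 78048155596) (nat_lit 76) (nat_lit 62713800419) (nat_lit 76) (nat_lit 30851437490) (nat_lit 12) (nat_lit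 4) (nat_lit 13) (nat_lit 5) (nat_lit 13) (nat_lit 4) (nat_lit 408) (nat_lit 347) (nat_lit 265))))))))
noncomputable def xc60 : XT := (XT.nd (nat_lit 2028) (nat_lit 0) (nat_lit 0) (XT.nd (nat_lit 1014) (nat_lit 228) (nat_lit 0) (XT.nd (nat_lit 468) (nat_lit 228) (nat_lit 0) (XT.nd (nat_lit 234) (nat_lit 76) (nat_lit 0) (XT.nd (nat_lit 78) (nat_lit 76) (nat_lit 0) (XT.lf (nat_lit 0) (nat_lit 2588959428) (nat_lit 152) (nat_lit 26559291324) (nat_lit 76) (nat_lit 154354774557) (nat_lit 11) (nat_lit 5) (nat_lit 13) (nat_lit 5) (nat_lit 12) (nat_lit 4) (nat_lit 409) (nat_lit 347) (nat_lit 264)) (XT.nd (nat_lit 78) (nat_lit 0) (nat_lit 0) (XT.lf (nat_lit 0) (nat_lit 38489884523) (nat_lit 152) (nat_lit 149648447893) (nat_lit 0) (nat_lit 8136898605) (nat_lit 10) (nat_lit 5) (nat_lit 12) (nat_lit 4) (nat_lit 10) (nat_lit 4) (nat_lit 410) (nat_lit 347) (nat_lit 263)) (XT.lf (nat_lit 0) (nat_lit 78215257391)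 (nat_lit 152) (nat_lit 83947573162) (nat_lit 0) (nat_lit 47858764365) (nat_lit 10) (nat_lit 5) (nat_lit 12) (nat_lit 4) (nat_lit 10) (nat_lit 4) (nat_lit 411) (nat_lit 347) (nat_lit 262)))) (XT.nd (nat_lit 78) (nat_lit 76) (nat_lit 0) (XT.lf (nat_lit 0) (nat_lit 121110003549) (nat_lit 152) (nat_lit 13007834389) (nat_lit 0) (nat_lit 90750263202) (nat_lit 10) (nat_lit 5) (nat_lit 12) (nat_lit 4) (nat_lit 10) (nat_lit 4) (nat_lit 412) (nat_lit 347) (nat_lit 261)) (XT.nd (nat_lit 78) (nat_lit 0) (nat_lit 0) (XT.lf (nat_lit 0) (nat_lit 65693762735) (nat_lit 76) (nat_lit 102760215093) (nat_lit 76) (nat_lit 72397467967) (nat_lit 9) (nat_lit 4) (nat_lit 10) (nat_lit 5) (nat_lit 10) (nat_lit 4) (nat_lit 413) (nat_lit 347) (nat_lit 260)) (XT.lf (nat_lit 0) (nat_lit 151140754137) (nat_lit 76) (nat_lit 68663644486) (nat_lit 76) (nat_lit 38298113304) (nat_lit 9) (nat_lit 4) (nat_lit 10) (nat_lit 5) (nat_lit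 10) (nat_lit 4) (nat_lit 414) (nat_lit 347) (nat_lit 259))))) (XT.nd (nat_lit 234) (nat_lit 76) (nat_lit 0) (XT.nd (nat_lit 78) (nat_lit 152) (nat_lit 0) (XT.lf (nat_lit 0) (nat_lit 243409394607) (nat_lit 76) (nat_lit 31846366333) (nat_lit 76) (nat_lit 1478257322) (nat_lit 9) (nat_lit 4) (nat_lit 10) (nat_lit 5) (nat_lit 10) (nat_lit 4) (nat_lit 415) (nat_lit 347) (nat_lit 258)) (XT.nd (nat_lit 78) (nat_lit 0) (nat_lit 0) (XT.lf (nat_lit 0) (nat_lit 37935791947) (nat_lit 152) (nat_lit 249835153070) (nat_lit 0) (nat_lit 9011510148) (nat_lit 7) (nat_lit 5) (nat_lit 9) (nat_lit 4) (nat_lit 7) (nat_lit 4) (nat_lit 416) (nat_lit 347) (nat_lit 257)) (XT.lf (nat_lit 0) (nat_lit 81572386711) (nat_lit 152) (nat_lit 184159108168) (nat_lit 0) (nat_lit 52646000080) (nat_lit 7) (nat_lit 5) (nat_lit 9) (nat_lit 4) (nat_lit 7) (nat_lit 4) (nat_lit 417) (nat_lit 347) (nat_lit 256)))) (XT.nd (nat_lit 156)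 (nat_lit 76) (nat_lit 0) (XT.nd (nat_lit 78) (nat_lit 0) (nat_lit 0) (XT.lf (nat_lit 0) (nat_lit 128693911330) (nat_lit 152) (nat_lit 113240950944) (nat_lit 0) (nat_lit 99765575782) (nat_lit 7) (nat_lit 5) (nat_lit 9) (nat_lit 4) (nat_lit 7) (nat_lit 4) (nat_lit 418) (nat_lit 347) (nat_lit 255)) (XT.lf (nat_lit 0) (nat_lit 179579604468) (nat_lit 152) (nat_lit 36660425652) (nat_lit 0) (nat_lit 150649464366) (nat_lit 7) (nat_lit 5) (nat_lit 9) (nat_lit 4) (nat_lit 7) (nat_lit 4) (nat_lit 419) (nat_lit 347) (nat_lit 254))) (XT.nd (nat_lit 78) (nat_lit 0) (nat_lit 0) (XT.lf (nat_lit 0) (nat_lit 47558445490) (nat_lit 76) (nat_lit 187715086100) (nat_lit 76) (nat_lit 158783275115) (nat_lit 6) (nat_lit 4) (nat_lit 7) (nat_lit 5) (nat_lit 7) (nat_lit 4) (nat_lit 420) (nat_lit 347) (nat_lit 253)) (XT.lf (nat_lit 0) (nat_lit 139814140900) (nat_lit 76) (nat_lit 156242518479) (nat_lit 76) (nat_lit 127309160380)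 (nat_lit 6) (nat_lit 4) (nat_lit 7) (nat_lit 5) (nat_lit 7) (nat_lit 4) (nat_lit 421) (nat_lit 347) (nat_lit 252)))))) (XT.nd (nat_lit 468) (nat_lit 76) (nat_lit 0) (XT.nd (nat_lit 234) (nat_lit 152) (nat_lit 0) (XT.nd (nat_lit 78) (nat_lit 0) (nat_lit 0) (XT.lf (nat_lit 0) (nat_lit 239441201760) (nat_lit 76) (nat_lit 122256685201) (nat_lit 76) (nat_lit 93321894590) (nat_lit 6) (nat_lit 4) (nat_lit 7) (nat_lit 5) (nat_lit 7) (nat_lit 4) (nat_lit 422) (nat_lit 347) (nat_lit 251)) (XT.nd (nat_lit 78) (nat_lit 0) (nat_lit 0) (XT.lf (nat_lit 0) (nat_lit 347030010650) (nat_lit 76) (nat_lit 85556188736) (nat_lit 76) (nat_lit 56620071724) (nat_lit 6) (nat_lit 4) (nat_lit 7) (nat_lit 5) (nat_lit 7) (nat_lit 4) (nat_lit 423) (nat_lit 347) (nat_lit 250)) (XT.lf (nat_lit 0) (nat_lit 463218130885) (nat_lit 76) (nat_lit 45923544660) (nat_lit 76) (nat_lit 16986199500) (nat_lit 6) (nat_lit 4) (nat_lit 7)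 (nat_lit 5) (nat_lit 7) (nat_lit 4) (nat_lit 424) (nat_lit 347) (nat_lit 249)))) (XT.nd (nat_lit 78) (nat_lit 0) (nat_lit 0) (XT.lf (nat_lit 0) (nat_lit 23024589169) (nat_lit 76) (nat_lit 2323250588) (nat_lit 152) (nat_lit 540617422463) (nat_lit 4) (nat_lit 5) (nat_lit 5) (nat_lit 5) (nat_lit 6) (nat_lit 4) (nat_lit 425) (nat_lit 347) (nat_lit 248)) (XT.nd (nat_lit 78) (nat_lit 0) (nat_lit 0) (XT.lf (nat_lit 0) (nat_lit 72290600520) (nat_lit 152) (nat_lit 491865122900) (nat_lit 0) (nat_lit 44729138353) (nat_lit 4) (nat_lit 5) (nat_lit 6) (nat_lit 4) (nat_lit 4) (nat_lit 4) (nat_lit 426) (nat_lit 347) (nat_lit 247)) (XT.lf (nat_lit 0) (nat_lit 123024656363) (nat_lit 152) (nat_lit 436749313648) (nat_lit 0) (nat_lit 95462265678) (nat_lit 4) (nat_lit 5) (nat_lit 6) (nat_lit 4) (nat_lit 4) (nat_lit 4) (nat_lit 427) (nat_lit 347) (nat_lit 246))))) (XT.nd (nat_lit 234) (nat_lit 76) (nat_lit 0) (XT.nd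 (nat_lit 78) (nat_lit 0) (nat_lit 0) (XT.lf (nat_lit 0) (nat_lit 177814381092) (nat_lit 152) (nat_lit 377230360638) (nat_lit 0) (nat_lit 150251130669) (nat_lit 4) (nat_lit 5) (nat_lit 6) (nat_lit 4) (nat_lit 4) (nat_lit 4) (nat_lit 428) (nat_lit 347) (nat_lit 245)) (XT.nd (nat_lit 78) (nat_lit 0) (nat_lit 0) (XT.lf (nat_lit 0) (nat_lit 236984454558) (nat_lit 152) (nat_lit 312955558966) (nat_lit 0) (nat_lit 209420408080) (nat_lit 4) (nat_lit 5) (nat_lit 6) (nat_lit 4) (nat_lit 4) (nat_lit 4) (nat_lit 429) (nat_lit 347) (nat_lit 244)) (XT.lf (nat_lit 0) (nat_lit 300885514232) (nat_lit 152) (nat_lit 243544020916) (nat_lit 0) (nat_lit 273320730666) (nat_lit 4) (nat_lit 5) (nat_lit 6) (nat_lit 4) (nat_lit 4) (nat_lit 4) (nat_lit 430) (nat_lit 347) (nat_lit 243)))) (XT.nd (nat_lit 156) (nat_lit 76) (nat_lit 0) (XT.nd (nat_lit 78) (nat_lit 0) (nat_lit 0) (XT.lf (nat_lit 0) (nat_lit 369896233062)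 (nat_lit 152) (nat_lit 168584418857) (nat_lit 0) (nat_lit 342330767007) (nat_lit 4) (nat_lit 5) (nat_lit 6) (nat_lit 4) (nat_lit 4) (nat_lit 4) (nat_lit 431) (nat_lit 347) (nat_lit 242)) (XT.lf (nat_lit 0) (nat_lit 444425563454) (nat_lit 152) (nat_lit 87632547738) (nat_lit 0) (nat_lit 416859465465) (nat_lit 4) (nat_lit 5) (nat_lit 6) (nat_lit 4) (nat_lit 4) (nat_lit 4) (nat_lit 432) (nat_lit 347) (nat_lit 241))) (XT.nd (nat_lit 78) (nat_lit 76) (nat_lit 0) (XT.lf (nat_lit 0) (nat_lit 524915160700) (nat_lit 152) (nat_lit 208692769) (nat_lit 0) (nat_lit 497348477588) (nat_lit 4) (nat_lit 5) (nat_lit 6) (nat_lit 4) (nat_lit 4) (nat_lit 4) (nat_lit 433) (nat_lit 347) (nat_lit 240)) (XT.lf (nat_lit 0) (nat_lit 97320063135) (nat_lit 76) (nat_lit 516041375980) (nat_lit 76) (nat_lit 488474151087) (nat_lit 3) (nat_lit 4) (nat_lit 4) (nat_lit 5) (nat_lit 4) (nat_lit 4) (nat_lit 434) (nat_lit 347) (nat_lit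 239))))))) (XT.nd (nat_lit 47112) (nat_lit 0) (nat_lit 4712) (XT.nd (nat_lit 46566) (nat_lit 0) (nat_lit 7980) (XT.nd (nat_lit 46332) (nat_lit 0) (nat_lit 10260) (XT.nd (nat_lit 78) (nat_lit 0) (nat_lit 0) (XT.lf (nat_lit 0) (nat_lit 202654882238) (nat_lit 76) (nat_lit 506230332353) (nat_lit 76) (nat_lit 478662605809) (nat_lit 3) (nat_lit 4) (nat_lit 4) (nat_lit 5) (nat_lit 4) (nat_lit 4) (nat_lit 435) (nat_lit 347) (nat_lit 238)) (XT.nd (nat_lit 78) (nat_lit 0) (nat_lit 0) (XT.lf (nat_lit 0) (nat_lit 316413070548) (nat_lit 76) (nat_lit 495636117382) (nat_lit 76) (nat_lit 468067926348) (nat_lit 3) (nat_lit 4) (nat_lit 4) (nat_lit 5) (nat_lit 4) (nat_lit 4) (nat_lit 436) (nat_lit 347) (nat_lit 237)) (XT.lf (nat_lit 0) (nat_lit 439268750664) (nat_lit 76) (nat_lit 484195950534) (nat_lit 76) (nat_lit 456627329416) (nat_lit 3) (nat_lit 4) (nat_lit 4) (nat_lit 5) (nat_lit 4) (nat_lit 4) (nat_lit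 437) (nat_lit 347) (nat_lit 236)))) (XT.nd (nat_lit 78) (nat_lit 0) (nat_lit 0) (XT.lf (nat_lit 0) (nat_lit 1327304606) (nat_lit 684) (nat_lit 1409308081) (nat_lit 684) (nat_lit 1409308081) (nat_lit 138) (nat_lit 3) (nat_lit 147) (nat_lit 3) (nat_lit 147) (nat_lit 5) (nat_lit 348) (nat_lit 348) (nat_lit 324)) (XT.nd (nat_lit 78) (nat_lit 0) (nat_lit 76) (XT.lf (nat_lit 76) (nat_lit 3748976024) (nat_lit 0) (nat_lit 753835600) (nat_lit 684) (nat_lit 4032535509) (nat_lit 139) (nat_lit 5) (nat_lit 138) (nat_lit 3) (nat_lit 147) (nat_lit 5) (nat_lit 349) (nat_lit 348) (nat_lit 323)) (XT.lf (nat_lit 76) (nat_lit 2042272868) (nat_lit 0) (nat_lit 4437562580) (nat_lit 684) (nat_lit 2319556235) (nat_lit 140) (nat_lit 5) (nat_lit 139) (nat_lit 5) (nat_lit 148) (nat_lit 5) (nat_lit 350) (nat_lit 348) (nat_lit 322))))) (XT.nd (nat_lit 234) (nat_lit 1748) (nat_lit 0) (XT.nd (nat_lit 78) (nat_lit 684) (nat_lit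 0) (XT.lf (nat_lit 76) (nat_lit 388411040) (nat_lit 0) (nat_lit 8185344058) (nat_lit 684) (nat_lit 512966863) (nat_lit 141) (nat_lit 5) (nat_lit 140) (nat_lit 5) (nat_lit 149) (nat_lit 5) (nat_lit 351) (nat_lit 348) (nat_lit 321)) (XT.nd (nat_lit 78) (nat_lit 0) (nat_lit 76) (XT.lf (nat_lit 0) (nat_lit 1437411852) (nat_lit 684) (nat_lit 1249667946) (nat_lit 760) (nat_lit 6706658765) (nat_lit 131) (nat_lit 5) (nat_lit 140) (nat_lit 5) (nat_lit 141) (nat_lit 5) (nat_lit 352) (nat_lit 348) (nat_lit 320)) (XT.lf (nat_lit 0) (nat_lit 3549129846) (nat_lit 684) (nat_lit 2870735933) (nat_lit 760) (nat_lit 3303946926) (nat_lit 132) (nat_lit 5) (nat_lit 141) (nat_lit 5) (nat_lit 142) (nat_lit 5) (nat_lit 353) (nat_lit 348) (nat_lit 319)))) (XT.nd (nat_lit 156) (nat_lit 1216) (nat_lit 0) (XT.nd (nat_lit 78) (nat_lit 608) (nat_lit 0) (XT.lf (nat_lit 76) (nat_lit 5601954196) (nat_lit 0) (nat_lit 253923360)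 (nat_lit 760) (nat_lit 4223185349) (nat_lit 133) (nat_lit 5) (nat_lit 132) (nat_lit 5) (nat_lit 142) (nat_lit 5) (nat_lit 354) (nat_lit 348) (nat_lit 318)) (XT.lf (nat_lit 0) (nat_lit 4329251493) (nat_lit 684) (nat_lit 4115937596) (nat_lit 760) (nat_lit 2012712036) (nat_lit 124) (nat_lit 5) (nat_lit 133) (nat_lit 5) (nat_lit 134) (nat_lit 5) (nat_lit 355) (nat_lit 348) (nat_lit 317))) (XT.nd (nat_lit 78) (nat_lit 380) (nat_lit 0) (XT.lf (nat_lit 0) (nat_lit 422799961) (nat_lit 836) (nat_lit 7785982142) (nat_lit 76) (nat_lit 2655023381) (nat_lit 113) (nat_lit 5) (nat_lit 124) (nat_lit 5) (nat_lit 114) (nat_lit 5) (nat_lit 356) (nat_lit 348) (nat_lit 316)) (XT.lf (nat_lit 0) (nat_lit 1791314103) (nat_lit 380) (nat_lit 1290340985) (nat_lit 456) (nat_lit 8213982958) (nat_lit 108) (nat_lit 5) (nat_lit 113) (nat_lit 5) (nat_lit 114) (nat_lit 5) (nat_lit 357) (nat_lit 348) (nat_lit 315)))))) (XT.nd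 (nat_lit 468) (nat_lit 1596) (nat_lit 0) (XT.nd (nat_lit 234) (nat_lit 836) (nat_lit 0) (XT.nd (nat_lit 78) (nat_lit 456) (nat_lit 0) (XT.lf (nat_lit 0) (nat_lit 469488945) (nat_lit 380) (nat_lit 5624088824) (nat_lit 456) (nat_lit 5661473807) (nat_lit 103) (nat_lit 5) (nat_lit 108) (nat_lit 5) (nat_lit 109) (nat_lit 5) (nat_lit 358) (nat_lit 348) (nat_lit 314)) (XT.nd (nat_lit 78) (nat_lit 456) (nat_lit 0) (XT.lf (nat_lit 0) (nat_lit 9469575810) (nat_lit 456) (nat_lit 819961541) (nat_lit 76) (nat_lit 1955573205) (nat_lit 103) (nat_lit 5) (nat_lit 109) (nat_lit 5) (nat_lit 104) (nat_lit 5) (nat_lit 359) (nat_lit 348) (nat_lit 313)) (XT.lf (nat_lit 0) (nat_lit 505574424) (nat_lit 456) (nat_lit 2142481084) (nat_lit 76) (nat_lit 10117334147) (nat_lit 97) (nat_lit 5) (nat_lit 103) (nat_lit 5) (nat_lit 98) (nat_lit 5) (nat_lit 360) (nat_lit 348) (nat_lit 312)))) (XT.nd (nat_lit 78) (nat_lit 532)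 (nat_lit 0) (XT.lf (nat_lit 0) (nat_lit 4127817294) (nat_lit 380) (nat_lit 3554799614) (nat_lit 76) (nat_lit 5633644392) (nat_lit 93) (nat_lit 5) (nat_lit 98) (nat_lit 5) (nat_lit 94) (nat_lit 5) (nat_lit 361) (nat_lit 348) (nat_lit 311)) (XT.nd (nat_lit 78) (nat_lit 228) (nat_lit 0) (XT.lf (nat_lit 0) (nat_lit 8193512732) (nat_lit 380) (nat_lit 4985561076) (nat_lit 76) (nat_lit 724481838) (nat_lit 89) (nat_lit 5) (nat_lit 94) (nat_lit 5) (nat_lit 90) (nat_lit 5) (nat_lit 362) (nat_lit 348) (nat_lit 310)) (XT.lf (nat_lit 0) (nat_lit 8012075707) (nat_lit 228) (nat_lit 4814200884) (nat_lit 304) (nat_lit 1699500221) (nat_lit 86) (nat_lit 5) (nat_lit 89) (nat_lit 5) (nat_lit 90) (nat_lit 5) (nat_lit 363) (nat_lit 348) (nat_lit 309))))) (XT.nd (nat_lit 234) (nat_lit 760) (nat_lit 0) (XT.nd (nat_lit 78) (nat_lit 456) (nat_lit 0) (XT.lf (nat_lit 0) (nat_lit 2743937036) (nat_lit 380) (nat_lit 8132158908)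 (nat_lit 76) (nat_lit 4309840682) (nat_lit 81) (nat_lit 5) (nat_lit 86) (nat_lit 5) (nat_lit 82) (nat_lit 5) (nat_lit 364) (nat_lit 348) (nat_lit 308)) (XT.nd (nat_lit 78) (nat_lit 228) (nat_lit 0) (XT.lf (nat_lit 0) (nat_lit 6035445758) (nat_lit 228) (nat_lit 1670312326) (nat_lit 304) (nat_lit 8180663246) (nat_lit 78) (nat_lit 5) (nat_lit 81) (nat_lit 5) (nat_lit 82) (nat_lit 5) (nat_lit 365) (nat_lit 348) (nat_lit 307)) (XT.lf (nat_lit 0) (nat_lit 4926201195) (nat_lit 228) (nat_lit 8422673976) (nat_lit 304) (nat_lit 3279877761) (nat_lit 75) (nat_lit 5) (nat_lit 78) (nat_lit 5) (nat_lit 79) (nat_lit 5) (nat_lit 366) (nat_lit 348) (nat_lit 306)))) (XT.nd (nat_lit 156) (nat_lit 228) (nat_lit 0) (XT.nd (nat_lit 78) (nat_lit 228) (nat_lit 0) (XT.lf (nat_lit 0) (nat_lit 2172563198) (nat_lit 304) (nat_lit 13659549503) (nat_lit 76) (nat_lit 1585608552) (nat_lit 71) (nat_lit 5) (nat_lit 75) (nat_lit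 5) (nat_lit 72) (nat_lit 5) (nat_lit 367) (nat_lit 348) (nat_lit 305)) (XT.lf (nat_lit 0) (nat_lit 2402361742) (nat_lit 228) (nat_lit 5871916100) (nat_lit 304) (nat_lit 9976462240) (nat_lit 68) (nat_lit 5) (nat_lit 71) (nat_lit 5) (nat_lit 72) (nat_lit 5) (nat_lit 368) (nat_lit 348) (nat_lit 304))) (XT.nd (nat_lit 78) (nat_lit 76) (nat_lit 0) (XT.lf (nat_lit 0) (nat_lit 962611253) (nat_lit 152) (nat_lit 14177120692) (nat_lit 228) (nat_lit 3996907742) (nat_lit 66) (nat_lit 5) (nat_lit 68) (nat_lit 5) (nat_lit 69) (nat_lit 5) (nat_lit 369) (nat_lit 348) (nat_lit 303)) (XT.lf (nat_lit 0) (nat_lit 2706368747) (nat_lit 228) (nat_lit 621766886) (nat_lit 76) (nat_lit 16747165289) (nat_lit 65) (nat_lit 5) (nat_lit 68) (nat_lit 5) (nat_lit 66) (nat_lit 5) (nat_lit 370) (nat_lit 348) (nat_lit 302))))))))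
noncomputable def xc61 : XT := (XT.nd (nat_lit 2028) (nat_lit 1216) (nat_lit 0) (XT.nd (nat_lit 1014) (nat_lit 1292) (nat_lit 0) (XT.nd (nat_lit 468) (nat_lit 836) (nat_lit 0) (XT.nd (nat_lit 234) (nat_lit 532) (nat_lit 0) (XT.nd (nat_lit 78) (nat_lit 380) (nat_lit 0) (XT.lf (nat_lit 0) (nat_lit 10186211732) (nat_lit 304) (nat_lit 2419728934) (nat_lit 76) (nat_lit 8460837235) (nat_lit 62) (nat_lit 5) (nat_lit 66) (nat_lit 5) (nat_lit 63) (nat_lit 5) (nat_lit 371) (nat_lit 348) (nat_lit 301)) (XT.nd (nat_lit 78) (nat_lit 228) (nat_lit 0) (XT.lf (nat_lit 0) (nat_lit 17778273077) (nat_lit 152) (nat_lit 781719922) (nat_lit 228) (nat_lit 3562817153) (nat_lit 60) (nat_lit 5) (nat_lit 62) (nat_lit 5) (nat_lit 63) (nat_lit 5) (nat_lit 372) (nat_lit 348) (nat_lit 300)) (XT.lf (nat_lit 0) (nat_lit 4652175723) (nat_lit 228) (nat_lit 6628205411) (nat_lit 76) (nat_lit 11957031404) (nat_lit 57) (nat_lit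 5) (nat_lit 60) (nat_lit 5) (nat_lit 58) (nat_lit 5) (nat_lit 373) (nat_lit 348) (nat_lit 299)))) (XT.nd (nat_lit 78) (nat_lit 380) (nat_lit 0) (XT.lf (nat_lit 0) (nat_lit 13709895218) (nat_lit 228) (nat_lit 9150870141) (nat_lit 76) (nat_lit 1561991832) (nat_lit 55) (nat_lit 5) (nat_lit 58) (nat_lit 5) (nat_lit 56) (nat_lit 5) (nat_lit 374) (nat_lit 348) (nat_lit 298)) (XT.nd (nat_lit 78) (nat_lit 228) (nat_lit 0) (XT.lf (nat_lit 0) (nat_lit 13635507779) (nat_lit 152) (nat_lit 10333548278) (nat_lit 228) (nat_lit 1710043251) (nat_lit 53) (nat_lit 5) (nat_lit 55) (nat_lit 5) (nat_lit 56) (nat_lit 5) (nat_lit 375) (nat_lit 348) (nat_lit 297)) (XT.lf (nat_lit 0) (nat_lit 8116534566) (nat_lit 228) (nat_lit 15351315560) (nat_lit 76) (nat_lit 3543853184) (nat_lit 50) (nat_lit 5) (nat_lit 53) (nat_lit 5) (nat_lit 51) (nat_lit 5) (nat_lit 376) (nat_lit 348) (nat_lit 296))))) (XT.nd (nat_lit 234) (nat_lit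 380) (nat_lit 0) (XT.nd (nat_lit 78) (nat_lit 304) (nat_lit 0) (XT.lf (nat_lit 0) (nat_lit 9271447832) (nat_lit 152) (nat_lit 9890384313) (nat_lit 228) (nat_lit 9263065603) (nat_lit 48) (nat_lit 5) (nat_lit 50) (nat_lit 5) (nat_lit 51) (nat_lit 5) (nat_lit 377) (nat_lit 348) (nat_lit 295)) (XT.nd (nat_lit 78) (nat_lit 152) (nat_lit 0) (XT.lf (nat_lit 0) (nat_lit 1519232813) (nat_lit 152) (nat_lit 23418037289) (nat_lit 76) (nat_lit 4992190918) (nat_lit 46) (nat_lit 5) (nat_lit 48) (nat_lit 5) (nat_lit 47) (nat_lit 5) (nat_lit 378) (nat_lit 348) (nat_lit 294)) (XT.lf (nat_lit 0) (nat_lit 3079958966) (nat_lit 152) (nat_lit 10280208056) (nat_lit 228) (nat_lit 18160607812) (nat_lit 44) (nat_lit 5) (nat_lit 46) (nat_lit 5) (nat_lit 47) (nat_lit 5) (nat_lit 379) (nat_lit 348) (nat_lit 293)))) (XT.nd (nat_lit 156) (nat_lit 228) (nat_lit 0) (XT.nd (nat_lit 78) (nat_lit 152) (nat_lit 0) (XT.lf (nat_lit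 0) (nat_lit 26613296900) (nat_lit 228) (nat_lit 842725181) (nat_lit 76) (nat_lit 5760132463) (nat_lit 44) (nat_lit 5) (nat_lit 47) (nat_lit 5) (nat_lit 45) (nat_lit 4) (nat_lit 380) (nat_lit 348) (nat_lit 292)) (XT.lf (nat_lit 0) (nat_lit 6304301432) (nat_lit 152) (nat_lit 5438549288) (nat_lit 76) (nat_lit 23269081659) (nat_lit 42) (nat_lit 5) (nat_lit 44) (nat_lit 5) (nat_lit 43) (nat_lit 5) (nat_lit 381) (nat_lit 348) (nat_lit 291))) (XT.nd (nat_lit 78) (nat_lit 76) (nat_lit 0) (XT.lf (nat_lit 0) (nat_lit 20496711534) (nat_lit 228) (nat_lit 10846141738) (nat_lit 76) (nat_lit 5578912062) (nat_lit 40) (nat_lit 5) (nat_lit 43) (nat_lit 5) (nat_lit 41) (nat_lit 4) (nat_lit 382) (nat_lit 348) (nat_lit 290)) (XT.lf (nat_lit 0) (nat_lit 21765767831) (nat_lit 76) (nat_lit 14661452502) (nat_lit 152) (nat_lit 2527034468) (nat_lit 39) (nat_lit 5) (nat_lit 40) (nat_lit 5) (nat_lit 41) (nat_lit 4) (nat_lit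 383) (nat_lit 348) (nat_lit 289)))))) (XT.nd (nat_lit 468) (nat_lit 532) (nat_lit 0) (XT.nd (nat_lit 234) (nat_lit 228) (nat_lit 0) (XT.nd (nat_lit 78) (nat_lit 304) (nat_lit 0) (XT.lf (nat_lit 0) (nat_lit 12565202901) (nat_lit 228) (nat_lit 24672083638) (nat_lit 76) (nat_lit 3878221608) (nat_lit 36) (nat_lit 5) (nat_lit 39) (nat_lit 5) (nat_lit 37) (nat_lit 4) (nat_lit 384) (nat_lit 348) (nat_lit 288)) (XT.nd (nat_lit 78) (nat_lit 228) (nat_lit 0) (XT.lf (nat_lit 0) (nat_lit 9913528095) (nat_lit 76) (nat_lit 19540880689) (nat_lit 152) (nat_lit 13959279632) (nat_lit 35) (nat_lit 5) (nat_lit 36) (nat_lit 5) (nat_lit 37) (nat_lit 4) (nat_lit 385) (nat_lit 348) (nat_lit 287)) (XT.lf (nat_lit 0) (nat_lit 2186165165) (nat_lit 228) (nat_lit 43615990190) (nat_lit 76) (nat_lit 69931219) (nat_lit 32) (nat_lit 5) (nat_lit 35) (nat_lit 5) (nat_lit 33) (nat_lit 4) (nat_lit 386) (nat_lit 348) (nat_lit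 286)))) (XT.nd (nat_lit 78) (nat_lit 228) (nat_lit 0) (XT.lf (nat_lit 0) (nat_lit 20035821965) (nat_lit 228) (nat_lit 7054617298) (nat_lit 76) (nat_lit 21380196657) (nat_lit 32) (nat_lit 5) (nat_lit 35) (nat_lit 5) (nat_lit 33) (nat_lit 4) (nat_lit 387) (nat_lit 348) (nat_lit 285)) (XT.nd (nat_lit 78) (nat_lit 152) (nat_lit 0) (XT.lf (nat_lit 0) (nat_lit 33454902044) (nat_lit 76) (nat_lit 6355402503) (nat_lit 152) (nat_lit 11441925197) (nat_lit 31) (nat_lit 5) (nat_lit 32) (nat_lit 5) (nat_lit 33) (nat_lit 4) (nat_lit 388) (nat_lit 348) (nat_lit 284)) (XT.lf (nat_lit 0) (nat_lit 7421189199) (nat_lit 152) (nat_lit 30674472205) (nat_lit 76) (nat_lit 16118699437) (nat_lit 29) (nat_lit 5) (nat_lit 31) (nat_lit 5) (nat_lit 30) (nat_lit 4) (nat_lit 389) (nat_lit 348) (nat_lit 283))))) (XT.nd (nat_lit 234) (nat_lit 304) (nat_lit 0) (XT.nd (nat_lit 78) (nat_lit 152) (nat_lit 0) (XT.lf (nat_lit 0)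 (nat_lit 11437420075) (nat_lit 76) (nat_lit 16537375669) (nat_lit 152) (nat_lit 29400175045) (nat_lit 28) (nat_lit 5) (nat_lit 29) (nat_lit 5) (nat_lit 30) (nat_lit 4) (nat_lit 390) (nat_lit 348) (nat_lit 282)) (XT.nd (nat_lit 78) (nat_lit 152) (nat_lit 0) (XT.lf (nat_lit 0) (nat_lit 50797992915) (nat_lit 152) (nat_lit 2906141537) (nat_lit 0) (nat_lit 7053032390) (nat_lit 28) (nat_lit 5) (nat_lit 30) (nat_lit 4) (nat_lit 28) (nat_lit 4) (nat_lit 391) (nat_lit 348) (nat_lit 281)) (XT.lf (nat_lit 0) (nat_lit 11654513790) (nat_lit 152) (nat_lit 19871987984) (nat_lit 76) (nat_lit 32826289779) (nat_lit 26) (nat_lit 5) (nat_lit 28) (nat_lit 5) (nat_lit 27) (nat_lit 4) (nat_lit 392) (nat_lit 348) (nat_lit 280)))) (XT.nd (nat_lit 156) (nat_lit 152) (nat_lit 0) (XT.nd (nat_lit 78) (nat_lit 76) (nat_lit 0) (XT.lf (nat_lit 0) (nat_lit 28223876817) (nat_lit 76) (nat_lit 6900517152) (nat_lit 152) (nat_lit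 33079710068) (nat_lit 25) (nat_lit 5) (nat_lit 26) (nat_lit 5) (nat_lit 27) (nat_lit 4) (nat_lit 393) (nat_lit 348) (nat_lit 279)) (XT.lf (nat_lit 0) (nat_lit 8449440398) (nat_lit 76) (nat_lit 52793587285) (nat_lit 76) (nat_lit 11081937504) (nat_lit 24) (nat_lit 4) (nat_lit 25) (nat_lit 5) (nat_lit 25) (nat_lit 4) (nat_lit 394) (nat_lit 348) (nat_lit 278))) (XT.nd (nat_lit 78) (nat_lit 76) (nat_lit 0) (XT.lf (nat_lit 0) (nat_lit 13074662889) (nat_lit 152) (nat_lit 14922789668) (nat_lit 76) (nat_lit 48727913845) (nat_lit 23) (nat_lit 5) (nat_lit 25) (nat_lit 5) (nat_lit 24) (nat_lit 4) (nat_lit 395) (nat_lit 348) (nat_lit 277)) (XT.lf (nat_lit 0) (nat_lit 38971826193) (nat_lit 76) (nat_lit 399306406) (nat_lit 152) (nat_lit 42067805129) (nat_lit 22) (nat_lit 5) (nat_lit 23) (nat_lit 5) (nat_lit 24) (nat_lit 4) (nat_lit 396) (nat_lit 348) (nat_lit 276))))))) (XT.nd (nat_lit 1014) (nat_lit 456)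 (nat_lit 0) (XT.nd (nat_lit 468) (nat_lit 304) (nat_lit 0) (XT.nd (nat_lit 234) (nat_lit 228) (nat_lit 0) (XT.nd (nat_lit 78) (nat_lit 152) (nat_lit 0) (XT.lf (nat_lit 0) (nat_lit 11050693554) (nat_lit 76) (nat_lit 57599000894) (nat_lit 76) (nat_lit 17835982964) (nat_lit 21) (nat_lit 4) (nat_lit 22) (nat_lit 5) (nat_lit 22) (nat_lit 4) (nat_lit 397) (nat_lit 348) (nat_lit 275)) (XT.nd (nat_lit 78) (nat_lit 76) (nat_lit 0) (XT.lf (nat_lit 0) (nat_lit 8809270732) (nat_lit 152) (nat_lit 21714747664) (nat_lit 76) (nat_lit 61368551029) (nat_lit 20) (nat_lit 5) (nat_lit 22) (nat_lit 5) (nat_lit 21) (nat_lit 4) (nat_lit 398) (nat_lit 348) (nat_lit 274)) (XT.lf (nat_lit 0) (nat_lit 37161189576) (nat_lit 76) (nat_lit 372899112) (nat_lit 152) (nat_lit 60154664082) (nat_lit 19) (nat_lit 5) (nat_lit 20) (nat_lit 5) (nat_lit 21) (nat_lit 4) (nat_lit 399) (nat_lit 348) (nat_lit 273)))) (XT.nd (nat_lit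 78) (nat_lit 228) (nat_lit 0) (XT.lf (nat_lit 0) (nat_lit 69428701907) (nat_lit 152) (nat_lit 2945633276) (nat_lit 0) (nat_lit 31530706153) (nat_lit 19) (nat_lit 5) (nat_lit 21) (nat_lit 4) (nat_lit 19) (nat_lit 4) (nat_lit 400) (nat_lit 348) (nat_lit 272)) (XT.nd (nat_lit 78) (nat_lit 152) (nat_lit 0) (XT.lf (nat_lit 0) (nat_lit 61166723105) (nat_lit 76) (nat_lit 43655331924) (nat_lit 76) (nat_lit 5749220381) (nat_lit 18) (nat_lit 4) (nat_lit 19) (nat_lit 5) (nat_lit 19) (nat_lit 4) (nat_lit 401) (nat_lit 348) (nat_lit 271)) (XT.lf (nat_lit 0) (nat_lit 12730173391) (nat_lit 76) (nat_lit 11974119074) (nat_lit 152) (nat_lit 93034924267) (nat_lit 16) (nat_lit 5) (nat_lit 17) (nat_lit 5) (nat_lit 18) (nat_lit 4) (nat_lit 402) (nat_lit 348) (nat_lit 270))))) (XT.nd (nat_lit 234) (nat_lit 228) (nat_lit 0) (XT.nd (nat_lit 78) (nat_lit 76) (nat_lit 0) (XT.lf (nat_lit 0) (nat_lit 58604039373) (nat_lit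 152) (nat_lit 44322076085) (nat_lit 0) (nat_lit 22489197330) (nat_lit 16) (nat_lit 5) (nat_lit 18) (nat_lit 4) (nat_lit 16) (nat_lit 4) (nat_lit 403) (nat_lit 348) (nat_lit 269)) (XT.nd (nat_lit 78) (nat_lit 0) (nat_lit 0) (XT.lf (nat_lit 0) (nat_lit 21687919470) (nat_lit 76) (nat_lit 74056072169) (nat_lit 76) (nat_lit 37935094339) (nat_lit 15) (nat_lit 4) (nat_lit 16) (nat_lit 5) (nat_lit 16) (nat_lit 4) (nat_lit 404) (nat_lit 348) (nat_lit 268)) (XT.lf (nat_lit 0) (nat_lit 94538319788) (nat_lit 76) (nat_lit 42077142458) (nat_lit 76) (nat_lit 5950483345) (nat_lit 15) (nat_lit 4) (nat_lit 16) (nat_lit 5) (nat_lit 16) (nat_lit 4) (nat_lit 405) (nat_lit 348) (nat_lit 267)))) (XT.nd (nat_lit 156) (nat_lit 76) (nat_lit 0) (XT.nd (nat_lit 78) (nat_lit 0) (nat_lit 0) (XT.lf (nat_lit 0) (nat_lit 21265434506) (nat_lit 76) (nat_lit 6733274794) (nat_lit 152) (nat_lit 124126676305) (nat_lit 13) (nat_lit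 5) (nat_lit 14) (nat_lit 5) (nat_lit 15) (nat_lit 4) (nat_lit 406) (nat_lit 348) (nat_lit 266)) (XT.lf (nat_lit 0) (nat_lit 65788594437) (nat_lit 152) (nat_lit 65216844209) (nat_lit 0) (nat_lit 31372603631) (nat_lit 13) (nat_lit 5) (nat_lit 15) (nat_lit 4) (nat_lit 13) (nat_lit 4) (nat_lit 407) (nat_lit 348) (nat_lit 265))) (XT.nd (nat_lit 78) (nat_lit 0) (nat_lit 0) (XT.lf (nat_lit 0) (nat_lit 5727877148) (nat_lit 76) (nat_lit 101066834408) (nat_lit 76) (nat_lit 66646548377) (nat_lit 12) (nat_lit 4) (nat_lit 13) (nat_lit 5) (nat_lit 13) (nat_lit 4) (nat_lit 408) (nat_lit 348) (nat_lit 264)) (XT.lf (nat_lit 0) (nat_lit 84658275018) (nat_lit 76) (nat_lit 67549597903) (nat_lit 76) (nat_lit 33125334812) (nat_lit 12) (nat_lit 4) (nat_lit 13) (nat_lit 5) (nat_lit 13) (nat_lit 4) (nat_lit 409) (nat_lit 348) (nat_lit 263)))))) (XT.nd (nat_lit 546) (nat_lit 228) (nat_lit 0) (XT.nd (nat_lit 234) (nat_lit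 76) (nat_lit 0) (XT.nd (nat_lit 78) (nat_lit 76) (nat_lit 0) (XT.lf (nat_lit 0) (nat_lit 2970151645) (nat_lit 152) (nat_lit 28339134681) (nat_lit 76) (nat_lit 166865269095) (nat_lit 11) (nat_lit 5) (nat_lit 13) (nat_lit 5) (nat_lit 12) (nat_lit 4) (nat_lit 410) (nat_lit 348) (nat_lit 262)) (XT.nd (nat_lit 78) (nat_lit 0) (nat_lit 0) (XT.lf (nat_lit 0) (nat_lit 41737961033) (nat_lit 152) (nat_lit 161284642508) (nat_lit 0) (nat_lit 8946194136) (nat_lit 10) (nat_lit 5) (nat_lit 12) (nat_lit 4) (nat_lit 10) (nat_lit 4) (nat_lit 411) (nat_lit 348) (nat_lit 261)) (XT.lf (nat_lit 0) (nat_lit 84628853675) (nat_lit 152) (nat_lit 90352563073) (nat_lit 0) (nat_lit 51834079998) (nat_lit 10) (nat_lit 5) (nat_lit 12) (nat_lit 4) (nat_lit 10) (nat_lit 4) (nat_lit 412) (nat_lit 348) (nat_lit 260)))) (XT.nd (nat_lit 156) (nat_lit 0) (nat_lit 0) (XT.nd (nat_lit 78) (nat_lit 76) (nat_lit 0) (XT.lf (nat_lit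 0) (nat_lit 130943596141) (nat_lit 152) (nat_lit 13760668602) (nat_lit 0) (nat_lit 98146038410) (nat_lit 10) (nat_lit 5) (nat_lit 12) (nat_lit 4) (nat_lit 10) (nat_lit 4) (nat_lit 413) (nat_lit 348) (nat_lit 259)) (XT.lf (nat_lit 0) (nat_lit 71224549179) (nat_lit 76) (nat_lit 110844111805) (nat_lit 76) (nat_lit 78043976245) (nat_lit 9) (nat_lit 4) (nat_lit 10) (nat_lit 5) (nat_lit 10) (nat_lit 4) (nat_lit 414) (nat_lit 348) (nat_lit 258))) (XT.nd (nat_lit 78) (nat_lit 0) (nat_lit 0) (XT.lf (nat_lit 0) (nat_lit 163486908380) (nat_lit 76) (nat_lit 74029957808) (nat_lit 76) (nat_lit 41227435369) (nat_lit 9) (nat_lit 4) (nat_lit 10) (nat_lit 5) (nat_lit 10) (nat_lit 4) (nat_lit 415) (nat_lit 348) (nat_lit 257)) (XT.lf (nat_lit 0) (nat_lit 263118159057) (nat_lit 76) (nat_lit 34276688383) (nat_lit 76) (nat_lit 1471955871) (nat_lit 9) (nat_lit 4) (nat_lit 10) (nat_lit 5) (nat_lit 10) (nat_lit 4)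 (nat_lit 416) (nat_lit 348) (nat_lit 256))))) (XT.nd (nat_lit 234) (nat_lit 76) (nat_lit 0) (XT.nd (nat_lit 78) (nat_lit 0) (nat_lit 0) (XT.lf (nat_lit 0) (nat_lit 41087668635) (nat_lit 152) (nat_lit 269588410426) (nat_lit 0) (nat_lit 9843117326) (nat_lit 7) (nat_lit 5) (nat_lit 9) (nat_lit 4) (nat_lit 7) (nat_lit 4) (nat_lit 417) (nat_lit 348) (nat_lit 255)) (XT.nd (nat_lit 78) (nat_lit 0) (nat_lit 0) (XT.lf (nat_lit 0) (nat_lit 88206523326) (nat_lit 152) (nat_lit 198675582294) (nat_lit 0) (nat_lit 56960167463) (nat_lit 7) (nat_lit 5) (nat_lit 9) (nat_lit 4) (nat_lit 7) (nat_lit 4) (nat_lit 418) (nat_lit 348) (nat_lit 254)) (XT.lf (nat_lit 0) (nat_lit 139089744309) (nat_lit 152) (nat_lit 122099991346) (nat_lit 0) (nat_lit 107841717563) (nat_lit 7) (nat_lit 5) (nat_lit 9) (nat_lit 4) (nat_lit 7) (nat_lit 4) (nat_lit 419) (nat_lit 348) (nat_lit 253)))) (XT.nd (nat_lit 156) (nat_lit 0) (nat_lit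 0) (XT.nd (nat_lit 78) (nat_lit 76) (nat_lit 0) (XT.lf (nat_lit 0) (nat_lit 194038861782) (nat_lit 152) (nat_lit 39407856304) (nat_lit 0) (nat_lit 162789287922) (nat_lit 7) (nat_lit 5) (nat_lit 9) (nat_lit 4) (nat_lit 7) (nat_lit 4) (nat_lit 420) (nat_lit 348) (nat_lit 252)) (XT.lf (nat_lit 0) (nat_lit 51540467125) (nat_lit 76) (nat_lit 202643724153) (nat_lit 76) (nat_lit 171392717780) (nat_lit 6) (nat_lit 4) (nat_lit 7) (nat_lit 5) (nat_lit 7) (nat_lit 4) (nat_lit 421) (nat_lit 348) (nat_lit 251))) (XT.nd (nat_lit 78) (nat_lit 0) (nat_lit 0) (XT.lf (nat_lit 0) (nat_lit 151163481427) (nat_lit 76) (nat_lit 168659911777) (nat_lit 76) (nat_lit 137407579004) (nat_lit 6) (nat_lit 4) (nat_lit 7) (nat_lit 5) (nat_lit 7) (nat_lit 4) (nat_lit 422) (nat_lit 348) (nat_lit 250)) (XT.lf (nat_lit 0) (nat_lit 258748543507) (nat_lit 76) (nat_lit 131961286517) (nat_lit 76) (nat_lit 100707725595) (nat_lit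 6) (nat_lit 4) (nat_lit 7) (nat_lit 5) (nat_lit 7) (nat_lit 4) (nat_lit 423) (nat_lit 348) (nat_lit 249))))))))
noncomputable def xc62 : XT := (XT.nd (nat_lit 48204) (nat_lit 0) (nat_lit 2432) (XT.nd (nat_lit 1014) (nat_lit 0) (nat_lit 0) (XT.nd (nat_lit 468) (nat_lit 76) (nat_lit 0) (XT.nd (nat_lit 234) (nat_lit 0) (nat_lit 0) (XT.nd (nat_lit 78) (nat_lit 152) (nat_lit 0) (XT.lf (nat_lit 0) (nat_lit 374933194471) (nat_lit 76) (nat_lit 92330375038) (nat_lit 76) (nat_lit 61075676942) (nat_lit 6) (nat_lit 4) (nat_lit 7) (nat_lit 5) (nat_lit 7) (nat_lit 4) (nat_lit 424) (nat_lit 348) (nat_lit 248)) (XT.nd (nat_lit 78) (nat_lit 152) (nat_lit 0) (XT.lf (nat_lit 0) (nat_lit 500405935956) (nat_lit 76) (nat_lit 49532327496) (nat_lit 76) (nat_lit 18276576459) (nat_lit 6) (nat_lit 4) (nat_lit 7) (nat_lit 5) (nat_lit 7) (nat_lit 4) (nat_lit 425) (nat_lit 348) (nat_lit 247)) (XT.lf (nat_lit 0) (nat_lit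 24993345808) (nat_lit 76) (nat_lit 2445713600) (nat_lit 152) (nat_lit 583800252012) (nat_lit 4) (nat_lit 5) (nat_lit 5) (nat_lit 5) (nat_lit 6) (nat_lit 4) (nat_lit 426) (nat_lit 348) (nat_lit 246)))) (XT.nd (nat_lit 78) (nat_lit 0) (nat_lit 0) (XT.lf (nat_lit 0) (nat_lit 78133461779) (nat_lit 152) (nat_lit 531094914697) (nat_lit 0) (nat_lit 48364291582) (nat_lit 4) (nat_lit 5) (nat_lit 6) (nat_lit 4) (nat_lit 4) (nat_lit 4) (nat_lit 427) (nat_lit 348) (nat_lit 245)) (XT.nd (nat_lit 78) (nat_lit 0) (nat_lit 0) (XT.lf (nat_lit 0) (nat_lit 132921826296) (nat_lit 152) (nat_lit 471578686485) (nat_lit 0) (nat_lit 103151860044) (nat_lit 4) (nat_lit 5) (nat_lit 6) (nat_lit 4) (nat_lit 4) (nat_lit 4) (nat_lit 428) (nat_lit 348) (nat_lit 244)) (XT.lf (nat_lit 0) (nat_lit 192090640306) (nat_lit 152) (nat_lit 407306407772) (nat_lit 0) (nat_lit 162319936967) (nat_lit 4) (nat_lit 5) (nat_lit 6) (nat_lit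 4) (nat_lit 4) (nat_lit 4) (nat_lit 429) (nat_lit 348) (nat_lit 243))))) (XT.nd (nat_lit 234) (nat_lit 76) (nat_lit 0) (XT.nd (nat_lit 78) (nat_lit 0) (nat_lit 0) (XT.lf (nat_lit 0) (nat_lit 255990533817) (nat_lit 152) (nat_lit 337897205797) (nat_lit 0) (nat_lit 226219147989) (nat_lit 4) (nat_lit 5) (nat_lit 6) (nat_lit 4) (nat_lit 4) (nat_lit 4) (nat_lit 430) (nat_lit 348) (nat_lit 242)) (XT.nd (nat_lit 78) (nat_lit 0) (nat_lit 0) (XT.lf (nat_lit 0) (nat_lit 325000172866) (nat_lit 152) (nat_lit 262939766769) (nat_lit 0) (nat_lit 295228155104) (nat_lit 4) (nat_lit 5) (nat_lit 6) (nat_lit 4) (nat_lit 4) (nat_lit 4) (nat_lit 431) (nat_lit 348) (nat_lit 241)) (XT.lf (nat_lit 0) (nat_lit 399528503461) (nat_lit 152) (nat_lit 181989898457) (nat_lit 0) (nat_lit 369755900576) (nat_lit 4) (nat_lit 5) (nat_lit 6) (nat_lit 4) (nat_lit 4) (nat_lit 4) (nat_lit 432) (nat_lit 348) (nat_lit 240)))) (XT.nd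 (nat_lit 156) (nat_lit 76) (nat_lit 0) (XT.nd (nat_lit 78) (nat_lit 0) (nat_lit 0) (XT.lf (nat_lit 0) (nat_lit 480017174969) (nat_lit 152) (nat_lit 94567897939) (nat_lit 0) (nat_lit 450244030303) (nat_lit 4) (nat_lit 5) (nat_lit 6) (nat_lit 4) (nat_lit 4) (nat_lit 4) (nat_lit 433) (nat_lit 348) (nat_lit 239)) (XT.lf (nat_lit 0) (nat_lit 566943157296) (nat_lit 152) (nat_lit 155708914) (nat_lit 0) (nat_lit 537169510980) (nat_lit 4) (nat_lit 5) (nat_lit 6) (nat_lit 4) (nat_lit 4) (nat_lit 4) (nat_lit 434) (nat_lit 348) (nat_lit 238))) (XT.nd (nat_lit 78) (nat_lit 0) (nat_lit 0) (XT.lf (nat_lit 0) (nat_lit 105172319286) (nat_lit 76) (nat_lit 557291282736) (nat_lit 76) (nat_lit 527517171929) (nat_lit 3) (nat_lit 4) (nat_lit 4) (nat_lit 5) (nat_lit 4) (nat_lit 4) (nat_lit 435) (nat_lit 348) (nat_lit 237)) (XT.lf (nat_lit 0) (nat_lit 218928986799) (nat_lit 76) (nat_lit 546697829938) (nat_lit 76)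 (nat_lit 516923289048) (nat_lit 3) (nat_lit 4) (nat_lit 4) (nat_lit 5) (nat_lit 4) (nat_lit 4) (nat_lit 436) (nat_lit 348) (nat_lit 236)))))) (XT.nd (nat_lit 46644) (nat_lit 0) (nat_lit 7220) (XT.nd (nat_lit 46410) (nat_lit 0) (nat_lit 9652) (XT.nd (nat_lit 46254) (nat_lit 0) (nat_lit 10260) (XT.lf (nat_lit 0) (nat_lit 341783258768) (nat_lit 76) (nat_lit 535258368807) (nat_lit 76) (nat_lit 505483429691) (nat_lit 3) (nat_lit 4) (nat_lit 4) (nat_lit 5) (nat_lit 4) (nat_lit 4) (nat_lit 437) (nat_lit 348) (nat_lit 235)) (XT.nd (nat_lit 78) (nat_lit 0) (nat_lit 0) (XT.lf (nat_lit 0) (nat_lit 3076487117) (nat_lit 684) (nat_lit 658957954) (nat_lit 684) (nat_lit 658957954) (nat_lit 138) (nat_lit 3) (nat_lit 147) (nat_lit 3) (nat_lit 147) (nat_lit 5) (nat_lit 349) (nat_lit 349) (nat_lit 322)) (XT.lf (nat_lit 76) (nat_lit 5700065559) (nat_lit 0) (nat_lit 2231339561) (nat_lit 684) (nat_lit 1131422656)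 (nat_lit 139) (nat_lit 5) (nat_lit 138) (nat_lit 3) (nat_lit 147) (nat_lit 5) (nat_lit 350) (nat_lit 349) (nat_lit 321)))) (XT.nd (nat_lit 78) (nat_lit 0) (nat_lit 76) (XT.lf (nat_lit 0) (nat_lit 471378495) (nat_lit 684) (nat_lit 5411935845) (nat_lit 760) (nat_lit 3475467496) (nat_lit 130) (nat_lit 5) (nat_lit 139) (nat_lit 5) (nat_lit 140) (nat_lit 5) (nat_lit 351) (nat_lit 349) (nat_lit 320)) (XT.nd (nat_lit 78) (nat_lit 0) (nat_lit 0) (XT.lf (nat_lit 0) (nat_lit 2158360791) (nat_lit 684) (nat_lit 7467373491) (nat_lit 760) (nat_lit 52051434) (nat_lit 131) (nat_lit 5) (nat_lit 140) (nat_lit 5) (nat_lit 141) (nat_lit 5) (nat_lit 352) (nat_lit 349) (nat_lit 319)) (XT.lf (nat_lit 76) (nat_lit 440525543) (nat_lit 0) (nat_lit 3613788030) (nat_lit 760) (nat_lit 5964370479) (nat_lit 132) (nat_lit 5) (nat_lit 131) (nat_lit 5) (nat_lit 141) (nat_lit 5) (nat_lit 353) (nat_lit 349) (nat_lit 318)))))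 (XT.nd (nat_lit 234) (nat_lit 1976) (nat_lit 0) (XT.nd (nat_lit 78) (nat_lit 608) (nat_lit 0) (XT.lf (nat_lit 0) (nat_lit 6159839638) (nat_lit 684) (nat_lit 1273367394) (nat_lit 760) (nat_lit 2950821574) (nat_lit 132) (nat_lit 5) (nat_lit 141) (nat_lit 5) (nat_lit 142) (nat_lit 5) (nat_lit 354) (nat_lit 349) (nat_lit 317)) (XT.nd (nat_lit 78) (nat_lit 608) (nat_lit 0) (XT.lf (nat_lit 76) (nat_lit 7797737560) (nat_lit 0) (nat_lit 708320931) (nat_lit 760) (nat_lit 2268993775) (nat_lit 133) (nat_lit 5) (nat_lit 132) (nat_lit 5) (nat_lit 142) (nat_lit 5) (nat_lit 355) (nat_lit 349) (nat_lit 316)) (XT.lf (nat_lit 0) (nat_lit 6459292248) (nat_lit 684) (nat_lit 4703187818) (nat_lit 760) (nat_lit 28811825) (nat_lit 124) (nat_lit 5) (nat_lit 133) (nat_lit 5) (nat_lit 134) (nat_lit 5) (nat_lit 356) (nat_lit 349) (nat_lit 315)))) (XT.nd (nat_lit 156) (nat_lit 760) (nat_lit 0) (XT.nd (nat_lit 78) (nat_lit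 380) (nat_lit 0) (XT.lf (nat_lit 0) (nat_lit 2404005614) (nat_lit 836) (nat_lit 6534660292) (nat_lit 76) (nat_lit 2695854184) (nat_lit 113) (nat_lit 5) (nat_lit 124) (nat_lit 5) (nat_lit 114) (nat_lit 5) (nat_lit 357) (nat_lit 349) (nat_lit 314)) (XT.lf (nat_lit 0) (nat_lit 3727369187) (nat_lit 380) (nat_lit 1431939322) (nat_lit 456) (nat_lit 6947479391) (nat_lit 108) (nat_lit 5) (nat_lit 113) (nat_lit 5) (nat_lit 114) (nat_lit 5) (nat_lit 358) (nat_lit 349) (nat_lit 313))) (XT.nd (nat_lit 78) (nat_lit 380) (nat_lit 0) (XT.lf (nat_lit 0) (nat_lit 2310941534) (nat_lit 380) (nat_lit 5993214006) (nat_lit 456) (nat_lit 4304270456) (nat_lit 103) (nat_lit 5) (nat_lit 108) (nat_lit 5) (nat_lit 109) (nat_lit 5) (nat_lit 359) (nat_lit 349) (nat_lit 312)) (XT.lf (nat_lit 0) (nat_lit 892700216) (nat_lit 380) (nat_lit 10945002445) (nat_lit 456) (nat_lit 1305678395) (nat_lit 98) (nat_lit 5) (nat_lit 103)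 (nat_lit 5) (nat_lit 104) (nat_lit 5) (nat_lit 360) (nat_lit 349) (nat_lit 311))))))) (XT.nd (nat_lit 1014) (nat_lit 1900) (nat_lit 0) (XT.nd (nat_lit 468) (nat_lit 1368) (nat_lit 0) (XT.nd (nat_lit 234) (nat_lit 836) (nat_lit 0) (XT.nd (nat_lit 78) (nat_lit 608) (nat_lit 0) (XT.lf (nat_lit 0) (nat_lit 2075895512) (nat_lit 456) (nat_lit 588932988) (nat_lit 76) (nat_lit 11044584016) (nat_lit 97) (nat_lit 5) (nat_lit 103) (nat_lit 5) (nat_lit 98) (nat_lit 5) (nat_lit 361) (nat_lit 349) (nat_lit 310)) (XT.nd (nat_lit 78) (nat_lit 304) (nat_lit 0) (XT.lf (nat_lit 0) (nat_lit 5903596899) (nat_lit 380) (nat_lit 2119666176) (nat_lit 76) (nat_lit 6285359793) (nat_lit 93) (nat_lit 5) (nat_lit 98) (nat_lit 5) (nat_lit 94) (nat_lit 5) (nat_lit 362) (nat_lit 349) (nat_lit 309)) (XT.lf (nat_lit 0) (nat_lit 10217531125) (nat_lit 380) (nat_lit 3675177749) (nat_lit 76) (nat_lit 1054091739) (nat_lit 89) (nat_lit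 5) (nat_lit 94) (nat_lit 5) (nat_lit 90) (nat_lit 5) (nat_lit 363) (nat_lit 349) (nat_lit 308)))) (XT.nd (nat_lit 78) (nat_lit 608) (nat_lit 0) (XT.lf (nat_lit 0) (nat_lit 10287989001) (nat_lit 228) (nat_lit 4857080061) (nat_lit 304) (nat_lit 477568141) (nat_lit 86) (nat_lit 5) (nat_lit 89) (nat_lit 5) (nat_lit 90) (nat_lit 5) (nat_lit 364) (nat_lit 349) (nat_lit 307)) (XT.nd (nat_lit 78) (nat_lit 228) (nat_lit 0) (XT.lf (nat_lit 0) (nat_lit 4211272327) (nat_lit 380) (nat_lit 7119821611) (nat_lit 76) (nat_lit 5006826392) (nat_lit 81) (nat_lit 5) (nat_lit 86) (nat_lit 5) (nat_lit 82) (nat_lit 5) (nat_lit 365) (nat_lit 349) (nat_lit 306)) (XT.lf (nat_lit 0) (nat_lit 8108923385) (nat_lit 228) (nat_lit 1393518917) (nat_lit 304) (nat_lit 7595418399) (nat_lit 78) (nat_lit 5) (nat_lit 81) (nat_lit 5) (nat_lit 82) (nat_lit 5) (nat_lit 366) (nat_lit 349) (nat_lit 305))))) (XT.nd (nat_lit 234) (nat_lit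 608) (nat_lit 0) (XT.nd (nat_lit 78) (nat_lit 532) (nat_lit 0) (XT.lf (nat_lit 0) (nat_lit 6892572241) (nat_lit 228) (nat_lit 8647493296) (nat_lit 304) (nat_lit 2362394764) (nat_lit 75) (nat_lit 5) (nat_lit 78) (nat_lit 5) (nat_lit 79) (nat_lit 5) (nat_lit 367) (nat_lit 349) (nat_lit 304)) (XT.nd (nat_lit 78) (nat_lit 228) (nat_lit 0) (XT.lf (nat_lit 0) (nat_lit 3435092996) (nat_lit 304) (nat_lit 13164563342) (nat_lit 76) (nat_lit 2156668204) (nat_lit 71) (nat_lit 5) (nat_lit 75) (nat_lit 5) (nat_lit 72) (nat_lit 5) (nat_lit 368) (nat_lit 349) (nat_lit 303)) (XT.lf (nat_lit 0) (nat_lit 4113299117) (nat_lit 228) (nat_lit 5854711337) (nat_lit 304) (nat_lit 9690849155) (nat_lit 68) (nat_lit 5) (nat_lit 71) (nat_lit 5) (nat_lit 72) (nat_lit 5) (nat_lit 369) (nat_lit 349) (nat_lit 302)))) (XT.nd (nat_lit 156) (nat_lit 152) (nat_lit 0) (XT.nd (nat_lit 78) (nat_lit 304) (nat_lit 0) (XT.lf (nat_lit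 0) (nat_lit 2534775705) (nat_lit 152) (nat_lit 14801879443) (nat_lit 228) (nat_lit 3281304259) (nat_lit 66) (nat_lit 5) (nat_lit 68) (nat_lit 5) (nat_lit 69) (nat_lit 5) (nat_lit 370) (nat_lit 349) (nat_lit 301)) (XT.lf (nat_lit 0) (nat_lit 768459675) (nat_lit 228) (nat_lit 3094396233) (nat_lit 304) (nat_lit 17771184294) (nat_lit 62) (nat_lit 5) (nat_lit 65) (nat_lit 5) (nat_lit 66) (nat_lit 5) (nat_lit 371) (nat_lit 349) (nat_lit 300))) (XT.nd (nat_lit 78) (nat_lit 152) (nat_lit 0) (XT.lf (nat_lit 0) (nat_lit 11888879265) (nat_lit 304) (nat_lit 1222553974) (nat_lit 76) (nat_lit 9596033633) (nat_lit 62) (nat_lit 5) (nat_lit 66) (nat_lit 5) (nat_lit 63) (nat_lit 5) (nat_lit 372) (nat_lit 349) (nat_lit 299)) (XT.lf (nat_lit 0) (nat_lit 20530847756) (nat_lit 152) (nat_lit 356724405) (nat_lit 228) (nat_lit 2962678695) (nat_lit 60) (nat_lit 5) (nat_lit 62) (nat_lit 5) (nat_lit 63) (nat_lit 5)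 (nat_lit 373) (nat_lit 349) (nat_lit 298)))))) (XT.nd (nat_lit 468) (nat_lit 836) (nat_lit 0) (XT.nd (nat_lit 234) (nat_lit 532) (nat_lit 0) (XT.nd (nat_lit 78) (nat_lit 304) (nat_lit 0) (XT.lf (nat_lit 0) (nat_lit 5845597971) (nat_lit 228) (nat_lit 5825331269) (nat_lit 76) (nat_lit 13384197735) (nat_lit 57) (nat_lit 5) (nat_lit 60) (nat_lit 5) (nat_lit 58) (nat_lit 5) (nat_lit 374) (nat_lit 349) (nat_lit 297)) (XT.nd (nat_lit 78) (nat_lit 152) (nat_lit 0) (XT.lf (nat_lit 0) (nat_lit 15594737492) (nat_lit 228) (nat_lit 8576255352) (nat_lit 76) (nat_lit 2165982245) (nat_lit 55) (nat_lit 5) (nat_lit 58) (nat_lit 5) (nat_lit 56) (nat_lit 5) (nat_lit 375) (nat_lit 349) (nat_lit 296)) (XT.lf (nat_lit 0) (nat_lit 15976245890) (nat_lit 152) (nat_lit 10659525588) (nat_lit 228) (nat_lit 1060010908) (nat_lit 53) (nat_lit 5) (nat_lit 55) (nat_lit 5) (nat_lit 56) (nat_lit 5) (nat_lit 376) (nat_lit 349)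 (nat_lit 295)))) (XT.nd (nat_lit 78) (nat_lit 304) (nat_lit 0) (XT.lf (nat_lit 0) (nat_lit 9497872912) (nat_lit 228) (nat_lit 15330944005) (nat_lit 76) (nat_lit 4307058457) (nat_lit 50) (nat_lit 5) (nat_lit 53) (nat_lit 5) (nat_lit 51) (nat_lit 5) (nat_lit 377) (nat_lit 349) (nat_lit 294)) (XT.nd (nat_lit 78) (nat_lit 152) (nat_lit 0) (XT.lf (nat_lit 0) (nat_lit 11207383178) (nat_lit 152) (nat_lit 10183832857) (nat_lit 228) (nat_lit 9272700351) (nat_lit 48) (nat_lit 5) (nat_lit 50) (nat_lit 5) (nat_lit 51) (nat_lit 5) (nat_lit 378) (nat_lit 349) (nat_lit 293)) (XT.lf (nat_lit 0) (nat_lit 2322181875) (nat_lit 152) (nat_lit 24100476869) (nat_lit 76) (nat_lit 5866955201) (nat_lit 46) (nat_lit 5) (nat_lit 48) (nat_lit 5) (nat_lit 47) (nat_lit 5) (nat_lit 379) (nat_lit 349) (nat_lit 292))))) (XT.nd (nat_lit 234) (nat_lit 532) (nat_lit 0) (XT.nd (nat_lit 78) (nat_lit 152) (nat_lit 0) (XT.lf (nat_lit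 0) (nat_lit 4465599530) (nat_lit 152) (nat_lit 10612103233) (nat_lit 228) (nat_lit 18932174387) (nat_lit 44) (nat_lit 5) (nat_lit 46) (nat_lit 5) (nat_lit 47) (nat_lit 5) (nat_lit 380) (nat_lit 349) (nat_lit 291)) (XT.nd (nat_lit 78) (nat_lit 76) (nat_lit 0) (XT.lf (nat_lit 0) (nat_lit 173316134) (nat_lit 76) (nat_lit 29179510463) (nat_lit 152) (nat_lit 6489982615) (nat_lit 43) (nat_lit 5) (nat_lit 44) (nat_lit 5) (nat_lit 45) (nat_lit 4) (nat_lit 381) (nat_lit 349) (nat_lit 290)) (XT.lf (nat_lit 0) (nat_lit 7397075825) (nat_lit 152) (nat_lit 4823008803) (nat_lit 76) (nat_lit 25563279946) (nat_lit 42) (nat_lit 5) (nat_lit 44) (nat_lit 5) (nat_lit 43) (nat_lit 5) (nat_lit 382) (nat_lit 349) (nat_lit 289)))) (XT.nd (nat_lit 156) (nat_lit 304) (nat_lit 0) (XT.nd (nat_lit 78) (nat_lit 76) (nat_lit 0) (XT.lf (nat_lit 0) (nat_lit 22703920472) (nat_lit 228) (nat_lit 10687686273) (nat_lit 76) (nat_lit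 6455432806) (nat_lit 40) (nat_lit 5) (nat_lit 43) (nat_lit 5) (nat_lit 41) (nat_lit 4) (nat_lit 383) (nat_lit 349) (nat_lit 288)) (XT.lf (nat_lit 0) (nat_lit 24488580971) (nat_lit 76) (nat_lit 15393578813) (nat_lit 152) (nat_lit 2161310821) (nat_lit 39) (nat_lit 5) (nat_lit 40) (nat_lit 5) (nat_lit 41) (nat_lit 4) (nat_lit 384) (nat_lit 349) (nat_lit 287))) (XT.nd (nat_lit 78) (nat_lit 76) (nat_lit 0) (XT.lf (nat_lit 0) (nat_lit 14101093333) (nat_lit 228) (nat_lit 25669970005) (nat_lit 76) (nat_lit 4607075481) (nat_lit 36) (nat_lit 5) (nat_lit 39) (nat_lit 5) (nat_lit 37) (nat_lit 4) (nat_lit 385) (nat_lit 349) (nat_lit 286)) (XT.lf (nat_lit 0) (nat_lit 11640080097) (nat_lit 76) (nat_lit 20676620469) (nat_lit 152) (nat_lit 14544715349) (nat_lit 35) (nat_lit 5) (nat_lit 36) (nat_lit 5) (nat_lit 37) (nat_lit 4) (nat_lit 386) (nat_lit 349) (nat_lit 285))))))))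
noncomputable def xc63 : XT := (XT.nd (nat_lit 2028) (nat_lit 532) (nat_lit 0) (XT.nd (nat_lit 1014) (nat_lit 760) (nat_lit 0) (XT.nd (nat_lit 468) (nat_lit 608) (nat_lit 0) (XT.nd (nat_lit 234) (nat_lit 228) (nat_lit 0) (XT.nd (nat_lit 78) (nat_lit 76) (nat_lit 0) (XT.lf (nat_lit 0) (nat_lit 2857998303) (nat_lit 228) (nat_lit 46177993492) (nat_lit 76) (nat_lit 480952434) (nat_lit 32) (nat_lit 5) (nat_lit 35) (nat_lit 5) (nat_lit 33) (nat_lit 4) (nat_lit 387) (nat_lit 349) (nat_lit 284)) (XT.nd (nat_lit 78) (nat_lit 76) (nat_lit 0) (XT.lf (nat_lit 0) (nat_lit 22098817282) (nat_lit 228) (nat_lit 6760397874) (nat_lit 76) (nat_lit 23466007498) (nat_lit 32) (nat_lit 5) (nat_lit 35) (nat_lit 5) (nat_lit 33) (nat_lit 4) (nat_lit 388) (nat_lit 349) (nat_lit 283)) (XT.lf (nat_lit 0) (nat_lit 36952569793) (nat_lit 76) (nat_lit 6481427421) (nat_lit 152) (nat_lit 11896414104) (nat_lit 31) (nat_lit 5)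 (nat_lit 32) (nat_lit 5) (nat_lit 33) (nat_lit 4) (nat_lit 389) (nat_lit 349) (nat_lit 282)))) (XT.nd (nat_lit 78) (nat_lit 76) (nat_lit 0) (XT.lf (nat_lit 0) (nat_lit 8446281681) (nat_lit 152) (nat_lit 32313205136) (nat_lit 76) (nat_lit 17770405943) (nat_lit 29) (nat_lit 5) (nat_lit 31) (nat_lit 5) (nat_lit 30) (nat_lit 4) (nat_lit 390) (nat_lit 349) (nat_lit 281)) (XT.nd (nat_lit 78) (nat_lit 0) (nat_lit 0) (XT.lf (nat_lit 0) (nat_lit 13132209849) (nat_lit 76) (nat_lit 17492186346) (nat_lit 152) (nat_lit 31319947825) (nat_lit 28) (nat_lit 5) (nat_lit 29) (nat_lit 5) (nat_lit 30) (nat_lit 4) (nat_lit 391) (nat_lit 349) (nat_lit 280)) (XT.lf (nat_lit 0) (nat_lit 55248281517) (nat_lit 152) (nat_lit 2402825185) (nat_lit 0) (nat_lit 7947270664) (nat_lit 28) (nat_lit 5) (nat_lit 30) (nat_lit 4) (nat_lit 28) (nat_lit 4) (nat_lit 392) (nat_lit 349) (nat_lit 279))))) (XT.nd (nat_lit 234) (nat_lit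 304) (nat_lit 0) (XT.nd (nat_lit 78) (nat_lit 152) (nat_lit 0) (XT.lf (nat_lit 0) (nat_lit 12961769241) (nat_lit 152) (nat_lit 20745485357) (nat_lit 76) (nat_lit 35774979968) (nat_lit 26) (nat_lit 5) (nat_lit 28) (nat_lit 5) (nat_lit 27) (nat_lit 4) (nat_lit 393) (nat_lit 349) (nat_lit 278)) (XT.nd (nat_lit 78) (nat_lit 76) (nat_lit 0) (XT.lf (nat_lit 0) (nat_lit 31166920769) (nat_lit 76) (nat_lit 7125245972) (nat_lit 152) (nat_lit 35350341597) (nat_lit 25) (nat_lit 5) (nat_lit 26) (nat_lit 5) (nat_lit 27) (nat_lit 4) (nat_lit 394) (nat_lit 349) (nat_lit 277)) (XT.lf (nat_lit 0) (nat_lit 9793011241) (nat_lit 76) (nat_lit 56695929712) (nat_lit 76) (nat_lit 11604667379) (nat_lit 24) (nat_lit 4) (nat_lit 25) (nat_lit 5) (nat_lit 25) (nat_lit 4) (nat_lit 395) (nat_lit 349) (nat_lit 276)))) (XT.nd (nat_lit 156) (nat_lit 152) (nat_lit 0) (XT.nd (nat_lit 78) (nat_lit 76) (nat_lit 0) (XT.lf (nat_lit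 0) (nat_lit 14446728928) (nat_lit 152) (nat_lit 15487641219) (nat_lit 76) (nat_lit 52912694005) (nat_lit 23) (nat_lit 5) (nat_lit 25) (nat_lit 5) (nat_lit 24) (nat_lit 4) (nat_lit 396) (nat_lit 349) (nat_lit 275)) (XT.lf (nat_lit 0) (nat_lit 42691209570) (nat_lit 76) (nat_lit 140944852) (nat_lit 152) (nat_lit 45106306846) (nat_lit 22) (nat_lit 5) (nat_lit 23) (nat_lit 5) (nat_lit 24) (nat_lit 4) (nat_lit 397) (nat_lit 349) (nat_lit 274))) (XT.nd (nat_lit 78) (nat_lit 76) (nat_lit 0) (XT.lf (nat_lit 0) (nat_lit 12520818274) (nat_lit 76) (nat_lit 61922468307) (nat_lit 76) (nat_lit 18946141122) (nat_lit 21) (nat_lit 4) (nat_lit 22) (nat_lit 5) (nat_lit 22) (nat_lit 4) (nat_lit 398) (nat_lit 349) (nat_lit 273)) (XT.lf (nat_lit 0) (nat_lit 9797885951) (nat_lit 152) (nat_lit 22899864289) (nat_lit 76) (nat_lit 66532010714) (nat_lit 20) (nat_lit 5) (nat_lit 22) (nat_lit 5) (nat_lit 21) (nat_lit 4)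 (nat_lit 399) (nat_lit 349) (nat_lit 272)))))) (XT.nd (nat_lit 468) (nat_lit 380) (nat_lit 0) (XT.nd (nat_lit 234) (nat_lit 228) (nat_lit 0) (XT.nd (nat_lit 78) (nat_lit 76) (nat_lit 0) (XT.lf (nat_lit 0) (nat_lit 40662155936) (nat_lit 76) (nat_lit 145750407) (nat_lit 152) (nat_lit 64682373282) (nat_lit 19) (nat_lit 5) (nat_lit 20) (nat_lit 5) (nat_lit 21) (nat_lit 4) (nat_lit 400) (nat_lit 349) (nat_lit 271)) (XT.nd (nat_lit 78) (nat_lit 76) (nat_lit 0) (XT.lf (nat_lit 0) (nat_lit 75237722826) (nat_lit 152) (nat_lit 2683476186) (nat_lit 0) (nat_lit 34283491949) (nat_lit 19) (nat_lit 5) (nat_lit 21) (nat_lit 4) (nat_lit 19) (nat_lit 4) (nat_lit 401) (nat_lit 349) (nat_lit 270)) (XT.lf (nat_lit 0) (nat_lit 66536234587) (nat_lit 76) (nat_lit 46914875515) (nat_lit 76) (nat_lit 5953686656) (nat_lit 18) (nat_lit 4) (nat_lit 19) (nat_lit 5) (nat_lit 19) (nat_lit 4) (nat_lit 402) (nat_lit 349) (nat_lit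 269)))) (XT.nd (nat_lit 78) (nat_lit 76) (nat_lit 0) (XT.lf (nat_lit 0) (nat_lit 14211903014) (nat_lit 76) (nat_lit 12704943058) (nat_lit 152) (nat_lit 100229683246) (nat_lit 16) (nat_lit 5) (nat_lit 17) (nat_lit 5) (nat_lit 18) (nat_lit 4) (nat_lit 403) (nat_lit 349) (nat_lit 268)) (XT.nd (nat_lit 78) (nat_lit 76) (nat_lit 0) (XT.lf (nat_lit 0) (nat_lit 63514358786) (nat_lit 152) (nat_lit 47431180365) (nat_lit 0) (nat_lit 24491885659) (nat_lit 16) (nat_lit 5) (nat_lit 18) (nat_lit 4) (nat_lit 16) (nat_lit 4) (nat_lit 404) (nat_lit 349) (nat_lit 267)) (XT.lf (nat_lit 0) (nat_lit 23840638044) (nat_lit 76) (nat_lit 79774946254) (nat_lit 76) (nat_lit 40747212680) (nat_lit 15) (nat_lit 4) (nat_lit 16) (nat_lit 5) (nat_lit 16) (nat_lit 4) (nat_lit 405) (nat_lit 349) (nat_lit 266))))) (XT.nd (nat_lit 234) (nat_lit 228) (nat_lit 0) (XT.nd (nat_lit 78) (nat_lit 152) (nat_lit 0) (XT.lf (nat_lit 0)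 (nat_lit 102488130757) (nat_lit 76) (nat_lit 45252932662) (nat_lit 76) (nat_lit 6220328303) (nat_lit 15) (nat_lit 4) (nat_lit 16) (nat_lit 5) (nat_lit 16) (nat_lit 4) (nat_lit 406) (nat_lit 349) (nat_lit 265)) (XT.nd (nat_lit 78) (nat_lit 0) (nat_lit 0) (XT.lf (nat_lit 0) (nat_lit 23342930150) (nat_lit 76) (nat_lit 7086359847) (nat_lit 152) (nat_lit 133856582290) (nat_lit 13) (nat_lit 5) (nat_lit 14) (nat_lit 5) (nat_lit 15) (nat_lit 4) (nat_lit 407) (nat_lit 349) (nat_lit 264)) (XT.lf (nat_lit 0) (nat_lit 71230923963) (nat_lit 152) (nat_lit 70079647602) (nat_lit 0) (nat_lit 34048742764) (nat_lit 13) (nat_lit 5) (nat_lit 15) (nat_lit 4) (nat_lit 13) (nat_lit 4) (nat_lit 408) (nat_lit 349) (nat_lit 263)))) (XT.nd (nat_lit 156) (nat_lit 152) (nat_lit 0) (XT.nd (nat_lit 78) (nat_lit 0) (nat_lit 0) (XT.lf (nat_lit 0) (nat_lit 6525243407) (nat_lit 76) (nat_lit 108984304726) (nat_lit 76) (nat_lit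 71798441065) (nat_lit 12) (nat_lit 4) (nat_lit 13) (nat_lit 5) (nat_lit 13) (nat_lit 4) (nat_lit 409) (nat_lit 349) (nat_lit 262)) (XT.lf (nat_lit 0) (nat_lit 91744951915) (nat_lit 76) (nat_lit 72798124591) (nat_lit 76) (nat_lit 35608851242) (nat_lit 12) (nat_lit 4) (nat_lit 13) (nat_lit 5) (nat_lit 13) (nat_lit 4) (nat_lit 410) (nat_lit 349) (nat_lit 261))) (XT.nd (nat_lit 78) (nat_lit 76) (nat_lit 0) (XT.lf (nat_lit 0) (nat_lit 3357005427) (nat_lit 152) (nat_lit 30310569340) (nat_lit 76) (nat_lit 180353476025) (nat_lit 11) (nat_lit 5) (nat_lit 13) (nat_lit 5) (nat_lit 12) (nat_lit 4) (nat_lit 411) (nat_lit 349) (nat_lit 260)) (XT.lf (nat_lit 0) (nat_lit 45221790224) (nat_lit 152) (nat_lit 173899621371) (nat_lit 0) (nat_lit 9797643819) (nat_lit 10) (nat_lit 5) (nat_lit 12) (nat_lit 4) (nat_lit 10) (nat_lit 4) (nat_lit 412) (nat_lit 349) (nat_lit 259))))))) (XT.nd (nat_lit 1014) (nat_lit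 228) (nat_lit 0) (XT.nd (nat_lit 468) (nat_lit 76) (nat_lit 0) (XT.nd (nat_lit 234) (nat_lit 152) (nat_lit 0) (XT.nd (nat_lit 78) (nat_lit 76) (nat_lit 0) (XT.lf (nat_lit 0) (nat_lit 91533228921) (nat_lit 152) (nat_lit 97314293547) (nat_lit 0) (nat_lit 56106504687) (nat_lit 10) (nat_lit 5) (nat_lit 12) (nat_lit 4) (nat_lit 10) (nat_lit 4) (nat_lit 413) (nat_lit 349) (nat_lit 258)) (XT.nd (nat_lit 78) (nat_lit 76) (nat_lit 0) (XT.lf (nat_lit 0) (nat_lit 141543219900) (nat_lit 152) (nat_lit 14614786375) (nat_lit 0) (nat_lit 106114108787) (nat_lit 10) (nat_lit 5) (nat_lit 12) (nat_lit 4) (nat_lit 10) (nat_lit 4) (nat_lit 414) (nat_lit 349) (nat_lit 257)) (XT.lf (nat_lit 0) (nat_lit 77158525995) (nat_lit 76) (nat_lit 119594253493) (nat_lit 76) (nat_lit 84162932308) (nat_lit 9) (nat_lit 4) (nat_lit 10) (nat_lit 5) (nat_lit 10) (nat_lit 4) (nat_lit 415) (nat_lit 349) (nat_lit 256)))) (XT.nd (nat_lit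 78) (nat_lit 152) (nat_lit 0) (XT.lf (nat_lit 0) (nat_lit 176784391496) (nat_lit 76) (nat_lit 79843662528) (nat_lit 76) (nat_lit 44410294979) (nat_lit 9) (nat_lit 4) (nat_lit 10) (nat_lit 5) (nat_lit 10) (nat_lit 4) (nat_lit 416) (nat_lit 349) (nat_lit 255)) (XT.nd (nat_lit 78) (nat_lit 152) (nat_lit 0) (XT.lf (nat_lit 0) (nat_lit 284369954787) (nat_lit 76) (nat_lit 36918182802) (nat_lit 76) (nat_lit 1482920472) (nat_lit 9) (nat_lit 4) (nat_lit 10) (nat_lit 5) (nat_lit 10) (nat_lit 4) (nat_lit 417) (nat_lit 349) (nat_lit 254)) (XT.lf (nat_lit 0) (nat_lit 44475002199) (nat_lit 152) (nat_lit 290955247587) (nat_lit 0) (nat_lit 10725462430) (nat_lit 7) (nat_lit 5) (nat_lit 9) (nat_lit 4) (nat_lit 7) (nat_lit 4) (nat_lit 418) (nat_lit 349) (nat_lit 253))))) (XT.nd (nat_lit 234) (nat_lit 76) (nat_lit 0) (XT.nd (nat_lit 78) (nat_lit 0) (nat_lit 0) (XT.lf (nat_lit 0) (nat_lit 95355934149) (nat_lit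 152) (nat_lit 214384225476) (nat_lit 0) (nat_lit 61604847266) (nat_lit 7) (nat_lit 5) (nat_lit 9) (nat_lit 4) (nat_lit 7) (nat_lit 4) (nat_lit 419) (nat_lit 349) (nat_lit 252)) (XT.nd (nat_lit 78) (nat_lit 0) (nat_lit 0) (XT.lf (nat_lit 0) (nat_lit 150302932146) (nat_lit 152) (nat_lit 131696320838) (nat_lit 0) (nat_lit 116550412751) (nat_lit 7) (nat_lit 5) (nat_lit 9) (nat_lit 4) (nat_lit 7) (nat_lit 4) (nat_lit 420) (nat_lit 349) (nat_lit 251)) (XT.lf (nat_lit 0) (nat_lit 209641608032) (nat_lit 152) (nat_lit 42401531275) (nat_lit 0) (nat_lit 175887762236) (nat_lit 7) (nat_lit 5) (nat_lit 9) (nat_lit 4) (nat_lit 7) (nat_lit 4) (nat_lit 421) (nat_lit 349) (nat_lit 250)))) (XT.nd (nat_lit 156) (nat_lit 0) (nat_lit 0) (XT.nd (nat_lit 78) (nat_lit 0) (nat_lit 0) (XT.lf (nat_lit 0) (nat_lit 55815750101) (nat_lit 76) (nat_lit 218779288585) (nat_lit 76) (nat_lit 185024214641) (nat_lit 6) (nat_lit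 4) (nat_lit 7) (nat_lit 5) (nat_lit 7) (nat_lit 4) (nat_lit 422) (nat_lit 349) (nat_lit 249)) (XT.lf (nat_lit 0) (nat_lit 163397342911) (nat_lit 76) (nat_lit 182082395922) (nat_lit 76) (nat_lit 148326184803) (nat_lit 6) (nat_lit 4) (nat_lit 7) (nat_lit 5) (nat_lit 7) (nat_lit 4) (nat_lit 423) (nat_lit 349) (nat_lit 248))) (XT.nd (nat_lit 78) (nat_lit 0) (nat_lit 0) (XT.lf (nat_lit 0) (nat_lit 279578781588) (nat_lit 76) (nat_lit 142453088701) (nat_lit 76) (nat_lit 108695824642) (nat_lit 6) (nat_lit 4) (nat_lit 7) (nat_lit 5) (nat_lit 7) (nat_lit 4) (nat_lit 424) (nat_lit 349) (nat_lit 247)) (XT.lf (nat_lit 0) (nat_lit 405048548733) (nat_lit 76) (nat_lit 99656526581) (nat_lit 76) (nat_lit 65898287578) (nat_lit 6) (nat_lit 4) (nat_lit 7) (nat_lit 5) (nat_lit 7) (nat_lit 4) (nat_lit 425) (nat_lit 349) (nat_lit 246)))))) (XT.nd (nat_lit 546) (nat_lit 76) (nat_lit 0) (XT.nd (nat_lit 234) (nat_lit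 0) (nat_lit 0) (XT.nd (nat_lit 78) (nat_lit 152) (nat_lit 0) (XT.lf (nat_lit 0) (nat_lit 540550168892) (nat_lit 76) (nat_lit 53439100306) (nat_lit 76) (nat_lit 19679958577) (nat_lit 6) (nat_lit 4) (nat_lit 7) (nat_lit 5) (nat_lit 7) (nat_lit 4) (nat_lit 426) (nat_lit 349) (nat_lit 245)) (XT.nd (nat_lit 78) (nat_lit 0) (nat_lit 0) (XT.lf (nat_lit 0) (nat_lit 27101515037) (nat_lit 76) (nat_lit 2587017950) (nat_lit 152) (nat_lit 630447204058) (nat_lit 4) (nat_lit 5) (nat_lit 5) (nat_lit 5) (nat_lit 6) (nat_lit 4) (nat_lit 427) (nat_lit 349) (nat_lit 244)) (XT.lf (nat_lit 0) (nat_lit 84435247447) (nat_lit 152) (nat_lit 573480126155) (nat_lit 0) (nat_lit 52282150753) (nat_lit 4) (nat_lit 5) (nat_lit 6) (nat_lit 4) (nat_lit 4) (nat_lit 4) (nat_lit 428) (nat_lit 349) (nat_lit 243)))) (XT.nd (nat_lit 156) (nat_lit 0) (nat_lit 0) (XT.nd (nat_lit 78) (nat_lit 0) (nat_lit 0) (XT.lf (nat_lit 0) (nat_lit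 143602895294) (nat_lit 152) (nat_lit 509210183517) (nat_lit 0) (nat_lit 111449116111) (nat_lit 4) (nat_lit 5) (nat_lit 6) (nat_lit 4) (nat_lit 4) (nat_lit 4) (nat_lit 429) (nat_lit 349) (nat_lit 242)) (XT.lf (nat_lit 0) (nat_lit 207501709025) (nat_lit 152) (nat_lit 439803144573) (nat_lit 0) (nat_lit 175347297908) (nat_lit 4) (nat_lit 5) (nat_lit 6) (nat_lit 4) (nat_lit 4) (nat_lit 4) (nat_lit 430) (nat_lit 349) (nat_lit 241))) (XT.nd (nat_lit 78) (nat_lit 0) (nat_lit 0) (XT.lf (nat_lit 0) (nat_lit 276510348277) (nat_lit 152) (nat_lit 364847708352) (nat_lit 0) (nat_lit 244355352036) (nat_lit 4) (nat_lit 5) (nat_lit 6) (nat_lit 4) (nat_lit 4) (nat_lit 4) (nat_lit 431) (nat_lit 349) (nat_lit 240)) (XT.lf (nat_lit 0) (nat_lit 351037753134) (nat_lit 152) (nat_lit 283899694492) (nat_lit 0) (nat_lit 318882215113) (nat_lit 4) (nat_lit 5) (nat_lit 6) (nat_lit 4) (nat_lit 4) (nat_lit 4) (nat_lit 432)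 (nat_lit 349) (nat_lit 239))))) (XT.nd (nat_lit 234) (nat_lit 76) (nat_lit 0) (XT.nd (nat_lit 78) (nat_lit 0) (nat_lit 0) (XT.lf (nat_lit 0) (nat_lit 431525567478) (nat_lit 152) (nat_lit 196479411057) (nat_lit 0) (nat_lit 399369527807) (nat_lit 4) (nat_lit 5) (nat_lit 6) (nat_lit 4) (nat_lit 4) (nat_lit 4) (nat_lit 433) (nat_lit 349) (nat_lit 238)) (XT.nd (nat_lit 78) (nat_lit 0) (nat_lit 0) (XT.lf (nat_lit 0) (nat_lit 518450756134) (nat_lit 152) (nat_lit 102068811925) (nat_lit 0) (nat_lit 486294251972) (nat_lit 4) (nat_lit 5) (nat_lit 6) (nat_lit 4) (nat_lit 4) (nat_lit 4) (nat_lit 434) (nat_lit 349) (nat_lit 237)) (XT.lf (nat_lit 0) (nat_lit 612328431330) (nat_lit 152) (nat_lit 108426878) (nat_lit 0) (nat_lit 580171497086) (nat_lit 4) (nat_lit 5) (nat_lit 6) (nat_lit 4) (nat_lit 4) (nat_lit 4) (nat_lit 435) (nat_lit 349) (nat_lit 236)))) (XT.nd (nat_lit 46410) (nat_lit 0) (nat_lit 9576)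 (XT.nd (nat_lit 78) (nat_lit 0) (nat_lit 0) (XT.lf (nat_lit 0) (nat_lit 113643247405) (nat_lit 76) (nat_lit 601845947389) (nat_lit 76) (nat_lit 569688614919) (nat_lit 3) (nat_lit 4) (nat_lit 4) (nat_lit 5) (nat_lit 4) (nat_lit 4) (nat_lit 436) (nat_lit 349) (nat_lit 235)) (XT.lf (nat_lit 0) (nat_lit 236496215535) (nat_lit 76) (nat_lit 590407139699) (nat_lit 76) (nat_lit 558249438501) (nat_lit 3) (nat_lit 4) (nat_lit 4) (nat_lit 5) (nat_lit 4) (nat_lit 4) (nat_lit 437) (nat_lit 349) (nat_lit 234))) (XT.nd (nat_lit 78) (nat_lit 0) (nat_lit 0) (XT.lf (nat_lit 0) (nat_lit 27833772) (nat_lit 0) (nat_lit 27833772) (nat_lit 684) (nat_lit 4618875415) (nat_lit 129) (nat_lit 5) (nat_lit 129) (nat_lit 3) (nat_lit 138) (nat_lit 3) (nat_lit 350) (nat_lit 350) (nat_lit 320)) (XT.lf (nat_lit 0) (nat_lit 1492530347) (nat_lit 684) (nat_lit 2107057755) (nat_lit 760) (nat_lit 6053877118) (nat_lit 129) (nat_lit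 5) (nat_lit 138) (nat_lit 3) (nat_lit 139) (nat_lit 5) (nat_lit 351) (nat_lit 350) (nat_lit 319))))))))
noncomputable def xc64 : XT := (XT.nd (nat_lit 2028) (nat_lit 2660) (nat_lit 0) (XT.nd (nat_lit 1014) (nat_lit 2736) (nat_lit 0) (XT.nd (nat_lit 468) (nat_lit 2584) (nat_lit 0) (XT.nd (nat_lit 234) (nat_lit 532) (nat_lit 0) (XT.nd (nat_lit 78) (nat_lit 0) (nat_lit 0) (XT.lf (nat_lit 0) (nat_lit 2992216108) (nat_lit 684) (nat_lit 4261694107) (nat_lit 760) (nat_lit 2727959645) (nat_lit 130) (nat_lit 5) (nat_lit 139) (nat_lit 5) (nat_lit 140) (nat_lit 5) (nat_lit 352) (nat_lit 350) (nat_lit 318)) (XT.nd (nat_lit 78) (nat_lit 0) (nat_lit 76) (XT.lf (nat_lit 76) (nat_lit 3902590051) (nat_lit 0) (nat_lit 750368791) (nat_lit 760) (nat_lit 5681603127) (nat_lit 131) (nat_lit 5) (nat_lit 130) (nat_lit 5) (nat_lit 140) (nat_lit 5) (nat_lit 353) (nat_lit 350) (nat_lit 317)) (XT.lf (nat_lit 76) (nat_lit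 2048806137) (nat_lit 0) (nat_lit 4493498941) (nat_lit 760) (nat_lit 4168441244) (nat_lit 132) (nat_lit 5) (nat_lit 131) (nat_lit 5) (nat_lit 141) (nat_lit 5) (nat_lit 354) (nat_lit 350) (nat_lit 316)))) (XT.nd (nat_lit 78) (nat_lit 684) (nat_lit 0) (XT.lf (nat_lit 76) (nat_lit 197464849) (nat_lit 0) (nat_lit 8453083249) (nat_lit 760) (nat_lit 2463149200) (nat_lit 133) (nat_lit 5) (nat_lit 132) (nat_lit 5) (nat_lit 142) (nat_lit 5) (nat_lit 355) (nat_lit 350) (nat_lit 315)) (XT.nd (nat_lit 78) (nat_lit 684) (nat_lit 0) (XT.lf (nat_lit 76) (nat_lit 9919865060) (nat_lit 0) (nat_lit 1137143414) (nat_lit 760) (nat_lit 485452920) (nat_lit 133) (nat_lit 5) (nat_lit 132) (nat_lit 5) (nat_lit 142) (nat_lit 5) (nat_lit 356) (nat_lit 350) (nat_lit 314)) (XT.lf (nat_lit 0) (nat_lit 1749942971) (nat_lit 760) (nat_lit 3521035907) (nat_lit 76) (nat_lit 6725692324) (nat_lit 123) (nat_lit 5) (nat_lit 133)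 (nat_lit 5) (nat_lit 124) (nat_lit 5) (nat_lit 357) (nat_lit 350) (nat_lit 313))))) (XT.nd (nat_lit 234) (nat_lit 1064) (nat_lit 0) (XT.nd (nat_lit 78) (nat_lit 760) (nat_lit 0) (XT.lf (nat_lit 0) (nat_lit 4265891955) (nat_lit 836) (nat_lit 5450608336) (nat_lit 76) (nat_lit 2764427982) (nat_lit 113) (nat_lit 5) (nat_lit 124) (nat_lit 5) (nat_lit 114) (nat_lit 5) (nat_lit 358) (nat_lit 350) (nat_lit 312)) (XT.nd (nat_lit 78) (nat_lit 380) (nat_lit 0) (XT.lf (nat_lit 0) (nat_lit 5562552854) (nat_lit 380) (nat_lit 1579391466) (nat_lit 456) (nat_lit 5854081751) (nat_lit 108) (nat_lit 5) (nat_lit 113) (nat_lit 5) (nat_lit 114) (nat_lit 5) (nat_lit 359) (nat_lit 350) (nat_lit 311)) (XT.lf (nat_lit 0) (nat_lit 4042364758) (nat_lit 380) (nat_lit 6403396501) (nat_lit 456) (nat_lit 3096724870) (nat_lit 103) (nat_lit 5) (nat_lit 108) (nat_lit 5) (nat_lit 109) (nat_lit 5) (nat_lit 360) (nat_lit 350)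 (nat_lit 310)))) (XT.nd (nat_lit 156) (nat_lit 304) (nat_lit 0) (XT.nd (nat_lit 78) (nat_lit 304) (nat_lit 0) (XT.lf (nat_lit 0) (nat_lit 51551434) (nat_lit 456) (nat_lit 11611546422) (nat_lit 76) (nat_lit 2461365313) (nat_lit 97) (nat_lit 5) (nat_lit 103) (nat_lit 5) (nat_lit 98) (nat_lit 5) (nat_lit 361) (nat_lit 350) (nat_lit 309)) (XT.lf (nat_lit 0) (nat_lit 870683346) (nat_lit 304) (nat_lit 2696498956) (nat_lit 380) (nat_lit 11172109842) (nat_lit 93) (nat_lit 5) (nat_lit 97) (nat_lit 5) (nat_lit 98) (nat_lit 5) (nat_lit 362) (nat_lit 350) (nat_lit 308))) (XT.nd (nat_lit 78) (nat_lit 304) (nat_lit 0) (XT.lf (nat_lit 0) (nat_lit 7615214402) (nat_lit 380) (nat_lit 815030445) (nat_lit 76) (nat_lit 6960534127) (nat_lit 93) (nat_lit 5) (nat_lit 98) (nat_lit 5) (nat_lit 94) (nat_lit 5) (nat_lit 363) (nat_lit 350) (nat_lit 307)) (XT.lf (nat_lit 0) (nat_lit 12208233833) (nat_lit 380) (nat_lit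 2503804269) (nat_lit 76) (nat_lit 1371316330) (nat_lit 89) (nat_lit 5) (nat_lit 94) (nat_lit 5) (nat_lit 90) (nat_lit 5) (nat_lit 364) (nat_lit 350) (nat_lit 306)))))) (XT.nd (nat_lit 468) (nat_lit 1140) (nat_lit 0) (XT.nd (nat_lit 234) (nat_lit 760) (nat_lit 0) (XT.nd (nat_lit 78) (nat_lit 532) (nat_lit 0) (XT.lf (nat_lit 0) (nat_lit 627647166) (nat_lit 304) (nat_lit 4313939670) (nat_lit 76) (nat_lit 11874455183) (nat_lit 85) (nat_lit 5) (nat_lit 89) (nat_lit 5) (nat_lit 86) (nat_lit 5) (nat_lit 365) (nat_lit 350) (nat_lit 305)) (XT.nd (nat_lit 78) (nat_lit 228) (nat_lit 0) (XT.lf (nat_lit 0) (nat_lit 5617978921) (nat_lit 380) (nat_lit 6263730035) (nat_lit 76) (nat_lit 5709325912) (nat_lit 81) (nat_lit 5) (nat_lit 86) (nat_lit 5) (nat_lit 82) (nat_lit 5) (nat_lit 366) (nat_lit 350) (nat_lit 304)) (XT.lf (nat_lit 0) (nat_lit 10121356363) (nat_lit 228) (nat_lit 1153132808) (nat_lit 304) (nat_lit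 7140210730) (nat_lit 78) (nat_lit 5) (nat_lit 81) (nat_lit 5) (nat_lit 82) (nat_lit 5) (nat_lit 367) (nat_lit 350) (nat_lit 303)))) (XT.nd (nat_lit 78) (nat_lit 532) (nat_lit 0) (XT.lf (nat_lit 0) (nat_lit 8791950372) (nat_lit 228) (nat_lit 8954352261) (nat_lit 304) (nat_lit 1539835231) (nat_lit 75) (nat_lit 5) (nat_lit 78) (nat_lit 5) (nat_lit 79) (nat_lit 5) (nat_lit 368) (nat_lit 350) (nat_lit 302)) (XT.nd (nat_lit 78) (nat_lit 228) (nat_lit 0) (XT.lf (nat_lit 0) (nat_lit 4643306423) (nat_lit 304) (nat_lit 12856488593) (nat_lit 76) (nat_lit 2710040968) (nat_lit 71) (nat_lit 5) (nat_lit 75) (nat_lit 5) (nat_lit 72) (nat_lit 5) (nat_lit 369) (nat_lit 350) (nat_lit 301)) (XT.lf (nat_lit 0) (nat_lit 5744445039) (nat_lit 228) (nat_lit 5905600203) (nat_lit 304) (nat_lit 9536993232) (nat_lit 68) (nat_lit 5) (nat_lit 71) (nat_lit 5) (nat_lit 72) (nat_lit 5) (nat_lit 370) (nat_lit 350) (nat_lit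 300))))) (XT.nd (nat_lit 234) (nat_lit 684) (nat_lit 0) (XT.nd (nat_lit 78) (nat_lit 304) (nat_lit 0) (XT.lf (nat_lit 0) (nat_lit 4019412658) (nat_lit 152) (nat_lit 15549292054) (nat_lit 228) (nat_lit 2656157621) (nat_lit 66) (nat_lit 5) (nat_lit 68) (nat_lit 5) (nat_lit 69) (nat_lit 5) (nat_lit 371) (nat_lit 350) (nat_lit 299)) (XT.nd (nat_lit 78) (nat_lit 0) (nat_lit 0) (XT.lf (nat_lit 0) (nat_lit 2083512415) (nat_lit 228) (nat_lit 2903536951) (nat_lit 304) (nat_lit 18336710681) (nat_lit 62) (nat_lit 5) (nat_lit 65) (nat_lit 5) (nat_lit 66) (nat_lit 5) (nat_lit 372) (nat_lit 350) (nat_lit 298)) (XT.lf (nat_lit 0) (nat_lit 13601109801) (nat_lit 304) (nat_lit 128011520) (nat_lit 76) (nat_lit 10756659927) (nat_lit 62) (nat_lit 5) (nat_lit 66) (nat_lit 5) (nat_lit 63) (nat_lit 5) (nat_lit 373) (nat_lit 350) (nat_lit 297)))) (XT.nd (nat_lit 156) (nat_lit 304) (nat_lit 0) (XT.nd (nat_lit 78)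 (nat_lit 228) (nat_lit 0) (XT.lf (nat_lit 0) (nat_lit 23281636537) (nat_lit 228) (nat_lit 2408599804) (nat_lit 76) (nat_lit 31671501) (nat_lit 60) (nat_lit 5) (nat_lit 63) (nat_lit 5) (nat_lit 61) (nat_lit 5) (nat_lit 374) (nat_lit 350) (nat_lit 296)) (XT.lf (nat_lit 0) (nat_lit 7017333764) (nat_lit 228) (nat_lit 5148413176) (nat_lit 76) (nat_lit 14858400475) (nat_lit 57) (nat_lit 5) (nat_lit 60) (nat_lit 5) (nat_lit 58) (nat_lit 5) (nat_lit 375) (nat_lit 350) (nat_lit 295))) (XT.nd (nat_lit 78) (nat_lit 152) (nat_lit 0) (XT.lf (nat_lit 0) (nat_lit 17517942912) (nat_lit 228) (nat_lit 8142084518) (nat_lit 76) (nat_lit 2749952753) (nat_lit 55) (nat_lit 5) (nat_lit 58) (nat_lit 5) (nat_lit 56) (nat_lit 5) (nat_lit 376) (nat_lit 350) (nat_lit 294)) (XT.lf (nat_lit 0) (nat_lit 18325931200) (nat_lit 152) (nat_lit 11083012470) (nat_lit 228) (nat_lit 470226902) (nat_lit 53) (nat_lit 5) (nat_lit 55)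 (nat_lit 5) (nat_lit 56) (nat_lit 5) (nat_lit 377) (nat_lit 350) (nat_lit 293))))))) (XT.nd (nat_lit 1014) (nat_lit 988) (nat_lit 0) (XT.nd (nat_lit 468) (nat_lit 836) (nat_lit 0) (XT.nd (nat_lit 234) (nat_lit 304) (nat_lit 0) (XT.nd (nat_lit 78) (nat_lit 304) (nat_lit 0) (XT.lf (nat_lit 0) (nat_lit 10885288120) (nat_lit 228) (nat_lit 15487051899) (nat_lit 76) (nat_lit 5062886009) (nat_lit 50) (nat_lit 5) (nat_lit 53) (nat_lit 5) (nat_lit 51) (nat_lit 5) (nat_lit 378) (nat_lit 350) (nat_lit 292)) (XT.nd (nat_lit 78) (nat_lit 152) (nat_lit 0) (XT.lf (nat_lit 0) (nat_lit 13127824586) (nat_lit 152) (nat_lit 10571771481) (nat_lit 228) (nat_lit 9387449763) (nat_lit 48) (nat_lit 5) (nat_lit 50) (nat_lit 5) (nat_lit 51) (nat_lit 5) (nat_lit 379) (nat_lit 350) (nat_lit 291)) (XT.lf (nat_lit 0) (nat_lit 3092156045) (nat_lit 152) (nat_lit 25007421565) (nat_lit 76) (nat_lit 6743881069) (nat_lit 46)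 (nat_lit 5) (nat_lit 48) (nat_lit 5) (nat_lit 47) (nat_lit 5) (nat_lit 380) (nat_lit 350) (nat_lit 290)))) (XT.nd (nat_lit 78) (nat_lit 152) (nat_lit 0) (XT.lf (nat_lit 0) (nat_lit 5799565468) (nat_lit 152) (nat_lit 11040528394) (nat_lit 228) (nat_lit 19862658790) (nat_lit 44) (nat_lit 5) (nat_lit 46) (nat_lit 5) (nat_lit 47) (nat_lit 5) (nat_lit 381) (nat_lit 350) (nat_lit 289)) (XT.nd (nat_lit 78) (nat_lit 76) (nat_lit 0) (XT.lf (nat_lit 0) (nat_lit 1141873447) (nat_lit 76) (nat_lit 31095140931) (nat_lit 152) (nat_lit 6446323408) (nat_lit 43) (nat_lit 5) (nat_lit 44) (nat_lit 5) (nat_lit 45) (nat_lit 4) (nat_lit 382) (nat_lit 350) (nat_lit 288)) (XT.lf (nat_lit 0) (nat_lit 8493326013) (nat_lit 152) (nat_lit 4308108400) (nat_lit 76) (nat_lit 27979288632) (nat_lit 42) (nat_lit 5) (nat_lit 44) (nat_lit 5) (nat_lit 43) (nat_lit 5) (nat_lit 383) (nat_lit 350) (nat_lit 287))))) (XT.nd (nat_lit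 234) (nat_lit 380) (nat_lit 0) (XT.nd (nat_lit 78) (nat_lit 304) (nat_lit 0) (XT.lf (nat_lit 0) (nat_lit 25006749898) (nat_lit 228) (nat_lit 10662945685) (nat_lit 76) (nat_lit 7340701260) (nat_lit 40) (nat_lit 5) (nat_lit 43) (nat_lit 5) (nat_lit 41) (nat_lit 4) (nat_lit 384) (nat_lit 350) (nat_lit 286)) (XT.nd (nat_lit 78) (nat_lit 228) (nat_lit 0) (XT.lf (nat_lit 0) (nat_lit 27289189838) (nat_lit 76) (nat_lit 16247158834) (nat_lit 152) (nat_lit 1847344626) (nat_lit 39) (nat_lit 5) (nat_lit 40) (nat_lit 5) (nat_lit 41) (nat_lit 4) (nat_lit 385) (nat_lit 350) (nat_lit 285)) (XT.lf (nat_lit 0) (nat_lit 15684148392) (nat_lit 228) (nat_lit 26886907520) (nat_lit 76) (nat_lit 5334520244) (nat_lit 36) (nat_lit 5) (nat_lit 39) (nat_lit 5) (nat_lit 37) (nat_lit 4) (nat_lit 386) (nat_lit 350) (nat_lit 284)))) (XT.nd (nat_lit 156) (nat_lit 76) (nat_lit 0) (XT.nd (nat_lit 78) (nat_lit 228) (nat_lit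 0) (XT.lf (nat_lit 0) (nat_lit 13371586363) (nat_lit 76) (nat_lit 21964211462) (nat_lit 152) (nat_lit 15252782759) (nat_lit 35) (nat_lit 5) (nat_lit 36) (nat_lit 5) (nat_lit 37) (nat_lit 4) (nat_lit 387) (nat_lit 350) (nat_lit 283)) (XT.lf (nat_lit 0) (nat_lit 3512684055) (nat_lit 228) (nat_lit 49077243335) (nat_lit 76) (nat_lit 867016692) (nat_lit 32) (nat_lit 5) (nat_lit 35) (nat_lit 5) (nat_lit 33) (nat_lit 4) (nat_lit 388) (nat_lit 350) (nat_lit 282))) (XT.nd (nat_lit 78) (nat_lit 76) (nat_lit 0) (XT.lf (nat_lit 0) (nat_lit 24261209598) (nat_lit 228) (nat_lit 6565128188) (nat_lit 76) (nat_lit 25665128897) (nat_lit 32) (nat_lit 5) (nat_lit 35) (nat_lit 5) (nat_lit 33) (nat_lit 4) (nat_lit 389) (nat_lit 350) (nat_lit 281)) (XT.lf (nat_lit 0) (nat_lit 40612886817) (nat_lit 76) (nat_lit 6672089006) (nat_lit 152) (nat_lit 12453009684) (nat_lit 31) (nat_lit 5) (nat_lit 32) (nat_lit 5) (nat_lit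 33) (nat_lit 4) (nat_lit 390) (nat_lit 350) (nat_lit 280)))))) (XT.nd (nat_lit 468) (nat_lit 456) (nat_lit 0) (XT.nd (nat_lit 234) (nat_lit 304) (nat_lit 0) (XT.nd (nat_lit 78) (nat_lit 76) (nat_lit 0) (XT.lf (nat_lit 0) (nat_lit 9491837907) (nat_lit 152) (nat_lit 34199337639) (nat_lit 76) (nat_lit 19502575585) (nat_lit 29) (nat_lit 5) (nat_lit 31) (nat_lit 5) (nat_lit 30) (nat_lit 4) (nat_lit 391) (nat_lit 350) (nat_lit 279)) (XT.nd (nat_lit 78) (nat_lit 0) (nat_lit 0) (XT.lf (nat_lit 0) (nat_lit 14851336163) (nat_lit 76) (nat_lit 18575906780) (nat_lit 152) (nat_lit 33454966469) (nat_lit 28) (nat_lit 5) (nat_lit 29) (nat_lit 5) (nat_lit 30) (nat_lit 4) (nat_lit 392) (nat_lit 350) (nat_lit 278)) (XT.lf (nat_lit 0) (nat_lit 59999461912) (nat_lit 152) (nat_lit 1964214715) (nat_lit 0) (nat_lit 8865970427) (nat_lit 28) (nat_lit 5) (nat_lit 30) (nat_lit 4) (nat_lit 28) (nat_lit 4) (nat_lit 393)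 (nat_lit 350) (nat_lit 277)))) (XT.nd (nat_lit 78) (nat_lit 152) (nat_lit 0) (XT.lf (nat_lit 0) (nat_lit 14320122257) (nat_lit 152) (nat_lit 21791045254) (nat_lit 76) (nat_lit 38913544728) (nat_lit 26) (nat_lit 5) (nat_lit 28) (nat_lit 5) (nat_lit 27) (nat_lit 4) (nat_lit 394) (nat_lit 350) (nat_lit 276)) (XT.nd (nat_lit 78) (nat_lit 76) (nat_lit 0) (XT.lf (nat_lit 0) (nat_lit 34247666241) (nat_lit 76) (nat_lit 7414647892) (nat_lit 152) (nat_lit 37856227914) (nat_lit 25) (nat_lit 5) (nat_lit 26) (nat_lit 5) (nat_lit 27) (nat_lit 4) (nat_lit 395) (nat_lit 350) (nat_lit 275)) (XT.lf (nat_lit 0) (nat_lit 11148824921) (nat_lit 76) (nat_lit 60956274394) (nat_lit 76) (nat_lit 12221119366) (nat_lit 24) (nat_lit 4) (nat_lit 25) (nat_lit 5) (nat_lit 25) (nat_lit 4) (nat_lit 396) (nat_lit 350) (nat_lit 274))))) (XT.nd (nat_lit 234) (nat_lit 228) (nat_lit 0) (XT.nd (nat_lit 78) (nat_lit 152) (nat_lit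 0) (XT.lf (nat_lit 0) (nat_lit 15882039437) (nat_lit 152) (nat_lit 16187410728) (nat_lit 76) (nat_lit 57391377437) (nat_lit 23) (nat_lit 5) (nat_lit 25) (nat_lit 5) (nat_lit 24) (nat_lit 4) (nat_lit 397) (nat_lit 350) (nat_lit 273)) (XT.nd (nat_lit 78) (nat_lit 76) (nat_lit 0) (XT.lf (nat_lit 0) (nat_lit 46527152405) (nat_lit 152) (nat_lit 48339366950) (nat_lit 0) (nat_lit 93576169) (nat_lit 22) (nat_lit 5) (nat_lit 24) (nat_lit 4) (nat_lit 22) (nat_lit 4) (nat_lit 398) (nat_lit 350) (nat_lit 272)) (XT.lf (nat_lit 0) (nat_lit 14024943643) (nat_lit 76) (nat_lit 66632393466) (nat_lit 76) (nat_lit 20190295651) (nat_lit 21) (nat_lit 4) (nat_lit 22) (nat_lit 5) (nat_lit 22) (nat_lit 4) (nat_lit 399) (nat_lit 350) (nat_lit 271)))) (XT.nd (nat_lit 156) (nat_lit 76) (nat_lit 0) (XT.nd (nat_lit 78) (nat_lit 76) (nat_lit 0) (XT.lf (nat_lit 0) (nat_lit 10825092651) (nat_lit 152) (nat_lit 24258548231)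 (nat_lit 76) (nat_lit 72072314715) (nat_lit 20) (nat_lit 5) (nat_lit 22) (nat_lit 5) (nat_lit 21) (nat_lit 4) (nat_lit 400) (nat_lit 350) (nat_lit 270)) (XT.lf (nat_lit 0) (nat_lit 44305937500) (nat_lit 152) (nat_lit 69550982862) (nat_lit 0) (nat_lit 60895550) (nat_lit 19) (nat_lit 5) (nat_lit 21) (nat_lit 4) (nat_lit 19) (nat_lit 4) (nat_lit 401) (nat_lit 350) (nat_lit 269))) (XT.nd (nat_lit 78) (nat_lit 76) (nat_lit 0) (XT.lf (nat_lit 0) (nat_lit 81475126084) (nat_lit 152) (nat_lit 2471364370) (nat_lit 0) (nat_lit 37223641559) (nat_lit 19) (nat_lit 5) (nat_lit 21) (nat_lit 4) (nat_lit 19) (nat_lit 4) (nat_lit 402) (nat_lit 350) (nat_lit 268)) (XT.lf (nat_lit 0) (nat_lit 72267375496) (nat_lit 76) (nat_lit 50468405951) (nat_lit 76) (nat_lit 6210956078) (nat_lit 18) (nat_lit 4) (nat_lit 19) (nat_lit 5) (nat_lit 19) (nat_lit 4) (nat_lit 403) (nat_lit 350) (nat_lit 267))))))))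
noncomputable def xc65 : XT := (XT.nd (nat_lit 2028) (nat_lit 0) (nat_lit 0) (XT.nd (nat_lit 1014) (nat_lit 380) (nat_lit 0) (XT.nd (nat_lit 468) (nat_lit 304) (nat_lit 0) (XT.nd (nat_lit 234) (nat_lit 152) (nat_lit 0) (XT.nd (nat_lit 78) (nat_lit 76) (nat_lit 0) (XT.lf (nat_lit 0) (nat_lit 15746073836) (nat_lit 76) (nat_lit 13526632104) (nat_lit 152) (nat_lit 108035407903) (nat_lit 16) (nat_lit 5) (nat_lit 17) (nat_lit 5) (nat_lit 18) (nat_lit 4) (nat_lit 404) (nat_lit 350) (nat_lit 266)) (XT.nd (nat_lit 78) (nat_lit 76) (nat_lit 0) (XT.lf (nat_lit 0) (nat_lit 68785833502) (nat_lit 152) (nat_lit 50851307677) (nat_lit 0) (nat_lit 26625750010) (nat_lit 16) (nat_lit 5) (nat_lit 18) (nat_lit 4) (nat_lit 16) (nat_lit 4) (nat_lit 405) (nat_lit 350) (nat_lit 265)) (XT.lf (nat_lit 0) (nat_lit 26105986667) (nat_lit 76) (nat_lit 85980663073) (nat_lit 76) (nat_lit 43816069594) (nat_lit 15) (nat_lit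 4) (nat_lit 16) (nat_lit 5) (nat_lit 16) (nat_lit 4) (nat_lit 406) (nat_lit 350) (nat_lit 264)))) (XT.nd (nat_lit 78) (nat_lit 152) (nat_lit 0) (XT.lf (nat_lit 0) (nat_lit 111018753050) (nat_lit 76) (nat_lit 48709946088) (nat_lit 76) (nat_lit 6541176697) (nat_lit 15) (nat_lit 4) (nat_lit 16) (nat_lit 5) (nat_lit 16) (nat_lit 4) (nat_lit 407) (nat_lit 350) (nat_lit 263)) (XT.nd (nat_lit 78) (nat_lit 0) (nat_lit 0) (XT.lf (nat_lit 0) (nat_lit 25532947623) (nat_lit 76) (nat_lit 7494166328) (nat_lit 152) (nat_lit 144393445533) (nat_lit 13) (nat_lit 5) (nat_lit 14) (nat_lit 5) (nat_lit 15) (nat_lit 4) (nat_lit 408) (nat_lit 350) (nat_lit 262)) (XT.lf (nat_lit 0) (nat_lit 77083068979) (nat_lit 152) (nat_lit 75382054952) (nat_lit 0) (nat_lit 36915244074) (nat_lit 13) (nat_lit 5) (nat_lit 15) (nat_lit 4) (nat_lit 13) (nat_lit 4) (nat_lit 409) (nat_lit 350) (nat_lit 261))))) (XT.nd (nat_lit 234) (nat_lit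 152) (nat_lit 0) (XT.nd (nat_lit 78) (nat_lit 76) (nat_lit 0) (XT.lf (nat_lit 0) (nat_lit 7338017412) (nat_lit 76) (nat_lit 117559122120) (nat_lit 76) (nat_lit 77388140096) (nat_lit 12) (nat_lit 4) (nat_lit 13) (nat_lit 5) (nat_lit 13) (nat_lit 4) (nat_lit 410) (nat_lit 350) (nat_lit 260)) (XT.nd (nat_lit 78) (nat_lit 76) (nat_lit 0) (XT.lf (nat_lit 0) (nat_lit 99353765228) (nat_lit 76) (nat_lit 78488708832) (nat_lit 76) (nat_lit 38314803551) (nat_lit 12) (nat_lit 4) (nat_lit 13) (nat_lit 5) (nat_lit 13) (nat_lit 4) (nat_lit 411) (nat_lit 350) (nat_lit 259)) (XT.lf (nat_lit 0) (nat_lit 3753516523) (nat_lit 152) (nat_lit 32481903129) (nat_lit 76) (nat_lit 194900911688) (nat_lit 11) (nat_lit 5) (nat_lit 13) (nat_lit 5) (nat_lit 12) (nat_lit 4) (nat_lit 412) (nat_lit 350) (nat_lit 258)))) (XT.nd (nat_lit 156) (nat_lit 76) (nat_lit 0) (XT.nd (nat_lit 78) (nat_lit 0) (nat_lit 0) (XT.lf (nat_lit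 0) (nat_lit 48963669509) (nat_lit 152) (nat_lit 187564855366) (nat_lit 0) (nat_lit 10697842629) (nat_lit 10) (nat_lit 5) (nat_lit 12) (nat_lit 4) (nat_lit 10) (nat_lit 4) (nat_lit 413) (nat_lit 350) (nat_lit 257)) (XT.lf (nat_lit 0) (nat_lit 98970828038) (nat_lit 152) (nat_lit 104870978036) (nat_lit 0) (nat_lit 60702791085) (nat_lit 10) (nat_lit 5) (nat_lit 12) (nat_lit 4) (nat_lit 10) (nat_lit 4) (nat_lit 414) (nat_lit 350) (nat_lit 256))) (XT.nd (nat_lit 78) (nat_lit 76) (nat_lit 0) (XT.lf (nat_lit 0) (nat_lit 152973104161) (nat_lit 152) (nat_lit 15572433178) (nat_lit 0) (nat_lit 114703020844) (nat_lit 10) (nat_lit 5) (nat_lit 12) (nat_lit 4) (nat_lit 10) (nat_lit 4) (nat_lit 415) (nat_lit 350) (nat_lit 255)) (XT.lf (nat_lit 0) (nat_lit 83533551080) (nat_lit 76) (nat_lit 129061153121) (nat_lit 76) (nat_lit 90789175023) (nat_lit 9) (nat_lit 4) (nat_lit 10) (nat_lit 5) (nat_lit 10) (nat_lit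 4) (nat_lit 416) (nat_lit 350) (nat_lit 254)))))) (XT.nd (nat_lit 468) (nat_lit 228) (nat_lit 0) (XT.nd (nat_lit 234) (nat_lit 0) (nat_lit 0) (XT.nd (nat_lit 78) (nat_lit 152) (nat_lit 0) (XT.lf (nat_lit 0) (nat_lit 191114497451) (nat_lit 76) (nat_lit 86137969742) (nat_lit 76) (nat_lit 47864237217) (nat_lit 9) (nat_lit 4) (nat_lit 10) (nat_lit 5) (nat_lit 10) (nat_lit 4) (nat_lit 417) (nat_lit 350) (nat_lit 253)) (XT.nd (nat_lit 78) (nat_lit 152) (nat_lit 0) (XT.lf (nat_lit 0) (nat_lit 307293027684) (nat_lit 76) (nat_lit 39785354288) (nat_lit 76) (nat_lit 1509997294) (nat_lit 9) (nat_lit 4) (nat_lit 10) (nat_lit 5) (nat_lit 10) (nat_lit 4) (nat_lit 418) (nat_lit 350) (nat_lit 252)) (XT.lf (nat_lit 0) (nat_lit 48119010668) (nat_lit 152) (nat_lit 314059997578) (nat_lit 0) (nat_lit 11664857208) (nat_lit 7) (nat_lit 5) (nat_lit 9) (nat_lit 4) (nat_lit 7) (nat_lit 4) (nat_lit 419) (nat_lit 350)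 (nat_lit 251)))) (XT.nd (nat_lit 78) (nat_lit 0) (nat_lit 0) (XT.lf (nat_lit 0) (nat_lit 103064046189) (nat_lit 152) (nat_lit 231376009981) (nat_lit 0) (nat_lit 66608566328) (nat_lit 7) (nat_lit 5) (nat_lit 9) (nat_lit 4) (nat_lit 7) (nat_lit 4) (nat_lit 420) (nat_lit 350) (nat_lit 250)) (XT.nd (nat_lit 78) (nat_lit 0) (nat_lit 0) (XT.lf (nat_lit 0) (nat_lit 162400904966) (nat_lit 152) (nat_lit 142084847308) (nat_lit 0) (nat_lit 125944196957) (nat_lit 7) (nat_lit 5) (nat_lit 9) (nat_lit 4) (nat_lit 7) (nat_lit 4) (nat_lit 421) (nat_lit 350) (nat_lit 249)) (XT.lf (nat_lit 0) (nat_lit 226481212831) (nat_lit 152) (nat_lit 45657376742) (nat_lit 0) (nat_lit 190023367647) (nat_lit 7) (nat_lit 5) (nat_lit 9) (nat_lit 4) (nat_lit 7) (nat_lit 4) (nat_lit 422) (nat_lit 350) (nat_lit 248))))) (XT.nd (nat_lit 234) (nat_lit 152) (nat_lit 0) (XT.nd (nat_lit 78) (nat_lit 0) (nat_lit 0) (XT.lf (nat_lit 0)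 (nat_lit 60411364710) (nat_lit 76) (nat_lit 236216530934) (nat_lit 76) (nat_lit 199757632811) (nat_lit 6) (nat_lit 4) (nat_lit 7) (nat_lit 5) (nat_lit 7) (nat_lit 4) (nat_lit 423) (nat_lit 350) (nat_lit 247)) (XT.nd (nat_lit 78) (nat_lit 0) (nat_lit 0) (XT.lf (nat_lit 0) (nat_lit 176589829048) (nat_lit 76) (nat_lit 196588709136) (nat_lit 76) (nat_lit 160128836068) (nat_lit 6) (nat_lit 4) (nat_lit 7) (nat_lit 5) (nat_lit 7) (nat_lit 4) (nat_lit 424) (nat_lit 350) (nat_lit 246)) (XT.lf (nat_lit 0) (nat_lit 302056842175) (nat_lit 76) (nat_lit 153793522407) (nat_lit 76) (nat_lit 117332746614) (nat_lit 6) (nat_lit 4) (nat_lit 7) (nat_lit 5) (nat_lit 7) (nat_lit 4) (nat_lit 425) (nat_lit 350) (nat_lit 245)))) (XT.nd (nat_lit 156) (nat_lit 152) (nat_lit 0) (XT.nd (nat_lit 78) (nat_lit 0) (nat_lit 0) (XT.lf (nat_lit 0) (nat_lit 437555912317) (nat_lit 76) (nat_lit 107577369643) (nat_lit 76) (nat_lit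 71115757992) (nat_lit 6) (nat_lit 4) (nat_lit 7) (nat_lit 5) (nat_lit 7) (nat_lit 4) (nat_lit 426) (nat_lit 350) (nat_lit 244)) (XT.lf (nat_lit 0) (nat_lit 583889996927) (nat_lit 76) (nat_lit 57666377345) (nat_lit 76) (nat_lit 21203991752) (nat_lit 6) (nat_lit 4) (nat_lit 7) (nat_lit 5) (nat_lit 7) (nat_lit 4) (nat_lit 427) (nat_lit 350) (nat_lit 243))) (XT.nd (nat_lit 78) (nat_lit 0) (nat_lit 0) (XT.lf (nat_lit 0) (nat_lit 29362830310) (nat_lit 76) (nat_lit 2747380672) (nat_lit 152) (nat_lit 680834053673) (nat_lit 4) (nat_lit 5) (nat_lit 5) (nat_lit 5) (nat_lit 6) (nat_lit 4) (nat_lit 428) (nat_lit 350) (nat_lit 242)) (XT.lf (nat_lit 0) (nat_lit 91233884738) (nat_lit 152) (nat_lit 619270760427) (nat_lit 0) (nat_lit 56506488798) (nat_lit 4) (nat_lit 5) (nat_lit 6) (nat_lit 4) (nat_lit 4) (nat_lit 4) (nat_lit 429) (nat_lit 350) (nat_lit 241))))))) (XT.nd (nat_lit 47424) (nat_lit 0) (nat_lit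 5092) (XT.nd (nat_lit 468) (nat_lit 0) (nat_lit 0) (XT.nd (nat_lit 234) (nat_lit 0) (nat_lit 0) (XT.nd (nat_lit 78) (nat_lit 0) (nat_lit 0) (XT.lf (nat_lit 0) (nat_lit 155131698672) (nat_lit 152) (nat_lit 549865724290) (nat_lit 0) (nat_lit 120403717608) (nat_lit 4) (nat_lit 5) (nat_lit 6) (nat_lit 4) (nat_lit 4) (nat_lit 4) (nat_lit 430) (nat_lit 350) (nat_lit 240)) (XT.nd (nat_lit 78) (nat_lit 0) (nat_lit 0) (XT.lf (nat_lit 0) (nat_lit 224139412186) (nat_lit 152) (nat_lit 474912142520) (nat_lit 0) (nat_lit 189410889341) (nat_lit 4) (nat_lit 5) (nat_lit 6) (nat_lit 4) (nat_lit 4) (nat_lit 4) (nat_lit 431) (nat_lit 350) (nat_lit 239)) (XT.lf (nat_lit 0) (nat_lit 298665959879) (nat_lit 152) (nat_lit 393965845744) (nat_lit 0) (nat_lit 263936935385) (nat_lit 4) (nat_lit 5) (nat_lit 6) (nat_lit 4) (nat_lit 4) (nat_lit 4) (nat_lit 432) (nat_lit 350) (nat_lit 238)))) (XT.nd (nat_lit 78) (nat_lit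 0) (nat_lit 0) (XT.lf (nat_lit 0) (nat_lit 379152980552) (nat_lit 152) (nat_lit 306547152202) (nat_lit 0) (nat_lit 344423491567) (nat_lit 4) (nat_lit 5) (nat_lit 6) (nat_lit 4) (nat_lit 4) (nat_lit 4) (nat_lit 433) (nat_lit 350) (nat_lit 237)) (XT.nd (nat_lit 78) (nat_lit 0) (nat_lit 0) (XT.lf (nat_lit 0) (nat_lit 466077434327) (nat_lit 152) (nat_lit 212138025193) (nat_lit 0) (nat_lit 431347515259) (nat_lit 4) (nat_lit 5) (nat_lit 6) (nat_lit 4) (nat_lit 4) (nat_lit 4) (nat_lit 434) (nat_lit 350) (nat_lit 236)) (XT.lf (nat_lit 0) (nat_lit 559954429079) (nat_lit 152) (nat_lit 110179003223) (nat_lit 0) (nat_lit 525224111785) (nat_lit 4) (nat_lit 5) (nat_lit 6) (nat_lit 4) (nat_lit 4) (nat_lit 4) (nat_lit 435) (nat_lit 350) (nat_lit 235))))) (XT.nd (nat_lit 46644) (nat_lit 0) (nat_lit 9576) (XT.nd (nat_lit 46488) (nat_lit 0) (nat_lit 9500) (XT.lf (nat_lit 0) (nat_lit 661340272924) (nat_lit 152)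 (nat_lit 65884680) (nat_lit 0) (nat_lit 626609586903) (nat_lit 4) (nat_lit 5) (nat_lit 6) (nat_lit 4) (nat_lit 4) (nat_lit 4) (nat_lit 436) (nat_lit 350) (nat_lit 234)) (XT.nd (nat_lit 78) (nat_lit 0) (nat_lit 0) (XT.lf (nat_lit 0) (nat_lit 654228634) (nat_lit 0) (nat_lit 654228634) (nat_lit 684) (nat_lit 3676903235) (nat_lit 129) (nat_lit 5) (nat_lit 129) (nat_lit 3) (nat_lit 138) (nat_lit 3) (nat_lit 351) (nat_lit 351) (nat_lit 318)) (XT.lf (nat_lit 0) (nat_lit 3905620376) (nat_lit 684) (nat_lit 984772250) (nat_lit 760) (nat_lit 5419315287) (nat_lit 129) (nat_lit 5) (nat_lit 138) (nat_lit 3) (nat_lit 139) (nat_lit 5) (nat_lit 352) (nat_lit 351) (nat_lit 317)))) (XT.nd (nat_lit 156) (nat_lit 0) (nat_lit 76) (XT.nd (nat_lit 78) (nat_lit 0) (nat_lit 0) (XT.lf (nat_lit 0) (nat_lit 5360474855) (nat_lit 684) (nat_lit 3245293726) (nat_lit 760) (nat_lit 2066956661) (nat_lit 130) (nat_lit 5) (nat_lit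 139) (nat_lit 5) (nat_lit 140) (nat_lit 5) (nat_lit 353) (nat_lit 351) (nat_lit 316)) (XT.lf (nat_lit 76) (nat_lit 5513145001) (nat_lit 0) (nat_lit 1503507932) (nat_lit 760) (nat_lit 4043943593) (nat_lit 131) (nat_lit 5) (nat_lit 130) (nat_lit 5) (nat_lit 140) (nat_lit 5) (nat_lit 354) (nat_lit 351) (nat_lit 315))) (XT.nd (nat_lit 78) (nat_lit 0) (nat_lit 76) (XT.lf (nat_lit 76) (nat_lit 3561337642) (nat_lit 0) (nat_lit 5359329909) (nat_lit 760) (nat_lit 2553117783) (nat_lit 132) (nat_lit 5) (nat_lit 131) (nat_lit 5) (nat_lit 141) (nat_lit 5) (nat_lit 355) (nat_lit 351) (nat_lit 314)) (XT.lf (nat_lit 76) (nat_lit 1600584717) (nat_lit 0) (nat_lit 9473919547) (nat_lit 760) (nat_lit 840700805) (nat_lit 133) (nat_lit 5) (nat_lit 132) (nat_lit 5) (nat_lit 142) (nat_lit 5) (nat_lit 356) (nat_lit 351) (nat_lit 313)))))) (XT.nd (nat_lit 546) (nat_lit 1672) (nat_lit 0) (XT.nd (nat_lit 234) (nat_lit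 1520) (nat_lit 0) (XT.nd (nat_lit 78) (nat_lit 684) (nat_lit 0) (XT.lf (nat_lit 0) (nat_lit 1123292259) (nat_lit 760) (nat_lit 404863609) (nat_lit 836) (nat_lit 10855696544) (nat_lit 122) (nat_lit 5) (nat_lit 132) (nat_lit 5) (nat_lit 133) (nat_lit 5) (nat_lit 357) (nat_lit 351) (nat_lit 312)) (XT.nd (nat_lit 78) (nat_lit 760) (nat_lit 0) (XT.lf (nat_lit 0) (nat_lit 3416056217) (nat_lit 760) (nat_lit 2440374912) (nat_lit 76) (nat_lit 7022857575) (nat_lit 123) (nat_lit 5) (nat_lit 133) (nat_lit 5) (nat_lit 124) (nat_lit 5) (nat_lit 358) (nat_lit 351) (nat_lit 311)) (XT.lf (nat_lit 0) (nat_lit 6038546963) (nat_lit 836) (nat_lit 4509063743) (nat_lit 76) (nat_lit 2859472363) (nat_lit 113) (nat_lit 5) (nat_lit 124) (nat_lit 5) (nat_lit 114) (nat_lit 5) (nat_lit 359) (nat_lit 351) (nat_lit 310)))) (XT.nd (nat_lit 156) (nat_lit 760) (nat_lit 0) (XT.nd (nat_lit 78) (nat_lit 380) (nat_lit 0) (XT.lf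 (nat_lit 0) (nat_lit 7325281818) (nat_lit 380) (nat_lit 1733946656) (nat_lit 456) (nat_lit 4908488545) (nat_lit 108) (nat_lit 5) (nat_lit 113) (nat_lit 5) (nat_lit 114) (nat_lit 5) (nat_lit 360) (nat_lit 351) (nat_lit 309)) (XT.lf (nat_lit 0) (nat_lit 5691669493) (nat_lit 380) (nat_lit 6856276395) (nat_lit 456) (nat_lit 2013969699) (nat_lit 103) (nat_lit 5) (nat_lit 108) (nat_lit 5) (nat_lit 109) (nat_lit 5) (nat_lit 361) (nat_lit 351) (nat_lit 308))) (XT.nd (nat_lit 78) (nat_lit 304) (nat_lit 0) (XT.lf (nat_lit 0) (nat_lit 1270139756) (nat_lit 456) (nat_lit 11171151924) (nat_lit 76) (nat_lit 2751838097) (nat_lit 97) (nat_lit 5) (nat_lit 103) (nat_lit 5) (nat_lit 98) (nat_lit 5) (nat_lit 362) (nat_lit 351) (nat_lit 307)) (XT.lf (nat_lit 0) (nat_lit 2250147325) (nat_lit 304) (nat_lit 2747363251) (nat_lit 380) (nat_lit 10863152036) (nat_lit 93) (nat_lit 5) (nat_lit 97) (nat_lit 5) (nat_lit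 98) (nat_lit 5) (nat_lit 363) (nat_lit 351) (nat_lit 306))))) (XT.nd (nat_lit 234) (nat_lit 1064) (nat_lit 0) (XT.nd (nat_lit 78) (nat_lit 304) (nat_lit 0) (XT.lf (nat_lit 0) (nat_lit 396349400) (nat_lit 304) (nat_lit 8896795784) (nat_lit 380) (nat_lit 7274974111) (nat_lit 89) (nat_lit 5) (nat_lit 93) (nat_lit 5) (nat_lit 94) (nat_lit 5) (nat_lit 364) (nat_lit 351) (nat_lit 305)) (XT.nd (nat_lit 78) (nat_lit 304) (nat_lit 0) (XT.lf (nat_lit 0) (nat_lit 14190808365) (nat_lit 380) (nat_lit 1447774849) (nat_lit 76) (nat_lit 1680693491) (nat_lit 89) (nat_lit 5) (nat_lit 94) (nat_lit 5) (nat_lit 90) (nat_lit 5) (nat_lit 365) (nat_lit 351) (nat_lit 304)) (XT.lf (nat_lit 0) (nat_lit 1644005015) (nat_lit 304) (nat_lit 3424977582) (nat_lit 76) (nat_lit 13043638397) (nat_lit 85) (nat_lit 5) (nat_lit 89) (nat_lit 5) (nat_lit 86) (nat_lit 5) (nat_lit 366) (nat_lit 351) (nat_lit 303)))) (XT.nd (nat_lit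 156) (nat_lit 532) (nat_lit 0) (XT.nd (nat_lit 78) (nat_lit 228) (nat_lit 0) (XT.lf (nat_lit 0) (nat_lit 6984602428) (nat_lit 380) (nat_lit 5542539939) (nat_lit 76) (nat_lit 6424948364) (nat_lit 81) (nat_lit 5) (nat_lit 86) (nat_lit 5) (nat_lit 82) (nat_lit 5) (nat_lit 367) (nat_lit 351) (nat_lit 302)) (XT.lf (nat_lit 0) (nat_lit 12100234202) (nat_lit 228) (nat_lit 943713661) (nat_lit 304) (nat_lit 6800212619) (nat_lit 78) (nat_lit 5) (nat_lit 81) (nat_lit 5) (nat_lit 82) (nat_lit 5) (nat_lit 368) (nat_lit 351) (nat_lit 301))) (XT.nd (nat_lit 78) (nat_lit 304) (nat_lit 0) (XT.lf (nat_lit 0) (nat_lit 10650975427) (nat_lit 228) (nat_lit 9340676008) (nat_lit 304) (nat_lit 795780012) (nat_lit 75) (nat_lit 5) (nat_lit 78) (nat_lit 5) (nat_lit 79) (nat_lit 5) (nat_lit 369) (nat_lit 351) (nat_lit 300)) (XT.lf (nat_lit 0) (nat_lit 5815016124) (nat_lit 304) (nat_lit 12717963943) (nat_lit 76) (nat_lit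 3253352568) (nat_lit 71) (nat_lit 5) (nat_lit 75) (nat_lit 5) (nat_lit 72) (nat_lit 5) (nat_lit 370) (nat_lit 351) (nat_lit 299))))))))
noncomputable def xc66 : XT := (XT.nd (nat_lit 2028) (nat_lit 1368) (nat_lit 0) (XT.nd (nat_lit 1014) (nat_lit 1368) (nat_lit 0) (XT.nd (nat_lit 468) (nat_lit 1064) (nat_lit 0) (XT.nd (nat_lit 234) (nat_lit 380) (nat_lit 0) (XT.nd (nat_lit 78) (nat_lit 456) (nat_lit 0) (XT.lf (nat_lit 0) (nat_lit 7320326081) (nat_lit 228) (nat_lit 6020119515) (nat_lit 304) (nat_lit 9503378741) (nat_lit 68) (nat_lit 5) (nat_lit 71) (nat_lit 5) (nat_lit 72) (nat_lit 5) (nat_lit 371) (nat_lit 351) (nat_lit 298)) (XT.nd (nat_lit 78) (nat_lit 304) (nat_lit 0) (XT.lf (nat_lit 0) (nat_lit 5439949636) (nat_lit 152) (nat_lit 16418803196) (nat_lit 228) (nat_lit 2107632588) (nat_lit 66) (nat_lit 5) (nat_lit 68) (nat_lit 5) (nat_lit 69) (nat_lit 5) (nat_lit 372) (nat_lit 351) (nat_lit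 297)) (XT.lf (nat_lit 0) (nat_lit 3324932749) (nat_lit 228) (nat_lit 2759953154) (nat_lit 304) (nat_lit 19069621166) (nat_lit 62) (nat_lit 5) (nat_lit 65) (nat_lit 5) (nat_lit 66) (nat_lit 5) (nat_lit 373) (nat_lit 351) (nat_lit 296)))) (XT.nd (nat_lit 78) (nat_lit 228) (nat_lit 0) (XT.lf (nat_lit 0) (nat_lit 913221525) (nat_lit 152) (nat_lit 14442772897) (nat_lit 228) (nat_lit 11055114948) (nat_lit 60) (nat_lit 5) (nat_lit 62) (nat_lit 5) (nat_lit 63) (nat_lit 5) (nat_lit 374) (nat_lit 351) (nat_lit 295)) (XT.nd (nat_lit 78) (nat_lit 228) (nat_lit 0) (XT.lf (nat_lit 0) (nat_lit 25769230584) (nat_lit 228) (nat_lit 1597909427) (nat_lit 76) (nat_lit 381087130) (nat_lit 60) (nat_lit 5) (nat_lit 63) (nat_lit 5) (nat_lit 61) (nat_lit 5) (nat_lit 375) (nat_lit 351) (nat_lit 294)) (XT.lf (nat_lit 0) (nat_lit 8182362402) (nat_lit 228) (nat_lit 4580395460) (nat_lit 76) (nat_lit 16392980369) (nat_lit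 57) (nat_lit 5) (nat_lit 60) (nat_lit 5) (nat_lit 58) (nat_lit 5) (nat_lit 376) (nat_lit 351) (nat_lit 293))))) (XT.nd (nat_lit 234) (nat_lit 532) (nat_lit 0) (XT.nd (nat_lit 78) (nat_lit 380) (nat_lit 0) (XT.lf (nat_lit 0) (nat_lit 19498619102) (nat_lit 228) (nat_lit 7832999237) (nat_lit 76) (nat_lit 3322051108) (nat_lit 55) (nat_lit 5) (nat_lit 58) (nat_lit 5) (nat_lit 56) (nat_lit 5) (nat_lit 377) (nat_lit 351) (nat_lit 292)) (XT.nd (nat_lit 78) (nat_lit 152) (nat_lit 0) (XT.lf (nat_lit 0) (nat_lit 68246221) (nat_lit 228) (nat_lit 11532217199) (nat_lit 76) (nat_lit 20641315659) (nat_lit 52) (nat_lit 5) (nat_lit 55) (nat_lit 5) (nat_lit 53) (nat_lit 5) (nat_lit 378) (nat_lit 351) (nat_lit 291)) (XT.lf (nat_lit 0) (nat_lit 12294164475) (nat_lit 228) (nat_lit 15808348333) (nat_lit 76) (nat_lit 5820508518) (nat_lit 50) (nat_lit 5) (nat_lit 53) (nat_lit 5) (nat_lit 51) (nat_lit 5) (nat_lit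 379) (nat_lit 351) (nat_lit 290)))) (XT.nd (nat_lit 156) (nat_lit 228) (nat_lit 0) (XT.nd (nat_lit 78) (nat_lit 152) (nat_lit 0) (XT.lf (nat_lit 0) (nat_lit 15055837550) (nat_lit 152) (nat_lit 11051628421) (nat_lit 228) (nat_lit 9600837192) (nat_lit 48) (nat_lit 5) (nat_lit 50) (nat_lit 5) (nat_lit 51) (nat_lit 5) (nat_lit 380) (nat_lit 351) (nat_lit 289)) (XT.lf (nat_lit 0) (nat_lit 3840385542) (nat_lit 152) (nat_lit 26132592234) (nat_lit 76) (nat_lit 7632816668) (nat_lit 46) (nat_lit 5) (nat_lit 48) (nat_lit 5) (nat_lit 47) (nat_lit 5) (nat_lit 381) (nat_lit 351) (nat_lit 288))) (XT.nd (nat_lit 78) (nat_lit 76) (nat_lit 0) (XT.lf (nat_lit 0) (nat_lit 7100908943) (nat_lit 152) (nat_lit 11563222744) (nat_lit 228) (nat_lit 20950908849) (nat_lit 44) (nat_lit 5) (nat_lit 46) (nat_lit 5) (nat_lit 47) (nat_lit 5) (nat_lit 382) (nat_lit 351) (nat_lit 287)) (XT.lf (nat_lit 0) (nat_lit 2051717855)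 (nat_lit 76) (nat_lit 33223758406) (nat_lit 152) (nat_lit 6479469424) (nat_lit 43) (nat_lit 5) (nat_lit 44) (nat_lit 5) (nat_lit 45) (nat_lit 4) (nat_lit 383) (nat_lit 351) (nat_lit 286)))))) (XT.nd (nat_lit 468) (nat_lit 532) (nat_lit 0) (XT.nd (nat_lit 234) (nat_lit 532) (nat_lit 0) (XT.nd (nat_lit 78) (nat_lit 228) (nat_lit 0) (XT.lf (nat_lit 0) (nat_lit 9605305915) (nat_lit 152) (nat_lit 3880516753) (nat_lit 76) (nat_lit 30535658379) (nat_lit 42) (nat_lit 5) (nat_lit 44) (nat_lit 5) (nat_lit 43) (nat_lit 5) (nat_lit 384) (nat_lit 351) (nat_lit 285)) (XT.nd (nat_lit 78) (nat_lit 76) (nat_lit 0) (XT.lf (nat_lit 0) (nat_lit 27424398762) (nat_lit 228) (nat_lit 10761732806) (nat_lit 76) (nat_lit 8244172921) (nat_lit 40) (nat_lit 5) (nat_lit 43) (nat_lit 5) (nat_lit 41) (nat_lit 4) (nat_lit 385) (nat_lit 351) (nat_lit 284)) (XT.lf (nat_lit 0) (nat_lit 30193794837) (nat_lit 76) (nat_lit 17222937812)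 (nat_lit 152) (nat_lit 1577718736) (nat_lit 39) (nat_lit 5) (nat_lit 40) (nat_lit 5) (nat_lit 41) (nat_lit 4) (nat_lit 386) (nat_lit 351) (nat_lit 283)))) (XT.nd (nat_lit 78) (nat_lit 304) (nat_lit 0) (XT.lf (nat_lit 0) (nat_lit 17328941643) (nat_lit 228) (nat_lit 28320558951) (nat_lit 76) (nat_lit 6068962526) (nat_lit 36) (nat_lit 5) (nat_lit 39) (nat_lit 5) (nat_lit 37) (nat_lit 4) (nat_lit 387) (nat_lit 351) (nat_lit 282)) (XT.nd (nat_lit 78) (nat_lit 228) (nat_lit 0) (XT.lf (nat_lit 0) (nat_lit 15127441408) (nat_lit 76) (nat_lit 23407100569) (nat_lit 152) (nat_lit 16082479128) (nat_lit 35) (nat_lit 5) (nat_lit 36) (nat_lit 5) (nat_lit 37) (nat_lit 4) (nat_lit 388) (nat_lit 351) (nat_lit 281)) (XT.lf (nat_lit 0) (nat_lit 4158964459) (nat_lit 228) (nat_lit 52321847324) (nat_lit 76) (nat_lit 1234378767) (nat_lit 32) (nat_lit 5) (nat_lit 35) (nat_lit 5) (nat_lit 33) (nat_lit 4) (nat_lit 389)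 (nat_lit 351) (nat_lit 280))))) (XT.nd (nat_lit 234) (nat_lit 304) (nat_lit 0) (XT.nd (nat_lit 78) (nat_lit 228) (nat_lit 0) (XT.lf (nat_lit 0) (nat_lit 26540315329) (nat_lit 228) (nat_lit 6459250038) (nat_lit 76) (nat_lit 27994265820) (nat_lit 32) (nat_lit 5) (nat_lit 35) (nat_lit 5) (nat_lit 33) (nat_lit 4) (nat_lit 390) (nat_lit 351) (nat_lit 279)) (XT.nd (nat_lit 78) (nat_lit 152) (nat_lit 0) (XT.lf (nat_lit 0) (nat_lit 44465579835) (nat_lit 76) (nat_lit 6924775358) (nat_lit 152) (nat_lit 13110500847) (nat_lit 31) (nat_lit 5) (nat_lit 32) (nat_lit 5) (nat_lit 33) (nat_lit 4) (nat_lit 391) (nat_lit 351) (nat_lit 278)) (XT.lf (nat_lit 0) (nat_lit 10568274867) (nat_lit 152) (nat_lit 36336070052) (nat_lit 76) (nat_lit 21329017199) (nat_lit 29) (nat_lit 5) (nat_lit 31) (nat_lit 5) (nat_lit 30) (nat_lit 4) (nat_lit 392) (nat_lit 351) (nat_lit 277)))) (XT.nd (nat_lit 156) (nat_lit 228) (nat_lit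 0) (XT.nd (nat_lit 78) (nat_lit 0) (nat_lit 0) (XT.lf (nat_lit 0) (nat_lit 16612616518) (nat_lit 76) (nat_lit 19791356490) (nat_lit 152) (nat_lit 35813653584) (nat_lit 28) (nat_lit 5) (nat_lit 29) (nat_lit 5) (nat_lit 30) (nat_lit 4) (nat_lit 393) (nat_lit 351) (nat_lit 276)) (XT.lf (nat_lit 0) (nat_lit 65083470541) (nat_lit 152) (nat_lit 1580511285) (nat_lit 0) (nat_lit 9817804740) (nat_lit 28) (nat_lit 5) (nat_lit 30) (nat_lit 4) (nat_lit 28) (nat_lit 4) (nat_lit 394) (nat_lit 351) (nat_lit 275))) (XT.nd (nat_lit 78) (nat_lit 76) (nat_lit 0) (XT.lf (nat_lit 0) (nat_lit 15741290575) (nat_lit 152) (nat_lit 23007855168) (nat_lit 76) (nat_lit 42263739386) (nat_lit 26) (nat_lit 5) (nat_lit 28) (nat_lit 5) (nat_lit 27) (nat_lit 4) (nat_lit 395) (nat_lit 351) (nat_lit 274)) (XT.lf (nat_lit 0) (nat_lit 37491073341) (nat_lit 76) (nat_lit 7767235226) (nat_lit 152) (nat_lit 40608542152) (nat_lit 25)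 (nat_lit 5) (nat_lit 26) (nat_lit 5) (nat_lit 27) (nat_lit 4) (nat_lit 396) (nat_lit 351) (nat_lit 273))))))) (XT.nd (nat_lit 1014) (nat_lit 456) (nat_lit 0) (XT.nd (nat_lit 468) (nat_lit 456) (nat_lit 0) (XT.nd (nat_lit 234) (nat_lit 228) (nat_lit 0) (XT.nd (nat_lit 78) (nat_lit 152) (nat_lit 0) (XT.lf (nat_lit 0) (nat_lit 12531448320) (nat_lit 76) (nat_lit 65596725509) (nat_lit 76) (nat_lit 12931386587) (nat_lit 24) (nat_lit 4) (nat_lit 25) (nat_lit 5) (nat_lit 25) (nat_lit 4) (nat_lit 397) (nat_lit 351) (nat_lit 272)) (XT.nd (nat_lit 78) (nat_lit 76) (nat_lit 0) (XT.lf (nat_lit 0) (nat_lit 17392290688) (nat_lit 152) (nat_lit 17020090668) (nat_lit 76) (nat_lit 62193308269) (nat_lit 23) (nat_lit 5) (nat_lit 25) (nat_lit 5) (nat_lit 24) (nat_lit 4) (nat_lit 398) (nat_lit 351) (nat_lit 271)) (XT.lf (nat_lit 0) (nat_lit 50481493851) (nat_lit 152) (nat_lit 51756166258) (nat_lit 0) (nat_lit 307616280)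 (nat_lit 22) (nat_lit 5) (nat_lit 24) (nat_lit 4) (nat_lit 22) (nat_lit 4) (nat_lit 399) (nat_lit 351) (nat_lit 270)))) (XT.nd (nat_lit 78) (nat_lit 152) (nat_lit 0) (XT.lf (nat_lit 0) (nat_lit 15577717518) (nat_lit 76) (nat_lit 71753903747) (nat_lit 76) (nat_lit 21572720296) (nat_lit 21) (nat_lit 4) (nat_lit 22) (nat_lit 5) (nat_lit 22) (nat_lit 4) (nat_lit 400) (nat_lit 351) (nat_lit 269)) (XT.nd (nat_lit 78) (nat_lit 76) (nat_lit 0) (XT.lf (nat_lit 0) (nat_lit 11899755604) (nat_lit 152) (nat_lit 25793449166) (nat_lit 76) (nat_lit 78024779543) (nat_lit 20) (nat_lit 5) (nat_lit 22) (nat_lit 5) (nat_lit 21) (nat_lit 4) (nat_lit 401) (nat_lit 351) (nat_lit 268)) (XT.lf (nat_lit 0) (nat_lit 48052621232) (nat_lit 152) (nat_lit 74719885648) (nat_lit 0) (nat_lit 248610022) (nat_lit 19) (nat_lit 5) (nat_lit 21) (nat_lit 4) (nat_lit 19) (nat_lit 4) (nat_lit 402) (nat_lit 351) (nat_lit 267))))) (XT.nd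 (nat_lit 234) (nat_lit 228) (nat_lit 0) (XT.nd (nat_lit 78) (nat_lit 228) (nat_lit 0) (XT.lf (nat_lit 0) (nat_lit 88180366478) (nat_lit 152) (nat_lit 2303169960) (nat_lit 0) (nat_lit 40370831798) (nat_lit 19) (nat_lit 5) (nat_lit 21) (nat_lit 4) (nat_lit 19) (nat_lit 4) (nat_lit 403) (nat_lit 351) (nat_lit 266)) (XT.nd (nat_lit 78) (nat_lit 152) (nat_lit 0) (XT.lf (nat_lit 0) (nat_lit 78398767372) (nat_lit 76) (nat_lit 54334702496) (nat_lit 76) (nat_lit 6520053492) (nat_lit 18) (nat_lit 4) (nat_lit 19) (nat_lit 5) (nat_lit 19) (nat_lit 4) (nat_lit 404) (nat_lit 351) (nat_lit 265)) (XT.lf (nat_lit 0) (nat_lit 17346310652) (nat_lit 76) (nat_lit 14441833319) (nat_lit 152) (nat_lit 116495927434) (nat_lit 16) (nat_lit 5) (nat_lit 17) (nat_lit 5) (nat_lit 18) (nat_lit 4) (nat_lit 405) (nat_lit 351) (nat_lit 264)))) (XT.nd (nat_lit 156) (nat_lit 152) (nat_lit 0) (XT.nd (nat_lit 78) (nat_lit 76)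 (nat_lit 0) (XT.lf (nat_lit 0) (nat_lit 74451874063) (nat_lit 152) (nat_lit 54598452827) (nat_lit 0) (nat_lit 28905427206) (nat_lit 16) (nat_lit 5) (nat_lit 18) (nat_lit 4) (nat_lit 16) (nat_lit 4) (nat_lit 406) (nat_lit 351) (nat_lit 263)) (XT.lf (nat_lit 0) (nat_lit 28501476557) (nat_lit 76) (nat_lit 92707985390) (nat_lit 76) (nat_lit 47157671947) (nat_lit 15) (nat_lit 4) (nat_lit 16) (nat_lit 5) (nat_lit 16) (nat_lit 4) (nat_lit 407) (nat_lit 351) (nat_lit 262))) (XT.nd (nat_lit 78) (nat_lit 152) (nat_lit 0) (XT.lf (nat_lit 0) (nat_lit 120184522698) (nat_lit 76) (nat_lit 52466805915) (nat_lit 76) (nat_lit 6912912301) (nat_lit 15) (nat_lit 4) (nat_lit 16) (nat_lit 5) (nat_lit 16) (nat_lit 4) (nat_lit 408) (nat_lit 351) (nat_lit 261)) (XT.lf (nat_lit 0) (nat_lit 27852146415) (nat_lit 76) (nat_lit 7957295050) (nat_lit 152) (nat_lit 155797747530) (nat_lit 13) (nat_lit 5) (nat_lit 14) (nat_lit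 5) (nat_lit 15) (nat_lit 4) (nat_lit 409) (nat_lit 351) (nat_lit 260)))))) (XT.nd (nat_lit 468) (nat_lit 228) (nat_lit 0) (XT.nd (nat_lit 234) (nat_lit 152) (nat_lit 0) (XT.nd (nat_lit 78) (nat_lit 76) (nat_lit 0) (XT.lf (nat_lit 0) (nat_lit 83381462697) (nat_lit 152) (nat_lit 81152018819) (nat_lit 0) (nat_lit 39990721735) (nat_lit 13) (nat_lit 5) (nat_lit 15) (nat_lit 4) (nat_lit 13) (nat_lit 4) (nat_lit 410) (nat_lit 351) (nat_lit 259)) (XT.nd (nat_lit 78) (nat_lit 0) (nat_lit 0) (XT.lf (nat_lit 0) (nat_lit 8174333953) (nat_lit 76) (nat_lit 126840457698) (nat_lit 76) (nat_lit 83447010016) (nat_lit 12) (nat_lit 4) (nat_lit 13) (nat_lit 5) (nat_lit 13) (nat_lit 4) (nat_lit 411) (nat_lit 351) (nat_lit 258)) (XT.lf (nat_lit 0) (nat_lit 107532876769) (nat_lit 76) (nat_lit 84653551658) (nat_lit 76) (nat_lit 41257597754) (nat_lit 12) (nat_lit 4) (nat_lit 13) (nat_lit 5) (nat_lit 13) (nat_lit 4)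 (nat_lit 412) (nat_lit 351) (nat_lit 257)))) (XT.nd (nat_lit 78) (nat_lit 76) (nat_lit 0) (XT.lf (nat_lit 0) (nat_lit 4163494913) (nat_lit 152) (nat_lit 34863109907) (nat_lit 76) (nat_lit 210595143042) (nat_lit 11) (nat_lit 5) (nat_lit 13) (nat_lit 5) (nat_lit 12) (nat_lit 4) (nat_lit 413) (nat_lit 351) (nat_lit 256)) (XT.nd (nat_lit 78) (nat_lit 0) (nat_lit 0) (XT.lf (nat_lit 0) (nat_lit 52987189739) (nat_lit 152) (nat_lit 202358507688) (nat_lit 0) (nat_lit 11653453393) (nat_lit 10) (nat_lit 5) (nat_lit 12) (nat_lit 4) (nat_lit 10) (nat_lit 4) (nat_lit 414) (nat_lit 351) (nat_lit 255)) (XT.lf (nat_lit 0) (nat_lit 106987037493) (nat_lit 152) (nat_lit 113064789513) (nat_lit 0) (nat_lit 65651406366) (nat_lit 10) (nat_lit 5) (nat_lit 12) (nat_lit 4) (nat_lit 10) (nat_lit 4) (nat_lit 415) (nat_lit 351) (nat_lit 254))))) (XT.nd (nat_lit 234) (nat_lit 152) (nat_lit 0) (XT.nd (nat_lit 78) (nat_lit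 76) (nat_lit 0) (XT.lf (nat_lit 0) (nat_lit 165302196209) (nat_lit 152) (nat_lit 16636869716) (nat_lit 0) (nat_lit 123964810655) (nat_lit 10) (nat_lit 5) (nat_lit 12) (nat_lit 4) (nat_lit 10) (nat_lit 4) (nat_lit 416) (nat_lit 351) (nat_lit 253)) (XT.nd (nat_lit 78) (nat_lit 0) (nat_lit 0) (XT.lf (nat_lit 0) (nat_lit 90389711680) (nat_lit 76) (nat_lit 139299762233) (nat_lit 76) (nat_lit 97960752210) (nat_lit 9) (nat_lit 4) (nat_lit 10) (nat_lit 5) (nat_lit 10) (nat_lit 4) (nat_lit 417) (nat_lit 351) (nat_lit 252)) (XT.lf (nat_lit 0) (nat_lit 206564283648) (nat_lit 76) (nat_lit 92949115527) (nat_lit 76) (nat_lit 51608601366) (nat_lit 9) (nat_lit 4) (nat_lit 10) (nat_lit 5) (nat_lit 10) (nat_lit 4) (nat_lit 418) (nat_lit 351) (nat_lit 251)))) (XT.nd (nat_lit 156) (nat_lit 0) (nat_lit 0) (XT.nd (nat_lit 78) (nat_lit 152) (nat_lit 0) (XT.lf (nat_lit 0) (nat_lit 332025198048) (nat_lit 76) (nat_lit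 42894208748) (nat_lit 76) (nat_lit 1552301866) (nat_lit 9) (nat_lit 4) (nat_lit 10) (nat_lit 5) (nat_lit 10) (nat_lit 4) (nat_lit 419) (nat_lit 351) (nat_lit 250)) (XT.lf (nat_lit 0) (nat_lit 52042269769) (nat_lit 152) (nat_lit 339037618187) (nat_lit 0) (nat_lit 12667796971) (nat_lit 7) (nat_lit 5) (nat_lit 9) (nat_lit 4) (nat_lit 7) (nat_lit 4) (nat_lit 420) (nat_lit 351) (nat_lit 249))) (XT.nd (nat_lit 78) (nat_lit 0) (nat_lit 0) (XT.lf (nat_lit 0) (nat_lit 111377446039) (nat_lit 152) (nat_lit 249749813745) (nat_lit 0) (nat_lit 72001836066) (nat_lit 7) (nat_lit 5) (nat_lit 9) (nat_lit 4) (nat_lit 7) (nat_lit 4) (nat_lit 421) (nat_lit 351) (nat_lit 248)) (XT.lf (nat_lit 0) (nat_lit 175456196026) (nat_lit 152) (nat_lit 153325452653) (nat_lit 0) (nat_lit 136079533114) (nat_lit 7) (nat_lit 5) (nat_lit 9) (nat_lit 4) (nat_lit 7) (nat_lit 4) (nat_lit 422) (nat_lit 351) (nat_lit 247))))))))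
noncomputable def xc67 : XT := (XT.nd (nat_lit 48516) (nat_lit 0) (nat_lit 2128) (XT.nd (nat_lit 1014) (nat_lit 0) (nat_lit 0) (XT.nd (nat_lit 468) (nat_lit 152) (nat_lit 0) (XT.nd (nat_lit 234) (nat_lit 0) (nat_lit 0) (XT.nd (nat_lit 78) (nat_lit 76) (nat_lit 0) (XT.lf (nat_lit 0) (nat_lit 244658245656) (nat_lit 152) (nat_lit 49193131289) (nat_lit 0) (nat_lit 205280607799) (nat_lit 7) (nat_lit 5) (nat_lit 9) (nat_lit 4) (nat_lit 7) (nat_lit 4) (nat_lit 423) (nat_lit 351) (nat_lit 246)) (XT.nd (nat_lit 78) (nat_lit 0) (nat_lit 0) (XT.lf (nat_lit 0) (nat_lit 65356031947) (nat_lit 76) (nat_lit 255058040020) (nat_lit 76) (nat_lit 215679499437) (nat_lit 6) (nat_lit 4) (nat_lit 7) (nat_lit 5) (nat_lit 7) (nat_lit 4) (nat_lit 424) (nat_lit 351) (nat_lit 245)) (XT.lf (nat_lit 0) (nat_lit 190820495057) (nat_lit 76) (nat_lit 212264126802) (nat_lit 76) (nat_lit 172884750362) (nat_lit 6) (nat_lit 4)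 (nat_lit 7) (nat_lit 5) (nat_lit 7) (nat_lit 4) (nat_lit 425) (nat_lit 351) (nat_lit 244)))) (XT.nd (nat_lit 78) (nat_lit 0) (nat_lit 0) (XT.lf (nat_lit 0) (nat_lit 326317204072) (nat_lit 76) (nat_lit 166049153215) (nat_lit 76) (nat_lit 126669002832) (nat_lit 6) (nat_lit 4) (nat_lit 7) (nat_lit 5) (nat_lit 7) (nat_lit 4) (nat_lit 426) (nat_lit 351) (nat_lit 243)) (XT.nd (nat_lit 78) (nat_lit 0) (nat_lit 0) (XT.lf (nat_lit 0) (nat_lit 472649102454) (nat_lit 76) (nat_lit 116139252747) (nat_lit 76) (nat_lit 76758385751) (nat_lit 6) (nat_lit 4) (nat_lit 7) (nat_lit 5) (nat_lit 7) (nat_lit 4) (nat_lit 427) (nat_lit 351) (nat_lit 242)) (XT.lf (nat_lit 0) (nat_lit 630683342191) (nat_lit 76) (nat_lit 62238663025) (nat_lit 76) (nat_lit 22857132499) (nat_lit 6) (nat_lit 4) (nat_lit 7) (nat_lit 5) (nat_lit 7) (nat_lit 4) (nat_lit 428) (nat_lit 351) (nat_lit 241))))) (XT.nd (nat_lit 234) (nat_lit 0)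 (nat_lit 0) (XT.nd (nat_lit 78) (nat_lit 0) (nat_lit 0) (XT.lf (nat_lit 0) (nat_lit 31791755630) (nat_lit 76) (nat_lit 2927220240) (nat_lit 152) (nat_lit 735258831199) (nat_lit 4) (nat_lit 5) (nat_lit 5) (nat_lit 5) (nat_lit 6) (nat_lit 4) (nat_lit 429) (nat_lit 351) (nat_lit 240)) (XT.nd (nat_lit 78) (nat_lit 0) (nat_lit 0) (XT.lf (nat_lit 0) (nat_lit 98570161956) (nat_lit 152) (nat_lit 668737167643) (nat_lit 0) (nat_lit 61062815502) (nat_lit 4) (nat_lit 5) (nat_lit 6) (nat_lit 4) (nat_lit 4) (nat_lit 4) (nat_lit 430) (nat_lit 351) (nat_lit 239)) (XT.lf (nat_lit 0) (nat_lit 167577018305) (nat_lit 152) (nat_lit 593785302957) (nat_lit 0) (nat_lit 130069170202) (nat_lit 4) (nat_lit 5) (nat_lit 6) (nat_lit 4) (nat_lit 4) (nat_lit 4) (nat_lit 431) (nat_lit 351) (nat_lit 238)))) (XT.nd (nat_lit 156) (nat_lit 0) (nat_lit 0) (XT.nd (nat_lit 78) (nat_lit 0) (nat_lit 0) (XT.lf (nat_lit 0) (nat_lit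 242102772327) (nat_lit 152) (nat_lit 512840596073) (nat_lit 0) (nat_lit 204594459734) (nat_lit 4) (nat_lit 5) (nat_lit 6) (nat_lit 4) (nat_lit 4) (nat_lit 4) (nat_lit 432) (nat_lit 351) (nat_lit 237)) (XT.lf (nat_lit 0) (nat_lit 322589058120) (nat_lit 152) (nat_lit 425423374655) (nat_lit 0) (nat_lit 285080315443) (nat_lit 4) (nat_lit 5) (nat_lit 6) (nat_lit 4) (nat_lit 4) (nat_lit 4) (nat_lit 433) (nat_lit 351) (nat_lit 236))) (XT.nd (nat_lit 78) (nat_lit 0) (nat_lit 0) (XT.lf (nat_lit 0) (nat_lit 409512831450) (nat_lit 152) (nat_lit 331015610722) (nat_lit 0) (nat_lit 372003690547) (nat_lit 4) (nat_lit 5) (nat_lit 6) (nat_lit 4) (nat_lit 4) (nat_lit 4) (nat_lit 434) (nat_lit 351) (nat_lit 235)) (XT.lf (nat_lit 0) (nat_lit 503389196160) (nat_lit 152) (nat_lit 229057850860) (nat_lit 0) (nat_lit 465879686530) (nat_lit 4) (nat_lit 5) (nat_lit 6) (nat_lit 4) (nat_lit 4) (nat_lit 4) (nat_lit 435)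 (nat_lit 351) (nat_lit 234)))))) (XT.nd (nat_lit 46956) (nat_lit 0) (nat_lit 7068) (XT.nd (nat_lit 46722) (nat_lit 0) (nat_lit 9576) (XT.nd (nat_lit 46566) (nat_lit 0) (nat_lit 9500) (XT.lf (nat_lit 0) (nat_lit 604774456634) (nat_lit 152) (nat_lit 118945900936) (nat_lit 0) (nat_lit 567264605590) (nat_lit 4) (nat_lit 5) (nat_lit 6) (nat_lit 4) (nat_lit 4) (nat_lit 4) (nat_lit 436) (nat_lit 351) (nat_lit 233)) (XT.nd (nat_lit 78) (nat_lit 0) (nat_lit 0) (XT.lf (nat_lit 0) (nat_lit 1241690518) (nat_lit 0) (nat_lit 1241690518) (nat_lit 684) (nat_lit 2846670880) (nat_lit 129) (nat_lit 5) (nat_lit 129) (nat_lit 3) (nat_lit 138) (nat_lit 3) (nat_lit 352) (nat_lit 352) (nat_lit 316)) (XT.lf (nat_lit 76) (nat_lit 44568359) (nat_lit 0) (nat_lit 6140664906) (nat_lit 760) (nat_lit 4849735587) (nat_lit 130) (nat_lit 5) (nat_lit 129) (nat_lit 5) (nat_lit 139) (nat_lit 5) (nat_lit 353) (nat_lit 352) (nat_lit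 315)))) (XT.nd (nat_lit 78) (nat_lit 0) (nat_lit 0) (XT.lf (nat_lit 0) (nat_lit 7614485561) (nat_lit 684) (nat_lit 2341220456) (nat_lit 760) (nat_lit 1478506819) (nat_lit 130) (nat_lit 5) (nat_lit 139) (nat_lit 5) (nat_lit 140) (nat_lit 5) (nat_lit 354) (nat_lit 352) (nat_lit 314)) (XT.nd (nat_lit 78) (nat_lit 0) (nat_lit 76) (XT.lf (nat_lit 76) (nat_lit 7067320526) (nat_lit 0) (nat_lit 2218018365) (nat_lit 760) (nat_lit 2573745275) (nat_lit 131) (nat_lit 5) (nat_lit 130) (nat_lit 5) (nat_lit 140) (nat_lit 5) (nat_lit 355) (nat_lit 352) (nat_lit 313)) (XT.lf (nat_lit 76) (nat_lit 5002474948) (nat_lit 0) (nat_lit 6222190717) (nat_lit 760) (nat_lit 1086586376) (nat_lit 132) (nat_lit 5) (nat_lit 131) (nat_lit 5) (nat_lit 141) (nat_lit 5) (nat_lit 356) (nat_lit 352) (nat_lit 312))))) (XT.nd (nat_lit 234) (nat_lit 1900) (nat_lit 0) (XT.nd (nat_lit 78) (nat_lit 0) (nat_lit 0) (XT.lf (nat_lit 0)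 (nat_lit 631104241) (nat_lit 760) (nat_lit 9885470887) (nat_lit 836) (nat_lit 2276244788) (nat_lit 122) (nat_lit 5) (nat_lit 132) (nat_lit 5) (nat_lit 133) (nat_lit 5) (nat_lit 357) (nat_lit 352) (nat_lit 311)) (XT.nd (nat_lit 78) (nat_lit 0) (nat_lit 76) (XT.lf (nat_lit 76) (nat_lit 734537976) (nat_lit 0) (nat_lit 1888234769) (nat_lit 836) (nat_lit 10680556724) (nat_lit 123) (nat_lit 5) (nat_lit 122) (nat_lit 5) (nat_lit 133) (nat_lit 5) (nat_lit 358) (nat_lit 352) (nat_lit 310)) (XT.lf (nat_lit 0) (nat_lit 4997740755) (nat_lit 760) (nat_lit 1467614620) (nat_lit 76) (nat_lit 7378161716) (nat_lit 123) (nat_lit 5) (nat_lit 133) (nat_lit 5) (nat_lit 124) (nat_lit 5) (nat_lit 359) (nat_lit 352) (nat_lit 309)))) (XT.nd (nat_lit 156) (nat_lit 836) (nat_lit 0) (XT.nd (nat_lit 78) (nat_lit 380) (nat_lit 0) (XT.lf (nat_lit 0) (nat_lit 7748811492) (nat_lit 836) (nat_lit 3688724662) (nat_lit 76) (nat_lit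 2980111277) (nat_lit 113) (nat_lit 5) (nat_lit 124) (nat_lit 5) (nat_lit 114) (nat_lit 5) (nat_lit 360) (nat_lit 352) (nat_lit 308)) (XT.lf (nat_lit 0) (nat_lit 9041040934) (nat_lit 380) (nat_lit 1896842664) (nat_lit 456) (nat_lit 4088959342) (nat_lit 108) (nat_lit 5) (nat_lit 113) (nat_lit 5) (nat_lit 114) (nat_lit 5) (nat_lit 361) (nat_lit 352) (nat_lit 307))) (XT.nd (nat_lit 78) (nat_lit 456) (nat_lit 0) (XT.lf (nat_lit 0) (nat_lit 7283761929) (nat_lit 380) (nat_lit 7353859588) (nat_lit 456) (nat_lit 1034403838) (nat_lit 103) (nat_lit 5) (nat_lit 108) (nat_lit 5) (nat_lit 109) (nat_lit 5) (nat_lit 362) (nat_lit 352) (nat_lit 306)) (XT.lf (nat_lit 0) (nat_lit 2412958246) (nat_lit 456) (nat_lit 10890874417) (nat_lit 76) (nat_lit 3052200816) (nat_lit 97) (nat_lit 5) (nat_lit 103) (nat_lit 5) (nat_lit 98) (nat_lit 5) (nat_lit 363) (nat_lit 352) (nat_lit 305))))))) (XT.nd (nat_lit 1014) (nat_lit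 2128) (nat_lit 0) (XT.nd (nat_lit 468) (nat_lit 1368) (nat_lit 0) (XT.nd (nat_lit 234) (nat_lit 836) (nat_lit 0) (XT.nd (nat_lit 78) (nat_lit 304) (nat_lit 0) (XT.lf (nat_lit 0) (nat_lit 3553109481) (nat_lit 304) (nat_lit 2825815186) (nat_lit 380) (nat_lit 10701060002) (nat_lit 93) (nat_lit 5) (nat_lit 97) (nat_lit 5) (nat_lit 98) (nat_lit 5) (nat_lit 364) (nat_lit 352) (nat_lit 304)) (XT.nd (nat_lit 78) (nat_lit 0) (nat_lit 0) (XT.lf (nat_lit 0) (nat_lit 1547473296) (nat_lit 304) (nat_lit 9417545088) (nat_lit 380) (nat_lit 6881712441) (nat_lit 89) (nat_lit 5) (nat_lit 93) (nat_lit 5) (nat_lit 94) (nat_lit 5) (nat_lit 365) (nat_lit 352) (nat_lit 303)) (XT.lf (nat_lit 0) (nat_lit 16188483721) (nat_lit 380) (nat_lit 486493131) (nat_lit 76) (nat_lit 1986335403) (nat_lit 89) (nat_lit 5) (nat_lit 94) (nat_lit 5) (nat_lit 90) (nat_lit 5) (nat_lit 366) (nat_lit 352) (nat_lit 302)))) (XT.nd (nat_lit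 78) (nat_lit 532) (nat_lit 0) (XT.lf (nat_lit 0) (nat_lit 2603839954) (nat_lit 304) (nat_lit 2640953444) (nat_lit 76) (nat_lit 14275081115) (nat_lit 85) (nat_lit 5) (nat_lit 89) (nat_lit 5) (nat_lit 86) (nat_lit 5) (nat_lit 367) (nat_lit 352) (nat_lit 301)) (XT.nd (nat_lit 78) (nat_lit 228) (nat_lit 0) (XT.lf (nat_lit 0) (nat_lit 8329709093) (nat_lit 380) (nat_lit 4938027754) (nat_lit 76) (nat_lit 7160889002) (nat_lit 81) (nat_lit 5) (nat_lit 86) (nat_lit 5) (nat_lit 82) (nat_lit 5) (nat_lit 368) (nat_lit 352) (nat_lit 300)) (XT.lf (nat_lit 0) (nat_lit 14070627193) (nat_lit 228) (nat_lit 760577547) (nat_lit 304) (nat_lit 6563009661) (nat_lit 78) (nat_lit 5) (nat_lit 81) (nat_lit 5) (nat_lit 82) (nat_lit 5) (nat_lit 369) (nat_lit 352) (nat_lit 299))))) (XT.nd (nat_lit 234) (nat_lit 608) (nat_lit 0) (XT.nd (nat_lit 78) (nat_lit 532) (nat_lit 0) (XT.lf (nat_lit 0) (nat_lit 12493853380) (nat_lit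 228) (nat_lit 9804987331) (nat_lit 304) (nat_lit 115922147) (nat_lit 75) (nat_lit 5) (nat_lit 78) (nat_lit 5) (nat_lit 79) (nat_lit 5) (nat_lit 370) (nat_lit 352) (nat_lit 298)) (XT.nd (nat_lit 78) (nat_lit 228) (nat_lit 0) (XT.lf (nat_lit 0) (nat_lit 6966298679) (nat_lit 304) (nat_lit 12734849157) (nat_lit 76) (nat_lit 3793549033) (nat_lit 71) (nat_lit 5) (nat_lit 75) (nat_lit 5) (nat_lit 72) (nat_lit 5) (nat_lit 371) (nat_lit 352) (nat_lit 297)) (XT.lf (nat_lit 0) (nat_lit 8863021303) (nat_lit 228) (nat_lit 6194862903) (nat_lit 304) (nat_lit 9580715270) (nat_lit 68) (nat_lit 5) (nat_lit 71) (nat_lit 5) (nat_lit 72) (nat_lit 5) (nat_lit 372) (nat_lit 352) (nat_lit 296)))) (XT.nd (nat_lit 156) (nat_lit 152) (nat_lit 0) (XT.nd (nat_lit 78) (nat_lit 304) (nat_lit 0) (XT.lf (nat_lit 0) (nat_lit 6817347223) (nat_lit 152) (nat_lit 17411292172) (nat_lit 228) (nat_lit 1623793227) (nat_lit 66) (nat_lit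 5) (nat_lit 68) (nat_lit 5) (nat_lit 69) (nat_lit 5) (nat_lit 373) (nat_lit 352) (nat_lit 295)) (XT.lf (nat_lit 0) (nat_lit 4512343127) (nat_lit 228) (nat_lit 2658504248) (nat_lit 304) (nat_lit 19965881557) (nat_lit 62) (nat_lit 5) (nat_lit 65) (nat_lit 5) (nat_lit 66) (nat_lit 5) (nat_lit 374) (nat_lit 352) (nat_lit 294))) (XT.nd (nat_lit 78) (nat_lit 0) (nat_lit 0) (XT.lf (nat_lit 0) (nat_lit 1891667807) (nat_lit 152) (nat_lit 15266387885) (nat_lit 228) (nat_lit 11337096515) (nat_lit 60) (nat_lit 5) (nat_lit 62) (nat_lit 5) (nat_lit 63) (nat_lit 5) (nat_lit 375) (nat_lit 352) (nat_lit 293)) (XT.lf (nat_lit 0) (nat_lit 28366659913) (nat_lit 228) (nat_lit 865506961) (nat_lit 76) (nat_lit 708969426) (nat_lit 60) (nat_lit 5) (nat_lit 63) (nat_lit 5) (nat_lit 61) (nat_lit 5) (nat_lit 376) (nat_lit 352) (nat_lit 292)))))) (XT.nd (nat_lit 546) (nat_lit 912) (nat_lit 0) (XT.nd (nat_lit 234) (nat_lit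 608) (nat_lit 0) (XT.nd (nat_lit 78) (nat_lit 380) (nat_lit 0) (XT.lf (nat_lit 0) (nat_lit 9354477060) (nat_lit 228) (nat_lit 4106728699) (nat_lit 76) (nat_lit 18000979031) (nat_lit 57) (nat_lit 5) (nat_lit 60) (nat_lit 5) (nat_lit 58) (nat_lit 5) (nat_lit 377) (nat_lit 352) (nat_lit 291)) (XT.nd (nat_lit 78) (nat_lit 228) (nat_lit 0) (XT.lf (nat_lit 0) (nat_lit 21555114219) (nat_lit 228) (nat_lit 7636206354) (nat_lit 76) (nat_lit 3889686024) (nat_lit 55) (nat_lit 5) (nat_lit 58) (nat_lit 5) (nat_lit 56) (nat_lit 5) (nat_lit 378) (nat_lit 352) (nat_lit 290)) (XT.lf (nat_lit 0) (nat_lit 553675966) (nat_lit 228) (nat_lit 11651165941) (nat_lit 76) (nat_lit 22592169774) (nat_lit 52) (nat_lit 5) (nat_lit 55) (nat_lit 5) (nat_lit 53) (nat_lit 5) (nat_lit 379) (nat_lit 352) (nat_lit 289)))) (XT.nd (nat_lit 156) (nat_lit 304) (nat_lit 0) (XT.nd (nat_lit 78) (nat_lit 152) (nat_lit 0) (XT.lf (nat_lit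 0) (nat_lit 13738991618) (nat_lit 228) (nat_lit 16286264040) (nat_lit 76) (nat_lit 6588439691) (nat_lit 50) (nat_lit 5) (nat_lit 53) (nat_lit 5) (nat_lit 51) (nat_lit 5) (nat_lit 380) (nat_lit 352) (nat_lit 288)) (XT.lf (nat_lit 0) (nat_lit 17012865423) (nat_lit 152) (nat_lit 11622071471) (nat_lit 228) (nat_lit 9907991486) (nat_lit 48) (nat_lit 5) (nat_lit 50) (nat_lit 5) (nat_lit 51) (nat_lit 5) (nat_lit 381) (nat_lit 352) (nat_lit 287))) (XT.nd (nat_lit 78) (nat_lit 152) (nat_lit 0) (XT.lf (nat_lit 0) (nat_lit 4577020546) (nat_lit 152) (nat_lit 27472665443) (nat_lit 76) (nat_lit 8543017716) (nat_lit 46) (nat_lit 5) (nat_lit 48) (nat_lit 5) (nat_lit 47) (nat_lit 5) (nat_lit 382) (nat_lit 352) (nat_lit 286)) (XT.lf (nat_lit 0) (nat_lit 8386898528) (nat_lit 152) (nat_lit 12179168832) (nat_lit 228) (nat_lit 22197658302) (nat_lit 44) (nat_lit 5) (nat_lit 46) (nat_lit 5) (nat_lit 47) (nat_lit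 5) (nat_lit 383) (nat_lit 352) (nat_lit 285))))) (XT.nd (nat_lit 234) (nat_lit 608) (nat_lit 0) (XT.nd (nat_lit 78) (nat_lit 228) (nat_lit 0) (XT.lf (nat_lit 0) (nat_lit 2917582421) (nat_lit 76) (nat_lit 35573879758) (nat_lit 152) (nat_lit 6584109680) (nat_lit 43) (nat_lit 5) (nat_lit 44) (nat_lit 5) (nat_lit 45) (nat_lit 4) (nat_lit 384) (nat_lit 352) (nat_lit 284)) (XT.nd (nat_lit 78) (nat_lit 152) (nat_lit 0) (XT.lf (nat_lit 0) (nat_lit 10744541278) (nat_lit 152) (nat_lit 3528886489) (nat_lit 76) (nat_lit 33251167647) (nat_lit 42) (nat_lit 5) (nat_lit 44) (nat_lit 5) (nat_lit 43) (nat_lit 5) (nat_lit 385) (nat_lit 352) (nat_lit 283)) (XT.lf (nat_lit 0) (nat_lit 29975954291) (nat_lit 228) (nat_lit 10976024882) (nat_lit 76) (nat_lit 9174810631) (nat_lit 40) (nat_lit 5) (nat_lit 43) (nat_lit 5) (nat_lit 41) (nat_lit 4) (nat_lit 386) (nat_lit 352) (nat_lit 282)))) (XT.nd (nat_lit 156) (nat_lit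 304) (nat_lit 0) (XT.nd (nat_lit 78) (nat_lit 228) (nat_lit 0) (XT.lf (nat_lit 0) (nat_lit 33227842501) (nat_lit 76) (nat_lit 18323000437) (nat_lit 152) (nat_lit 1346071471) (nat_lit 39) (nat_lit 5) (nat_lit 40) (nat_lit 5) (nat_lit 41) (nat_lit 4) (nat_lit 387) (nat_lit 352) (nat_lit 281)) (XT.lf (nat_lit 0) (nat_lit 19049671737) (nat_lit 228) (nat_lit 29971233528) (nat_lit 76) (nat_lit 6818266104) (nat_lit 36) (nat_lit 5) (nat_lit 39) (nat_lit 5) (nat_lit 37) (nat_lit 4) (nat_lit 388) (nat_lit 352) (nat_lit 280))) (XT.nd (nat_lit 78) (nat_lit 228) (nat_lit 0) (XT.lf (nat_lit 0) (nat_lit 16925881008) (nat_lit 76) (nat_lit 25010251769) (nat_lit 152) (nat_lit 17034264144) (nat_lit 35) (nat_lit 5) (nat_lit 36) (nat_lit 5) (nat_lit 37) (nat_lit 4) (nat_lit 389) (nat_lit 352) (nat_lit 279)) (XT.lf (nat_lit 0) (nat_lit 4804838063) (nat_lit 228) (nat_lit 55923253994) (nat_lit 76) (nat_lit 1588616671)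 (nat_lit 32) (nat_lit 5) (nat_lit 35) (nat_lit 5) (nat_lit 33) (nat_lit 4) (nat_lit 390) (nat_lit 352) (nat_lit 278))))))))
noncomputable def xc68 : XT := (XT.nd (nat_lit 2028) (nat_lit 456) (nat_lit 0) (XT.nd (nat_lit 1014) (nat_lit 684) (nat_lit 0) (XT.nd (nat_lit 468) (nat_lit 532) (nat_lit 0) (XT.nd (nat_lit 234) (nat_lit 228) (nat_lit 0) (XT.nd (nat_lit 78) (nat_lit 228) (nat_lit 0) (XT.lf (nat_lit 0) (nat_lit 28953500228) (nat_lit 228) (nat_lit 6434933452) (nat_lit 76) (nat_lit 30470369681) (nat_lit 32) (nat_lit 5) (nat_lit 35) (nat_lit 5) (nat_lit 33) (nat_lit 4) (nat_lit 391) (nat_lit 352) (nat_lit 277)) (XT.nd (nat_lit 78) (nat_lit 152) (nat_lit 0) (XT.lf (nat_lit 0) (nat_lit 48540369151) (nat_lit 76) (nat_lit 7237775932) (nat_lit 152) (nat_lit 13868917721) (nat_lit 31) (nat_lit 5) (nat_lit 32) (nat_lit 5) (nat_lit 33) (nat_lit 4) (nat_lit 392) (nat_lit 352) (nat_lit 276)) (XT.lf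 (nat_lit 0) (nat_lit 11685590361) (nat_lit 152) (nat_lit 38729225719) (nat_lit 76) (nat_lit 23263592663) (nat_lit 29) (nat_lit 5) (nat_lit 31) (nat_lit 5) (nat_lit 30) (nat_lit 4) (nat_lit 393) (nat_lit 352) (nat_lit 275)))) (XT.nd (nat_lit 78) (nat_lit 152) (nat_lit 0) (XT.lf (nat_lit 0) (nat_lit 18433029700) (nat_lit 76) (nat_lit 21142649548) (nat_lit 152) (nat_lit 38406360579) (nat_lit 28) (nat_lit 5) (nat_lit 29) (nat_lit 5) (nat_lit 30) (nat_lit 4) (nat_lit 394) (nat_lit 352) (nat_lit 274)) (XT.nd (nat_lit 78) (nat_lit 152) (nat_lit 0) (XT.lf (nat_lit 0) (nat_lit 70533676713) (nat_lit 152) (nat_lit 1243268540) (nat_lit 0) (nat_lit 10811182375) (nat_lit 28) (nat_lit 5) (nat_lit 30) (nat_lit 4) (nat_lit 28) (nat_lit 4) (nat_lit 395) (nat_lit 352) (nat_lit 273)) (XT.lf (nat_lit 0) (nat_lit 17236840852) (nat_lit 152) (nat_lit 24397117234) (nat_lit 76) (nat_lit 45848123070) (nat_lit 26) (nat_lit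 5) (nat_lit 28) (nat_lit 5) (nat_lit 27) (nat_lit 4) (nat_lit 396) (nat_lit 352) (nat_lit 272))))) (XT.nd (nat_lit 234) (nat_lit 304) (nat_lit 0) (XT.nd (nat_lit 78) (nat_lit 152) (nat_lit 0) (XT.lf (nat_lit 0) (nat_lit 40922109724) (nat_lit 76) (nat_lit 8182351615) (nat_lit 152) (nat_lit 43620442264) (nat_lit 25) (nat_lit 5) (nat_lit 26) (nat_lit 5) (nat_lit 27) (nat_lit 4) (nat_lit 397) (nat_lit 352) (nat_lit 271)) (XT.nd (nat_lit 78) (nat_lit 76) (nat_lit 0) (XT.lf (nat_lit 0) (nat_lit 13954675266) (nat_lit 76) (nat_lit 70642088005) (nat_lit 76) (nat_lit 13736625971) (nat_lit 24) (nat_lit 4) (nat_lit 25) (nat_lit 5) (nat_lit 25) (nat_lit 4) (nat_lit 398) (nat_lit 352) (nat_lit 270)) (XT.lf (nat_lit 0) (nat_lit 18989167853) (nat_lit 152) (nat_lit 17985339109) (nat_lit 76) (nat_lit 67349346180) (nat_lit 23) (nat_lit 5) (nat_lit 25) (nat_lit 5) (nat_lit 24) (nat_lit 4) (nat_lit 399) (nat_lit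 352) (nat_lit 269)))) (XT.nd (nat_lit 156) (nat_lit 152) (nat_lit 0) (XT.nd (nat_lit 78) (nat_lit 76) (nat_lit 0) (XT.lf (nat_lit 0) (nat_lit 54719061073) (nat_lit 152) (nat_lit 55510556979) (nat_lit 0) (nat_lit 509312360) (nat_lit 22) (nat_lit 5) (nat_lit 24) (nat_lit 4) (nat_lit 22) (nat_lit 4) (nat_lit 400) (nat_lit 352) (nat_lit 268)) (XT.lf (nat_lit 0) (nat_lit 17193257952) (nat_lit 76) (nat_lit 77314962622) (nat_lit 76) (nat_lit 23098950294) (nat_lit 21) (nat_lit 4) (nat_lit 22) (nat_lit 5) (nat_lit 22) (nat_lit 4) (nat_lit 401) (nat_lit 352) (nat_lit 267))) (XT.nd (nat_lit 78) (nat_lit 76) (nat_lit 0) (XT.lf (nat_lit 0) (nat_lit 13030624548) (nat_lit 152) (nat_lit 27509031647) (nat_lit 76) (nat_lit 84426809618) (nat_lit 20) (nat_lit 5) (nat_lit 22) (nat_lit 5) (nat_lit 21) (nat_lit 4) (nat_lit 402) (nat_lit 352) (nat_lit 266)) (XT.lf (nat_lit 0) (nat_lit 52070192327) (nat_lit 152)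 (nat_lit 80358676908) (nat_lit 0) (nat_lit 425257078) (nat_lit 19) (nat_lit 5) (nat_lit 21) (nat_lit 4) (nat_lit 19) (nat_lit 4) (nat_lit 403) (nat_lit 352) (nat_lit 265)))))) (XT.nd (nat_lit 468) (nat_lit 380) (nat_lit 0) (XT.nd (nat_lit 234) (nat_lit 76) (nat_lit 0) (XT.nd (nat_lit 78) (nat_lit 228) (nat_lit 0) (XT.lf (nat_lit 0) (nat_lit 95395315608) (nat_lit 152) (nat_lit 2173720231) (nat_lit 0) (nat_lit 43745644873) (nat_lit 19) (nat_lit 5) (nat_lit 21) (nat_lit 4) (nat_lit 19) (nat_lit 4) (nat_lit 404) (nat_lit 352) (nat_lit 264)) (XT.nd (nat_lit 78) (nat_lit 152) (nat_lit 0) (XT.lf (nat_lit 0) (nat_lit 84970738923) (nat_lit 76) (nat_lit 58534722926) (nat_lit 76) (nat_lit 6880667482) (nat_lit 18) (nat_lit 4) (nat_lit 19) (nat_lit 5) (nat_lit 19) (nat_lit 4) (nat_lit 405) (nat_lit 352) (nat_lit 263)) (XT.lf (nat_lit 0) (nat_lit 19025983019) (nat_lit 76) (nat_lit 15454064970) (nat_lit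 152) (nat_lit 125659297529) (nat_lit 16) (nat_lit 5) (nat_lit 17) (nat_lit 5) (nat_lit 18) (nat_lit 4) (nat_lit 406) (nat_lit 352) (nat_lit 262)))) (XT.nd (nat_lit 78) (nat_lit 76) (nat_lit 0) (XT.lf (nat_lit 0) (nat_lit 80547919290) (nat_lit 152) (nat_lit 58691158046) (nat_lit 0) (nat_lit 31346134013) (nat_lit 16) (nat_lit 5) (nat_lit 18) (nat_lit 4) (nat_lit 16) (nat_lit 4) (nat_lit 407) (nat_lit 352) (nat_lit 261)) (XT.nd (nat_lit 78) (nat_lit 0) (nat_lit 0) (XT.lf (nat_lit 0) (nat_lit 31044807093) (nat_lit 76) (nat_lit 99995053980) (nat_lit 76) (nat_lit 50789953729) (nat_lit 15) (nat_lit 4) (nat_lit 16) (nat_lit 5) (nat_lit 16) (nat_lit 4) (nat_lit 408) (nat_lit 352) (nat_lit 260)) (XT.lf (nat_lit 0) (nat_lit 130042999710) (nat_lit 76) (nat_lit 56544177944) (nat_lit 76) (nat_lit 7336008272) (nat_lit 15) (nat_lit 4) (nat_lit 16) (nat_lit 5) (nat_lit 16) (nat_lit 4) (nat_lit 409) (nat_lit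 352) (nat_lit 259))))) (XT.nd (nat_lit 234) (nat_lit 152) (nat_lit 0) (XT.nd (nat_lit 78) (nat_lit 76) (nat_lit 0) (XT.lf (nat_lit 0) (nat_lit 30317426308) (nat_lit 76) (nat_lit 8476933708) (nat_lit 152) (nat_lit 168135389652) (nat_lit 13) (nat_lit 5) (nat_lit 14) (nat_lit 5) (nat_lit 15) (nat_lit 4) (nat_lit 410) (nat_lit 352) (nat_lit 258)) (XT.nd (nat_lit 78) (nat_lit 76) (nat_lit 0) (XT.lf (nat_lit 0) (nat_lit 90164932558) (nat_lit 152) (nat_lit 87420757373) (nat_lit 0) (nat_lit 43294796119) (nat_lit 13) (nat_lit 5) (nat_lit 15) (nat_lit 4) (nat_lit 13) (nat_lit 4) (nat_lit 411) (nat_lit 352) (nat_lit 257)) (XT.lf (nat_lit 0) (nat_lit 9041993931) (nat_lit 76) (nat_lit 136881903684) (nat_lit 76) (nat_lit 90009446668) (nat_lit 12) (nat_lit 4) (nat_lit 13) (nat_lit 5) (nat_lit 13) (nat_lit 4) (nat_lit 412) (nat_lit 352) (nat_lit 256)))) (XT.nd (nat_lit 156) (nat_lit 76) (nat_lit 0) (XT.nd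 (nat_lit 78) (nat_lit 76) (nat_lit 0) (XT.lf (nat_lit 0) (nat_lit 116333389560) (nat_lit 76) (nat_lit 91327881504) (nat_lit 76) (nat_lit 44453275806) (nat_lit 12) (nat_lit 4) (nat_lit 13) (nat_lit 5) (nat_lit 13) (nat_lit 4) (nat_lit 413) (nat_lit 352) (nat_lit 255)) (XT.lf (nat_lit 0) (nat_lit 4590622062) (nat_lit 152) (nat_lit 37465819989) (nat_lit 76) (nat_lit 227530338865) (nat_lit 11) (nat_lit 5) (nat_lit 13) (nat_lit 5) (nat_lit 12) (nat_lit 4) (nat_lit 414) (nat_lit 352) (nat_lit 254))) (XT.nd (nat_lit 78) (nat_lit 0) (nat_lit 0) (XT.lf (nat_lit 0) (nat_lit 57317408633) (nat_lit 152) (nat_lit 218365830187) (nat_lit 0) (nat_lit 12671277808) (nat_lit 10) (nat_lit 5) (nat_lit 12) (nat_lit 4) (nat_lit 10) (nat_lit 4) (nat_lit 415) (nat_lit 352) (nat_lit 253)) (XT.lf (nat_lit 0) (nat_lit 115630485413) (nat_lit 152) (nat_lit 121942048492) (nat_lit 0) (nat_lit 70982730119) (nat_lit 10) (nat_lit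 5) (nat_lit 12) (nat_lit 4) (nat_lit 10) (nat_lit 4) (nat_lit 416) (nat_lit 352) (nat_lit 252))))))) (XT.nd (nat_lit 1014) (nat_lit 152) (nat_lit 0) (XT.nd (nat_lit 468) (nat_lit 76) (nat_lit 0) (XT.nd (nat_lit 234) (nat_lit 152) (nat_lit 0) (XT.nd (nat_lit 78) (nat_lit 76) (nat_lit 0) (XT.lf (nat_lit 0) (nat_lit 178604598684) (nat_lit 152) (nat_lit 17812333940) (nat_lit 0) (nat_lit 133955339252) (nat_lit 10) (nat_lit 5) (nat_lit 12) (nat_lit 4) (nat_lit 10) (nat_lit 4) (nat_lit 417) (nat_lit 352) (nat_lit 251)) (XT.nd (nat_lit 78) (nat_lit 0) (nat_lit 0) (XT.lf (nat_lit 0) (nat_lit 97769616764) (nat_lit 76) (nat_lit 150369769328) (nat_lit 76) (nat_lit 105719117174) (nat_lit 9) (nat_lit 4) (nat_lit 10) (nat_lit 5) (nat_lit 10) (nat_lit 4) (nat_lit 418) (nat_lit 352) (nat_lit 250)) (XT.lf (nat_lit 0) (nat_lit 223227137590) (nat_lit 76) (nat_lit 100316550432) (nat_lit 76) (nat_lit 55664608723)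 (nat_lit 9) (nat_lit 4) (nat_lit 10) (nat_lit 5) (nat_lit 10) (nat_lit 4) (nat_lit 419) (nat_lit 352) (nat_lit 249)))) (XT.nd (nat_lit 78) (nat_lit 152) (nat_lit 0) (XT.lf (nat_lit 0) (nat_lit 358714724308) (nat_lit 76) (nat_lit 46262324765) (nat_lit 76) (nat_lit 1609189022) (nat_lit 9) (nat_lit 4) (nat_lit 10) (nat_lit 5) (nat_lit 10) (nat_lit 4) (nat_lit 420) (nat_lit 352) (nat_lit 248)) (XT.nd (nat_lit 78) (nat_lit 0) (nat_lit 0) (XT.lf (nat_lit 0) (nat_lit 56268870014) (nat_lit 152) (nat_lit 366034445202) (nat_lit 0) (nat_lit 13741021128) (nat_lit 7) (nat_lit 5) (nat_lit 9) (nat_lit 4) (nat_lit 7) (nat_lit 4) (nat_lit 421) (nat_lit 352) (nat_lit 247)) (XT.lf (nat_lit 0) (nat_lit 120346177521) (nat_lit 152) (nat_lit 269612963252) (nat_lit 0) (nat_lit 77817353692) (nat_lit 7) (nat_lit 5) (nat_lit 9) (nat_lit 4) (nat_lit 7) (nat_lit 4) (nat_lit 422) (nat_lit 352) (nat_lit 246))))) (XT.nd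 (nat_lit 234) (nat_lit 0) (nat_lit 0) (XT.nd (nat_lit 78) (nat_lit 76) (nat_lit 0) (XT.lf (nat_lit 0) (nat_lit 189546891522) (nat_lit 152) (nat_lit 165483307761) (nat_lit 0) (nat_lit 147017164967) (nat_lit 7) (nat_lit 5) (nat_lit 9) (nat_lit 4) (nat_lit 7) (nat_lit 4) (nat_lit 423) (nat_lit 352) (nat_lit 245)) (XT.nd (nat_lit 78) (nat_lit 76) (nat_lit 0) (XT.lf (nat_lit 0) (nat_lit 264281090321) (nat_lit 152) (nat_lit 53028414103) (nat_lit 0) (nat_lit 221750527908) (nat_lit 7) (nat_lit 5) (nat_lit 9) (nat_lit 4) (nat_lit 7) (nat_lit 4) (nat_lit 424) (nat_lit 352) (nat_lit 244)) (XT.lf (nat_lit 0) (nat_lit 70680329026) (nat_lit 76) (nat_lit 275414832236) (nat_lit 76) (nat_lit 232883495881) (nat_lit 6) (nat_lit 4) (nat_lit 7) (nat_lit 5) (nat_lit 7) (nat_lit 4) (nat_lit 425) (nat_lit 352) (nat_lit 243)))) (XT.nd (nat_lit 156) (nat_lit 0) (nat_lit 0) (XT.nd (nat_lit 78) (nat_lit 0) (nat_lit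 0) (XT.lf (nat_lit 0) (nat_lit 206174851812) (nat_lit 76) (nat_lit 229200950478) (nat_lit 76) (nat_lit 186668897510) (nat_lit 6) (nat_lit 4) (nat_lit 7) (nat_lit 5) (nat_lit 7) (nat_lit 4) (nat_lit 426) (nat_lit 352) (nat_lit 242)) (XT.lf (nat_lit 0) (nat_lit 352504725908) (nat_lit 76) (nat_lit 179292060964) (nat_lit 76) (nat_lit 136759344466) (nat_lit 6) (nat_lit 4) (nat_lit 7) (nat_lit 5) (nat_lit 7) (nat_lit 4) (nat_lit 427) (nat_lit 352) (nat_lit 241))) (XT.nd (nat_lit 78) (nat_lit 0) (nat_lit 0) (XT.lf (nat_lit 0) (nat_lit 510537091307) (nat_lit 76) (nat_lit 125392407311) (nat_lit 76) (nat_lit 82859076433) (nat_lit 6) (nat_lit 4) (nat_lit 7) (nat_lit 5) (nat_lit 7) (nat_lit 4) (nat_lit 428) (nat_lit 352) (nat_lit 240)) (XT.lf (nat_lit 0) (nat_lit 681208436101) (nat_lit 76) (nat_lit 67182584164) (nat_lit 76) (nat_lit 24648684415) (nat_lit 6) (nat_lit 4) (nat_lit 7) (nat_lit 5) (nat_lit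 7) (nat_lit 4) (nat_lit 429) (nat_lit 352) (nat_lit 239)))))) (XT.nd (nat_lit 468) (nat_lit 0) (nat_lit 0) (XT.nd (nat_lit 234) (nat_lit 0) (nat_lit 0) (XT.nd (nat_lit 78) (nat_lit 0) (nat_lit 0) (XT.lf (nat_lit 0) (nat_lit 34403596505) (nat_lit 76) (nat_lit 3127146414) (nat_lit 152) (nat_lit 794043575103) (nat_lit 4) (nat_lit 5) (nat_lit 5) (nat_lit 5) (nat_lit 6) (nat_lit 4) (nat_lit 430) (nat_lit 352) (nat_lit 238)) (XT.nd (nat_lit 78) (nat_lit 0) (nat_lit 0) (XT.lf (nat_lit 0) (nat_lit 106487982079) (nat_lit 152) (nat_lit 722171623205) (nat_lit 0) (nat_lit 65978539988) (nat_lit 4) (nat_lit 5) (nat_lit 6) (nat_lit 4) (nat_lit 4) (nat_lit 4) (nat_lit 431) (nat_lit 352) (nat_lit 237)) (XT.lf (nat_lit 0) (nat_lit 181013001220) (nat_lit 152) (nat_lit 641228388445) (nat_lit 0) (nat_lit 140503129046) (nat_lit 4) (nat_lit 5) (nat_lit 6) (nat_lit 4) (nat_lit 4) (nat_lit 4) (nat_lit 432) (nat_lit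 352) (nat_lit 236)))) (XT.nd (nat_lit 78) (nat_lit 0) (nat_lit 0) (XT.lf (nat_lit 0) (nat_lit 261498606568) (nat_lit 152) (nat_lit 553812530103) (nat_lit 0) (nat_lit 220988336168) (nat_lit 4) (nat_lit 5) (nat_lit 6) (nat_lit 4) (nat_lit 4) (nat_lit 4) (nat_lit 433) (nat_lit 352) (nat_lit 235)) (XT.nd (nat_lit 78) (nat_lit 0) (nat_lit 0) (XT.lf (nat_lit 0) (nat_lit 348421749857) (nat_lit 152) (nat_lit 459406028279) (nat_lit 0) (nat_lit 307911110729) (nat_lit 4) (nat_lit 5) (nat_lit 6) (nat_lit 4) (nat_lit 4) (nat_lit 4) (nat_lit 434) (nat_lit 352) (nat_lit 234)) (XT.lf (nat_lit 0) (nat_lit 442297531195) (nat_lit 152) (nat_lit 357449437035) (nat_lit 0) (nat_lit 401786550653) (nat_lit 4) (nat_lit 5) (nat_lit 6) (nat_lit 4) (nat_lit 4) (nat_lit 4) (nat_lit 435) (nat_lit 352) (nat_lit 233))))) (XT.nd (nat_lit 46800) (nat_lit 0) (nat_lit 8892) (XT.nd (nat_lit 46644) (nat_lit 0) (nat_lit 9500) (XT.lf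 (nat_lit 0) (nat_lit 543682251510) (nat_lit 152) (nat_lit 247338569165) (nat_lit 0) (nat_lit 503170954843) (nat_lit 4) (nat_lit 5) (nat_lit 6) (nat_lit 4) (nat_lit 4) (nat_lit 4) (nat_lit 436) (nat_lit 352) (nat_lit 232)) (XT.nd (nat_lit 78) (nat_lit 0) (nat_lit 0) (XT.lf (nat_lit 0) (nat_lit 1799807990) (nat_lit 0) (nat_lit 1799807990) (nat_lit 684) (nat_lit 2110425973) (nat_lit 129) (nat_lit 5) (nat_lit 129) (nat_lit 3) (nat_lit 138) (nat_lit 3) (nat_lit 353) (nat_lit 353) (nat_lit 314)) (XT.lf (nat_lit 76) (nat_lit 1028319261) (nat_lit 0) (nat_lit 7352964966) (nat_lit 760) (nat_lit 3450428121) (nat_lit 130) (nat_lit 5) (nat_lit 129) (nat_lit 5) (nat_lit 139) (nat_lit 5) (nat_lit 354) (nat_lit 353) (nat_lit 313)))) (XT.nd (nat_lit 156) (nat_lit 684) (nat_lit 0) (XT.nd (nat_lit 78) (nat_lit 0) (nat_lit 0) (XT.lf (nat_lit 0) (nat_lit 9788435831) (nat_lit 684) (nat_lit 1530835678) (nat_lit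 760) (nat_lit 950519897) (nat_lit 130) (nat_lit 5) (nat_lit 139) (nat_lit 5) (nat_lit 140) (nat_lit 5) (nat_lit 355) (nat_lit 353) (nat_lit 312)) (XT.lf (nat_lit 76) (nat_lit 8587030520) (nat_lit 0) (nat_lit 2904916108) (nat_lit 760) (nat_lit 1241824418) (nat_lit 131) (nat_lit 5) (nat_lit 130) (nat_lit 5) (nat_lit 140) (nat_lit 5) (nat_lit 356) (nat_lit 353) (nat_lit 311))) (XT.nd (nat_lit 78) (nat_lit 0) (nat_lit 76) (XT.lf (nat_lit 0) (nat_lit 250625179) (nat_lit 760) (nat_lit 6837279476) (nat_lit 836) (nat_lit 6139084422) (nat_lit 121) (nat_lit 5) (nat_lit 131) (nat_lit 5) (nat_lit 132) (nat_lit 5) (nat_lit 357) (nat_lit 353) (nat_lit 310)) (XT.lf (nat_lit 0) (nat_lit 1976174903) (nat_lit 760) (nat_lit 9613085529) (nat_lit 836) (nat_lit 2161561256) (nat_lit 122) (nat_lit 5) (nat_lit 132) (nat_lit 5) (nat_lit 133) (nat_lit 5) (nat_lit 358) (nat_lit 353) (nat_lit 309))))))))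
noncomputable def xc69 : XT := (XT.nd (nat_lit 2028) (nat_lit 2356) (nat_lit 0) (XT.nd (nat_lit 1014) (nat_lit 2280) (nat_lit 0) (XT.nd (nat_lit 468) (nat_lit 1748) (nat_lit 0) (XT.nd (nat_lit 234) (nat_lit 1216) (nat_lit 0) (XT.nd (nat_lit 78) (nat_lit 684) (nat_lit 0) (XT.lf (nat_lit 76) (nat_lit 1810317666) (nat_lit 0) (nat_lit 2236842713) (nat_lit 836) (nat_lit 10259063909) (nat_lit 123) (nat_lit 5) (nat_lit 122) (nat_lit 5) (nat_lit 133) (nat_lit 5) (nat_lit 359) (nat_lit 353) (nat_lit 308)) (XT.nd (nat_lit 78) (nat_lit 760) (nat_lit 0) (XT.lf (nat_lit 0) (nat_lit 6519302164) (nat_lit 760) (nat_lit 583660377) (nat_lit 76) (nat_lit 7791353212) (nat_lit 123) (nat_lit 5) (nat_lit 133) (nat_lit 5) (nat_lit 124) (nat_lit 5) (nat_lit 360) (nat_lit 353) (nat_lit 307)) (XT.lf (nat_lit 0) (nat_lit 9420826126) (nat_lit 836) (nat_lit 2971250464) (nat_lit 76) (nat_lit 3125825669) (nat_lit 113) (nat_lit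 5) (nat_lit 124) (nat_lit 5) (nat_lit 114) (nat_lit 5) (nat_lit 361) (nat_lit 353) (nat_lit 306)))) (XT.nd (nat_lit 78) (nat_lit 836) (nat_lit 0) (XT.lf (nat_lit 0) (nat_lit 10732891227) (nat_lit 380) (nat_lit 2069320767) (nat_lit 456) (nat_lit 3376802867) (nat_lit 108) (nat_lit 5) (nat_lit 113) (nat_lit 5) (nat_lit 114) (nat_lit 5) (nat_lit 362) (nat_lit 353) (nat_lit 305)) (XT.nd (nat_lit 78) (nat_lit 456) (nat_lit 0) (XT.lf (nat_lit 0) (nat_lit 8841050398) (nat_lit 380) (nat_lit 7898513590) (nat_lit 456) (nat_lit 139203953) (nat_lit 103) (nat_lit 5) (nat_lit 108) (nat_lit 5) (nat_lit 109) (nat_lit 5) (nat_lit 363) (nat_lit 353) (nat_lit 304)) (XT.lf (nat_lit 0) (nat_lit 3498662353) (nat_lit 456) (nat_lit 10755654606) (nat_lit 76) (nat_lit 3365148890) (nat_lit 97) (nat_lit 5) (nat_lit 103) (nat_lit 5) (nat_lit 98) (nat_lit 5) (nat_lit 364) (nat_lit 353) (nat_lit 303))))) (XT.nd (nat_lit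 234) (nat_lit 912) (nat_lit 0) (XT.nd (nat_lit 78) (nat_lit 532) (nat_lit 0) (XT.lf (nat_lit 0) (nat_lit 4800107185) (nat_lit 304) (nat_lit 2930706597) (nat_lit 380) (nat_lit 10673104852) (nat_lit 93) (nat_lit 5) (nat_lit 97) (nat_lit 5) (nat_lit 98) (nat_lit 5) (nat_lit 365) (nat_lit 353) (nat_lit 302)) (XT.nd (nat_lit 78) (nat_lit 228) (nat_lit 0) (XT.lf (nat_lit 0) (nat_lit 2630989905) (nat_lit 304) (nat_lit 10007201816) (nat_lit 380) (nat_lit 6596121521) (nat_lit 89) (nat_lit 5) (nat_lit 93) (nat_lit 5) (nat_lit 94) (nat_lit 5) (nat_lit 366) (nat_lit 353) (nat_lit 301)) (XT.lf (nat_lit 0) (nat_lit 411190914) (nat_lit 228) (nat_lit 17818169507) (nat_lit 304) (nat_lit 1887235937) (nat_lit 86) (nat_lit 5) (nat_lit 89) (nat_lit 5) (nat_lit 90) (nat_lit 5) (nat_lit 367) (nat_lit 353) (nat_lit 300)))) (XT.nd (nat_lit 156) (nat_lit 532) (nat_lit 0) (XT.nd (nat_lit 78) (nat_lit 304) (nat_lit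 0) (XT.lf (nat_lit 0) (nat_lit 3522293358) (nat_lit 304) (nat_lit 1945146092) (nat_lit 76) (nat_lit 15578225847) (nat_lit 85) (nat_lit 5) (nat_lit 89) (nat_lit 5) (nat_lit 86) (nat_lit 5) (nat_lit 368) (nat_lit 353) (nat_lit 299)) (XT.lf (nat_lit 0) (nat_lit 9670244317) (nat_lit 380) (nat_lit 4434651439) (nat_lit 76) (nat_lit 7924041989) (nat_lit 81) (nat_lit 5) (nat_lit 86) (nat_lit 5) (nat_lit 82) (nat_lit 5) (nat_lit 369) (nat_lit 353) (nat_lit 298))) (XT.nd (nat_lit 78) (nat_lit 304) (nat_lit 0) (XT.lf (nat_lit 0) (nat_lit 16055651729) (nat_lit 228) (nat_lit 599687463) (nat_lit 304) (nat_lit 6418280229) (nat_lit 78) (nat_lit 5) (nat_lit 81) (nat_lit 5) (nat_lit 82) (nat_lit 5) (nat_lit 370) (nat_lit 353) (nat_lit 297)) (XT.lf (nat_lit 0) (nat_lit 495857577) (nat_lit 304) (nat_lit 9842553341) (nat_lit 76) (nat_lit 13838557718) (nat_lit 74) (nat_lit 5) (nat_lit 78) (nat_lit 5) (nat_lit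 75) (nat_lit 5) (nat_lit 371) (nat_lit 353) (nat_lit 296)))))) (XT.nd (nat_lit 468) (nat_lit 1216) (nat_lit 0) (XT.nd (nat_lit 234) (nat_lit 456) (nat_lit 0) (XT.nd (nat_lit 78) (nat_lit 380) (nat_lit 0) (XT.lf (nat_lit 0) (nat_lit 8111806676) (nat_lit 304) (nat_lit 12895825103) (nat_lit 76) (nat_lit 4337026320) (nat_lit 71) (nat_lit 5) (nat_lit 75) (nat_lit 5) (nat_lit 72) (nat_lit 5) (nat_lit 372) (nat_lit 353) (nat_lit 295)) (XT.nd (nat_lit 78) (nat_lit 152) (nat_lit 0) (XT.lf (nat_lit 0) (nat_lit 10392595530) (nat_lit 228) (nat_lit 6427363653) (nat_lit 304) (nat_lit 9761666858) (nat_lit 68) (nat_lit 5) (nat_lit 71) (nat_lit 5) (nat_lit 72) (nat_lit 5) (nat_lit 373) (nat_lit 353) (nat_lit 294)) (XT.lf (nat_lit 0) (nat_lit 8170521023) (nat_lit 152) (nat_lit 18528976685) (nat_lit 228) (nat_lit 1194325999) (nat_lit 66) (nat_lit 5) (nat_lit 68) (nat_lit 5) (nat_lit 69) (nat_lit 5) (nat_lit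 374) (nat_lit 353) (nat_lit 293)))) (XT.nd (nat_lit 78) (nat_lit 152) (nat_lit 0) (XT.lf (nat_lit 0) (nat_lit 5663296076) (nat_lit 228) (nat_lit 2594911304) (nat_lit 304) (nat_lit 21023620788) (nat_lit 62) (nat_lit 5) (nat_lit 65) (nat_lit 5) (nat_lit 66) (nat_lit 5) (nat_lit 375) (nat_lit 353) (nat_lit 292)) (XT.nd (nat_lit 78) (nat_lit 0) (nat_lit 0) (XT.lf (nat_lit 0) (nat_lit 2819225992) (nat_lit 152) (nat_lit 16203228028) (nat_lit 228) (nat_lit 11727579643) (nat_lit 60) (nat_lit 5) (nat_lit 62) (nat_lit 5) (nat_lit 63) (nat_lit 5) (nat_lit 376) (nat_lit 353) (nat_lit 291)) (XT.lf (nat_lit 0) (nat_lit 31095432762) (nat_lit 228) (nat_lit 197234469) (nat_lit 76) (nat_lit 1020655538) (nat_lit 60) (nat_lit 5) (nat_lit 63) (nat_lit 5) (nat_lit 61) (nat_lit 5) (nat_lit 377) (nat_lit 353) (nat_lit 290))))) (XT.nd (nat_lit 234) (nat_lit 608) (nat_lit 0) (XT.nd (nat_lit 78) (nat_lit 380) (nat_lit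 0) (XT.lf (nat_lit 0) (nat_lit 10546530068) (nat_lit 228) (nat_lit 3715018026) (nat_lit 76) (nat_lit 19695309953) (nat_lit 57) (nat_lit 5) (nat_lit 60) (nat_lit 5) (nat_lit 58) (nat_lit 5) (nat_lit 378) (nat_lit 353) (nat_lit 289)) (XT.nd (nat_lit 78) (nat_lit 228) (nat_lit 0) (XT.lf (nat_lit 0) (nat_lit 23705282605) (nat_lit 228) (nat_lit 7541141939) (nat_lit 76) (nat_lit 4459666486) (nat_lit 55) (nat_lit 5) (nat_lit 58) (nat_lit 5) (nat_lit 56) (nat_lit 5) (nat_lit 379) (nat_lit 353) (nat_lit 288)) (XT.lf (nat_lit 0) (nat_lit 1009466997) (nat_lit 228) (nat_lit 11894277192) (nat_lit 76) (nat_lit 24656358224) (nat_lit 52) (nat_lit 5) (nat_lit 55) (nat_lit 5) (nat_lit 53) (nat_lit 5) (nat_lit 380) (nat_lit 353) (nat_lit 287)))) (XT.nd (nat_lit 156) (nat_lit 304) (nat_lit 0) (XT.nd (nat_lit 78) (nat_lit 152) (nat_lit 0) (XT.lf (nat_lit 0) (nat_lit 15233596189) (nat_lit 228) (nat_lit 16914651996)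 (nat_lit 76) (nat_lit 7374680239) (nat_lit 50) (nat_lit 5) (nat_lit 53) (nat_lit 5) (nat_lit 51) (nat_lit 5) (nat_lit 381) (nat_lit 353) (nat_lit 286)) (XT.lf (nat_lit 0) (nat_lit 19019094305) (nat_lit 152) (nat_lit 12282900954) (nat_lit 228) (nat_lit 10305472469) (nat_lit 48) (nat_lit 5) (nat_lit 50) (nat_lit 5) (nat_lit 51) (nat_lit 5) (nat_lit 382) (nat_lit 353) (nat_lit 285))) (XT.nd (nat_lit 78) (nat_lit 152) (nat_lit 0) (XT.lf (nat_lit 0) (nat_lit 5311327046) (nat_lit 152) (nat_lit 29027016598) (nat_lit 76) (nat_lit 9483297023) (nat_lit 46) (nat_lit 5) (nat_lit 48) (nat_lit 5) (nat_lit 47) (nat_lit 5) (nat_lit 383) (nat_lit 353) (nat_lit 284)) (XT.lf (nat_lit 0) (nat_lit 9673348412) (nat_lit 152) (nat_lit 12888488853) (nat_lit 228) (nat_lit 23605395473) (nat_lit 44) (nat_lit 5) (nat_lit 46) (nat_lit 5) (nat_lit 47) (nat_lit 5) (nat_lit 384) (nat_lit 353) (nat_lit 283))))))) (XT.nd (nat_lit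 1014) (nat_lit 988) (nat_lit 0) (XT.nd (nat_lit 468) (nat_lit 684) (nat_lit 0) (XT.nd (nat_lit 234) (nat_lit 380) (nat_lit 0) (XT.nd (nat_lit 78) (nat_lit 228) (nat_lit 0) (XT.lf (nat_lit 0) (nat_lit 3752606930) (nat_lit 76) (nat_lit 38155918978) (nat_lit 152) (nat_lit 6756142555) (nat_lit 43) (nat_lit 5) (nat_lit 44) (nat_lit 5) (nat_lit 45) (nat_lit 4) (nat_lit 385) (nat_lit 353) (nat_lit 282)) (XT.nd (nat_lit 78) (nat_lit 152) (nat_lit 0) (XT.lf (nat_lit 0) (nat_lit 11922015151) (nat_lit 152) (nat_lit 3243577720) (nat_lit 76) (nat_lit 36145020144) (nat_lit 42) (nat_lit 5) (nat_lit 44) (nat_lit 5) (nat_lit 43) (nat_lit 5) (nat_lit 386) (nat_lit 353) (nat_lit 281)) (XT.lf (nat_lit 0) (nat_lit 32680618107) (nat_lit 228) (nat_lit 11299711683) (nat_lit 76) (nat_lit 10141223358) (nat_lit 40) (nat_lit 5) (nat_lit 43) (nat_lit 5) (nat_lit 41) (nat_lit 4) (nat_lit 387) (nat_lit 353) (nat_lit 280))))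 (XT.nd (nat_lit 78) (nat_lit 304) (nat_lit 0) (XT.lf (nat_lit 0) (nat_lit 36416371751) (nat_lit 76) (nat_lit 19550695410) (nat_lit 152) (nat_lit 1146945834) (nat_lit 39) (nat_lit 5) (nat_lit 40) (nat_lit 5) (nat_lit 41) (nat_lit 4) (nat_lit 388) (nat_lit 353) (nat_lit 279)) (XT.nd (nat_lit 78) (nat_lit 76) (nat_lit 0) (XT.lf (nat_lit 0) (nat_lit 20860352234) (nat_lit 228) (nat_lit 31841694436) (nat_lit 76) (nat_lit 7589881864) (nat_lit 36) (nat_lit 5) (nat_lit 39) (nat_lit 5) (nat_lit 37) (nat_lit 4) (nat_lit 389) (nat_lit 353) (nat_lit 278)) (XT.lf (nat_lit 0) (nat_lit 18784276151) (nat_lit 76) (nat_lit 26780090389) (nat_lit 152) (nat_lit 18109956823) (nat_lit 35) (nat_lit 5) (nat_lit 36) (nat_lit 5) (nat_lit 37) (nat_lit 4) (nat_lit 390) (nat_lit 353) (nat_lit 277))))) (XT.nd (nat_lit 234) (nat_lit 380) (nat_lit 0) (XT.nd (nat_lit 78) (nat_lit 76) (nat_lit 0) (XT.lf (nat_lit 0) (nat_lit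 5457706287) (nat_lit 228) (nat_lit 59896135990) (nat_lit 76) (nat_lit 1934745445) (nat_lit 32) (nat_lit 5) (nat_lit 35) (nat_lit 5) (nat_lit 33) (nat_lit 4) (nat_lit 391) (nat_lit 353) (nat_lit 276)) (XT.nd (nat_lit 78) (nat_lit 76) (nat_lit 0) (XT.lf (nat_lit 0) (nat_lit 31518373930) (nat_lit 228) (nat_lit 6485859311) (nat_lit 76) (nat_lit 33110813552) (nat_lit 32) (nat_lit 5) (nat_lit 35) (nat_lit 5) (nat_lit 33) (nat_lit 4) (nat_lit 392) (nat_lit 353) (nat_lit 275)) (XT.lf (nat_lit 0) (nat_lit 52867308327) (nat_lit 76) (nat_lit 7610195250) (nat_lit 152) (nat_lit 14729440061) (nat_lit 31) (nat_lit 5) (nat_lit 32) (nat_lit 5) (nat_lit 33) (nat_lit 4) (nat_lit 393) (nat_lit 353) (nat_lit 274)))) (XT.nd (nat_lit 156) (nat_lit 152) (nat_lit 0) (XT.nd (nat_lit 78) (nat_lit 76) (nat_lit 0) (XT.lf (nat_lit 0) (nat_lit 12853508153) (nat_lit 152) (nat_lit 41387123159) (nat_lit 76) (nat_lit 25320371166)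 (nat_lit 29) (nat_lit 5) (nat_lit 31) (nat_lit 5) (nat_lit 30) (nat_lit 4) (nat_lit 394) (nat_lit 353) (nat_lit 273)) (XT.lf (nat_lit 0) (nat_lit 20328971681) (nat_lit 76) (nat_lit 22635145651) (nat_lit 152) (nat_lit 41245342942) (nat_lit 28) (nat_lit 5) (nat_lit 29) (nat_lit 5) (nat_lit 30) (nat_lit 4) (nat_lit 395) (nat_lit 353) (nat_lit 272))) (XT.nd (nat_lit 78) (nat_lit 152) (nat_lit 0) (XT.lf (nat_lit 0) (nat_lit 76385157311) (nat_lit 152) (nat_lit 945196031) (nat_lit 0) (nat_lit 11854363365) (nat_lit 28) (nat_lit 5) (nat_lit 30) (nat_lit 4) (nat_lit 28) (nat_lit 4) (nat_lit 396) (nat_lit 353) (nat_lit 271)) (XT.lf (nat_lit 0) (nat_lit 18818331871) (nat_lit 152) (nat_lit 25961912722) (nat_lit 76) (nat_lit 49690256638) (nat_lit 26) (nat_lit 5) (nat_lit 28) (nat_lit 5) (nat_lit 27) (nat_lit 4) (nat_lit 397) (nat_lit 353) (nat_lit 270)))))) (XT.nd (nat_lit 546) (nat_lit 456) (nat_lit 0)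 (XT.nd (nat_lit 234) (nat_lit 304) (nat_lit 0) (XT.nd (nat_lit 78) (nat_lit 152) (nat_lit 0) (XT.lf (nat_lit 0) (nat_lit 44566034979) (nat_lit 76) (nat_lit 8660102957) (nat_lit 152) (nat_lit 46907074164) (nat_lit 25) (nat_lit 5) (nat_lit 26) (nat_lit 5) (nat_lit 27) (nat_lit 4) (nat_lit 398) (nat_lit 353) (nat_lit 269)) (XT.nd (nat_lit 78) (nat_lit 76) (nat_lit 0) (XT.lf (nat_lit 0) (nat_lit 15431741229) (nat_lit 76) (nat_lit 76119950634) (nat_lit 76) (nat_lit 14638992654) (nat_lit 24) (nat_lit 4) (nat_lit 25) (nat_lit 5) (nat_lit 25) (nat_lit 4) (nat_lit 399) (nat_lit 353) (nat_lit 268)) (XT.lf (nat_lit 0) (nat_lit 20684479187) (nat_lit 152) (nat_lit 19084352442) (nat_lit 76) (nat_lit 72892106330) (nat_lit 23) (nat_lit 5) (nat_lit 25) (nat_lit 5) (nat_lit 24) (nat_lit 4) (nat_lit 400) (nat_lit 353) (nat_lit 267)))) (XT.nd (nat_lit 156) (nat_lit 152) (nat_lit 0) (XT.nd (nat_lit 78) (nat_lit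 76) (nat_lit 0) (XT.lf (nat_lit 0) (nat_lit 59267237291) (nat_lit 152) (nat_lit 59620380808) (nat_lit 0) (nat_lit 701880717) (nat_lit 22) (nat_lit 5) (nat_lit 24) (nat_lit 4) (nat_lit 22) (nat_lit 4) (nat_lit 401) (nat_lit 353) (nat_lit 266)) (XT.lf (nat_lit 0) (nat_lit 18885353560) (nat_lit 76) (nat_lit 83346478711) (nat_lit 76) (nat_lit 24775752098) (nat_lit 21) (nat_lit 4) (nat_lit 22) (nat_lit 5) (nat_lit 22) (nat_lit 4) (nat_lit 402) (nat_lit 353) (nat_lit 265))) (XT.nd (nat_lit 78) (nat_lit 76) (nat_lit 0) (XT.lf (nat_lit 0) (nat_lit 14226442564) (nat_lit 152) (nat_lit 29411491616) (nat_lit 76) (nat_lit 91318169503) (nat_lit 20) (nat_lit 5) (nat_lit 22) (nat_lit 5) (nat_lit 21) (nat_lit 4) (nat_lit 403) (nat_lit 353) (nat_lit 264)) (XT.lf (nat_lit 0) (nat_lit 56384437168) (nat_lit 152) (nat_lit 86496905018) (nat_lit 0) (nat_lit 593672580) (nat_lit 19) (nat_lit 5) (nat_lit 21) (nat_lit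 4) (nat_lit 19) (nat_lit 4) (nat_lit 404) (nat_lit 353) (nat_lit 263))))) (XT.nd (nat_lit 234) (nat_lit 228) (nat_lit 0) (XT.nd (nat_lit 78) (nat_lit 228) (nat_lit 0) (XT.lf (nat_lit 0) (nat_lit 103164560723) (nat_lit 152) (nat_lit 2078667811) (nat_lit 0) (nat_lit 47369736219) (nat_lit 19) (nat_lit 5) (nat_lit 21) (nat_lit 4) (nat_lit 19) (nat_lit 4) (nat_lit 405) (nat_lit 353) (nat_lit 262)) (XT.nd (nat_lit 78) (nat_lit 152) (nat_lit 0) (XT.lf (nat_lit 0) (nat_lit 92025659835) (nat_lit 76) (nat_lit 63091681341) (nat_lit 76) (nat_lit 7293097657) (nat_lit 18) (nat_lit 4) (nat_lit 19) (nat_lit 5) (nat_lit 19) (nat_lit 4) (nat_lit 406) (nat_lit 353) (nat_lit 261)) (XT.lf (nat_lit 0) (nat_lit 20798376745) (nat_lit 76) (nat_lit 16567692109) (nat_lit 152) (nat_lit 135578035758) (nat_lit 16) (nat_lit 5) (nat_lit 17) (nat_lit 5) (nat_lit 18) (nat_lit 4) (nat_lit 407) (nat_lit 353) (nat_lit 260))))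 (XT.nd (nat_lit 156) (nat_lit 152) (nat_lit 0) (XT.nd (nat_lit 78) (nat_lit 76) (nat_lit 0) (XT.lf (nat_lit 0) (nat_lit 87111690506) (nat_lit 152) (nat_lit 63150535902) (nat_lit 0) (nat_lit 33963797840) (nat_lit 16) (nat_lit 5) (nat_lit 18) (nat_lit 4) (nat_lit 16) (nat_lit 4) (nat_lit 408) (nat_lit 353) (nat_lit 259)) (XT.lf (nat_lit 0) (nat_lit 33754053878) (nat_lit 76) (nat_lit 107883572701) (nat_lit 76) (nat_lit 54732837979) (nat_lit 15) (nat_lit 4) (nat_lit 16) (nat_lit 5) (nat_lit 16) (nat_lit 4) (nat_lit 409) (nat_lit 353) (nat_lit 258))) (XT.nd (nat_lit 78) (nat_lit 152) (nat_lit 0) (XT.lf (nat_lit 0) (nat_lit 140655386184) (nat_lit 76) (nat_lit 60964855145) (nat_lit 76) (nat_lit 7811488889) (nat_lit 15) (nat_lit 4) (nat_lit 16) (nat_lit 5) (nat_lit 16) (nat_lit 4) (nat_lit 410) (nat_lit 353) (nat_lit 257)) (XT.lf (nat_lit 0) (nat_lit 32946102461) (nat_lit 76) (nat_lit 9054826964)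 (nat_lit 152) (nat_lit 181478043802) (nat_lit 13) (nat_lit 5) (nat_lit 14) (nat_lit 5) (nat_lit 15) (nat_lit 4) (nat_lit 411) (nat_lit 353) (nat_lit 256))))))))
noncomputable def xc70 : XT := (XT.nd (nat_lit 48672) (nat_lit 0) (nat_lit 3876) (XT.nd (nat_lit 1014) (nat_lit 228) (nat_lit 0) (XT.nd (nat_lit 468) (nat_lit 228) (nat_lit 0) (XT.nd (nat_lit 234) (nat_lit 152) (nat_lit 0) (XT.nd (nat_lit 78) (nat_lit 76) (nat_lit 0) (XT.lf (nat_lit 0) (nat_lit 97474966023) (nat_lit 152) (nat_lit 94222868794) (nat_lit 0) (nat_lit 46848243187) (nat_lit 13) (nat_lit 5) (nat_lit 15) (nat_lit 4) (nat_lit 13) (nat_lit 4) (nat_lit 412) (nat_lit 353) (nat_lit 255)) (XT.nd (nat_lit 78) (nat_lit 0) (nat_lit 0) (XT.lf (nat_lit 0) (nat_lit 9948578121) (nat_lit 76) (nat_lit 147741757564) (nat_lit 76) (nat_lit 97113045209) (nat_lit 12) (nat_lit 4) (nat_lit 13) (nat_lit 5) (nat_lit 13) (nat_lit 4) (nat_lit 413)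 (nat_lit 353) (nat_lit 254)) (XT.lf (nat_lit 0) (nat_lit 125809713202) (nat_lit 76) (nat_lit 98550132011) (nat_lit 76) (nat_lit 47919577507) (nat_lit 12) (nat_lit 4) (nat_lit 13) (nat_lit 5) (nat_lit 13) (nat_lit 4) (nat_lit 414) (nat_lit 353) (nat_lit 253)))) (XT.nd (nat_lit 78) (nat_lit 76) (nat_lit 0) (XT.lf (nat_lit 0) (nat_lit 5038502447) (nat_lit 152) (nat_lit 40303330178) (nat_lit 76) (nat_lit 245807855462) (nat_lit 11) (nat_lit 5) (nat_lit 13) (nat_lit 5) (nat_lit 12) (nat_lit 4) (nat_lit 415) (nat_lit 353) (nat_lit 252)) (XT.nd (nat_lit 78) (nat_lit 0) (nat_lit 0) (XT.lf (nat_lit 0) (nat_lit 61981028102) (nat_lit 152) (nat_lit 235679611248) (nat_lit 0) (nat_lit 13758323777) (nat_lit 10) (nat_lit 5) (nat_lit 12) (nat_lit 4) (nat_lit 10) (nat_lit 4) (nat_lit 416) (nat_lit 353) (nat_lit 251)) (XT.lf (nat_lit 0) (nat_lit 124953356449) (nat_lit 152) (nat_lit 131553444452) (nat_lit 0)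 (nat_lit 76729259403) (nat_lit 10) (nat_lit 5) (nat_lit 12) (nat_lit 4) (nat_lit 10) (nat_lit 4) (nat_lit 417) (nat_lit 353) (nat_lit 250))))) (XT.nd (nat_lit 234) (nat_lit 152) (nat_lit 0) (XT.nd (nat_lit 78) (nat_lit 76) (nat_lit 0) (XT.lf (nat_lit 0) (nat_lit 192960033433) (nat_lit 152) (nat_lit 19104017025) (nat_lit 0) (nat_lit 144734646831) (nat_lit 10) (nat_lit 5) (nat_lit 12) (nat_lit 4) (nat_lit 10) (nat_lit 4) (nat_lit 418) (nat_lit 353) (nat_lit 249)) (XT.nd (nat_lit 78) (nat_lit 0) (nat_lit 0) (XT.lf (nat_lit 0) (nat_lit 105718696522) (nat_lit 76) (nat_lit 162335930192) (nat_lit 76) (nat_lit 114109349556) (nat_lit 9) (nat_lit 4) (nat_lit 10) (nat_lit 5) (nat_lit 10) (nat_lit 4) (nat_lit 419) (nat_lit 353) (nat_lit 248)) (XT.lf (nat_lit 0) (nat_lit 241203373797) (nat_lit 76) (nat_lit 108283151613) (nat_lit 76) (nat_lit 60055465391) (nat_lit 9) (nat_lit 4) (nat_lit 10) (nat_lit 5)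 (nat_lit 10) (nat_lit 4) (nat_lit 420) (nat_lit 353) (nat_lit 247)))) (XT.nd (nat_lit 156) (nat_lit 0) (nat_lit 0) (XT.nd (nat_lit 78) (nat_lit 152) (nat_lit 0) (XT.lf (nat_lit 0) (nat_lit 387521221883) (nat_lit 76) (nat_lit 49908937734) (nat_lit 76) (nat_lit 1680227820) (nat_lit 9) (nat_lit 4) (nat_lit 10) (nat_lit 5) (nat_lit 10) (nat_lit 4) (nat_lit 421) (nat_lit 353) (nat_lit 246)) (XT.lf (nat_lit 0) (nat_lit 60824579428) (nat_lit 152) (nat_lit 395209019715) (nat_lit 0) (nat_lit 14891572022) (nat_lit 7) (nat_lit 5) (nat_lit 9) (nat_lit 4) (nat_lit 7) (nat_lit 4) (nat_lit 422) (nat_lit 353) (nat_lit 245))) (XT.nd (nat_lit 78) (nat_lit 0) (nat_lit 0) (XT.lf (nat_lit 0) (nat_lit 130024056736) (nat_lit 152) (nat_lit 291081832624) (nat_lit 0) (nat_lit 84090213473) (nat_lit 7) (nat_lit 5) (nat_lit 9) (nat_lit 4) (nat_lit 7) (nat_lit 4) (nat_lit 423) (nat_lit 353) (nat_lit 244)) (XT.lf (nat_lit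 0) (nat_lit 204757110448) (nat_lit 152) (nat_lit 178629224522) (nat_lit 0) (nat_lit 158822493243) (nat_lit 7) (nat_lit 5) (nat_lit 9) (nat_lit 4) (nat_lit 7) (nat_lit 4) (nat_lit 424) (nat_lit 353) (nat_lit 243)))))) (XT.nd (nat_lit 468) (nat_lit 152) (nat_lit 0) (XT.nd (nat_lit 234) (nat_lit 0) (nat_lit 0) (XT.nd (nat_lit 78) (nat_lit 76) (nat_lit 0) (XT.lf (nat_lit 0) (nat_lit 285466603106) (nat_lit 152) (nat_lit 57184809584) (nat_lit 0) (nat_lit 239531269288) (nat_lit 7) (nat_lit 5) (nat_lit 9) (nat_lit 4) (nat_lit 7) (nat_lit 4) (nat_lit 425) (nat_lit 353) (nat_lit 242)) (XT.nd (nat_lit 78) (nat_lit 0) (nat_lit 0) (XT.lf (nat_lit 0) (nat_lit 76416900858) (nat_lit 76) (nat_lit 297406994307) (nat_lit 76) (nat_lit 251470996958) (nat_lit 6) (nat_lit 4) (nat_lit 7) (nat_lit 5) (nat_lit 7) (nat_lit 4) (nat_lit 426) (nat_lit 353) (nat_lit 241)) (XT.lf (nat_lit 0) (nat_lit 222744900615) (nat_lit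 76) (nat_lit 247499040862) (nat_lit 76) (nat_lit 201562429133) (nat_lit 6) (nat_lit 4) (nat_lit 7) (nat_lit 5) (nat_lit 7) (nat_lit 4) (nat_lit 427) (nat_lit 353) (nat_lit 240)))) (XT.nd (nat_lit 78) (nat_lit 0) (nat_lit 0) (XT.lf (nat_lit 0) (nat_lit 380775530516) (nat_lit 76) (nat_lit 193600253939) (nat_lit 76) (nat_lit 147663073339) (nat_lit 6) (nat_lit 4) (nat_lit 7) (nat_lit 5) (nat_lit 7) (nat_lit 4) (nat_lit 428) (nat_lit 353) (nat_lit 239)) (XT.nd (nat_lit 78) (nat_lit 0) (nat_lit 0) (XT.lf (nat_lit 0) (nat_lit 551445268366) (nat_lit 76) (nat_lit 135391233320) (nat_lit 76) (nat_lit 89453525988) (nat_lit 6) (nat_lit 4) (nat_lit 7) (nat_lit 5) (nat_lit 7) (nat_lit 4) (nat_lit 429) (nat_lit 353) (nat_lit 238)) (XT.lf (nat_lit 0) (nat_lit 735765490392) (nat_lit 76) (nat_lit 72527036660) (nat_lit 76) (nat_lit 26588841614) (nat_lit 6) (nat_lit 4) (nat_lit 7) (nat_lit 5) (nat_lit 7) (nat_lit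 4) (nat_lit 430) (nat_lit 353) (nat_lit 237))))) (XT.nd (nat_lit 234) (nat_lit 0) (nat_lit 0) (XT.nd (nat_lit 78) (nat_lit 0) (nat_lit 0) (XT.lf (nat_lit 0) (nat_lit 37214612298) (nat_lit 76) (nat_lit 3347953034) (nat_lit 152) (nat_lit 857536228985) (nat_lit 4) (nat_lit 5) (nat_lit 5) (nat_lit 5) (nat_lit 6) (nat_lit 4) (nat_lit 431) (nat_lit 353) (nat_lit 236)) (XT.nd (nat_lit 78) (nat_lit 0) (nat_lit 0) (XT.lf (nat_lit 0) (nat_lit 115034633100) (nat_lit 152) (nat_lit 779890039406) (nat_lit 0) (nat_lit 71283142842) (nat_lit 4) (nat_lit 5) (nat_lit 6) (nat_lit 4) (nat_lit 4) (nat_lit 4) (nat_lit 432) (nat_lit 353) (nat_lit 235)) (XT.lf (nat_lit 0) (nat_lit 195519608405) (nat_lit 152) (nat_lit 692475443172) (nat_lit 0) (nat_lit 151767749420) (nat_lit 4) (nat_lit 5) (nat_lit 6) (nat_lit 4) (nat_lit 4) (nat_lit 4) (nat_lit 433) (nat_lit 353) (nat_lit 234)))) (XT.nd (nat_lit 156) (nat_lit 0)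 (nat_lit 0) (XT.nd (nat_lit 78) (nat_lit 0) (nat_lit 0) (XT.lf (nat_lit 0) (nat_lit 282442168322) (nat_lit 152) (nat_lit 598070109966) (nat_lit 0) (nat_lit 238689967923) (nat_lit 4) (nat_lit 5) (nat_lit 6) (nat_lit 4) (nat_lit 4) (nat_lit 4) (nat_lit 434) (nat_lit 353) (nat_lit 233)) (XT.lf (nat_lit 0) (nat_lit 376317409502) (nat_lit 152) (nat_lit 496114600777) (nat_lit 0) (nat_lit 332564892978) (nat_lit 4) (nat_lit 5) (nat_lit 6) (nat_lit 4) (nat_lit 4) (nat_lit 4) (nat_lit 435) (nat_lit 353) (nat_lit 232))) (XT.nd (nat_lit 46722) (nat_lit 0) (nat_lit 9500) (XT.lf (nat_lit 0) (nat_lit 477701629669) (nat_lit 152) (nat_lit 386004734809) (nat_lit 0) (nat_lit 433948820438) (nat_lit 4) (nat_lit 5) (nat_lit 6) (nat_lit 4) (nat_lit 4) (nat_lit 4) (nat_lit 436) (nat_lit 353) (nat_lit 231)) (XT.lf (nat_lit 0) (nat_lit 2337124445) (nat_lit 0) (nat_lit 2337124445) (nat_lit 684) (nat_lit 1452803794)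 (nat_lit 129) (nat_lit 5) (nat_lit 129) (nat_lit 3) (nat_lit 138) (nat_lit 3) (nat_lit 354) (nat_lit 354) (nat_lit 312))))))) (XT.nd (nat_lit 1014) (nat_lit 2584) (nat_lit 0) (XT.nd (nat_lit 468) (nat_lit 2432) (nat_lit 0) (XT.nd (nat_lit 234) (nat_lit 608) (nat_lit 0) (XT.nd (nat_lit 78) (nat_lit 0) (nat_lit 76) (XT.lf (nat_lit 76) (nat_lit 1950935824) (nat_lit 0) (nat_lit 8559383635) (nat_lit 760) (nat_lit 2194152431) (nat_lit 130) (nat_lit 5) (nat_lit 129) (nat_lit 5) (nat_lit 139) (nat_lit 5) (nat_lit 355) (nat_lit 354) (nat_lit 311)) (XT.nd (nat_lit 78) (nat_lit 0) (nat_lit 0) (XT.lf (nat_lit 0) (nat_lit 11913067132) (nat_lit 684) (nat_lit 797950668) (nat_lit 760) (nat_lit 472491300) (nat_lit 130) (nat_lit 5) (nat_lit 139) (nat_lit 5) (nat_lit 140) (nat_lit 5) (nat_lit 356) (nat_lit 354) (nat_lit 310)) (XT.lf (nat_lit 76) (nat_lit 10092172276) (nat_lit 0) (nat_lit 3574086038) (nat_lit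 760) (nat_lit 22737177) (nat_lit 131) (nat_lit 5) (nat_lit 130) (nat_lit 5) (nat_lit 140) (nat_lit 5) (nat_lit 357) (nat_lit 354) (nat_lit 309)))) (XT.nd (nat_lit 78) (nat_lit 0) (nat_lit 76) (XT.lf (nat_lit 0) (nat_lit 1459442950) (nat_lit 760) (nat_lit 6494448775) (nat_lit 836) (nat_lit 6271174844) (nat_lit 121) (nat_lit 5) (nat_lit 131) (nat_lit 5) (nat_lit 132) (nat_lit 5) (nat_lit 358) (nat_lit 354) (nat_lit 308)) (XT.nd (nat_lit 78) (nat_lit 0) (nat_lit 0) (XT.lf (nat_lit 0) (nat_lit 3244164576) (nat_lit 760) (nat_lit 9470589993) (nat_lit 836) (nat_lit 2080042471) (nat_lit 122) (nat_lit 5) (nat_lit 132) (nat_lit 5) (nat_lit 133) (nat_lit 5) (nat_lit 359) (nat_lit 354) (nat_lit 307)) (XT.lf (nat_lit 76) (nat_lit 2827070937) (nat_lit 0) (nat_lit 2585156697) (nat_lit 836) (nat_lit 9985878397) (nat_lit 123) (nat_lit 5) (nat_lit 122) (nat_lit 5) (nat_lit 133) (nat_lit 5) (nat_lit 360) (nat_lit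 354) (nat_lit 306))))) (XT.nd (nat_lit 234) (nat_lit 1444) (nat_lit 0) (XT.nd (nat_lit 78) (nat_lit 380) (nat_lit 0) (XT.lf (nat_lit 0) (nat_lit 235698337) (nat_lit 760) (nat_lit 7770541000) (nat_lit 836) (nat_lit 8030841396) (nat_lit 113) (nat_lit 5) (nat_lit 123) (nat_lit 5) (nat_lit 124) (nat_lit 5) (nat_lit 361) (nat_lit 354) (nat_lit 305)) (XT.nd (nat_lit 78) (nat_lit 380) (nat_lit 0) (XT.lf (nat_lit 0) (nat_lit 11076506718) (nat_lit 836) (nat_lit 2340833071) (nat_lit 76) (nat_lit 3296421122) (nat_lit 113) (nat_lit 5) (nat_lit 124) (nat_lit 5) (nat_lit 114) (nat_lit 5) (nat_lit 362) (nat_lit 354) (nat_lit 304)) (XT.lf (nat_lit 0) (nat_lit 12421912631) (nat_lit 380) (nat_lit 2252639652) (nat_lit 456) (nat_lit 2755937818) (nat_lit 108) (nat_lit 5) (nat_lit 113) (nat_lit 5) (nat_lit 114) (nat_lit 5) (nat_lit 363) (nat_lit 354) (nat_lit 303)))) (XT.nd (nat_lit 156) (nat_lit 608) (nat_lit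 0) (XT.nd (nat_lit 78) (nat_lit 380) (nat_lit 0) (XT.lf (nat_lit 0) (nat_lit 666072735) (nat_lit 456) (nat_lit 7815614752) (nat_lit 76) (nat_lit 9706533140) (nat_lit 102) (nat_lit 5) (nat_lit 108) (nat_lit 5) (nat_lit 103) (nat_lit 5) (nat_lit 364) (nat_lit 354) (nat_lit 302)) (XT.lf (nat_lit 0) (nat_lit 4543873797) (nat_lit 456) (nat_lit 10753204228) (nat_lit 76) (nat_lit 3693321714) (nat_lit 97) (nat_lit 5) (nat_lit 103) (nat_lit 5) (nat_lit 98) (nat_lit 5) (nat_lit 365) (nat_lit 354) (nat_lit 301))) (XT.nd (nat_lit 78) (nat_lit 304) (nat_lit 0) (XT.lf (nat_lit 0) (nat_lit 6009517805) (nat_lit 304) (nat_lit 3061276118) (nat_lit 380) (nat_lit 10769031472) (nat_lit 93) (nat_lit 5) (nat_lit 97) (nat_lit 5) (nat_lit 98) (nat_lit 5) (nat_lit 366) (nat_lit 354) (nat_lit 300)) (XT.lf (nat_lit 0) (nat_lit 3664273234) (nat_lit 304) (nat_lit 10667391406) (nat_lit 380) (nat_lit 6406966323) (nat_lit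 89) (nat_lit 5) (nat_lit 93) (nat_lit 5) (nat_lit 94) (nat_lit 5) (nat_lit 367) (nat_lit 354) (nat_lit 299)))))) (XT.nd (nat_lit 468) (nat_lit 1216) (nat_lit 0) (XT.nd (nat_lit 234) (nat_lit 760) (nat_lit 0) (XT.nd (nat_lit 78) (nat_lit 380) (nat_lit 0) (XT.lf (nat_lit 0) (nat_lit 1261966855) (nat_lit 228) (nat_lit 19072409410) (nat_lit 304) (nat_lit 1358930693) (nat_lit 86) (nat_lit 5) (nat_lit 89) (nat_lit 5) (nat_lit 90) (nat_lit 5) (nat_lit 368) (nat_lit 354) (nat_lit 298)) (XT.nd (nat_lit 78) (nat_lit 304) (nat_lit 0) (XT.lf (nat_lit 0) (nat_lit 4412912739) (nat_lit 304) (nat_lit 1323079772) (nat_lit 76) (nat_lit 16962633986) (nat_lit 85) (nat_lit 5) (nat_lit 89) (nat_lit 5) (nat_lit 86) (nat_lit 5) (nat_lit 369) (nat_lit 354) (nat_lit 297)) (XT.lf (nat_lit 0) (nat_lit 11021846113) (nat_lit 380) (nat_lit 4019174466) (nat_lit 76) (nat_lit 8721101379) (nat_lit 81) (nat_lit 5) (nat_lit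 86) (nat_lit 5) (nat_lit 82) (nat_lit 5) (nat_lit 370) (nat_lit 354) (nat_lit 296)))) (XT.nd (nat_lit 78) (nat_lit 532) (nat_lit 0) (XT.lf (nat_lit 0) (nat_lit 18076878868) (nat_lit 228) (nat_lit 457559332) (nat_lit 304) (nat_lit 6357522650) (nat_lit 78) (nat_lit 5) (nat_lit 81) (nat_lit 5) (nat_lit 82) (nat_lit 5) (nat_lit 371) (nat_lit 354) (nat_lit 295)) (XT.nd (nat_lit 78) (nat_lit 228) (nat_lit 0) (XT.lf (nat_lit 0) (nat_lit 1064544055) (nat_lit 304) (nat_lit 9884009189) (nat_lit 76) (nat_lit 15135932809) (nat_lit 74) (nat_lit 5) (nat_lit 78) (nat_lit 5) (nat_lit 75) (nat_lit 5) (nat_lit 372) (nat_lit 354) (nat_lit 294)) (XT.lf (nat_lit 0) (nat_lit 9265041421) (nat_lit 304) (nat_lit 13192055595) (nat_lit 76) (nat_lit 4889744053) (nat_lit 71) (nat_lit 5) (nat_lit 75) (nat_lit 5) (nat_lit 72) (nat_lit 5) (nat_lit 373) (nat_lit 354) (nat_lit 293))))) (XT.nd (nat_lit 234) (nat_lit 532) (nat_lit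 0) (XT.nd (nat_lit 78) (nat_lit 456) (nat_lit 0) (XT.lf (nat_lit 0) (nat_lit 11927477558) (nat_lit 228) (nat_lit 6715996947) (nat_lit 304) (nat_lit 10040623498) (nat_lit 68) (nat_lit 5) (nat_lit 71) (nat_lit 5) (nat_lit 72) (nat_lit 5) (nat_lit 374) (nat_lit 354) (nat_lit 292)) (XT.nd (nat_lit 78) (nat_lit 304) (nat_lit 0) (XT.lf (nat_lit 0) (nat_lit 9516709020) (nat_lit 152) (nat_lit 19775339006) (nat_lit 228) (nat_lit 810301874) (nat_lit 66) (nat_lit 5) (nat_lit 68) (nat_lit 5) (nat_lit 69) (nat_lit 5) (nat_lit 375) (nat_lit 354) (nat_lit 291)) (XT.lf (nat_lit 0) (nat_lit 6793627851) (nat_lit 228) (nat_lit 2565644397) (nat_lit 304) (nat_lit 22242949328) (nat_lit 62) (nat_lit 5) (nat_lit 65) (nat_lit 5) (nat_lit 66) (nat_lit 5) (nat_lit 376) (nat_lit 354) (nat_lit 290)))) (XT.nd (nat_lit 156) (nat_lit 228) (nat_lit 0) (XT.nd (nat_lit 78) (nat_lit 152) (nat_lit 0) (XT.lf (nat_lit 0) (nat_lit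 3710251692) (nat_lit 152) (nat_lit 17255598335) (nat_lit 228) (nat_lit 12222983723) (nat_lit 60) (nat_lit 5) (nat_lit 62) (nat_lit 5) (nat_lit 63) (nat_lit 5) (nat_lit 377) (nat_lit 354) (nat_lit 289)) (XT.lf (nat_lit 0) (nat_lit 433148806) (nat_lit 152) (nat_lit 33550577038) (nat_lit 228) (nat_lit 894516284) (nat_lit 58) (nat_lit 5) (nat_lit 60) (nat_lit 5) (nat_lit 61) (nat_lit 5) (nat_lit 378) (nat_lit 354) (nat_lit 288))) (XT.nd (nat_lit 78) (nat_lit 152) (nat_lit 0) (XT.lf (nat_lit 0) (nat_lit 11770649288) (nat_lit 228) (nat_lit 3394722067) (nat_lit 76) (nat_lit 21488915373) (nat_lit 57) (nat_lit 5) (nat_lit 60) (nat_lit 5) (nat_lit 58) (nat_lit 5) (nat_lit 379) (nat_lit 354) (nat_lit 287)) (XT.lf (nat_lit 0) (nat_lit 25966725146) (nat_lit 228) (nat_lit 7539185589) (nat_lit 76) (nat_lit 5038323875) (nat_lit 55) (nat_lit 5) (nat_lit 58) (nat_lit 5) (nat_lit 56) (nat_lit 5) (nat_lit 380)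 (nat_lit 354) (nat_lit 286))))))))
noncomputable def xc71 : XT := (XT.nd (nat_lit 2028) (nat_lit 1140) (nat_lit 0) (XT.nd (nat_lit 1014) (nat_lit 988) (nat_lit 0) (XT.nd (nat_lit 468) (nat_lit 836) (nat_lit 0) (XT.nd (nat_lit 234) (nat_lit 380) (nat_lit 0) (XT.nd (nat_lit 78) (nat_lit 304) (nat_lit 0) (XT.lf (nat_lit 0) (nat_lit 1443016670) (nat_lit 228) (nat_lit 12255128332) (nat_lit 76) (nat_lit 26849044238) (nat_lit 52) (nat_lit 5) (nat_lit 55) (nat_lit 5) (nat_lit 53) (nat_lit 5) (nat_lit 381) (nat_lit 354) (nat_lit 285)) (XT.nd (nat_lit 78) (nat_lit 152) (nat_lit 0) (XT.lf (nat_lit 0) (nat_lit 16791348735) (nat_lit 228) (nat_lit 17689537832) (nat_lit 76) (nat_lit 8186847193) (nat_lit 50) (nat_lit 5) (nat_lit 53) (nat_lit 5) (nat_lit 51) (nat_lit 5) (nat_lit 382) (nat_lit 354) (nat_lit 284)) (XT.lf (nat_lit 0) (nat_lit 21093776554) (nat_lit 152) (nat_lit 13034963556) (nat_lit 228) (nat_lit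 10791125686) (nat_lit 48) (nat_lit 5) (nat_lit 50) (nat_lit 5) (nat_lit 51) (nat_lit 5) (nat_lit 383) (nat_lit 354) (nat_lit 283)))) (XT.nd (nat_lit 78) (nat_lit 228) (nat_lit 0) (XT.lf (nat_lit 0) (nat_lit 6051858087) (nat_lit 152) (nat_lit 30797512905) (nat_lit 76) (nat_lit 10462157878) (nat_lit 46) (nat_lit 5) (nat_lit 48) (nat_lit 5) (nat_lit 47) (nat_lit 5) (nat_lit 384) (nat_lit 354) (nat_lit 282)) (XT.nd (nat_lit 78) (nat_lit 76) (nat_lit 0) (XT.lf (nat_lit 0) (nat_lit 10974906617) (nat_lit 152) (nat_lit 13692361611) (nat_lit 228) (nat_lit 25178261702) (nat_lit 44) (nat_lit 5) (nat_lit 46) (nat_lit 5) (nat_lit 47) (nat_lit 5) (nat_lit 385) (nat_lit 354) (nat_lit 281)) (XT.lf (nat_lit 0) (nat_lit 4568605878) (nat_lit 76) (nat_lit 40982165508) (nat_lit 152) (nat_lit 6992539395) (nat_lit 43) (nat_lit 5) (nat_lit 44) (nat_lit 5) (nat_lit 45) (nat_lit 4) (nat_lit 386) (nat_lit 354) (nat_lit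 280))))) (XT.nd (nat_lit 234) (nat_lit 532) (nat_lit 0) (XT.nd (nat_lit 78) (nat_lit 228) (nat_lit 0) (XT.lf (nat_lit 0) (nat_lit 13148333437) (nat_lit 152) (nat_lit 3016421544) (nat_lit 76) (nat_lit 39237032494) (nat_lit 42) (nat_lit 5) (nat_lit 44) (nat_lit 5) (nat_lit 43) (nat_lit 5) (nat_lit 387) (nat_lit 354) (nat_lit 279)) (XT.nd (nat_lit 78) (nat_lit 76) (nat_lit 0) (XT.lf (nat_lit 0) (nat_lit 35557916898) (nat_lit 228) (nat_lit 11728384101) (nat_lit 76) (nat_lit 11151790668) (nat_lit 40) (nat_lit 5) (nat_lit 43) (nat_lit 5) (nat_lit 41) (nat_lit 4) (nat_lit 388) (nat_lit 354) (nat_lit 278)) (XT.lf (nat_lit 0) (nat_lit 39784329853) (nat_lit 76) (nat_lit 20910580036) (nat_lit 152) (nat_lit 975660216) (nat_lit 39) (nat_lit 5) (nat_lit 40) (nat_lit 5) (nat_lit 41) (nat_lit 4) (nat_lit 389) (nat_lit 354) (nat_lit 277)))) (XT.nd (nat_lit 156) (nat_lit 228) (nat_lit 0) (XT.nd (nat_lit 78)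 (nat_lit 76) (nat_lit 0) (XT.lf (nat_lit 0) (nat_lit 22774985246) (nat_lit 228) (nat_lit 33937008580) (nat_lit 76) (nat_lit 8390963421) (nat_lit 36) (nat_lit 5) (nat_lit 39) (nat_lit 5) (nat_lit 37) (nat_lit 4) (nat_lit 390) (nat_lit 354) (nat_lit 276)) (XT.lf (nat_lit 0) (nat_lit 20719395355) (nat_lit 76) (nat_lit 28724468196) (nat_lit 152) (nat_lit 19312655587) (nat_lit 35) (nat_lit 5) (nat_lit 36) (nat_lit 5) (nat_lit 37) (nat_lit 4) (nat_lit 391) (nat_lit 354) (nat_lit 275))) (XT.nd (nat_lit 78) (nat_lit 0) (nat_lit 0) (XT.lf (nat_lit 0) (nat_lit 6124502127) (nat_lit 228) (nat_lit 64258318705) (nat_lit 76) (nat_lit 2277316096) (nat_lit 32) (nat_lit 5) (nat_lit 35) (nat_lit 5) (nat_lit 33) (nat_lit 4) (nat_lit 392) (nat_lit 354) (nat_lit 274)) (XT.lf (nat_lit 0) (nat_lit 34252972860) (nat_lit 228) (nat_lit 6607035311) (nat_lit 76) (nat_lit 35933559206) (nat_lit 32) (nat_lit 5) (nat_lit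 35) (nat_lit 5) (nat_lit 33) (nat_lit 4) (nat_lit 393) (nat_lit 354) (nat_lit 273)))))) (XT.nd (nat_lit 468) (nat_lit 456) (nat_lit 0) (XT.nd (nat_lit 234) (nat_lit 228) (nat_lit 0) (XT.nd (nat_lit 78) (nat_lit 228) (nat_lit 0) (XT.lf (nat_lit 0) (nat_lit 57477102496) (nat_lit 76) (nat_lit 8041882307) (nat_lit 152) (nat_lit 15694325549) (nat_lit 31) (nat_lit 5) (nat_lit 32) (nat_lit 5) (nat_lit 33) (nat_lit 4) (nat_lit 394) (nat_lit 354) (nat_lit 272)) (XT.nd (nat_lit 78) (nat_lit 76) (nat_lit 0) (XT.lf (nat_lit 0) (nat_lit 14081609247) (nat_lit 152) (nat_lit 44320486171) (nat_lit 76) (nat_lit 27513774428) (nat_lit 29) (nat_lit 5) (nat_lit 31) (nat_lit 5) (nat_lit 30) (nat_lit 4) (nat_lit 395) (nat_lit 354) (nat_lit 271)) (XT.lf (nat_lit 0) (nat_lit 22316485922) (nat_lit 76) (nat_lit 24275419013) (nat_lit 152) (nat_lit 44344759057) (nat_lit 28) (nat_lit 5) (nat_lit 29) (nat_lit 5) (nat_lit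 30) (nat_lit 4) (nat_lit 396) (nat_lit 354) (nat_lit 270)))) (XT.nd (nat_lit 78) (nat_lit 228) (nat_lit 0) (XT.lf (nat_lit 0) (nat_lit 82674970635) (nat_lit 152) (nat_lit 679990390) (nat_lit 0) (nat_lit 12955564285) (nat_lit 28) (nat_lit 5) (nat_lit 30) (nat_lit 4) (nat_lit 28) (nat_lit 4) (nat_lit 397) (nat_lit 354) (nat_lit 269)) (XT.nd (nat_lit 78) (nat_lit 76) (nat_lit 0) (XT.lf (nat_lit 0) (nat_lit 20497447041) (nat_lit 152) (nat_lit 27707098000) (nat_lit 76) (nat_lit 53814897369) (nat_lit 26) (nat_lit 5) (nat_lit 28) (nat_lit 5) (nat_lit 27) (nat_lit 4) (nat_lit 398) (nat_lit 354) (nat_lit 268)) (XT.lf (nat_lit 0) (nat_lit 48448667296) (nat_lit 76) (nat_lit 9201302151) (nat_lit 152) (nat_lit 50485597332) (nat_lit 25) (nat_lit 5) (nat_lit 26) (nat_lit 5) (nat_lit 27) (nat_lit 4) (nat_lit 399) (nat_lit 354) (nat_lit 267))))) (XT.nd (nat_lit 234) (nat_lit 228) (nat_lit 0) (XT.nd (nat_lit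 78) (nat_lit 152) (nat_lit 0) (XT.lf (nat_lit 0) (nat_lit 16975515731) (nat_lit 76) (nat_lit 82060794617) (nat_lit 76) (nat_lit 15641590637) (nat_lit 24) (nat_lit 4) (nat_lit 25) (nat_lit 5) (nat_lit 25) (nat_lit 4) (nat_lit 400) (nat_lit 354) (nat_lit 266)) (XT.nd (nat_lit 78) (nat_lit 76) (nat_lit 0) (XT.lf (nat_lit 0) (nat_lit 22490281680) (nat_lit 152) (nat_lit 20319765077) (nat_lit 76) (nat_lit 78856201565) (nat_lit 23) (nat_lit 5) (nat_lit 25) (nat_lit 5) (nat_lit 24) (nat_lit 4) (nat_lit 401) (nat_lit 354) (nat_lit 265)) (XT.lf (nat_lit 0) (nat_lit 64154922286) (nat_lit 152) (nat_lit 64106214351) (nat_lit 0) (nat_lit 888195243) (nat_lit 22) (nat_lit 5) (nat_lit 24) (nat_lit 4) (nat_lit 22) (nat_lit 4) (nat_lit 402) (nat_lit 354) (nat_lit 264)))) (XT.nd (nat_lit 156) (nat_lit 76) (nat_lit 0) (XT.nd (nat_lit 78) (nat_lit 76) (nat_lit 0) (XT.lf (nat_lit 0) (nat_lit 20667645298) (nat_lit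 76) (nat_lit 89882440390) (nat_lit 76) (nat_lit 26611109403) (nat_lit 21) (nat_lit 4) (nat_lit 22) (nat_lit 5) (nat_lit 22) (nat_lit 4) (nat_lit 403) (nat_lit 354) (nat_lit 263)) (XT.lf (nat_lit 0) (nat_lit 15496046354) (nat_lit 152) (nat_lit 31508698872) (nat_lit 76) (nat_lit 98741262909) (nat_lit 20) (nat_lit 5) (nat_lit 22) (nat_lit 5) (nat_lit 21) (nat_lit 4) (nat_lit 404) (nat_lit 354) (nat_lit 262))) (XT.nd (nat_lit 78) (nat_lit 0) (nat_lit 0) (XT.lf (nat_lit 0) (nat_lit 61022617943) (nat_lit 152) (nat_lit 93167629606) (nat_lit 0) (nat_lit 756388383) (nat_lit 19) (nat_lit 5) (nat_lit 21) (nat_lit 4) (nat_lit 19) (nat_lit 4) (nat_lit 405) (nat_lit 354) (nat_lit 261)) (XT.lf (nat_lit 0) (nat_lit 111535712434) (nat_lit 152) (nat_lit 2014379927) (nat_lit 0) (nat_lit 51266002150) (nat_lit 19) (nat_lit 5) (nat_lit 21) (nat_lit 4) (nat_lit 19) (nat_lit 4) (nat_lit 406) (nat_lit 354) (nat_lit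 260))))))) (XT.nd (nat_lit 1014) (nat_lit 456) (nat_lit 0) (XT.nd (nat_lit 468) (nat_lit 228) (nat_lit 0) (XT.nd (nat_lit 234) (nat_lit 228) (nat_lit 0) (XT.nd (nat_lit 78) (nat_lit 152) (nat_lit 0) (XT.lf (nat_lit 0) (nat_lit 99608273149) (nat_lit 76) (nat_lit 68031145976) (nat_lit 76) (nat_lit 7758212801) (nat_lit 18) (nat_lit 4) (nat_lit 19) (nat_lit 5) (nat_lit 19) (nat_lit 4) (nat_lit 407) (nat_lit 354) (nat_lit 259)) (XT.nd (nat_lit 78) (nat_lit 0) (nat_lit 0) (XT.lf (nat_lit 0) (nat_lit 22676851724) (nat_lit 76) (nat_lit 17787913670) (nat_lit 152) (nat_lit 146309390440) (nat_lit 16) (nat_lit 5) (nat_lit 17) (nat_lit 5) (nat_lit 18) (nat_lit 4) (nat_lit 408) (nat_lit 354) (nat_lit 258)) (XT.lf (nat_lit 0) (nat_lit 94183452970) (nat_lit 152) (nat_lit 68000319869) (nat_lit 0) (nat_lit 36775185880) (nat_lit 16) (nat_lit 5) (nat_lit 18) (nat_lit 4) (nat_lit 16) (nat_lit 4) (nat_lit 409)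 (nat_lit 354) (nat_lit 257)))) (XT.nd (nat_lit 78) (nat_lit 152) (nat_lit 0) (XT.lf (nat_lit 0) (nat_lit 36647847168) (nat_lit 76) (nat_lit 116419020523) (nat_lit 76) (nat_lit 59008316827) (nat_lit 15) (nat_lit 4) (nat_lit 16) (nat_lit 5) (nat_lit 16) (nat_lit 4) (nat_lit 410) (nat_lit 354) (nat_lit 256)) (XT.nd (nat_lit 78) (nat_lit 152) (nat_lit 0) (XT.lf (nat_lit 0) (nat_lit 152086955024) (nat_lit 76) (nat_lit 65753860228) (nat_lit 76) (nat_lit 8340900417) (nat_lit 15) (nat_lit 4) (nat_lit 16) (nat_lit 5) (nat_lit 16) (nat_lit 4) (nat_lit 411) (nat_lit 354) (nat_lit 255)) (XT.lf (nat_lit 0) (nat_lit 35756072249) (nat_lit 76) (nat_lit 9693255095) (nat_lit 152) (nat_lit 195903542944) (nat_lit 13) (nat_lit 5) (nat_lit 14) (nat_lit 5) (nat_lit 15) (nat_lit 4) (nat_lit 412) (nat_lit 354) (nat_lit 254))))) (XT.nd (nat_lit 234) (nat_lit 152) (nat_lit 0) (XT.nd (nat_lit 78) (nat_lit 76) (nat_lit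 0) (XT.lf (nat_lit 0) (nat_lit 105355987018) (nat_lit 152) (nat_lit 101596475759) (nat_lit 0) (nat_lit 50673146006) (nat_lit 13) (nat_lit 5) (nat_lit 15) (nat_lit 4) (nat_lit 13) (nat_lit 4) (nat_lit 413) (nat_lit 354) (nat_lit 253)) (XT.nd (nat_lit 78) (nat_lit 0) (nat_lit 0) (XT.lf (nat_lit 0) (nat_lit 10901549998) (nat_lit 76) (nat_lit 159483338898) (nat_lit 76) (nat_lit 104798792193) (nat_lit 12) (nat_lit 4) (nat_lit 13) (nat_lit 5) (nat_lit 13) (nat_lit 4) (nat_lit 414) (nat_lit 354) (nat_lit 252)) (XT.lf (nat_lit 0) (nat_lit 136019939913) (nat_lit 76) (nat_lit 106362143246) (nat_lit 76) (nat_lit 51676017196) (nat_lit 12) (nat_lit 4) (nat_lit 13) (nat_lit 5) (nat_lit 13) (nat_lit 4) (nat_lit 415) (nat_lit 354) (nat_lit 251)))) (XT.nd (nat_lit 156) (nat_lit 0) (nat_lit 0) (XT.nd (nat_lit 78) (nat_lit 76) (nat_lit 0) (XT.lf (nat_lit 0) (nat_lit 5510710404) (nat_lit 152) (nat_lit 43390632077)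 (nat_lit 76) (nat_lit 265536861033) (nat_lit 11) (nat_lit 5) (nat_lit 13) (nat_lit 5) (nat_lit 12) (nat_lit 4) (nat_lit 416) (nat_lit 354) (nat_lit 250)) (XT.lf (nat_lit 0) (nat_lit 67006577205) (nat_lit 152) (nat_lit 254400676519) (nat_lit 0) (nat_lit 14921870118) (nat_lit 10) (nat_lit 5) (nat_lit 12) (nat_lit 4) (nat_lit 10) (nat_lit 4) (nat_lit 417) (nat_lit 354) (nat_lit 249))) (XT.nd (nat_lit 78) (nat_lit 0) (nat_lit 0) (XT.lf (nat_lit 0) (nat_lit 135011723905) (nat_lit 152) (nat_lit 141954290721) (nat_lit 0) (nat_lit 82925822784) (nat_lit 10) (nat_lit 5) (nat_lit 12) (nat_lit 4) (nat_lit 10) (nat_lit 4) (nat_lit 418) (nat_lit 354) (nat_lit 248)) (XT.lf (nat_lit 0) (nat_lit 208454335126) (nat_lit 152) (nat_lit 20518052011) (nat_lit 0) (nat_lit 156367328419) (nat_lit 10) (nat_lit 5) (nat_lit 12) (nat_lit 4) (nat_lit 10) (nat_lit 4) (nat_lit 419) (nat_lit 354) (nat_lit 247)))))) (XT.nd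 (nat_lit 546) (nat_lit 228) (nat_lit 0) (XT.nd (nat_lit 234) (nat_lit 152) (nat_lit 0) (XT.nd (nat_lit 78) (nat_lit 0) (nat_lit 0) (XT.lf (nat_lit 0) (nat_lit 114285511873) (nat_lit 76) (nat_lit 175268431594) (nat_lit 76) (nat_lit 123180401196) (nat_lit 9) (nat_lit 4) (nat_lit 10) (nat_lit 5) (nat_lit 10) (nat_lit 4) (nat_lit 420) (nat_lit 354) (nat_lit 246)) (XT.nd (nat_lit 78) (nat_lit 0) (nat_lit 0) (XT.lf (nat_lit 0) (nat_lit 260600865580) (nat_lit 76) (nat_lit 116895458360) (nat_lit 76) (nat_lit 64806480100) (nat_lit 9) (nat_lit 4) (nat_lit 10) (nat_lit 5) (nat_lit 10) (nat_lit 4) (nat_lit 421) (nat_lit 354) (nat_lit 245)) (XT.lf (nat_lit 0) (nat_lit 418616643596) (nat_lit 76) (nat_lit 53855036658) (nat_lit 76) (nat_lit 1765180747) (nat_lit 9) (nat_lit 4) (nat_lit 10) (nat_lit 5) (nat_lit 10) (nat_lit 4) (nat_lit 422) (nat_lit 354) (nat_lit 244)))) (XT.nd (nat_lit 156) (nat_lit 0) (nat_lit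 0) (XT.nd (nat_lit 78) (nat_lit 0) (nat_lit 0) (XT.lf (nat_lit 0) (nat_lit 65737013387) (nat_lit 152) (nat_lit 426732993432) (nat_lit 0) (nat_lit 16126852863) (nat_lit 7) (nat_lit 5) (nat_lit 9) (nat_lit 4) (nat_lit 7) (nat_lit 4) (nat_lit 423) (nat_lit 354) (nat_lit 243)) (XT.lf (nat_lit 0) (nat_lit 140469006834) (nat_lit 152) (nat_lit 314282501586) (nat_lit 0) (nat_lit 90858129698) (nat_lit 7) (nat_lit 5) (nat_lit 9) (nat_lit 4) (nat_lit 7) (nat_lit 4) (nat_lit 424) (nat_lit 354) (nat_lit 242))) (XT.nd (nat_lit 78) (nat_lit 0) (nat_lit 0) (XT.lf (nat_lit 0) (nat_lit 221177517765) (nat_lit 152) (nat_lit 192840046143) (nat_lit 0) (nat_lit 171565977098) (nat_lit 7) (nat_lit 5) (nat_lit 9) (nat_lit 4) (nat_lit 7) (nat_lit 4) (nat_lit 425) (nat_lit 354) (nat_lit 241)) (XT.lf (nat_lit 0) (nat_lit 308340818838) (nat_lit 152) (nat_lit 61685968109) (nat_lit 0) (nat_lit 258728663790) (nat_lit 7)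 (nat_lit 5) (nat_lit 9) (nat_lit 4) (nat_lit 7) (nat_lit 4) (nat_lit 426) (nat_lit 354) (nat_lit 240))))) (XT.nd (nat_lit 234) (nat_lit 152) (nat_lit 0) (XT.nd (nat_lit 78) (nat_lit 0) (nat_lit 0) (XT.lf (nat_lit 0) (nat_lit 82600679461) (nat_lit 76) (nat_lit 321164381949) (nat_lit 76) (nat_lit 271551658031) (nat_lit 6) (nat_lit 4) (nat_lit 7) (nat_lit 5) (nat_lit 7) (nat_lit 4) (nat_lit 427) (nat_lit 354) (nat_lit 239)) (XT.nd (nat_lit 78) (nat_lit 0) (nat_lit 0) (XT.lf (nat_lit 0) (nat_lit 240629702419) (nat_lit 76) (nat_lit 267266397554) (nat_lit 76) (nat_lit 217653146904) (nat_lit 6) (nat_lit 4) (nat_lit 7) (nat_lit 5) (nat_lit 7) (nat_lit 4) (nat_lit 428) (nat_lit 354) (nat_lit 238)) (XT.lf (nat_lit 0) (nat_lit 411297952359) (nat_lit 76) (nat_lit 209058120016) (nat_lit 76) (nat_lit 159444381651) (nat_lit 6) (nat_lit 4) (nat_lit 7) (nat_lit 5) (nat_lit 7) (nat_lit 4) (nat_lit 429) (nat_lit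 354) (nat_lit 237)))) (XT.nd (nat_lit 156) (nat_lit 152) (nat_lit 0) (XT.nd (nat_lit 78) (nat_lit 0) (nat_lit 0) (XT.lf (nat_lit 0) (nat_lit 595616796690) (nat_lit 76) (nat_lit 146194611395) (nat_lit 76) (nat_lit 96580421442) (nat_lit 6) (nat_lit 4) (nat_lit 7) (nat_lit 5) (nat_lit 7) (nat_lit 4) (nat_lit 430) (nat_lit 354) (nat_lit 236)) (XT.lf (nat_lit 0) (nat_lit 794678495229) (nat_lit 76) (nat_lit 78303347194) (nat_lit 76) (nat_lit 28688739105) (nat_lit 6) (nat_lit 4) (nat_lit 7) (nat_lit 5) (nat_lit 7) (nat_lit 4) (nat_lit 431) (nat_lit 354) (nat_lit 235))) (XT.nd (nat_lit 78) (nat_lit 0) (nat_lit 0) (XT.lf (nat_lit 0) (nat_lit 40242131139) (nat_lit 76) (nat_lit 3590613442) (nat_lit 152) (nat_lit 926112693724) (nat_lit 4) (nat_lit 5) (nat_lit 5) (nat_lit 5) (nat_lit 6) (nat_lit 4) (nat_lit 432) (nat_lit 354) (nat_lit 234)) (XT.lf (nat_lit 0) (nat_lit 124261076977) (nat_lit 152) (nat_lit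 842233820013) (nat_lit 0) (nat_lit 77008359131) (nat_lit 4) (nat_lit 5) (nat_lit 6) (nat_lit 4) (nat_lit 4) (nat_lit 4) (nat_lit 433) (nat_lit 354) (nat_lit 233))))))))
noncomputable def xc72 : XT := (XT.nd (nat_lit 48750) (nat_lit 0) (nat_lit 1368) (XT.nd (nat_lit 47736) (nat_lit 0) (nat_lit 4408) (XT.nd (nat_lit 47190) (nat_lit 0) (nat_lit 7904) (XT.nd (nat_lit 46956) (nat_lit 0) (nat_lit 9500) (XT.nd (nat_lit 78) (nat_lit 0) (nat_lit 0) (XT.lf (nat_lit 0) (nat_lit 211183096734) (nat_lit 152) (nat_lit 747829568862) (nat_lit 0) (nat_lit 163930062764) (nat_lit 4) (nat_lit 5) (nat_lit 6) (nat_lit 4) (nat_lit 4) (nat_lit 4) (nat_lit 434) (nat_lit 354) (nat_lit 232)) (XT.nd (nat_lit 78) (nat_lit 0) (nat_lit 0) (XT.lf (nat_lit 0) (nat_lit 305057837766) (nat_lit 152) (nat_lit 645875061575) (nat_lit 0) (nat_lit 257804511089) (nat_lit 4) (nat_lit 5) (nat_lit 6) (nat_lit 4) (nat_lit 4) (nat_lit 4)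 (nat_lit 435) (nat_lit 354) (nat_lit 231)) (XT.lf (nat_lit 0) (nat_lit 406441594834) (nat_lit 152) (nat_lit 535766123294) (nat_lit 0) (nat_lit 359187997131) (nat_lit 4) (nat_lit 5) (nat_lit 6) (nat_lit 4) (nat_lit 4) (nat_lit 4) (nat_lit 436) (nat_lit 354) (nat_lit 230)))) (XT.nd (nat_lit 78) (nat_lit 0) (nat_lit 0) (XT.lf (nat_lit 0) (nat_lit 2861313036) (nat_lit 0) (nat_lit 2861313036) (nat_lit 684) (nat_lit 860475065) (nat_lit 129) (nat_lit 5) (nat_lit 129) (nat_lit 3) (nat_lit 138) (nat_lit 3) (nat_lit 355) (nat_lit 355) (nat_lit 310)) (XT.nd (nat_lit 78) (nat_lit 0) (nat_lit 76) (XT.lf (nat_lit 76) (nat_lit 2827476245) (nat_lit 0) (nat_lit 9774125299) (nat_lit 760) (nat_lit 1055975830) (nat_lit 130) (nat_lit 5) (nat_lit 129) (nat_lit 5) (nat_lit 139) (nat_lit 5) (nat_lit 356) (nat_lit 355) (nat_lit 309)) (XT.lf (nat_lit 0) (nat_lit 14016280914) (nat_lit 684) (nat_lit 128460364) (nat_lit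 760) (nat_lit 35264722) (nat_lit 130) (nat_lit 5) (nat_lit 139) (nat_lit 5) (nat_lit 140) (nat_lit 5) (nat_lit 357) (nat_lit 355) (nat_lit 308))))) (XT.nd (nat_lit 234) (nat_lit 912) (nat_lit 0) (XT.nd (nat_lit 78) (nat_lit 0) (nat_lit 76) (XT.lf (nat_lit 0) (nat_lit 1070395692) (nat_lit 760) (nat_lit 3145955131) (nat_lit 836) (nat_lit 10512479585) (nat_lit 120) (nat_lit 5) (nat_lit 130) (nat_lit 5) (nat_lit 131) (nat_lit 5) (nat_lit 358) (nat_lit 355) (nat_lit 307)) (XT.nd (nat_lit 78) (nat_lit 0) (nat_lit 76) (XT.lf (nat_lit 0) (nat_lit 2595375133) (nat_lit 760) (nat_lit 6251133398) (nat_lit 836) (nat_lit 6465053047) (nat_lit 121) (nat_lit 5) (nat_lit 131) (nat_lit 5) (nat_lit 132) (nat_lit 5) (nat_lit 359) (nat_lit 355) (nat_lit 306)) (XT.lf (nat_lit 0) (nat_lit 4455254396) (nat_lit 760) (nat_lit 9446736526) (nat_lit 836) (nat_lit 2028301419) (nat_lit 122) (nat_lit 5) (nat_lit 132) (nat_lit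 5) (nat_lit 133) (nat_lit 5) (nat_lit 360) (nat_lit 355) (nat_lit 305)))) (XT.nd (nat_lit 156) (nat_lit 380) (nat_lit 0) (XT.nd (nat_lit 78) (nat_lit 684) (nat_lit 0) (XT.lf (nat_lit 76) (nat_lit 3800774212) (nat_lit 0) (nat_lit 2937173765) (nat_lit 836) (nat_lit 9846896624) (nat_lit 123) (nat_lit 5) (nat_lit 122) (nat_lit 5) (nat_lit 133) (nat_lit 5) (nat_lit 361) (nat_lit 355) (nat_lit 304)) (XT.lf (nat_lit 0) (nat_lit 1014922748) (nat_lit 760) (nat_lit 8468201186) (nat_lit 836) (nat_lit 7794666203) (nat_lit 113) (nat_lit 5) (nat_lit 123) (nat_lit 5) (nat_lit 124) (nat_lit 5) (nat_lit 362) (nat_lit 355) (nat_lit 303))) (XT.nd (nat_lit 78) (nat_lit 380) (nat_lit 0) (XT.lf (nat_lit 0) (nat_lit 12735959304) (nat_lit 836) (nat_lit 1783828943) (nat_lit 76) (nat_lit 3492001580) (nat_lit 113) (nat_lit 5) (nat_lit 124) (nat_lit 5) (nat_lit 114) (nat_lit 5) (nat_lit 363) (nat_lit 355) (nat_lit 302))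 (XT.lf (nat_lit 0) (nat_lit 14127591314) (nat_lit 380) (nat_lit 2448088500) (nat_lit 456) (nat_lit 2212515999) (nat_lit 108) (nat_lit 5) (nat_lit 113) (nat_lit 5) (nat_lit 114) (nat_lit 5) (nat_lit 364) (nat_lit 355) (nat_lit 301)))))) (XT.nd (nat_lit 468) (nat_lit 1748) (nat_lit 0) (XT.nd (nat_lit 234) (nat_lit 608) (nat_lit 0) (XT.nd (nat_lit 78) (nat_lit 684) (nat_lit 0) (XT.lf (nat_lit 0) (nat_lit 1415175751) (nat_lit 456) (nat_lit 7701175179) (nat_lit 76) (nat_lit 10491805511) (nat_lit 102) (nat_lit 5) (nat_lit 108) (nat_lit 5) (nat_lit 103) (nat_lit 5) (nat_lit 365) (nat_lit 355) (nat_lit 300)) (XT.nd (nat_lit 78) (nat_lit 304) (nat_lit 0) (XT.lf (nat_lit 0) (nat_lit 5563520923) (nat_lit 456) (nat_lit 10873660543) (nat_lit 76) (nat_lit 4039336931) (nat_lit 97) (nat_lit 5) (nat_lit 103) (nat_lit 5) (nat_lit 98) (nat_lit 5) (nat_lit 366) (nat_lit 355) (nat_lit 299)) (XT.lf (nat_lit 0)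 (nat_lit 7197928445) (nat_lit 304) (nat_lit 3217111845) (nat_lit 380) (nat_lit 10980758235) (nat_lit 93) (nat_lit 5) (nat_lit 97) (nat_lit 5) (nat_lit 98) (nat_lit 5) (nat_lit 367) (nat_lit 355) (nat_lit 298)))) (XT.nd (nat_lit 78) (nat_lit 304) (nat_lit 0) (XT.lf (nat_lit 0) (nat_lit 4662837020) (nat_lit 304) (nat_lit 11400423874) (nat_lit 380) (nat_lit 6304944651) (nat_lit 89) (nat_lit 5) (nat_lit 93) (nat_lit 5) (nat_lit 94) (nat_lit 5) (nat_lit 368) (nat_lit 355) (nat_lit 297)) (XT.nd (nat_lit 78) (nat_lit 76) (nat_lit 0) (XT.lf (nat_lit 0) (nat_lit 2064125049) (nat_lit 228) (nat_lit 20451414048) (nat_lit 304) (nat_lit 885268503) (nat_lit 86) (nat_lit 5) (nat_lit 89) (nat_lit 5) (nat_lit 90) (nat_lit 5) (nat_lit 369) (nat_lit 355) (nat_lit 296)) (XT.lf (nat_lit 0) (nat_lit 5287924421) (nat_lit 304) (nat_lit 762192608) (nat_lit 76) (nat_lit 18438086123) (nat_lit 85) (nat_lit 5) (nat_lit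 89) (nat_lit 5) (nat_lit 86) (nat_lit 5) (nat_lit 370) (nat_lit 355) (nat_lit 295))))) (XT.nd (nat_lit 234) (nat_lit 912) (nat_lit 0) (XT.nd (nat_lit 78) (nat_lit 532) (nat_lit 0) (XT.lf (nat_lit 0) (nat_lit 12399120423) (nat_lit 380) (nat_lit 3680343980) (nat_lit 76) (nat_lit 9558652342) (nat_lit 81) (nat_lit 5) (nat_lit 86) (nat_lit 5) (nat_lit 82) (nat_lit 5) (nat_lit 371) (nat_lit 355) (nat_lit 294)) (XT.nd (nat_lit 78) (nat_lit 304) (nat_lit 0) (XT.lf (nat_lit 0) (nat_lit 20154694988) (nat_lit 228) (nat_lit 331181288) (nat_lit 304) (nat_lit 6373823367) (nat_lit 78) (nat_lit 5) (nat_lit 81) (nat_lit 5) (nat_lit 82) (nat_lit 5) (nat_lit 372) (nat_lit 355) (nat_lit 293)) (XT.lf (nat_lit 0) (nat_lit 1603255138) (nat_lit 304) (nat_lit 10035199386) (nat_lit 76) (nat_lit 16509950844) (nat_lit 74) (nat_lit 5) (nat_lit 78) (nat_lit 5) (nat_lit 75) (nat_lit 5) (nat_lit 373) (nat_lit 355) (nat_lit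 292)))) (XT.nd (nat_lit 156) (nat_lit 456) (nat_lit 0) (XT.nd (nat_lit 78) (nat_lit 228) (nat_lit 0) (XT.lf (nat_lit 0) (nat_lit 10438592310) (nat_lit 304) (nat_lit 13616902624) (nat_lit 76) (nat_lit 5457325864) (nat_lit 71) (nat_lit 5) (nat_lit 75) (nat_lit 5) (nat_lit 72) (nat_lit 5) (nat_lit 374) (nat_lit 355) (nat_lit 291)) (XT.lf (nat_lit 0) (nat_lit 13484791662) (nat_lit 228) (nat_lit 7059898961) (nat_lit 304) (nat_lit 10413509259) (nat_lit 68) (nat_lit 5) (nat_lit 71) (nat_lit 5) (nat_lit 72) (nat_lit 5) (nat_lit 375) (nat_lit 355) (nat_lit 290))) (XT.nd (nat_lit 78) (nat_lit 304) (nat_lit 0) (XT.lf (nat_lit 0) (nat_lit 10871792582) (nat_lit 152) (nat_lit 21155072047) (nat_lit 228) (nat_lit 463971871) (nat_lit 66) (nat_lit 5) (nat_lit 68) (nat_lit 5) (nat_lit 69) (nat_lit 5) (nat_lit 376) (nat_lit 355) (nat_lit 289)) (XT.lf (nat_lit 0) (nat_lit 7917766304) (nat_lit 228) (nat_lit 2567826837)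 (nat_lit 304) (nat_lit 23625813666) (nat_lit 62) (nat_lit 5) (nat_lit 65) (nat_lit 5) (nat_lit 66) (nat_lit 5) (nat_lit 377) (nat_lit 355) (nat_lit 288))))))) (XT.nd (nat_lit 1014) (nat_lit 1292) (nat_lit 0) (XT.nd (nat_lit 468) (nat_lit 836) (nat_lit 0) (XT.nd (nat_lit 234) (nat_lit 532) (nat_lit 0) (XT.nd (nat_lit 78) (nat_lit 228) (nat_lit 0) (XT.lf (nat_lit 0) (nat_lit 4577620199) (nat_lit 152) (nat_lit 18426951607) (nat_lit 228) (nat_lit 12821190827) (nat_lit 60) (nat_lit 5) (nat_lit 62) (nat_lit 5) (nat_lit 63) (nat_lit 5) (nat_lit 378) (nat_lit 355) (nat_lit 287)) (XT.nd (nat_lit 78) (nat_lit 76) (nat_lit 0) (XT.lf (nat_lit 0) (nat_lit 1027818898) (nat_lit 152) (nat_lit 36021050624) (nat_lit 228) (nat_lit 602212355) (nat_lit 58) (nat_lit 5) (nat_lit 60) (nat_lit 5) (nat_lit 61) (nat_lit 5) (nat_lit 379) (nat_lit 355) (nat_lit 286)) (XT.lf (nat_lit 0) (nat_lit 13038430187) (nat_lit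 228) (nat_lit 3136895339) (nat_lit 76) (nat_lit 23394911854) (nat_lit 57) (nat_lit 5) (nat_lit 60) (nat_lit 5) (nat_lit 58) (nat_lit 5) (nat_lit 380) (nat_lit 355) (nat_lit 285)))) (XT.nd (nat_lit 78) (nat_lit 380) (nat_lit 0) (XT.lf (nat_lit 0) (nat_lit 28357008916) (nat_lit 228) (nat_lit 7623418083) (nat_lit 76) (nat_lit 5631619612) (nat_lit 55) (nat_lit 5) (nat_lit 58) (nat_lit 5) (nat_lit 56) (nat_lit 5) (nat_lit 381) (nat_lit 355) (nat_lit 284)) (XT.nd (nat_lit 78) (nat_lit 152) (nat_lit 0) (XT.lf (nat_lit 0) (nat_lit 1860920549) (nat_lit 228) (nat_lit 12729116242) (nat_lit 76) (nat_lit 29185734371) (nat_lit 52) (nat_lit 5) (nat_lit 55) (nat_lit 5) (nat_lit 53) (nat_lit 5) (nat_lit 382) (nat_lit 355) (nat_lit 283)) (XT.lf (nat_lit 0) (nat_lit 18425350092) (nat_lit 228) (nat_lit 18608913544) (nat_lit 76) (nat_lit 9032289255) (nat_lit 50) (nat_lit 5) (nat_lit 53) (nat_lit 5) (nat_lit 51)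 (nat_lit 5) (nat_lit 383) (nat_lit 355) (nat_lit 282))))) (XT.nd (nat_lit 234) (nat_lit 380) (nat_lit 0) (XT.nd (nat_lit 78) (nat_lit 304) (nat_lit 0) (XT.lf (nat_lit 0) (nat_lit 23255519681) (nat_lit 152) (nat_lit 13880084480) (nat_lit 228) (nat_lit 11363962568) (nat_lit 48) (nat_lit 5) (nat_lit 50) (nat_lit 5) (nat_lit 51) (nat_lit 5) (nat_lit 384) (nat_lit 355) (nat_lit 281)) (XT.nd (nat_lit 78) (nat_lit 152) (nat_lit 0) (XT.lf (nat_lit 0) (nat_lit 6806604193) (nat_lit 152) (nat_lit 32788350099) (nat_lit 76) (nat_lit 11487914025) (nat_lit 46) (nat_lit 5) (nat_lit 48) (nat_lit 5) (nat_lit 47) (nat_lit 5) (nat_lit 385) (nat_lit 355) (nat_lit 280)) (XT.lf (nat_lit 0) (nat_lit 12305308552) (nat_lit 152) (nat_lit 14592957716) (nat_lit 228) (nat_lit 26921976163) (nat_lit 44) (nat_lit 5) (nat_lit 46) (nat_lit 5) (nat_lit 47) (nat_lit 5) (nat_lit 386) (nat_lit 355) (nat_lit 279)))) (XT.nd (nat_lit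 156) (nat_lit 228) (nat_lit 0) (XT.nd (nat_lit 78) (nat_lit 76) (nat_lit 0) (XT.lf (nat_lit 0) (nat_lit 5376301477) (nat_lit 76) (nat_lit 44066785568) (nat_lit 152) (nat_lit 7291230471) (nat_lit 43) (nat_lit 5) (nat_lit 44) (nat_lit 5) (nat_lit 45) (nat_lit 4) (nat_lit 387) (nat_lit 355) (nat_lit 278)) (XT.lf (nat_lit 0) (nat_lit 14433873871) (nat_lit 152) (nat_lit 2840517852) (nat_lit 76) (nat_lit 42547815000) (nat_lit 42) (nat_lit 5) (nat_lit 44) (nat_lit 5) (nat_lit 43) (nat_lit 5) (nat_lit 388) (nat_lit 355) (nat_lit 277))) (XT.nd (nat_lit 78) (nat_lit 76) (nat_lit 0) (XT.lf (nat_lit 0) (nat_lit 38627901194) (nat_lit 228) (nat_lit 12259157815) (nat_lit 76) (nat_lit 12214775350) (nat_lit 40) (nat_lit 5) (nat_lit 43) (nat_lit 5) (nat_lit 41) (nat_lit 4) (nat_lit 389) (nat_lit 355) (nat_lit 276)) (XT.lf (nat_lit 0) (nat_lit 43356863932) (nat_lit 76) (nat_lit 22408382709) (nat_lit 152) (nat_lit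 828197528) (nat_lit 39) (nat_lit 5) (nat_lit 40) (nat_lit 5) (nat_lit 41) (nat_lit 4) (nat_lit 390) (nat_lit 355) (nat_lit 275)))))) (XT.nd (nat_lit 468) (nat_lit 532) (nat_lit 0) (XT.nd (nat_lit 234) (nat_lit 228) (nat_lit 0) (XT.nd (nat_lit 78) (nat_lit 304) (nat_lit 0) (XT.lf (nat_lit 0) (nat_lit 24807722092) (nat_lit 228) (nat_lit 36264433763) (nat_lit 76) (nat_lit 9228470783) (nat_lit 36) (nat_lit 5) (nat_lit 39) (nat_lit 5) (nat_lit 37) (nat_lit 4) (nat_lit 391) (nat_lit 355) (nat_lit 274)) (XT.nd (nat_lit 78) (nat_lit 228) (nat_lit 0) (XT.lf (nat_lit 0) (nat_lit 22747640666) (nat_lit 76) (nat_lit 30852647338) (nat_lit 152) (nat_lit 20646678852) (nat_lit 35) (nat_lit 5) (nat_lit 36) (nat_lit 5) (nat_lit 37) (nat_lit 4) (nat_lit 392) (nat_lit 355) (nat_lit 273)) (XT.lf (nat_lit 0) (nat_lit 6811803978) (nat_lit 228) (nat_lit 69030750179) (nat_lit 76) (nat_lit 2620501911) (nat_lit 32)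 (nat_lit 5) (nat_lit 35) (nat_lit 5) (nat_lit 33) (nat_lit 4) (nat_lit 393) (nat_lit 355) (nat_lit 272)))) (XT.nd (nat_lit 78) (nat_lit 228) (nat_lit 0) (XT.lf (nat_lit 0) (nat_lit 37175934468) (nat_lit 228) (nat_lit 6794640707) (nat_lit 76) (nat_lit 38957318505) (nat_lit 32) (nat_lit 5) (nat_lit 35) (nat_lit 5) (nat_lit 33) (nat_lit 4) (nat_lit 394) (nat_lit 355) (nat_lit 271)) (XT.nd (nat_lit 78) (nat_lit 152) (nat_lit 0) (XT.lf (nat_lit 0) (nat_lit 62401410530) (nat_lit 76) (nat_lit 8533373699) (nat_lit 152) (nat_lit 16766855718) (nat_lit 31) (nat_lit 5) (nat_lit 32) (nat_lit 5) (nat_lit 33) (nat_lit 4) (nat_lit 395) (nat_lit 355) (nat_lit 270)) (XT.lf (nat_lit 0) (nat_lit 15379451808) (nat_lit 152) (nat_lit 47542388063) (nat_lit 76) (nat_lit 29858715176) (nat_lit 29) (nat_lit 5) (nat_lit 31) (nat_lit 5) (nat_lit 30) (nat_lit 4) (nat_lit 396) (nat_lit 355) (nat_lit 269))))) (XT.nd (nat_lit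 234) (nat_lit 304) (nat_lit 0) (XT.nd (nat_lit 78) (nat_lit 152) (nat_lit 0) (XT.lf (nat_lit 0) (nat_lit 24411472583) (nat_lit 76) (nat_lit 26071243438) (nat_lit 152) (nat_lit 47720690844) (nat_lit 28) (nat_lit 5) (nat_lit 29) (nat_lit 5) (nat_lit 30) (nat_lit 4) (nat_lit 397) (nat_lit 355) (nat_lit 268)) (XT.nd (nat_lit 78) (nat_lit 152) (nat_lit 0) (XT.lf (nat_lit 0) (nat_lit 89442432567) (nat_lit 152) (nat_lit 442190270) (nat_lit 0) (nat_lit 14123055254) (nat_lit 28) (nat_lit 5) (nat_lit 30) (nat_lit 4) (nat_lit 28) (nat_lit 4) (nat_lit 398) (nat_lit 355) (nat_lit 267)) (XT.lf (nat_lit 0) (nat_lit 22286118508) (nat_lit 152) (nat_lit 29639228478) (nat_lit 76) (nat_lit 58248192897) (nat_lit 26) (nat_lit 5) (nat_lit 28) (nat_lit 5) (nat_lit 27) (nat_lit 4) (nat_lit 399) (nat_lit 355) (nat_lit 266)))) (XT.nd (nat_lit 156) (nat_lit 152) (nat_lit 0) (XT.nd (nat_lit 78) (nat_lit 76) (nat_lit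 0) (XT.lf (nat_lit 0) (nat_lit 52596636740) (nat_lit 76) (nat_lit 9807426005) (nat_lit 152) (nat_lit 54375231500) (nat_lit 25) (nat_lit 5) (nat_lit 26) (nat_lit 5) (nat_lit 27) (nat_lit 4) (nat_lit 400) (nat_lit 355) (nat_lit 265)) (XT.lf (nat_lit 0) (nat_lit 18598676335) (nat_lit 76) (nat_lit 88498127265) (nat_lit 76) (nat_lit 16748437926) (nat_lit 24) (nat_lit 4) (nat_lit 25) (nat_lit 5) (nat_lit 25) (nat_lit 4) (nat_lit 401) (nat_lit 355) (nat_lit 264))) (XT.nd (nat_lit 78) (nat_lit 76) (nat_lit 0) (XT.lf (nat_lit 0) (nat_lit 24419000234) (nat_lit 152) (nat_lit 21695572999) (nat_lit 76) (nat_lit 85278489467) (nat_lit 23) (nat_lit 5) (nat_lit 25) (nat_lit 5) (nat_lit 24) (nat_lit 4) (nat_lit 402) (nat_lit 355) (nat_lit 263)) (XT.lf (nat_lit 0) (nat_lit 69412749892) (nat_lit 152) (nat_lit 68991401380) (nat_lit 0) (nat_lit 1070845571) (nat_lit 22) (nat_lit 5) (nat_lit 24) (nat_lit 4) (nat_lit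 22) (nat_lit 4) (nat_lit 403) (nat_lit 355) (nat_lit 262))))))))
noncomputable def xc73 : XT := (XT.nd (nat_lit 2028) (nat_lit 152) (nat_lit 0) (XT.nd (nat_lit 1014) (nat_lit 456) (nat_lit 0) (XT.nd (nat_lit 468) (nat_lit 304) (nat_lit 0) (XT.nd (nat_lit 234) (nat_lit 228) (nat_lit 0) (XT.nd (nat_lit 78) (nat_lit 152) (nat_lit 0) (XT.lf (nat_lit 0) (nat_lit 22553793079) (nat_lit 76) (nat_lit 96960075557) (nat_lit 76) (nat_lit 28614224095) (nat_lit 21) (nat_lit 4) (nat_lit 22) (nat_lit 5) (nat_lit 22) (nat_lit 4) (nat_lit 404) (nat_lit 355) (nat_lit 261)) (XT.nd (nat_lit 78) (nat_lit 76) (nat_lit 0) (XT.lf (nat_lit 0) (nat_lit 16848460158) (nat_lit 152) (nat_lit 33810162894) (nat_lit 76) (nat_lit 106741421148) (nat_lit 20) (nat_lit 5) (nat_lit 22) (nat_lit 5) (nat_lit 21) (nat_lit 4) (nat_lit 405) (nat_lit 355) (nat_lit 260)) (XT.lf (nat_lit 0) (nat_lit 66013674465) (nat_lit 152) (nat_lit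 100407538762) (nat_lit 0) (nat_lit 915683745) (nat_lit 19) (nat_lit 5) (nat_lit 21) (nat_lit 4) (nat_lit 19) (nat_lit 4) (nat_lit 406) (nat_lit 355) (nat_lit 259)))) (XT.nd (nat_lit 78) (nat_lit 228) (nat_lit 0) (XT.lf (nat_lit 0) (nat_lit 120559724138) (nat_lit 152) (nat_lit 1977844013) (nat_lit 0) (nat_lit 55458749258) (nat_lit 19) (nat_lit 5) (nat_lit 21) (nat_lit 4) (nat_lit 19) (nat_lit 4) (nat_lit 407) (nat_lit 355) (nat_lit 258)) (XT.nd (nat_lit 78) (nat_lit 152) (nat_lit 0) (XT.lf (nat_lit 0) (nat_lit 107766030102) (nat_lit 76) (nat_lit 73381156626) (nat_lit 76) (nat_lit 8277418635) (nat_lit 18) (nat_lit 4) (nat_lit 19) (nat_lit 5) (nat_lit 19) (nat_lit 4) (nat_lit 408) (nat_lit 355) (nat_lit 257)) (XT.lf (nat_lit 0) (nat_lit 24674988921) (nat_lit 76) (nat_lit 19120760028) (nat_lit 152) (nat_lit 157915643578) (nat_lit 16) (nat_lit 5) (nat_lit 17) (nat_lit 5) (nat_lit 18) (nat_lit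 4) (nat_lit 409) (nat_lit 355) (nat_lit 256))))) (XT.nd (nat_lit 234) (nat_lit 228) (nat_lit 0) (XT.nd (nat_lit 78) (nat_lit 76) (nat_lit 0) (XT.lf (nat_lit 0) (nat_lit 101806286978) (nat_lit 152) (nat_lit 73266941047) (nat_lit 0) (nat_lit 39798034266) (nat_lit 16) (nat_lit 5) (nat_lit 18) (nat_lit 4) (nat_lit 16) (nat_lit 4) (nat_lit 410) (nat_lit 355) (nat_lit 255)) (XT.nd (nat_lit 78) (nat_lit 0) (nat_lit 0) (XT.lf (nat_lit 0) (nat_lit 39745543409) (nat_lit 76) (nat_lit 125650890934) (nat_lit 76) (nat_lit 63640549226) (nat_lit 15) (nat_lit 4) (nat_lit 16) (nat_lit 5) (nat_lit 16) (nat_lit 4) (nat_lit 411) (nat_lit 355) (nat_lit 254)) (XT.lf (nat_lit 0) (nat_lit 164407493339) (nat_lit 76) (nat_lit 70938566055) (nat_lit 76) (nat_lit 8926290091) (nat_lit 15) (nat_lit 4) (nat_lit 16) (nat_lit 5) (nat_lit 16) (nat_lit 4) (nat_lit 412) (nat_lit 355) (nat_lit 253)))) (XT.nd (nat_lit 156) (nat_lit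 76) (nat_lit 0) (XT.nd (nat_lit 78) (nat_lit 0) (nat_lit 0) (XT.lf (nat_lit 0) (nat_lit 38765976402) (nat_lit 76) (nat_lit 10395020350) (nat_lit 152) (nat_lit 211496313039) (nat_lit 13) (nat_lit 5) (nat_lit 14) (nat_lit 5) (nat_lit 15) (nat_lit 4) (nat_lit 413) (nat_lit 355) (nat_lit 252)) (XT.lf (nat_lit 0) (nat_lit 113855645432) (nat_lit 152) (nat_lit 109583399463) (nat_lit 0) (nat_lit 54793049952) (nat_lit 13) (nat_lit 5) (nat_lit 15) (nat_lit 4) (nat_lit 13) (nat_lit 4) (nat_lit 414) (nat_lit 355) (nat_lit 251))) (XT.nd (nat_lit 78) (nat_lit 0) (nat_lit 0) (XT.lf (nat_lit 0) (nat_lit 11908349604) (nat_lit 76) (nat_lit 172175339968) (nat_lit 76) (nat_lit 113111282131) (nat_lit 12) (nat_lit 4) (nat_lit 13) (nat_lit 5) (nat_lit 13) (nat_lit 4) (nat_lit 415) (nat_lit 355) (nat_lit 250)) (XT.lf (nat_lit 0) (nat_lit 147026234742) (nat_lit 76) (nat_lit 114809386889) (nat_lit 76) (nat_lit 55743975019)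 (nat_lit 12) (nat_lit 4) (nat_lit 13) (nat_lit 5) (nat_lit 13) (nat_lit 4) (nat_lit 416) (nat_lit 355) (nat_lit 249)))))) (XT.nd (nat_lit 468) (nat_lit 228) (nat_lit 0) (XT.nd (nat_lit 234) (nat_lit 76) (nat_lit 0) (XT.nd (nat_lit 78) (nat_lit 76) (nat_lit 0) (XT.lf (nat_lit 0) (nat_lit 6010833150) (nat_lit 152) (nat_lit 46744457648) (nat_lit 76) (nat_lit 286835002931) (nat_lit 11) (nat_lit 5) (nat_lit 13) (nat_lit 5) (nat_lit 12) (nat_lit 4) (nat_lit 417) (nat_lit 355) (nat_lit 248)) (XT.nd (nat_lit 78) (nat_lit 0) (nat_lit 0) (XT.lf (nat_lit 0) (nat_lit 72424602399) (nat_lit 152) (nat_lit 274638444264) (nat_lit 0) (nat_lit 16169529569) (nat_lit 10) (nat_lit 5) (nat_lit 12) (nat_lit 4) (nat_lit 10) (nat_lit 4) (nat_lit 418) (nat_lit 355) (nat_lit 247)) (XT.lf (nat_lit 0) (nat_lit 145865901648) (nat_lit 152) (nat_lit 153204813260) (nat_lit 0) (nat_lit 89609805127) (nat_lit 10) (nat_lit 5)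 (nat_lit 12) (nat_lit 4) (nat_lit 10) (nat_lit 4) (nat_lit 419) (nat_lit 355) (nat_lit 246)))) (XT.nd (nat_lit 78) (nat_lit 76) (nat_lit 0) (XT.lf (nat_lit 0) (nat_lit 225179978076) (nat_lit 152) (nat_lit 22061514024) (nat_lit 0) (nat_lit 168922933692) (nat_lit 10) (nat_lit 5) (nat_lit 12) (nat_lit 4) (nat_lit 10) (nat_lit 4) (nat_lit 420) (nat_lit 355) (nat_lit 245)) (XT.nd (nat_lit 78) (nat_lit 0) (nat_lit 0) (XT.lf (nat_lit 0) (nat_lit 123522076786) (nat_lit 76) (nat_lit 189243290027) (nat_lit 76) (nat_lit 132985367993) (nat_lit 9) (nat_lit 4) (nat_lit 10) (nat_lit 5) (nat_lit 10) (nat_lit 4) (nat_lit 421) (nat_lit 355) (nat_lit 244)) (XT.lf (nat_lit 0) (nat_lit 281535716274) (nat_lit 76) (nat_lit 126203931979) (nat_lit 76) (nat_lit 69945197305) (nat_lit 9) (nat_lit 4) (nat_lit 10) (nat_lit 5) (nat_lit 10) (nat_lit 4) (nat_lit 422) (nat_lit 355) (nat_lit 243))))) (XT.nd (nat_lit 234) (nat_lit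 76) (nat_lit 0) (XT.nd (nat_lit 78) (nat_lit 152) (nat_lit 0) (XT.lf (nat_lit 0) (nat_lit 452186328275) (nat_lit 76) (nat_lit 58123473803) (nat_lit 76) (nat_lit 1863986686) (nat_lit 9) (nat_lit 4) (nat_lit 10) (nat_lit 5) (nat_lit 10) (nat_lit 4) (nat_lit 423) (nat_lit 355) (nat_lit 242)) (XT.nd (nat_lit 78) (nat_lit 0) (nat_lit 0) (XT.lf (nat_lit 0) (nat_lit 71035812939) (nat_lit 152) (nat_lit 460792116566) (nat_lit 0) (nat_lit 17454685488) (nat_lit 7) (nat_lit 5) (nat_lit 9) (nat_lit 4) (nat_lit 7) (nat_lit 4) (nat_lit 424) (nat_lit 355) (nat_lit 241)) (XT.lf (nat_lit 0) (nat_lit 151743414864) (nat_lit 152) (nat_lit 339351475471) (nat_lit 0) (nat_lit 98161673032) (nat_lit 7) (nat_lit 5) (nat_lit 9) (nat_lit 4) (nat_lit 7) (nat_lit 4) (nat_lit 425) (nat_lit 355) (nat_lit 240)))) (XT.nd (nat_lit 156) (nat_lit 76) (nat_lit 0) (XT.nd (nat_lit 78) (nat_lit 0) (nat_lit 0) (XT.lf (nat_lit 0) (nat_lit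 238905874263) (nat_lit 152) (nat_lit 208199077389) (nat_lit 0) (nat_lit 185323563561) (nat_lit 7) (nat_lit 5) (nat_lit 9) (nat_lit 4) (nat_lit 7) (nat_lit 4) (nat_lit 426) (nat_lit 355) (nat_lit 239)) (XT.lf (nat_lit 0) (nat_lit 333039709415) (nat_lit 152) (nat_lit 66557722923) (nat_lit 0) (nat_lit 279456871981) (nat_lit 7) (nat_lit 5) (nat_lit 9) (nat_lit 4) (nat_lit 7) (nat_lit 4) (nat_lit 427) (nat_lit 355) (nat_lit 238))) (XT.nd (nat_lit 78) (nat_lit 0) (nat_lit 0) (XT.lf (nat_lit 0) (nat_lit 89269113220) (nat_lit 76) (nat_lit 346827378267) (nat_lit 76) (nat_lit 293244053119) (nat_lit 6) (nat_lit 4) (nat_lit 7) (nat_lit 5) (nat_lit 7) (nat_lit 4) (nat_lit 428) (nat_lit 355) (nat_lit 237)) (XT.lf (nat_lit 0) (nat_lit 259935985466) (nat_lit 76) (nat_lit 288619788768) (nat_lit 76) (nat_lit 235036012031) (nat_lit 6) (nat_lit 4) (nat_lit 7) (nat_lit 5) (nat_lit 7) (nat_lit 4) (nat_lit 429)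 (nat_lit 355) (nat_lit 236))))))) (XT.nd (nat_lit 47814) (nat_lit 0) (nat_lit 5092) (XT.nd (nat_lit 468) (nat_lit 0) (nat_lit 0) (XT.nd (nat_lit 234) (nat_lit 152) (nat_lit 0) (XT.nd (nat_lit 78) (nat_lit 0) (nat_lit 0) (XT.lf (nat_lit 0) (nat_lit 444253554153) (nat_lit 76) (nat_lit 225756917219) (nat_lit 76) (nat_lit 172172722346) (nat_lit 6) (nat_lit 4) (nat_lit 7) (nat_lit 5) (nat_lit 7) (nat_lit 4) (nat_lit 430) (nat_lit 355) (nat_lit 235)) (XT.nd (nat_lit 78) (nat_lit 0) (nat_lit 0) (XT.lf (nat_lit 0) (nat_lit 643314071541) (nat_lit 76) (nat_lit 157866242900) (nat_lit 76) (nat_lit 104281660863) (nat_lit 6) (nat_lit 4) (nat_lit 7) (nat_lit 5) (nat_lit 7) (nat_lit 4) (nat_lit 431) (nat_lit 355) (nat_lit 234)) (XT.lf (nat_lit 0) (nat_lit 858297155510) (nat_lit 76) (nat_lit 84545450705) (nat_lit 76) (nat_lit 30960510183) (nat_lit 6) (nat_lit 4) (nat_lit 7) (nat_lit 5) (nat_lit 7) (nat_lit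 4) (nat_lit 432) (nat_lit 355) (nat_lit 233)))) (XT.nd (nat_lit 78) (nat_lit 0) (nat_lit 0) (XT.lf (nat_lit 0) (nat_lit 43504668517) (nat_lit 76) (nat_lit 3856278297) (nat_lit 152) (nat_lit 1000179046689) (nat_lit 4) (nat_lit 5) (nat_lit 5) (nat_lit 5) (nat_lit 6) (nat_lit 4) (nat_lit 433) (nat_lit 355) (nat_lit 232)) (XT.nd (nat_lit 78) (nat_lit 0) (nat_lit 0) (XT.lf (nat_lit 0) (nat_lit 134222259113) (nat_lit 152) (nat_lit 909571868426) (nat_lit 0) (nat_lit 83188373593) (nat_lit 4) (nat_lit 5) (nat_lit 6) (nat_lit 4) (nat_lit 4) (nat_lit 4) (nat_lit 434) (nat_lit 355) (nat_lit 231)) (XT.lf (nat_lit 0) (nat_lit 228096537046) (nat_lit 152) (nat_lit 807618288826) (nat_lit 0) (nat_lit 177062380500) (nat_lit 4) (nat_lit 5) (nat_lit 6) (nat_lit 4) (nat_lit 4) (nat_lit 4) (nat_lit 435) (nat_lit 355) (nat_lit 230))))) (XT.nd (nat_lit 47034) (nat_lit 0) (nat_lit 8740) (XT.nd (nat_lit 46878) (nat_lit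 0) (nat_lit 9500) (XT.lf (nat_lit 0) (nat_lit 329479865318) (nat_lit 152) (nat_lit 697510209515) (nat_lit 0) (nat_lit 278445457823) (nat_lit 4) (nat_lit 5) (nat_lit 6) (nat_lit 4) (nat_lit 4) (nat_lit 4) (nat_lit 436) (nat_lit 355) (nat_lit 229)) (XT.nd (nat_lit 78) (nat_lit 0) (nat_lit 0) (XT.lf (nat_lit 0) (nat_lit 3379328706) (nat_lit 0) (nat_lit 3379328706) (nat_lit 684) (nat_lit 321843050) (nat_lit 129) (nat_lit 5) (nat_lit 129) (nat_lit 3) (nat_lit 138) (nat_lit 3) (nat_lit 356) (nat_lit 356) (nat_lit 308)) (XT.lf (nat_lit 76) (nat_lit 3671357433) (nat_lit 0) (nat_lit 11010437159) (nat_lit 760) (nat_lit 14160347) (nat_lit 130) (nat_lit 5) (nat_lit 129) (nat_lit 5) (nat_lit 139) (nat_lit 5) (nat_lit 357) (nat_lit 356) (nat_lit 307)))) (XT.nd (nat_lit 156) (nat_lit 0) (nat_lit 152) (XT.nd (nat_lit 78) (nat_lit 0) (nat_lit 76) (XT.lf (nat_lit 76) (nat_lit 486063372) (nat_lit 0) (nat_lit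 359223653) (nat_lit 836) (nat_lit 14417883476) (nat_lit 120) (nat_lit 5) (nat_lit 119) (nat_lit 5) (nat_lit 130) (nat_lit 5) (nat_lit 358) (nat_lit 356) (nat_lit 306)) (XT.lf (nat_lit 0) (nat_lit 2094098244) (nat_lit 760) (nat_lit 2764717830) (nat_lit 836) (nat_lit 11000906591) (nat_lit 120) (nat_lit 5) (nat_lit 130) (nat_lit 5) (nat_lit 131) (nat_lit 5) (nat_lit 359) (nat_lit 356) (nat_lit 305))) (XT.nd (nat_lit 78) (nat_lit 0) (nat_lit 76) (XT.lf (nat_lit 0) (nat_lit 3676784933) (nat_lit 760) (nat_lit 6097184907) (nat_lit 836) (nat_lit 6718354869) (nat_lit 121) (nat_lit 5) (nat_lit 131) (nat_lit 5) (nat_lit 132) (nat_lit 5) (nat_lit 360) (nat_lit 356) (nat_lit 304)) (XT.lf (nat_lit 0) (nat_lit 5627481207) (nat_lit 760) (nat_lit 9532464588) (nat_lit 836) (nat_lit 2003541828) (nat_lit 122) (nat_lit 5) (nat_lit 132) (nat_lit 5) (nat_lit 133) (nat_lit 5) (nat_lit 361) (nat_lit 356) (nat_lit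 303)))))) (XT.nd (nat_lit 546) (nat_lit 1672) (nat_lit 0) (XT.nd (nat_lit 234) (nat_lit 1520) (nat_lit 0) (XT.nd (nat_lit 78) (nat_lit 684) (nat_lit 0) (XT.lf (nat_lit 76) (nat_lit 4745729153) (nat_lit 0) (nat_lit 3296637149) (nat_lit 836) (nat_lit 9830591388) (nat_lit 123) (nat_lit 5) (nat_lit 122) (nat_lit 5) (nat_lit 133) (nat_lit 5) (nat_lit 362) (nat_lit 356) (nat_lit 302)) (XT.nd (nat_lit 78) (nat_lit 0) (nat_lit 0) (XT.lf (nat_lit 0) (nat_lit 1748010038) (nat_lit 760) (nat_lit 9210829526) (nat_lit 836) (nat_lit 7664945171) (nat_lit 113) (nat_lit 5) (nat_lit 123) (nat_lit 5) (nat_lit 124) (nat_lit 5) (nat_lit 363) (nat_lit 356) (nat_lit 301)) (XT.lf (nat_lit 0) (nat_lit 14417843635) (nat_lit 836) (nat_lit 1288443031) (nat_lit 76) (nat_lit 3712948442) (nat_lit 113) (nat_lit 5) (nat_lit 124) (nat_lit 5) (nat_lit 114) (nat_lit 5) (nat_lit 364) (nat_lit 356) (nat_lit 300)))) (XT.nd (nat_lit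 156) (nat_lit 684) (nat_lit 0) (XT.nd (nat_lit 78) (nat_lit 456) (nat_lit 0) (XT.lf (nat_lit 0) (nat_lit 15868160136) (nat_lit 380) (nat_lit 2656999430) (nat_lit 456) (nat_lit 1734598860) (nat_lit 108) (nat_lit 5) (nat_lit 113) (nat_lit 5) (nat_lit 114) (nat_lit 5) (nat_lit 365) (nat_lit 356) (nat_lit 299)) (XT.lf (nat_lit 0) (nat_lit 2124940905) (nat_lit 456) (nat_lit 7683105311) (nat_lit 76) (nat_lit 11338651427) (nat_lit 102) (nat_lit 5) (nat_lit 108) (nat_lit 5) (nat_lit 103) (nat_lit 5) (nat_lit 366) (nat_lit 356) (nat_lit 298))) (XT.nd (nat_lit 78) (nat_lit 304) (nat_lit 0) (XT.lf (nat_lit 0) (nat_lit 6571134508) (nat_lit 456) (nat_lit 11109294108) (nat_lit 76) (nat_lit 4405821917) (nat_lit 97) (nat_lit 5) (nat_lit 103) (nat_lit 5) (nat_lit 98) (nat_lit 5) (nat_lit 367) (nat_lit 356) (nat_lit 297)) (XT.lf (nat_lit 0) (nat_lit 8380457864) (nat_lit 304) (nat_lit 3398120742) (nat_lit 380)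 (nat_lit 11302123768) (nat_lit 93) (nat_lit 5) (nat_lit 97) (nat_lit 5) (nat_lit 98) (nat_lit 5) (nat_lit 368) (nat_lit 356) (nat_lit 296))))) (XT.nd (nat_lit 234) (nat_lit 1064) (nat_lit 0) (XT.nd (nat_lit 78) (nat_lit 304) (nat_lit 0) (XT.lf (nat_lit 0) (nat_lit 5640649585) (nat_lit 304) (nat_lit 12209269474) (nat_lit 380) (nat_lit 6282437808) (nat_lit 89) (nat_lit 5) (nat_lit 93) (nat_lit 5) (nat_lit 94) (nat_lit 5) (nat_lit 369) (nat_lit 356) (nat_lit 295)) (XT.nd (nat_lit 78) (nat_lit 76) (nat_lit 0) (XT.lf (nat_lit 0) (nat_lit 2830421759) (nat_lit 228) (nat_lit 21961680022) (nat_lit 304) (nat_lit 456795877) (nat_lit 86) (nat_lit 5) (nat_lit 89) (nat_lit 5) (nat_lit 90) (nat_lit 5) (nat_lit 370) (nat_lit 356) (nat_lit 294)) (XT.lf (nat_lit 0) (nat_lit 6158470946) (nat_lit 304) (nat_lit 251551465) (nat_lit 76) (nat_lit 20014677439) (nat_lit 85) (nat_lit 5) (nat_lit 89) (nat_lit 5) (nat_lit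 86) (nat_lit 5) (nat_lit 371) (nat_lit 356) (nat_lit 293)))) (XT.nd (nat_lit 156) (nat_lit 532) (nat_lit 0) (XT.nd (nat_lit 78) (nat_lit 228) (nat_lit 0) (XT.lf (nat_lit 0) (nat_lit 13815884265) (nat_lit 380) (nat_lit 3408615425) (nat_lit 76) (nat_lit 10443254382) (nat_lit 81) (nat_lit 5) (nat_lit 86) (nat_lit 5) (nat_lit 82) (nat_lit 5) (nat_lit 372) (nat_lit 356) (nat_lit 292)) (XT.lf (nat_lit 0) (nat_lit 22308622207) (nat_lit 228) (nat_lit 217944317) (nat_lit 304) (nat_lit 6461660396) (nat_lit 78) (nat_lit 5) (nat_lit 81) (nat_lit 5) (nat_lit 82) (nat_lit 5) (nat_lit 373) (nat_lit 356) (nat_lit 291))) (XT.nd (nat_lit 78) (nat_lit 228) (nat_lit 0) (XT.lf (nat_lit 0) (nat_lit 2120359477) (nat_lit 304) (nat_lit 10289720980) (nat_lit 76) (nat_lit 17970616090) (nat_lit 74) (nat_lit 5) (nat_lit 78) (nat_lit 5) (nat_lit 75) (nat_lit 5) (nat_lit 374) (nat_lit 356) (nat_lit 290)) (XT.lf (nat_lit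 0) (nat_lit 11644348054) (nat_lit 304) (nat_lit 14165687774) (nat_lit 76) (nat_lit 6045148462) (nat_lit 71) (nat_lit 5) (nat_lit 75) (nat_lit 5) (nat_lit 72) (nat_lit 5) (nat_lit 375) (nat_lit 356) (nat_lit 289))))))))
noncomputable def xc74 : XT := (XT.nd (nat_lit 2028) (nat_lit 1368) (nat_lit 0) (XT.nd (nat_lit 1014) (nat_lit 1368) (nat_lit 0) (XT.nd (nat_lit 468) (nat_lit 1064) (nat_lit 0) (XT.nd (nat_lit 234) (nat_lit 380) (nat_lit 0) (XT.nd (nat_lit 78) (nat_lit 456) (nat_lit 0) (XT.lf (nat_lit 0) (nat_lit 15080649669) (nat_lit 228) (nat_lit 7458900633) (nat_lit 304) (nat_lit 10877622133) (nat_lit 68) (nat_lit 5) (nat_lit 71) (nat_lit 5) (nat_lit 72) (nat_lit 5) (nat_lit 376) (nat_lit 356) (nat_lit 288)) (XT.nd (nat_lit 78) (nat_lit 304) (nat_lit 0) (XT.lf (nat_lit 0) (nat_lit 12250578205) (nat_lit 152) (nat_lit 22674043244) (nat_lit 228) (nat_lit 148591204) (nat_lit 66) (nat_lit 5)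 (nat_lit 68) (nat_lit 5) (nat_lit 69) (nat_lit 5) (nat_lit 377) (nat_lit 356) (nat_lit 287)) (XT.lf (nat_lit 0) (nat_lit 9048999872) (nat_lit 228) (nat_lit 2599153952) (nat_lit 304) (nat_lit 25175882525) (nat_lit 62) (nat_lit 5) (nat_lit 65) (nat_lit 5) (nat_lit 66) (nat_lit 5) (nat_lit 378) (nat_lit 356) (nat_lit 286)))) (XT.nd (nat_lit 78) (nat_lit 228) (nat_lit 0) (XT.lf (nat_lit 0) (nat_lit 5432983083) (nat_lit 152) (nat_lit 19721842823) (nat_lit 228) (nat_lit 13521413190) (nat_lit 60) (nat_lit 5) (nat_lit 62) (nat_lit 5) (nat_lit 63) (nat_lit 5) (nat_lit 379) (nat_lit 356) (nat_lit 285)) (XT.nd (nat_lit 78) (nat_lit 76) (nat_lit 0) (XT.lf (nat_lit 0) (nat_lit 1590169742) (nat_lit 152) (nat_lit 38719630613) (nat_lit 228) (nat_lit 338433555) (nat_lit 58) (nat_lit 5) (nat_lit 60) (nat_lit 5) (nat_lit 61) (nat_lit 5) (nat_lit 380) (nat_lit 356) (nat_lit 284)) (XT.lf (nat_lit 0) (nat_lit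 14361107616) (nat_lit 228) (nat_lit 2933967943) (nat_lit 76) (nat_lit 25426727068) (nat_lit 57) (nat_lit 5) (nat_lit 60) (nat_lit 5) (nat_lit 58) (nat_lit 5) (nat_lit 381) (nat_lit 356) (nat_lit 283))))) (XT.nd (nat_lit 234) (nat_lit 532) (nat_lit 0) (XT.nd (nat_lit 78) (nat_lit 380) (nat_lit 0) (XT.lf (nat_lit 0) (nat_lit 30893870176) (nat_lit 228) (nat_lit 7788416398) (nat_lit 76) (nat_lit 6245240597) (nat_lit 55) (nat_lit 5) (nat_lit 58) (nat_lit 5) (nat_lit 56) (nat_lit 5) (nat_lit 382) (nat_lit 356) (nat_lit 282)) (XT.nd (nat_lit 78) (nat_lit 152) (nat_lit 0) (XT.lf (nat_lit 0) (nat_lit 2269107075) (nat_lit 228) (nat_lit 13313269996) (nat_lit 76) (nat_lit 31682430051) (nat_lit 52) (nat_lit 5) (nat_lit 55) (nat_lit 5) (nat_lit 53) (nat_lit 5) (nat_lit 383) (nat_lit 356) (nat_lit 281)) (XT.lf (nat_lit 0) (nat_lit 20148600887) (nat_lit 228) (nat_lit 19672568916) (nat_lit 76) (nat_lit 9918190541)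 (nat_lit 50) (nat_lit 5) (nat_lit 53) (nat_lit 5) (nat_lit 51) (nat_lit 5) (nat_lit 384) (nat_lit 356) (nat_lit 280)))) (XT.nd (nat_lit 156) (nat_lit 228) (nat_lit 0) (XT.nd (nat_lit 78) (nat_lit 152) (nat_lit 0) (XT.lf (nat_lit 0) (nat_lit 25522546476) (nat_lit 152) (nat_lit 14821015792) (nat_lit 228) (nat_lit 12024062793) (nat_lit 48) (nat_lit 5) (nat_lit 50) (nat_lit 5) (nat_lit 51) (nat_lit 5) (nat_lit 385) (nat_lit 356) (nat_lit 279)) (XT.lf (nat_lit 0) (nat_lit 7583126236) (nat_lit 152) (nat_lit 35005927848) (nat_lit 76) (nat_lit 12568798584) (nat_lit 46) (nat_lit 5) (nat_lit 48) (nat_lit 5) (nat_lit 47) (nat_lit 5) (nat_lit 386) (nat_lit 356) (nat_lit 278))) (XT.nd (nat_lit 78) (nat_lit 76) (nat_lit 0) (XT.lf (nat_lit 0) (nat_lit 13677601383) (nat_lit 152) (nat_lit 15593390884) (nat_lit 228) (nat_lit 28843784260) (nat_lit 44) (nat_lit 5) (nat_lit 46) (nat_lit 5) (nat_lit 47) (nat_lit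 5) (nat_lit 387) (nat_lit 356) (nat_lit 277)) (XT.lf (nat_lit 0) (nat_lit 6185526932) (nat_lit 76) (nat_lit 47425844824) (nat_lit 152) (nat_lit 7651010326) (nat_lit 43) (nat_lit 5) (nat_lit 44) (nat_lit 5) (nat_lit 45) (nat_lit 4) (nat_lit 388) (nat_lit 356) (nat_lit 276)))))) (XT.nd (nat_lit 468) (nat_lit 532) (nat_lit 0) (XT.nd (nat_lit 234) (nat_lit 532) (nat_lit 0) (XT.nd (nat_lit 78) (nat_lit 228) (nat_lit 0) (XT.lf (nat_lit 0) (nat_lit 15788921367) (nat_lit 152) (nat_lit 2710062593) (nat_lit 76) (nat_lit 46098948076) (nat_lit 42) (nat_lit 5) (nat_lit 44) (nat_lit 5) (nat_lit 43) (nat_lit 5) (nat_lit 389) (nat_lit 356) (nat_lit 275)) (XT.nd (nat_lit 78) (nat_lit 76) (nat_lit 0) (XT.lf (nat_lit 0) (nat_lit 41911335403) (nat_lit 228) (nat_lit 12890527431) (nat_lit 76) (nat_lit 13338426367) (nat_lit 40) (nat_lit 5) (nat_lit 43) (nat_lit 5) (nat_lit 41) (nat_lit 4) (nat_lit 390) (nat_lit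 356) (nat_lit 274)) (XT.lf (nat_lit 0) (nat_lit 47159593165) (nat_lit 76) (nat_lit 24050981541) (nat_lit 152) (nat_lit 701110134) (nat_lit 39) (nat_lit 5) (nat_lit 40) (nat_lit 5) (nat_lit 41) (nat_lit 4) (nat_lit 391) (nat_lit 356) (nat_lit 273)))) (XT.nd (nat_lit 78) (nat_lit 304) (nat_lit 0) (XT.lf (nat_lit 0) (nat_lit 26973013750) (nat_lit 228) (nat_lit 38833339232) (nat_lit 76) (nat_lit 10109264125) (nat_lit 36) (nat_lit 5) (nat_lit 39) (nat_lit 5) (nat_lit 37) (nat_lit 4) (nat_lit 392) (nat_lit 356) (nat_lit 272)) (XT.nd (nat_lit 78) (nat_lit 228) (nat_lit 0) (XT.lf (nat_lit 0) (nat_lit 24885262004) (nat_lit 76) (nat_lit 33175301586) (nat_lit 152) (nat_lit 22117523944) (nat_lit 35) (nat_lit 5) (nat_lit 36) (nat_lit 5) (nat_lit 37) (nat_lit 4) (nat_lit 393) (nat_lit 356) (nat_lit 271)) (XT.lf (nat_lit 0) (nat_lit 7525936981) (nat_lit 228) (nat_lit 74237508870) (nat_lit 76) (nat_lit 2968174066)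 (nat_lit 32) (nat_lit 5) (nat_lit 35) (nat_lit 5) (nat_lit 33) (nat_lit 4) (nat_lit 394) (nat_lit 356) (nat_lit 270))))) (XT.nd (nat_lit 234) (nat_lit 304) (nat_lit 0) (XT.nd (nat_lit 78) (nat_lit 228) (nat_lit 0) (XT.lf (nat_lit 0) (nat_lit 40306665415) (nat_lit 228) (nat_lit 7045895924) (nat_lit 76) (nat_lit 42201711394) (nat_lit 32) (nat_lit 5) (nat_lit 35) (nat_lit 5) (nat_lit 33) (nat_lit 4) (nat_lit 395) (nat_lit 356) (nat_lit 269)) (XT.nd (nat_lit 78) (nat_lit 152) (nat_lit 0) (XT.lf (nat_lit 0) (nat_lit 67673135713) (nat_lit 76) (nat_lit 9085848813) (nat_lit 152) (nat_lit 17951297561) (nat_lit 31) (nat_lit 5) (nat_lit 32) (nat_lit 5) (nat_lit 33) (nat_lit 4) (nat_lit 396) (nat_lit 356) (nat_lit 268)) (XT.lf (nat_lit 0) (nat_lit 16756681942) (nat_lit 152) (nat_lit 51068226808) (nat_lit 76) (nat_lit 32370730971) (nat_lit 29) (nat_lit 5) (nat_lit 31) (nat_lit 5) (nat_lit 30) (nat_lit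 4) (nat_lit 397) (nat_lit 356) (nat_lit 267)))) (XT.nd (nat_lit 156) (nat_lit 228) (nat_lit 0) (XT.nd (nat_lit 78) (nat_lit 0) (nat_lit 0) (XT.lf (nat_lit 0) (nat_lit 26629880605) (nat_lit 76) (nat_lit 28031592179) (nat_lit 152) (nat_lit 51391184814) (nat_lit 28) (nat_lit 5) (nat_lit 29) (nat_lit 5) (nat_lit 30) (nat_lit 4) (nat_lit 398) (nat_lit 356) (nat_lit 266)) (XT.lf (nat_lit 0) (nat_lit 96729398059) (nat_lit 152) (nat_lit 227051644) (nat_lit 0) (nat_lit 15365250349) (nat_lit 28) (nat_lit 5) (nat_lit 30) (nat_lit 4) (nat_lit 28) (nat_lit 4) (nat_lit 399) (nat_lit 356) (nat_lit 265))) (XT.nd (nat_lit 78) (nat_lit 76) (nat_lit 0) (XT.lf (nat_lit 0) (nat_lit 24196644908) (nat_lit 152) (nat_lit 31766507563) (nat_lit 76) (nat_lit 63017876637) (nat_lit 26) (nat_lit 5) (nat_lit 28) (nat_lit 5) (nat_lit 27) (nat_lit 4) (nat_lit 400) (nat_lit 356) (nat_lit 264)) (XT.lf (nat_lit 0) (nat_lit 57037629049)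 (nat_lit 76) (nat_lit 10480582913) (nat_lit 152) (nat_lit 58597323392) (nat_lit 25) (nat_lit 5) (nat_lit 26) (nat_lit 5) (nat_lit 27) (nat_lit 4) (nat_lit 401) (nat_lit 356) (nat_lit 263))))))) (XT.nd (nat_lit 1014) (nat_lit 456) (nat_lit 0) (XT.nd (nat_lit 468) (nat_lit 456) (nat_lit 0) (XT.nd (nat_lit 234) (nat_lit 228) (nat_lit 0) (XT.nd (nat_lit 78) (nat_lit 152) (nat_lit 0) (XT.lf (nat_lit 0) (nat_lit 20313867548) (nat_lit 76) (nat_lit 95468640236) (nat_lit 76) (nat_lit 17964444679) (nat_lit 24) (nat_lit 4) (nat_lit 25) (nat_lit 5) (nat_lit 25) (nat_lit 4) (nat_lit 402) (nat_lit 356) (nat_lit 262)) (XT.nd (nat_lit 78) (nat_lit 76) (nat_lit 0) (XT.lf (nat_lit 0) (nat_lit 26483542218) (nat_lit 152) (nat_lit 23217078505) (nat_lit 76) (nat_lit 92198326733) (nat_lit 23) (nat_lit 5) (nat_lit 25) (nat_lit 5) (nat_lit 24) (nat_lit 4) (nat_lit 403) (nat_lit 356) (nat_lit 261)) (XT.lf (nat_lit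 0) (nat_lit 75073309170) (nat_lit 152) (nat_lit 74302114281) (nat_lit 0) (nat_lit 1252187692) (nat_lit 22) (nat_lit 5) (nat_lit 24) (nat_lit 4) (nat_lit 22) (nat_lit 4) (nat_lit 404) (nat_lit 356) (nat_lit 260)))) (XT.nd (nat_lit 78) (nat_lit 152) (nat_lit 0) (XT.lf (nat_lit 0) (nat_lit 24557630268) (nat_lit 76) (nat_lit 104620036553) (nat_lit 76) (nat_lit 30795531039) (nat_lit 21) (nat_lit 4) (nat_lit 22) (nat_lit 5) (nat_lit 22) (nat_lit 4) (nat_lit 405) (nat_lit 356) (nat_lit 259)) (XT.nd (nat_lit 78) (nat_lit 76) (nat_lit 0) (XT.lf (nat_lit 0) (nat_lit 18292984859) (nat_lit 152) (nat_lit 36327019918) (nat_lit 76) (nat_lit 115367203638) (nat_lit 20) (nat_lit 5) (nat_lit 22) (nat_lit 5) (nat_lit 21) (nat_lit 4) (nat_lit 406) (nat_lit 356) (nat_lit 258)) (XT.lf (nat_lit 0) (nat_lit 71388430191) (nat_lit 152) (nat_lit 108257098986) (nat_lit 0) (nat_lit 1073630051) (nat_lit 19) (nat_lit 5)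 (nat_lit 21) (nat_lit 4) (nat_lit 19) (nat_lit 4) (nat_lit 407) (nat_lit 356) (nat_lit 257))))) (XT.nd (nat_lit 234) (nat_lit 228) (nat_lit 0) (XT.nd (nat_lit 78) (nat_lit 228) (nat_lit 0) (XT.lf (nat_lit 0) (nat_lit 130291225929) (nat_lit 152) (nat_lit 1966587388) (nat_lit 0) (nat_lit 59973867353) (nat_lit 19) (nat_lit 5) (nat_lit 21) (nat_lit 4) (nat_lit 19) (nat_lit 4) (nat_lit 408) (nat_lit 356) (nat_lit 256)) (XT.nd (nat_lit 78) (nat_lit 152) (nat_lit 0) (XT.lf (nat_lit 0) (nat_lit 116549431082) (nat_lit 76) (nat_lit 79172361579) (nat_lit 76) (nat_lit 8852634082) (nat_lit 18) (nat_lit 4) (nat_lit 19) (nat_lit 5) (nat_lit 19) (nat_lit 4) (nat_lit 409) (nat_lit 356) (nat_lit 255)) (XT.lf (nat_lit 0) (nat_lit 26806728998) (nat_lit 76) (nat_lit 20573100240) (nat_lit 152) (nat_lit 170464448823) (nat_lit 16) (nat_lit 5) (nat_lit 17) (nat_lit 5) (nat_lit 18) (nat_lit 4) (nat_lit 410) (nat_lit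 356) (nat_lit 254)))) (XT.nd (nat_lit 156) (nat_lit 152) (nat_lit 0) (XT.nd (nat_lit 78) (nat_lit 76) (nat_lit 0) (XT.lf (nat_lit 0) (nat_lit 110026371015) (nat_lit 152) (nat_lit 78979629998) (nat_lit 0) (nat_lit 43051178718) (nat_lit 16) (nat_lit 5) (nat_lit 18) (nat_lit 4) (nat_lit 16) (nat_lit 4) (nat_lit 411) (nat_lit 356) (nat_lit 253)) (XT.lf (nat_lit 0) (nat_lit 43067392357) (nat_lit 76) (nat_lit 135632959440) (nat_lit 76) (nat_lit 68655976165) (nat_lit 15) (nat_lit 4) (nat_lit 16) (nat_lit 5) (nat_lit 16) (nat_lit 4) (nat_lit 412) (nat_lit 356) (nat_lit 252))) (XT.nd (nat_lit 78) (nat_lit 152) (nat_lit 0) (XT.lf (nat_lit 0) (nat_lit 177691764543) (nat_lit 76) (nat_lit 76548833960) (nat_lit 76) (nat_lit 9570192374) (nat_lit 15) (nat_lit 4) (nat_lit 16) (nat_lit 5) (nat_lit 16) (nat_lit 4) (nat_lit 413) (nat_lit 356) (nat_lit 251)) (XT.lf (nat_lit 0) (nat_lit 41995356687) (nat_lit 76)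 (nat_lit 11163440263) (nat_lit 152) (nat_lit 228347848208) (nat_lit 13) (nat_lit 5) (nat_lit 14) (nat_lit 5) (nat_lit 15) (nat_lit 4) (nat_lit 414) (nat_lit 356) (nat_lit 250)))))) (XT.nd (nat_lit 468) (nat_lit 228) (nat_lit 0) (XT.nd (nat_lit 234) (nat_lit 152) (nat_lit 0) (XT.nd (nat_lit 78) (nat_lit 76) (nat_lit 0) (XT.lf (nat_lit 0) (nat_lit 123025121975) (nat_lit 152) (nat_lit 118229362951) (nat_lit 0) (nat_lit 59233123120) (nat_lit 13) (nat_lit 5) (nat_lit 15) (nat_lit 4) (nat_lit 13) (nat_lit 4) (nat_lit 415) (nat_lit 356) (nat_lit 249)) (XT.nd (nat_lit 78) (nat_lit 0) (nat_lit 0) (XT.lf (nat_lit 0) (nat_lit 12976480198) (nat_lit 76) (nat_lit 185892211779) (nat_lit 76) (nat_lit 122098959190) (nat_lit 12) (nat_lit 4) (nat_lit 13) (nat_lit 5) (nat_lit 13) (nat_lit 4) (nat_lit 416) (nat_lit 356) (nat_lit 248)) (XT.lf (nat_lit 0) (nat_lit 158895243360) (nat_lit 76) (nat_lit 123941216187)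 (nat_lit 76) (nat_lit 60146802732) (nat_lit 12) (nat_lit 4) (nat_lit 13) (nat_lit 5) (nat_lit 13) (nat_lit 4) (nat_lit 417) (nat_lit 356) (nat_lit 247)))) (XT.nd (nat_lit 78) (nat_lit 76) (nat_lit 0) (XT.lf (nat_lit 0) (nat_lit 6542510770) (nat_lit 152) (nat_lit 50383341252) (nat_lit 76) (nat_lit 309829122280) (nat_lit 11) (nat_lit 5) (nat_lit 13) (nat_lit 5) (nat_lit 12) (nat_lit 4) (nat_lit 418) (nat_lit 356) (nat_lit 246)) (XT.nd (nat_lit 78) (nat_lit 0) (nat_lit 0) (XT.lf (nat_lit 0) (nat_lit 78267866731) (nat_lit 152) (nat_lit 296511537658) (nat_lit 0) (nat_lit 17509310934) (nat_lit 10) (nat_lit 5) (nat_lit 12) (nat_lit 4) (nat_lit 10) (nat_lit 4) (nat_lit 419) (nat_lit 356) (nat_lit 245)) (XT.lf (nat_lit 0) (nat_lit 157580818354) (nat_lit 152) (nat_lit 165370474110) (nat_lit 0) (nat_lit 96821384907) (nat_lit 10) (nat_lit 5) (nat_lit 12) (nat_lit 4) (nat_lit 10) (nat_lit 4) (nat_lit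 420) (nat_lit 356) (nat_lit 244))))) (XT.nd (nat_lit 234) (nat_lit 152) (nat_lit 0) (XT.nd (nat_lit 78) (nat_lit 76) (nat_lit 0) (XT.lf (nat_lit 0) (nat_lit 243236639817) (nat_lit 152) (nat_lit 23742431248) (nat_lit 0) (nat_lit 182476393731) (nat_lit 10) (nat_lit 5) (nat_lit 12) (nat_lit 4) (nat_lit 10) (nat_lit 4) (nat_lit 421) (nat_lit 356) (nat_lit 243)) (XT.nd (nat_lit 78) (nat_lit 0) (nat_lit 0) (XT.lf (nat_lit 0) (nat_lit 133484196120) (nat_lit 76) (nat_lit 204342787442) (nat_lit 76) (nat_lit 143581788912) (nat_lit 9) (nat_lit 4) (nat_lit 10) (nat_lit 5) (nat_lit 10) (nat_lit 4) (nat_lit 422) (nat_lit 356) (nat_lit 242)) (XT.lf (nat_lit 0) (nat_lit 304132974679) (nat_lit 76) (nat_lit 136263241178) (nat_lit 76) (nat_lit 75501545941) (nat_lit 9) (nat_lit 4) (nat_lit 10) (nat_lit 5) (nat_lit 10) (nat_lit 4) (nat_lit 423) (nat_lit 356) (nat_lit 241)))) (XT.nd (nat_lit 156) (nat_lit 0) (nat_lit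 0) (XT.nd (nat_lit 78) (nat_lit 152) (nat_lit 0) (XT.lf (nat_lit 0) (nat_lit 488430124447) (nat_lit 76) (nat_lit 62739087486) (nat_lit 76) (nat_lit 1976747150) (nat_lit 9) (nat_lit 4) (nat_lit 10) (nat_lit 5) (nat_lit 10) (nat_lit 4) (nat_lit 424) (nat_lit 356) (nat_lit 240)) (XT.lf (nat_lit 0) (nat_lit 76752833051) (nat_lit 152) (nat_lit 497587313445) (nat_lit 0) (nat_lit 18883368622) (nat_lit 7) (nat_lit 5) (nat_lit 9) (nat_lit 4) (nat_lit 7) (nat_lit 4) (nat_lit 425) (nat_lit 356) (nat_lit 239))) (XT.nd (nat_lit 78) (nat_lit 0) (nat_lit 0) (XT.lf (nat_lit 0) (nat_lit 163914513124) (nat_lit 152) (nat_lit 366436470874) (nat_lit 0) (nat_lit 106044521963) (nat_lit 7) (nat_lit 5) (nat_lit 9) (nat_lit 4) (nat_lit 7) (nat_lit 4) (nat_lit 426) (nat_lit 356) (nat_lit 238)) (XT.lf (nat_lit 0) (nat_lit 258047626677) (nat_lit 152) (nat_lit 224796556696) (nat_lit 0) (nat_lit 200177147802) (nat_lit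 7) (nat_lit 5) (nat_lit 9) (nat_lit 4) (nat_lit 7) (nat_lit 4) (nat_lit 427) (nat_lit 356) (nat_lit 237))))))))
noncomputable def xc75 : XT := (XT.nd (nat_lit 48906) (nat_lit 0) (nat_lit 1824) (XT.nd (nat_lit 47892) (nat_lit 0) (nat_lit 5852) (XT.nd (nat_lit 468) (nat_lit 152) (nat_lit 0) (XT.nd (nat_lit 234) (nat_lit 0) (nat_lit 0) (XT.nd (nat_lit 78) (nat_lit 76) (nat_lit 0) (XT.lf (nat_lit 0) (nat_lit 359709999569) (nat_lit 152) (nat_lit 71828223271) (nat_lit 0) (nat_lit 301839069106) (nat_lit 7) (nat_lit 5) (nat_lit 9) (nat_lit 4) (nat_lit 7) (nat_lit 4) (nat_lit 428) (nat_lit 356) (nat_lit 236)) (XT.nd (nat_lit 78) (nat_lit 0) (nat_lit 0) (XT.lf (nat_lit 0) (nat_lit 96462407884) (nat_lit 76) (nat_lit 374547716130) (nat_lit 76) (nat_lit 316676367530) (nat_lit 6) (nat_lit 4) (nat_lit 7) (nat_lit 5) (nat_lit 7) (nat_lit 4) (nat_lit 429) (nat_lit 356) (nat_lit 235)) (XT.lf (nat_lit 0) (nat_lit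 280778795420) (nat_lit 76) (nat_lit 311685434463) (nat_lit 76) (nat_lit 253813698700) (nat_lit 6) (nat_lit 4) (nat_lit 7) (nat_lit 5) (nat_lit 7) (nat_lit 4) (nat_lit 430) (nat_lit 356) (nat_lit 234)))) (XT.nd (nat_lit 78) (nat_lit 0) (nat_lit 0) (XT.lf (nat_lit 0) (nat_lit 479838219149) (nat_lit 76) (nat_lit 243795306332) (nat_lit 76) (nat_lit 185923212083) (nat_lit 6) (nat_lit 4) (nat_lit 7) (nat_lit 5) (nat_lit 7) (nat_lit 4) (nat_lit 431) (nat_lit 356) (nat_lit 233)) (XT.nd (nat_lit 78) (nat_lit 0) (nat_lit 0) (XT.lf (nat_lit 0) (nat_lit 694820290471) (nat_lit 76) (nat_lit 170475019865) (nat_lit 76) (nat_lit 112602593686) (nat_lit 6) (nat_lit 4) (nat_lit 7) (nat_lit 5) (nat_lit 7) (nat_lit 4) (nat_lit 432) (nat_lit 356) (nat_lit 232)) (XT.lf (nat_lit 0) (nat_lit 926998977217) (nat_lit 76) (nat_lit 91290084477) (nat_lit 76) (nat_lit 33417350955) (nat_lit 6) (nat_lit 4) (nat_lit 7) (nat_lit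 5) (nat_lit 7) (nat_lit 4) (nat_lit 433) (nat_lit 356) (nat_lit 231))))) (XT.nd (nat_lit 47112) (nat_lit 0) (nat_lit 8664) (XT.nd (nat_lit 78) (nat_lit 0) (nat_lit 0) (XT.lf (nat_lit 0) (nat_lit 47022050646) (nat_lit 76) (nat_lit 4146275570) (nat_lit 152) (nat_lit 1080173940955) (nat_lit 4) (nat_lit 5) (nat_lit 5) (nat_lit 5) (nat_lit 6) (nat_lit 4) (nat_lit 434) (nat_lit 356) (nat_lit 230)) (XT.nd (nat_lit 78) (nat_lit 0) (nat_lit 0) (XT.lf (nat_lit 0) (nat_lit 144977440372) (nat_lit 152) (nat_lit 982302760914) (nat_lit 0) (nat_lit 89860029328) (nat_lit 4) (nat_lit 5) (nat_lit 6) (nat_lit 4) (nat_lit 4) (nat_lit 4) (nat_lit 435) (nat_lit 356) (nat_lit 229)) (XT.lf (nat_lit 0) (nat_lit 246360371611) (nat_lit 152) (nat_lit 872195476945) (nat_lit 0) (nat_lit 191242728206) (nat_lit 4) (nat_lit 5) (nat_lit 6) (nat_lit 4) (nat_lit 4) (nat_lit 4) (nat_lit 436) (nat_lit 356) (nat_lit 228)))) (XT.nd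 (nat_lit 156) (nat_lit 0) (nat_lit 76) (XT.nd (nat_lit 78) (nat_lit 0) (nat_lit 76) (XT.lf (nat_lit 0) (nat_lit 167673106) (nat_lit 836) (nat_lit 3727028034) (nat_lit 836) (nat_lit 3727028034) (nat_lit 118) (nat_lit 3) (nat_lit 129) (nat_lit 3) (nat_lit 129) (nat_lit 5) (nat_lit 357) (nat_lit 357) (nat_lit 306)) (XT.lf (nat_lit 0) (nat_lit 919905768) (nat_lit 760) (nat_lit 11345346502) (nat_lit 836) (nat_lit 3559144901) (nat_lit 119) (nat_lit 5) (nat_lit 129) (nat_lit 5) (nat_lit 130) (nat_lit 5) (nat_lit 358) (nat_lit 357) (nat_lit 305))) (XT.nd (nat_lit 78) (nat_lit 0) (nat_lit 76) (XT.lf (nat_lit 76) (nat_lit 1061548969) (nat_lit 0) (nat_lit 725210584) (nat_lit 836) (nat_lit 14653299305) (nat_lit 120) (nat_lit 5) (nat_lit 119) (nat_lit 5) (nat_lit 130) (nat_lit 5) (nat_lit 359) (nat_lit 357) (nat_lit 304)) (XT.lf (nat_lit 0) (nat_lit 3065870700) (nat_lit 760) (nat_lit 2443273762) (nat_lit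 836) (nat_lit 11578706005) (nat_lit 120) (nat_lit 5) (nat_lit 130) (nat_lit 5) (nat_lit 131) (nat_lit 5) (nat_lit 360) (nat_lit 357) (nat_lit 303)))))) (XT.nd (nat_lit 468) (nat_lit 2052) (nat_lit 0) (XT.nd (nat_lit 234) (nat_lit 988) (nat_lit 0) (XT.nd (nat_lit 78) (nat_lit 0) (nat_lit 76) (XT.lf (nat_lit 0) (nat_lit 4720053061) (nat_lit 760) (nat_lit 6024226536) (nat_lit 836) (nat_lit 7029569467) (nat_lit 121) (nat_lit 5) (nat_lit 131) (nat_lit 5) (nat_lit 132) (nat_lit 5) (nat_lit 361) (nat_lit 357) (nat_lit 302)) (XT.nd (nat_lit 78) (nat_lit 0) (nat_lit 0) (XT.lf (nat_lit 0) (nat_lit 6777102251) (nat_lit 760) (nat_lit 9720635435) (nat_lit 836) (nat_lit 2003482491) (nat_lit 122) (nat_lit 5) (nat_lit 132) (nat_lit 5) (nat_lit 133) (nat_lit 5) (nat_lit 362) (nat_lit 357) (nat_lit 301)) (XT.lf (nat_lit 76) (nat_lit 5674849938) (nat_lit 0) (nat_lit 3667097787) (nat_lit 836) (nat_lit 9927689449)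 (nat_lit 123) (nat_lit 5) (nat_lit 122) (nat_lit 5) (nat_lit 133) (nat_lit 5) (nat_lit 363) (nat_lit 357) (nat_lit 300)))) (XT.nd (nat_lit 78) (nat_lit 380) (nat_lit 0) (XT.lf (nat_lit 0) (nat_lit 2446744420) (nat_lit 760) (nat_lit 10003570583) (nat_lit 836) (nat_lit 7632312313) (nat_lit 113) (nat_lit 5) (nat_lit 123) (nat_lit 5) (nat_lit 124) (nat_lit 5) (nat_lit 364) (nat_lit 357) (nat_lit 299)) (XT.nd (nat_lit 78) (nat_lit 380) (nat_lit 0) (XT.lf (nat_lit 0) (nat_lit 16139693268) (nat_lit 836) (nat_lit 844457236) (nat_lit 76) (nat_lit 3959904358) (nat_lit 113) (nat_lit 5) (nat_lit 124) (nat_lit 5) (nat_lit 114) (nat_lit 5) (nat_lit 365) (nat_lit 357) (nat_lit 298)) (XT.lf (nat_lit 0) (nat_lit 17660899570) (nat_lit 380) (nat_lit 2880759531) (nat_lit 456) (nat_lit 1311879785) (nat_lit 108) (nat_lit 5) (nat_lit 113) (nat_lit 5) (nat_lit 114) (nat_lit 5) (nat_lit 366) (nat_lit 357) (nat_lit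 297))))) (XT.nd (nat_lit 234) (nat_lit 912) (nat_lit 0) (XT.nd (nat_lit 78) (nat_lit 684) (nat_lit 0) (XT.lf (nat_lit 0) (nat_lit 2806382589) (nat_lit 456) (nat_lit 7754060420) (nat_lit 76) (nat_lit 12252174846) (nat_lit 102) (nat_lit 5) (nat_lit 108) (nat_lit 5) (nat_lit 103) (nat_lit 5) (nat_lit 367) (nat_lit 357) (nat_lit 296)) (XT.nd (nat_lit 78) (nat_lit 304) (nat_lit 0) (XT.lf (nat_lit 0) (nat_lit 7579105715) (nat_lit 456) (nat_lit 11454262535) (nat_lit 76) (nat_lit 4795443047) (nat_lit 97) (nat_lit 5) (nat_lit 103) (nat_lit 5) (nat_lit 98) (nat_lit 5) (nat_lit 368) (nat_lit 357) (nat_lit 295)) (XT.lf (nat_lit 0) (nat_lit 9571037792) (nat_lit 304) (nat_lit 3604503965) (nat_lit 380) (nat_lit 11728674392) (nat_lit 93) (nat_lit 5) (nat_lit 97) (nat_lit 5) (nat_lit 98) (nat_lit 5) (nat_lit 369) (nat_lit 357) (nat_lit 294)))) (XT.nd (nat_lit 156) (nat_lit 380) (nat_lit 0) (XT.nd (nat_lit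 78) (nat_lit 228) (nat_lit 0) (XT.lf (nat_lit 0) (nat_lit 6610407727) (nat_lit 304) (nat_lit 13097543689) (nat_lit 380) (nat_lit 6333298936) (nat_lit 89) (nat_lit 5) (nat_lit 93) (nat_lit 5) (nat_lit 94) (nat_lit 5) (nat_lit 370) (nat_lit 357) (nat_lit 293)) (XT.lf (nat_lit 0) (nat_lit 3572259055) (nat_lit 228) (nat_lit 23610720777) (nat_lit 304) (nat_lit 65275327) (nat_lit 86) (nat_lit 5) (nat_lit 89) (nat_lit 5) (nat_lit 90) (nat_lit 5) (nat_lit 371) (nat_lit 357) (nat_lit 292))) (XT.nd (nat_lit 78) (nat_lit 0) (nat_lit 0) (XT.lf (nat_lit 0) (nat_lit 225614551) (nat_lit 304) (nat_lit 6812726445) (nat_lit 380) (nat_lit 21480817536) (nat_lit 81) (nat_lit 5) (nat_lit 85) (nat_lit 5) (nat_lit 86) (nat_lit 5) (nat_lit 372) (nat_lit 357) (nat_lit 291)) (XT.lf (nat_lit 0) (nat_lit 15285381865) (nat_lit 380) (nat_lit 3195917079) (nat_lit 76) (nat_lit 11381518104) (nat_lit 81) (nat_lit 5) (nat_lit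 86) (nat_lit 5) (nat_lit 82) (nat_lit 5) (nat_lit 373) (nat_lit 357) (nat_lit 290))))))) (XT.nd (nat_lit 1014) (nat_lit 1520) (nat_lit 0) (XT.nd (nat_lit 468) (nat_lit 1064) (nat_lit 0) (XT.nd (nat_lit 234) (nat_lit 684) (nat_lit 0) (XT.nd (nat_lit 78) (nat_lit 532) (nat_lit 0) (XT.lf (nat_lit 0) (nat_lit 24557605211) (nat_lit 228) (nat_lit 115582645) (nat_lit 304) (nat_lit 6616737226) (nat_lit 78) (nat_lit 5) (nat_lit 81) (nat_lit 5) (nat_lit 82) (nat_lit 5) (nat_lit 374) (nat_lit 357) (nat_lit 289)) (XT.nd (nat_lit 78) (nat_lit 228) (nat_lit 0) (XT.lf (nat_lit 0) (nat_lit 2623359230) (nat_lit 304) (nat_lit 10642824622) (nat_lit 76) (nat_lit 19528180654) (nat_lit 74) (nat_lit 5) (nat_lit 78) (nat_lit 5) (nat_lit 75) (nat_lit 5) (nat_lit 375) (nat_lit 357) (nat_lit 288)) (XT.lf (nat_lit 0) (nat_lit 12893684273) (nat_lit 304) (nat_lit 14835493671) (nat_lit 76) (nat_lit 6658421286) (nat_lit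 71) (nat_lit 5) (nat_lit 75) (nat_lit 5) (nat_lit 72) (nat_lit 5) (nat_lit 376) (nat_lit 357) (nat_lit 287)))) (XT.nd (nat_lit 78) (nat_lit 456) (nat_lit 0) (XT.lf (nat_lit 0) (nat_lit 16730409834) (nat_lit 228) (nat_lit 7913474270) (nat_lit 304) (nat_lit 11431501429) (nat_lit 68) (nat_lit 5) (nat_lit 71) (nat_lit 5) (nat_lit 72) (nat_lit 5) (nat_lit 377) (nat_lit 357) (nat_lit 286)) (XT.nd (nat_lit 78) (nat_lit 228) (nat_lit 0) (XT.lf (nat_lit 0) (nat_lit 137195763) (nat_lit 228) (nat_lit 24199755276) (nat_lit 76) (nat_lit 13527526874) (nat_lit 65) (nat_lit 5) (nat_lit 68) (nat_lit 5) (nat_lit 66) (nat_lit 5) (nat_lit 378) (nat_lit 357) (nat_lit 285)) (XT.lf (nat_lit 0) (nat_lit 10199713641) (nat_lit 228) (nat_lit 2657824409) (nat_lit 304) (nat_lit 26898461156) (nat_lit 62) (nat_lit 5) (nat_lit 65) (nat_lit 5) (nat_lit 66) (nat_lit 5) (nat_lit 379) (nat_lit 357) (nat_lit 284))))) (XT.nd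 (nat_lit 234) (nat_lit 684) (nat_lit 0) (XT.nd (nat_lit 78) (nat_lit 228) (nat_lit 0) (XT.lf (nat_lit 0) (nat_lit 6286991815) (nat_lit 152) (nat_lit 21145899479) (nat_lit 228) (nat_lit 14324085691) (nat_lit 60) (nat_lit 5) (nat_lit 62) (nat_lit 5) (nat_lit 63) (nat_lit 5) (nat_lit 380) (nat_lit 357) (nat_lit 283)) (XT.nd (nat_lit 78) (nat_lit 76) (nat_lit 0) (XT.lf (nat_lit 0) (nat_lit 2129013407) (nat_lit 152) (nat_lit 41660218843) (nat_lit 228) (nat_lit 98056431) (nat_lit 58) (nat_lit 5) (nat_lit 60) (nat_lit 5) (nat_lit 61) (nat_lit 5) (nat_lit 381) (nat_lit 357) (nat_lit 282)) (XT.lf (nat_lit 0) (nat_lit 15749710743) (nat_lit 228) (nat_lit 2779557271) (nat_lit 76) (nat_lit 27598230002) (nat_lit 57) (nat_lit 5) (nat_lit 60) (nat_lit 5) (nat_lit 58) (nat_lit 5) (nat_lit 382) (nat_lit 357) (nat_lit 281)))) (XT.nd (nat_lit 156) (nat_lit 304) (nat_lit 0) (XT.nd (nat_lit 78) (nat_lit 228) (nat_lit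 0) (XT.lf (nat_lit 0) (nat_lit 33595404265) (nat_lit 228) (nat_lit 8030080989) (nat_lit 76) (nat_lit 6884684446) (nat_lit 55) (nat_lit 5) (nat_lit 58) (nat_lit 5) (nat_lit 56) (nat_lit 5) (nat_lit 383) (nat_lit 357) (nat_lit 280)) (XT.lf (nat_lit 0) (nat_lit 2672954641) (nat_lit 228) (nat_lit 14006096046) (nat_lit 76) (nat_lit 34355773537) (nat_lit 52) (nat_lit 5) (nat_lit 55) (nat_lit 5) (nat_lit 53) (nat_lit 5) (nat_lit 384) (nat_lit 357) (nat_lit 279))) (XT.nd (nat_lit 78) (nat_lit 152) (nat_lit 0) (XT.lf (nat_lit 0) (nat_lit 21974157328) (nat_lit 228) (nat_lit 20881955952) (nat_lit 76) (nat_lit 10851664772) (nat_lit 50) (nat_lit 5) (nat_lit 53) (nat_lit 5) (nat_lit 51) (nat_lit 5) (nat_lit 385) (nat_lit 357) (nat_lit 278)) (XT.lf (nat_lit 0) (nat_lit 27912931488) (nat_lit 152) (nat_lit 15861399176) (nat_lit 228) (nat_lit 12772496064) (nat_lit 48) (nat_lit 5) (nat_lit 50) (nat_lit 5) (nat_lit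 51) (nat_lit 5) (nat_lit 386) (nat_lit 357) (nat_lit 277)))))) (XT.nd (nat_lit 546) (nat_lit 608) (nat_lit 0) (XT.nd (nat_lit 234) (nat_lit 532) (nat_lit 0) (XT.nd (nat_lit 78) (nat_lit 228) (nat_lit 0) (XT.lf (nat_lit 0) (nat_lit 8388673546) (nat_lit 152) (nat_lit 37458759536) (nat_lit 76) (nat_lit 13713063991) (nat_lit 46) (nat_lit 5) (nat_lit 48) (nat_lit 5) (nat_lit 47) (nat_lit 5) (nat_lit 387) (nat_lit 357) (nat_lit 276)) (XT.nd (nat_lit 78) (nat_lit 76) (nat_lit 0) (XT.lf (nat_lit 0) (nat_lit 15104343913) (nat_lit 152) (nat_lit 16697683614) (nat_lit 228) (nat_lit 30952427265) (nat_lit 44) (nat_lit 5) (nat_lit 46) (nat_lit 5) (nat_lit 47) (nat_lit 5) (nat_lit 388) (nat_lit 357) (nat_lit 275)) (XT.lf (nat_lit 0) (nat_lit 7005404527) (nat_lit 76) (nat_lit 51077351032) (nat_lit 152) (nat_lit 8071459994) (nat_lit 43) (nat_lit 5) (nat_lit 44) (nat_lit 5) (nat_lit 45) (nat_lit 4) (nat_lit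 389) (nat_lit 357) (nat_lit 274)))) (XT.nd (nat_lit 156) (nat_lit 304) (nat_lit 0) (XT.nd (nat_lit 78) (nat_lit 152) (nat_lit 0) (XT.lf (nat_lit 0) (nat_lit 17223792265) (nat_lit 152) (nat_lit 2620200345) (nat_lit 76) (nat_lit 49913156683) (nat_lit 42) (nat_lit 5) (nat_lit 44) (nat_lit 5) (nat_lit 43) (nat_lit 5) (nat_lit 390) (nat_lit 357) (nat_lit 273)) (XT.lf (nat_lit 0) (nat_lit 45429881907) (nat_lit 228) (nat_lit 13622247155) (nat_lit 76) (nat_lit 14531074026) (nat_lit 40) (nat_lit 5) (nat_lit 43) (nat_lit 5) (nat_lit 41) (nat_lit 4) (nat_lit 391) (nat_lit 357) (nat_lit 272))) (XT.nd (nat_lit 78) (nat_lit 228) (nat_lit 0) (XT.lf (nat_lit 0) (nat_lit 51218866207) (nat_lit 76) (nat_lit 25846397697) (nat_lit 152) (nat_lit 591438316) (nat_lit 39) (nat_lit 5) (nat_lit 40) (nat_lit 5) (nat_lit 41) (nat_lit 4) (nat_lit 392) (nat_lit 357) (nat_lit 271)) (XT.lf (nat_lit 0) (nat_lit 29285753591)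 (nat_lit 228) (nat_lit 41655156207) (nat_lit 76) (nat_lit 11040189480) (nat_lit 36) (nat_lit 5) (nat_lit 39) (nat_lit 5) (nat_lit 37) (nat_lit 4) (nat_lit 393) (nat_lit 357) (nat_lit 270))))) (XT.nd (nat_lit 234) (nat_lit 304) (nat_lit 0) (XT.nd (nat_lit 78) (nat_lit 228) (nat_lit 0) (XT.lf (nat_lit 0) (nat_lit 27148553887) (nat_lit 76) (nat_lit 35704533584) (nat_lit 152) (nat_lit 23731842512) (nat_lit 35) (nat_lit 5) (nat_lit 36) (nat_lit 5) (nat_lit 37) (nat_lit 4) (nat_lit 394) (nat_lit 357) (nat_lit 269)) (XT.nd (nat_lit 78) (nat_lit 0) (nat_lit 0) (XT.lf (nat_lit 0) (nat_lit 8273063966) (nat_lit 228) (nat_lit 79905846580) (nat_lit 76) (nat_lit 3323968186) (nat_lit 32) (nat_lit 5) (nat_lit 35) (nat_lit 5) (nat_lit 33) (nat_lit 4) (nat_lit 395) (nat_lit 357) (nat_lit 268)) (XT.lf (nat_lit 0) (nat_lit 43665506080) (nat_lit 228) (nat_lit 7358953709) (nat_lit 76) (nat_lit 45687422560) (nat_lit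 32) (nat_lit 5) (nat_lit 35) (nat_lit 5) (nat_lit 33) (nat_lit 4) (nat_lit 396) (nat_lit 357) (nat_lit 267)))) (XT.nd (nat_lit 156) (nat_lit 76) (nat_lit 0) (XT.nd (nat_lit 78) (nat_lit 152) (nat_lit 0) (XT.lf (nat_lit 0) (nat_lit 73326709085) (nat_lit 76) (nat_lit 9701095677) (nat_lit 152) (nat_lit 19252879234) (nat_lit 31) (nat_lit 5) (nat_lit 32) (nat_lit 5) (nat_lit 33) (nat_lit 4) (nat_lit 397) (nat_lit 357) (nat_lit 266)) (XT.lf (nat_lit 0) (nat_lit 18223137270) (nat_lit 152) (nat_lit 54915728591) (nat_lit 76) (nat_lit 35066115256) (nat_lit 29) (nat_lit 5) (nat_lit 31) (nat_lit 5) (nat_lit 30) (nat_lit 4) (nat_lit 398) (nat_lit 357) (nat_lit 265))) (XT.nd (nat_lit 78) (nat_lit 0) (nat_lit 0) (XT.lf (nat_lit 0) (nat_lit 28987886121) (nat_lit 76) (nat_lit 30166651502) (nat_lit 152) (nat_lit 55376312507) (nat_lit 28) (nat_lit 5) (nat_lit 29) (nat_lit 5) (nat_lit 30) (nat_lit 4) (nat_lit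 399) (nat_lit 357) (nat_lit 264)) (XT.lf (nat_lit 0) (nat_lit 104580550732) (nat_lit 152) (nat_lit 30440529) (nat_lit 0) (nat_lit 16690792971) (nat_lit 28) (nat_lit 5) (nat_lit 30) (nat_lit 4) (nat_lit 28) (nat_lit 4) (nat_lit 400) (nat_lit 357) (nat_lit 263))))))))
noncomputable def xc76 : XT := (XT.nd (nat_lit 2028) (nat_lit 228) (nat_lit 0) (XT.nd (nat_lit 1014) (nat_lit 608) (nat_lit 0) (XT.nd (nat_lit 468) (nat_lit 456) (nat_lit 0) (XT.nd (nat_lit 234) (nat_lit 228) (nat_lit 0) (XT.nd (nat_lit 78) (nat_lit 152) (nat_lit 0) (XT.lf (nat_lit 0) (nat_lit 26241804587) (nat_lit 152) (nat_lit 34098758216) (nat_lit 76) (nat_lit 68153466840) (nat_lit 26) (nat_lit 5) (nat_lit 28) (nat_lit 5) (nat_lit 27) (nat_lit 4) (nat_lit 401) (nat_lit 357) (nat_lit 262)) (XT.nd (nat_lit 78) (nat_lit 76) (nat_lit 0) (XT.lf (nat_lit 0) (nat_lit 61800623400) (nat_lit 76) (nat_lit 11223490132) (nat_lit 152) (nat_lit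 63175432799) (nat_lit 25) (nat_lit 5) (nat_lit 26) (nat_lit 5) (nat_lit 27) (nat_lit 4) (nat_lit 402) (nat_lit 357) (nat_lit 261)) (XT.lf (nat_lit 0) (nat_lit 22133847585) (nat_lit 76) (nat_lit 103012392420) (nat_lit 76) (nat_lit 19295403167) (nat_lit 24) (nat_lit 4) (nat_lit 25) (nat_lit 5) (nat_lit 25) (nat_lit 4) (nat_lit 403) (nat_lit 357) (nat_lit 260)))) (XT.nd (nat_lit 78) (nat_lit 152) (nat_lit 0) (XT.lf (nat_lit 0) (nat_lit 28697409036) (nat_lit 152) (nat_lit 24890853965) (nat_lit 76) (nat_lit 99657833224) (nat_lit 23) (nat_lit 5) (nat_lit 25) (nat_lit 5) (nat_lit 24) (nat_lit 4) (nat_lit 404) (nat_lit 357) (nat_lit 259)) (XT.nd (nat_lit 78) (nat_lit 76) (nat_lit 0) (XT.lf (nat_lit 0) (nat_lit 81171371508) (nat_lit 152) (nat_lit 80067443223) (nat_lit 0) (nat_lit 1434388150) (nat_lit 22) (nat_lit 5) (nat_lit 24) (nat_lit 4) (nat_lit 22) (nat_lit 4) (nat_lit 405) (nat_lit 357) (nat_lit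 258)) (XT.lf (nat_lit 0) (nat_lit 26693308713) (nat_lit 76) (nat_lit 112906610458) (nat_lit 76) (nat_lit 33166725834) (nat_lit 21) (nat_lit 4) (nat_lit 22) (nat_lit 5) (nat_lit 22) (nat_lit 4) (nat_lit 406) (nat_lit 357) (nat_lit 257))))) (XT.nd (nat_lit 234) (nat_lit 304) (nat_lit 0) (XT.nd (nat_lit 78) (nat_lit 76) (nat_lit 0) (XT.lf (nat_lit 0) (nat_lit 19839283634) (nat_lit 152) (nat_lit 39072039530) (nat_lit 76) (nat_lit 124670712987) (nat_lit 20) (nat_lit 5) (nat_lit 22) (nat_lit 5) (nat_lit 21) (nat_lit 4) (nat_lit 407) (nat_lit 357) (nat_lit 256)) (XT.nd (nat_lit 78) (nat_lit 0) (nat_lit 0) (XT.lf (nat_lit 0) (nat_lit 77179804476) (nat_lit 152) (nat_lit 116760737140) (nat_lit 0) (nat_lit 1232129858) (nat_lit 19) (nat_lit 5) (nat_lit 21) (nat_lit 4) (nat_lit 19) (nat_lit 4) (nat_lit 408) (nat_lit 357) (nat_lit 255)) (XT.lf (nat_lit 0) (nat_lit 140788875734) (nat_lit 152) (nat_lit 1978609042)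 (nat_lit 0) (nat_lit 64839007670) (nat_lit 19) (nat_lit 5) (nat_lit 21) (nat_lit 4) (nat_lit 19) (nat_lit 4) (nat_lit 409) (nat_lit 357) (nat_lit 254)))) (XT.nd (nat_lit 156) (nat_lit 76) (nat_lit 0) (XT.nd (nat_lit 78) (nat_lit 152) (nat_lit 0) (XT.lf (nat_lit 0) (nat_lit 126012376113) (nat_lit 76) (nat_lit 85438174189) (nat_lit 76) (nat_lit 9486275156) (nat_lit 18) (nat_lit 4) (nat_lit 19) (nat_lit 5) (nat_lit 19) (nat_lit 4) (nat_lit 410) (nat_lit 357) (nat_lit 253)) (XT.lf (nat_lit 0) (nat_lit 29086504770) (nat_lit 76) (nat_lit 22152658317) (nat_lit 152) (nat_lit 184029205688) (nat_lit 16) (nat_lit 5) (nat_lit 17) (nat_lit 5) (nat_lit 18) (nat_lit 4) (nat_lit 411) (nat_lit 357) (nat_lit 252))) (XT.nd (nat_lit 78) (nat_lit 76) (nat_lit 0) (XT.lf (nat_lit 0) (nat_lit 118893279289) (nat_lit 152) (nat_lit 85170542979) (nat_lit 0) (nat_lit 46554688063) (nat_lit 16) (nat_lit 5) (nat_lit 18)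 (nat_lit 4) (nat_lit 16) (nat_lit 4) (nat_lit 412) (nat_lit 357) (nat_lit 251)) (XT.lf (nat_lit 0) (nat_lit 46634702021) (nat_lit 76) (nat_lit 146423580103) (nat_lit 76) (nat_lit 74083453402) (nat_lit 15) (nat_lit 4) (nat_lit 16) (nat_lit 5) (nat_lit 16) (nat_lit 4) (nat_lit 413) (nat_lit 357) (nat_lit 250)))))) (XT.nd (nat_lit 468) (nat_lit 304) (nat_lit 0) (XT.nd (nat_lit 234) (nat_lit 152) (nat_lit 0) (XT.nd (nat_lit 78) (nat_lit 152) (nat_lit 0) (XT.lf (nat_lit 0) (nat_lit 192019992998) (nat_lit 76) (nat_lit 82617170222) (nat_lit 76) (nat_lit 10275621785) (nat_lit 15) (nat_lit 4) (nat_lit 16) (nat_lit 5) (nat_lit 16) (nat_lit 4) (nat_lit 414) (nat_lit 357) (nat_lit 249)) (XT.nd (nat_lit 78) (nat_lit 0) (nat_lit 0) (XT.lf (nat_lit 0) (nat_lit 45464812187) (nat_lit 76) (nat_lit 12002347347) (nat_lit 152) (nat_lit 246557231385) (nat_lit 13) (nat_lit 5) (nat_lit 14) (nat_lit 5) (nat_lit 15)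 (nat_lit 4) (nat_lit 415) (nat_lit 357) (nat_lit 248)) (XT.lf (nat_lit 0) (nat_lit 132919450755) (nat_lit 152) (nat_lit 127584223932) (nat_lit 0) (nat_lit 64020323358) (nat_lit 13) (nat_lit 5) (nat_lit 15) (nat_lit 4) (nat_lit 13) (nat_lit 4) (nat_lit 416) (nat_lit 357) (nat_lit 247)))) (XT.nd (nat_lit 78) (nat_lit 76) (nat_lit 0) (XT.lf (nat_lit 0) (nat_lit 14113589205) (nat_lit 76) (nat_lit 200714587191) (nat_lit 76) (nat_lit 131814384917) (nat_lit 12) (nat_lit 4) (nat_lit 13) (nat_lit 5) (nat_lit 13) (nat_lit 4) (nat_lit 417) (nat_lit 357) (nat_lit 246)) (XT.nd (nat_lit 78) (nat_lit 76) (nat_lit 0) (XT.lf (nat_lit 0) (nat_lit 171698520783) (nat_lit 76) (nat_lit 133811141694) (nat_lit 76) (nat_lit 64909944165) (nat_lit 12) (nat_lit 4) (nat_lit 13) (nat_lit 5) (nat_lit 13) (nat_lit 4) (nat_lit 418) (nat_lit 357) (nat_lit 245)) (XT.lf (nat_lit 0) (nat_lit 7109473846) (nat_lit 152) (nat_lit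 54327697675) (nat_lit 76) (nat_lit 334656020576) (nat_lit 11) (nat_lit 5) (nat_lit 13) (nat_lit 5) (nat_lit 12) (nat_lit 4) (nat_lit 419) (nat_lit 357) (nat_lit 244))))) (XT.nd (nat_lit 234) (nat_lit 228) (nat_lit 0) (XT.nd (nat_lit 78) (nat_lit 0) (nat_lit 0) (XT.lf (nat_lit 0) (nat_lit 84571559564) (nat_lit 152) (nat_lit 320148456772) (nat_lit 0) (nat_lit 18949681152) (nat_lit 10) (nat_lit 5) (nat_lit 12) (nat_lit 4) (nat_lit 10) (nat_lit 4) (nat_lit 420) (nat_lit 357) (nat_lit 243)) (XT.nd (nat_lit 78) (nat_lit 0) (nat_lit 0) (XT.lf (nat_lit 0) (nat_lit 170226416688) (nat_lit 152) (nat_lit 178522330652) (nat_lit 0) (nat_lit 104603785832) (nat_lit 10) (nat_lit 5) (nat_lit 12) (nat_lit 4) (nat_lit 10) (nat_lit 4) (nat_lit 421) (nat_lit 357) (nat_lit 242)) (XT.lf (nat_lit 0) (nat_lit 262731805137) (nat_lit 152) (nat_lit 25569805945) (nat_lit 0) (nat_lit 197108477574) (nat_lit 10) (nat_lit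 5) (nat_lit 12) (nat_lit 4) (nat_lit 10) (nat_lit 4) (nat_lit 422) (nat_lit 357) (nat_lit 241)))) (XT.nd (nat_lit 156) (nat_lit 152) (nat_lit 0) (XT.nd (nat_lit 78) (nat_lit 0) (nat_lit 0) (XT.lf (nat_lit 0) (nat_lit 144231821720) (nat_lit 76) (nat_lit 220655946216) (nat_lit 76) (nat_lit 155031973554) (nat_lit 9) (nat_lit 4) (nat_lit 10) (nat_lit 5) (nat_lit 10) (nat_lit 4) (nat_lit 423) (nat_lit 357) (nat_lit 240)) (XT.lf (nat_lit 0) (nat_lit 328527399607) (nat_lit 76) (nat_lit 147132574342) (nat_lit 76) (nat_lit 81508004365) (nat_lit 9) (nat_lit 4) (nat_lit 10) (nat_lit 5) (nat_lit 10) (nat_lit 4) (nat_lit 424) (nat_lit 357) (nat_lit 239))) (XT.nd (nat_lit 78) (nat_lit 152) (nat_lit 0) (XT.lf (nat_lit 0) (nat_lit 527563596398) (nat_lit 76) (nat_lit 67728838438) (nat_lit 76) (nat_lit 2103715394) (nat_lit 9) (nat_lit 4) (nat_lit 10) (nat_lit 5) (nat_lit 10) (nat_lit 4) (nat_lit 425) (nat_lit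 357) (nat_lit 238)) (XT.lf (nat_lit 0) (nat_lit 82922342168) (nat_lit 152) (nat_lit 537335851636) (nat_lit 0) (nat_lit 20421737267) (nat_lit 7) (nat_lit 5) (nat_lit 9) (nat_lit 4) (nat_lit 7) (nat_lit 4) (nat_lit 426) (nat_lit 357) (nat_lit 237))))))) (XT.nd (nat_lit 47970) (nat_lit 0) (nat_lit 5852) (XT.nd (nat_lit 468) (nat_lit 152) (nat_lit 0) (XT.nd (nat_lit 234) (nat_lit 76) (nat_lit 0) (XT.nd (nat_lit 78) (nat_lit 0) (nat_lit 0) (XT.lf (nat_lit 0) (nat_lit 177054787574) (nat_lit 152) (nat_lit 395697271058) (nat_lit 0) (nat_lit 114553731086) (nat_lit 7) (nat_lit 5) (nat_lit 9) (nat_lit 4) (nat_lit 7) (nat_lit 4) (nat_lit 427) (nat_lit 357) (nat_lit 236)) (XT.nd (nat_lit 78) (nat_lit 0) (nat_lit 0) (XT.lf (nat_lit 0) (nat_lit 278716541812) (nat_lit 152) (nat_lit 242730172448) (nat_lit 0) (nat_lit 216215067187) (nat_lit 7) (nat_lit 5) (nat_lit 9) (nat_lit 4) (nat_lit 7) (nat_lit 4) (nat_lit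 428) (nat_lit 357) (nat_lit 235)) (XT.lf (nat_lit 0) (nat_lit 388510044906) (nat_lit 152) (nat_lit 77528084112) (nat_lit 0) (nat_lit 326008183118) (nat_lit 7) (nat_lit 5) (nat_lit 9) (nat_lit 4) (nat_lit 7) (nat_lit 4) (nat_lit 429) (nat_lit 357) (nat_lit 234)))) (XT.nd (nat_lit 78) (nat_lit 0) (nat_lit 0) (XT.lf (nat_lit 0) (nat_lit 104223781177) (nat_lit 76) (nat_lit 404489369156) (nat_lit 76) (nat_lit 341987148883) (nat_lit 6) (nat_lit 4) (nat_lit 7) (nat_lit 5) (nat_lit 7) (nat_lit 4) (nat_lit 430) (nat_lit 357) (nat_lit 233)) (XT.nd (nat_lit 78) (nat_lit 0) (nat_lit 0) (XT.lf (nat_lit 0) (nat_lit 303282192260) (nat_lit 76) (nat_lit 336599746753) (nat_lit 76) (nat_lit 274097194549) (nat_lit 6) (nat_lit 4) (nat_lit 7) (nat_lit 5) (nat_lit 7) (nat_lit 4) (nat_lit 431) (nat_lit 357) (nat_lit 232)) (XT.lf (nat_lit 0) (nat_lit 518263325946) (nat_lit 76) (nat_lit 263279928553) (nat_lit 76)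 (nat_lit 200777069007) (nat_lit 6) (nat_lit 4) (nat_lit 7) (nat_lit 5) (nat_lit 7) (nat_lit 4) (nat_lit 432) (nat_lit 357) (nat_lit 231))))) (XT.nd (nat_lit 234) (nat_lit 0) (nat_lit 0) (XT.nd (nat_lit 78) (nat_lit 152) (nat_lit 0) (XT.lf (nat_lit 0) (nat_lit 750441144510) (nat_lit 76) (nat_lit 184095426746) (nat_lit 76) (nat_lit 121592282622) (nat_lit 6) (nat_lit 4) (nat_lit 7) (nat_lit 5) (nat_lit 7) (nat_lit 4) (nat_lit 433) (nat_lit 357) (nat_lit 230)) (XT.nd (nat_lit 78) (nat_lit 152) (nat_lit 0) (XT.lf (nat_lit 0) (nat_lit 1001191516506) (nat_lit 76) (nat_lit 98576999839) (nat_lit 76) (nat_lit 36073592218) (nat_lit 6) (nat_lit 4) (nat_lit 7) (nat_lit 5) (nat_lit 7) (nat_lit 4) (nat_lit 434) (nat_lit 357) (nat_lit 229)) (XT.lf (nat_lit 0) (nat_lit 50815543648) (nat_lit 76) (nat_lit 4462112570) (nat_lit 152) (nat_lit 1166571198592) (nat_lit 4) (nat_lit 5) (nat_lit 5) (nat_lit 5) (nat_lit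 6) (nat_lit 4) (nat_lit 435) (nat_lit 357) (nat_lit 228)))) (XT.nd (nat_lit 47112) (nat_lit 0) (nat_lit 8740) (XT.nd (nat_lit 47034) (nat_lit 0) (nat_lit 8664) (XT.lf (nat_lit 0) (nat_lit 156590553752) (nat_lit 152) (nat_lit 1060857097540) (nat_lit 0) (nat_lit 97063051365) (nat_lit 4) (nat_lit 5) (nat_lit 6) (nat_lit 4) (nat_lit 4) (nat_lit 4) (nat_lit 436) (nat_lit 357) (nat_lit 227)) (XT.lf (nat_lit 0) (nat_lit 613304491) (nat_lit 836) (nat_lit 3798157869) (nat_lit 836) (nat_lit 3798157869) (nat_lit 118) (nat_lit 3) (nat_lit 129) (nat_lit 3) (nat_lit 129) (nat_lit 5) (nat_lit 358) (nat_lit 358) (nat_lit 304))) (XT.nd (nat_lit 78) (nat_lit 0) (nat_lit 0) (XT.lf (nat_lit 0) (nat_lit 1794860941) (nat_lit 760) (nat_lit 11772024259) (nat_lit 836) (nat_lit 3482957826) (nat_lit 119) (nat_lit 5) (nat_lit 129) (nat_lit 5) (nat_lit 130) (nat_lit 5) (nat_lit 359) (nat_lit 358) (nat_lit 303)) (XT.lf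 (nat_lit 76) (nat_lit 1606521350) (nat_lit 0) (nat_lit 1072364123) (nat_lit 836) (nat_lit 15038513481) (nat_lit 120) (nat_lit 5) (nat_lit 119) (nat_lit 5) (nat_lit 130) (nat_lit 5) (nat_lit 360) (nat_lit 358) (nat_lit 302)))))) (XT.nd (nat_lit 468) (nat_lit 2432) (nat_lit 0) (XT.nd (nat_lit 234) (nat_lit 532) (nat_lit 0) (XT.nd (nat_lit 78) (nat_lit 0) (nat_lit 76) (XT.lf (nat_lit 0) (nat_lit 4000650469) (nat_lit 760) (nat_lit 2173525191) (nat_lit 836) (nat_lit 12245852010) (nat_lit 120) (nat_lit 5) (nat_lit 130) (nat_lit 5) (nat_lit 131) (nat_lit 5) (nat_lit 361) (nat_lit 358) (nat_lit 301)) (XT.nd (nat_lit 78) (nat_lit 0) (nat_lit 76) (XT.lf (nat_lit 0) (nat_lit 5739911536) (nat_lit 760) (nat_lit 6025426350) (nat_lit 836) (nat_lit 7397958867) (nat_lit 121) (nat_lit 5) (nat_lit 131) (nat_lit 5) (nat_lit 132) (nat_lit 5) (nat_lit 362) (nat_lit 358) (nat_lit 300)) (XT.lf (nat_lit 0) (nat_lit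 7918912533) (nat_lit 760) (nat_lit 10005808286) (nat_lit 836) (nat_lit 2026293085) (nat_lit 122) (nat_lit 5) (nat_lit 132) (nat_lit 5) (nat_lit 133) (nat_lit 5) (nat_lit 363) (nat_lit 358) (nat_lit 299)))) (XT.nd (nat_lit 78) (nat_lit 684) (nat_lit 0) (XT.lf (nat_lit 76) (nat_lit 6599913424) (nat_lit 0) (nat_lit 4051969096) (nat_lit 836) (nat_lit 10130898732) (nat_lit 123) (nat_lit 5) (nat_lit 122) (nat_lit 5) (nat_lit 133) (nat_lit 5) (nat_lit 364) (nat_lit 358) (nat_lit 298)) (XT.nd (nat_lit 78) (nat_lit 0) (nat_lit 0) (XT.lf (nat_lit 0) (nat_lit 3121645135) (nat_lit 760) (nat_lit 10851759775) (nat_lit 836) (nat_lit 7689203479) (nat_lit 113) (nat_lit 5) (nat_lit 123) (nat_lit 5) (nat_lit 124) (nat_lit 5) (nat_lit 365) (nat_lit 358) (nat_lit 297)) (XT.lf (nat_lit 0) (nat_lit 17918199098) (nat_lit 836) (nat_lit 442996979) (nat_lit 76) (nat_lit 4233761213) (nat_lit 113) (nat_lit 5) (nat_lit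 124) (nat_lit 5) (nat_lit 114) (nat_lit 5) (nat_lit 366) (nat_lit 358) (nat_lit 296))))) (XT.nd (nat_lit 234) (nat_lit 1216) (nat_lit 0) (XT.nd (nat_lit 78) (nat_lit 836) (nat_lit 0) (XT.lf (nat_lit 0) (nat_lit 19522405471) (nat_lit 380) (nat_lit 3120822614) (nat_lit 456) (nat_lit 935445578) (nat_lit 108) (nat_lit 5) (nat_lit 113) (nat_lit 5) (nat_lit 114) (nat_lit 5) (nat_lit 367) (nat_lit 358) (nat_lit 295)) (XT.nd (nat_lit 78) (nat_lit 380) (nat_lit 0) (XT.lf (nat_lit 0) (nat_lit 3469376060) (nat_lit 456) (nat_lit 7908255868) (nat_lit 76) (nat_lit 13237862641) (nat_lit 102) (nat_lit 5) (nat_lit 108) (nat_lit 5) (nat_lit 103) (nat_lit 5) (nat_lit 368) (nat_lit 358) (nat_lit 294)) (XT.lf (nat_lit 0) (nat_lit 8598911920) (nat_lit 456) (nat_lit 11904404033) (nat_lit 76) (nat_lit 5210933237) (nat_lit 97) (nat_lit 5) (nat_lit 103) (nat_lit 5) (nat_lit 98) (nat_lit 5) (nat_lit 369) (nat_lit 358)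 (nat_lit 293)))) (XT.nd (nat_lit 156) (nat_lit 608) (nat_lit 0) (XT.nd (nat_lit 78) (nat_lit 304) (nat_lit 0) (XT.lf (nat_lit 0) (nat_lit 10782659857) (nat_lit 304) (nat_lit 3836737365) (nat_lit 380) (nat_lit 12257486795) (nat_lit 93) (nat_lit 5) (nat_lit 97) (nat_lit 5) (nat_lit 98) (nat_lit 5) (nat_lit 370) (nat_lit 358) (nat_lit 292)) (XT.lf (nat_lit 0) (nat_lit 7583775818) (nat_lit 304) (nat_lit 14069500696) (nat_lit 380) (nat_lit 6452673846) (nat_lit 89) (nat_lit 5) (nat_lit 93) (nat_lit 5) (nat_lit 94) (nat_lit 5) (nat_lit 371) (nat_lit 358) (nat_lit 291))) (XT.nd (nat_lit 78) (nat_lit 304) (nat_lit 0) (XT.lf (nat_lit 0) (nat_lit 287008909) (nat_lit 304) (nat_lit 25115207483) (nat_lit 76) (nat_lit 4008045711) (nat_lit 85) (nat_lit 5) (nat_lit 89) (nat_lit 5) (nat_lit 86) (nat_lit 5) (nat_lit 372) (nat_lit 358) (nat_lit 290)) (XT.lf (nat_lit 0) (nat_lit 677711175) (nat_lit 304) (nat_lit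 7259408898) (nat_lit 380) (nat_lit 22846650362) (nat_lit 81) (nat_lit 5) (nat_lit 85) (nat_lit 5) (nat_lit 86) (nat_lit 5) (nat_lit 373) (nat_lit 358) (nat_lit 289))))))))
noncomputable def xc77 : XT := (XT.nd (nat_lit 2028) (nat_lit 1520) (nat_lit 0) (XT.nd (nat_lit 1014) (nat_lit 1596) (nat_lit 0) (XT.nd (nat_lit 468) (nat_lit 1140) (nat_lit 0) (XT.nd (nat_lit 234) (nat_lit 684) (nat_lit 0) (XT.nd (nat_lit 78) (nat_lit 532) (nat_lit 0) (XT.lf (nat_lit 0) (nat_lit 16820478240) (nat_lit 380) (nat_lit 3035448830) (nat_lit 76) (nat_lit 12380176874) (nat_lit 81) (nat_lit 5) (nat_lit 86) (nat_lit 5) (nat_lit 82) (nat_lit 5) (nat_lit 374) (nat_lit 358) (nat_lit 288)) (XT.nd (nat_lit 78) (nat_lit 304) (nat_lit 0) (XT.lf (nat_lit 0) (nat_lit 26920270236) (nat_lit 228) (nat_lit 22122452) (nat_lit 304) (nat_lit 6835843006) (nat_lit 78) (nat_lit 5) (nat_lit 81) (nat_lit 5) (nat_lit 82) (nat_lit 5)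 (nat_lit 375) (nat_lit 358) (nat_lit 287)) (XT.lf (nat_lit 0) (nat_lit 3119039864) (nat_lit 304) (nat_lit 11091237871) (nat_lit 76) (nat_lit 21193243128) (nat_lit 74) (nat_lit 5) (nat_lit 78) (nat_lit 5) (nat_lit 75) (nat_lit 5) (nat_lit 376) (nat_lit 358) (nat_lit 286)))) (XT.nd (nat_lit 78) (nat_lit 456) (nat_lit 0) (XT.lf (nat_lit 0) (nat_lit 14197631325) (nat_lit 304) (nat_lit 15625000238) (nat_lit 76) (nat_lit 7302258353) (nat_lit 71) (nat_lit 5) (nat_lit 75) (nat_lit 5) (nat_lit 72) (nat_lit 5) (nat_lit 377) (nat_lit 358) (nat_lit 285)) (XT.nd (nat_lit 78) (nat_lit 228) (nat_lit 0) (XT.lf (nat_lit 0) (nat_lit 18448907942) (nat_lit 228) (nat_lit 8424691433) (nat_lit 304) (nat_lit 12074819147) (nat_lit 68) (nat_lit 5) (nat_lit 71) (nat_lit 5) (nat_lit 72) (nat_lit 5) (nat_lit 378) (nat_lit 358) (nat_lit 284)) (XT.lf (nat_lit 0) (nat_lit 398975566) (nat_lit 228) (nat_lit 25753204483) (nat_lit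 76) (nat_lit 14728838618) (nat_lit 65) (nat_lit 5) (nat_lit 68) (nat_lit 5) (nat_lit 66) (nat_lit 5) (nat_lit 379) (nat_lit 358) (nat_lit 283))))) (XT.nd (nat_lit 234) (nat_lit 532) (nat_lit 0) (XT.nd (nat_lit 78) (nat_lit 380) (nat_lit 0) (XT.lf (nat_lit 0) (nat_lit 11381597607) (nat_lit 228) (nat_lit 2742482376) (nat_lit 304) (nat_lit 28800430667) (nat_lit 62) (nat_lit 5) (nat_lit 65) (nat_lit 5) (nat_lit 66) (nat_lit 5) (nat_lit 380) (nat_lit 358) (nat_lit 282)) (XT.nd (nat_lit 78) (nat_lit 228) (nat_lit 0) (XT.lf (nat_lit 0) (nat_lit 7149493415) (nat_lit 152) (nat_lit 22705806375) (nat_lit 228) (nat_lit 15230780246) (nat_lit 60) (nat_lit 5) (nat_lit 62) (nat_lit 5) (nat_lit 63) (nat_lit 5) (nat_lit 381) (nat_lit 358) (nat_lit 281)) (XT.lf (nat_lit 0) (nat_lit 119446432) (nat_lit 228) (nat_lit 44736980083) (nat_lit 76) (nat_lit 2530771615) (nat_lit 57) (nat_lit 5) (nat_lit 60) (nat_lit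 5) (nat_lit 58) (nat_lit 5) (nat_lit 382) (nat_lit 358) (nat_lit 280)))) (XT.nd (nat_lit 156) (nat_lit 380) (nat_lit 0) (XT.nd (nat_lit 78) (nat_lit 152) (nat_lit 0) (XT.lf (nat_lit 0) (nat_lit 17215204165) (nat_lit 228) (nat_lit 2668307221) (nat_lit 76) (nat_lit 29923856551) (nat_lit 57) (nat_lit 5) (nat_lit 60) (nat_lit 5) (nat_lit 58) (nat_lit 5) (nat_lit 383) (nat_lit 358) (nat_lit 279)) (XT.lf (nat_lit 0) (nat_lit 36480245518) (nat_lit 228) (nat_lit 8345490966) (nat_lit 76) (nat_lit 7555336261) (nat_lit 55) (nat_lit 5) (nat_lit 58) (nat_lit 5) (nat_lit 56) (nat_lit 5) (nat_lit 384) (nat_lit 358) (nat_lit 278))) (XT.nd (nat_lit 78) (nat_lit 152) (nat_lit 0) (XT.lf (nat_lit 0) (nat_lit 3077393722) (nat_lit 228) (nat_lit 14807451743) (nat_lit 76) (nat_lit 37223190395) (nat_lit 52) (nat_lit 5) (nat_lit 55) (nat_lit 5) (nat_lit 53) (nat_lit 5) (nat_lit 385) (nat_lit 358) (nat_lit 277)) (XT.lf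 (nat_lit 0) (nat_lit 23915276103) (nat_lit 228) (nat_lit 22240082322) (nat_lit 76) (nat_lit 11839841666) (nat_lit 50) (nat_lit 5) (nat_lit 53) (nat_lit 5) (nat_lit 51) (nat_lit 5) (nat_lit 386) (nat_lit 358) (nat_lit 276)))))) (XT.nd (nat_lit 468) (nat_lit 836) (nat_lit 0) (XT.nd (nat_lit 234) (nat_lit 304) (nat_lit 0) (XT.nd (nat_lit 78) (nat_lit 304) (nat_lit 0) (XT.lf (nat_lit 0) (nat_lit 30444818283) (nat_lit 152) (nat_lit 17005741597) (nat_lit 228) (nat_lit 13611260981) (nat_lit 48) (nat_lit 5) (nat_lit 50) (nat_lit 5) (nat_lit 51) (nat_lit 5) (nat_lit 387) (nat_lit 358) (nat_lit 275)) (XT.nd (nat_lit 78) (nat_lit 152) (nat_lit 0) (XT.lf (nat_lit 0) (nat_lit 9230289729) (nat_lit 152) (nat_lit 40157412854) (nat_lit 76) (nat_lit 14929074748) (nat_lit 46) (nat_lit 5) (nat_lit 48) (nat_lit 5) (nat_lit 47) (nat_lit 5) (nat_lit 388) (nat_lit 358) (nat_lit 274)) (XT.lf (nat_lit 0) (nat_lit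 16597786092) (nat_lit 152) (nat_lit 17910745782) (nat_lit 228) (nat_lit 33258131275) (nat_lit 44) (nat_lit 5) (nat_lit 46) (nat_lit 5) (nat_lit 47) (nat_lit 5) (nat_lit 389) (nat_lit 358) (nat_lit 273)))) (XT.nd (nat_lit 78) (nat_lit 228) (nat_lit 0) (XT.lf (nat_lit 0) (nat_lit 7844502390) (nat_lit 76) (nat_lit 55041315712) (nat_lit 152) (nat_lit 8552883962) (nat_lit 43) (nat_lit 5) (nat_lit 44) (nat_lit 5) (nat_lit 45) (nat_lit 4) (nat_lit 390) (nat_lit 358) (nat_lit 272)) (XT.nd (nat_lit 78) (nat_lit 152) (nat_lit 0) (XT.lf (nat_lit 0) (nat_lit 18748949753) (nat_lit 152) (nat_lit 2566898630) (nat_lit 76) (nat_lit 54014484904) (nat_lit 42) (nat_lit 5) (nat_lit 44) (nat_lit 5) (nat_lit 43) (nat_lit 5) (nat_lit 391) (nat_lit 358) (nat_lit 271)) (XT.lf (nat_lit 0) (nat_lit 49206281781) (nat_lit 228) (nat_lit 14455234686) (nat_lit 76) (nat_lit 15801219027) (nat_lit 40) (nat_lit 5) (nat_lit 43)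 (nat_lit 5) (nat_lit 41) (nat_lit 4) (nat_lit 392) (nat_lit 358) (nat_lit 270))))) (XT.nd (nat_lit 234) (nat_lit 456) (nat_lit 0) (XT.nd (nat_lit 78) (nat_lit 304) (nat_lit 0) (XT.lf (nat_lit 0) (nat_lit 55562007867) (nat_lit 76) (nat_lit 27803802271) (nat_lit 152) (nat_lit 496640360) (nat_lit 39) (nat_lit 5) (nat_lit 40) (nat_lit 5) (nat_lit 41) (nat_lit 4) (nat_lit 393) (nat_lit 358) (nat_lit 269)) (XT.nd (nat_lit 78) (nat_lit 76) (nat_lit 0) (XT.lf (nat_lit 0) (nat_lit 31761414581) (nat_lit 228) (nat_lit 44743355600) (nat_lit 76) (nat_lit 12028157917) (nat_lit 36) (nat_lit 5) (nat_lit 39) (nat_lit 5) (nat_lit 37) (nat_lit 4) (nat_lit 394) (nat_lit 358) (nat_lit 268)) (XT.lf (nat_lit 0) (nat_lit 29554038098) (nat_lit 76) (nat_lit 38453907135) (nat_lit 152) (nat_lit 25497430939) (nat_lit 35) (nat_lit 5) (nat_lit 36) (nat_lit 5) (nat_lit 37) (nat_lit 4) (nat_lit 395) (nat_lit 358) (nat_lit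 267)))) (XT.nd (nat_lit 156) (nat_lit 228) (nat_lit 0) (XT.nd (nat_lit 78) (nat_lit 0) (nat_lit 0) (XT.lf (nat_lit 0) (nat_lit 9059267817) (nat_lit 228) (nat_lit 86066264409) (nat_lit 76) (nat_lit 3691343283) (nat_lit 32) (nat_lit 5) (nat_lit 35) (nat_lit 5) (nat_lit 33) (nat_lit 4) (nat_lit 396) (nat_lit 358) (nat_lit 266)) (XT.lf (nat_lit 0) (nat_lit 47273893542) (nat_lit 228) (nat_lit 7732808991) (nat_lit 76) (nat_lit 49436358626) (nat_lit 32) (nat_lit 5) (nat_lit 35) (nat_lit 5) (nat_lit 33) (nat_lit 4) (nat_lit 397) (nat_lit 358) (nat_lit 265))) (XT.nd (nat_lit 78) (nat_lit 152) (nat_lit 0) (XT.lf (nat_lit 0) (nat_lit 79398369229) (nat_lit 76) (nat_lit 10381486280) (nat_lit 152) (nat_lit 20677778526) (nat_lit 31) (nat_lit 5) (nat_lit 32) (nat_lit 5) (nat_lit 33) (nat_lit 4) (nat_lit 398) (nat_lit 358) (nat_lit 264)) (XT.lf (nat_lit 0) (nat_lit 19788945019) (nat_lit 152) (nat_lit 59104977652)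 (nat_lit 76) (nat_lit 37962047315) (nat_lit 29) (nat_lit 5) (nat_lit 31) (nat_lit 5) (nat_lit 30) (nat_lit 4) (nat_lit 399) (nat_lit 358) (nat_lit 263))))))) (XT.nd (nat_lit 1014) (nat_lit 532) (nat_lit 0) (XT.nd (nat_lit 468) (nat_lit 532) (nat_lit 0) (XT.nd (nat_lit 234) (nat_lit 228) (nat_lit 0) (XT.nd (nat_lit 78) (nat_lit 152) (nat_lit 0) (XT.lf (nat_lit 0) (nat_lit 31502060245) (nat_lit 76) (nat_lit 32487847091) (nat_lit 152) (nat_lit 59698249560) (nat_lit 28) (nat_lit 5) (nat_lit 29) (nat_lit 5) (nat_lit 30) (nat_lit 4) (nat_lit 400) (nat_lit 358) (nat_lit 262)) (XT.nd (nat_lit 78) (nat_lit 76) (nat_lit 0) (XT.lf (nat_lit 0) (nat_lit 156260702) (nat_lit 76) (nat_lit 112889882285) (nat_lit 76) (nat_lit 17954816473) (nat_lit 27) (nat_lit 4) (nat_lit 28) (nat_lit 5) (nat_lit 28) (nat_lit 4) (nat_lit 401) (nat_lit 358) (nat_lit 261)) (XT.lf (nat_lit 0) (nat_lit 28434965901) (nat_lit 152)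 (nat_lit 36647415087) (nat_lit 76) (nat_lit 73686471272) (nat_lit 26) (nat_lit 5) (nat_lit 28) (nat_lit 5) (nat_lit 27) (nat_lit 4) (nat_lit 402) (nat_lit 358) (nat_lit 260)))) (XT.nd (nat_lit 78) (nat_lit 152) (nat_lit 0) (XT.lf (nat_lit 0) (nat_lit 66916127342) (nat_lit 76) (nat_lit 12039459695) (nat_lit 152) (nat_lit 68135437533) (nat_lit 25) (nat_lit 5) (nat_lit 26) (nat_lit 5) (nat_lit 27) (nat_lit 4) (nat_lit 403) (nat_lit 358) (nat_lit 259)) (XT.nd (nat_lit 78) (nat_lit 76) (nat_lit 0) (XT.lf (nat_lit 0) (nat_lit 24071625550) (nat_lit 76) (nat_lit 111173017700) (nat_lit 76) (nat_lit 20747988536) (nat_lit 24) (nat_lit 4) (nat_lit 25) (nat_lit 5) (nat_lit 25) (nat_lit 4) (nat_lit 404) (nat_lit 358) (nat_lit 258)) (XT.lf (nat_lit 0) (nat_lit 31074806218) (nat_lit 152) (nat_lit 26724722745) (nat_lit 76) (nat_lit 107702168004) (nat_lit 23) (nat_lit 5) (nat_lit 25) (nat_lit 5) (nat_lit 24)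 (nat_lit 4) (nat_lit 405) (nat_lit 358) (nat_lit 257))))) (XT.nd (nat_lit 234) (nat_lit 304) (nat_lit 0) (XT.nd (nat_lit 78) (nat_lit 152) (nat_lit 0) (XT.lf (nat_lit 0) (nat_lit 87744125814) (nat_lit 152) (nat_lit 86319512035) (nat_lit 0) (nat_lit 1619462797) (nat_lit 22) (nat_lit 5) (nat_lit 24) (nat_lit 4) (nat_lit 22) (nat_lit 4) (nat_lit 406) (nat_lit 358) (nat_lit 256)) (XT.nd (nat_lit 78) (nat_lit 76) (nat_lit 0) (XT.lf (nat_lit 0) (nat_lit 28975436667) (nat_lit 76) (nat_lit 121867955293) (nat_lit 76) (nat_lit 35740804908) (nat_lit 21) (nat_lit 4) (nat_lit 22) (nat_lit 5) (nat_lit 22) (nat_lit 4) (nat_lit 407) (nat_lit 358) (nat_lit 255)) (XT.lf (nat_lit 0) (nat_lit 21497465408) (nat_lit 152) (nat_lit 42059649416) (nat_lit 76) (nat_lit 134707927174) (nat_lit 20) (nat_lit 5) (nat_lit 22) (nat_lit 5) (nat_lit 21) (nat_lit 4) (nat_lit 408) (nat_lit 358) (nat_lit 254)))) (XT.nd (nat_lit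 156) (nat_lit 228) (nat_lit 0) (XT.nd (nat_lit 78) (nat_lit 0) (nat_lit 0) (XT.lf (nat_lit 0) (nat_lit 83423033030) (nat_lit 152) (nat_lit 125967054132) (nat_lit 0) (nat_lit 1392951106) (nat_lit 19) (nat_lit 5) (nat_lit 21) (nat_lit 4) (nat_lit 19) (nat_lit 4) (nat_lit 409) (nat_lit 358) (nat_lit 253)) (XT.lf (nat_lit 0) (nat_lit 152115730419) (nat_lit 152) (nat_lit 2012321858) (nat_lit 0) (nat_lit 70083767968) (nat_lit 19) (nat_lit 5) (nat_lit 21) (nat_lit 4) (nat_lit 19) (nat_lit 4) (nat_lit 410) (nat_lit 358) (nat_lit 252))) (XT.nd (nat_lit 78) (nat_lit 152) (nat_lit 0) (XT.lf (nat_lit 0) (nat_lit 136212528192) (nat_lit 76) (nat_lit 92214949388) (nat_lit 76) (nat_lit 10181245710) (nat_lit 18) (nat_lit 4) (nat_lit 19) (nat_lit 5) (nat_lit 19) (nat_lit 4) (nat_lit 411) (nat_lit 358) (nat_lit 251)) (XT.lf (nat_lit 0) (nat_lit 31529369469) (nat_lit 76) (nat_lit 23868038041) (nat_lit 152) (nat_lit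 198689471634) (nat_lit 16) (nat_lit 5) (nat_lit 17) (nat_lit 5) (nat_lit 18) (nat_lit 4) (nat_lit 412) (nat_lit 358) (nat_lit 250)))))) (XT.nd (nat_lit 546) (nat_lit 228) (nat_lit 0) (XT.nd (nat_lit 234) (nat_lit 228) (nat_lit 0) (XT.nd (nat_lit 78) (nat_lit 76) (nat_lit 0) (XT.lf (nat_lit 0) (nat_lit 128460295981) (nat_lit 152) (nat_lit 91874912224) (nat_lit 0) (nat_lit 50330001934) (nat_lit 16) (nat_lit 5) (nat_lit 18) (nat_lit 4) (nat_lit 16) (nat_lit 4) (nat_lit 413) (nat_lit 358) (nat_lit 249)) (XT.nd (nat_lit 78) (nat_lit 0) (nat_lit 0) (XT.lf (nat_lit 0) (nat_lit 50470003452) (nat_lit 76) (nat_lit 158086012386) (nat_lit 76) (nat_lit 79954401917) (nat_lit 15) (nat_lit 4) (nat_lit 16) (nat_lit 5) (nat_lit 16) (nat_lit 4) (nat_lit 414) (nat_lit 358) (nat_lit 248)) (XT.lf (nat_lit 0) (nat_lit 207478375095) (nat_lit 76) (nat_lit 89178901131) (nat_lit 76) (nat_lit 11046071753) (nat_lit 15)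 (nat_lit 4) (nat_lit 16) (nat_lit 5) (nat_lit 16) (nat_lit 4) (nat_lit 415) (nat_lit 358) (nat_lit 247)))) (XT.nd (nat_lit 156) (nat_lit 76) (nat_lit 0) (XT.nd (nat_lit 78) (nat_lit 0) (nat_lit 0) (XT.lf (nat_lit 0) (nat_lit 49196156082) (nat_lit 76) (nat_lit 12916094688) (nat_lit 152) (nat_lit 266231703003) (nat_lit 13) (nat_lit 5) (nat_lit 14) (nat_lit 5) (nat_lit 15) (nat_lit 4) (nat_lit 416) (nat_lit 358) (nat_lit 246)) (XT.lf (nat_lit 0) (nat_lit 143597861945) (nat_lit 152) (nat_lit 137702237519) (nat_lit 0) (nat_lit 69183573358) (nat_lit 13) (nat_lit 5) (nat_lit 15) (nat_lit 4) (nat_lit 13) (nat_lit 4) (nat_lit 417) (nat_lit 358) (nat_lit 245))) (XT.nd (nat_lit 78) (nat_lit 0) (nat_lit 0) (XT.lf (nat_lit 0) (nat_lit 15327544818) (nat_lit 76) (nat_lit 216729743251) (nat_lit 76) (nat_lit 142314533132) (nat_lit 12) (nat_lit 4) (nat_lit 13) (nat_lit 5) (nat_lit 13) (nat_lit 4) (nat_lit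 418) (nat_lit 358) (nat_lit 244)) (XT.lf (nat_lit 0) (nat_lit 185512984369) (nat_lit 76) (nat_lit 144477134034) (nat_lit 76) (nat_lit 70061070644) (nat_lit 12) (nat_lit 4) (nat_lit 13) (nat_lit 5) (nat_lit 13) (nat_lit 4) (nat_lit 419) (nat_lit 358) (nat_lit 243))))) (XT.nd (nat_lit 234) (nat_lit 76) (nat_lit 0) (XT.nd (nat_lit 78) (nat_lit 76) (nat_lit 0) (XT.lf (nat_lit 0) (nat_lit 7715579333) (nat_lit 152) (nat_lit 58599915823) (nat_lit 76) (nat_lit 361463283185) (nat_lit 11) (nat_lit 5) (nat_lit 13) (nat_lit 5) (nat_lit 12) (nat_lit 4) (nat_lit 420) (nat_lit 358) (nat_lit 242)) (XT.nd (nat_lit 78) (nat_lit 0) (nat_lit 0) (XT.lf (nat_lit 0) (nat_lit 91373518464) (nat_lit 152) (nat_lit 345688313511) (nat_lit 0) (nat_lit 20499627989) (nat_lit 10) (nat_lit 5) (nat_lit 12) (nat_lit 4) (nat_lit 10) (nat_lit 4) (nat_lit 421) (nat_lit 358) (nat_lit 241)) (XT.lf (nat_lit 0) (nat_lit 183878080148)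 (nat_lit 152) (nat_lit 192737432101) (nat_lit 0) (nat_lit 113003544573) (nat_lit 10) (nat_lit 5) (nat_lit 12) (nat_lit 4) (nat_lit 10) (nat_lit 4) (nat_lit 422) (nat_lit 358) (nat_lit 240)))) (XT.nd (nat_lit 156) (nat_lit 0) (nat_lit 0) (XT.nd (nat_lit 78) (nat_lit 76) (nat_lit 0) (XT.lf (nat_lit 0) (nat_lit 283781414478) (nat_lit 152) (nat_lit 27553645047) (nat_lit 0) (nat_lit 212906281590) (nat_lit 10) (nat_lit 5) (nat_lit 12) (nat_lit 4) (nat_lit 10) (nat_lit 4) (nat_lit 423) (nat_lit 358) (nat_lit 239)) (XT.lf (nat_lit 0) (nat_lit 155829429452) (nat_lit 76) (nat_lit 238279045867) (nat_lit 76) (nat_lit 167403359910) (nat_lit 9) (nat_lit 4) (nat_lit 10) (nat_lit 5) (nat_lit 10) (nat_lit 4) (nat_lit 424) (nat_lit 358) (nat_lit 238))) (XT.nd (nat_lit 78) (nat_lit 0) (nat_lit 0) (XT.lf (nat_lit 0) (nat_lit 354864278607) (nat_lit 76) (nat_lit 158875980245) (nat_lit 76) (nat_lit 87999782188)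 (nat_lit 9) (nat_lit 4) (nat_lit 10) (nat_lit 5) (nat_lit 10) (nat_lit 4) (nat_lit 425) (nat_lit 358) (nat_lit 237)) (XT.lf (nat_lit 0) (nat_lit 569819320250) (nat_lit 76) (nat_lit 73121960288) (nat_lit 76) (nat_lit 2245288064) (nat_lit 9) (nat_lit 4) (nat_lit 10) (nat_lit 5) (nat_lit 10) (nat_lit 4) (nat_lit 426) (nat_lit 358) (nat_lit 236))))))))
noncomputable def xc78 : XT := (XT.nd (nat_lit 49062) (nat_lit 0) (nat_lit 1900) (XT.nd (nat_lit 48048) (nat_lit 0) (nat_lit 5852) (XT.nd (nat_lit 468) (nat_lit 152) (nat_lit 0) (XT.nd (nat_lit 234) (nat_lit 76) (nat_lit 0) (XT.nd (nat_lit 78) (nat_lit 0) (nat_lit 0) (XT.lf (nat_lit 0) (nat_lit 89581234542) (nat_lit 152) (nat_lit 580272610985) (nat_lit 0) (nat_lit 22079223810) (nat_lit 7) (nat_lit 5) (nat_lit 9) (nat_lit 4) (nat_lit 7) (nat_lit 4) (nat_lit 427) (nat_lit 358) (nat_lit 235)) (XT.nd (nat_lit 78) (nat_lit 0) (nat_lit 0) (XT.lf (nat_lit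 0) (nat_lit 191242415951) (nat_lit 152) (nat_lit 427306655722) (nat_lit 0) (nat_lit 123740018056) (nat_lit 7) (nat_lit 5) (nat_lit 9) (nat_lit 4) (nat_lit 7) (nat_lit 4) (nat_lit 428) (nat_lit 358) (nat_lit 234)) (XT.lf (nat_lit 0) (nat_lit 301035388649) (nat_lit 152) (nat_lit 262105626039) (nat_lit 0) (nat_lit 233532632269) (nat_lit 7) (nat_lit 5) (nat_lit 9) (nat_lit 4) (nat_lit 7) (nat_lit 4) (nat_lit 429) (nat_lit 358) (nat_lit 233)))) (XT.nd (nat_lit 78) (nat_lit 76) (nat_lit 0) (XT.lf (nat_lit 0) (nat_lit 419610777658) (nat_lit 152) (nat_lit 83690552873) (nat_lit 0) (nat_lit 352107689347) (nat_lit 7) (nat_lit 5) (nat_lit 9) (nat_lit 4) (nat_lit 7) (nat_lit 4) (nat_lit 430) (nat_lit 358) (nat_lit 232)) (XT.nd (nat_lit 78) (nat_lit 0) (nat_lit 0) (XT.lf (nat_lit 0) (nat_lit 112599732937) (nat_lit 76) (nat_lit 436829516404) (nat_lit 76) (nat_lit 369326120750) (nat_lit 6) (nat_lit 4) (nat_lit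 7) (nat_lit 5) (nat_lit 7) (nat_lit 4) (nat_lit 431) (nat_lit 358) (nat_lit 231)) (XT.lf (nat_lit 0) (nat_lit 327579998442) (nat_lit 76) (nat_lit 363510131785) (nat_lit 76) (nat_lit 296006451555) (nat_lit 6) (nat_lit 4) (nat_lit 7) (nat_lit 5) (nat_lit 7) (nat_lit 4) (nat_lit 432) (nat_lit 358) (nat_lit 230))))) (XT.nd (nat_lit 234) (nat_lit 152) (nat_lit 0) (XT.nd (nat_lit 78) (nat_lit 0) (nat_lit 0) (XT.lf (nat_lit 0) (nat_lit 559757013134) (nat_lit 76) (nat_lit 284326031441) (nat_lit 76) (nat_lit 216822087714) (nat_lit 6) (nat_lit 4) (nat_lit 7) (nat_lit 5) (nat_lit 7) (nat_lit 4) (nat_lit 433) (nat_lit 358) (nat_lit 229)) (XT.nd (nat_lit 78) (nat_lit 0) (nat_lit 0) (XT.lf (nat_lit 0) (nat_lit 810506640805) (nat_lit 76) (nat_lit 198807976260) (nat_lit 76) (nat_lit 131303788553) (nat_lit 6) (nat_lit 4) (nat_lit 7) (nat_lit 5) (nat_lit 7) (nat_lit 4) (nat_lit 434) (nat_lit 358) (nat_lit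 228)) (XT.lf (nat_lit 0) (nat_lit 1081314805173) (nat_lit 76) (nat_lit 106449192579) (nat_lit 76) (nat_lit 38944778966) (nat_lit 6) (nat_lit 4) (nat_lit 7) (nat_lit 5) (nat_lit 7) (nat_lit 4) (nat_lit 435) (nat_lit 358) (nat_lit 227)))) (XT.nd (nat_lit 47190) (nat_lit 0) (nat_lit 8740) (XT.nd (nat_lit 47112) (nat_lit 0) (nat_lit 8664) (XT.lf (nat_lit 0) (nat_lit 54907989601) (nat_lit 76) (nat_lit 4805479855) (nat_lit 152) (nat_lit 1259882613240) (nat_lit 4) (nat_lit 5) (nat_lit 5) (nat_lit 5) (nat_lit 6) (nat_lit 4) (nat_lit 436) (nat_lit 358) (nat_lit 226)) (XT.lf (nat_lit 0) (nat_lit 1032925723) (nat_lit 836) (nat_lit 3907366802) (nat_lit 836) (nat_lit 3907366802) (nat_lit 118) (nat_lit 3) (nat_lit 129) (nat_lit 3) (nat_lit 129) (nat_lit 5) (nat_lit 359) (nat_lit 359) (nat_lit 302))) (XT.nd (nat_lit 78) (nat_lit 0) (nat_lit 0) (XT.lf (nat_lit 0) (nat_lit 2625489178) (nat_lit 760) (nat_lit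 12301449127) (nat_lit 836) (nat_lit 3452164868) (nat_lit 119) (nat_lit 5) (nat_lit 129) (nat_lit 5) (nat_lit 130) (nat_lit 5) (nat_lit 360) (nat_lit 359) (nat_lit 301)) (XT.lf (nat_lit 76) (nat_lit 2129460465) (nat_lit 0) (nat_lit 1406041365) (nat_lit 836) (nat_lit 15566826239) (nat_lit 120) (nat_lit 5) (nat_lit 119) (nat_lit 5) (nat_lit 130) (nat_lit 5) (nat_lit 361) (nat_lit 359) (nat_lit 300)))))) (XT.nd (nat_lit 468) (nat_lit 2432) (nat_lit 0) (XT.nd (nat_lit 234) (nat_lit 532) (nat_lit 0) (XT.nd (nat_lit 78) (nat_lit 0) (nat_lit 76) (XT.lf (nat_lit 0) (nat_lit 4911846293) (nat_lit 760) (nat_lit 1948564210) (nat_lit 836) (nat_lit 13003340408) (nat_lit 120) (nat_lit 5) (nat_lit 130) (nat_lit 5) (nat_lit 131) (nat_lit 5) (nat_lit 362) (nat_lit 359) (nat_lit 299)) (XT.nd (nat_lit 78) (nat_lit 0) (nat_lit 76) (XT.lf (nat_lit 0) (nat_lit 6749733943) (nat_lit 760) (nat_lit 6095304843) (nat_lit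 836) (nat_lit 7823492285) (nat_lit 121) (nat_lit 5) (nat_lit 131) (nat_lit 5) (nat_lit 132) (nat_lit 5) (nat_lit 363) (nat_lit 359) (nat_lit 298)) (XT.lf (nat_lit 0) (nat_lit 9066521987) (nat_lit 760) (nat_lit 10384052455) (nat_lit 836) (nat_lit 2070539873) (nat_lit 122) (nat_lit 5) (nat_lit 132) (nat_lit 5) (nat_lit 133) (nat_lit 5) (nat_lit 364) (nat_lit 359) (nat_lit 297)))) (XT.nd (nat_lit 78) (nat_lit 684) (nat_lit 0) (XT.lf (nat_lit 76) (nat_lit 7531777803) (nat_lit 0) (nat_lit 4454576115) (nat_lit 836) (nat_lit 10434678353) (nat_lit 123) (nat_lit 5) (nat_lit 122) (nat_lit 5) (nat_lit 133) (nat_lit 5) (nat_lit 365) (nat_lit 359) (nat_lit 296)) (XT.nd (nat_lit 78) (nat_lit 0) (nat_lit 0) (XT.lf (nat_lit 0) (nat_lit 3782180211) (nat_lit 760) (nat_lit 11760970126) (nat_lit 836) (nat_lit 7829636551) (nat_lit 113) (nat_lit 5) (nat_lit 123) (nat_lit 5) (nat_lit 124) (nat_lit 5) (nat_lit 366)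 (nat_lit 359) (nat_lit 295)) (XT.lf (nat_lit 0) (nat_lit 19769462269) (nat_lit 836) (nat_lit 76330397) (nat_lit 76) (nat_lit 4535651845) (nat_lit 113) (nat_lit 5) (nat_lit 124) (nat_lit 5) (nat_lit 114) (nat_lit 5) (nat_lit 367) (nat_lit 359) (nat_lit 294))))) (XT.nd (nat_lit 234) (nat_lit 1216) (nat_lit 0) (XT.nd (nat_lit 78) (nat_lit 836) (nat_lit 0) (XT.lf (nat_lit 0) (nat_lit 21468829198) (nat_lit 380) (nat_lit 3378720865) (nat_lit 456) (nat_lit 597571529) (nat_lit 108) (nat_lit 5) (nat_lit 113) (nat_lit 5) (nat_lit 114) (nat_lit 5) (nat_lit 368) (nat_lit 359) (nat_lit 293)) (XT.nd (nat_lit 78) (nat_lit 380) (nat_lit 0) (XT.lf (nat_lit 0) (nat_lit 4122854525) (nat_lit 456) (nat_lit 8141285520) (nat_lit 76) (nat_lit 14301618854) (nat_lit 102) (nat_lit 5) (nat_lit 108) (nat_lit 5) (nat_lit 103) (nat_lit 5) (nat_lit 369) (nat_lit 359) (nat_lit 292)) (XT.lf (nat_lit 0) (nat_lit 9641315399)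 (nat_lit 456) (nat_lit 12457065422) (nat_lit 76) (nat_lit 5655118207) (nat_lit 97) (nat_lit 5) (nat_lit 103) (nat_lit 5) (nat_lit 98) (nat_lit 5) (nat_lit 370) (nat_lit 359) (nat_lit 291)))) (XT.nd (nat_lit 156) (nat_lit 608) (nat_lit 0) (XT.nd (nat_lit 78) (nat_lit 304) (nat_lit 0) (XT.lf (nat_lit 0) (nat_lit 12027593498) (nat_lit 304) (nat_lit 4095556570) (nat_lit 380) (nat_lit 12887021312) (nat_lit 93) (nat_lit 5) (nat_lit 97) (nat_lit 5) (nat_lit 98) (nat_lit 5) (nat_lit 371) (nat_lit 359) (nat_lit 290)) (XT.lf (nat_lit 0) (nat_lit 8571595402) (nat_lit 304) (nat_lit 15130034613) (nat_lit 380) (nat_lit 6636849855) (nat_lit 89) (nat_lit 5) (nat_lit 93) (nat_lit 5) (nat_lit 94) (nat_lit 5) (nat_lit 372) (nat_lit 359) (nat_lit 289))) (XT.nd (nat_lit 78) (nat_lit 304) (nat_lit 0) (XT.lf (nat_lit 0) (nat_lit 614539158) (nat_lit 304) (nat_lit 26735391462) (nat_lit 76) (nat_lit 4397798798) (nat_lit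 85) (nat_lit 5) (nat_lit 89) (nat_lit 5) (nat_lit 86) (nat_lit 5) (nat_lit 373) (nat_lit 359) (nat_lit 288)) (XT.lf (nat_lit 0) (nat_lit 1104053805) (nat_lit 304) (nat_lit 7755854629) (nat_lit 380) (nat_lit 24372056793) (nat_lit 81) (nat_lit 5) (nat_lit 85) (nat_lit 5) (nat_lit 86) (nat_lit 5) (nat_lit 374) (nat_lit 359) (nat_lit 287))))))) (XT.nd (nat_lit 1014) (nat_lit 1596) (nat_lit 0) (XT.nd (nat_lit 468) (nat_lit 1140) (nat_lit 0) (XT.nd (nat_lit 234) (nat_lit 684) (nat_lit 0) (XT.nd (nat_lit 78) (nat_lit 532) (nat_lit 0) (XT.lf (nat_lit 0) (nat_lit 18433834114) (nat_lit 380) (nat_lit 2921510375) (nat_lit 76) (nat_lit 13446154572) (nat_lit 81) (nat_lit 5) (nat_lit 86) (nat_lit 5) (nat_lit 82) (nat_lit 5) (nat_lit 375) (nat_lit 359) (nat_lit 286)) (XT.nd (nat_lit 78) (nat_lit 304) (nat_lit 0) (XT.lf (nat_lit 0) (nat_lit 29352000708) (nat_lit 304) (nat_lit 7053574954) (nat_lit 76) (nat_lit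 62108688) (nat_lit 78) (nat_lit 5) (nat_lit 82) (nat_lit 5) (nat_lit 79) (nat_lit 5) (nat_lit 376) (nat_lit 359) (nat_lit 285)) (XT.lf (nat_lit 0) (nat_lit 3613600687) (nat_lit 304) (nat_lit 11633018451) (nat_lit 76) (nat_lit 22976843886) (nat_lit 74) (nat_lit 5) (nat_lit 78) (nat_lit 5) (nat_lit 75) (nat_lit 5) (nat_lit 377) (nat_lit 359) (nat_lit 284)))) (XT.nd (nat_lit 78) (nat_lit 456) (nat_lit 0) (XT.lf (nat_lit 0) (nat_lit 15567025773) (nat_lit 304) (nat_lit 16534351315) (nat_lit 76) (nat_lit 7981743688) (nat_lit 71) (nat_lit 5) (nat_lit 75) (nat_lit 5) (nat_lit 72) (nat_lit 5) (nat_lit 378) (nat_lit 359) (nat_lit 283)) (XT.nd (nat_lit 78) (nat_lit 228) (nat_lit 0) (XT.lf (nat_lit 0) (nat_lit 20250665332) (nat_lit 228) (nat_lit 8994190770) (nat_lit 304) (nat_lit 12808292336) (nat_lit 68) (nat_lit 5) (nat_lit 71) (nat_lit 5) (nat_lit 72) (nat_lit 5) (nat_lit 379) (nat_lit 359) (nat_lit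 282)) (XT.lf (nat_lit 0) (nat_lit 645917738) (nat_lit 228) (nat_lit 27485501980) (nat_lit 76) (nat_lit 16009262986) (nat_lit 65) (nat_lit 5) (nat_lit 68) (nat_lit 5) (nat_lit 66) (nat_lit 5) (nat_lit 380) (nat_lit 359) (nat_lit 281))))) (XT.nd (nat_lit 234) (nat_lit 532) (nat_lit 0) (XT.nd (nat_lit 78) (nat_lit 380) (nat_lit 0) (XT.lf (nat_lit 0) (nat_lit 12605831584) (nat_lit 228) (nat_lit 2852169043) (nat_lit 304) (nat_lit 30890209820) (nat_lit 62) (nat_lit 5) (nat_lit 65) (nat_lit 5) (nat_lit 66) (nat_lit 5) (nat_lit 381) (nat_lit 359) (nat_lit 280)) (XT.nd (nat_lit 78) (nat_lit 228) (nat_lit 0) (XT.lf (nat_lit 0) (nat_lit 8029702420) (nat_lit 152) (nat_lit 24409303581) (nat_lit 228) (nat_lit 16244139527) (nat_lit 60) (nat_lit 5) (nat_lit 62) (nat_lit 5) (nat_lit 63) (nat_lit 5) (nat_lit 382) (nat_lit 359) (nat_lit 279)) (XT.lf (nat_lit 0) (nat_lit 319295260) (nat_lit 228) (nat_lit 48007036052)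 (nat_lit 76) (nat_lit 2842277927) (nat_lit 57) (nat_lit 5) (nat_lit 60) (nat_lit 5) (nat_lit 58) (nat_lit 5) (nat_lit 383) (nat_lit 359) (nat_lit 278)))) (XT.nd (nat_lit 156) (nat_lit 380) (nat_lit 0) (XT.nd (nat_lit 78) (nat_lit 152) (nat_lit 0) (XT.lf (nat_lit 0) (nat_lit 18768617826) (nat_lit 228) (nat_lit 2595751023) (nat_lit 76) (nat_lit 32418732281) (nat_lit 57) (nat_lit 5) (nat_lit 60) (nat_lit 5) (nat_lit 58) (nat_lit 5) (nat_lit 384) (nat_lit 359) (nat_lit 277)) (XT.lf (nat_lit 0) (nat_lit 39567740015) (nat_lit 228) (nat_lit 8732783447) (nat_lit 76) (nat_lit 8262538419) (nat_lit 55) (nat_lit 5) (nat_lit 58) (nat_lit 5) (nat_lit 56) (nat_lit 5) (nat_lit 385) (nat_lit 359) (nat_lit 276))) (XT.nd (nat_lit 78) (nat_lit 152) (nat_lit 0) (XT.lf (nat_lit 0) (nat_lit 3486996322) (nat_lit 228) (nat_lit 15718443641) (nat_lit 76) (nat_lit 40303030344) (nat_lit 52) (nat_lit 5) (nat_lit 55) (nat_lit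 5) (nat_lit 53) (nat_lit 5) (nat_lit 386) (nat_lit 359) (nat_lit 275)) (XT.lf (nat_lit 0) (nat_lit 25985550822) (nat_lit 228) (nat_lit 23751430448) (nat_lit 76) (nat_lit 12889947135) (nat_lit 50) (nat_lit 5) (nat_lit 53) (nat_lit 5) (nat_lit 51) (nat_lit 5) (nat_lit 387) (nat_lit 359) (nat_lit 274)))))) (XT.nd (nat_lit 468) (nat_lit 836) (nat_lit 0) (XT.nd (nat_lit 234) (nat_lit 304) (nat_lit 0) (XT.nd (nat_lit 78) (nat_lit 304) (nat_lit 0) (XT.lf (nat_lit 0) (nat_lit 33136621402) (nat_lit 152) (nat_lit 18259402646) (nat_lit 228) (nat_lit 14543239048) (nat_lit 48) (nat_lit 5) (nat_lit 50) (nat_lit 5) (nat_lit 51) (nat_lit 5) (nat_lit 388) (nat_lit 359) (nat_lit 273)) (XT.nd (nat_lit 78) (nat_lit 152) (nat_lit 0) (XT.lf (nat_lit 0) (nat_lit 10114908296) (nat_lit 152) (nat_lit 43114478237) (nat_lit 76) (nat_lit 16225394588) (nat_lit 46) (nat_lit 5) (nat_lit 48) (nat_lit 5) (nat_lit 47) (nat_lit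 5) (nat_lit 389) (nat_lit 359) (nat_lit 272)) (XT.lf (nat_lit 0) (nat_lit 18170031705) (nat_lit 152) (nat_lit 19238364943) (nat_lit 228) (nat_lit 35772613935) (nat_lit 44) (nat_lit 5) (nat_lit 46) (nat_lit 5) (nat_lit 47) (nat_lit 5) (nat_lit 390) (nat_lit 359) (nat_lit 271)))) (XT.nd (nat_lit 78) (nat_lit 228) (nat_lit 0) (XT.lf (nat_lit 0) (nat_lit 8710973333) (nat_lit 76) (nat_lit 59339834101) (nat_lit 152) (nat_lit 9096260057) (nat_lit 43) (nat_lit 5) (nat_lit 44) (nat_lit 5) (nat_lit 45) (nat_lit 4) (nat_lit 391) (nat_lit 359) (nat_lit 270)) (XT.nd (nat_lit 78) (nat_lit 152) (nat_lit 0) (XT.lf (nat_lit 0) (nat_lit 20375112395) (nat_lit 152) (nat_lit 2546840932) (nat_lit 76) (nat_lit 58428472645) (nat_lit 42) (nat_lit 5) (nat_lit 44) (nat_lit 5) (nat_lit 43) (nat_lit 5) (nat_lit 392) (nat_lit 359) (nat_lit 269)) (XT.lf (nat_lit 0) (nat_lit 53264534427) (nat_lit 228) (nat_lit 15391495503)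 (nat_lit 76) (nat_lit 17157616857) (nat_lit 40) (nat_lit 5) (nat_lit 43) (nat_lit 5) (nat_lit 41) (nat_lit 4) (nat_lit 393) (nat_lit 359) (nat_lit 268))))) (XT.nd (nat_lit 234) (nat_lit 456) (nat_lit 0) (XT.nd (nat_lit 78) (nat_lit 304) (nat_lit 0) (XT.lf (nat_lit 0) (nat_lit 60217558657) (nat_lit 76) (nat_lit 29933535772) (nat_lit 152) (nat_lit 414532579) (nat_lit 39) (nat_lit 5) (nat_lit 40) (nat_lit 5) (nat_lit 41) (nat_lit 4) (nat_lit 394) (nat_lit 359) (nat_lit 267)) (XT.nd (nat_lit 78) (nat_lit 76) (nat_lit 0) (XT.lf (nat_lit 0) (nat_lit 34416182946) (nat_lit 228) (nat_lit 48113450674) (nat_lit 76) (nat_lit 13080219603) (nat_lit 36) (nat_lit 5) (nat_lit 39) (nat_lit 5) (nat_lit 37) (nat_lit 4) (nat_lit 395) (nat_lit 359) (nat_lit 266)) (XT.lf (nat_lit 0) (nat_lit 32118635408) (nat_lit 76) (nat_lit 41438493765) (nat_lit 152) (nat_lit 27423234524) (nat_lit 35) (nat_lit 5) (nat_lit 36)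 (nat_lit 5) (nat_lit 37) (nat_lit 4) (nat_lit 396) (nat_lit 359) (nat_lit 265)))) (XT.nd (nat_lit 156) (nat_lit 228) (nat_lit 0) (XT.nd (nat_lit 78) (nat_lit 0) (nat_lit 0) (XT.lf (nat_lit 0) (nat_lit 9890626813) (nat_lit 228) (nat_lit 92752620177) (nat_lit 76) (nat_lit 4073634321) (nat_lit 32) (nat_lit 5) (nat_lit 35) (nat_lit 5) (nat_lit 33) (nat_lit 4) (nat_lit 397) (nat_lit 359) (nat_lit 264)) (XT.lf (nat_lit 0) (nat_lit 51154524998) (nat_lit 228) (nat_lit 8167225020) (nat_lit 76) (nat_lit 53471807664) (nat_lit 32) (nat_lit 5) (nat_lit 35) (nat_lit 5) (nat_lit 33) (nat_lit 4) (nat_lit 398) (nat_lit 359) (nat_lit 263))) (XT.nd (nat_lit 78) (nat_lit 152) (nat_lit 0) (XT.lf (nat_lit 0) (nat_lit 85926441972) (nat_lit 76) (nat_lit 11129960386) (nat_lit 152) (nat_lit 22233123026) (nat_lit 31) (nat_lit 5) (nat_lit 32) (nat_lit 5) (nat_lit 33) (nat_lit 4) (nat_lit 399) (nat_lit 359) (nat_lit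 262)) (XT.lf (nat_lit 0) (nat_lit 21464616148) (nat_lit 152) (nat_lit 63658470835) (nat_lit 76) (nat_lit 41076722725) (nat_lit 29) (nat_lit 5) (nat_lit 31) (nat_lit 5) (nat_lit 30) (nat_lit 4) (nat_lit 400) (nat_lit 359) (nat_lit 261))))))))
noncomputable def xc79 : XT := (XT.nd (nat_lit 2028) (nat_lit 228) (nat_lit 0) (XT.nd (nat_lit 1014) (nat_lit 532) (nat_lit 0) (XT.nd (nat_lit 468) (nat_lit 532) (nat_lit 0) (XT.nd (nat_lit 234) (nat_lit 228) (nat_lit 0) (XT.nd (nat_lit 78) (nat_lit 152) (nat_lit 0) (XT.lf (nat_lit 0) (nat_lit 34189528935) (nat_lit 76) (nat_lit 35007882633) (nat_lit 152) (nat_lit 64381372946) (nat_lit 28) (nat_lit 5) (nat_lit 29) (nat_lit 5) (nat_lit 30) (nat_lit 4) (nat_lit 401) (nat_lit 359) (nat_lit 260)) (XT.nd (nat_lit 78) (nat_lit 76) (nat_lit 0) (XT.lf (nat_lit 0) (nat_lit 331847546) (nat_lit 76) (nat_lit 121843445086) (nat_lit 76) (nat_lit 19301462014) (nat_lit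 27) (nat_lit 4) (nat_lit 28) (nat_lit 5) (nat_lit 28) (nat_lit 4) (nat_lit 402) (nat_lit 359) (nat_lit 259)) (XT.lf (nat_lit 0) (nat_lit 30790196083) (nat_lit 152) (nat_lit 39425535637) (nat_lit 76) (nat_lit 79650599438) (nat_lit 26) (nat_lit 5) (nat_lit 28) (nat_lit 5) (nat_lit 27) (nat_lit 4) (nat_lit 403) (nat_lit 359) (nat_lit 258)))) (XT.nd (nat_lit 78) (nat_lit 152) (nat_lit 0) (XT.lf (nat_lit 0) (nat_lit 72416411760) (nat_lit 76) (nat_lit 12932392149) (nat_lit 152) (nat_lit 73505657060) (nat_lit 25) (nat_lit 5) (nat_lit 26) (nat_lit 5) (nat_lit 27) (nat_lit 4) (nat_lit 404) (nat_lit 359) (nat_lit 257)) (XT.nd (nat_lit 78) (nat_lit 76) (nat_lit 0) (XT.lf (nat_lit 0) (nat_lit 26140591327) (nat_lit 76) (nat_lit 119997958127) (nat_lit 76) (nat_lit 22329769591) (nat_lit 24) (nat_lit 4) (nat_lit 25) (nat_lit 5) (nat_lit 25) (nat_lit 4) (nat_lit 405) (nat_lit 359) (nat_lit 256)) (XT.lf (nat_lit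 0) (nat_lit 33630753386) (nat_lit 152) (nat_lit 28727755830) (nat_lit 76) (nat_lit 116379819600) (nat_lit 23) (nat_lit 5) (nat_lit 25) (nat_lit 5) (nat_lit 24) (nat_lit 4) (nat_lit 406) (nat_lit 359) (nat_lit 255))))) (XT.nd (nat_lit 234) (nat_lit 304) (nat_lit 0) (XT.nd (nat_lit 78) (nat_lit 152) (nat_lit 0) (XT.lf (nat_lit 0) (nat_lit 94831423871) (nat_lit 152) (nat_lit 93093620111) (nat_lit 0) (nat_lit 1809310970) (nat_lit 22) (nat_lit 5) (nat_lit 24) (nat_lit 4) (nat_lit 22) (nat_lit 4) (nat_lit 407) (nat_lit 359) (nat_lit 254)) (XT.nd (nat_lit 78) (nat_lit 76) (nat_lit 0) (XT.lf (nat_lit 0) (nat_lit 31419211704) (nat_lit 76) (nat_lit 131556362909) (nat_lit 76) (nat_lit 38532117490) (nat_lit 21) (nat_lit 4) (nat_lit 22) (nat_lit 5) (nat_lit 22) (nat_lit 4) (nat_lit 408) (nat_lit 359) (nat_lit 253)) (XT.lf (nat_lit 0) (nat_lit 23278167204) (nat_lit 152) (nat_lit 45305977202) (nat_lit 76)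 (nat_lit 145539051358) (nat_lit 20) (nat_lit 5) (nat_lit 22) (nat_lit 5) (nat_lit 21) (nat_lit 4) (nat_lit 409) (nat_lit 359) (nat_lit 252)))) (XT.nd (nat_lit 156) (nat_lit 228) (nat_lit 0) (XT.nd (nat_lit 78) (nat_lit 0) (nat_lit 0) (XT.lf (nat_lit 0) (nat_lit 90155898474) (nat_lit 152) (nat_lit 135929070401) (nat_lit 0) (nat_lit 1557757273) (nat_lit 19) (nat_lit 5) (nat_lit 21) (nat_lit 4) (nat_lit 19) (nat_lit 4) (nat_lit 410) (nat_lit 359) (nat_lit 251)) (XT.lf (nat_lit 0) (nat_lit 164339639594) (nat_lit 152) (nat_lit 2066503846) (nat_lit 0) (nat_lit 75739886145) (nat_lit 19) (nat_lit 5) (nat_lit 21) (nat_lit 4) (nat_lit 19) (nat_lit 4) (nat_lit 411) (nat_lit 359) (nat_lit 250))) (XT.nd (nat_lit 78) (nat_lit 152) (nat_lit 0) (XT.lf (nat_lit 0) (nat_lit 147211692647) (nat_lit 76) (nat_lit 99542180717) (nat_lit 76) (nat_lit 10940934445) (nat_lit 18) (nat_lit 4) (nat_lit 19) (nat_lit 5)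 (nat_lit 19) (nat_lit 4) (nat_lit 412) (nat_lit 359) (nat_lit 249)) (XT.lf (nat_lit 0) (nat_lit 34151122590) (nat_lit 76) (nat_lit 25728755997) (nat_lit 152) (nat_lit 214531413909) (nat_lit 16) (nat_lit 5) (nat_lit 17) (nat_lit 5) (nat_lit 18) (nat_lit 4) (nat_lit 413) (nat_lit 359) (nat_lit 248)))))) (XT.nd (nat_lit 468) (nat_lit 228) (nat_lit 0) (XT.nd (nat_lit 234) (nat_lit 228) (nat_lit 0) (XT.nd (nat_lit 78) (nat_lit 76) (nat_lit 0) (XT.lf (nat_lit 0) (nat_lit 138784748560) (nat_lit 152) (nat_lit 99131220194) (nat_lit 0) (nat_lit 54400073922) (nat_lit 16) (nat_lit 5) (nat_lit 18) (nat_lit 4) (nat_lit 16) (nat_lit 4) (nat_lit 414) (nat_lit 359) (nat_lit 247)) (XT.nd (nat_lit 78) (nat_lit 0) (nat_lit 0) (XT.lf (nat_lit 0) (nat_lit 54597217300) (nat_lit 76) (nat_lit 170688779758) (nat_lit 76) (nat_lit 86302976501) (nat_lit 15) (nat_lit 4) (nat_lit 16) (nat_lit 5) (nat_lit 16) (nat_lit 4)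 (nat_lit 415) (nat_lit 359) (nat_lit 246)) (XT.lf (nat_lit 0) (nat_lit 224159620632) (nat_lit 76) (nat_lit 96272367278) (nat_lit 76) (nat_lit 11885519002) (nat_lit 15) (nat_lit 4) (nat_lit 16) (nat_lit 5) (nat_lit 16) (nat_lit 4) (nat_lit 416) (nat_lit 359) (nat_lit 245)))) (XT.nd (nat_lit 78) (nat_lit 76) (nat_lit 0) (XT.lf (nat_lit 0) (nat_lit 53212574667) (nat_lit 76) (nat_lit 13909567065) (nat_lit 152) (nat_lit 287487280659) (nat_lit 13) (nat_lit 5) (nat_lit 14) (nat_lit 5) (nat_lit 15) (nat_lit 4) (nat_lit 417) (nat_lit 359) (nat_lit 244)) (XT.nd (nat_lit 78) (nat_lit 76) (nat_lit 0) (XT.lf (nat_lit 0) (nat_lit 155124146944) (nat_lit 152) (nat_lit 148642349710) (nat_lit 0) (nat_lit 74753945211) (nat_lit 13) (nat_lit 5) (nat_lit 15) (nat_lit 4) (nat_lit 13) (nat_lit 4) (nat_lit 418) (nat_lit 359) (nat_lit 243)) (XT.lf (nat_lit 0) (nat_lit 16626509443) (nat_lit 76) (nat_lit 234032105123)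 (nat_lit 76) (nat_lit 153661113325) (nat_lit 12) (nat_lit 4) (nat_lit 13) (nat_lit 5) (nat_lit 13) (nat_lit 4) (nat_lit 419) (nat_lit 359) (nat_lit 242))))) (XT.nd (nat_lit 234) (nat_lit 76) (nat_lit 0) (XT.nd (nat_lit 78) (nat_lit 152) (nat_lit 0) (XT.lf (nat_lit 0) (nat_lit 200421394451) (nat_lit 76) (nat_lit 156001955138) (nat_lit 76) (nat_lit 75630231797) (nat_lit 12) (nat_lit 4) (nat_lit 13) (nat_lit 5) (nat_lit 13) (nat_lit 4) (nat_lit 420) (nat_lit 359) (nat_lit 241)) (XT.nd (nat_lit 78) (nat_lit 76) (nat_lit 0) (XT.lf (nat_lit 0) (nat_lit 8364845208) (nat_lit 152) (nat_lit 63224468018) (nat_lit 76) (nat_lit 390410164908) (nat_lit 11) (nat_lit 5) (nat_lit 13) (nat_lit 5) (nat_lit 12) (nat_lit 4) (nat_lit 421) (nat_lit 359) (nat_lit 240)) (XT.lf (nat_lit 0) (nat_lit 98714464871) (nat_lit 152) (nat_lit 373281633218) (nat_lit 0) (nat_lit 22168724038) (nat_lit 10) (nat_lit 5) (nat_lit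 12) (nat_lit 4) (nat_lit 10) (nat_lit 4) (nat_lit 422) (nat_lit 359) (nat_lit 239)))) (XT.nd (nat_lit 156) (nat_lit 76) (nat_lit 0) (XT.nd (nat_lit 78) (nat_lit 0) (nat_lit 0) (XT.lf (nat_lit 0) (nat_lit 198617090384) (nat_lit 152) (nat_lit 208099255027) (nat_lit 0) (nat_lit 122070796482) (nat_lit 10) (nat_lit 5) (nat_lit 12) (nat_lit 4) (nat_lit 10) (nat_lit 4) (nat_lit 423) (nat_lit 359) (nat_lit 238)) (XT.lf (nat_lit 0) (nat_lit 306510560807) (nat_lit 152) (nat_lit 29704999946) (nat_lit 0) (nat_lit 229963754804) (nat_lit 10) (nat_lit 5) (nat_lit 12) (nat_lit 4) (nat_lit 10) (nat_lit 4) (nat_lit 424) (nat_lit 359) (nat_lit 237))) (XT.nd (nat_lit 78) (nat_lit 0) (nat_lit 0) (XT.lf (nat_lit 0) (nat_lit 168346419949) (nat_lit 76) (nat_lit 257316184311) (nat_lit 76) (nat_lit 180768904141) (nat_lit 9) (nat_lit 4) (nat_lit 10) (nat_lit 5) (nat_lit 10) (nat_lit 4) (nat_lit 425) (nat_lit 359) (nat_lit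 236)) (XT.lf (nat_lit 0) (nat_lit 383300306212) (nat_lit 76) (nat_lit 171562739012) (nat_lit 76) (nat_lit 95015019799) (nat_lit 9) (nat_lit 4) (nat_lit 10) (nat_lit 5) (nat_lit 10) (nat_lit 4) (nat_lit 426) (nat_lit 359) (nat_lit 235))))))) (XT.nd (nat_lit 48126) (nat_lit 0) (nat_lit 5700) (XT.nd (nat_lit 468) (nat_lit 0) (nat_lit 0) (XT.nd (nat_lit 234) (nat_lit 76) (nat_lit 0) (XT.nd (nat_lit 78) (nat_lit 152) (nat_lit 0) (XT.lf (nat_lit 0) (nat_lit 615448278199) (nat_lit 76) (nat_lit 78950124840) (nat_lit 76) (nat_lit 2401999105) (nat_lit 9) (nat_lit 4) (nat_lit 10) (nat_lit 5) (nat_lit 10) (nat_lit 4) (nat_lit 427) (nat_lit 359) (nat_lit 234)) (XT.nd (nat_lit 78) (nat_lit 0) (nat_lit 0) (XT.lf (nat_lit 0) (nat_lit 96769256797) (nat_lit 152) (nat_lit 626651459659) (nat_lit 0) (nat_lit 23865921422) (nat_lit 7) (nat_lit 5) (nat_lit 9) (nat_lit 4) (nat_lit 7) (nat_lit 4) (nat_lit 428) (nat_lit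 359) (nat_lit 233)) (XT.lf (nat_lit 0) (nat_lit 206561738387) (nat_lit 152) (nat_lit 461451410212) (nat_lit 0) (nat_lit 133658071081) (nat_lit 7) (nat_lit 5) (nat_lit 9) (nat_lit 4) (nat_lit 7) (nat_lit 4) (nat_lit 429) (nat_lit 359) (nat_lit 232)))) (XT.nd (nat_lit 78) (nat_lit 76) (nat_lit 0) (XT.lf (nat_lit 0) (nat_lit 325136672666) (nat_lit 152) (nat_lit 283037244671) (nat_lit 0) (nat_lit 252232698017) (nat_lit 7) (nat_lit 5) (nat_lit 9) (nat_lit 4) (nat_lit 7) (nat_lit 4) (nat_lit 430) (nat_lit 359) (nat_lit 231)) (XT.nd (nat_lit 78) (nat_lit 76) (nat_lit 0) (XT.lf (nat_lit 0) (nat_lit 453196725912) (nat_lit 152) (nat_lit 90351693907) (nat_lit 0) (nat_lit 380292466686) (nat_lit 7) (nat_lit 5) (nat_lit 9) (nat_lit 4) (nat_lit 7) (nat_lit 4) (nat_lit 431) (nat_lit 359) (nat_lit 230)) (XT.lf (nat_lit 0) (nat_lit 121640332684) (nat_lit 76) (nat_lit 471759586320) (nat_lit 76) (nat_lit 398855063597)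 (nat_lit 6) (nat_lit 4) (nat_lit 7) (nat_lit 5) (nat_lit 7) (nat_lit 4) (nat_lit 432) (nat_lit 359) (nat_lit 229))))) (XT.nd (nat_lit 234) (nat_lit 0) (nat_lit 0) (XT.nd (nat_lit 78) (nat_lit 0) (nat_lit 0) (XT.lf (nat_lit 0) (nat_lit 353816603051) (nat_lit 76) (nat_lit 392575857702) (nat_lit 76) (nat_lit 319671091000) (nat_lit 6) (nat_lit 4) (nat_lit 7) (nat_lit 5) (nat_lit 7) (nat_lit 4) (nat_lit 433) (nat_lit 359) (nat_lit 228)) (XT.nd (nat_lit 78) (nat_lit 0) (nat_lit 0) (XT.lf (nat_lit 0) (nat_lit 604565541531) (nat_lit 76) (nat_lit 307058146710) (nat_lit 76) (nat_lit 234153154102) (nat_lit 6) (nat_lit 4) (nat_lit 7) (nat_lit 5) (nat_lit 7) (nat_lit 4) (nat_lit 434) (nat_lit 359) (nat_lit 227)) (XT.lf (nat_lit 0) (nat_lit 875373067760) (nat_lit 76) (nat_lit 214699681725) (nat_lit 76) (nat_lit 141794479944) (nat_lit 6) (nat_lit 4) (nat_lit 7) (nat_lit 5) (nat_lit 7) (nat_lit 4) (nat_lit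 435) (nat_lit 359) (nat_lit 226)))) (XT.nd (nat_lit 47268) (nat_lit 0) (nat_lit 8588) (XT.nd (nat_lit 47190) (nat_lit 0) (nat_lit 8512) (XT.lf (nat_lit 0) (nat_lit 1167843967078) (nat_lit 76) (nat_lit 114953153323) (nat_lit 76) (nat_lit 42047757864) (nat_lit 6) (nat_lit 4) (nat_lit 7) (nat_lit 5) (nat_lit 7) (nat_lit 4) (nat_lit 436) (nat_lit 359) (nat_lit 225)) (XT.lf (nat_lit 0) (nat_lit 1433252573) (nat_lit 836) (nat_lit 4053080549) (nat_lit 836) (nat_lit 4053080549) (nat_lit 118) (nat_lit 3) (nat_lit 129) (nat_lit 3) (nat_lit 129) (nat_lit 5) (nat_lit 360) (nat_lit 360) (nat_lit 300))) (XT.nd (nat_lit 78) (nat_lit 0) (nat_lit 0) (XT.lf (nat_lit 0) (nat_lit 3424553828) (nat_lit 760) (nat_lit 12932052477) (nat_lit 836) (nat_lit 3463052063) (nat_lit 119) (nat_lit 5) (nat_lit 129) (nat_lit 5) (nat_lit 130) (nat_lit 5) (nat_lit 361) (nat_lit 360) (nat_lit 299)) (XT.lf (nat_lit 76) (nat_lit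 2637966657) (nat_lit 0) (nat_lit 1731048775) (nat_lit 836) (nat_lit 16233667263) (nat_lit 120) (nat_lit 5) (nat_lit 119) (nat_lit 5) (nat_lit 130) (nat_lit 5) (nat_lit 362) (nat_lit 360) (nat_lit 298)))))) (XT.nd (nat_lit 546) (nat_lit 2052) (nat_lit 0) (XT.nd (nat_lit 234) (nat_lit 912) (nat_lit 0) (XT.nd (nat_lit 78) (nat_lit 0) (nat_lit 76) (XT.lf (nat_lit 0) (nat_lit 5811604514) (nat_lit 760) (nat_lit 1762505762) (nat_lit 836) (nat_lit 13853124305) (nat_lit 120) (nat_lit 5) (nat_lit 130) (nat_lit 5) (nat_lit 131) (nat_lit 5) (nat_lit 363) (nat_lit 360) (nat_lit 297)) (XT.nd (nat_lit 78) (nat_lit 0) (nat_lit 76) (XT.lf (nat_lit 0) (nat_lit 7761788690) (nat_lit 760) (nat_lit 6229572222) (nat_lit 836) (nat_lit 8306793401) (nat_lit 121) (nat_lit 5) (nat_lit 131) (nat_lit 5) (nat_lit 132) (nat_lit 5) (nat_lit 364) (nat_lit 360) (nat_lit 296)) (XT.lf (nat_lit 0) (nat_lit 10232598592) (nat_lit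 760) (nat_lit 10852790632) (nat_lit 836) (nat_lit 2135139975) (nat_lit 122) (nat_lit 5) (nat_lit 132) (nat_lit 5) (nat_lit 133) (nat_lit 5) (nat_lit 365) (nat_lit 360) (nat_lit 295)))) (XT.nd (nat_lit 156) (nat_lit 380) (nat_lit 0) (XT.nd (nat_lit 78) (nat_lit 684) (nat_lit 0) (XT.lf (nat_lit 76) (nat_lit 8480574576) (nat_lit 0) (nat_lit 4878199998) (nat_lit 836) (nat_lit 10835045661) (nat_lit 123) (nat_lit 5) (nat_lit 122) (nat_lit 5) (nat_lit 133) (nat_lit 5) (nat_lit 366) (nat_lit 360) (nat_lit 294)) (XT.lf (nat_lit 0) (nat_lit 4436952386) (nat_lit 760) (nat_lit 12737058272) (nat_lit 836) (nat_lit 8049025989) (nat_lit 113) (nat_lit 5) (nat_lit 123) (nat_lit 5) (nat_lit 124) (nat_lit 5) (nat_lit 367) (nat_lit 360) (nat_lit 293))) (XT.nd (nat_lit 78) (nat_lit 0) (nat_lit 0) (XT.lf (nat_lit 0) (nat_lit 270977519) (nat_lit 380) (nat_lit 21442474818) (nat_lit 456) (nat_lit 4600198322) (nat_lit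 108) (nat_lit 5) (nat_lit 113) (nat_lit 5) (nat_lit 114) (nat_lit 5) (nat_lit 368) (nat_lit 360) (nat_lit 292)) (XT.lf (nat_lit 0) (nat_lit 23516094870) (nat_lit 380) (nat_lit 3656076526) (nat_lit 456) (nat_lit 291545208) (nat_lit 108) (nat_lit 5) (nat_lit 113) (nat_lit 5) (nat_lit 114) (nat_lit 5) (nat_lit 369) (nat_lit 360) (nat_lit 291))))) (XT.nd (nat_lit 234) (nat_lit 912) (nat_lit 0) (XT.nd (nat_lit 78) (nat_lit 684) (nat_lit 0) (XT.lf (nat_lit 0) (nat_lit 4774980882) (nat_lit 456) (nat_lit 8449969348) (nat_lit 76) (nat_lit 15449801175) (nat_lit 102) (nat_lit 5) (nat_lit 108) (nat_lit 5) (nat_lit 103) (nat_lit 5) (nat_lit 370) (nat_lit 360) (nat_lit 290)) (XT.nd (nat_lit 78) (nat_lit 304) (nat_lit 0) (XT.lf (nat_lit 0) (nat_lit 10716539120) (nat_lit 456) (nat_lit 13110960103) (nat_lit 76) (nat_lit 6130941853) (nat_lit 97) (nat_lit 5) (nat_lit 103) (nat_lit 5) (nat_lit 98) (nat_lit 5)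 (nat_lit 371) (nat_lit 360) (nat_lit 289)) (XT.lf (nat_lit 0) (nat_lit 13317579487) (nat_lit 304) (nat_lit 4381946136) (nat_lit 380) (nat_lit 13617001855) (nat_lit 93) (nat_lit 5) (nat_lit 97) (nat_lit 5) (nat_lit 98) (nat_lit 5) (nat_lit 372) (nat_lit 360) (nat_lit 288)))) (XT.nd (nat_lit 156) (nat_lit 304) (nat_lit 0) (XT.nd (nat_lit 78) (nat_lit 304) (nat_lit 0) (XT.lf (nat_lit 0) (nat_lit 9584069877) (nat_lit 304) (nat_lit 16284687950) (nat_lit 380) (nat_lit 6883128863) (nat_lit 89) (nat_lit 5) (nat_lit 93) (nat_lit 5) (nat_lit 94) (nat_lit 5) (nat_lit 373) (nat_lit 360) (nat_lit 287)) (XT.lf (nat_lit 0) (nat_lit 924821577) (nat_lit 304) (nat_lit 28540690012) (nat_lit 76) (nat_lit 4808872900) (nat_lit 85) (nat_lit 5) (nat_lit 89) (nat_lit 5) (nat_lit 86) (nat_lit 5) (nat_lit 374) (nat_lit 360) (nat_lit 286))) (XT.nd (nat_lit 78) (nat_lit 0) (nat_lit 0) (XT.lf (nat_lit 0) (nat_lit 1511415949)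 (nat_lit 304) (nat_lit 8304043352) (nat_lit 380) (nat_lit 26062625866) (nat_lit 81) (nat_lit 5) (nat_lit 85) (nat_lit 5) (nat_lit 86) (nat_lit 5) (nat_lit 375) (nat_lit 360) (nat_lit 285)) (XT.lf (nat_lit 0) (nat_lit 20138065547) (nat_lit 380) (nat_lit 2849354695) (nat_lit 76) (nat_lit 14586630500) (nat_lit 81) (nat_lit 5) (nat_lit 86) (nat_lit 5) (nat_lit 82) (nat_lit 5) (nat_lit 376) (nat_lit 360) (nat_lit 284))))))))
noncomputable def xc80 : XT := (XT.nd (nat_lit 2028) (nat_lit 1444) (nat_lit 0) (XT.nd (nat_lit 1014) (nat_lit 1520) (nat_lit 0) (XT.nd (nat_lit 468) (nat_lit 1064) (nat_lit 0) (XT.nd (nat_lit 234) (nat_lit 684) (nat_lit 0) (XT.nd (nat_lit 78) (nat_lit 532) (nat_lit 0) (XT.lf (nat_lit 0) (nat_lit 31918430337) (nat_lit 304) (nat_lit 7315516372) (nat_lit 76) (nat_lit 140153717) (nat_lit 78) (nat_lit 5) (nat_lit 82) (nat_lit 5) (nat_lit 79) (nat_lit 5) (nat_lit 377) (nat_lit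 360) (nat_lit 283)) (XT.nd (nat_lit 78) (nat_lit 228) (nat_lit 0) (XT.lf (nat_lit 0) (nat_lit 4112769017) (nat_lit 304) (nat_lit 12267433546) (nat_lit 76) (nat_lit 24890558362) (nat_lit 74) (nat_lit 5) (nat_lit 78) (nat_lit 5) (nat_lit 75) (nat_lit 5) (nat_lit 378) (nat_lit 360) (nat_lit 282)) (XT.lf (nat_lit 0) (nat_lit 17012648416) (nat_lit 304) (nat_lit 17565047858) (nat_lit 76) (nat_lit 8701991574) (nat_lit 71) (nat_lit 5) (nat_lit 75) (nat_lit 5) (nat_lit 72) (nat_lit 5) (nat_lit 379) (nat_lit 360) (nat_lit 281)))) (XT.nd (nat_lit 78) (nat_lit 456) (nat_lit 0) (XT.lf (nat_lit 0) (nat_lit 22150077916) (nat_lit 228) (nat_lit 9624154721) (nat_lit 304) (nat_lit 13633613865) (nat_lit 68) (nat_lit 5) (nat_lit 71) (nat_lit 5) (nat_lit 72) (nat_lit 5) (nat_lit 380) (nat_lit 360) (nat_lit 280)) (XT.nd (nat_lit 78) (nat_lit 228) (nat_lit 0) (XT.lf (nat_lit 0) (nat_lit 881939689) (nat_lit 228)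 (nat_lit 29403170276) (nat_lit 76) (nat_lit 17377553132) (nat_lit 65) (nat_lit 5) (nat_lit 68) (nat_lit 5) (nat_lit 66) (nat_lit 5) (nat_lit 381) (nat_lit 360) (nat_lit 279)) (XT.lf (nat_lit 0) (nat_lit 13883250588) (nat_lit 228) (nat_lit 2986282277) (nat_lit 304) (nat_lit 33177737219) (nat_lit 62) (nat_lit 5) (nat_lit 65) (nat_lit 5) (nat_lit 66) (nat_lit 5) (nat_lit 382) (nat_lit 360) (nat_lit 278))))) (XT.nd (nat_lit 234) (nat_lit 684) (nat_lit 0) (XT.nd (nat_lit 78) (nat_lit 228) (nat_lit 0) (XT.lf (nat_lit 0) (nat_lit 8936352904) (nat_lit 152) (nat_lit 26265196613) (nat_lit 228) (nat_lit 17367827807) (nat_lit 60) (nat_lit 5) (nat_lit 62) (nat_lit 5) (nat_lit 63) (nat_lit 5) (nat_lit 383) (nat_lit 360) (nat_lit 277)) (XT.nd (nat_lit 78) (nat_lit 0) (nat_lit 0) (XT.lf (nat_lit 0) (nat_lit 507984554) (nat_lit 228) (nat_lit 51582764885) (nat_lit 76) (nat_lit 3163148314) (nat_lit 57) (nat_lit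 5) (nat_lit 60) (nat_lit 5) (nat_lit 58) (nat_lit 5) (nat_lit 384) (nat_lit 360) (nat_lit 276)) (XT.lf (nat_lit 0) (nat_lit 20421168060) (nat_lit 228) (nat_lit 2558194391) (nat_lit 76) (nat_lit 35098793968) (nat_lit 57) (nat_lit 5) (nat_lit 60) (nat_lit 5) (nat_lit 58) (nat_lit 5) (nat_lit 385) (nat_lit 360) (nat_lit 275)))) (XT.nd (nat_lit 156) (nat_lit 304) (nat_lit 0) (XT.nd (nat_lit 78) (nat_lit 228) (nat_lit 0) (XT.lf (nat_lit 0) (nat_lit 42878113653) (nat_lit 228) (nat_lit 9191053932) (nat_lit 76) (nat_lit 9011654709) (nat_lit 55) (nat_lit 5) (nat_lit 58) (nat_lit 5) (nat_lit 56) (nat_lit 5) (nat_lit 386) (nat_lit 360) (nat_lit 274)) (XT.lf (nat_lit 0) (nat_lit 3906054709) (nat_lit 228) (nat_lit 16741347595) (nat_lit 76) (nat_lit 43614708229) (nat_lit 52) (nat_lit 5) (nat_lit 55) (nat_lit 5) (nat_lit 53) (nat_lit 5) (nat_lit 387) (nat_lit 360) (nat_lit 273))) (XT.nd (nat_lit 78) (nat_lit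 152) (nat_lit 0) (XT.lf (nat_lit 0) (nat_lit 28199042205) (nat_lit 228) (nat_lit 25421899428) (nat_lit 76) (nat_lit 14009378619) (nat_lit 50) (nat_lit 5) (nat_lit 53) (nat_lit 5) (nat_lit 51) (nat_lit 5) (nat_lit 388) (nat_lit 360) (nat_lit 272)) (XT.lf (nat_lit 0) (nat_lit 36007216459) (nat_lit 152) (nat_lit 19628592548) (nat_lit 228) (nat_lit 15572162154) (nat_lit 48) (nat_lit 5) (nat_lit 50) (nat_lit 5) (nat_lit 51) (nat_lit 5) (nat_lit 389) (nat_lit 360) (nat_lit 271)))))) (XT.nd (nat_lit 468) (nat_lit 836) (nat_lit 0) (XT.nd (nat_lit 234) (nat_lit 304) (nat_lit 0) (XT.nd (nat_lit 78) (nat_lit 228) (nat_lit 0) (XT.lf (nat_lit 0) (nat_lit 11049439941) (nat_lit 152) (nat_lit 46344562726) (nat_lit 76) (nat_lit 17610869450) (nat_lit 46) (nat_lit 5) (nat_lit 48) (nat_lit 5) (nat_lit 47) (nat_lit 5) (nat_lit 390) (nat_lit 360) (nat_lit 270)) (XT.nd (nat_lit 78) (nat_lit 76) (nat_lit 0) (XT.lf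 (nat_lit 0) (nat_lit 19833187332) (nat_lit 152) (nat_lit 20687207371) (nat_lit 228) (nat_lit 38509107684) (nat_lit 44) (nat_lit 5) (nat_lit 46) (nat_lit 5) (nat_lit 47) (nat_lit 5) (nat_lit 391) (nat_lit 360) (nat_lit 269)) (XT.lf (nat_lit 0) (nat_lit 9612678662) (nat_lit 76) (nat_lit 63997182979) (nat_lit 152) (nat_lit 9703200726) (nat_lit 43) (nat_lit 5) (nat_lit 44) (nat_lit 5) (nat_lit 45) (nat_lit 4) (nat_lit 392) (nat_lit 360) (nat_lit 268)))) (XT.nd (nat_lit 78) (nat_lit 228) (nat_lit 0) (XT.lf (nat_lit 0) (nat_lit 22113357550) (nat_lit 152) (nat_lit 2557335817) (nat_lit 76) (nat_lit 63182336319) (nat_lit 42) (nat_lit 5) (nat_lit 44) (nat_lit 5) (nat_lit 43) (nat_lit 5) (nat_lit 393) (nat_lit 360) (nat_lit 267)) (XT.nd (nat_lit 78) (nat_lit 76) (nat_lit 0) (XT.lf (nat_lit 0) (nat_lit 57630078271) (nat_lit 228) (nat_lit 16434065180) (nat_lit 76) (nat_lit 18609358842) (nat_lit 40) (nat_lit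 5) (nat_lit 43) (nat_lit 5) (nat_lit 41) (nat_lit 4) (nat_lit 394) (nat_lit 360) (nat_lit 266)) (XT.lf (nat_lit 0) (nat_lit 65215510470) (nat_lit 76) (nat_lit 32247139518) (nat_lit 152) (nat_lit 343237872) (nat_lit 39) (nat_lit 5) (nat_lit 40) (nat_lit 5) (nat_lit 41) (nat_lit 4) (nat_lit 395) (nat_lit 360) (nat_lit 265))))) (XT.nd (nat_lit 234) (nat_lit 304) (nat_lit 0) (XT.nd (nat_lit 78) (nat_lit 304) (nat_lit 0) (XT.lf (nat_lit 0) (nat_lit 37267090063) (nat_lit 228) (nat_lit 51783022806) (nat_lit 76) (nat_lit 14203633958) (nat_lit 36) (nat_lit 5) (nat_lit 39) (nat_lit 5) (nat_lit 37) (nat_lit 4) (nat_lit 396) (nat_lit 360) (nat_lit 264)) (XT.nd (nat_lit 78) (nat_lit 228) (nat_lit 0) (XT.lf (nat_lit 0) (nat_lit 34859829141) (nat_lit 76) (nat_lit 44674933057) (nat_lit 152) (nat_lit 29519364471) (nat_lit 35) (nat_lit 5) (nat_lit 36) (nat_lit 5) (nat_lit 37) (nat_lit 4) (nat_lit 397) (nat_lit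 360) (nat_lit 263)) (XT.lf (nat_lit 0) (nat_lit 10773284339) (nat_lit 228) (nat_lit 100002266190) (nat_lit 76) (nat_lit 4474099463) (nat_lit 32) (nat_lit 5) (nat_lit 35) (nat_lit 5) (nat_lit 33) (nat_lit 4) (nat_lit 398) (nat_lit 360) (nat_lit 262)))) (XT.nd (nat_lit 156) (nat_lit 228) (nat_lit 0) (XT.nd (nat_lit 78) (nat_lit 76) (nat_lit 0) (XT.lf (nat_lit 0) (nat_lit 55331523462) (nat_lit 228) (nat_lit 8662673761) (nat_lit 76) (nat_lit 57818602643) (nat_lit 32) (nat_lit 5) (nat_lit 35) (nat_lit 5) (nat_lit 33) (nat_lit 4) (nat_lit 399) (nat_lit 360) (nat_lit 261)) (XT.lf (nat_lit 0) (nat_lit 92951623178) (nat_lit 76) (nat_lit 11950017027) (nat_lit 152) (nat_lit 23927001106) (nat_lit 31) (nat_lit 5) (nat_lit 32) (nat_lit 5) (nat_lit 33) (nat_lit 4) (nat_lit 400) (nat_lit 360) (nat_lit 260))) (XT.nd (nat_lit 78) (nat_lit 76) (nat_lit 0) (XT.lf (nat_lit 0) (nat_lit 23261136886) (nat_lit 152)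 (nat_lit 68601195630) (nat_lit 76) (nat_lit 44429485735) (nat_lit 29) (nat_lit 5) (nat_lit 31) (nat_lit 5) (nat_lit 30) (nat_lit 4) (nat_lit 401) (nat_lit 360) (nat_lit 259)) (XT.lf (nat_lit 0) (nat_lit 37068127352) (nat_lit 76) (nat_lit 37740790142) (nat_lit 152) (nat_lit 69452376111) (nat_lit 28) (nat_lit 5) (nat_lit 29) (nat_lit 5) (nat_lit 30) (nat_lit 4) (nat_lit 402) (nat_lit 360) (nat_lit 258))))))) (XT.nd (nat_lit 1014) (nat_lit 532) (nat_lit 0) (XT.nd (nat_lit 468) (nat_lit 456) (nat_lit 0) (XT.nd (nat_lit 234) (nat_lit 228) (nat_lit 0) (XT.nd (nat_lit 78) (nat_lit 152) (nat_lit 0) (XT.lf (nat_lit 0) (nat_lit 498215298) (nat_lit 76) (nat_lit 131524367382) (nat_lit 76) (nat_lit 20768641581) (nat_lit 27) (nat_lit 4) (nat_lit 28) (nat_lit 5) (nat_lit 28) (nat_lit 4) (nat_lit 403) (nat_lit 360) (nat_lit 257)) (XT.nd (nat_lit 78) (nat_lit 76) (nat_lit 0) (XT.lf (nat_lit 0) (nat_lit 33322370026)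 (nat_lit 152) (nat_lit 42447828954) (nat_lit 76) (nat_lit 86081984211) (nat_lit 26) (nat_lit 5) (nat_lit 28) (nat_lit 5) (nat_lit 27) (nat_lit 4) (nat_lit 404) (nat_lit 360) (nat_lit 256)) (XT.lf (nat_lit 0) (nat_lit 78335748560) (nat_lit 76) (nat_lit 13906777484) (nat_lit 152) (nat_lit 79316994848) (nat_lit 25) (nat_lit 5) (nat_lit 26) (nat_lit 5) (nat_lit 27) (nat_lit 4) (nat_lit 405) (nat_lit 360) (nat_lit 255)))) (XT.nd (nat_lit 78) (nat_lit 152) (nat_lit 0) (XT.lf (nat_lit 0) (nat_lit 28354640187) (nat_lit 76) (nat_lit 129538723285) (nat_lit 76) (nat_lit 24049228980) (nat_lit 24) (nat_lit 4) (nat_lit 25) (nat_lit 5) (nat_lit 25) (nat_lit 4) (nat_lit 406) (nat_lit 360) (nat_lit 254)) (XT.nd (nat_lit 78) (nat_lit 76) (nat_lit 0) (XT.lf (nat_lit 0) (nat_lit 36381195370) (nat_lit 152) (nat_lit 30910282938) (nat_lit 76) (nat_lit 125742912779) (nat_lit 23) (nat_lit 5) (nat_lit 25) (nat_lit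 5) (nat_lit 24) (nat_lit 4) (nat_lit 407) (nat_lit 360) (nat_lit 253)) (XT.lf (nat_lit 0) (nat_lit 102476037911) (nat_lit 152) (nat_lit 100428410058) (nat_lit 0) (nat_lit 2005745790) (nat_lit 22) (nat_lit 5) (nat_lit 24) (nat_lit 4) (nat_lit 22) (nat_lit 4) (nat_lit 408) (nat_lit 360) (nat_lit 252))))) (XT.nd (nat_lit 234) (nat_lit 228) (nat_lit 0) (XT.nd (nat_lit 78) (nat_lit 152) (nat_lit 0) (XT.lf (nat_lit 0) (nat_lit 34040550513) (nat_lit 76) (nat_lit 142028549575) (nat_lit 76) (nat_lit 41556429164) (nat_lit 21) (nat_lit 4) (nat_lit 22) (nat_lit 5) (nat_lit 22) (nat_lit 4) (nat_lit 409) (nat_lit 360) (nat_lit 251)) (XT.nd (nat_lit 78) (nat_lit 76) (nat_lit 0) (XT.lf (nat_lit 0) (nat_lit 25192636427) (nat_lit 152) (nat_lit 48828908595) (nat_lit 76) (nat_lit 157228891868) (nat_lit 20) (nat_lit 5) (nat_lit 22) (nat_lit 5) (nat_lit 21) (nat_lit 4) (nat_lit 410) (nat_lit 360) (nat_lit 250))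 (XT.lf (nat_lit 0) (nat_lit 97418972891) (nat_lit 152) (nat_lit 146704503661) (nat_lit 0) (nat_lit 1728134095) (nat_lit 19) (nat_lit 5) (nat_lit 21) (nat_lit 4) (nat_lit 19) (nat_lit 4) (nat_lit 411) (nat_lit 360) (nat_lit 249)))) (XT.nd (nat_lit 156) (nat_lit 152) (nat_lit 0) (XT.nd (nat_lit 78) (nat_lit 76) (nat_lit 0) (XT.lf (nat_lit 0) (nat_lit 177533664965) (nat_lit 152) (nat_lit 2140257144) (nat_lit 0) (nat_lit 81841443926) (nat_lit 19) (nat_lit 5) (nat_lit 21) (nat_lit 4) (nat_lit 19) (nat_lit 4) (nat_lit 412) (nat_lit 360) (nat_lit 248)) (XT.lf (nat_lit 0) (nat_lit 159076215678) (nat_lit 76) (nat_lit 107462718564) (nat_lit 76) (nat_lit 11769217670) (nat_lit 18) (nat_lit 4) (nat_lit 19) (nat_lit 5) (nat_lit 19) (nat_lit 4) (nat_lit 413) (nat_lit 360) (nat_lit 247))) (XT.nd (nat_lit 78) (nat_lit 0) (nat_lit 0) (XT.lf (nat_lit 0) (nat_lit 36968434932) (nat_lit 76) (nat_lit 27745282568)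 (nat_lit 152) (nat_lit 231648303344) (nat_lit 16) (nat_lit 5) (nat_lit 17) (nat_lit 5) (nat_lit 18) (nat_lit 4) (nat_lit 414) (nat_lit 360) (nat_lit 246)) (XT.lf (nat_lit 0) (nat_lit 149928362550) (nat_lit 152) (nat_lit 106981398016) (nat_lit 0) (nat_lit 58789521394) (nat_lit 16) (nat_lit 5) (nat_lit 18) (nat_lit 4) (nat_lit 16) (nat_lit 4) (nat_lit 415) (nat_lit 360) (nat_lit 245)))))) (XT.nd (nat_lit 468) (nat_lit 228) (nat_lit 0) (XT.nd (nat_lit 234) (nat_lit 76) (nat_lit 0) (XT.nd (nat_lit 78) (nat_lit 152) (nat_lit 0) (XT.lf (nat_lit 0) (nat_lit 59041823878) (nat_lit 76) (nat_lit 184306061820) (nat_lit 76) (nat_lit 93166253055) (nat_lit 15) (nat_lit 4) (nat_lit 16) (nat_lit 5) (nat_lit 16) (nat_lit 4) (nat_lit 416) (nat_lit 360) (nat_lit 244)) (XT.nd (nat_lit 78) (nat_lit 152) (nat_lit 0) (XT.lf (nat_lit 0) (nat_lit 242163528425) (nat_lit 76) (nat_lit 103939137847) (nat_lit 76) (nat_lit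 12798433147) (nat_lit 15) (nat_lit 4) (nat_lit 16) (nat_lit 5) (nat_lit 16) (nat_lit 4) (nat_lit 417) (nat_lit 360) (nat_lit 243)) (XT.lf (nat_lit 0) (nat_lit 57538790258) (nat_lit 76) (nat_lit 14988197315) (nat_lit 152) (nat_lit 310449433050) (nat_lit 13) (nat_lit 5) (nat_lit 14) (nat_lit 5) (nat_lit 15) (nat_lit 4) (nat_lit 418) (nat_lit 360) (nat_lit 242)))) (XT.nd (nat_lit 78) (nat_lit 76) (nat_lit 0) (XT.lf (nat_lit 0) (nat_lit 167567048558) (nat_lit 152) (nat_lit 160468522657) (nat_lit 0) (nat_lit 80764855808) (nat_lit 13) (nat_lit 5) (nat_lit 15) (nat_lit 4) (nat_lit 13) (nat_lit 4) (nat_lit 419) (nat_lit 360) (nat_lit 241)) (XT.nd (nat_lit 78) (nat_lit 0) (nat_lit 0) (XT.lf (nat_lit 0) (nat_lit 18019011063) (nat_lit 76) (nat_lit 252723794257) (nat_lit 76) (nat_lit 165920924152) (nat_lit 12) (nat_lit 4) (nat_lit 13) (nat_lit 5) (nat_lit 13) (nat_lit 4) (nat_lit 420) (nat_lit 360) (nat_lit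 240)) (XT.lf (nat_lit 0) (nat_lit 216512866066) (nat_lit 76) (nat_lit 168453519627) (nat_lit 76) (nat_lit 81650022342) (nat_lit 12) (nat_lit 4) (nat_lit 13) (nat_lit 5) (nat_lit 13) (nat_lit 4) (nat_lit 421) (nat_lit 360) (nat_lit 239))))) (XT.nd (nat_lit 234) (nat_lit 76) (nat_lit 0) (XT.nd (nat_lit 78) (nat_lit 76) (nat_lit 0) (XT.lf (nat_lit 0) (nat_lit 9061484410) (nat_lit 152) (nat_lit 68228034966) (nat_lit 76) (nat_lit 421668543146) (nat_lit 11) (nat_lit 5) (nat_lit 13) (nat_lit 5) (nat_lit 12) (nat_lit 4) (nat_lit 422) (nat_lit 360) (nat_lit 238)) (XT.nd (nat_lit 78) (nat_lit 0) (nat_lit 0) (XT.lf (nat_lit 0) (nat_lit 106638255232) (nat_lit 152) (nat_lit 403091227170) (nat_lit 0) (nat_lit 23967192649) (nat_lit 10) (nat_lit 5) (nat_lit 12) (nat_lit 4) (nat_lit 10) (nat_lit 4) (nat_lit 423) (nat_lit 360) (nat_lit 237)) (XT.lf (nat_lit 0) (nat_lit 214531117958) (nat_lit 152) (nat_lit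 224698179961) (nat_lit 0) (nat_lit 131859581207) (nat_lit 10) (nat_lit 5) (nat_lit 12) (nat_lit 4) (nat_lit 10) (nat_lit 4) (nat_lit 424) (nat_lit 360) (nat_lit 236)))) (XT.nd (nat_lit 156) (nat_lit 0) (nat_lit 0) (XT.nd (nat_lit 78) (nat_lit 76) (nat_lit 0) (XT.lf (nat_lit 0) (nat_lit 331054239323) (nat_lit 152) (nat_lit 32036015249) (nat_lit 0) (nat_lit 248382263529) (nat_lit 10) (nat_lit 5) (nat_lit 12) (nat_lit 4) (nat_lit 10) (nat_lit 4) (nat_lit 425) (nat_lit 360) (nat_lit 235)) (XT.lf (nat_lit 0) (nat_lit 181857545874) (nat_lit 76) (nat_lit 277879886784) (nat_lit 76) (nat_lit 195207504468) (nat_lit 9) (nat_lit 4) (nat_lit 10) (nat_lit 5) (nat_lit 10) (nat_lit 4) (nat_lit 426) (nat_lit 360) (nat_lit 234))) (XT.nd (nat_lit 78) (nat_lit 0) (nat_lit 0) (XT.lf (nat_lit 0) (nat_lit 414004527310) (nat_lit 76) (nat_lit 185267765289) (nat_lit 76) (nat_lit 102595006564) (nat_lit 9) (nat_lit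 4) (nat_lit 10) (nat_lit 5) (nat_lit 10) (nat_lit 4) (nat_lit 427) (nat_lit 360) (nat_lit 233)) (XT.lf (nat_lit 0) (nat_lit 664721359530) (nat_lit 76) (nat_lit 85247622934) (nat_lit 76) (nat_lit 2574515682) (nat_lit 9) (nat_lit 4) (nat_lit 10) (nat_lit 5) (nat_lit 10) (nat_lit 4) (nat_lit 428) (nat_lit 360) (nat_lit 232))))))))
noncomputable def xc81 : XT := (XT.nd (nat_lit 49218) (nat_lit 0) (nat_lit 1520) (XT.nd (nat_lit 48204) (nat_lit 0) (nat_lit 5472) (XT.nd (nat_lit 468) (nat_lit 0) (nat_lit 0) (XT.nd (nat_lit 234) (nat_lit 76) (nat_lit 0) (XT.nd (nat_lit 78) (nat_lit 0) (nat_lit 0) (XT.lf (nat_lit 0) (nat_lit 104529250266) (nat_lit 152) (nat_lit 676746744980) (nat_lit 0) (nat_lit 25792650302) (nat_lit 7) (nat_lit 5) (nat_lit 9) (nat_lit 4) (nat_lit 7) (nat_lit 4) (nat_lit 429) (nat_lit 360) (nat_lit 231)) (XT.nd (nat_lit 78) (nat_lit 0) (nat_lit 0) (XT.lf (nat_lit 0) (nat_lit 223103763499)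 (nat_lit 152) (nat_lit 498333419833) (nat_lit 0) (nat_lit 144366878958) (nat_lit 7) (nat_lit 5) (nat_lit 9) (nat_lit 4) (nat_lit 7) (nat_lit 4) (nat_lit 430) (nat_lit 360) (nat_lit 230)) (XT.lf (nat_lit 0) (nat_lit 351163426888) (nat_lit 152) (nat_lit 305648647212) (nat_lit 0) (nat_lit 272426278850) (nat_lit 7) (nat_lit 5) (nat_lit 9) (nat_lit 4) (nat_lit 7) (nat_lit 4) (nat_lit 431) (nat_lit 360) (nat_lit 229)))) (XT.nd (nat_lit 78) (nat_lit 76) (nat_lit 0) (XT.lf (nat_lit 0) (nat_lit 489467112512) (nat_lit 152) (nat_lit 97550591426) (nat_lit 0) (nat_lit 410729720495) (nat_lit 7) (nat_lit 5) (nat_lit 9) (nat_lit 4) (nat_lit 7) (nat_lit 4) (nat_lit 432) (nat_lit 360) (nat_lit 228)) (XT.nd (nat_lit 78) (nat_lit 0) (nat_lit 0) (XT.lf (nat_lit 0) (nat_lit 131399526645) (nat_lit 76) (nat_lit 509486385979) (nat_lit 76) (nat_lit 430748768056) (nat_lit 6) (nat_lit 4) (nat_lit 7) (nat_lit 5) (nat_lit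 7) (nat_lit 4) (nat_lit 433) (nat_lit 360) (nat_lit 227)) (XT.lf (nat_lit 0) (nat_lit 382147826986) (nat_lit 76) (nat_lit 423968993682) (nat_lit 76) (nat_lit 345231166587) (nat_lit 6) (nat_lit 4) (nat_lit 7) (nat_lit 5) (nat_lit 7) (nat_lit 4) (nat_lit 434) (nat_lit 360) (nat_lit 226))))) (XT.nd (nat_lit 47424) (nat_lit 0) (nat_lit 8588) (XT.nd (nat_lit 78) (nat_lit 0) (nat_lit 0) (XT.lf (nat_lit 0) (nat_lit 652954762345) (nat_lit 76) (nat_lit 331610823784) (nat_lit 76) (nat_lit 252872803011) (nat_lit 6) (nat_lit 4) (nat_lit 7) (nat_lit 5) (nat_lit 7) (nat_lit 4) (nat_lit 435) (nat_lit 360) (nat_lit 225)) (XT.nd (nat_lit 47268) (nat_lit 0) (nat_lit 8512) (XT.lf (nat_lit 0) (nat_lit 945425114562) (nat_lit 76) (nat_lit 231864568612) (nat_lit 76) (nat_lit 153126368507) (nat_lit 6) (nat_lit 4) (nat_lit 7) (nat_lit 5) (nat_lit 7) (nat_lit 4) (nat_lit 436) (nat_lit 360) (nat_lit 224)) (XT.lf (nat_lit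 0) (nat_lit 1820283142) (nat_lit 836) (nat_lit 4234258065) (nat_lit 836) (nat_lit 4234258065) (nat_lit 118) (nat_lit 3) (nat_lit 129) (nat_lit 3) (nat_lit 129) (nat_lit 5) (nat_lit 361) (nat_lit 361) (nat_lit 298)))) (XT.nd (nat_lit 156) (nat_lit 0) (nat_lit 76) (XT.nd (nat_lit 78) (nat_lit 0) (nat_lit 0) (XT.lf (nat_lit 0) (nat_lit 4203512575) (nat_lit 760) (nat_lit 13663536616) (nat_lit 836) (nat_lit 3512656246) (nat_lit 119) (nat_lit 5) (nat_lit 129) (nat_lit 5) (nat_lit 130) (nat_lit 5) (nat_lit 362) (nat_lit 361) (nat_lit 297)) (XT.lf (nat_lit 76) (nat_lit 3138912558) (nat_lit 0) (nat_lit 2051737839) (nat_lit 836) (nat_lit 17036385785) (nat_lit 120) (nat_lit 5) (nat_lit 119) (nat_lit 5) (nat_lit 130) (nat_lit 5) (nat_lit 363) (nat_lit 361) (nat_lit 296))) (XT.nd (nat_lit 78) (nat_lit 0) (nat_lit 76) (XT.lf (nat_lit 0) (nat_lit 6711041206) (nat_lit 760) (nat_lit 1610344713) (nat_lit 836)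 (nat_lit 14798065492) (nat_lit 120) (nat_lit 5) (nat_lit 130) (nat_lit 5) (nat_lit 131) (nat_lit 5) (nat_lit 364) (nat_lit 361) (nat_lit 295)) (XT.lf (nat_lit 0) (nat_lit 8787460894) (nat_lit 760) (nat_lit 6424991319) (nat_lit 836) (nat_lit 8849098990) (nat_lit 121) (nat_lit 5) (nat_lit 131) (nat_lit 5) (nat_lit 132) (nat_lit 5) (nat_lit 365) (nat_lit 361) (nat_lit 294)))))) (XT.nd (nat_lit 468) (nat_lit 1824) (nat_lit 0) (XT.nd (nat_lit 234) (nat_lit 836) (nat_lit 0) (XT.nd (nat_lit 78) (nat_lit 684) (nat_lit 0) (XT.lf (nat_lit 0) (nat_lit 11429082719) (nat_lit 760) (nat_lit 11410669215) (nat_lit 836) (nat_lit 2219323010) (nat_lit 122) (nat_lit 5) (nat_lit 132) (nat_lit 5) (nat_lit 133) (nat_lit 5) (nat_lit 366) (nat_lit 361) (nat_lit 293)) (XT.nd (nat_lit 78) (nat_lit 684) (nat_lit 0) (XT.lf (nat_lit 76) (nat_lit 9455878008) (nat_lit 0) (nat_lit 5326118716) (nat_lit 836) (nat_lit 11329415363)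 (nat_lit 123) (nat_lit 5) (nat_lit 122) (nat_lit 5) (nat_lit 133) (nat_lit 5) (nat_lit 367) (nat_lit 361) (nat_lit 292)) (XT.lf (nat_lit 0) (nat_lit 5093861387) (nat_lit 760) (nat_lit 13786210293) (nat_lit 836) (nat_lit 8344027040) (nat_lit 113) (nat_lit 5) (nat_lit 123) (nat_lit 5) (nat_lit 124) (nat_lit 5) (nat_lit 368) (nat_lit 361) (nat_lit 291)))) (XT.nd (nat_lit 78) (nat_lit 456) (nat_lit 0) (XT.lf (nat_lit 0) (nat_lit 597988439) (nat_lit 380) (nat_lit 23164407982) (nat_lit 456) (nat_lit 4640591925) (nat_lit 108) (nat_lit 5) (nat_lit 113) (nat_lit 5) (nat_lit 114) (nat_lit 5) (nat_lit 369) (nat_lit 361) (nat_lit 290)) (XT.nd (nat_lit 78) (nat_lit 456) (nat_lit 0) (XT.lf (nat_lit 0) (nat_lit 25680097939) (nat_lit 380) (nat_lit 3954613738) (nat_lit 456) (nat_lit 11514878) (nat_lit 108) (nat_lit 5) (nat_lit 113) (nat_lit 5) (nat_lit 114) (nat_lit 5) (nat_lit 370) (nat_lit 361) (nat_lit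 289)) (XT.lf (nat_lit 0) (nat_lit 5433297935) (nat_lit 456) (nat_lit 8832226315) (nat_lit 76) (nat_lit 16689259903) (nat_lit 102) (nat_lit 5) (nat_lit 108) (nat_lit 5) (nat_lit 103) (nat_lit 5) (nat_lit 371) (nat_lit 361) (nat_lit 288))))) (XT.nd (nat_lit 234) (nat_lit 836) (nat_lit 0) (XT.nd (nat_lit 78) (nat_lit 608) (nat_lit 0) (XT.lf (nat_lit 0) (nat_lit 11834423368) (nat_lit 456) (nat_lit 13866052144) (nat_lit 76) (nat_lit 6641491095) (nat_lit 97) (nat_lit 5) (nat_lit 103) (nat_lit 5) (nat_lit 98) (nat_lit 5) (nat_lit 372) (nat_lit 361) (nat_lit 287)) (XT.nd (nat_lit 78) (nat_lit 304) (nat_lit 0) (XT.lf (nat_lit 0) (nat_lit 14664003086) (nat_lit 304) (nat_lit 4697132349) (nat_lit 380) (nat_lit 14448319169) (nat_lit 93) (nat_lit 5) (nat_lit 97) (nat_lit 5) (nat_lit 98) (nat_lit 5) (nat_lit 373) (nat_lit 361) (nat_lit 286)) (XT.lf (nat_lit 0) (nat_lit 10630928221) (nat_lit 304) (nat_lit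 17539666833) (nat_lit 380) (nat_lit 7189721404) (nat_lit 89) (nat_lit 5) (nat_lit 93) (nat_lit 5) (nat_lit 94) (nat_lit 5) (nat_lit 374) (nat_lit 361) (nat_lit 285)))) (XT.nd (nat_lit 156) (nat_lit 228) (nat_lit 0) (XT.nd (nat_lit 78) (nat_lit 304) (nat_lit 0) (XT.lf (nat_lit 0) (nat_lit 1222675005) (nat_lit 304) (nat_lit 30537994623) (nat_lit 76) (nat_lit 5244380226) (nat_lit 85) (nat_lit 5) (nat_lit 89) (nat_lit 5) (nat_lit 86) (nat_lit 5) (nat_lit 375) (nat_lit 361) (nat_lit 284)) (XT.lf (nat_lit 0) (nat_lit 1905852751) (nat_lit 304) (nat_lit 8906398673) (nat_lit 380) (nat_lit 27925417595) (nat_lit 81) (nat_lit 5) (nat_lit 85) (nat_lit 5) (nat_lit 86) (nat_lit 5) (nat_lit 376) (nat_lit 361) (nat_lit 283))) (XT.nd (nat_lit 78) (nat_lit 228) (nat_lit 0) (XT.lf (nat_lit 0) (nat_lit 21945891230) (nat_lit 380) (nat_lit 2815063264) (nat_lit 76) (nat_lit 15809102403) (nat_lit 81) (nat_lit 5)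 (nat_lit 86) (nat_lit 5) (nat_lit 82) (nat_lit 5) (nat_lit 377) (nat_lit 361) (nat_lit 282)) (XT.lf (nat_lit 0) (nat_lit 34659035743) (nat_lit 304) (nat_lit 7641545937) (nat_lit 76) (nat_lit 214017192) (nat_lit 78) (nat_lit 5) (nat_lit 82) (nat_lit 5) (nat_lit 79) (nat_lit 5) (nat_lit 378) (nat_lit 361) (nat_lit 281))))))) (XT.nd (nat_lit 1014) (nat_lit 1520) (nat_lit 0) (XT.nd (nat_lit 468) (nat_lit 1064) (nat_lit 0) (XT.nd (nat_lit 234) (nat_lit 608) (nat_lit 0) (XT.nd (nat_lit 78) (nat_lit 456) (nat_lit 0) (XT.lf (nat_lit 0) (nat_lit 4621900514) (nat_lit 304) (nat_lit 12994861854) (nat_lit 76) (nat_lit 26946589524) (nat_lit 74) (nat_lit 5) (nat_lit 78) (nat_lit 5) (nat_lit 75) (nat_lit 5) (nat_lit 379) (nat_lit 361) (nat_lit 280)) (XT.nd (nat_lit 78) (nat_lit 228) (nat_lit 0) (XT.lf (nat_lit 0) (nat_lit 18545351460) (nat_lit 304) (nat_lit 18719864545) (nat_lit 76) (nat_lit 9468202675)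 (nat_lit 71) (nat_lit 5) (nat_lit 75) (nat_lit 5) (nat_lit 72) (nat_lit 5) (nat_lit 380) (nat_lit 361) (nat_lit 279)) (XT.lf (nat_lit 0) (nat_lit 24161589771) (nat_lit 228) (nat_lit 10317294137) (nat_lit 304) (nat_lit 14553399461) (nat_lit 68) (nat_lit 5) (nat_lit 71) (nat_lit 5) (nat_lit 72) (nat_lit 5) (nat_lit 381) (nat_lit 361) (nat_lit 278)))) (XT.nd (nat_lit 78) (nat_lit 380) (nat_lit 0) (XT.lf (nat_lit 0) (nat_lit 1110544016) (nat_lit 228) (nat_lit 31514364345) (nat_lit 76) (nat_lit 18842816631) (nat_lit 65) (nat_lit 5) (nat_lit 68) (nat_lit 5) (nat_lit 66) (nat_lit 5) (nat_lit 382) (nat_lit 361) (nat_lit 277)) (XT.nd (nat_lit 78) (nat_lit 152) (nat_lit 0) (XT.lf (nat_lit 0) (nat_lit 15224494034) (nat_lit 228) (nat_lit 3144543321) (nat_lit 304) (nat_lit 35674472155) (nat_lit 62) (nat_lit 5) (nat_lit 65) (nat_lit 5) (nat_lit 66) (nat_lit 5) (nat_lit 383) (nat_lit 361) (nat_lit 276))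 (XT.lf (nat_lit 0) (nat_lit 9877833745) (nat_lit 152) (nat_lit 28283378002) (nat_lit 228) (nat_lit 18606497103) (nat_lit 60) (nat_lit 5) (nat_lit 62) (nat_lit 5) (nat_lit 63) (nat_lit 5) (nat_lit 384) (nat_lit 361) (nat_lit 275))))) (XT.nd (nat_lit 234) (nat_lit 684) (nat_lit 0) (XT.nd (nat_lit 78) (nat_lit 152) (nat_lit 0) (XT.lf (nat_lit 0) (nat_lit 688494438) (nat_lit 228) (nat_lit 55482333563) (nat_lit 76) (nat_lit 3496351202) (nat_lit 57) (nat_lit 5) (nat_lit 60) (nat_lit 5) (nat_lit 58) (nat_lit 5) (nat_lit 385) (nat_lit 361) (nat_lit 274)) (XT.nd (nat_lit 78) (nat_lit 152) (nat_lit 0) (XT.lf (nat_lit 0) (nat_lit 22184371801) (nat_lit 228) (nat_lit 2552616134) (nat_lit 76) (nat_lit 37980911396) (nat_lit 57) (nat_lit 5) (nat_lit 60) (nat_lit 5) (nat_lit 58) (nat_lit 5) (nat_lit 386) (nat_lit 361) (nat_lit 273)) (XT.lf (nat_lit 0) (nat_lit 46432637812) (nat_lit 228) (nat_lit 9720274983)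 (nat_lit 76) (nat_lit 9808129968) (nat_lit 55) (nat_lit 5) (nat_lit 58) (nat_lit 5) (nat_lit 56) (nat_lit 5) (nat_lit 387) (nat_lit 361) (nat_lit 272)))) (XT.nd (nat_lit 156) (nat_lit 304) (nat_lit 0) (XT.nd (nat_lit 78) (nat_lit 152) (nat_lit 0) (XT.lf (nat_lit 0) (nat_lit 4338651124) (nat_lit 228) (nat_lit 17879548117) (nat_lit 76) (nat_lit 47178846699) (nat_lit 52) (nat_lit 5) (nat_lit 55) (nat_lit 5) (nat_lit 53) (nat_lit 5) (nat_lit 388) (nat_lit 361) (nat_lit 271)) (XT.lf (nat_lit 0) (nat_lit 30570403953) (nat_lit 228) (nat_lit 27258767419) (nat_lit 76) (nat_lit 15205776810) (nat_lit 50) (nat_lit 5) (nat_lit 53) (nat_lit 5) (nat_lit 51) (nat_lit 5) (nat_lit 389) (nat_lit 361) (nat_lit 270))) (XT.nd (nat_lit 78) (nat_lit 152) (nat_lit 0) (XT.lf (nat_lit 0) (nat_lit 39076121402) (nat_lit 152) (nat_lit 21120380028) (nat_lit 228) (nat_lit 16702592175) (nat_lit 48) (nat_lit 5) (nat_lit 50)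 (nat_lit 5) (nat_lit 51) (nat_lit 5) (nat_lit 390) (nat_lit 361) (nat_lit 269)) (XT.lf (nat_lit 0) (nat_lit 12040853110) (nat_lit 152) (nat_lit 49864307297) (nat_lit 76) (nat_lit 19094707538) (nat_lit 46) (nat_lit 5) (nat_lit 48) (nat_lit 5) (nat_lit 47) (nat_lit 5) (nat_lit 391) (nat_lit 361) (nat_lit 268)))))) (XT.nd (nat_lit 546) (nat_lit 684) (nat_lit 0) (XT.nd (nat_lit 234) (nat_lit 532) (nat_lit 0) (XT.nd (nat_lit 78) (nat_lit 152) (nat_lit 0) (XT.lf (nat_lit 0) (nat_lit 21599500318) (nat_lit 152) (nat_lit 22264829050) (nat_lit 228) (nat_lit 41482398571) (nat_lit 44) (nat_lit 5) (nat_lit 46) (nat_lit 5) (nat_lit 47) (nat_lit 5) (nat_lit 392) (nat_lit 361) (nat_lit 267)) (XT.nd (nat_lit 78) (nat_lit 76) (nat_lit 0) (XT.lf (nat_lit 0) (nat_lit 10557299490) (nat_lit 76) (nat_lit 69039936141) (nat_lit 152) (nat_lit 10375924432) (nat_lit 43) (nat_lit 5) (nat_lit 44) (nat_lit 5) (nat_lit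 45) (nat_lit 4) (nat_lit 393) (nat_lit 361) (nat_lit 266)) (XT.lf (nat_lit 0) (nat_lit 23975221219) (nat_lit 152) (nat_lit 2596239906) (nat_lit 76) (nat_lit 68305155273) (nat_lit 42) (nat_lit 5) (nat_lit 44) (nat_lit 5) (nat_lit 43) (nat_lit 5) (nat_lit 394) (nat_lit 361) (nat_lit 265)))) (XT.nd (nat_lit 156) (nat_lit 304) (nat_lit 0) (XT.nd (nat_lit 78) (nat_lit 76) (nat_lit 0) (XT.lf (nat_lit 0) (nat_lit 62329974494) (nat_lit 228) (nat_lit 17586967724) (nat_lit 76) (nat_lit 20165951031) (nat_lit 40) (nat_lit 5) (nat_lit 43) (nat_lit 5) (nat_lit 41) (nat_lit 4) (nat_lit 395) (nat_lit 361) (nat_lit 264)) (XT.lf (nat_lit 0) (nat_lit 70587541363) (nat_lit 76) (nat_lit 34757398405) (nat_lit 152) (nat_lit 281141592) (nat_lit 39) (nat_lit 5) (nat_lit 40) (nat_lit 5) (nat_lit 41) (nat_lit 4) (nat_lit 396) (nat_lit 361) (nat_lit 263))) (XT.nd (nat_lit 78) (nat_lit 76) (nat_lit 0) (XT.lf (nat_lit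 0) (nat_lit 40332144238) (nat_lit 228) (nat_lit 55771768950) (nat_lit 76) (nat_lit 15405937009) (nat_lit 36) (nat_lit 5) (nat_lit 39) (nat_lit 5) (nat_lit 37) (nat_lit 4) (nat_lit 397) (nat_lit 361) (nat_lit 262)) (XT.lf (nat_lit 0) (nat_lit 37795823033) (nat_lit 76) (nat_lit 48181506398) (nat_lit 152) (nat_lit 31797126922) (nat_lit 35) (nat_lit 5) (nat_lit 36) (nat_lit 5) (nat_lit 37) (nat_lit 4) (nat_lit 398) (nat_lit 361) (nat_lit 261))))) (XT.nd (nat_lit 234) (nat_lit 380) (nat_lit 0) (XT.nd (nat_lit 78) (nat_lit 76) (nat_lit 0) (XT.lf (nat_lit 0) (nat_lit 11713514183) (nat_lit 228) (nat_lit 107856216688) (nat_lit 76) (nat_lit 4895962944) (nat_lit 32) (nat_lit 5) (nat_lit 35) (nat_lit 5) (nat_lit 33) (nat_lit 4) (nat_lit 399) (nat_lit 361) (nat_lit 260)) (XT.nd (nat_lit 78) (nat_lit 76) (nat_lit 0) (XT.lf (nat_lit 0) (nat_lit 59830607466) (nat_lit 228) (nat_lit 9220288776) (nat_lit 76)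 (nat_lit 62503290415) (nat_lit 32) (nat_lit 5) (nat_lit 35) (nat_lit 5) (nat_lit 33) (nat_lit 4) (nat_lit 400) (nat_lit 361) (nat_lit 259)) (XT.lf (nat_lit 0) (nat_lit 100517267647) (nat_lit 76) (nat_lit 12845713014) (nat_lit 152) (nat_lit 25768483073) (nat_lit 31) (nat_lit 5) (nat_lit 32) (nat_lit 5) (nat_lit 33) (nat_lit 4) (nat_lit 401) (nat_lit 361) (nat_lit 258)))) (XT.nd (nat_lit 156) (nat_lit 152) (nat_lit 0) (XT.nd (nat_lit 78) (nat_lit 76) (nat_lit 0) (XT.lf (nat_lit 0) (nat_lit 25190058913) (nat_lit 152) (nat_lit 73960730863) (nat_lit 76) (nat_lit 48040964958) (nat_lit 29) (nat_lit 5) (nat_lit 31) (nat_lit 5) (nat_lit 30) (nat_lit 4) (nat_lit 402) (nat_lit 361) (nat_lit 257)) (XT.lf (nat_lit 0) (nat_lit 40156550879) (nat_lit 76) (nat_lit 40701991710) (nat_lit 152) (nat_lit 74940402046) (nat_lit 28) (nat_lit 5) (nat_lit 29) (nat_lit 5) (nat_lit 30) (nat_lit 4) (nat_lit 403) (nat_lit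 361) (nat_lit 256))) (XT.nd (nat_lit 78) (nat_lit 76) (nat_lit 0) (XT.lf (nat_lit 0) (nat_lit 657945592) (nat_lit 76) (nat_lit 141989258035) (nat_lit 76) (nat_lit 22364171493) (nat_lit 27) (nat_lit 4) (nat_lit 28) (nat_lit 5) (nat_lit 28) (nat_lit 4) (nat_lit 404) (nat_lit 361) (nat_lit 255)) (XT.lf (nat_lit 0) (nat_lit 36047280218) (nat_lit 152) (nat_lit 45730701280) (nat_lit 76) (nat_lit 93019414705) (nat_lit 26) (nat_lit 5) (nat_lit 28) (nat_lit 5) (nat_lit 27) (nat_lit 4) (nat_lit 405) (nat_lit 361) (nat_lit 254))))))))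
noncomputable def xc82 : XT := (XT.nd (nat_lit 2028) (nat_lit 76) (nat_lit 0) (XT.nd (nat_lit 1014) (nat_lit 608) (nat_lit 0) (XT.nd (nat_lit 468) (nat_lit 380) (nat_lit 0) (XT.nd (nat_lit 234) (nat_lit 228) (nat_lit 0) (XT.nd (nat_lit 78) (nat_lit 152) (nat_lit 0) (XT.lf (nat_lit 0) (nat_lit 84710653593) (nat_lit 76) (nat_lit 14967702710) (nat_lit 152) (nat_lit 85603099655) (nat_lit 25) (nat_lit 5) (nat_lit 26) (nat_lit 5) (nat_lit 27) (nat_lit 4) (nat_lit 406) (nat_lit 361) (nat_lit 253)) (XT.nd (nat_lit 78) (nat_lit 76) (nat_lit 0) (XT.lf (nat_lit 0) (nat_lit 30728293941) (nat_lit 76) (nat_lit 139851176864) (nat_lit 76) (nat_lit 25915792318) (nat_lit 24) (nat_lit 4) (nat_lit 25) (nat_lit 5) (nat_lit 25) (nat_lit 4) (nat_lit 407) (nat_lit 361) (nat_lit 252)) (XT.lf (nat_lit 0) (nat_lit 39343115651) (nat_lit 152) (nat_lit 33283917165) (nat_lit 76) (nat_lit 135847534081) (nat_lit 23) (nat_lit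 5) (nat_lit 25) (nat_lit 5) (nat_lit 24) (nat_lit 4) (nat_lit 408) (nat_lit 361) (nat_lit 251)))) (XT.nd (nat_lit 78) (nat_lit 152) (nat_lit 0) (XT.lf (nat_lit 0) (nat_lit 110723932442) (nat_lit 152) (nat_lit 108366061067) (nat_lit 0) (nat_lit 2210521247) (nat_lit 22) (nat_lit 5) (nat_lit 24) (nat_lit 4) (nat_lit 22) (nat_lit 4) (nat_lit 409) (nat_lit 361) (nat_lit 250)) (XT.nd (nat_lit 78) (nat_lit 76) (nat_lit 0) (XT.lf (nat_lit 0) (nat_lit 36856217284) (nat_lit 76) (nat_lit 153345975545) (nat_lit 76) (nat_lit 44830996887) (nat_lit 21) (nat_lit 4) (nat_lit 22) (nat_lit 5) (nat_lit 22) (nat_lit 4) (nat_lit 410) (nat_lit 361) (nat_lit 249)) (XT.lf (nat_lit 0) (nat_lit 27252814013) (nat_lit 152) (nat_lit 52648161284) (nat_lit 76) (nat_lit 169847255002) (nat_lit 20) (nat_lit 5) (nat_lit 22) (nat_lit 5) (nat_lit 21) (nat_lit 4) (nat_lit 411) (nat_lit 361) (nat_lit 248))))) (XT.nd (nat_lit 234)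 (nat_lit 228) (nat_lit 0) (XT.nd (nat_lit 78) (nat_lit 76) (nat_lit 0) (XT.lf (nat_lit 0) (nat_lit 105255874243) (nat_lit 152) (nat_lit 158356079685) (nat_lit 0) (nat_lit 1905613423) (nat_lit 19) (nat_lit 5) (nat_lit 21) (nat_lit 4) (nat_lit 19) (nat_lit 4) (nat_lit 412) (nat_lit 361) (nat_lit 247)) (XT.nd (nat_lit 78) (nat_lit 76) (nat_lit 0) (XT.lf (nat_lit 0) (nat_lit 191776528089) (nat_lit 152) (nat_lit 2232973762) (nat_lit 0) (nat_lit 88425082218) (nat_lit 19) (nat_lit 5) (nat_lit 21) (nat_lit 4) (nat_lit 19) (nat_lit 4) (nat_lit 413) (nat_lit 361) (nat_lit 246)) (XT.lf (nat_lit 0) (nat_lit 171877405199) (nat_lit 76) (nat_lit 116023010560) (nat_lit 76) (nat_lit 12670467420) (nat_lit 18) (nat_lit 4) (nat_lit 19) (nat_lit 5) (nat_lit 19) (nat_lit 4) (nat_lit 414) (nat_lit 361) (nat_lit 245)))) (XT.nd (nat_lit 156) (nat_lit 76) (nat_lit 0) (XT.nd (nat_lit 78) (nat_lit 0) (nat_lit 0) (XT.lf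 (nat_lit 0) (nat_lit 39998974314) (nat_lit 76) (nat_lit 29929090780) (nat_lit 152) (nat_lit 250141052663) (nat_lit 16) (nat_lit 5) (nat_lit 17) (nat_lit 5) (nat_lit 18) (nat_lit 4) (nat_lit 415) (nat_lit 361) (nat_lit 244)) (XT.lf (nat_lit 0) (nat_lit 161957640217) (nat_lit 152) (nat_lit 115471048579) (nat_lit 0) (nat_lit 63524783207) (nat_lit 16) (nat_lit 5) (nat_lit 18) (nat_lit 4) (nat_lit 16) (nat_lit 4) (nat_lit 416) (nat_lit 361) (nat_lit 243))) (XT.nd (nat_lit 78) (nat_lit 0) (nat_lit 0) (XT.lf (nat_lit 0) (nat_lit 63831038439) (nat_lit 76) (nat_lit 199018121939) (nat_lit 76) (nat_lit 100584435359) (nat_lit 15) (nat_lit 4) (nat_lit 16) (nat_lit 5) (nat_lit 16) (nat_lit 4) (nat_lit 417) (nat_lit 361) (nat_lit 242)) (XT.lf (nat_lit 0) (nat_lit 261597600190) (nat_lit 76) (nat_lit 112224245887) (nat_lit 76) (nat_lit 13789791188) (nat_lit 15) (nat_lit 4) (nat_lit 16) (nat_lit 5) (nat_lit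 16) (nat_lit 4) (nat_lit 418) (nat_lit 361) (nat_lit 241)))))) (XT.nd (nat_lit 468) (nat_lit 228) (nat_lit 0) (XT.nd (nat_lit 234) (nat_lit 152) (nat_lit 0) (XT.nd (nat_lit 78) (nat_lit 76) (nat_lit 0) (XT.lf (nat_lit 0) (nat_lit 62201229571) (nat_lit 76) (nat_lit 16157987742) (nat_lit 152) (nat_lit 335253811852) (nat_lit 13) (nat_lit 5) (nat_lit 14) (nat_lit 5) (nat_lit 15) (nat_lit 4) (nat_lit 419) (nat_lit 361) (nat_lit 240)) (XT.nd (nat_lit 78) (nat_lit 76) (nat_lit 0) (XT.lf (nat_lit 0) (nat_lit 181000678783) (nat_lit 152) (nat_lit 173250093093) (nat_lit 0) (nat_lit 87252274536) (nat_lit 13) (nat_lit 5) (nat_lit 15) (nat_lit 4) (nat_lit 13) (nat_lit 4) (nat_lit 420) (nat_lit 361) (nat_lit 239)) (XT.lf (nat_lit 0) (nat_lit 19514013484) (nat_lit 76) (nat_lit 272915223795) (nat_lit 76) (nat_lit 179166238825) (nat_lit 12) (nat_lit 4) (nat_lit 13) (nat_lit 5) (nat_lit 13) (nat_lit 4) (nat_lit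 421) (nat_lit 361) (nat_lit 238)))) (XT.nd (nat_lit 78) (nat_lit 152) (nat_lit 0) (XT.lf (nat_lit 0) (nat_lit 233883415293) (nat_lit 76) (nat_lit 181905288232) (nat_lit 76) (nat_lit 88155765557) (nat_lit 12) (nat_lit 4) (nat_lit 13) (nat_lit 5) (nat_lit 13) (nat_lit 4) (nat_lit 422) (nat_lit 361) (nat_lit 237)) (XT.nd (nat_lit 78) (nat_lit 76) (nat_lit 0) (XT.lf (nat_lit 0) (nat_lit 9809938472) (nat_lit 152) (nat_lit 73639646682) (nat_lit 76) (nat_lit 455423944504) (nat_lit 11) (nat_lit 5) (nat_lit 13) (nat_lit 5) (nat_lit 12) (nat_lit 4) (nat_lit 423) (nat_lit 361) (nat_lit 236)) (XT.lf (nat_lit 0) (nat_lit 115192149301) (nat_lit 152) (nat_lit 435293140652) (nat_lit 0) (nat_lit 25905976400) (nat_lit 10) (nat_lit 5) (nat_lit 12) (nat_lit 4) (nat_lit 10) (nat_lit 4) (nat_lit 424) (nat_lit 361) (nat_lit 235))))) (XT.nd (nat_lit 234) (nat_lit 152) (nat_lit 0) (XT.nd (nat_lit 78) (nat_lit 76)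 (nat_lit 0) (XT.lf (nat_lit 0) (nat_lit 231714749664) (nat_lit 152) (nat_lit 242632011495) (nat_lit 0) (nat_lit 142428170241) (nat_lit 10) (nat_lit 5) (nat_lit 12) (nat_lit 4) (nat_lit 10) (nat_lit 4) (nat_lit 425) (nat_lit 361) (nat_lit 234)) (XT.nd (nat_lit 78) (nat_lit 76) (nat_lit 0) (XT.lf (nat_lit 0) (nat_lit 357558154644) (nat_lit 152) (nat_lit 34559986410) (nat_lit 0) (nat_lit 268271198812) (nat_lit 10) (nat_lit 5) (nat_lit 12) (nat_lit 4) (nat_lit 10) (nat_lit 4) (nat_lit 426) (nat_lit 361) (nat_lit 233)) (XT.lf (nat_lit 0) (nat_lit 196443368619) (nat_lit 76) (nat_lit 300091765834) (nat_lit 76) (nat_lit 210804461475) (nat_lit 9) (nat_lit 4) (nat_lit 10) (nat_lit 5) (nat_lit 10) (nat_lit 4) (nat_lit 427) (nat_lit 361) (nat_lit 232)))) (XT.nd (nat_lit 156) (nat_lit 152) (nat_lit 0) (XT.nd (nat_lit 78) (nat_lit 0) (nat_lit 0) (XT.lf (nat_lit 0) (nat_lit 447159351601) (nat_lit 76) (nat_lit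 200072045871) (nat_lit 76) (nat_lit 110784418802) (nat_lit 9) (nat_lit 4) (nat_lit 10) (nat_lit 5) (nat_lit 10) (nat_lit 4) (nat_lit 428) (nat_lit 361) (nat_lit 231)) (XT.lf (nat_lit 0) (nat_lit 717930977650) (nat_lit 76) (nat_lit 92051561805) (nat_lit 76) (nat_lit 2763635930) (nat_lit 9) (nat_lit 4) (nat_lit 10) (nat_lit 5) (nat_lit 10) (nat_lit 4) (nat_lit 429) (nat_lit 361) (nat_lit 230))) (XT.nd (nat_lit 78) (nat_lit 0) (nat_lit 0) (XT.lf (nat_lit 0) (nat_lit 112907410696) (nat_lit 152) (nat_lit 730854907545) (nat_lit 0) (nat_lit 27871027318) (nat_lit 7) (nat_lit 5) (nat_lit 9) (nat_lit 4) (nat_lit 7) (nat_lit 4) (nat_lit 430) (nat_lit 361) (nat_lit 229)) (XT.lf (nat_lit 0) (nat_lit 240966713106) (nat_lit 152) (nat_lit 538170855427) (nat_lit 0) (nat_lit 155930085749) (nat_lit 7) (nat_lit 5) (nat_lit 9) (nat_lit 4) (nat_lit 7) (nat_lit 4) (nat_lit 431) (nat_lit 361) (nat_lit 228)))))))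 (XT.nd (nat_lit 48360) (nat_lit 0) (nat_lit 4484) (XT.nd (nat_lit 47814) (nat_lit 0) (nat_lit 7752) (XT.nd (nat_lit 234) (nat_lit 0) (nat_lit 0) (XT.nd (nat_lit 78) (nat_lit 76) (nat_lit 0) (XT.lf (nat_lit 0) (nat_lit 379270064490) (nat_lit 152) (nat_lit 330073466773) (nat_lit 0) (nat_lit 294233211227) (nat_lit 7) (nat_lit 5) (nat_lit 9) (nat_lit 4) (nat_lit 7) (nat_lit 4) (nat_lit 432) (nat_lit 361) (nat_lit 227)) (XT.nd (nat_lit 78) (nat_lit 76) (nat_lit 0) (XT.lf (nat_lit 0) (nat_lit 528637040264) (nat_lit 152) (nat_lit 105329571874) (nat_lit 0) (nat_lit 443599977828) (nat_lit 7) (nat_lit 5) (nat_lit 9) (nat_lit 4) (nat_lit 7) (nat_lit 4) (nat_lit 433) (nat_lit 361) (nat_lit 226)) (XT.lf (nat_lit 0) (nat_lit 141935466268) (nat_lit 76) (nat_lit 550233322195) (nat_lit 76) (nat_lit 465196066081) (nat_lit 6) (nat_lit 4) (nat_lit 7) (nat_lit 5) (nat_lit 7) (nat_lit 4) (nat_lit 434) (nat_lit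 361) (nat_lit 225)))) (XT.nd (nat_lit 47424) (nat_lit 0) (nat_lit 8512) (XT.lf (nat_lit 0) (nat_lit 412741854526) (nat_lit 76) (nat_lit 457875425526) (nat_lit 76) (nat_lit 372837990080) (nat_lit 6) (nat_lit 4) (nat_lit 7) (nat_lit 5) (nat_lit 7) (nat_lit 4) (nat_lit 435) (nat_lit 361) (nat_lit 224)) (XT.nd (nat_lit 78) (nat_lit 0) (nat_lit 76) (XT.lf (nat_lit 0) (nat_lit 2199419480) (nat_lit 836) (nat_lit 4450340164) (nat_lit 836) (nat_lit 4450340164) (nat_lit 118) (nat_lit 3) (nat_lit 129) (nat_lit 3) (nat_lit 129) (nat_lit 5) (nat_lit 362) (nat_lit 362) (nat_lit 296)) (XT.lf (nat_lit 0) (nat_lit 4972744919) (nat_lit 760) (nat_lit 14496777246) (nat_lit 836) (nat_lit 3598675620) (nat_lit 119) (nat_lit 5) (nat_lit 129) (nat_lit 5) (nat_lit 130) (nat_lit 5) (nat_lit 363) (nat_lit 362) (nat_lit 295))))) (XT.nd (nat_lit 234) (nat_lit 836) (nat_lit 0) (XT.nd (nat_lit 78) (nat_lit 0) (nat_lit 76)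 (XT.lf (nat_lit 76) (nat_lit 3638575433) (nat_lit 0) (nat_lit 2372088424) (nat_lit 836) (nat_lit 17974078147) (nat_lit 120) (nat_lit 5) (nat_lit 119) (nat_lit 5) (nat_lit 130) (nat_lit 5) (nat_lit 364) (nat_lit 362) (nat_lit 294)) (XT.nd (nat_lit 78) (nat_lit 0) (nat_lit 76) (XT.lf (nat_lit 0) (nat_lit 7620445362) (nat_lit 760) (nat_lit 1487833548) (nat_lit 836) (nat_lit 15841899793) (nat_lit 120) (nat_lit 5) (nat_lit 130) (nat_lit 5) (nat_lit 131) (nat_lit 5) (nat_lit 365) (nat_lit 362) (nat_lit 293)) (XT.lf (nat_lit 0) (nat_lit 9837447742) (nat_lit 760) (nat_lit 6679262674) (nat_lit 836) (nat_lit 9452227627) (nat_lit 121) (nat_lit 5) (nat_lit 131) (nat_lit 5) (nat_lit 132) (nat_lit 5) (nat_lit 366) (nat_lit 362) (nat_lit 292)))) (XT.nd (nat_lit 156) (nat_lit 1064) (nat_lit 0) (XT.nd (nat_lit 78) (nat_lit 0) (nat_lit 0) (XT.lf (nat_lit 0) (nat_lit 12667377305) (nat_lit 760) (nat_lit 12057452222)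 (nat_lit 836) (nat_lit 2322599165) (nat_lit 122) (nat_lit 5) (nat_lit 132) (nat_lit 5) (nat_lit 133) (nat_lit 5) (nat_lit 367) (nat_lit 362) (nat_lit 291)) (XT.lf (nat_lit 76) (nat_lit 10466855679) (nat_lit 0) (nat_lit 5801644699) (nat_lit 836) (nat_lit 11916466509) (nat_lit 123) (nat_lit 5) (nat_lit 122) (nat_lit 5) (nat_lit 133) (nat_lit 5) (nat_lit 368) (nat_lit 362) (nat_lit 290))) (XT.nd (nat_lit 78) (nat_lit 380) (nat_lit 0) (XT.lf (nat_lit 0) (nat_lit 5760246164) (nat_lit 760) (nat_lit 14914987912) (nat_lit 836) (nat_lit 8712405662) (nat_lit 113) (nat_lit 5) (nat_lit 123) (nat_lit 5) (nat_lit 124) (nat_lit 5) (nat_lit 369) (nat_lit 362) (nat_lit 289)) (XT.lf (nat_lit 0) (nat_lit 907601107) (nat_lit 380) (nat_lit 25023163482) (nat_lit 456) (nat_lit 4730955995) (nat_lit 108) (nat_lit 5) (nat_lit 113) (nat_lit 5) (nat_lit 114) (nat_lit 5) (nat_lit 370) (nat_lit 362) (nat_lit 288))))))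 (XT.nd (nat_lit 468) (nat_lit 1520) (nat_lit 0) (XT.nd (nat_lit 234) (nat_lit 912) (nat_lit 0) (XT.nd (nat_lit 78) (nat_lit 760) (nat_lit 0) (XT.lf (nat_lit 0) (nat_lit 239714986) (nat_lit 456) (nat_lit 4032395996) (nat_lit 76) (nat_lit 27733114054) (nat_lit 107) (nat_lit 5) (nat_lit 113) (nat_lit 5) (nat_lit 108) (nat_lit 5) (nat_lit 371) (nat_lit 362) (nat_lit 287)) (XT.nd (nat_lit 78) (nat_lit 380) (nat_lit 0) (XT.lf (nat_lit 0) (nat_lit 6104860417) (nat_lit 456) (nat_lit 9286969217) (nat_lit 76) (nat_lit 18027379634) (nat_lit 102) (nat_lit 5) (nat_lit 108) (nat_lit 5) (nat_lit 103) (nat_lit 5) (nat_lit 372) (nat_lit 362) (nat_lit 286)) (XT.lf (nat_lit 0) (nat_lit 13004566399) (nat_lit 456) (nat_lit 14723463229) (nat_lit 76) (nat_lit 7190020512) (nat_lit 97) (nat_lit 5) (nat_lit 103) (nat_lit 5) (nat_lit 98) (nat_lit 5) (nat_lit 373) (nat_lit 362) (nat_lit 285)))) (XT.nd (nat_lit 78) (nat_lit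 608) (nat_lit 0) (XT.lf (nat_lit 0) (nat_lit 16078050321) (nat_lit 304) (nat_lit 5042579310) (nat_lit 380) (nat_lit 15382954563) (nat_lit 93) (nat_lit 5) (nat_lit 97) (nat_lit 5) (nat_lit 98) (nat_lit 5) (nat_lit 374) (nat_lit 362) (nat_lit 284)) (XT.nd (nat_lit 78) (nat_lit 304) (nat_lit 0) (XT.lf (nat_lit 0) (nat_lit 11721571163) (nat_lit 304) (nat_lit 18901862682) (nat_lit 380) (nat_lit 7555658918) (nat_lit 89) (nat_lit 5) (nat_lit 93) (nat_lit 5) (nat_lit 94) (nat_lit 5) (nat_lit 375) (nat_lit 362) (nat_lit 283)) (XT.lf (nat_lit 0) (nat_lit 1512419476) (nat_lit 304) (nat_lit 32735877652) (nat_lit 76) (nat_lit 5707481308) (nat_lit 85) (nat_lit 5) (nat_lit 89) (nat_lit 5) (nat_lit 86) (nat_lit 5) (nat_lit 376) (nat_lit 362) (nat_lit 282))))) (XT.nd (nat_lit 234) (nat_lit 988) (nat_lit 0) (XT.nd (nat_lit 78) (nat_lit 228) (nat_lit 0) (XT.lf (nat_lit 0) (nat_lit 2292823307) (nat_lit 304)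 (nat_lit 9565782868) (nat_lit 380) (nat_lit 29968934594) (nat_lit 81) (nat_lit 5) (nat_lit 85) (nat_lit 5) (nat_lit 86) (nat_lit 5) (nat_lit 377) (nat_lit 362) (nat_lit 281)) (XT.nd (nat_lit 78) (nat_lit 228) (nat_lit 0) (XT.lf (nat_lit 0) (nat_lit 23870270038) (nat_lit 380) (nat_lit 2815439959) (nat_lit 76) (nat_lit 17121448447) (nat_lit 81) (nat_lit 5) (nat_lit 86) (nat_lit 5) (nat_lit 82) (nat_lit 5) (nat_lit 378) (nat_lit 362) (nat_lit 280)) (XT.lf (nat_lit 0) (nat_lit 37592193254) (nat_lit 304) (nat_lit 8030637321) (nat_lit 76) (nat_lit 284851855) (nat_lit 78) (nat_lit 5) (nat_lit 82) (nat_lit 5) (nat_lit 79) (nat_lit 5) (nat_lit 379) (nat_lit 362) (nat_lit 279)))) (XT.nd (nat_lit 156) (nat_lit 456) (nat_lit 0) (XT.nd (nat_lit 78) (nat_lit 228) (nat_lit 0) (XT.lf (nat_lit 0) (nat_lit 5146067829) (nat_lit 304) (nat_lit 13816715570) (nat_lit 76) (nat_lit 29157860661) (nat_lit 74) (nat_lit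 5) (nat_lit 78) (nat_lit 5) (nat_lit 75) (nat_lit 5) (nat_lit 380) (nat_lit 362) (nat_lit 278)) (XT.lf (nat_lit 0) (nat_lit 20176177082) (nat_lit 304) (nat_lit 20002787092) (nat_lit 76) (nat_lit 10285716995) (nat_lit 71) (nat_lit 5) (nat_lit 75) (nat_lit 5) (nat_lit 72) (nat_lit 5) (nat_lit 381) (nat_lit 362) (nat_lit 277))) (XT.nd (nat_lit 78) (nat_lit 228) (nat_lit 0) (XT.lf (nat_lit 0) (nat_lit 26299854420) (nat_lit 228) (nat_lit 11076840081) (nat_lit 304) (nat_lit 15571149202) (nat_lit 68) (nat_lit 5) (nat_lit 71) (nat_lit 5) (nat_lit 72) (nat_lit 5) (nat_lit 382) (nat_lit 362) (nat_lit 276)) (XT.lf (nat_lit 0) (nat_lit 1334889211) (nat_lit 228) (nat_lit 33828843779) (nat_lit 76) (nat_lit 20414593170) (nat_lit 65) (nat_lit 5) (nat_lit 68) (nat_lit 5) (nat_lit 66) (nat_lit 5) (nat_lit 383) (nat_lit 362) (nat_lit 275))))))))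
noncomputable def xc83 : XT := (XT.nd (nat_lit 2028) (nat_lit 1292) (nat_lit 0) (XT.nd (nat_lit 1014) (nat_lit 1292) (nat_lit 0) (XT.nd (nat_lit 468) (nat_lit 912) (nat_lit 0) (XT.nd (nat_lit 234) (nat_lit 380) (nat_lit 0) (XT.nd (nat_lit 78) (nat_lit 380) (nat_lit 0) (XT.lf (nat_lit 0) (nat_lit 16640141655) (nat_lit 228) (nat_lit 3326969666) (nat_lit 304) (nat_lit 38393412745) (nat_lit 62) (nat_lit 5) (nat_lit 65) (nat_lit 5) (nat_lit 66) (nat_lit 5) (nat_lit 384) (nat_lit 362) (nat_lit 274)) (XT.nd (nat_lit 78) (nat_lit 228) (nat_lit 0) (XT.lf (nat_lit 0) (nat_lit 10862309937) (nat_lit 152) (nat_lit 30474859679) (nat_lit 228) (nat_lit 19965767103) (nat_lit 60) (nat_lit 5) (nat_lit 62) (nat_lit 5) (nat_lit 63) (nat_lit 5) (nat_lit 385) (nat_lit 362) (nat_lit 273)) (XT.lf (nat_lit 0) (nat_lit 863490933) (nat_lit 228) (nat_lit 59726259315) (nat_lit 76) (nat_lit 3844775882) (nat_lit 57) (nat_lit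 5) (nat_lit 60) (nat_lit 5) (nat_lit 58) (nat_lit 5) (nat_lit 386) (nat_lit 362) (nat_lit 272)))) (XT.nd (nat_lit 78) (nat_lit 380) (nat_lit 0) (XT.lf (nat_lit 0) (nat_lit 24070155748) (nat_lit 228) (nat_lit 2576583820) (nat_lit 76) (nat_lit 41083010774) (nat_lit 57) (nat_lit 5) (nat_lit 60) (nat_lit 5) (nat_lit 58) (nat_lit 5) (nat_lit 387) (nat_lit 362) (nat_lit 271)) (XT.nd (nat_lit 78) (nat_lit 228) (nat_lit 0) (XT.lf (nat_lit 0) (nat_lit 50253794676) (nat_lit 228) (nat_lit 10321230946) (nat_lit 76) (nat_lit 10657546210) (nat_lit 55) (nat_lit 5) (nat_lit 58) (nat_lit 5) (nat_lit 56) (nat_lit 5) (nat_lit 388) (nat_lit 362) (nat_lit 270)) (XT.lf (nat_lit 0) (nat_lit 4788719927) (nat_lit 228) (nat_lit 19137494884) (nat_lit 76) (nat_lit 51017422107) (nat_lit 52) (nat_lit 5) (nat_lit 55) (nat_lit 5) (nat_lit 53) (nat_lit 5) (nat_lit 389) (nat_lit 362) (nat_lit 269))))) (XT.nd (nat_lit 234)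 (nat_lit 456) (nat_lit 0) (XT.nd (nat_lit 78) (nat_lit 304) (nat_lit 0) (XT.lf (nat_lit 0) (nat_lit 33115006067) (nat_lit 228) (nat_lit 29270672547) (nat_lit 76) (nat_lit 16487094838) (nat_lit 50) (nat_lit 5) (nat_lit 53) (nat_lit 5) (nat_lit 51) (nat_lit 5) (nat_lit 390) (nat_lit 362) (nat_lit 268)) (XT.nd (nat_lit 78) (nat_lit 152) (nat_lit 0) (XT.lf (nat_lit 0) (nat_lit 42363671700) (nat_lit 152) (nat_lit 22742709399) (nat_lit 228) (nat_lit 17939911559) (nat_lit 48) (nat_lit 5) (nat_lit 50) (nat_lit 5) (nat_lit 51) (nat_lit 5) (nat_lit 391) (nat_lit 362) (nat_lit 267)) (XT.lf (nat_lit 0) (nat_lit 13096249252) (nat_lit 152) (nat_lit 53692426119) (nat_lit 76) (nat_lit 20686557573) (nat_lit 46) (nat_lit 5) (nat_lit 48) (nat_lit 5) (nat_lit 47) (nat_lit 5) (nat_lit 392) (nat_lit 362) (nat_lit 266)))) (XT.nd (nat_lit 156) (nat_lit 228) (nat_lit 0) (XT.nd (nat_lit 78) (nat_lit 76) (nat_lit 0)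 (XT.lf (nat_lit 0) (nat_lit 23481488121) (nat_lit 152) (nat_lit 23979696006) (nat_lit 228) (nat_lit 44708879922) (nat_lit 44) (nat_lit 5) (nat_lit 46) (nat_lit 5) (nat_lit 47) (nat_lit 5) (nat_lit 393) (nat_lit 362) (nat_lit 265)) (XT.lf (nat_lit 0) (nat_lit 11552437748) (nat_lit 76) (nat_lit 74497097531) (nat_lit 152) (nat_lit 11117236082) (nat_lit 43) (nat_lit 5) (nat_lit 44) (nat_lit 5) (nat_lit 45) (nat_lit 4) (nat_lit 394) (nat_lit 362) (nat_lit 264))) (XT.nd (nat_lit 78) (nat_lit 152) (nat_lit 0) (XT.lf (nat_lit 0) (nat_lit 25972795728) (nat_lit 152) (nat_lit 2661892823) (nat_lit 76) (nat_lit 73828065679) (nat_lit 42) (nat_lit 5) (nat_lit 44) (nat_lit 5) (nat_lit 43) (nat_lit 5) (nat_lit 395) (nat_lit 362) (nat_lit 263)) (XT.lf (nat_lit 0) (nat_lit 67393095671) (nat_lit 228) (nat_lit 18855188284) (nat_lit 76) (nat_lit 21837391964) (nat_lit 40) (nat_lit 5) (nat_lit 43) (nat_lit 5) (nat_lit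 41) (nat_lit 4) (nat_lit 396) (nat_lit 362) (nat_lit 262)))))) (XT.nd (nat_lit 468) (nat_lit 608) (nat_lit 0) (XT.nd (nat_lit 234) (nat_lit 304) (nat_lit 0) (XT.nd (nat_lit 78) (nat_lit 304) (nat_lit 0) (XT.lf (nat_lit 0) (nat_lit 76367252195) (nat_lit 76) (nat_lit 37478394707) (nat_lit 152) (nat_lit 226853676) (nat_lit 39) (nat_lit 5) (nat_lit 40) (nat_lit 5) (nat_lit 41) (nat_lit 4) (nat_lit 397) (nat_lit 362) (nat_lit 261)) (XT.nd (nat_lit 78) (nat_lit 76) (nat_lit 0) (XT.lf (nat_lit 0) (nat_lit 43630463865) (nat_lit 228) (nat_lit 60101569725) (nat_lit 76) (nat_lit 16695006907) (nat_lit 36) (nat_lit 5) (nat_lit 39) (nat_lit 5) (nat_lit 37) (nat_lit 4) (nat_lit 398) (nat_lit 362) (nat_lit 260)) (XT.lf (nat_lit 0) (nat_lit 40945695633) (nat_lit 76) (nat_lit 51978224008) (nat_lit 152) (nat_lit 34269063479) (nat_lit 35) (nat_lit 5) (nat_lit 36) (nat_lit 5) (nat_lit 37) (nat_lit 4) (nat_lit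 399) (nat_lit 362) (nat_lit 259)))) (XT.nd (nat_lit 78) (nat_lit 76) (nat_lit 0) (XT.lf (nat_lit 0) (nat_lit 12717782472) (nat_lit 228) (nat_lit 116359344685) (nat_lit 76) (nat_lit 5342454387) (nat_lit 32) (nat_lit 5) (nat_lit 35) (nat_lit 5) (nat_lit 33) (nat_lit 4) (nat_lit 400) (nat_lit 362) (nat_lit 258)) (XT.nd (nat_lit 78) (nat_lit 76) (nat_lit 0) (XT.lf (nat_lit 0) (nat_lit 64679266392) (nat_lit 228) (nat_lit 9841829157) (nat_lit 76) (nat_lit 67554307729) (nat_lit 32) (nat_lit 5) (nat_lit 35) (nat_lit 5) (nat_lit 33) (nat_lit 4) (nat_lit 401) (nat_lit 362) (nat_lit 257)) (XT.lf (nat_lit 0) (nat_lit 108669686967) (nat_lit 76) (nat_lit 13821667916) (nat_lit 152) (nat_lit 27767651943) (nat_lit 31) (nat_lit 5) (nat_lit 32) (nat_lit 5) (nat_lit 33) (nat_lit 4) (nat_lit 402) (nat_lit 362) (nat_lit 256))))) (XT.nd (nat_lit 234) (nat_lit 304) (nat_lit 0) (XT.nd (nat_lit 78) (nat_lit 152) (nat_lit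 0) (XT.lf (nat_lit 0) (nat_lit 27263589308) (nat_lit 152) (nat_lit 79767369495) (nat_lit 76) (nat_lit 51933213660) (nat_lit 29) (nat_lit 5) (nat_lit 31) (nat_lit 5) (nat_lit 30) (nat_lit 4) (nat_lit 403) (nat_lit 362) (nat_lit 255)) (XT.nd (nat_lit 78) (nat_lit 76) (nat_lit 0) (XT.lf (nat_lit 0) (nat_lit 43474504766) (nat_lit 76) (nat_lit 43908372546) (nat_lit 152) (nat_lit 80877194433) (nat_lit 28) (nat_lit 5) (nat_lit 29) (nat_lit 5) (nat_lit 30) (nat_lit 4) (nat_lit 404) (nat_lit 362) (nat_lit 254)) (XT.lf (nat_lit 0) (nat_lit 813353075) (nat_lit 76) (nat_lit 153299480008) (nat_lit 76) (nat_lit 24096753932) (nat_lit 27) (nat_lit 4) (nat_lit 28) (nat_lit 5) (nat_lit 28) (nat_lit 4) (nat_lit 405) (nat_lit 362) (nat_lit 253)))) (XT.nd (nat_lit 156) (nat_lit 152) (nat_lit 0) (XT.nd (nat_lit 78) (nat_lit 76) (nat_lit 0) (XT.lf (nat_lit 0) (nat_lit 38981749013) (nat_lit 152) (nat_lit 49292317542)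 (nat_lit 76) (nat_lit 100504582213) (nat_lit 26) (nat_lit 5) (nat_lit 28) (nat_lit 5) (nat_lit 27) (nat_lit 4) (nat_lit 406) (nat_lit 362) (nat_lit 252)) (XT.lf (nat_lit 0) (nat_lit 91580137179) (nat_lit 76) (nat_lit 16120865693) (nat_lit 152) (nat_lit 92400546204) (nat_lit 25) (nat_lit 5) (nat_lit 26) (nat_lit 5) (nat_lit 27) (nat_lit 4) (nat_lit 407) (nat_lit 362) (nat_lit 251))) (XT.nd (nat_lit 78) (nat_lit 76) (nat_lit 0) (XT.lf (nat_lit 0) (nat_lit 33276820265) (nat_lit 76) (nat_lit 150995851703) (nat_lit 76) (nat_lit 27939865904) (nat_lit 24) (nat_lit 4) (nat_lit 25) (nat_lit 5) (nat_lit 25) (nat_lit 4) (nat_lit 408) (nat_lit 362) (nat_lit 250)) (XT.lf (nat_lit 0) (nat_lit 42534653253) (nat_lit 152) (nat_lit 35861592465) (nat_lit 76) (nat_lit 146754078474) (nat_lit 23) (nat_lit 5) (nat_lit 25) (nat_lit 5) (nat_lit 24) (nat_lit 4) (nat_lit 409) (nat_lit 362) (nat_lit 249))))))) (XT.nd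 (nat_lit 1014) (nat_lit 456) (nat_lit 0) (XT.nd (nat_lit 468) (nat_lit 456) (nat_lit 0) (XT.nd (nat_lit 234) (nat_lit 152) (nat_lit 0) (XT.nd (nat_lit 78) (nat_lit 152) (nat_lit 0) (XT.lf (nat_lit 0) (nat_lit 119624552367) (nat_lit 152) (nat_lit 116952508336) (nat_lit 0) (nat_lit 2425356597) (nat_lit 22) (nat_lit 5) (nat_lit 24) (nat_lit 4) (nat_lit 22) (nat_lit 4) (nat_lit 410) (nat_lit 362) (nat_lit 248)) (XT.nd (nat_lit 78) (nat_lit 76) (nat_lit 0) (XT.lf (nat_lit 0) (nat_lit 39883952261) (nat_lit 76) (nat_lit 165575195088) (nat_lit 76) (nat_lit 48374655471) (nat_lit 21) (nat_lit 4) (nat_lit 22) (nat_lit 5) (nat_lit 22) (nat_lit 4) (nat_lit 411) (nat_lit 362) (nat_lit 247)) (XT.lf (nat_lit 0) (nat_lit 29471419341) (nat_lit 152) (nat_lit 56785374270) (nat_lit 76) (nat_lit 183469373351) (nat_lit 20) (nat_lit 5) (nat_lit 22) (nat_lit 5) (nat_lit 21) (nat_lit 4) (nat_lit 412) (nat_lit 362)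 (nat_lit 246)))) (XT.nd (nat_lit 78) (nat_lit 76) (nat_lit 0) (XT.lf (nat_lit 0) (nat_lit 113713538560) (nat_lit 152) (nat_lit 170951877215) (nat_lit 0) (nat_lit 2091694700) (nat_lit 19) (nat_lit 5) (nat_lit 21) (nat_lit 4) (nat_lit 19) (nat_lit 4) (nat_lit 413) (nat_lit 362) (nat_lit 245)) (XT.nd (nat_lit 78) (nat_lit 76) (nat_lit 0) (XT.lf (nat_lit 0) (nat_lit 207153089574) (nat_lit 152) (nat_lit 2344307177) (nat_lit 0) (nat_lit 95530229724) (nat_lit 19) (nat_lit 5) (nat_lit 21) (nat_lit 4) (nat_lit 19) (nat_lit 4) (nat_lit 414) (nat_lit 362) (nat_lit 244)) (XT.lf (nat_lit 0) (nat_lit 185691977130) (nat_lit 76) (nat_lit 125273365218) (nat_lit 76) (nat_lit 13649564636) (nat_lit 18) (nat_lit 4) (nat_lit 19) (nat_lit 5) (nat_lit 19) (nat_lit 4) (nat_lit 415) (nat_lit 362) (nat_lit 243))))) (XT.nd (nat_lit 234) (nat_lit 228) (nat_lit 0) (XT.nd (nat_lit 78) (nat_lit 76) (nat_lit 0) (XT.lf (nat_lit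 0) (nat_lit 43261533366) (nat_lit 76) (nat_lit 32292712972) (nat_lit 152) (nat_lit 270118802111) (nat_lit 16) (nat_lit 5) (nat_lit 17) (nat_lit 5) (nat_lit 18) (nat_lit 4) (nat_lit 416) (nat_lit 362) (nat_lit 242)) (XT.nd (nat_lit 78) (nat_lit 76) (nat_lit 0) (XT.lf (nat_lit 0) (nat_lit 174944265721) (nat_lit 152) (nat_lit 124649695019) (nat_lit 0) (nat_lit 68634286526) (nat_lit 16) (nat_lit 5) (nat_lit 18) (nat_lit 4) (nat_lit 16) (nat_lit 4) (nat_lit 417) (nat_lit 362) (nat_lit 241)) (XT.lf (nat_lit 0) (nat_lit 68993993265) (nat_lit 76) (nat_lit 214911772631) (nat_lit 76) (nat_lit 108601082215) (nat_lit 15) (nat_lit 4) (nat_lit 16) (nat_lit 5) (nat_lit 16) (nat_lit 4) (nat_lit 418) (nat_lit 362) (nat_lit 240)))) (XT.nd (nat_lit 156) (nat_lit 76) (nat_lit 0) (XT.nd (nat_lit 78) (nat_lit 152) (nat_lit 0) (XT.lf (nat_lit 0) (nat_lit 282577696864) (nat_lit 76) (nat_lit 121176445685) (nat_lit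 76) (nat_lit 14865096730) (nat_lit 15) (nat_lit 4) (nat_lit 16) (nat_lit 5) (nat_lit 16) (nat_lit 4) (nat_lit 419) (nat_lit 362) (nat_lit 239)) (XT.lf (nat_lit 0) (nat_lit 67228199071) (nat_lit 76) (nat_lit 17425536433) (nat_lit 152) (nat_lit 362047045605) (nat_lit 13) (nat_lit 5) (nat_lit 14) (nat_lit 5) (nat_lit 15) (nat_lit 4) (nat_lit 420) (nat_lit 362) (nat_lit 238))) (XT.nd (nat_lit 78) (nat_lit 76) (nat_lit 0) (XT.lf (nat_lit 0) (nat_lit 195504966916) (nat_lit 152) (nat_lit 187062165547) (nat_lit 0) (nat_lit 94254944722) (nat_lit 13) (nat_lit 5) (nat_lit 15) (nat_lit 4) (nat_lit 13) (nat_lit 4) (nat_lit 421) (nat_lit 362) (nat_lit 237)) (XT.lf (nat_lit 0) (nat_lit 21120986360) (nat_lit 76) (nat_lit 294725744508) (nat_lit 76) (nat_lit 193475224438) (nat_lit 12) (nat_lit 4) (nat_lit 13) (nat_lit 5) (nat_lit 13) (nat_lit 4) (nat_lit 422) (nat_lit 362) (nat_lit 236)))))) (XT.nd (nat_lit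 546) (nat_lit 228) (nat_lit 0) (XT.nd (nat_lit 234) (nat_lit 76) (nat_lit 0) (XT.nd (nat_lit 78) (nat_lit 152) (nat_lit 0) (XT.lf (nat_lit 0) (nat_lit 252636543884) (nat_lit 76) (nat_lit 196436695374) (nat_lit 76) (nat_lit 95185714308) (nat_lit 12) (nat_lit 4) (nat_lit 13) (nat_lit 5) (nat_lit 13) (nat_lit 4) (nat_lit 423) (nat_lit 362) (nat_lit 235)) (XT.nd (nat_lit 78) (nat_lit 76) (nat_lit 0) (XT.lf (nat_lit 0) (nat_lit 10614911284) (nat_lit 152) (nat_lit 79490839780) (nat_lit 76) (nat_lit 491876651136) (nat_lit 11) (nat_lit 5) (nat_lit 13) (nat_lit 5) (nat_lit 12) (nat_lit 4) (nat_lit 424) (nat_lit 362) (nat_lit 234)) (XT.lf (nat_lit 0) (nat_lit 124427097421) (nat_lit 152) (nat_lit 470077681845) (nat_lit 0) (nat_lit 27996808713) (nat_lit 10) (nat_lit 5) (nat_lit 12) (nat_lit 4) (nat_lit 10) (nat_lit 4) (nat_lit 425) (nat_lit 362) (nat_lit 233)))) (XT.nd (nat_lit 156) (nat_lit 76) (nat_lit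 0) (XT.nd (nat_lit 78) (nat_lit 0) (nat_lit 0) (XT.lf (nat_lit 0) (nat_lit 250270055725) (nat_lit 152) (nat_lit 262006544582) (nat_lit 0) (nat_lit 153839418491) (nat_lit 10) (nat_lit 5) (nat_lit 12) (nat_lit 4) (nat_lit 10) (nat_lit 4) (nat_lit 426) (nat_lit 362) (nat_lit 232)) (XT.lf (nat_lit 0) (nat_lit 386179590431) (nat_lit 152) (nat_lit 37291426219) (nat_lit 0) (nat_lit 289748630486) (nat_lit 10) (nat_lit 5) (nat_lit 12) (nat_lit 4) (nat_lit 10) (nat_lit 4) (nat_lit 427) (nat_lit 362) (nat_lit 231))) (XT.nd (nat_lit 78) (nat_lit 0) (nat_lit 0) (XT.lf (nat_lit 0) (nat_lit 212190747466) (nat_lit 76) (nat_lit 324083236137) (nat_lit 76) (nat_lit 227651977386) (nat_lit 9) (nat_lit 4) (nat_lit 10) (nat_lit 5) (nat_lit 10) (nat_lit 4) (nat_lit 428) (nat_lit 362) (nat_lit 230)) (XT.lf (nat_lit 0) (nat_lit 482961645431) (nat_lit 76) (nat_lit 216063114204) (nat_lit 76) (nat_lit 119631578781) (nat_lit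 9) (nat_lit 4) (nat_lit 10) (nat_lit 5) (nat_lit 10) (nat_lit 4) (nat_lit 429) (nat_lit 362) (nat_lit 229))))) (XT.nd (nat_lit 234) (nat_lit 76) (nat_lit 0) (XT.nd (nat_lit 78) (nat_lit 152) (nat_lit 0) (XT.lf (nat_lit 0) (nat_lit 775392812994) (nat_lit 76) (nat_lit 99402079956) (nat_lit 76) (nat_lit 2970288355) (nat_lit 9) (nat_lit 4) (nat_lit 10) (nat_lit 5) (nat_lit 10) (nat_lit 4) (nat_lit 430) (nat_lit 362) (nat_lit 228)) (XT.nd (nat_lit 78) (nat_lit 0) (nat_lit 0) (XT.lf (nat_lit 0) (nat_lit 121953567003) (nat_lit 152) (nat_lit 789296227933) (nat_lit 0) (nat_lit 30113539572) (nat_lit 7) (nat_lit 5) (nat_lit 9) (nat_lit 4) (nat_lit 7) (nat_lit 4) (nat_lit 431) (nat_lit 362) (nat_lit 227)) (XT.lf (nat_lit 0) (nat_lit 260256608905) (nat_lit 152) (nat_lit 581199456994) (nat_lit 0) (nat_lit 168416372302) (nat_lit 7) (nat_lit 5) (nat_lit 9) (nat_lit 4) (nat_lit 7) (nat_lit 4) (nat_lit 432)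 (nat_lit 362) (nat_lit 226)))) (XT.nd (nat_lit 156) (nat_lit 76) (nat_lit 0) (XT.nd (nat_lit 78) (nat_lit 0) (nat_lit 0) (XT.lf (nat_lit 0) (nat_lit 409623298122) (nat_lit 152) (nat_lit 356456134053) (nat_lit 0) (nat_lit 317782867841) (nat_lit 7) (nat_lit 5) (nat_lit 9) (nat_lit 4) (nat_lit 7) (nat_lit 4) (nat_lit 433) (nat_lit 362) (nat_lit 225)) (XT.lf (nat_lit 0) (nat_lit 570938770589) (nat_lit 152) (nat_lit 113734446826) (nat_lit 0) (nat_lit 479098160976) (nat_lit 7) (nat_lit 5) (nat_lit 9) (nat_lit 4) (nat_lit 7) (nat_lit 4) (nat_lit 434) (nat_lit 362) (nat_lit 224))) (XT.nd (nat_lit 47502) (nat_lit 0) (nat_lit 8512) (XT.lf (nat_lit 0) (nat_lit 153310860404) (nat_lit 76) (nat_lit 594241721627) (nat_lit 76) (nat_lit 502400945966) (nat_lit 6) (nat_lit 4) (nat_lit 7) (nat_lit 5) (nat_lit 7) (nat_lit 4) (nat_lit 435) (nat_lit 362) (nat_lit 223)) (XT.lf (nat_lit 0) (nat_lit 2575573387) (nat_lit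 836) (nat_lit 4701207444) (nat_lit 836) (nat_lit 4701207444) (nat_lit 118) (nat_lit 3) (nat_lit 129) (nat_lit 3) (nat_lit 129) (nat_lit 5) (nat_lit 363) (nat_lit 363) (nat_lit 294))))))))
noncomputable def xc84 : XT := (XT.nd (nat_lit 2028) (nat_lit 2736) (nat_lit 0) (XT.nd (nat_lit 1014) (nat_lit 2584) (nat_lit 0) (XT.nd (nat_lit 468) (nat_lit 2280) (nat_lit 0) (XT.nd (nat_lit 234) (nat_lit 0) (nat_lit 152) (XT.nd (nat_lit 78) (nat_lit 0) (nat_lit 0) (XT.lf (nat_lit 0) (nat_lit 5741750502) (nat_lit 760) (nat_lit 15433746535) (nat_lit 836) (nat_lit 3719394493) (nat_lit 119) (nat_lit 5) (nat_lit 129) (nat_lit 5) (nat_lit 130) (nat_lit 5) (nat_lit 364) (nat_lit 363) (nat_lit 293)) (XT.nd (nat_lit 78) (nat_lit 0) (nat_lit 76) (XT.lf (nat_lit 76) (nat_lit 4142752920) (nat_lit 0) (nat_lit 2695781732) (nat_lit 836) (nat_lit 19047448072) (nat_lit 120) (nat_lit 5) (nat_lit 119) (nat_lit 5) (nat_lit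 130) (nat_lit 5) (nat_lit 365) (nat_lit 363) (nat_lit 292)) (XT.lf (nat_lit 0) (nat_lit 8549457585) (nat_lit 760) (nat_lit 1391377771) (nat_lit 836) (nat_lit 16989214964) (nat_lit 120) (nat_lit 5) (nat_lit 130) (nat_lit 5) (nat_lit 131) (nat_lit 5) (nat_lit 366) (nat_lit 363) (nat_lit 291)))) (XT.nd (nat_lit 78) (nat_lit 0) (nat_lit 76) (XT.lf (nat_lit 0) (nat_lit 10921931538) (nat_lit 760) (nat_lit 6990928834) (nat_lit 836) (nat_lit 10118557344) (nat_lit 121) (nat_lit 5) (nat_lit 131) (nat_lit 5) (nat_lit 132) (nat_lit 5) (nat_lit 367) (nat_lit 363) (nat_lit 290)) (XT.nd (nat_lit 78) (nat_lit 0) (nat_lit 0) (XT.lf (nat_lit 0) (nat_lit 13958517806) (nat_lit 760) (nat_lit 12793935804) (nat_lit 836) (nat_lit 2444732813) (nat_lit 122) (nat_lit 5) (nat_lit 132) (nat_lit 5) (nat_lit 133) (nat_lit 5) (nat_lit 368) (nat_lit 363) (nat_lit 289)) (XT.lf (nat_lit 76) (nat_lit 11522403233) (nat_lit 0)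 (nat_lit 6308160094) (nat_lit 836) (nat_lit 12596033758) (nat_lit 123) (nat_lit 5) (nat_lit 122) (nat_lit 5) (nat_lit 133) (nat_lit 5) (nat_lit 369) (nat_lit 363) (nat_lit 288))))) (XT.nd (nat_lit 234) (nat_lit 1368) (nat_lit 0) (XT.nd (nat_lit 78) (nat_lit 456) (nat_lit 0) (XT.lf (nat_lit 0) (nat_lit 6443010187) (nat_lit 760) (nat_lit 16130375555) (nat_lit 836) (nat_lit 9152930743) (nat_lit 113) (nat_lit 5) (nat_lit 123) (nat_lit 5) (nat_lit 124) (nat_lit 5) (nat_lit 370) (nat_lit 363) (nat_lit 287)) (XT.nd (nat_lit 78) (nat_lit 76) (nat_lit 0) (XT.lf (nat_lit 0) (nat_lit 1204637859) (nat_lit 380) (nat_lit 27029820111) (nat_lit 456) (nat_lit 4868620331) (nat_lit 108) (nat_lit 5) (nat_lit 113) (nat_lit 5) (nat_lit 114) (nat_lit 5) (nat_lit 371) (nat_lit 363) (nat_lit 286)) (XT.lf (nat_lit 0) (nat_lit 474729825) (nat_lit 456) (nat_lit 4139942454) (nat_lit 76) (nat_lit 29940074542) (nat_lit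 107) (nat_lit 5) (nat_lit 113) (nat_lit 5) (nat_lit 108) (nat_lit 5) (nat_lit 372) (nat_lit 363) (nat_lit 285)))) (XT.nd (nat_lit 156) (nat_lit 608) (nat_lit 0) (XT.nd (nat_lit 78) (nat_lit 380) (nat_lit 0) (XT.lf (nat_lit 0) (nat_lit 6796351657) (nat_lit 456) (nat_lit 9814018658) (nat_lit 76) (nat_lit 19472123965) (nat_lit 102) (nat_lit 5) (nat_lit 108) (nat_lit 5) (nat_lit 103) (nat_lit 5) (nat_lit 373) (nat_lit 363) (nat_lit 284)) (XT.lf (nat_lit 0) (nat_lit 14236451912) (nat_lit 456) (nat_lit 15685399713) (nat_lit 76) (nat_lit 7779977064) (nat_lit 97) (nat_lit 5) (nat_lit 103) (nat_lit 5) (nat_lit 98) (nat_lit 5) (nat_lit 374) (nat_lit 363) (nat_lit 283))) (XT.nd (nat_lit 78) (nat_lit 304) (nat_lit 0) (XT.lf (nat_lit 0) (nat_lit 17570850407) (nat_lit 304) (nat_lit 5419988032) (nat_lit 380) (nat_lit 16423921741) (nat_lit 93) (nat_lit 5) (nat_lit 97) (nat_lit 5) (nat_lit 98) (nat_lit 5)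 (nat_lit 375) (nat_lit 363) (nat_lit 282)) (XT.lf (nat_lit 0) (nat_lit 12865202792) (nat_lit 304) (nat_lit 20378880097) (nat_lit 380) (nat_lit 7980721886) (nat_lit 89) (nat_lit 5) (nat_lit 93) (nat_lit 5) (nat_lit 94) (nat_lit 5) (nat_lit 376) (nat_lit 363) (nat_lit 281)))))) (XT.nd (nat_lit 468) (nat_lit 1216) (nat_lit 0) (XT.nd (nat_lit 234) (nat_lit 760) (nat_lit 0) (XT.nd (nat_lit 78) (nat_lit 304) (nat_lit 0) (XT.lf (nat_lit 0) (nat_lit 1797962478) (nat_lit 304) (nat_lit 35144565644) (nat_lit 76) (nat_lit 6201417487) (nat_lit 85) (nat_lit 5) (nat_lit 89) (nat_lit 5) (nat_lit 86) (nat_lit 5) (nat_lit 377) (nat_lit 363) (nat_lit 280)) (XT.nd (nat_lit 78) (nat_lit 0) (nat_lit 0) (XT.lf (nat_lit 0) (nat_lit 2677297129) (nat_lit 304) (nat_lit 10285497059) (nat_lit 380) (nat_lit 32203112248) (nat_lit 81) (nat_lit 5) (nat_lit 85) (nat_lit 5) (nat_lit 86) (nat_lit 5) (nat_lit 378) (nat_lit 363)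 (nat_lit 279)) (XT.lf (nat_lit 0) (nat_lit 25924531138) (nat_lit 380) (nat_lit 2847921069) (nat_lit 76) (nat_lit 18531988957) (nat_lit 81) (nat_lit 5) (nat_lit 86) (nat_lit 5) (nat_lit 82) (nat_lit 5) (nat_lit 379) (nat_lit 363) (nat_lit 278)))) (XT.nd (nat_lit 78) (nat_lit 532) (nat_lit 0) (XT.lf (nat_lit 0) (nat_lit 40737115570) (nat_lit 304) (nat_lit 8482559937) (nat_lit 76) (nat_lit 353690489) (nat_lit 78) (nat_lit 5) (nat_lit 82) (nat_lit 5) (nat_lit 79) (nat_lit 5) (nat_lit 380) (nat_lit 363) (nat_lit 277)) (XT.nd (nat_lit 78) (nat_lit 228) (nat_lit 0) (XT.lf (nat_lit 0) (nat_lit 5690139464) (nat_lit 304) (nat_lit 14735379948) (nat_lit 76) (nat_lit 31538109520) (nat_lit 74) (nat_lit 5) (nat_lit 78) (nat_lit 5) (nat_lit 75) (nat_lit 5) (nat_lit 381) (nat_lit 363) (nat_lit 276)) (XT.lf (nat_lit 0) (nat_lit 21916469384) (nat_lit 304) (nat_lit 21418968035) (nat_lit 76) (nat_lit 11160064501)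 (nat_lit 71) (nat_lit 5) (nat_lit 75) (nat_lit 5) (nat_lit 72) (nat_lit 5) (nat_lit 382) (nat_lit 363) (nat_lit 275))))) (XT.nd (nat_lit 234) (nat_lit 532) (nat_lit 0) (XT.nd (nat_lit 78) (nat_lit 456) (nat_lit 0) (XT.lf (nat_lit 0) (nat_lit 28579886556) (nat_lit 228) (nat_lit 11906542168) (nat_lit 304) (nat_lit 16691221954) (nat_lit 68) (nat_lit 5) (nat_lit 71) (nat_lit 5) (nat_lit 72) (nat_lit 5) (nat_lit 383) (nat_lit 363) (nat_lit 274)) (XT.nd (nat_lit 78) (nat_lit 228) (nat_lit 0) (XT.lf (nat_lit 0) (nat_lit 1557851194) (nat_lit 228) (nat_lit 36357965314) (nat_lit 76) (nat_lit 22102931411) (nat_lit 65) (nat_lit 5) (nat_lit 68) (nat_lit 5) (nat_lit 66) (nat_lit 5) (nat_lit 384) (nat_lit 363) (nat_lit 273)) (XT.lf (nat_lit 0) (nat_lit 18140838670) (nat_lit 228) (nat_lit 3533853301) (nat_lit 304) (nat_lit 41349130293) (nat_lit 62) (nat_lit 5) (nat_lit 65) (nat_lit 5) (nat_lit 66) (nat_lit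 5) (nat_lit 385) (nat_lit 363) (nat_lit 272)))) (XT.nd (nat_lit 156) (nat_lit 152) (nat_lit 0) (XT.nd (nat_lit 78) (nat_lit 228) (nat_lit 0) (XT.lf (nat_lit 0) (nat_lit 11897832363) (nat_lit 152) (nat_lit 32851815734) (nat_lit 228) (nat_lit 21452217628) (nat_lit 60) (nat_lit 5) (nat_lit 62) (nat_lit 5) (nat_lit 63) (nat_lit 5) (nat_lit 386) (nat_lit 363) (nat_lit 271)) (XT.lf (nat_lit 0) (nat_lit 1035379656) (nat_lit 228) (nat_lit 64337469685) (nat_lit 76) (nat_lit 4211271347) (nat_lit 57) (nat_lit 5) (nat_lit 60) (nat_lit 5) (nat_lit 58) (nat_lit 5) (nat_lit 387) (nat_lit 363) (nat_lit 270))) (XT.nd (nat_lit 78) (nat_lit 152) (nat_lit 0) (XT.lf (nat_lit 0) (nat_lit 26090962142) (nat_lit 228) (nat_lit 2628182400) (nat_lit 76) (nat_lit 44424201075) (nat_lit 57) (nat_lit 5) (nat_lit 60) (nat_lit 5) (nat_lit 58) (nat_lit 5) (nat_lit 388) (nat_lit 363) (nat_lit 269)) (XT.lf (nat_lit 0) (nat_lit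 54365444133) (nat_lit 228) (nat_lit 10995466771) (nat_lit 76) (nat_lit 11565676180) (nat_lit 55) (nat_lit 5) (nat_lit 58) (nat_lit 5) (nat_lit 56) (nat_lit 5) (nat_lit 389) (nat_lit 363) (nat_lit 268))))))) (XT.nd (nat_lit 1014) (nat_lit 988) (nat_lit 0) (XT.nd (nat_lit 468) (nat_lit 836) (nat_lit 0) (XT.nd (nat_lit 234) (nat_lit 380) (nat_lit 0) (XT.nd (nat_lit 78) (nat_lit 304) (nat_lit 0) (XT.lf (nat_lit 0) (nat_lit 5260103455) (nat_lit 228) (nat_lit 20520674616) (nat_lit 76) (nat_lit 55153915045) (nat_lit 52) (nat_lit 5) (nat_lit 55) (nat_lit 5) (nat_lit 53) (nat_lit 5) (nat_lit 390) (nat_lit 363) (nat_lit 267)) (XT.nd (nat_lit 78) (nat_lit 152) (nat_lit 0) (XT.lf (nat_lit 0) (nat_lit 35849057202) (nat_lit 228) (nat_lit 31467610760) (nat_lit 76) (nat_lit 17861665891) (nat_lit 50) (nat_lit 5) (nat_lit 53) (nat_lit 5) (nat_lit 51) (nat_lit 5) (nat_lit 391) (nat_lit 363) (nat_lit 266)) (XT.lf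 (nat_lit 0) (nat_lit 45891191864) (nat_lit 152) (nat_lit 24504426364) (nat_lit 228) (nat_lit 19290323972) (nat_lit 48) (nat_lit 5) (nat_lit 50) (nat_lit 5) (nat_lit 51) (nat_lit 5) (nat_lit 392) (nat_lit 363) (nat_lit 265)))) (XT.nd (nat_lit 78) (nat_lit 228) (nat_lit 0) (XT.lf (nat_lit 0) (nat_lit 14222934011) (nat_lit 152) (nat_lit 57849766573) (nat_lit 76) (nat_lit 22396586288) (nat_lit 46) (nat_lit 5) (nat_lit 48) (nat_lit 5) (nat_lit 47) (nat_lit 5) (nat_lit 393) (nat_lit 363) (nat_lit 264)) (XT.nd (nat_lit 78) (nat_lit 76) (nat_lit 0) (XT.lf (nat_lit 0) (nat_lit 25492061164) (nat_lit 152) (nat_lit 25841213518) (nat_lit 228) (nat_lit 48206620378) (nat_lit 44) (nat_lit 5) (nat_lit 46) (nat_lit 5) (nat_lit 47) (nat_lit 5) (nat_lit 394) (nat_lit 363) (nat_lit 263)) (XT.lf (nat_lit 0) (nat_lit 12605708813) (nat_lit 76) (nat_lit 80400252249) (nat_lit 152) (nat_lit 11930515599) (nat_lit 43)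 (nat_lit 5) (nat_lit 44) (nat_lit 5) (nat_lit 45) (nat_lit 4) (nat_lit 395) (nat_lit 363) (nat_lit 262))))) (XT.nd (nat_lit 234) (nat_lit 532) (nat_lit 0) (XT.nd (nat_lit 78) (nat_lit 228) (nat_lit 0) (XT.lf (nat_lit 0) (nat_lit 28118826530) (nat_lit 152) (nat_lit 2753062462) (nat_lit 76) (nat_lit 79784463527) (nat_lit 42) (nat_lit 5) (nat_lit 44) (nat_lit 5) (nat_lit 43) (nat_lit 5) (nat_lit 396) (nat_lit 363) (nat_lit 261)) (XT.nd (nat_lit 78) (nat_lit 76) (nat_lit 0) (XT.lf (nat_lit 0) (nat_lit 72850321117) (nat_lit 228) (nat_lit 20244658853) (nat_lit 76) (nat_lit 23634250306) (nat_lit 40) (nat_lit 5) (nat_lit 43) (nat_lit 5) (nat_lit 41) (nat_lit 4) (nat_lit 397) (nat_lit 363) (nat_lit 260)) (XT.lf (nat_lit 0) (nat_lit 82590407681) (nat_lit 76) (nat_lit 40425572688) (nat_lit 152) (nat_lit 179176144) (nat_lit 39) (nat_lit 5) (nat_lit 40) (nat_lit 5) (nat_lit 41) (nat_lit 4) (nat_lit 398)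 (nat_lit 363) (nat_lit 259)))) (XT.nd (nat_lit 156) (nat_lit 228) (nat_lit 0) (XT.nd (nat_lit 78) (nat_lit 76) (nat_lit 0) (XT.lf (nat_lit 0) (nat_lit 47182413395) (nat_lit 228) (nat_lit 64796577384) (nat_lit 76) (nat_lit 18079128496) (nat_lit 36) (nat_lit 5) (nat_lit 39) (nat_lit 5) (nat_lit 37) (nat_lit 4) (nat_lit 399) (nat_lit 363) (nat_lit 258)) (XT.lf (nat_lit 0) (nat_lit 44329553236) (nat_lit 76) (nat_lit 56086925258) (nat_lit 152) (nat_lit 36949002826) (nat_lit 35) (nat_lit 5) (nat_lit 36) (nat_lit 5) (nat_lit 37) (nat_lit 4) (nat_lit 400) (nat_lit 363) (nat_lit 257))) (XT.nd (nat_lit 78) (nat_lit 0) (nat_lit 0) (XT.lf (nat_lit 0) (nat_lit 13792807226) (nat_lit 228) (nat_lit 125560608258) (nat_lit 76) (nat_lit 5816845257) (nat_lit 32) (nat_lit 5) (nat_lit 35) (nat_lit 5) (nat_lit 33) (nat_lit 4) (nat_lit 401) (nat_lit 363) (nat_lit 256)) (XT.lf (nat_lit 0) (nat_lit 69906943032) (nat_lit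 228) (nat_lit 10529653266) (nat_lit 76) (nat_lit 73002165791) (nat_lit 32) (nat_lit 5) (nat_lit 35) (nat_lit 5) (nat_lit 33) (nat_lit 4) (nat_lit 402) (nat_lit 363) (nat_lit 255)))))) (XT.nd (nat_lit 468) (nat_lit 456) (nat_lit 0) (XT.nd (nat_lit 234) (nat_lit 228) (nat_lit 0) (XT.nd (nat_lit 78) (nat_lit 228) (nat_lit 0) (XT.lf (nat_lit 0) (nat_lit 117458459033) (nat_lit 76) (nat_lit 14883075099) (nat_lit 152) (nat_lit 29935643509) (nat_lit 31) (nat_lit 5) (nat_lit 32) (nat_lit 5) (nat_lit 33) (nat_lit 4) (nat_lit 403) (nat_lit 363) (nat_lit 254)) (XT.nd (nat_lit 78) (nat_lit 76) (nat_lit 0) (XT.lf (nat_lit 0) (nat_lit 29494681324) (nat_lit 152) (nat_lit 86054263309) (nat_lit 76) (nat_lit 56129855925) (nat_lit 29) (nat_lit 5) (nat_lit 31) (nat_lit 5) (nat_lit 30) (nat_lit 4) (nat_lit 404) (nat_lit 363) (nat_lit 253)) (XT.lf (nat_lit 0) (nat_lit 47042854223) (nat_lit 76) (nat_lit 47378365308)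 (nat_lit 152) (nat_lit 87297267300) (nat_lit 28) (nat_lit 5) (nat_lit 29) (nat_lit 5) (nat_lit 30) (nat_lit 4) (nat_lit 405) (nat_lit 363) (nat_lit 252)))) (XT.nd (nat_lit 78) (nat_lit 152) (nat_lit 0) (XT.lf (nat_lit 0) (nat_lit 966531606) (nat_lit 76) (nat_lit 165521498533) (nat_lit 76) (nat_lit 25976010637) (nat_lit 27) (nat_lit 4) (nat_lit 28) (nat_lit 5) (nat_lit 28) (nat_lit 4) (nat_lit 406) (nat_lit 363) (nat_lit 251)) (XT.nd (nat_lit 78) (nat_lit 76) (nat_lit 0) (XT.lf (nat_lit 0) (nat_lit 42143744333) (nat_lit 152) (nat_lit 53152678391) (nat_lit 76) (nat_lit 108582341050) (nat_lit 26) (nat_lit 5) (nat_lit 28) (nat_lit 5) (nat_lit 27) (nat_lit 4) (nat_lit 407) (nat_lit 363) (nat_lit 250)) (XT.lf (nat_lit 0) (nat_lit 98985964562) (nat_lit 76) (nat_lit 17372594932) (nat_lit 152) (nat_lit 99749035867) (nat_lit 25) (nat_lit 5) (nat_lit 26) (nat_lit 5) (nat_lit 27) (nat_lit 4) (nat_lit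 408) (nat_lit 363) (nat_lit 249))))) (XT.nd (nat_lit 234) (nat_lit 228) (nat_lit 0) (XT.nd (nat_lit 78) (nat_lit 152) (nat_lit 0) (XT.lf (nat_lit 0) (nat_lit 36016351696) (nat_lit 76) (nat_lit 163038294779) (nat_lit 76) (nat_lit 30132882853) (nat_lit 24) (nat_lit 4) (nat_lit 25) (nat_lit 5) (nat_lit 25) (nat_lit 4) (nat_lit 409) (nat_lit 363) (nat_lit 248)) (XT.nd (nat_lit 78) (nat_lit 76) (nat_lit 0) (XT.lf (nat_lit 0) (nat_lit 45975224167) (nat_lit 152) (nat_lit 38657613422) (nat_lit 76) (nat_lit 158527619487) (nat_lit 23) (nat_lit 5) (nat_lit 25) (nat_lit 5) (nat_lit 24) (nat_lit 4) (nat_lit 410) (nat_lit 363) (nat_lit 247)) (XT.lf (nat_lit 0) (nat_lit 129231129494) (nat_lit 152) (nat_lit 126237689099) (nat_lit 0) (nat_lit 2651958557) (nat_lit 22) (nat_lit 5) (nat_lit 24) (nat_lit 4) (nat_lit 22) (nat_lit 4) (nat_lit 411) (nat_lit 363) (nat_lit 246)))) (XT.nd (nat_lit 156) (nat_lit 76)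 (nat_lit 0) (XT.nd (nat_lit 78) (nat_lit 76) (nat_lit 0) (XT.lf (nat_lit 0) (nat_lit 43142601908) (nat_lit 76) (nat_lit 178788238729) (nat_lit 76) (nat_lit 52207915660) (nat_lit 21) (nat_lit 4) (nat_lit 22) (nat_lit 5) (nat_lit 22) (nat_lit 4) (nat_lit 412) (nat_lit 363) (nat_lit 245)) (XT.lf (nat_lit 0) (nat_lit 31862037729) (nat_lit 152) (nat_lit 61264212514) (nat_lit 76) (nat_lit 198176362477) (nat_lit 20) (nat_lit 5) (nat_lit 22) (nat_lit 5) (nat_lit 21) (nat_lit 4) (nat_lit 413) (nat_lit 363) (nat_lit 244))) (XT.nd (nat_lit 78) (nat_lit 0) (nat_lit 0) (XT.lf (nat_lit 0) (nat_lit 122842509827) (nat_lit 152) (nat_lit 184565708424) (nat_lit 0) (nat_lit 2287864468) (nat_lit 19) (nat_lit 5) (nat_lit 21) (nat_lit 4) (nat_lit 19) (nat_lit 4) (nat_lit 414) (nat_lit 363) (nat_lit 243)) (XT.lf (nat_lit 0) (nat_lit 223754862835) (nat_lit 152) (nat_lit 2474149003) (nat_lit 0) (nat_lit 103199346429)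 (nat_lit 19) (nat_lit 5) (nat_lit 21) (nat_lit 4) (nat_lit 19) (nat_lit 4) (nat_lit 415) (nat_lit 363) (nat_lit 242))))))))
noncomputable def xc85 : XT := (XT.nd (nat_lit 49530) (nat_lit 0) (nat_lit 2736) (XT.nd (nat_lit 1014) (nat_lit 228) (nat_lit 0) (XT.nd (nat_lit 468) (nat_lit 228) (nat_lit 0) (XT.nd (nat_lit 234) (nat_lit 228) (nat_lit 0) (XT.nd (nat_lit 78) (nat_lit 152) (nat_lit 0) (XT.lf (nat_lit 0) (nat_lit 200602530359) (nat_lit 76) (nat_lit 135268240104) (nat_lit 76) (nat_lit 14711917172) (nat_lit 18) (nat_lit 4) (nat_lit 19) (nat_lit 5) (nat_lit 19) (nat_lit 4) (nat_lit 416) (nat_lit 363) (nat_lit 241)) (XT.nd (nat_lit 78) (nat_lit 0) (nat_lit 0) (XT.lf (nat_lit 0) (nat_lit 46776160688) (nat_lit 76) (nat_lit 34849805362) (nat_lit 152) (nat_lit 291699555625) (nat_lit 16) (nat_lit 5) (nat_lit 17) (nat_lit 5) (nat_lit 18) (nat_lit 4) (nat_lit 417) (nat_lit 363) (nat_lit 240)) (XT.lf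 (nat_lit 0) (nat_lit 188965539391) (nat_lit 152) (nat_lit 134571055526) (nat_lit 0) (nat_lit 74148623981) (nat_lit 16) (nat_lit 5) (nat_lit 18) (nat_lit 4) (nat_lit 16) (nat_lit 4) (nat_lit 418) (nat_lit 363) (nat_lit 239)))) (XT.nd (nat_lit 78) (nat_lit 152) (nat_lit 0) (XT.lf (nat_lit 0) (nat_lit 74561928150) (nat_lit 76) (nat_lit 232080881226) (nat_lit 76) (nat_lit 117263356058) (nat_lit 15) (nat_lit 4) (nat_lit 16) (nat_lit 5) (nat_lit 16) (nat_lit 4) (nat_lit 419) (nat_lit 363) (nat_lit 238)) (XT.nd (nat_lit 78) (nat_lit 152) (nat_lit 0) (XT.lf (nat_lit 0) (nat_lit 305228741710) (nat_lit 76) (nat_lit 130848493547) (nat_lit 76) (nat_lit 16030403788) (nat_lit 15) (nat_lit 4) (nat_lit 16) (nat_lit 5) (nat_lit 16) (nat_lit 4) (nat_lit 420) (nat_lit 363) (nat_lit 237)) (XT.lf (nat_lit 0) (nat_lit 72650068796) (nat_lit 76) (nat_lit 18798068435) (nat_lit 152) (nat_lit 390987600067) (nat_lit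 13) (nat_lit 5) (nat_lit 14) (nat_lit 5) (nat_lit 15) (nat_lit 4) (nat_lit 421) (nat_lit 363) (nat_lit 236))))) (XT.nd (nat_lit 234) (nat_lit 152) (nat_lit 0) (XT.nd (nat_lit 78) (nat_lit 76) (nat_lit 0) (XT.lf (nat_lit 0) (nat_lit 211166140874) (nat_lit 152) (nat_lit 201986042260) (nat_lit 0) (nat_lit 101814620327) (nat_lit 13) (nat_lit 5) (nat_lit 15) (nat_lit 4) (nat_lit 13) (nat_lit 4) (nat_lit 422) (nat_lit 363) (nat_lit 235)) (XT.nd (nat_lit 78) (nat_lit 0) (nat_lit 0) (XT.lf (nat_lit 0) (nat_lit 22849975794) (nat_lit 76) (nat_lit 318284344887) (nat_lit 76) (nat_lit 208932397492) (nat_lit 12) (nat_lit 4) (nat_lit 13) (nat_lit 5) (nat_lit 13) (nat_lit 4) (nat_lit 423) (nat_lit 363) (nat_lit 234)) (XT.lf (nat_lit 0) (nat_lit 272883866029) (nat_lit 76) (nat_lit 212133613242) (nat_lit 76) (nat_lit 102781270618) (nat_lit 12) (nat_lit 4) (nat_lit 13) (nat_lit 5) (nat_lit 13) (nat_lit 4) (nat_lit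 424) (nat_lit 363) (nat_lit 233)))) (XT.nd (nat_lit 156) (nat_lit 0) (nat_lit 0) (XT.nd (nat_lit 78) (nat_lit 76) (nat_lit 0) (XT.lf (nat_lit 0) (nat_lit 11481403342) (nat_lit 152) (nat_lit 85815831725) (nat_lit 76) (nat_lit 531242893542) (nat_lit 11) (nat_lit 5) (nat_lit 13) (nat_lit 5) (nat_lit 12) (nat_lit 4) (nat_lit 425) (nat_lit 363) (nat_lit 232)) (XT.lf (nat_lit 0) (nat_lit 134398048630) (nat_lit 152) (nat_lit 507650537289) (nat_lit 0) (nat_lit 30252289179) (nat_lit 10) (nat_lit 5) (nat_lit 12) (nat_lit 4) (nat_lit 10) (nat_lit 4) (nat_lit 426) (nat_lit 363) (nat_lit 231))) (XT.nd (nat_lit 78) (nat_lit 0) (nat_lit 0) (XT.lf (nat_lit 0) (nat_lit 270307200383) (nat_lit 152) (nat_lit 282936180090) (nat_lit 0) (nat_lit 166161142126) (nat_lit 10) (nat_lit 5) (nat_lit 12) (nat_lit 4) (nat_lit 10) (nat_lit 4) (nat_lit 427) (nat_lit 363) (nat_lit 230)) (XT.lf (nat_lit 0) (nat_lit 417088346738)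 (nat_lit 152) (nat_lit 40246140262) (nat_lit 0) (nat_lit 312942011810) (nat_lit 10) (nat_lit 5) (nat_lit 12) (nat_lit 4) (nat_lit 10) (nat_lit 4) (nat_lit 428) (nat_lit 363) (nat_lit 229)))))) (XT.nd (nat_lit 468) (nat_lit 0) (nat_lit 0) (XT.nd (nat_lit 234) (nat_lit 152) (nat_lit 0) (XT.nd (nat_lit 78) (nat_lit 0) (nat_lit 0) (XT.lf (nat_lit 0) (nat_lit 229193364395) (nat_lit 76) (nat_lit 349996288234) (nat_lit 76) (nat_lit 245849697128) (nat_lit 9) (nat_lit 4) (nat_lit 10) (nat_lit 5) (nat_lit 10) (nat_lit 4) (nat_lit 429) (nat_lit 363) (nat_lit 228)) (XT.nd (nat_lit 78) (nat_lit 0) (nat_lit 0) (XT.lf (nat_lit 0) (nat_lit 521623907742) (nat_lit 76) (nat_lit 233335564457) (nat_lit 76) (nat_lit 129188736149) (nat_lit 9) (nat_lit 4) (nat_lit 10) (nat_lit 5) (nat_lit 10) (nat_lit 4) (nat_lit 430) (nat_lit 363) (nat_lit 227)) (XT.lf (nat_lit 0) (nat_lit 837447692364) (nat_lit 76) (nat_lit 107342580720)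 (nat_lit 76) (nat_lit 3195532781) (nat_lit 9) (nat_lit 4) (nat_lit 10) (nat_lit 5) (nat_lit 10) (nat_lit 4) (nat_lit 431) (nat_lit 363) (nat_lit 226)))) (XT.nd (nat_lit 78) (nat_lit 0) (nat_lit 0) (XT.lf (nat_lit 0) (nat_lit 131721480836) (nat_lit 152) (nat_lit 852416716106) (nat_lit 0) (nat_lit 32533622454) (nat_lit 7) (nat_lit 5) (nat_lit 9) (nat_lit 4) (nat_lit 7) (nat_lit 4) (nat_lit 432) (nat_lit 363) (nat_lit 225)) (XT.nd (nat_lit 78) (nat_lit 0) (nat_lit 0) (XT.lf (nat_lit 0) (nat_lit 281087904722) (nat_lit 152) (nat_lit 627673922756) (nat_lit 0) (nat_lit 181899867008) (nat_lit 7) (nat_lit 5) (nat_lit 9) (nat_lit 4) (nat_lit 7) (nat_lit 4) (nat_lit 433) (nat_lit 363) (nat_lit 224)) (XT.lf (nat_lit 0) (nat_lit 442403131513) (nat_lit 152) (nat_lit 384952725890) (nat_lit 0) (nat_lit 343214927751) (nat_lit 7) (nat_lit 5) (nat_lit 9) (nat_lit 4) (nat_lit 7) (nat_lit 4) (nat_lit 434) (nat_lit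 363) (nat_lit 223))))) (XT.nd (nat_lit 47736) (nat_lit 0) (nat_lit 8512) (XT.nd (nat_lit 47580) (nat_lit 0) (nat_lit 8436) (XT.lf (nat_lit 0) (nat_lit 616623103293) (nat_lit 152) (nat_lit 122814777676) (nat_lit 0) (nat_lit 517434745783) (nat_lit 7) (nat_lit 5) (nat_lit 9) (nat_lit 4) (nat_lit 7) (nat_lit 4) (nat_lit 435) (nat_lit 363) (nat_lit 222)) (XT.nd (nat_lit 78) (nat_lit 0) (nat_lit 76) (XT.lf (nat_lit 0) (nat_lit 2953258788) (nat_lit 836) (nat_lit 4987146347) (nat_lit 836) (nat_lit 4987146347) (nat_lit 118) (nat_lit 3) (nat_lit 129) (nat_lit 3) (nat_lit 129) (nat_lit 5) (nat_lit 364) (nat_lit 364) (nat_lit 292)) (XT.lf (nat_lit 0) (nat_lit 6519322700) (nat_lit 760) (nat_lit 16477454410) (nat_lit 836) (nat_lit 3873620285) (nat_lit 119) (nat_lit 5) (nat_lit 129) (nat_lit 5) (nat_lit 130) (nat_lit 5) (nat_lit 365) (nat_lit 364) (nat_lit 291)))) (XT.nd (nat_lit 156) (nat_lit 0) (nat_lit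 152) (XT.nd (nat_lit 78) (nat_lit 0) (nat_lit 76) (XT.lf (nat_lit 76) (nat_lit 4656864728) (nat_lit 0) (nat_lit 3026264429) (nat_lit 836) (nat_lit 20258695626) (nat_lit 120) (nat_lit 5) (nat_lit 119) (nat_lit 5) (nat_lit 130) (nat_lit 5) (nat_lit 366) (nat_lit 364) (nat_lit 290)) (XT.lf (nat_lit 0) (nat_lit 9507228145) (nat_lit 760) (nat_lit 1317946513) (nat_lit 836) (nat_lit 18245439942) (nat_lit 120) (nat_lit 5) (nat_lit 130) (nat_lit 5) (nat_lit 131) (nat_lit 5) (nat_lit 367) (nat_lit 364) (nat_lit 289))) (XT.nd (nat_lit 78) (nat_lit 0) (nat_lit 76) (XT.lf (nat_lit 0) (nat_lit 12050734053) (nat_lit 760) (nat_lit 7359295344) (nat_lit 836) (nat_lit 10851011330) (nat_lit 121) (nat_lit 5) (nat_lit 131) (nat_lit 5) (nat_lit 132) (nat_lit 5) (nat_lit 368) (nat_lit 364) (nat_lit 288)) (XT.lf (nat_lit 0) (nat_lit 15313325360) (nat_lit 760) (nat_lit 13621880886) (nat_lit 836) (nat_lit 2585721001)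 (nat_lit 122) (nat_lit 5) (nat_lit 132) (nat_lit 5) (nat_lit 133) (nat_lit 5) (nat_lit 369) (nat_lit 364) (nat_lit 287))))))) (XT.nd (nat_lit 1014) (nat_lit 2356) (nat_lit 0) (XT.nd (nat_lit 468) (nat_lit 1748) (nat_lit 0) (XT.nd (nat_lit 234) (nat_lit 836) (nat_lit 0) (XT.nd (nat_lit 78) (nat_lit 1064) (nat_lit 0) (XT.lf (nat_lit 76) (nat_lit 12631266050) (nat_lit 0) (nat_lit 6849150195) (nat_lit 836) (nat_lit 13369019895) (nat_lit 123) (nat_lit 5) (nat_lit 122) (nat_lit 5) (nat_lit 133) (nat_lit 5) (nat_lit 370) (nat_lit 364) (nat_lit 286)) (XT.nd (nat_lit 78) (nat_lit 380) (nat_lit 0) (XT.lf (nat_lit 0) (nat_lit 7148732492) (nat_lit 760) (nat_lit 17439828756) (nat_lit 836) (nat_lit 9665285769) (nat_lit 113) (nat_lit 5) (nat_lit 123) (nat_lit 5) (nat_lit 124) (nat_lit 5) (nat_lit 371) (nat_lit 364) (nat_lit 285)) (XT.lf (nat_lit 0) (nat_lit 1493420293) (nat_lit 380) (nat_lit 29196323991)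 (nat_lit 456) (nat_lit 5051652359) (nat_lit 108) (nat_lit 5) (nat_lit 113) (nat_lit 5) (nat_lit 114) (nat_lit 5) (nat_lit 372) (nat_lit 364) (nat_lit 284)))) (XT.nd (nat_lit 78) (nat_lit 760) (nat_lit 0) (XT.lf (nat_lit 0) (nat_lit 697754198) (nat_lit 456) (nat_lit 4286771233) (nat_lit 76) (nat_lit 32325259383) (nat_lit 107) (nat_lit 5) (nat_lit 113) (nat_lit 5) (nat_lit 108) (nat_lit 5) (nat_lit 373) (nat_lit 364) (nat_lit 283)) (XT.nd (nat_lit 78) (nat_lit 380) (nat_lit 0) (XT.lf (nat_lit 0) (nat_lit 7514187368) (nat_lit 456) (nat_lit 10414033758) (nat_lit 76) (nat_lit 21032083491) (nat_lit 102) (nat_lit 5) (nat_lit 108) (nat_lit 5) (nat_lit 103) (nat_lit 5) (nat_lit 374) (nat_lit 364) (nat_lit 282)) (XT.lf (nat_lit 0) (nat_lit 15539565767) (nat_lit 456) (nat_lit 16755097452) (nat_lit 76) (nat_lit 8415025187) (nat_lit 97) (nat_lit 5) (nat_lit 103) (nat_lit 5) (nat_lit 98) (nat_lit 5) (nat_lit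 375) (nat_lit 364) (nat_lit 281))))) (XT.nd (nat_lit 234) (nat_lit 836) (nat_lit 0) (XT.nd (nat_lit 78) (nat_lit 608) (nat_lit 0) (XT.lf (nat_lit 0) (nat_lit 19153606969) (nat_lit 304) (nat_lit 5831298304) (nat_lit 380) (nat_lit 17575224724) (nat_lit 93) (nat_lit 5) (nat_lit 97) (nat_lit 5) (nat_lit 98) (nat_lit 5) (nat_lit 376) (nat_lit 364) (nat_lit 280)) (XT.nd (nat_lit 78) (nat_lit 304) (nat_lit 0) (XT.lf (nat_lit 0) (nat_lit 14070950168) (nat_lit 304) (nat_lit 21979070821) (nat_lit 380) (nat_lit 8465381844) (nat_lit 89) (nat_lit 5) (nat_lit 93) (nat_lit 5) (nat_lit 94) (nat_lit 5) (nat_lit 377) (nat_lit 364) (nat_lit 279)) (XT.lf (nat_lit 0) (nat_lit 2082874102) (nat_lit 304) (nat_lit 37775933520) (nat_lit 76) (nat_lit 6729541924) (nat_lit 85) (nat_lit 5) (nat_lit 89) (nat_lit 5) (nat_lit 86) (nat_lit 5) (nat_lit 378) (nat_lit 364) (nat_lit 278)))) (XT.nd (nat_lit 156) (nat_lit 532)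 (nat_lit 0) (XT.nd (nat_lit 78) (nat_lit 0) (nat_lit 0) (XT.lf (nat_lit 0) (nat_lit 3063847117) (nat_lit 304) (nat_lit 11069286379) (nat_lit 380) (nat_lit 34639325980) (nat_lit 81) (nat_lit 5) (nat_lit 85) (nat_lit 5) (nat_lit 86) (nat_lit 5) (nat_lit 379) (nat_lit 364) (nat_lit 277)) (XT.lf (nat_lit 0) (nat_lit 28122498685) (nat_lit 380) (nat_lit 2910499194) (nat_lit 76) (nat_lit 20049548616) (nat_lit 81) (nat_lit 5) (nat_lit 86) (nat_lit 5) (nat_lit 82) (nat_lit 5) (nat_lit 380) (nat_lit 364) (nat_lit 276))) (XT.nd (nat_lit 78) (nat_lit 304) (nat_lit 0) (XT.lf (nat_lit 0) (nat_lit 44114009074) (nat_lit 304) (nat_lit 8997817364) (nat_lit 76) (nat_lit 421466598) (nat_lit 78) (nat_lit 5) (nat_lit 82) (nat_lit 5) (nat_lit 79) (nat_lit 5) (nat_lit 381) (nat_lit 364) (nat_lit 275)) (XT.lf (nat_lit 0) (nat_lit 6258850457) (nat_lit 304) (nat_lit 15754168447) (nat_lit 76) (nat_lit 34101984762) (nat_lit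 74) (nat_lit 5) (nat_lit 78) (nat_lit 5) (nat_lit 75) (nat_lit 5) (nat_lit 382) (nat_lit 364) (nat_lit 274)))))) (XT.nd (nat_lit 546) (nat_lit 1064) (nat_lit 0) (XT.nd (nat_lit 234) (nat_lit 608) (nat_lit 0) (XT.nd (nat_lit 78) (nat_lit 456) (nat_lit 0) (XT.lf (nat_lit 0) (nat_lit 23777981496) (nat_lit 304) (nat_lit 22974699106) (nat_lit 76) (nat_lit 12097014162) (nat_lit 71) (nat_lit 5) (nat_lit 75) (nat_lit 5) (nat_lit 72) (nat_lit 5) (nat_lit 383) (nat_lit 364) (nat_lit 273)) (XT.nd (nat_lit 78) (nat_lit 228) (nat_lit 0) (XT.lf (nat_lit 0) (nat_lit 31017206649) (nat_lit 228) (nat_lit 12810672949) (nat_lit 304) (nat_lit 17918821507) (nat_lit 68) (nat_lit 5) (nat_lit 71) (nat_lit 5) (nat_lit 72) (nat_lit 5) (nat_lit 384) (nat_lit 364) (nat_lit 272)) (XT.lf (nat_lit 0) (nat_lit 1782077064) (nat_lit 228) (nat_lit 39114694130) (nat_lit 76) (nat_lit 23918465983) (nat_lit 65) (nat_lit 5) (nat_lit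 68) (nat_lit 5) (nat_lit 66) (nat_lit 5) (nat_lit 385) (nat_lit 364) (nat_lit 271)))) (XT.nd (nat_lit 156) (nat_lit 228) (nat_lit 0) (XT.nd (nat_lit 78) (nat_lit 152) (nat_lit 0) (XT.lf (nat_lit 0) (nat_lit 19737412418) (nat_lit 228) (nat_lit 3765743717) (nat_lit 304) (nat_lit 44557819056) (nat_lit 62) (nat_lit 5) (nat_lit 65) (nat_lit 5) (nat_lit 66) (nat_lit 5) (nat_lit 386) (nat_lit 364) (nat_lit 270)) (XT.lf (nat_lit 0) (nat_lit 12992438128) (nat_lit 152) (nat_lit 35427635274) (nat_lit 228) (nat_lit 23073392600) (nat_lit 60) (nat_lit 5) (nat_lit 62) (nat_lit 5) (nat_lit 63) (nat_lit 5) (nat_lit 387) (nat_lit 364) (nat_lit 269))) (XT.nd (nat_lit 78) (nat_lit 0) (nat_lit 0) (XT.lf (nat_lit 0) (nat_lit 1206352559) (nat_lit 228) (nat_lit 69341385663) (nat_lit 76) (nat_lit 4598681796) (nat_lit 57) (nat_lit 5) (nat_lit 60) (nat_lit 5) (nat_lit 58) (nat_lit 5) (nat_lit 388) (nat_lit 364) (nat_lit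 268)) (XT.lf (nat_lit 0) (nat_lit 28259852568) (nat_lit 228) (nat_lit 2705954032) (nat_lit 76) (nat_lit 48024904513) (nat_lit 57) (nat_lit 5) (nat_lit 60) (nat_lit 5) (nat_lit 58) (nat_lit 5) (nat_lit 389) (nat_lit 364) (nat_lit 267))))) (XT.nd (nat_lit 234) (nat_lit 532) (nat_lit 0) (XT.nd (nat_lit 78) (nat_lit 380) (nat_lit 0) (XT.lf (nat_lit 0) (nat_lit 58792994036) (nat_lit 228) (nat_lit 11745249302) (nat_lit 76) (nat_lit 12538535104) (nat_lit 55) (nat_lit 5) (nat_lit 58) (nat_lit 5) (nat_lit 56) (nat_lit 5) (nat_lit 390) (nat_lit 364) (nat_lit 266)) (XT.nd (nat_lit 78) (nat_lit 152) (nat_lit 0) (XT.lf (nat_lit 0) (nat_lit 5756602690) (nat_lit 228) (nat_lit 22035596883) (nat_lit 76) (nat_lit 59613466905) (nat_lit 52) (nat_lit 5) (nat_lit 55) (nat_lit 5) (nat_lit 53) (nat_lit 5) (nat_lit 391) (nat_lit 364) (nat_lit 265)) (XT.lf (nat_lit 0) (nat_lit 38789727534) (nat_lit 228) (nat_lit 33860949326)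 (nat_lit 76) (nat_lit 19338270173) (nat_lit 50) (nat_lit 5) (nat_lit 53) (nat_lit 5) (nat_lit 51) (nat_lit 5) (nat_lit 392) (nat_lit 364) (nat_lit 264)))) (XT.nd (nat_lit 156) (nat_lit 228) (nat_lit 0) (XT.nd (nat_lit 78) (nat_lit 152) (nat_lit 0) (XT.lf (nat_lit 0) (nat_lit 49681165563) (nat_lit 152) (nat_lit 26415312206) (nat_lit 228) (nat_lit 20760864265) (nat_lit 48) (nat_lit 5) (nat_lit 50) (nat_lit 5) (nat_lit 51) (nat_lit 5) (nat_lit 393) (nat_lit 364) (nat_lit 263)) (XT.lf (nat_lit 0) (nat_lit 15428485484) (nat_lit 152) (nat_lit 62359389158) (nat_lit 76) (nat_lit 24235556083) (nat_lit 46) (nat_lit 5) (nat_lit 48) (nat_lit 5) (nat_lit 47) (nat_lit 5) (nat_lit 394) (nat_lit 364) (nat_lit 262))) (XT.nd (nat_lit 78) (nat_lit 76) (nat_lit 0) (XT.lf (nat_lit 0) (nat_lit 27644641072) (nat_lit 152) (nat_lit 27859763885) (nat_lit 228) (nat_lit 51995446016) (nat_lit 44) (nat_lit 5) (nat_lit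 46) (nat_lit 5) (nat_lit 47) (nat_lit 5) (nat_lit 395) (nat_lit 364) (nat_lit 261)) (XT.lf (nat_lit 0) (nat_lit 13724827423) (nat_lit 76) (nat_lit 86783735834) (nat_lit 152) (nat_lit 12819713903) (nat_lit 43) (nat_lit 5) (nat_lit 44) (nat_lit 5) (nat_lit 45) (nat_lit 4) (nat_lit 396) (nat_lit 364) (nat_lit 260))))))))
noncomputable def xc86 : XT := (XT.nd (nat_lit 2028) (nat_lit 456) (nat_lit 0) (XT.nd (nat_lit 1014) (nat_lit 912) (nat_lit 0) (XT.nd (nat_lit 468) (nat_lit 532) (nat_lit 0) (XT.nd (nat_lit 234) (nat_lit 532) (nat_lit 0) (XT.nd (nat_lit 78) (nat_lit 228) (nat_lit 0) (XT.lf (nat_lit 0) (nat_lit 30426809284) (nat_lit 152) (nat_lit 2868899206) (nat_lit 76) (nat_lit 86210218374) (nat_lit 42) (nat_lit 5) (nat_lit 44) (nat_lit 5) (nat_lit 43) (nat_lit 5) (nat_lit 397) (nat_lit 364) (nat_lit 259)) (XT.nd (nat_lit 78) (nat_lit 76) (nat_lit 0) (XT.lf (nat_lit 0) (nat_lit 78734740662)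 (nat_lit 228) (nat_lit 21762255829) (nat_lit 76) (nat_lit 25567743232) (nat_lit 40) (nat_lit 5) (nat_lit 43) (nat_lit 5) (nat_lit 41) (nat_lit 4) (nat_lit 398) (nat_lit 364) (nat_lit 258)) (XT.lf (nat_lit 0) (nat_lit 89295184287) (nat_lit 76) (nat_lit 43615813979) (nat_lit 152) (nat_lit 137075199) (nat_lit 39) (nat_lit 5) (nat_lit 40) (nat_lit 5) (nat_lit 41) (nat_lit 4) (nat_lit 399) (nat_lit 364) (nat_lit 257)))) (XT.nd (nat_lit 78) (nat_lit 304) (nat_lit 0) (XT.lf (nat_lit 0) (nat_lit 51009743453) (nat_lit 228) (nat_lit 69883323191) (nat_lit 76) (nat_lit 19567057744) (nat_lit 36) (nat_lit 5) (nat_lit 39) (nat_lit 5) (nat_lit 37) (nat_lit 4) (nat_lit 400) (nat_lit 364) (nat_lit 256)) (XT.nd (nat_lit 78) (nat_lit 228) (nat_lit 0) (XT.lf (nat_lit 0) (nat_lit 47968683230) (nat_lit 76) (nat_lit 60531392420) (nat_lit 152) (nat_lit 39852123215) (nat_lit 35) (nat_lit 5) (nat_lit 36) (nat_lit 5)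 (nat_lit 37) (nat_lit 4) (nat_lit 401) (nat_lit 364) (nat_lit 255)) (XT.lf (nat_lit 0) (nat_lit 14945616368) (nat_lit 228) (nat_lit 135513306712) (nat_lit 76) (nat_lit 6322483104) (nat_lit 32) (nat_lit 5) (nat_lit 35) (nat_lit 5) (nat_lit 33) (nat_lit 4) (nat_lit 402) (nat_lit 364) (nat_lit 254))))) (XT.nd (nat_lit 234) (nat_lit 304) (nat_lit 0) (XT.nd (nat_lit 78) (nat_lit 228) (nat_lit 0) (XT.lf (nat_lit 0) (nat_lit 75545224923) (nat_lit 228) (nat_lit 11286701262) (nat_lit 76) (nat_lit 78879644819) (nat_lit 32) (nat_lit 5) (nat_lit 35) (nat_lit 5) (nat_lit 33) (nat_lit 4) (nat_lit 403) (nat_lit 364) (nat_lit 253)) (XT.nd (nat_lit 78) (nat_lit 152) (nat_lit 0) (XT.lf (nat_lit 0) (nat_lit 126936751932) (nat_lit 76) (nat_lit 16035718491) (nat_lit 152) (nat_lit 32284695445) (nat_lit 31) (nat_lit 5) (nat_lit 32) (nat_lit 5) (nat_lit 33) (nat_lit 4) (nat_lit 404) (nat_lit 364) (nat_lit 252))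 (XT.lf (nat_lit 0) (nat_lit 31897126947) (nat_lit 152) (nat_lit 92857589504) (nat_lit 76) (nat_lit 60656239917) (nat_lit 29) (nat_lit 5) (nat_lit 31) (nat_lit 5) (nat_lit 30) (nat_lit 4) (nat_lit 405) (nat_lit 364) (nat_lit 251)))) (XT.nd (nat_lit 156) (nat_lit 152) (nat_lit 0) (XT.nd (nat_lit 78) (nat_lit 76) (nat_lit 0) (XT.lf (nat_lit 0) (nat_lit 50883776624) (nat_lit 76) (nat_lit 51132045848) (nat_lit 152) (nat_lit 94238093704) (nat_lit 28) (nat_lit 5) (nat_lit 29) (nat_lit 5) (nat_lit 30) (nat_lit 4) (nat_lit 406) (nat_lit 364) (nat_lit 250)) (XT.lf (nat_lit 0) (nat_lit 1119394502) (nat_lit 76) (nat_lit 178727261732) (nat_lit 76) (nat_lit 28012524608) (nat_lit 27) (nat_lit 4) (nat_lit 28) (nat_lit 5) (nat_lit 28) (nat_lit 4) (nat_lit 407) (nat_lit 364) (nat_lit 249))) (XT.nd (nat_lit 78) (nat_lit 76) (nat_lit 0) (XT.lf (nat_lit 0) (nat_lit 45552499880) (nat_lit 152) (nat_lit 57333712489)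 (nat_lit 76) (nat_lit 117300986171) (nat_lit 26) (nat_lit 5) (nat_lit 28) (nat_lit 5) (nat_lit 27) (nat_lit 4) (nat_lit 408) (nat_lit 364) (nat_lit 248)) (XT.lf (nat_lit 0) (nat_lit 106972928497) (nat_lit 76) (nat_lit 18729875079) (nat_lit 152) (nat_lit 107691618173) (nat_lit 25) (nat_lit 5) (nat_lit 26) (nat_lit 5) (nat_lit 27) (nat_lit 4) (nat_lit 409) (nat_lit 364) (nat_lit 247)))))) (XT.nd (nat_lit 468) (nat_lit 456) (nat_lit 0) (XT.nd (nat_lit 234) (nat_lit 228) (nat_lit 0) (XT.nd (nat_lit 78) (nat_lit 152) (nat_lit 0) (XT.lf (nat_lit 0) (nat_lit 38964005690) (nat_lit 76) (nat_lit 176049443872) (nat_lit 76) (nat_lit 32507357511) (nat_lit 24) (nat_lit 4) (nat_lit 25) (nat_lit 5) (nat_lit 25) (nat_lit 4) (nat_lit 410) (nat_lit 364) (nat_lit 246)) (XT.nd (nat_lit 78) (nat_lit 76) (nat_lit 0) (XT.lf (nat_lit 0) (nat_lit 49685648354) (nat_lit 152) (nat_lit 41687716973) (nat_lit 76) (nat_lit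 171238305328) (nat_lit 23) (nat_lit 5) (nat_lit 25) (nat_lit 5) (nat_lit 24) (nat_lit 4) (nat_lit 411) (nat_lit 364) (nat_lit 245)) (XT.lf (nat_lit 0) (nat_lit 139601009546) (nat_lit 152) (nat_lit 136275816106) (nat_lit 0) (nat_lit 2892041709) (nat_lit 22) (nat_lit 5) (nat_lit 24) (nat_lit 4) (nat_lit 22) (nat_lit 4) (nat_lit 412) (nat_lit 364) (nat_lit 244)))) (XT.nd (nat_lit 78) (nat_lit 152) (nat_lit 0) (XT.lf (nat_lit 0) (nat_lit 46652252058) (nat_lit 76) (nat_lit 193063029681) (nat_lit 76) (nat_lit 56353074076) (nat_lit 21) (nat_lit 4) (nat_lit 22) (nat_lit 5) (nat_lit 22) (nat_lit 4) (nat_lit 413) (nat_lit 364) (nat_lit 243)) (XT.nd (nat_lit 78) (nat_lit 76) (nat_lit 0) (XT.lf (nat_lit 0) (nat_lit 34439211344) (nat_lit 152) (nat_lit 66110486948) (nat_lit 76) (nat_lit 214055710893) (nat_lit 20) (nat_lit 5) (nat_lit 22) (nat_lit 5) (nat_lit 21) (nat_lit 4) (nat_lit 414) (nat_lit 364)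 (nat_lit 242)) (XT.lf (nat_lit 0) (nat_lit 132697249591) (nat_lit 152) (nat_lit 199277536627) (nat_lit 0) (nat_lit 2495614299) (nat_lit 19) (nat_lit 5) (nat_lit 21) (nat_lit 4) (nat_lit 19) (nat_lit 4) (nat_lit 415) (nat_lit 364) (nat_lit 241))))) (XT.nd (nat_lit 234) (nat_lit 228) (nat_lit 0) (XT.nd (nat_lit 78) (nat_lit 228) (nat_lit 0) (XT.lf (nat_lit 0) (nat_lit 241680565730) (nat_lit 152) (nat_lit 2622610116) (nat_lit 0) (nat_lit 111478183655) (nat_lit 19) (nat_lit 5) (nat_lit 21) (nat_lit 4) (nat_lit 19) (nat_lit 4) (nat_lit 416) (nat_lit 364) (nat_lit 240)) (XT.nd (nat_lit 78) (nat_lit 152) (nat_lit 0) (XT.lf (nat_lit 0) (nat_lit 216698053653) (nat_lit 76) (nat_lit 146066556025) (nat_lit 76) (nat_lit 15863482484) (nat_lit 18) (nat_lit 4) (nat_lit 19) (nat_lit 5) (nat_lit 19) (nat_lit 4) (nat_lit 417) (nat_lit 364) (nat_lit 239)) (XT.lf (nat_lit 0) (nat_lit 50564296626) (nat_lit 76)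 (nat_lit 37615220648) (nat_lit 152) (nat_lit 315010871022) (nat_lit 16) (nat_lit 5) (nat_lit 17) (nat_lit 5) (nat_lit 18) (nat_lit 4) (nat_lit 418) (nat_lit 364) (nat_lit 238)))) (XT.nd (nat_lit 156) (nat_lit 152) (nat_lit 0) (XT.nd (nat_lit 78) (nat_lit 76) (nat_lit 0) (XT.lf (nat_lit 0) (nat_lit 204104843939) (nat_lit 152) (nat_lit 145293345683) (nat_lit 0) (nat_lit 80100742408) (nat_lit 16) (nat_lit 5) (nat_lit 18) (nat_lit 4) (nat_lit 16) (nat_lit 4) (nat_lit 419) (nat_lit 364) (nat_lit 237)) (XT.lf (nat_lit 0) (nat_lit 80568390825) (nat_lit 76) (nat_lit 250626918583) (nat_lit 76) (nat_lit 126622294283) (nat_lit 15) (nat_lit 4) (nat_lit 16) (nat_lit 5) (nat_lit 16) (nat_lit 4) (nat_lit 420) (nat_lit 364) (nat_lit 236))) (XT.nd (nat_lit 78) (nat_lit 152) (nat_lit 0) (XT.lf (nat_lit 0) (nat_lit 329685474771) (nat_lit 76) (nat_lit 141297453456) (nat_lit 76) (nat_lit 17292345110) (nat_lit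 15) (nat_lit 4) (nat_lit 16) (nat_lit 5) (nat_lit 16) (nat_lit 4) (nat_lit 421) (nat_lit 364) (nat_lit 235)) (XT.lf (nat_lit 0) (nat_lit 78499466103) (nat_lit 76) (nat_lit 20283471769) (nat_lit 152) (nat_lit 422246709936) (nat_lit 13) (nat_lit 5) (nat_lit 14) (nat_lit 5) (nat_lit 15) (nat_lit 4) (nat_lit 422) (nat_lit 364) (nat_lit 234))))))) (XT.nd (nat_lit 48594) (nat_lit 0) (nat_lit 6536) (XT.nd (nat_lit 468) (nat_lit 228) (nat_lit 0) (XT.nd (nat_lit 234) (nat_lit 152) (nat_lit 0) (XT.nd (nat_lit 78) (nat_lit 76) (nat_lit 0) (XT.lf (nat_lit 0) (nat_lit 228077244732) (nat_lit 152) (nat_lit 218109691990) (nat_lit 0) (nat_lit 109976319468) (nat_lit 13) (nat_lit 5) (nat_lit 15) (nat_lit 4) (nat_lit 13) (nat_lit 4) (nat_lit 423) (nat_lit 364) (nat_lit 233)) (XT.nd (nat_lit 78) (nat_lit 0) (nat_lit 0) (XT.lf (nat_lit 0) (nat_lit 24711676297) (nat_lit 76) (nat_lit 343730409365) (nat_lit 76) (nat_lit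 225629118148) (nat_lit 12) (nat_lit 4) (nat_lit 13) (nat_lit 5) (nat_lit 13) (nat_lit 4) (nat_lit 424) (nat_lit 364) (nat_lit 232)) (XT.lf (nat_lit 0) (nat_lit 294745781275) (nat_lit 76) (nat_lit 229088854975) (nat_lit 76) (nat_lit 110987224913) (nat_lit 12) (nat_lit 4) (nat_lit 13) (nat_lit 5) (nat_lit 13) (nat_lit 4) (nat_lit 425) (nat_lit 364) (nat_lit 231)))) (XT.nd (nat_lit 78) (nat_lit 76) (nat_lit 0) (XT.lf (nat_lit 0) (nat_lit 12414746846) (nat_lit 152) (nat_lit 92651712772) (nat_lit 76) (nat_lit 573756137024) (nat_lit 11) (nat_lit 5) (nat_lit 13) (nat_lit 5) (nat_lit 12) (nat_lit 4) (nat_lit 426) (nat_lit 364) (nat_lit 230)) (XT.nd (nat_lit 78) (nat_lit 0) (nat_lit 0) (XT.lf (nat_lit 0) (nat_lit 145164281594) (nat_lit 152) (nat_lit 548233980217) (nat_lit 0) (nat_lit 32685963199) (nat_lit 10) (nat_lit 5) (nat_lit 12) (nat_lit 4) (nat_lit 10) (nat_lit 4) (nat_lit 427) (nat_lit 364)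 (nat_lit 229)) (XT.lf (nat_lit 0) (nat_lit 291945099630) (nat_lit 152) (nat_lit 305544592965) (nat_lit 0) (nat_lit 179466525057) (nat_lit 10) (nat_lit 5) (nat_lit 12) (nat_lit 4) (nat_lit 10) (nat_lit 4) (nat_lit 428) (nat_lit 364) (nat_lit 228))))) (XT.nd (nat_lit 234) (nat_lit 152) (nat_lit 0) (XT.nd (nat_lit 78) (nat_lit 76) (nat_lit 0) (XT.lf (nat_lit 0) (nat_lit 450467750789) (nat_lit 152) (nat_lit 43441311545) (nat_lit 0) (nat_lit 337988939015) (nat_lit 10) (nat_lit 5) (nat_lit 12) (nat_lit 4) (nat_lit 10) (nat_lit 4) (nat_lit 429) (nat_lit 364) (nat_lit 227)) (XT.nd (nat_lit 78) (nat_lit 0) (nat_lit 0) (XT.lf (nat_lit 0) (nat_lit 247552287877) (nat_lit 76) (nat_lit 377984325661) (nat_lit 76) (nat_lit 265505294255) (nat_lit 9) (nat_lit 4) (nat_lit 10) (nat_lit 5) (nat_lit 10) (nat_lit 4) (nat_lit 430) (nat_lit 364) (nat_lit 226)) (XT.lf (nat_lit 0) (nat_lit 563375537334) (nat_lit 76)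 (nat_lit 251991608102) (nat_lit 76) (nat_lit 139512373334) (nat_lit 9) (nat_lit 4) (nat_lit 10) (nat_lit 5) (nat_lit 10) (nat_lit 4) (nat_lit 431) (nat_lit 364) (nat_lit 225)))) (XT.nd (nat_lit 156) (nat_lit 0) (nat_lit 0) (XT.nd (nat_lit 78) (nat_lit 152) (nat_lit 0) (XT.lf (nat_lit 0) (nat_lit 904463616061) (nat_lit 76) (nat_lit 115919985778) (nat_lit 76) (nat_lit 3440562712) (nat_lit 9) (nat_lit 4) (nat_lit 10) (nat_lit 5) (nat_lit 10) (nat_lit 4) (nat_lit 432) (nat_lit 364) (nat_lit 224)) (XT.lf (nat_lit 0) (nat_lit 142269168844) (nat_lit 152) (nat_lit 920590154507) (nat_lit 0) (nat_lit 35145742733) (nat_lit 7) (nat_lit 5) (nat_lit 9) (nat_lit 4) (nat_lit 7) (nat_lit 4) (nat_lit 433) (nat_lit 364) (nat_lit 223))) (XT.nd (nat_lit 78) (nat_lit 0) (nat_lit 0) (XT.lf (nat_lit 0) (nat_lit 303584168157) (nat_lit 152) (nat_lit 677869411681) (nat_lit 0) (nat_lit 196460588298) (nat_lit 7) (nat_lit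 5) (nat_lit 9) (nat_lit 4) (nat_lit 7) (nat_lit 4) (nat_lit 434) (nat_lit 364) (nat_lit 222)) (XT.lf (nat_lit 0) (nat_lit 477803929309) (nat_lit 152) (nat_lit 415731883873) (nat_lit 0) (nat_lit 370680207091) (nat_lit 7) (nat_lit 5) (nat_lit 9) (nat_lit 4) (nat_lit 7) (nat_lit 4) (nat_lit 435) (nat_lit 364) (nat_lit 221)))))) (XT.nd (nat_lit 468) (nat_lit 1900) (nat_lit 0) (XT.nd (nat_lit 234) (nat_lit 0) (nat_lit 152) (XT.nd (nat_lit 78) (nat_lit 0) (nat_lit 76) (XT.lf (nat_lit 0) (nat_lit 3336672724) (nat_lit 836) (nat_lit 5308822365) (nat_lit 836) (nat_lit 5308822365) (nat_lit 118) (nat_lit 3) (nat_lit 129) (nat_lit 3) (nat_lit 129) (nat_lit 5) (nat_lit 365) (nat_lit 365) (nat_lit 290)) (XT.nd (nat_lit 78) (nat_lit 0) (nat_lit 0) (XT.lf (nat_lit 0) (nat_lit 7313701300) (nat_lit 760) (nat_lit 17631906038) (nat_lit 836) (nat_lit 4060631162) (nat_lit 119) (nat_lit 5) (nat_lit 129) (nat_lit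 5) (nat_lit 130) (nat_lit 5) (nat_lit 366) (nat_lit 365) (nat_lit 289)) (XT.lf (nat_lit 76) (nat_lit 5186042485) (nat_lit 0) (nat_lit 3366805363) (nat_lit 836) (nat_lit 21611431492) (nat_lit 120) (nat_lit 5) (nat_lit 119) (nat_lit 5) (nat_lit 130) (nat_lit 5) (nat_lit 367) (nat_lit 365) (nat_lit 288)))) (XT.nd (nat_lit 78) (nat_lit 0) (nat_lit 76) (XT.lf (nat_lit 0) (nat_lit 10502557728) (nat_lit 760) (nat_lit 1264996193) (nat_lit 836) (nat_lit 19616844497) (nat_lit 120) (nat_lit 5) (nat_lit 130) (nat_lit 5) (nat_lit 131) (nat_lit 5) (nat_lit 368) (nat_lit 365) (nat_lit 287)) (XT.nd (nat_lit 78) (nat_lit 0) (nat_lit 76) (XT.lf (nat_lit 0) (nat_lit 13233455321) (nat_lit 760) (nat_lit 7784366306) (nat_lit 836) (nat_lit 11653050911) (nat_lit 121) (nat_lit 5) (nat_lit 131) (nat_lit 5) (nat_lit 132) (nat_lit 5) (nat_lit 369) (nat_lit 365) (nat_lit 286)) (XT.lf (nat_lit 0) (nat_lit 16742546163)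 (nat_lit 760) (nat_lit 14543961789) (nat_lit 836) (nat_lit 2745776181) (nat_lit 122) (nat_lit 5) (nat_lit 132) (nat_lit 5) (nat_lit 133) (nat_lit 5) (nat_lit 370) (nat_lit 365) (nat_lit 285))))) (XT.nd (nat_lit 234) (nat_lit 1140) (nat_lit 0) (XT.nd (nat_lit 78) (nat_lit 1064) (nat_lit 0) (XT.lf (nat_lit 76) (nat_lit 13802150186) (nat_lit 0) (nat_lit 7428235583) (nat_lit 836) (nat_lit 14237327011) (nat_lit 123) (nat_lit 5) (nat_lit 122) (nat_lit 5) (nat_lit 133) (nat_lit 5) (nat_lit 371) (nat_lit 365) (nat_lit 284)) (XT.nd (nat_lit 78) (nat_lit 380) (nat_lit 0) (XT.lf (nat_lit 0) (nat_lit 7883766799) (nat_lit 760) (nat_lit 18851324347) (nat_lit 836) (nat_lit 10249997456) (nat_lit 113) (nat_lit 5) (nat_lit 123) (nat_lit 5) (nat_lit 124) (nat_lit 5) (nat_lit 372) (nat_lit 365) (nat_lit 283)) (XT.lf (nat_lit 0) (nat_lit 1777855683) (nat_lit 380) (nat_lit 31535560663) (nat_lit 456) (nat_lit 5278780433)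 (nat_lit 108) (nat_lit 5) (nat_lit 113) (nat_lit 5) (nat_lit 114) (nat_lit 5) (nat_lit 373) (nat_lit 365) (nat_lit 282)))) (XT.nd (nat_lit 156) (nat_lit 684) (nat_lit 0) (XT.nd (nat_lit 78) (nat_lit 380) (nat_lit 0) (XT.lf (nat_lit 0) (nat_lit 912221643) (nat_lit 456) (nat_lit 4471648273) (nat_lit 76) (nat_lit 34902688636) (nat_lit 107) (nat_lit 5) (nat_lit 113) (nat_lit 5) (nat_lit 108) (nat_lit 5) (nat_lit 374) (nat_lit 365) (nat_lit 281)) (XT.lf (nat_lit 0) (nat_lit 8264608690) (nat_lit 456) (nat_lit 11088457563) (nat_lit 76) (nat_lit 22716527407) (nat_lit 102) (nat_lit 5) (nat_lit 108) (nat_lit 5) (nat_lit 103) (nat_lit 5) (nat_lit 375) (nat_lit 365) (nat_lit 280))) (XT.nd (nat_lit 78) (nat_lit 304) (nat_lit 0) (XT.lf (nat_lit 0) (nat_lit 16923504093) (nat_lit 456) (nat_lit 17936782480) (nat_lit 76) (nat_lit 9099072502) (nat_lit 97) (nat_lit 5) (nat_lit 103) (nat_lit 5) (nat_lit 98) (nat_lit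 5) (nat_lit 376) (nat_lit 365) (nat_lit 279)) (XT.lf (nat_lit 0) (nat_lit 20837720397) (nat_lit 304) (nat_lit 6278693140) (nat_lit 380) (nat_lit 18841830188) (nat_lit 93) (nat_lit 5) (nat_lit 97) (nat_lit 5) (nat_lit 98) (nat_lit 5) (nat_lit 377) (nat_lit 365) (nat_lit 278))))))))
noncomputable def xc87 : XT := (XT.nd (nat_lit 2028) (nat_lit 1672) (nat_lit 0) (XT.nd (nat_lit 1014) (nat_lit 1900) (nat_lit 0) (XT.nd (nat_lit 468) (nat_lit 1292) (nat_lit 0) (XT.nd (nat_lit 234) (nat_lit 532) (nat_lit 0) (XT.nd (nat_lit 78) (nat_lit 608) (nat_lit 0) (XT.lf (nat_lit 0) (nat_lit 15347973191) (nat_lit 304) (nat_lit 23711573712) (nat_lit 380) (nat_lit 9010755574) (nat_lit 89) (nat_lit 5) (nat_lit 93) (nat_lit 5) (nat_lit 94) (nat_lit 5) (nat_lit 378) (nat_lit 365) (nat_lit 277)) (XT.nd (nat_lit 78) (nat_lit 304) (nat_lit 0) (XT.lf (nat_lit 0) (nat_lit 2370452784) (nat_lit 304) (nat_lit 40643517995)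 (nat_lit 76) (nat_lit 7295349584) (nat_lit 85) (nat_lit 5) (nat_lit 89) (nat_lit 5) (nat_lit 86) (nat_lit 5) (nat_lit 379) (nat_lit 365) (nat_lit 276)) (XT.lf (nat_lit 0) (nat_lit 3456731136) (nat_lit 304) (nat_lit 11921349827) (nat_lit 380) (nat_lit 37290414404) (nat_lit 81) (nat_lit 5) (nat_lit 85) (nat_lit 5) (nat_lit 86) (nat_lit 5) (nat_lit 380) (nat_lit 365) (nat_lit 275)))) (XT.nd (nat_lit 78) (nat_lit 532) (nat_lit 0) (XT.lf (nat_lit 0) (nat_lit 30478612928) (nat_lit 380) (nat_lit 3001659122) (nat_lit 76) (nat_lit 21683519830) (nat_lit 81) (nat_lit 5) (nat_lit 86) (nat_lit 5) (nat_lit 82) (nat_lit 5) (nat_lit 381) (nat_lit 365) (nat_lit 274)) (XT.nd (nat_lit 78) (nat_lit 304) (nat_lit 0) (XT.lf (nat_lit 0) (nat_lit 47744230844) (nat_lit 304) (nat_lit 9577598713) (nat_lit 76) (nat_lit 489032408) (nat_lit 78) (nat_lit 5) (nat_lit 82) (nat_lit 5) (nat_lit 79) (nat_lit 5) (nat_lit 382)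 (nat_lit 365) (nat_lit 273)) (XT.lf (nat_lit 0) (nat_lit 6856866310) (nat_lit 304) (nat_lit 16877291793) (nat_lit 76) (nat_lit 36865145669) (nat_lit 74) (nat_lit 5) (nat_lit 78) (nat_lit 5) (nat_lit 75) (nat_lit 5) (nat_lit 383) (nat_lit 365) (nat_lit 272))))) (XT.nd (nat_lit 234) (nat_lit 608) (nat_lit 0) (XT.nd (nat_lit 78) (nat_lit 456) (nat_lit 0) (XT.lf (nat_lit 0) (nat_lit 25772979413) (nat_lit 304) (nat_lit 24677398653) (nat_lit 76) (nat_lit 13102622090) (nat_lit 71) (nat_lit 5) (nat_lit 75) (nat_lit 5) (nat_lit 72) (nat_lit 5) (nat_lit 384) (nat_lit 365) (nat_lit 271)) (XT.nd (nat_lit 78) (nat_lit 228) (nat_lit 0) (XT.lf (nat_lit 0) (nat_lit 33627980616) (nat_lit 228) (nat_lit 13794037937) (nat_lit 304) (nat_lit 19259993378) (nat_lit 68) (nat_lit 5) (nat_lit 71) (nat_lit 5) (nat_lit 72) (nat_lit 5) (nat_lit 385) (nat_lit 365) (nat_lit 270)) (XT.lf (nat_lit 0) (nat_lit 2010032269)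 (nat_lit 228) (nat_lit 42113632684) (nat_lit 76) (nat_lit 25872495438) (nat_lit 65) (nat_lit 5) (nat_lit 68) (nat_lit 5) (nat_lit 66) (nat_lit 5) (nat_lit 386) (nat_lit 365) (nat_lit 269)))) (XT.nd (nat_lit 156) (nat_lit 228) (nat_lit 0) (XT.nd (nat_lit 78) (nat_lit 152) (nat_lit 0) (XT.lf (nat_lit 0) (nat_lit 21440982447) (nat_lit 228) (nat_lit 4023435101) (nat_lit 304) (nat_lit 48037360853) (nat_lit 62) (nat_lit 5) (nat_lit 65) (nat_lit 5) (nat_lit 66) (nat_lit 5) (nat_lit 387) (nat_lit 365) (nat_lit 268)) (XT.lf (nat_lit 0) (nat_lit 14154243308) (nat_lit 152) (nat_lit 38216985225) (nat_lit 228) (nat_lit 24837814730) (nat_lit 60) (nat_lit 5) (nat_lit 62) (nat_lit 5) (nat_lit 63) (nat_lit 5) (nat_lit 388) (nat_lit 365) (nat_lit 267))) (XT.nd (nat_lit 78) (nat_lit 0) (nat_lit 0) (XT.lf (nat_lit 0) (nat_lit 1378428778) (nat_lit 228) (nat_lit 74766027108) (nat_lit 76) (nat_lit 5009879443) (nat_lit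 57) (nat_lit 5) (nat_lit 60) (nat_lit 5) (nat_lit 58) (nat_lit 5) (nat_lit 389) (nat_lit 365) (nat_lit 266)) (XT.lf (nat_lit 0) (nat_lit 30590611156) (nat_lit 228) (nat_lit 2808847569) (nat_lit 76) (nat_lit 51906992341) (nat_lit 57) (nat_lit 5) (nat_lit 60) (nat_lit 5) (nat_lit 58) (nat_lit 5) (nat_lit 390) (nat_lit 365) (nat_lit 265)))))) (XT.nd (nat_lit 468) (nat_lit 912) (nat_lit 0) (XT.nd (nat_lit 234) (nat_lit 456) (nat_lit 0) (XT.nd (nat_lit 78) (nat_lit 380) (nat_lit 0) (XT.lf (nat_lit 0) (nat_lit 63563575510) (nat_lit 228) (nat_lit 12573539677) (nat_lit 76) (nat_lit 13582431381) (nat_lit 55) (nat_lit 5) (nat_lit 58) (nat_lit 5) (nat_lit 56) (nat_lit 5) (nat_lit 391) (nat_lit 365) (nat_lit 264)) (XT.nd (nat_lit 78) (nat_lit 152) (nat_lit 0) (XT.lf (nat_lit 0) (nat_lit 6282023702) (nat_lit 228) (nat_lit 23689792625) (nat_lit 76) (nat_lit 64423043792) (nat_lit 52) (nat_lit 5) (nat_lit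 55) (nat_lit 5) (nat_lit 53) (nat_lit 5) (nat_lit 392) (nat_lit 365) (nat_lit 263)) (XT.lf (nat_lit 0) (nat_lit 41955273497) (nat_lit 228) (nat_lit 36463454993) (nat_lit 76) (nat_lit 20926201994) (nat_lit 50) (nat_lit 5) (nat_lit 53) (nat_lit 5) (nat_lit 51) (nat_lit 5) (nat_lit 393) (nat_lit 365) (nat_lit 262)))) (XT.nd (nat_lit 78) (nat_lit 304) (nat_lit 0) (XT.lf (nat_lit 0) (nat_lit 53757406365) (nat_lit 152) (nat_lit 28486126116) (nat_lit 228) (nat_lit 22359417198) (nat_lit 48) (nat_lit 5) (nat_lit 50) (nat_lit 5) (nat_lit 51) (nat_lit 5) (nat_lit 394) (nat_lit 365) (nat_lit 261)) (XT.nd (nat_lit 78) (nat_lit 152) (nat_lit 0) (XT.lf (nat_lit 0) (nat_lit 16720820522) (nat_lit 152) (nat_lit 67246666747) (nat_lit 76) (nat_lit 26214903734) (nat_lit 46) (nat_lit 5) (nat_lit 48) (nat_lit 5) (nat_lit 47) (nat_lit 5) (nat_lit 395) (nat_lit 365) (nat_lit 260)) (XT.lf (nat_lit 0) (nat_lit 29953275985)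 (nat_lit 152) (nat_lit 30046752544) (nat_lit 228) (nat_lit 56097036436) (nat_lit 44) (nat_lit 5) (nat_lit 46) (nat_lit 5) (nat_lit 47) (nat_lit 5) (nat_lit 396) (nat_lit 365) (nat_lit 259))))) (XT.nd (nat_lit 234) (nat_lit 608) (nat_lit 0) (XT.nd (nat_lit 78) (nat_lit 228) (nat_lit 0) (XT.lf (nat_lit 0) (nat_lit 14917688363) (nat_lit 76) (nat_lit 93684822394) (nat_lit 152) (nat_lit 13789355707) (nat_lit 43) (nat_lit 5) (nat_lit 44) (nat_lit 5) (nat_lit 45) (nat_lit 4) (nat_lit 397) (nat_lit 365) (nat_lit 258)) (XT.nd (nat_lit 78) (nat_lit 152) (nat_lit 0) (XT.lf (nat_lit 0) (nat_lit 32911088313) (nat_lit 152) (nat_lit 3008897894) (nat_lit 76) (nat_lit 93143899496) (nat_lit 42) (nat_lit 5) (nat_lit 44) (nat_lit 5) (nat_lit 43) (nat_lit 5) (nat_lit 398) (nat_lit 365) (nat_lit 257)) (XT.lf (nat_lit 0) (nat_lit 85081868556) (nat_lit 228) (nat_lit 23415808542) (nat_lit 76) (nat_lit 27649816413)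 (nat_lit 40) (nat_lit 5) (nat_lit 43) (nat_lit 5) (nat_lit 41) (nat_lit 4) (nat_lit 399) (nat_lit 365) (nat_lit 256)))) (XT.nd (nat_lit 156) (nat_lit 304) (nat_lit 0) (XT.nd (nat_lit 78) (nat_lit 228) (nat_lit 0) (XT.lf (nat_lit 0) (nat_lit 96522427280) (nat_lit 76) (nat_lit 47067523779) (nat_lit 152) (nat_lit 99657268) (nat_lit 39) (nat_lit 5) (nat_lit 40) (nat_lit 5) (nat_lit 41) (nat_lit 4) (nat_lit 400) (nat_lit 365) (nat_lit 255)) (XT.lf (nat_lit 0) (nat_lit 55135736396) (nat_lit 228) (nat_lit 75390843999) (nat_lit 76) (nat_lit 21168086774) (nat_lit 36) (nat_lit 5) (nat_lit 39) (nat_lit 5) (nat_lit 37) (nat_lit 4) (nat_lit 401) (nat_lit 365) (nat_lit 254))) (XT.nd (nat_lit 78) (nat_lit 228) (nat_lit 0) (XT.lf (nat_lit 0) (nat_lit 51885709553) (nat_lit 76) (nat_lit 65337478181) (nat_lit 152) (nat_lit 42995025721) (nat_lit 35) (nat_lit 5) (nat_lit 36) (nat_lit 5) (nat_lit 37) (nat_lit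 4) (nat_lit 402) (nat_lit 365) (nat_lit 253)) (XT.lf (nat_lit 0) (nat_lit 16183604982) (nat_lit 228) (nat_lit 146275367300) (nat_lit 76) (nat_lit 6862824126) (nat_lit 32) (nat_lit 5) (nat_lit 35) (nat_lit 5) (nat_lit 33) (nat_lit 4) (nat_lit 403) (nat_lit 365) (nat_lit 252))))))) (XT.nd (nat_lit 1014) (nat_lit 684) (nat_lit 0) (XT.nd (nat_lit 468) (nat_lit 532) (nat_lit 0) (XT.nd (nat_lit 234) (nat_lit 228) (nat_lit 0) (XT.nd (nat_lit 78) (nat_lit 228) (nat_lit 0) (XT.lf (nat_lit 0) (nat_lit 81628045976) (nat_lit 228) (nat_lit 12116485558) (nat_lit 76) (nat_lit 85222000084) (nat_lit 32) (nat_lit 5) (nat_lit 35) (nat_lit 5) (nat_lit 33) (nat_lit 4) (nat_lit 404) (nat_lit 365) (nat_lit 251)) (XT.nd (nat_lit 78) (nat_lit 152) (nat_lit 0) (XT.lf (nat_lit 0) (nat_lit 137161664804) (nat_lit 76) (nat_lit 17285994853) (nat_lit 152) (nat_lit 34828205352) (nat_lit 31) (nat_lit 5) (nat_lit 32) (nat_lit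 5) (nat_lit 33) (nat_lit 4) (nat_lit 405) (nat_lit 365) (nat_lit 250)) (XT.lf (nat_lit 0) (nat_lit 34485652176) (nat_lit 152) (nat_lit 100216739470) (nat_lit 76) (nat_lit 65539599466) (nat_lit 29) (nat_lit 5) (nat_lit 31) (nat_lit 5) (nat_lit 30) (nat_lit 4) (nat_lit 406) (nat_lit 365) (nat_lit 249)))) (XT.nd (nat_lit 78) (nat_lit 152) (nat_lit 0) (XT.lf (nat_lit 0) (nat_lit 55020917422) (nat_lit 76) (nat_lit 55191240616) (nat_lit 152) (nat_lit 101740314228) (nat_lit 28) (nat_lit 5) (nat_lit 29) (nat_lit 5) (nat_lit 30) (nat_lit 4) (nat_lit 407) (nat_lit 365) (nat_lit 248)) (XT.nd (nat_lit 78) (nat_lit 76) (nat_lit 0) (XT.lf (nat_lit 0) (nat_lit 1273709752) (nat_lit 76) (nat_lit 192994615611) (nat_lit 76) (nat_lit 30217889677) (nat_lit 27) (nat_lit 4) (nat_lit 28) (nat_lit 5) (nat_lit 28) (nat_lit 4) (nat_lit 408) (nat_lit 365) (nat_lit 247)) (XT.lf (nat_lit 0) (nat_lit 49228640885) (nat_lit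 152) (nat_lit 61859383961) (nat_lit 76) (nat_lit 126712549492) (nat_lit 26) (nat_lit 5) (nat_lit 28) (nat_lit 5) (nat_lit 27) (nat_lit 4) (nat_lit 409) (nat_lit 365) (nat_lit 246))))) (XT.nd (nat_lit 234) (nat_lit 304) (nat_lit 0) (XT.nd (nat_lit 78) (nat_lit 152) (nat_lit 0) (XT.lf (nat_lit 0) (nat_lit 115589136208) (nat_lit 76) (nat_lit 20200378041) (nat_lit 152) (nat_lit 116274934113) (nat_lit 25) (nat_lit 5) (nat_lit 26) (nat_lit 5) (nat_lit 27) (nat_lit 4) (nat_lit 410) (nat_lit 365) (nat_lit 245)) (XT.nd (nat_lit 78) (nat_lit 76) (nat_lit 0) (XT.lf (nat_lit 0) (nat_lit 42138007026) (nat_lit 76) (nat_lit 190106037851) (nat_lit 76) (nat_lit 35076948194) (nat_lit 24) (nat_lit 4) (nat_lit 25) (nat_lit 5) (nat_lit 25) (nat_lit 4) (nat_lit 411) (nat_lit 365) (nat_lit 244)) (XT.lf (nat_lit 0) (nat_lit 53688283361) (nat_lit 152) (nat_lit 44969145921) (nat_lit 76) (nat_lit 184961783576) (nat_lit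 23) (nat_lit 5) (nat_lit 25) (nat_lit 5) (nat_lit 24) (nat_lit 4) (nat_lit 412) (nat_lit 365) (nat_lit 243)))) (XT.nd (nat_lit 156) (nat_lit 152) (nat_lit 0) (XT.nd (nat_lit 78) (nat_lit 76) (nat_lit 0) (XT.lf (nat_lit 0) (nat_lit 150796001912) (nat_lit 152) (nat_lit 147125679645) (nat_lit 0) (nat_lit 3147347490) (nat_lit 22) (nat_lit 5) (nat_lit 24) (nat_lit 4) (nat_lit 22) (nat_lit 4) (nat_lit 413) (nat_lit 365) (nat_lit 242)) (XT.lf (nat_lit 0) (nat_lit 50434365348) (nat_lit 76) (nat_lit 208483836676) (nat_lit 76) (nat_lit 60834335403) (nat_lit 21) (nat_lit 4) (nat_lit 22) (nat_lit 5) (nat_lit 22) (nat_lit 4) (nat_lit 414) (nat_lit 365) (nat_lit 241))) (XT.nd (nat_lit 78) (nat_lit 76) (nat_lit 0) (XT.lf (nat_lit 0) (nat_lit 37218534292) (nat_lit 152) (nat_lit 71352290096) (nat_lit 76) (nat_lit 231201806497) (nat_lit 20) (nat_lit 5) (nat_lit 22) (nat_lit 5) (nat_lit 21) (nat_lit 4) (nat_lit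 415) (nat_lit 365) (nat_lit 240)) (XT.lf (nat_lit 0) (nat_lit 143336468325) (nat_lit 152) (nat_lit 215173933255) (nat_lit 0) (nat_lit 2716457435) (nat_lit 19) (nat_lit 5) (nat_lit 21) (nat_lit 4) (nat_lit 19) (nat_lit 4) (nat_lit 416) (nat_lit 365) (nat_lit 239)))))) (XT.nd (nat_lit 546) (nat_lit 228) (nat_lit 0) (XT.nd (nat_lit 234) (nat_lit 228) (nat_lit 0) (XT.nd (nat_lit 78) (nat_lit 228) (nat_lit 0) (XT.lf (nat_lit 0) (nat_lit 261036713550) (nat_lit 152) (nat_lit 2790005683) (nat_lit 0) (nat_lit 120416062414) (nat_lit 19) (nat_lit 5) (nat_lit 21) (nat_lit 4) (nat_lit 19) (nat_lit 4) (nat_lit 417) (nat_lit 365) (nat_lit 238)) (XT.nd (nat_lit 78) (nat_lit 152) (nat_lit 0) (XT.lf (nat_lit 0) (nat_lit 234074467960) (nat_lit 76) (nat_lit 157732038868) (nat_lit 76) (nat_lit 17110794912) (nat_lit 18) (nat_lit 4) (nat_lit 19) (nat_lit 5) (nat_lit 19) (nat_lit 4) (nat_lit 418) (nat_lit 365) (nat_lit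 237)) (XT.lf (nat_lit 0) (nat_lit 54648914879) (nat_lit 76) (nat_lit 40605088897) (nat_lit 152) (nat_lit 340190608114) (nat_lit 16) (nat_lit 5) (nat_lit 17) (nat_lit 5) (nat_lit 18) (nat_lit 4) (nat_lit 419) (nat_lit 365) (nat_lit 236)))) (XT.nd (nat_lit 156) (nat_lit 152) (nat_lit 0) (XT.nd (nat_lit 78) (nat_lit 76) (nat_lit 0) (XT.lf (nat_lit 0) (nat_lit 220452145546) (nat_lit 152) (nat_lit 156879609732) (nat_lit 0) (nat_lit 86526144487) (nat_lit 16) (nat_lit 5) (nat_lit 18) (nat_lit 4) (nat_lit 16) (nat_lit 4) (nat_lit 420) (nat_lit 365) (nat_lit 235)) (XT.lf (nat_lit 0) (nat_lit 87049448874) (nat_lit 76) (nat_lit 270659553945) (nat_lit 76) (nat_lit 136733104695) (nat_lit 15) (nat_lit 4) (nat_lit 16) (nat_lit 5) (nat_lit 16) (nat_lit 4) (nat_lit 421) (nat_lit 365) (nat_lit 234))) (XT.nd (nat_lit 78) (nat_lit 152) (nat_lit 0) (XT.lf (nat_lit 0) (nat_lit 356093263478) (nat_lit 76) (nat_lit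 152585029246) (nat_lit 76) (nat_lit 18658165006) (nat_lit 15) (nat_lit 4) (nat_lit 16) (nat_lit 5) (nat_lit 16) (nat_lit 4) (nat_lit 422) (nat_lit 365) (nat_lit 233)) (XT.lf (nat_lit 0) (nat_lit 84811480835) (nat_lit 76) (nat_lit 21890338348) (nat_lit 152) (nat_lit 456009387286) (nat_lit 13) (nat_lit 5) (nat_lit 14) (nat_lit 5) (nat_lit 15) (nat_lit 4) (nat_lit 423) (nat_lit 365) (nat_lit 232))))) (XT.nd (nat_lit 234) (nat_lit 152) (nat_lit 0) (XT.nd (nat_lit 78) (nat_lit 76) (nat_lit 0) (XT.lf (nat_lit 0) (nat_lit 246338695735) (nat_lit 152) (nat_lit 235528260172) (nat_lit 0) (nat_lit 118788596421) (nat_lit 13) (nat_lit 5) (nat_lit 15) (nat_lit 4) (nat_lit 13) (nat_lit 4) (nat_lit 424) (nat_lit 365) (nat_lit 231)) (XT.nd (nat_lit 78) (nat_lit 0) (nat_lit 0) (XT.lf (nat_lit 0) (nat_lit 26717504811) (nat_lit 76) (nat_lit 371214539035) (nat_lit 76) (nat_lit 243664125975) (nat_lit 12) (nat_lit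 4) (nat_lit 13) (nat_lit 5) (nat_lit 13) (nat_lit 4) (nat_lit 425) (nat_lit 365) (nat_lit 230)) (XT.lf (nat_lit 0) (nat_lit 318352197860) (nat_lit 76) (nat_lit 247402719781) (nat_lit 76) (nat_lit 119852016216) (nat_lit 12) (nat_lit 4) (nat_lit 13) (nat_lit 5) (nat_lit 13) (nat_lit 4) (nat_lit 426) (nat_lit 365) (nat_lit 229)))) (XT.nd (nat_lit 156) (nat_lit 0) (nat_lit 0) (XT.nd (nat_lit 78) (nat_lit 76) (nat_lit 0) (XT.lf (nat_lit 0) (nat_lit 13420641990) (nat_lit 152) (nat_lit 100038656472) (nat_lit 76) (nat_lit 619668469548) (nat_lit 11) (nat_lit 5) (nat_lit 13) (nat_lit 5) (nat_lit 12) (nat_lit 4) (nat_lit 427) (nat_lit 365) (nat_lit 228)) (XT.lf (nat_lit 0) (nat_lit 156789760432) (nat_lit 152) (nat_lit 592068178697) (nat_lit 0) (nat_lit 35312406515) (nat_lit 10) (nat_lit 5) (nat_lit 12) (nat_lit 4) (nat_lit 10) (nat_lit 4) (nat_lit 428) (nat_lit 365) (nat_lit 227))) (XT.nd (nat_lit 78)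 (nat_lit 0) (nat_lit 0) (XT.lf (nat_lit 0) (nat_lit 315312130110) (nat_lit 152) (nat_lit 329965456757) (nat_lit 0) (nat_lit 193834556561) (nat_lit 10) (nat_lit 5) (nat_lit 12) (nat_lit 4) (nat_lit 10) (nat_lit 4) (nat_lit 429) (nat_lit 365) (nat_lit 226)) (XT.lf (nat_lit 0) (nat_lit 486515747250) (nat_lit 152) (nat_lit 46895594575) (nat_lit 0) (nat_lit 365037970339) (nat_lit 10) (nat_lit 5) (nat_lit 12) (nat_lit 4) (nat_lit 10) (nat_lit 4) (nat_lit 430) (nat_lit 365) (nat_lit 225))))))))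
noncomputable def xc88 : XT := (XT.nd (nat_lit 49686) (nat_lit 0) (nat_lit 1292) (XT.nd (nat_lit 48672) (nat_lit 0) (nat_lit 4636) (XT.nd (nat_lit 48126) (nat_lit 0) (nat_lit 8056) (XT.nd (nat_lit 234) (nat_lit 152) (nat_lit 0) (XT.nd (nat_lit 78) (nat_lit 0) (nat_lit 0) (XT.lf (nat_lit 0) (nat_lit 267376579215) (nat_lit 76) (nat_lit 408213070314) (nat_lit 76) (nat_lit 286735105105) (nat_lit 9) (nat_lit 4) (nat_lit 10) (nat_lit 5) (nat_lit 10) (nat_lit 4) (nat_lit 431) (nat_lit 365) (nat_lit 224)) (XT.nd (nat_lit 78) (nat_lit 0) (nat_lit 0) (XT.lf (nat_lit 0) (nat_lit 608464199125) (nat_lit 76) (nat_lit 272141676195) (nat_lit 76) (nat_lit 150663536635) (nat_lit 9) (nat_lit 4) (nat_lit 10) (nat_lit 5) (nat_lit 10) (nat_lit 4) (nat_lit 432) (nat_lit 365) (nat_lit 223)) (XT.lf (nat_lit 0) (nat_lit 976837944979) (nat_lit 76) (nat_lit 125185010052) (nat_lit 76) (nat_lit 3706709057) (nat_lit 9)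 (nat_lit 4) (nat_lit 10) (nat_lit 5) (nat_lit 10) (nat_lit 4) (nat_lit 433) (nat_lit 365) (nat_lit 222)))) (XT.nd (nat_lit 78) (nat_lit 0) (nat_lit 0) (XT.lf (nat_lit 0) (nat_lit 153659249626) (nat_lit 152) (nat_lit 994220306779) (nat_lit 0) (nat_lit 37965487272) (nat_lit 7) (nat_lit 5) (nat_lit 9) (nat_lit 4) (nat_lit 7) (nat_lit 4) (nat_lit 434) (nat_lit 365) (nat_lit 221)) (XT.nd (nat_lit 47736) (nat_lit 0) (nat_lit 8436) (XT.lf (nat_lit 0) (nat_lit 327878815753) (nat_lit 152) (nat_lit 732083168237) (nat_lit 0) (nat_lit 212184921584) (nat_lit 7) (nat_lit 5) (nat_lit 9) (nat_lit 4) (nat_lit 7) (nat_lit 4) (nat_lit 435) (nat_lit 365) (nat_lit 220)) (XT.lf (nat_lit 0) (nat_lit 3729766720) (nat_lit 836) (nat_lit 5667259559) (nat_lit 836) (nat_lit 5667259559) (nat_lit 118) (nat_lit 3) (nat_lit 129) (nat_lit 3) (nat_lit 129) (nat_lit 5) (nat_lit 366) (nat_lit 366) (nat_lit 288))))) (XT.nd (nat_lit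 234) (nat_lit 456) (nat_lit 0) (XT.nd (nat_lit 78) (nat_lit 0) (nat_lit 0) (XT.lf (nat_lit 0) (nat_lit 8132707540) (nat_lit 760) (nat_lit 18902073811) (nat_lit 836) (nat_lit 4280132937) (nat_lit 119) (nat_lit 5) (nat_lit 129) (nat_lit 5) (nat_lit 130) (nat_lit 5) (nat_lit 367) (nat_lit 366) (nat_lit 287)) (XT.nd (nat_lit 78) (nat_lit 0) (nat_lit 76) (XT.lf (nat_lit 76) (nat_lit 5735209645) (nat_lit 0) (nat_lit 3720546037) (nat_lit 836) (nat_lit 23110613687) (nat_lit 120) (nat_lit 5) (nat_lit 119) (nat_lit 5) (nat_lit 130) (nat_lit 5) (nat_lit 368) (nat_lit 366) (nat_lit 286)) (XT.lf (nat_lit 0) (nat_lit 11544023775) (nat_lit 760) (nat_lit 1230405386) (nat_lit 836) (nat_lit 21110548503) (nat_lit 120) (nat_lit 5) (nat_lit 130) (nat_lit 5) (nat_lit 131) (nat_lit 5) (nat_lit 369) (nat_lit 366) (nat_lit 285)))) (XT.nd (nat_lit 156) (nat_lit 608) (nat_lit 0) (XT.nd (nat_lit 78) (nat_lit 0) (nat_lit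 76) (XT.lf (nat_lit 0) (nat_lit 14479599634) (nat_lit 760) (nat_lit 8266792681) (nat_lit 836) (nat_lit 12528675193) (nat_lit 121) (nat_lit 5) (nat_lit 131) (nat_lit 5) (nat_lit 132) (nat_lit 5) (nat_lit 370) (nat_lit 366) (nat_lit 284)) (XT.lf (nat_lit 0) (nat_lit 18256979669) (nat_lit 760) (nat_lit 15563729104) (nat_lit 836) (nat_lit 2925312675) (nat_lit 122) (nat_lit 5) (nat_lit 132) (nat_lit 5) (nat_lit 133) (nat_lit 5) (nat_lit 371) (nat_lit 366) (nat_lit 283))) (XT.nd (nat_lit 78) (nat_lit 684) (nat_lit 0) (XT.lf (nat_lit 76) (nat_lit 15043824646) (nat_lit 0) (nat_lit 8049203425) (nat_lit 836) (nat_lit 15203804192) (nat_lit 123) (nat_lit 5) (nat_lit 122) (nat_lit 5) (nat_lit 133) (nat_lit 5) (nat_lit 372) (nat_lit 366) (nat_lit 282)) (XT.lf (nat_lit 0) (nat_lit 8654330719) (nat_lit 760) (nat_lit 20373412884) (nat_lit 836) (nat_lit 10908379305) (nat_lit 113) (nat_lit 5) (nat_lit 123)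 (nat_lit 5) (nat_lit 124) (nat_lit 5) (nat_lit 373) (nat_lit 366) (nat_lit 281)))))) (XT.nd (nat_lit 468) (nat_lit 1596) (nat_lit 0) (XT.nd (nat_lit 234) (nat_lit 988) (nat_lit 0) (XT.nd (nat_lit 78) (nat_lit 456) (nat_lit 0) (XT.lf (nat_lit 0) (nat_lit 2061512265) (nat_lit 380) (nat_lit 34061432568) (nat_lit 456) (nat_lit 5549330369) (nat_lit 108) (nat_lit 5) (nat_lit 113) (nat_lit 5) (nat_lit 114) (nat_lit 5) (nat_lit 374) (nat_lit 366) (nat_lit 280)) (XT.nd (nat_lit 78) (nat_lit 380) (nat_lit 0) (XT.lf (nat_lit 0) (nat_lit 1121213699) (nat_lit 456) (nat_lit 4693865167) (nat_lit 76) (nat_lit 37687537903) (nat_lit 107) (nat_lit 5) (nat_lit 113) (nat_lit 5) (nat_lit 108) (nat_lit 5) (nat_lit 375) (nat_lit 366) (nat_lit 279)) (XT.lf (nat_lit 0) (nat_lit 9053766353) (nat_lit 456) (nat_lit 11839475444) (nat_lit 76) (nat_lit 24535459027) (nat_lit 102) (nat_lit 5) (nat_lit 108) (nat_lit 5) (nat_lit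 103) (nat_lit 5) (nat_lit 376) (nat_lit 366) (nat_lit 278)))) (XT.nd (nat_lit 78) (nat_lit 608) (nat_lit 0) (XT.lf (nat_lit 0) (nat_lit 18398074634) (nat_lit 456) (nat_lit 19235645887) (nat_lit 76) (nat_lit 9836296399) (nat_lit 97) (nat_lit 5) (nat_lit 103) (nat_lit 5) (nat_lit 98) (nat_lit 5) (nat_lit 377) (nat_lit 366) (nat_lit 277)) (XT.nd (nat_lit 78) (nat_lit 304) (nat_lit 0) (XT.lf (nat_lit 0) (nat_lit 22634903385) (nat_lit 304) (nat_lit 6764605679) (nat_lit 380) (nat_lit 20229652842) (nat_lit 93) (nat_lit 5) (nat_lit 97) (nat_lit 5) (nat_lit 98) (nat_lit 5) (nat_lit 378) (nat_lit 366) (nat_lit 276)) (XT.lf (nat_lit 0) (nat_lit 16705566714) (nat_lit 304) (nat_lit 25586360743) (nat_lit 380) (nat_lit 9618570051) (nat_lit 89) (nat_lit 5) (nat_lit 93) (nat_lit 5) (nat_lit 94) (nat_lit 5) (nat_lit 379) (nat_lit 366) (nat_lit 275))))) (XT.nd (nat_lit 234) (nat_lit 988) (nat_lit 0) (XT.nd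 (nat_lit 78) (nat_lit 304) (nat_lit 0) (XT.lf (nat_lit 0) (nat_lit 2663783068) (nat_lit 304) (nat_lit 43762548984) (nat_lit 76) (nat_lit 7902506619) (nat_lit 85) (nat_lit 5) (nat_lit 89) (nat_lit 5) (nat_lit 86) (nat_lit 5) (nat_lit 380) (nat_lit 366) (nat_lit 274)) (XT.nd (nat_lit 78) (nat_lit 0) (nat_lit 0) (XT.lf (nat_lit 0) (nat_lit 3859963943) (nat_lit 304) (nat_lit 12846354571) (nat_lit 380) (nat_lit 40170717468) (nat_lit 81) (nat_lit 5) (nat_lit 85) (nat_lit 5) (nat_lit 86) (nat_lit 5) (nat_lit 381) (nat_lit 366) (nat_lit 273)) (XT.lf (nat_lit 0) (nat_lit 33008049380) (nat_lit 380) (nat_lit 3120324081) (nat_lit 76) (nat_lit 23443927860) (nat_lit 81) (nat_lit 5) (nat_lit 86) (nat_lit 5) (nat_lit 82) (nat_lit 5) (nat_lit 382) (nat_lit 366) (nat_lit 272)))) (XT.nd (nat_lit 156) (nat_lit 456) (nat_lit 0) (XT.nd (nat_lit 78) (nat_lit 304) (nat_lit 0) (XT.lf (nat_lit 0) (nat_lit 51650447162)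 (nat_lit 304) (nat_lit 10223741418) (nat_lit 76) (nat_lit 557174618) (nat_lit 78) (nat_lit 5) (nat_lit 82) (nat_lit 5) (nat_lit 79) (nat_lit 5) (nat_lit 383) (nat_lit 366) (nat_lit 271)) (XT.lf (nat_lit 0) (nat_lit 7488841382) (nat_lit 304) (nat_lit 18109839565) (nat_lit 76) (nat_lit 39844366004) (nat_lit 74) (nat_lit 5) (nat_lit 78) (nat_lit 5) (nat_lit 75) (nat_lit 5) (nat_lit 384) (nat_lit 366) (nat_lit 270))) (XT.nd (nat_lit 78) (nat_lit 228) (nat_lit 0) (XT.lf (nat_lit 0) (nat_lit 27914343998) (nat_lit 304) (nat_lit 26535612852) (nat_lit 76) (nat_lit 14183279383) (nat_lit 71) (nat_lit 5) (nat_lit 75) (nat_lit 5) (nat_lit 72) (nat_lit 5) (nat_lit 385) (nat_lit 366) (nat_lit 269)) (XT.lf (nat_lit 0) (nat_lit 36429156509) (nat_lit 228) (nat_lit 14861990972) (nat_lit 304) (nat_lit 20721631454) (nat_lit 68) (nat_lit 5) (nat_lit 71) (nat_lit 5) (nat_lit 72) (nat_lit 5) (nat_lit 386) (nat_lit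 366) (nat_lit 268))))))) (XT.nd (nat_lit 1014) (nat_lit 1368) (nat_lit 0) (XT.nd (nat_lit 468) (nat_lit 988) (nat_lit 0) (XT.nd (nat_lit 234) (nat_lit 380) (nat_lit 0) (XT.nd (nat_lit 78) (nat_lit 380) (nat_lit 0) (XT.lf (nat_lit 0) (nat_lit 2244042189) (nat_lit 228) (nat_lit 45371066084) (nat_lit 76) (nat_lit 27977062028) (nat_lit 65) (nat_lit 5) (nat_lit 68) (nat_lit 5) (nat_lit 66) (nat_lit 5) (nat_lit 387) (nat_lit 366) (nat_lit 267)) (XT.nd (nat_lit 78) (nat_lit 152) (nat_lit 0) (XT.lf (nat_lit 0) (nat_lit 23263065771) (nat_lit 228) (nat_lit 4307957274) (nat_lit 304) (nat_lit 51807404139) (nat_lit 62) (nat_lit 5) (nat_lit 65) (nat_lit 5) (nat_lit 66) (nat_lit 5) (nat_lit 388) (nat_lit 366) (nat_lit 266)) (XT.lf (nat_lit 0) (nat_lit 15391529730) (nat_lit 152) (nat_lit 41235883077) (nat_lit 228) (nat_lit 26755010281) (nat_lit 60) (nat_lit 5) (nat_lit 62) (nat_lit 5) (nat_lit 63) (nat_lit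 5) (nat_lit 389) (nat_lit 366) (nat_lit 265)))) (XT.nd (nat_lit 78) (nat_lit 152) (nat_lit 0) (XT.lf (nat_lit 0) (nat_lit 1553490471) (nat_lit 228) (nat_lit 80642140031) (nat_lit 76) (nat_lit 5447795230) (nat_lit 57) (nat_lit 5) (nat_lit 60) (nat_lit 5) (nat_lit 58) (nat_lit 5) (nat_lit 390) (nat_lit 366) (nat_lit 264)) (XT.nd (nat_lit 78) (nat_lit 152) (nat_lit 0) (XT.lf (nat_lit 0) (nat_lit 33097848374) (nat_lit 228) (nat_lit 2936176444) (nat_lit 76) (nat_lit 56093927128) (nat_lit 57) (nat_lit 5) (nat_lit 60) (nat_lit 5) (nat_lit 58) (nat_lit 5) (nat_lit 391) (nat_lit 366) (nat_lit 263)) (XT.lf (nat_lit 0) (nat_lit 68706224953) (nat_lit 228) (nat_lit 13483975689) (nat_lit 76) (nat_lit 14704016862) (nat_lit 55) (nat_lit 5) (nat_lit 58) (nat_lit 5) (nat_lit 56) (nat_lit 5) (nat_lit 392) (nat_lit 366) (nat_lit 262))))) (XT.nd (nat_lit 234) (nat_lit 456) (nat_lit 0) (XT.nd (nat_lit 78) (nat_lit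 304) (nat_lit 0) (XT.lf (nat_lit 0) (nat_lit 6840220712) (nat_lit 228) (nat_lit 25491824450) (nat_lit 76) (nat_lit 69611609119) (nat_lit 52) (nat_lit 5) (nat_lit 55) (nat_lit 5) (nat_lit 53) (nat_lit 5) (nat_lit 393) (nat_lit 366) (nat_lit 261)) (XT.nd (nat_lit 78) (nat_lit 152) (nat_lit 0) (XT.lf (nat_lit 0) (nat_lit 45365165679) (nat_lit 228) (nat_lit 39289336022) (nat_lit 76) (nat_lit 22635337769) (nat_lit 50) (nat_lit 5) (nat_lit 53) (nat_lit 5) (nat_lit 51) (nat_lit 5) (nat_lit 394) (nat_lit 366) (nat_lit 260)) (XT.lf (nat_lit 0) (nat_lit 58145231005) (nat_lit 152) (nat_lit 30728655552) (nat_lit 228) (nat_lit 24094744470) (nat_lit 48) (nat_lit 5) (nat_lit 50) (nat_lit 5) (nat_lit 51) (nat_lit 5) (nat_lit 395) (nat_lit 366) (nat_lit 259)))) (XT.nd (nat_lit 156) (nat_lit 152) (nat_lit 0) (XT.nd (nat_lit 78) (nat_lit 152) (nat_lit 0) (XT.lf (nat_lit 0) (nat_lit 18108259998) (nat_lit 152)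 (nat_lit 72539402878) (nat_lit 76) (nat_lit 28346820969) (nat_lit 46) (nat_lit 5) (nat_lit 48) (nat_lit 5) (nat_lit 47) (nat_lit 5) (nat_lit 396) (nat_lit 366) (nat_lit 258)) (XT.lf (nat_lit 0) (nat_lit 32432754479) (nat_lit 152) (nat_lit 32414662457) (nat_lit 228) (nat_lit 60535034895) (nat_lit 44) (nat_lit 5) (nat_lit 46) (nat_lit 5) (nat_lit 47) (nat_lit 5) (nat_lit 397) (nat_lit 366) (nat_lit 257))) (XT.nd (nat_lit 78) (nat_lit 76) (nat_lit 0) (XT.lf (nat_lit 0) (nat_lit 16192443236) (nat_lit 76) (nat_lit 101143932339) (nat_lit 152) (nat_lit 14844548653) (nat_lit 43) (nat_lit 5) (nat_lit 44) (nat_lit 5) (nat_lit 45) (nat_lit 4) (nat_lit 398) (nat_lit 366) (nat_lit 256)) (XT.lf (nat_lit 0) (nat_lit 35586957447) (nat_lit 152) (nat_lit 3172866543) (nat_lit 76) (nat_lit 100627016097) (nat_lit 42) (nat_lit 5) (nat_lit 44) (nat_lit 5) (nat_lit 43) (nat_lit 5) (nat_lit 399) (nat_lit 366) (nat_lit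 255)))))) (XT.nd (nat_lit 468) (nat_lit 608) (nat_lit 0) (XT.nd (nat_lit 234) (nat_lit 304) (nat_lit 0) (XT.nd (nat_lit 78) (nat_lit 304) (nat_lit 0) (XT.lf (nat_lit 0) (nat_lit 91929869208) (nat_lit 228) (nat_lit 25214118017) (nat_lit 76) (nat_lit 29893226385) (nat_lit 40) (nat_lit 5) (nat_lit 43) (nat_lit 5) (nat_lit 41) (nat_lit 4) (nat_lit 400) (nat_lit 366) (nat_lit 254)) (XT.nd (nat_lit 78) (nat_lit 228) (nat_lit 0) (XT.lf (nat_lit 0) (nat_lit 104315919208) (nat_lit 76) (nat_lit 50800728049) (nat_lit 152) (nat_lit 66148413) (nat_lit 39) (nat_lit 5) (nat_lit 40) (nat_lit 5) (nat_lit 41) (nat_lit 4) (nat_lit 401) (nat_lit 366) (nat_lit 253)) (XT.lf (nat_lit 0) (nat_lit 59585358567) (nat_lit 228) (nat_lit 81350828042) (nat_lit 76) (nat_lit 22892110200) (nat_lit 36) (nat_lit 5) (nat_lit 39) (nat_lit 5) (nat_lit 37) (nat_lit 4) (nat_lit 402) (nat_lit 366) (nat_lit 252)))) (XT.nd (nat_lit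 78) (nat_lit 228) (nat_lit 0) (XT.lf (nat_lit 0) (nat_lit 56104751901) (nat_lit 76) (nat_lit 70533247327) (nat_lit 152) (nat_lit 46395818322) (nat_lit 35) (nat_lit 5) (nat_lit 36) (nat_lit 5) (nat_lit 37) (nat_lit 4) (nat_lit 403) (nat_lit 366) (nat_lit 251)) (XT.nd (nat_lit 78) (nat_lit 0) (nat_lit 0) (XT.lf (nat_lit 0) (nat_lit 17514592509) (nat_lit 228) (nat_lit 157909663531) (nat_lit 76) (nat_lit 7441464575) (nat_lit 32) (nat_lit 5) (nat_lit 35) (nat_lit 5) (nat_lit 33) (nat_lit 4) (nat_lit 404) (nat_lit 366) (nat_lit 250)) (XT.lf (nat_lit 0) (nat_lit 88191899959) (nat_lit 228) (nat_lit 13023088520) (nat_lit 76) (nat_lit 92067180942) (nat_lit 32) (nat_lit 5) (nat_lit 35) (nat_lit 5) (nat_lit 33) (nat_lit 4) (nat_lit 405) (nat_lit 366) (nat_lit 249))))) (XT.nd (nat_lit 234) (nat_lit 304) (nat_lit 0) (XT.nd (nat_lit 78) (nat_lit 228) (nat_lit 0) (XT.lf (nat_lit 0) (nat_lit 148194588315)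 (nat_lit 76) (nat_lit 18640941384) (nat_lit 152) (nat_lit 37580797748) (nat_lit 31) (nat_lit 5) (nat_lit 32) (nat_lit 5) (nat_lit 33) (nat_lit 4) (nat_lit 406) (nat_lit 366) (nat_lit 248)) (XT.nd (nat_lit 78) (nat_lit 76) (nat_lit 0) (XT.lf (nat_lit 0) (nat_lit 37276015902) (nat_lit 152) (nat_lit 108174530280) (nat_lit 76) (nat_lit 70809225204) (nat_lit 29) (nat_lit 5) (nat_lit 31) (nat_lit 5) (nat_lit 30) (nat_lit 4) (nat_lit 407) (nat_lit 366) (nat_lit 247)) (XT.lf (nat_lit 0) (nat_lit 59479551266) (nat_lit 76) (nat_lit 59579646091) (nat_lit 152) (nat_lit 109847966174) (nat_lit 28) (nat_lit 5) (nat_lit 29) (nat_lit 5) (nat_lit 30) (nat_lit 4) (nat_lit 408) (nat_lit 366) (nat_lit 246)))) (XT.nd (nat_lit 156) (nat_lit 152) (nat_lit 0) (XT.nd (nat_lit 78) (nat_lit 76) (nat_lit 0) (XT.lf (nat_lit 0) (nat_lit 1431130958) (nat_lit 76) (nat_lit 208407755624) (nat_lit 76) (nat_lit 32604767954)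 (nat_lit 27) (nat_lit 4) (nat_lit 28) (nat_lit 5) (nat_lit 28) (nat_lit 4) (nat_lit 409) (nat_lit 366) (nat_lit 245)) (XT.lf (nat_lit 0) (nat_lit 53194316428) (nat_lit 152) (nat_lit 66755815126) (nat_lit 76) (nat_lit 136873116918) (nat_lit 26) (nat_lit 5) (nat_lit 28) (nat_lit 5) (nat_lit 27) (nat_lit 4) (nat_lit 410) (nat_lit 366) (nat_lit 244))) (XT.nd (nat_lit 78) (nat_lit 76) (nat_lit 0) (XT.lf (nat_lit 0) (nat_lit 124886312914) (nat_lit 76) (nat_lit 21792499638) (nat_lit 152) (nat_lit 125549482413) (nat_lit 25) (nat_lit 5) (nat_lit 26) (nat_lit 5) (nat_lit 27) (nat_lit 4) (nat_lit 411) (nat_lit 366) (nat_lit 243)) (XT.lf (nat_lit 0) (nat_lit 45557813774) (nat_lit 76) (nat_lit 205291062776) (nat_lit 76) (nat_lit 37856528332) (nat_lit 24) (nat_lit 4) (nat_lit 25) (nat_lit 5) (nat_lit 25) (nat_lit 4) (nat_lit 412) (nat_lit 366) (nat_lit 242))))))))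
noncomputable def xc89 : XT := (XT.nd (nat_lit 49764) (nat_lit 0) (nat_lit 3116) (XT.nd (nat_lit 1014) (nat_lit 456) (nat_lit 0) (XT.nd (nat_lit 468) (nat_lit 456) (nat_lit 0) (XT.nd (nat_lit 234) (nat_lit 152) (nat_lit 0) (XT.nd (nat_lit 78) (nat_lit 152) (nat_lit 0) (XT.lf (nat_lit 0) (nat_lit 58007165594) (nat_lit 152) (nat_lit 48520734170) (nat_lit 76) (nat_lit 199779657179) (nat_lit 23) (nat_lit 5) (nat_lit 25) (nat_lit 5) (nat_lit 24) (nat_lit 4) (nat_lit 413) (nat_lit 366) (nat_lit 241)) (XT.nd (nat_lit 78) (nat_lit 76) (nat_lit 0) (XT.lf (nat_lit 0) (nat_lit 162882754426) (nat_lit 152) (nat_lit 158850979430) (nat_lit 0) (nat_lit 3419662077) (nat_lit 22) (nat_lit 5) (nat_lit 24) (nat_lit 4) (nat_lit 22) (nat_lit 4) (nat_lit 414) (nat_lit 366) (nat_lit 240)) (XT.lf (nat_lit 0) (nat_lit 54511924183) (nat_lit 76) (nat_lit 225141765679) (nat_lit 76) (nat_lit 65677947291) (nat_lit 21) (nat_lit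 4) (nat_lit 22) (nat_lit 5) (nat_lit 22) (nat_lit 4) (nat_lit 415) (nat_lit 366) (nat_lit 239)))) (XT.nd (nat_lit 78) (nat_lit 76) (nat_lit 0) (XT.lf (nat_lit 0) (nat_lit 40216752666) (nat_lit 152) (nat_lit 77020147679) (nat_lit 76) (nat_lit 249716502743) (nat_lit 20) (nat_lit 5) (nat_lit 22) (nat_lit 5) (nat_lit 21) (nat_lit 4) (nat_lit 416) (nat_lit 366) (nat_lit 238)) (XT.nd (nat_lit 78) (nat_lit 0) (nat_lit 0) (XT.lf (nat_lit 0) (nat_lit 154823480755) (nat_lit 152) (nat_lit 232348576394) (nat_lit 0) (nat_lit 2951944462) (nat_lit 19) (nat_lit 5) (nat_lit 21) (nat_lit 4) (nat_lit 19) (nat_lit 4) (nat_lit 417) (nat_lit 366) (nat_lit 237)) (XT.lf (nat_lit 0) (nat_lit 281938257083) (nat_lit 152) (nat_lit 2976843618) (nat_lit 0) (nat_lit 130066171882) (nat_lit 19) (nat_lit 5) (nat_lit 21) (nat_lit 4) (nat_lit 19) (nat_lit 4) (nat_lit 418) (nat_lit 366) (nat_lit 236))))) (XT.nd (nat_lit 234)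 (nat_lit 228) (nat_lit 0) (XT.nd (nat_lit 78) (nat_lit 152) (nat_lit 0) (XT.lf (nat_lit 0) (nat_lit 252835207646) (nat_lit 76) (nat_lit 170333590970) (nat_lit 76) (nat_lit 18460997521) (nat_lit 18) (nat_lit 4) (nat_lit 19) (nat_lit 5) (nat_lit 19) (nat_lit 4) (nat_lit 419) (nat_lit 366) (nat_lit 235)) (XT.nd (nat_lit 78) (nat_lit 0) (nat_lit 0) (XT.lf (nat_lit 0) (nat_lit 59054671111) (nat_lit 76) (nat_lit 43836907015) (nat_lit 152) (nat_lit 367387738973) (nat_lit 16) (nat_lit 5) (nat_lit 17) (nat_lit 5) (nat_lit 18) (nat_lit 4) (nat_lit 420) (nat_lit 366) (nat_lit 234)) (XT.lf (nat_lit 0) (nat_lit 238104532974) (nat_lit 152) (nat_lit 169398082415) (nat_lit 0) (nat_lit 93463104604) (nat_lit 16) (nat_lit 5) (nat_lit 18) (nat_lit 4) (nat_lit 16) (nat_lit 4) (nat_lit 421) (nat_lit 366) (nat_lit 233)))) (XT.nd (nat_lit 156) (nat_lit 152) (nat_lit 0) (XT.nd (nat_lit 78) (nat_lit 0) (nat_lit 0)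 (XT.lf (nat_lit 0) (nat_lit 94043914713) (nat_lit 76) (nat_lit 292297299292) (nat_lit 76) (nat_lit 147655486670) (nat_lit 15) (nat_lit 4) (nat_lit 16) (nat_lit 5) (nat_lit 16) (nat_lit 4) (nat_lit 422) (nat_lit 366) (nat_lit 232)) (XT.lf (nat_lit 0) (nat_lit 384608974491) (nat_lit 76) (nat_lit 164777925133) (nat_lit 76) (nat_lit 20135756724) (nat_lit 15) (nat_lit 4) (nat_lit 16) (nat_lit 5) (nat_lit 16) (nat_lit 4) (nat_lit 423) (nat_lit 366) (nat_lit 231))) (XT.nd (nat_lit 78) (nat_lit 0) (nat_lit 0) (XT.lf (nat_lit 0) (nat_lit 91623883393) (nat_lit 76) (nat_lit 23628009892) (nat_lit 152) (nat_lit 492475512545) (nat_lit 13) (nat_lit 5) (nat_lit 14) (nat_lit 5) (nat_lit 15) (nat_lit 4) (nat_lit 424) (nat_lit 366) (nat_lit 230)) (XT.lf (nat_lit 0) (nat_lit 266058884178) (nat_lit 152) (nat_lit 254344623200) (nat_lit 0) (nat_lit 128303833822) (nat_lit 13) (nat_lit 5) (nat_lit 15) (nat_lit 4)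 (nat_lit 13) (nat_lit 4) (nat_lit 425) (nat_lit 366) (nat_lit 229)))))) (XT.nd (nat_lit 468) (nat_lit 228) (nat_lit 0) (XT.nd (nat_lit 234) (nat_lit 76) (nat_lit 0) (XT.nd (nat_lit 78) (nat_lit 76) (nat_lit 0) (XT.lf (nat_lit 0) (nat_lit 28879677495) (nat_lit 76) (nat_lit 400899439572) (nat_lit 76) (nat_lit 263144120229) (nat_lit 12) (nat_lit 4) (nat_lit 13) (nat_lit 5) (nat_lit 13) (nat_lit 4) (nat_lit 426) (nat_lit 366) (nat_lit 228)) (XT.nd (nat_lit 78) (nat_lit 76) (nat_lit 0) (XT.lf (nat_lit 0) (nat_lit 343843311003) (nat_lit 76) (nat_lit 267183583118) (nat_lit 76) (nat_lit 129428014713) (nat_lit 12) (nat_lit 4) (nat_lit 13) (nat_lit 5) (nat_lit 13) (nat_lit 4) (nat_lit 427) (nat_lit 366) (nat_lit 227)) (XT.lf (nat_lit 0) (nat_lit 14505194751) (nat_lit 152) (nat_lit 108020149776) (nat_lit 76) (nat_lit 669252099343) (nat_lit 11) (nat_lit 5) (nat_lit 13) (nat_lit 5) (nat_lit 12) (nat_lit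 4) (nat_lit 428) (nat_lit 366) (nat_lit 226)))) (XT.nd (nat_lit 78) (nat_lit 0) (nat_lit 0) (XT.lf (nat_lit 0) (nat_lit 169343517665) (nat_lit 152) (nat_lit 639412611099) (nat_lit 0) (nat_lit 38147315239) (nat_lit 10) (nat_lit 5) (nat_lit 12) (nat_lit 4) (nat_lit 10) (nat_lit 4) (nat_lit 429) (nat_lit 366) (nat_lit 225)) (XT.nd (nat_lit 78) (nat_lit 0) (nat_lit 0) (XT.lf (nat_lit 0) (nat_lit 340546893481) (nat_lit 152) (nat_lit 356343228580) (nat_lit 0) (nat_lit 209350502756) (nat_lit 10) (nat_lit 5) (nat_lit 12) (nat_lit 4) (nat_lit 10) (nat_lit 4) (nat_lit 430) (nat_lit 366) (nat_lit 224)) (XT.lf (nat_lit 0) (nat_lit 525446074587) (nat_lit 152) (nat_lit 50629219255) (nat_lit 0) (nat_lit 394249509513) (nat_lit 10) (nat_lit 5) (nat_lit 12) (nat_lit 4) (nat_lit 10) (nat_lit 4) (nat_lit 431) (nat_lit 366) (nat_lit 223))))) (XT.nd (nat_lit 234) (nat_lit 152) (nat_lit 0) (XT.nd (nat_lit 78) (nat_lit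 0) (nat_lit 0) (XT.lf (nat_lit 0) (nat_lit 288783945186) (nat_lit 76) (nat_lit 440861541351) (nat_lit 76) (nat_lit 309664814841) (nat_lit 9) (nat_lit 4) (nat_lit 10) (nat_lit 5) (nat_lit 10) (nat_lit 4) (nat_lit 432) (nat_lit 366) (nat_lit 222)) (XT.nd (nat_lit 78) (nat_lit 0) (nat_lit 0) (XT.lf (nat_lit 0) (nat_lit 657157297678) (nat_lit 76) (nat_lit 293905070857) (nat_lit 76) (nat_lit 162708194870) (nat_lit 9) (nat_lit 4) (nat_lit 10) (nat_lit 5) (nat_lit 10) (nat_lit 4) (nat_lit 433) (nat_lit 366) (nat_lit 221)) (XT.lf (nat_lit 0) (nat_lit 1054999760785) (nat_lit 76) (nat_lit 135192459529) (nat_lit 76) (nat_lit 3995445137) (nat_lit 9) (nat_lit 4) (nat_lit 10) (nat_lit 5) (nat_lit 10) (nat_lit 4) (nat_lit 434) (nat_lit 366) (nat_lit 220)))) (XT.nd (nat_lit 47892) (nat_lit 0) (nat_lit 8512) (XT.nd (nat_lit 47814) (nat_lit 0) (nat_lit 8436) (XT.lf (nat_lit 0) (nat_lit 165959317507) (nat_lit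 152) (nat_lit 1073743305046) (nat_lit 0) (nat_lit 41009657940) (nat_lit 7) (nat_lit 5) (nat_lit 9) (nat_lit 4) (nat_lit 7) (nat_lit 4) (nat_lit 435) (nat_lit 366) (nat_lit 219)) (XT.lf (nat_lit 0) (nat_lit 4136310077) (nat_lit 836) (nat_lit 6063825684) (nat_lit 836) (nat_lit 6063825684) (nat_lit 118) (nat_lit 3) (nat_lit 129) (nat_lit 3) (nat_lit 129) (nat_lit 5) (nat_lit 367) (nat_lit 367) (nat_lit 286))) (XT.nd (nat_lit 78) (nat_lit 0) (nat_lit 0) (XT.lf (nat_lit 0) (nat_lit 8983864384) (nat_lit 760) (nat_lit 20293882455) (nat_lit 836) (nat_lit 4532224026) (nat_lit 119) (nat_lit 5) (nat_lit 129) (nat_lit 5) (nat_lit 130) (nat_lit 5) (nat_lit 368) (nat_lit 367) (nat_lit 285)) (XT.lf (nat_lit 76) (nat_lit 6309153098) (nat_lit 0) (nat_lit 4090545896) (nat_lit 836) (nat_lit 24762504341) (nat_lit 120) (nat_lit 5) (nat_lit 119) (nat_lit 5) (nat_lit 130) (nat_lit 5) (nat_lit 369) (nat_lit 367)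 (nat_lit 284))))))) (XT.nd (nat_lit 1014) (nat_lit 2508) (nat_lit 0) (XT.nd (nat_lit 468) (nat_lit 2052) (nat_lit 0) (XT.nd (nat_lit 234) (nat_lit 912) (nat_lit 0) (XT.nd (nat_lit 78) (nat_lit 0) (nat_lit 76) (XT.lf (nat_lit 0) (nat_lit 12640094914) (nat_lit 760) (nat_lit 1212419348) (nat_lit 836) (nat_lit 22734540228) (nat_lit 120) (nat_lit 5) (nat_lit 130) (nat_lit 5) (nat_lit 131) (nat_lit 5) (nat_lit 370) (nat_lit 367) (nat_lit 283)) (XT.nd (nat_lit 78) (nat_lit 0) (nat_lit 76) (XT.lf (nat_lit 0) (nat_lit 15798691103) (nat_lit 760) (nat_lit 8807831800) (nat_lit 836) (nat_lit 13482426863) (nat_lit 121) (nat_lit 5) (nat_lit 131) (nat_lit 5) (nat_lit 132) (nat_lit 5) (nat_lit 371) (nat_lit 367) (nat_lit 282)) (XT.lf (nat_lit 0) (nat_lit 19867597897) (nat_lit 760) (nat_lit 16685585295) (nat_lit 836) (nat_lit 3124936454) (nat_lit 122) (nat_lit 5) (nat_lit 132) (nat_lit 5) (nat_lit 133) (nat_lit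 5) (nat_lit 372) (nat_lit 367) (nat_lit 281)))) (XT.nd (nat_lit 78) (nat_lit 1064) (nat_lit 0) (XT.lf (nat_lit 76) (nat_lit 16365216802) (nat_lit 0) (nat_lit 8716038357) (nat_lit 836) (nat_lit 16272209881) (nat_lit 123) (nat_lit 5) (nat_lit 122) (nat_lit 5) (nat_lit 133) (nat_lit 5) (nat_lit 373) (nat_lit 367) (nat_lit 280)) (XT.nd (nat_lit 78) (nat_lit 380) (nat_lit 0) (XT.lf (nat_lit 0) (nat_lit 9466586792) (nat_lit 760) (nat_lit 22015273730) (nat_lit 836) (nat_lit 11642488308) (nat_lit 113) (nat_lit 5) (nat_lit 123) (nat_lit 5) (nat_lit 124) (nat_lit 5) (nat_lit 374) (nat_lit 367) (nat_lit 279)) (XT.lf (nat_lit 0) (nat_lit 2347685069) (nat_lit 380) (nat_lit 36788942382) (nat_lit 456) (nat_lit 5863173491) (nat_lit 108) (nat_lit 5) (nat_lit 113) (nat_lit 5) (nat_lit 114) (nat_lit 5) (nat_lit 375) (nat_lit 367) (nat_lit 278))))) (XT.nd (nat_lit 234) (nat_lit 1216) (nat_lit 0) (XT.nd (nat_lit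 78) (nat_lit 760) (nat_lit 0) (XT.lf (nat_lit 0) (nat_lit 1327521156) (nat_lit 456) (nat_lit 4953192138) (nat_lit 76) (nat_lit 40696225929) (nat_lit 107) (nat_lit 5) (nat_lit 113) (nat_lit 5) (nat_lit 108) (nat_lit 5) (nat_lit 376) (nat_lit 367) (nat_lit 277)) (XT.nd (nat_lit 78) (nat_lit 380) (nat_lit 0) (XT.lf (nat_lit 0) (nat_lit 9887797572) (nat_lit 456) (nat_lit 12669985053) (nat_lit 76) (nat_lit 26499675575) (nat_lit 102) (nat_lit 5) (nat_lit 108) (nat_lit 5) (nat_lit 103) (nat_lit 5) (nat_lit 377) (nat_lit 367) (nat_lit 276)) (XT.lf (nat_lit 0) (nat_lit 19973393010) (nat_lit 456) (nat_lit 20657831584) (nat_lit 76) (nat_lit 10631171731) (nat_lit 97) (nat_lit 5) (nat_lit 103) (nat_lit 5) (nat_lit 98) (nat_lit 5) (nat_lit 378) (nat_lit 367) (nat_lit 275)))) (XT.nd (nat_lit 156) (nat_lit 608) (nat_lit 0) (XT.nd (nat_lit 78) (nat_lit 304) (nat_lit 0) (XT.lf (nat_lit 0) (nat_lit 24557291468)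 (nat_lit 304) (nat_lit 7291728427) (nat_lit 380) (nat_lit 21745552710) (nat_lit 93) (nat_lit 5) (nat_lit 97) (nat_lit 5) (nat_lit 98) (nat_lit 5) (nat_lit 379) (nat_lit 367) (nat_lit 274)) (XT.lf (nat_lit 0) (nat_lit 18153256621) (nat_lit 304) (nat_lit 27614289092) (nat_lit 380) (nat_lit 10291136958) (nat_lit 89) (nat_lit 5) (nat_lit 93) (nat_lit 5) (nat_lit 94) (nat_lit 5) (nat_lit 380) (nat_lit 367) (nat_lit 273))) (XT.nd (nat_lit 78) (nat_lit 304) (nat_lit 0) (XT.lf (nat_lit 0) (nat_lit 2965786658) (nat_lit 304) (nat_lit 47149997989) (nat_lit 76) (nat_lit 8554879533) (nat_lit 85) (nat_lit 5) (nat_lit 89) (nat_lit 5) (nat_lit 86) (nat_lit 5) (nat_lit 381) (nat_lit 367) (nat_lit 272)) (XT.lf (nat_lit 0) (nat_lit 4277381013) (nat_lit 304) (nat_lit 13849454533) (nat_lit 380) (nat_lit 43296128906) (nat_lit 81) (nat_lit 5) (nat_lit 85) (nat_lit 5) (nat_lit 86) (nat_lit 5) (nat_lit 382) (nat_lit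 367) (nat_lit 271)))))) (XT.nd (nat_lit 546) (nat_lit 1064) (nat_lit 0) (XT.nd (nat_lit 234) (nat_lit 912) (nat_lit 0) (XT.nd (nat_lit 78) (nat_lit 532) (nat_lit 0) (XT.lf (nat_lit 0) (nat_lit 35726837550) (nat_lit 380) (nat_lit 3265810972) (nat_lit 76) (nat_lit 25341498368) (nat_lit 81) (nat_lit 5) (nat_lit 86) (nat_lit 5) (nat_lit 82) (nat_lit 5) (nat_lit 383) (nat_lit 367) (nat_lit 270)) (XT.nd (nat_lit 78) (nat_lit 304) (nat_lit 0) (XT.lf (nat_lit 0) (nat_lit 55856795222) (nat_lit 304) (nat_lit 10938704181) (nat_lit 76) (nat_lit 626628232) (nat_lit 78) (nat_lit 5) (nat_lit 82) (nat_lit 5) (nat_lit 79) (nat_lit 5) (nat_lit 384) (nat_lit 367) (nat_lit 269)) (XT.lf (nat_lit 0) (nat_lit 8159472842) (nat_lit 304) (nat_lit 19457773188) (nat_lit 76) (nat_lit 43057642892) (nat_lit 74) (nat_lit 5) (nat_lit 78) (nat_lit 5) (nat_lit 75) (nat_lit 5) (nat_lit 385) (nat_lit 367) (nat_lit 268)))) (XT.nd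 (nat_lit 156) (nat_lit 456) (nat_lit 0) (XT.nd (nat_lit 78) (nat_lit 228) (nat_lit 0) (XT.lf (nat_lit 0) (nat_lit 30215672444) (nat_lit 304) (nat_lit 28559029701) (nat_lit 76) (nat_lit 15345760258) (nat_lit 71) (nat_lit 5) (nat_lit 75) (nat_lit 5) (nat_lit 72) (nat_lit 5) (nat_lit 386) (nat_lit 367) (nat_lit 267)) (XT.lf (nat_lit 0) (nat_lit 39438600008) (nat_lit 228) (nat_lit 16020454709) (nat_lit 304) (nat_lit 22311493834) (nat_lit 68) (nat_lit 5) (nat_lit 71) (nat_lit 5) (nat_lit 72) (nat_lit 5) (nat_lit 387) (nat_lit 367) (nat_lit 266))) (XT.nd (nat_lit 78) (nat_lit 228) (nat_lit 0) (XT.lf (nat_lit 0) (nat_lit 2486329057) (nat_lit 228) (nat_lit 48905023305) (nat_lit 76) (nat_lit 30245034051) (nat_lit 65) (nat_lit 5) (nat_lit 68) (nat_lit 5) (nat_lit 66) (nat_lit 5) (nat_lit 388) (nat_lit 367) (nat_lit 265)) (XT.lf (nat_lit 0) (nat_lit 25215678873) (nat_lit 228) (nat_lit 4620569991) (nat_lit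 304) (nat_lit 55889457390) (nat_lit 62) (nat_lit 5) (nat_lit 65) (nat_lit 5) (nat_lit 66) (nat_lit 5) (nat_lit 389) (nat_lit 367) (nat_lit 264))))) (XT.nd (nat_lit 234) (nat_lit 684) (nat_lit 0) (XT.nd (nat_lit 78) (nat_lit 228) (nat_lit 0) (XT.lf (nat_lit 0) (nat_lit 16712827208) (nat_lit 152) (nat_lit 44501779644) (nat_lit 228) (nat_lit 28835543452) (nat_lit 60) (nat_lit 5) (nat_lit 62) (nat_lit 5) (nat_lit 63) (nat_lit 5) (nat_lit 390) (nat_lit 367) (nat_lit 263)) (XT.nd (nat_lit 78) (nat_lit 0) (nat_lit 0) (XT.lf (nat_lit 0) (nat_lit 1733314455) (nat_lit 228) (nat_lit 87003345557) (nat_lit 76) (nat_lit 5915447923) (nat_lit 57) (nat_lit 5) (nat_lit 60) (nat_lit 5) (nat_lit 58) (nat_lit 5) (nat_lit 391) (nat_lit 367) (nat_lit 262)) (XT.lf (nat_lit 0) (nat_lit 35797106564) (nat_lit 228) (nat_lit 3087583822) (nat_lit 76) (nat_lit 60610912663) (nat_lit 57) (nat_lit 5) (nat_lit 60) (nat_lit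 5) (nat_lit 58) (nat_lit 5) (nat_lit 392) (nat_lit 367) (nat_lit 261)))) (XT.nd (nat_lit 156) (nat_lit 304) (nat_lit 0) (XT.nd (nat_lit 78) (nat_lit 228) (nat_lit 0) (XT.lf (nat_lit 0) (nat_lit 74252074288) (nat_lit 228) (nat_lit 14480863187) (nat_lit 76) (nat_lit 15910337329) (nat_lit 55) (nat_lit 5) (nat_lit 58) (nat_lit 5) (nat_lit 56) (nat_lit 5) (nat_lit 393) (nat_lit 367) (nat_lit 260)) (XT.lf (nat_lit 0) (nat_lit 7435136512) (nat_lit 228) (nat_lit 27451307936) (nat_lit 76) (nat_lit 75210306215) (nat_lit 52) (nat_lit 5) (nat_lit 55) (nat_lit 5) (nat_lit 53) (nat_lit 5) (nat_lit 394) (nat_lit 367) (nat_lit 259))) (XT.nd (nat_lit 78) (nat_lit 152) (nat_lit 0) (XT.lf (nat_lit 0) (nat_lit 49040221100) (nat_lit 228) (nat_lit 42354297573) (nat_lit 76) (nat_lit 24476205613) (nat_lit 50) (nat_lit 5) (nat_lit 53) (nat_lit 5) (nat_lit 51) (nat_lit 5) (nat_lit 395) (nat_lit 367) (nat_lit 258))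 (XT.lf (nat_lit 0) (nat_lit 62871636977) (nat_lit 152) (nat_lit 33155774597) (nat_lit 228) (nat_lit 25976519755) (nat_lit 48) (nat_lit 5) (nat_lit 50) (nat_lit 5) (nat_lit 51) (nat_lit 5) (nat_lit 396) (nat_lit 367) (nat_lit 257))))))))
noncomputable def xc90 : XT := (XT.nd (nat_lit 2028) (nat_lit 532) (nat_lit 0) (XT.nd (nat_lit 1014) (nat_lit 912) (nat_lit 0) (XT.nd (nat_lit 468) (nat_lit 836) (nat_lit 0) (XT.nd (nat_lit 234) (nat_lit 304) (nat_lit 0) (XT.nd (nat_lit 78) (nat_lit 228) (nat_lit 0) (XT.lf (nat_lit 0) (nat_lit 19599593838) (nat_lit 152) (nat_lit 78267969025) (nat_lit 76) (nat_lit 30644337682) (nat_lit 46) (nat_lit 5) (nat_lit 48) (nat_lit 5) (nat_lit 47) (nat_lit 5) (nat_lit 397) (nat_lit 367) (nat_lit 256)) (XT.nd (nat_lit 78) (nat_lit 76) (nat_lit 0) (XT.lf (nat_lit 0) (nat_lit 35098719501) (nat_lit 152) (nat_lit 34977116755) (nat_lit 228) (nat_lit 65335172687) (nat_lit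 44) (nat_lit 5) (nat_lit 46) (nat_lit 5) (nat_lit 47) (nat_lit 5) (nat_lit 398) (nat_lit 367) (nat_lit 255)) (XT.lf (nat_lit 0) (nat_lit 17557574466) (nat_lit 76) (nat_lit 109204860638) (nat_lit 152) (nat_lit 15990998424) (nat_lit 43) (nat_lit 5) (nat_lit 44) (nat_lit 5) (nat_lit 45) (nat_lit 4) (nat_lit 399) (nat_lit 367) (nat_lit 254)))) (XT.nd (nat_lit 78) (nat_lit 228) (nat_lit 0) (XT.lf (nat_lit 0) (nat_lit 38470764240) (nat_lit 152) (nat_lit 3360900956) (nat_lit 76) (nat_lit 108704273270) (nat_lit 42) (nat_lit 5) (nat_lit 44) (nat_lit 5) (nat_lit 43) (nat_lit 5) (nat_lit 400) (nat_lit 367) (nat_lit 253)) (XT.nd (nat_lit 78) (nat_lit 76) (nat_lit 0) (XT.lf (nat_lit 0) (nat_lit 99319796439) (nat_lit 228) (nat_lit 27166985450) (nat_lit 76) (nat_lit 32311626075) (nat_lit 40) (nat_lit 5) (nat_lit 43) (nat_lit 5) (nat_lit 41) (nat_lit 4) (nat_lit 401) (nat_lit 367) (nat_lit 252)) (XT.lf (nat_lit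 0) (nat_lit 112722662005) (nat_lit 76) (nat_lit 54837182013) (nat_lit 152) (nat_lit 35876641) (nat_lit 39) (nat_lit 5) (nat_lit 40) (nat_lit 5) (nat_lit 41) (nat_lit 4) (nat_lit 402) (nat_lit 367) (nat_lit 251))))) (XT.nd (nat_lit 234) (nat_lit 304) (nat_lit 0) (XT.nd (nat_lit 78) (nat_lit 304) (nat_lit 0) (XT.lf (nat_lit 0) (nat_lit 64385420499) (nat_lit 228) (nat_lit 87797780194) (nat_lit 76) (nat_lit 24749693422) (nat_lit 36) (nat_lit 5) (nat_lit 39) (nat_lit 5) (nat_lit 37) (nat_lit 4) (nat_lit 403) (nat_lit 367) (nat_lit 250)) (XT.nd (nat_lit 78) (nat_lit 228) (nat_lit 0) (XT.lf (nat_lit 0) (nat_lit 60651590202) (nat_lit 76) (nat_lit 76149133185) (nat_lit 152) (nat_lit 50074210933) (nat_lit 35) (nat_lit 5) (nat_lit 36) (nat_lit 5) (nat_lit 37) (nat_lit 4) (nat_lit 404) (nat_lit 367) (nat_lit 249)) (XT.lf (nat_lit 0) (nat_lit 18946880562) (nat_lit 228) (nat_lit 170484366352) (nat_lit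 76) (nat_lit 8062171418) (nat_lit 32) (nat_lit 5) (nat_lit 35) (nat_lit 5) (nat_lit 33) (nat_lit 4) (nat_lit 405) (nat_lit 367) (nat_lit 248)))) (XT.nd (nat_lit 156) (nat_lit 228) (nat_lit 0) (XT.nd (nat_lit 78) (nat_lit 76) (nat_lit 0) (XT.lf (nat_lit 0) (nat_lit 95276067374) (nat_lit 228) (nat_lit 14011166841) (nat_lit 76) (nat_lit 99456064377) (nat_lit 32) (nat_lit 5) (nat_lit 35) (nat_lit 5) (nat_lit 33) (nat_lit 4) (nat_lit 406) (nat_lit 367) (nat_lit 247)) (XT.lf (nat_lit 0) (nat_lit 160101587416) (nat_lit 76) (nat_lit 20108268600) (nat_lit 152) (nat_lit 40558400085) (nat_lit 31) (nat_lit 5) (nat_lit 32) (nat_lit 5) (nat_lit 33) (nat_lit 4) (nat_lit 407) (nat_lit 367) (nat_lit 246))) (XT.nd (nat_lit 78) (nat_lit 76) (nat_lit 0) (XT.lf (nat_lit 0) (nat_lit 40285113250) (nat_lit 152) (nat_lit 116777439591) (nat_lit 76) (nat_lit 76496646503) (nat_lit 29) (nat_lit 5) (nat_lit 31) (nat_lit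 5) (nat_lit 30) (nat_lit 4) (nat_lit 408) (nat_lit 367) (nat_lit 245)) (XT.lf (nat_lit 0) (nat_lit 64286749772) (nat_lit 76) (nat_lit 64322960700) (nat_lit 152) (nat_lit 118608734544) (nat_lit 28) (nat_lit 5) (nat_lit 29) (nat_lit 5) (nat_lit 30) (nat_lit 4) (nat_lit 409) (nat_lit 367) (nat_lit 244)))))) (XT.nd (nat_lit 468) (nat_lit 456) (nat_lit 0) (XT.nd (nat_lit 234) (nat_lit 228) (nat_lit 0) (XT.nd (nat_lit 78) (nat_lit 152) (nat_lit 0) (XT.lf (nat_lit 0) (nat_lit 1593224679) (nat_lit 76) (nat_lit 225057717264) (nat_lit 76) (nat_lit 35186955205) (nat_lit 27) (nat_lit 4) (nat_lit 28) (nat_lit 5) (nat_lit 28) (nat_lit 4) (nat_lit 410) (nat_lit 367) (nat_lit 243)) (XT.nd (nat_lit 78) (nat_lit 76) (nat_lit 0) (XT.lf (nat_lit 0) (nat_lit 57473339342) (nat_lit 152) (nat_lit 72051424752) (nat_lit 76) (nat_lit 147843168146) (nat_lit 26) (nat_lit 5) (nat_lit 28) (nat_lit 5) (nat_lit 27) (nat_lit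 4) (nat_lit 411) (nat_lit 367) (nat_lit 242)) (XT.lf (nat_lit 0) (nat_lit 134920124162) (nat_lit 76) (nat_lit 23515401799) (nat_lit 152) (nat_lit 135569910117) (nat_lit 25) (nat_lit 5) (nat_lit 26) (nat_lit 5) (nat_lit 27) (nat_lit 4) (nat_lit 412) (nat_lit 367) (nat_lit 241)))) (XT.nd (nat_lit 78) (nat_lit 152) (nat_lit 0) (XT.lf (nat_lit 0) (nat_lit 49244248021) (nat_lit 76) (nat_lit 221694236257) (nat_lit 76) (nat_lit 40862266205) (nat_lit 24) (nat_lit 4) (nat_lit 25) (nat_lit 5) (nat_lit 25) (nat_lit 4) (nat_lit 413) (nat_lit 367) (nat_lit 240)) (XT.nd (nat_lit 78) (nat_lit 76) (nat_lit 0) (XT.lf (nat_lit 0) (nat_lit 62668160278) (nat_lit 152) (nat_lit 52363003822) (nat_lit 76) (nat_lit 215779974642) (nat_lit 23) (nat_lit 5) (nat_lit 25) (nat_lit 5) (nat_lit 24) (nat_lit 4) (nat_lit 414) (nat_lit 367) (nat_lit 239)) (XT.lf (nat_lit 0) (nat_lit 175933155611) (nat_lit 152) (nat_lit 171520687940)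 (nat_lit 0) (nat_lit 3710833454) (nat_lit 22) (nat_lit 5) (nat_lit 24) (nat_lit 4) (nat_lit 22) (nat_lit 4) (nat_lit 415) (nat_lit 367) (nat_lit 238))))) (XT.nd (nat_lit 234) (nat_lit 228) (nat_lit 0) (XT.nd (nat_lit 78) (nat_lit 152) (nat_lit 0) (XT.lf (nat_lit 0) (nat_lit 58909580455) (nat_lit 76) (nat_lit 243135293206) (nat_lit 76) (nat_lit 70912348589) (nat_lit 21) (nat_lit 4) (nat_lit 22) (nat_lit 5) (nat_lit 22) (nat_lit 4) (nat_lit 416) (nat_lit 367) (nat_lit 237)) (XT.nd (nat_lit 78) (nat_lit 76) (nat_lit 0) (XT.lf (nat_lit 0) (nat_lit 43451870341) (nat_lit 152) (nat_lit 83147186770) (nat_lit 76) (nat_lit 269709728077) (nat_lit 20) (nat_lit 5) (nat_lit 22) (nat_lit 5) (nat_lit 21) (nat_lit 4) (nat_lit 417) (nat_lit 367) (nat_lit 236)) (XT.lf (nat_lit 0) (nat_lit 167226587409) (nat_lit 152) (nat_lit 250902793506) (nat_lit 0) (nat_lit 3203678237) (nat_lit 19) (nat_lit 5) (nat_lit 21)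 (nat_lit 4) (nat_lit 19) (nat_lit 4) (nat_lit 418) (nat_lit 367) (nat_lit 235)))) (XT.nd (nat_lit 156) (nat_lit 152) (nat_lit 0) (XT.nd (nat_lit 78) (nat_lit 76) (nat_lit 0) (XT.lf (nat_lit 0) (nat_lit 304509269680) (nat_lit 152) (nat_lit 3183816108) (nat_lit 0) (nat_lit 140485889908) (nat_lit 19) (nat_lit 5) (nat_lit 21) (nat_lit 4) (nat_lit 19) (nat_lit 4) (nat_lit 419) (nat_lit 367) (nat_lit 234)) (XT.lf (nat_lit 0) (nat_lit 273091844430) (nat_lit 76) (nat_lit 183945694051) (nat_lit 76) (nat_lit 19921878538) (nat_lit 18) (nat_lit 4) (nat_lit 19) (nat_lit 5) (nat_lit 19) (nat_lit 4) (nat_lit 420) (nat_lit 367) (nat_lit 233))) (XT.nd (nat_lit 78) (nat_lit 0) (nat_lit 0) (XT.lf (nat_lit 0) (nat_lit 63808059752) (nat_lit 76) (nat_lit 47329637188) (nat_lit 152) (nat_lit 396763225007) (nat_lit 16) (nat_lit 5) (nat_lit 17) (nat_lit 5) (nat_lit 18) (nat_lit 4) (nat_lit 421) (nat_lit 367) (nat_lit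 232)) (XT.lf (nat_lit 0) (nat_lit 257166798034) (nat_lit 152) (nat_lit 182922583247) (nat_lit 0) (nat_lit 100952900364) (nat_lit 16) (nat_lit 5) (nat_lit 18) (nat_lit 4) (nat_lit 16) (nat_lit 4) (nat_lit 422) (nat_lit 367) (nat_lit 231))))))) (XT.nd (nat_lit 48828) (nat_lit 0) (nat_lit 6384) (XT.nd (nat_lit 468) (nat_lit 228) (nat_lit 0) (XT.nd (nat_lit 234) (nat_lit 76) (nat_lit 0) (XT.nd (nat_lit 78) (nat_lit 152) (nat_lit 0) (XT.lf (nat_lit 0) (nat_lit 101593585238) (nat_lit 76) (nat_lit 315668206890) (nat_lit 76) (nat_lit 159453979786) (nat_lit 15) (nat_lit 4) (nat_lit 16) (nat_lit 5) (nat_lit 16) (nat_lit 4) (nat_lit 423) (nat_lit 367) (nat_lit 230)) (XT.nd (nat_lit 78) (nat_lit 152) (nat_lit 0) (XT.lf (nat_lit 0) (nat_lit 415401912216) (nat_lit 76) (nat_lit 177948236603) (nat_lit 76) (nat_lit 21733704468) (nat_lit 15) (nat_lit 4) (nat_lit 16) (nat_lit 5) (nat_lit 16) (nat_lit 4) (nat_lit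 424) (nat_lit 367) (nat_lit 229)) (XT.lf (nat_lit 0) (nat_lit 98977357243) (nat_lit 76) (nat_lit 25506629007) (nat_lit 152) (nat_lit 531861014347) (nat_lit 13) (nat_lit 5) (nat_lit 14) (nat_lit 5) (nat_lit 15) (nat_lit 4) (nat_lit 425) (nat_lit 367) (nat_lit 228)))) (XT.nd (nat_lit 78) (nat_lit 76) (nat_lit 0) (XT.lf (nat_lit 0) (nat_lit 287354819865) (nat_lit 152) (nat_lit 274669989879) (nat_lit 0) (nat_lit 138578556927) (nat_lit 13) (nat_lit 5) (nat_lit 15) (nat_lit 4) (nat_lit 13) (nat_lit 4) (nat_lit 426) (nat_lit 367) (nat_lit 227)) (XT.nd (nat_lit 78) (nat_lit 0) (nat_lit 0) (XT.lf (nat_lit 0) (nat_lit 31211289949) (nat_lit 76) (nat_lit 432960881547) (nat_lit 76) (nat_lit 284184387996) (nat_lit 12) (nat_lit 4) (nat_lit 13) (nat_lit 5) (nat_lit 13) (nat_lit 4) (nat_lit 427) (nat_lit 367) (nat_lit 226)) (XT.lf (nat_lit 0) (nat_lit 371370440933) (nat_lit 76) (nat_lit 288548535331) (nat_lit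 76) (nat_lit 139771828250) (nat_lit 12) (nat_lit 4) (nat_lit 13) (nat_lit 5) (nat_lit 13) (nat_lit 4) (nat_lit 428) (nat_lit 367) (nat_lit 225))))) (XT.nd (nat_lit 234) (nat_lit 76) (nat_lit 0) (XT.nd (nat_lit 78) (nat_lit 76) (nat_lit 0) (XT.lf (nat_lit 0) (nat_lit 15674956526) (nat_lit 152) (nat_lit 116643243914) (nat_lit 76) (nat_lit 722800971193) (nat_lit 11) (nat_lit 5) (nat_lit 13) (nat_lit 5) (nat_lit 12) (nat_lit 4) (nat_lit 429) (nat_lit 367) (nat_lit 224)) (XT.nd (nat_lit 78) (nat_lit 0) (nat_lit 0) (XT.lf (nat_lit 0) (nat_lit 182900066636) (nat_lit 152) (nat_lit 690547597101) (nat_lit 0) (nat_lit 41207602005) (nat_lit 10) (nat_lit 5) (nat_lit 12) (nat_lit 4) (nat_lit 10) (nat_lit 4) (nat_lit 430) (nat_lit 367) (nat_lit 223)) (XT.lf (nat_lit 0) (nat_lit 367799040845) (nat_lit 152) (nat_lit 384833999010) (nat_lit 0) (nat_lit 226106414779) (nat_lit 10) (nat_lit 5) (nat_lit 12) (nat_lit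 4) (nat_lit 10) (nat_lit 4) (nat_lit 431) (nat_lit 367) (nat_lit 222)))) (XT.nd (nat_lit 156) (nat_lit 0) (nat_lit 0) (XT.nd (nat_lit 78) (nat_lit 76) (nat_lit 0) (XT.lf (nat_lit 0) (nat_lit 567489534523) (nat_lit 152) (nat_lit 54664105076) (nat_lit 0) (nat_lit 425796758980) (nat_lit 10) (nat_lit 5) (nat_lit 12) (nat_lit 4) (nat_lit 10) (nat_lit 4) (nat_lit 432) (nat_lit 367) (nat_lit 221)) (XT.lf (nat_lit 0) (nat_lit 311901441008) (nat_lit 76) (nat_lit 476123113332) (nat_lit 76) (nat_lit 334430199384) (nat_lit 9) (nat_lit 4) (nat_lit 10) (nat_lit 5) (nat_lit 10) (nat_lit 4) (nat_lit 433) (nat_lit 367) (nat_lit 220))) (XT.nd (nat_lit 78) (nat_lit 0) (nat_lit 0) (XT.lf (nat_lit 0) (nat_lit 709743566869) (nat_lit 76) (nat_lit 317410669741) (nat_lit 76) (nat_lit 175717627640) (nat_lit 9) (nat_lit 4) (nat_lit 10) (nat_lit 5) (nat_lit 10) (nat_lit 4) (nat_lit 434) (nat_lit 367) (nat_lit 219))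 (XT.lf (nat_lit 0) (nat_lit 1139412413292) (nat_lit 76) (nat_lit 146001553713) (nat_lit 76) (nat_lit 4308392952) (nat_lit 9) (nat_lit 4) (nat_lit 10) (nat_lit 5) (nat_lit 10) (nat_lit 4) (nat_lit 435) (nat_lit 367) (nat_lit 218)))))) (XT.nd (nat_lit 468) (nat_lit 1900) (nat_lit 0) (XT.nd (nat_lit 234) (nat_lit 0) (nat_lit 152) (XT.nd (nat_lit 78) (nat_lit 0) (nat_lit 76) (XT.lf (nat_lit 0) (nat_lit 4559946381) (nat_lit 836) (nat_lit 6500222342) (nat_lit 836) (nat_lit 6500222342) (nat_lit 118) (nat_lit 3) (nat_lit 129) (nat_lit 3) (nat_lit 129) (nat_lit 5) (nat_lit 368) (nat_lit 368) (nat_lit 284)) (XT.nd (nat_lit 78) (nat_lit 0) (nat_lit 0) (XT.lf (nat_lit 0) (nat_lit 9874504468) (nat_lit 760) (nat_lit 21814206099) (nat_lit 836) (nat_lit 4817367495) (nat_lit 119) (nat_lit 5) (nat_lit 129) (nat_lit 5) (nat_lit 130) (nat_lit 5) (nat_lit 369) (nat_lit 368) (nat_lit 283)) (XT.lf (nat_lit 76)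 (nat_lit 6912587919) (nat_lit 0) (nat_lit 4479823327) (nat_lit 836) (nat_lit 26574644571) (nat_lit 120) (nat_lit 5) (nat_lit 119) (nat_lit 5) (nat_lit 130) (nat_lit 5) (nat_lit 370) (nat_lit 368) (nat_lit 282)))) (XT.nd (nat_lit 78) (nat_lit 0) (nat_lit 76) (XT.lf (nat_lit 0) (nat_lit 13799235666) (nat_lit 760) (nat_lit 1209602823) (nat_lit 836) (nat_lit 24497703177) (nat_lit 120) (nat_lit 5) (nat_lit 130) (nat_lit 5) (nat_lit 131) (nat_lit 5) (nat_lit 371) (nat_lit 368) (nat_lit 281)) (XT.nd (nat_lit 78) (nat_lit 0) (nat_lit 76) (XT.lf (nat_lit 0) (nat_lit 17200380884) (nat_lit 760) (nat_lit 9409316802) (nat_lit 836) (nat_lit 14519403775) (nat_lit 121) (nat_lit 5) (nat_lit 131) (nat_lit 5) (nat_lit 132) (nat_lit 5) (nat_lit 372) (nat_lit 368) (nat_lit 280)) (XT.lf (nat_lit 0) (nat_lit 21585657867) (nat_lit 760) (nat_lit 17914771850) (nat_lit 836) (nat_lit 3345437856) (nat_lit 122) (nat_lit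 5) (nat_lit 132) (nat_lit 5) (nat_lit 133) (nat_lit 5) (nat_lit 373) (nat_lit 368) (nat_lit 279))))) (XT.nd (nat_lit 234) (nat_lit 1140) (nat_lit 0) (XT.nd (nat_lit 78) (nat_lit 1064) (nat_lit 0) (XT.lf (nat_lit 76) (nat_lit 17775502549) (nat_lit 0) (nat_lit 9432953335) (nat_lit 836) (nat_lit 17447187421) (nat_lit 123) (nat_lit 5) (nat_lit 122) (nat_lit 5) (nat_lit 133) (nat_lit 5) (nat_lit 374) (nat_lit 368) (nat_lit 278)) (XT.nd (nat_lit 78) (nat_lit 380) (nat_lit 0) (XT.lf (nat_lit 0) (nat_lit 10326716904) (nat_lit 760) (nat_lit 23786773248) (nat_lit 836) (nat_lit 12455093356) (nat_lit 113) (nat_lit 5) (nat_lit 123) (nat_lit 5) (nat_lit 124) (nat_lit 5) (nat_lit 375) (nat_lit 368) (nat_lit 277)) (XT.lf (nat_lit 0) (nat_lit 2639453770) (nat_lit 380) (nat_lit 39734282746) (nat_lit 456) (nat_lit 6220684753) (nat_lit 108) (nat_lit 5) (nat_lit 113) (nat_lit 5) (nat_lit 114) (nat_lit 5) (nat_lit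 376) (nat_lit 368) (nat_lit 276)))) (XT.nd (nat_lit 156) (nat_lit 684) (nat_lit 0) (XT.nd (nat_lit 78) (nat_lit 380) (nat_lit 0) (XT.lf (nat_lit 0) (nat_lit 1533697438) (nat_lit 456) (nat_lit 5249839963) (nat_lit 76) (nat_lit 43946509902) (nat_lit 107) (nat_lit 5) (nat_lit 113) (nat_lit 5) (nat_lit 108) (nat_lit 5) (nat_lit 377) (nat_lit 368) (nat_lit 275)) (XT.lf (nat_lit 0) (nat_lit 10772897090) (nat_lit 456) (nat_lit 13583576633) (nat_lit 76) (nat_lit 28620832598) (nat_lit 102) (nat_lit 5) (nat_lit 108) (nat_lit 5) (nat_lit 103) (nat_lit 5) (nat_lit 378) (nat_lit 368) (nat_lit 274))) (XT.nd (nat_lit 78) (nat_lit 304) (nat_lit 0) (XT.lf (nat_lit 0) (nat_lit 21659975361) (nat_lit 456) (nat_lit 22210435843) (nat_lit 76) (nat_lit 11488499848) (nat_lit 97) (nat_lit 5) (nat_lit 103) (nat_lit 5) (nat_lit 98) (nat_lit 5) (nat_lit 379) (nat_lit 368) (nat_lit 273)) (XT.lf (nat_lit 0) (nat_lit 26617550207)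 (nat_lit 304) (nat_lit 7863024772) (nat_lit 380) (nat_lit 23397343395) (nat_lit 93) (nat_lit 5) (nat_lit 97) (nat_lit 5) (nat_lit 98) (nat_lit 5) (nat_lit 380) (nat_lit 368) (nat_lit 272))))))))
noncomputable def xc91 : XT := (XT.nd (nat_lit 2028) (nat_lit 1672) (nat_lit 0) (XT.nd (nat_lit 1014) (nat_lit 1900) (nat_lit 0) (XT.nd (nat_lit 468) (nat_lit 1292) (nat_lit 0) (XT.nd (nat_lit 234) (nat_lit 532) (nat_lit 0) (XT.nd (nat_lit 78) (nat_lit 608) (nat_lit 0) (XT.lf (nat_lit 0) (nat_lit 19700891440) (nat_lit 304) (nat_lit 29807159491) (nat_lit 380) (nat_lit 11031335753) (nat_lit 89) (nat_lit 5) (nat_lit 93) (nat_lit 5) (nat_lit 94) (nat_lit 5) (nat_lit 381) (nat_lit 368) (nat_lit 271)) (XT.nd (nat_lit 78) (nat_lit 304) (nat_lit 0) (XT.lf (nat_lit 0) (nat_lit 3279267822) (nat_lit 304) (nat_lit 50824642793) (nat_lit 76) (nat_lit 9256564463) (nat_lit 85) (nat_lit 5) (nat_lit 89) (nat_lit 5)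 (nat_lit 86) (nat_lit 5) (nat_lit 382) (nat_lit 368) (nat_lit 270)) (XT.lf (nat_lit 0) (nat_lit 4712695599) (nat_lit 304) (nat_lit 14936313155) (nat_lit 380) (nat_lit 46684162531) (nat_lit 81) (nat_lit 5) (nat_lit 85) (nat_lit 5) (nat_lit 86) (nat_lit 5) (nat_lit 383) (nat_lit 368) (nat_lit 269)))) (XT.nd (nat_lit 78) (nat_lit 532) (nat_lit 0) (XT.lf (nat_lit 0) (nat_lit 38651980627) (nat_lit 380) (nat_lit 3437793413) (nat_lit 76) (nat_lit 27387727942) (nat_lit 81) (nat_lit 5) (nat_lit 86) (nat_lit 5) (nat_lit 82) (nat_lit 5) (nat_lit 384) (nat_lit 368) (nat_lit 268)) (XT.nd (nat_lit 78) (nat_lit 304) (nat_lit 0) (XT.lf (nat_lit 0) (nat_lit 60389049647) (nat_lit 304) (nat_lit 11725549016) (nat_lit 76) (nat_lit 698088776) (nat_lit 78) (nat_lit 5) (nat_lit 82) (nat_lit 5) (nat_lit 79) (nat_lit 5) (nat_lit 385) (nat_lit 368) (nat_lit 267)) (XT.lf (nat_lit 0) (nat_lit 8873551099) (nat_lit 304)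 (nat_lit 20927929386) (nat_lit 76) (nat_lit 46524311600) (nat_lit 74) (nat_lit 5) (nat_lit 78) (nat_lit 5) (nat_lit 75) (nat_lit 5) (nat_lit 386) (nat_lit 368) (nat_lit 266))))) (XT.nd (nat_lit 234) (nat_lit 608) (nat_lit 0) (XT.nd (nat_lit 78) (nat_lit 456) (nat_lit 0) (XT.lf (nat_lit 0) (nat_lit 32691380394) (nat_lit 304) (nat_lit 30758505010) (nat_lit 76) (nat_lit 16597270979) (nat_lit 71) (nat_lit 5) (nat_lit 75) (nat_lit 5) (nat_lit 72) (nat_lit 5) (nat_lit 387) (nat_lit 368) (nat_lit 265)) (XT.nd (nat_lit 78) (nat_lit 228) (nat_lit 0) (XT.lf (nat_lit 0) (nat_lit 42675230342) (nat_lit 228) (nat_lit 17275946073) (nat_lit 304) (nat_lit 24038227352) (nat_lit 68) (nat_lit 5) (nat_lit 71) (nat_lit 5) (nat_lit 72) (nat_lit 5) (nat_lit 388) (nat_lit 368) (nat_lit 264)) (XT.lf (nat_lit 0) (nat_lit 2739044960) (nat_lit 228) (nat_lit 52735353783) (nat_lit 76) (nat_lit 32690191525) (nat_lit 65)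 (nat_lit 5) (nat_lit 68) (nat_lit 5) (nat_lit 66) (nat_lit 5) (nat_lit 389) (nat_lit 368) (nat_lit 263)))) (XT.nd (nat_lit 156) (nat_lit 228) (nat_lit 0) (XT.nd (nat_lit 78) (nat_lit 152) (nat_lit 0) (XT.lf (nat_lit 0) (nat_lit 27311437847) (nat_lit 228) (nat_lit 4962760289) (nat_lit 304) (nat_lit 60306996801) (nat_lit 62) (nat_lit 5) (nat_lit 65) (nat_lit 5) (nat_lit 66) (nat_lit 5) (nat_lit 390) (nat_lit 368) (nat_lit 262)) (XT.lf (nat_lit 0) (nat_lit 18126992531) (nat_lit 152) (nat_lit 48033652058) (nat_lit 228) (nat_lit 31091060068) (nat_lit 60) (nat_lit 5) (nat_lit 62) (nat_lit 5) (nat_lit 63) (nat_lit 5) (nat_lit 391) (nat_lit 368) (nat_lit 261))) (XT.nd (nat_lit 78) (nat_lit 0) (nat_lit 0) (XT.lf (nat_lit 0) (nat_lit 1919600278) (nat_lit 228) (nat_lit 93886310666) (nat_lit 76) (nat_lit 6415972058) (nat_lit 57) (nat_lit 5) (nat_lit 60) (nat_lit 5) (nat_lit 58) (nat_lit 5) (nat_lit 392)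 (nat_lit 368) (nat_lit 260)) (XT.lf (nat_lit 0) (nat_lit 38704968299) (nat_lit 228) (nat_lit 3263014106) (nat_lit 76) (nat_lit 65485052622) (nat_lit 57) (nat_lit 5) (nat_lit 60) (nat_lit 5) (nat_lit 58) (nat_lit 5) (nat_lit 393) (nat_lit 368) (nat_lit 259)))))) (XT.nd (nat_lit 468) (nat_lit 912) (nat_lit 0) (XT.nd (nat_lit 234) (nat_lit 456) (nat_lit 0) (XT.nd (nat_lit 78) (nat_lit 380) (nat_lit 0) (XT.lf (nat_lit 0) (nat_lit 80234551049) (nat_lit 228) (nat_lit 15569175728) (nat_lit 76) (nat_lit 17208883723) (nat_lit 55) (nat_lit 5) (nat_lit 58) (nat_lit 5) (nat_lit 56) (nat_lit 5) (nat_lit 394) (nat_lit 368) (nat_lit 258)) (XT.nd (nat_lit 78) (nat_lit 152) (nat_lit 0) (XT.lf (nat_lit 0) (nat_lit 8070840903) (nat_lit 228) (nat_lit 29578943375) (nat_lit 76) (nat_lit 81252652289) (nat_lit 52) (nat_lit 5) (nat_lit 55) (nat_lit 5) (nat_lit 53) (nat_lit 5) (nat_lit 395) (nat_lit 368) (nat_lit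 257)) (XT.lf (nat_lit 0) (nat_lit 53002741056) (nat_lit 228) (nat_lit 45675610060) (nat_lit 76) (nat_lit 26460057226) (nat_lit 50) (nat_lit 5) (nat_lit 53) (nat_lit 5) (nat_lit 51) (nat_lit 5) (nat_lit 396) (nat_lit 368) (nat_lit 256)))) (XT.nd (nat_lit 78) (nat_lit 304) (nat_lit 0) (XT.lf (nat_lit 0) (nat_lit 67965486155) (nat_lit 152) (nat_lit 35781510399) (nat_lit 228) (nat_lit 28015371554) (nat_lit 48) (nat_lit 5) (nat_lit 50) (nat_lit 5) (nat_lit 51) (nat_lit 5) (nat_lit 397) (nat_lit 368) (nat_lit 255)) (XT.nd (nat_lit 78) (nat_lit 152) (nat_lit 0) (XT.lf (nat_lit 0) (nat_lit 21204146599) (nat_lit 152) (nat_lit 84465461002) (nat_lit 76) (nat_lit 33121408561) (nat_lit 46) (nat_lit 5) (nat_lit 48) (nat_lit 5) (nat_lit 47) (nat_lit 5) (nat_lit 398) (nat_lit 368) (nat_lit 254)) (XT.lf (nat_lit 0) (nat_lit 37967783611) (nat_lit 152) (nat_lit 37748949762) (nat_lit 228) (nat_lit 70525408141)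 (nat_lit 44) (nat_lit 5) (nat_lit 46) (nat_lit 5) (nat_lit 47) (nat_lit 5) (nat_lit 399) (nat_lit 368) (nat_lit 253))))) (XT.nd (nat_lit 234) (nat_lit 608) (nat_lit 0) (XT.nd (nat_lit 78) (nat_lit 228) (nat_lit 0) (XT.lf (nat_lit 0) (nat_lit 19021967607) (nat_lit 76) (nat_lit 117915026677) (nat_lit 152) (nat_lit 17235029565) (nat_lit 43) (nat_lit 5) (nat_lit 44) (nat_lit 5) (nat_lit 45) (nat_lit 4) (nat_lit 400) (nat_lit 368) (nat_lit 252)) (XT.nd (nat_lit 78) (nat_lit 152) (nat_lit 0) (XT.lf (nat_lit 0) (nat_lit 41580018484) (nat_lit 152) (nat_lit 3573364502) (nat_lit 76) (nat_lit 117423845486) (nat_lit 42) (nat_lit 5) (nat_lit 44) (nat_lit 5) (nat_lit 43) (nat_lit 5) (nat_lit 401) (nat_lit 368) (nat_lit 251)) (XT.lf (nat_lit 0) (nat_lit 107295847999) (nat_lit 228) (nat_lit 29285249971) (nat_lit 76) (nat_lit 34919654224) (nat_lit 40) (nat_lit 5) (nat_lit 43) (nat_lit 5) (nat_lit 41) (nat_lit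 4) (nat_lit 402) (nat_lit 368) (nat_lit 250)))) (XT.nd (nat_lit 156) (nat_lit 304) (nat_lit 0) (XT.nd (nat_lit 78) (nat_lit 228) (nat_lit 0) (XT.lf (nat_lit 0) (nat_lit 121793174949) (nat_lit 76) (nat_lit 59200490353) (nat_lit 152) (nat_lit 8256678) (nat_lit 39) (nat_lit 5) (nat_lit 40) (nat_lit 5) (nat_lit 41) (nat_lit 4) (nat_lit 403) (nat_lit 368) (nat_lit 249)) (XT.lf (nat_lit 0) (nat_lit 69564746292) (nat_lit 228) (nat_lit 94769207126) (nat_lit 76) (nat_lit 26752143524) (nat_lit 36) (nat_lit 5) (nat_lit 39) (nat_lit 5) (nat_lit 37) (nat_lit 4) (nat_lit 404) (nat_lit 368) (nat_lit 248))) (XT.nd (nat_lit 78) (nat_lit 228) (nat_lit 0) (XT.lf (nat_lit 0) (nat_lit 65553835858) (nat_lit 76) (nat_lit 82218109513) (nat_lit 152) (nat_lit 54051621699) (nat_lit 35) (nat_lit 5) (nat_lit 36) (nat_lit 5) (nat_lit 37) (nat_lit 4) (nat_lit 405) (nat_lit 368) (nat_lit 247)) (XT.lf (nat_lit 0) (nat_lit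 20489311951) (nat_lit 228) (nat_lit 184073329771) (nat_lit 76) (nat_lit 8728912687) (nat_lit 32) (nat_lit 5) (nat_lit 35) (nat_lit 5) (nat_lit 33) (nat_lit 4) (nat_lit 406) (nat_lit 368) (nat_lit 246))))))) (XT.nd (nat_lit 1014) (nat_lit 684) (nat_lit 0) (XT.nd (nat_lit 468) (nat_lit 532) (nat_lit 0) (XT.nd (nat_lit 234) (nat_lit 228) (nat_lit 0) (XT.nd (nat_lit 78) (nat_lit 228) (nat_lit 0) (XT.lf (nat_lit 0) (nat_lit 102922857342) (nat_lit 228) (nat_lit 15085962143) (nat_lit 76) (nat_lit 107432704671) (nat_lit 32) (nat_lit 5) (nat_lit 35) (nat_lit 5) (nat_lit 33) (nat_lit 4) (nat_lit 407) (nat_lit 368) (nat_lit 245)) (XT.nd (nat_lit 78) (nat_lit 152) (nat_lit 0) (XT.lf (nat_lit 0) (nat_lit 172953809090) (nat_lit 76) (nat_lit 21696398458) (nat_lit 152) (nat_lit 43778328023) (nat_lit 31) (nat_lit 5) (nat_lit 32) (nat_lit 5) (nat_lit 33) (nat_lit 4) (nat_lit 408) (nat_lit 368) (nat_lit 244))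 (XT.lf (nat_lit 0) (nat_lit 43531084241) (nat_lit 152) (nat_lit 126075864945) (nat_lit 76) (nat_lit 82635825482) (nat_lit 29) (nat_lit 5) (nat_lit 31) (nat_lit 5) (nat_lit 30) (nat_lit 4) (nat_lit 409) (nat_lit 368) (nat_lit 243)))) (XT.nd (nat_lit 78) (nat_lit 152) (nat_lit 0) (XT.lf (nat_lit 0) (nat_lit 69471557385) (nat_lit 76) (nat_lit 69449029829) (nat_lit 152) (nat_lit 128074226069) (nat_lit 28) (nat_lit 5) (nat_lit 29) (nat_lit 5) (nat_lit 30) (nat_lit 4) (nat_lit 410) (nat_lit 368) (nat_lit 242)) (XT.nd (nat_lit 78) (nat_lit 76) (nat_lit 0) (XT.lf (nat_lit 0) (nat_lit 1761494764) (nat_lit 76) (nat_lit 243042908369) (nat_lit 76) (nat_lit 37979454329) (nat_lit 27) (nat_lit 4) (nat_lit 28) (nat_lit 5) (nat_lit 28) (nat_lit 4) (nat_lit 411) (nat_lit 368) (nat_lit 241)) (XT.lf (nat_lit 0) (nat_lit 62091334748) (nat_lit 152) (nat_lit 77777082299) (nat_lit 76) (nat_lit 159687941449) (nat_lit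 26) (nat_lit 5) (nat_lit 28) (nat_lit 5) (nat_lit 27) (nat_lit 4) (nat_lit 412) (nat_lit 368) (nat_lit 240))))) (XT.nd (nat_lit 234) (nat_lit 304) (nat_lit 0) (XT.nd (nat_lit 78) (nat_lit 152) (nat_lit 0) (XT.lf (nat_lit 0) (nat_lit 145750519258) (nat_lit 76) (nat_lit 25379060375) (nat_lit 152) (nat_lit 146395328982) (nat_lit 25) (nat_lit 5) (nat_lit 26) (nat_lit 5) (nat_lit 27) (nat_lit 4) (nat_lit 413) (nat_lit 368) (nat_lit 239)) (XT.nd (nat_lit 78) (nat_lit 76) (nat_lit 0) (XT.lf (nat_lit 0) (nat_lit 53219632466) (nat_lit 76) (nat_lit 239412532752) (nat_lit 76) (nat_lit 44111713555) (nat_lit 24) (nat_lit 4) (nat_lit 25) (nat_lit 5) (nat_lit 25) (nat_lit 4) (nat_lit 414) (nat_lit 368) (nat_lit 238)) (XT.lf (nat_lit 0) (nat_lit 67699121190) (nat_lit 152) (nat_lit 56518274339) (nat_lit 76) (nat_lit 233057757462) (nat_lit 23) (nat_lit 5) (nat_lit 25) (nat_lit 5) (nat_lit 24) (nat_lit 4) (nat_lit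 415) (nat_lit 368) (nat_lit 237)))) (XT.nd (nat_lit 156) (nat_lit 152) (nat_lit 0) (XT.nd (nat_lit 78) (nat_lit 76) (nat_lit 0) (XT.lf (nat_lit 0) (nat_lit 190024766934) (nat_lit 152) (nat_lit 185209447018) (nat_lit 0) (nat_lit 4022787932) (nat_lit 22) (nat_lit 5) (nat_lit 24) (nat_lit 4) (nat_lit 22) (nat_lit 4) (nat_lit 416) (nat_lit 368) (nat_lit 236)) (XT.lf (nat_lit 0) (nat_lit 63653813230) (nat_lit 76) (nat_lit 262570844263) (nat_lit 76) (nat_lit 76568331601) (nat_lit 21) (nat_lit 4) (nat_lit 22) (nat_lit 5) (nat_lit 22) (nat_lit 4) (nat_lit 417) (nat_lit 368) (nat_lit 235))) (XT.nd (nat_lit 78) (nat_lit 76) (nat_lit 0) (XT.lf (nat_lit 0) (nat_lit 46943261276) (nat_lit 152) (nat_lit 89769321174) (nat_lit 76) (nat_lit 291300142395) (nat_lit 20) (nat_lit 5) (nat_lit 22) (nat_lit 5) (nat_lit 21) (nat_lit 4) (nat_lit 418) (nat_lit 368) (nat_lit 234)) (XT.lf (nat_lit 0) (nat_lit 180619484801)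 (nat_lit 152) (nat_lit 270946151246) (nat_lit 0) (nat_lit 3473328306) (nat_lit 19) (nat_lit 5) (nat_lit 21) (nat_lit 4) (nat_lit 19) (nat_lit 4) (nat_lit 419) (nat_lit 368) (nat_lit 233)))))) (XT.nd (nat_lit 546) (nat_lit 228) (nat_lit 0) (XT.nd (nat_lit 234) (nat_lit 228) (nat_lit 0) (XT.nd (nat_lit 78) (nat_lit 228) (nat_lit 0) (XT.lf (nat_lit 0) (nat_lit 328883687550) (nat_lit 152) (nat_lit 3411793859) (nat_lit 0) (nat_lit 151737127592) (nat_lit 19) (nat_lit 5) (nat_lit 21) (nat_lit 4) (nat_lit 19) (nat_lit 4) (nat_lit 420) (nat_lit 368) (nat_lit 232)) (XT.nd (nat_lit 78) (nat_lit 152) (nat_lit 0) (XT.lf (nat_lit 0) (nat_lit 294964757976) (nat_lit 76) (nat_lit 198648845976) (nat_lit 76) (nat_lit 21501912441) (nat_lit 18) (nat_lit 4) (nat_lit 19) (nat_lit 5) (nat_lit 19) (nat_lit 4) (nat_lit 421) (nat_lit 368) (nat_lit 231)) (XT.lf (nat_lit 0) (nat_lit 68937580178) (nat_lit 76) (nat_lit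 51103814757) (nat_lit 152) (nat_lit 428490965891) (nat_lit 16) (nat_lit 5) (nat_lit 17) (nat_lit 5) (nat_lit 18) (nat_lit 4) (nat_lit 422) (nat_lit 368) (nat_lit 230)))) (XT.nd (nat_lit 156) (nat_lit 152) (nat_lit 0) (XT.nd (nat_lit 78) (nat_lit 76) (nat_lit 0) (XT.lf (nat_lit 0) (nat_lit 277752060963) (nat_lit 152) (nat_lit 197532945325) (nat_lit 0) (nat_lit 109040061227) (nat_lit 16) (nat_lit 5) (nat_lit 18) (nat_lit 4) (nat_lit 16) (nat_lit 4) (nat_lit 423) (nat_lit 368) (nat_lit 229)) (XT.lf (nat_lit 0) (nat_lit 109743497766) (nat_lit 76) (nat_lit 340910624051) (nat_lit 76) (nat_lit 172198341879) (nat_lit 15) (nat_lit 4) (nat_lit 16) (nat_lit 5) (nat_lit 16) (nat_lit 4) (nat_lit 424) (nat_lit 368) (nat_lit 228))) (XT.nd (nat_lit 78) (nat_lit 152) (nat_lit 0) (XT.lf (nat_lit 0) (nat_lit 448654829739) (nat_lit 76) (nat_lit 192173873873) (nat_lit 76) (nat_lit 23461330186) (nat_lit 15) (nat_lit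 4) (nat_lit 16) (nat_lit 5) (nat_lit 16) (nat_lit 4) (nat_lit 425) (nat_lit 368) (nat_lit 227)) (XT.lf (nat_lit 0) (nat_lit 106915747451) (nat_lit 76) (nat_lit 27537195613) (nat_lit 152) (nat_lit 574399145151) (nat_lit 13) (nat_lit 5) (nat_lit 14) (nat_lit 5) (nat_lit 15) (nat_lit 4) (nat_lit 426) (nat_lit 368) (nat_lit 226))))) (XT.nd (nat_lit 234) (nat_lit 152) (nat_lit 0) (XT.nd (nat_lit 78) (nat_lit 76) (nat_lit 0) (XT.lf (nat_lit 0) (nat_lit 310352829042) (nat_lit 152) (nat_lit 296624553424) (nat_lit 0) (nat_lit 149673771864) (nat_lit 13) (nat_lit 5) (nat_lit 15) (nat_lit 4) (nat_lit 13) (nat_lit 4) (nat_lit 427) (nat_lit 368) (nat_lit 225)) (XT.nd (nat_lit 78) (nat_lit 0) (nat_lit 0) (XT.lf (nat_lit 0) (nat_lit 33726401524) (nat_lit 76) (nat_lit 467588738705) (nat_lit 76) (nat_lit 306909483813) (nat_lit 12) (nat_lit 4) (nat_lit 13) (nat_lit 5) (nat_lit 13) (nat_lit 4) (nat_lit 428)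 (nat_lit 368) (nat_lit 224)) (XT.lf (nat_lit 0) (nat_lit 401096935818) (nat_lit 76) (nat_lit 311624072448) (nat_lit 76) (nat_lit 150944634489) (nat_lit 12) (nat_lit 4) (nat_lit 13) (nat_lit 5) (nat_lit 13) (nat_lit 4) (nat_lit 429) (nat_lit 368) (nat_lit 223)))) (XT.nd (nat_lit 156) (nat_lit 0) (nat_lit 0) (XT.nd (nat_lit 78) (nat_lit 76) (nat_lit 0) (XT.lf (nat_lit 0) (nat_lit 16936965904) (nat_lit 152) (nat_lit 125958827361) (nat_lit 76) (nat_lit 780632511081) (nat_lit 11) (nat_lit 5) (nat_lit 13) (nat_lit 5) (nat_lit 12) (nat_lit 4) (nat_lit 430) (nat_lit 368) (nat_lit 222)) (XT.lf (nat_lit 0) (nat_lit 197539845935) (nat_lit 152) (nat_lit 745775953150) (nat_lit 0) (nat_lit 44511498871) (nat_lit 10) (nat_lit 5) (nat_lit 12) (nat_lit 4) (nat_lit 10) (nat_lit 4) (nat_lit 431) (nat_lit 368) (nat_lit 221))) (XT.nd (nat_lit 78) (nat_lit 0) (nat_lit 0) (XT.lf (nat_lit 0) (nat_lit 397230162232)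 (nat_lit 152) (nat_lit 415606411783) (nat_lit 0) (nat_lit 244201676763) (nat_lit 10) (nat_lit 5) (nat_lit 12) (nat_lit 4) (nat_lit 10) (nat_lit 4) (nat_lit 432) (nat_lit 368) (nat_lit 220)) (XT.lf (nat_lit 0) (nat_lit 612895362210) (nat_lit 152) (nat_lit 59023986123) (nat_lit 0) (nat_lit 459866748588) (nat_lit 10) (nat_lit 5) (nat_lit 12) (nat_lit 4) (nat_lit 10) (nat_lit 4) (nat_lit 433) (nat_lit 368) (nat_lit 219))))))))
noncomputable def xc92 : XT := (XT.nd (nat_lit 49920) (nat_lit 0) (nat_lit 912) (XT.nd (nat_lit 48906) (nat_lit 0) (nat_lit 3876) (XT.nd (nat_lit 48360) (nat_lit 0) (nat_lit 7068) (XT.nd (nat_lit 48126) (nat_lit 0) (nat_lit 8360) (XT.nd (nat_lit 78) (nat_lit 0) (nat_lit 0) (XT.lf (nat_lit 0) (nat_lit 336866227933) (nat_lit 76) (nat_lit 514206659820) (nat_lit 76) (nat_lit 361177927539) (nat_lit 9) (nat_lit 4) (nat_lit 10) (nat_lit 5) (nat_lit 10) (nat_lit 4) (nat_lit 434)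 (nat_lit 368) (nat_lit 218)) (XT.nd (nat_lit 47970) (nat_lit 0) (nat_lit 8284) (XT.lf (nat_lit 0) (nat_lit 766534785224) (nat_lit 76) (nat_lit 342797687600) (nat_lit 76) (nat_lit 189768845448) (nat_lit 9) (nat_lit 4) (nat_lit 10) (nat_lit 5) (nat_lit 10) (nat_lit 4) (nat_lit 435) (nat_lit 368) (nat_lit 217)) (XT.lf (nat_lit 0) (nat_lit 5004244404) (nat_lit 836) (nat_lit 6978479674) (nat_lit 836) (nat_lit 6978479674) (nat_lit 118) (nat_lit 3) (nat_lit 129) (nat_lit 3) (nat_lit 129) (nat_lit 5) (nat_lit 369) (nat_lit 369) (nat_lit 282)))) (XT.nd (nat_lit 78) (nat_lit 0) (nat_lit 0) (XT.lf (nat_lit 0) (nat_lit 10811867889) (nat_lit 760) (nat_lit 23470876407) (nat_lit 836) (nat_lit 5136369332) (nat_lit 119) (nat_lit 5) (nat_lit 129) (nat_lit 5) (nat_lit 130) (nat_lit 5) (nat_lit 370) (nat_lit 369) (nat_lit 281)) (XT.nd (nat_lit 78) (nat_lit 0) (nat_lit 76) (XT.lf (nat_lit 76) (nat_lit 7550216500)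 (nat_lit 0) (nat_lit 4891393143) (nat_lit 836) (nat_lit 28555845804) (nat_lit 120) (nat_lit 5) (nat_lit 119) (nat_lit 5) (nat_lit 130) (nat_lit 5) (nat_lit 371) (nat_lit 369) (nat_lit 280)) (XT.lf (nat_lit 0) (nat_lit 15030003359) (nat_lit 760) (nat_lit 1220799999) (nat_lit 836) (nat_lit 26409851161) (nat_lit 120) (nat_lit 5) (nat_lit 130) (nat_lit 5) (nat_lit 131) (nat_lit 5) (nat_lit 372) (nat_lit 369) (nat_lit 279))))) (XT.nd (nat_lit 234) (nat_lit 1444) (nat_lit 0) (XT.nd (nat_lit 78) (nat_lit 0) (nat_lit 76) (XT.lf (nat_lit 0) (nat_lit 18694547924) (nat_lit 760) (nat_lit 10073634898) (nat_lit 836) (nat_lit 15645276004) (nat_lit 121) (nat_lit 5) (nat_lit 131) (nat_lit 5) (nat_lit 132) (nat_lit 5) (nat_lit 373) (nat_lit 369) (nat_lit 278)) (XT.nd (nat_lit 78) (nat_lit 0) (nat_lit 0) (XT.lf (nat_lit 0) (nat_lit 23422808968) (nat_lit 760) (nat_lit 19257366948) (nat_lit 836) (nat_lit 3587786949)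 (nat_lit 122) (nat_lit 5) (nat_lit 132) (nat_lit 5) (nat_lit 133) (nat_lit 5) (nat_lit 374) (nat_lit 369) (nat_lit 277)) (XT.lf (nat_lit 76) (nat_lit 19284192617) (nat_lit 0) (nat_lit 10204420799) (nat_lit 836) (nat_lit 18734252495) (nat_lit 123) (nat_lit 5) (nat_lit 122) (nat_lit 5) (nat_lit 133) (nat_lit 5) (nat_lit 375) (nat_lit 369) (nat_lit 276)))) (XT.nd (nat_lit 156) (nat_lit 456) (nat_lit 0) (XT.nd (nat_lit 78) (nat_lit 380) (nat_lit 0) (XT.lf (nat_lit 0) (nat_lit 11240991403) (nat_lit 760) (nat_lit 25698526510) (nat_lit 836) (nat_lit 13349654103) (nat_lit 113) (nat_lit 5) (nat_lit 123) (nat_lit 5) (nat_lit 124) (nat_lit 5) (nat_lit 376) (nat_lit 369) (nat_lit 275)) (XT.lf (nat_lit 0) (nat_lit 2939733782) (nat_lit 380) (nat_lit 42914932922) (nat_lit 456) (nat_lit 6622709718) (nat_lit 108) (nat_lit 5) (nat_lit 113) (nat_lit 5) (nat_lit 114) (nat_lit 5) (nat_lit 377) (nat_lit 369) (nat_lit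 274))) (XT.nd (nat_lit 78) (nat_lit 380) (nat_lit 0) (XT.lf (nat_lit 0) (nat_lit 1742105329) (nat_lit 456) (nat_lit 5584429743) (nat_lit 76) (nat_lit 47457588976) (nat_lit 107) (nat_lit 5) (nat_lit 113) (nat_lit 5) (nat_lit 108) (nat_lit 5) (nat_lit 378) (nat_lit 369) (nat_lit 273)) (XT.lf (nat_lit 0) (nat_lit 11715383617) (nat_lit 456) (nat_lit 14584522688) (nat_lit 76) (nat_lit 30911513418) (nat_lit 102) (nat_lit 5) (nat_lit 108) (nat_lit 5) (nat_lit 103) (nat_lit 5) (nat_lit 379) (nat_lit 369) (nat_lit 272)))))) (XT.nd (nat_lit 468) (nat_lit 1596) (nat_lit 0) (XT.nd (nat_lit 234) (nat_lit 608) (nat_lit 0) (XT.nd (nat_lit 78) (nat_lit 608) (nat_lit 0) (XT.lf (nat_lit 0) (nat_lit 23468828696) (nat_lit 456) (nat_lit 23901517737) (nat_lit 76) (nat_lit 12413439214) (nat_lit 97) (nat_lit 5) (nat_lit 103) (nat_lit 5) (nat_lit 98) (nat_lit 5) (nat_lit 380) (nat_lit 369) (nat_lit 271)) (XT.nd (nat_lit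 78) (nat_lit 304) (nat_lit 0) (XT.lf (nat_lit 0) (nat_lit 28828980478) (nat_lit 304) (nat_lit 8481742740) (nat_lit 380) (nat_lit 25193810623) (nat_lit 93) (nat_lit 5) (nat_lit 97) (nat_lit 5) (nat_lit 98) (nat_lit 5) (nat_lit 381) (nat_lit 369) (nat_lit 270)) (XT.lf (nat_lit 0) (nat_lit 21358730835) (nat_lit 304) (nat_lit 32177781009) (nat_lit 380) (nat_lit 11842604477) (nat_lit 89) (nat_lit 5) (nat_lit 93) (nat_lit 5) (nat_lit 94) (nat_lit 5) (nat_lit 382) (nat_lit 369) (nat_lit 269)))) (XT.nd (nat_lit 78) (nat_lit 304) (nat_lit 0) (XT.lf (nat_lit 0) (nat_lit 3606954095) (nat_lit 304) (nat_lit 54807147965) (nat_lit 76) (nat_lit 10011916925) (nat_lit 85) (nat_lit 5) (nat_lit 89) (nat_lit 5) (nat_lit 86) (nat_lit 5) (nat_lit 383) (nat_lit 369) (nat_lit 268)) (XT.nd (nat_lit 78) (nat_lit 0) (nat_lit 0) (XT.lf (nat_lit 0) (nat_lit 5169550156) (nat_lit 304) (nat_lit 16113130296) (nat_lit 380)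 (nat_lit 50354032118) (nat_lit 81) (nat_lit 5) (nat_lit 85) (nat_lit 5) (nat_lit 86) (nat_lit 5) (nat_lit 384) (nat_lit 369) (nat_lit 267)) (XT.lf (nat_lit 0) (nat_lit 41801577412) (nat_lit 380) (nat_lit 3636271586) (nat_lit 76) (nat_lit 29594958201) (nat_lit 81) (nat_lit 5) (nat_lit 86) (nat_lit 5) (nat_lit 82) (nat_lit 5) (nat_lit 385) (nat_lit 369) (nat_lit 266))))) (XT.nd (nat_lit 234) (nat_lit 836) (nat_lit 0) (XT.nd (nat_lit 78) (nat_lit 532) (nat_lit 0) (XT.lf (nat_lit 0) (nat_lit 65274795367) (nat_lit 304) (nat_lit 12587931500) (nat_lit 76) (nat_lit 772223160) (nat_lit 78) (nat_lit 5) (nat_lit 82) (nat_lit 5) (nat_lit 79) (nat_lit 5) (nat_lit 386) (nat_lit 369) (nat_lit 265)) (XT.nd (nat_lit 78) (nat_lit 228) (nat_lit 0) (XT.lf (nat_lit 0) (nat_lit 9636007572) (nat_lit 304) (nat_lit 22528033373) (nat_lit 76) (nat_lit 50265167087) (nat_lit 74) (nat_lit 5) (nat_lit 78) (nat_lit 5) (nat_lit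 75) (nat_lit 5) (nat_lit 387) (nat_lit 369) (nat_lit 264)) (XT.lf (nat_lit 0) (nat_lit 35356805842) (nat_lit 304) (nat_lit 33146099791) (nat_lit 76) (nat_lit 17945500103) (nat_lit 71) (nat_lit 5) (nat_lit 75) (nat_lit 5) (nat_lit 72) (nat_lit 5) (nat_lit 388) (nat_lit 369) (nat_lit 263)))) (XT.nd (nat_lit 156) (nat_lit 380) (nat_lit 0) (XT.nd (nat_lit 78) (nat_lit 228) (nat_lit 0) (XT.lf (nat_lit 0) (nat_lit 46159158177) (nat_lit 228) (nat_lit 18635606626) (nat_lit 304) (nat_lit 25911400434) (nat_lit 68) (nat_lit 5) (nat_lit 71) (nat_lit 5) (nat_lit 72) (nat_lit 5) (nat_lit 389) (nat_lit 369) (nat_lit 262)) (XT.lf (nat_lit 0) (nat_lit 3004301598) (nat_lit 228) (nat_lit 56883819100) (nat_lit 76) (nat_lit 35327315926) (nat_lit 65) (nat_lit 5) (nat_lit 68) (nat_lit 5) (nat_lit 66) (nat_lit 5) (nat_lit 390) (nat_lit 369) (nat_lit 261))) (XT.nd (nat_lit 78) (nat_lit 152) (nat_lit 0) (XT.lf (nat_lit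 0) (nat_lit 29563657971) (nat_lit 228) (nat_lit 5336242616) (nat_lit 304) (nat_lit 65085588454) (nat_lit 62) (nat_lit 5) (nat_lit 65) (nat_lit 5) (nat_lit 66) (nat_lit 5) (nat_lit 391) (nat_lit 369) (nat_lit 260)) (XT.lf (nat_lit 0) (nat_lit 19643286318) (nat_lit 152) (nat_lit 51852107290) (nat_lit 228) (nat_lit 33534340362) (nat_lit 60) (nat_lit 5) (nat_lit 62) (nat_lit 5) (nat_lit 63) (nat_lit 5) (nat_lit 392) (nat_lit 369) (nat_lit 259))))))) (XT.nd (nat_lit 1014) (nat_lit 1140) (nat_lit 0) (XT.nd (nat_lit 468) (nat_lit 912) (nat_lit 0) (XT.nd (nat_lit 234) (nat_lit 532) (nat_lit 0) (XT.nd (nat_lit 78) (nat_lit 152) (nat_lit 0) (XT.lf (nat_lit 0) (nat_lit 2113995347) (nat_lit 228) (nat_lit 101330941055) (nat_lit 76) (nat_lit 6952645142) (nat_lit 57) (nat_lit 5) (nat_lit 60) (nat_lit 5) (nat_lit 58) (nat_lit 5) (nat_lit 393) (nat_lit 369) (nat_lit 258)) (XT.nd (nat_lit 78) (nat_lit 152)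 (nat_lit 0) (XT.lf (nat_lit 0) (nat_lit 41839168584) (nat_lit 228) (nat_lit 3462689990) (nat_lit 76) (nat_lit 70745519164) (nat_lit 57) (nat_lit 5) (nat_lit 60) (nat_lit 5) (nat_lit 58) (nat_lit 5) (nat_lit 394) (nat_lit 369) (nat_lit 257)) (XT.lf (nat_lit 0) (nat_lit 86689589840) (nat_lit 228) (nat_lit 16754561884) (nat_lit 76) (nat_lit 18607644668) (nat_lit 55) (nat_lit 5) (nat_lit 58) (nat_lit 5) (nat_lit 56) (nat_lit 5) (nat_lit 395) (nat_lit 369) (nat_lit 256)))) (XT.nd (nat_lit 78) (nat_lit 304) (nat_lit 0) (XT.lf (nat_lit 0) (nat_lit 8751567734) (nat_lit 228) (nat_lit 31886557545) (nat_lit 76) (nat_lit 87774745111) (nat_lit 52) (nat_lit 5) (nat_lit 55) (nat_lit 5) (nat_lit 53) (nat_lit 5) (nat_lit 396) (nat_lit 369) (nat_lit 255)) (XT.nd (nat_lit 78) (nat_lit 152) (nat_lit 0) (XT.lf (nat_lit 0) (nat_lit 57276655701) (nat_lit 228) (nat_lit 49272190312) (nat_lit 76) (nat_lit 28598942705)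 (nat_lit 50) (nat_lit 5) (nat_lit 53) (nat_lit 5) (nat_lit 51) (nat_lit 5) (nat_lit 397) (nat_lit 369) (nat_lit 254)) (XT.lf (nat_lit 0) (nat_lit 73457696086) (nat_lit 152) (nat_lit 38621117852) (nat_lit 228) (nat_lit 30222933771) (nat_lit 48) (nat_lit 5) (nat_lit 50) (nat_lit 5) (nat_lit 51) (nat_lit 5) (nat_lit 398) (nat_lit 369) (nat_lit 253))))) (XT.nd (nat_lit 234) (nat_lit 532) (nat_lit 0) (XT.nd (nat_lit 78) (nat_lit 228) (nat_lit 0) (XT.lf (nat_lit 0) (nat_lit 22931844285) (nat_lit 152) (nat_lit 91167874884) (nat_lit 76) (nat_lit 35793003845) (nat_lit 46) (nat_lit 5) (nat_lit 48) (nat_lit 5) (nat_lit 47) (nat_lit 5) (nat_lit 399) (nat_lit 369) (nat_lit 252)) (XT.nd (nat_lit 78) (nat_lit 76) (nat_lit 0) (XT.lf (nat_lit 0) (nat_lit 41057646757) (nat_lit 152) (nat_lit 40746286582) (nat_lit 228) (nat_lit 76136080744) (nat_lit 44) (nat_lit 5) (nat_lit 46) (nat_lit 5) (nat_lit 47) (nat_lit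 5) (nat_lit 400) (nat_lit 369) (nat_lit 251)) (XT.lf (nat_lit 0) (nat_lit 20594982889) (nat_lit 76) (nat_lit 127325746977) (nat_lit 152) (nat_lit 18583611824) (nat_lit 43) (nat_lit 5) (nat_lit 44) (nat_lit 5) (nat_lit 45) (nat_lit 4) (nat_lit 401) (nat_lit 369) (nat_lit 250)))) (XT.nd (nat_lit 156) (nat_lit 304) (nat_lit 0) (XT.nd (nat_lit 78) (nat_lit 152) (nat_lit 0) (XT.lf (nat_lit 0) (nat_lit 44933505958) (nat_lit 152) (nat_lit 3810872439) (nat_lit 76) (nat_lit 126837669410) (nat_lit 42) (nat_lit 5) (nat_lit 44) (nat_lit 5) (nat_lit 43) (nat_lit 5) (nat_lit 402) (nat_lit 369) (nat_lit 249)) (XT.lf (nat_lit 0) (nat_lit 115905637106) (nat_lit 228) (nat_lit 31580835473) (nat_lit 76) (nat_lit 37733029427) (nat_lit 40) (nat_lit 5) (nat_lit 43) (nat_lit 5) (nat_lit 41) (nat_lit 4) (nat_lit 403) (nat_lit 369) (nat_lit 248))) (XT.nd (nat_lit 78) (nat_lit 152) (nat_lit 0) (XT.lf (nat_lit 0) (nat_lit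 16671880) (nat_lit 152) (nat_lit 63899285384) (nat_lit 76) (nat_lit 131564856459) (nat_lit 38) (nat_lit 5) (nat_lit 40) (nat_lit 5) (nat_lit 39) (nat_lit 5) (nat_lit 404) (nat_lit 369) (nat_lit 247)) (XT.lf (nat_lit 0) (nat_lit 75154353424) (nat_lit 228) (nat_lit 102305823014) (nat_lit 76) (nat_lit 28911583377) (nat_lit 36) (nat_lit 5) (nat_lit 39) (nat_lit 5) (nat_lit 37) (nat_lit 4) (nat_lit 405) (nat_lit 369) (nat_lit 246)))))) (XT.nd (nat_lit 468) (nat_lit 532) (nat_lit 0) (XT.nd (nat_lit 234) (nat_lit 304) (nat_lit 0) (XT.nd (nat_lit 78) (nat_lit 228) (nat_lit 0) (XT.lf (nat_lit 0) (nat_lit 70841111210) (nat_lit 76) (nat_lit 88775878638) (nat_lit 152) (nat_lit 58351294893) (nat_lit 35) (nat_lit 5) (nat_lit 36) (nat_lit 5) (nat_lit 37) (nat_lit 4) (nat_lit 406) (nat_lit 369) (nat_lit 245)) (XT.nd (nat_lit 78) (nat_lit 0) (nat_lit 0) (XT.lf (nat_lit 0) (nat_lit 22151331515) (nat_lit 228)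 (nat_lit 198756512777) (nat_lit 76) (nat_lit 9445887872) (nat_lit 32) (nat_lit 5) (nat_lit 35) (nat_lit 5) (nat_lit 33) (nat_lit 4) (nat_lit 407) (nat_lit 369) (nat_lit 244)) (XT.lf (nat_lit 0) (nat_lit 111177866122) (nat_lit 228) (nat_lit 16253317470) (nat_lit 76) (nat_lit 116044600831) (nat_lit 32) (nat_lit 5) (nat_lit 35) (nat_lit 5) (nat_lit 33) (nat_lit 4) (nat_lit 408) (nat_lit 369) (nat_lit 243)))) (XT.nd (nat_lit 78) (nat_lit 228) (nat_lit 0) (XT.lf (nat_lit 0) (nat_lit 186827917899) (nat_lit 76) (nat_lit 23414507770) (nat_lit 152) (nat_lit 47259380214) (nat_lit 31) (nat_lit 5) (nat_lit 32) (nat_lit 5) (nat_lit 33) (nat_lit 4) (nat_lit 409) (nat_lit 369) (nat_lit 242)) (XT.nd (nat_lit 78) (nat_lit 76) (nat_lit 0) (XT.lf (nat_lit 0) (nat_lit 47033428603) (nat_lit 152) (nat_lit 136124408580) (nat_lit 76) (nat_lit 89263364410) (nat_lit 29) (nat_lit 5) (nat_lit 31) (nat_lit 5) (nat_lit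 30) (nat_lit 4) (nat_lit 410) (nat_lit 369) (nat_lit 241)) (XT.lf (nat_lit 0) (nat_lit 75065176721) (nat_lit 76) (nat_lit 74988004575) (nat_lit 152) (nat_lit 138300267687) (nat_lit 28) (nat_lit 5) (nat_lit 29) (nat_lit 5) (nat_lit 30) (nat_lit 4) (nat_lit 411) (nat_lit 369) (nat_lit 240))))) (XT.nd (nat_lit 234) (nat_lit 304) (nat_lit 0) (XT.nd (nat_lit 78) (nat_lit 152) (nat_lit 0) (XT.lf (nat_lit 0) (nat_lit 1937404151) (nat_lit 76) (nat_lit 262469686137) (nat_lit 76) (nat_lit 40998557168) (nat_lit 27) (nat_lit 4) (nat_lit 28) (nat_lit 5) (nat_lit 28) (nat_lit 4) (nat_lit 412) (nat_lit 369) (nat_lit 239)) (XT.nd (nat_lit 78) (nat_lit 76) (nat_lit 0) (XT.lf (nat_lit 0) (nat_lit 67075898264) (nat_lit 152) (nat_lit 83966278690) (nat_lit 76) (nat_lit 172477825746) (nat_lit 26) (nat_lit 5) (nat_lit 28) (nat_lit 5) (nat_lit 27) (nat_lit 4) (nat_lit 413) (nat_lit 369) (nat_lit 238)) (XT.lf (nat_lit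 0) (nat_lit 157442098147) (nat_lit 76) (nat_lit 27394318703) (nat_lit 152) (nat_lit 158089659395) (nat_lit 25) (nat_lit 5) (nat_lit 26) (nat_lit 5) (nat_lit 27) (nat_lit 4) (nat_lit 414) (nat_lit 369) (nat_lit 237)))) (XT.nd (nat_lit 156) (nat_lit 152) (nat_lit 0) (XT.nd (nat_lit 78) (nat_lit 76) (nat_lit 0) (XT.lf (nat_lit 0) (nat_lit 57507934033) (nat_lit 76) (nat_lit 258550752788) (nat_lit 76) (nat_lit 47623903430) (nat_lit 24) (nat_lit 4) (nat_lit 25) (nat_lit 5) (nat_lit 25) (nat_lit 4) (nat_lit 415) (nat_lit 369) (nat_lit 236)) (XT.lf (nat_lit 0) (nat_lit 73130061251) (nat_lit 152) (nat_lit 61010784135) (nat_lit 76) (nat_lit 251715568087) (nat_lit 23) (nat_lit 5) (nat_lit 25) (nat_lit 5) (nat_lit 24) (nat_lit 4) (nat_lit 416) (nat_lit 369) (nat_lit 235))) (XT.nd (nat_lit 78) (nat_lit 76) (nat_lit 0) (XT.lf (nat_lit 0) (nat_lit 205241287790) (nat_lit 152) (nat_lit 199997999799) (nat_lit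 0) (nat_lit 4357546325) (nat_lit 22) (nat_lit 5) (nat_lit 24) (nat_lit 4) (nat_lit 22) (nat_lit 4) (nat_lit 417) (nat_lit 369) (nat_lit 234)) (XT.lf (nat_lit 0) (nat_lit 68773095603) (nat_lit 76) (nat_lit 283563418183) (nat_lit 76) (nat_lit 82679219190) (nat_lit 21) (nat_lit 4) (nat_lit 22) (nat_lit 5) (nat_lit 22) (nat_lit 4) (nat_lit 418) (nat_lit 369) (nat_lit 233))))))))
noncomputable def xc93 : XT := (XT.nd (nat_lit 50076) (nat_lit 0) (nat_lit 1976) (XT.nd (nat_lit 1014) (nat_lit 76) (nat_lit 0) (XT.nd (nat_lit 468) (nat_lit 380) (nat_lit 0) (XT.nd (nat_lit 234) (nat_lit 228) (nat_lit 0) (XT.nd (nat_lit 78) (nat_lit 76) (nat_lit 0) (XT.lf (nat_lit 0) (nat_lit 50711789143) (nat_lit 152) (nat_lit 96925454884) (nat_lit 76) (nat_lit 314615844521) (nat_lit 20) (nat_lit 5) (nat_lit 22) (nat_lit 5) (nat_lit 21) (nat_lit 4) (nat_lit 419) (nat_lit 369) (nat_lit 232)) (XT.nd (nat_lit 78) (nat_lit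 0) (nat_lit 0) (XT.lf (nat_lit 0) (nat_lit 195081706821) (nat_lit 152) (nat_lit 292597095625) (nat_lit 0) (nat_lit 3762645025) (nat_lit 19) (nat_lit 5) (nat_lit 21) (nat_lit 4) (nat_lit 19) (nat_lit 4) (nat_lit 420) (nat_lit 369) (nat_lit 231)) (XT.lf (nat_lit 0) (nat_lit 355206107773) (nat_lit 152) (nat_lit 3661822812) (nat_lit 0) (nat_lit 163886700072) (nat_lit 19) (nat_lit 5) (nat_lit 21) (nat_lit 4) (nat_lit 19) (nat_lit 4) (nat_lit 421) (nat_lit 369) (nat_lit 230)))) (XT.nd (nat_lit 78) (nat_lit 152) (nat_lit 0) (XT.lf (nat_lit 0) (nat_lit 318583857330) (nat_lit 76) (nat_lit 214530033834) (nat_lit 76) (nat_lit 23210305851) (nat_lit 18) (nat_lit 4) (nat_lit 19) (nat_lit 5) (nat_lit 19) (nat_lit 4) (nat_lit 422) (nat_lit 369) (nat_lit 229)) (XT.nd (nat_lit 78) (nat_lit 0) (nat_lit 0) (XT.lf (nat_lit 0) (nat_lit 74473913449) (nat_lit 76) (nat_lit 55181666058) (nat_lit 152) (nat_lit 462758825881)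 (nat_lit 16) (nat_lit 5) (nat_lit 17) (nat_lit 5) (nat_lit 18) (nat_lit 4) (nat_lit 423) (nat_lit 369) (nat_lit 228)) (XT.lf (nat_lit 0) (nat_lit 299982444535) (nat_lit 152) (nat_lit 213315481001) (nat_lit 0) (nat_lit 117772635839) (nat_lit 16) (nat_lit 5) (nat_lit 18) (nat_lit 4) (nat_lit 16) (nat_lit 4) (nat_lit 424) (nat_lit 369) (nat_lit 227))))) (XT.nd (nat_lit 234) (nat_lit 152) (nat_lit 0) (XT.nd (nat_lit 78) (nat_lit 152) (nat_lit 0) (XT.lf (nat_lit 0) (nat_lit 118542204019) (nat_lit 76) (nat_lit 368174009477) (nat_lit 76) (nat_lit 185963958637) (nat_lit 15) (nat_lit 4) (nat_lit 16) (nat_lit 5) (nat_lit 16) (nat_lit 4) (nat_lit 425) (nat_lit 369) (nat_lit 226)) (XT.nd (nat_lit 78) (nat_lit 152) (nat_lit 0) (XT.lf (nat_lit 0) (nat_lit 484565018369) (nat_lit 76) (nat_lit 207539020359) (nat_lit 76) (nat_lit 25328745312) (nat_lit 15) (nat_lit 4) (nat_lit 16) (nat_lit 5) (nat_lit 16) (nat_lit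 4) (nat_lit 426) (nat_lit 369) (nat_lit 225)) (XT.lf (nat_lit 0) (nat_lit 115486326886) (nat_lit 76) (nat_lit 29731628982) (nat_lit 152) (nat_lit 620341860076) (nat_lit 13) (nat_lit 5) (nat_lit 14) (nat_lit 5) (nat_lit 15) (nat_lit 4) (nat_lit 427) (nat_lit 369) (nat_lit 224)))) (XT.nd (nat_lit 156) (nat_lit 76) (nat_lit 0) (XT.nd (nat_lit 78) (nat_lit 76) (nat_lit 0) (XT.lf (nat_lit 0) (nat_lit 335189306041) (nat_lit 152) (nat_lit 320338197700) (nat_lit 0) (nat_lit 161655329977) (nat_lit 13) (nat_lit 5) (nat_lit 15) (nat_lit 4) (nat_lit 13) (nat_lit 4) (nat_lit 428) (nat_lit 369) (nat_lit 223)) (XT.lf (nat_lit 0) (nat_lit 36440124397) (nat_lit 76) (nat_lit 504988110292) (nat_lit 76) (nat_lit 331453964721) (nat_lit 12) (nat_lit 4) (nat_lit 13) (nat_lit 5) (nat_lit 13) (nat_lit 4) (nat_lit 429) (nat_lit 369) (nat_lit 222))) (XT.nd (nat_lit 78) (nat_lit 76) (nat_lit 0) (XT.lf (nat_lit 0) (nat_lit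 433199145083) (nat_lit 76) (nat_lit 336546843143) (nat_lit 76) (nat_lit 163012540621) (nat_lit 12) (nat_lit 4) (nat_lit 13) (nat_lit 5) (nat_lit 13) (nat_lit 4) (nat_lit 430) (nat_lit 369) (nat_lit 221)) (XT.lf (nat_lit 0) (nat_lit 18298792909) (nat_lit 152) (nat_lit 136021922382) (nat_lit 76) (nat_lit 843089509595) (nat_lit 11) (nat_lit 5) (nat_lit 13) (nat_lit 5) (nat_lit 12) (nat_lit 4) (nat_lit 431) (nat_lit 369) (nat_lit 220)))))) (XT.nd (nat_lit 48516) (nat_lit 0) (nat_lit 7372) (XT.nd (nat_lit 48282) (nat_lit 0) (nat_lit 8208) (XT.nd (nat_lit 78) (nat_lit 0) (nat_lit 0) (XT.lf (nat_lit 0) (nat_lit 213349698535) (nat_lit 152) (nat_lit 805424782043) (nat_lit 0) (nat_lit 48078667671) (nat_lit 10) (nat_lit 5) (nat_lit 12) (nat_lit 4) (nat_lit 10) (nat_lit 4) (nat_lit 432) (nat_lit 369) (nat_lit 219)) (XT.nd (nat_lit 78) (nat_lit 0) (nat_lit 0) (XT.lf (nat_lit 0) (nat_lit 429014746438)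 (nat_lit 152) (nat_lit 448842658652) (nat_lit 0) (nat_lit 263743596914) (nat_lit 10) (nat_lit 5) (nat_lit 12) (nat_lit 4) (nat_lit 10) (nat_lit 4) (nat_lit 433) (nat_lit 369) (nat_lit 218)) (XT.lf (nat_lit 0) (nat_lit 661932705286) (nat_lit 152) (nat_lit 63734547538) (nat_lit 0) (nat_lit 496661445892) (nat_lit 10) (nat_lit 5) (nat_lit 12) (nat_lit 4) (nat_lit 10) (nat_lit 4) (nat_lit 434) (nat_lit 369) (nat_lit 217)))) (XT.nd (nat_lit 78) (nat_lit 0) (nat_lit 76) (XT.lf (nat_lit 0) (nat_lit 5472744375) (nat_lit 836) (nat_lit 7500955187) (nat_lit 836) (nat_lit 7500955187) (nat_lit 118) (nat_lit 3) (nat_lit 129) (nat_lit 3) (nat_lit 129) (nat_lit 5) (nat_lit 370) (nat_lit 370) (nat_lit 280)) (XT.nd (nat_lit 78) (nat_lit 0) (nat_lit 0) (XT.lf (nat_lit 0) (nat_lit 11803191689) (nat_lit 760) (nat_lit 25272701029) (nat_lit 836) (nat_lit 5490362244) (nat_lit 119) (nat_lit 5) (nat_lit 129) (nat_lit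 5) (nat_lit 130) (nat_lit 5) (nat_lit 371) (nat_lit 370) (nat_lit 279)) (XT.lf (nat_lit 76) (nat_lit 8226783158) (nat_lit 0) (nat_lit 5328301260) (nat_lit 836) (nat_lit 30716196241) (nat_lit 120) (nat_lit 5) (nat_lit 119) (nat_lit 5) (nat_lit 130) (nat_lit 5) (nat_lit 372) (nat_lit 370) (nat_lit 278))))) (XT.nd (nat_lit 234) (nat_lit 988) (nat_lit 0) (XT.nd (nat_lit 78) (nat_lit 0) (nat_lit 76) (XT.lf (nat_lit 0) (nat_lit 16341138916) (nat_lit 760) (nat_lit 1245100616) (nat_lit 836) (nat_lit 28481771396) (nat_lit 120) (nat_lit 5) (nat_lit 130) (nat_lit 5) (nat_lit 131) (nat_lit 5) (nat_lit 373) (nat_lit 370) (nat_lit 277)) (XT.nd (nat_lit 78) (nat_lit 0) (nat_lit 76) (XT.lf (nat_lit 0) (nat_lit 20291394824) (nat_lit 760) (nat_lit 10803713577) (nat_lit 836) (nat_lit 16866308173) (nat_lit 121) (nat_lit 5) (nat_lit 131) (nat_lit 5) (nat_lit 132) (nat_lit 5) (nat_lit 374) (nat_lit 370) (nat_lit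 276)) (XT.lf (nat_lit 0) (nat_lit 25391196848) (nat_lit 760) (nat_lit 20720292852) (nat_lit 836) (nat_lit 3853131292) (nat_lit 122) (nat_lit 5) (nat_lit 132) (nat_lit 5) (nat_lit 133) (nat_lit 5) (nat_lit 375) (nat_lit 370) (nat_lit 275)))) (XT.nd (nat_lit 156) (nat_lit 456) (nat_lit 0) (XT.nd (nat_lit 78) (nat_lit 684) (nat_lit 0) (XT.lf (nat_lit 76) (nat_lit 20901216319) (nat_lit 0) (nat_lit 11035204502) (nat_lit 836) (nat_lit 20139791460) (nat_lit 123) (nat_lit 5) (nat_lit 122) (nat_lit 5) (nat_lit 133) (nat_lit 5) (nat_lit 376) (nat_lit 370) (nat_lit 274)) (XT.lf (nat_lit 0) (nat_lit 12215834113) (nat_lit 760) (nat_lit 27761962989) (nat_lit 836) (nat_lit 14330309283) (nat_lit 113) (nat_lit 5) (nat_lit 123) (nat_lit 5) (nat_lit 124) (nat_lit 5) (nat_lit 377) (nat_lit 370) (nat_lit 273))) (XT.nd (nat_lit 78) (nat_lit 76) (nat_lit 0) (XT.lf (nat_lit 0) (nat_lit 3251321701) (nat_lit 380)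 (nat_lit 46349762978) (nat_lit 456) (nat_lit 7070539343) (nat_lit 108) (nat_lit 5) (nat_lit 113) (nat_lit 5) (nat_lit 114) (nat_lit 5) (nat_lit 378) (nat_lit 370) (nat_lit 272)) (XT.lf (nat_lit 0) (nat_lit 1954958063) (nat_lit 456) (nat_lit 5957969602) (nat_lit 76) (nat_lit 51250216568) (nat_lit 107) (nat_lit 5) (nat_lit 113) (nat_lit 5) (nat_lit 108) (nat_lit 5) (nat_lit 379) (nat_lit 370) (nat_lit 271))))))) (XT.nd (nat_lit 1014) (nat_lit 1976) (nat_lit 0) (XT.nd (nat_lit 468) (nat_lit 1444) (nat_lit 0) (XT.nd (nat_lit 234) (nat_lit 912) (nat_lit 0) (XT.nd (nat_lit 78) (nat_lit 684) (nat_lit 0) (XT.lf (nat_lit 0) (nat_lit 12721762764) (nat_lit 456) (nat_lit 15677776208) (nat_lit 76) (nat_lit 33385304016) (nat_lit 102) (nat_lit 5) (nat_lit 108) (nat_lit 5) (nat_lit 103) (nat_lit 5) (nat_lit 380) (nat_lit 370) (nat_lit 270)) (XT.nd (nat_lit 78) (nat_lit 304) (nat_lit 0) (XT.lf (nat_lit 0)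 (nat_lit 25411540159) (nat_lit 456) (nat_lit 25740119804) (nat_lit 76) (nat_lit 13411537824) (nat_lit 97) (nat_lit 5) (nat_lit 103) (nat_lit 5) (nat_lit 98) (nat_lit 5) (nat_lit 381) (nat_lit 370) (nat_lit 269)) (XT.lf (nat_lit 0) (nat_lit 31205623207) (nat_lit 304) (nat_lit 9151430982) (nat_lit 380) (nat_lit 27144740504) (nat_lit 93) (nat_lit 5) (nat_lit 97) (nat_lit 5) (nat_lit 98) (nat_lit 5) (nat_lit 382) (nat_lit 370) (nat_lit 268)))) (XT.nd (nat_lit 78) (nat_lit 608) (nat_lit 0) (XT.lf (nat_lit 0) (nat_lit 23137532252) (nat_lit 304) (nat_lit 34740042549) (nat_lit 380) (nat_lit 12728937616) (nat_lit 89) (nat_lit 5) (nat_lit 93) (nat_lit 5) (nat_lit 94) (nat_lit 5) (nat_lit 383) (nat_lit 370) (nat_lit 267)) (XT.nd (nat_lit 78) (nat_lit 304) (nat_lit 0) (XT.lf (nat_lit 0) (nat_lit 3951533098) (nat_lit 304) (nat_lit 59120160945) (nat_lit 76) (nat_lit 10825582302) (nat_lit 85) (nat_lit 5)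 (nat_lit 89) (nat_lit 5) (nat_lit 86) (nat_lit 5) (nat_lit 384) (nat_lit 370) (nat_lit 266)) (XT.lf (nat_lit 0) (nat_lit 5651563166) (nat_lit 304) (nat_lit 17386673251) (nat_lit 380) (nat_lit 54326744764) (nat_lit 81) (nat_lit 5) (nat_lit 85) (nat_lit 5) (nat_lit 86) (nat_lit 5) (nat_lit 385) (nat_lit 370) (nat_lit 265))))) (XT.nd (nat_lit 234) (nat_lit 912) (nat_lit 0) (XT.nd (nat_lit 78) (nat_lit 532) (nat_lit 0) (XT.lf (nat_lit 0) (nat_lit 45194947718) (nat_lit 380) (nat_lit 3861548056) (nat_lit 76) (nat_lit 31976454054) (nat_lit 81) (nat_lit 5) (nat_lit 86) (nat_lit 5) (nat_lit 82) (nat_lit 5) (nat_lit 386) (nat_lit 370) (nat_lit 264)) (XT.nd (nat_lit 78) (nat_lit 304) (nat_lit 0) (XT.lf (nat_lit 0) (nat_lit 70543608342) (nat_lit 304) (nat_lit 13530098532) (nat_lit 76) (nat_lit 849679409) (nat_lit 78) (nat_lit 5) (nat_lit 82) (nat_lit 5) (nat_lit 79) (nat_lit 5) (nat_lit 387) (nat_lit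 370) (nat_lit 263)) (XT.lf (nat_lit 0) (nat_lit 10451960525) (nat_lit 304) (nat_lit 24266721204) (nat_lit 76) (nat_lit 54302593211) (nat_lit 74) (nat_lit 5) (nat_lit 78) (nat_lit 5) (nat_lit 75) (nat_lit 5) (nat_lit 388) (nat_lit 370) (nat_lit 262)))) (XT.nd (nat_lit 156) (nat_lit 456) (nat_lit 0) (XT.nd (nat_lit 78) (nat_lit 228) (nat_lit 0) (XT.lf (nat_lit 0) (nat_lit 38228315858) (nat_lit 304) (nat_lit 35735128635) (nat_lit 76) (nat_lit 19398670500) (nat_lit 71) (nat_lit 5) (nat_lit 75) (nat_lit 5) (nat_lit 72) (nat_lit 5) (nat_lit 389) (nat_lit 370) (nat_lit 261)) (XT.lf (nat_lit 0) (nat_lit 49911826881) (nat_lit 228) (nat_lit 20107237792) (nat_lit 304) (nat_lit 27941544031) (nat_lit 68) (nat_lit 5) (nat_lit 71) (nat_lit 5) (nat_lit 72) (nat_lit 5) (nat_lit 390) (nat_lit 370) (nat_lit 260))) (XT.nd (nat_lit 78) (nat_lit 228) (nat_lit 0) (XT.lf (nat_lit 0) (nat_lit 3284197373) (nat_lit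 228) (nat_lit 61374199709) (nat_lit 76) (nat_lit 38172284704) (nat_lit 65) (nat_lit 5) (nat_lit 68) (nat_lit 5) (nat_lit 66) (nat_lit 5) (nat_lit 391) (nat_lit 370) (nat_lit 259)) (XT.lf (nat_lit 0) (nat_lit 31986453881) (nat_lit 228) (nat_lit 5742961558) (nat_lit 304) (nat_lit 70253025302) (nat_lit 62) (nat_lit 5) (nat_lit 65) (nat_lit 5) (nat_lit 66) (nat_lit 5) (nat_lit 392) (nat_lit 370) (nat_lit 258)))))) (XT.nd (nat_lit 546) (nat_lit 912) (nat_lit 0) (XT.nd (nat_lit 234) (nat_lit 684) (nat_lit 0) (XT.nd (nat_lit 78) (nat_lit 228) (nat_lit 0) (XT.lf (nat_lit 0) (nat_lit 21271448799) (nat_lit 152) (nat_lit 55979496611) (nat_lit 228) (nat_lit 36179360816) (nat_lit 60) (nat_lit 5) (nat_lit 62) (nat_lit 5) (nat_lit 63) (nat_lit 5) (nat_lit 393) (nat_lit 370) (nat_lit 257)) (XT.nd (nat_lit 78) (nat_lit 0) (nat_lit 0) (XT.lf (nat_lit 0) (nat_lit 2318117586) (nat_lit 228) (nat_lit 109380596669)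 (nat_lit 76) (nat_lit 7528914469) (nat_lit 57) (nat_lit 5) (nat_lit 60) (nat_lit 5) (nat_lit 58) (nat_lit 5) (nat_lit 394) (nat_lit 370) (nat_lit 256)) (XT.lf (nat_lit 0) (nat_lit 45218711897) (nat_lit 228) (nat_lit 3687094383) (nat_lit 76) (nat_lit 76423732656) (nat_lit 57) (nat_lit 5) (nat_lit 60) (nat_lit 5) (nat_lit 58) (nat_lit 5) (nat_lit 395) (nat_lit 370) (nat_lit 255)))) (XT.nd (nat_lit 156) (nat_lit 304) (nat_lit 0) (XT.nd (nat_lit 78) (nat_lit 228) (nat_lit 0) (XT.lf (nat_lit 0) (nat_lit 93655856742) (nat_lit 228) (nat_lit 18043359703) (nat_lit 76) (nat_lit 20115160775) (nat_lit 55) (nat_lit 5) (nat_lit 58) (nat_lit 5) (nat_lit 56) (nat_lit 5) (nat_lit 396) (nat_lit 370) (nat_lit 254)) (XT.lf (nat_lit 0) (nat_lit 9481751074) (nat_lit 228) (nat_lit 34387155246) (nat_lit 76) (nat_lit 94815483840) (nat_lit 52) (nat_lit 5) (nat_lit 55) (nat_lit 5) (nat_lit 53) (nat_lit 5) (nat_lit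 397) (nat_lit 370) (nat_lit 253))) (XT.nd (nat_lit 78) (nat_lit 152) (nat_lit 0) (XT.lf (nat_lit 0) (nat_lit 61887676498) (nat_lit 228) (nat_lit 53164695517) (nat_lit 76) (nat_lit 30905788936) (nat_lit 50) (nat_lit 5) (nat_lit 53) (nat_lit 5) (nat_lit 51) (nat_lit 5) (nat_lit 398) (nat_lit 370) (nat_lit 252)) (XT.lf (nat_lit 0) (nat_lit 79381440579) (nat_lit 152) (nat_lit 41691162750) (nat_lit 228) (nat_lit 32611904011) (nat_lit 48) (nat_lit 5) (nat_lit 50) (nat_lit 5) (nat_lit 51) (nat_lit 5) (nat_lit 399) (nat_lit 370) (nat_lit 251))))) (XT.nd (nat_lit 234) (nat_lit 532) (nat_lit 0) (XT.nd (nat_lit 78) (nat_lit 228) (nat_lit 0) (XT.lf (nat_lit 0) (nat_lit 24793283082) (nat_lit 152) (nat_lit 98414302990) (nat_lit 76) (nat_lit 38675204955) (nat_lit 46) (nat_lit 5) (nat_lit 48) (nat_lit 5) (nat_lit 47) (nat_lit 5) (nat_lit 400) (nat_lit 370) (nat_lit 250)) (XT.nd (nat_lit 78) (nat_lit 76)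 (nat_lit 0) (XT.lf (nat_lit 0) (nat_lit 44387217738) (nat_lit 152) (nat_lit 43986631517) (nat_lit 228) (nat_lit 82200081016) (nat_lit 44) (nat_lit 5) (nat_lit 46) (nat_lit 5) (nat_lit 47) (nat_lit 5) (nat_lit 401) (nat_lit 370) (nat_lit 249)) (XT.lf (nat_lit 0) (nat_lit 22286526885) (nat_lit 76) (nat_lit 137492532185) (nat_lit 152) (nat_lit 20044391899) (nat_lit 43) (nat_lit 5) (nat_lit 44) (nat_lit 5) (nat_lit 45) (nat_lit 4) (nat_lit 402) (nat_lit 370) (nat_lit 248)))) (XT.nd (nat_lit 156) (nat_lit 304) (nat_lit 0) (XT.nd (nat_lit 78) (nat_lit 152) (nat_lit 0) (XT.lf (nat_lit 0) (nat_lit 48551408309) (nat_lit 152) (nat_lit 4074280281) (nat_lit 76) (nat_lit 137001757966) (nat_lit 42) (nat_lit 5) (nat_lit 44) (nat_lit 5) (nat_lit 43) (nat_lit 5) (nat_lit 403) (nat_lit 370) (nat_lit 247)) (XT.lf (nat_lit 0) (nat_lit 125200482850) (nat_lit 228) (nat_lit 34066806345) (nat_lit 76) (nat_lit 40768649547)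 (nat_lit 40) (nat_lit 5) (nat_lit 43) (nat_lit 5) (nat_lit 41) (nat_lit 4) (nat_lit 404) (nat_lit 370) (nat_lit 246))) (XT.nd (nat_lit 78) (nat_lit 152) (nat_lit 0) (XT.lf (nat_lit 0) (nat_lit 39699464) (nat_lit 152) (nat_lit 68971771607) (nat_lit 76) (nat_lit 142106719808) (nat_lit 38) (nat_lit 5) (nat_lit 40) (nat_lit 5) (nat_lit 39) (nat_lit 5) (nat_lit 405) (nat_lit 370) (nat_lit 245)) (XT.lf (nat_lit 0) (nat_lit 81187644281) (nat_lit 228) (nat_lit 110451776610) (nat_lit 76) (nat_lit 31241029570) (nat_lit 36) (nat_lit 5) (nat_lit 39) (nat_lit 5) (nat_lit 37) (nat_lit 4) (nat_lit 406) (nat_lit 370) (nat_lit 244))))))))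
noncomputable def xc94 : XT := (XT.nd (nat_lit 2028) (nat_lit 76) (nat_lit 0) (XT.nd (nat_lit 1014) (nat_lit 760) (nat_lit 0) (XT.nd (nat_lit 468) (nat_lit 532) (nat_lit 0) (XT.nd (nat_lit 234) (nat_lit 304) (nat_lit 0) (XT.nd (nat_lit 78) (nat_lit 228) (nat_lit 0) (XT.lf (nat_lit 0) (nat_lit 76545238656) (nat_lit 76) (nat_lit 95861076813) (nat_lit 152) (nat_lit 62998430943) (nat_lit 35) (nat_lit 5) (nat_lit 36) (nat_lit 5) (nat_lit 37) (nat_lit 4) (nat_lit 407) (nat_lit 370) (nat_lit 243)) (XT.nd (nat_lit 78) (nat_lit 0) (nat_lit 0) (XT.lf (nat_lit 0) (nat_lit 23943049326) (nat_lit 228) (nat_lit 214620439684) (nat_lit 76) (nat_lit 10217558704) (nat_lit 32) (nat_lit 5) (nat_lit 35) (nat_lit 5) (nat_lit 33) (nat_lit 4) (nat_lit 408) (nat_lit 370) (nat_lit 242)) (XT.lf (nat_lit 0) (nat_lit 120090254014) (nat_lit 228) (nat_lit 17519699428) (nat_lit 76) (nat_lit 125342983530) (nat_lit 32) (nat_lit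 5) (nat_lit 35) (nat_lit 5) (nat_lit 33) (nat_lit 4) (nat_lit 409) (nat_lit 370) (nat_lit 241)))) (XT.nd (nat_lit 78) (nat_lit 228) (nat_lit 0) (XT.lf (nat_lit 0) (nat_lit 201806562237) (nat_lit 76) (nat_lit 25272577030) (nat_lit 152) (nat_lit 51021943001) (nat_lit 31) (nat_lit 5) (nat_lit 32) (nat_lit 5) (nat_lit 33) (nat_lit 4) (nat_lit 410) (nat_lit 370) (nat_lit 240)) (XT.nd (nat_lit 78) (nat_lit 76) (nat_lit 0) (XT.lf (nat_lit 0) (nat_lit 50813127602) (nat_lit 152) (nat_lit 146982189147) (nat_lit 76) (nat_lit 96418727878) (nat_lit 29) (nat_lit 5) (nat_lit 31) (nat_lit 5) (nat_lit 30) (nat_lit 4) (nat_lit 411) (nat_lit 370) (nat_lit 239)) (XT.lf (nat_lit 0) (nat_lit 81101164817) (nat_lit 76) (nat_lit 80972515071) (nat_lit 152) (nat_lit 149347231089) (nat_lit 28) (nat_lit 5) (nat_lit 29) (nat_lit 5) (nat_lit 30) (nat_lit 4) (nat_lit 412) (nat_lit 370) (nat_lit 238))))) (XT.nd (nat_lit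 234) (nat_lit 304) (nat_lit 0) (XT.nd (nat_lit 78) (nat_lit 152) (nat_lit 0) (XT.lf (nat_lit 0) (nat_lit 2122394603) (nat_lit 76) (nat_lit 283452982134) (nat_lit 76) (nat_lit 44261934961) (nat_lit 27) (nat_lit 4) (nat_lit 28) (nat_lit 5) (nat_lit 28) (nat_lit 4) (nat_lit 413) (nat_lit 370) (nat_lit 237)) (XT.nd (nat_lit 78) (nat_lit 76) (nat_lit 0) (XT.lf (nat_lit 0) (nat_lit 72456764996) (nat_lit 152) (nat_lit 90655314359) (nat_lit 76) (nat_lit 186288782413) (nat_lit 26) (nat_lit 5) (nat_lit 28) (nat_lit 5) (nat_lit 27) (nat_lit 4) (nat_lit 414) (nat_lit 370) (nat_lit 236)) (XT.lf (nat_lit 0) (nat_lit 170064504192) (nat_lit 76) (nat_lit 29572947102) (nat_lit 152) (nat_lit 170722003695) (nat_lit 25) (nat_lit 5) (nat_lit 26) (nat_lit 5) (nat_lit 27) (nat_lit 4) (nat_lit 415) (nat_lit 370) (nat_lit 235)))) (XT.nd (nat_lit 156) (nat_lit 152) (nat_lit 0) (XT.nd (nat_lit 78) (nat_lit 76) (nat_lit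 0) (XT.lf (nat_lit 0) (nat_lit 62134915609) (nat_lit 76) (nat_lit 279222139328) (nat_lit 76) (nat_lit 51419457671) (nat_lit 24) (nat_lit 4) (nat_lit 25) (nat_lit 5) (nat_lit 25) (nat_lit 4) (nat_lit 416) (nat_lit 370) (nat_lit 234)) (XT.lf (nat_lit 0) (nat_lit 78993335120) (nat_lit 152) (nat_lit 65866825063) (nat_lit 76) (nat_lit 271864121857) (nat_lit 23) (nat_lit 5) (nat_lit 25) (nat_lit 5) (nat_lit 24) (nat_lit 4) (nat_lit 417) (nat_lit 370) (nat_lit 233))) (XT.nd (nat_lit 78) (nat_lit 76) (nat_lit 0) (XT.lf (nat_lit 0) (nat_lit 221673056092) (nat_lit 152) (nat_lit 215973660272) (nat_lit 0) (nat_lit 4717240015) (nat_lit 22) (nat_lit 5) (nat_lit 24) (nat_lit 4) (nat_lit 22) (nat_lit 4) (nat_lit 418) (nat_lit 370) (nat_lit 232)) (XT.lf (nat_lit 0) (nat_lit 74298071949) (nat_lit 76) (nat_lit 306237265967) (nat_lit 76) (nat_lit 89281057635) (nat_lit 21) (nat_lit 4) (nat_lit 22) (nat_lit 5)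 (nat_lit 22) (nat_lit 4) (nat_lit 419) (nat_lit 370) (nat_lit 231)))))) (XT.nd (nat_lit 468) (nat_lit 380) (nat_lit 0) (XT.nd (nat_lit 234) (nat_lit 228) (nat_lit 0) (XT.nd (nat_lit 78) (nat_lit 76) (nat_lit 0) (XT.lf (nat_lit 0) (nat_lit 54779935091) (nat_lit 152) (nat_lit 104657704594) (nat_lit 76) (nat_lit 339795135003) (nat_lit 20) (nat_lit 5) (nat_lit 22) (nat_lit 5) (nat_lit 21) (nat_lit 4) (nat_lit 420) (nat_lit 370) (nat_lit 230)) (XT.nd (nat_lit 78) (nat_lit 0) (nat_lit 0) (XT.lf (nat_lit 0) (nat_lit 210699100051) (nat_lit 152) (nat_lit 315983646094) (nat_lit 0) (nat_lit 4073473546) (nat_lit 19) (nat_lit 5) (nat_lit 21) (nat_lit 4) (nat_lit 19) (nat_lit 4) (nat_lit 421) (nat_lit 370) (nat_lit 229)) (XT.lf (nat_lit 0) (nat_lit 383632648880) (nat_lit 152) (nat_lit 3935123099) (nat_lit 0) (nat_lit 177006725818) (nat_lit 19) (nat_lit 5) (nat_lit 21) (nat_lit 4) (nat_lit 19) (nat_lit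 4) (nat_lit 422) (nat_lit 370) (nat_lit 228)))) (XT.nd (nat_lit 78) (nat_lit 152) (nat_lit 0) (XT.lf (nat_lit 0) (nat_lit 344089357684) (nat_lit 76) (nat_lit 231683246023) (nat_lit 76) (nat_lit 25057048371) (nat_lit 18) (nat_lit 4) (nat_lit 19) (nat_lit 5) (nat_lit 19) (nat_lit 4) (nat_lit 423) (nat_lit 370) (nat_lit 227)) (XT.nd (nat_lit 78) (nat_lit 0) (nat_lit 0) (XT.lf (nat_lit 0) (nat_lit 80450110867) (nat_lit 76) (nat_lit 59587236825) (nat_lit 152) (nat_lit 499769743474) (nat_lit 16) (nat_lit 5) (nat_lit 17) (nat_lit 5) (nat_lit 18) (nat_lit 4) (nat_lit 424) (nat_lit 370) (nat_lit 226)) (XT.lf (nat_lit 0) (nat_lit 323989800982) (nat_lit 152) (nat_lit 230363487013) (nat_lit 0) (nat_lit 127202479725) (nat_lit 16) (nat_lit 5) (nat_lit 18) (nat_lit 4) (nat_lit 16) (nat_lit 4) (nat_lit 425) (nat_lit 370) (nat_lit 225))))) (XT.nd (nat_lit 234) (nat_lit 152) (nat_lit 0) (XT.nd (nat_lit 78)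 (nat_lit 152) (nat_lit 0) (XT.lf (nat_lit 0) (nat_lit 128042063906) (nat_lit 76) (nat_lit 397619815954) (nat_lit 76) (nat_lit 200832287098) (nat_lit 15) (nat_lit 4) (nat_lit 16) (nat_lit 5) (nat_lit 16) (nat_lit 4) (nat_lit 426) (nat_lit 370) (nat_lit 224)) (XT.nd (nat_lit 78) (nat_lit 152) (nat_lit 0) (XT.lf (nat_lit 0) (nat_lit 523345482400) (nat_lit 76) (nat_lit 224134628764) (nat_lit 76) (nat_lit 27346907687) (nat_lit 15) (nat_lit 4) (nat_lit 16) (nat_lit 5) (nat_lit 16) (nat_lit 4) (nat_lit 427) (nat_lit 370) (nat_lit 223)) (XT.lf (nat_lit 0) (nat_lit 124740081837) (nat_lit 76) (nat_lit 32102835673) (nat_lit 152) (nat_lit 669961307058) (nat_lit 13) (nat_lit 5) (nat_lit 14) (nat_lit 5) (nat_lit 15) (nat_lit 4) (nat_lit 428) (nat_lit 370) (nat_lit 222)))) (XT.nd (nat_lit 156) (nat_lit 76) (nat_lit 0) (XT.nd (nat_lit 78) (nat_lit 76) (nat_lit 0) (XT.lf (nat_lit 0) (nat_lit 362011524148)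 (nat_lit 152) (nat_lit 345951261749) (nat_lit 0) (nat_lit 174594320473) (nat_lit 13) (nat_lit 5) (nat_lit 15) (nat_lit 4) (nat_lit 13) (nat_lit 4) (nat_lit 429) (nat_lit 370) (nat_lit 221)) (XT.lf (nat_lit 0) (nat_lit 39368718051) (nat_lit 76) (nat_lit 545380534022) (nat_lit 76) (nat_lit 357963185022) (nat_lit 12) (nat_lit 4) (nat_lit 13) (nat_lit 5) (nat_lit 13) (nat_lit 4) (nat_lit 430) (nat_lit 370) (nat_lit 220))) (XT.nd (nat_lit 78) (nat_lit 76) (nat_lit 0) (XT.lf (nat_lit 0) (nat_lit 467867469006) (nat_lit 76) (nat_lit 363464456249) (nat_lit 76) (nat_lit 176046972689) (nat_lit 12) (nat_lit 4) (nat_lit 13) (nat_lit 5) (nat_lit 13) (nat_lit 4) (nat_lit 431) (nat_lit 370) (nat_lit 219)) (XT.lf (nat_lit 0) (nat_lit 19768586030) (nat_lit 152) (nat_lit 146892006789) (nat_lit 76) (nat_lit 910542155298) (nat_lit 11) (nat_lit 5) (nat_lit 13) (nat_lit 5) (nat_lit 12) (nat_lit 4) (nat_lit 432)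 (nat_lit 370) (nat_lit 218))))))) (XT.nd (nat_lit 49140) (nat_lit 0) (nat_lit 3800) (XT.nd (nat_lit 48594) (nat_lit 0) (nat_lit 6992) (XT.nd (nat_lit 48360) (nat_lit 0) (nat_lit 8284) (XT.nd (nat_lit 78) (nat_lit 0) (nat_lit 0) (XT.lf (nat_lit 0) (nat_lit 230423388517) (nat_lit 152) (nat_lit 869847407131) (nat_lit 0) (nat_lit 51930318501) (nat_lit 10) (nat_lit 5) (nat_lit 12) (nat_lit 4) (nat_lit 10) (nat_lit 4) (nat_lit 433) (nat_lit 370) (nat_lit 217)) (XT.nd (nat_lit 48204) (nat_lit 0) (nat_lit 8208) (XT.lf (nat_lit 0) (nat_lit 463341216985) (nat_lit 152) (nat_lit 484739555163) (nat_lit 0) (nat_lit 284848045237) (nat_lit 10) (nat_lit 5) (nat_lit 12) (nat_lit 4) (nat_lit 10) (nat_lit 4) (nat_lit 434) (nat_lit 370) (nat_lit 216)) (XT.lf (nat_lit 0) (nat_lit 5969000499) (nat_lit 836) (nat_lit 8070336420) (nat_lit 836) (nat_lit 8070336420) (nat_lit 118) (nat_lit 3) (nat_lit 129) (nat_lit 3)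 (nat_lit 129) (nat_lit 5) (nat_lit 371) (nat_lit 371) (nat_lit 278)))) (XT.nd (nat_lit 78) (nat_lit 0) (nat_lit 0) (XT.lf (nat_lit 0) (nat_lit 12855792676) (nat_lit 760) (nat_lit 27229491829) (nat_lit 836) (nat_lit 5880794383) (nat_lit 119) (nat_lit 5) (nat_lit 129) (nat_lit 5) (nat_lit 130) (nat_lit 5) (nat_lit 372) (nat_lit 371) (nat_lit 277)) (XT.nd (nat_lit 78) (nat_lit 0) (nat_lit 76) (XT.lf (nat_lit 76) (nat_lit 8947125174) (nat_lit 0) (nat_lit 5793657151) (nat_lit 836) (nat_lit 33067081424) (nat_lit 120) (nat_lit 5) (nat_lit 119) (nat_lit 5) (nat_lit 130) (nat_lit 5) (nat_lit 373) (nat_lit 371) (nat_lit 276)) (XT.lf (nat_lit 0) (nat_lit 17741653012) (nat_lit 760) (nat_lit 1281811389) (nat_lit 836) (nat_lit 30725275506) (nat_lit 120) (nat_lit 5) (nat_lit 130) (nat_lit 5) (nat_lit 131) (nat_lit 5) (nat_lit 374) (nat_lit 371) (nat_lit 275))))) (XT.nd (nat_lit 234) (nat_lit 1444) (nat_lit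 0) (XT.nd (nat_lit 78) (nat_lit 0) (nat_lit 76) (XT.lf (nat_lit 0) (nat_lit 22001540315) (nat_lit 760) (nat_lit 11603013996) (nat_lit 836) (nat_lit 18189386908) (nat_lit 121) (nat_lit 5) (nat_lit 131) (nat_lit 5) (nat_lit 132) (nat_lit 5) (nat_lit 375) (nat_lit 371) (nat_lit 274)) (XT.nd (nat_lit 78) (nat_lit 0) (nat_lit 0) (XT.lf (nat_lit 0) (nat_lit 27503565265) (nat_lit 760) (nat_lit 22311332388) (nat_lit 836) (nat_lit 4142795878) (nat_lit 122) (nat_lit 5) (nat_lit 132) (nat_lit 5) (nat_lit 133) (nat_lit 5) (nat_lit 376) (nat_lit 371) (nat_lit 273)) (XT.lf (nat_lit 76) (nat_lit 22637003862) (nat_lit 0) (nat_lit 11930392295) (nat_lit 836) (nat_lit 21671069740) (nat_lit 123) (nat_lit 5) (nat_lit 122) (nat_lit 5) (nat_lit 133) (nat_lit 5) (nat_lit 377) (nat_lit 371) (nat_lit 272)))) (XT.nd (nat_lit 156) (nat_lit 456) (nat_lit 0) (XT.nd (nat_lit 78) (nat_lit 380) (nat_lit 0) (XT.lf (nat_lit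 0) (nat_lit 13257884276) (nat_lit 760) (nat_lit 29989396672) (nat_lit 836) (nat_lit 15401873645) (nat_lit 113) (nat_lit 5) (nat_lit 123) (nat_lit 5) (nat_lit 124) (nat_lit 5) (nat_lit 378) (nat_lit 371) (nat_lit 271)) (XT.lf (nat_lit 0) (nat_lit 3576936024) (nat_lit 380) (nat_lit 50059146127) (nat_lit 456) (nat_lit 7565891721) (nat_lit 108) (nat_lit 5) (nat_lit 113) (nat_lit 5) (nat_lit 114) (nat_lit 5) (nat_lit 379) (nat_lit 371) (nat_lit 270))) (XT.nd (nat_lit 78) (nat_lit 380) (nat_lit 0) (XT.lf (nat_lit 0) (nat_lit 2174355658) (nat_lit 456) (nat_lit 6371837520) (nat_lit 76) (nat_lit 55346822092) (nat_lit 107) (nat_lit 5) (nat_lit 113) (nat_lit 5) (nat_lit 108) (nat_lit 5) (nat_lit 380) (nat_lit 371) (nat_lit 269)) (XT.lf (nat_lit 0) (nat_lit 13798787441) (nat_lit 456) (nat_lit 16868976790) (nat_lit 76) (nat_lit 36056873814) (nat_lit 102) (nat_lit 5) (nat_lit 108) (nat_lit 5) (nat_lit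 103) (nat_lit 5) (nat_lit 381) (nat_lit 371) (nat_lit 268)))))) (XT.nd (nat_lit 468) (nat_lit 1596) (nat_lit 0) (XT.nd (nat_lit 234) (nat_lit 608) (nat_lit 0) (XT.nd (nat_lit 78) (nat_lit 608) (nat_lit 0) (XT.lf (nat_lit 0) (nat_lit 27500366293) (nat_lit 456) (nat_lit 27736298393) (nat_lit 76) (nat_lit 14488767668) (nat_lit 97) (nat_lit 5) (nat_lit 103) (nat_lit 5) (nat_lit 98) (nat_lit 5) (nat_lit 382) (nat_lit 371) (nat_lit 267)) (XT.nd (nat_lit 78) (nat_lit 304) (nat_lit 0) (XT.lf (nat_lit 0) (nat_lit 33762364809) (nat_lit 304) (nat_lit 9875957002) (nat_lit 380) (nat_lit 29260957116) (nat_lit 93) (nat_lit 5) (nat_lit 97) (nat_lit 5) (nat_lit 98) (nat_lit 5) (nat_lit 383) (nat_lit 371) (nat_lit 266)) (XT.lf (nat_lit 0) (nat_lit 25048636812) (nat_lit 304) (nat_lit 37508991374) (nat_lit 380) (nat_lit 13694890468) (nat_lit 89) (nat_lit 5) (nat_lit 93) (nat_lit 5) (nat_lit 94) (nat_lit 5) (nat_lit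 384) (nat_lit 371) (nat_lit 265)))) (XT.nd (nat_lit 78) (nat_lit 304) (nat_lit 0) (XT.lf (nat_lit 0) (nat_lit 4315686160) (nat_lit 304) (nat_lit 63788423635) (nat_lit 76) (nat_lit 11702527398) (nat_lit 85) (nat_lit 5) (nat_lit 89) (nat_lit 5) (nat_lit 86) (nat_lit 5) (nat_lit 385) (nat_lit 371) (nat_lit 264)) (XT.nd (nat_lit 78) (nat_lit 0) (nat_lit 0) (XT.lf (nat_lit 0) (nat_lit 6162372201) (nat_lit 304) (nat_lit 18764311956) (nat_lit 380) (nat_lit 58625207799) (nat_lit 81) (nat_lit 5) (nat_lit 85) (nat_lit 5) (nat_lit 86) (nat_lit 5) (nat_lit 386) (nat_lit 371) (nat_lit 263)) (XT.lf (nat_lit 0) (nat_lit 48852762426) (nat_lit 380) (nat_lit 4114208820) (nat_lit 76) (nat_lit 34546486700) (nat_lit 81) (nat_lit 5) (nat_lit 86) (nat_lit 5) (nat_lit 82) (nat_lit 5) (nat_lit 387) (nat_lit 371) (nat_lit 262))))) (XT.nd (nat_lit 234) (nat_lit 836) (nat_lit 0) (XT.nd (nat_lit 78) (nat_lit 532) (nat_lit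 0) (XT.lf (nat_lit 0) (nat_lit 76227245626) (nat_lit 304) (nat_lit 14556893000) (nat_lit 76) (nat_lit 931095460) (nat_lit 78) (nat_lit 5) (nat_lit 82) (nat_lit 5) (nat_lit 79) (nat_lit 5) (nat_lit 388) (nat_lit 371) (nat_lit 261)) (XT.nd (nat_lit 78) (nat_lit 228) (nat_lit 0) (XT.lf (nat_lit 0) (nat_lit 11326759639) (nat_lit 304) (nat_lit 26153570870) (nat_lit 76) (nat_lit 58660700494) (nat_lit 74) (nat_lit 5) (nat_lit 78) (nat_lit 5) (nat_lit 75) (nat_lit 5) (nat_lit 389) (nat_lit 371) (nat_lit 260)) (XT.lf (nat_lit 0) (nat_lit 41323417159) (nat_lit 304) (nat_lit 38540218813) (nat_lit 76) (nat_lit 20965593622) (nat_lit 71) (nat_lit 5) (nat_lit 75) (nat_lit 5) (nat_lit 72) (nat_lit 5) (nat_lit 390) (nat_lit 371) (nat_lit 259)))) (XT.nd (nat_lit 156) (nat_lit 380) (nat_lit 0) (XT.nd (nat_lit 78) (nat_lit 228) (nat_lit 0) (XT.lf (nat_lit 0) (nat_lit 53956158533) (nat_lit 228) (nat_lit 21699341023)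 (nat_lit 304) (nat_lit 30140200511) (nat_lit 68) (nat_lit 5) (nat_lit 71) (nat_lit 5) (nat_lit 72) (nat_lit 5) (nat_lit 391) (nat_lit 371) (nat_lit 258)) (XT.lf (nat_lit 0) (nat_lit 3580842325) (nat_lit 228) (nat_lit 66232416791) (nat_lit 76) (nat_lit 41242171308) (nat_lit 65) (nat_lit 5) (nat_lit 68) (nat_lit 5) (nat_lit 66) (nat_lit 5) (nat_lit 392) (nat_lit 371) (nat_lit 257))) (XT.nd (nat_lit 78) (nat_lit 152) (nat_lit 0) (XT.lf (nat_lit 0) (nat_lit 34594841446) (nat_lit 228) (nat_lit 6185096986) (nat_lit 304) (nat_lit 75839479408) (nat_lit 62) (nat_lit 5) (nat_lit 65) (nat_lit 5) (nat_lit 66) (nat_lit 5) (nat_lit 393) (nat_lit 371) (nat_lit 256)) (XT.lf (nat_lit 0) (nat_lit 23021775450) (nat_lit 152) (nat_lit 60440041470) (nat_lit 228) (nat_lit 39041365053) (nat_lit 60) (nat_lit 5) (nat_lit 62) (nat_lit 5) (nat_lit 63) (nat_lit 5) (nat_lit 394) (nat_lit 371) (nat_lit 255))))))))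
noncomputable def xc95 : XT := (XT.nd (nat_lit 2028) (nat_lit 836) (nat_lit 0) (XT.nd (nat_lit 1014) (nat_lit 1140) (nat_lit 0) (XT.nd (nat_lit 468) (nat_lit 912) (nat_lit 0) (XT.nd (nat_lit 234) (nat_lit 532) (nat_lit 0) (XT.nd (nat_lit 78) (nat_lit 152) (nat_lit 0) (XT.lf (nat_lit 0) (nat_lit 2533576091) (nat_lit 228) (nat_lit 118082330693) (nat_lit 76) (nat_lit 8148423885) (nat_lit 57) (nat_lit 5) (nat_lit 60) (nat_lit 5) (nat_lit 58) (nat_lit 5) (nat_lit 395) (nat_lit 371) (nat_lit 254)) (XT.nd (nat_lit 78) (nat_lit 152) (nat_lit 0) (XT.lf (nat_lit 0) (nat_lit 48863995050) (nat_lit 228) (nat_lit 3936956647) (nat_lit 76) (nat_lit 82553553730) (nat_lit 57) (nat_lit 5) (nat_lit 60) (nat_lit 5) (nat_lit 58) (nat_lit 5) (nat_lit 396) (nat_lit 371) (nat_lit 253)) (XT.lf (nat_lit 0) (nat_lit 101174988274) (nat_lit 228) (nat_lit 19442617975) (nat_lit 76) (nat_lit 21740581227) (nat_lit 55) (nat_lit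 5) (nat_lit 58) (nat_lit 5) (nat_lit 56) (nat_lit 5) (nat_lit 397) (nat_lit 371) (nat_lit 252)))) (XT.nd (nat_lit 78) (nat_lit 304) (nat_lit 0) (XT.lf (nat_lit 0) (nat_lit 10266060983) (nat_lit 228) (nat_lit 37094980458) (nat_lit 76) (nat_lit 102416805470) (nat_lit 52) (nat_lit 5) (nat_lit 55) (nat_lit 5) (nat_lit 53) (nat_lit 5) (nat_lit 398) (nat_lit 371) (nat_lit 251)) (XT.nd (nat_lit 78) (nat_lit 152) (nat_lit 0) (XT.lf (nat_lit 0) (nat_lit 66863457713) (nat_lit 228) (nat_lit 57375630056) (nat_lit 76) (nat_lit 33394482173) (nat_lit 50) (nat_lit 5) (nat_lit 53) (nat_lit 5) (nat_lit 51) (nat_lit 5) (nat_lit 399) (nat_lit 371) (nat_lit 250)) (XT.lf (nat_lit 0) (nat_lit 85772361180) (nat_lit 152) (nat_lit 45009613752) (nat_lit 228) (nat_lit 35196109709) (nat_lit 48) (nat_lit 5) (nat_lit 50) (nat_lit 5) (nat_lit 51) (nat_lit 5) (nat_lit 400) (nat_lit 371) (nat_lit 249))))) (XT.nd (nat_lit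 234) (nat_lit 532) (nat_lit 0) (XT.nd (nat_lit 78) (nat_lit 228) (nat_lit 0) (XT.lf (nat_lit 0) (nat_lit 26799800644) (nat_lit 152) (nat_lit 106247150689) (nat_lit 76) (nat_lit 41785305716) (nat_lit 46) (nat_lit 5) (nat_lit 48) (nat_lit 5) (nat_lit 47) (nat_lit 5) (nat_lit 401) (nat_lit 371) (nat_lit 248)) (XT.nd (nat_lit 78) (nat_lit 76) (nat_lit 0) (XT.lf (nat_lit 0) (nat_lit 47976740459) (nat_lit 152) (nat_lit 47488965681) (nat_lit 228) (nat_lit 88753036926) (nat_lit 44) (nat_lit 5) (nat_lit 46) (nat_lit 5) (nat_lit 47) (nat_lit 5) (nat_lit 402) (nat_lit 371) (nat_lit 247)) (XT.lf (nat_lit 0) (nat_lit 24107125103) (nat_lit 76) (nat_lit 148475409941) (nat_lit 152) (nat_lit 21625730570) (nat_lit 43) (nat_lit 5) (nat_lit 44) (nat_lit 5) (nat_lit 45) (nat_lit 4) (nat_lit 403) (nat_lit 371) (nat_lit 246)))) (XT.nd (nat_lit 156) (nat_lit 304) (nat_lit 0) (XT.nd (nat_lit 78) (nat_lit 152) (nat_lit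 0) (XT.lf (nat_lit 0) (nat_lit 52455429989) (nat_lit 152) (nat_lit 4364675761) (nat_lit 76) (nat_lit 147976537667) (nat_lit 42) (nat_lit 5) (nat_lit 44) (nat_lit 5) (nat_lit 43) (nat_lit 5) (nat_lit 404) (nat_lit 371) (nat_lit 245)) (XT.lf (nat_lit 0) (nat_lit 135235721389) (nat_lit 228) (nat_lit 36757432089) (nat_lit 76) (nat_lit 44044697208) (nat_lit 40) (nat_lit 5) (nat_lit 43) (nat_lit 5) (nat_lit 41) (nat_lit 4) (nat_lit 405) (nat_lit 371) (nat_lit 244))) (XT.nd (nat_lit 78) (nat_lit 152) (nat_lit 0) (XT.lf (nat_lit 0) (nat_lit 61474387) (nat_lit 152) (nat_lit 74455685654) (nat_lit 76) (nat_lit 153489553374) (nat_lit 38) (nat_lit 5) (nat_lit 40) (nat_lit 5) (nat_lit 39) (nat_lit 5) (nat_lit 406) (nat_lit 371) (nat_lit 243)) (XT.lf (nat_lit 0) (nat_lit 87700610713) (nat_lit 228) (nat_lit 119254900697) (nat_lit 76) (nat_lit 33754474764) (nat_lit 36) (nat_lit 5) (nat_lit 39) (nat_lit 5)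 (nat_lit 37) (nat_lit 4) (nat_lit 407) (nat_lit 371) (nat_lit 242)))))) (XT.nd (nat_lit 468) (nat_lit 532) (nat_lit 0) (XT.nd (nat_lit 234) (nat_lit 304) (nat_lit 0) (XT.nd (nat_lit 78) (nat_lit 228) (nat_lit 0) (XT.lf (nat_lit 0) (nat_lit 82700440867) (nat_lit 76) (nat_lit 103515497838) (nat_lit 152) (nat_lit 68020329131) (nat_lit 35) (nat_lit 5) (nat_lit 36) (nat_lit 5) (nat_lit 37) (nat_lit 4) (nat_lit 408) (nat_lit 371) (nat_lit 241)) (XT.nd (nat_lit 78) (nat_lit 0) (nat_lit 0) (XT.lf (nat_lit 0) (nat_lit 25875306793) (nat_lit 228) (nat_lit 231758701303) (nat_lit 76) (nat_lit 11048680653) (nat_lit 32) (nat_lit 5) (nat_lit 35) (nat_lit 5) (nat_lit 33) (nat_lit 4) (nat_lit 409) (nat_lit 371) (nat_lit 240)) (XT.lf (nat_lit 0) (nat_lit 129713042409) (nat_lit 228) (nat_lit 18892225794) (nat_lit 76) (nat_lit 135383123372) (nat_lit 32) (nat_lit 5) (nat_lit 35) (nat_lit 5) (nat_lit 33) (nat_lit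 4) (nat_lit 410) (nat_lit 371) (nat_lit 239)))) (XT.nd (nat_lit 78) (nat_lit 228) (nat_lit 0) (XT.lf (nat_lit 0) (nat_lit 217978874345) (nat_lit 76) (nat_lit 27281444783) (nat_lit 152) (nat_lit 55088105481) (nat_lit 31) (nat_lit 5) (nat_lit 32) (nat_lit 5) (nat_lit 33) (nat_lit 4) (nat_lit 411) (nat_lit 371) (nat_lit 238)) (XT.nd (nat_lit 78) (nat_lit 76) (nat_lit 0) (XT.lf (nat_lit 0) (nat_lit 54892773755) (nat_lit 152) (nat_lit 158713181871) (nat_lit 76) (nat_lit 104144481180) (nat_lit 29) (nat_lit 5) (nat_lit 31) (nat_lit 5) (nat_lit 30) (nat_lit 4) (nat_lit 412) (nat_lit 371) (nat_lit 237)) (XT.lf (nat_lit 0) (nat_lit 87615641712) (nat_lit 76) (nat_lit 87437859255) (nat_lit 152) (nat_lit 161280385079) (nat_lit 28) (nat_lit 5) (nat_lit 29) (nat_lit 5) (nat_lit 30) (nat_lit 4) (nat_lit 413) (nat_lit 371) (nat_lit 236))))) (XT.nd (nat_lit 234) (nat_lit 304) (nat_lit 0) (XT.nd (nat_lit 78)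 (nat_lit 152) (nat_lit 0) (XT.lf (nat_lit 0) (nat_lit 2317904723) (nat_lit 76) (nat_lit 306116978855) (nat_lit 76) (nat_lit 47788737855) (nat_lit 27) (nat_lit 4) (nat_lit 28) (nat_lit 5) (nat_lit 28) (nat_lit 4) (nat_lit 414) (nat_lit 371) (nat_lit 235)) (XT.nd (nat_lit 78) (nat_lit 76) (nat_lit 0) (XT.lf (nat_lit 0) (nat_lit 78265990412) (nat_lit 152) (nat_lit 97883505432) (nat_lit 76) (nat_lit 201202799451) (nat_lit 26) (nat_lit 5) (nat_lit 28) (nat_lit 5) (nat_lit 27) (nat_lit 4) (nat_lit 415) (nat_lit 371) (nat_lit 234)) (XT.lf (nat_lit 0) (nat_lit 183692845420) (nat_lit 76) (nat_lit 31927708541) (nat_lit 152) (nat_lit 184367050984) (nat_lit 25) (nat_lit 5) (nat_lit 26) (nat_lit 5) (nat_lit 27) (nat_lit 4) (nat_lit 416) (nat_lit 371) (nat_lit 233)))) (XT.nd (nat_lit 156) (nat_lit 152) (nat_lit 0) (XT.nd (nat_lit 78) (nat_lit 76) (nat_lit 0) (XT.lf (nat_lit 0) (nat_lit 67128297038) (nat_lit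 76) (nat_lit 301549044834) (nat_lit 76) (nat_lit 55520704585) (nat_lit 24) (nat_lit 4) (nat_lit 25) (nat_lit 5) (nat_lit 25) (nat_lit 4) (nat_lit 417) (nat_lit 371) (nat_lit 232)) (XT.lf (nat_lit 0) (nat_lit 85323834997) (nat_lit 152) (nat_lit 71114890373) (nat_lit 76) (nat_lit 293622946671) (nat_lit 23) (nat_lit 5) (nat_lit 25) (nat_lit 5) (nat_lit 24) (nat_lit 4) (nat_lit 418) (nat_lit 371) (nat_lit 231))) (XT.nd (nat_lit 78) (nat_lit 76) (nat_lit 0) (XT.lf (nat_lit 0) (nat_lit 239417587546) (nat_lit 152) (nat_lit 233230823061) (nat_lit 0) (nat_lit 5104127090) (nat_lit 22) (nat_lit 5) (nat_lit 24) (nat_lit 4) (nat_lit 22) (nat_lit 4) (nat_lit 419) (nat_lit 371) (nat_lit 230)) (XT.lf (nat_lit 0) (nat_lit 80261746837) (nat_lit 76) (nat_lit 330726623042) (nat_lit 76) (nat_lit 96412826290) (nat_lit 21) (nat_lit 4) (nat_lit 22) (nat_lit 5) (nat_lit 22) (nat_lit 4) (nat_lit 420) (nat_lit 371)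 (nat_lit 229))))))) (XT.nd (nat_lit 1014) (nat_lit 76) (nat_lit 0) (XT.nd (nat_lit 468) (nat_lit 380) (nat_lit 0) (XT.nd (nat_lit 234) (nat_lit 228) (nat_lit 0) (XT.nd (nat_lit 78) (nat_lit 76) (nat_lit 0) (XT.lf (nat_lit 0) (nat_lit 59171934508) (nat_lit 152) (nat_lit 113011642395) (nat_lit 76) (nat_lit 366987338842) (nat_lit 20) (nat_lit 5) (nat_lit 22) (nat_lit 5) (nat_lit 21) (nat_lit 4) (nat_lit 421) (nat_lit 371) (nat_lit 228)) (XT.nd (nat_lit 78) (nat_lit 0) (nat_lit 0) (XT.lf (nat_lit 0) (nat_lit 227564335911) (nat_lit 152) (nat_lit 341244147469) (nat_lit 0) (nat_lit 4407767856) (nat_lit 19) (nat_lit 5) (nat_lit 21) (nat_lit 4) (nat_lit 19) (nat_lit 4) (nat_lit 422) (nat_lit 371) (nat_lit 227)) (XT.lf (nat_lit 0) (nat_lit 414331879176) (nat_lit 152) (nat_lit 4233090065) (nat_lit 0) (nat_lit 191175056870) (nat_lit 19) (nat_lit 5) (nat_lit 21) (nat_lit 4) (nat_lit 19) (nat_lit 4) (nat_lit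 423) (nat_lit 371) (nat_lit 226)))) (XT.nd (nat_lit 78) (nat_lit 152) (nat_lit 0) (XT.lf (nat_lit 0) (nat_lit 371632617210) (nat_lit 76) (nat_lit 250210026317) (nat_lit 76) (nat_lit 27052968594) (nat_lit 18) (nat_lit 4) (nat_lit 19) (nat_lit 5) (nat_lit 19) (nat_lit 4) (nat_lit 424) (nat_lit 371) (nat_lit 225)) (XT.nd (nat_lit 78) (nat_lit 0) (nat_lit 0) (XT.lf (nat_lit 0) (nat_lit 86901795612) (nat_lit 76) (nat_lit 64346531857) (nat_lit 152) (nat_lit 539742930910) (nat_lit 16) (nat_lit 5) (nat_lit 17) (nat_lit 5) (nat_lit 18) (nat_lit 4) (nat_lit 425) (nat_lit 371) (nat_lit 224)) (XT.lf (nat_lit 0) (nat_lit 349916496107) (nat_lit 152) (nat_lit 248777791910) (nat_lit 0) (nat_lit 137385565122) (nat_lit 16) (nat_lit 5) (nat_lit 18) (nat_lit 4) (nat_lit 16) (nat_lit 4) (nat_lit 426) (nat_lit 371) (nat_lit 223))))) (XT.nd (nat_lit 234) (nat_lit 152) (nat_lit 0) (XT.nd (nat_lit 78) (nat_lit 152)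 (nat_lit 0) (XT.lf (nat_lit 0) (nat_lit 138299561019) (nat_lit 76) (nat_lit 429422444542) (nat_lit 76) (nat_lit 216891335574) (nat_lit 15) (nat_lit 4) (nat_lit 16) (nat_lit 5) (nat_lit 16) (nat_lit 4) (nat_lit 427) (nat_lit 371) (nat_lit 222)) (XT.nd (nat_lit 78) (nat_lit 152) (nat_lit 0) (XT.lf (nat_lit 0) (nat_lit 565226206178) (nat_lit 76) (nat_lit 242058957687) (nat_lit 76) (nat_lit 29527683921) (nat_lit 15) (nat_lit 4) (nat_lit 16) (nat_lit 5) (nat_lit 16) (nat_lit 4) (nat_lit 428) (nat_lit 371) (nat_lit 221)) (XT.lf (nat_lit 0) (nat_lit 134732018836) (nat_lit 76) (nat_lit 34664783697) (nat_lit 152) (nat_lit 723551437083) (nat_lit 13) (nat_lit 5) (nat_lit 14) (nat_lit 5) (nat_lit 15) (nat_lit 4) (nat_lit 429) (nat_lit 371) (nat_lit 220)))) (XT.nd (nat_lit 156) (nat_lit 76) (nat_lit 0) (XT.nd (nat_lit 78) (nat_lit 76) (nat_lit 0) (XT.lf (nat_lit 0) (nat_lit 390978510573) (nat_lit 152)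 (nat_lit 373615367003) (nat_lit 0) (nat_lit 188567493767) (nat_lit 13) (nat_lit 5) (nat_lit 15) (nat_lit 4) (nat_lit 13) (nat_lit 4) (nat_lit 430) (nat_lit 371) (nat_lit 219)) (XT.lf (nat_lit 0) (nat_lit 42529689863) (nat_lit 76) (nat_lit 589005296794) (nat_lit 76) (nat_lit 386594155396) (nat_lit 12) (nat_lit 4) (nat_lit 13) (nat_lit 5) (nat_lit 13) (nat_lit 4) (nat_lit 431) (nat_lit 371) (nat_lit 218))) (XT.nd (nat_lit 78) (nat_lit 76) (nat_lit 0) (XT.lf (nat_lit 0) (nat_lit 505307490941) (nat_lit 76) (nat_lit 392536353536) (nat_lit 76) (nat_lit 190125096774) (nat_lit 12) (nat_lit 4) (nat_lit 13) (nat_lit 5) (nat_lit 13) (nat_lit 4) (nat_lit 432) (nat_lit 371) (nat_lit 217)) (XT.lf (nat_lit 0) (nat_lit 21355122371) (nat_lit 152) (nat_lit 158633362718) (nat_lit 76) (nat_lit 983390230169) (nat_lit 11) (nat_lit 5) (nat_lit 13) (nat_lit 5) (nat_lit 12) (nat_lit 4) (nat_lit 433) (nat_lit 371)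 (nat_lit 216)))))) (XT.nd (nat_lit 48750) (nat_lit 0) (nat_lit 6308) (XT.nd (nat_lit 48438) (nat_lit 0) (nat_lit 8284) (XT.nd (nat_lit 48282) (nat_lit 0) (nat_lit 8208) (XT.lf (nat_lit 0) (nat_lit 248862158517) (nat_lit 152) (nat_lit 939425462497) (nat_lit 0) (nat_lit 56089337102) (nat_lit 10) (nat_lit 5) (nat_lit 12) (nat_lit 4) (nat_lit 10) (nat_lit 4) (nat_lit 434) (nat_lit 371) (nat_lit 215)) (XT.nd (nat_lit 78) (nat_lit 0) (nat_lit 76) (XT.lf (nat_lit 0) (nat_lit 6496620481) (nat_lit 836) (nat_lit 8689647163) (nat_lit 836) (nat_lit 8689647163) (nat_lit 118) (nat_lit 3) (nat_lit 129) (nat_lit 3) (nat_lit 129) (nat_lit 5) (nat_lit 372) (nat_lit 372) (nat_lit 276)) (XT.lf (nat_lit 0) (nat_lit 13977145023) (nat_lit 760) (nat_lit 29352102475) (nat_lit 836) (nat_lit 6309422508) (nat_lit 119) (nat_lit 5) (nat_lit 129) (nat_lit 5) (nat_lit 130) (nat_lit 5) (nat_lit 373) (nat_lit 372) (nat_lit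 275)))) (XT.nd (nat_lit 156) (nat_lit 0) (nat_lit 152) (XT.nd (nat_lit 78) (nat_lit 0) (nat_lit 76) (XT.lf (nat_lit 76) (nat_lit 9716221117) (nat_lit 0) (nat_lit 6290664634) (nat_lit 836) (nat_lit 35621218070) (nat_lit 120) (nat_lit 5) (nat_lit 119) (nat_lit 5) (nat_lit 130) (nat_lit 5) (nat_lit 374) (nat_lit 372) (nat_lit 274)) (XT.lf (nat_lit 0) (nat_lit 19240908936) (nat_lit 760) (nat_lit 1330432023) (nat_lit 836) (nat_lit 33153258451) (nat_lit 120) (nat_lit 5) (nat_lit 130) (nat_lit 5) (nat_lit 131) (nat_lit 5) (nat_lit 375) (nat_lit 372) (nat_lit 273))) (XT.nd (nat_lit 78) (nat_lit 0) (nat_lit 76) (XT.lf (nat_lit 0) (nat_lit 23836109618) (nat_lit 760) (nat_lit 12475530949) (nat_lit 836) (nat_lit 19622053362) (nat_lit 121) (nat_lit 5) (nat_lit 131) (nat_lit 5) (nat_lit 132) (nat_lit 5) (nat_lit 376) (nat_lit 372) (nat_lit 272)) (XT.lf (nat_lit 0) (nat_lit 29773357234) (nat_lit 760) (nat_lit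 24039154024) (nat_lit 836) (nat_lit 4458285121) (nat_lit 122) (nat_lit 5) (nat_lit 132) (nat_lit 5) (nat_lit 133) (nat_lit 5) (nat_lit 377) (nat_lit 372) (nat_lit 271))))) (XT.nd (nat_lit 234) (nat_lit 1140) (nat_lit 0) (XT.nd (nat_lit 78) (nat_lit 1064) (nat_lit 0) (XT.lf (nat_lit 76) (nat_lit 24502568284) (nat_lit 0) (nat_lit 12895430188) (nat_lit 836) (nat_lit 23336249630) (nat_lit 123) (nat_lit 5) (nat_lit 122) (nat_lit 5) (nat_lit 133) (nat_lit 5) (nat_lit 378) (nat_lit 372) (nat_lit 270)) (XT.nd (nat_lit 78) (nat_lit 380) (nat_lit 0) (XT.lf (nat_lit 0) (nat_lit 14374056371) (nat_lit 760) (nat_lit 32394101084) (nat_lit 836) (nat_lit 16569842826) (nat_lit 113) (nat_lit 5) (nat_lit 123) (nat_lit 5) (nat_lit 124) (nat_lit 5) (nat_lit 379) (nat_lit 372) (nat_lit 269)) (XT.lf (nat_lit 0) (nat_lit 3919253961) (nat_lit 380) (nat_lit 54065079901) (nat_lit 456) (nat_lit 8110900054) (nat_lit 108)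 (nat_lit 5) (nat_lit 113) (nat_lit 5) (nat_lit 114) (nat_lit 5) (nat_lit 380) (nat_lit 372) (nat_lit 268)))) (XT.nd (nat_lit 156) (nat_lit 684) (nat_lit 0) (XT.nd (nat_lit 78) (nat_lit 380) (nat_lit 0) (XT.lf (nat_lit 0) (nat_lit 2402317270) (nat_lit 456) (nat_lit 6827769663) (nat_lit 76) (nat_lit 59771642790) (nat_lit 107) (nat_lit 5) (nat_lit 113) (nat_lit 5) (nat_lit 108) (nat_lit 5) (nat_lit 381) (nat_lit 372) (nat_lit 267)) (XT.lf (nat_lit 0) (nat_lit 14953516617) (nat_lit 456) (nat_lit 18164464141) (nat_lit 76) (nat_lit 38942062845) (nat_lit 102) (nat_lit 5) (nat_lit 108) (nat_lit 5) (nat_lit 103) (nat_lit 5) (nat_lit 382) (nat_lit 372) (nat_lit 266))) (XT.nd (nat_lit 78) (nat_lit 304) (nat_lit 0) (XT.lf (nat_lit 0) (nat_lit 29748323340) (nat_lit 456) (nat_lit 29901163345) (nat_lit 76) (nat_lit 15651561483) (nat_lit 97) (nat_lit 5) (nat_lit 103) (nat_lit 5) (nat_lit 98) (nat_lit 5)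 (nat_lit 383) (nat_lit 372) (nat_lit 265)) (XT.lf (nat_lit 0) (nat_lit 36515044447) (nat_lit 304) (nat_lit 10659527682) (nat_lit 380) (nat_lit 31554369156) (nat_lit 93) (nat_lit 5) (nat_lit 97) (nat_lit 5) (nat_lit 98) (nat_lit 5) (nat_lit 384) (nat_lit 372) (nat_lit 264))))))))
noncomputable def xc96 : XT := (XT.nd (nat_lit 2028) (nat_lit 1596) (nat_lit 0) (XT.nd (nat_lit 1014) (nat_lit 1900) (nat_lit 0) (XT.nd (nat_lit 468) (nat_lit 1292) (nat_lit 0) (XT.nd (nat_lit 234) (nat_lit 532) (nat_lit 0) (XT.nd (nat_lit 78) (nat_lit 608) (nat_lit 0) (XT.lf (nat_lit 0) (nat_lit 27104055518) (nat_lit 304) (nat_lit 40500919036) (nat_lit 380) (nat_lit 14745589596) (nat_lit 89) (nat_lit 5) (nat_lit 93) (nat_lit 5) (nat_lit 94) (nat_lit 5) (nat_lit 385) (nat_lit 372) (nat_lit 263)) (XT.nd (nat_lit 78) (nat_lit 304) (nat_lit 0) (XT.lf (nat_lit 0) (nat_lit 4702119391) (nat_lit 304) (nat_lit 68838899629)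 (nat_lit 76) (nat_lit 12648073307) (nat_lit 85) (nat_lit 5) (nat_lit 89) (nat_lit 5) (nat_lit 86) (nat_lit 5) (nat_lit 386) (nat_lit 372) (nat_lit 262)) (XT.lf (nat_lit 0) (nat_lit 6705674033) (nat_lit 304) (nat_lit 20254058460) (nat_lit 380) (nat_lit 63274349469) (nat_lit 81) (nat_lit 5) (nat_lit 85) (nat_lit 5) (nat_lit 86) (nat_lit 5) (nat_lit 387) (nat_lit 372) (nat_lit 261)))) (XT.nd (nat_lit 78) (nat_lit 532) (nat_lit 0) (XT.lf (nat_lit 0) (nat_lit 52797179314) (nat_lit 380) (nat_lit 4395109003) (nat_lit 76) (nat_lit 37320421961) (nat_lit 81) (nat_lit 5) (nat_lit 86) (nat_lit 5) (nat_lit 82) (nat_lit 5) (nat_lit 388) (nat_lit 372) (nat_lit 260)) (XT.nd (nat_lit 78) (nat_lit 304) (nat_lit 0) (XT.lf (nat_lit 0) (nat_lit 82359846243) (nat_lit 304) (nat_lit 15673764900) (nat_lit 76) (nat_lit 1017107186) (nat_lit 78) (nat_lit 5) (nat_lit 82) (nat_lit 5) (nat_lit 79) (nat_lit 5) (nat_lit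 389) (nat_lit 372) (nat_lit 259)) (XT.lf (nat_lit 0) (nat_lit 12266029930) (nat_lit 304) (nat_lit 28199141835) (nat_lit 76) (nat_lit 63365473394) (nat_lit 74) (nat_lit 5) (nat_lit 78) (nat_lit 5) (nat_lit 75) (nat_lit 5) (nat_lit 390) (nat_lit 372) (nat_lit 258))))) (XT.nd (nat_lit 234) (nat_lit 608) (nat_lit 0) (XT.nd (nat_lit 78) (nat_lit 456) (nat_lit 0) (XT.lf (nat_lit 0) (nat_lit 44660871493) (nat_lit 304) (nat_lit 41577379980) (nat_lit 76) (nat_lit 22655726471) (nat_lit 71) (nat_lit 5) (nat_lit 75) (nat_lit 5) (nat_lit 72) (nat_lit 5) (nat_lit 391) (nat_lit 372) (nat_lit 257)) (XT.nd (nat_lit 78) (nat_lit 228) (nat_lit 0) (XT.lf (nat_lit 0) (nat_lit 58316706001) (nat_lit 228) (nat_lit 23421162968) (nat_lit 304) (nat_lit 32519980473) (nat_lit 68) (nat_lit 5) (nat_lit 71) (nat_lit 5) (nat_lit 72) (nat_lit 5) (nat_lit 392) (nat_lit 372) (nat_lit 256)) (XT.lf (nat_lit 0) (nat_lit 3896381352)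 (nat_lit 228) (nat_lit 71486669518) (nat_lit 76) (nat_lit 44555351448) (nat_lit 65) (nat_lit 5) (nat_lit 68) (nat_lit 5) (nat_lit 66) (nat_lit 5) (nat_lit 393) (nat_lit 372) (nat_lit 255)))) (XT.nd (nat_lit 156) (nat_lit 228) (nat_lit 0) (XT.nd (nat_lit 78) (nat_lit 152) (nat_lit 0) (XT.lf (nat_lit 0) (nat_lit 37404842389) (nat_lit 228) (nat_lit 6665071499) (nat_lit 304) (nat_lit 81877670066) (nat_lit 62) (nat_lit 5) (nat_lit 65) (nat_lit 5) (nat_lit 66) (nat_lit 5) (nat_lit 394) (nat_lit 372) (nat_lit 254)) (XT.lf (nat_lit 0) (nat_lit 24905193367) (nat_lit 152) (nat_lit 65259971409) (nat_lit 228) (nat_lit 42136943951) (nat_lit 60) (nat_lit 5) (nat_lit 62) (nat_lit 5) (nat_lit 63) (nat_lit 5) (nat_lit 395) (nat_lit 372) (nat_lit 253))) (XT.nd (nat_lit 78) (nat_lit 0) (nat_lit 0) (XT.lf (nat_lit 0) (nat_lit 2761990143) (nat_lit 228) (nat_lit 127487152994) (nat_lit 76) (nat_lit 8815040815)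 (nat_lit 57) (nat_lit 5) (nat_lit 60) (nat_lit 5) (nat_lit 58) (nat_lit 5) (nat_lit 396) (nat_lit 372) (nat_lit 252)) (XT.lf (nat_lit 0) (nat_lit 52796936843) (nat_lit 228) (nat_lit 4213242665) (nat_lit 76) (nat_lit 89171488973) (nat_lit 57) (nat_lit 5) (nat_lit 60) (nat_lit 5) (nat_lit 58) (nat_lit 5) (nat_lit 397) (nat_lit 372) (nat_lit 251)))))) (XT.nd (nat_lit 468) (nat_lit 912) (nat_lit 0) (XT.nd (nat_lit 234) (nat_lit 456) (nat_lit 0) (XT.nd (nat_lit 78) (nat_lit 380) (nat_lit 0) (XT.lf (nat_lit 0) (nat_lit 109291846555) (nat_lit 228) (nat_lit 20960124032) (nat_lit 76) (nat_lit 23493723121) (nat_lit 55) (nat_lit 5) (nat_lit 58) (nat_lit 5) (nat_lit 56) (nat_lit 5) (nat_lit 398) (nat_lit 372) (nat_lit 250)) (XT.nd (nat_lit 78) (nat_lit 152) (nat_lit 0) (XT.lf (nat_lit 0) (nat_lit 11109439330) (nat_lit 228) (nat_lit 40025587119) (nat_lit 76) (nat_lit 110623938421) (nat_lit 52) (nat_lit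 5) (nat_lit 55) (nat_lit 5) (nat_lit 53) (nat_lit 5) (nat_lit 399) (nat_lit 372) (nat_lit 249)) (XT.lf (nat_lit 0) (nat_lit 72233768123) (nat_lit 228) (nat_lit 61929465525) (nat_lit 76) (nat_lit 36079955460) (nat_lit 50) (nat_lit 5) (nat_lit 53) (nat_lit 5) (nat_lit 51) (nat_lit 5) (nat_lit 400) (nat_lit 372) (nat_lit 248)))) (XT.nd (nat_lit 78) (nat_lit 304) (nat_lit 0) (XT.lf (nat_lit 0) (nat_lit 92668791154) (nat_lit 152) (nat_lit 48595943537) (nat_lit 228) (nat_lit 37990582244) (nat_lit 48) (nat_lit 5) (nat_lit 50) (nat_lit 5) (nat_lit 51) (nat_lit 5) (nat_lit 401) (nat_lit 372) (nat_lit 247)) (XT.nd (nat_lit 78) (nat_lit 152) (nat_lit 0) (XT.lf (nat_lit 0) (nat_lit 28963550570) (nat_lit 152) (nat_lit 114712374956) (nat_lit 76) (nat_lit 45141919923) (nat_lit 46) (nat_lit 5) (nat_lit 48) (nat_lit 5) (nat_lit 47) (nat_lit 5) (nat_lit 402) (nat_lit 372) (nat_lit 246)) (XT.lf (nat_lit 0)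 (nat_lit 51847926079) (nat_lit 152) (nat_lit 51273854234) (nat_lit 228) (nat_lit 95833517730) (nat_lit 44) (nat_lit 5) (nat_lit 46) (nat_lit 5) (nat_lit 47) (nat_lit 5) (nat_lit 403) (nat_lit 372) (nat_lit 245))))) (XT.nd (nat_lit 234) (nat_lit 608) (nat_lit 0) (XT.nd (nat_lit 78) (nat_lit 228) (nat_lit 0) (XT.lf (nat_lit 0) (nat_lit 26067996266) (nat_lit 76) (nat_lit 160339275366) (nat_lit 152) (nat_lit 23336745223) (nat_lit 43) (nat_lit 5) (nat_lit 44) (nat_lit 5) (nat_lit 45) (nat_lit 4) (nat_lit 404) (nat_lit 372) (nat_lit 244)) (XT.nd (nat_lit 78) (nat_lit 152) (nat_lit 0) (XT.lf (nat_lit 0) (nat_lit 56668933160) (nat_lit 152) (nat_lit 4683374048) (nat_lit 76) (nat_lit 159827211319) (nat_lit 42) (nat_lit 5) (nat_lit 44) (nat_lit 5) (nat_lit 43) (nat_lit 5) (nat_lit 405) (nat_lit 372) (nat_lit 243)) (XT.lf (nat_lit 0) (nat_lit 146071039929) (nat_lit 228) (nat_lit 39668260912) (nat_lit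 76) (nat_lit 47580752149) (nat_lit 40) (nat_lit 5) (nat_lit 43) (nat_lit 5) (nat_lit 41) (nat_lit 4) (nat_lit 406) (nat_lit 372) (nat_lit 242)))) (XT.nd (nat_lit 156) (nat_lit 304) (nat_lit 0) (XT.nd (nat_lit 78) (nat_lit 152) (nat_lit 0) (XT.lf (nat_lit 0) (nat_lit 82337953) (nat_lit 152) (nat_lit 80383138722) (nat_lit 76) (nat_lit 165780974143) (nat_lit 38) (nat_lit 5) (nat_lit 40) (nat_lit 5) (nat_lit 39) (nat_lit 5) (nat_lit 407) (nat_lit 372) (nat_lit 241)) (XT.lf (nat_lit 0) (nat_lit 94732052993) (nat_lit 228) (nat_lit 128766985103) (nat_lit 76) (nat_lit 36466975087) (nat_lit 36) (nat_lit 5) (nat_lit 39) (nat_lit 5) (nat_lit 37) (nat_lit 4) (nat_lit 408) (nat_lit 372) (nat_lit 240))) (XT.nd (nat_lit 78) (nat_lit 228) (nat_lit 0) (XT.lf (nat_lit 0) (nat_lit 89343553570) (nat_lit 76) (nat_lit 111784336156) (nat_lit 152) (nat_lit 73446543692) (nat_lit 35) (nat_lit 5) (nat_lit 36) (nat_lit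 5) (nat_lit 37) (nat_lit 4) (nat_lit 409) (nat_lit 372) (nat_lit 239)) (XT.lf (nat_lit 0) (nat_lit 27959746220) (nat_lit 228) (nat_lit 250272499641) (nat_lit 76) (nat_lit 11944335438) (nat_lit 32) (nat_lit 5) (nat_lit 35) (nat_lit 5) (nat_lit 33) (nat_lit 4) (nat_lit 410) (nat_lit 372) (nat_lit 238))))))) (XT.nd (nat_lit 1014) (nat_lit 608) (nat_lit 0) (XT.nd (nat_lit 468) (nat_lit 532) (nat_lit 0) (XT.nd (nat_lit 234) (nat_lit 228) (nat_lit 0) (XT.nd (nat_lit 78) (nat_lit 228) (nat_lit 0) (XT.lf (nat_lit 0) (nat_lit 140103432916) (nat_lit 228) (nat_lit 20378698518) (nat_lit 76) (nat_lit 146224662439) (nat_lit 32) (nat_lit 5) (nat_lit 35) (nat_lit 5) (nat_lit 33) (nat_lit 4) (nat_lit 411) (nat_lit 372) (nat_lit 237)) (XT.nd (nat_lit 78) (nat_lit 152) (nat_lit 0) (XT.lf (nat_lit 0) (nat_lit 235441007277) (nat_lit 76) (nat_lit 29452867764) (nat_lit 152) (nat_lit 59481785469) (nat_lit 31) (nat_lit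 5) (nat_lit 32) (nat_lit 5) (nat_lit 33) (nat_lit 4) (nat_lit 412) (nat_lit 372) (nat_lit 236)) (XT.lf (nat_lit 0) (nat_lit 59296709326) (nat_lit 152) (nat_lit 171386588952) (nat_lit 76) (nat_lit 112486546423) (nat_lit 29) (nat_lit 5) (nat_lit 31) (nat_lit 5) (nat_lit 30) (nat_lit 4) (nat_lit 413) (nat_lit 372) (nat_lit 235)))) (XT.nd (nat_lit 78) (nat_lit 152) (nat_lit 0) (XT.lf (nat_lit 0) (nat_lit 94647512828) (nat_lit 76) (nat_lit 94422208107) (nat_lit 152) (nat_lit 174170277736) (nat_lit 28) (nat_lit 5) (nat_lit 29) (nat_lit 5) (nat_lit 30) (nat_lit 4) (nat_lit 414) (nat_lit 372) (nat_lit 234)) (XT.nd (nat_lit 78) (nat_lit 76) (nat_lit 0) (XT.lf (nat_lit 0) (nat_lit 2525386615) (nat_lit 76) (nat_lit 330595841750) (nat_lit 76) (nat_lit 51599703907) (nat_lit 27) (nat_lit 4) (nat_lit 28) (nat_lit 5) (nat_lit 28) (nat_lit 4) (nat_lit 415) (nat_lit 372) (nat_lit 233)) (XT.lf (nat_lit 0) (nat_lit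 84538144316) (nat_lit 152) (nat_lit 105693409053) (nat_lit 76) (nat_lit 217308380784) (nat_lit 26) (nat_lit 5) (nat_lit 28) (nat_lit 5) (nat_lit 27) (nat_lit 4) (nat_lit 416) (nat_lit 372) (nat_lit 232))))) (XT.nd (nat_lit 234) (nat_lit 304) (nat_lit 0) (XT.nd (nat_lit 78) (nat_lit 152) (nat_lit 0) (XT.lf (nat_lit 0) (nat_lit 198408146933) (nat_lit 76) (nat_lit 34472430773) (nat_lit 152) (nat_lit 199105515708) (nat_lit 25) (nat_lit 5) (nat_lit 26) (nat_lit 5) (nat_lit 27) (nat_lit 4) (nat_lit 417) (nat_lit 372) (nat_lit 231)) (XT.nd (nat_lit 78) (nat_lit 76) (nat_lit 0) (XT.lf (nat_lit 0) (nat_lit 72517926525) (nat_lit 76) (nat_lit 325663652886) (nat_lit 76) (nat_lit 59951807369) (nat_lit 24) (nat_lit 4) (nat_lit 25) (nat_lit 5) (nat_lit 25) (nat_lit 4) (nat_lit 418) (nat_lit 372) (nat_lit 230)) (XT.lf (nat_lit 0) (nat_lit 92159200873) (nat_lit 152) (nat_lit 76785836837) (nat_lit 76) (nat_lit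 317121094359) (nat_lit 23) (nat_lit 5) (nat_lit 25) (nat_lit 5) (nat_lit 24) (nat_lit 4) (nat_lit 419) (nat_lit 372) (nat_lit 229)))) (XT.nd (nat_lit 156) (nat_lit 152) (nat_lit 0) (XT.nd (nat_lit 78) (nat_lit 76) (nat_lit 0) (XT.lf (nat_lit 0) (nat_lit 258580156902) (nat_lit 152) (nat_lit 251871516244) (nat_lit 0) (nat_lit 5520608727) (nat_lit 22) (nat_lit 5) (nat_lit 24) (nat_lit 4) (nat_lit 22) (nat_lit 4) (nat_lit 420) (nat_lit 372) (nat_lit 228)) (XT.lf (nat_lit 0) (nat_lit 86699686867) (nat_lit 76) (nat_lit 357176501683) (nat_lit 76) (nat_lit 104116665188) (nat_lit 21) (nat_lit 4) (nat_lit 22) (nat_lit 5) (nat_lit 22) (nat_lit 4) (nat_lit 421) (nat_lit 372) (nat_lit 227))) (XT.nd (nat_lit 78) (nat_lit 76) (nat_lit 0) (XT.lf (nat_lit 0) (nat_lit 63913923673) (nat_lit 152) (nat_lit 122036559927) (nat_lit 76) (nat_lit 396353693094) (nat_lit 20) (nat_lit 5) (nat_lit 22) (nat_lit 5) (nat_lit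 21) (nat_lit 4) (nat_lit 422) (nat_lit 372) (nat_lit 226)) (XT.lf (nat_lit 0) (nat_lit 245777462771) (nat_lit 152) (nat_lit 368528084005) (nat_lit 0) (nat_lit 4767605013) (nat_lit 19) (nat_lit 5) (nat_lit 21) (nat_lit 4) (nat_lit 19) (nat_lit 4) (nat_lit 423) (nat_lit 372) (nat_lit 225)))))) (XT.nd (nat_lit 468) (nat_lit 304) (nat_lit 0) (XT.nd (nat_lit 234) (nat_lit 76) (nat_lit 0) (XT.nd (nat_lit 78) (nat_lit 228) (nat_lit 0) (XT.lf (nat_lit 0) (nat_lit 447485818387) (nat_lit 152) (nat_lit 4557297213) (nat_lit 0) (nat_lit 206475742650) (nat_lit 19) (nat_lit 5) (nat_lit 21) (nat_lit 4) (nat_lit 19) (nat_lit 4) (nat_lit 424) (nat_lit 372) (nat_lit 224)) (XT.nd (nat_lit 78) (nat_lit 152) (nat_lit 0) (XT.lf (nat_lit 0) (nat_lit 401377039096) (nat_lit 76) (nat_lit 270220073118) (nat_lit 76) (nat_lit 29209795549) (nat_lit 18) (nat_lit 4) (nat_lit 19) (nat_lit 5) (nat_lit 19) (nat_lit 4) (nat_lit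 425) (nat_lit 372) (nat_lit 223)) (XT.lf (nat_lit 0) (nat_lit 93867378798) (nat_lit 76) (nat_lit 69487666688) (nat_lit 152) (nat_lit 582915170559) (nat_lit 16) (nat_lit 5) (nat_lit 17) (nat_lit 5) (nat_lit 18) (nat_lit 4) (nat_lit 426) (nat_lit 372) (nat_lit 222)))) (XT.nd (nat_lit 78) (nat_lit 76) (nat_lit 0) (XT.lf (nat_lit 0) (nat_lit 377916255307) (nat_lit 152) (nat_lit 268667348885) (nat_lit 0) (nat_lit 148382314841) (nat_lit 16) (nat_lit 5) (nat_lit 18) (nat_lit 4) (nat_lit 16) (nat_lit 4) (nat_lit 427) (nat_lit 372) (nat_lit 221)) (XT.nd (nat_lit 78) (nat_lit 0) (nat_lit 0) (XT.lf (nat_lit 0) (nat_lit 149375641814) (nat_lit 76) (nat_lit 463770275866) (nat_lit 76) (nat_lit 234236182809) (nat_lit 15) (nat_lit 4) (nat_lit 16) (nat_lit 5) (nat_lit 16) (nat_lit 4) (nat_lit 428) (nat_lit 372) (nat_lit 220)) (XT.lf (nat_lit 0) (nat_lit 610455521110) (nat_lit 76) (nat_lit 261418151859) (nat_lit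 76) (nat_lit 31883917513) (nat_lit 15) (nat_lit 4) (nat_lit 16) (nat_lit 5) (nat_lit 16) (nat_lit 4) (nat_lit 429) (nat_lit 372) (nat_lit 219))))) (XT.nd (nat_lit 234) (nat_lit 76) (nat_lit 0) (XT.nd (nat_lit 78) (nat_lit 76) (nat_lit 0) (XT.lf (nat_lit 0) (nat_lit 145521494653) (nat_lit 76) (nat_lit 37432583308) (nat_lit 152) (nat_lit 781429743973) (nat_lit 13) (nat_lit 5) (nat_lit 14) (nat_lit 5) (nat_lit 15) (nat_lit 4) (nat_lit 430) (nat_lit 372) (nat_lit 218)) (XT.nd (nat_lit 78) (nat_lit 76) (nat_lit 0) (XT.lf (nat_lit 0) (nat_lit 422261990743) (nat_lit 152) (nat_lit 403494311996) (nat_lit 0) (nat_lit 203657718076) (nat_lit 13) (nat_lit 5) (nat_lit 15) (nat_lit 4) (nat_lit 13) (nat_lit 4) (nat_lit 431) (nat_lit 372) (nat_lit 217)) (XT.lf (nat_lit 0) (nat_lit 45941902473) (nat_lit 76) (nat_lit 636120850896) (nat_lit 76) (nat_lit 417516471411) (nat_lit 12) (nat_lit 4) (nat_lit 13) (nat_lit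 5) (nat_lit 13) (nat_lit 4) (nat_lit 432) (nat_lit 372) (nat_lit 216)))) (XT.nd (nat_lit 48438) (nat_lit 0) (nat_lit 8132) (XT.nd (nat_lit 78) (nat_lit 76) (nat_lit 0) (XT.lf (nat_lit 0) (nat_lit 545741198940) (nat_lit 76) (nat_lit 423934752892) (nat_lit 76) (nat_lit 205330274501) (nat_lit 12) (nat_lit 4) (nat_lit 13) (nat_lit 5) (nat_lit 13) (nat_lit 4) (nat_lit 433) (nat_lit 372) (nat_lit 215)) (XT.lf (nat_lit 0) (nat_lit 23067861258) (nat_lit 152) (nat_lit 171315454390) (nat_lit 76) (nat_lit 1062065480173) (nat_lit 11) (nat_lit 5) (nat_lit 13) (nat_lit 5) (nat_lit 12) (nat_lit 4) (nat_lit 434) (nat_lit 372) (nat_lit 214))) (XT.nd (nat_lit 78) (nat_lit 0) (nat_lit 76) (XT.lf (nat_lit 0) (nat_lit 7059302746) (nat_lit 836) (nat_lit 9362257061) (nat_lit 836) (nat_lit 9362257061) (nat_lit 118) (nat_lit 3) (nat_lit 129) (nat_lit 3) (nat_lit 129) (nat_lit 5) (nat_lit 373) (nat_lit 373) (nat_lit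 274)) (XT.lf (nat_lit 0) (nat_lit 15174953914) (nat_lit 760) (nat_lit 31652475149) (nat_lit 836) (nat_lit 6778309175) (nat_lit 119) (nat_lit 5) (nat_lit 129) (nat_lit 5) (nat_lit 130) (nat_lit 5) (nat_lit 374) (nat_lit 373) (nat_lit 273))))))))
noncomputable def xc97 : XT := (XT.nd (nat_lit 2028) (nat_lit 2736) (nat_lit 0) (XT.nd (nat_lit 1014) (nat_lit 2508) (nat_lit 0) (XT.nd (nat_lit 468) (nat_lit 2128) (nat_lit 0) (XT.nd (nat_lit 234) (nat_lit 456) (nat_lit 0) (XT.nd (nat_lit 78) (nat_lit 0) (nat_lit 76) (XT.lf (nat_lit 76) (nat_lit 10539237196) (nat_lit 0) (nat_lit 6822651438) (nat_lit 836) (nat_lit 38392700610) (nat_lit 120) (nat_lit 5) (nat_lit 119) (nat_lit 5) (nat_lit 130) (nat_lit 5) (nat_lit 375) (nat_lit 373) (nat_lit 272)) (XT.nd (nat_lit 78) (nat_lit 0) (nat_lit 76) (XT.lf (nat_lit 0) (nat_lit 20848703327) (nat_lit 760) (nat_lit 1390635209) (nat_lit 836) (nat_lit 35779765444)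 (nat_lit 120) (nat_lit 5) (nat_lit 130) (nat_lit 5) (nat_lit 131) (nat_lit 5) (nat_lit 376) (nat_lit 373) (nat_lit 271)) (XT.lf (nat_lit 0) (nat_lit 25806823899) (nat_lit 760) (nat_lit 13425798934) (nat_lit 836) (nat_lit 21172540798) (nat_lit 121) (nat_lit 5) (nat_lit 131) (nat_lit 5) (nat_lit 132) (nat_lit 5) (nat_lit 377) (nat_lit 373) (nat_lit 270)))) (XT.nd (nat_lit 78) (nat_lit 684) (nat_lit 0) (XT.lf (nat_lit 0) (nat_lit 32214816645) (nat_lit 760) (nat_lit 25913345197) (nat_lit 836) (nat_lit 4801286726) (nat_lit 122) (nat_lit 5) (nat_lit 132) (nat_lit 5) (nat_lit 133) (nat_lit 5) (nat_lit 378) (nat_lit 373) (nat_lit 269)) (XT.nd (nat_lit 78) (nat_lit 684) (nat_lit 0) (XT.lf (nat_lit 76) (nat_lit 26509587972) (nat_lit 0) (nat_lit 13936157976) (nat_lit 836) (nat_lit 25144417013) (nat_lit 123) (nat_lit 5) (nat_lit 122) (nat_lit 5) (nat_lit 133) (nat_lit 5) (nat_lit 379) (nat_lit 373) (nat_lit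 268)) (XT.lf (nat_lit 0) (nat_lit 15571598639) (nat_lit 760) (nat_lit 34990389697) (nat_lit 836) (nat_lit 17840405637) (nat_lit 113) (nat_lit 5) (nat_lit 123) (nat_lit 5) (nat_lit 124) (nat_lit 5) (nat_lit 380) (nat_lit 373) (nat_lit 267))))) (XT.nd (nat_lit 234) (nat_lit 1292) (nat_lit 0) (XT.nd (nat_lit 78) (nat_lit 456) (nat_lit 0) (XT.lf (nat_lit 0) (nat_lit 4280945045) (nat_lit 380) (nat_lit 58391316886) (nat_lit 456) (nat_lit 8708106244) (nat_lit 108) (nat_lit 5) (nat_lit 113) (nat_lit 5) (nat_lit 114) (nat_lit 5) (nat_lit 381) (nat_lit 373) (nat_lit 266)) (XT.nd (nat_lit 78) (nat_lit 380) (nat_lit 0) (XT.lf (nat_lit 0) (nat_lit 2640810231) (nat_lit 456) (nat_lit 7327853670) (nat_lit 76) (nat_lit 64550866437) (nat_lit 107) (nat_lit 5) (nat_lit 113) (nat_lit 5) (nat_lit 108) (nat_lit 5) (nat_lit 382) (nat_lit 373) (nat_lit 265)) (XT.lf (nat_lit 0) (nat_lit 16193373203) (nat_lit 456)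 (nat_lit 19571298578) (nat_lit 76) (nat_lit 42057975820) (nat_lit 102) (nat_lit 5) (nat_lit 108) (nat_lit 5) (nat_lit 103) (nat_lit 5) (nat_lit 383) (nat_lit 373) (nat_lit 264)))) (XT.nd (nat_lit 156) (nat_lit 608) (nat_lit 0) (XT.nd (nat_lit 78) (nat_lit 304) (nat_lit 0) (XT.lf (nat_lit 0) (nat_lit 32169279523) (nat_lit 456) (nat_lit 32246926749) (nat_lit 76) (nat_lit 16906852042) (nat_lit 97) (nat_lit 5) (nat_lit 103) (nat_lit 5) (nat_lit 98) (nat_lit 5) (nat_lit 384) (nat_lit 373) (nat_lit 263)) (XT.lf (nat_lit 0) (nat_lit 39480564236) (nat_lit 304) (nat_lit 11506712154) (nat_lit 380) (nat_lit 34038025505) (nat_lit 93) (nat_lit 5) (nat_lit 97) (nat_lit 5) (nat_lit 98) (nat_lit 5) (nat_lit 385) (nat_lit 373) (nat_lit 262))) (XT.nd (nat_lit 78) (nat_lit 304) (nat_lit 0) (XT.lf (nat_lit 0) (nat_lit 29316556709) (nat_lit 304) (nat_lit 43733455137) (nat_lit 380) (nat_lit 15886749016) (nat_lit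 89) (nat_lit 5) (nat_lit 93) (nat_lit 5) (nat_lit 94) (nat_lit 5) (nat_lit 386) (nat_lit 373) (nat_lit 261)) (XT.lf (nat_lit 0) (nat_lit 5113592731) (nat_lit 304) (nat_lit 74300917381) (nat_lit 76) (nat_lit 13667929902) (nat_lit 85) (nat_lit 5) (nat_lit 89) (nat_lit 5) (nat_lit 86) (nat_lit 5) (nat_lit 387) (nat_lit 373) (nat_lit 260)))))) (XT.nd (nat_lit 468) (nat_lit 1216) (nat_lit 0) (XT.nd (nat_lit 234) (nat_lit 760) (nat_lit 0) (XT.nd (nat_lit 78) (nat_lit 228) (nat_lit 0) (XT.lf (nat_lit 0) (nat_lit 7285262434) (nat_lit 304) (nat_lit 21864610801) (nat_lit 380) (nat_lit 68301253741) (nat_lit 81) (nat_lit 5) (nat_lit 85) (nat_lit 5) (nat_lit 86) (nat_lit 5) (nat_lit 388) (nat_lit 373) (nat_lit 259)) (XT.nd (nat_lit 78) (nat_lit 228) (nat_lit 0) (XT.lf (nat_lit 0) (nat_lit 57051985804) (nat_lit 380) (nat_lit 4705362679) (nat_lit 76) (nat_lit 40314814570) (nat_lit 81) (nat_lit 5) (nat_lit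 86) (nat_lit 5) (nat_lit 82) (nat_lit 5) (nat_lit 389) (nat_lit 373) (nat_lit 258)) (XT.lf (nat_lit 0) (nat_lit 88978144374) (nat_lit 304) (nat_lit 16886788572) (nat_lit 76) (nat_lit 1108355811) (nat_lit 78) (nat_lit 5) (nat_lit 82) (nat_lit 5) (nat_lit 79) (nat_lit 5) (nat_lit 390) (nat_lit 373) (nat_lit 257)))) (XT.nd (nat_lit 78) (nat_lit 456) (nat_lit 0) (XT.lf (nat_lit 0) (nat_lit 13275715549) (nat_lit 304) (nat_lit 30415022853) (nat_lit 76) (nat_lit 68444928053) (nat_lit 74) (nat_lit 5) (nat_lit 78) (nat_lit 5) (nat_lit 75) (nat_lit 5) (nat_lit 391) (nat_lit 373) (nat_lit 256)) (XT.nd (nat_lit 78) (nat_lit 228) (nat_lit 0) (XT.lf (nat_lit 0) (nat_lit 48260816796) (nat_lit 304) (nat_lit 44864084492) (nat_lit 76) (nat_lit 24479231708) (nat_lit 71) (nat_lit 5) (nat_lit 75) (nat_lit 5) (nat_lit 72) (nat_lit 5) (nat_lit 392) (nat_lit 373) (nat_lit 255)) (XT.lf (nat_lit 0) (nat_lit 63019812359)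 (nat_lit 228) (nat_lit 25282745807) (nat_lit 304) (nat_lit 35094627540) (nat_lit 68) (nat_lit 5) (nat_lit 71) (nat_lit 5) (nat_lit 72) (nat_lit 5) (nat_lit 393) (nat_lit 373) (nat_lit 254))))) (XT.nd (nat_lit 234) (nat_lit 608) (nat_lit 0) (XT.nd (nat_lit 78) (nat_lit 380) (nat_lit 0) (XT.lf (nat_lit 0) (nat_lit 4233016107) (nat_lit 228) (nat_lit 77167588147) (nat_lit 76) (nat_lit 48131616358) (nat_lit 65) (nat_lit 5) (nat_lit 68) (nat_lit 5) (nat_lit 66) (nat_lit 5) (nat_lit 394) (nat_lit 373) (nat_lit 253)) (XT.nd (nat_lit 78) (nat_lit 152) (nat_lit 0) (XT.lf (nat_lit 0) (nat_lit 40433592630) (nat_lit 228) (nat_lit 7185560102) (nat_lit 304) (nat_lit 88403048542) (nat_lit 62) (nat_lit 5) (nat_lit 65) (nat_lit 5) (nat_lit 66) (nat_lit 5) (nat_lit 395) (nat_lit 373) (nat_lit 252)) (XT.lf (nat_lit 0) (nat_lit 26933339186) (nat_lit 152) (nat_lit 70467674662) (nat_lit 228) (nat_lit 45484125199)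 (nat_lit 60) (nat_lit 5) (nat_lit 62) (nat_lit 5) (nat_lit 63) (nat_lit 5) (nat_lit 396) (nat_lit 373) (nat_lit 251)))) (XT.nd (nat_lit 156) (nat_lit 380) (nat_lit 0) (XT.nd (nat_lit 78) (nat_lit 0) (nat_lit 0) (XT.lf (nat_lit 0) (nat_lit 3005006937) (nat_lit 228) (nat_lit 137650319203) (nat_lit 76) (nat_lit 9532883844) (nat_lit 57) (nat_lit 5) (nat_lit 60) (nat_lit 5) (nat_lit 58) (nat_lit 5) (nat_lit 397) (nat_lit 373) (nat_lit 250)) (XT.lf (nat_lit 0) (nat_lit 57041115479) (nat_lit 228) (nat_lit 4517148346) (nat_lit 76) (nat_lit 96316911576) (nat_lit 57) (nat_lit 5) (nat_lit 60) (nat_lit 5) (nat_lit 58) (nat_lit 5) (nat_lit 398) (nat_lit 373) (nat_lit 249))) (XT.nd (nat_lit 78) (nat_lit 228) (nat_lit 0) (XT.lf (nat_lit 0) (nat_lit 118054792375) (nat_lit 228) (nat_lit 22604437914) (nat_lit 76) (nat_lit 25385134033) (nat_lit 55) (nat_lit 5) (nat_lit 58) (nat_lit 5) (nat_lit 56) (nat_lit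 5) (nat_lit 399) (nat_lit 373) (nat_lit 248)) (XT.lf (nat_lit 0) (nat_lit 12017136066) (nat_lit 228) (nat_lit 43195919603) (nat_lit 76) (nat_lit 119485674923) (nat_lit 52) (nat_lit 5) (nat_lit 55) (nat_lit 5) (nat_lit 53) (nat_lit 5) (nat_lit 400) (nat_lit 373) (nat_lit 247))))))) (XT.nd (nat_lit 1014) (nat_lit 1140) (nat_lit 0) (XT.nd (nat_lit 468) (nat_lit 836) (nat_lit 0) (XT.nd (nat_lit 234) (nat_lit 304) (nat_lit 0) (XT.nd (nat_lit 78) (nat_lit 304) (nat_lit 0) (XT.lf (nat_lit 0) (nat_lit 78030674128) (nat_lit 228) (nat_lit 66852774296) (nat_lit 76) (nat_lit 38978281521) (nat_lit 50) (nat_lit 5) (nat_lit 53) (nat_lit 5) (nat_lit 51) (nat_lit 5) (nat_lit 401) (nat_lit 373) (nat_lit 246)) (XT.nd (nat_lit 78) (nat_lit 152) (nat_lit 0) (XT.lf (nat_lit 0) (nat_lit 100111993588) (nat_lit 152) (nat_lit 52471239634) (nat_lit 228) (nat_lit 41011639317) (nat_lit 48) (nat_lit 5) (nat_lit 50) (nat_lit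 5) (nat_lit 51) (nat_lit 5) (nat_lit 402) (nat_lit 373) (nat_lit 245)) (XT.lf (nat_lit 0) (nat_lit 31297580667) (nat_lit 152) (nat_lit 123859745792) (nat_lit 76) (nat_lit 48765096004) (nat_lit 46) (nat_lit 5) (nat_lit 48) (nat_lit 5) (nat_lit 47) (nat_lit 5) (nat_lit 403) (nat_lit 373) (nat_lit 244)))) (XT.nd (nat_lit 78) (nat_lit 152) (nat_lit 0) (XT.lf (nat_lit 0) (nat_lit 56024092113) (nat_lit 152) (nat_lit 55363563755) (nat_lit 228) (nat_lit 103483256290) (nat_lit 44) (nat_lit 5) (nat_lit 46) (nat_lit 5) (nat_lit 47) (nat_lit 5) (nat_lit 404) (nat_lit 373) (nat_lit 243)) (XT.nd (nat_lit 78) (nat_lit 76) (nat_lit 0) (XT.lf (nat_lit 0) (nat_lit 28181129002) (nat_lit 76) (nat_lit 173154271160) (nat_lit 152) (nat_lit 25187357857) (nat_lit 43) (nat_lit 5) (nat_lit 44) (nat_lit 5) (nat_lit 45) (nat_lit 4) (nat_lit 405) (nat_lit 373) (nat_lit 242)) (XT.lf (nat_lit 0) (nat_lit 61217081533) (nat_lit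 152) (nat_lit 5031915908) (nat_lit 76) (nat_lit 172624148373) (nat_lit 42) (nat_lit 5) (nat_lit 44) (nat_lit 5) (nat_lit 43) (nat_lit 5) (nat_lit 406) (nat_lit 373) (nat_lit 241))))) (XT.nd (nat_lit 234) (nat_lit 380) (nat_lit 0) (XT.nd (nat_lit 78) (nat_lit 304) (nat_lit 0) (XT.lf (nat_lit 0) (nat_lit 157770835630) (nat_lit 228) (nat_lit 42816202457) (nat_lit 76) (nat_lit 51397911194) (nat_lit 40) (nat_lit 5) (nat_lit 43) (nat_lit 5) (nat_lit 41) (nat_lit 4) (nat_lit 407) (nat_lit 373) (nat_lit 240)) (XT.nd (nat_lit 78) (nat_lit 152) (nat_lit 0) (XT.lf (nat_lit 0) (nat_lit 102595784) (nat_lit 152) (nat_lit 86788925464) (nat_lit 76) (nat_lit 179053960047) (nat_lit 38) (nat_lit 5) (nat_lit 40) (nat_lit 5) (nat_lit 39) (nat_lit 5) (nat_lit 408) (nat_lit 373) (nat_lit 239)) (XT.lf (nat_lit 0) (nat_lit 102323814612) (nat_lit 228) (nat_lit 139044074664) (nat_lit 76) (nat_lit 39394743195) (nat_lit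 36) (nat_lit 5) (nat_lit 39) (nat_lit 5) (nat_lit 37) (nat_lit 4) (nat_lit 409) (nat_lit 373) (nat_lit 238)))) (XT.nd (nat_lit 156) (nat_lit 76) (nat_lit 0) (XT.nd (nat_lit 78) (nat_lit 228) (nat_lit 0) (XT.lf (nat_lit 0) (nat_lit 96514252391) (nat_lit 76) (nat_lit 120716450754) (nat_lit 152) (nat_lit 79309054079) (nat_lit 35) (nat_lit 5) (nat_lit 36) (nat_lit 5) (nat_lit 37) (nat_lit 4) (nat_lit 410) (nat_lit 373) (nat_lit 237)) (XT.lf (nat_lit 0) (nat_lit 30208884356) (nat_lit 228) (nat_lit 270271239112) (nat_lit 76) (nat_lit 12909964863) (nat_lit 32) (nat_lit 5) (nat_lit 35) (nat_lit 5) (nat_lit 33) (nat_lit 4) (nat_lit 411) (nat_lit 373) (nat_lit 236))) (XT.nd (nat_lit 78) (nat_lit 76) (nat_lit 0) (XT.lf (nat_lit 0) (nat_lit 151323150549) (nat_lit 228) (nat_lit 21987642085) (nat_lit 76) (nat_lit 157931971166) (nat_lit 32) (nat_lit 5) (nat_lit 35) (nat_lit 5) (nat_lit 33) (nat_lit 4) (nat_lit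 412) (nat_lit 373) (nat_lit 235)) (XT.lf (nat_lit 0) (nat_lit 254296712228) (nat_lit 76) (nat_lit 31799587068) (nat_lit 152) (nat_lit 64228867014) (nat_lit 31) (nat_lit 5) (nat_lit 32) (nat_lit 5) (nat_lit 33) (nat_lit 4) (nat_lit 413) (nat_lit 373) (nat_lit 234)))))) (XT.nd (nat_lit 546) (nat_lit 532) (nat_lit 0) (XT.nd (nat_lit 234) (nat_lit 304) (nat_lit 0) (XT.nd (nat_lit 78) (nat_lit 152) (nat_lit 0) (XT.lf (nat_lit 0) (nat_lit 64051174528) (nat_lit 152) (nat_lit 185077242176) (nat_lit 76) (nat_lit 121494477981) (nat_lit 29) (nat_lit 5) (nat_lit 31) (nat_lit 5) (nat_lit 30) (nat_lit 4) (nat_lit 414) (nat_lit 373) (nat_lit 233)) (XT.nd (nat_lit 78) (nat_lit 76) (nat_lit 0) (XT.lf (nat_lit 0) (nat_lit 102238706668) (nat_lit 76) (nat_lit 101966828473) (nat_lit 152) (nat_lit 188093150513) (nat_lit 28) (nat_lit 5) (nat_lit 29) (nat_lit 5) (nat_lit 30) (nat_lit 4) (nat_lit 415) (nat_lit 373)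 (nat_lit 232)) (XT.lf (nat_lit 0) (nat_lit 2746321447) (nat_lit 76) (nat_lit 357034510965) (nat_lit 76) (nat_lit 55717278149) (nat_lit 27) (nat_lit 4) (nat_lit 28) (nat_lit 5) (nat_lit 28) (nat_lit 4) (nat_lit 416) (nat_lit 373) (nat_lit 231)))) (XT.nd (nat_lit 156) (nat_lit 152) (nat_lit 0) (XT.nd (nat_lit 78) (nat_lit 76) (nat_lit 0) (XT.lf (nat_lit 0) (nat_lit 91310519139) (nat_lit 152) (nat_lit 114131069007) (nat_lit 76) (nat_lit 234701073689) (nat_lit 26) (nat_lit 5) (nat_lit 28) (nat_lit 5) (nat_lit 27) (nat_lit 4) (nat_lit 417) (nat_lit 373) (nat_lit 230)) (XT.lf (nat_lit 0) (nat_lit 214297837336) (nat_lit 76) (nat_lit 37222085272) (nat_lit 152) (nat_lit 215024612525) (nat_lit 25) (nat_lit 5) (nat_lit 26) (nat_lit 5) (nat_lit 27) (nat_lit 4) (nat_lit 418) (nat_lit 373) (nat_lit 229))) (XT.nd (nat_lit 78) (nat_lit 76) (nat_lit 0) (XT.lf (nat_lit 0) (nat_lit 78335963633) (nat_lit 76)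 (nat_lit 351708758547) (nat_lit 76) (nat_lit 64738903962) (nat_lit 24) (nat_lit 4) (nat_lit 25) (nat_lit 5) (nat_lit 25) (nat_lit 4) (nat_lit 419) (nat_lit 373) (nat_lit 228)) (XT.lf (nat_lit 0) (nat_lit 99540046576) (nat_lit 152) (nat_lit 82913061838) (nat_lit 76) (nat_lit 342497908070) (nat_lit 23) (nat_lit 5) (nat_lit 25) (nat_lit 5) (nat_lit 24) (nat_lit 4) (nat_lit 420) (nat_lit 373) (nat_lit 227))))) (XT.nd (nat_lit 234) (nat_lit 304) (nat_lit 0) (XT.nd (nat_lit 78) (nat_lit 152) (nat_lit 0) (XT.lf (nat_lit 0) (nat_lit 279274424695) (nat_lit 152) (nat_lit 272006000350) (nat_lit 0) (nat_lit 5969245997) (nat_lit 22) (nat_lit 5) (nat_lit 24) (nat_lit 4) (nat_lit 22) (nat_lit 4) (nat_lit 421) (nat_lit 373) (nat_lit 226)) (XT.nd (nat_lit 78) (nat_lit 76) (nat_lit 0) (XT.lf (nat_lit 0) (nat_lit 93650236820) (nat_lit 76) (nat_lit 385743547742) (nat_lit 76) (nat_lit 112438121856) (nat_lit 21)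 (nat_lit 4) (nat_lit 22) (nat_lit 5) (nat_lit 22) (nat_lit 4) (nat_lit 422) (nat_lit 373) (nat_lit 225)) (XT.lf (nat_lit 0) (nat_lit 69034097241) (nat_lit 152) (nat_lit 131785755417) (nat_lit 76) (nat_lit 428068304682) (nat_lit 20) (nat_lit 5) (nat_lit 22) (nat_lit 5) (nat_lit 21) (nat_lit 4) (nat_lit 423) (nat_lit 373) (nat_lit 224)))) (XT.nd (nat_lit 156) (nat_lit 228) (nat_lit 0) (XT.nd (nat_lit 78) (nat_lit 0) (nat_lit 0) (XT.lf (nat_lit 0) (nat_lit 265446501346) (nat_lit 152) (nat_lit 397996960303) (nat_lit 0) (nat_lit 5155199739) (nat_lit 19) (nat_lit 5) (nat_lit 21) (nat_lit 4) (nat_lit 19) (nat_lit 4) (nat_lit 424) (nat_lit 373) (nat_lit 223)) (XT.lf (nat_lit 0) (nat_lit 483291018629) (nat_lit 152) (nat_lit 4909500969) (nat_lit 0) (nat_lit 222999530140) (nat_lit 19) (nat_lit 5) (nat_lit 21) (nat_lit 4) (nat_lit 19) (nat_lit 4) (nat_lit 425) (nat_lit 373) (nat_lit 222))) (XT.nd (nat_lit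 78) (nat_lit 152) (nat_lit 0) (XT.lf (nat_lit 0) (nat_lit 433499044224) (nat_lit 76) (nat_lit 291831887382) (nat_lit 76) (nat_lit 31540225855) (nat_lit 18) (nat_lit 4) (nat_lit 19) (nat_lit 5) (nat_lit 19) (nat_lit 4) (nat_lit 426) (nat_lit 373) (nat_lit 221)) (XT.lf (nat_lit 0) (nat_lit 101388291339) (nat_lit 76) (nat_lit 75041032117) (nat_lit 152) (nat_lit 629542215802) (nat_lit 16) (nat_lit 5) (nat_lit 17) (nat_lit 5) (nat_lit 18) (nat_lit 4) (nat_lit 427) (nat_lit 373) (nat_lit 220))))))))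
noncomputable def xc98 : XT := (XT.nd (nat_lit 50388) (nat_lit 0) (nat_lit 1064) (XT.nd (nat_lit 49374) (nat_lit 0) (nat_lit 4712) (XT.nd (nat_lit 468) (nat_lit 0) (nat_lit 0) (XT.nd (nat_lit 234) (nat_lit 228) (nat_lit 0) (XT.nd (nat_lit 78) (nat_lit 76) (nat_lit 0) (XT.lf (nat_lit 0) (nat_lit 408155076575) (nat_lit 152) (nat_lit 290149877418) (nat_lit 0) (nat_lit 160257962193) (nat_lit 16) (nat_lit 5) (nat_lit 18) (nat_lit 4) (nat_lit 16) (nat_lit 4) (nat_lit 428) (nat_lit 373) (nat_lit 219)) (XT.nd (nat_lit 78) (nat_lit 0) (nat_lit 0) (XT.lf (nat_lit 0) (nat_lit 161336080601) (nat_lit 76) (nat_lit 500866784562) (nat_lit 76) (nat_lit 252969539358) (nat_lit 15) (nat_lit 4) (nat_lit 16) (nat_lit 5) (nat_lit 16) (nat_lit 4) (nat_lit 429) (nat_lit 373) (nat_lit 218)) (XT.lf (nat_lit 0) (nat_lit 659301580801) (nat_lit 76) (nat_lit 282326869402) (nat_lit 76) (nat_lit 34429503066) (nat_lit 15)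 (nat_lit 4) (nat_lit 16) (nat_lit 5) (nat_lit 16) (nat_lit 4) (nat_lit 430) (nat_lit 373) (nat_lit 217)))) (XT.nd (nat_lit 78) (nat_lit 76) (nat_lit 0) (XT.lf (nat_lit 0) (nat_lit 157172571488) (nat_lit 76) (nat_lit 40422574844) (nat_lit 152) (nat_lit 843939144001) (nat_lit 13) (nat_lit 5) (nat_lit 14) (nat_lit 5) (nat_lit 15) (nat_lit 4) (nat_lit 431) (nat_lit 373) (nat_lit 216)) (XT.nd (nat_lit 78) (nat_lit 76) (nat_lit 0) (XT.lf (nat_lit 0) (nat_lit 456047407586) (nat_lit 152) (nat_lit 435765039769) (nat_lit 0) (nat_lit 219954472018) (nat_lit 13) (nat_lit 5) (nat_lit 15) (nat_lit 4) (nat_lit 13) (nat_lit 4) (nat_lit 432) (nat_lit 373) (nat_lit 215)) (XT.lf (nat_lit 0) (nat_lit 49625688674) (nat_lit 76) (nat_lit 687006344035) (nat_lit 76) (nat_lit 450913316888) (nat_lit 12) (nat_lit 4) (nat_lit 13) (nat_lit 5) (nat_lit 13) (nat_lit 4) (nat_lit 433) (nat_lit 373) (nat_lit 214))))) (XT.nd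 (nat_lit 48594) (nat_lit 0) (nat_lit 8132) (XT.nd (nat_lit 48438) (nat_lit 0) (nat_lit 8056) (XT.lf (nat_lit 0) (nat_lit 589408304117) (nat_lit 76) (nat_lit 457845667445) (nat_lit 76) (nat_lit 221752555502) (nat_lit 12) (nat_lit 4) (nat_lit 13) (nat_lit 5) (nat_lit 13) (nat_lit 4) (nat_lit 434) (nat_lit 373) (nat_lit 213)) (XT.nd (nat_lit 78) (nat_lit 0) (nat_lit 76) (XT.lf (nat_lit 0) (nat_lit 7660871919) (nat_lit 836) (nat_lit 10091894454) (nat_lit 836) (nat_lit 10091894454) (nat_lit 118) (nat_lit 3) (nat_lit 129) (nat_lit 3) (nat_lit 129) (nat_lit 5) (nat_lit 374) (nat_lit 374) (nat_lit 272)) (XT.lf (nat_lit 0) (nat_lit 16457226366) (nat_lit 760) (nat_lit 34143696202) (nat_lit 836) (nat_lit 7289823622) (nat_lit 119) (nat_lit 5) (nat_lit 129) (nat_lit 5) (nat_lit 130) (nat_lit 5) (nat_lit 375) (nat_lit 374) (nat_lit 271)))) (XT.nd (nat_lit 156) (nat_lit 0) (nat_lit 152) (XT.nd (nat_lit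 78) (nat_lit 0) (nat_lit 76) (XT.lf (nat_lit 76) (nat_lit 11421572321) (nat_lit 0) (nat_lit 7393098012) (nat_lit 836) (nat_lit 41397059983) (nat_lit 120) (nat_lit 5) (nat_lit 119) (nat_lit 5) (nat_lit 130) (nat_lit 5) (nat_lit 376) (nat_lit 374) (nat_lit 270)) (XT.lf (nat_lit 0) (nat_lit 22575345886) (nat_lit 760) (nat_lit 1462250073) (nat_lit 836) (nat_lit 38620067048) (nat_lit 120) (nat_lit 5) (nat_lit 130) (nat_lit 5) (nat_lit 131) (nat_lit 5) (nat_lit 377) (nat_lit 374) (nat_lit 269))) (XT.nd (nat_lit 78) (nat_lit 0) (nat_lit 76) (XT.lf (nat_lit 0) (nat_lit 27926089901) (nat_lit 760) (nat_lit 14458903924) (nat_lit 836) (nat_lit 22849817285) (nat_lit 121) (nat_lit 5) (nat_lit 131) (nat_lit 5) (nat_lit 132) (nat_lit 5) (nat_lit 378) (nat_lit 374) (nat_lit 268)) (XT.lf (nat_lit 0) (nat_lit 34843091511) (nat_lit 760) (nat_lit 27944453667) (nat_lit 836) (nat_lit 5173677384) (nat_lit 122) (nat_lit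 5) (nat_lit 132) (nat_lit 5) (nat_lit 133) (nat_lit 5) (nat_lit 379) (nat_lit 374) (nat_lit 267)))))) (XT.nd (nat_lit 468) (nat_lit 1748) (nat_lit 0) (XT.nd (nat_lit 234) (nat_lit 836) (nat_lit 0) (XT.nd (nat_lit 78) (nat_lit 1064) (nat_lit 0) (XT.lf (nat_lit 76) (nat_lit 28670490663) (nat_lit 0) (nat_lit 15058846715) (nat_lit 836) (nat_lit 27105616647) (nat_lit 123) (nat_lit 5) (nat_lit 122) (nat_lit 5) (nat_lit 133) (nat_lit 5) (nat_lit 380) (nat_lit 374) (nat_lit 266)) (XT.nd (nat_lit 78) (nat_lit 380) (nat_lit 0) (XT.lf (nat_lit 0) (nat_lit 16858151083) (nat_lit 760) (nat_lit 37793702257) (nat_lit 836) (nat_lit 19220463350) (nat_lit 113) (nat_lit 5) (nat_lit 123) (nat_lit 5) (nat_lit 124) (nat_lit 5) (nat_lit 381) (nat_lit 374) (nat_lit 265)) (XT.lf (nat_lit 0) (nat_lit 4664702171) (nat_lit 380) (nat_lit 63063505805) (nat_lit 456) (nat_lit 9360459636) (nat_lit 108) (nat_lit 5) (nat_lit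 113) (nat_lit 5) (nat_lit 114) (nat_lit 5) (nat_lit 382) (nat_lit 374) (nat_lit 264)))) (XT.nd (nat_lit 78) (nat_lit 760) (nat_lit 0) (XT.lf (nat_lit 0) (nat_lit 2891776334) (nat_lit 456) (nat_lit 7874526436) (nat_lit 76) (nat_lit 69712785738) (nat_lit 107) (nat_lit 5) (nat_lit 113) (nat_lit 5) (nat_lit 108) (nat_lit 5) (nat_lit 383) (nat_lit 374) (nat_lit 263)) (XT.nd (nat_lit 78) (nat_lit 380) (nat_lit 0) (XT.lf (nat_lit 0) (nat_lit 17526201819) (nat_lit 456) (nat_lit 21097288219) (nat_lit 76) (nat_lit 45423083662) (nat_lit 102) (nat_lit 5) (nat_lit 108) (nat_lit 5) (nat_lit 103) (nat_lit 5) (nat_lit 384) (nat_lit 374) (nat_lit 262)) (XT.lf (nat_lit 0) (nat_lit 34778050208) (nat_lit 456) (nat_lit 34786960670) (nat_lit 76) (nat_lit 18262114231) (nat_lit 97) (nat_lit 5) (nat_lit 103) (nat_lit 5) (nat_lit 98) (nat_lit 5) (nat_lit 385) (nat_lit 374) (nat_lit 261))))) (XT.nd (nat_lit 234) (nat_lit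 836) (nat_lit 0) (XT.nd (nat_lit 78) (nat_lit 608) (nat_lit 0) (XT.lf (nat_lit 0) (nat_lit 42677003401) (nat_lit 304) (nat_lit 12422467110) (nat_lit 380) (nat_lit 36726179699) (nat_lit 93) (nat_lit 5) (nat_lit 97) (nat_lit 5) (nat_lit 98) (nat_lit 5) (nat_lit 386) (nat_lit 374) (nat_lit 260)) (XT.nd (nat_lit 78) (nat_lit 304) (nat_lit 0) (XT.lf (nat_lit 0) (nat_lit 31699755688) (nat_lit 304) (nat_lit 47225669424) (nat_lit 380) (nat_lit 17124691896) (nat_lit 89) (nat_lit 5) (nat_lit 93) (nat_lit 5) (nat_lit 94) (nat_lit 5) (nat_lit 387) (nat_lit 374) (nat_lit 259)) (XT.lf (nat_lit 0) (nat_lit 5552947457) (nat_lit 304) (nat_lit 80206329747) (nat_lit 76) (nat_lit 14768232205) (nat_lit 85) (nat_lit 5) (nat_lit 89) (nat_lit 5) (nat_lit 86) (nat_lit 5) (nat_lit 388) (nat_lit 374) (nat_lit 258)))) (XT.nd (nat_lit 156) (nat_lit 532) (nat_lit 0) (XT.nd (nat_lit 78) (nat_lit 0) (nat_lit 0) (XT.lf (nat_lit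 0) (nat_lit 7905064292) (nat_lit 304) (nat_lit 23605401462) (nat_lit 380) (nat_lit 73735309729) (nat_lit 81) (nat_lit 5) (nat_lit 85) (nat_lit 5) (nat_lit 86) (nat_lit 5) (nat_lit 389) (nat_lit 374) (nat_lit 257)) (XT.lf (nat_lit 0) (nat_lit 61642749731) (nat_lit 380) (nat_lit 5046336409) (nat_lit 76) (nat_lit 43547509039) (nat_lit 81) (nat_lit 5) (nat_lit 86) (nat_lit 5) (nat_lit 82) (nat_lit 5) (nat_lit 390) (nat_lit 374) (nat_lit 256))) (XT.nd (nat_lit 78) (nat_lit 304) (nat_lit 0) (XT.lf (nat_lit 0) (nat_lit 96121696362) (nat_lit 304) (nat_lit 18202685773) (nat_lit 76) (nat_lit 1205494825) (nat_lit 78) (nat_lit 5) (nat_lit 82) (nat_lit 5) (nat_lit 79) (nat_lit 5) (nat_lit 391) (nat_lit 374) (nat_lit 255)) (XT.lf (nat_lit 0) (nat_lit 14362123979) (nat_lit 304) (nat_lit 32813887980) (nat_lit 76) (nat_lit 73929281545) (nat_lit 74) (nat_lit 5) (nat_lit 78) (nat_lit 5) (nat_lit 75) (nat_lit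 5) (nat_lit 392) (nat_lit 374) (nat_lit 254))))))) (XT.nd (nat_lit 1014) (nat_lit 1368) (nat_lit 0) (XT.nd (nat_lit 468) (nat_lit 988) (nat_lit 0) (XT.nd (nat_lit 234) (nat_lit 608) (nat_lit 0) (XT.nd (nat_lit 78) (nat_lit 456) (nat_lit 0) (XT.lf (nat_lit 0) (nat_lit 52144895089) (nat_lit 304) (nat_lit 48419358469) (nat_lit 76) (nat_lit 26447041368) (nat_lit 71) (nat_lit 5) (nat_lit 75) (nat_lit 5) (nat_lit 72) (nat_lit 5) (nat_lit 393) (nat_lit 374) (nat_lit 253)) (XT.nd (nat_lit 78) (nat_lit 228) (nat_lit 0) (XT.lf (nat_lit 0) (nat_lit 68093778931) (nat_lit 228) (nat_lit 27294982927) (nat_lit 304) (nat_lit 37879091287) (nat_lit 68) (nat_lit 5) (nat_lit 71) (nat_lit 5) (nat_lit 72) (nat_lit 5) (nat_lit 394) (nat_lit 374) (nat_lit 252)) (XT.lf (nat_lit 0) (nat_lit 4593025920) (nat_lit 228) (nat_lit 83308403523) (nat_lit 76) (nat_lit 51992293809) (nat_lit 65) (nat_lit 5) (nat_lit 68) (nat_lit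 5) (nat_lit 66) (nat_lit 5) (nat_lit 395) (nat_lit 374) (nat_lit 251)))) (XT.nd (nat_lit 78) (nat_lit 380) (nat_lit 0) (XT.lf (nat_lit 0) (nat_lit 43699455322) (nat_lit 228) (nat_lit 7749502032) (nat_lit 304) (nat_lit 95454000305) (nat_lit 62) (nat_lit 5) (nat_lit 65) (nat_lit 5) (nat_lit 66) (nat_lit 5) (nat_lit 396) (nat_lit 374) (nat_lit 250)) (XT.nd (nat_lit 78) (nat_lit 228) (nat_lit 0) (XT.lf (nat_lit 0) (nat_lit 29118639337) (nat_lit 152) (nat_lit 76093862246) (nat_lit 228) (nat_lit 49102472612) (nat_lit 60) (nat_lit 5) (nat_lit 62) (nat_lit 5) (nat_lit 63) (nat_lit 5) (nat_lit 397) (nat_lit 374) (nat_lit 249)) (XT.lf (nat_lit 0) (nat_lit 3264318314) (nat_lit 228) (nat_lit 148631646839) (nat_lit 76) (nat_lit 10306351111) (nat_lit 57) (nat_lit 5) (nat_lit 60) (nat_lit 5) (nat_lit 58) (nat_lit 5) (nat_lit 398) (nat_lit 374) (nat_lit 248))))) (XT.nd (nat_lit 234) (nat_lit 608) (nat_lit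 0) (XT.nd (nat_lit 78) (nat_lit 380) (nat_lit 0) (XT.lf (nat_lit 0) (nat_lit 61621914737) (nat_lit 228) (nat_lit 4850096232) (nat_lit 76) (nat_lit 104032298353) (nat_lit 57) (nat_lit 5) (nat_lit 60) (nat_lit 5) (nat_lit 58) (nat_lit 5) (nat_lit 399) (nat_lit 374) (nat_lit 247)) (XT.nd (nat_lit 78) (nat_lit 228) (nat_lit 0) (XT.lf (nat_lit 0) (nat_lit 127515977973) (nat_lit 228) (nat_lit 24384932831) (nat_lit 76) (nat_lit 27426158286) (nat_lit 55) (nat_lit 5) (nat_lit 58) (nat_lit 5) (nat_lit 56) (nat_lit 5) (nat_lit 400) (nat_lit 374) (nat_lit 246)) (XT.lf (nat_lit 0) (nat_lit 12994746310) (nat_lit 228) (nat_lit 46624403112) (nat_lit 76) (nat_lit 129054663886) (nat_lit 52) (nat_lit 5) (nat_lit 55) (nat_lit 5) (nat_lit 53) (nat_lit 5) (nat_lit 401) (nat_lit 374) (nat_lit 245)))) (XT.nd (nat_lit 156) (nat_lit 304) (nat_lit 0) (XT.nd (nat_lit 78) (nat_lit 152) (nat_lit 0) (XT.lf (nat_lit 0)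 (nat_lit 84288735529) (nat_lit 228) (nat_lit 72174377181) (nat_lit 76) (nat_lit 42106771772) (nat_lit 50) (nat_lit 5) (nat_lit 53) (nat_lit 5) (nat_lit 51) (nat_lit 5) (nat_lit 402) (nat_lit 374) (nat_lit 244)) (XT.lf (nat_lit 0) (nat_lit 108146415302) (nat_lit 152) (nat_lit 56658325477) (nat_lit 228) (nat_lit 44276975892) (nat_lit 48) (nat_lit 5) (nat_lit 50) (nat_lit 5) (nat_lit 51) (nat_lit 5) (nat_lit 403) (nat_lit 374) (nat_lit 243))) (XT.nd (nat_lit 78) (nat_lit 152) (nat_lit 0) (XT.lf (nat_lit 0) (nat_lit 33815915628) (nat_lit 152) (nat_lit 133743131800) (nat_lit 76) (nat_lit 52676439563) (nat_lit 46) (nat_lit 5) (nat_lit 48) (nat_lit 5) (nat_lit 47) (nat_lit 5) (nat_lit 404) (nat_lit 374) (nat_lit 242)) (XT.lf (nat_lit 0) (nat_lit 60530309561) (nat_lit 152) (nat_lit 59782190335) (nat_lit 228) (nat_lit 111747391023) (nat_lit 44) (nat_lit 5) (nat_lit 46) (nat_lit 5) (nat_lit 47) (nat_lit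 5) (nat_lit 405) (nat_lit 374) (nat_lit 241)))))) (XT.nd (nat_lit 468) (nat_lit 684) (nat_lit 0) (XT.nd (nat_lit 234) (nat_lit 380) (nat_lit 0) (XT.nd (nat_lit 78) (nat_lit 228) (nat_lit 0) (XT.lf (nat_lit 0) (nat_lit 30459361635) (nat_lit 76) (nat_lit 186996199413) (nat_lit 152) (nat_lit 27188348729) (nat_lit 43) (nat_lit 5) (nat_lit 44) (nat_lit 5) (nat_lit 45) (nat_lit 4) (nat_lit 406) (nat_lit 374) (nat_lit 240)) (XT.nd (nat_lit 78) (nat_lit 152) (nat_lit 0) (XT.lf (nat_lit 0) (nat_lit 66126994112) (nat_lit 152) (nat_lit 5412068577) (nat_lit 76) (nat_lit 186443305336) (nat_lit 42) (nat_lit 5) (nat_lit 44) (nat_lit 5) (nat_lit 43) (nat_lit 5) (nat_lit 407) (nat_lit 374) (nat_lit 239)) (XT.lf (nat_lit 0) (nat_lit 170404601681) (nat_lit 228) (nat_lit 46219619943) (nat_lit 76) (nat_lit 55518916647) (nat_lit 40) (nat_lit 5) (nat_lit 43) (nat_lit 5) (nat_lit 41) (nat_lit 4) (nat_lit 408) (nat_lit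 374) (nat_lit 238)))) (XT.nd (nat_lit 78) (nat_lit 228) (nat_lit 0) (XT.lf (nat_lit 0) (nat_lit 122523950) (nat_lit 152) (nat_lit 93710722324) (nat_lit 76) (nat_lit 193387285744) (nat_lit 38) (nat_lit 5) (nat_lit 40) (nat_lit 5) (nat_lit 39) (nat_lit 5) (nat_lit 409) (nat_lit 374) (nat_lit 237)) (XT.nd (nat_lit 78) (nat_lit 76) (nat_lit 0) (XT.lf (nat_lit 0) (nat_lit 110521034407) (nat_lit 228) (nat_lit 150146793670) (nat_lit 76) (nat_lit 42555247635) (nat_lit 36) (nat_lit 5) (nat_lit 39) (nat_lit 5) (nat_lit 37) (nat_lit 4) (nat_lit 410) (nat_lit 374) (nat_lit 236)) (XT.lf (nat_lit 0) (nat_lit 104255295304) (nat_lit 76) (nat_lit 130364651335) (nat_lit 152) (nat_lit 85642450295) (nat_lit 35) (nat_lit 5) (nat_lit 36) (nat_lit 5) (nat_lit 37) (nat_lit 4) (nat_lit 411) (nat_lit 374) (nat_lit 235))))) (XT.nd (nat_lit 234) (nat_lit 380) (nat_lit 0) (XT.nd (nat_lit 78) (nat_lit 76) (nat_lit 0)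 (XT.lf (nat_lit 0) (nat_lit 32636190475) (nat_lit 228) (nat_lit 291873167579) (nat_lit 76) (nat_lit 13951406248) (nat_lit 32) (nat_lit 5) (nat_lit 35) (nat_lit 5) (nat_lit 33) (nat_lit 4) (nat_lit 412) (nat_lit 374) (nat_lit 234)) (XT.nd (nat_lit 78) (nat_lit 76) (nat_lit 0) (XT.lf (nat_lit 0) (nat_lit 163438813120) (nat_lit 228) (nat_lit 23728347284) (nat_lit 76) (nat_lit 170574532744) (nat_lit 32) (nat_lit 5) (nat_lit 35) (nat_lit 5) (nat_lit 33) (nat_lit 4) (nat_lit 413) (nat_lit 374) (nat_lit 233)) (XT.lf (nat_lit 0) (nat_lit 274657959811) (nat_lit 76) (nat_lit 34335400640) (nat_lit 152) (nat_lit 69357350165) (nat_lit 31) (nat_lit 5) (nat_lit 32) (nat_lit 5) (nat_lit 33) (nat_lit 4) (nat_lit 414) (nat_lit 374) (nat_lit 232)))) (XT.nd (nat_lit 156) (nat_lit 152) (nat_lit 0) (XT.nd (nat_lit 78) (nat_lit 76) (nat_lit 0) (XT.lf (nat_lit 0) (nat_lit 69184466411) (nat_lit 152) (nat_lit 199866039955)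 (nat_lit 76) (nat_lit 131221758993) (nat_lit 29) (nat_lit 5) (nat_lit 31) (nat_lit 5) (nat_lit 30) (nat_lit 4) (nat_lit 415) (nat_lit 374) (nat_lit 231)) (XT.lf (nat_lit 0) (nat_lit 110434429414) (nat_lit 76) (nat_lit 110116324714) (nat_lit 152) (nat_lit 203131386640) (nat_lit 28) (nat_lit 5) (nat_lit 29) (nat_lit 5) (nat_lit 30) (nat_lit 4) (nat_lit 416) (nat_lit 374) (nat_lit 230))) (XT.nd (nat_lit 78) (nat_lit 76) (nat_lit 0) (XT.lf (nat_lit 0) (nat_lit 2982234214) (nat_lit 76) (nat_lit 385589557401) (nat_lit 76) (nat_lit 60165742301) (nat_lit 27) (nat_lit 4) (nat_lit 28) (nat_lit 5) (nat_lit 28) (nat_lit 4) (nat_lit 417) (nat_lit 374) (nat_lit 229)) (XT.lf (nat_lit 0) (nat_lit 98623353879) (nat_lit 152) (nat_lit 123246282949) (nat_lit 76) (nat_lit 253484037535) (nat_lit 26) (nat_lit 5) (nat_lit 28) (nat_lit 5) (nat_lit 27) (nat_lit 4) (nat_lit 418) (nat_lit 374) (nat_lit 228))))))))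
noncomputable def xc99 : XT := (XT.nd (nat_lit 50466) (nat_lit 0) (nat_lit 1824) (XT.nd (nat_lit 1014) (nat_lit 228) (nat_lit 0) (XT.nd (nat_lit 468) (nat_lit 380) (nat_lit 0) (XT.nd (nat_lit 234) (nat_lit 228) (nat_lit 0) (XT.nd (nat_lit 78) (nat_lit 152) (nat_lit 0) (XT.lf (nat_lit 0) (nat_lit 231456272217) (nat_lit 76) (nat_lit 40192873388) (nat_lit 152) (nat_lit 232218570177) (nat_lit 25) (nat_lit 5) (nat_lit 26) (nat_lit 5) (nat_lit 27) (nat_lit 4) (nat_lit 419) (nat_lit 374) (nat_lit 227)) (XT.nd (nat_lit 78) (nat_lit 76) (nat_lit 0) (XT.lf (nat_lit 0) (nat_lit 84617075109) (nat_lit 76) (nat_lit 379838612034) (nat_lit 76) (nat_lit 69910259080) (nat_lit 24) (nat_lit 4) (nat_lit 25) (nat_lit 5) (nat_lit 25) (nat_lit 4) (nat_lit 420) (nat_lit 374) (nat_lit 226)) (XT.lf (nat_lit 0) (nat_lit 107510203006) (nat_lit 152) (nat_lit 89532696337) (nat_lit 76) (nat_lit 369903850251) (nat_lit 23)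 (nat_lit 5) (nat_lit 25) (nat_lit 5) (nat_lit 24) (nat_lit 4) (nat_lit 421) (nat_lit 374) (nat_lit 225)))) (XT.nd (nat_lit 78) (nat_lit 152) (nat_lit 0) (XT.lf (nat_lit 0) (nat_lit 301623113272) (nat_lit 152) (nat_lit 293753416941) (nat_lit 0) (nat_lit 6452777250) (nat_lit 22) (nat_lit 5) (nat_lit 24) (nat_lit 4) (nat_lit 22) (nat_lit 4) (nat_lit 422) (nat_lit 374) (nat_lit 224)) (XT.nd (nat_lit 78) (nat_lit 76) (nat_lit 0) (XT.lf (nat_lit 0) (nat_lit 101154751482) (nat_lit 76) (nat_lit 416596966681) (nat_lit 76) (nat_lit 121426418735) (nat_lit 21) (nat_lit 4) (nat_lit 22) (nat_lit 5) (nat_lit 22) (nat_lit 4) (nat_lit 423) (nat_lit 374) (nat_lit 223)) (XT.lf (nat_lit 0) (nat_lit 74562877554) (nat_lit 152) (nat_lit 142316845185) (nat_lit 76) (nat_lit 462319184128) (nat_lit 20) (nat_lit 5) (nat_lit 22) (nat_lit 5) (nat_lit 21) (nat_lit 4) (nat_lit 424) (nat_lit 374) (nat_lit 222))))) (XT.nd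 (nat_lit 234) (nat_lit 228) (nat_lit 0) (XT.nd (nat_lit 78) (nat_lit 76) (nat_lit 0) (XT.lf (nat_lit 0) (nat_lit 286688086982) (nat_lit 152) (nat_lit 429825254144) (nat_lit 0) (nat_lit 5572919494) (nat_lit 19) (nat_lit 5) (nat_lit 21) (nat_lit 4) (nat_lit 19) (nat_lit 4) (nat_lit 425) (nat_lit 374) (nat_lit 221)) (XT.nd (nat_lit 78) (nat_lit 76) (nat_lit 0) (XT.lf (nat_lit 0) (nat_lit 521959731164) (nat_lit 152) (nat_lit 5291647174) (nat_lit 0) (nat_lit 240844403455) (nat_lit 19) (nat_lit 5) (nat_lit 21) (nat_lit 4) (nat_lit 19) (nat_lit 4) (nat_lit 426) (nat_lit 374) (nat_lit 220)) (XT.lf (nat_lit 0) (nat_lit 468189120369) (nat_lit 76) (nat_lit 315173473022) (nat_lit 76) (nat_lit 34057996960) (nat_lit 18) (nat_lit 4) (nat_lit 19) (nat_lit 5) (nat_lit 19) (nat_lit 4) (nat_lit 427) (nat_lit 374) (nat_lit 219)))) (XT.nd (nat_lit 156) (nat_lit 76) (nat_lit 0) (XT.nd (nat_lit 78) (nat_lit 0)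 (nat_lit 0) (XT.lf (nat_lit 0) (nat_lit 109509233107) (nat_lit 76) (nat_lit 81039472517) (nat_lit 152) (nat_lit 679900304656) (nat_lit 16) (nat_lit 5) (nat_lit 17) (nat_lit 5) (nat_lit 18) (nat_lit 4) (nat_lit 428) (nat_lit 374) (nat_lit 218)) (XT.lf (nat_lit 0) (nat_lit 440812215934) (nat_lit 152) (nat_lit 313352557445) (nat_lit 0) (nat_lit 173082939159) (nat_lit 16) (nat_lit 5) (nat_lit 18) (nat_lit 4) (nat_lit 16) (nat_lit 4) (nat_lit 429) (nat_lit 374) (nat_lit 217))) (XT.nd (nat_lit 78) (nat_lit 0) (nat_lit 0) (XT.lf (nat_lit 0) (nat_lit 174251872607) (nat_lit 76) (nat_lit 540931743433) (nat_lit 76) (nat_lit 273202354499) (nat_lit 15) (nat_lit 4) (nat_lit 16) (nat_lit 5) (nat_lit 16) (nat_lit 4) (nat_lit 430) (nat_lit 374) (nat_lit 216)) (XT.lf (nat_lit 0) (nat_lit 712053953152) (nat_lit 76) (nat_lit 304908959793) (nat_lit 76) (nat_lit 37179467008) (nat_lit 15) (nat_lit 4) (nat_lit 16)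 (nat_lit 5) (nat_lit 16) (nat_lit 4) (nat_lit 431) (nat_lit 374) (nat_lit 215)))))) (XT.nd (nat_lit 48906) (nat_lit 0) (nat_lit 7220) (XT.nd (nat_lit 48672) (nat_lit 0) (nat_lit 8056) (XT.nd (nat_lit 78) (nat_lit 76) (nat_lit 0) (XT.lf (nat_lit 0) (nat_lit 169754399552) (nat_lit 76) (nat_lit 43652424104) (nat_lit 152) (nat_lit 911450006412) (nat_lit 13) (nat_lit 5) (nat_lit 14) (nat_lit 5) (nat_lit 15) (nat_lit 4) (nat_lit 432) (nat_lit 374) (nat_lit 214)) (XT.nd (nat_lit 78) (nat_lit 76) (nat_lit 0) (XT.lf (nat_lit 0) (nat_lit 492535021852) (nat_lit 152) (nat_lit 470618683634) (nat_lit 0) (nat_lit 237554376157) (nat_lit 13) (nat_lit 5) (nat_lit 15) (nat_lit 4) (nat_lit 13) (nat_lit 4) (nat_lit 433) (nat_lit 374) (nat_lit 213)) (XT.lf (nat_lit 0) (nat_lit 53602974566) (nat_lit 76) (nat_lit 741963272226) (nat_lit 76) (nat_lit 486982548017) (nat_lit 12) (nat_lit 4) (nat_lit 13) (nat_lit 5)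 (nat_lit 13) (nat_lit 4) (nat_lit 434) (nat_lit 374) (nat_lit 212)))) (XT.nd (nat_lit 78) (nat_lit 0) (nat_lit 76) (XT.lf (nat_lit 0) (nat_lit 8305313135) (nat_lit 836) (nat_lit 10882662359) (nat_lit 836) (nat_lit 10882662359) (nat_lit 118) (nat_lit 3) (nat_lit 129) (nat_lit 3) (nat_lit 129) (nat_lit 5) (nat_lit 375) (nat_lit 375) (nat_lit 270)) (XT.nd (nat_lit 78) (nat_lit 0) (nat_lit 0) (XT.lf (nat_lit 0) (nat_lit 17832340260) (nat_lit 760) (nat_lit 36840060761) (nat_lit 836) (nat_lit 7846646097) (nat_lit 119) (nat_lit 5) (nat_lit 129) (nat_lit 5) (nat_lit 130) (nat_lit 5) (nat_lit 376) (nat_lit 375) (nat_lit 269)) (XT.lf (nat_lit 76) (nat_lit 12368902488) (nat_lit 0) (nat_lit 8005665931) (nat_lit 836) (nat_lit 44651334490) (nat_lit 120) (nat_lit 5) (nat_lit 119) (nat_lit 5) (nat_lit 130) (nat_lit 5) (nat_lit 377) (nat_lit 375) (nat_lit 268))))) (XT.nd (nat_lit 234) (nat_lit 988) (nat_lit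 0) (XT.nd (nat_lit 78) (nat_lit 0) (nat_lit 76) (XT.lf (nat_lit 0) (nat_lit 24431739034) (nat_lit 760) (nat_lit 1545248637) (nat_lit 836) (nat_lit 41690742686) (nat_lit 120) (nat_lit 5) (nat_lit 130) (nat_lit 5) (nat_lit 131) (nat_lit 5) (nat_lit 378) (nat_lit 375) (nat_lit 267)) (XT.nd (nat_lit 78) (nat_lit 0) (nat_lit 76) (XT.lf (nat_lit 0) (nat_lit 30207090750) (nat_lit 760) (nat_lit 15580500560) (nat_lit 836) (nat_lit 24663633620) (nat_lit 121) (nat_lit 5) (nat_lit 131) (nat_lit 5) (nat_lit 132) (nat_lit 5) (nat_lit 379) (nat_lit 375) (nat_lit 266)) (XT.lf (nat_lit 0) (nat_lit 37674339872) (nat_lit 760) (nat_lit 30144036755) (nat_lit 836) (nat_lit 5577530182) (nat_lit 122) (nat_lit 5) (nat_lit 132) (nat_lit 5) (nat_lit 133) (nat_lit 5) (nat_lit 380) (nat_lit 375) (nat_lit 265)))) (XT.nd (nat_lit 156) (nat_lit 456) (nat_lit 0) (XT.nd (nat_lit 78) (nat_lit 684) (nat_lit 0) (XT.lf (nat_lit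 76) (nat_lit 30998539770) (nat_lit 0) (nat_lit 16270238352) (nat_lit 836) (nat_lit 29230895774) (nat_lit 123) (nat_lit 5) (nat_lit 122) (nat_lit 5) (nat_lit 133) (nat_lit 5) (nat_lit 381) (nat_lit 375) (nat_lit 264)) (XT.lf (nat_lit 0) (nat_lit 18241803643) (nat_lit 760) (nat_lit 40820697567) (nat_lit 836) (nat_lit 20717655683) (nat_lit 113) (nat_lit 5) (nat_lit 123) (nat_lit 5) (nat_lit 124) (nat_lit 5) (nat_lit 382) (nat_lit 375) (nat_lit 263))) (XT.nd (nat_lit 78) (nat_lit 76) (nat_lit 0) (XT.lf (nat_lit 0) (nat_lit 5073270596) (nat_lit 380) (nat_lit 68109343786) (nat_lit 456) (nat_lit 10071320492) (nat_lit 108) (nat_lit 5) (nat_lit 113) (nat_lit 5) (nat_lit 114) (nat_lit 5) (nat_lit 383) (nat_lit 375) (nat_lit 262)) (XT.lf (nat_lit 0) (nat_lit 3157155894) (nat_lit 456) (nat_lit 8470576062) (nat_lit 76) (nat_lit 75287965307) (nat_lit 107) (nat_lit 5) (nat_lit 113) (nat_lit 5) (nat_lit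 108) (nat_lit 5) (nat_lit 384) (nat_lit 375) (nat_lit 261))))))) (XT.nd (nat_lit 1014) (nat_lit 1976) (nat_lit 0) (XT.nd (nat_lit 468) (nat_lit 1444) (nat_lit 0) (XT.nd (nat_lit 234) (nat_lit 912) (nat_lit 0) (XT.nd (nat_lit 78) (nat_lit 684) (nat_lit 0) (XT.lf (nat_lit 0) (nat_lit 18960327080) (nat_lit 456) (nat_lit 22751022713) (nat_lit 76) (nat_lit 49057333113) (nat_lit 102) (nat_lit 5) (nat_lit 108) (nat_lit 5) (nat_lit 103) (nat_lit 5) (nat_lit 385) (nat_lit 375) (nat_lit 260)) (XT.nd (nat_lit 78) (nat_lit 304) (nat_lit 0) (XT.lf (nat_lit 0) (nat_lit 37590496833) (nat_lit 456) (nat_lit 37535863839) (nat_lit 76) (nat_lit 19725410209) (nat_lit 97) (nat_lit 5) (nat_lit 103) (nat_lit 5) (nat_lit 98) (nat_lit 5) (nat_lit 386) (nat_lit 375) (nat_lit 259)) (XT.lf (nat_lit 0) (nat_lit 46123737427) (nat_lit 304) (nat_lit 13412164671) (nat_lit 380) (nat_lit 39634363369) (nat_lit 93) (nat_lit 5)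 (nat_lit 97) (nat_lit 5) (nat_lit 98) (nat_lit 5) (nat_lit 387) (nat_lit 375) (nat_lit 258)))) (XT.nd (nat_lit 78) (nat_lit 608) (nat_lit 0) (XT.lf (nat_lit 0) (nat_lit 34268207372) (nat_lit 304) (nat_lit 50998182748) (nat_lit 380) (nat_lit 18466377604) (nat_lit 89) (nat_lit 5) (nat_lit 93) (nat_lit 5) (nat_lit 94) (nat_lit 5) (nat_lit 388) (nat_lit 375) (nat_lit 257)) (XT.nd (nat_lit 78) (nat_lit 304) (nat_lit 0) (XT.lf (nat_lit 0) (nat_lit 6023132592) (nat_lit 304) (nat_lit 86589690530) (nat_lit 76) (nat_lit 15955578908) (nat_lit 85) (nat_lit 5) (nat_lit 89) (nat_lit 5) (nat_lit 86) (nat_lit 5) (nat_lit 389) (nat_lit 375) (nat_lit 256)) (XT.lf (nat_lit 0) (nat_lit 8569174565) (nat_lit 304) (nat_lit 25486650621) (nat_lit 380) (nat_lit 79608376353) (nat_lit 81) (nat_lit 5) (nat_lit 85) (nat_lit 5) (nat_lit 86) (nat_lit 5) (nat_lit 390) (nat_lit 375) (nat_lit 255))))) (XT.nd (nat_lit 234)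 (nat_lit 912) (nat_lit 0) (XT.nd (nat_lit 78) (nat_lit 532) (nat_lit 0) (XT.lf (nat_lit 0) (nat_lit 66596979262) (nat_lit 380) (nat_lit 5419646130) (nat_lit 76) (nat_lit 47037747780) (nat_lit 81) (nat_lit 5) (nat_lit 86) (nat_lit 5) (nat_lit 82) (nat_lit 5) (nat_lit 391) (nat_lit 375) (nat_lit 254)) (XT.nd (nat_lit 78) (nat_lit 304) (nat_lit 0) (XT.lf (nat_lit 0) (nat_lit 103833123119) (nat_lit 304) (nat_lit 19628854437) (nat_lit 76) (nat_lit 1309196542) (nat_lit 78) (nat_lit 5) (nat_lit 82) (nat_lit 5) (nat_lit 79) (nat_lit 5) (nat_lit 392) (nat_lit 375) (nat_lit 253)) (XT.lf (nat_lit 0) (nat_lit 15531971115) (nat_lit 304) (nat_lit 35409560830) (nat_lit 76) (nat_lit 79851133712) (nat_lit 74) (nat_lit 5) (nat_lit 78) (nat_lit 5) (nat_lit 75) (nat_lit 5) (nat_lit 393) (nat_lit 375) (nat_lit 252)))) (XT.nd (nat_lit 156) (nat_lit 456) (nat_lit 0) (XT.nd (nat_lit 78) (nat_lit 228) (nat_lit 0)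 (XT.lf (nat_lit 0) (nat_lit 56336388058) (nat_lit 304) (nat_lit 52263883841) (nat_lit 76) (nat_lit 28570924639) (nat_lit 71) (nat_lit 5) (nat_lit 75) (nat_lit 5) (nat_lit 72) (nat_lit 5) (nat_lit 394) (nat_lit 375) (nat_lit 251)) (XT.lf (nat_lit 0) (nat_lit 73569043233) (nat_lit 228) (nat_lit 29469680204) (nat_lit 304) (nat_lit 40889608528) (nat_lit 68) (nat_lit 5) (nat_lit 71) (nat_lit 5) (nat_lit 72) (nat_lit 5) (nat_lit 395) (nat_lit 375) (nat_lit 250))) (XT.nd (nat_lit 78) (nat_lit 228) (nat_lit 0) (XT.lf (nat_lit 0) (nat_lit 4978788059) (nat_lit 228) (nat_lit 89945133695) (nat_lit 76) (nat_lit 56160377711) (nat_lit 65) (nat_lit 5) (nat_lit 68) (nat_lit 5) (nat_lit 66) (nat_lit 5) (nat_lit 396) (nat_lit 375) (nat_lit 249)) (XT.lf (nat_lit 0) (nat_lit 47222139528) (nat_lit 228) (nat_lit 8360114734) (nat_lit 304) (nat_lit 103072065769) (nat_lit 62) (nat_lit 5) (nat_lit 65) (nat_lit 5) (nat_lit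 66) (nat_lit 5) (nat_lit 397) (nat_lit 375) (nat_lit 248)))))) (XT.nd (nat_lit 546) (nat_lit 912) (nat_lit 0) (XT.nd (nat_lit 234) (nat_lit 684) (nat_lit 0) (XT.nd (nat_lit 78) (nat_lit 228) (nat_lit 0) (XT.lf (nat_lit 0) (nat_lit 31474393358) (nat_lit 152) (nat_lit 82171746406) (nat_lit 228) (nat_lit 53013195625) (nat_lit 60) (nat_lit 5) (nat_lit 62) (nat_lit 5) (nat_lit 63) (nat_lit 5) (nat_lit 398) (nat_lit 375) (nat_lit 247)) (XT.nd (nat_lit 78) (nat_lit 0) (nat_lit 0) (XT.lf (nat_lit 0) (nat_lit 3541676761) (nat_lit 228) (nat_lit 160495860084) (nat_lit 76) (nat_lit 11140149803) (nat_lit 57) (nat_lit 5) (nat_lit 60) (nat_lit 5) (nat_lit 58) (nat_lit 5) (nat_lit 399) (nat_lit 375) (nat_lit 246)) (XT.lf (nat_lit 0) (nat_lit 66566679937) (nat_lit 228) (nat_lit 5213734948) (nat_lit 76) (nat_lit 112363484632) (nat_lit 57) (nat_lit 5) (nat_lit 60) (nat_lit 5) (nat_lit 58) (nat_lit 5) (nat_lit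 400) (nat_lit 375) (nat_lit 245)))) (XT.nd (nat_lit 156) (nat_lit 304) (nat_lit 0) (XT.nd (nat_lit 78) (nat_lit 228) (nat_lit 0) (XT.lf (nat_lit 0) (nat_lit 137731661397) (nat_lit 228) (nat_lit 26311841898) (nat_lit 76) (nat_lit 29629007406) (nat_lit 55) (nat_lit 5) (nat_lit 58) (nat_lit 5) (nat_lit 56) (nat_lit 5) (nat_lit 401) (nat_lit 375) (nat_lit 244)) (XT.lf (nat_lit 0) (nat_lit 14048248649) (nat_lit 228) (nat_lit 50331044267) (nat_lit 76) (nat_lit 139387726100) (nat_lit 52) (nat_lit 5) (nat_lit 55) (nat_lit 5) (nat_lit 53) (nat_lit 5) (nat_lit 402) (nat_lit 375) (nat_lit 243))) (XT.nd (nat_lit 78) (nat_lit 152) (nat_lit 0) (XT.lf (nat_lit 0) (nat_lit 91045215263) (nat_lit 228) (nat_lit 77925505803) (nat_lit 76) (nat_lit 45484082144) (nat_lit 50) (nat_lit 5) (nat_lit 53) (nat_lit 5) (nat_lit 51) (nat_lit 5) (nat_lit 403) (nat_lit 375) (nat_lit 242)) (XT.lf (nat_lit 0) (nat_lit 116819958283)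 (nat_lit 152) (nat_lit 61181892297) (nat_lit 228) (nat_lit 47805764133) (nat_lit 48) (nat_lit 5) (nat_lit 50) (nat_lit 5) (nat_lit 51) (nat_lit 5) (nat_lit 404) (nat_lit 375) (nat_lit 241))))) (XT.nd (nat_lit 234) (nat_lit 532) (nat_lit 0) (XT.nd (nat_lit 78) (nat_lit 228) (nat_lit 0) (XT.lf (nat_lit 0) (nat_lit 36533644732) (nat_lit 152) (nat_lit 144420811377) (nat_lit 76) (nat_lit 56899244609) (nat_lit 46) (nat_lit 5) (nat_lit 48) (nat_lit 5) (nat_lit 47) (nat_lit 5) (nat_lit 405) (nat_lit 375) (nat_lit 240)) (XT.nd (nat_lit 78) (nat_lit 76) (nat_lit 0) (XT.lf (nat_lit 0) (nat_lit 65393559153) (nat_lit 152) (nat_lit 64555799066) (nat_lit 228) (nat_lit 120674728798) (nat_lit 44) (nat_lit 5) (nat_lit 46) (nat_lit 5) (nat_lit 47) (nat_lit 5) (nat_lit 406) (nat_lit 375) (nat_lit 239)) (XT.lf (nat_lit 0) (nat_lit 32916465773) (nat_lit 76) (nat_lit 201946967521) (nat_lit 152) (nat_lit 29351415807)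 (nat_lit 43) (nat_lit 5) (nat_lit 44) (nat_lit 5) (nat_lit 45) (nat_lit 4) (nat_lit 407) (nat_lit 375) (nat_lit 238)))) (XT.nd (nat_lit 156) (nat_lit 304) (nat_lit 0) (XT.nd (nat_lit 78) (nat_lit 152) (nat_lit 0) (XT.lf (nat_lit 0) (nat_lit 71427909862) (nat_lit 152) (nat_lit 5825829156) (nat_lit 76) (nat_lit 201366678794) (nat_lit 42) (nat_lit 5) (nat_lit 44) (nat_lit 5) (nat_lit 43) (nat_lit 5) (nat_lit 408) (nat_lit 375) (nat_lit 237)) (XT.lf (nat_lit 0) (nat_lit 184047342930) (nat_lit 228) (nat_lit 49898432070) (nat_lit 76) (nat_lit 59968293970) (nat_lit 40) (nat_lit 5) (nat_lit 43) (nat_lit 5) (nat_lit 41) (nat_lit 4) (nat_lit 409) (nat_lit 375) (nat_lit 236))) (XT.nd (nat_lit 78) (nat_lit 152) (nat_lit 0) (XT.lf (nat_lit 0) (nat_lit 142374308) (nat_lit 152) (nat_lit 101189304066) (nat_lit 76) (nat_lit 208865992277) (nat_lit 38) (nat_lit 5) (nat_lit 40) (nat_lit 5) (nat_lit 39) (nat_lit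 5) (nat_lit 410) (nat_lit 375) (nat_lit 235)) (XT.lf (nat_lit 0) (nat_lit 119372417628) (nat_lit 228) (nat_lit 162140698543) (nat_lit 76) (nat_lit 45967319181) (nat_lit 36) (nat_lit 5) (nat_lit 39) (nat_lit 5) (nat_lit 37) (nat_lit 4) (nat_lit 411) (nat_lit 375) (nat_lit 234))))))))
noncomputable def xc100 : XT := (XT.nd (nat_lit 50544) (nat_lit 0) (nat_lit 2812) (XT.nd (nat_lit 1014) (nat_lit 608) (nat_lit 0) (XT.nd (nat_lit 468) (nat_lit 532) (nat_lit 0) (XT.nd (nat_lit 234) (nat_lit 304) (nat_lit 0) (XT.nd (nat_lit 78) (nat_lit 228) (nat_lit 0) (XT.lf (nat_lit 0) (nat_lit 112612782305) (nat_lit 76) (nat_lit 140786008388) (nat_lit 152) (nat_lit 92484134289) (nat_lit 35) (nat_lit 5) (nat_lit 36) (nat_lit 5) (nat_lit 37) (nat_lit 4) (nat_lit 412) (nat_lit 375) (nat_lit 233)) (XT.nd (nat_lit 78) (nat_lit 0) (nat_lit 0) (XT.lf (nat_lit 0) (nat_lit 35256169534) (nat_lit 228) (nat_lit 315206070830)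 (nat_lit 76) (nat_lit 15074929752) (nat_lit 32) (nat_lit 5) (nat_lit 35) (nat_lit 5) (nat_lit 33) (nat_lit 4) (nat_lit 413) (nat_lit 375) (nat_lit 232)) (XT.lf (nat_lit 0) (nat_lit 176522329116) (nat_lit 228) (nat_lit 25610920478) (nat_lit 76) (nat_lit 184227357405) (nat_lit 32) (nat_lit 5) (nat_lit 35) (nat_lit 5) (nat_lit 33) (nat_lit 4) (nat_lit 414) (nat_lit 375) (nat_lit 231)))) (XT.nd (nat_lit 78) (nat_lit 228) (nat_lit 0) (XT.lf (nat_lit 0) (nat_lit 296645609117) (nat_lit 76) (nat_lit 37075242471) (nat_lit 152) (nat_lit 74897513787) (nat_lit 31) (nat_lit 5) (nat_lit 32) (nat_lit 5) (nat_lit 33) (nat_lit 4) (nat_lit 415) (nat_lit 375) (nat_lit 230)) (XT.nd (nat_lit 78) (nat_lit 76) (nat_lit 0) (XT.lf (nat_lit 0) (nat_lit 74727109459) (nat_lit 152) (nat_lit 215840421235) (nat_lit 76) (nat_lit 141726120747) (nat_lit 29) (nat_lit 5) (nat_lit 31) (nat_lit 5) (nat_lit 30) (nat_lit 4) (nat_lit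 416) (nat_lit 375) (nat_lit 229)) (XT.lf (nat_lit 0) (nat_lit 119283438064) (nat_lit 76) (nat_lit 118918900550) (nat_lit 152) (nat_lit 219373996411) (nat_lit 28) (nat_lit 5) (nat_lit 29) (nat_lit 5) (nat_lit 30) (nat_lit 4) (nat_lit 417) (nat_lit 375) (nat_lit 228))))) (XT.nd (nat_lit 234) (nat_lit 304) (nat_lit 0) (XT.nd (nat_lit 78) (nat_lit 152) (nat_lit 0) (XT.lf (nat_lit 0) (nat_lit 3234707884) (nat_lit 76) (nat_lit 416430108102) (nat_lit 76) (nat_lit 64971355852) (nat_lit 27) (nat_lit 4) (nat_lit 28) (nat_lit 5) (nat_lit 28) (nat_lit 4) (nat_lit 418) (nat_lit 375) (nat_lit 227)) (XT.nd (nat_lit 78) (nat_lit 76) (nat_lit 0) (XT.lf (nat_lit 0) (nat_lit 106520075077) (nat_lit 152) (nat_lit 133092892668) (nat_lit 76) (nat_lit 273768657273) (nat_lit 26) (nat_lit 5) (nat_lit 28) (nat_lit 5) (nat_lit 27) (nat_lit 4) (nat_lit 419) (nat_lit 375) (nat_lit 226)) (XT.lf (nat_lit 0) (nat_lit 249985297910)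 (nat_lit 76) (nat_lit 43402320144) (nat_lit 152) (nat_lit 250789187349) (nat_lit 25) (nat_lit 5) (nat_lit 26) (nat_lit 5) (nat_lit 27) (nat_lit 4) (nat_lit 420) (nat_lit 375) (nat_lit 225)))) (XT.nd (nat_lit 156) (nat_lit 152) (nat_lit 0) (XT.nd (nat_lit 78) (nat_lit 76) (nat_lit 0) (XT.lf (nat_lit 0) (nat_lit 91398644809) (nat_lit 76) (nat_lit 410219830630) (nat_lit 76) (nat_lit 75496429259) (nat_lit 24) (nat_lit 4) (nat_lit 25) (nat_lit 5) (nat_lit 25) (nat_lit 4) (nat_lit 421) (nat_lit 375) (nat_lit 224)) (XT.lf (nat_lit 0) (nat_lit 116116980069) (nat_lit 152) (nat_lit 96683814747) (nat_lit 76) (nat_lit 399501396213) (nat_lit 23) (nat_lit 5) (nat_lit 25) (nat_lit 5) (nat_lit 24) (nat_lit 4) (nat_lit 422) (nat_lit 375) (nat_lit 223))) (XT.nd (nat_lit 78) (nat_lit 76) (nat_lit 0) (XT.lf (nat_lit 0) (nat_lit 325758736170) (nat_lit 152) (nat_lit 317242490505) (nat_lit 0) (nat_lit 6974136239)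 (nat_lit 22) (nat_lit 5) (nat_lit 24) (nat_lit 4) (nat_lit 22) (nat_lit 4) (nat_lit 423) (nat_lit 375) (nat_lit 222)) (XT.lf (nat_lit 0) (nat_lit 109257844663) (nat_lit 76) (nat_lit 449919524358) (nat_lit 76) (nat_lit 131134742736) (nat_lit 21) (nat_lit 4) (nat_lit 22) (nat_lit 5) (nat_lit 22) (nat_lit 4) (nat_lit 424) (nat_lit 375) (nat_lit 221)))))) (XT.nd (nat_lit 468) (nat_lit 228) (nat_lit 0) (XT.nd (nat_lit 234) (nat_lit 228) (nat_lit 0) (XT.nd (nat_lit 78) (nat_lit 76) (nat_lit 0) (XT.lf (nat_lit 0) (nat_lit 80533096830) (nat_lit 152) (nat_lit 153692101351) (nat_lit 76) (nat_lit 499309361410) (nat_lit 20) (nat_lit 5) (nat_lit 22) (nat_lit 5) (nat_lit 21) (nat_lit 4) (nat_lit 425) (nat_lit 375) (nat_lit 220)) (XT.nd (nat_lit 78) (nat_lit 0) (nat_lit 0) (XT.lf (nat_lit 0) (nat_lit 309628162686) (nat_lit 152) (nat_lit 464201446816) (nat_lit 0) (nat_lit 6023300187) (nat_lit 19) (nat_lit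 5) (nat_lit 21) (nat_lit 4) (nat_lit 19) (nat_lit 4) (nat_lit 426) (nat_lit 375) (nat_lit 219)) (XT.lf (nat_lit 0) (nat_lit 563721165903) (nat_lit 152) (nat_lit 5705879262) (nat_lit 0) (nat_lit 260116166040) (nat_lit 19) (nat_lit 5) (nat_lit 21) (nat_lit 4) (nat_lit 19) (nat_lit 4) (nat_lit 427) (nat_lit 375) (nat_lit 218)))) (XT.nd (nat_lit 78) (nat_lit 152) (nat_lit 0) (XT.lf (nat_lit 0) (nat_lit 505652954223) (nat_lit 76) (nat_lit 340383093875) (nat_lit 76) (nat_lit 36777966824) (nat_lit 18) (nat_lit 4) (nat_lit 19) (nat_lit 5) (nat_lit 19) (nat_lit 4) (nat_lit 428) (nat_lit 375) (nat_lit 217)) (XT.nd (nat_lit 78) (nat_lit 0) (nat_lit 0) (XT.lf (nat_lit 0) (nat_lit 118278440944) (nat_lit 76) (nat_lit 87518478939) (nat_lit 152) (nat_lit 734287795069) (nat_lit 16) (nat_lit 5) (nat_lit 17) (nat_lit 5) (nat_lit 18) (nat_lit 4) (nat_lit 429) (nat_lit 375) (nat_lit 216)) (XT.lf (nat_lit 0) (nat_lit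 476081251193) (nat_lit 152) (nat_lit 338412780074) (nat_lit 0) (nat_lit 186933295134) (nat_lit 16) (nat_lit 5) (nat_lit 18) (nat_lit 4) (nat_lit 16) (nat_lit 4) (nat_lit 430) (nat_lit 375) (nat_lit 215))))) (XT.nd (nat_lit 234) (nat_lit 0) (nat_lit 0) (XT.nd (nat_lit 78) (nat_lit 152) (nat_lit 0) (XT.lf (nat_lit 0) (nat_lit 188199657496) (nat_lit 76) (nat_lit 584202524425) (nat_lit 76) (nat_lit 295054472208) (nat_lit 15) (nat_lit 4) (nat_lit 16) (nat_lit 5) (nat_lit 16) (nat_lit 4) (nat_lit 431) (nat_lit 375) (nat_lit 214)) (XT.nd (nat_lit 78) (nat_lit 152) (nat_lit 0) (XT.lf (nat_lit 0) (nat_lit 769025338923) (nat_lit 76) (nat_lit 329298196501) (nat_lit 76) (nat_lit 40150055247) (nat_lit 15) (nat_lit 4) (nat_lit 16) (nat_lit 5) (nat_lit 16) (nat_lit 4) (nat_lit 432) (nat_lit 375) (nat_lit 213)) (XT.lf (nat_lit 0) (nat_lit 183341629383) (nat_lit 76) (nat_lit 47141225776) (nat_lit 152) (nat_lit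 984362346852) (nat_lit 13) (nat_lit 5) (nat_lit 14) (nat_lit 5) (nat_lit 15) (nat_lit 4) (nat_lit 433) (nat_lit 375) (nat_lit 212)))) (XT.nd (nat_lit 48672) (nat_lit 0) (nat_lit 8056) (XT.nd (nat_lit 48594) (nat_lit 0) (nat_lit 7980) (XT.lf (nat_lit 0) (nat_lit 531941100057) (nat_lit 152) (nat_lit 508261697429) (nat_lit 0) (nat_lit 256561766697) (nat_lit 13) (nat_lit 5) (nat_lit 15) (nat_lit 4) (nat_lit 13) (nat_lit 4) (nat_lit 434) (nat_lit 375) (nat_lit 211)) (XT.lf (nat_lit 0) (nat_lit 8996805626) (nat_lit 836) (nat_lit 11739057539) (nat_lit 836) (nat_lit 11739057539) (nat_lit 118) (nat_lit 3) (nat_lit 129) (nat_lit 3) (nat_lit 129) (nat_lit 5) (nat_lit 376) (nat_lit 376) (nat_lit 268))) (XT.nd (nat_lit 78) (nat_lit 0) (nat_lit 0) (XT.lf (nat_lit 0) (nat_lit 19309112481) (nat_lit 760) (nat_lit 39757146335) (nat_lit 836) (nat_lit 8451775406) (nat_lit 119) (nat_lit 5) (nat_lit 129) (nat_lit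 5) (nat_lit 130) (nat_lit 5) (nat_lit 377) (nat_lit 376) (nat_lit 267)) (XT.lf (nat_lit 76) (nat_lit 13387225027) (nat_lit 0) (nat_lit 8664226269) (nat_lit 836) (nat_lit 48174152591) (nat_lit 120) (nat_lit 5) (nat_lit 119) (nat_lit 5) (nat_lit 130) (nat_lit 5) (nat_lit 378) (nat_lit 376) (nat_lit 266))))))) (XT.nd (nat_lit 1014) (nat_lit 2356) (nat_lit 0) (XT.nd (nat_lit 468) (nat_lit 2052) (nat_lit 0) (XT.nd (nat_lit 234) (nat_lit 912) (nat_lit 0) (XT.nd (nat_lit 78) (nat_lit 0) (nat_lit 76) (XT.lf (nat_lit 0) (nat_lit 26429458435) (nat_lit 760) (nat_lit 1639734920) (nat_lit 836) (nat_lit 45009772912) (nat_lit 120) (nat_lit 5) (nat_lit 130) (nat_lit 5) (nat_lit 131) (nat_lit 5) (nat_lit 379) (nat_lit 376) (nat_lit 265)) (XT.nd (nat_lit 78) (nat_lit 0) (nat_lit 76) (XT.lf (nat_lit 0) (nat_lit 32663878909) (nat_lit 760) (nat_lit 16796834572) (nat_lit 836) (nat_lit 26624576635) (nat_lit 121)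 (nat_lit 5) (nat_lit 131) (nat_lit 5) (nat_lit 132) (nat_lit 5) (nat_lit 380) (nat_lit 376) (nat_lit 264)) (XT.lf (nat_lit 0) (nat_lit 40725839395) (nat_lit 760) (nat_lit 32524718470) (nat_lit 836) (nat_lit 6015123721) (nat_lit 122) (nat_lit 5) (nat_lit 132) (nat_lit 5) (nat_lit 133) (nat_lit 5) (nat_lit 381) (nat_lit 376) (nat_lit 263)))) (XT.nd (nat_lit 78) (nat_lit 1064) (nat_lit 0) (XT.lf (nat_lit 76) (nat_lit 33507923855) (nat_lit 0) (nat_lit 17577587787) (nat_lit 836) (nat_lit 31532355943) (nat_lit 123) (nat_lit 5) (nat_lit 122) (nat_lit 5) (nat_lit 133) (nat_lit 5) (nat_lit 382) (nat_lit 376) (nat_lit 262)) (XT.nd (nat_lit 78) (nat_lit 380) (nat_lit 0) (XT.lf (nat_lit 0) (nat_lit 19731155200) (nat_lit 760) (nat_lit 44089353311) (nat_lit 836) (nat_lit 22340393297) (nat_lit 113) (nat_lit 5) (nat_lit 123) (nat_lit 5) (nat_lit 124) (nat_lit 5) (nat_lit 383) (nat_lit 376) (nat_lit 261))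 (XT.lf (nat_lit 0) (nat_lit 5509475395) (nat_lit 380) (nat_lit 73558740738) (nat_lit 456) (nat_lit 10844467904) (nat_lit 108) (nat_lit 5) (nat_lit 113) (nat_lit 5) (nat_lit 114) (nat_lit 5) (nat_lit 384) (nat_lit 376) (nat_lit 260))))) (XT.nd (nat_lit 234) (nat_lit 1216) (nat_lit 0) (XT.nd (nat_lit 78) (nat_lit 760) (nat_lit 0) (XT.lf (nat_lit 0) (nat_lit 3438909995) (nat_lit 456) (nat_lit 9119147653) (nat_lit 76) (nat_lit 81309422207) (nat_lit 107) (nat_lit 5) (nat_lit 113) (nat_lit 5) (nat_lit 108) (nat_lit 5) (nat_lit 385) (nat_lit 376) (nat_lit 259)) (XT.nd (nat_lit 78) (nat_lit 380) (nat_lit 0) (XT.lf (nat_lit 0) (nat_lit 20504613050) (nat_lit 456) (nat_lit 24541913375) (nat_lit 76) (nat_lit 52982265062) (nat_lit 102) (nat_lit 5) (nat_lit 108) (nat_lit 5) (nat_lit 103) (nat_lit 5) (nat_lit 386) (nat_lit 376) (nat_lit 258)) (XT.lf (nat_lit 0) (nat_lit 40623630449) (nat_lit 456) (nat_lit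 40509537399) (nat_lit 76) (nat_lit 21305437916) (nat_lit 97) (nat_lit 5) (nat_lit 103) (nat_lit 5) (nat_lit 98) (nat_lit 5) (nat_lit 387) (nat_lit 376) (nat_lit 257)))) (XT.nd (nat_lit 156) (nat_lit 608) (nat_lit 0) (XT.nd (nat_lit 78) (nat_lit 304) (nat_lit 0) (XT.lf (nat_lit 0) (nat_lit 49841563165) (nat_lit 304) (nat_lit 14481622921) (nat_lit 380) (nat_lit 42779468830) (nat_lit 93) (nat_lit 5) (nat_lit 97) (nat_lit 5) (nat_lit 98) (nat_lit 5) (nat_lit 388) (nat_lit 376) (nat_lit 256)) (XT.lf (nat_lit 0) (nat_lit 37037502808) (nat_lit 304) (nat_lit 55073287513) (nat_lit 380) (nat_lit 19919434002) (nat_lit 89) (nat_lit 5) (nat_lit 93) (nat_lit 5) (nat_lit 94) (nat_lit 5) (nat_lit 389) (nat_lit 376) (nat_lit 255))) (XT.nd (nat_lit 78) (nat_lit 304) (nat_lit 0) (XT.lf (nat_lit 0) (nat_lit 6527230575) (nat_lit 304) (nat_lit 93488448766) (nat_lit 76) (nat_lit 17237073341) (nat_lit 85) (nat_lit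 5) (nat_lit 89) (nat_lit 5) (nat_lit 86) (nat_lit 5) (nat_lit 390) (nat_lit 376) (nat_lit 254)) (XT.lf (nat_lit 0) (nat_lit 9281890569) (nat_lit 304) (nat_lit 27519424441) (nat_lit 380) (nat_lit 85954962996) (nat_lit 81) (nat_lit 5) (nat_lit 85) (nat_lit 5) (nat_lit 86) (nat_lit 5) (nat_lit 391) (nat_lit 376) (nat_lit 253)))))) (XT.nd (nat_lit 468) (nat_lit 1140) (nat_lit 0) (XT.nd (nat_lit 234) (nat_lit 684) (nat_lit 0) (XT.nd (nat_lit 78) (nat_lit 532) (nat_lit 0) (XT.lf (nat_lit 0) (nat_lit 71944293118) (nat_lit 380) (nat_lit 5827157128) (nat_lit 76) (nat_lit 50806287165) (nat_lit 81) (nat_lit 5) (nat_lit 86) (nat_lit 5) (nat_lit 82) (nat_lit 5) (nat_lit 392) (nat_lit 376) (nat_lit 252)) (XT.nd (nat_lit 78) (nat_lit 304) (nat_lit 0) (XT.lf (nat_lit 0) (nat_lit 112158369546) (nat_lit 304) (nat_lit 21173403020) (nat_lit 76) (nat_lit 1420158373) (nat_lit 78) (nat_lit 5) (nat_lit 82) (nat_lit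 5) (nat_lit 79) (nat_lit 5) (nat_lit 393) (nat_lit 376) (nat_lit 251)) (XT.lf (nat_lit 0) (nat_lit 16792427653) (nat_lit 304) (nat_lit 38217087196) (nat_lit 76) (nat_lit 86245662718) (nat_lit 74) (nat_lit 5) (nat_lit 78) (nat_lit 5) (nat_lit 75) (nat_lit 5) (nat_lit 394) (nat_lit 376) (nat_lit 250)))) (XT.nd (nat_lit 78) (nat_lit 456) (nat_lit 0) (XT.lf (nat_lit 0) (nat_lit 60860361314) (nat_lit 304) (nat_lit 56420111742) (nat_lit 76) (nat_lit 30863560169) (nat_lit 71) (nat_lit 5) (nat_lit 75) (nat_lit 5) (nat_lit 72) (nat_lit 5) (nat_lit 395) (nat_lit 376) (nat_lit 249)) (XT.nd (nat_lit 78) (nat_lit 228) (nat_lit 0) (XT.lf (nat_lit 0) (nat_lit 79478368121) (nat_lit 228) (nat_lit 31819623140) (nat_lit 304) (nat_lit 44143793275) (nat_lit 68) (nat_lit 5) (nat_lit 71) (nat_lit 5) (nat_lit 72) (nat_lit 5) (nat_lit 396) (nat_lit 376) (nat_lit 248)) (XT.lf (nat_lit 0) (nat_lit 5392797607) (nat_lit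 228) (nat_lit 97116788535) (nat_lit 76) (nat_lit 60660667116) (nat_lit 65) (nat_lit 5) (nat_lit 68) (nat_lit 5) (nat_lit 66) (nat_lit 5) (nat_lit 397) (nat_lit 376) (nat_lit 247))))) (XT.nd (nat_lit 234) (nat_lit 532) (nat_lit 0) (XT.nd (nat_lit 78) (nat_lit 380) (nat_lit 0) (XT.lf (nat_lit 0) (nat_lit 51022825453) (nat_lit 228) (nat_lit 9020909972) (nat_lit 304) (nat_lit 111302180686) (nat_lit 62) (nat_lit 5) (nat_lit 65) (nat_lit 5) (nat_lit 66) (nat_lit 5) (nat_lit 398) (nat_lit 376) (nat_lit 246)) (XT.nd (nat_lit 78) (nat_lit 228) (nat_lit 0) (XT.lf (nat_lit 0) (nat_lit 34014861009) (nat_lit 152) (nat_lit 88737234387) (nat_lit 228) (nat_lit 57239269453) (nat_lit 60) (nat_lit 5) (nat_lit 62) (nat_lit 5) (nat_lit 63) (nat_lit 5) (nat_lit 399) (nat_lit 376) (nat_lit 245)) (XT.lf (nat_lit 0) (nat_lit 3838910921) (nat_lit 228) (nat_lit 173312965018) (nat_lit 76) (nat_lit 12039326983) (nat_lit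 57) (nat_lit 5) (nat_lit 60) (nat_lit 5) (nat_lit 58) (nat_lit 5) (nat_lit 400) (nat_lit 376) (nat_lit 244)))) (XT.nd (nat_lit 156) (nat_lit 380) (nat_lit 0) (XT.nd (nat_lit 78) (nat_lit 152) (nat_lit 0) (XT.lf (nat_lit 0) (nat_lit 71904884719) (nat_lit 228) (nat_lit 5609941269) (nat_lit 76) (nat_lit 121359938583) (nat_lit 57) (nat_lit 5) (nat_lit 60) (nat_lit 5) (nat_lit 58) (nat_lit 5) (nat_lit 401) (nat_lit 376) (nat_lit 243)) (XT.lf (nat_lit 0) (nat_lit 148762544433) (nat_lit 228) (nat_lit 28396311232) (nat_lit 76) (nat_lit 32006835248) (nat_lit 55) (nat_lit 5) (nat_lit 58) (nat_lit 5) (nat_lit 56) (nat_lit 5) (nat_lit 402) (nat_lit 376) (nat_lit 242))) (XT.nd (nat_lit 78) (nat_lit 152) (nat_lit 0) (XT.lf (nat_lit 0) (nat_lit 15184044954) (nat_lit 228) (nat_lit 54337542303) (nat_lit 76) (nat_lit 150546193693) (nat_lit 52) (nat_lit 5) (nat_lit 55) (nat_lit 5) (nat_lit 53) (nat_lit 5) (nat_lit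 403) (nat_lit 376) (nat_lit 241)) (XT.lf (nat_lit 0) (nat_lit 98340304442) (nat_lit 228) (nat_lit 84139980464) (nat_lit 76) (nat_lit 49130326402) (nat_lit 50) (nat_lit 5) (nat_lit 53) (nat_lit 5) (nat_lit 51) (nat_lit 5) (nat_lit 404) (nat_lit 376) (nat_lit 240))))))))
noncomputable def xc101 : XT := (XT.nd (nat_lit 2028) (nat_lit 228) (nat_lit 0) (XT.nd (nat_lit 1014) (nat_lit 988) (nat_lit 0) (XT.nd (nat_lit 468) (nat_lit 836) (nat_lit 0) (XT.nd (nat_lit 234) (nat_lit 304) (nat_lit 0) (XT.nd (nat_lit 78) (nat_lit 304) (nat_lit 0) (XT.lf (nat_lit 0) (nat_lit 126184270442) (nat_lit 152) (nat_lit 66068642568) (nat_lit 228) (nat_lit 51618762788) (nat_lit 48) (nat_lit 5) (nat_lit 50) (nat_lit 5) (nat_lit 51) (nat_lit 5) (nat_lit 405) (nat_lit 376) (nat_lit 239)) (XT.nd (nat_lit 78) (nat_lit 152) (nat_lit 0) (XT.lf (nat_lit 0) (nat_lit 39467015197) (nat_lit 152) (nat_lit 155955811192) (nat_lit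 76) (nat_lit 61458634350) (nat_lit 46) (nat_lit 5) (nat_lit 48) (nat_lit 5) (nat_lit 47) (nat_lit 5) (nat_lit 406) (nat_lit 376) (nat_lit 238)) (XT.lf (nat_lit 0) (nat_lit 70642897818) (nat_lit 152) (nat_lit 69712575667) (nat_lit 228) (nat_lit 130318030227) (nat_lit 44) (nat_lit 5) (nat_lit 46) (nat_lit 5) (nat_lit 47) (nat_lit 5) (nat_lit 407) (nat_lit 376) (nat_lit 237)))) (XT.nd (nat_lit 78) (nat_lit 228) (nat_lit 0) (XT.lf (nat_lit 0) (nat_lit 35567234344) (nat_lit 76) (nat_lit 218095070734) (nat_lit 152) (nat_lit 31689240303) (nat_lit 43) (nat_lit 5) (nat_lit 44) (nat_lit 5) (nat_lit 45) (nat_lit 4) (nat_lit 408) (nat_lit 376) (nat_lit 236)) (XT.nd (nat_lit 78) (nat_lit 152) (nat_lit 0) (XT.lf (nat_lit 0) (nat_lit 77151364377) (nat_lit 152) (nat_lit 6275430376) (nat_lit 76) (nat_lit 217482793816) (nat_lit 42) (nat_lit 5) (nat_lit 44) (nat_lit 5) (nat_lit 43) (nat_lit 5) (nat_lit 409)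 (nat_lit 376) (nat_lit 235)) (XT.lf (nat_lit 0) (nat_lit 198780023638) (nat_lit 228) (nat_lit 53874225131) (nat_lit 76) (nat_lit 64772499592) (nat_lit 40) (nat_lit 5) (nat_lit 43) (nat_lit 5) (nat_lit 41) (nat_lit 4) (nat_lit 410) (nat_lit 376) (nat_lit 234))))) (XT.nd (nat_lit 234) (nat_lit 456) (nat_lit 0) (XT.nd (nat_lit 78) (nat_lit 228) (nat_lit 0) (XT.lf (nat_lit 0) (nat_lit 162379172) (nat_lit 152) (nat_lit 109268779629) (nat_lit 76) (nat_lit 225581893465) (nat_lit 38) (nat_lit 5) (nat_lit 40) (nat_lit 5) (nat_lit 39) (nat_lit 5) (nat_lit 411) (nat_lit 376) (nat_lit 233)) (XT.nd (nat_lit 78) (nat_lit 76) (nat_lit 0) (XT.lf (nat_lit 0) (nat_lit 128930527626) (nat_lit 228) (nat_lit 175096660684) (nat_lit 76) (nat_lit 49651264846) (nat_lit 36) (nat_lit 5) (nat_lit 39) (nat_lit 5) (nat_lit 37) (nat_lit 4) (nat_lit 412) (nat_lit 376) (nat_lit 232)) (XT.lf (nat_lit 0) (nat_lit 121636433984)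 (nat_lit 76) (nat_lit 152042188909) (nat_lit 152) (nat_lit 99874538533) (nat_lit 35) (nat_lit 5) (nat_lit 36) (nat_lit 5) (nat_lit 37) (nat_lit 4) (nat_lit 413) (nat_lit 376) (nat_lit 231)))) (XT.nd (nat_lit 156) (nat_lit 228) (nat_lit 0) (XT.nd (nat_lit 78) (nat_lit 0) (nat_lit 0) (XT.lf (nat_lit 0) (nat_lit 38084451010) (nat_lit 228) (nat_lit 340408024470) (nat_lit 76) (nat_lit 16287277874) (nat_lit 32) (nat_lit 5) (nat_lit 35) (nat_lit 5) (nat_lit 33) (nat_lit 4) (nat_lit 414) (nat_lit 376) (nat_lit 230)) (XT.lf (nat_lit 0) (nat_lit 190651326476) (nat_lit 228) (nat_lit 27646338536) (nat_lit 76) (nat_lit 198971429091) (nat_lit 32) (nat_lit 5) (nat_lit 35) (nat_lit 5) (nat_lit 33) (nat_lit 4) (nat_lit 415) (nat_lit 376) (nat_lit 229))) (XT.nd (nat_lit 78) (nat_lit 152) (nat_lit 0) (XT.lf (nat_lit 0) (nat_lit 320390128663) (nat_lit 76) (nat_lit 40035268881) (nat_lit 152) (nat_lit 80882092332)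 (nat_lit 31) (nat_lit 5) (nat_lit 32) (nat_lit 5) (nat_lit 33) (nat_lit 4) (nat_lit 416) (nat_lit 376) (nat_lit 228)) (XT.lf (nat_lit 0) (nat_lit 80712038963) (nat_lit 152) (nat_lit 233094878942) (nat_lit 76) (nat_lit 153069886876) (nat_lit 29) (nat_lit 5) (nat_lit 31) (nat_lit 5) (nat_lit 30) (nat_lit 4) (nat_lit 417) (nat_lit 376) (nat_lit 227)))))) (XT.nd (nat_lit 468) (nat_lit 532) (nat_lit 0) (XT.nd (nat_lit 234) (nat_lit 228) (nat_lit 0) (XT.nd (nat_lit 78) (nat_lit 152) (nat_lit 0) (XT.lf (nat_lit 0) (nat_lit 128838333872) (nat_lit 76) (nat_lit 128426642583) (nat_lit 152) (nat_lit 236917142152) (nat_lit 28) (nat_lit 5) (nat_lit 29) (nat_lit 5) (nat_lit 30) (nat_lit 4) (nat_lit 418) (nat_lit 376) (nat_lit 226)) (XT.nd (nat_lit 78) (nat_lit 76) (nat_lit 0) (XT.lf (nat_lit 0) (nat_lit 3505397181) (nat_lit 76) (nat_lit 449738846405) (nat_lit 76) (nat_lit 70162509251) (nat_lit 27) (nat_lit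 4) (nat_lit 28) (nat_lit 5) (nat_lit 28) (nat_lit 4) (nat_lit 419) (nat_lit 376) (nat_lit 225)) (XT.lf (nat_lit 0) (nat_lit 115047556329) (nat_lit 152) (nat_lit 143729099015) (nat_lit 76) (nat_lit 295675205354) (nat_lit 26) (nat_lit 5) (nat_lit 28) (nat_lit 5) (nat_lit 27) (nat_lit 4) (nat_lit 420) (nat_lit 376) (nat_lit 224)))) (XT.nd (nat_lit 78) (nat_lit 152) (nat_lit 0) (XT.lf (nat_lit 0) (nat_lit 269994858981) (nat_lit 76) (nat_lit 46869376198) (nat_lit 152) (nat_lit 270846433754) (nat_lit 25) (nat_lit 5) (nat_lit 26) (nat_lit 5) (nat_lit 27) (nat_lit 4) (nat_lit 421) (nat_lit 376) (nat_lit 223)) (XT.nd (nat_lit 78) (nat_lit 76) (nat_lit 0) (XT.lf (nat_lit 0) (nat_lit 98720999092) (nat_lit 76) (nat_lit 443032384186) (nat_lit 76) (nat_lit 81530441827) (nat_lit 24) (nat_lit 4) (nat_lit 25) (nat_lit 5) (nat_lit 25) (nat_lit 4) (nat_lit 422) (nat_lit 376) (nat_lit 222)) (XT.lf (nat_lit 0)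 (nat_lit 125411448920) (nat_lit 152) (nat_lit 104408662847) (nat_lit 76) (nat_lit 431465998600) (nat_lit 23) (nat_lit 5) (nat_lit 25) (nat_lit 5) (nat_lit 24) (nat_lit 4) (nat_lit 423) (nat_lit 376) (nat_lit 221))))) (XT.nd (nat_lit 234) (nat_lit 304) (nat_lit 0) (XT.nd (nat_lit 78) (nat_lit 152) (nat_lit 0) (XT.lf (nat_lit 0) (nat_lit 351824385198) (nat_lit 152) (nat_lit 342612287729) (nat_lit 0) (nat_lit 7536471124) (nat_lit 22) (nat_lit 5) (nat_lit 24) (nat_lit 4) (nat_lit 22) (nat_lit 4) (nat_lit 424) (nat_lit 376) (nat_lit 220)) (XT.nd (nat_lit 78) (nat_lit 76) (nat_lit 0) (XT.lf (nat_lit 0) (nat_lit 118007656960) (nat_lit 76) (nat_lit 485908628439) (nat_lit 76) (nat_lit 141620558595) (nat_lit 21) (nat_lit 4) (nat_lit 22) (nat_lit 5) (nat_lit 22) (nat_lit 4) (nat_lit 425) (nat_lit 376) (nat_lit 219)) (XT.lf (nat_lit 0) (nat_lit 86980193369) (nat_lit 152) (nat_lit 165978817669) (nat_lit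 76) (nat_lit 539258090562) (nat_lit 20) (nat_lit 5) (nat_lit 22) (nat_lit 5) (nat_lit 21) (nat_lit 4) (nat_lit 426) (nat_lit 376) (nat_lit 218)))) (XT.nd (nat_lit 156) (nat_lit 228) (nat_lit 0) (XT.nd (nat_lit 78) (nat_lit 0) (nat_lit 0) (XT.lf (nat_lit 0) (nat_lit 334402727039) (nat_lit 152) (nat_lit 501329136927) (nat_lit 0) (nat_lit 6509062635) (nat_lit 19) (nat_lit 5) (nat_lit 21) (nat_lit 4) (nat_lit 19) (nat_lit 4) (nat_lit 427) (nat_lit 376) (nat_lit 217)) (XT.lf (nat_lit 0) (nat_lit 608822851155) (nat_lit 152) (nat_lit 6154548090) (nat_lit 0) (nat_lit 280929068984) (nat_lit 19) (nat_lit 5) (nat_lit 21) (nat_lit 4) (nat_lit 19) (nat_lit 4) (nat_lit 428) (nat_lit 376) (nat_lit 216))) (XT.nd (nat_lit 78) (nat_lit 152) (nat_lit 0) (XT.lf (nat_lit 0) (nat_lit 546112653030) (nat_lit 76) (nat_lit 367610091704) (nat_lit 76) (nat_lit 39716200489) (nat_lit 18) (nat_lit 4) (nat_lit 19) (nat_lit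 5) (nat_lit 19) (nat_lit 4) (nat_lit 429) (nat_lit 376) (nat_lit 215)) (XT.lf (nat_lit 0) (nat_lit 127747977184) (nat_lit 76) (nat_lit 94516398116) (nat_lit 152) (nat_lit 793026931536) (nat_lit 16) (nat_lit 5) (nat_lit 17) (nat_lit 5) (nat_lit 18) (nat_lit 4) (nat_lit 430) (nat_lit 376) (nat_lit 214))))))) (XT.nd (nat_lit 49608) (nat_lit 0) (nat_lit 3724) (XT.nd (nat_lit 49062) (nat_lit 0) (nat_lit 7220) (XT.nd (nat_lit 234) (nat_lit 152) (nat_lit 0) (XT.nd (nat_lit 78) (nat_lit 76) (nat_lit 0) (XT.lf (nat_lit 0) (nat_lit 514171230356) (nat_lit 152) (nat_lit 365478959230) (nat_lit 0) (nat_lit 201891148767) (nat_lit 16) (nat_lit 5) (nat_lit 18) (nat_lit 4) (nat_lit 16) (nat_lit 4) (nat_lit 431) (nat_lit 376) (nat_lit 213)) (XT.nd (nat_lit 78) (nat_lit 0) (nat_lit 0) (XT.lf (nat_lit 0) (nat_lit 203262175947) (nat_lit 76) (nat_lit 630935504086) (nat_lit 76) (nat_lit 318655340057) (nat_lit 15)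 (nat_lit 4) (nat_lit 16) (nat_lit 5) (nat_lit 16) (nat_lit 4) (nat_lit 432) (nat_lit 376) (nat_lit 212)) (XT.lf (nat_lit 0) (nat_lit 830553427010) (nat_lit 76) (nat_lit 355639068616) (nat_lit 76) (nat_lit 43358828253) (nat_lit 15) (nat_lit 4) (nat_lit 16) (nat_lit 5) (nat_lit 16) (nat_lit 4) (nat_lit 433) (nat_lit 376) (nat_lit 211)))) (XT.nd (nat_lit 48672) (nat_lit 0) (nat_lit 7980) (XT.lf (nat_lit 0) (nat_lit 198014856396) (nat_lit 76) (nat_lit 50909615524) (nat_lit 152) (nat_lit 1063108196677) (nat_lit 13) (nat_lit 5) (nat_lit 14) (nat_lit 5) (nat_lit 15) (nat_lit 4) (nat_lit 434) (nat_lit 376) (nat_lit 210)) (XT.nd (nat_lit 78) (nat_lit 0) (nat_lit 76) (XT.lf (nat_lit 0) (nat_lit 9739756043) (nat_lit 836) (nat_lit 12665992663) (nat_lit 836) (nat_lit 12665992663) (nat_lit 118) (nat_lit 3) (nat_lit 129) (nat_lit 3) (nat_lit 129) (nat_lit 5) (nat_lit 377) (nat_lit 377) (nat_lit 266)) (XT.lf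 (nat_lit 0) (nat_lit 20896867029) (nat_lit 760) (nat_lit 42911895607) (nat_lit 836) (nat_lit 9108539542) (nat_lit 119) (nat_lit 5) (nat_lit 129) (nat_lit 5) (nat_lit 130) (nat_lit 5) (nat_lit 378) (nat_lit 377) (nat_lit 265))))) (XT.nd (nat_lit 234) (nat_lit 836) (nat_lit 0) (XT.nd (nat_lit 78) (nat_lit 0) (nat_lit 76) (XT.lf (nat_lit 76) (nat_lit 14482903252) (nat_lit 0) (nat_lit 9372888258) (nat_lit 836) (nat_lit 51985827718) (nat_lit 120) (nat_lit 5) (nat_lit 119) (nat_lit 5) (nat_lit 130) (nat_lit 5) (nat_lit 379) (nat_lit 377) (nat_lit 264)) (XT.nd (nat_lit 78) (nat_lit 0) (nat_lit 76) (XT.lf (nat_lit 0) (nat_lit 28580835240) (nat_lit 760) (nat_lit 1745936339) (nat_lit 836) (nat_lit 48596640832) (nat_lit 120) (nat_lit 5) (nat_lit 130) (nat_lit 5) (nat_lit 131) (nat_lit 5) (nat_lit 380) (nat_lit 377) (nat_lit 263)) (XT.lf (nat_lit 0) (nat_lit 35311472160) (nat_lit 760) (nat_lit 18114770267)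 (nat_lit 836) (nat_lit 28744128092) (nat_lit 121) (nat_lit 5) (nat_lit 131) (nat_lit 5) (nat_lit 132) (nat_lit 5) (nat_lit 381) (nat_lit 377) (nat_lit 262)))) (XT.nd (nat_lit 156) (nat_lit 1064) (nat_lit 0) (XT.nd (nat_lit 78) (nat_lit 0) (nat_lit 0) (XT.lf (nat_lit 0) (nat_lit 44016101619) (nat_lit 760) (nat_lit 35100254568) (nat_lit 836) (nat_lit 6488952896) (nat_lit 122) (nat_lit 5) (nat_lit 132) (nat_lit 5) (nat_lit 133) (nat_lit 5) (nat_lit 382) (nat_lit 377) (nat_lit 261)) (XT.lf (nat_lit 76) (nat_lit 36213850032) (nat_lit 0) (nat_lit 18988707677) (nat_lit 836) (nat_lit 34023213029) (nat_lit 123) (nat_lit 5) (nat_lit 122) (nat_lit 5) (nat_lit 133) (nat_lit 5) (nat_lit 383) (nat_lit 377) (nat_lit 260))) (XT.nd (nat_lit 78) (nat_lit 380) (nat_lit 0) (XT.lf (nat_lit 0) (nat_lit 21335374009) (nat_lit 760) (nat_lit 47619073540) (nat_lit 836) (nat_lit 24097896673) (nat_lit 113) (nat_lit 5)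 (nat_lit 123) (nat_lit 5) (nat_lit 124) (nat_lit 5) (nat_lit 384) (nat_lit 377) (nat_lit 259)) (XT.lf (nat_lit 0) (nat_lit 5976247788) (nat_lit 380) (nat_lit 79443996794) (nat_lit 456) (nat_lit 11684111905) (nat_lit 108) (nat_lit 5) (nat_lit 113) (nat_lit 5) (nat_lit 114) (nat_lit 5) (nat_lit 385) (nat_lit 377) (nat_lit 258)))))) (XT.nd (nat_lit 546) (nat_lit 1444) (nat_lit 0) (XT.nd (nat_lit 234) (nat_lit 1216) (nat_lit 0) (XT.nd (nat_lit 78) (nat_lit 760) (nat_lit 0) (XT.lf (nat_lit 0) (nat_lit 3739041338) (nat_lit 456) (nat_lit 9823752774) (nat_lit 76) (nat_lit 87812821110) (nat_lit 107) (nat_lit 5) (nat_lit 113) (nat_lit 5) (nat_lit 108) (nat_lit 5) (nat_lit 386) (nat_lit 377) (nat_lit 257)) (XT.nd (nat_lit 78) (nat_lit 380) (nat_lit 0) (XT.lf (nat_lit 0) (nat_lit 22168524450) (nat_lit 456) (nat_lit 26480239734) (nat_lit 76) (nat_lit 57221142306) (nat_lit 102) (nat_lit 5) (nat_lit 108)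 (nat_lit 5) (nat_lit 103) (nat_lit 5) (nat_lit 387) (nat_lit 377) (nat_lit 256)) (XT.lf (nat_lit 0) (nat_lit 43895720704) (nat_lit 456) (nat_lit 43725269916) (nat_lit 76) (nat_lit 23011583246) (nat_lit 97) (nat_lit 5) (nat_lit 103) (nat_lit 5) (nat_lit 98) (nat_lit 5) (nat_lit 388) (nat_lit 377) (nat_lit 255)))) (XT.nd (nat_lit 156) (nat_lit 608) (nat_lit 0) (XT.nd (nat_lit 78) (nat_lit 304) (nat_lit 0) (XT.lf (nat_lit 0) (nat_lit 53852830900) (nat_lit 304) (nat_lit 15637139273) (nat_lit 380) (nat_lit 46179841076) (nat_lit 93) (nat_lit 5) (nat_lit 97) (nat_lit 5) (nat_lit 98) (nat_lit 5) (nat_lit 389) (nat_lit 377) (nat_lit 254)) (XT.lf (nat_lit 0) (nat_lit 40024370356) (nat_lit 304) (nat_lit 59475078280) (nat_lit 380) (nat_lit 21492194990) (nat_lit 89) (nat_lit 5) (nat_lit 93) (nat_lit 5) (nat_lit 94) (nat_lit 5) (nat_lit 390) (nat_lit 377) (nat_lit 253))) (XT.nd (nat_lit 78) (nat_lit 304)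 (nat_lit 0) (XT.lf (nat_lit 0) (nat_lit 7068482559) (nat_lit 304) (nat_lit 100943161664) (nat_lit 76) (nat_lit 18620367157) (nat_lit 85) (nat_lit 5) (nat_lit 89) (nat_lit 5) (nat_lit 86) (nat_lit 5) (nat_lit 391) (nat_lit 377) (nat_lit 252)) (XT.lf (nat_lit 0) (nat_lit 10047746031) (nat_lit 304) (nat_lit 29715698707) (nat_lit 380) (nat_lit 92812427023) (nat_lit 81) (nat_lit 5) (nat_lit 85) (nat_lit 5) (nat_lit 86) (nat_lit 5) (nat_lit 392) (nat_lit 377) (nat_lit 251))))) (XT.nd (nat_lit 234) (nat_lit 912) (nat_lit 0) (XT.nd (nat_lit 78) (nat_lit 532) (nat_lit 0) (XT.lf (nat_lit 0) (nat_lit 77716602270) (nat_lit 380) (nat_lit 6270986855) (nat_lit 76) (nat_lit 54875522273) (nat_lit 81) (nat_lit 5) (nat_lit 86) (nat_lit 5) (nat_lit 82) (nat_lit 5) (nat_lit 393) (nat_lit 377) (nat_lit 250)) (XT.nd (nat_lit 78) (nat_lit 304) (nat_lit 0) (XT.lf (nat_lit 0) (nat_lit 121146982677) (nat_lit 304) (nat_lit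 22845190410) (nat_lit 76) (nat_lit 1539108926) (nat_lit 78) (nat_lit 5) (nat_lit 82) (nat_lit 5) (nat_lit 79) (nat_lit 5) (nat_lit 394) (nat_lit 377) (nat_lit 249)) (XT.lf (nat_lit 0) (nat_lit 18151167243) (nat_lit 304) (nat_lit 41252816225) (nat_lit 76) (nat_lit 93150835547) (nat_lit 74) (nat_lit 5) (nat_lit 78) (nat_lit 5) (nat_lit 75) (nat_lit 5) (nat_lit 395) (nat_lit 377) (nat_lit 248)))) (XT.nd (nat_lit 156) (nat_lit 456) (nat_lit 0) (XT.nd (nat_lit 78) (nat_lit 228) (nat_lit 0) (XT.lf (nat_lit 0) (nat_lit 65743818314) (nat_lit 304) (nat_lit 60912387686) (nat_lit 76) (nat_lit 33338613397) (nat_lit 71) (nat_lit 5) (nat_lit 75) (nat_lit 5) (nat_lit 72) (nat_lit 5) (nat_lit 396) (nat_lit 377) (nat_lit 247)) (XT.lf (nat_lit 0) (nat_lit 85857043461) (nat_lit 228) (nat_lit 34358650228) (nat_lit 304) (nat_lit 47660735750) (nat_lit 68) (nat_lit 5) (nat_lit 71) (nat_lit 5) (nat_lit 72) (nat_lit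 5) (nat_lit 397) (nat_lit 377) (nat_lit 246))) (XT.nd (nat_lit 78) (nat_lit 228) (nat_lit 0) (XT.lf (nat_lit 0) (nat_lit 5837687210) (nat_lit 228) (nat_lit 104865593333) (nat_lit 76) (nat_lit 65519915536) (nat_lit 65) (nat_lit 5) (nat_lit 68) (nat_lit 5) (nat_lit 66) (nat_lit 5) (nat_lit 398) (nat_lit 377) (nat_lit 245)) (XT.lf (nat_lit 0) (nat_lit 55124297206) (nat_lit 228) (nat_lit 9735712107) (nat_lit 304) (nat_lit 120192937494) (nat_lit 62) (nat_lit 5) (nat_lit 65) (nat_lit 5) (nat_lit 66) (nat_lit 5) (nat_lit 399) (nat_lit 377) (nat_lit 244))))))))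
noncomputable def xc102 : XT := (XT.nd (nat_lit 2028) (nat_lit 532) (nat_lit 0) (XT.nd (nat_lit 1014) (nat_lit 1216) (nat_lit 0) (XT.nd (nat_lit 468) (nat_lit 912) (nat_lit 0) (XT.nd (nat_lit 234) (nat_lit 532) (nat_lit 0) (XT.nd (nat_lit 78) (nat_lit 228) (nat_lit 0) (XT.lf (nat_lit 0) (nat_lit 36755353886) (nat_lit 152) (nat_lit 95829138609) (nat_lit 228) (nat_lit 61805566512) (nat_lit 60) (nat_lit 5) (nat_lit 62) (nat_lit 5) (nat_lit 63) (nat_lit 5) (nat_lit 400) (nat_lit 377) (nat_lit 243)) (XT.nd (nat_lit 78) (nat_lit 0) (nat_lit 0) (XT.lf (nat_lit 0) (nat_lit 4157940821) (nat_lit 228) (nat_lit 187158657335) (nat_lit 76) (nat_lit 13009302012) (nat_lit 57) (nat_lit 5) (nat_lit 60) (nat_lit 5) (nat_lit 58) (nat_lit 5) (nat_lit 401) (nat_lit 377) (nat_lit 242)) (XT.lf (nat_lit 0) (nat_lit 77668309780) (nat_lit 228) (nat_lit 6040824641) (nat_lit 76) (nat_lit 131075056698) (nat_lit 57) (nat_lit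 5) (nat_lit 60) (nat_lit 5) (nat_lit 58) (nat_lit 5) (nat_lit 402) (nat_lit 377) (nat_lit 241)))) (XT.nd (nat_lit 78) (nat_lit 380) (nat_lit 0) (XT.lf (nat_lit 0) (nat_lit 160674136229) (nat_lit 228) (nat_lit 30650459531) (nat_lit 76) (nat_lit 34573818325) (nat_lit 55) (nat_lit 5) (nat_lit 58) (nat_lit 5) (nat_lit 56) (nat_lit 5) (nat_lit 403) (nat_lit 377) (nat_lit 240)) (XT.nd (nat_lit 78) (nat_lit 152) (nat_lit 0) (XT.lf (nat_lit 0) (nat_lit 16409002102) (nat_lit 228) (nat_lit 58667411337) (nat_lit 76) (nat_lit 162596275938) (nat_lit 52) (nat_lit 5) (nat_lit 55) (nat_lit 5) (nat_lit 53) (nat_lit 5) (nat_lit 404) (nat_lit 377) (nat_lit 239)) (XT.lf (nat_lit 0) (nat_lit 106217364152) (nat_lit 228) (nat_lit 90854404378) (nat_lit 76) (nat_lit 53067197719) (nat_lit 50) (nat_lit 5) (nat_lit 53) (nat_lit 5) (nat_lit 51) (nat_lit 5) (nat_lit 405) (nat_lit 377) (nat_lit 238))))) (XT.nd (nat_lit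 234) (nat_lit 456) (nat_lit 0) (XT.nd (nat_lit 78) (nat_lit 304) (nat_lit 0) (XT.lf (nat_lit 0) (nat_lit 136295057600) (nat_lit 152) (nat_lit 71347445776) (nat_lit 228) (nat_lit 55738436587) (nat_lit 48) (nat_lit 5) (nat_lit 50) (nat_lit 5) (nat_lit 51) (nat_lit 5) (nat_lit 406) (nat_lit 377) (nat_lit 237)) (XT.nd (nat_lit 78) (nat_lit 152) (nat_lit 0) (XT.lf (nat_lit 0) (nat_lit 42633531838) (nat_lit 152) (nat_lit 168416273777) (nat_lit 76) (nat_lit 66381712421) (nat_lit 46) (nat_lit 5) (nat_lit 48) (nat_lit 5) (nat_lit 47) (nat_lit 5) (nat_lit 407) (nat_lit 377) (nat_lit 236)) (XT.lf (nat_lit 0) (nat_lit 76309636513) (nat_lit 152) (nat_lit 75282991078) (nat_lit 228) (nat_lit 140734318946) (nat_lit 44) (nat_lit 5) (nat_lit 46) (nat_lit 5) (nat_lit 47) (nat_lit 5) (nat_lit 408) (nat_lit 377) (nat_lit 235)))) (XT.nd (nat_lit 156) (nat_lit 304) (nat_lit 0) (XT.nd (nat_lit 78) (nat_lit 76) (nat_lit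 0) (XT.lf (nat_lit 0) (nat_lit 38427574776) (nat_lit 76) (nat_lit 235536114159) (nat_lit 152) (nat_lit 34215558566) (nat_lit 43) (nat_lit 5) (nat_lit 44) (nat_lit 5) (nat_lit 45) (nat_lit 4) (nat_lit 409) (nat_lit 377) (nat_lit 234)) (XT.lf (nat_lit 0) (nat_lit 83331379671) (nat_lit 152) (nat_lit 6763348626) (nat_lit 76) (nat_lit 234887230695) (nat_lit 42) (nat_lit 5) (nat_lit 44) (nat_lit 5) (nat_lit 43) (nat_lit 5) (nat_lit 410) (nat_lit 377) (nat_lit 233))) (XT.nd (nat_lit 78) (nat_lit 152) (nat_lit 0) (XT.lf (nat_lit 0) (nat_lit 214690050078) (nat_lit 228) (nat_lit 58170375842) (nat_lit 76) (nat_lit 69960079827) (nat_lit 40) (nat_lit 5) (nat_lit 43) (nat_lit 5) (nat_lit 41) (nat_lit 4) (nat_lit 411) (nat_lit 377) (nat_lit 232)) (XT.lf (nat_lit 0) (nat_lit 182755411) (nat_lit 152) (nat_lit 117996848562) (nat_lit 76) (nat_lit 243634122073) (nat_lit 38) (nat_lit 5) (nat_lit 40) (nat_lit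 5) (nat_lit 39) (nat_lit 5) (nat_lit 412) (nat_lit 377) (nat_lit 231)))))) (XT.nd (nat_lit 468) (nat_lit 532) (nat_lit 0) (XT.nd (nat_lit 234) (nat_lit 228) (nat_lit 0) (XT.nd (nat_lit 78) (nat_lit 304) (nat_lit 0) (XT.lf (nat_lit 0) (nat_lit 139252099970) (nat_lit 228) (nat_lit 189091281620) (nat_lit 76) (nat_lit 53628990287) (nat_lit 36) (nat_lit 5) (nat_lit 39) (nat_lit 5) (nat_lit 37) (nat_lit 4) (nat_lit 413) (nat_lit 377) (nat_lit 230)) (XT.nd (nat_lit 78) (nat_lit 228) (nat_lit 0) (XT.lf (nat_lit 0) (nat_lit 131379890794) (nat_lit 76) (nat_lit 164199819724) (nat_lit 152) (nat_lit 107857362985) (nat_lit 35) (nat_lit 5) (nat_lit 36) (nat_lit 5) (nat_lit 37) (nat_lit 4) (nat_lit 414) (nat_lit 377) (nat_lit 229)) (XT.lf (nat_lit 0) (nat_lit 41137883971) (nat_lit 228) (nat_lit 367628207557) (nat_lit 76) (nat_lit 17595707414) (nat_lit 32) (nat_lit 5) (nat_lit 35) (nat_lit 5) (nat_lit 33)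 (nat_lit 4) (nat_lit 415) (nat_lit 377) (nat_lit 228)))) (XT.nd (nat_lit 78) (nat_lit 228) (nat_lit 0) (XT.lf (nat_lit 0) (nat_lit 205909614890) (nat_lit 228) (nat_lit 29846509627) (nat_lit 76) (nat_lit 214894187224) (nat_lit 32) (nat_lit 5) (nat_lit 35) (nat_lit 5) (nat_lit 33) (nat_lit 4) (nat_lit 416) (nat_lit 377) (nat_lit 227)) (XT.nd (nat_lit 78) (nat_lit 152) (nat_lit 0) (XT.lf (nat_lit 0) (nat_lit 346032373607) (nat_lit 76) (nat_lit 43232952371) (nat_lit 152) (nat_lit 87346467539) (nat_lit 31) (nat_lit 5) (nat_lit 32) (nat_lit 5) (nat_lit 33) (nat_lit 4) (nat_lit 417) (nat_lit 377) (nat_lit 226)) (XT.lf (nat_lit 0) (nat_lit 87174798331) (nat_lit 152) (nat_lit 251731515904) (nat_lit 76) (nat_lit 165320344484) (nat_lit 29) (nat_lit 5) (nat_lit 31) (nat_lit 5) (nat_lit 30) (nat_lit 4) (nat_lit 418) (nat_lit 377) (nat_lit 225))))) (XT.nd (nat_lit 234) (nat_lit 304) (nat_lit 0) (XT.nd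 (nat_lit 78) (nat_lit 152) (nat_lit 0) (XT.lf (nat_lit 0) (nat_lit 139155877915) (nat_lit 76) (nat_lit 138695827135) (nat_lit 152) (nat_lit 255864705935) (nat_lit 28) (nat_lit 5) (nat_lit 29) (nat_lit 5) (nat_lit 30) (nat_lit 4) (nat_lit 419) (nat_lit 377) (nat_lit 224)) (XT.nd (nat_lit 78) (nat_lit 76) (nat_lit 0) (XT.lf (nat_lit 0) (nat_lit 3796042146) (nat_lit 76) (nat_lit 485713092711) (nat_lit 76) (nat_lit 75769890075) (nat_lit 27) (nat_lit 4) (nat_lit 28) (nat_lit 5) (nat_lit 28) (nat_lit 4) (nat_lit 420) (nat_lit 377) (nat_lit 223)) (XT.lf (nat_lit 0) (nat_lit 124256397913) (nat_lit 152) (nat_lit 155217803252) (nat_lit 76) (nat_lit 319333556058) (nat_lit 26) (nat_lit 5) (nat_lit 28) (nat_lit 5) (nat_lit 27) (nat_lit 4) (nat_lit 421) (nat_lit 377) (nat_lit 222)))) (XT.nd (nat_lit 156) (nat_lit 152) (nat_lit 0) (XT.nd (nat_lit 78) (nat_lit 76) (nat_lit 0) (XT.lf (nat_lit 0) (nat_lit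 291603653151) (nat_lit 76) (nat_lit 50614528526) (nat_lit 152) (nat_lit 292509099945) (nat_lit 25) (nat_lit 5) (nat_lit 26) (nat_lit 5) (nat_lit 27) (nat_lit 4) (nat_lit 422) (nat_lit 377) (nat_lit 221)) (XT.lf (nat_lit 0) (nat_lit 106627649096) (nat_lit 76) (nat_lit 478470660026) (nat_lit 76) (nat_lit 88047988823) (nat_lit 24) (nat_lit 4) (nat_lit 25) (nat_lit 5) (nat_lit 25) (nat_lit 4) (nat_lit 423) (nat_lit 377) (nat_lit 220))) (XT.nd (nat_lit 78) (nat_lit 76) (nat_lit 0) (XT.lf (nat_lit 0) (nat_lit 135448746216) (nat_lit 152) (nat_lit 112752905018) (nat_lit 76) (nat_lit 465987128532) (nat_lit 23) (nat_lit 5) (nat_lit 25) (nat_lit 5) (nat_lit 24) (nat_lit 4) (nat_lit 424) (nat_lit 377) (nat_lit 219)) (XT.lf (nat_lit 0) (nat_lit 379974579955) (nat_lit 152) (nat_lit 370013038566) (nat_lit 0) (nat_lit 8143164521) (nat_lit 22) (nat_lit 5) (nat_lit 24) (nat_lit 4) (nat_lit 22) (nat_lit 4)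 (nat_lit 425) (nat_lit 377) (nat_lit 218))))))) (XT.nd (nat_lit 49764) (nat_lit 0) (nat_lit 4788) (XT.nd (nat_lit 468) (nat_lit 76) (nat_lit 0) (XT.nd (nat_lit 234) (nat_lit 228) (nat_lit 0) (XT.nd (nat_lit 78) (nat_lit 152) (nat_lit 0) (XT.lf (nat_lit 0) (nat_lit 127456143938) (nat_lit 76) (nat_lit 524777496811) (nat_lit 76) (nat_lit 152945947829) (nat_lit 21) (nat_lit 4) (nat_lit 22) (nat_lit 5) (nat_lit 22) (nat_lit 4) (nat_lit 426) (nat_lit 377) (nat_lit 217)) (XT.nd (nat_lit 78) (nat_lit 76) (nat_lit 0) (XT.lf (nat_lit 0) (nat_lit 93942422961) (nat_lit 152) (nat_lit 179249705567) (nat_lit 76) (nat_lit 582402150221) (nat_lit 20) (nat_lit 5) (nat_lit 22) (nat_lit 5) (nat_lit 21) (nat_lit 4) (nat_lit 427) (nat_lit 377) (nat_lit 216)) (XT.lf (nat_lit 0) (nat_lit 361158641480) (nat_lit 152) (nat_lit 541428244257) (nat_lit 0) (nat_lit 7033129925) (nat_lit 19) (nat_lit 5) (nat_lit 21) (nat_lit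 4) (nat_lit 19) (nat_lit 4) (nat_lit 428) (nat_lit 377) (nat_lit 215)))) (XT.nd (nat_lit 78) (nat_lit 228) (nat_lit 0) (XT.lf (nat_lit 0) (nat_lit 657532101727) (nat_lit 152) (nat_lit 6640223397) (nat_lit 0) (nat_lit 303406489205) (nat_lit 19) (nat_lit 5) (nat_lit 21) (nat_lit 4) (nat_lit 19) (nat_lit 4) (nat_lit 429) (nat_lit 377) (nat_lit 214)) (XT.nd (nat_lit 78) (nat_lit 152) (nat_lit 0) (XT.lf (nat_lit 0) (nat_lit 589808063137) (nat_lit 76) (nat_lit 397015770027) (nat_lit 76) (nat_lit 42890064018) (nat_lit 18) (nat_lit 4) (nat_lit 19) (nat_lit 5) (nat_lit 19) (nat_lit 4) (nat_lit 430) (nat_lit 377) (nat_lit 213)) (XT.lf (nat_lit 0) (nat_lit 137974040464) (nat_lit 76) (nat_lit 102074658577) (nat_lit 152) (nat_lit 856465753463) (nat_lit 16) (nat_lit 5) (nat_lit 17) (nat_lit 5) (nat_lit 18) (nat_lit 4) (nat_lit 431) (nat_lit 377) (nat_lit 212))))) (XT.nd (nat_lit 48984) (nat_lit 0) (nat_lit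 7904) (XT.nd (nat_lit 78) (nat_lit 76) (nat_lit 0) (XT.lf (nat_lit 0) (nat_lit 555307911524) (nat_lit 152) (nat_lit 394711408984) (nat_lit 0) (nat_lit 218045175598) (nat_lit 16) (nat_lit 5) (nat_lit 18) (nat_lit 4) (nat_lit 16) (nat_lit 4) (nat_lit 432) (nat_lit 377) (nat_lit 211)) (XT.nd (nat_lit 48828) (nat_lit 0) (nat_lit 7828) (XT.lf (nat_lit 0) (nat_lit 219528762035) (nat_lit 76) (nat_lit 681407581817) (nat_lit 76) (nat_lit 344144775212) (nat_lit 15) (nat_lit 4) (nat_lit 16) (nat_lit 5) (nat_lit 16) (nat_lit 4) (nat_lit 433) (nat_lit 377) (nat_lit 210)) (XT.lf (nat_lit 0) (nat_lit 10538831903) (nat_lit 836) (nat_lit 13668821563) (nat_lit 836) (nat_lit 13668821563) (nat_lit 118) (nat_lit 3) (nat_lit 129) (nat_lit 3) (nat_lit 129) (nat_lit 5) (nat_lit 378) (nat_lit 378) (nat_lit 264)))) (XT.nd (nat_lit 156) (nat_lit 0) (nat_lit 76) (XT.nd (nat_lit 78) (nat_lit 0) (nat_lit 0) (XT.lf (nat_lit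 0) (nat_lit 22605503865) (nat_lit 760) (nat_lit 46322708680) (nat_lit 836) (nat_lit 9820609282) (nat_lit 119) (nat_lit 5) (nat_lit 129) (nat_lit 5) (nat_lit 130) (nat_lit 5) (nat_lit 379) (nat_lit 378) (nat_lit 263)) (XT.lf (nat_lit 76) (nat_lit 15662711973) (nat_lit 0) (nat_lit 10136028551) (nat_lit 836) (nat_lit 56108465300) (nat_lit 120) (nat_lit 5) (nat_lit 119) (nat_lit 5) (nat_lit 130) (nat_lit 5) (nat_lit 380) (nat_lit 378) (nat_lit 262))) (XT.nd (nat_lit 78) (nat_lit 0) (nat_lit 76) (XT.lf (nat_lit 0) (nat_lit 30899040853) (nat_lit 760) (nat_lit 1864197174) (nat_lit 836) (nat_lit 52472443160) (nat_lit 120) (nat_lit 5) (nat_lit 130) (nat_lit 5) (nat_lit 131) (nat_lit 5) (nat_lit 381) (nat_lit 378) (nat_lit 261)) (XT.lf (nat_lit 0) (nat_lit 38165953494) (nat_lit 760) (nat_lit 19541823056) (nat_lit 836) (nat_lit 31034729436) (nat_lit 121) (nat_lit 5) (nat_lit 131) (nat_lit 5) (nat_lit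 132) (nat_lit 5) (nat_lit 382) (nat_lit 378) (nat_lit 260)))))) (XT.nd (nat_lit 468) (nat_lit 1824) (nat_lit 0) (XT.nd (nat_lit 234) (nat_lit 836) (nat_lit 0) (XT.nd (nat_lit 78) (nat_lit 684) (nat_lit 0) (XT.lf (nat_lit 0) (nat_lit 47564991834) (nat_lit 760) (nat_lit 37885605713) (nat_lit 836) (nat_lit 7001741347) (nat_lit 122) (nat_lit 5) (nat_lit 132) (nat_lit 5) (nat_lit 133) (nat_lit 5) (nat_lit 383) (nat_lit 378) (nat_lit 259)) (XT.nd (nat_lit 78) (nat_lit 684) (nat_lit 0) (XT.lf (nat_lit 76) (nat_lit 39132642080) (nat_lit 0) (nat_lit 20512016282) (nat_lit 836) (nat_lit 36717865520) (nat_lit 123) (nat_lit 5) (nat_lit 122) (nat_lit 5) (nat_lit 133) (nat_lit 5) (nat_lit 384) (nat_lit 378) (nat_lit 258)) (XT.lf (nat_lit 0) (nat_lit 23064260165) (nat_lit 760) (nat_lit 51430804469) (nat_lit 836) (nat_lit 26000241364) (nat_lit 113) (nat_lit 5) (nat_lit 123) (nat_lit 5) (nat_lit 124) (nat_lit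 5) (nat_lit 385) (nat_lit 378) (nat_lit 257)))) (XT.nd (nat_lit 78) (nat_lit 456) (nat_lit 0) (XT.lf (nat_lit 0) (nat_lit 6476650733) (nat_lit 380) (nat_lit 85799993902) (nat_lit 456) (nat_lit 12594909589) (nat_lit 108) (nat_lit 5) (nat_lit 113) (nat_lit 5) (nat_lit 114) (nat_lit 5) (nat_lit 386) (nat_lit 378) (nat_lit 256)) (XT.nd (nat_lit 78) (nat_lit 380) (nat_lit 0) (XT.lf (nat_lit 0) (nat_lit 4059614014) (nat_lit 456) (nat_lit 10588282375) (nat_lit 76) (nat_lit 94836685213) (nat_lit 107) (nat_lit 5) (nat_lit 113) (nat_lit 5) (nat_lit 108) (nat_lit 5) (nat_lit 387) (nat_lit 378) (nat_lit 255)) (XT.lf (nat_lit 0) (nat_lit 23962190181) (nat_lit 456) (nat_lit 28577202543) (nat_lit 76) (nat_lit 61799087496) (nat_lit 102) (nat_lit 5) (nat_lit 108) (nat_lit 5) (nat_lit 103) (nat_lit 5) (nat_lit 388) (nat_lit 378) (nat_lit 254))))) (XT.nd (nat_lit 234) (nat_lit 836) (nat_lit 0) (XT.nd (nat_lit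 78) (nat_lit 608) (nat_lit 0) (XT.lf (nat_lit 0) (nat_lit 47426411127) (nat_lit 456) (nat_lit 47201831911) (nat_lit 76) (nat_lit 24853976210) (nat_lit 97) (nat_lit 5) (nat_lit 103) (nat_lit 5) (nat_lit 98) (nat_lit 5) (nat_lit 389) (nat_lit 378) (nat_lit 253)) (XT.nd (nat_lit 78) (nat_lit 304) (nat_lit 0) (XT.lf (nat_lit 0) (nat_lit 58181584362) (nat_lit 304) (nat_lit 16885526841) (nat_lit 380) (nat_lit 49855379544) (nat_lit 93) (nat_lit 5) (nat_lit 97) (nat_lit 5) (nat_lit 98) (nat_lit 5) (nat_lit 390) (nat_lit 378) (nat_lit 252)) (XT.lf (nat_lit 0) (nat_lit 43246782367) (nat_lit 304) (nat_lit 64229593258) (nat_lit 380) (nat_lit 23193743315) (nat_lit 89) (nat_lit 5) (nat_lit 93) (nat_lit 5) (nat_lit 94) (nat_lit 5) (nat_lit 391) (nat_lit 378) (nat_lit 251)))) (XT.nd (nat_lit 156) (nat_lit 228) (nat_lit 0) (XT.nd (nat_lit 78) (nat_lit 304) (nat_lit 0) (XT.lf (nat_lit 0) (nat_lit 7650313649)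 (nat_lit 304) (nat_lit 108997727249) (nat_lit 76) (nat_lit 20113707048) (nat_lit 85) (nat_lit 5) (nat_lit 89) (nat_lit 5) (nat_lit 86) (nat_lit 5) (nat_lit 392) (nat_lit 378) (nat_lit 250)) (XT.lf (nat_lit 0) (nat_lit 10871545323) (nat_lit 304) (nat_lit 32088428122) (nat_lit 380) (nat_lit 100221189178) (nat_lit 81) (nat_lit 5) (nat_lit 85) (nat_lit 5) (nat_lit 86) (nat_lit 5) (nat_lit 393) (nat_lit 378) (nat_lit 249))) (XT.nd (nat_lit 78) (nat_lit 228) (nat_lit 0) (XT.lf (nat_lit 0) (nat_lit 83948304339) (nat_lit 380) (nat_lit 6753510417) (nat_lit 76) (nat_lit 59269621098) (nat_lit 81) (nat_lit 5) (nat_lit 86) (nat_lit 5) (nat_lit 82) (nat_lit 5) (nat_lit 394) (nat_lit 378) (nat_lit 248)) (XT.lf (nat_lit 0) (nat_lit 130852410331) (nat_lit 304) (nat_lit 24653871441) (nat_lit 76) (nat_lit 1666814014) (nat_lit 78) (nat_lit 5) (nat_lit 82) (nat_lit 5) (nat_lit 79) (nat_lit 5) (nat_lit 395) (nat_lit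 378) (nat_lit 247))))))))
noncomputable def xc103 : XT := (XT.nd (nat_lit 2028) (nat_lit 836) (nat_lit 0) (XT.nd (nat_lit 1014) (nat_lit 1444) (nat_lit 0) (XT.nd (nat_lit 468) (nat_lit 1064) (nat_lit 0) (XT.nd (nat_lit 234) (nat_lit 608) (nat_lit 0) (XT.nd (nat_lit 78) (nat_lit 456) (nat_lit 0) (XT.lf (nat_lit 0) (nat_lit 19616416811) (nat_lit 304) (nat_lit 44534490471) (nat_lit 76) (nat_lit 100607634740) (nat_lit 74) (nat_lit 5) (nat_lit 78) (nat_lit 5) (nat_lit 75) (nat_lit 5) (nat_lit 396) (nat_lit 378) (nat_lit 246)) (XT.nd (nat_lit 78) (nat_lit 228) (nat_lit 0) (XT.lf (nat_lit 0) (nat_lit 71015865014) (nat_lit 304) (nat_lit 65767089095) (nat_lit 76) (nat_lit 36010819422) (nat_lit 71) (nat_lit 5) (nat_lit 75) (nat_lit 5) (nat_lit 72) (nat_lit 5) (nat_lit 397) (nat_lit 378) (nat_lit 245)) (XT.lf (nat_lit 0) (nat_lit 92743101699) (nat_lit 228) (nat_lit 37101732881) (nat_lit 304) (nat_lit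 51461110911) (nat_lit 68) (nat_lit 5) (nat_lit 71) (nat_lit 5) (nat_lit 72) (nat_lit 5) (nat_lit 398) (nat_lit 378) (nat_lit 244)))) (XT.nd (nat_lit 78) (nat_lit 380) (nat_lit 0) (XT.lf (nat_lit 0) (nat_lit 6316246936) (nat_lit 228) (nat_lit 113237232531) (nat_lit 76) (nat_lit 70766991505) (nat_lit 65) (nat_lit 5) (nat_lit 68) (nat_lit 5) (nat_lit 66) (nat_lit 5) (nat_lit 399) (nat_lit 378) (nat_lit 243)) (XT.nd (nat_lit 78) (nat_lit 152) (nat_lit 0) (XT.lf (nat_lit 0) (nat_lit 59551084017) (nat_lit 228) (nat_lit 10508678589) (nat_lit 304) (nat_lit 129796869023) (nat_lit 62) (nat_lit 5) (nat_lit 65) (nat_lit 5) (nat_lit 66) (nat_lit 5) (nat_lit 400) (nat_lit 378) (nat_lit 242)) (XT.lf (nat_lit 0) (nat_lit 39712332262) (nat_lit 152) (nat_lit 103489404429) (nat_lit 228) (nat_lit 66738999747) (nat_lit 60) (nat_lit 5) (nat_lit 62) (nat_lit 5) (nat_lit 63) (nat_lit 5) (nat_lit 401) (nat_lit 378)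 (nat_lit 241))))) (XT.nd (nat_lit 234) (nat_lit 684) (nat_lit 0) (XT.nd (nat_lit 78) (nat_lit 152) (nat_lit 0) (XT.lf (nat_lit 0) (nat_lit 4500793015) (nat_lit 228) (nat_lit 202114764802) (nat_lit 76) (nat_lit 14055900829) (nat_lit 57) (nat_lit 5) (nat_lit 60) (nat_lit 5) (nat_lit 58) (nat_lit 5) (nat_lit 402) (nat_lit 378) (nat_lit 240)) (XT.nd (nat_lit 78) (nat_lit 152) (nat_lit 0) (XT.lf (nat_lit 0) (nat_lit 83891234682) (nat_lit 228) (nat_lit 6508734019) (nat_lit 76) (nat_lit 141566482212) (nat_lit 57) (nat_lit 5) (nat_lit 60) (nat_lit 5) (nat_lit 58) (nat_lit 5) (nat_lit 403) (nat_lit 378) (nat_lit 239)) (XT.lf (nat_lit 0) (nat_lit 173537144838) (nat_lit 228) (nat_lit 33087444340) (nat_lit 76) (nat_lit 37345241844) (nat_lit 55) (nat_lit 5) (nat_lit 58) (nat_lit 5) (nat_lit 56) (nat_lit 5) (nat_lit 404) (nat_lit 378) (nat_lit 238)))) (XT.nd (nat_lit 156) (nat_lit 304) (nat_lit 0) (XT.nd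 (nat_lit 78) (nat_lit 152) (nat_lit 0) (XT.lf (nat_lit 0) (nat_lit 17730495891) (nat_lit 228) (nat_lit 63346114301) (nat_lit 76) (nat_lit 175609453621) (nat_lit 52) (nat_lit 5) (nat_lit 55) (nat_lit 5) (nat_lit 53) (nat_lit 5) (nat_lit 405) (nat_lit 378) (nat_lit 237)) (XT.lf (nat_lit 0) (nat_lit 114723185515) (nat_lit 228) (nat_lit 98108375279) (nat_lit 76) (nat_lit 57318099260) (nat_lit 50) (nat_lit 5) (nat_lit 53) (nat_lit 5) (nat_lit 51) (nat_lit 5) (nat_lit 406) (nat_lit 378) (nat_lit 236))) (XT.nd (nat_lit 78) (nat_lit 152) (nat_lit 0) (XT.lf (nat_lit 0) (nat_lit 147212418657) (nat_lit 152) (nat_lit 77049507387) (nat_lit 228) (nat_lit 60189086253) (nat_lit 48) (nat_lit 5) (nat_lit 50) (nat_lit 5) (nat_lit 51) (nat_lit 5) (nat_lit 407) (nat_lit 378) (nat_lit 235)) (XT.lf (nat_lit 0) (nat_lit 46052063685) (nat_lit 152) (nat_lit 181875856277) (nat_lit 76) (nat_lit 71697725514) (nat_lit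 46) (nat_lit 5) (nat_lit 48) (nat_lit 5) (nat_lit 47) (nat_lit 5) (nat_lit 408) (nat_lit 378) (nat_lit 234)))))) (XT.nd (nat_lit 468) (nat_lit 684) (nat_lit 0) (XT.nd (nat_lit 234) (nat_lit 456) (nat_lit 0) (XT.nd (nat_lit 78) (nat_lit 152) (nat_lit 0) (XT.lf (nat_lit 0) (nat_lit 82427530607) (nat_lit 152) (nat_lit 81299979951) (nat_lit 228) (nat_lit 151985216640) (nat_lit 44) (nat_lit 5) (nat_lit 46) (nat_lit 5) (nat_lit 47) (nat_lit 5) (nat_lit 409) (nat_lit 378) (nat_lit 233)) (XT.nd (nat_lit 78) (nat_lit 76) (nat_lit 0) (XT.lf (nat_lit 0) (nat_lit 41514607991) (nat_lit 76) (nat_lit 254373377234) (nat_lit 152) (nat_lit 36945240699) (nat_lit 43) (nat_lit 5) (nat_lit 44) (nat_lit 5) (nat_lit 45) (nat_lit 4) (nat_lit 410) (nat_lit 378) (nat_lit 232)) (XT.lf (nat_lit 0) (nat_lit 90004668289) (nat_lit 152) (nat_lit 7292314167) (nat_lit 76) (nat_lit 253683193182) (nat_lit 42) (nat_lit 5) (nat_lit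 44) (nat_lit 5) (nat_lit 43) (nat_lit 5) (nat_lit 411) (nat_lit 378) (nat_lit 231)))) (XT.nd (nat_lit 78) (nat_lit 304) (nat_lit 0) (XT.lf (nat_lit 0) (nat_lit 231871790906) (nat_lit 228) (nat_lit 62812185523) (nat_lit 76) (nat_lit 75561841861) (nat_lit 40) (nat_lit 5) (nat_lit 43) (nat_lit 5) (nat_lit 41) (nat_lit 4) (nat_lit 412) (nat_lit 378) (nat_lit 230)) (XT.nd (nat_lit 78) (nat_lit 152) (nat_lit 0) (XT.lf (nat_lit 0) (nat_lit 203708067) (nat_lit 152) (nat_lit 127425079439) (nat_lit 76) (nat_lit 263129719063) (nat_lit 38) (nat_lit 5) (nat_lit 40) (nat_lit 5) (nat_lit 39) (nat_lit 5) (nat_lit 413) (nat_lit 378) (nat_lit 229)) (XT.lf (nat_lit 0) (nat_lit 150398380908) (nat_lit 228) (nat_lit 204207342793) (nat_lit 76) (nat_lit 57924131401) (nat_lit 36) (nat_lit 5) (nat_lit 39) (nat_lit 5) (nat_lit 37) (nat_lit 4) (nat_lit 414) (nat_lit 378) (nat_lit 228))))) (XT.nd (nat_lit 234) (nat_lit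 380) (nat_lit 0) (XT.nd (nat_lit 78) (nat_lit 228) (nat_lit 0) (XT.lf (nat_lit 0) (nat_lit 141901034879) (nat_lit 76) (nat_lit 177330880492) (nat_lit 152) (nat_lit 116479831798) (nat_lit 35) (nat_lit 5) (nat_lit 36) (nat_lit 5) (nat_lit 37) (nat_lit 4) (nat_lit 415) (nat_lit 378) (nat_lit 227)) (XT.nd (nat_lit 78) (nat_lit 0) (nat_lit 0) (XT.lf (nat_lit 0) (nat_lit 44434639038) (nat_lit 228) (nat_lit 397027782688) (nat_lit 76) (nat_lit 19008034197) (nat_lit 32) (nat_lit 5) (nat_lit 35) (nat_lit 5) (nat_lit 33) (nat_lit 4) (nat_lit 416) (nat_lit 378) (nat_lit 226)) (XT.lf (nat_lit 0) (nat_lit 222387684404) (nat_lit 228) (nat_lit 32224340145) (nat_lit 76) (nat_lit 232090046452) (nat_lit 32) (nat_lit 5) (nat_lit 35) (nat_lit 5) (nat_lit 33) (nat_lit 4) (nat_lit 417) (nat_lit 378) (nat_lit 225)))) (XT.nd (nat_lit 156) (nat_lit 152) (nat_lit 0) (XT.nd (nat_lit 78) (nat_lit 152) (nat_lit 0) (XT.lf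 (nat_lit 0) (nat_lit 373724423930) (nat_lit 76) (nat_lit 46687183536) (nat_lit 152) (nat_lit 94328876147) (nat_lit 31) (nat_lit 5) (nat_lit 32) (nat_lit 5) (nat_lit 33) (nat_lit 4) (nat_lit 418) (nat_lit 378) (nat_lit 224)) (XT.lf (nat_lit 0) (nat_lit 94153751548) (nat_lit 152) (nat_lit 271860646442) (nat_lit 76) (nat_lit 178550144417) (nat_lit 29) (nat_lit 5) (nat_lit 31) (nat_lit 5) (nat_lit 30) (nat_lit 4) (nat_lit 419) (nat_lit 378) (nat_lit 223))) (XT.nd (nat_lit 78) (nat_lit 76) (nat_lit 0) (XT.lf (nat_lit 0) (nat_lit 150297330774) (nat_lit 76) (nat_lit 149787252175) (nat_lit 152) (nat_lit 276328903338) (nat_lit 28) (nat_lit 5) (nat_lit 29) (nat_lit 5) (nat_lit 30) (nat_lit 4) (nat_lit 420) (nat_lit 378) (nat_lit 222)) (XT.lf (nat_lit 0) (nat_lit 4108481683) (nat_lit 76) (nat_lit 524565972255) (nat_lit 76) (nat_lit 81826663110) (nat_lit 27) (nat_lit 4) (nat_lit 28) (nat_lit 5) (nat_lit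 28) (nat_lit 4) (nat_lit 421) (nat_lit 378) (nat_lit 221))))))) (XT.nd (nat_lit 49842) (nat_lit 0) (nat_lit 5244) (XT.nd (nat_lit 468) (nat_lit 380) (nat_lit 0) (XT.nd (nat_lit 234) (nat_lit 228) (nat_lit 0) (XT.nd (nat_lit 78) (nat_lit 152) (nat_lit 0) (XT.lf (nat_lit 0) (nat_lit 134201228227) (nat_lit 152) (nat_lit 167626976753) (nat_lit 76) (nat_lit 344883956486) (nat_lit 26) (nat_lit 5) (nat_lit 28) (nat_lit 5) (nat_lit 27) (nat_lit 4) (nat_lit 422) (nat_lit 378) (nat_lit 220)) (XT.nd (nat_lit 78) (nat_lit 76) (nat_lit 0) (XT.lf (nat_lit 0) (nat_lit 314939837594) (nat_lit 76) (nat_lit 54659920430) (nat_lit 152) (nat_lit 315905499657) (nat_lit 25) (nat_lit 5) (nat_lit 26) (nat_lit 5) (nat_lit 27) (nat_lit 4) (nat_lit 423) (nat_lit 378) (nat_lit 219)) (XT.lf (nat_lit 0) (nat_lit 115165551419) (nat_lit 76) (nat_lit 516744613501) (nat_lit 76) (nat_lit 95087636955) (nat_lit 24) (nat_lit 4)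 (nat_lit 25) (nat_lit 5) (nat_lit 25) (nat_lit 4) (nat_lit 424) (nat_lit 378) (nat_lit 218)))) (XT.nd (nat_lit 78) (nat_lit 152) (nat_lit 0) (XT.lf (nat_lit 0) (nat_lit 146288402243) (nat_lit 152) (nat_lit 121765892172) (nat_lit 76) (nat_lit 503269399606) (nat_lit 23) (nat_lit 5) (nat_lit 25) (nat_lit 5) (nat_lit 24) (nat_lit 4) (nat_lit 425) (nat_lit 378) (nat_lit 217)) (XT.nd (nat_lit 78) (nat_lit 76) (nat_lit 0) (XT.lf (nat_lit 0) (nat_lit 410376184848) (nat_lit 152) (nat_lit 399607023882) (nat_lit 0) (nat_lit 8797854744) (nat_lit 22) (nat_lit 5) (nat_lit 24) (nat_lit 4) (nat_lit 22) (nat_lit 4) (nat_lit 426) (nat_lit 378) (nat_lit 216)) (XT.lf (nat_lit 0) (nat_lit 137659386500) (nat_lit 76) (nat_lit 566756419890) (nat_lit 76) (nat_lit 165177975290) (nat_lit 21) (nat_lit 4) (nat_lit 22) (nat_lit 5) (nat_lit 22) (nat_lit 4) (nat_lit 427) (nat_lit 378) (nat_lit 215))))) (XT.nd (nat_lit 234)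 (nat_lit 228) (nat_lit 0) (XT.nd (nat_lit 78) (nat_lit 76) (nat_lit 0) (XT.lf (nat_lit 0) (nat_lit 101461086793) (nat_lit 152) (nat_lit 193583322688) (nat_lit 76) (nat_lit 628997247834) (nat_lit 20) (nat_lit 5) (nat_lit 22) (nat_lit 5) (nat_lit 21) (nat_lit 4) (nat_lit 428) (nat_lit 378) (nat_lit 214)) (XT.nd (nat_lit 78) (nat_lit 0) (nat_lit 0) (XT.lf (nat_lit 0) (nat_lit 390054501761) (nat_lit 152) (nat_lit 584736310705) (nat_lit 0) (nat_lit 7598645784) (nat_lit 19) (nat_lit 5) (nat_lit 21) (nat_lit 4) (nat_lit 19) (nat_lit 4) (nat_lit 429) (nat_lit 378) (nat_lit 213)) (XT.lf (nat_lit 0) (nat_lit 710137604090) (nat_lit 152) (nat_lit 7165706923) (nat_lit 0) (nat_lit 327681661550) (nat_lit 19) (nat_lit 5) (nat_lit 21) (nat_lit 4) (nat_lit 19) (nat_lit 4) (nat_lit 430) (nat_lit 378) (nat_lit 212)))) (XT.nd (nat_lit 156) (nat_lit 0) (nat_lit 0) (XT.nd (nat_lit 78) (nat_lit 152) (nat_lit 0)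 (XT.lf (nat_lit 0) (nat_lit 636998193325) (nat_lit 76) (nat_lit 428774349005) (nat_lit 76) (nat_lit 46318326315) (nat_lit 18) (nat_lit 4) (nat_lit 19) (nat_lit 5) (nat_lit 19) (nat_lit 4) (nat_lit 431) (nat_lit 378) (nat_lit 211)) (XT.lf (nat_lit 0) (nat_lit 149017300727) (nat_lit 76) (nat_lit 110238015190) (nat_lit 152) (nat_lit 924980156577) (nat_lit 16) (nat_lit 5) (nat_lit 17) (nat_lit 5) (nat_lit 18) (nat_lit 4) (nat_lit 432) (nat_lit 378) (nat_lit 210))) (XT.nd (nat_lit 48906) (nat_lit 0) (nat_lit 7752) (XT.lf (nat_lit 0) (nat_lit 599735101665) (nat_lit 152) (nat_lit 426283291710) (nat_lit 0) (nat_lit 235491134408) (nat_lit 16) (nat_lit 5) (nat_lit 18) (nat_lit 4) (nat_lit 16) (nat_lit 4) (nat_lit 433) (nat_lit 378) (nat_lit 209)) (XT.lf (nat_lit 0) (nat_lit 11398995534) (nat_lit 836) (nat_lit 14753367657) (nat_lit 836) (nat_lit 14753367657) (nat_lit 118) (nat_lit 3) (nat_lit 129) (nat_lit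 3) (nat_lit 129) (nat_lit 5) (nat_lit 379) (nat_lit 379) (nat_lit 262)))))) (XT.nd (nat_lit 546) (nat_lit 2128) (nat_lit 0) (XT.nd (nat_lit 234) (nat_lit 456) (nat_lit 0) (XT.nd (nat_lit 78) (nat_lit 0) (nat_lit 0) (XT.lf (nat_lit 0) (nat_lit 24445569237) (nat_lit 760) (nat_lit 50009545114) (nat_lit 836) (nat_lit 10592014692) (nat_lit 119) (nat_lit 5) (nat_lit 129) (nat_lit 5) (nat_lit 130) (nat_lit 5) (nat_lit 380) (nat_lit 379) (nat_lit 261)) (XT.nd (nat_lit 78) (nat_lit 0) (nat_lit 76) (XT.lf (nat_lit 76) (nat_lit 16933884332) (nat_lit 0) (nat_lit 10958321356) (nat_lit 836) (nat_lit 60566082308) (nat_lit 120) (nat_lit 5) (nat_lit 119) (nat_lit 5) (nat_lit 130) (nat_lit 5) (nat_lit 381) (nat_lit 379) (nat_lit 260)) (XT.lf (nat_lit 0) (nat_lit 33398175021) (nat_lit 760) (nat_lit 1994973833) (nat_lit 836) (nat_lit 56660011471) (nat_lit 120) (nat_lit 5) (nat_lit 130) (nat_lit 5) (nat_lit 131)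 (nat_lit 5) (nat_lit 382) (nat_lit 379) (nat_lit 259)))) (XT.nd (nat_lit 156) (nat_lit 608) (nat_lit 0) (XT.nd (nat_lit 78) (nat_lit 0) (nat_lit 76) (XT.lf (nat_lit 0) (nat_lit 41244575763) (nat_lit 760) (nat_lit 21086196993) (nat_lit 836) (nat_lit 33509852695) (nat_lit 121) (nat_lit 5) (nat_lit 131) (nat_lit 5) (nat_lit 132) (nat_lit 5) (nat_lit 383) (nat_lit 379) (nat_lit 258)) (XT.lf (nat_lit 0) (nat_lit 51393855521) (nat_lit 760) (nat_lit 40897018966) (nat_lit 836) (nat_lit 7556455603) (nat_lit 122) (nat_lit 5) (nat_lit 132) (nat_lit 5) (nat_lit 133) (nat_lit 5) (nat_lit 384) (nat_lit 379) (nat_lit 257))) (XT.nd (nat_lit 78) (nat_lit 684) (nat_lit 0) (XT.lf (nat_lit 76) (nat_lit 42281844019) (nat_lit 0) (nat_lit 22156588687) (nat_lit 836) (nat_lit 39631971243) (nat_lit 123) (nat_lit 5) (nat_lit 122) (nat_lit 5) (nat_lit 133) (nat_lit 5) (nat_lit 385) (nat_lit 379) (nat_lit 256)) (XT.lf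 (nat_lit 0) (nat_lit 24928310645) (nat_lit 760) (nat_lit 55547159297) (nat_lit 836) (nat_lit 28058409641) (nat_lit 113) (nat_lit 5) (nat_lit 123) (nat_lit 5) (nat_lit 124) (nat_lit 5) (nat_lit 386) (nat_lit 379) (nat_lit 255))))) (XT.nd (nat_lit 234) (nat_lit 1292) (nat_lit 0) (XT.nd (nat_lit 78) (nat_lit 456) (nat_lit 0) (XT.lf (nat_lit 0) (nat_lit 7013904124) (nat_lit 380) (nat_lit 92664402677) (nat_lit 456) (nat_lit 13581985151) (nat_lit 108) (nat_lit 5) (nat_lit 113) (nat_lit 5) (nat_lit 114) (nat_lit 5) (nat_lit 387) (nat_lit 379) (nat_lit 254)) (XT.nd (nat_lit 78) (nat_lit 380) (nat_lit 0) (XT.lf (nat_lit 0) (nat_lit 4402772512) (nat_lit 456) (nat_lit 11417023103) (nat_lit 76) (nat_lit 102422624158) (nat_lit 107) (nat_lit 5) (nat_lit 113) (nat_lit 5) (nat_lit 108) (nat_lit 5) (nat_lit 388) (nat_lit 379) (nat_lit 253)) (XT.lf (nat_lit 0) (nat_lit 25896469730) (nat_lit 456) (nat_lit 30844983366)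 (nat_lit 76) (nat_lit 66743232093) (nat_lit 102) (nat_lit 5) (nat_lit 108) (nat_lit 5) (nat_lit 103) (nat_lit 5) (nat_lit 389) (nat_lit 379) (nat_lit 252)))) (XT.nd (nat_lit 156) (nat_lit 608) (nat_lit 0) (XT.nd (nat_lit 78) (nat_lit 304) (nat_lit 0) (XT.lf (nat_lit 0) (nat_lit 51236841547) (nat_lit 456) (nat_lit 50959580317) (nat_lit 76) (nat_lit 26843551426) (nat_lit 97) (nat_lit 5) (nat_lit 103) (nat_lit 5) (nat_lit 98) (nat_lit 5) (nat_lit 390) (nat_lit 379) (nat_lit 251)) (XT.lf (nat_lit 0) (nat_lit 62853709696) (nat_lit 304) (nat_lit 18234153989) (nat_lit 380) (nat_lit 53827650084) (nat_lit 93) (nat_lit 5) (nat_lit 97) (nat_lit 5) (nat_lit 98) (nat_lit 5) (nat_lit 391) (nat_lit 379) (nat_lit 250))) (XT.nd (nat_lit 78) (nat_lit 304) (nat_lit 0) (XT.lf (nat_lit 0) (nat_lit 46724068151) (nat_lit 304) (nat_lit 69364967505) (nat_lit 380) (nat_lit 25033958766) (nat_lit 89) (nat_lit 5) (nat_lit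 93) (nat_lit 5) (nat_lit 94) (nat_lit 5) (nat_lit 392) (nat_lit 379) (nat_lit 249)) (XT.lf (nat_lit 0) (nat_lit 8276358361) (nat_lit 304) (nat_lit 117699637895) (nat_lit 76) (nat_lit 21725984783) (nat_lit 85) (nat_lit 5) (nat_lit 89) (nat_lit 5) (nat_lit 86) (nat_lit 5) (nat_lit 393) (nat_lit 379) (nat_lit 248))))))))
noncomputable def xc104 : XT := (XT.nd (nat_lit 2028) (nat_lit 1140) (nat_lit 0) (XT.nd (nat_lit 1014) (nat_lit 1596) (nat_lit 0) (XT.nd (nat_lit 468) (nat_lit 1216) (nat_lit 0) (XT.nd (nat_lit 234) (nat_lit 760) (nat_lit 0) (XT.nd (nat_lit 78) (nat_lit 228) (nat_lit 0) (XT.lf (nat_lit 0) (nat_lit 11758398244) (nat_lit 304) (nat_lit 34651621642) (nat_lit 380) (nat_lit 108224967983) (nat_lit 81) (nat_lit 5) (nat_lit 85) (nat_lit 5) (nat_lit 86) (nat_lit 5) (nat_lit 394) (nat_lit 379) (nat_lit 247)) (XT.nd (nat_lit 78) (nat_lit 228) (nat_lit 0) (XT.lf (nat_lit 0) (nat_lit 90676491978)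 (nat_lit 380) (nat_lit 7277368593) (nat_lit 76) (nat_lit 64014669047) (nat_lit 81) (nat_lit 5) (nat_lit 86) (nat_lit 5) (nat_lit 82) (nat_lit 5) (nat_lit 395) (nat_lit 379) (nat_lit 246)) (XT.lf (nat_lit 0) (nat_lit 141332322156) (nat_lit 304) (nat_lit 26609948131) (nat_lit 76) (nat_lit 1804082639) (nat_lit 78) (nat_lit 5) (nat_lit 82) (nat_lit 5) (nat_lit 79) (nat_lit 5) (nat_lit 396) (nat_lit 379) (nat_lit 245)))) (XT.nd (nat_lit 78) (nat_lit 456) (nat_lit 0) (XT.lf (nat_lit 0) (nat_lit 21197009467) (nat_lit 304) (nat_lit 48081345172) (nat_lit 76) (nat_lit 108660302746) (nat_lit 74) (nat_lit 5) (nat_lit 78) (nat_lit 5) (nat_lit 75) (nat_lit 5) (nat_lit 397) (nat_lit 379) (nat_lit 244)) (XT.nd (nat_lit 78) (nat_lit 228) (nat_lit 0) (XT.lf (nat_lit 0) (nat_lit 76707886301) (nat_lit 304) (nat_lit 71012775834) (nat_lit 76) (nat_lit 38896071939) (nat_lit 71) (nat_lit 5) (nat_lit 75) (nat_lit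 5) (nat_lit 72) (nat_lit 5) (nat_lit 398) (nat_lit 379) (nat_lit 243)) (XT.lf (nat_lit 0) (nat_lit 100177548773) (nat_lit 228) (nat_lit 40065062384) (nat_lit 304) (nat_lit 55567297024) (nat_lit 68) (nat_lit 5) (nat_lit 71) (nat_lit 5) (nat_lit 72) (nat_lit 5) (nat_lit 399) (nat_lit 379) (nat_lit 242))))) (XT.nd (nat_lit 234) (nat_lit 608) (nat_lit 0) (XT.nd (nat_lit 78) (nat_lit 380) (nat_lit 0) (XT.lf (nat_lit 0) (nat_lit 6831444452) (nat_lit 228) (nat_lit 122281114881) (nat_lit 76) (nat_lit 76433051379) (nat_lit 65) (nat_lit 5) (nat_lit 68) (nat_lit 5) (nat_lit 66) (nat_lit 5) (nat_lit 400) (nat_lit 379) (nat_lit 241)) (XT.nd (nat_lit 78) (nat_lit 152) (nat_lit 0) (XT.lf (nat_lit 0) (nat_lit 64329610926) (nat_lit 228) (nat_lit 11344322734) (nat_lit 304) (nat_lit 140170756173) (nat_lit 62) (nat_lit 5) (nat_lit 65) (nat_lit 5) (nat_lit 66) (nat_lit 5) (nat_lit 401) (nat_lit 379) (nat_lit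 240)) (XT.lf (nat_lit 0) (nat_lit 42903507857) (nat_lit 152) (nat_lit 111763356792) (nat_lit 228) (nat_lit 72068678638) (nat_lit 60) (nat_lit 5) (nat_lit 62) (nat_lit 5) (nat_lit 63) (nat_lit 5) (nat_lit 402) (nat_lit 379) (nat_lit 239)))) (XT.nd (nat_lit 156) (nat_lit 380) (nat_lit 0) (XT.nd (nat_lit 78) (nat_lit 0) (nat_lit 0) (XT.lf (nat_lit 0) (nat_lit 4869615826) (nat_lit 228) (nat_lit 218269726918) (nat_lit 76) (nat_lit 15185392319) (nat_lit 57) (nat_lit 5) (nat_lit 60) (nat_lit 5) (nat_lit 58) (nat_lit 5) (nat_lit 403) (nat_lit 379) (nat_lit 238)) (XT.lf (nat_lit 0) (nat_lit 90610643984) (nat_lit 228) (nat_lit 7016266937) (nat_lit 76) (nat_lit 152896448404) (nat_lit 57) (nat_lit 5) (nat_lit 60) (nat_lit 5) (nat_lit 58) (nat_lit 5) (nat_lit 404) (nat_lit 379) (nat_lit 237))) (XT.nd (nat_lit 78) (nat_lit 228) (nat_lit 0) (XT.lf (nat_lit 0) (nat_lit 187427899098) (nat_lit 228) (nat_lit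 35721535262) (nat_lit 76) (nat_lit 40337592032) (nat_lit 55) (nat_lit 5) (nat_lit 58) (nat_lit 5) (nat_lit 56) (nat_lit 5) (nat_lit 405) (nat_lit 379) (nat_lit 236)) (XT.lf (nat_lit 0) (nat_lit 19156457528) (nat_lit 228) (nat_lit 68401209187) (nat_lit 76) (nat_lit 189662904363) (nat_lit 52) (nat_lit 5) (nat_lit 55) (nat_lit 5) (nat_lit 53) (nat_lit 5) (nat_lit 406) (nat_lit 379) (nat_lit 235)))))) (XT.nd (nat_lit 468) (nat_lit 836) (nat_lit 0) (XT.nd (nat_lit 234) (nat_lit 304) (nat_lit 0) (XT.nd (nat_lit 78) (nat_lit 304) (nat_lit 0) (XT.lf (nat_lit 0) (nat_lit 123908269635) (nat_lit 228) (nat_lit 105944715527) (nat_lit 76) (nat_lit 61908284619) (nat_lit 50) (nat_lit 5) (nat_lit 53) (nat_lit 5) (nat_lit 51) (nat_lit 5) (nat_lit 407) (nat_lit 379) (nat_lit 234)) (XT.nd (nat_lit 78) (nat_lit 152) (nat_lit 0) (XT.lf (nat_lit 0) (nat_lit 159001206088) (nat_lit 152) (nat_lit 83208551954) (nat_lit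 228) (nat_lit 64996989850) (nat_lit 48) (nat_lit 5) (nat_lit 50) (nat_lit 5) (nat_lit 51) (nat_lit 5) (nat_lit 408) (nat_lit 379) (nat_lit 233)) (XT.lf (nat_lit 0) (nat_lit 49742958290) (nat_lit 152) (nat_lit 196414162603) (nat_lit 76) (nat_lit 77438238428) (nat_lit 46) (nat_lit 5) (nat_lit 48) (nat_lit 5) (nat_lit 47) (nat_lit 5) (nat_lit 409) (nat_lit 379) (nat_lit 232)))) (XT.nd (nat_lit 78) (nat_lit 152) (nat_lit 0) (XT.lf (nat_lit 0) (nat_lit 89032984062) (nat_lit 152) (nat_lit 87799134029) (nat_lit 228) (nat_lit 164137305729) (nat_lit 44) (nat_lit 5) (nat_lit 46) (nat_lit 5) (nat_lit 47) (nat_lit 5) (nat_lit 410) (nat_lit 379) (nat_lit 231)) (XT.nd (nat_lit 78) (nat_lit 76) (nat_lit 0) (XT.lf (nat_lit 0) (nat_lit 44846773915) (nat_lit 76) (nat_lit 274718423976) (nat_lit 152) (nat_lit 39894376286) (nat_lit 43) (nat_lit 5) (nat_lit 44) (nat_lit 5) (nat_lit 45) (nat_lit 4) (nat_lit 411)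 (nat_lit 379) (nat_lit 230)) (XT.lf (nat_lit 0) (nat_lit 97210853003) (nat_lit 152) (nat_lit 7865323487) (nat_lit 76) (nat_lit 273982121640) (nat_lit 42) (nat_lit 5) (nat_lit 44) (nat_lit 5) (nat_lit 43) (nat_lit 5) (nat_lit 412) (nat_lit 379) (nat_lit 229))))) (XT.nd (nat_lit 234) (nat_lit 380) (nat_lit 0) (XT.nd (nat_lit 78) (nat_lit 304) (nat_lit 0) (XT.lf (nat_lit 0) (nat_lit 250427138449) (nat_lit 228) (nat_lit 67827026289) (nat_lit 76) (nat_lit 81611037879) (nat_lit 40) (nat_lit 5) (nat_lit 43) (nat_lit 5) (nat_lit 41) (nat_lit 4) (nat_lit 413) (nat_lit 379) (nat_lit 228)) (XT.nd (nat_lit 78) (nat_lit 152) (nat_lit 0) (XT.lf (nat_lit 0) (nat_lit 225433573) (nat_lit 152) (nat_lit 137609211817) (nat_lit 76) (nat_lit 284184269449) (nat_lit 38) (nat_lit 5) (nat_lit 40) (nat_lit 5) (nat_lit 39) (nat_lit 5) (nat_lit 414) (nat_lit 379) (nat_lit 227)) (XT.lf (nat_lit 0) (nat_lit 162435492242)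 (nat_lit 228) (nat_lit 220534292564) (nat_lit 76) (nat_lit 62562195908) (nat_lit 36) (nat_lit 5) (nat_lit 39) (nat_lit 5) (nat_lit 37) (nat_lit 4) (nat_lit 415) (nat_lit 379) (nat_lit 226)))) (XT.nd (nat_lit 156) (nat_lit 76) (nat_lit 0) (XT.nd (nat_lit 78) (nat_lit 228) (nat_lit 0) (XT.lf (nat_lit 0) (nat_lit 153262336480) (nat_lit 76) (nat_lit 191513128701) (nat_lit 152) (nat_lit 125792971234) (nat_lit 35) (nat_lit 5) (nat_lit 36) (nat_lit 5) (nat_lit 37) (nat_lit 4) (nat_lit 416) (nat_lit 379) (nat_lit 225)) (XT.lf (nat_lit 0) (nat_lit 47994317867) (nat_lit 228) (nat_lit 428780847662) (nat_lit 76) (nat_lit 20532680868) (nat_lit 32) (nat_lit 5) (nat_lit 35) (nat_lit 5) (nat_lit 33) (nat_lit 4) (nat_lit 417) (nat_lit 379) (nat_lit 224))) (XT.nd (nat_lit 78) (nat_lit 76) (nat_lit 0) (XT.lf (nat_lit 0) (nat_lit 240183243329) (nat_lit 228) (nat_lit 34793808058) (nat_lit 76) (nat_lit 250660957515)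 (nat_lit 32) (nat_lit 5) (nat_lit 35) (nat_lit 5) (nat_lit 33) (nat_lit 4) (nat_lit 418) (nat_lit 379) (nat_lit 223)) (XT.lf (nat_lit 0) (nat_lit 403630488643) (nat_lit 76) (nat_lit 50418381621) (nat_lit 152) (nat_lit 101870634802) (nat_lit 31) (nat_lit 5) (nat_lit 32) (nat_lit 5) (nat_lit 33) (nat_lit 4) (nat_lit 419) (nat_lit 379) (nat_lit 222))))))) (XT.nd (nat_lit 1014) (nat_lit 152) (nat_lit 0) (XT.nd (nat_lit 468) (nat_lit 456) (nat_lit 0) (XT.nd (nat_lit 234) (nat_lit 228) (nat_lit 0) (XT.nd (nat_lit 78) (nat_lit 152) (nat_lit 0) (XT.lf (nat_lit 0) (nat_lit 101690312089) (nat_lit 152) (nat_lit 293601447115) (nat_lit 76) (nat_lit 192837733109) (nat_lit 29) (nat_lit 5) (nat_lit 31) (nat_lit 5) (nat_lit 30) (nat_lit 4) (nat_lit 420) (nat_lit 379) (nat_lit 221)) (XT.nd (nat_lit 78) (nat_lit 76) (nat_lit 0) (XT.lf (nat_lit 0) (nat_lit 162328818389) (nat_lit 76) (nat_lit 161766596263) (nat_lit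 152) (nat_lit 298430946854) (nat_lit 28) (nat_lit 5) (nat_lit 29) (nat_lit 5) (nat_lit 30) (nat_lit 4) (nat_lit 421) (nat_lit 379) (nat_lit 220)) (XT.lf (nat_lit 0) (nat_lit 4444667218) (nat_lit 76) (nat_lit 566527676756) (nat_lit 76) (nat_lit 88368665353) (nat_lit 27) (nat_lit 4) (nat_lit 28) (nat_lit 5) (nat_lit 28) (nat_lit 4) (nat_lit 422) (nat_lit 379) (nat_lit 219)))) (XT.nd (nat_lit 78) (nat_lit 152) (nat_lit 0) (XT.lf (nat_lit 0) (nat_lit 144941028887) (nat_lit 152) (nat_lit 181030061197) (nat_lit 76) (nat_lit 372477858827) (nat_lit 26) (nat_lit 5) (nat_lit 28) (nat_lit 5) (nat_lit 27) (nat_lit 4) (nat_lit 423) (nat_lit 379) (nat_lit 218)) (XT.nd (nat_lit 78) (nat_lit 76) (nat_lit 0) (XT.lf (nat_lit 0) (nat_lit 340141790883) (nat_lit 76) (nat_lit 59029481574) (nat_lit 152) (nat_lit 341174228824) (nat_lit 25) (nat_lit 5) (nat_lit 26) (nat_lit 5) (nat_lit 27) (nat_lit 4) (nat_lit 424)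 (nat_lit 379) (nat_lit 217)) (XT.lf (nat_lit 0) (nat_lit 124385388807) (nat_lit 76) (nat_lit 558081011004) (nat_lit 76) (nat_lit 102691054828) (nat_lit 24) (nat_lit 4) (nat_lit 25) (nat_lit 5) (nat_lit 25) (nat_lit 4) (nat_lit 425) (nat_lit 379) (nat_lit 216))))) (XT.nd (nat_lit 234) (nat_lit 228) (nat_lit 0) (XT.nd (nat_lit 78) (nat_lit 152) (nat_lit 0) (XT.lf (nat_lit 0) (nat_lit 157994694869) (nat_lit 152) (nat_lit 131500951914) (nat_lit 76) (nat_lit 543533781472) (nat_lit 23) (nat_lit 5) (nat_lit 25) (nat_lit 5) (nat_lit 24) (nat_lit 4) (nat_lit 426) (nat_lit 379) (nat_lit 215)) (XT.nd (nat_lit 78) (nat_lit 76) (nat_lit 0) (XT.lf (nat_lit 0) (nat_lit 443209399059) (nat_lit 152) (nat_lit 431569534894) (nat_lit 0) (nat_lit 9504458381) (nat_lit 22) (nat_lit 5) (nat_lit 24) (nat_lit 4) (nat_lit 22) (nat_lit 4) (nat_lit 427) (nat_lit 379) (nat_lit 214)) (XT.lf (nat_lit 0) (nat_lit 148677925354)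 (nat_lit 76) (nat_lit 612094124268) (nat_lit 76) (nat_lit 178389085428) (nat_lit 21) (nat_lit 4) (nat_lit 22) (nat_lit 5) (nat_lit 22) (nat_lit 4) (nat_lit 428) (nat_lit 379) (nat_lit 213)))) (XT.nd (nat_lit 156) (nat_lit 76) (nat_lit 0) (XT.nd (nat_lit 78) (nat_lit 76) (nat_lit 0) (XT.lf (nat_lit 0) (nat_lit 109580777230) (nat_lit 152) (nat_lit 209064536407) (nat_lit 76) (nat_lit 679319535887) (nat_lit 20) (nat_lit 5) (nat_lit 22) (nat_lit 5) (nat_lit 21) (nat_lit 4) (nat_lit 429) (nat_lit 379) (nat_lit 212)) (XT.lf (nat_lit 0) (nat_lit 421261578777) (nat_lit 152) (nat_lit 631509905983) (nat_lit 0) (nat_lit 8208994121) (nat_lit 19) (nat_lit 5) (nat_lit 21) (nat_lit 4) (nat_lit 19) (nat_lit 4) (nat_lit 430) (nat_lit 379) (nat_lit 211))) (XT.nd (nat_lit 78) (nat_lit 76) (nat_lit 0) (XT.lf (nat_lit 0) (nat_lit 766951128042) (nat_lit 152) (nat_lit 7734047200) (nat_lit 0) (nat_lit 353898469173)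 (nat_lit 19) (nat_lit 5) (nat_lit 21) (nat_lit 4) (nat_lit 19) (nat_lit 4) (nat_lit 431) (nat_lit 379) (nat_lit 210)) (XT.lf (nat_lit 0) (nat_lit 687962751413) (nat_lit 76) (nat_lit 463073997007) (nat_lit 76) (nat_lit 50021269422) (nat_lit 18) (nat_lit 4) (nat_lit 19) (nat_lit 5) (nat_lit 19) (nat_lit 4) (nat_lit 432) (nat_lit 379) (nat_lit 209)))))) (XT.nd (nat_lit 49374) (nat_lit 0) (nat_lit 6156) (XT.nd (nat_lit 49140) (nat_lit 0) (nat_lit 7828) (XT.nd (nat_lit 48984) (nat_lit 0) (nat_lit 7752) (XT.lf (nat_lit 0) (nat_lit 160943260424) (nat_lit 76) (nat_lit 119054813544) (nat_lit 152) (nat_lit 998976119546) (nat_lit 16) (nat_lit 5) (nat_lit 17) (nat_lit 5) (nat_lit 18) (nat_lit 4) (nat_lit 433) (nat_lit 379) (nat_lit 208)) (XT.nd (nat_lit 78) (nat_lit 0) (nat_lit 76) (XT.lf (nat_lit 0) (nat_lit 12325538873) (nat_lit 836) (nat_lit 15925955630) (nat_lit 836) (nat_lit 15925955630) (nat_lit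 118) (nat_lit 3) (nat_lit 129) (nat_lit 3) (nat_lit 129) (nat_lit 5) (nat_lit 380) (nat_lit 380) (nat_lit 260)) (XT.lf (nat_lit 0) (nat_lit 26428328170) (nat_lit 760) (nat_lit 53994036209) (nat_lit 836) (nat_lit 11427164506) (nat_lit 119) (nat_lit 5) (nat_lit 129) (nat_lit 5) (nat_lit 130) (nat_lit 5) (nat_lit 381) (nat_lit 380) (nat_lit 259)))) (XT.nd (nat_lit 78) (nat_lit 0) (nat_lit 76) (XT.lf (nat_lit 76) (nat_lit 18304160409) (nat_lit 0) (nat_lit 11844769747) (nat_lit 836) (nat_lit 65384739765) (nat_lit 120) (nat_lit 5) (nat_lit 119) (nat_lit 5) (nat_lit 130) (nat_lit 5) (nat_lit 382) (nat_lit 380) (nat_lit 258)) (XT.nd (nat_lit 78) (nat_lit 0) (nat_lit 76) (XT.lf (nat_lit 0) (nat_lit 36093357984) (nat_lit 760) (nat_lit 2138831757) (nat_lit 836) (nat_lit 61184044263) (nat_lit 120) (nat_lit 5) (nat_lit 130) (nat_lit 5) (nat_lit 131) (nat_lit 5) (nat_lit 383) (nat_lit 380) (nat_lit 257))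 (XT.lf (nat_lit 0) (nat_lit 44565871924) (nat_lit 760) (nat_lit 22756827399) (nat_lit 836) (nat_lit 36184077900) (nat_lit 121) (nat_lit 5) (nat_lit 131) (nat_lit 5) (nat_lit 132) (nat_lit 5) (nat_lit 384) (nat_lit 380) (nat_lit 256))))) (XT.nd (nat_lit 234) (nat_lit 1216) (nat_lit 0) (XT.nd (nat_lit 78) (nat_lit 684) (nat_lit 0) (XT.lf (nat_lit 0) (nat_lit 55525652319) (nat_lit 760) (nat_lit 44152117929) (nat_lit 836) (nat_lit 8156320943) (nat_lit 122) (nat_lit 5) (nat_lit 132) (nat_lit 5) (nat_lit 133) (nat_lit 5) (nat_lit 385) (nat_lit 380) (nat_lit 255)) (XT.nd (nat_lit 78) (nat_lit 684) (nat_lit 0) (XT.lf (nat_lit 76) (nat_lit 45680329961) (nat_lit 0) (nat_lit 23932211722) (nat_lit 836) (nat_lit 42782532785) (nat_lit 123) (nat_lit 5) (nat_lit 122) (nat_lit 5) (nat_lit 133) (nat_lit 5) (nat_lit 386) (nat_lit 380) (nat_lit 254)) (XT.lf (nat_lit 0) (nat_lit 26938787488) (nat_lit 760) (nat_lit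 59992552814) (nat_lit 836) (nat_lit 30284348675) (nat_lit 113) (nat_lit 5) (nat_lit 123) (nat_lit 5) (nat_lit 124) (nat_lit 5) (nat_lit 387) (nat_lit 380) (nat_lit 253)))) (XT.nd (nat_lit 156) (nat_lit 760) (nat_lit 0) (XT.nd (nat_lit 78) (nat_lit 76) (nat_lit 0) (XT.lf (nat_lit 0) (nat_lit 7591409914) (nat_lit 380) (nat_lit 100077905768) (nat_lit 456) (nat_lit 14650953766) (nat_lit 108) (nat_lit 5) (nat_lit 113) (nat_lit 5) (nat_lit 114) (nat_lit 5) (nat_lit 388) (nat_lit 380) (nat_lit 252)) (XT.lf (nat_lit 0) (nat_lit 4770760239) (nat_lit 456) (nat_lit 12314676907) (nat_lit 76) (nat_lit 110615580290) (nat_lit 107) (nat_lit 5) (nat_lit 113) (nat_lit 5) (nat_lit 108) (nat_lit 5) (nat_lit 389) (nat_lit 380) (nat_lit 251))) (XT.nd (nat_lit 78) (nat_lit 380) (nat_lit 0) (XT.lf (nat_lit 0) (nat_lit 27983022986) (nat_lit 456) (nat_lit 33296810963) (nat_lit 76) (nat_lit 72082877215) (nat_lit 102)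 (nat_lit 5) (nat_lit 108) (nat_lit 5) (nat_lit 103) (nat_lit 5) (nat_lit 390) (nat_lit 380) (nat_lit 250)) (XT.lf (nat_lit 0) (nat_lit 55349778522) (nat_lit 456) (nat_lit 55020573297) (nat_lit 76) (nat_lit 28992113317) (nat_lit 97) (nat_lit 5) (nat_lit 103) (nat_lit 5) (nat_lit 98) (nat_lit 5) (nat_lit 391) (nat_lit 380) (nat_lit 249))))))))
noncomputable def xc105 : XT := (XT.nd (nat_lit 2028) (nat_lit 1292) (nat_lit 0) (XT.nd (nat_lit 1014) (nat_lit 1672) (nat_lit 0) (XT.nd (nat_lit 468) (nat_lit 1596) (nat_lit 0) (XT.nd (nat_lit 234) (nat_lit 532) (nat_lit 0) (XT.nd (nat_lit 78) (nat_lit 608) (nat_lit 0) (XT.lf (nat_lit 0) (nat_lit 67897094423) (nat_lit 304) (nat_lit 19690987304) (nat_lit 380) (nat_lit 58120007647) (nat_lit 93) (nat_lit 5) (nat_lit 97) (nat_lit 5) (nat_lit 98) (nat_lit 5) (nat_lit 392) (nat_lit 380) (nat_lit 248)) (XT.nd (nat_lit 78) (nat_lit 304) (nat_lit 0) (XT.lf (nat_lit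 0) (nat_lit 50477034066) (nat_lit 304) (nat_lit 74911598707) (nat_lit 380) (nat_lit 27023571888) (nat_lit 89) (nat_lit 5) (nat_lit 93) (nat_lit 5) (nat_lit 94) (nat_lit 5) (nat_lit 393) (nat_lit 380) (nat_lit 247)) (XT.lf (nat_lit 0) (nat_lit 8950486594) (nat_lit 304) (nat_lit 127100256102) (nat_lit 76) (nat_lit 23466790908) (nat_lit 85) (nat_lit 5) (nat_lit 89) (nat_lit 5) (nat_lit 86) (nat_lit 5) (nat_lit 394) (nat_lit 380) (nat_lit 246)))) (XT.nd (nat_lit 78) (nat_lit 228) (nat_lit 0) (XT.lf (nat_lit 0) (nat_lit 12713755713) (nat_lit 304) (nat_lit 37420424274) (nat_lit 380) (nat_lit 116871034412) (nat_lit 81) (nat_lit 5) (nat_lit 85) (nat_lit 5) (nat_lit 86) (nat_lit 5) (nat_lit 395) (nat_lit 380) (nat_lit 245)) (XT.nd (nat_lit 78) (nat_lit 228) (nat_lit 0) (XT.lf (nat_lit 0) (nat_lit 97941176573) (nat_lit 380) (nat_lit 7845478300) (nat_lit 76) (nat_lit 69138824619) (nat_lit 81) (nat_lit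 5) (nat_lit 86) (nat_lit 5) (nat_lit 82) (nat_lit 5) (nat_lit 396) (nat_lit 380) (nat_lit 244)) (XT.lf (nat_lit 0) (nat_lit 152648955080) (nat_lit 304) (nat_lit 28724826778) (nat_lit 76) (nat_lit 1951773022) (nat_lit 78) (nat_lit 5) (nat_lit 82) (nat_lit 5) (nat_lit 79) (nat_lit 5) (nat_lit 397) (nat_lit 380) (nat_lit 243))))) (XT.nd (nat_lit 234) (nat_lit 836) (nat_lit 0) (XT.nd (nat_lit 78) (nat_lit 456) (nat_lit 0) (XT.lf (nat_lit 0) (nat_lit 22902440415) (nat_lit 304) (nat_lit 51914217209) (nat_lit 76) (nat_lit 117356605384) (nat_lit 74) (nat_lit 5) (nat_lit 78) (nat_lit 5) (nat_lit 75) (nat_lit 5) (nat_lit 398) (nat_lit 380) (nat_lit 242)) (XT.nd (nat_lit 78) (nat_lit 228) (nat_lit 0) (XT.lf (nat_lit 0) (nat_lit 82853735387) (nat_lit 304) (nat_lit 76680354495) (nat_lit 76) (nat_lit 42011518807) (nat_lit 71) (nat_lit 5) (nat_lit 75) (nat_lit 5) (nat_lit 72) (nat_lit 5) (nat_lit 399) (nat_lit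 380) (nat_lit 241)) (XT.lf (nat_lit 0) (nat_lit 108204611847) (nat_lit 228) (nat_lit 43266144324) (nat_lit 304) (nat_lit 60003504894) (nat_lit 68) (nat_lit 5) (nat_lit 71) (nat_lit 5) (nat_lit 72) (nat_lit 5) (nat_lit 400) (nat_lit 380) (nat_lit 240)))) (XT.nd (nat_lit 156) (nat_lit 380) (nat_lit 0) (XT.nd (nat_lit 78) (nat_lit 228) (nat_lit 0) (XT.lf (nat_lit 0) (nat_lit 7386445743) (nat_lit 228) (nat_lit 132050661468) (nat_lit 76) (nat_lit 82551725457) (nat_lit 65) (nat_lit 5) (nat_lit 68) (nat_lit 5) (nat_lit 66) (nat_lit 5) (nat_lit 401) (nat_lit 380) (nat_lit 239)) (XT.lf (nat_lit 0) (nat_lit 69488359934) (nat_lit 228) (nat_lit 12247538870) (nat_lit 304) (nat_lit 151375961273) (nat_lit 62) (nat_lit 5) (nat_lit 65) (nat_lit 5) (nat_lit 66) (nat_lit 5) (nat_lit 402) (nat_lit 380) (nat_lit 238))) (XT.nd (nat_lit 78) (nat_lit 228) (nat_lit 0) (XT.lf (nat_lit 0) (nat_lit 46347953278) (nat_lit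 152) (nat_lit 120699967182) (nat_lit 228) (nat_lit 77826078718) (nat_lit 60) (nat_lit 5) (nat_lit 62) (nat_lit 5) (nat_lit 63) (nat_lit 5) (nat_lit 403) (nat_lit 380) (nat_lit 237)) (XT.lf (nat_lit 0) (nat_lit 5266694839) (nat_lit 228) (nat_lit 235719114513) (nat_lit 76) (nat_lit 16404527052) (nat_lit 57) (nat_lit 5) (nat_lit 60) (nat_lit 5) (nat_lit 58) (nat_lit 5) (nat_lit 404) (nat_lit 380) (nat_lit 236)))))) (XT.nd (nat_lit 468) (nat_lit 836) (nat_lit 0) (XT.nd (nat_lit 234) (nat_lit 456) (nat_lit 0) (XT.nd (nat_lit 78) (nat_lit 380) (nat_lit 0) (XT.lf (nat_lit 0) (nat_lit 97866448972) (nat_lit 228) (nat_lit 7566280738) (nat_lit 76) (nat_lit 165132148856) (nat_lit 57) (nat_lit 5) (nat_lit 60) (nat_lit 5) (nat_lit 58) (nat_lit 5) (nat_lit 405) (nat_lit 380) (nat_lit 235)) (XT.nd (nat_lit 78) (nat_lit 228) (nat_lit 0) (XT.lf (nat_lit 0) (nat_lit 202428803414) (nat_lit 228) (nat_lit 38568194448)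 (nat_lit 76) (nat_lit 43568655329) (nat_lit 55) (nat_lit 5) (nat_lit 58) (nat_lit 5) (nat_lit 56) (nat_lit 5) (nat_lit 406) (nat_lit 380) (nat_lit 234)) (XT.lf (nat_lit 0) (nat_lit 20695423003) (nat_lit 228) (nat_lit 73862508375) (nat_lit 76) (nat_lit 204839961448) (nat_lit 52) (nat_lit 5) (nat_lit 55) (nat_lit 5) (nat_lit 53) (nat_lit 5) (nat_lit 407) (nat_lit 380) (nat_lit 233)))) (XT.nd (nat_lit 78) (nat_lit 304) (nat_lit 0) (XT.lf (nat_lit 0) (nat_lit 133827129148) (nat_lit 228) (nat_lit 114409721974) (nat_lit 76) (nat_lit 66865008961) (nat_lit 50) (nat_lit 5) (nat_lit 53) (nat_lit 5) (nat_lit 51) (nat_lit 5) (nat_lit 408) (nat_lit 380) (nat_lit 232)) (XT.nd (nat_lit 78) (nat_lit 152) (nat_lit 0) (XT.lf (nat_lit 0) (nat_lit 171731413976) (nat_lit 152) (nat_lit 89861021411) (nat_lit 228) (nat_lit 70190556219) (nat_lit 48) (nat_lit 5) (nat_lit 50) (nat_lit 5) (nat_lit 51) (nat_lit 5) (nat_lit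 409) (nat_lit 380) (nat_lit 231)) (XT.lf (nat_lit 0) (nat_lit 53728164424) (nat_lit 152) (nat_lit 212117211441) (nat_lit 76) (nat_lit 83637322598) (nat_lit 46) (nat_lit 5) (nat_lit 48) (nat_lit 5) (nat_lit 47) (nat_lit 5) (nat_lit 410) (nat_lit 380) (nat_lit 230))))) (XT.nd (nat_lit 234) (nat_lit 532) (nat_lit 0) (XT.nd (nat_lit 78) (nat_lit 152) (nat_lit 0) (XT.lf (nat_lit 0) (nat_lit 96165268712) (nat_lit 152) (nat_lit 94818911529) (nat_lit 228) (nat_lit 177262521804) (nat_lit 44) (nat_lit 5) (nat_lit 46) (nat_lit 5) (nat_lit 47) (nat_lit 5) (nat_lit 411) (nat_lit 380) (nat_lit 229)) (XT.nd (nat_lit 78) (nat_lit 76) (nat_lit 0) (XT.lf (nat_lit 0) (nat_lit 48443944228) (nat_lit 76) (nat_lit 296691762574) (nat_lit 152) (nat_lit 43080367687) (nat_lit 43) (nat_lit 5) (nat_lit 44) (nat_lit 5) (nat_lit 45) (nat_lit 4) (nat_lit 412) (nat_lit 380) (nat_lit 228)) (XT.lf (nat_lit 0) (nat_lit 104992703455)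 (nat_lit 152) (nat_lit 8485653778) (nat_lit 76) (nat_lit 295904354782) (nat_lit 42) (nat_lit 5) (nat_lit 44) (nat_lit 5) (nat_lit 43) (nat_lit 5) (nat_lit 413) (nat_lit 380) (nat_lit 227)))) (XT.nd (nat_lit 156) (nat_lit 228) (nat_lit 0) (XT.nd (nat_lit 78) (nat_lit 152) (nat_lit 0) (XT.lf (nat_lit 0) (nat_lit 270466114284) (nat_lit 228) (nat_lit 73244500055) (nat_lit 76) (nat_lit 88143563458) (nat_lit 40) (nat_lit 5) (nat_lit 43) (nat_lit 5) (nat_lit 41) (nat_lit 4) (nat_lit 414) (nat_lit 380) (nat_lit 226)) (XT.lf (nat_lit 0) (nat_lit 248122632) (nat_lit 152) (nat_lit 148609483417) (nat_lit 76) (nat_lit 306922588560) (nat_lit 38) (nat_lit 5) (nat_lit 40) (nat_lit 5) (nat_lit 39) (nat_lit 5) (nat_lit 415) (nat_lit 380) (nat_lit 225))) (XT.nd (nat_lit 78) (nat_lit 76) (nat_lit 0) (XT.lf (nat_lit 0) (nat_lit 175434824815) (nat_lit 228) (nat_lit 238168773236) (nat_lit 76) (nat_lit 67570715815)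 (nat_lit 36) (nat_lit 5) (nat_lit 39) (nat_lit 5) (nat_lit 37) (nat_lit 4) (nat_lit 416) (nat_lit 380) (nat_lit 224)) (XT.lf (nat_lit 0) (nat_lit 165531227043) (nat_lit 76) (nat_lit 206830559115) (nat_lit 152) (nat_lit 135851910385) (nat_lit 35) (nat_lit 5) (nat_lit 36) (nat_lit 5) (nat_lit 37) (nat_lit 4) (nat_lit 417) (nat_lit 380) (nat_lit 223))))))) (XT.nd (nat_lit 1014) (nat_lit 152) (nat_lit 0) (XT.nd (nat_lit 468) (nat_lit 532) (nat_lit 0) (XT.nd (nat_lit 234) (nat_lit 304) (nat_lit 0) (XT.nd (nat_lit 78) (nat_lit 76) (nat_lit 0) (XT.lf (nat_lit 0) (nat_lit 51838070863) (nat_lit 228) (nat_lit 463075464273) (nat_lit 76) (nat_lit 22178728066) (nat_lit 32) (nat_lit 5) (nat_lit 35) (nat_lit 5) (nat_lit 33) (nat_lit 4) (nat_lit 418) (nat_lit 380) (nat_lit 222)) (XT.nd (nat_lit 78) (nat_lit 76) (nat_lit 0) (XT.lf (nat_lit 0) (nat_lit 259401798691) (nat_lit 228) (nat_lit 37570043072) (nat_lit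 76) (nat_lit 270717012569) (nat_lit 32) (nat_lit 5) (nat_lit 35) (nat_lit 5) (nat_lit 33) (nat_lit 4) (nat_lit 419) (nat_lit 380) (nat_lit 221)) (XT.lf (nat_lit 0) (nat_lit 435927881436) (nat_lit 76) (nat_lit 54448614326) (nat_lit 152) (nat_lit 110016383463) (nat_lit 31) (nat_lit 5) (nat_lit 32) (nat_lit 5) (nat_lit 33) (nat_lit 4) (nat_lit 420) (nat_lit 380) (nat_lit 220)))) (XT.nd (nat_lit 78) (nat_lit 152) (nat_lit 0) (XT.lf (nat_lit 0) (nat_lit 109829189678) (nat_lit 152) (nat_lit 317082660414) (nat_lit 76) (nat_lit 208267818577) (nat_lit 29) (nat_lit 5) (nat_lit 31) (nat_lit 5) (nat_lit 30) (nat_lit 4) (nat_lit 421) (nat_lit 380) (nat_lit 219)) (XT.nd (nat_lit 78) (nat_lit 76) (nat_lit 0) (XT.lf (nat_lit 0) (nat_lit 175321726358) (nat_lit 76) (nat_lit 174704806607) (nat_lit 152) (nat_lit 322301762836) (nat_lit 28) (nat_lit 5) (nat_lit 29) (nat_lit 5) (nat_lit 30) (nat_lit 4) (nat_lit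 422) (nat_lit 380) (nat_lit 218)) (XT.lf (nat_lit 0) (nat_lit 4806676638) (nat_lit 76) (nat_lit 611846827385) (nat_lit 76) (nat_lit 95434617081) (nat_lit 27) (nat_lit 4) (nat_lit 28) (nat_lit 5) (nat_lit 28) (nat_lit 4) (nat_lit 423) (nat_lit 380) (nat_lit 217))))) (XT.nd (nat_lit 234) (nat_lit 304) (nat_lit 0) (XT.nd (nat_lit 78) (nat_lit 152) (nat_lit 0) (XT.lf (nat_lit 0) (nat_lit 156539485411) (nat_lit 152) (nat_lit 195506401539) (nat_lit 76) (nat_lit 402278818863) (nat_lit 26) (nat_lit 5) (nat_lit 28) (nat_lit 5) (nat_lit 27) (nat_lit 4) (nat_lit 424) (nat_lit 380) (nat_lit 216)) (XT.nd (nat_lit 78) (nat_lit 76) (nat_lit 0) (XT.lf (nat_lit 0) (nat_lit 367358935150) (nat_lit 76) (nat_lit 63749068760) (nat_lit 152) (nat_lit 368464985712) (nat_lit 25) (nat_lit 5) (nat_lit 26) (nat_lit 5) (nat_lit 27) (nat_lit 4) (nat_lit 425) (nat_lit 380) (nat_lit 215)) (XT.lf (nat_lit 0) (nat_lit 134341872582)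 (nat_lit 76) (nat_lit 602724772769) (nat_lit 76) (nat_lit 110903258724) (nat_lit 24) (nat_lit 4) (nat_lit 25) (nat_lit 5) (nat_lit 25) (nat_lit 4) (nat_lit 426) (nat_lit 380) (nat_lit 214)))) (XT.nd (nat_lit 156) (nat_lit 152) (nat_lit 0) (XT.nd (nat_lit 78) (nat_lit 76) (nat_lit 0) (XT.lf (nat_lit 0) (nat_lit 170637031473) (nat_lit 152) (nat_lit 142015702594) (nat_lit 76) (nat_lit 587018910170) (nat_lit 23) (nat_lit 5) (nat_lit 25) (nat_lit 5) (nat_lit 24) (nat_lit 4) (nat_lit 427) (nat_lit 380) (nat_lit 213)) (XT.lf (nat_lit 0) (nat_lit 478668825387) (nat_lit 152) (nat_lit 466089910015) (nat_lit 0) (nat_lit 10267194388) (nat_lit 22) (nat_lit 5) (nat_lit 24) (nat_lit 4) (nat_lit 22) (nat_lit 4) (nat_lit 428) (nat_lit 380) (nat_lit 212))) (XT.nd (nat_lit 78) (nat_lit 76) (nat_lit 0) (XT.lf (nat_lit 0) (nat_lit 160577121603) (nat_lit 76) (nat_lit 661059245762) (nat_lit 76) (nat_lit 192657530605)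 (nat_lit 21) (nat_lit 4) (nat_lit 22) (nat_lit 5) (nat_lit 22) (nat_lit 4) (nat_lit 429) (nat_lit 380) (nat_lit 211)) (XT.lf (nat_lit 0) (nat_lit 118349642953) (nat_lit 152) (nat_lit 225785025027) (nat_lit 76) (nat_lit 733667249157) (nat_lit 20) (nat_lit 5) (nat_lit 22) (nat_lit 5) (nat_lit 21) (nat_lit 4) (nat_lit 430) (nat_lit 380) (nat_lit 210)))))) (XT.nd (nat_lit 49530) (nat_lit 0) (nat_lit 6384) (XT.nd (nat_lit 49218) (nat_lit 0) (nat_lit 7600) (XT.nd (nat_lit 78) (nat_lit 76) (nat_lit 0) (XT.lf (nat_lit 0) (nat_lit 454964834361) (nat_lit 152) (nat_lit 682026146353) (nat_lit 0) (nat_lit 8867819853) (nat_lit 19) (nat_lit 5) (nat_lit 21) (nat_lit 4) (nat_lit 19) (nat_lit 4) (nat_lit 431) (nat_lit 380) (nat_lit 209)) (XT.nd (nat_lit 78) (nat_lit 76) (nat_lit 0) (XT.lf (nat_lit 0) (nat_lit 828309375028) (nat_lit 152) (nat_lit 8348556061) (nat_lit 0) (nat_lit 382212296894) (nat_lit 19) (nat_lit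 5) (nat_lit 21) (nat_lit 4) (nat_lit 19) (nat_lit 4) (nat_lit 432) (nat_lit 380) (nat_lit 208)) (XT.lf (nat_lit 0) (nat_lit 743003803266) (nat_lit 76) (nat_lit 500117944959) (nat_lit 76) (nat_lit 54020807912) (nat_lit 18) (nat_lit 4) (nat_lit 19) (nat_lit 5) (nat_lit 19) (nat_lit 4) (nat_lit 433) (nat_lit 380) (nat_lit 207)))) (XT.nd (nat_lit 156) (nat_lit 0) (nat_lit 76) (XT.nd (nat_lit 78) (nat_lit 0) (nat_lit 76) (XT.lf (nat_lit 0) (nat_lit 13324119444) (nat_lit 836) (nat_lit 17193446484) (nat_lit 836) (nat_lit 17193446484) (nat_lit 118) (nat_lit 3) (nat_lit 129) (nat_lit 3) (nat_lit 129) (nat_lit 5) (nat_lit 381) (nat_lit 381) (nat_lit 258)) (XT.lf (nat_lit 0) (nat_lit 28565839790) (nat_lit 760) (nat_lit 58299608048) (nat_lit 836) (nat_lit 12330868392) (nat_lit 119) (nat_lit 5) (nat_lit 129) (nat_lit 5) (nat_lit 130) (nat_lit 5) (nat_lit 382) (nat_lit 381) (nat_lit 257))) (XT.nd (nat_lit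 78) (nat_lit 0) (nat_lit 76) (XT.lf (nat_lit 76) (nat_lit 19781838003) (nat_lit 0) (nat_lit 12800738400) (nat_lit 836) (nat_lit 70592688760) (nat_lit 120) (nat_lit 5) (nat_lit 119) (nat_lit 5) (nat_lit 130) (nat_lit 5) (nat_lit 383) (nat_lit 381) (nat_lit 256)) (XT.lf (nat_lit 0) (nat_lit 39000827447) (nat_lit 760) (nat_lit 2296443800) (nat_lit 836) (nat_lit 66071250549) (nat_lit 120) (nat_lit 5) (nat_lit 130) (nat_lit 5) (nat_lit 131) (nat_lit 5) (nat_lit 384) (nat_lit 381) (nat_lit 255))))) (XT.nd (nat_lit 234) (nat_lit 1444) (nat_lit 0) (XT.nd (nat_lit 78) (nat_lit 0) (nat_lit 76) (XT.lf (nat_lit 0) (nat_lit 48149771737) (nat_lit 760) (nat_lit 24563428673) (nat_lit 836) (nat_lit 39073177409) (nat_lit 121) (nat_lit 5) (nat_lit 131) (nat_lit 5) (nat_lit 132) (nat_lit 5) (nat_lit 385) (nat_lit 381) (nat_lit 254)) (XT.nd (nat_lit 78) (nat_lit 0) (nat_lit 0) (XT.lf (nat_lit 0) (nat_lit 59985098501)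 (nat_lit 760) (nat_lit 47670001909) (nat_lit 836) (nat_lit 8804839044) (nat_lit 122) (nat_lit 5) (nat_lit 132) (nat_lit 5) (nat_lit 133) (nat_lit 5) (nat_lit 386) (nat_lit 381) (nat_lit 253)) (XT.lf (nat_lit 76) (nat_lit 49348420984) (nat_lit 0) (nat_lit 25849442928) (nat_lit 836) (nat_lit 46187991925) (nat_lit 123) (nat_lit 5) (nat_lit 122) (nat_lit 5) (nat_lit 133) (nat_lit 5) (nat_lit 387) (nat_lit 381) (nat_lit 252)))) (XT.nd (nat_lit 156) (nat_lit 456) (nat_lit 0) (XT.nd (nat_lit 78) (nat_lit 380) (nat_lit 0) (XT.lf (nat_lit 0) (nat_lit 29107789657) (nat_lit 760) (nat_lit 64793346592) (nat_lit 836) (nat_lit 32691035408) (nat_lit 113) (nat_lit 5) (nat_lit 123) (nat_lit 5) (nat_lit 124) (nat_lit 5) (nat_lit 388) (nat_lit 381) (nat_lit 251)) (XT.lf (nat_lit 0) (nat_lit 8212777457) (nat_lit 380) (nat_lit 108084439049) (nat_lit 456) (nat_lit 15807949309) (nat_lit 108) (nat_lit 5) (nat_lit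 113) (nat_lit 5) (nat_lit 114) (nat_lit 5) (nat_lit 389) (nat_lit 381) (nat_lit 250))) (XT.nd (nat_lit 78) (nat_lit 380) (nat_lit 0) (XT.lf (nat_lit 0) (nat_lit 5165937799) (nat_lit 456) (nat_lit 13286383943) (nat_lit 76) (nat_lit 119464094718) (nat_lit 107) (nat_lit 5) (nat_lit 113) (nat_lit 5) (nat_lit 108) (nat_lit 5) (nat_lit 390) (nat_lit 381) (nat_lit 249)) (XT.lf (nat_lit 0) (nat_lit 30234384027) (nat_lit 456) (nat_lit 35947034687) (nat_lit 76) (nat_lit 77849667333) (nat_lit 102) (nat_lit 5) (nat_lit 108) (nat_lit 5) (nat_lit 103) (nat_lit 5) (nat_lit 391) (nat_lit 381) (nat_lit 248))))))))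
noncomputable def xc106 : XT := (XT.nd (nat_lit 2028) (nat_lit 1292) (nat_lit 0) (XT.nd (nat_lit 1014) (nat_lit 1824) (nat_lit 0) (XT.nd (nat_lit 468) (nat_lit 1596) (nat_lit 0) (XT.nd (nat_lit 234) (nat_lit 608) (nat_lit 0) (XT.nd (nat_lit 78) (nat_lit 608) (nat_lit 0) (XT.lf (nat_lit 0) (nat_lit 59789754676) (nat_lit 456) (nat_lit 59408695974) (nat_lit 76) (nat_lit 31312406402) (nat_lit 97) (nat_lit 5) (nat_lit 103) (nat_lit 5) (nat_lit 98) (nat_lit 5) (nat_lit 392) (nat_lit 381) (nat_lit 247)) (XT.nd (nat_lit 78) (nat_lit 304) (nat_lit 0) (XT.lf (nat_lit 0) (nat_lit 73341797463) (nat_lit 304) (nat_lit 21264638199) (nat_lit 380) (nat_lit 62757730307) (nat_lit 93) (nat_lit 5) (nat_lit 97) (nat_lit 5) (nat_lit 98) (nat_lit 5) (nat_lit 393) (nat_lit 381) (nat_lit 246)) (XT.lf (nat_lit 0) (nat_lit 54528091563) (nat_lit 304) (nat_lit 80902326502) (nat_lit 380) (nat_lit 29174223432) (nat_lit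 89) (nat_lit 5) (nat_lit 93) (nat_lit 5) (nat_lit 94) (nat_lit 5) (nat_lit 394) (nat_lit 381) (nat_lit 245)))) (XT.nd (nat_lit 78) (nat_lit 304) (nat_lit 0) (XT.lf (nat_lit 0) (nat_lit 9676830361) (nat_lit 304) (nat_lit 137255114017) (nat_lit 76) (nat_lit 25346472436) (nat_lit 85) (nat_lit 5) (nat_lit 89) (nat_lit 5) (nat_lit 86) (nat_lit 5) (nat_lit 395) (nat_lit 381) (nat_lit 244)) (XT.nd (nat_lit 78) (nat_lit 0) (nat_lit 0) (XT.lf (nat_lit 0) (nat_lit 13743446713) (nat_lit 304) (nat_lit 40411205765) (nat_lit 380) (nat_lit 126210488248) (nat_lit 81) (nat_lit 5) (nat_lit 85) (nat_lit 5) (nat_lit 86) (nat_lit 5) (nat_lit 396) (nat_lit 381) (nat_lit 243)) (XT.lf (nat_lit 0) (nat_lit 105785528686) (nat_lit 380) (nat_lit 8461045421) (nat_lit 76) (nat_lit 74672487213) (nat_lit 81) (nat_lit 5) (nat_lit 86) (nat_lit 5) (nat_lit 82) (nat_lit 5) (nat_lit 397) (nat_lit 381) (nat_lit 242))))) (XT.nd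 (nat_lit 234) (nat_lit 836) (nat_lit 0) (XT.nd (nat_lit 78) (nat_lit 532) (nat_lit 0) (XT.lf (nat_lit 0) (nat_lit 164869485300) (nat_lit 304) (nat_lit 31010881162) (nat_lit 76) (nat_lit 2110798756) (nat_lit 78) (nat_lit 5) (nat_lit 82) (nat_lit 5) (nat_lit 79) (nat_lit 5) (nat_lit 398) (nat_lit 381) (nat_lit 241)) (XT.nd (nat_lit 78) (nat_lit 228) (nat_lit 0) (XT.lf (nat_lit 0) (nat_lit 24742926279) (nat_lit 304) (nat_lit 56055664277) (nat_lit 76) (nat_lit 126748115998) (nat_lit 74) (nat_lit 5) (nat_lit 78) (nat_lit 5) (nat_lit 75) (nat_lit 5) (nat_lit 399) (nat_lit 381) (nat_lit 240)) (XT.lf (nat_lit 0) (nat_lit 89489937323) (nat_lit 304) (nat_lit 82803257301) (nat_lit 76) (nat_lit 45375664860) (nat_lit 71) (nat_lit 5) (nat_lit 75) (nat_lit 5) (nat_lit 72) (nat_lit 5) (nat_lit 400) (nat_lit 381) (nat_lit 239)))) (XT.nd (nat_lit 156) (nat_lit 380) (nat_lit 0) (XT.nd (nat_lit 78) (nat_lit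 228) (nat_lit 0) (XT.lf (nat_lit 0) (nat_lit 116872005462) (nat_lit 228) (nat_lit 46723901018) (nat_lit 304) (nat_lit 64795918437) (nat_lit 68) (nat_lit 5) (nat_lit 71) (nat_lit 5) (nat_lit 72) (nat_lit 5) (nat_lit 401) (nat_lit 381) (nat_lit 238)) (XT.lf (nat_lit 0) (nat_lit 7984636553) (nat_lit 228) (nat_lit 142603618189) (nat_lit 76) (nat_lit 89159318541) (nat_lit 65) (nat_lit 5) (nat_lit 68) (nat_lit 5) (nat_lit 66) (nat_lit 5) (nat_lit 402) (nat_lit 381) (nat_lit 237))) (XT.nd (nat_lit 78) (nat_lit 152) (nat_lit 0) (XT.lf (nat_lit 0) (nat_lit 75058042698) (nat_lit 228) (nat_lit 13223629975) (nat_lit 304) (nat_lit 163478789038) (nat_lit 62) (nat_lit 5) (nat_lit 65) (nat_lit 5) (nat_lit 66) (nat_lit 5) (nat_lit 403) (nat_lit 381) (nat_lit 236)) (XT.lf (nat_lit 0) (nat_lit 50066218888) (nat_lit 152) (nat_lit 130352142409) (nat_lit 228) (nat_lit 84045225533) (nat_lit 60) (nat_lit 5) (nat_lit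 62) (nat_lit 5) (nat_lit 63) (nat_lit 5) (nat_lit 404) (nat_lit 381) (nat_lit 235)))))) (XT.nd (nat_lit 468) (nat_lit 912) (nat_lit 0) (XT.nd (nat_lit 234) (nat_lit 532) (nat_lit 0) (XT.nd (nat_lit 78) (nat_lit 152) (nat_lit 0) (XT.lf (nat_lit 0) (nat_lit 5694468825) (nat_lit 228) (nat_lit 254566192235) (nat_lit 76) (nat_lit 17720578642) (nat_lit 57) (nat_lit 5) (nat_lit 60) (nat_lit 5) (nat_lit 58) (nat_lit 5) (nat_lit 405) (nat_lit 381) (nat_lit 234)) (XT.nd (nat_lit 78) (nat_lit 152) (nat_lit 0) (XT.lf (nat_lit 0) (nat_lit 105701726370) (nat_lit 228) (nat_lit 8161905939) (nat_lit 76) (nat_lit 178346136900) (nat_lit 57) (nat_lit 5) (nat_lit 60) (nat_lit 5) (nat_lit 58) (nat_lit 5) (nat_lit 406) (nat_lit 381) (nat_lit 233)) (XT.lf (nat_lit 0) (nat_lit 218628828184) (nat_lit 228) (nat_lit 41644164719) (nat_lit 76) (nat_lit 47057625064) (nat_lit 55) (nat_lit 5) (nat_lit 58) (nat_lit 5) (nat_lit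 56) (nat_lit 5) (nat_lit 407) (nat_lit 381) (nat_lit 232)))) (XT.nd (nat_lit 78) (nat_lit 304) (nat_lit 0) (XT.lf (nat_lit 0) (nat_lit 22356585712) (nat_lit 228) (nat_lit 79762251889) (nat_lit 76) (nat_lit 221230608926) (nat_lit 52) (nat_lit 5) (nat_lit 55) (nat_lit 5) (nat_lit 53) (nat_lit 5) (nat_lit 408) (nat_lit 381) (nat_lit 231)) (XT.nd (nat_lit 78) (nat_lit 152) (nat_lit 0) (XT.lf (nat_lit 0) (nat_lit 144538613216) (nat_lit 228) (nat_lit 123553436979) (nat_lit 76) (nat_lit 72217691821) (nat_lit 50) (nat_lit 5) (nat_lit 53) (nat_lit 5) (nat_lit 51) (nat_lit 5) (nat_lit 409) (nat_lit 381) (nat_lit 230)) (XT.lf (nat_lit 0) (nat_lit 185478595990) (nat_lit 152) (nat_lit 97046289700) (nat_lit 228) (nat_lit 75800491373) (nat_lit 48) (nat_lit 5) (nat_lit 50) (nat_lit 5) (nat_lit 51) (nat_lit 5) (nat_lit 410) (nat_lit 381) (nat_lit 229))))) (XT.nd (nat_lit 234) (nat_lit 532) (nat_lit 0) (XT.nd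 (nat_lit 78) (nat_lit 228) (nat_lit 0) (XT.lf (nat_lit 0) (nat_lit 58031363969) (nat_lit 152) (nat_lit 229077942806) (nat_lit 76) (nat_lit 90331759278) (nat_lit 46) (nat_lit 5) (nat_lit 48) (nat_lit 5) (nat_lit 47) (nat_lit 5) (nat_lit 411) (nat_lit 381) (nat_lit 228)) (XT.nd (nat_lit 78) (nat_lit 76) (nat_lit 0) (XT.lf (nat_lit 0) (nat_lit 103866760034) (nat_lit 152) (nat_lit 102400863733) (nat_lit 228) (nat_lit 191438578089) (nat_lit 44) (nat_lit 5) (nat_lit 46) (nat_lit 5) (nat_lit 47) (nat_lit 5) (nat_lit 412) (nat_lit 381) (nat_lit 227)) (XT.lf (nat_lit 0) (nat_lit 52327543099) (nat_lit 76) (nat_lit 320423558210) (nat_lit 152) (nat_lit 46522031411) (nat_lit 43) (nat_lit 5) (nat_lit 44) (nat_lit 5) (nat_lit 45) (nat_lit 4) (nat_lit 413) (nat_lit 381) (nat_lit 226)))) (XT.nd (nat_lit 156) (nat_lit 304) (nat_lit 0) (XT.nd (nat_lit 78) (nat_lit 152) (nat_lit 0) (XT.lf (nat_lit 0) (nat_lit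 113396391175) (nat_lit 152) (nat_lit 9156879547) (nat_lit 76) (nat_lit 319579843950) (nat_lit 42) (nat_lit 5) (nat_lit 44) (nat_lit 5) (nat_lit 43) (nat_lit 5) (nat_lit 414) (nat_lit 381) (nat_lit 225)) (XT.lf (nat_lit 0) (nat_lit 292107522733) (nat_lit 228) (nat_lit 79096611211) (nat_lit 76) (nat_lit 95198171434) (nat_lit 40) (nat_lit 5) (nat_lit 43) (nat_lit 5) (nat_lit 41) (nat_lit 4) (nat_lit 415) (nat_lit 381) (nat_lit 224))) (XT.nd (nat_lit 78) (nat_lit 152) (nat_lit 0) (XT.lf (nat_lit 0) (nat_lit 271962817) (nat_lit 152) (nat_lit 160490984422) (nat_lit 76) (nat_lit 331479462822) (nat_lit 38) (nat_lit 5) (nat_lit 40) (nat_lit 5) (nat_lit 39) (nat_lit 5) (nat_lit 416) (nat_lit 381) (nat_lit 223)) (XT.lf (nat_lit 0) (nat_lit 189473462989) (nat_lit 228) (nat_lit 257215191133) (nat_lit 76) (nat_lit 72979411689) (nat_lit 36) (nat_lit 5) (nat_lit 39) (nat_lit 5) (nat_lit 37) (nat_lit 4) (nat_lit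 417) (nat_lit 381) (nat_lit 222))))))) (XT.nd (nat_lit 1014) (nat_lit 152) (nat_lit 0) (XT.nd (nat_lit 468) (nat_lit 532) (nat_lit 0) (XT.nd (nat_lit 234) (nat_lit 304) (nat_lit 0) (XT.nd (nat_lit 78) (nat_lit 228) (nat_lit 0) (XT.lf (nat_lit 0) (nat_lit 178780501308) (nat_lit 76) (nat_lit 223373900378) (nat_lit 152) (nat_lit 146716206435) (nat_lit 35) (nat_lit 5) (nat_lit 36) (nat_lit 5) (nat_lit 37) (nat_lit 4) (nat_lit 418) (nat_lit 381) (nat_lit 221)) (XT.nd (nat_lit 78) (nat_lit 0) (nat_lit 0) (XT.lf (nat_lit 0) (nat_lit 55988723843) (nat_lit 228) (nat_lit 500114770275) (nat_lit 76) (nat_lit 23955969324) (nat_lit 32) (nat_lit 5) (nat_lit 35) (nat_lit 5) (nat_lit 33) (nat_lit 4) (nat_lit 419) (nat_lit 381) (nat_lit 220)) (XT.lf (nat_lit 0) (nat_lit 280157282689) (nat_lit 228) (nat_lit 40569413980) (nat_lit 76) (nat_lit 292377098586) (nat_lit 32) (nat_lit 5) (nat_lit 35) (nat_lit 5) (nat_lit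 33) (nat_lit 4) (nat_lit 420) (nat_lit 381) (nat_lit 219)))) (XT.nd (nat_lit 78) (nat_lit 228) (nat_lit 0) (XT.lf (nat_lit 0) (nat_lit 470808073630) (nat_lit 76) (nat_lit 58801727559) (nat_lit 152) (nat_lit 118814348698) (nat_lit 31) (nat_lit 5) (nat_lit 32) (nat_lit 5) (nat_lit 33) (nat_lit 4) (nat_lit 421) (nat_lit 381) (nat_lit 218)) (XT.nd (nat_lit 78) (nat_lit 76) (nat_lit 0) (XT.lf (nat_lit 0) (nat_lit 118618656386) (nat_lit 152) (nat_lit 342443355491) (nat_lit 76) (nat_lit 224931873367) (nat_lit 29) (nat_lit 5) (nat_lit 31) (nat_lit 5) (nat_lit 30) (nat_lit 4) (nat_lit 422) (nat_lit 381) (nat_lit 217)) (XT.lf (nat_lit 0) (nat_lit 189353125044) (nat_lit 76) (nat_lit 188678518504) (nat_lit 152) (nat_lit 348082766203) (nat_lit 28) (nat_lit 5) (nat_lit 29) (nat_lit 5) (nat_lit 30) (nat_lit 4) (nat_lit 423) (nat_lit 381) (nat_lit 216))))) (XT.nd (nat_lit 234) (nat_lit 304) (nat_lit 0) (XT.nd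 (nat_lit 78) (nat_lit 152) (nat_lit 0) (XT.lf (nat_lit 0) (nat_lit 5196728639) (nat_lit 76) (nat_lit 660791947109) (nat_lit 76) (nat_lit 103066350182) (nat_lit 27) (nat_lit 4) (nat_lit 28) (nat_lit 5) (nat_lit 28) (nat_lit 4) (nat_lit 424) (nat_lit 381) (nat_lit 215)) (XT.nd (nat_lit 78) (nat_lit 76) (nat_lit 0) (XT.lf (nat_lit 0) (nat_lit 169065365620) (nat_lit 152) (nat_lit 211141714285) (nat_lit 76) (nat_lit 434463466046) (nat_lit 26) (nat_lit 5) (nat_lit 28) (nat_lit 5) (nat_lit 27) (nat_lit 4) (nat_lit 425) (nat_lit 381) (nat_lit 214)) (XT.lf (nat_lit 0) (nat_lit 396752623381) (nat_lit 76) (nat_lit 68846618283) (nat_lit 152) (nat_lit 397939457016) (nat_lit 25) (nat_lit 5) (nat_lit 26) (nat_lit 5) (nat_lit 27) (nat_lit 4) (nat_lit 426) (nat_lit 381) (nat_lit 213)))) (XT.nd (nat_lit 156) (nat_lit 152) (nat_lit 0) (XT.nd (nat_lit 78) (nat_lit 76) (nat_lit 0) (XT.lf (nat_lit 0) (nat_lit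 145094068642) (nat_lit 76) (nat_lit 650940423387) (nat_lit 76) (nat_lit 119772878398) (nat_lit 24) (nat_lit 4) (nat_lit 25) (nat_lit 5) (nat_lit 25) (nat_lit 4) (nat_lit 427) (nat_lit 381) (nat_lit 212)) (XT.lf (nat_lit 0) (nat_lit 184290361115) (nat_lit 152) (nat_lit 153372393066) (nat_lit 76) (nat_lit 633982503043) (nat_lit 23) (nat_lit 5) (nat_lit 25) (nat_lit 5) (nat_lit 24) (nat_lit 4) (nat_lit 428) (nat_lit 381) (nat_lit 211))) (XT.nd (nat_lit 78) (nat_lit 76) (nat_lit 0) (XT.lf (nat_lit 0) (nat_lit 516964624288) (nat_lit 152) (nat_lit 503372655225) (nat_lit 0) (nat_lit 11090609836) (nat_lit 22) (nat_lit 5) (nat_lit 24) (nat_lit 4) (nat_lit 22) (nat_lit 4) (nat_lit 429) (nat_lit 381) (nat_lit 210)) (XT.lf (nat_lit 0) (nat_lit 173427545636) (nat_lit 76) (nat_lit 713941920568) (nat_lit 76) (nat_lit 208067833964) (nat_lit 21) (nat_lit 4) (nat_lit 22) (nat_lit 5) (nat_lit 22) (nat_lit 4)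 (nat_lit 430) (nat_lit 381) (nat_lit 209)))))) (XT.nd (nat_lit 49530) (nat_lit 0) (nat_lit 6688) (XT.nd (nat_lit 49296) (nat_lit 0) (nat_lit 7524) (XT.nd (nat_lit 78) (nat_lit 76) (nat_lit 0) (XT.lf (nat_lit 0) (nat_lit 127819675041) (nat_lit 152) (nat_lit 243843819576) (nat_lit 76) (nat_lit 792362472711) (nat_lit 20) (nat_lit 5) (nat_lit 22) (nat_lit 5) (nat_lit 21) (nat_lit 4) (nat_lit 431) (nat_lit 381) (nat_lit 208)) (XT.nd (nat_lit 78) (nat_lit 0) (nat_lit 0) (XT.lf (nat_lit 0) (nat_lit 491364018094) (nat_lit 152) (nat_lit 736584335362) (nat_lit 0) (nat_lit 9579051171) (nat_lit 19) (nat_lit 5) (nat_lit 21) (nat_lit 4) (nat_lit 19) (nat_lit 4) (nat_lit 432) (nat_lit 381) (nat_lit 207)) (XT.lf (nat_lit 0) (nat_lit 894575974090) (nat_lit 152) (nat_lit 9012826936) (nat_lit 0) (nat_lit 412790952617) (nat_lit 19) (nat_lit 5) (nat_lit 21) (nat_lit 4) (nat_lit 19) (nat_lit 4) (nat_lit 433) (nat_lit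 381) (nat_lit 206)))) (XT.nd (nat_lit 78) (nat_lit 0) (nat_lit 76) (XT.lf (nat_lit 0) (nat_lit 14400797853) (nat_lit 836) (nat_lit 18563276116) (nat_lit 836) (nat_lit 18563276116) (nat_lit 118) (nat_lit 3) (nat_lit 129) (nat_lit 3) (nat_lit 129) (nat_lit 5) (nat_lit 382) (nat_lit 382) (nat_lit 256)) (XT.nd (nat_lit 78) (nat_lit 0) (nat_lit 0) (XT.lf (nat_lit 0) (nat_lit 30871036127) (nat_lit 760) (nat_lit 62951615908) (nat_lit 836) (nat_lit 13308362148) (nat_lit 119) (nat_lit 5) (nat_lit 129) (nat_lit 5) (nat_lit 130) (nat_lit 5) (nat_lit 383) (nat_lit 382) (nat_lit 255)) (XT.lf (nat_lit 76) (nat_lit 21375826026) (nat_lit 0) (nat_lit 13831988036) (nat_lit 836) (nat_lit 76220530656) (nat_lit 120) (nat_lit 5) (nat_lit 119) (nat_lit 5) (nat_lit 130) (nat_lit 5) (nat_lit 384) (nat_lit 382) (nat_lit 254))))) (XT.nd (nat_lit 234) (nat_lit 988) (nat_lit 0) (XT.nd (nat_lit 78) (nat_lit 0) (nat_lit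 76) (XT.lf (nat_lit 0) (nat_lit 42138041126) (nat_lit 760) (nat_lit 2468589947) (nat_lit 836) (nat_lit 71350505759) (nat_lit 120) (nat_lit 5) (nat_lit 130) (nat_lit 5) (nat_lit 131) (nat_lit 5) (nat_lit 385) (nat_lit 382) (nat_lit 253)) (XT.nd (nat_lit 78) (nat_lit 0) (nat_lit 76) (XT.lf (nat_lit 0) (nat_lit 52017725748) (nat_lit 760) (nat_lit 26516547446) (nat_lit 836) (nat_lit 42194207592) (nat_lit 121) (nat_lit 5) (nat_lit 131) (nat_lit 5) (nat_lit 132) (nat_lit 5) (nat_lit 386) (nat_lit 382) (nat_lit 252)) (XT.lf (nat_lit 0) (nat_lit 64798818929) (nat_lit 760) (nat_lit 51471354587) (nat_lit 836) (nat_lit 9505807464) (nat_lit 122) (nat_lit 5) (nat_lit 132) (nat_lit 5) (nat_lit 133) (nat_lit 5) (nat_lit 387) (nat_lit 382) (nat_lit 251)))) (XT.nd (nat_lit 156) (nat_lit 456) (nat_lit 0) (XT.nd (nat_lit 78) (nat_lit 684) (nat_lit 0) (XT.lf (nat_lit 76) (nat_lit 53308009877) (nat_lit 0) (nat_lit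 27919673970) (nat_lit 836) (nat_lit 49868333506) (nat_lit 123) (nat_lit 5) (nat_lit 122) (nat_lit 5) (nat_lit 133) (nat_lit 5) (nat_lit 388) (nat_lit 382) (nat_lit 250)) (XT.lf (nat_lit 0) (nat_lit 31448329127) (nat_lit 760) (nat_lit 69978005636) (nat_lit 836) (nat_lit 35292548385) (nat_lit 113) (nat_lit 5) (nat_lit 123) (nat_lit 5) (nat_lit 124) (nat_lit 5) (nat_lit 389) (nat_lit 382) (nat_lit 249))) (XT.nd (nat_lit 78) (nat_lit 76) (nat_lit 0) (XT.lf (nat_lit 0) (nat_lit 8881849337) (nat_lit 380) (nat_lit 116731452078) (nat_lit 456) (nat_lit 17059655934) (nat_lit 108) (nat_lit 5) (nat_lit 113) (nat_lit 5) (nat_lit 114) (nat_lit 5) (nat_lit 390) (nat_lit 382) (nat_lit 248)) (XT.lf (nat_lit 0) (nat_lit 5590801250) (nat_lit 456) (nat_lit 14337748778) (nat_lit 76) (nat_lit 129020594727) (nat_lit 107) (nat_lit 5) (nat_lit 113) (nat_lit 5) (nat_lit 108) (nat_lit 5) (nat_lit 391) (nat_lit 382)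 (nat_lit 247))))))))
noncomputable def xc107 : XT := (XT.nd (nat_lit 2028) (nat_lit 1444) (nat_lit 0) (XT.nd (nat_lit 1014) (nat_lit 1824) (nat_lit 0) (XT.nd (nat_lit 468) (nat_lit 1444) (nat_lit 0) (XT.nd (nat_lit 234) (nat_lit 912) (nat_lit 0) (XT.nd (nat_lit 78) (nat_lit 684) (nat_lit 0) (XT.lf (nat_lit 0) (nat_lit 32664039415) (nat_lit 456) (nat_lit 38811205252) (nat_lit 76) (nat_lit 84077777843) (nat_lit 102) (nat_lit 5) (nat_lit 108) (nat_lit 5) (nat_lit 103) (nat_lit 5) (nat_lit 392) (nat_lit 382) (nat_lit 246)) (XT.nd (nat_lit 78) (nat_lit 304) (nat_lit 0) (XT.lf (nat_lit 0) (nat_lit 64583217861) (nat_lit 456) (nat_lit 64149797698) (nat_lit 76) (nat_lit 33818191113) (nat_lit 97) (nat_lit 5) (nat_lit 103) (nat_lit 5) (nat_lit 98) (nat_lit 5) (nat_lit 393) (nat_lit 382) (nat_lit 245)) (XT.lf (nat_lit 0) (nat_lit 79220231354) (nat_lit 304) (nat_lit 22964413430) (nat_lit 380) (nat_lit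 67768165302) (nat_lit 93) (nat_lit 5) (nat_lit 97) (nat_lit 5) (nat_lit 98) (nat_lit 5) (nat_lit 394) (nat_lit 382) (nat_lit 244)))) (XT.nd (nat_lit 78) (nat_lit 608) (nat_lit 0) (XT.lf (nat_lit 0) (nat_lit 58901394077) (nat_lit 304) (nat_lit 87372626389) (nat_lit 380) (nat_lit 31498529785) (nat_lit 89) (nat_lit 5) (nat_lit 93) (nat_lit 5) (nat_lit 94) (nat_lit 5) (nat_lit 395) (nat_lit 382) (nat_lit 243)) (XT.nd (nat_lit 78) (nat_lit 304) (nat_lit 0) (XT.lf (nat_lit 0) (nat_lit 10459811528) (nat_lit 304) (nat_lit 148224238354) (nat_lit 76) (nat_lit 27376194909) (nat_lit 85) (nat_lit 5) (nat_lit 89) (nat_lit 5) (nat_lit 86) (nat_lit 5) (nat_lit 396) (nat_lit 382) (nat_lit 242)) (XT.lf (nat_lit 0) (nat_lit 14853716812) (nat_lit 304) (nat_lit 43641656708) (nat_lit 380) (nat_lit 136298557659) (nat_lit 81) (nat_lit 5) (nat_lit 85) (nat_lit 5) (nat_lit 86) (nat_lit 5) (nat_lit 397) (nat_lit 382)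 (nat_lit 241))))) (XT.nd (nat_lit 234) (nat_lit 912) (nat_lit 0) (XT.nd (nat_lit 78) (nat_lit 532) (nat_lit 0) (XT.lf (nat_lit 0) (nat_lit 114256136745) (nat_lit 380) (nat_lit 9127579995) (nat_lit 76) (nat_lit 80648478085) (nat_lit 81) (nat_lit 5) (nat_lit 86) (nat_lit 5) (nat_lit 82) (nat_lit 5) (nat_lit 398) (nat_lit 382) (nat_lit 240)) (XT.nd (nat_lit 78) (nat_lit 304) (nat_lit 0) (XT.lf (nat_lit 0) (nat_lit 178066429081) (nat_lit 304) (nat_lit 33481522095) (nat_lit 76) (nat_lit 2282135129) (nat_lit 78) (nat_lit 5) (nat_lit 82) (nat_lit 5) (nat_lit 79) (nat_lit 5) (nat_lit 399) (nat_lit 382) (nat_lit 239)) (XT.lf (nat_lit 0) (nat_lit 26729468260) (nat_lit 304) (nat_lit 60530094863) (nat_lit 76) (nat_lit 136890522018) (nat_lit 74) (nat_lit 5) (nat_lit 78) (nat_lit 5) (nat_lit 75) (nat_lit 5) (nat_lit 400) (nat_lit 382) (nat_lit 238)))) (XT.nd (nat_lit 156) (nat_lit 456) (nat_lit 0) (XT.nd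 (nat_lit 78) (nat_lit 228) (nat_lit 0) (XT.lf (nat_lit 0) (nat_lit 96655907947) (nat_lit 304) (nat_lit 89417636580) (nat_lit 76) (nat_lit 49008482580) (nat_lit 71) (nat_lit 5) (nat_lit 75) (nat_lit 5) (nat_lit 72) (nat_lit 5) (nat_lit 401) (nat_lit 382) (nat_lit 237)) (XT.lf (nat_lit 0) (nat_lit 126231217775) (nat_lit 228) (nat_lit 50458782534) (nat_lit 304) (nat_lit 69972847358) (nat_lit 68) (nat_lit 5) (nat_lit 71) (nat_lit 5) (nat_lit 72) (nat_lit 5) (nat_lit 402) (nat_lit 382) (nat_lit 236))) (XT.nd (nat_lit 78) (nat_lit 228) (nat_lit 0) (XT.lf (nat_lit 0) (nat_lit 8629644745) (nat_lit 228) (nat_lit 154002394445) (nat_lit 76) (nat_lit 96295026170) (nat_lit 65) (nat_lit 5) (nat_lit 68) (nat_lit 5) (nat_lit 66) (nat_lit 5) (nat_lit 403) (nat_lit 382) (nat_lit 235)) (XT.lf (nat_lit 0) (nat_lit 81071785881) (nat_lit 228) (nat_lit 14278337927) (nat_lit 304) (nat_lit 176550877194) (nat_lit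 62) (nat_lit 5) (nat_lit 65) (nat_lit 5) (nat_lit 66) (nat_lit 5) (nat_lit 404) (nat_lit 382) (nat_lit 234)))))) (XT.nd (nat_lit 468) (nat_lit 912) (nat_lit 0) (XT.nd (nat_lit 234) (nat_lit 532) (nat_lit 0) (XT.nd (nat_lit 78) (nat_lit 228) (nat_lit 0) (XT.lf (nat_lit 0) (nat_lit 54080457885) (nat_lit 152) (nat_lit 140777036925) (nat_lit 228) (nat_lit 90762894088) (nat_lit 60) (nat_lit 5) (nat_lit 62) (nat_lit 5) (nat_lit 63) (nat_lit 5) (nat_lit 405) (nat_lit 382) (nat_lit 233)) (XT.nd (nat_lit 78) (nat_lit 0) (nat_lit 0) (XT.lf (nat_lit 0) (nat_lit 6155546220) (nat_lit 228) (nat_lit 274922527190) (nat_lit 76) (nat_lit 19141388022) (nat_lit 57) (nat_lit 5) (nat_lit 60) (nat_lit 5) (nat_lit 58) (nat_lit 5) (nat_lit 406) (nat_lit 382) (nat_lit 232)) (XT.lf (nat_lit 0) (nat_lit 114162975488) (nat_lit 228) (nat_lit 8806561725) (nat_lit 76) (nat_lit 192616756638) (nat_lit 57) (nat_lit 5) (nat_lit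 60) (nat_lit 5) (nat_lit 58) (nat_lit 5) (nat_lit 407) (nat_lit 382) (nat_lit 231)))) (XT.nd (nat_lit 78) (nat_lit 380) (nat_lit 0) (XT.lf (nat_lit 0) (nat_lit 236124038844) (nat_lit 228) (nat_lit 44967565794) (nat_lit 76) (nat_lit 50825216302) (nat_lit 55) (nat_lit 5) (nat_lit 58) (nat_lit 5) (nat_lit 56) (nat_lit 5) (nat_lit 408) (nat_lit 382) (nat_lit 230)) (XT.nd (nat_lit 78) (nat_lit 152) (nat_lit 0) (XT.lf (nat_lit 0) (nat_lit 24149852684) (nat_lit 228) (nat_lit 86135295521) (nat_lit 76) (nat_lit 238932015941) (nat_lit 52) (nat_lit 5) (nat_lit 55) (nat_lit 5) (nat_lit 53) (nat_lit 5) (nat_lit 409) (nat_lit 382) (nat_lit 229)) (XT.lf (nat_lit 0) (nat_lit 156106257945) (nat_lit 228) (nat_lit 133429942088) (nat_lit 76) (nat_lit 77998092544) (nat_lit 50) (nat_lit 5) (nat_lit 53) (nat_lit 5) (nat_lit 51) (nat_lit 5) (nat_lit 410) (nat_lit 382) (nat_lit 228))))) (XT.nd (nat_lit 234) (nat_lit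 456) (nat_lit 0) (XT.nd (nat_lit 78) (nat_lit 304) (nat_lit 0) (XT.lf (nat_lit 0) (nat_lit 200324315851) (nat_lit 152) (nat_lit 104806894946) (nat_lit 228) (nat_lit 81859978776) (nat_lit 48) (nat_lit 5) (nat_lit 50) (nat_lit 5) (nat_lit 51) (nat_lit 5) (nat_lit 411) (nat_lit 382) (nat_lit 227)) (XT.nd (nat_lit 78) (nat_lit 152) (nat_lit 0) (XT.lf (nat_lit 0) (nat_lit 62678113819) (nat_lit 152) (nat_lit 247396766065) (nat_lit 76) (nat_lit 97561258586) (nat_lit 46) (nat_lit 5) (nat_lit 48) (nat_lit 5) (nat_lit 47) (nat_lit 5) (nat_lit 412) (nat_lit 382) (nat_lit 226)) (XT.lf (nat_lit 0) (nat_lit 112183190879) (nat_lit 152) (nat_lit 110589880089) (nat_lit 228) (nat_lit 206749424403) (nat_lit 44) (nat_lit 5) (nat_lit 46) (nat_lit 5) (nat_lit 47) (nat_lit 5) (nat_lit 413) (nat_lit 382) (nat_lit 225)))) (XT.nd (nat_lit 156) (nat_lit 304) (nat_lit 0) (XT.nd (nat_lit 78) (nat_lit 76) (nat_lit 0)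 (XT.lf (nat_lit 0) (nat_lit 56520676702) (nat_lit 76) (nat_lit 346054403283) (nat_lit 152) (nat_lit 50239708112) (nat_lit 43) (nat_lit 5) (nat_lit 44) (nat_lit 5) (nat_lit 45) (nat_lit 4) (nat_lit 414) (nat_lit 382) (nat_lit 224)) (XT.lf (nat_lit 0) (nat_lit 122471764544) (nat_lit 152) (nat_lit 9882891389) (nat_lit 76) (nat_lit 345148924183) (nat_lit 42) (nat_lit 5) (nat_lit 44) (nat_lit 5) (nat_lit 43) (nat_lit 5) (nat_lit 415) (nat_lit 382) (nat_lit 223))) (XT.nd (nat_lit 78) (nat_lit 152) (nat_lit 0) (XT.lf (nat_lit 0) (nat_lit 315479656194) (nat_lit 228) (nat_lit 85417953921) (nat_lit 76) (nat_lit 102816702531) (nat_lit 40) (nat_lit 5) (nat_lit 43) (nat_lit 5) (nat_lit 41) (nat_lit 4) (nat_lit 416) (nat_lit 382) (nat_lit 222)) (XT.lf (nat_lit 0) (nat_lit 297140946) (nat_lit 152) (nat_lit 173324040895) (nat_lit 76) (nat_lit 358000449458) (nat_lit 38) (nat_lit 5) (nat_lit 40) (nat_lit 5)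 (nat_lit 39) (nat_lit 5) (nat_lit 417) (nat_lit 382) (nat_lit 221))))))) (XT.nd (nat_lit 1014) (nat_lit 228) (nat_lit 0) (XT.nd (nat_lit 468) (nat_lit 532) (nat_lit 0) (XT.nd (nat_lit 234) (nat_lit 228) (nat_lit 0) (XT.nd (nat_lit 78) (nat_lit 304) (nat_lit 0) (XT.lf (nat_lit 0) (nat_lit 204634642660) (nat_lit 228) (nat_lit 277786333069) (nat_lit 76) (nat_lit 78820369742) (nat_lit 36) (nat_lit 5) (nat_lit 39) (nat_lit 5) (nat_lit 37) (nat_lit 4) (nat_lit 418) (nat_lit 382) (nat_lit 220)) (XT.nd (nat_lit 78) (nat_lit 228) (nat_lit 0) (XT.lf (nat_lit 0) (nat_lit 193088750828) (nat_lit 76) (nat_lit 241241151687) (nat_lit 152) (nat_lit 158450196383) (nat_lit 35) (nat_lit 5) (nat_lit 36) (nat_lit 5) (nat_lit 37) (nat_lit 4) (nat_lit 419) (nat_lit 382) (nat_lit 219)) (XT.lf (nat_lit 0) (nat_lit 60470914438) (nat_lit 228) (nat_lit 540118181029) (nat_lit 76) (nat_lit 25874970028) (nat_lit 32) (nat_lit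 5) (nat_lit 35) (nat_lit 5) (nat_lit 33) (nat_lit 4) (nat_lit 420) (nat_lit 382) (nat_lit 218)))) (XT.nd (nat_lit 78) (nat_lit 228) (nat_lit 0) (XT.lf (nat_lit 0) (nat_lit 302572728904) (nat_lit 228) (nat_lit 43809623703) (nat_lit 76) (nat_lit 315769602731) (nat_lit 32) (nat_lit 5) (nat_lit 35) (nat_lit 5) (nat_lit 33) (nat_lit 4) (nat_lit 421) (nat_lit 382) (nat_lit 217)) (XT.nd (nat_lit 78) (nat_lit 152) (nat_lit 0) (XT.lf (nat_lit 0) (nat_lit 508477830699) (nat_lit 76) (nat_lit 63503485866) (nat_lit 152) (nat_lit 128316628417) (nat_lit 31) (nat_lit 5) (nat_lit 32) (nat_lit 5) (nat_lit 33) (nat_lit 4) (nat_lit 422) (nat_lit 382) (nat_lit 216)) (XT.lf (nat_lit 0) (nat_lit 128110833682) (nat_lit 152) (nat_lit 369833750408) (nat_lit 76) (nat_lit 242928677441) (nat_lit 29) (nat_lit 5) (nat_lit 31) (nat_lit 5) (nat_lit 30) (nat_lit 4) (nat_lit 423) (nat_lit 382) (nat_lit 215))))) (XT.nd (nat_lit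 234) (nat_lit 304) (nat_lit 0) (XT.nd (nat_lit 78) (nat_lit 152) (nat_lit 0) (XT.lf (nat_lit 0) (nat_lit 204506228080) (nat_lit 76) (nat_lit 203770508633) (nat_lit 152) (nat_lit 375926697462) (nat_lit 28) (nat_lit 5) (nat_lit 29) (nat_lit 5) (nat_lit 30) (nat_lit 4) (nat_lit 424) (nat_lit 382) (nat_lit 214)) (XT.nd (nat_lit 78) (nat_lit 76) (nat_lit 0) (XT.lf (nat_lit 0) (nat_lit 5617197613) (nat_lit 76) (nat_lit 713653051106) (nat_lit 76) (nat_lit 111309055089) (nat_lit 27) (nat_lit 4) (nat_lit 28) (nat_lit 5) (nat_lit 28) (nat_lit 4) (nat_lit 425) (nat_lit 382) (nat_lit 213)) (XT.lf (nat_lit 0) (nat_lit 182592928011) (nat_lit 152) (nat_lit 228028593799) (nat_lit 76) (nat_lit 469222550938) (nat_lit 26) (nat_lit 5) (nat_lit 28) (nat_lit 5) (nat_lit 27) (nat_lit 4) (nat_lit 426) (nat_lit 382) (nat_lit 212)))) (XT.nd (nat_lit 156) (nat_lit 152) (nat_lit 0) (XT.nd (nat_lit 78) (nat_lit 76) (nat_lit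 0) (XT.lf (nat_lit 0) (nat_lit 428497097156) (nat_lit 76) (nat_lit 74352310728) (nat_lit 152) (nat_lit 429772275141) (nat_lit 25) (nat_lit 5) (nat_lit 26) (nat_lit 5) (nat_lit 27) (nat_lit 4) (nat_lit 427) (nat_lit 382) (nat_lit 211)) (XT.lf (nat_lit 0) (nat_lit 156705749015) (nat_lit 76) (nat_lit 703013658626) (nat_lit 76) (nat_lit 129352444417) (nat_lit 24) (nat_lit 4) (nat_lit 25) (nat_lit 5) (nat_lit 25) (nat_lit 4) (nat_lit 428) (nat_lit 382) (nat_lit 210))) (XT.nd (nat_lit 78) (nat_lit 76) (nat_lit 0) (XT.lf (nat_lit 0) (nat_lit 199035619433) (nat_lit 152) (nat_lit 165638270130) (nat_lit 76) (nat_lit 684702886601) (nat_lit 23) (nat_lit 5) (nat_lit 25) (nat_lit 5) (nat_lit 24) (nat_lit 4) (nat_lit 429) (nat_lit 382) (nat_lit 209)) (XT.lf (nat_lit 0) (nat_lit 558323759998) (nat_lit 152) (nat_lit 543638654550) (nat_lit 0) (nat_lit 11979607506) (nat_lit 22) (nat_lit 5) (nat_lit 24) (nat_lit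 4) (nat_lit 22) (nat_lit 4) (nat_lit 430) (nat_lit 382) (nat_lit 208)))))) (XT.nd (nat_lit 49686) (nat_lit 0) (nat_lit 6308) (XT.nd (nat_lit 49374) (nat_lit 0) (nat_lit 7524) (XT.nd (nat_lit 78) (nat_lit 152) (nat_lit 0) (XT.lf (nat_lit 0) (nat_lit 187305396667) (nat_lit 76) (nat_lit 771055503933) (nat_lit 76) (nat_lit 224711289583) (nat_lit 21) (nat_lit 4) (nat_lit 22) (nat_lit 5) (nat_lit 22) (nat_lit 4) (nat_lit 431) (nat_lit 382) (nat_lit 207)) (XT.nd (nat_lit 78) (nat_lit 76) (nat_lit 0) (XT.lf (nat_lit 0) (nat_lit 138047015721) (nat_lit 152) (nat_lit 263347889397) (nat_lit 76) (nat_lit 855753051135) (nat_lit 20) (nat_lit 5) (nat_lit 22) (nat_lit 5) (nat_lit 21) (nat_lit 4) (nat_lit 432) (nat_lit 382) (nat_lit 206)) (XT.lf (nat_lit 0) (nat_lit 530674851634) (nat_lit 152) (nat_lit 795507736256) (nat_lit 0) (nat_lit 10346923386) (nat_lit 19) (nat_lit 5) (nat_lit 21) (nat_lit 4) (nat_lit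 19) (nat_lit 4) (nat_lit 433) (nat_lit 382) (nat_lit 205)))) (XT.nd (nat_lit 156) (nat_lit 0) (nat_lit 76) (XT.nd (nat_lit 78) (nat_lit 0) (nat_lit 76) (XT.lf (nat_lit 0) (nat_lit 15562077090) (nat_lit 836) (nat_lit 20043497595) (nat_lit 836) (nat_lit 20043497595) (nat_lit 118) (nat_lit 3) (nat_lit 129) (nat_lit 3) (nat_lit 129) (nat_lit 5) (nat_lit 383) (nat_lit 383) (nat_lit 254)) (XT.lf (nat_lit 0) (nat_lit 33357805055) (nat_lit 760) (nat_lit 67977490737) (nat_lit 836) (nat_lit 14365335890) (nat_lit 119) (nat_lit 5) (nat_lit 129) (nat_lit 5) (nat_lit 130) (nat_lit 5) (nat_lit 384) (nat_lit 383) (nat_lit 253))) (XT.nd (nat_lit 78) (nat_lit 0) (nat_lit 76) (XT.lf (nat_lit 76) (nat_lit 23095700907) (nat_lit 0) (nat_lit 14944711829) (nat_lit 836) (nat_lit 82301392241) (nat_lit 120) (nat_lit 5) (nat_lit 119) (nat_lit 5) (nat_lit 130) (nat_lit 5) (nat_lit 385) (nat_lit 383) (nat_lit 252)) (XT.lf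 (nat_lit 0) (nat_lit 45523785618) (nat_lit 760) (nat_lit 2656158284) (nat_lit 836) (nat_lit 77053020813) (nat_lit 120) (nat_lit 5) (nat_lit 130) (nat_lit 5) (nat_lit 131) (nat_lit 5) (nat_lit 386) (nat_lit 383) (nat_lit 251))))) (XT.nd (nat_lit 234) (nat_lit 1444) (nat_lit 0) (XT.nd (nat_lit 78) (nat_lit 0) (nat_lit 76) (XT.lf (nat_lit 0) (nat_lit 56192837458) (nat_lit 760) (nat_lit 28627621311) (nat_lit 836) (nat_lit 45565608390) (nat_lit 121) (nat_lit 5) (nat_lit 131) (nat_lit 5) (nat_lit 132) (nat_lit 5) (nat_lit 387) (nat_lit 383) (nat_lit 250)) (XT.nd (nat_lit 78) (nat_lit 0) (nat_lit 0) (XT.lf (nat_lit 0) (nat_lit 69995509549) (nat_lit 760) (nat_lit 55578562718) (nat_lit 836) (nat_lit 10263341075) (nat_lit 122) (nat_lit 5) (nat_lit 132) (nat_lit 5) (nat_lit 133) (nat_lit 5) (nat_lit 388) (nat_lit 383) (nat_lit 249)) (XT.lf (nat_lit 76) (nat_lit 57582694576) (nat_lit 0) (nat_lit 30155198854)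 (nat_lit 836) (nat_lit 53845199216) (nat_lit 123) (nat_lit 5) (nat_lit 122) (nat_lit 5) (nat_lit 133) (nat_lit 5) (nat_lit 389) (nat_lit 383) (nat_lit 248)))) (XT.nd (nat_lit 156) (nat_lit 456) (nat_lit 0) (XT.nd (nat_lit 78) (nat_lit 380) (nat_lit 0) (XT.lf (nat_lit 0) (nat_lit 33974411762) (nat_lit 760) (nat_lit 75577267450) (nat_lit 836) (nat_lit 38104146823) (nat_lit 113) (nat_lit 5) (nat_lit 123) (nat_lit 5) (nat_lit 124) (nat_lit 5) (nat_lit 390) (nat_lit 383) (nat_lit 247)) (XT.lf (nat_lit 0) (nat_lit 9602727944) (nat_lit 380) (nat_lit 126070189357) (nat_lit 456) (nat_lit 18413343601) (nat_lit 108) (nat_lit 5) (nat_lit 113) (nat_lit 5) (nat_lit 114) (nat_lit 5) (nat_lit 391) (nat_lit 383) (nat_lit 246))) (XT.nd (nat_lit 78) (nat_lit 380) (nat_lit 0) (XT.lf (nat_lit 0) (nat_lit 6048000558) (nat_lit 456) (nat_lit 15474869947) (nat_lit 76) (nat_lit 139341704266) (nat_lit 107) (nat_lit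 5) (nat_lit 113) (nat_lit 5) (nat_lit 108) (nat_lit 5) (nat_lit 392) (nat_lit 383) (nat_lit 245)) (XT.lf (nat_lit 0) (nat_lit 35286511562) (nat_lit 456) (nat_lit 41906163221) (nat_lit 76) (nat_lit 90804117632) (nat_lit 102) (nat_lit 5) (nat_lit 108) (nat_lit 5) (nat_lit 103) (nat_lit 5) (nat_lit 393) (nat_lit 383) (nat_lit 244))))))))
noncomputable def xc108 : XT := (XT.nd (nat_lit 2028) (nat_lit 1140) (nat_lit 0) (XT.nd (nat_lit 1014) (nat_lit 1824) (nat_lit 0) (XT.nd (nat_lit 468) (nat_lit 1596) (nat_lit 0) (XT.nd (nat_lit 234) (nat_lit 608) (nat_lit 0) (XT.nd (nat_lit 78) (nat_lit 608) (nat_lit 0) (XT.lf (nat_lit 0) (nat_lit 69758691144) (nat_lit 456) (nat_lit 69271841568) (nat_lit 76) (nat_lit 36524325584) (nat_lit 97) (nat_lit 5) (nat_lit 103) (nat_lit 5) (nat_lit 98) (nat_lit 5) (nat_lit 394) (nat_lit 383) (nat_lit 243)) (XT.nd (nat_lit 78) (nat_lit 304) (nat_lit 0) (XT.lf (nat_lit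 0) (nat_lit 85567357830) (nat_lit 304) (nat_lit 24800369809) (nat_lit 380) (nat_lit 73180887876) (nat_lit 93) (nat_lit 5) (nat_lit 97) (nat_lit 5) (nat_lit 98) (nat_lit 5) (nat_lit 395) (nat_lit 383) (nat_lit 242)) (XT.lf (nat_lit 0) (nat_lit 63622983645) (nat_lit 304) (nat_lit 94360819360) (nat_lit 380) (nat_lit 34010154691) (nat_lit 89) (nat_lit 5) (nat_lit 93) (nat_lit 5) (nat_lit 94) (nat_lit 5) (nat_lit 396) (nat_lit 383) (nat_lit 241)))) (XT.nd (nat_lit 78) (nat_lit 304) (nat_lit 0) (XT.lf (nat_lit 0) (nat_lit 11304170815) (nat_lit 304) (nat_lit 160072502539) (nat_lit 76) (nat_lit 29568009190) (nat_lit 85) (nat_lit 5) (nat_lit 89) (nat_lit 5) (nat_lit 86) (nat_lit 5) (nat_lit 397) (nat_lit 383) (nat_lit 240)) (XT.nd (nat_lit 78) (nat_lit 0) (nat_lit 0) (XT.lf (nat_lit 0) (nat_lit 16051268582) (nat_lit 304) (nat_lit 47130892608) (nat_lit 380) (nat_lit 147194923712) (nat_lit 81) (nat_lit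 5) (nat_lit 85) (nat_lit 5) (nat_lit 86) (nat_lit 5) (nat_lit 398) (nat_lit 383) (nat_lit 239)) (XT.lf (nat_lit 0) (nat_lit 123403285575) (nat_lit 380) (nat_lit 9848913744) (nat_lit 76) (nat_lit 87102235528) (nat_lit 81) (nat_lit 5) (nat_lit 86) (nat_lit 5) (nat_lit 82) (nat_lit 5) (nat_lit 399) (nat_lit 383) (nat_lit 238))))) (XT.nd (nat_lit 234) (nat_lit 836) (nat_lit 0) (XT.nd (nat_lit 78) (nat_lit 532) (nat_lit 0) (XT.lf (nat_lit 0) (nat_lit 192318074818) (nat_lit 304) (nat_lit 36151273664) (nat_lit 76) (nat_lit 2466825687) (nat_lit 78) (nat_lit 5) (nat_lit 82) (nat_lit 5) (nat_lit 79) (nat_lit 5) (nat_lit 400) (nat_lit 383) (nat_lit 237)) (XT.nd (nat_lit 78) (nat_lit 228) (nat_lit 0) (XT.lf (nat_lit 0) (nat_lit 28873919582) (nat_lit 304) (nat_lit 65363909726) (nat_lit 76) (nat_lit 147843955773) (nat_lit 74) (nat_lit 5) (nat_lit 78) (nat_lit 5) (nat_lit 75) (nat_lit 5) (nat_lit 401) (nat_lit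 383) (nat_lit 236)) (XT.lf (nat_lit 0) (nat_lit 104394189601) (nat_lit 304) (nat_lit 96562575880) (nat_lit 76) (nat_lit 52931531326) (nat_lit 71) (nat_lit 5) (nat_lit 75) (nat_lit 5) (nat_lit 72) (nat_lit 5) (nat_lit 402) (nat_lit 383) (nat_lit 235)))) (XT.nd (nat_lit 156) (nat_lit 380) (nat_lit 0) (XT.nd (nat_lit 78) (nat_lit 228) (nat_lit 0) (XT.lf (nat_lit 0) (nat_lit 136337818656) (nat_lit 228) (nat_lit 54492886915) (nat_lit 304) (nat_lit 75564892778) (nat_lit 68) (nat_lit 5) (nat_lit 71) (nat_lit 5) (nat_lit 72) (nat_lit 5) (nat_lit 403) (nat_lit 383) (nat_lit 234)) (XT.lf (nat_lit 0) (nat_lit 9325363778) (nat_lit 228) (nat_lit 166314429965) (nat_lit 76) (nat_lit 104001167827) (nat_lit 65) (nat_lit 5) (nat_lit 68) (nat_lit 5) (nat_lit 66) (nat_lit 5) (nat_lit 404) (nat_lit 383) (nat_lit 233))) (XT.nd (nat_lit 78) (nat_lit 152) (nat_lit 0) (XT.lf (nat_lit 0) (nat_lit 87565330336) (nat_lit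 228) (nat_lit 15417876526) (nat_lit 304) (nat_lit 190669619037) (nat_lit 62) (nat_lit 5) (nat_lit 65) (nat_lit 5) (nat_lit 66) (nat_lit 5) (nat_lit 405) (nat_lit 383) (nat_lit 232)) (XT.lf (nat_lit 0) (nat_lit 58414560398) (nat_lit 152) (nat_lit 152036390486) (nat_lit 228) (nat_lit 98018824889) (nat_lit 60) (nat_lit 5) (nat_lit 62) (nat_lit 5) (nat_lit 63) (nat_lit 5) (nat_lit 406) (nat_lit 383) (nat_lit 231)))))) (XT.nd (nat_lit 468) (nat_lit 912) (nat_lit 0) (XT.nd (nat_lit 234) (nat_lit 532) (nat_lit 0) (XT.nd (nat_lit 78) (nat_lit 152) (nat_lit 0) (XT.lf (nat_lit 0) (nat_lit 6652722332) (nat_lit 228) (nat_lit 296908647245) (nat_lit 76) (nat_lit 20675410903) (nat_lit 57) (nat_lit 5) (nat_lit 60) (nat_lit 5) (nat_lit 58) (nat_lit 5) (nat_lit 407) (nat_lit 383) (nat_lit 230)) (XT.nd (nat_lit 78) (nat_lit 152) (nat_lit 0) (XT.lf (nat_lit 0) (nat_lit 123300395392) (nat_lit 228) (nat_lit 9503973589)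 (nat_lit 76) (nat_lit 208028608131) (nat_lit 57) (nat_lit 5) (nat_lit 60) (nat_lit 5) (nat_lit 58) (nat_lit 5) (nat_lit 408) (nat_lit 383) (nat_lit 229)) (XT.lf (nat_lit 0) (nat_lit 255018166687) (nat_lit 228) (nat_lit 48557999090) (nat_lit 76) (nat_lit 54893789532) (nat_lit 55) (nat_lit 5) (nat_lit 58) (nat_lit 5) (nat_lit 56) (nat_lit 5) (nat_lit 409) (nat_lit 383) (nat_lit 228)))) (XT.nd (nat_lit 78) (nat_lit 304) (nat_lit 0) (XT.lf (nat_lit 0) (nat_lit 26085904782) (nat_lit 228) (nat_lit 93019314876) (nat_lit 76) (nat_lit 258049113482) (nat_lit 52) (nat_lit 5) (nat_lit 55) (nat_lit 5) (nat_lit 53) (nat_lit 5) (nat_lit 410) (nat_lit 383) (nat_lit 227)) (XT.nd (nat_lit 78) (nat_lit 152) (nat_lit 0) (XT.lf (nat_lit 0) (nat_lit 168598664335) (nat_lit 228) (nat_lit 144097676062) (nat_lit 76) (nat_lit 84240499427) (nat_lit 50) (nat_lit 5) (nat_lit 53) (nat_lit 5) (nat_lit 51) (nat_lit 5) (nat_lit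 411) (nat_lit 383) (nat_lit 226)) (XT.lf (nat_lit 0) (nat_lit 216356633017) (nat_lit 152) (nat_lit 113188790567) (nat_lit 228) (nat_lit 88404874552) (nat_lit 48) (nat_lit 5) (nat_lit 50) (nat_lit 5) (nat_lit 51) (nat_lit 5) (nat_lit 412) (nat_lit 383) (nat_lit 225))))) (XT.nd (nat_lit 234) (nat_lit 532) (nat_lit 0) (XT.nd (nat_lit 78) (nat_lit 228) (nat_lit 0) (XT.lf (nat_lit 0) (nat_lit 67695998669) (nat_lit 152) (nat_lit 267182152612) (nat_lit 76) (nat_lit 105368695767) (nat_lit 46) (nat_lit 5) (nat_lit 48) (nat_lit 5) (nat_lit 47) (nat_lit 5) (nat_lit 413) (nat_lit 383) (nat_lit 224)) (XT.nd (nat_lit 78) (nat_lit 76) (nat_lit 0) (XT.lf (nat_lit 0) (nat_lit 121163924718) (nat_lit 152) (nat_lit 119434453262) (nat_lit 228) (nat_lit 223285743295) (nat_lit 44) (nat_lit 5) (nat_lit 46) (nat_lit 5) (nat_lit 47) (nat_lit 5) (nat_lit 414) (nat_lit 383) (nat_lit 223)) (XT.lf (nat_lit 0) (nat_lit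 61048272328) (nat_lit 76) (nat_lit 373736149592) (nat_lit 152) (nat_lit 54255381836) (nat_lit 43) (nat_lit 5) (nat_lit 44) (nat_lit 5) (nat_lit 45) (nat_lit 4) (nat_lit 415) (nat_lit 383) (nat_lit 222)))) (XT.nd (nat_lit 156) (nat_lit 304) (nat_lit 0) (XT.nd (nat_lit 78) (nat_lit 152) (nat_lit 0) (XT.lf (nat_lit 0) (nat_lit 132272645346) (nat_lit 152) (nat_lit 10667916970) (nat_lit 76) (nat_lit 372763146688) (nat_lit 42) (nat_lit 5) (nat_lit 44) (nat_lit 5) (nat_lit 43) (nat_lit 5) (nat_lit 416) (nat_lit 383) (nat_lit 221)) (XT.lf (nat_lit 0) (nat_lit 340721056502) (nat_lit 228) (nat_lit 92245915108) (nat_lit 76) (nat_lit 111044334157) (nat_lit 40) (nat_lit 5) (nat_lit 43) (nat_lit 5) (nat_lit 41) (nat_lit 4) (nat_lit 417) (nat_lit 383) (nat_lit 220))) (XT.nd (nat_lit 78) (nat_lit 152) (nat_lit 0) (XT.lf (nat_lit 0) (nat_lit 323845266) (nat_lit 152) (nat_lit 187184629564) (nat_lit 76) (nat_lit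 386642739882) (nat_lit 38) (nat_lit 5) (nat_lit 40) (nat_lit 5) (nat_lit 39) (nat_lit 5) (nat_lit 418) (nat_lit 383) (nat_lit 219)) (XT.lf (nat_lit 0) (nat_lit 221008245547) (nat_lit 228) (nat_lit 300004032791) (nat_lit 76) (nat_lit 85128232790) (nat_lit 36) (nat_lit 5) (nat_lit 39) (nat_lit 5) (nat_lit 37) (nat_lit 4) (nat_lit 419) (nat_lit 383) (nat_lit 218))))))) (XT.nd (nat_lit 50310) (nat_lit 0) (nat_lit 5472) (XT.nd (nat_lit 468) (nat_lit 532) (nat_lit 0) (XT.nd (nat_lit 234) (nat_lit 304) (nat_lit 0) (XT.nd (nat_lit 78) (nat_lit 228) (nat_lit 0) (XT.lf (nat_lit 0) (nat_lit 208540831531) (nat_lit 76) (nat_lit 260538162682) (nat_lit 152) (nat_lit 171123377245) (nat_lit 35) (nat_lit 5) (nat_lit 36) (nat_lit 5) (nat_lit 37) (nat_lit 4) (nat_lit 420) (nat_lit 383) (nat_lit 217)) (XT.nd (nat_lit 78) (nat_lit 0) (nat_lit 0) (XT.lf (nat_lit 0) (nat_lit 65311239074) (nat_lit 228) (nat_lit 583322687923)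 (nat_lit 76) (nat_lit 27947130832) (nat_lit 32) (nat_lit 5) (nat_lit 35) (nat_lit 5) (nat_lit 33) (nat_lit 4) (nat_lit 421) (nat_lit 383) (nat_lit 216)) (XT.lf (nat_lit 0) (nat_lit 326781002291) (nat_lit 228) (nat_lit 47309812498) (nat_lit 76) (nat_lit 341033173914) (nat_lit 32) (nat_lit 5) (nat_lit 35) (nat_lit 5) (nat_lit 33) (nat_lit 4) (nat_lit 422) (nat_lit 383) (nat_lit 215)))) (XT.nd (nat_lit 78) (nat_lit 228) (nat_lit 0) (XT.lf (nat_lit 0) (nat_lit 549160439166) (nat_lit 76) (nat_lit 68581724357) (nat_lit 152) (nat_lit 138579499691) (nat_lit 31) (nat_lit 5) (nat_lit 32) (nat_lit 5) (nat_lit 33) (nat_lit 4) (nat_lit 423) (nat_lit 383) (nat_lit 214)) (XT.nd (nat_lit 78) (nat_lit 76) (nat_lit 0) (XT.lf (nat_lit 0) (nat_lit 138362002148) (nat_lit 152) (nat_lit 399416100714) (nat_lit 76) (nat_lit 262364904253) (nat_lit 29) (nat_lit 5) (nat_lit 31) (nat_lit 5) (nat_lit 30) (nat_lit 4) (nat_lit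 424) (nat_lit 383) (nat_lit 213)) (XT.lf (nat_lit 0) (nat_lit 220870887020) (nat_lit 76) (nat_lit 220070184860) (nat_lit 152) (nat_lit 405998526986) (nat_lit 28) (nat_lit 5) (nat_lit 29) (nat_lit 5) (nat_lit 30) (nat_lit 4) (nat_lit 425) (nat_lit 383) (nat_lit 212))))) (XT.nd (nat_lit 234) (nat_lit 304) (nat_lit 0) (XT.nd (nat_lit 78) (nat_lit 152) (nat_lit 0) (XT.lf (nat_lit 0) (nat_lit 6070629221) (nat_lit 76) (nat_lit 770743364663) (nat_lit 76) (nat_lit 120211547750) (nat_lit 27) (nat_lit 4) (nat_lit 28) (nat_lit 5) (nat_lit 28) (nat_lit 4) (nat_lit 426) (nat_lit 383) (nat_lit 211)) (XT.nd (nat_lit 78) (nat_lit 76) (nat_lit 0) (XT.lf (nat_lit 0) (nat_lit 197202362545) (nat_lit 152) (nat_lit 246267059606) (nat_lit 76) (nat_lit 506762076214) (nat_lit 26) (nat_lit 5) (nat_lit 28) (nat_lit 5) (nat_lit 27) (nat_lit 4) (nat_lit 427) (nat_lit 383) (nat_lit 210)) (XT.lf (nat_lit 0) (nat_lit 462780520540)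 (nat_lit 76) (nat_lit 80298749172) (nat_lit 152) (nat_lit 464152052319) (nat_lit 25) (nat_lit 5) (nat_lit 26) (nat_lit 5) (nat_lit 27) (nat_lit 4) (nat_lit 428) (nat_lit 383) (nat_lit 209)))) (XT.nd (nat_lit 156) (nat_lit 152) (nat_lit 0) (XT.nd (nat_lit 78) (nat_lit 76) (nat_lit 0) (XT.lf (nat_lit 0) (nat_lit 169245771077) (nat_lit 76) (nat_lit 759253037812) (nat_lit 76) (nat_lit 139698698739) (nat_lit 24) (nat_lit 4) (nat_lit 25) (nat_lit 5) (nat_lit 25) (nat_lit 4) (nat_lit 429) (nat_lit 383) (nat_lit 208)) (XT.lf (nat_lit 0) (nat_lit 214960208894) (nat_lit 152) (nat_lit 178885975789) (nat_lit 76) (nat_lit 739480646434) (nat_lit 23) (nat_lit 5) (nat_lit 25) (nat_lit 5) (nat_lit 24) (nat_lit 4) (nat_lit 430) (nat_lit 383) (nat_lit 207))) (XT.nd (nat_lit 78) (nat_lit 76) (nat_lit 0) (XT.lf (nat_lit 0) (nat_lit 602991346125) (nat_lit 152) (nat_lit 587126477801) (nat_lit 0) (nat_lit 12939475492)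 (nat_lit 22) (nat_lit 5) (nat_lit 24) (nat_lit 4) (nat_lit 22) (nat_lit 4) (nat_lit 431) (nat_lit 383) (nat_lit 206)) (XT.lf (nat_lit 0) (nat_lit 202292955442) (nat_lit 76) (nat_lit 832738426517) (nat_lit 76) (nat_lit 242686502850) (nat_lit 21) (nat_lit 4) (nat_lit 22) (nat_lit 5) (nat_lit 22) (nat_lit 4) (nat_lit 432) (nat_lit 383) (nat_lit 205)))))) (XT.nd (nat_lit 468) (nat_lit 1900) (nat_lit 0) (XT.nd (nat_lit 234) (nat_lit 0) (nat_lit 152) (XT.nd (nat_lit 78) (nat_lit 0) (nat_lit 76) (XT.lf (nat_lit 0) (nat_lit 16814943985) (nat_lit 836) (nat_lit 21642827360) (nat_lit 836) (nat_lit 21642827360) (nat_lit 118) (nat_lit 3) (nat_lit 129) (nat_lit 3) (nat_lit 129) (nat_lit 5) (nat_lit 384) (nat_lit 384) (nat_lit 252)) (XT.nd (nat_lit 78) (nat_lit 0) (nat_lit 0) (XT.lf (nat_lit 0) (nat_lit 36041077982) (nat_lit 760) (nat_lit 73406898463) (nat_lit 836) (nat_lit 15507965343) (nat_lit 119) (nat_lit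 5) (nat_lit 129) (nat_lit 5) (nat_lit 130) (nat_lit 5) (nat_lit 385) (nat_lit 384) (nat_lit 251)) (XT.lf (nat_lit 76) (nat_lit 24951766443) (nat_lit 0) (nat_lit 16145574054) (nat_lit 836) (nat_lit 88871116731) (nat_lit 120) (nat_lit 5) (nat_lit 119) (nat_lit 5) (nat_lit 130) (nat_lit 5) (nat_lit 386) (nat_lit 384) (nat_lit 250)))) (XT.nd (nat_lit 78) (nat_lit 0) (nat_lit 76) (XT.lf (nat_lit 0) (nat_lit 49178292380) (nat_lit 760) (nat_lit 2860147124) (nat_lit 836) (nat_lit 83212525333) (nat_lit 120) (nat_lit 5) (nat_lit 130) (nat_lit 5) (nat_lit 131) (nat_lit 5) (nat_lit 387) (nat_lit 384) (nat_lit 249)) (XT.nd (nat_lit 78) (nat_lit 0) (nat_lit 76) (XT.lf (nat_lit 0) (nat_lit 60700004551) (nat_lit 760) (nat_lit 30909043352) (nat_lit 836) (nat_lit 49207311271) (nat_lit 121) (nat_lit 5) (nat_lit 131) (nat_lit 5) (nat_lit 132) (nat_lit 5) (nat_lit 388) (nat_lit 384) (nat_lit 248)) (XT.lf (nat_lit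 0) (nat_lit 75606111481) (nat_lit 760) (nat_lit 60015845476) (nat_lit 836) (nat_lit 11081895512) (nat_lit 122) (nat_lit 5) (nat_lit 132) (nat_lit 5) (nat_lit 133) (nat_lit 5) (nat_lit 389) (nat_lit 384) (nat_lit 247))))) (XT.nd (nat_lit 234) (nat_lit 1140) (nat_lit 0) (XT.nd (nat_lit 78) (nat_lit 1064) (nat_lit 0) (XT.lf (nat_lit 76) (nat_lit 62197921174) (nat_lit 0) (nat_lit 32569287402) (nat_lit 836) (nat_lit 58142011851) (nat_lit 123) (nat_lit 5) (nat_lit 122) (nat_lit 5) (nat_lit 133) (nat_lit 5) (nat_lit 390) (nat_lit 384) (nat_lit 246)) (XT.nd (nat_lit 78) (nat_lit 380) (nat_lit 0) (XT.lf (nat_lit 0) (nat_lit 36701123538) (nat_lit 760) (nat_lit 81624324499) (nat_lit 836) (nat_lit 41142357313) (nat_lit 113) (nat_lit 5) (nat_lit 123) (nat_lit 5) (nat_lit 124) (nat_lit 5) (nat_lit 391) (nat_lit 384) (nat_lit 245)) (XT.lf (nat_lit 0) (nat_lit 10379803057) (nat_lit 380) (nat_lit 136155994073)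 (nat_lit 456) (nat_lit 19876907654) (nat_lit 108) (nat_lit 5) (nat_lit 113) (nat_lit 5) (nat_lit 114) (nat_lit 5) (nat_lit 392) (nat_lit 384) (nat_lit 244)))) (XT.nd (nat_lit 156) (nat_lit 684) (nat_lit 0) (XT.nd (nat_lit 78) (nat_lit 380) (nat_lit 0) (XT.lf (nat_lit 0) (nat_lit 6540358442) (nat_lit 456) (nat_lit 16704372976) (nat_lit 76) (nat_lit 150488579326) (nat_lit 107) (nat_lit 5) (nat_lit 113) (nat_lit 5) (nat_lit 108) (nat_lit 5) (nat_lit 393) (nat_lit 384) (nat_lit 243)) (XT.lf (nat_lit 0) (nat_lit 38117447742) (nat_lit 456) (nat_lit 45250135659) (nat_lit 76) (nat_lit 98068547832) (nat_lit 102) (nat_lit 5) (nat_lit 108) (nat_lit 5) (nat_lit 103) (nat_lit 5) (nat_lit 394) (nat_lit 384) (nat_lit 242))) (XT.nd (nat_lit 78) (nat_lit 304) (nat_lit 0) (XT.lf (nat_lit 0) (nat_lit 75346944609) (nat_lit 456) (nat_lit 74805066992) (nat_lit 76) (nat_lit 39446853920) (nat_lit 97) (nat_lit 5)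 (nat_lit 103) (nat_lit 5) (nat_lit 98) (nat_lit 5) (nat_lit 395) (nat_lit 384) (nat_lit 241)) (XT.lf (nat_lit 0) (nat_lit 92420898007) (nat_lit 304) (nat_lit 26783373421) (nat_lit 380) (nat_lit 79027873781) (nat_lit 93) (nat_lit 5) (nat_lit 97) (nat_lit 5) (nat_lit 98) (nat_lit 5) (nat_lit 396) (nat_lit 384) (nat_lit 240))))))))
noncomputable def xc109 : XT := (XT.nd (nat_lit 2028) (nat_lit 760) (nat_lit 0) (XT.nd (nat_lit 1014) (nat_lit 1900) (nat_lit 0) (XT.nd (nat_lit 468) (nat_lit 1292) (nat_lit 0) (XT.nd (nat_lit 234) (nat_lit 532) (nat_lit 0) (XT.nd (nat_lit 78) (nat_lit 608) (nat_lit 0) (XT.lf (nat_lit 0) (nat_lit 68720948231) (nat_lit 304) (nat_lit 101908298472) (nat_lit 380) (nat_lit 36723887610) (nat_lit 89) (nat_lit 5) (nat_lit 93) (nat_lit 5) (nat_lit 94) (nat_lit 5) (nat_lit 397) (nat_lit 384) (nat_lit 239)) (XT.nd (nat_lit 78) (nat_lit 304) (nat_lit 0) (XT.lf (nat_lit 0) (nat_lit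 12214998277) (nat_lit 304) (nat_lit 172870008089) (nat_lit 76) (nat_lit 31934923423) (nat_lit 85) (nat_lit 5) (nat_lit 89) (nat_lit 5) (nat_lit 86) (nat_lit 5) (nat_lit 398) (nat_lit 384) (nat_lit 238)) (XT.lf (nat_lit 0) (nat_lit 17343304247) (nat_lit 304) (nat_lit 50899566488) (nat_lit 380) (nat_lit 158964071656) (nat_lit 81) (nat_lit 5) (nat_lit 85) (nat_lit 5) (nat_lit 86) (nat_lit 5) (nat_lit 399) (nat_lit 384) (nat_lit 237)))) (XT.nd (nat_lit 78) (nat_lit 532) (nat_lit 0) (XT.lf (nat_lit 0) (nat_lit 133281256490) (nat_lit 380) (nat_lit 10629219976) (nat_lit 76) (nat_lit 94072025477) (nat_lit 81) (nat_lit 5) (nat_lit 86) (nat_lit 5) (nat_lit 82) (nat_lit 5) (nat_lit 400) (nat_lit 384) (nat_lit 236)) (XT.nd (nat_lit 78) (nat_lit 304) (nat_lit 0) (XT.lf (nat_lit 0) (nat_lit 207708948967) (nat_lit 304) (nat_lit 39035856525) (nat_lit 76) (nat_lit 2665989083) (nat_lit 78) (nat_lit 5) (nat_lit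 82) (nat_lit 5) (nat_lit 79) (nat_lit 5) (nat_lit 401) (nat_lit 384) (nat_lit 235)) (XT.lf (nat_lit 0) (nat_lit 31189057652) (nat_lit 304) (nat_lit 70585655626) (nat_lit 76) (nat_lit 159673351516) (nat_lit 74) (nat_lit 5) (nat_lit 78) (nat_lit 5) (nat_lit 75) (nat_lit 5) (nat_lit 402) (nat_lit 384) (nat_lit 234))))) (XT.nd (nat_lit 234) (nat_lit 608) (nat_lit 0) (XT.nd (nat_lit 78) (nat_lit 456) (nat_lit 0) (XT.lf (nat_lit 0) (nat_lit 112750705066) (nat_lit 304) (nat_lit 104280318897) (nat_lit 76) (nat_lit 57168085845) (nat_lit 71) (nat_lit 5) (nat_lit 75) (nat_lit 5) (nat_lit 72) (nat_lit 5) (nat_lit 403) (nat_lit 384) (nat_lit 233)) (XT.nd (nat_lit 78) (nat_lit 228) (nat_lit 0) (XT.lf (nat_lit 0) (nat_lit 147251791559) (nat_lit 228) (nat_lit 58850090313) (nat_lit 304) (nat_lit 81605126752) (nat_lit 68) (nat_lit 5) (nat_lit 71) (nat_lit 5) (nat_lit 72) (nat_lit 5) (nat_lit 404) (nat_lit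 384) (nat_lit 232)) (XT.lf (nat_lit 0) (nat_lit 10075977458) (nat_lit 228) (nat_lit 179612591876) (nat_lit 76) (nat_lit 112323438519) (nat_lit 65) (nat_lit 5) (nat_lit 68) (nat_lit 5) (nat_lit 66) (nat_lit 5) (nat_lit 405) (nat_lit 384) (nat_lit 231)))) (XT.nd (nat_lit 156) (nat_lit 228) (nat_lit 0) (XT.nd (nat_lit 78) (nat_lit 152) (nat_lit 0) (XT.lf (nat_lit 0) (nat_lit 94577245364) (nat_lit 228) (nat_lit 16648967455) (nat_lit 304) (nat_lit 205918620374) (nat_lit 62) (nat_lit 5) (nat_lit 65) (nat_lit 5) (nat_lit 66) (nat_lit 5) (nat_lit 406) (nat_lit 384) (nat_lit 230)) (XT.lf (nat_lit 0) (nat_lit 63094297489) (nat_lit 152) (nat_lit 164196893124) (nat_lit 228) (nat_lit 105855957829) (nat_lit 60) (nat_lit 5) (nat_lit 62) (nat_lit 5) (nat_lit 63) (nat_lit 5) (nat_lit 407) (nat_lit 384) (nat_lit 229))) (XT.nd (nat_lit 78) (nat_lit 0) (nat_lit 0) (XT.lf (nat_lit 0) (nat_lit 7188997402) (nat_lit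 228) (nat_lit 320654752845) (nat_lit 76) (nat_lit 22331768739) (nat_lit 57) (nat_lit 5) (nat_lit 60) (nat_lit 5) (nat_lit 58) (nat_lit 5) (nat_lit 408) (nat_lit 384) (nat_lit 228)) (XT.lf (nat_lit 0) (nat_lit 133168183767) (nat_lit 228) (nat_lit 10258193162) (nat_lit 76) (nat_lit 224673049526) (nat_lit 57) (nat_lit 5) (nat_lit 60) (nat_lit 5) (nat_lit 58) (nat_lit 5) (nat_lit 409) (nat_lit 384) (nat_lit 227)))))) (XT.nd (nat_lit 468) (nat_lit 912) (nat_lit 0) (XT.nd (nat_lit 234) (nat_lit 456) (nat_lit 0) (XT.nd (nat_lit 78) (nat_lit 380) (nat_lit 0) (XT.lf (nat_lit 0) (nat_lit 275423224906) (nat_lit 228) (nat_lit 52436661680) (nat_lit 76) (nat_lit 59287483990) (nat_lit 55) (nat_lit 5) (nat_lit 58) (nat_lit 5) (nat_lit 56) (nat_lit 5) (nat_lit 410) (nat_lit 384) (nat_lit 226)) (XT.nd (nat_lit 78) (nat_lit 152) (nat_lit 0) (XT.lf (nat_lit 0) (nat_lit 28176261290) (nat_lit 228) (nat_lit 100455026488)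 (nat_lit 76) (nat_lit 278695217000) (nat_lit 52) (nat_lit 5) (nat_lit 55) (nat_lit 5) (nat_lit 53) (nat_lit 5) (nat_lit 411) (nat_lit 384) (nat_lit 225)) (XT.lf (nat_lit 0) (nat_lit 182089906037) (nat_lit 228) (nat_lit 155619779075) (nat_lit 76) (nat_lit 90981933722) (nat_lit 50) (nat_lit 5) (nat_lit 53) (nat_lit 5) (nat_lit 51) (nat_lit 5) (nat_lit 412) (nat_lit 384) (nat_lit 224)))) (XT.nd (nat_lit 78) (nat_lit 304) (nat_lit 0) (XT.lf (nat_lit 0) (nat_lit 233670626533) (nat_lit 152) (nat_lit 122241616742) (nat_lit 228) (nat_lit 95473918730) (nat_lit 48) (nat_lit 5) (nat_lit 50) (nat_lit 5) (nat_lit 51) (nat_lit 5) (nat_lit 413) (nat_lit 384) (nat_lit 223)) (XT.nd (nat_lit 78) (nat_lit 152) (nat_lit 0) (XT.lf (nat_lit 0) (nat_lit 73114795628) (nat_lit 152) (nat_lit 288551276658) (nat_lit 76) (nat_lit 113800366062) (nat_lit 46) (nat_lit 5) (nat_lit 48) (nat_lit 5) (nat_lit 47) (nat_lit 5)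 (nat_lit 414) (nat_lit 384) (nat_lit 222)) (XT.lf (nat_lit 0) (nat_lit 130862250088) (nat_lit 152) (nat_lit 128986965666) (nat_lit 228) (nat_lit 241145486281) (nat_lit 44) (nat_lit 5) (nat_lit 46) (nat_lit 5) (nat_lit 47) (nat_lit 5) (nat_lit 415) (nat_lit 384) (nat_lit 221))))) (XT.nd (nat_lit 234) (nat_lit 608) (nat_lit 0) (XT.nd (nat_lit 78) (nat_lit 228) (nat_lit 0) (XT.lf (nat_lit 0) (nat_lit 65937227986) (nat_lit 76) (nat_lit 403632807375) (nat_lit 152) (nat_lit 58592809189) (nat_lit 43) (nat_lit 5) (nat_lit 44) (nat_lit 5) (nat_lit 45) (nat_lit 4) (nat_lit 416) (nat_lit 384) (nat_lit 220)) (XT.nd (nat_lit 78) (nat_lit 152) (nat_lit 0) (XT.lf (nat_lit 0) (nat_lit 142857148707) (nat_lit 152) (nat_lit 11516544319) (nat_lit 76) (nat_lit 402586177650) (nat_lit 42) (nat_lit 5) (nat_lit 44) (nat_lit 5) (nat_lit 43) (nat_lit 5) (nat_lit 417) (nat_lit 384) (nat_lit 219)) (XT.lf (nat_lit 0)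 (nat_lit 367981336884) (nat_lit 228) (nat_lit 99620894279) (nat_lit 76) (nat_lit 119929848846) (nat_lit 40) (nat_lit 5) (nat_lit 43) (nat_lit 5) (nat_lit 41) (nat_lit 4) (nat_lit 418) (nat_lit 384) (nat_lit 218)))) (XT.nd (nat_lit 156) (nat_lit 304) (nat_lit 0) (XT.nd (nat_lit 78) (nat_lit 152) (nat_lit 0) (XT.lf (nat_lit 0) (nat_lit 352267500) (nat_lit 152) (nat_lit 202154826367) (nat_lit 76) (nat_lit 417576091914) (nat_lit 38) (nat_lit 5) (nat_lit 40) (nat_lit 5) (nat_lit 39) (nat_lit 5) (nat_lit 419) (nat_lit 384) (nat_lit 217)) (XT.lf (nat_lit 0) (nat_lit 238691332723) (nat_lit 228) (nat_lit 323999891317) (nat_lit 76) (nat_lit 91940406253) (nat_lit 36) (nat_lit 5) (nat_lit 39) (nat_lit 5) (nat_lit 37) (nat_lit 4) (nat_lit 420) (nat_lit 384) (nat_lit 216))) (XT.nd (nat_lit 78) (nat_lit 228) (nat_lit 0) (XT.lf (nat_lit 0) (nat_lit 225228368147) (nat_lit 76) (nat_lit 281379259987) (nat_lit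 152) (nat_lit 184810816998) (nat_lit 35) (nat_lit 5) (nat_lit 36) (nat_lit 5) (nat_lit 37) (nat_lit 4) (nat_lit 421) (nat_lit 384) (nat_lit 215)) (XT.lf (nat_lit 0) (nat_lit 70538411418) (nat_lit 228) (nat_lit 629984261196) (nat_lit 76) (nat_lit 30184755895) (nat_lit 32) (nat_lit 5) (nat_lit 35) (nat_lit 5) (nat_lit 33) (nat_lit 4) (nat_lit 422) (nat_lit 384) (nat_lit 214))))))) (XT.nd (nat_lit 50388) (nat_lit 0) (nat_lit 4484) (XT.nd (nat_lit 468) (nat_lit 304) (nat_lit 0) (XT.nd (nat_lit 234) (nat_lit 228) (nat_lit 0) (XT.nd (nat_lit 78) (nat_lit 228) (nat_lit 0) (XT.lf (nat_lit 0) (nat_lit 352925587305) (nat_lit 228) (nat_lit 51090669943) (nat_lit 76) (nat_lit 368317545046) (nat_lit 32) (nat_lit 5) (nat_lit 35) (nat_lit 5) (nat_lit 33) (nat_lit 4) (nat_lit 423) (nat_lit 384) (nat_lit 213)) (XT.nd (nat_lit 78) (nat_lit 152) (nat_lit 0) (XT.lf (nat_lit 0) (nat_lit 593097031169) (nat_lit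 76) (nat_lit 74066513009) (nat_lit 152) (nat_lit 149663751471) (nat_lit 31) (nat_lit 5) (nat_lit 32) (nat_lit 5) (nat_lit 33) (nat_lit 4) (nat_lit 424) (nat_lit 384) (nat_lit 212)) (XT.lf (nat_lit 0) (nat_lit 149432935717) (nat_lit 152) (nat_lit 431365659581) (nat_lit 76) (nat_lit 283355753500) (nat_lit 29) (nat_lit 5) (nat_lit 31) (nat_lit 5) (nat_lit 30) (nat_lit 4) (nat_lit 425) (nat_lit 384) (nat_lit 211)))) (XT.nd (nat_lit 78) (nat_lit 152) (nat_lit 0) (XT.lf (nat_lit 0) (nat_lit 238544125106) (nat_lit 76) (nat_lit 237674115437) (nat_lit 152) (nat_lit 438476431887) (nat_lit 28) (nat_lit 5) (nat_lit 29) (nat_lit 5) (nat_lit 30) (nat_lit 4) (nat_lit 426) (nat_lit 384) (nat_lit 210)) (XT.nd (nat_lit 78) (nat_lit 76) (nat_lit 0) (XT.lf (nat_lit 0) (nat_lit 6559756753) (nat_lit 76) (nat_lit 832401178716) (nat_lit 76) (nat_lit 129826558208) (nat_lit 27) (nat_lit 4) (nat_lit 28) (nat_lit 5)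 (nat_lit 28) (nat_lit 4) (nat_lit 427) (nat_lit 384) (nat_lit 209)) (XT.lf (nat_lit 0) (nat_lit 212980266477) (nat_lit 152) (nat_lit 265965147884) (nat_lit 76) (nat_lit 547304517963) (nat_lit 26) (nat_lit 5) (nat_lit 28) (nat_lit 5) (nat_lit 27) (nat_lit 4) (nat_lit 428) (nat_lit 384) (nat_lit 208))))) (XT.nd (nat_lit 234) (nat_lit 76) (nat_lit 0) (XT.nd (nat_lit 78) (nat_lit 152) (nat_lit 0) (XT.lf (nat_lit 0) (nat_lit 499806096281) (nat_lit 76) (nat_lit 86721151837) (nat_lit 152) (nat_lit 501282497684) (nat_lit 25) (nat_lit 5) (nat_lit 26) (nat_lit 5) (nat_lit 27) (nat_lit 4) (nat_lit 429) (nat_lit 384) (nat_lit 207)) (XT.nd (nat_lit 78) (nat_lit 76) (nat_lit 0) (XT.lf (nat_lit 0) (nat_lit 182788486725) (nat_lit 76) (nat_lit 819991811783) (nat_lit 76) (nat_lit 150872930346) (nat_lit 24) (nat_lit 4) (nat_lit 25) (nat_lit 5) (nat_lit 25) (nat_lit 4) (nat_lit 430) (nat_lit 384) (nat_lit 206))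 (XT.lf (nat_lit 0) (nat_lit 232158517296) (nat_lit 152) (nat_lit 193193976665) (nat_lit 76) (nat_lit 798640408939) (nat_lit 23) (nat_lit 5) (nat_lit 25) (nat_lit 5) (nat_lit 24) (nat_lit 4) (nat_lit 431) (nat_lit 384) (nat_lit 205)))) (XT.nd (nat_lit 49530) (nat_lit 0) (nat_lit 7372) (XT.nd (nat_lit 49452) (nat_lit 0) (nat_lit 7296) (XT.lf (nat_lit 0) (nat_lit 651232098712) (nat_lit 152) (nat_lit 634093793288) (nat_lit 0) (nat_lit 13975919013) (nat_lit 22) (nat_lit 5) (nat_lit 24) (nat_lit 4) (nat_lit 22) (nat_lit 4) (nat_lit 432) (nat_lit 384) (nat_lit 204)) (XT.lf (nat_lit 0) (nat_lit 18166913105) (nat_lit 836) (nat_lit 23370695556) (nat_lit 836) (nat_lit 23370695556) (nat_lit 118) (nat_lit 3) (nat_lit 129) (nat_lit 3) (nat_lit 129) (nat_lit 5) (nat_lit 385) (nat_lit 385) (nat_lit 250))) (XT.nd (nat_lit 78) (nat_lit 0) (nat_lit 0) (XT.lf (nat_lit 0) (nat_lit 38936922969) (nat_lit 760) (nat_lit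 79271913017) (nat_lit 836) (nat_lit 16742946347) (nat_lit 119) (nat_lit 5) (nat_lit 129) (nat_lit 5) (nat_lit 130) (nat_lit 5) (nat_lit 386) (nat_lit 385) (nat_lit 249)) (XT.lf (nat_lit 76) (nat_lit 26955117518) (nat_lit 0) (nat_lit 17441751254) (nat_lit 836) (nat_lit 95968471630) (nat_lit 120) (nat_lit 5) (nat_lit 119) (nat_lit 5) (nat_lit 130) (nat_lit 5) (nat_lit 387) (nat_lit 385) (nat_lit 248)))))) (XT.nd (nat_lit 546) (nat_lit 1976) (nat_lit 0) (XT.nd (nat_lit 234) (nat_lit 988) (nat_lit 0) (XT.nd (nat_lit 78) (nat_lit 0) (nat_lit 76) (XT.lf (nat_lit 0) (nat_lit 53123361593) (nat_lit 760) (nat_lit 3081668237) (nat_lit 836) (nat_lit 89865466021) (nat_lit 120) (nat_lit 5) (nat_lit 130) (nat_lit 5) (nat_lit 131) (nat_lit 5) (nat_lit 388) (nat_lit 385) (nat_lit 247)) (XT.nd (nat_lit 78) (nat_lit 0) (nat_lit 76) (XT.lf (nat_lit 0) (nat_lit 65566070156) (nat_lit 760) (nat_lit 33374232814)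 (nat_lit 836) (nat_lit 53140856229) (nat_lit 121) (nat_lit 5) (nat_lit 131) (nat_lit 5) (nat_lit 132) (nat_lit 5) (nat_lit 389) (nat_lit 385) (nat_lit 246)) (XT.lf (nat_lit 0) (nat_lit 81663997835) (nat_lit 760) (nat_lit 64809395128) (nat_lit 836) (nat_lit 11966292790) (nat_lit 122) (nat_lit 5) (nat_lit 132) (nat_lit 5) (nat_lit 133) (nat_lit 5) (nat_lit 390) (nat_lit 385) (nat_lit 245)))) (XT.nd (nat_lit 156) (nat_lit 456) (nat_lit 0) (XT.nd (nat_lit 78) (nat_lit 684) (nat_lit 0) (XT.lf (nat_lit 76) (nat_lit 67181137440) (nat_lit 0) (nat_lit 35176264413) (nat_lit 836) (nat_lit 62784110709) (nat_lit 123) (nat_lit 5) (nat_lit 122) (nat_lit 5) (nat_lit 133) (nat_lit 5) (nat_lit 391) (nat_lit 385) (nat_lit 244)) (XT.lf (nat_lit 0) (nat_lit 39644722709) (nat_lit 760) (nat_lit 88155021191) (nat_lit 836) (nat_lit 44425068553) (nat_lit 113) (nat_lit 5) (nat_lit 123) (nat_lit 5) (nat_lit 124) (nat_lit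 5) (nat_lit 392) (nat_lit 385) (nat_lit 243))) (XT.nd (nat_lit 78) (nat_lit 76) (nat_lit 0) (XT.lf (nat_lit 0) (nat_lit 11217780645) (nat_lit 380) (nat_lit 147048636123) (nat_lit 456) (nat_lit 21458912601) (nat_lit 108) (nat_lit 5) (nat_lit 113) (nat_lit 5) (nat_lit 114) (nat_lit 5) (nat_lit 393) (nat_lit 385) (nat_lit 242)) (XT.lf (nat_lit 0) (nat_lit 7070889792) (nat_lit 456) (nat_lit 18033446950) (nat_lit 76) (nat_lit 162527270197) (nat_lit 107) (nat_lit 5) (nat_lit 113) (nat_lit 5) (nat_lit 108) (nat_lit 5) (nat_lit 394) (nat_lit 385) (nat_lit 241))))) (XT.nd (nat_lit 234) (nat_lit 912) (nat_lit 0) (XT.nd (nat_lit 78) (nat_lit 684) (nat_lit 0) (XT.lf (nat_lit 0) (nat_lit 41173715350) (nat_lit 456) (nat_lit 48862841454) (nat_lit 76) (nat_lit 105914118070) (nat_lit 102) (nat_lit 5) (nat_lit 108) (nat_lit 5) (nat_lit 103) (nat_lit 5) (nat_lit 395) (nat_lit 385) (nat_lit 240)) (XT.nd (nat_lit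 78) (nat_lit 304) (nat_lit 0) (XT.lf (nat_lit 0) (nat_lit 81381180093) (nat_lit 456) (nat_lit 80782166194) (nat_lit 76) (nat_lit 42603101453) (nat_lit 97) (nat_lit 5) (nat_lit 103) (nat_lit 5) (nat_lit 98) (nat_lit 5) (nat_lit 396) (nat_lit 385) (nat_lit 239)) (XT.lf (nat_lit 0) (nat_lit 99821558488) (nat_lit 304) (nat_lit 28925163688) (nat_lit 380) (nat_lit 85343686396) (nat_lit 93) (nat_lit 5) (nat_lit 97) (nat_lit 5) (nat_lit 98) (nat_lit 5) (nat_lit 397) (nat_lit 385) (nat_lit 238)))) (XT.nd (nat_lit 156) (nat_lit 304) (nat_lit 0) (XT.nd (nat_lit 78) (nat_lit 304) (nat_lit 0) (XT.lf (nat_lit 0) (nat_lit 74225590733) (nat_lit 304) (nat_lit 110059773703) (nat_lit 380) (nat_lit 39655729126) (nat_lit 89) (nat_lit 5) (nat_lit 93) (nat_lit 5) (nat_lit 94) (nat_lit 5) (nat_lit 398) (nat_lit 385) (nat_lit 237)) (XT.lf (nat_lit 0) (nat_lit 13197765523) (nat_lit 304) (nat_lit 186692497407) (nat_lit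 76) (nat_lit 34490980584) (nat_lit 85) (nat_lit 5) (nat_lit 89) (nat_lit 5) (nat_lit 86) (nat_lit 5) (nat_lit 399) (nat_lit 385) (nat_lit 236))) (XT.nd (nat_lit 78) (nat_lit 0) (nat_lit 0) (XT.lf (nat_lit 0) (nat_lit 18737570865) (nat_lit 304) (nat_lit 54969990716) (nat_lit 380) (nat_lit 171675671023) (nat_lit 81) (nat_lit 5) (nat_lit 85) (nat_lit 5) (nat_lit 86) (nat_lit 5) (nat_lit 400) (nat_lit 385) (nat_lit 235)) (XT.lf (nat_lit 0) (nat_lit 143948650758) (nat_lit 380) (nat_lit 11473035911) (nat_lit 76) (nat_lit 101599168781) (nat_lit 81) (nat_lit 5) (nat_lit 86) (nat_lit 5) (nat_lit 82) (nat_lit 5) (nat_lit 401) (nat_lit 385) (nat_lit 234))))))))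
noncomputable def xc110 : XT := (XT.nd (nat_lit 2028) (nat_lit 380) (nat_lit 0) (XT.nd (nat_lit 1014) (nat_lit 1520) (nat_lit 0) (XT.nd (nat_lit 468) (nat_lit 1064) (nat_lit 0) (XT.nd (nat_lit 234) (nat_lit 684) (nat_lit 0) (XT.nd (nat_lit 78) (nat_lit 532) (nat_lit 0) (XT.lf (nat_lit 0) (nat_lit 224330318660) (nat_lit 304) (nat_lit 42152278690) (nat_lit 76) (nat_lit 2880826287) (nat_lit 78) (nat_lit 5) (nat_lit 82) (nat_lit 5) (nat_lit 79) (nat_lit 5) (nat_lit 402) (nat_lit 385) (nat_lit 233)) (XT.nd (nat_lit 78) (nat_lit 228) (nat_lit 0) (XT.lf (nat_lit 0) (nat_lit 33688661433) (nat_lit 304) (nat_lit 76226192166) (nat_lit 76) (nat_lit 172448830818) (nat_lit 74) (nat_lit 5) (nat_lit 78) (nat_lit 5) (nat_lit 75) (nat_lit 5) (nat_lit 403) (nat_lit 385) (nat_lit 232)) (XT.lf (nat_lit 0) (nat_lit 121775031273) (nat_lit 304) (nat_lit 112616517510) (nat_lit 76) (nat_lit 61743274835) (nat_lit 71)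 (nat_lit 5) (nat_lit 75) (nat_lit 5) (nat_lit 72) (nat_lit 5) (nat_lit 404) (nat_lit 385) (nat_lit 231)))) (XT.nd (nat_lit 78) (nat_lit 456) (nat_lit 0) (XT.lf (nat_lit 0) (nat_lit 159037891169) (nat_lit 228) (nat_lit 63556187767) (nat_lit 304) (nat_lit 88129286679) (nat_lit 68) (nat_lit 5) (nat_lit 71) (nat_lit 5) (nat_lit 72) (nat_lit 5) (nat_lit 405) (nat_lit 385) (nat_lit 230)) (XT.nd (nat_lit 78) (nat_lit 228) (nat_lit 0) (XT.lf (nat_lit 0) (nat_lit 10885986192) (nat_lit 228) (nat_lit 193975604297) (nat_lit 76) (nat_lit 121311180255) (nat_lit 65) (nat_lit 5) (nat_lit 68) (nat_lit 5) (nat_lit 66) (nat_lit 5) (nat_lit 406) (nat_lit 385) (nat_lit 229)) (XT.lf (nat_lit 0) (nat_lit 102149159390) (nat_lit 228) (nat_lit 17978879371) (nat_lit 304) (nat_lit 222388193521) (nat_lit 62) (nat_lit 5) (nat_lit 65) (nat_lit 5) (nat_lit 66) (nat_lit 5) (nat_lit 407) (nat_lit 385) (nat_lit 228))))) (XT.nd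 (nat_lit 234) (nat_lit 684) (nat_lit 0) (XT.nd (nat_lit 78) (nat_lit 228) (nat_lit 0) (XT.lf (nat_lit 0) (nat_lit 68147475941) (nat_lit 152) (nat_lit 177330579586) (nat_lit 228) (nat_lit 114320685269) (nat_lit 60) (nat_lit 5) (nat_lit 62) (nat_lit 5) (nat_lit 63) (nat_lit 5) (nat_lit 408) (nat_lit 385) (nat_lit 227)) (XT.nd (nat_lit 78) (nat_lit 0) (nat_lit 0) (XT.lf (nat_lit 0) (nat_lit 7767595660) (nat_lit 228) (nat_lit 346301486486) (nat_lit 76) (nat_lit 24120303521) (nat_lit 57) (nat_lit 5) (nat_lit 60) (nat_lit 5) (nat_lit 58) (nat_lit 5) (nat_lit 409) (nat_lit 385) (nat_lit 226)) (XT.lf (nat_lit 0) (nat_lit 143824859271) (nat_lit 228) (nat_lit 11073620293) (nat_lit 76) (nat_lit 242648739120) (nat_lit 57) (nat_lit 5) (nat_lit 60) (nat_lit 5) (nat_lit 58) (nat_lit 5) (nat_lit 410) (nat_lit 385) (nat_lit 225)))) (XT.nd (nat_lit 156) (nat_lit 304) (nat_lit 0) (XT.nd (nat_lit 78) (nat_lit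 228) (nat_lit 0) (XT.lf (nat_lit 0) (nat_lit 297460173505) (nat_lit 228) (nat_lit 56626470010) (nat_lit 76) (nat_lit 64032361391) (nat_lit 55) (nat_lit 5) (nat_lit 58) (nat_lit 5) (nat_lit 56) (nat_lit 5) (nat_lit 411) (nat_lit 385) (nat_lit 224)) (XT.lf (nat_lit 0) (nat_lit 30433349270) (nat_lit 228) (nat_lit 108486427254) (nat_lit 76) (nat_lit 300992698592) (nat_lit 52) (nat_lit 5) (nat_lit 55) (nat_lit 5) (nat_lit 53) (nat_lit 5) (nat_lit 412) (nat_lit 385) (nat_lit 223))) (XT.nd (nat_lit 78) (nat_lit 152) (nat_lit 0) (XT.lf (nat_lit 0) (nat_lit 196659969367) (nat_lit 228) (nat_lit 168064465078) (nat_lit 76) (nat_lit 98262369714) (nat_lit 50) (nat_lit 5) (nat_lit 53) (nat_lit 5) (nat_lit 51) (nat_lit 5) (nat_lit 413) (nat_lit 385) (nat_lit 222)) (XT.lf (nat_lit 0) (nat_lit 252368960191) (nat_lit 152) (nat_lit 132018993860) (nat_lit 228) (nat_lit 103108963755) (nat_lit 48) (nat_lit 5) (nat_lit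 50) (nat_lit 5) (nat_lit 51) (nat_lit 5) (nat_lit 414) (nat_lit 385) (nat_lit 221)))))) (XT.nd (nat_lit 468) (nat_lit 760) (nat_lit 0) (XT.nd (nat_lit 234) (nat_lit 380) (nat_lit 0) (XT.nd (nat_lit 78) (nat_lit 228) (nat_lit 0) (XT.lf (nat_lit 0) (nat_lit 78966651660) (nat_lit 152) (nat_lit 311630707868) (nat_lit 76) (nat_lit 122906259746) (nat_lit 46) (nat_lit 5) (nat_lit 48) (nat_lit 5) (nat_lit 47) (nat_lit 5) (nat_lit 415) (nat_lit 385) (nat_lit 220)) (XT.nd (nat_lit 78) (nat_lit 76) (nat_lit 0) (XT.lf (nat_lit 0) (nat_lit 141335698025) (nat_lit 152) (nat_lit 139303999174) (nat_lit 228) (nat_lit 260434453306) (nat_lit 44) (nat_lit 5) (nat_lit 46) (nat_lit 5) (nat_lit 47) (nat_lit 5) (nat_lit 416) (nat_lit 385) (nat_lit 219)) (XT.lf (nat_lit 0) (nat_lit 71216573398) (nat_lit 76) (nat_lit 435921516511) (nat_lit 152) (nat_lit 63277659170) (nat_lit 43) (nat_lit 5) (nat_lit 44) (nat_lit 5)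 (nat_lit 45) (nat_lit 4) (nat_lit 417) (nat_lit 385) (nat_lit 218)))) (XT.nd (nat_lit 78) (nat_lit 304) (nat_lit 0) (XT.lf (nat_lit 0) (nat_lit 154288028332) (nat_lit 152) (nat_lit 12433747486) (nat_lit 76) (nat_lit 434794768731) (nat_lit 42) (nat_lit 5) (nat_lit 44) (nat_lit 5) (nat_lit 43) (nat_lit 5) (nat_lit 418) (nat_lit 385) (nat_lit 217)) (XT.nd (nat_lit 78) (nat_lit 152) (nat_lit 0) (XT.lf (nat_lit 0) (nat_lit 397422069368) (nat_lit 228) (nat_lit 107586541440) (nat_lit 76) (nat_lit 129525923959) (nat_lit 40) (nat_lit 5) (nat_lit 43) (nat_lit 5) (nat_lit 41) (nat_lit 4) (nat_lit 419) (nat_lit 385) (nat_lit 216)) (XT.lf (nat_lit 0) (nat_lit 382604776) (nat_lit 152) (nat_lit 218323291384) (nat_lit 76) (nat_lit 450983836367) (nat_lit 38) (nat_lit 5) (nat_lit 40) (nat_lit 5) (nat_lit 39) (nat_lit 5) (nat_lit 420) (nat_lit 385) (nat_lit 215))))) (XT.nd (nat_lit 234) (nat_lit 304) (nat_lit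 0) (XT.nd (nat_lit 78) (nat_lit 304) (nat_lit 0) (XT.lf (nat_lit 0) (nat_lit 257788720559) (nat_lit 228) (nat_lit 349916055378) (nat_lit 76) (nat_lit 99297280419) (nat_lit 36) (nat_lit 5) (nat_lit 39) (nat_lit 5) (nat_lit 37) (nat_lit 4) (nat_lit 421) (nat_lit 385) (nat_lit 214)) (XT.nd (nat_lit 78) (nat_lit 228) (nat_lit 0) (XT.lf (nat_lit 0) (nat_lit 243250298516) (nat_lit 76) (nat_lit 303887924080) (nat_lit 152) (nat_lit 199593598660) (nat_lit 35) (nat_lit 5) (nat_lit 36) (nat_lit 5) (nat_lit 37) (nat_lit 4) (nat_lit 422) (nat_lit 385) (nat_lit 213)) (XT.lf (nat_lit 0) (nat_lit 76183433249) (nat_lit 228) (nat_lit 680379365467) (nat_lit 76) (nat_lit 32601126384) (nat_lit 32) (nat_lit 5) (nat_lit 35) (nat_lit 5) (nat_lit 33) (nat_lit 4) (nat_lit 423) (nat_lit 385) (nat_lit 212)))) (XT.nd (nat_lit 156) (nat_lit 228) (nat_lit 0) (XT.nd (nat_lit 78) (nat_lit 76) (nat_lit 0) (XT.lf (nat_lit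 0) (nat_lit 381161438843) (nat_lit 228) (nat_lit 55174556292) (nat_lit 76) (nat_lit 397784420888) (nat_lit 32) (nat_lit 5) (nat_lit 35) (nat_lit 5) (nat_lit 33) (nat_lit 4) (nat_lit 424) (nat_lit 385) (nat_lit 211)) (XT.lf (nat_lit 0) (nat_lit 640548014572) (nat_lit 76) (nat_lit 79990334311) (nat_lit 152) (nat_lit 161635044150) (nat_lit 31) (nat_lit 5) (nat_lit 32) (nat_lit 5) (nat_lit 33) (nat_lit 4) (nat_lit 425) (nat_lit 385) (nat_lit 210))) (XT.nd (nat_lit 78) (nat_lit 76) (nat_lit 0) (XT.lf (nat_lit 0) (nat_lit 161389262445) (nat_lit 152) (nat_lit 465871715168) (nat_lit 76) (nat_lit 306025634311) (nat_lit 29) (nat_lit 5) (nat_lit 31) (nat_lit 5) (nat_lit 30) (nat_lit 4) (nat_lit 426) (nat_lit 385) (nat_lit 209)) (XT.lf (nat_lit 0) (nat_lit 257630713349) (nat_lit 76) (nat_lit 256686600732) (nat_lit 152) (nat_lit 473552851258) (nat_lit 28) (nat_lit 5) (nat_lit 29) (nat_lit 5) (nat_lit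 30) (nat_lit 4) (nat_lit 427) (nat_lit 385) (nat_lit 208))))))) (XT.nd (nat_lit 50466) (nat_lit 0) (nat_lit 3420) (XT.nd (nat_lit 49920) (nat_lit 0) (nat_lit 6840) (XT.nd (nat_lit 234) (nat_lit 152) (nat_lit 0) (XT.nd (nat_lit 78) (nat_lit 152) (nat_lit 0) (XT.lf (nat_lit 0) (nat_lit 7087518426) (nat_lit 76) (nat_lit 898991854015) (nat_lit 76) (nat_lit 140211042465) (nat_lit 27) (nat_lit 4) (nat_lit 28) (nat_lit 5) (nat_lit 28) (nat_lit 4) (nat_lit 428) (nat_lit 385) (nat_lit 207)) (XT.nd (nat_lit 78) (nat_lit 76) (nat_lit 0) (XT.lf (nat_lit 0) (nat_lit 230020158070) (nat_lit 152) (nat_lit 287239550653) (nat_lit 76) (nat_lit 591090144534) (nat_lit 26) (nat_lit 5) (nat_lit 28) (nat_lit 5) (nat_lit 27) (nat_lit 4) (nat_lit 429) (nat_lit 385) (nat_lit 206)) (XT.lf (nat_lit 0) (nat_lit 539793270967) (nat_lit 76) (nat_lit 93657560317) (nat_lit 152) (nat_lit 541383623887) (nat_lit 25) (nat_lit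 5) (nat_lit 26) (nat_lit 5) (nat_lit 27) (nat_lit 4) (nat_lit 430) (nat_lit 385) (nat_lit 205)))) (XT.nd (nat_lit 78) (nat_lit 76) (nat_lit 0) (XT.lf (nat_lit 0) (nat_lit 197414183943) (nat_lit 76) (nat_lit 885589897249) (nat_lit 76) (nat_lit 162941337910) (nat_lit 24) (nat_lit 4) (nat_lit 25) (nat_lit 5) (nat_lit 25) (nat_lit 4) (nat_lit 431) (nat_lit 385) (nat_lit 204)) (XT.nd (nat_lit 49530) (nat_lit 0) (nat_lit 7220) (XT.lf (nat_lit 0) (nat_lit 250732477564) (nat_lit 152) (nat_lit 208647028073) (nat_lit 76) (nat_lit 862532765445) (nat_lit 23) (nat_lit 5) (nat_lit 25) (nat_lit 5) (nat_lit 24) (nat_lit 4) (nat_lit 432) (nat_lit 385) (nat_lit 203)) (XT.lf (nat_lit 0) (nat_lit 19626073424) (nat_lit 836) (nat_lit 25237300795) (nat_lit 836) (nat_lit 25237300795) (nat_lit 118) (nat_lit 3) (nat_lit 129) (nat_lit 3) (nat_lit 129) (nat_lit 5) (nat_lit 386) (nat_lit 386) (nat_lit 248))))) (XT.nd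 (nat_lit 234) (nat_lit 456) (nat_lit 0) (XT.nd (nat_lit 78) (nat_lit 0) (nat_lit 0) (XT.lf (nat_lit 0) (nat_lit 42062643908) (nat_lit 760) (nat_lit 85607204020) (nat_lit 836) (nat_lit 18077532755) (nat_lit 119) (nat_lit 5) (nat_lit 129) (nat_lit 5) (nat_lit 130) (nat_lit 5) (nat_lit 387) (nat_lit 386) (nat_lit 247)) (XT.nd (nat_lit 78) (nat_lit 0) (nat_lit 76) (XT.lf (nat_lit 76) (nat_lit 29117708127) (nat_lit 0) (nat_lit 18840976192) (nat_lit 836) (nat_lit 103635374568) (nat_lit 120) (nat_lit 5) (nat_lit 119) (nat_lit 5) (nat_lit 130) (nat_lit 5) (nat_lit 388) (nat_lit 386) (nat_lit 246)) (XT.lf (nat_lit 0) (nat_lit 57382494772) (nat_lit 760) (nat_lit 3321951133) (nat_lit 836) (nat_lit 97051221359) (nat_lit 120) (nat_lit 5) (nat_lit 130) (nat_lit 5) (nat_lit 131) (nat_lit 5) (nat_lit 389) (nat_lit 386) (nat_lit 245)))) (XT.nd (nat_lit 156) (nat_lit 608) (nat_lit 0) (XT.nd (nat_lit 78) (nat_lit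 0) (nat_lit 76) (XT.lf (nat_lit 0) (nat_lit 70819985091) (nat_lit 760) (nat_lit 36037712244) (nat_lit 836) (nat_lit 57389518465) (nat_lit 121) (nat_lit 5) (nat_lit 131) (nat_lit 5) (nat_lit 132) (nat_lit 5) (nat_lit 390) (nat_lit 386) (nat_lit 244)) (XT.lf (nat_lit 0) (nat_lit 88205174447) (nat_lit 760) (nat_lit 69987529808) (nat_lit 836) (nat_lit 12921749195) (nat_lit 122) (nat_lit 5) (nat_lit 132) (nat_lit 5) (nat_lit 133) (nat_lit 5) (nat_lit 391) (nat_lit 386) (nat_lit 243))) (XT.nd (nat_lit 78) (nat_lit 684) (nat_lit 0) (XT.lf (nat_lit 76) (nat_lit 72561957802) (nat_lit 0) (nat_lit 37991595006) (nat_lit 836) (nat_lit 67798898817) (nat_lit 123) (nat_lit 5) (nat_lit 122) (nat_lit 5) (nat_lit 133) (nat_lit 5) (nat_lit 392) (nat_lit 386) (nat_lit 242)) (XT.lf (nat_lit 0) (nat_lit 42822738531) (nat_lit 760) (nat_lit 95208066518) (nat_lit 836) (nat_lit 47971634613) (nat_lit 113) (nat_lit 5)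 (nat_lit 123) (nat_lit 5) (nat_lit 124) (nat_lit 5) (nat_lit 393) (nat_lit 386) (nat_lit 241)))))) (XT.nd (nat_lit 468) (nat_lit 1596) (nat_lit 0) (XT.nd (nat_lit 234) (nat_lit 988) (nat_lit 0) (XT.nd (nat_lit 78) (nat_lit 456) (nat_lit 0) (XT.lf (nat_lit 0) (nat_lit 12121713166) (nat_lit 380) (nat_lit 158812666351) (nat_lit 456) (nat_lit 23168640300) (nat_lit 108) (nat_lit 5) (nat_lit 113) (nat_lit 5) (nat_lit 114) (nat_lit 5) (nat_lit 394) (nat_lit 386) (nat_lit 240)) (XT.nd (nat_lit 78) (nat_lit 380) (nat_lit 0) (XT.lf (nat_lit 0) (nat_lit 7642821842) (nat_lit 456) (nat_lit 19469884826) (nat_lit 76) (nat_lit 175529112757) (nat_lit 107) (nat_lit 5) (nat_lit 113) (nat_lit 5) (nat_lit 108) (nat_lit 5) (nat_lit 395) (nat_lit 386) (nat_lit 239)) (XT.lf (nat_lit 0) (nat_lit 44473504030) (nat_lit 456) (nat_lit 52765605860) (nat_lit 76) (nat_lit 114387321599) (nat_lit 102) (nat_lit 5) (nat_lit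 108) (nat_lit 5) (nat_lit 103) (nat_lit 5) (nat_lit 396) (nat_lit 386) (nat_lit 238)))) (XT.nd (nat_lit 78) (nat_lit 608) (nat_lit 0) (XT.lf (nat_lit 0) (nat_lit 87897229984) (nat_lit 456) (nat_lit 87238475637) (nat_lit 76) (nat_lit 46011777570) (nat_lit 97) (nat_lit 5) (nat_lit 103) (nat_lit 5) (nat_lit 98) (nat_lit 5) (nat_lit 397) (nat_lit 386) (nat_lit 237)) (XT.nd (nat_lit 78) (nat_lit 304) (nat_lit 0) (XT.lf (nat_lit 0) (nat_lit 107813274800) (nat_lit 304) (nat_lit 31238422663) (nat_lit 380) (nat_lit 92165679517) (nat_lit 93) (nat_lit 5) (nat_lit 97) (nat_lit 5) (nat_lit 98) (nat_lit 5) (nat_lit 398) (nat_lit 386) (nat_lit 236)) (XT.lf (nat_lit 0) (nat_lit 80169610767) (nat_lit 304) (nat_lit 118863536527) (nat_lit 380) (nat_lit 42822983845) (nat_lit 89) (nat_lit 5) (nat_lit 93) (nat_lit 5) (nat_lit 94) (nat_lit 5) (nat_lit 399) (nat_lit 386) (nat_lit 235))))) (XT.nd (nat_lit 234) (nat_lit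 988) (nat_lit 0) (XT.nd (nat_lit 78) (nat_lit 304) (nat_lit 0) (XT.lf (nat_lit 0) (nat_lit 14258359899) (nat_lit 304) (nat_lit 201621800382) (nat_lit 76) (nat_lit 37251342096) (nat_lit 85) (nat_lit 5) (nat_lit 89) (nat_lit 5) (nat_lit 86) (nat_lit 5) (nat_lit 400) (nat_lit 386) (nat_lit 234)) (XT.nd (nat_lit 78) (nat_lit 0) (nat_lit 0) (XT.lf (nat_lit 0) (nat_lit 20242408392) (nat_lit 304) (nat_lit 59366268737) (nat_lit 380) (nat_lit 185404986737) (nat_lit 81) (nat_lit 5) (nat_lit 85) (nat_lit 5) (nat_lit 86) (nat_lit 5) (nat_lit 401) (nat_lit 386) (nat_lit 233)) (XT.lf (nat_lit 0) (nat_lit 155468738419) (nat_lit 380) (nat_lit 12385287509) (nat_lit 76) (nat_lit 109728286496) (nat_lit 81) (nat_lit 5) (nat_lit 86) (nat_lit 5) (nat_lit 82) (nat_lit 5) (nat_lit 402) (nat_lit 386) (nat_lit 232)))) (XT.nd (nat_lit 156) (nat_lit 456) (nat_lit 0) (XT.nd (nat_lit 78) (nat_lit 304) (nat_lit 0) (XT.lf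 (nat_lit 0) (nat_lit 242280734015) (nat_lit 304) (nat_lit 45518934272) (nat_lit 76) (nat_lit 3112628190) (nat_lit 78) (nat_lit 5) (nat_lit 82) (nat_lit 5) (nat_lit 79) (nat_lit 5) (nat_lit 403) (nat_lit 386) (nat_lit 231)) (XT.lf (nat_lit 0) (nat_lit 36387594514) (nat_lit 304) (nat_lit 82318872664) (nat_lit 76) (nat_lit 186246118611) (nat_lit 74) (nat_lit 5) (nat_lit 78) (nat_lit 5) (nat_lit 75) (nat_lit 5) (nat_lit 404) (nat_lit 386) (nat_lit 230))) (XT.nd (nat_lit 78) (nat_lit 228) (nat_lit 0) (XT.lf (nat_lit 0) (nat_lit 131520694441) (nat_lit 304) (nat_lit 121620500350) (nat_lit 76) (nat_lit 66684230412) (nat_lit 71) (nat_lit 5) (nat_lit 75) (nat_lit 5) (nat_lit 72) (nat_lit 5) (nat_lit 405) (nat_lit 386) (nat_lit 229)) (XT.lf (nat_lit 0) (nat_lit 171766029016) (nat_lit 228) (nat_lit 68639045468) (nat_lit 304) (nat_lit 95175985740) (nat_lit 68) (nat_lit 5) (nat_lit 71) (nat_lit 5) (nat_lit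 72) (nat_lit 5) (nat_lit 406) (nat_lit 386) (nat_lit 228))))))))
noncomputable def xc111 : XT := (XT.nd (nat_lit 51558) (nat_lit 0) (nat_lit 2356) (XT.nd (nat_lit 1014) (nat_lit 1368) (nat_lit 0) (XT.nd (nat_lit 468) (nat_lit 988) (nat_lit 0) (XT.nd (nat_lit 234) (nat_lit 380) (nat_lit 0) (XT.nd (nat_lit 78) (nat_lit 380) (nat_lit 0) (XT.lf (nat_lit 0) (nat_lit 11760234890) (nat_lit 228) (nat_lit 209488512955) (nat_lit 76) (nat_lit 131017675030) (nat_lit 65) (nat_lit 5) (nat_lit 68) (nat_lit 5) (nat_lit 66) (nat_lit 5) (nat_lit 407) (nat_lit 386) (nat_lit 227)) (XT.nd (nat_lit 78) (nat_lit 152) (nat_lit 0) (XT.lf (nat_lit 0) (nat_lit 110326008463) (nat_lit 228) (nat_lit 19415470344) (nat_lit 304) (nat_lit 240175891249) (nat_lit 62) (nat_lit 5) (nat_lit 65) (nat_lit 5) (nat_lit 66) (nat_lit 5) (nat_lit 408) (nat_lit 386) (nat_lit 226)) (XT.lf (nat_lit 0) (nat_lit 73604104823) (nat_lit 152)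 (nat_lit 191515255559) (nat_lit 228) (nat_lit 123463125767) (nat_lit 60) (nat_lit 5) (nat_lit 62) (nat_lit 5) (nat_lit 63) (nat_lit 5) (nat_lit 409) (nat_lit 386) (nat_lit 225)))) (XT.nd (nat_lit 78) (nat_lit 152) (nat_lit 0) (XT.lf (nat_lit 0) (nat_lit 8391985537) (nat_lit 228) (nat_lit 374000764366) (nat_lit 76) (nat_lit 26051636721) (nat_lit 57) (nat_lit 5) (nat_lit 60) (nat_lit 5) (nat_lit 58) (nat_lit 5) (nat_lit 410) (nat_lit 386) (nat_lit 224)) (XT.nd (nat_lit 78) (nat_lit 152) (nat_lit 0) (XT.lf (nat_lit 0) (nat_lit 155333609331) (nat_lit 228) (nat_lit 11955027474) (nat_lit 76) (nat_lit 262062220582) (nat_lit 57) (nat_lit 5) (nat_lit 60) (nat_lit 5) (nat_lit 58) (nat_lit 5) (nat_lit 411) (nat_lit 386) (nat_lit 223)) (XT.lf (nat_lit 0) (nat_lit 321259637083) (nat_lit 228) (nat_lit 61152194089) (nat_lit 76) (nat_lit 69156560969) (nat_lit 55) (nat_lit 5) (nat_lit 58) (nat_lit 5) (nat_lit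 56) (nat_lit 5) (nat_lit 412) (nat_lit 386) (nat_lit 222))))) (XT.nd (nat_lit 234) (nat_lit 456) (nat_lit 0) (XT.nd (nat_lit 78) (nat_lit 304) (nat_lit 0) (XT.lf (nat_lit 0) (nat_lit 32870578147) (nat_lit 228) (nat_lit 117161053580) (nat_lit 76) (nat_lit 325073712757) (nat_lit 52) (nat_lit 5) (nat_lit 55) (nat_lit 5) (nat_lit 53) (nat_lit 5) (nat_lit 413) (nat_lit 386) (nat_lit 221)) (XT.nd (nat_lit 78) (nat_lit 152) (nat_lit 0) (XT.lf (nat_lit 0) (nat_lit 212395228204) (nat_lit 228) (nat_lit 181505424476) (nat_lit 76) (nat_lit 106124972197) (nat_lit 50) (nat_lit 5) (nat_lit 53) (nat_lit 5) (nat_lit 51) (nat_lit 5) (nat_lit 414) (nat_lit 386) (nat_lit 220)) (XT.lf (nat_lit 0) (nat_lit 272562492383) (nat_lit 152) (nat_lit 142578839655) (nat_lit 228) (nat_lit 111355221602) (nat_lit 48) (nat_lit 5) (nat_lit 50) (nat_lit 5) (nat_lit 51) (nat_lit 5) (nat_lit 415) (nat_lit 386) (nat_lit 219))))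 (XT.nd (nat_lit 156) (nat_lit 152) (nat_lit 0) (XT.nd (nat_lit 78) (nat_lit 152) (nat_lit 0) (XT.lf (nat_lit 0) (nat_lit 85286274929) (nat_lit 152) (nat_lit 336557159935) (nat_lit 76) (nat_lit 132740358947) (nat_lit 46) (nat_lit 5) (nat_lit 48) (nat_lit 5) (nat_lit 47) (nat_lit 5) (nat_lit 416) (nat_lit 386) (nat_lit 218)) (XT.lf (nat_lit 0) (nat_lit 152646384396) (nat_lit 152) (nat_lit 150446669806) (nat_lit 228) (nat_lit 281266918866) (nat_lit 44) (nat_lit 5) (nat_lit 46) (nat_lit 5) (nat_lit 47) (nat_lit 5) (nat_lit 417) (nat_lit 386) (nat_lit 217))) (XT.nd (nat_lit 78) (nat_lit 76) (nat_lit 0) (XT.lf (nat_lit 0) (nat_lit 76917643416) (nat_lit 76) (nat_lit 470793595640) (nat_lit 152) (nat_lit 68337664467) (nat_lit 43) (nat_lit 5) (nat_lit 44) (nat_lit 5) (nat_lit 45) (nat_lit 4) (nat_lit 418) (nat_lit 386) (nat_lit 216)) (XT.lf (nat_lit 0) (nat_lit 166633049103) (nat_lit 152) (nat_lit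 13424914724) (nat_lit 76) (nat_lit 469579805020) (nat_lit 42) (nat_lit 5) (nat_lit 44) (nat_lit 5) (nat_lit 43) (nat_lit 5) (nat_lit 419) (nat_lit 386) (nat_lit 215)))))) (XT.nd (nat_lit 468) (nat_lit 608) (nat_lit 0) (XT.nd (nat_lit 234) (nat_lit 304) (nat_lit 0) (XT.nd (nat_lit 78) (nat_lit 304) (nat_lit 0) (XT.lf (nat_lit 0) (nat_lit 429217742953) (nat_lit 228) (nat_lit 116190014497) (nat_lit 76) (nat_lit 139889444382) (nat_lit 40) (nat_lit 5) (nat_lit 43) (nat_lit 5) (nat_lit 41) (nat_lit 4) (nat_lit 420) (nat_lit 386) (nat_lit 214)) (XT.nd (nat_lit 78) (nat_lit 152) (nat_lit 0) (XT.lf (nat_lit 0) (nat_lit 415061473) (nat_lit 152) (nat_lit 235785792990) (nat_lit 76) (nat_lit 487063963973) (nat_lit 38) (nat_lit 5) (nat_lit 40) (nat_lit 5) (nat_lit 39) (nat_lit 5) (nat_lit 421) (nat_lit 386) (nat_lit 213)) (XT.lf (nat_lit 0) (nat_lit 278413602513) (nat_lit 228) (nat_lit 377906058563) (nat_lit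 76) (nat_lit 107242470317) (nat_lit 36) (nat_lit 5) (nat_lit 39) (nat_lit 5) (nat_lit 37) (nat_lit 4) (nat_lit 422) (nat_lit 386) (nat_lit 212)))) (XT.nd (nat_lit 78) (nat_lit 228) (nat_lit 0) (XT.lf (nat_lit 0) (nat_lit 262713461043) (nat_lit 76) (nat_lit 328197520502) (nat_lit 152) (nat_lit 215559300117) (nat_lit 35) (nat_lit 5) (nat_lit 36) (nat_lit 5) (nat_lit 37) (nat_lit 4) (nat_lit 423) (nat_lit 386) (nat_lit 211)) (XT.nd (nat_lit 78) (nat_lit 0) (nat_lit 0) (XT.lf (nat_lit 0) (nat_lit 82279778791) (nat_lit 228) (nat_lit 734806596884) (nat_lit 76) (nat_lit 35210579679) (nat_lit 32) (nat_lit 5) (nat_lit 35) (nat_lit 5) (nat_lit 33) (nat_lit 4) (nat_lit 424) (nat_lit 386) (nat_lit 210)) (XT.lf (nat_lit 0) (nat_lit 411655901064) (nat_lit 228) (nat_lit 59585633925) (nat_lit 76) (nat_lit 429608436767) (nat_lit 32) (nat_lit 5) (nat_lit 35) (nat_lit 5) (nat_lit 33) (nat_lit 4) (nat_lit 425)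 (nat_lit 386) (nat_lit 209))))) (XT.nd (nat_lit 234) (nat_lit 304) (nat_lit 0) (XT.nd (nat_lit 78) (nat_lit 228) (nat_lit 0) (XT.lf (nat_lit 0) (nat_lit 691794617148) (nat_lit 76) (nat_lit 86388275271) (nat_lit 152) (nat_lit 174564298095) (nat_lit 31) (nat_lit 5) (nat_lit 32) (nat_lit 5) (nat_lit 33) (nat_lit 4) (nat_lit 426) (nat_lit 386) (nat_lit 208)) (XT.nd (nat_lit 78) (nat_lit 76) (nat_lit 0) (XT.lf (nat_lit 0) (nat_lit 174301853947) (nat_lit 152) (nat_lit 503138711315) (nat_lit 76) (nat_lit 330508902933) (nat_lit 29) (nat_lit 5) (nat_lit 31) (nat_lit 5) (nat_lit 30) (nat_lit 4) (nat_lit 427) (nat_lit 386) (nat_lit 207)) (XT.lf (nat_lit 0) (nat_lit 278243792359) (nat_lit 76) (nat_lit 277220290845) (nat_lit 152) (nat_lit 511435626015) (nat_lit 28) (nat_lit 5) (nat_lit 29) (nat_lit 5) (nat_lit 30) (nat_lit 4) (nat_lit 428) (nat_lit 386) (nat_lit 206)))) (XT.nd (nat_lit 156) (nat_lit 152)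 (nat_lit 0) (XT.nd (nat_lit 78) (nat_lit 76) (nat_lit 0) (XT.lf (nat_lit 0) (nat_lit 7657075741) (nat_lit 76) (nat_lit 970909985774) (nat_lit 76) (nat_lit 151426519484) (nat_lit 27) (nat_lit 4) (nat_lit 28) (nat_lit 5) (nat_lit 28) (nat_lit 4) (nat_lit 429) (nat_lit 386) (nat_lit 205)) (XT.lf (nat_lit 0) (nat_lit 248423031239) (nat_lit 152) (nat_lit 310216306388) (nat_lit 76) (nat_lit 638378440745) (nat_lit 26) (nat_lit 5) (nat_lit 28) (nat_lit 5) (nat_lit 27) (nat_lit 4) (nat_lit 430) (nat_lit 386) (nat_lit 204))) (XT.nd (nat_lit 78) (nat_lit 76) (nat_lit 0) (XT.lf (nat_lit 0) (nat_lit 582979036300) (nat_lit 76) (nat_lit 101149064605) (nat_lit 152) (nat_lit 584693050413) (nat_lit 25) (nat_lit 5) (nat_lit 26) (nat_lit 5) (nat_lit 27) (nat_lit 4) (nat_lit 431) (nat_lit 386) (nat_lit 203)) (XT.lf (nat_lit 0) (nat_lit 213209563412) (nat_lit 76) (nat_lit 956436009231) (nat_lit 76) (nat_lit 175975421638)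 (nat_lit 24) (nat_lit 4) (nat_lit 25) (nat_lit 5) (nat_lit 25) (nat_lit 4) (nat_lit 432) (nat_lit 386) (nat_lit 202))))))) (XT.nd (nat_lit 1014) (nat_lit 2888) (nat_lit 0) (XT.nd (nat_lit 468) (nat_lit 1900) (nat_lit 0) (XT.nd (nat_lit 234) (nat_lit 0) (nat_lit 152) (XT.nd (nat_lit 78) (nat_lit 0) (nat_lit 76) (XT.lf (nat_lit 0) (nat_lit 21201138096) (nat_lit 836) (nat_lit 27253669628) (nat_lit 836) (nat_lit 27253669628) (nat_lit 118) (nat_lit 3) (nat_lit 129) (nat_lit 3) (nat_lit 129) (nat_lit 5) (nat_lit 387) (nat_lit 387) (nat_lit 246)) (XT.nd (nat_lit 78) (nat_lit 0) (nat_lit 0) (XT.lf (nat_lit 0) (nat_lit 45436886475) (nat_lit 760) (nat_lit 92450240184) (nat_lit 836) (nat_lit 19519577882) (nat_lit 119) (nat_lit 5) (nat_lit 129) (nat_lit 5) (nat_lit 130) (nat_lit 5) (nat_lit 388) (nat_lit 387) (nat_lit 245)) (XT.lf (nat_lit 76) (nat_lit 31452424165) (nat_lit 0) (nat_lit 20351584910) (nat_lit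 836) (nat_lit 111917138352) (nat_lit 120) (nat_lit 5) (nat_lit 119) (nat_lit 5) (nat_lit 130) (nat_lit 5) (nat_lit 389) (nat_lit 387) (nat_lit 244)))) (XT.nd (nat_lit 78) (nat_lit 0) (nat_lit 76) (XT.lf (nat_lit 0) (nat_lit 61981036956) (nat_lit 760) (nat_lit 3582348372) (nat_lit 836) (nat_lit 104812333863) (nat_lit 120) (nat_lit 5) (nat_lit 130) (nat_lit 5) (nat_lit 131) (nat_lit 5) (nat_lit 390) (nat_lit 387) (nat_lit 243)) (XT.nd (nat_lit 78) (nat_lit 0) (nat_lit 76) (XT.lf (nat_lit 0) (nat_lit 76492982151) (nat_lit 760) (nat_lit 38915191505) (nat_lit 836) (nat_lit 61978445493) (nat_lit 121) (nat_lit 5) (nat_lit 131) (nat_lit 5) (nat_lit 132) (nat_lit 5) (nat_lit 391) (nat_lit 387) (nat_lit 242)) (XT.lf (nat_lit 0) (nat_lit 95268495798) (nat_lit 760) (nat_lit 75580859242) (nat_lit 836) (nat_lit 13953905609) (nat_lit 122) (nat_lit 5) (nat_lit 132) (nat_lit 5) (nat_lit 133) (nat_lit 5) (nat_lit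 392) (nat_lit 387) (nat_lit 241))))) (XT.nd (nat_lit 234) (nat_lit 1140) (nat_lit 0) (XT.nd (nat_lit 78) (nat_lit 1064) (nat_lit 0) (XT.lf (nat_lit 76) (nat_lit 78372340837) (nat_lit 0) (nat_lit 41031976653) (nat_lit 836) (nat_lit 73216002809) (nat_lit 123) (nat_lit 5) (nat_lit 122) (nat_lit 5) (nat_lit 133) (nat_lit 5) (nat_lit 393) (nat_lit 387) (nat_lit 240)) (XT.nd (nat_lit 78) (nat_lit 380) (nat_lit 0) (XT.lf (nat_lit 0) (nat_lit 46254077165) (nat_lit 760) (nat_lit 102825263650) (nat_lit 836) (nat_lit 51802987274) (nat_lit 113) (nat_lit 5) (nat_lit 123) (nat_lit 5) (nat_lit 124) (nat_lit 5) (nat_lit 394) (nat_lit 387) (nat_lit 239)) (XT.lf (nat_lit 0) (nat_lit 13097031553) (nat_lit 380) (nat_lit 171517799119) (nat_lit 456) (nat_lit 25016142748) (nat_lit 108) (nat_lit 5) (nat_lit 113) (nat_lit 5) (nat_lit 114) (nat_lit 5) (nat_lit 395) (nat_lit 387) (nat_lit 238)))) (XT.nd (nat_lit 156)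 (nat_lit 684) (nat_lit 0) (XT.nd (nat_lit 78) (nat_lit 380) (nat_lit 0) (XT.lf (nat_lit 0) (nat_lit 8259615273) (nat_lit 456) (nat_lit 21022127635) (nat_lit 76) (nat_lit 189571151092) (nat_lit 107) (nat_lit 5) (nat_lit 113) (nat_lit 5) (nat_lit 108) (nat_lit 5) (nat_lit 396) (nat_lit 387) (nat_lit 237)) (XT.lf (nat_lit 0) (nat_lit 48036435323) (nat_lit 456) (nat_lit 56981484893) (nat_lit 76) (nat_lit 123538370842) (nat_lit 102) (nat_lit 5) (nat_lit 108) (nat_lit 5) (nat_lit 103) (nat_lit 5) (nat_lit 397) (nat_lit 387) (nat_lit 236))) (XT.nd (nat_lit 78) (nat_lit 304) (nat_lit 0) (XT.lf (nat_lit 0) (nat_lit 94933771314) (nat_lit 456) (nat_lit 94212183445) (nat_lit 76) (nat_lit 49693086716) (nat_lit 97) (nat_lit 5) (nat_lit 103) (nat_lit 5) (nat_lit 98) (nat_lit 5) (nat_lit 398) (nat_lit 387) (nat_lit 235)) (XT.lf (nat_lit 0) (nat_lit 116443473644) (nat_lit 304) (nat_lit 33736849939) (nat_lit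 380) (nat_lit 99534216980) (nat_lit 93) (nat_lit 5) (nat_lit 97) (nat_lit 5) (nat_lit 98) (nat_lit 5) (nat_lit 399) (nat_lit 387) (nat_lit 234)))))) (XT.nd (nat_lit 546) (nat_lit 1216) (nat_lit 0) (XT.nd (nat_lit 234) (nat_lit 760) (nat_lit 0) (XT.nd (nat_lit 78) (nat_lit 608) (nat_lit 0) (XT.lf (nat_lit 0) (nat_lit 86588300319) (nat_lit 304) (nat_lit 128371745759) (nat_lit 380) (nat_lit 46244361295) (nat_lit 89) (nat_lit 5) (nat_lit 93) (nat_lit 5) (nat_lit 94) (nat_lit 5) (nat_lit 400) (nat_lit 387) (nat_lit 233)) (XT.nd (nat_lit 78) (nat_lit 304) (nat_lit 0) (XT.lf (nat_lit 0) (nat_lit 15403120885) (nat_lit 304) (nat_lit 217746317374) (nat_lit 76) (nat_lit 40232378017) (nat_lit 85) (nat_lit 5) (nat_lit 89) (nat_lit 5) (nat_lit 86) (nat_lit 5) (nat_lit 401) (nat_lit 387) (nat_lit 232)) (XT.lf (nat_lit 0) (nat_lit 21866800941) (nat_lit 304) (nat_lit 64114437488) (nat_lit 380) (nat_lit 200233323632)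 (nat_lit 81) (nat_lit 5) (nat_lit 85) (nat_lit 5) (nat_lit 86) (nat_lit 5) (nat_lit 402) (nat_lit 387) (nat_lit 231)))) (XT.nd (nat_lit 156) (nat_lit 532) (nat_lit 0) (XT.nd (nat_lit 78) (nat_lit 228) (nat_lit 0) (XT.lf (nat_lit 0) (nat_lit 167909834544) (nat_lit 380) (nat_lit 13371316893) (nat_lit 76) (nat_lit 118507564686) (nat_lit 81) (nat_lit 5) (nat_lit 86) (nat_lit 5) (nat_lit 82) (nat_lit 5) (nat_lit 403) (nat_lit 387) (nat_lit 230)) (XT.lf (nat_lit 0) (nat_lit 261666613400) (nat_lit 304) (nat_lit 49155710748) (nat_lit 76) (nat_lit 3362783678) (nat_lit 78) (nat_lit 5) (nat_lit 82) (nat_lit 5) (nat_lit 79) (nat_lit 5) (nat_lit 404) (nat_lit 387) (nat_lit 229))) (XT.nd (nat_lit 78) (nat_lit 228) (nat_lit 0) (XT.lf (nat_lit 0) (nat_lit 39301894399) (nat_lit 304) (nat_lit 88899740095) (nat_lit 76) (nat_lit 201146992366) (nat_lit 74) (nat_lit 5) (nat_lit 78) (nat_lit 5) (nat_lit 75) (nat_lit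 5) (nat_lit 405) (nat_lit 387) (nat_lit 228)) (XT.lf (nat_lit 0) (nat_lit 142045488428) (nat_lit 304) (nat_lit 131345563422) (nat_lit 76) (nat_lit 72020249358) (nat_lit 71) (nat_lit 5) (nat_lit 75) (nat_lit 5) (nat_lit 72) (nat_lit 5) (nat_lit 406) (nat_lit 387) (nat_lit 227))))) (XT.nd (nat_lit 234) (nat_lit 532) (nat_lit 0) (XT.nd (nat_lit 78) (nat_lit 456) (nat_lit 0) (XT.lf (nat_lit 0) (nat_lit 185511689385) (nat_lit 228) (nat_lit 74128765368) (nat_lit 304) (nat_lit 102786940566) (nat_lit 68) (nat_lit 5) (nat_lit 71) (nat_lit 5) (nat_lit 72) (nat_lit 5) (nat_lit 407) (nat_lit 387) (nat_lit 226)) (XT.nd (nat_lit 78) (nat_lit 228) (nat_lit 0) (XT.lf (nat_lit 0) (nat_lit 12703942743) (nat_lit 228) (nat_lit 226243187539) (nat_lit 76) (nat_lit 141500461080) (nat_lit 65) (nat_lit 5) (nat_lit 68) (nat_lit 5) (nat_lit 66) (nat_lit 5) (nat_lit 408) (nat_lit 387) (nat_lit 225)) (XT.lf (nat_lit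 0) (nat_lit 119156304093) (nat_lit 228) (nat_lit 20967233883) (nat_lit 304) (nat_lit 259387083817) (nat_lit 62) (nat_lit 5) (nat_lit 65) (nat_lit 5) (nat_lit 66) (nat_lit 5) (nat_lit 409) (nat_lit 387) (nat_lit 224)))) (XT.nd (nat_lit 156) (nat_lit 152) (nat_lit 0) (XT.nd (nat_lit 78) (nat_lit 228) (nat_lit 0) (XT.lf (nat_lit 0) (nat_lit 79496574846) (nat_lit 152) (nat_lit 206834958176) (nat_lit 228) (nat_lit 133337420065) (nat_lit 60) (nat_lit 5) (nat_lit 62) (nat_lit 5) (nat_lit 63) (nat_lit 5) (nat_lit 410) (nat_lit 387) (nat_lit 223)) (XT.lf (nat_lit 0) (nat_lit 9065901156) (nat_lit 228) (nat_lit 403916675105) (nat_lit 76) (nat_lit 28137232781) (nat_lit 57) (nat_lit 5) (nat_lit 60) (nat_lit 5) (nat_lit 58) (nat_lit 5) (nat_lit 411) (nat_lit 387) (nat_lit 222))) (XT.nd (nat_lit 78) (nat_lit 152) (nat_lit 0) (XT.lf (nat_lit 0) (nat_lit 167762665463) (nat_lit 228) (nat_lit 12907586699) (nat_lit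 76) (nat_lit 283028554823) (nat_lit 57) (nat_lit 5) (nat_lit 60) (nat_lit 5) (nat_lit 58) (nat_lit 5) (nat_lit 412) (nat_lit 387) (nat_lit 221)) (XT.lf (nat_lit 0) (nat_lit 346962679738) (nat_lit 228) (nat_lit 66040602879) (nat_lit 76) (nat_lit 74690466734) (nat_lit 55) (nat_lit 5) (nat_lit 58) (nat_lit 5) (nat_lit 56) (nat_lit 5) (nat_lit 413) (nat_lit 387) (nat_lit 220))))))))
noncomputable def xc112 : XT := (XT.nd (nat_lit 51636) (nat_lit 0) (nat_lit 1368) (XT.nd (nat_lit 1014) (nat_lit 532) (nat_lit 0) (XT.nd (nat_lit 468) (nat_lit 836) (nat_lit 0) (XT.nd (nat_lit 234) (nat_lit 380) (nat_lit 0) (XT.nd (nat_lit 78) (nat_lit 304) (nat_lit 0) (XT.lf (nat_lit 0) (nat_lit 35502419989) (nat_lit 228) (nat_lit 126530261722) (nat_lit 76) (nat_lit 351080980043) (nat_lit 52) (nat_lit 5) (nat_lit 55) (nat_lit 5) (nat_lit 53) (nat_lit 5) (nat_lit 414) (nat_lit 387) (nat_lit 219)) (XT.nd (nat_lit 78)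 (nat_lit 152) (nat_lit 0) (XT.lf (nat_lit 0) (nat_lit 229388956618) (nat_lit 228) (nat_lit 196022259490) (nat_lit 76) (nat_lit 114616352780) (nat_lit 50) (nat_lit 5) (nat_lit 53) (nat_lit 5) (nat_lit 51) (nat_lit 5) (nat_lit 415) (nat_lit 387) (nat_lit 218)) (XT.lf (nat_lit 0) (nat_lit 294370934311) (nat_lit 152) (nat_lit 153983711886) (nat_lit 228) (nat_lit 120261530916) (nat_lit 48) (nat_lit 5) (nat_lit 50) (nat_lit 5) (nat_lit 51) (nat_lit 5) (nat_lit 416) (nat_lit 387) (nat_lit 217)))) (XT.nd (nat_lit 78) (nat_lit 228) (nat_lit 0) (XT.lf (nat_lit 0) (nat_lit 92111141203) (nat_lit 152) (nat_lit 363478299463) (nat_lit 76) (nat_lit 143360958051) (nat_lit 46) (nat_lit 5) (nat_lit 48) (nat_lit 5) (nat_lit 47) (nat_lit 5) (nat_lit 417) (nat_lit 387) (nat_lit 216)) (XT.nd (nat_lit 78) (nat_lit 76) (nat_lit 0) (XT.lf (nat_lit 0) (nat_lit 164861379209) (nat_lit 152) (nat_lit 162480989380) (nat_lit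 228) (nat_lit 303766308465) (nat_lit 44) (nat_lit 5) (nat_lit 46) (nat_lit 5) (nat_lit 47) (nat_lit 5) (nat_lit 418) (nat_lit 387) (nat_lit 215)) (XT.lf (nat_lit 0) (nat_lit 83074264892) (nat_lit 76) (nat_lit 508455675376) (nat_lit 152) (nat_lit 73802785103) (nat_lit 43) (nat_lit 5) (nat_lit 44) (nat_lit 5) (nat_lit 45) (nat_lit 4) (nat_lit 419) (nat_lit 387) (nat_lit 214))))) (XT.nd (nat_lit 234) (nat_lit 456) (nat_lit 0) (XT.nd (nat_lit 78) (nat_lit 304) (nat_lit 0) (XT.lf (nat_lit 0) (nat_lit 179965389281) (nat_lit 152) (nat_lit 14495879301) (nat_lit 76) (nat_lit 507147436671) (nat_lit 42) (nat_lit 5) (nat_lit 44) (nat_lit 5) (nat_lit 43) (nat_lit 5) (nat_lit 420) (nat_lit 387) (nat_lit 213)) (XT.nd (nat_lit 78) (nat_lit 152) (nat_lit 0) (XT.lf (nat_lit 0) (nat_lit 463556798223) (nat_lit 228) (nat_lit 125482257617) (nat_lit 76) (nat_lit 151081840078) (nat_lit 40) (nat_lit 5) (nat_lit 43)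 (nat_lit 5) (nat_lit 41) (nat_lit 4) (nat_lit 421) (nat_lit 387) (nat_lit 212)) (XT.lf (nat_lit 0) (nat_lit 449851024) (nat_lit 152) (nat_lit 254645774309) (nat_lit 76) (nat_lit 526030299109) (nat_lit 38) (nat_lit 5) (nat_lit 40) (nat_lit 5) (nat_lit 39) (nat_lit 5) (nat_lit 422) (nat_lit 387) (nat_lit 211)))) (XT.nd (nat_lit 156) (nat_lit 228) (nat_lit 0) (XT.nd (nat_lit 78) (nat_lit 76) (nat_lit 0) (XT.lf (nat_lit 0) (nat_lit 300688220471) (nat_lit 228) (nat_lit 408135730109) (nat_lit 76) (nat_lit 115823074616) (nat_lit 36) (nat_lit 5) (nat_lit 39) (nat_lit 5) (nat_lit 37) (nat_lit 4) (nat_lit 423) (nat_lit 387) (nat_lit 210)) (XT.lf (nat_lit 0) (nat_lit 283733228809) (nat_lit 76) (nat_lit 354452089713) (nat_lit 152) (nat_lit 232802512546) (nat_lit 35) (nat_lit 5) (nat_lit 36) (nat_lit 5) (nat_lit 37) (nat_lit 4) (nat_lit 424) (nat_lit 387) (nat_lit 209))) (XT.nd (nat_lit 78) (nat_lit 0)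 (nat_lit 0) (XT.lf (nat_lit 0) (nat_lit 88863593607) (nat_lit 228) (nat_lit 793588451606) (nat_lit 76) (nat_lit 38028594764) (nat_lit 32) (nat_lit 5) (nat_lit 35) (nat_lit 5) (nat_lit 33) (nat_lit 4) (nat_lit 425) (nat_lit 387) (nat_lit 208)) (XT.lf (nat_lit 0) (nat_lit 444589699550) (nat_lit 228) (nat_lit 64350009613) (nat_lit 76) (nat_lit 463978193847) (nat_lit 32) (nat_lit 5) (nat_lit 35) (nat_lit 5) (nat_lit 33) (nat_lit 4) (nat_lit 426) (nat_lit 387) (nat_lit 207)))))) (XT.nd (nat_lit 50076) (nat_lit 0) (nat_lit 7068) (XT.nd (nat_lit 234) (nat_lit 228) (nat_lit 0) (XT.nd (nat_lit 78) (nat_lit 228) (nat_lit 0) (XT.lf (nat_lit 0) (nat_lit 747140553985) (nat_lit 76) (nat_lit 93298234940) (nat_lit 152) (nat_lit 188528113422) (nat_lit 31) (nat_lit 5) (nat_lit 32) (nat_lit 5) (nat_lit 33) (nat_lit 4) (nat_lit 427) (nat_lit 387) (nat_lit 206)) (XT.nd (nat_lit 78) (nat_lit 76) (nat_lit 0) (XT.lf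 (nat_lit 0) (nat_lit 188247245838) (nat_lit 152) (nat_lit 543387458198) (nat_lit 76) (nat_lit 356950659300) (nat_lit 29) (nat_lit 5) (nat_lit 31) (nat_lit 5) (nat_lit 30) (nat_lit 4) (nat_lit 428) (nat_lit 387) (nat_lit 205)) (XT.lf (nat_lit 0) (nat_lit 300505543641) (nat_lit 76) (nat_lit 299396852774) (nat_lit 152) (nat_lit 552349230089) (nat_lit 28) (nat_lit 5) (nat_lit 29) (nat_lit 5) (nat_lit 30) (nat_lit 4) (nat_lit 429) (nat_lit 387) (nat_lit 204)))) (XT.nd (nat_lit 78) (nat_lit 152) (nat_lit 0) (XT.lf (nat_lit 0) (nat_lit 8271833022) (nat_lit 76) (nat_lit 1048581741630) (nat_lit 76) (nat_lit 163539435299) (nat_lit 27) (nat_lit 4) (nat_lit 28) (nat_lit 5) (nat_lit 28) (nat_lit 4) (nat_lit 430) (nat_lit 387) (nat_lit 203)) (XT.nd (nat_lit 78) (nat_lit 76) (nat_lit 0) (XT.lf (nat_lit 0) (nat_lit 268297954434) (nat_lit 152) (nat_lit 335031546154) (nat_lit 76) (nat_lit 689449645916) (nat_lit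 26) (nat_lit 5) (nat_lit 28) (nat_lit 5) (nat_lit 27) (nat_lit 4) (nat_lit 431) (nat_lit 387) (nat_lit 202)) (XT.lf (nat_lit 0) (nat_lit 629619334217) (nat_lit 76) (nat_lit 109240046241) (nat_lit 152) (nat_lit 631467411297) (nat_lit 25) (nat_lit 5) (nat_lit 26) (nat_lit 5) (nat_lit 27) (nat_lit 4) (nat_lit 432) (nat_lit 387) (nat_lit 201))))) (XT.nd (nat_lit 234) (nat_lit 0) (nat_lit 152) (XT.nd (nat_lit 78) (nat_lit 0) (nat_lit 76) (XT.lf (nat_lit 0) (nat_lit 22901497661) (nat_lit 836) (nat_lit 29431721059) (nat_lit 836) (nat_lit 29431721059) (nat_lit 118) (nat_lit 3) (nat_lit 129) (nat_lit 3) (nat_lit 129) (nat_lit 5) (nat_lit 388) (nat_lit 388) (nat_lit 244)) (XT.nd (nat_lit 78) (nat_lit 0) (nat_lit 0) (XT.lf (nat_lit 0) (nat_lit 49079751534) (nat_lit 760) (nat_lit 99841509607) (nat_lit 836) (nat_lit 21077579733) (nat_lit 119) (nat_lit 5) (nat_lit 129) (nat_lit 5) (nat_lit 130) (nat_lit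 5) (nat_lit 389) (nat_lit 388) (nat_lit 243)) (XT.lf (nat_lit 76) (nat_lit 33973161470) (nat_lit 0) (nat_lit 21982567174) (nat_lit 836) (nat_lit 120862736632) (nat_lit 120) (nat_lit 5) (nat_lit 119) (nat_lit 5) (nat_lit 130) (nat_lit 5) (nat_lit 390) (nat_lit 388) (nat_lit 242)))) (XT.nd (nat_lit 156) (nat_lit 0) (nat_lit 152) (XT.nd (nat_lit 78) (nat_lit 0) (nat_lit 76) (XT.lf (nat_lit 0) (nat_lit 66946329414) (nat_lit 760) (nat_lit 3864341892) (nat_lit 836) (nat_lit 113194761240) (nat_lit 120) (nat_lit 5) (nat_lit 130) (nat_lit 5) (nat_lit 131) (nat_lit 5) (nat_lit 391) (nat_lit 388) (nat_lit 241)) (XT.lf (nat_lit 0) (nat_lit 82618763532) (nat_lit 760) (nat_lit 42023659124) (nat_lit 836) (nat_lit 66934805452) (nat_lit 121) (nat_lit 5) (nat_lit 131) (nat_lit 5) (nat_lit 132) (nat_lit 5) (nat_lit 392) (nat_lit 388) (nat_lit 240))) (XT.nd (nat_lit 78) (nat_lit 0) (nat_lit 0) (XT.lf (nat_lit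 0) (nat_lit 102895897440) (nat_lit 760) (nat_lit 81622464341) (nat_lit 836) (nat_lit 15068860444) (nat_lit 122) (nat_lit 5) (nat_lit 132) (nat_lit 5) (nat_lit 133) (nat_lit 5) (nat_lit 393) (nat_lit 388) (nat_lit 239)) (XT.lf (nat_lit 76) (nat_lit 84646780377) (nat_lit 0) (nat_lit 44315438461) (nat_lit 836) (nat_lit 79067446346) (nat_lit 123) (nat_lit 5) (nat_lit 122) (nat_lit 5) (nat_lit 133) (nat_lit 5) (nat_lit 394) (nat_lit 388) (nat_lit 238))))))) (XT.nd (nat_lit 1014) (nat_lit 2128) (nat_lit 0) (XT.nd (nat_lit 468) (nat_lit 1672) (nat_lit 0) (XT.nd (nat_lit 234) (nat_lit 1064) (nat_lit 0) (XT.nd (nat_lit 78) (nat_lit 456) (nat_lit 0) (XT.lf (nat_lit 0) (nat_lit 49959135464) (nat_lit 760) (nat_lit 111051757831) (nat_lit 836) (nat_lit 55941758056) (nat_lit 113) (nat_lit 5) (nat_lit 123) (nat_lit 5) (nat_lit 124) (nat_lit 5) (nat_lit 395) (nat_lit 388) (nat_lit 237)) (XT.nd (nat_lit 78)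 (nat_lit 76) (nat_lit 0) (XT.lf (nat_lit 0) (nat_lit 14149579173) (nat_lit 380) (nat_lit 185239325466) (nat_lit 456) (nat_lit 27012299757) (nat_lit 108) (nat_lit 5) (nat_lit 113) (nat_lit 5) (nat_lit 114) (nat_lit 5) (nat_lit 396) (nat_lit 388) (nat_lit 236)) (XT.lf (nat_lit 0) (nat_lit 8924986419) (nat_lit 456) (nat_lit 22699312817) (nat_lit 76) (nat_lit 204736593964) (nat_lit 107) (nat_lit 5) (nat_lit 113) (nat_lit 5) (nat_lit 108) (nat_lit 5) (nat_lit 397) (nat_lit 388) (nat_lit 235)))) (XT.nd (nat_lit 78) (nat_lit 684) (nat_lit 0) (XT.lf (nat_lit 0) (nat_lit 51883680541) (nat_lit 456) (nat_lit 61535400258) (nat_lit 76) (nat_lit 133421494962) (nat_lit 102) (nat_lit 5) (nat_lit 108) (nat_lit 5) (nat_lit 103) (nat_lit 5) (nat_lit 398) (nat_lit 388) (nat_lit 234)) (XT.nd (nat_lit 78) (nat_lit 304) (nat_lit 0) (XT.lf (nat_lit 0) (nat_lit 102532556465) (nat_lit 456) (nat_lit 101744554002) (nat_lit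 76) (nat_lit 53668848246) (nat_lit 97) (nat_lit 5) (nat_lit 103) (nat_lit 5) (nat_lit 98) (nat_lit 5) (nat_lit 399) (nat_lit 388) (nat_lit 233)) (XT.lf (nat_lit 0) (nat_lit 125763355564) (nat_lit 304) (nat_lit 36435243633) (nat_lit 380) (nat_lit 107492910359) (nat_lit 93) (nat_lit 5) (nat_lit 97) (nat_lit 5) (nat_lit 98) (nat_lit 5) (nat_lit 400) (nat_lit 388) (nat_lit 232))))) (XT.nd (nat_lit 234) (nat_lit 760) (nat_lit 0) (XT.nd (nat_lit 78) (nat_lit 608) (nat_lit 0) (XT.lf (nat_lit 0) (nat_lit 93519754512) (nat_lit 304) (nat_lit 138640736370) (nat_lit 380) (nat_lit 49940085389) (nat_lit 89) (nat_lit 5) (nat_lit 93) (nat_lit 5) (nat_lit 94) (nat_lit 5) (nat_lit 401) (nat_lit 388) (nat_lit 231)) (XT.nd (nat_lit 78) (nat_lit 304) (nat_lit 0) (XT.lf (nat_lit 0) (nat_lit 16638878952) (nat_lit 304) (nat_lit 235161541421) (nat_lit 76) (nat_lit 43451764344) (nat_lit 85) (nat_lit 5) (nat_lit 89)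 (nat_lit 5) (nat_lit 86) (nat_lit 5) (nat_lit 402) (nat_lit 388) (nat_lit 230)) (XT.lf (nat_lit 0) (nat_lit 23620431606) (nat_lit 304) (nat_lit 69242621338) (nat_lit 380) (nat_lit 216248506974) (nat_lit 81) (nat_lit 5) (nat_lit 85) (nat_lit 5) (nat_lit 86) (nat_lit 5) (nat_lit 403) (nat_lit 388) (nat_lit 229)))) (XT.nd (nat_lit 156) (nat_lit 532) (nat_lit 0) (XT.nd (nat_lit 78) (nat_lit 228) (nat_lit 0) (XT.lf (nat_lit 0) (nat_lit 181345705199) (nat_lit 380) (nat_lit 14436912490) (nat_lit 76) (nat_lit 127989040293) (nat_lit 81) (nat_lit 5) (nat_lit 86) (nat_lit 5) (nat_lit 82) (nat_lit 5) (nat_lit 404) (nat_lit 388) (nat_lit 228)) (XT.lf (nat_lit 0) (nat_lit 282602875140) (nat_lit 304) (nat_lit 53084105309) (nat_lit 76) (nat_lit 3632788226) (nat_lit 78) (nat_lit 5) (nat_lit 82) (nat_lit 5) (nat_lit 79) (nat_lit 5) (nat_lit 405) (nat_lit 388) (nat_lit 227))) (XT.nd (nat_lit 78) (nat_lit 228)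 (nat_lit 0) (XT.lf (nat_lit 0) (nat_lit 42448868587) (nat_lit 304) (nat_lit 96007739207) (nat_lit 76) (nat_lit 217239767072) (nat_lit 74) (nat_lit 5) (nat_lit 78) (nat_lit 5) (nat_lit 75) (nat_lit 5) (nat_lit 406) (nat_lit 388) (nat_lit 226)) (XT.lf (nat_lit 0) (nat_lit 153411818202) (nat_lit 304) (nat_lit 141849284494) (nat_lit 76) (nat_lit 77782967140) (nat_lit 71) (nat_lit 5) (nat_lit 75) (nat_lit 5) (nat_lit 72) (nat_lit 5) (nat_lit 407) (nat_lit 388) (nat_lit 225)))))) (XT.nd (nat_lit 468) (nat_lit 1064) (nat_lit 0) (XT.nd (nat_lit 234) (nat_lit 380) (nat_lit 0) (XT.nd (nat_lit 78) (nat_lit 456) (nat_lit 0) (XT.lf (nat_lit 0) (nat_lit 200356378005) (nat_lit 228) (nat_lit 80057863118) (nat_lit 304) (nat_lit 111007217456) (nat_lit 68) (nat_lit 5) (nat_lit 71) (nat_lit 5) (nat_lit 72) (nat_lit 5) (nat_lit 408) (nat_lit 388) (nat_lit 224)) (XT.nd (nat_lit 78) (nat_lit 228) (nat_lit 0) (XT.lf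 (nat_lit 0) (nat_lit 13722735068) (nat_lit 228) (nat_lit 244338864719) (nat_lit 76) (nat_lit 152821674275) (nat_lit 65) (nat_lit 5) (nat_lit 68) (nat_lit 5) (nat_lit 66) (nat_lit 5) (nat_lit 409) (nat_lit 388) (nat_lit 223)) (XT.lf (nat_lit 0) (nat_lit 128692422063) (nat_lit 228) (nat_lit 22643348800) (nat_lit 304) (nat_lit 280135582473) (nat_lit 62) (nat_lit 5) (nat_lit 65) (nat_lit 5) (nat_lit 66) (nat_lit 5) (nat_lit 410) (nat_lit 388) (nat_lit 222)))) (XT.nd (nat_lit 78) (nat_lit 228) (nat_lit 0) (XT.lf (nat_lit 0) (nat_lit 85859851621) (nat_lit 152) (nat_lit 223380453537) (nat_lit 228) (nat_lit 144002051047) (nat_lit 60) (nat_lit 5) (nat_lit 62) (nat_lit 5) (nat_lit 63) (nat_lit 5) (nat_lit 411) (nat_lit 388) (nat_lit 221)) (XT.nd (nat_lit 78) (nat_lit 0) (nat_lit 0) (XT.lf (nat_lit 0) (nat_lit 9793365273) (nat_lit 228) (nat_lit 436226450806) (nat_lit 76) (nat_lit 30389467509) (nat_lit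 57) (nat_lit 5) (nat_lit 60) (nat_lit 5) (nat_lit 58) (nat_lit 5) (nat_lit 412) (nat_lit 388) (nat_lit 220)) (XT.lf (nat_lit 0) (nat_lit 181185708352) (nat_lit 228) (nat_lit 13936898906) (nat_lit 76) (nat_lit 305672002269) (nat_lit 57) (nat_lit 5) (nat_lit 60) (nat_lit 5) (nat_lit 58) (nat_lit 5) (nat_lit 413) (nat_lit 388) (nat_lit 219))))) (XT.nd (nat_lit 234) (nat_lit 532) (nat_lit 0) (XT.nd (nat_lit 78) (nat_lit 380) (nat_lit 0) (XT.lf (nat_lit 0) (nat_lit 374721641723) (nat_lit 228) (nat_lit 71320621740) (nat_lit 76) (nat_lit 80666887961) (nat_lit 55) (nat_lit 5) (nat_lit 58) (nat_lit 5) (nat_lit 56) (nat_lit 5) (nat_lit 414) (nat_lit 388) (nat_lit 218)) (XT.nd (nat_lit 78) (nat_lit 152) (nat_lit 0) (XT.lf (nat_lit 0) (nat_lit 38344495953) (nat_lit 228) (nat_lit 136649530959) (nat_lit 76) (nat_lit 379168633229) (nat_lit 52) (nat_lit 5) (nat_lit 55) (nat_lit 5) (nat_lit 53) (nat_lit 5)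 (nat_lit 415) (nat_lit 388) (nat_lit 217)) (XT.lf (nat_lit 0) (nat_lit 247741882267) (nat_lit 228) (nat_lit 211700954736) (nat_lit 76) (nat_lit 123786846537) (nat_lit 50) (nat_lit 5) (nat_lit 53) (nat_lit 5) (nat_lit 51) (nat_lit 5) (nat_lit 416) (nat_lit 388) (nat_lit 216)))) (XT.nd (nat_lit 156) (nat_lit 228) (nat_lit 0) (XT.nd (nat_lit 78) (nat_lit 152) (nat_lit 0) (XT.lf (nat_lit 0) (nat_lit 317923560478) (nat_lit 152) (nat_lit 166301178607) (nat_lit 228) (nat_lit 129880645765) (nat_lit 48) (nat_lit 5) (nat_lit 50) (nat_lit 5) (nat_lit 51) (nat_lit 5) (nat_lit 417) (nat_lit 388) (nat_lit 215)) (XT.lf (nat_lit 0) (nat_lit 99481716552) (nat_lit 152) (nat_lit 392553619947) (nat_lit 76) (nat_lit 154831009582) (nat_lit 46) (nat_lit 5) (nat_lit 48) (nat_lit 5) (nat_lit 47) (nat_lit 5) (nat_lit 418) (nat_lit 388) (nat_lit 214))) (XT.nd (nat_lit 78) (nat_lit 76) (nat_lit 0) (XT.lf (nat_lit 0)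 (nat_lit 178053105099) (nat_lit 152) (nat_lit 175478256244) (nat_lit 228) (nat_lit 328065929407) (nat_lit 44) (nat_lit 5) (nat_lit 46) (nat_lit 5) (nat_lit 47) (nat_lit 5) (nat_lit 419) (nat_lit 388) (nat_lit 213)) (XT.lf (nat_lit 0) (nat_lit 89722958144) (nat_lit 76) (nat_lit 549130922345) (nat_lit 152) (nat_lit 79705385379) (nat_lit 43) (nat_lit 5) (nat_lit 44) (nat_lit 5) (nat_lit 45) (nat_lit 4) (nat_lit 420) (nat_lit 388) (nat_lit 212))))))))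
noncomputable def xc113 : XT := (XT.nd (nat_lit 51714) (nat_lit 0) (nat_lit 380) (XT.nd (nat_lit 50700) (nat_lit 0) (nat_lit 4788) (XT.nd (nat_lit 468) (nat_lit 456) (nat_lit 0) (XT.nd (nat_lit 234) (nat_lit 456) (nat_lit 0) (XT.nd (nat_lit 78) (nat_lit 304) (nat_lit 0) (XT.lf (nat_lit 0) (nat_lit 194364074683) (nat_lit 152) (nat_lit 15652953108) (nat_lit 76) (nat_lit 547720300919) (nat_lit 42) (nat_lit 5) (nat_lit 44) (nat_lit 5) (nat_lit 43) (nat_lit 5) (nat_lit 421) (nat_lit 388) (nat_lit 211)) (XT.nd (nat_lit 78) (nat_lit 152) (nat_lit 0) (XT.lf (nat_lit 0) (nat_lit 500642744544) (nat_lit 228) (nat_lit 135518302184) (nat_lit 76) (nat_lit 163169450510) (nat_lit 40) (nat_lit 5) (nat_lit 43) (nat_lit 5) (nat_lit 41) (nat_lit 4) (nat_lit 422) (nat_lit 388) (nat_lit 210)) (XT.lf (nat_lit 0) (nat_lit 487197673) (nat_lit 152) (nat_lit 275014965301) (nat_lit 76) (nat_lit 568113767293) (nat_lit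 38) (nat_lit 5) (nat_lit 40) (nat_lit 5) (nat_lit 39) (nat_lit 5) (nat_lit 423) (nat_lit 388) (nat_lit 209)))) (XT.nd (nat_lit 78) (nat_lit 304) (nat_lit 0) (XT.lf (nat_lit 0) (nat_lit 324744589629) (nat_lit 228) (nat_lit 440784176705) (nat_lit 76) (nat_lit 125089955113) (nat_lit 36) (nat_lit 5) (nat_lit 39) (nat_lit 5) (nat_lit 37) (nat_lit 4) (nat_lit 424) (nat_lit 388) (nat_lit 208)) (XT.nd (nat_lit 78) (nat_lit 228) (nat_lit 0) (XT.lf (nat_lit 0) (nat_lit 306434194113) (nat_lit 76) (nat_lit 382807200281) (nat_lit 152) (nat_lit 251425400466) (nat_lit 35) (nat_lit 5) (nat_lit 36) (nat_lit 5) (nat_lit 37) (nat_lit 4) (nat_lit 425) (nat_lit 388) (nat_lit 207)) (XT.lf (nat_lit 0) (nat_lit 95973909245) (nat_lit 228) (nat_lit 857073236044) (nat_lit 76) (nat_lit 41071884326) (nat_lit 32) (nat_lit 5) (nat_lit 35) (nat_lit 5) (nat_lit 33) (nat_lit 4) (nat_lit 426) (nat_lit 388) (nat_lit 206)))))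 (XT.nd (nat_lit 234) (nat_lit 228) (nat_lit 0) (XT.nd (nat_lit 78) (nat_lit 228) (nat_lit 0) (XT.lf (nat_lit 0) (nat_lit 480158012689) (nat_lit 228) (nat_lit 69495888446) (nat_lit 76) (nat_lit 501097377115) (nat_lit 32) (nat_lit 5) (nat_lit 35) (nat_lit 5) (nat_lit 33) (nat_lit 4) (nat_lit 427) (nat_lit 388) (nat_lit 205)) (XT.nd (nat_lit 78) (nat_lit 152) (nat_lit 0) (XT.lf (nat_lit 0) (nat_lit 806913828023) (nat_lit 76) (nat_lit 100761148645) (nat_lit 152) (nat_lit 203609223503) (nat_lit 31) (nat_lit 5) (nat_lit 32) (nat_lit 5) (nat_lit 33) (nat_lit 4) (nat_lit 428) (nat_lit 388) (nat_lit 204)) (XT.lf (nat_lit 0) (nat_lit 203308091670) (nat_lit 152) (nat_lit 586856440089) (nat_lit 76) (nat_lit 385507607219) (nat_lit 29) (nat_lit 5) (nat_lit 31) (nat_lit 5) (nat_lit 30) (nat_lit 4) (nat_lit 429) (nat_lit 388) (nat_lit 203)))) (XT.nd (nat_lit 156) (nat_lit 76) (nat_lit 0) (XT.nd (nat_lit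 78) (nat_lit 76) (nat_lit 0) (XT.lf (nat_lit 0) (nat_lit 324547914339) (nat_lit 76) (nat_lit 323347691069) (nat_lit 152) (nat_lit 596536100245) (nat_lit 28) (nat_lit 5) (nat_lit 29) (nat_lit 5) (nat_lit 30) (nat_lit 4) (nat_lit 430) (nat_lit 388) (nat_lit 202)) (XT.lf (nat_lit 0) (nat_lit 8935458284) (nat_lit 76) (nat_lit 1132467386751) (nat_lit 76) (nat_lit 176621556393) (nat_lit 27) (nat_lit 4) (nat_lit 28) (nat_lit 5) (nat_lit 28) (nat_lit 4) (nat_lit 431) (nat_lit 388) (nat_lit 201))) (XT.nd (nat_lit 49764) (nat_lit 0) (nat_lit 6992) (XT.lf (nat_lit 0) (nat_lit 289762717311) (nat_lit 152) (nat_lit 361832299661) (nat_lit 76) (nat_lit 744606414839) (nat_lit 26) (nat_lit 5) (nat_lit 28) (nat_lit 5) (nat_lit 27) (nat_lit 4) (nat_lit 432) (nat_lit 388) (nat_lit 200)) (XT.lf (nat_lit 0) (nat_lit 24737277040) (nat_lit 836) (nat_lit 31784336471) (nat_lit 836) (nat_lit 31784336471) (nat_lit 118)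 (nat_lit 3) (nat_lit 129) (nat_lit 3) (nat_lit 129) (nat_lit 5) (nat_lit 389) (nat_lit 389) (nat_lit 242)))))) (XT.nd (nat_lit 468) (nat_lit 2280) (nat_lit 0) (XT.nd (nat_lit 234) (nat_lit 0) (nat_lit 152) (XT.nd (nat_lit 78) (nat_lit 0) (nat_lit 0) (XT.lf (nat_lit 0) (nat_lit 53012916758) (nat_lit 760) (nat_lit 107824758195) (nat_lit 836) (nat_lit 22760730230) (nat_lit 119) (nat_lit 5) (nat_lit 129) (nat_lit 5) (nat_lit 130) (nat_lit 5) (nat_lit 390) (nat_lit 389) (nat_lit 241)) (XT.nd (nat_lit 78) (nat_lit 0) (nat_lit 76) (XT.lf (nat_lit 76) (nat_lit 36694909597) (nat_lit 0) (nat_lit 23743620655) (nat_lit 836) (nat_lit 130525091649) (nat_lit 120) (nat_lit 5) (nat_lit 119) (nat_lit 5) (nat_lit 130) (nat_lit 5) (nat_lit 391) (nat_lit 389) (nat_lit 240)) (XT.lf (nat_lit 0) (nat_lit 72307873817) (nat_lit 760) (nat_lit 4169550328) (nat_lit 836) (nat_lit 122248147924) (nat_lit 120) (nat_lit 5)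 (nat_lit 130) (nat_lit 5) (nat_lit 131) (nat_lit 5) (nat_lit 392) (nat_lit 389) (nat_lit 239)))) (XT.nd (nat_lit 78) (nat_lit 0) (nat_lit 76) (XT.lf (nat_lit 0) (nat_lit 89233702551) (nat_lit 760) (nat_lit 45381481465) (nat_lit 836) (nat_lit 72287947501) (nat_lit 121) (nat_lit 5) (nat_lit 131) (nat_lit 5) (nat_lit 132) (nat_lit 5) (nat_lit 393) (nat_lit 389) (nat_lit 238)) (XT.nd (nat_lit 78) (nat_lit 0) (nat_lit 0) (XT.lf (nat_lit 0) (nat_lit 111132646377) (nat_lit 760) (nat_lit 88148091700) (nat_lit 836) (nat_lit 16273205344) (nat_lit 122) (nat_lit 5) (nat_lit 132) (nat_lit 5) (nat_lit 133) (nat_lit 5) (nat_lit 394) (nat_lit 389) (nat_lit 237)) (XT.lf (nat_lit 76) (nat_lit 91422511381) (nat_lit 0) (nat_lit 47861448293) (nat_lit 836) (nat_lit 85387838035) (nat_lit 123) (nat_lit 5) (nat_lit 122) (nat_lit 5) (nat_lit 133) (nat_lit 5) (nat_lit 395) (nat_lit 389) (nat_lit 236))))) (XT.nd (nat_lit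 234) (nat_lit 1368) (nat_lit 0) (XT.nd (nat_lit 78) (nat_lit 456) (nat_lit 0) (XT.lf (nat_lit 0) (nat_lit 53959923337) (nat_lit 760) (nat_lit 119936304054) (nat_lit 836) (nat_lit 60412410601) (nat_lit 113) (nat_lit 5) (nat_lit 123) (nat_lit 5) (nat_lit 124) (nat_lit 5) (nat_lit 396) (nat_lit 389) (nat_lit 235)) (XT.nd (nat_lit 78) (nat_lit 76) (nat_lit 0) (XT.lf (nat_lit 0) (nat_lit 15285647954) (nat_lit 380) (nat_lit 200058559310) (nat_lit 456) (nat_lit 29168881808) (nat_lit 108) (nat_lit 5) (nat_lit 113) (nat_lit 5) (nat_lit 114) (nat_lit 5) (nat_lit 397) (nat_lit 389) (nat_lit 234)) (XT.lf (nat_lit 0) (nat_lit 9642930740) (nat_lit 456) (nat_lit 24511326920) (nat_lit 76) (nat_lit 221115307818) (nat_lit 107) (nat_lit 5) (nat_lit 113) (nat_lit 5) (nat_lit 108) (nat_lit 5) (nat_lit 398) (nat_lit 389) (nat_lit 233)))) (XT.nd (nat_lit 156) (nat_lit 608) (nat_lit 0) (XT.nd (nat_lit 78) (nat_lit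 380) (nat_lit 0) (XT.lf (nat_lit 0) (nat_lit 56038087598) (nat_lit 456) (nat_lit 66454285583) (nat_lit 76) (nat_lit 144095261245) (nat_lit 102) (nat_lit 5) (nat_lit 108) (nat_lit 5) (nat_lit 103) (nat_lit 5) (nat_lit 399) (nat_lit 389) (nat_lit 232)) (XT.lf (nat_lit 0) (nat_lit 110738661879) (nat_lit 456) (nat_lit 109880171033) (nat_lit 76) (nat_lit 57962625819) (nat_lit 97) (nat_lit 5) (nat_lit 103) (nat_lit 5) (nat_lit 98) (nat_lit 5) (nat_lit 400) (nat_lit 389) (nat_lit 231))) (XT.nd (nat_lit 78) (nat_lit 304) (nat_lit 0) (XT.lf (nat_lit 0) (nat_lit 135828199754) (nat_lit 304) (nat_lit 39349587899) (nat_lit 380) (nat_lit 116088876126) (nat_lit 93) (nat_lit 5) (nat_lit 97) (nat_lit 5) (nat_lit 98) (nat_lit 5) (nat_lit 401) (nat_lit 389) (nat_lit 230)) (XT.lf (nat_lit 0) (nat_lit 101005098735) (nat_lit 304) (nat_lit 149731353091) (nat_lit 380) (nat_lit 53932013062) (nat_lit 89) (nat_lit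 5) (nat_lit 93) (nat_lit 5) (nat_lit 94) (nat_lit 5) (nat_lit 402) (nat_lit 389) (nat_lit 229))))))) (XT.nd (nat_lit 1014) (nat_lit 1824) (nat_lit 0) (XT.nd (nat_lit 468) (nat_lit 1216) (nat_lit 0) (XT.nd (nat_lit 234) (nat_lit 760) (nat_lit 0) (XT.nd (nat_lit 78) (nat_lit 304) (nat_lit 0) (XT.lf (nat_lit 0) (nat_lit 17972997153) (nat_lit 304) (nat_lit 253970622705) (nat_lit 76) (nat_lit 46928588006) (nat_lit 85) (nat_lit 5) (nat_lit 89) (nat_lit 5) (nat_lit 86) (nat_lit 5) (nat_lit 403) (nat_lit 389) (nat_lit 228)) (XT.nd (nat_lit 78) (nat_lit 0) (nat_lit 0) (XT.lf (nat_lit 0) (nat_lit 25513741194) (nat_lit 304) (nat_lit 74781198442) (nat_lit 380) (nat_lit 233545401809) (nat_lit 81) (nat_lit 5) (nat_lit 85) (nat_lit 5) (nat_lit 86) (nat_lit 5) (nat_lit 404) (nat_lit 389) (nat_lit 227)) (XT.lf (nat_lit 0) (nat_lit 195856005556) (nat_lit 380) (nat_lit 15588342038) (nat_lit 76) (nat_lit 138228909771)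 (nat_lit 81) (nat_lit 5) (nat_lit 86) (nat_lit 5) (nat_lit 82) (nat_lit 5) (nat_lit 405) (nat_lit 389) (nat_lit 226)))) (XT.nd (nat_lit 78) (nat_lit 532) (nat_lit 0) (XT.lf (nat_lit 0) (nat_lit 305213619441) (nat_lit 304) (nat_lit 57327350967) (nat_lit 76) (nat_lit 3924253064) (nat_lit 78) (nat_lit 5) (nat_lit 82) (nat_lit 5) (nat_lit 79) (nat_lit 5) (nat_lit 406) (nat_lit 389) (nat_lit 225)) (XT.nd (nat_lit 78) (nat_lit 228) (nat_lit 0) (XT.lf (nat_lit 0) (nat_lit 45847198030) (nat_lit 304) (nat_lit 103684946054) (nat_lit 76) (nat_lit 234619818909) (nat_lit 74) (nat_lit 5) (nat_lit 78) (nat_lit 5) (nat_lit 75) (nat_lit 5) (nat_lit 407) (nat_lit 389) (nat_lit 224)) (XT.lf (nat_lit 0) (nat_lit 165687070499) (nat_lit 304) (nat_lit 153193863054) (nat_lit 76) (nat_lit 84006545726) (nat_lit 71) (nat_lit 5) (nat_lit 75) (nat_lit 5) (nat_lit 72) (nat_lit 5) (nat_lit 408) (nat_lit 389) (nat_lit 223)))))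 (XT.nd (nat_lit 234) (nat_lit 532) (nat_lit 0) (XT.nd (nat_lit 78) (nat_lit 456) (nat_lit 0) (XT.lf (nat_lit 0) (nat_lit 216388106241) (nat_lit 228) (nat_lit 86461460378) (nat_lit 304) (nat_lit 119885498594) (nat_lit 68) (nat_lit 5) (nat_lit 71) (nat_lit 5) (nat_lit 72) (nat_lit 5) (nat_lit 409) (nat_lit 389) (nat_lit 222)) (XT.nd (nat_lit 78) (nat_lit 228) (nat_lit 0) (XT.lf (nat_lit 0) (nat_lit 14822677420) (nat_lit 228) (nat_lit 263882735023) (nat_lit 76) (nat_lit 165048416713) (nat_lit 65) (nat_lit 5) (nat_lit 68) (nat_lit 5) (nat_lit 66) (nat_lit 5) (nat_lit 410) (nat_lit 389) (nat_lit 221)) (XT.lf (nat_lit 0) (nat_lit 138990913945) (nat_lit 228) (nat_lit 24453733205) (nat_lit 304) (nat_lit 302544313117) (nat_lit 62) (nat_lit 5) (nat_lit 65) (nat_lit 5) (nat_lit 66) (nat_lit 5) (nat_lit 411) (nat_lit 389) (nat_lit 220)))) (XT.nd (nat_lit 156) (nat_lit 152) (nat_lit 0) (XT.nd (nat_lit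 78) (nat_lit 228) (nat_lit 0) (XT.lf (nat_lit 0) (nat_lit 92731683978) (nat_lit 152) (nat_lit 241249774172) (nat_lit 228) (nat_lit 155520189562) (nat_lit 60) (nat_lit 5) (nat_lit 62) (nat_lit 5) (nat_lit 63) (nat_lit 5) (nat_lit 412) (nat_lit 389) (nat_lit 219)) (XT.lf (nat_lit 0) (nat_lit 10578713801) (nat_lit 228) (nat_lit 471121516195) (nat_lit 76) (nat_lit 32821701818) (nat_lit 57) (nat_lit 5) (nat_lit 60) (nat_lit 5) (nat_lit 58) (nat_lit 5) (nat_lit 413) (nat_lit 389) (nat_lit 218))) (XT.nd (nat_lit 78) (nat_lit 152) (nat_lit 0) (XT.lf (nat_lit 0) (nat_lit 195682305119) (nat_lit 228) (nat_lit 15049026119) (nat_lit 76) (nat_lit 330126759588) (nat_lit 57) (nat_lit 5) (nat_lit 60) (nat_lit 5) (nat_lit 58) (nat_lit 5) (nat_lit 414) (nat_lit 389) (nat_lit 217)) (XT.lf (nat_lit 0) (nat_lit 404701042820) (nat_lit 228) (nat_lit 77023502815) (nat_lit 76) (nat_lit 87121253992) (nat_lit 55) (nat_lit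 5) (nat_lit 58) (nat_lit 5) (nat_lit 56) (nat_lit 5) (nat_lit 415) (nat_lit 389) (nat_lit 216)))))) (XT.nd (nat_lit 546) (nat_lit 836) (nat_lit 0) (XT.nd (nat_lit 234) (nat_lit 456) (nat_lit 0) (XT.nd (nat_lit 78) (nat_lit 304) (nat_lit 0) (XT.lf (nat_lit 0) (nat_lit 41413669454) (nat_lit 228) (nat_lit 147578791360) (nat_lit 76) (nat_lit 409503131073) (nat_lit 52) (nat_lit 5) (nat_lit 55) (nat_lit 5) (nat_lit 53) (nat_lit 5) (nat_lit 416) (nat_lit 389) (nat_lit 215)) (XT.nd (nat_lit 78) (nat_lit 152) (nat_lit 0) (XT.lf (nat_lit 0) (nat_lit 267562783878) (nat_lit 228) (nat_lit 228634385783) (nat_lit 76) (nat_lit 133690810664) (nat_lit 50) (nat_lit 5) (nat_lit 53) (nat_lit 5) (nat_lit 51) (nat_lit 5) (nat_lit 417) (nat_lit 389) (nat_lit 214)) (XT.lf (nat_lit 0) (nat_lit 343359975684) (nat_lit 152) (nat_lit 179604218171) (nat_lit 228) (nat_lit 140269547680) (nat_lit 48) (nat_lit 5) (nat_lit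 50) (nat_lit 5) (nat_lit 51) (nat_lit 5) (nat_lit 418) (nat_lit 389) (nat_lit 213)))) (XT.nd (nat_lit 156) (nat_lit 152) (nat_lit 0) (XT.nd (nat_lit 78) (nat_lit 152) (nat_lit 0) (XT.lf (nat_lit 0) (nat_lit 107441697681) (nat_lit 152) (nat_lit 423955385989) (nat_lit 76) (nat_lit 167218497626) (nat_lit 46) (nat_lit 5) (nat_lit 48) (nat_lit 5) (nat_lit 47) (nat_lit 5) (nat_lit 419) (nat_lit 389) (nat_lit 212)) (XT.lf (nat_lit 0) (nat_lit 192299767390) (nat_lit 152) (nat_lit 189515477404) (nat_lit 228) (nat_lit 354309760227) (nat_lit 44) (nat_lit 5) (nat_lit 46) (nat_lit 5) (nat_lit 47) (nat_lit 5) (nat_lit 420) (nat_lit 389) (nat_lit 211))) (XT.nd (nat_lit 78) (nat_lit 76) (nat_lit 0) (XT.lf (nat_lit 0) (nat_lit 96903154243) (nat_lit 76) (nat_lit 593060361273) (nat_lit 152) (nat_lit 86080425150) (nat_lit 43) (nat_lit 5) (nat_lit 44) (nat_lit 5) (nat_lit 45) (nat_lit 4) (nat_lit 421) (nat_lit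 389) (nat_lit 210)) (XT.lf (nat_lit 0) (nat_lit 209914447452) (nat_lit 152) (nat_lit 16902963245) (nat_lit 76) (nat_lit 591538841758) (nat_lit 42) (nat_lit 5) (nat_lit 44) (nat_lit 5) (nat_lit 43) (nat_lit 5) (nat_lit 422) (nat_lit 389) (nat_lit 209))))) (XT.nd (nat_lit 234) (nat_lit 380) (nat_lit 0) (XT.nd (nat_lit 78) (nat_lit 304) (nat_lit 0) (XT.lf (nat_lit 0) (nat_lit 540695366494) (nat_lit 228) (nat_lit 146357592110) (nat_lit 76) (nat_lit 176223918095) (nat_lit 40) (nat_lit 5) (nat_lit 43) (nat_lit 5) (nat_lit 41) (nat_lit 4) (nat_lit 423) (nat_lit 389) (nat_lit 208)) (XT.nd (nat_lit 78) (nat_lit 152) (nat_lit 0) (XT.lf (nat_lit 0) (nat_lit 527338239) (nat_lit 152) (nat_lit 297014044081) (nat_lit 76) (nat_lit 613563763956) (nat_lit 38) (nat_lit 5) (nat_lit 40) (nat_lit 5) (nat_lit 39) (nat_lit 5) (nat_lit 424) (nat_lit 389) (nat_lit 207)) (XT.lf (nat_lit 0) (nat_lit 350725281217) (nat_lit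 228) (nat_lit 476044843101) (nat_lit 76) (nat_lit 135098038463) (nat_lit 36) (nat_lit 5) (nat_lit 39) (nat_lit 5) (nat_lit 37) (nat_lit 4) (nat_lit 425) (nat_lit 389) (nat_lit 206)))) (XT.nd (nat_lit 156) (nat_lit 76) (nat_lit 0) (XT.nd (nat_lit 78) (nat_lit 228) (nat_lit 0) (XT.lf (nat_lit 0) (nat_lit 330950907521) (nat_lit 76) (nat_lit 413430870431) (nat_lit 152) (nat_lit 271538306746) (nat_lit 35) (nat_lit 5) (nat_lit 36) (nat_lit 5) (nat_lit 37) (nat_lit 4) (nat_lit 426) (nat_lit 389) (nat_lit 205)) (XT.lf (nat_lit 0) (nat_lit 103652874924) (nat_lit 228) (nat_lit 925637130172) (nat_lit 76) (nat_lit 44358494109) (nat_lit 32) (nat_lit 5) (nat_lit 35) (nat_lit 5) (nat_lit 33) (nat_lit 4) (nat_lit 427) (nat_lit 389) (nat_lit 204))) (XT.nd (nat_lit 78) (nat_lit 76) (nat_lit 0) (XT.lf (nat_lit 0) (nat_lit 518571628648) (nat_lit 228) (nat_lit 75053740304) (nat_lit 76) (nat_lit 541185962689)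 (nat_lit 32) (nat_lit 5) (nat_lit 35) (nat_lit 5) (nat_lit 33) (nat_lit 4) (nat_lit 428) (nat_lit 389) (nat_lit 203)) (XT.lf (nat_lit 0) (nat_lit 871468674422) (nat_lit 76) (nat_lit 108821230274) (nat_lit 152) (nat_lit 219896984881) (nat_lit 31) (nat_lit 5) (nat_lit 32) (nat_lit 5) (nat_lit 33) (nat_lit 4) (nat_lit 429) (nat_lit 389) (nat_lit 202))))))))
noncomputable def xc114 : XT := (XT.nd (nat_lit 51870) (nat_lit 0) (nat_lit 76) (XT.nd (nat_lit 50856) (nat_lit 0) (nat_lit 2432) (XT.nd (nat_lit 50310) (nat_lit 0) (nat_lit 5624) (XT.nd (nat_lit 50076) (nat_lit 0) (nat_lit 6916) (XT.nd (nat_lit 78) (nat_lit 76) (nat_lit 0) (XT.lf (nat_lit 0) (nat_lit 219573653068) (nat_lit 152) (nat_lit 633803227959) (nat_lit 76) (nat_lit 416348983266) (nat_lit 29) (nat_lit 5) (nat_lit 31) (nat_lit 5) (nat_lit 30) (nat_lit 4) (nat_lit 430) (nat_lit 389) (nat_lit 201)) (XT.nd (nat_lit 49920) (nat_lit 0) (nat_lit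 6840) (XT.lf (nat_lit 0) (nat_lit 350513399754) (nat_lit 76) (nat_lit 349214726239) (nat_lit 152) (nat_lit 644258072412) (nat_lit 28) (nat_lit 5) (nat_lit 29) (nat_lit 5) (nat_lit 30) (nat_lit 4) (nat_lit 431) (nat_lit 389) (nat_lit 200)) (XT.lf (nat_lit 0) (nat_lit 26719396691) (nat_lit 836) (nat_lit 34325435350) (nat_lit 836) (nat_lit 34325435350) (nat_lit 118) (nat_lit 3) (nat_lit 129) (nat_lit 3) (nat_lit 129) (nat_lit 5) (nat_lit 390) (nat_lit 390) (nat_lit 240)))) (XT.nd (nat_lit 78) (nat_lit 0) (nat_lit 0) (XT.lf (nat_lit 0) (nat_lit 57259767229) (nat_lit 760) (nat_lit 116447247612) (nat_lit 836) (nat_lit 24578968722) (nat_lit 119) (nat_lit 5) (nat_lit 129) (nat_lit 5) (nat_lit 130) (nat_lit 5) (nat_lit 391) (nat_lit 390) (nat_lit 239)) (XT.nd (nat_lit 78) (nat_lit 0) (nat_lit 76) (XT.lf (nat_lit 76) (nat_lit 39633841878) (nat_lit 0) (nat_lit 25645209164) (nat_lit 836) (nat_lit 140961385749)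 (nat_lit 120) (nat_lit 5) (nat_lit 119) (nat_lit 5) (nat_lit 130) (nat_lit 5) (nat_lit 392) (nat_lit 390) (nat_lit 238)) (XT.lf (nat_lit 0) (nat_lit 78097508909) (nat_lit 760) (nat_lit 4499737369) (nat_lit 836) (nat_lit 132026118572) (nat_lit 120) (nat_lit 5) (nat_lit 130) (nat_lit 5) (nat_lit 131) (nat_lit 5) (nat_lit 393) (nat_lit 390) (nat_lit 237))))) (XT.nd (nat_lit 234) (nat_lit 1444) (nat_lit 0) (XT.nd (nat_lit 78) (nat_lit 0) (nat_lit 76) (XT.lf (nat_lit 0) (nat_lit 96377060909) (nat_lit 760) (nat_lit 49008510280) (nat_lit 836) (nat_lit 78069575219) (nat_lit 121) (nat_lit 5) (nat_lit 131) (nat_lit 5) (nat_lit 132) (nat_lit 5) (nat_lit 394) (nat_lit 390) (nat_lit 236)) (XT.nd (nat_lit 78) (nat_lit 0) (nat_lit 0) (XT.lf (nat_lit 0) (nat_lit 120027610918) (nat_lit 760) (nat_lit 95196364115) (nat_lit 836) (nat_lit 17574063885) (nat_lit 122) (nat_lit 5) (nat_lit 132) (nat_lit 5) (nat_lit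 133) (nat_lit 5) (nat_lit 395) (nat_lit 390) (nat_lit 235)) (XT.lf (nat_lit 76) (nat_lit 98739731851) (nat_lit 0) (nat_lit 51691028385) (nat_lit 836) (nat_lit 92214574938) (nat_lit 123) (nat_lit 5) (nat_lit 122) (nat_lit 5) (nat_lit 133) (nat_lit 5) (nat_lit 396) (nat_lit 390) (nat_lit 234)))) (XT.nd (nat_lit 156) (nat_lit 456) (nat_lit 0) (XT.nd (nat_lit 78) (nat_lit 380) (nat_lit 0) (XT.lf (nat_lit 0) (nat_lit 58280195457) (nat_lit 760) (nat_lit 129531556113) (nat_lit 836) (nat_lit 65241384159) (nat_lit 113) (nat_lit 5) (nat_lit 123) (nat_lit 5) (nat_lit 124) (nat_lit 5) (nat_lit 397) (nat_lit 390) (nat_lit 233)) (XT.lf (nat_lit 0) (nat_lit 16512016978) (nat_lit 380) (nat_lit 216063319334) (nat_lit 456) (nat_lit 31498618407) (nat_lit 108) (nat_lit 5) (nat_lit 113) (nat_lit 5) (nat_lit 114) (nat_lit 5) (nat_lit 398) (nat_lit 390) (nat_lit 232))) (XT.nd (nat_lit 78) (nat_lit 380) (nat_lit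 0) (XT.lf (nat_lit 0) (nat_lit 10417747750) (nat_lit 456) (nat_lit 26468862941) (nat_lit 76) (nat_lit 238804349262) (nat_lit 107) (nat_lit 5) (nat_lit 113) (nat_lit 5) (nat_lit 108) (nat_lit 5) (nat_lit 399) (nat_lit 390) (nat_lit 231)) (XT.lf (nat_lit 0) (nat_lit 60524317574) (nat_lit 456) (nat_lit 71767244775) (nat_lit 76) (nat_lit 155622922169) (nat_lit 102) (nat_lit 5) (nat_lit 108) (nat_lit 5) (nat_lit 103) (nat_lit 5) (nat_lit 400) (nat_lit 390) (nat_lit 230)))))) (XT.nd (nat_lit 468) (nat_lit 1596) (nat_lit 0) (XT.nd (nat_lit 234) (nat_lit 608) (nat_lit 0) (XT.nd (nat_lit 78) (nat_lit 608) (nat_lit 0) (XT.lf (nat_lit 0) (nat_lit 119600756284) (nat_lit 456) (nat_lit 118667200551) (nat_lit 76) (nat_lit 62599867119) (nat_lit 97) (nat_lit 5) (nat_lit 103) (nat_lit 5) (nat_lit 98) (nat_lit 5) (nat_lit 401) (nat_lit 390) (nat_lit 229)) (XT.nd (nat_lit 78) (nat_lit 304) (nat_lit 0) (XT.lf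 (nat_lit 0) (nat_lit 146697692827) (nat_lit 304) (nat_lit 42497147504) (nat_lit 380) (nat_lit 125373013770) (nat_lit 93) (nat_lit 5) (nat_lit 97) (nat_lit 5) (nat_lit 98) (nat_lit 5) (nat_lit 402) (nat_lit 390) (nat_lit 228)) (XT.lf (nat_lit 0) (nat_lit 109088733538) (nat_lit 304) (nat_lit 161709310766) (nat_lit 380) (nat_lit 58243762757) (nat_lit 89) (nat_lit 5) (nat_lit 93) (nat_lit 5) (nat_lit 94) (nat_lit 5) (nat_lit 403) (nat_lit 390) (nat_lit 227)))) (XT.nd (nat_lit 78) (nat_lit 304) (nat_lit 0) (XT.lf (nat_lit 0) (nat_lit 19413415701) (nat_lit 304) (nat_lit 274284978601) (nat_lit 76) (nat_lit 50683460193) (nat_lit 85) (nat_lit 5) (nat_lit 89) (nat_lit 5) (nat_lit 86) (nat_lit 5) (nat_lit 404) (nat_lit 390) (nat_lit 226)) (XT.nd (nat_lit 78) (nat_lit 0) (nat_lit 0) (XT.lf (nat_lit 0) (nat_lit 27557991261) (nat_lit 304) (nat_lit 80762980494) (nat_lit 380) (nat_lit 252226474177) (nat_lit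 81) (nat_lit 5) (nat_lit 85) (nat_lit 5) (nat_lit 86) (nat_lit 5) (nat_lit 405) (nat_lit 390) (nat_lit 225)) (XT.lf (nat_lit 0) (nat_lit 211526752753) (nat_lit 380) (nat_lit 16832388609) (nat_lit 76) (nat_lit 149287862345) (nat_lit 81) (nat_lit 5) (nat_lit 86) (nat_lit 5) (nat_lit 82) (nat_lit 5) (nat_lit 406) (nat_lit 390) (nat_lit 224))))) (XT.nd (nat_lit 234) (nat_lit 836) (nat_lit 0) (XT.nd (nat_lit 78) (nat_lit 532) (nat_lit 0) (XT.lf (nat_lit 0) (nat_lit 329632864595) (nat_lit 304) (nat_lit 61910553134) (nat_lit 76) (nat_lit 4238915001) (nat_lit 78) (nat_lit 5) (nat_lit 82) (nat_lit 5) (nat_lit 79) (nat_lit 5) (nat_lit 407) (nat_lit 390) (nat_lit 223)) (XT.nd (nat_lit 78) (nat_lit 228) (nat_lit 0) (XT.lf (nat_lit 0) (nat_lit 49517048595) (nat_lit 304) (nat_lit 111976816250) (nat_lit 76) (nat_lit 253390150710) (nat_lit 74) (nat_lit 5) (nat_lit 78) (nat_lit 5) (nat_lit 75) (nat_lit 5)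 (nat_lit 408) (nat_lit 390) (nat_lit 222)) (XT.lf (nat_lit 0) (nat_lit 178944013883) (nat_lit 304) (nat_lit 165446487839) (nat_lit 76) (nat_lit 90727876324) (nat_lit 71) (nat_lit 5) (nat_lit 75) (nat_lit 5) (nat_lit 72) (nat_lit 5) (nat_lit 409) (nat_lit 390) (nat_lit 221)))) (XT.nd (nat_lit 156) (nat_lit 380) (nat_lit 0) (XT.nd (nat_lit 78) (nat_lit 228) (nat_lit 0) (XT.lf (nat_lit 0) (nat_lit 233701913653) (nat_lit 228) (nat_lit 93377492615) (nat_lit 304) (nat_lit 129474369811) (nat_lit 68) (nat_lit 5) (nat_lit 71) (nat_lit 5) (nat_lit 72) (nat_lit 5) (nat_lit 410) (nat_lit 390) (nat_lit 220)) (XT.lf (nat_lit 0) (nat_lit 16010312213) (nat_lit 228) (nat_lit 284990577013) (nat_lit 76) (nat_lit 178253154672) (nat_lit 65) (nat_lit 5) (nat_lit 68) (nat_lit 5) (nat_lit 66) (nat_lit 5) (nat_lit 411) (nat_lit 390) (nat_lit 219))) (XT.nd (nat_lit 78) (nat_lit 152) (nat_lit 0) (XT.lf (nat_lit 0)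 (nat_lit 150112843196) (nat_lit 228) (nat_lit 26409102936) (nat_lit 304) (nat_lit 326746044077) (nat_lit 62) (nat_lit 5) (nat_lit 65) (nat_lit 5) (nat_lit 66) (nat_lit 5) (nat_lit 412) (nat_lit 390) (nat_lit 218)) (XT.lf (nat_lit 0) (nat_lit 100152828631) (nat_lit 152) (nat_lit 260548799617) (nat_lit 228) (nat_lit 167960068128) (nat_lit 60) (nat_lit 5) (nat_lit 62) (nat_lit 5) (nat_lit 63) (nat_lit 5) (nat_lit 413) (nat_lit 390) (nat_lit 217))))))) (XT.nd (nat_lit 1014) (nat_lit 532) (nat_lit 0) (XT.nd (nat_lit 468) (nat_lit 912) (nat_lit 0) (XT.nd (nat_lit 234) (nat_lit 532) (nat_lit 0) (XT.nd (nat_lit 78) (nat_lit 152) (nat_lit 0) (XT.lf (nat_lit 0) (nat_lit 11426622108) (nat_lit 228) (nat_lit 508808622028) (nat_lit 76) (nat_lit 35448361239) (nat_lit 57) (nat_lit 5) (nat_lit 60) (nat_lit 5) (nat_lit 58) (nat_lit 5) (nat_lit 414) (nat_lit 390) (nat_lit 216)) (XT.nd (nat_lit 78) (nat_lit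 152) (nat_lit 0) (XT.lf (nat_lit 0) (nat_lit 211338381383) (nat_lit 228) (nat_lit 16250526484) (nat_lit 76) (nat_lit 356537755240) (nat_lit 57) (nat_lit 5) (nat_lit 60) (nat_lit 5) (nat_lit 58) (nat_lit 5) (nat_lit 415) (nat_lit 390) (nat_lit 215)) (XT.lf (nat_lit 0) (nat_lit 437078557794) (nat_lit 228) (nat_lit 83183009357) (nat_lit 76) (nat_lit 94091824504) (nat_lit 55) (nat_lit 5) (nat_lit 58) (nat_lit 5) (nat_lit 56) (nat_lit 5) (nat_lit 416) (nat_lit 390) (nat_lit 214)))) (XT.nd (nat_lit 78) (nat_lit 304) (nat_lit 0) (XT.lf (nat_lit 0) (nat_lit 44728146604) (nat_lit 228) (nat_lit 159382778074) (nat_lit 76) (nat_lit 442264245059) (nat_lit 52) (nat_lit 5) (nat_lit 55) (nat_lit 5) (nat_lit 53) (nat_lit 5) (nat_lit 417) (nat_lit 390) (nat_lit 213)) (XT.nd (nat_lit 78) (nat_lit 152) (nat_lit 0) (XT.lf (nat_lit 0) (nat_lit 288969136345) (nat_lit 228) (nat_lit 246922868701) (nat_lit 76) (nat_lit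 144386946920) (nat_lit 50) (nat_lit 5) (nat_lit 53) (nat_lit 5) (nat_lit 51) (nat_lit 5) (nat_lit 418) (nat_lit 390) (nat_lit 212)) (XT.lf (nat_lit 0) (nat_lit 370830943122) (nat_lit 152) (nat_lit 193971651369) (nat_lit 228) (nat_lit 151489782836) (nat_lit 48) (nat_lit 5) (nat_lit 50) (nat_lit 5) (nat_lit 51) (nat_lit 5) (nat_lit 419) (nat_lit 390) (nat_lit 211))))) (XT.nd (nat_lit 234) (nat_lit 532) (nat_lit 0) (XT.nd (nat_lit 78) (nat_lit 228) (nat_lit 0) (XT.lf (nat_lit 0) (nat_lit 116038271325) (nat_lit 152) (nat_lit 457869653328) (nat_lit 76) (nat_lit 180596841013) (nat_lit 46) (nat_lit 5) (nat_lit 48) (nat_lit 5) (nat_lit 47) (nat_lit 5) (nat_lit 420) (nat_lit 390) (nat_lit 210)) (XT.nd (nat_lit 78) (nat_lit 76) (nat_lit 0) (XT.lf (nat_lit 0) (nat_lit 207685818297) (nat_lit 152) (nat_lit 204675824530) (nat_lit 228) (nat_lit 382653303449) (nat_lit 44) (nat_lit 5) (nat_lit 46) (nat_lit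 5) (nat_lit 47) (nat_lit 5) (nat_lit 421) (nat_lit 390) (nat_lit 209)) (XT.lf (nat_lit 0) (nat_lit 104657429429) (nat_lit 76) (nat_lit 640504302950) (nat_lit 152) (nat_lit 92965666552) (nat_lit 43) (nat_lit 5) (nat_lit 44) (nat_lit 5) (nat_lit 45) (nat_lit 4) (nat_lit 422) (nat_lit 390) (nat_lit 208)))) (XT.nd (nat_lit 156) (nat_lit 304) (nat_lit 0) (XT.nd (nat_lit 78) (nat_lit 152) (nat_lit 0) (XT.lf (nat_lit 0) (nat_lit 226708672172) (nat_lit 152) (nat_lit 18253291772) (nat_lit 76) (nat_lit 638862735077) (nat_lit 42) (nat_lit 5) (nat_lit 44) (nat_lit 5) (nat_lit 43) (nat_lit 5) (nat_lit 423) (nat_lit 390) (nat_lit 207)) (XT.lf (nat_lit 0) (nat_lit 583952026666) (nat_lit 228) (nat_lit 158064335412) (nat_lit 76) (nat_lit 190322613045) (nat_lit 40) (nat_lit 5) (nat_lit 43) (nat_lit 5) (nat_lit 41) (nat_lit 4) (nat_lit 424) (nat_lit 390) (nat_lit 206))) (XT.nd (nat_lit 78) (nat_lit 152) (nat_lit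 0) (XT.lf (nat_lit 0) (nat_lit 570523886) (nat_lit 152) (nat_lit 320773351383) (nat_lit 76) (nat_lit 662649632630) (nat_lit 38) (nat_lit 5) (nat_lit 40) (nat_lit 5) (nat_lit 39) (nat_lit 5) (nat_lit 425) (nat_lit 390) (nat_lit 205)) (XT.lf (nat_lit 0) (nat_lit 378784267721) (nat_lit 228) (nat_lit 514126657794) (nat_lit 76) (nat_lit 145906641950) (nat_lit 36) (nat_lit 5) (nat_lit 39) (nat_lit 5) (nat_lit 37) (nat_lit 4) (nat_lit 426) (nat_lit 390) (nat_lit 204)))))) (XT.nd (nat_lit 50388) (nat_lit 0) (nat_lit 6384) (XT.nd (nat_lit 234) (nat_lit 228) (nat_lit 0) (XT.nd (nat_lit 78) (nat_lit 228) (nat_lit 0) (XT.lf (nat_lit 0) (nat_lit 357428675836) (nat_lit 76) (nat_lit 446504563427) (nat_lit 152) (nat_lit 293260406130) (nat_lit 35) (nat_lit 5) (nat_lit 36) (nat_lit 5) (nat_lit 37) (nat_lit 4) (nat_lit 427) (nat_lit 390) (nat_lit 203)) (XT.nd (nat_lit 78) (nat_lit 0) (nat_lit 0) (XT.lf (nat_lit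 0) (nat_lit 111946007644) (nat_lit 228) (nat_lit 999686416124) (nat_lit 76) (nat_lit 47907910124) (nat_lit 32) (nat_lit 5) (nat_lit 35) (nat_lit 5) (nat_lit 33) (nat_lit 4) (nat_lit 428) (nat_lit 390) (nat_lit 202)) (XT.lf (nat_lit 0) (nat_lit 560058194797) (nat_lit 228) (nat_lit 81056479841) (nat_lit 76) (nat_lit 584481521636) (nat_lit 32) (nat_lit 5) (nat_lit 35) (nat_lit 5) (nat_lit 33) (nat_lit 4) (nat_lit 429) (nat_lit 390) (nat_lit 201)))) (XT.nd (nat_lit 78) (nat_lit 152) (nat_lit 0) (XT.lf (nat_lit 0) (nat_lit 941187660280) (nat_lit 76) (nat_lit 117526234027) (nat_lit 152) (nat_lit 237487906478) (nat_lit 31) (nat_lit 5) (nat_lit 32) (nat_lit 5) (nat_lit 33) (nat_lit 4) (nat_lit 430) (nat_lit 390) (nat_lit 200)) (XT.nd (nat_lit 49998) (nat_lit 0) (nat_lit 6764) (XT.lf (nat_lit 0) (nat_lit 237140328977) (nat_lit 152) (nat_lit 684506005283) (nat_lit 76) (nat_lit 449657559908) (nat_lit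 29) (nat_lit 5) (nat_lit 31) (nat_lit 5) (nat_lit 30) (nat_lit 4) (nat_lit 431) (nat_lit 390) (nat_lit 199)) (XT.lf (nat_lit 0) (nat_lit 28859638316) (nat_lit 836) (nat_lit 37070057250) (nat_lit 836) (nat_lit 37070057250) (nat_lit 118) (nat_lit 3) (nat_lit 129) (nat_lit 3) (nat_lit 129) (nat_lit 5) (nat_lit 391) (nat_lit 391) (nat_lit 238))))) (XT.nd (nat_lit 234) (nat_lit 456) (nat_lit 0) (XT.nd (nat_lit 78) (nat_lit 0) (nat_lit 0) (XT.lf (nat_lit 0) (nat_lit 61845535858) (nat_lit 760) (nat_lit 125760034246) (nat_lit 836) (nat_lit 26543040056) (nat_lit 119) (nat_lit 5) (nat_lit 129) (nat_lit 5) (nat_lit 130) (nat_lit 5) (nat_lit 392) (nat_lit 391) (nat_lit 237)) (XT.nd (nat_lit 78) (nat_lit 0) (nat_lit 76) (XT.lf (nat_lit 76) (nat_lit 42807412323) (nat_lit 0) (nat_lit 27698625329) (nat_lit 836) (nat_lit 152233398433) (nat_lit 120) (nat_lit 5) (nat_lit 119) (nat_lit 5) (nat_lit 130) (nat_lit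 5) (nat_lit 393) (nat_lit 391) (nat_lit 236)) (XT.lf (nat_lit 0) (nat_lit 84349600763) (nat_lit 760) (nat_lit 4856821138) (nat_lit 836) (nat_lit 142586595245) (nat_lit 120) (nat_lit 5) (nat_lit 130) (nat_lit 5) (nat_lit 131) (nat_lit 5) (nat_lit 394) (nat_lit 391) (nat_lit 235)))) (XT.nd (nat_lit 156) (nat_lit 608) (nat_lit 0) (XT.nd (nat_lit 78) (nat_lit 0) (nat_lit 76) (XT.lf (nat_lit 0) (nat_lit 104091222828) (nat_lit 760) (nat_lit 52926199245) (nat_lit 836) (nat_lit 84313934033) (nat_lit 121) (nat_lit 5) (nat_lit 131) (nat_lit 5) (nat_lit 132) (nat_lit 5) (nat_lit 395) (nat_lit 391) (nat_lit 234)) (XT.lf (nat_lit 0) (nat_lit 129633551642) (nat_lit 760) (nat_lit 102809008326) (nat_lit 836) (nat_lit 18979133469) (nat_lit 122) (nat_lit 5) (nat_lit 132) (nat_lit 5) (nat_lit 133) (nat_lit 5) (nat_lit 396) (nat_lit 391) (nat_lit 233))) (XT.nd (nat_lit 78) (nat_lit 684) (nat_lit 0) (XT.lf (nat_lit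 76) (nat_lit 106641842120) (nat_lit 0) (nat_lit 55826880125) (nat_lit 836) (nat_lit 99588062829) (nat_lit 123) (nat_lit 5) (nat_lit 122) (nat_lit 5) (nat_lit 133) (nat_lit 5) (nat_lit 397) (nat_lit 391) (nat_lit 232)) (XT.lf (nat_lit 0) (nat_lit 62945593136) (nat_lit 760) (nat_lit 139894378728) (nat_lit 836) (nat_lit 70457248999) (nat_lit 113) (nat_lit 5) (nat_lit 123) (nat_lit 5) (nat_lit 124) (nat_lit 5) (nat_lit 398) (nat_lit 391) (nat_lit 231))))))))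
noncomputable def xc115 : XT := (XT.nd (nat_lit 2028) (nat_lit 836) (nat_lit 0) (XT.nd (nat_lit 1014) (nat_lit 1976) (nat_lit 0) (XT.nd (nat_lit 468) (nat_lit 1596) (nat_lit 0) (XT.nd (nat_lit 234) (nat_lit 988) (nat_lit 0) (XT.nd (nat_lit 78) (nat_lit 456) (nat_lit 0) (XT.lf (nat_lit 0) (nat_lit 17835993758) (nat_lit 380) (nat_lit 233348449422) (nat_lit 456) (nat_lit 34015272330) (nat_lit 108) (nat_lit 5) (nat_lit 113) (nat_lit 5) (nat_lit 114) (nat_lit 5) (nat_lit 399) (nat_lit 391) (nat_lit 230)) (XT.nd (nat_lit 78) (nat_lit 380) (nat_lit 0) (XT.lf (nat_lit 0) (nat_lit 11254067563) (nat_lit 456) (nat_lit 28583482631) (nat_lit 76) (nat_lit 257908540155) (nat_lit 107) (nat_lit 5) (nat_lit 113) (nat_lit 5) (nat_lit 108) (nat_lit 5) (nat_lit 400) (nat_lit 391) (nat_lit 229)) (XT.lf (nat_lit 0) (nat_lit 65368991862) (nat_lit 456) (nat_lit 77505723418) (nat_lit 76) (nat_lit 168072790258) (nat_lit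 102) (nat_lit 5) (nat_lit 108) (nat_lit 5) (nat_lit 103) (nat_lit 5) (nat_lit 401) (nat_lit 391) (nat_lit 228)))) (XT.nd (nat_lit 78) (nat_lit 608) (nat_lit 0) (XT.lf (nat_lit 0) (nat_lit 129171390051) (nat_lit 456) (nat_lit 128157675220) (nat_lit 76) (nat_lit 67608054736) (nat_lit 97) (nat_lit 5) (nat_lit 103) (nat_lit 5) (nat_lit 98) (nat_lit 5) (nat_lit 402) (nat_lit 391) (nat_lit 227)) (XT.nd (nat_lit 78) (nat_lit 304) (nat_lit 0) (XT.lf (nat_lit 0) (nat_lit 158436283539) (nat_lit 304) (nat_lit 45896570000) (nat_lit 380) (nat_lit 135400306479) (nat_lit 93) (nat_lit 5) (nat_lit 97) (nat_lit 5) (nat_lit 98) (nat_lit 5) (nat_lit 403) (nat_lit 391) (nat_lit 226)) (XT.lf (nat_lit 0) (nat_lit 117818598771) (nat_lit 304) (nat_lit 174645583599) (nat_lit 380) (nat_lit 62900853499) (nat_lit 89) (nat_lit 5) (nat_lit 93) (nat_lit 5) (nat_lit 94) (nat_lit 5) (nat_lit 404) (nat_lit 391) (nat_lit 225)))))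 (XT.nd (nat_lit 234) (nat_lit 988) (nat_lit 0) (XT.nd (nat_lit 78) (nat_lit 304) (nat_lit 0) (XT.lf (nat_lit 0) (nat_lit 20968699842) (nat_lit 304) (nat_lit 296224952883) (nat_lit 76) (nat_lit 54738638677) (nat_lit 85) (nat_lit 5) (nat_lit 89) (nat_lit 5) (nat_lit 86) (nat_lit 5) (nat_lit 405) (nat_lit 391) (nat_lit 224)) (XT.nd (nat_lit 78) (nat_lit 0) (nat_lit 0) (XT.lf (nat_lit 0) (nat_lit 29765331840) (nat_lit 304) (nat_lit 87223406945) (nat_lit 380) (nat_lit 272402397515) (nat_lit 81) (nat_lit 5) (nat_lit 85) (nat_lit 5) (nat_lit 86) (nat_lit 5) (nat_lit 406) (nat_lit 391) (nat_lit 223)) (XT.lf (nat_lit 0) (nat_lit 228450836348) (nat_lit 380) (nat_lit 18176389856) (nat_lit 76) (nat_lit 161231439852) (nat_lit 81) (nat_lit 5) (nat_lit 86) (nat_lit 5) (nat_lit 82) (nat_lit 5) (nat_lit 407) (nat_lit 391) (nat_lit 222)))) (XT.nd (nat_lit 156) (nat_lit 456) (nat_lit 0) (XT.nd (nat_lit 78)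 (nat_lit 304) (nat_lit 0) (XT.lf (nat_lit 0) (nat_lit 356005341841) (nat_lit 304) (nat_lit 66860837447) (nat_lit 76) (nat_lit 4578646935) (nat_lit 78) (nat_lit 5) (nat_lit 82) (nat_lit 5) (nat_lit 79) (nat_lit 5) (nat_lit 408) (nat_lit 391) (nat_lit 221)) (XT.lf (nat_lit 0) (nat_lit 53480191222) (nat_lit 304) (nat_lit 120932453415) (nat_lit 76) (nat_lit 273662002588) (nat_lit 74) (nat_lit 5) (nat_lit 78) (nat_lit 5) (nat_lit 75) (nat_lit 5) (nat_lit 409) (nat_lit 391) (nat_lit 220))) (XT.nd (nat_lit 78) (nat_lit 228) (nat_lit 0) (XT.lf (nat_lit 0) (nat_lit 193261230591) (nat_lit 304) (nat_lit 178679734080) (nat_lit 76) (nat_lit 97986798251) (nat_lit 71) (nat_lit 5) (nat_lit 75) (nat_lit 5) (nat_lit 72) (nat_lit 5) (nat_lit 410) (nat_lit 391) (nat_lit 219)) (XT.lf (nat_lit 0) (nat_lit 252400432067) (nat_lit 228) (nat_lit 100846933628) (nat_lit 304) (nat_lit 139830631577) (nat_lit 68) (nat_lit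 5) (nat_lit 71) (nat_lit 5) (nat_lit 72) (nat_lit 5) (nat_lit 411) (nat_lit 391) (nat_lit 218)))))) (XT.nd (nat_lit 468) (nat_lit 988) (nat_lit 0) (XT.nd (nat_lit 234) (nat_lit 380) (nat_lit 0) (XT.nd (nat_lit 78) (nat_lit 380) (nat_lit 0) (XT.lf (nat_lit 0) (nat_lit 17292698060) (nat_lit 228) (nat_lit 307787442505) (nat_lit 76) (nat_lit 192514148320) (nat_lit 65) (nat_lit 5) (nat_lit 68) (nat_lit 5) (nat_lit 66) (nat_lit 5) (nat_lit 412) (nat_lit 391) (nat_lit 217)) (XT.nd (nat_lit 78) (nat_lit 152) (nat_lit 0) (XT.lf (nat_lit 0) (nat_lit 162124147859) (nat_lit 228) (nat_lit 28521034767) (nat_lit 304) (nat_lit 352884172314) (nat_lit 62) (nat_lit 5) (nat_lit 65) (nat_lit 5) (nat_lit 66) (nat_lit 5) (nat_lit 413) (nat_lit 391) (nat_lit 216)) (XT.lf (nat_lit 0) (nat_lit 108167292519) (nat_lit 152) (nat_lit 281391883551) (nat_lit 228) (nat_lit 181395384725) (nat_lit 60) (nat_lit 5) (nat_lit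 62) (nat_lit 5) (nat_lit 63) (nat_lit 5) (nat_lit 414) (nat_lit 391) (nat_lit 215)))) (XT.nd (nat_lit 78) (nat_lit 152) (nat_lit 0) (XT.lf (nat_lit 0) (nat_lit 12342133224) (nat_lit 228) (nat_lit 549511069453) (nat_lit 76) (nat_lit 38285021698) (nat_lit 57) (nat_lit 5) (nat_lit 60) (nat_lit 5) (nat_lit 58) (nat_lit 5) (nat_lit 415) (nat_lit 391) (nat_lit 214)) (XT.nd (nat_lit 78) (nat_lit 152) (nat_lit 0) (XT.lf (nat_lit 0) (nat_lit 228246730919) (nat_lit 228) (nat_lit 17548492364) (nat_lit 76) (nat_lit 385061508585) (nat_lit 57) (nat_lit 5) (nat_lit 60) (nat_lit 5) (nat_lit 58) (nat_lit 5) (nat_lit 416) (nat_lit 391) (nat_lit 213)) (XT.lf (nat_lit 0) (nat_lit 472046069740) (nat_lit 228) (nat_lit 89835615055) (nat_lit 76) (nat_lit 101619916515) (nat_lit 55) (nat_lit 5) (nat_lit 58) (nat_lit 5) (nat_lit 56) (nat_lit 5) (nat_lit 417) (nat_lit 391) (nat_lit 212))))) (XT.nd (nat_lit 234) (nat_lit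 456) (nat_lit 0) (XT.nd (nat_lit 78) (nat_lit 304) (nat_lit 0) (XT.lf (nat_lit 0) (nat_lit 48307584541) (nat_lit 228) (nat_lit 172131414214) (nat_lit 76) (nat_lit 477646124976) (nat_lit 52) (nat_lit 5) (nat_lit 55) (nat_lit 5) (nat_lit 53) (nat_lit 5) (nat_lit 418) (nat_lit 391) (nat_lit 211)) (XT.nd (nat_lit 78) (nat_lit 152) (nat_lit 0) (XT.lf (nat_lit 0) (nat_lit 312087807305) (nat_lit 228) (nat_lit 266674753800) (nat_lit 76) (nat_lit 155938649762) (nat_lit 50) (nat_lit 5) (nat_lit 53) (nat_lit 5) (nat_lit 51) (nat_lit 5) (nat_lit 419) (nat_lit 391) (nat_lit 210)) (XT.lf (nat_lit 0) (nat_lit 400499278468) (nat_lit 152) (nat_lit 209488608225) (nat_lit 228) (nat_lit 163607826353) (nat_lit 48) (nat_lit 5) (nat_lit 50) (nat_lit 5) (nat_lit 51) (nat_lit 5) (nat_lit 420) (nat_lit 391) (nat_lit 209)))) (XT.nd (nat_lit 156) (nat_lit 152) (nat_lit 0) (XT.nd (nat_lit 78) (nat_lit 152) (nat_lit 0)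 (XT.lf (nat_lit 0) (nat_lit 125322394270) (nat_lit 152) (nat_lit 494497370707) (nat_lit 76) (nat_lit 195045328672) (nat_lit 46) (nat_lit 5) (nat_lit 48) (nat_lit 5) (nat_lit 47) (nat_lit 5) (nat_lit 421) (nat_lit 391) (nat_lit 208)) (XT.lf (nat_lit 0) (nat_lit 224302458038) (nat_lit 152) (nat_lit 221049126547) (nat_lit 228) (nat_lit 413264506685) (nat_lit 44) (nat_lit 5) (nat_lit 46) (nat_lit 5) (nat_lit 47) (nat_lit 5) (nat_lit 422) (nat_lit 391) (nat_lit 207))) (XT.nd (nat_lit 78) (nat_lit 76) (nat_lit 0) (XT.lf (nat_lit 0) (nat_lit 113031758048) (nat_lit 76) (nat_lit 691743886533) (nat_lit 152) (nat_lit 100401897406) (nat_lit 43) (nat_lit 5) (nat_lit 44) (nat_lit 5) (nat_lit 45) (nat_lit 4) (nat_lit 423) (nat_lit 391) (nat_lit 206)) (XT.lf (nat_lit 0) (nat_lit 244846282377) (nat_lit 152) (nat_lit 19711918855) (nat_lit 76) (nat_lit 689972427733) (nat_lit 42) (nat_lit 5) (nat_lit 44) (nat_lit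 5) (nat_lit 43) (nat_lit 5) (nat_lit 424) (nat_lit 391) (nat_lit 205))))))) (XT.nd (nat_lit 51012) (nat_lit 0) (nat_lit 3040) (XT.nd (nat_lit 468) (nat_lit 76) (nat_lit 0) (XT.nd (nat_lit 234) (nat_lit 304) (nat_lit 0) (XT.nd (nat_lit 78) (nat_lit 304) (nat_lit 0) (XT.lf (nat_lit 0) (nat_lit 630669072589) (nat_lit 228) (nat_lit 170707884108) (nat_lit 76) (nat_lit 205549092101) (nat_lit 40) (nat_lit 5) (nat_lit 43) (nat_lit 5) (nat_lit 41) (nat_lit 4) (nat_lit 425) (nat_lit 391) (nat_lit 204)) (XT.nd (nat_lit 78) (nat_lit 152) (nat_lit 0) (XT.lf (nat_lit 0) (nat_lit 617021925) (nat_lit 152) (nat_lit 346433662374) (nat_lit 76) (nat_lit 715662261298) (nat_lit 38) (nat_lit 5) (nat_lit 40) (nat_lit 5) (nat_lit 39) (nat_lit 5) (nat_lit 426) (nat_lit 391) (nat_lit 203)) (XT.lf (nat_lit 0) (nat_lit 409087835619) (nat_lit 228) (nat_lit 555255270567) (nat_lit 76) (nat_lit 157579825234) (nat_lit 36)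 (nat_lit 5) (nat_lit 39) (nat_lit 5) (nat_lit 37) (nat_lit 4) (nat_lit 427) (nat_lit 391) (nat_lit 202)))) (XT.nd (nat_lit 78) (nat_lit 228) (nat_lit 0) (XT.lf (nat_lit 0) (nat_lit 386024423703) (nat_lit 76) (nat_lit 482224262658) (nat_lit 152) (nat_lit 316720411156) (nat_lit 35) (nat_lit 5) (nat_lit 36) (nat_lit 5) (nat_lit 37) (nat_lit 4) (nat_lit 428) (nat_lit 391) (nat_lit 201)) (XT.nd (nat_lit 78) (nat_lit 0) (nat_lit 0) (XT.lf (nat_lit 0) (nat_lit 120902462197) (nat_lit 228) (nat_lit 1079659885260) (nat_lit 76) (nat_lit 51741174352) (nat_lit 32) (nat_lit 5) (nat_lit 35) (nat_lit 5) (nat_lit 33) (nat_lit 4) (nat_lit 429) (nat_lit 391) (nat_lit 200)) (XT.lf (nat_lit 0) (nat_lit 604863566994) (nat_lit 228) (nat_lit 87539661049) (nat_lit 76) (nat_lit 631240628013) (nat_lit 32) (nat_lit 5) (nat_lit 35) (nat_lit 5) (nat_lit 33) (nat_lit 4) (nat_lit 430) (nat_lit 391) (nat_lit 199))))) (XT.nd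 (nat_lit 50232) (nat_lit 0) (nat_lit 6688) (XT.nd (nat_lit 50076) (nat_lit 0) (nat_lit 6612) (XT.lf (nat_lit 0) (nat_lit 1016483952170) (nat_lit 76) (nat_lit 126927737182) (nat_lit 152) (nat_lit 256486221238) (nat_lit 31) (nat_lit 5) (nat_lit 32) (nat_lit 5) (nat_lit 33) (nat_lit 4) (nat_lit 431) (nat_lit 391) (nat_lit 198)) (XT.nd (nat_lit 78) (nat_lit 0) (nat_lit 76) (XT.lf (nat_lit 0) (nat_lit 31170715529) (nat_lit 836) (nat_lit 40034450473) (nat_lit 836) (nat_lit 40034450473) (nat_lit 118) (nat_lit 3) (nat_lit 129) (nat_lit 3) (nat_lit 129) (nat_lit 5) (nat_lit 392) (nat_lit 392) (nat_lit 236)) (XT.lf (nat_lit 0) (nat_lit 66797454491) (nat_lit 760) (nat_lit 135818270821) (nat_lit 836) (nat_lit 28664557537) (nat_lit 119) (nat_lit 5) (nat_lit 129) (nat_lit 5) (nat_lit 130) (nat_lit 5) (nat_lit 393) (nat_lit 392) (nat_lit 235)))) (XT.nd (nat_lit 156) (nat_lit 0) (nat_lit 152) (XT.nd (nat_lit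 78) (nat_lit 0) (nat_lit 76) (XT.lf (nat_lit 76) (nat_lit 46234459951) (nat_lit 0) (nat_lit 29916058078) (nat_lit 836) (nat_lit 164407870912) (nat_lit 120) (nat_lit 5) (nat_lit 119) (nat_lit 5) (nat_lit 130) (nat_lit 5) (nat_lit 394) (nat_lit 392) (nat_lit 234)) (XT.lf (nat_lit 0) (nat_lit 91101247786) (nat_lit 760) (nat_lit 5242884644) (nat_lit 836) (nat_lit 153992140137) (nat_lit 120) (nat_lit 5) (nat_lit 130) (nat_lit 5) (nat_lit 131) (nat_lit 5) (nat_lit 395) (nat_lit 392) (nat_lit 233))) (XT.nd (nat_lit 78) (nat_lit 0) (nat_lit 76) (XT.lf (nat_lit 0) (nat_lit 112421947476) (nat_lit 760) (nat_lit 57157730149) (nat_lit 836) (nat_lit 91058013773) (nat_lit 121) (nat_lit 5) (nat_lit 131) (nat_lit 5) (nat_lit 132) (nat_lit 5) (nat_lit 396) (nat_lit 392) (nat_lit 232)) (XT.lf (nat_lit 0) (nat_lit 140007435233) (nat_lit 760) (nat_lit 111031101318) (nat_lit 836) (nat_lit 20496730670) (nat_lit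 122) (nat_lit 5) (nat_lit 132) (nat_lit 5) (nat_lit 133) (nat_lit 5) (nat_lit 397) (nat_lit 392) (nat_lit 231)))))) (XT.nd (nat_lit 546) (nat_lit 1672) (nat_lit 0) (XT.nd (nat_lit 234) (nat_lit 1140) (nat_lit 0) (XT.nd (nat_lit 78) (nat_lit 1064) (nat_lit 0) (XT.lf (nat_lit 76) (nat_lit 115175702968) (nat_lit 0) (nat_lit 60293518762) (nat_lit 836) (nat_lit 107551954475) (nat_lit 123) (nat_lit 5) (nat_lit 122) (nat_lit 5) (nat_lit 133) (nat_lit 5) (nat_lit 398) (nat_lit 392) (nat_lit 230)) (XT.nd (nat_lit 78) (nat_lit 380) (nat_lit 0) (XT.lf (nat_lit 0) (nat_lit 67983797207) (nat_lit 760) (nat_lit 151086184621) (nat_lit 836) (nat_lit 76090874621) (nat_lit 113) (nat_lit 5) (nat_lit 123) (nat_lit 5) (nat_lit 124) (nat_lit 5) (nat_lit 399) (nat_lit 392) (nat_lit 229)) (XT.lf (nat_lit 0) (nat_lit 19265458496) (nat_lit 380) (nat_lit 252016380708) (nat_lit 456) (nat_lit 36733720154) (nat_lit 108)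 (nat_lit 5) (nat_lit 113) (nat_lit 5) (nat_lit 114) (nat_lit 5) (nat_lit 400) (nat_lit 392) (nat_lit 228)))) (XT.nd (nat_lit 156) (nat_lit 684) (nat_lit 0) (XT.nd (nat_lit 78) (nat_lit 380) (nat_lit 0) (XT.lf (nat_lit 0) (nat_lit 12156879244) (nat_lit 456) (nat_lit 30867684093) (nat_lit 76) (nat_lit 278541088724) (nat_lit 107) (nat_lit 5) (nat_lit 113) (nat_lit 5) (nat_lit 108) (nat_lit 5) (nat_lit 401) (nat_lit 392) (nat_lit 227)) (XT.lf (nat_lit 0) (nat_lit 70600850788) (nat_lit 456) (nat_lit 83703694203) (nat_lit 76) (nat_lit 181518642898) (nat_lit 102) (nat_lit 5) (nat_lit 108) (nat_lit 5) (nat_lit 103) (nat_lit 5) (nat_lit 402) (nat_lit 392) (nat_lit 226))) (XT.nd (nat_lit 78) (nat_lit 304) (nat_lit 0) (XT.lf (nat_lit 0) (nat_lit 139507307414) (nat_lit 456) (nat_lit 138407801776) (nat_lit 76) (nat_lit 73016869080) (nat_lit 97) (nat_lit 5) (nat_lit 103) (nat_lit 5) (nat_lit 98) (nat_lit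 5) (nat_lit 403) (nat_lit 392) (nat_lit 225)) (XT.lf (nat_lit 0) (nat_lit 171113565582) (nat_lit 304) (nat_lit 49567996128) (nat_lit 380) (nat_lit 146230146160) (nat_lit 93) (nat_lit 5) (nat_lit 97) (nat_lit 5) (nat_lit 98) (nat_lit 5) (nat_lit 404) (nat_lit 392) (nat_lit 224))))) (XT.nd (nat_lit 234) (nat_lit 760) (nat_lit 0) (XT.nd (nat_lit 78) (nat_lit 608) (nat_lit 0) (XT.lf (nat_lit 0) (nat_lit 127246458543) (nat_lit 304) (nat_lit 188616825599) (nat_lit 380) (nat_lit 67930855353) (nat_lit 89) (nat_lit 5) (nat_lit 93) (nat_lit 5) (nat_lit 94) (nat_lit 5) (nat_lit 405) (nat_lit 392) (nat_lit 223)) (XT.nd (nat_lit 78) (nat_lit 304) (nat_lit 0) (XT.lf (nat_lit 0) (nat_lit 22648091306) (nat_lit 304) (nat_lit 319920527983) (nat_lit 76) (nat_lit 59118159871) (nat_lit 85) (nat_lit 5) (nat_lit 89) (nat_lit 5) (nat_lit 86) (nat_lit 5) (nat_lit 406) (nat_lit 392) (nat_lit 222)) (XT.lf (nat_lit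 0) (nat_lit 32148874298) (nat_lit 304) (nat_lit 94200754819) (nat_lit 380) (nat_lit 294192707804) (nat_lit 81) (nat_lit 5) (nat_lit 85) (nat_lit 5) (nat_lit 86) (nat_lit 5) (nat_lit 407) (nat_lit 392) (nat_lit 221)))) (XT.nd (nat_lit 156) (nat_lit 532) (nat_lit 0) (XT.nd (nat_lit 78) (nat_lit 228) (nat_lit 0) (XT.lf (nat_lit 0) (nat_lit 246728569386) (nat_lit 380) (nat_lit 19628280672) (nat_lit 76) (nat_lit 174130425308) (nat_lit 81) (nat_lit 5) (nat_lit 86) (nat_lit 5) (nat_lit 82) (nat_lit 5) (nat_lit 408) (nat_lit 392) (nat_lit 220)) (XT.lf (nat_lit 0) (nat_lit 384487353618) (nat_lit 304) (nat_lit 72207509709) (nat_lit 76) (nat_lit 4945469154) (nat_lit 78) (nat_lit 5) (nat_lit 82) (nat_lit 5) (nat_lit 79) (nat_lit 5) (nat_lit 409) (nat_lit 392) (nat_lit 219))) (XT.nd (nat_lit 78) (nat_lit 228) (nat_lit 0) (XT.lf (nat_lit 0) (nat_lit 57760131503) (nat_lit 304) (nat_lit 130604899367) (nat_lit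 76) (nat_lit 295555511340) (nat_lit 74) (nat_lit 5) (nat_lit 78) (nat_lit 5) (nat_lit 75) (nat_lit 5) (nat_lit 410) (nat_lit 392) (nat_lit 218)) (XT.lf (nat_lit 0) (nat_lit 208723582740) (nat_lit 304) (nat_lit 192971992790) (nat_lit 76) (nat_lit 105826335236) (nat_lit 71) (nat_lit 5) (nat_lit 75) (nat_lit 5) (nat_lit 72) (nat_lit 5) (nat_lit 411) (nat_lit 392) (nat_lit 217))))))))
noncomputable def xc116 : XT := (XT.nd (nat_lit 52104) (nat_lit 0) (nat_lit 912) (XT.nd (nat_lit 1014) (nat_lit 836) (nat_lit 0) (XT.nd (nat_lit 468) (nat_lit 1064) (nat_lit 0) (XT.nd (nat_lit 234) (nat_lit 380) (nat_lit 0) (XT.nd (nat_lit 78) (nat_lit 456) (nat_lit 0) (XT.lf (nat_lit 0) (nat_lit 272594494516) (nat_lit 228) (nat_lit 108914038116) (nat_lit 304) (nat_lit 151015635071) (nat_lit 68) (nat_lit 5) (nat_lit 71) (nat_lit 5) (nat_lit 72) (nat_lit 5) (nat_lit 412) (nat_lit 392) (nat_lit 216)) (XT.nd (nat_lit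 78) (nat_lit 228) (nat_lit 0) (XT.lf (nat_lit 0) (nat_lit 18677452100) (nat_lit 228) (nat_lit 332408396865) (nat_lit 76) (nat_lit 207915915709) (nat_lit 65) (nat_lit 5) (nat_lit 68) (nat_lit 5) (nat_lit 66) (nat_lit 5) (nat_lit 413) (nat_lit 392) (nat_lit 215)) (XT.lf (nat_lit 0) (nat_lit 175096032027) (nat_lit 228) (nat_lit 30802034760) (nat_lit 304) (nat_lit 381113572689) (nat_lit 62) (nat_lit 5) (nat_lit 65) (nat_lit 5) (nat_lit 66) (nat_lit 5) (nat_lit 414) (nat_lit 392) (nat_lit 214)))) (XT.nd (nat_lit 78) (nat_lit 228) (nat_lit 0) (XT.lf (nat_lit 0) (nat_lit 116822594300) (nat_lit 152) (nat_lit 303902531187) (nat_lit 228) (nat_lit 195905739051) (nat_lit 60) (nat_lit 5) (nat_lit 62) (nat_lit 5) (nat_lit 63) (nat_lit 5) (nat_lit 415) (nat_lit 392) (nat_lit 213)) (XT.nd (nat_lit 78) (nat_lit 0) (nat_lit 0) (XT.lf (nat_lit 0) (nat_lit 13330688164) (nat_lit 228) (nat_lit 593470032566) (nat_lit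 76) (nat_lit 41348502069) (nat_lit 57) (nat_lit 5) (nat_lit 60) (nat_lit 5) (nat_lit 58) (nat_lit 5) (nat_lit 416) (nat_lit 392) (nat_lit 212)) (XT.lf (nat_lit 0) (nat_lit 246507565950) (nat_lit 228) (nat_lit 18950591713) (nat_lit 76) (nat_lit 415867057638) (nat_lit 57) (nat_lit 5) (nat_lit 60) (nat_lit 5) (nat_lit 58) (nat_lit 5) (nat_lit 417) (nat_lit 392) (nat_lit 211))))) (XT.nd (nat_lit 234) (nat_lit 532) (nat_lit 0) (XT.nd (nat_lit 78) (nat_lit 380) (nat_lit 0) (XT.lf (nat_lit 0) (nat_lit 509810807551) (nat_lit 228) (nat_lit 97020719531) (nat_lit 76) (nat_lit 109750149454) (nat_lit 55) (nat_lit 5) (nat_lit 58) (nat_lit 5) (nat_lit 56) (nat_lit 5) (nat_lit 418) (nat_lit 392) (nat_lit 210)) (XT.nd (nat_lit 78) (nat_lit 152) (nat_lit 0) (XT.lf (nat_lit 0) (nat_lit 52173208288) (nat_lit 228) (nat_lit 185900224585) (nat_lit 76) (nat_lit 515858449672) (nat_lit 52) (nat_lit 5) (nat_lit 55)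 (nat_lit 5) (nat_lit 53) (nat_lit 5) (nat_lit 419) (nat_lit 392) (nat_lit 209)) (XT.lf (nat_lit 0) (nat_lit 337055809301) (nat_lit 228) (nat_lit 288007067097) (nat_lit 76) (nat_lit 168414382250) (nat_lit 50) (nat_lit 5) (nat_lit 53) (nat_lit 5) (nat_lit 51) (nat_lit 5) (nat_lit 420) (nat_lit 392) (nat_lit 208)))) (XT.nd (nat_lit 156) (nat_lit 228) (nat_lit 0) (XT.nd (nat_lit 78) (nat_lit 152) (nat_lit 0) (XT.lf (nat_lit 0) (nat_lit 432540815307) (nat_lit 152) (nat_lit 226247032228) (nat_lit 228) (nat_lit 176695475858) (nat_lit 48) (nat_lit 5) (nat_lit 50) (nat_lit 5) (nat_lit 51) (nat_lit 5) (nat_lit 421) (nat_lit 392) (nat_lit 207)) (XT.lf (nat_lit 0) (nat_lit 135349095654) (nat_lit 152) (nat_lit 534055570096) (nat_lit 76) (nat_lit 210649589721) (nat_lit 46) (nat_lit 5) (nat_lit 48) (nat_lit 5) (nat_lit 47) (nat_lit 5) (nat_lit 422) (nat_lit 392) (nat_lit 206))) (XT.nd (nat_lit 78) (nat_lit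 76) (nat_lit 0) (XT.lf (nat_lit 0) (nat_lit 242248175836) (nat_lit 152) (nat_lit 238732401710) (nat_lit 228) (nat_lit 446324757550) (nat_lit 44) (nat_lit 5) (nat_lit 46) (nat_lit 5) (nat_lit 47) (nat_lit 5) (nat_lit 423) (nat_lit 392) (nat_lit 205)) (XT.lf (nat_lit 0) (nat_lit 122075785544) (nat_lit 76) (nat_lit 747082745318) (nat_lit 152) (nat_lit 108433172595) (nat_lit 43) (nat_lit 5) (nat_lit 44) (nat_lit 5) (nat_lit 45) (nat_lit 4) (nat_lit 424) (nat_lit 392) (nat_lit 204)))))) (XT.nd (nat_lit 468) (nat_lit 0) (nat_lit 0) (XT.nd (nat_lit 234) (nat_lit 456) (nat_lit 0) (XT.nd (nat_lit 78) (nat_lit 304) (nat_lit 0) (XT.lf (nat_lit 0) (nat_lit 264434770658) (nat_lit 152) (nat_lit 21287469535) (nat_lit 76) (nat_lit 745170799670) (nat_lit 42) (nat_lit 5) (nat_lit 44) (nat_lit 5) (nat_lit 43) (nat_lit 5) (nat_lit 425) (nat_lit 392) (nat_lit 203)) (XT.nd (nat_lit 78) (nat_lit 152) (nat_lit 0)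 (XT.lf (nat_lit 0) (nat_lit 681123356104) (nat_lit 228) (nat_lit 184363144692) (nat_lit 76) (nat_lit 221993593897) (nat_lit 40) (nat_lit 5) (nat_lit 43) (nat_lit 5) (nat_lit 41) (nat_lit 4) (nat_lit 426) (nat_lit 392) (nat_lit 202)) (XT.lf (nat_lit 0) (nat_lit 667117670) (nat_lit 152) (nat_lit 374147020384) (nat_lit 76) (nat_lit 772915806380) (nat_lit 38) (nat_lit 5) (nat_lit 40) (nat_lit 5) (nat_lit 39) (nat_lit 5) (nat_lit 427) (nat_lit 392) (nat_lit 201)))) (XT.nd (nat_lit 78) (nat_lit 304) (nat_lit 0) (XT.lf (nat_lit 0) (nat_lit 441815571042) (nat_lit 228) (nat_lit 599674389184) (nat_lit 76) (nat_lit 170186770176) (nat_lit 36) (nat_lit 5) (nat_lit 39) (nat_lit 5) (nat_lit 37) (nat_lit 4) (nat_lit 428) (nat_lit 392) (nat_lit 200)) (XT.nd (nat_lit 78) (nat_lit 228) (nat_lit 0) (XT.lf (nat_lit 0) (nat_lit 416907623999) (nat_lit 76) (nat_lit 520801632818) (nat_lit 152) (nat_lit 342057334630)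 (nat_lit 35) (nat_lit 5) (nat_lit 36) (nat_lit 5) (nat_lit 37) (nat_lit 4) (nat_lit 429) (nat_lit 392) (nat_lit 199)) (XT.lf (nat_lit 0) (nat_lit 130575322704) (nat_lit 228) (nat_lit 1166031437952) (nat_lit 76) (nat_lit 55881009639) (nat_lit 32) (nat_lit 5) (nat_lit 35) (nat_lit 5) (nat_lit 33) (nat_lit 4) (nat_lit 430) (nat_lit 392) (nat_lit 198))))) (XT.nd (nat_lit 50310) (nat_lit 0) (nat_lit 6612) (XT.nd (nat_lit 50154) (nat_lit 0) (nat_lit 6536) (XT.lf (nat_lit 0) (nat_lit 653253266734) (nat_lit 228) (nat_lit 94541687517) (nat_lit 76) (nat_lit 681740379494) (nat_lit 32) (nat_lit 5) (nat_lit 35) (nat_lit 5) (nat_lit 33) (nat_lit 4) (nat_lit 431) (nat_lit 392) (nat_lit 197)) (XT.nd (nat_lit 78) (nat_lit 0) (nat_lit 76) (XT.lf (nat_lit 0) (nat_lit 33666349921) (nat_lit 836) (nat_lit 43236167966) (nat_lit 836) (nat_lit 43236167966) (nat_lit 118) (nat_lit 3) (nat_lit 129) (nat_lit 3) (nat_lit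 129) (nat_lit 5) (nat_lit 393) (nat_lit 393) (nat_lit 234)) (XT.lf (nat_lit 0) (nat_lit 72144916630) (nat_lit 760) (nat_lit 146681532415) (nat_lit 836) (nat_lit 30956071142) (nat_lit 119) (nat_lit 5) (nat_lit 129) (nat_lit 5) (nat_lit 130) (nat_lit 5) (nat_lit 394) (nat_lit 393) (nat_lit 233)))) (XT.nd (nat_lit 156) (nat_lit 0) (nat_lit 152) (XT.nd (nat_lit 78) (nat_lit 0) (nat_lit 76) (XT.lf (nat_lit 76) (nat_lit 49935321208) (nat_lit 0) (nat_lit 32310665360) (nat_lit 836) (nat_lit 177556900280) (nat_lit 120) (nat_lit 5) (nat_lit 119) (nat_lit 5) (nat_lit 130) (nat_lit 5) (nat_lit 395) (nat_lit 393) (nat_lit 232)) (XT.lf (nat_lit 0) (nat_lit 98392501725) (nat_lit 760) (nat_lit 5660187343) (nat_lit 836) (nat_lit 166310325882) (nat_lit 120) (nat_lit 5) (nat_lit 130) (nat_lit 5) (nat_lit 131) (nat_lit 5) (nat_lit 396) (nat_lit 393) (nat_lit 231))) (XT.nd (nat_lit 78) (nat_lit 0) (nat_lit 76)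 (XT.lf (nat_lit 0) (nat_lit 121418641222) (nat_lit 760) (nat_lit 61728149457) (nat_lit 836) (nat_lit 98341767545) (nat_lit 121) (nat_lit 5) (nat_lit 131) (nat_lit 5) (nat_lit 132) (nat_lit 5) (nat_lit 397) (nat_lit 393) (nat_lit 230)) (XT.lf (nat_lit 0) (nat_lit 151210773074) (nat_lit 760) (nat_lit 119911336617) (nat_lit 836) (nat_lit 22135840285) (nat_lit 122) (nat_lit 5) (nat_lit 132) (nat_lit 5) (nat_lit 133) (nat_lit 5) (nat_lit 398) (nat_lit 393) (nat_lit 229))))))) (XT.nd (nat_lit 1014) (nat_lit 2280) (nat_lit 0) (XT.nd (nat_lit 468) (nat_lit 1748) (nat_lit 0) (XT.nd (nat_lit 234) (nat_lit 836) (nat_lit 0) (XT.nd (nat_lit 78) (nat_lit 1064) (nat_lit 0) (XT.lf (nat_lit 76) (nat_lit 124391914108) (nat_lit 0) (nat_lit 65117418840) (nat_lit 836) (nat_lit 116153407317) (nat_lit 123) (nat_lit 5) (nat_lit 122) (nat_lit 5) (nat_lit 133) (nat_lit 5) (nat_lit 399) (nat_lit 393) (nat_lit 228))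 (XT.nd (nat_lit 78) (nat_lit 380) (nat_lit 0) (XT.lf (nat_lit 0) (nat_lit 73424692873) (nat_lit 760) (nat_lit 163173298522) (nat_lit 836) (nat_lit 82175611756) (nat_lit 113) (nat_lit 5) (nat_lit 123) (nat_lit 5) (nat_lit 124) (nat_lit 5) (nat_lit 400) (nat_lit 393) (nat_lit 227)) (XT.lf (nat_lit 0) (nat_lit 20808911600) (nat_lit 380) (nat_lit 272177738604) (nat_lit 456) (nat_lit 39670039541) (nat_lit 108) (nat_lit 5) (nat_lit 113) (nat_lit 5) (nat_lit 114) (nat_lit 5) (nat_lit 401) (nat_lit 393) (nat_lit 226)))) (XT.nd (nat_lit 78) (nat_lit 760) (nat_lit 0) (XT.lf (nat_lit 0) (nat_lit 13131561165) (nat_lit 456) (nat_lit 33334975065) (nat_lit 76) (nat_lit 300824260386) (nat_lit 107) (nat_lit 5) (nat_lit 113) (nat_lit 5) (nat_lit 108) (nat_lit 5) (nat_lit 402) (nat_lit 393) (nat_lit 225)) (XT.nd (nat_lit 78) (nat_lit 380) (nat_lit 0) (XT.lf (nat_lit 0) (nat_lit 76250924661) (nat_lit 456) (nat_lit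 90397857463) (nat_lit 76) (nat_lit 196040159552) (nat_lit 102) (nat_lit 5) (nat_lit 108) (nat_lit 5) (nat_lit 103) (nat_lit 5) (nat_lit 403) (nat_lit 393) (nat_lit 224)) (XT.lf (nat_lit 0) (nat_lit 150669783432) (nat_lit 456) (nat_lit 149478293320) (nat_lit 76) (nat_lit 78858364323) (nat_lit 97) (nat_lit 5) (nat_lit 103) (nat_lit 5) (nat_lit 98) (nat_lit 5) (nat_lit 404) (nat_lit 393) (nat_lit 223))))) (XT.nd (nat_lit 234) (nat_lit 836) (nat_lit 0) (XT.nd (nat_lit 78) (nat_lit 608) (nat_lit 0) (XT.lf (nat_lit 0) (nat_lit 184804690746) (nat_lit 304) (nat_lit 53533179070) (nat_lit 380) (nat_lit 157926684708) (nat_lit 93) (nat_lit 5) (nat_lit 97) (nat_lit 5) (nat_lit 98) (nat_lit 5) (nat_lit 405) (nat_lit 393) (nat_lit 222)) (XT.nd (nat_lit 78) (nat_lit 304) (nat_lit 0) (XT.lf (nat_lit 0) (nat_lit 137428208724) (nat_lit 304) (nat_lit 203705824693) (nat_lit 380) (nat_lit 73363552155) (nat_lit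 89) (nat_lit 5) (nat_lit 93) (nat_lit 5) (nat_lit 94) (nat_lit 5) (nat_lit 406) (nat_lit 393) (nat_lit 221)) (XT.lf (nat_lit 0) (nat_lit 24461563677) (nat_lit 304) (nat_lit 345512094493) (nat_lit 76) (nat_lit 63847981402) (nat_lit 85) (nat_lit 5) (nat_lit 89) (nat_lit 5) (nat_lit 86) (nat_lit 5) (nat_lit 407) (nat_lit 393) (nat_lit 220)))) (XT.nd (nat_lit 156) (nat_lit 532) (nat_lit 0) (XT.nd (nat_lit 78) (nat_lit 0) (nat_lit 0) (XT.lf (nat_lit 0) (nat_lit 34722769762) (nat_lit 304) (nat_lit 101736365375) (nat_lit 380) (nat_lit 317726511335) (nat_lit 81) (nat_lit 5) (nat_lit 85) (nat_lit 5) (nat_lit 86) (nat_lit 5) (nat_lit 408) (nat_lit 393) (nat_lit 219)) (XT.lf (nat_lit 0) (nat_lit 266468283376) (nat_lit 380) (nat_lit 21196639515) (nat_lit 76) (nat_lit 188061262510) (nat_lit 81) (nat_lit 5) (nat_lit 86) (nat_lit 5) (nat_lit 82) (nat_lit 5) (nat_lit 409) (nat_lit 393) (nat_lit 218))) (XT.nd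 (nat_lit 78) (nat_lit 304) (nat_lit 0) (XT.lf (nat_lit 0) (nat_lit 415247700300) (nat_lit 304) (nat_lit 77982228856) (nat_lit 76) (nat_lit 5341561474) (nat_lit 78) (nat_lit 5) (nat_lit 82) (nat_lit 5) (nat_lit 79) (nat_lit 5) (nat_lit 410) (nat_lit 393) (nat_lit 217)) (XT.lf (nat_lit 0) (nat_lit 62382249450) (nat_lit 304) (nat_lit 141051447762) (nat_lit 76) (nat_lit 319200422535) (nat_lit 74) (nat_lit 5) (nat_lit 78) (nat_lit 5) (nat_lit 75) (nat_lit 5) (nat_lit 411) (nat_lit 393) (nat_lit 216)))))) (XT.nd (nat_lit 468) (nat_lit 988) (nat_lit 0) (XT.nd (nat_lit 234) (nat_lit 608) (nat_lit 0) (XT.nd (nat_lit 78) (nat_lit 456) (nat_lit 0) (XT.lf (nat_lit 0) (nat_lit 225422715673) (nat_lit 304) (nat_lit 208407934641) (nat_lit 76) (nat_lit 114292950565) (nat_lit 71) (nat_lit 5) (nat_lit 75) (nat_lit 5) (nat_lit 72) (nat_lit 5) (nat_lit 412) (nat_lit 393) (nat_lit 215)) (XT.nd (nat_lit 78) (nat_lit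 228) (nat_lit 0) (XT.lf (nat_lit 0) (nat_lit 294403792660) (nat_lit 228) (nat_lit 117626603721) (nat_lit 304) (nat_lit 163095645280) (nat_lit 68) (nat_lit 5) (nat_lit 71) (nat_lit 5) (nat_lit 72) (nat_lit 5) (nat_lit 413) (nat_lit 393) (nat_lit 214)) (XT.lf (nat_lit 0) (nat_lit 20172795554) (nat_lit 228) (nat_lit 358999318752) (nat_lit 76) (nat_lit 224549733824) (nat_lit 65) (nat_lit 5) (nat_lit 68) (nat_lit 5) (nat_lit 66) (nat_lit 5) (nat_lit 414) (nat_lit 393) (nat_lit 213)))) (XT.nd (nat_lit 78) (nat_lit 380) (nat_lit 0) (XT.lf (nat_lit 0) (nat_lit 189105388405) (nat_lit 228) (nat_lit 33265612160) (nat_lit 304) (nat_lit 411601515320) (nat_lit 62) (nat_lit 5) (nat_lit 65) (nat_lit 5) (nat_lit 66) (nat_lit 5) (nat_lit 415) (nat_lit 393) (nat_lit 212)) (XT.nd (nat_lit 78) (nat_lit 228) (nat_lit 0) (XT.lf (nat_lit 0) (nat_lit 126170046546) (nat_lit 152) (nat_lit 328214130932) (nat_lit 228)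 (nat_lit 211577103824) (nat_lit 60) (nat_lit 5) (nat_lit 62) (nat_lit 5) (nat_lit 63) (nat_lit 5) (nat_lit 416) (nat_lit 393) (nat_lit 211)) (XT.lf (nat_lit 0) (nat_lit 14398158548) (nat_lit 228) (nat_lit 640945986986) (nat_lit 76) (nat_lit 44656964055) (nat_lit 57) (nat_lit 5) (nat_lit 60) (nat_lit 5) (nat_lit 58) (nat_lit 5) (nat_lit 417) (nat_lit 393) (nat_lit 210))))) (XT.nd (nat_lit 234) (nat_lit 608) (nat_lit 0) (XT.nd (nat_lit 78) (nat_lit 380) (nat_lit 0) (XT.lf (nat_lit 0) (nat_lit 266229111347) (nat_lit 228) (nat_lit 20465112953) (nat_lit 76) (nat_lit 449136960971) (nat_lit 57) (nat_lit 5) (nat_lit 60) (nat_lit 5) (nat_lit 58) (nat_lit 5) (nat_lit 418) (nat_lit 393) (nat_lit 209)) (XT.nd (nat_lit 78) (nat_lit 228) (nat_lit 0) (XT.lf (nat_lit 0) (nat_lit 550596574273) (nat_lit 228) (nat_lit 104780881271) (nat_lit 76) (nat_lit 118530709780) (nat_lit 55) (nat_lit 5) (nat_lit 58) (nat_lit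 5) (nat_lit 56) (nat_lit 5) (nat_lit 419) (nat_lit 393) (nat_lit 208)) (XT.lf (nat_lit 0) (nat_lit 56347936850) (nat_lit 228) (nat_lit 200770782705) (nat_lit 76) (nat_lit 557127669797) (nat_lit 52) (nat_lit 5) (nat_lit 55) (nat_lit 5) (nat_lit 53) (nat_lit 5) (nat_lit 420) (nat_lit 393) (nat_lit 207)))) (XT.nd (nat_lit 156) (nat_lit 304) (nat_lit 0) (XT.nd (nat_lit 78) (nat_lit 152) (nat_lit 0) (XT.lf (nat_lit 0) (nat_lit 364021112018) (nat_lit 228) (nat_lit 311046203274) (nat_lit 76) (nat_lit 181888081961) (nat_lit 50) (nat_lit 5) (nat_lit 53) (nat_lit 5) (nat_lit 51) (nat_lit 5) (nat_lit 421) (nat_lit 393) (nat_lit 206)) (XT.lf (nat_lit 0) (nat_lit 467145447610) (nat_lit 152) (nat_lit 244346224971) (nat_lit 228) (nat_lit 190830276646) (nat_lit 48) (nat_lit 5) (nat_lit 50) (nat_lit 5) (nat_lit 51) (nat_lit 5) (nat_lit 422) (nat_lit 393) (nat_lit 205))) (XT.nd (nat_lit 78) (nat_lit 152) (nat_lit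 0) (XT.lf (nat_lit 0) (nat_lit 146177803348) (nat_lit 152) (nat_lit 576778652306) (nat_lit 76) (nat_lit 227502101099) (nat_lit 46) (nat_lit 5) (nat_lit 48) (nat_lit 5) (nat_lit 47) (nat_lit 5) (nat_lit 423) (nat_lit 393) (nat_lit 204)) (XT.lf (nat_lit 0) (nat_lit 261629334049) (nat_lit 152) (nat_lit 257830432324) (nat_lit 228) (nat_lit 482029958258) (nat_lit 44) (nat_lit 5) (nat_lit 46) (nat_lit 5) (nat_lit 47) (nat_lit 5) (nat_lit 424) (nat_lit 393) (nat_lit 203))))))))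
noncomputable def xc117 : XT := (XT.nd (nat_lit 52182) (nat_lit 0) (nat_lit 304) (XT.nd (nat_lit 51168) (nat_lit 0) (nat_lit 3192) (XT.nd (nat_lit 468) (nat_lit 228) (nat_lit 0) (XT.nd (nat_lit 234) (nat_lit 380) (nat_lit 0) (XT.nd (nat_lit 78) (nat_lit 228) (nat_lit 0) (XT.lf (nat_lit 0) (nat_lit 131843123123) (nat_lit 76) (nat_lit 806848805841) (nat_lit 152) (nat_lit 117107074856) (nat_lit 43) (nat_lit 5) (nat_lit 44) (nat_lit 5) (nat_lit 45) (nat_lit 4) (nat_lit 425) (nat_lit 393) (nat_lit 202)) (XT.nd (nat_lit 78) (nat_lit 152) (nat_lit 0) (XT.lf (nat_lit 0) (nat_lit 285590225915) (nat_lit 152) (nat_lit 22989264398) (nat_lit 76) (nat_lit 804784958943) (nat_lit 42) (nat_lit 5) (nat_lit 44) (nat_lit 5) (nat_lit 43) (nat_lit 5) (nat_lit 426) (nat_lit 393) (nat_lit 201)) (XT.lf (nat_lit 0) (nat_lit 735613874204) (nat_lit 228) (nat_lit 199111021589) (nat_lit 76) (nat_lit 239753573888) (nat_lit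 40) (nat_lit 5) (nat_lit 43) (nat_lit 5) (nat_lit 41) (nat_lit 4) (nat_lit 427) (nat_lit 393) (nat_lit 200)))) (XT.nd (nat_lit 78) (nat_lit 228) (nat_lit 0) (XT.lf (nat_lit 0) (nat_lit 721116363) (nat_lit 152) (nat_lit 404077637486) (nat_lit 76) (nat_lit 834749554582) (nat_lit 38) (nat_lit 5) (nat_lit 40) (nat_lit 5) (nat_lit 39) (nat_lit 5) (nat_lit 428) (nat_lit 393) (nat_lit 199)) (XT.nd (nat_lit 78) (nat_lit 76) (nat_lit 0) (XT.lf (nat_lit 0) (nat_lit 477161424214) (nat_lit 228) (nat_lit 647647223183) (nat_lit 76) (nat_lit 183802190977) (nat_lit 36) (nat_lit 5) (nat_lit 39) (nat_lit 5) (nat_lit 37) (nat_lit 4) (nat_lit 429) (nat_lit 393) (nat_lit 198)) (XT.lf (nat_lit 0) (nat_lit 450261302506) (nat_lit 76) (nat_lit 562465274029) (nat_lit 152) (nat_lit 369421313189) (nat_lit 35) (nat_lit 5) (nat_lit 36) (nat_lit 5) (nat_lit 37) (nat_lit 4) (nat_lit 430) (nat_lit 393) (nat_lit 197)))))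 (XT.nd (nat_lit 50388) (nat_lit 0) (nat_lit 6612) (XT.nd (nat_lit 50232) (nat_lit 0) (nat_lit 6536) (XT.lf (nat_lit 0) (nat_lit 141021917391) (nat_lit 228) (nat_lit 1259312891491) (nat_lit 76) (nat_lit 60351954521) (nat_lit 32) (nat_lit 5) (nat_lit 35) (nat_lit 5) (nat_lit 33) (nat_lit 4) (nat_lit 431) (nat_lit 393) (nat_lit 196)) (XT.nd (nat_lit 78) (nat_lit 0) (nat_lit 76) (XT.lf (nat_lit 0) (nat_lit 36361353001) (nat_lit 836) (nat_lit 46694171019) (nat_lit 836) (nat_lit 46694171019) (nat_lit 118) (nat_lit 3) (nat_lit 129) (nat_lit 3) (nat_lit 129) (nat_lit 5) (nat_lit 394) (nat_lit 394) (nat_lit 232)) (XT.lf (nat_lit 0) (nat_lit 77919652774) (nat_lit 760) (nat_lit 158414168800) (nat_lit 836) (nat_lit 33431141369) (nat_lit 119) (nat_lit 5) (nat_lit 129) (nat_lit 5) (nat_lit 130) (nat_lit 5) (nat_lit 395) (nat_lit 394) (nat_lit 231)))) (XT.nd (nat_lit 156) (nat_lit 0) (nat_lit 152) (XT.nd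 (nat_lit 78) (nat_lit 0) (nat_lit 76) (XT.lf (nat_lit 76) (nat_lit 53931951140) (nat_lit 0) (nat_lit 34896652537) (nat_lit 836) (nat_lit 191758365621) (nat_lit 120) (nat_lit 5) (nat_lit 119) (nat_lit 5) (nat_lit 130) (nat_lit 5) (nat_lit 396) (nat_lit 394) (nat_lit 230)) (XT.lf (nat_lit 0) (nat_lit 106266606010) (nat_lit 760) (nat_lit 6111177850) (nat_lit 836) (nat_lit 179614135606) (nat_lit 120) (nat_lit 5) (nat_lit 130) (nat_lit 5) (nat_lit 131) (nat_lit 5) (nat_lit 397) (nat_lit 394) (nat_lit 229))) (XT.nd (nat_lit 78) (nat_lit 0) (nat_lit 76) (XT.lf (nat_lit 0) (nat_lit 131134651337) (nat_lit 760) (nat_lit 66664516036) (nat_lit 836) (nat_lit 106208348205) (nat_lit 121) (nat_lit 5) (nat_lit 131) (nat_lit 5) (nat_lit 132) (nat_lit 5) (nat_lit 398) (nat_lit 394) (nat_lit 228)) (XT.lf (nat_lit 0) (nat_lit 163309986619) (nat_lit 760) (nat_lit 129502312128) (nat_lit 836) (nat_lit 23906168381)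 (nat_lit 122) (nat_lit 5) (nat_lit 132) (nat_lit 5) (nat_lit 133) (nat_lit 5) (nat_lit 399) (nat_lit 394) (nat_lit 227)))))) (XT.nd (nat_lit 468) (nat_lit 1748) (nat_lit 0) (XT.nd (nat_lit 234) (nat_lit 836) (nat_lit 0) (XT.nd (nat_lit 78) (nat_lit 1064) (nat_lit 0) (XT.lf (nat_lit 76) (nat_lit 134345114718) (nat_lit 0) (nat_lit 70327171209) (nat_lit 836) (nat_lit 125443362074) (nat_lit 123) (nat_lit 5) (nat_lit 122) (nat_lit 5) (nat_lit 133) (nat_lit 5) (nat_lit 400) (nat_lit 394) (nat_lit 226)) (XT.nd (nat_lit 78) (nat_lit 380) (nat_lit 0) (XT.lf (nat_lit 0) (nat_lit 79300547496) (nat_lit 760) (nat_lit 176227350274) (nat_lit 836) (nat_lit 88747489200) (nat_lit 113) (nat_lit 5) (nat_lit 123) (nat_lit 5) (nat_lit 124) (nat_lit 5) (nat_lit 401) (nat_lit 394) (nat_lit 225)) (XT.lf (nat_lit 0) (nat_lit 22475524756) (nat_lit 380) (nat_lit 293951998364) (nat_lit 456) (nat_lit 42841603759) (nat_lit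 108) (nat_lit 5) (nat_lit 113) (nat_lit 5) (nat_lit 114) (nat_lit 5) (nat_lit 402) (nat_lit 394) (nat_lit 224)))) (XT.nd (nat_lit 78) (nat_lit 760) (nat_lit 0) (XT.lf (nat_lit 0) (nat_lit 14183913545) (nat_lit 456) (nat_lit 35999952293) (nat_lit 76) (nat_lit 324890102250) (nat_lit 107) (nat_lit 5) (nat_lit 113) (nat_lit 5) (nat_lit 108) (nat_lit 5) (nat_lit 403) (nat_lit 394) (nat_lit 223)) (XT.nd (nat_lit 78) (nat_lit 380) (nat_lit 0) (XT.lf (nat_lit 0) (nat_lit 82352718292) (nat_lit 456) (nat_lit 97627857976) (nat_lit 76) (nat_lit 211723393941) (nat_lit 102) (nat_lit 5) (nat_lit 108) (nat_lit 5) (nat_lit 103) (nat_lit 5) (nat_lit 404) (nat_lit 394) (nat_lit 222)) (XT.lf (nat_lit 0) (nat_lit 162724987700) (nat_lit 456) (nat_lit 161434728427) (nat_lit 76) (nat_lit 85167158398) (nat_lit 97) (nat_lit 5) (nat_lit 103) (nat_lit 5) (nat_lit 98) (nat_lit 5) (nat_lit 405) (nat_lit 394) (nat_lit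 221))))) (XT.nd (nat_lit 234) (nat_lit 836) (nat_lit 0) (XT.nd (nat_lit 78) (nat_lit 608) (nat_lit 0) (XT.lf (nat_lit 0) (nat_lit 199590814906) (nat_lit 304) (nat_lit 57815613275) (nat_lit 380) (nat_lit 170559213564) (nat_lit 93) (nat_lit 5) (nat_lit 97) (nat_lit 5) (nat_lit 98) (nat_lit 5) (nat_lit 406) (nat_lit 394) (nat_lit 220)) (XT.nd (nat_lit 78) (nat_lit 304) (nat_lit 0) (XT.lf (nat_lit 0) (nat_lit 148424208818) (nat_lit 304) (nat_lit 220001993210) (nat_lit 380) (nat_lit 79231117443) (nat_lit 89) (nat_lit 5) (nat_lit 93) (nat_lit 5) (nat_lit 94) (nat_lit 5) (nat_lit 407) (nat_lit 394) (nat_lit 219)) (XT.lf (nat_lit 0) (nat_lit 26419882004) (nat_lit 304) (nat_lit 373151282449) (nat_lit 76) (nat_lit 68956136051) (nat_lit 85) (nat_lit 5) (nat_lit 89) (nat_lit 5) (nat_lit 86) (nat_lit 5) (nat_lit 408) (nat_lit 394) (nat_lit 218)))) (XT.nd (nat_lit 156) (nat_lit 532) (nat_lit 0) (XT.nd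 (nat_lit 78) (nat_lit 0) (nat_lit 0) (XT.lf (nat_lit 0) (nat_lit 37502293607) (nat_lit 304) (nat_lit 109874888949) (nat_lit 380) (nat_lit 343143249274) (nat_lit 81) (nat_lit 5) (nat_lit 85) (nat_lit 5) (nat_lit 86) (nat_lit 5) (nat_lit 409) (nat_lit 394) (nat_lit 217)) (XT.lf (nat_lit 0) (nat_lit 287786970702) (nat_lit 380) (nat_lit 22890738636) (nat_lit 76) (nat_lit 203106509172) (nat_lit 81) (nat_lit 5) (nat_lit 86) (nat_lit 5) (nat_lit 82) (nat_lit 5) (nat_lit 410) (nat_lit 394) (nat_lit 216))) (XT.nd (nat_lit 78) (nat_lit 304) (nat_lit 0) (XT.lf (nat_lit 0) (nat_lit 448468680927) (nat_lit 304) (nat_lit 84219193970) (nat_lit 76) (nat_lit 5769276300) (nat_lit 78) (nat_lit 5) (nat_lit 82) (nat_lit 5) (nat_lit 79) (nat_lit 5) (nat_lit 411) (nat_lit 394) (nat_lit 215)) (XT.lf (nat_lit 0) (nat_lit 67373950314) (nat_lit 304) (nat_lit 152333983033) (nat_lit 76) (nat_lit 344736859534) (nat_lit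 74) (nat_lit 5) (nat_lit 78) (nat_lit 5) (nat_lit 75) (nat_lit 5) (nat_lit 412) (nat_lit 394) (nat_lit 214))))))) (XT.nd (nat_lit 1014) (nat_lit 608) (nat_lit 0) (XT.nd (nat_lit 468) (nat_lit 988) (nat_lit 0) (XT.nd (nat_lit 234) (nat_lit 608) (nat_lit 0) (XT.nd (nat_lit 78) (nat_lit 456) (nat_lit 0) (XT.lf (nat_lit 0) (nat_lit 243457601441) (nat_lit 304) (nat_lit 225079011137) (nat_lit 76) (nat_lit 123436822574) (nat_lit 71) (nat_lit 5) (nat_lit 75) (nat_lit 5) (nat_lit 72) (nat_lit 5) (nat_lit 413) (nat_lit 394) (nat_lit 213)) (XT.nd (nat_lit 78) (nat_lit 228) (nat_lit 0) (XT.lf (nat_lit 0) (nat_lit 317957586627) (nat_lit 228) (nat_lit 127036254101) (nat_lit 304) (nat_lit 176142233291) (nat_lit 68) (nat_lit 5) (nat_lit 71) (nat_lit 5) (nat_lit 72) (nat_lit 5) (nat_lit 414) (nat_lit 394) (nat_lit 212)) (XT.lf (nat_lit 0) (nat_lit 21787602812) (nat_lit 228) (nat_lit 387717764027) (nat_lit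 76) (nat_lit 242514179658) (nat_lit 65) (nat_lit 5) (nat_lit 68) (nat_lit 5) (nat_lit 66) (nat_lit 5) (nat_lit 415) (nat_lit 394) (nat_lit 211)))) (XT.nd (nat_lit 78) (nat_lit 380) (nat_lit 0) (XT.lf (nat_lit 0) (nat_lit 204235254505) (nat_lit 228) (nat_lit 35926359264) (nat_lit 304) (nat_lit 444528656449) (nat_lit 62) (nat_lit 5) (nat_lit 65) (nat_lit 5) (nat_lit 66) (nat_lit 5) (nat_lit 416) (nat_lit 394) (nat_lit 210)) (XT.nd (nat_lit 78) (nat_lit 228) (nat_lit 0) (XT.lf (nat_lit 0) (nat_lit 136265060336) (nat_lit 152) (nat_lit 354470744645) (nat_lit 228) (nat_lit 228502333900) (nat_lit 60) (nat_lit 5) (nat_lit 62) (nat_lit 5) (nat_lit 63) (nat_lit 5) (nat_lit 417) (nat_lit 394) (nat_lit 209)) (XT.lf (nat_lit 0) (nat_lit 15550881715) (nat_lit 228) (nat_lit 692220252892) (nat_lit 76) (nat_lit 48230019996) (nat_lit 57) (nat_lit 5) (nat_lit 60) (nat_lit 5) (nat_lit 58) (nat_lit 5) (nat_lit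 418) (nat_lit 394) (nat_lit 208))))) (XT.nd (nat_lit 234) (nat_lit 608) (nat_lit 0) (XT.nd (nat_lit 78) (nat_lit 380) (nat_lit 0) (XT.lf (nat_lit 0) (nat_lit 287528246257) (nat_lit 228) (nat_lit 22101013607) (nat_lit 76) (nat_lit 485068379716) (nat_lit 57) (nat_lit 5) (nat_lit 60) (nat_lit 5) (nat_lit 58) (nat_lit 5) (nat_lit 419) (nat_lit 394) (nat_lit 207)) (XT.nd (nat_lit 78) (nat_lit 228) (nat_lit 0) (XT.lf (nat_lit 0) (nat_lit 594645073637) (nat_lit 228) (nat_lit 113162069345) (nat_lit 76) (nat_lit 128013636701) (nat_lit 55) (nat_lit 5) (nat_lit 58) (nat_lit 5) (nat_lit 56) (nat_lit 5) (nat_lit 420) (nat_lit 394) (nat_lit 206)) (XT.lf (nat_lit 0) (nat_lit 60856519311) (nat_lit 228) (nat_lit 216831193737) (nat_lit 76) (nat_lit 601698349903) (nat_lit 52) (nat_lit 5) (nat_lit 55) (nat_lit 5) (nat_lit 53) (nat_lit 5) (nat_lit 421) (nat_lit 394) (nat_lit 205)))) (XT.nd (nat_lit 156) (nat_lit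 304) (nat_lit 0) (XT.nd (nat_lit 78) (nat_lit 152) (nat_lit 0) (XT.lf (nat_lit 0) (nat_lit 393143519406) (nat_lit 228) (nat_lit 335928674236) (nat_lit 76) (nat_lit 196439599310) (nat_lit 50) (nat_lit 5) (nat_lit 53) (nat_lit 5) (nat_lit 51) (nat_lit 5) (nat_lit 422) (nat_lit 394) (nat_lit 204)) (XT.lf (nat_lit 0) (nat_lit 504518255469) (nat_lit 152) (nat_lit 263893434427) (nat_lit 228) (nat_lit 206095980945) (nat_lit 48) (nat_lit 5) (nat_lit 50) (nat_lit 5) (nat_lit 51) (nat_lit 5) (nat_lit 423) (nat_lit 394) (nat_lit 203))) (XT.nd (nat_lit 78) (nat_lit 152) (nat_lit 0) (XT.lf (nat_lit 0) (nat_lit 157872696377) (nat_lit 152) (nat_lit 622919775597) (nat_lit 76) (nat_lit 245702735751) (nat_lit 46) (nat_lit 5) (nat_lit 48) (nat_lit 5) (nat_lit 47) (nat_lit 5) (nat_lit 424) (nat_lit 394) (nat_lit 202)) (XT.lf (nat_lit 0) (nat_lit 282560798868) (nat_lit 152) (nat_lit 278456385495) (nat_lit 228)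 (nat_lit 520591686284) (nat_lit 44) (nat_lit 5) (nat_lit 46) (nat_lit 5) (nat_lit 47) (nat_lit 5) (nat_lit 425) (nat_lit 394) (nat_lit 201)))))) (XT.nd (nat_lit 50856) (nat_lit 0) (nat_lit 5472) (XT.nd (nat_lit 234) (nat_lit 304) (nat_lit 0) (XT.nd (nat_lit 78) (nat_lit 228) (nat_lit 0) (XT.lf (nat_lit 0) (nat_lit 142391665854) (nat_lit 76) (nat_lit 871396230968) (nat_lit 152) (nat_lit 126474996515) (nat_lit 43) (nat_lit 5) (nat_lit 44) (nat_lit 5) (nat_lit 45) (nat_lit 4) (nat_lit 426) (nat_lit 394) (nat_lit 200)) (XT.nd (nat_lit 78) (nat_lit 152) (nat_lit 0) (XT.lf (nat_lit 0) (nat_lit 308438021495) (nat_lit 152) (nat_lit 24827374430) (nat_lit 76) (nat_lit 869168180298) (nat_lit 42) (nat_lit 5) (nat_lit 44) (nat_lit 5) (nat_lit 43) (nat_lit 5) (nat_lit 427) (nat_lit 394) (nat_lit 199)) (XT.lf (nat_lit 0) (nat_lit 794463541078) (nat_lit 228) (nat_lit 215038896218) (nat_lit 76) (nat_lit 258934282020)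 (nat_lit 40) (nat_lit 5) (nat_lit 43) (nat_lit 5) (nat_lit 41) (nat_lit 4) (nat_lit 428) (nat_lit 394) (nat_lit 198)))) (XT.nd (nat_lit 50466) (nat_lit 0) (nat_lit 6232) (XT.nd (nat_lit 78) (nat_lit 152) (nat_lit 0) (XT.lf (nat_lit 0) (nat_lit 779345178) (nat_lit 152) (nat_lit 436402867235) (nat_lit 76) (nat_lit 901529933637) (nat_lit 38) (nat_lit 5) (nat_lit 40) (nat_lit 5) (nat_lit 39) (nat_lit 5) (nat_lit 429) (nat_lit 394) (nat_lit 197)) (XT.lf (nat_lit 0) (nat_lit 515334858974) (nat_lit 228) (nat_lit 699458043274) (nat_lit 76) (nat_lit 198506777080) (nat_lit 36) (nat_lit 5) (nat_lit 39) (nat_lit 5) (nat_lit 37) (nat_lit 4) (nat_lit 430) (nat_lit 394) (nat_lit 196))) (XT.nd (nat_lit 78) (nat_lit 0) (nat_lit 76) (XT.lf (nat_lit 0) (nat_lit 39271714505) (nat_lit 836) (nat_lit 50428941340) (nat_lit 836) (nat_lit 50428941340) (nat_lit 118) (nat_lit 3) (nat_lit 129) (nat_lit 3) (nat_lit 129)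 (nat_lit 5) (nat_lit 395) (nat_lit 395) (nat_lit 230)) (XT.lf (nat_lit 0) (nat_lit 84155919453) (nat_lit 760) (nat_lit 171085685185) (nat_lit 836) (nat_lit 36104419146) (nat_lit 119) (nat_lit 5) (nat_lit 129) (nat_lit 5) (nat_lit 130) (nat_lit 5) (nat_lit 396) (nat_lit 395) (nat_lit 229))))) (XT.nd (nat_lit 234) (nat_lit 836) (nat_lit 0) (XT.nd (nat_lit 78) (nat_lit 0) (nat_lit 76) (XT.lf (nat_lit 76) (nat_lit 58248054072) (nat_lit 0) (nat_lit 37689356916) (nat_lit 836) (nat_lit 207096388539) (nat_lit 120) (nat_lit 5) (nat_lit 119) (nat_lit 5) (nat_lit 130) (nat_lit 5) (nat_lit 397) (nat_lit 395) (nat_lit 228)) (XT.nd (nat_lit 78) (nat_lit 0) (nat_lit 76) (XT.lf (nat_lit 0) (nat_lit 114770252861) (nat_lit 760) (nat_lit 6598507881) (nat_lit 836) (nat_lit 193982395102) (nat_lit 120) (nat_lit 5) (nat_lit 130) (nat_lit 5) (nat_lit 131) (nat_lit 5) (nat_lit 398) (nat_lit 395) (nat_lit 227)) (XT.lf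 (nat_lit 0) (nat_lit 141627582923) (nat_lit 760) (nat_lit 71996060911) (nat_lit 836) (nat_lit 114704363847) (nat_lit 121) (nat_lit 5) (nat_lit 131) (nat_lit 5) (nat_lit 132) (nat_lit 5) (nat_lit 399) (nat_lit 395) (nat_lit 226)))) (XT.nd (nat_lit 156) (nat_lit 1064) (nat_lit 0) (XT.nd (nat_lit 78) (nat_lit 0) (nat_lit 0) (XT.lf (nat_lit 0) (nat_lit 176376801751) (nat_lit 760) (nat_lit 139860841218) (nat_lit 836) (nat_lit 25818199637) (nat_lit 122) (nat_lit 5) (nat_lit 132) (nat_lit 5) (nat_lit 133) (nat_lit 5) (nat_lit 400) (nat_lit 395) (nat_lit 225)) (XT.lf (nat_lit 76) (nat_lit 145094307813) (nat_lit 0) (nat_lit 75953652571) (nat_lit 836) (nat_lit 135476843875) (nat_lit 123) (nat_lit 5) (nat_lit 122) (nat_lit 5) (nat_lit 133) (nat_lit 5) (nat_lit 401) (nat_lit 395) (nat_lit 224))) (XT.nd (nat_lit 78) (nat_lit 380) (nat_lit 0) (XT.lf (nat_lit 0) (nat_lit 85646202400) (nat_lit 760) (nat_lit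 190325699364) (nat_lit 836) (nat_lit 95845426627) (nat_lit 113) (nat_lit 5) (nat_lit 123) (nat_lit 5) (nat_lit 124) (nat_lit 5) (nat_lit 402) (nat_lit 395) (nat_lit 223)) (XT.lf (nat_lit 0) (nat_lit 24275195874) (nat_lit 380) (nat_lit 317468193102) (nat_lit 456) (nat_lit 46267183993) (nat_lit 108) (nat_lit 5) (nat_lit 113) (nat_lit 5) (nat_lit 114) (nat_lit 5) (nat_lit 403) (nat_lit 395) (nat_lit 222))))))))
noncomputable def xc118 : XT := (XT.nd (nat_lit 2028) (nat_lit 152) (nat_lit 0) (XT.nd (nat_lit 1014) (nat_lit 1900) (nat_lit 0) (XT.nd (nat_lit 468) (nat_lit 1520) (nat_lit 0) (XT.nd (nat_lit 234) (nat_lit 912) (nat_lit 0) (XT.nd (nat_lit 78) (nat_lit 760) (nat_lit 0) (XT.lf (nat_lit 0) (nat_lit 15320193405) (nat_lit 456) (nat_lit 38878387453) (nat_lit 76) (nat_lit 350881225582) (nat_lit 107) (nat_lit 5) (nat_lit 113) (nat_lit 5) (nat_lit 108) (nat_lit 5) (nat_lit 404) (nat_lit 395)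 (nat_lit 221)) (XT.nd (nat_lit 78) (nat_lit 380) (nat_lit 0) (XT.lf (nat_lit 0) (nat_lit 88942410086) (nat_lit 456) (nat_lit 105436519327) (nat_lit 76) (nat_lit 228661283996) (nat_lit 102) (nat_lit 5) (nat_lit 108) (nat_lit 5) (nat_lit 103) (nat_lit 5) (nat_lit 405) (nat_lit 395) (nat_lit 220)) (XT.lf (nat_lit 0) (nat_lit 175744376970) (nat_lit 456) (nat_lit 174347939178) (nat_lit 76) (nat_lit 91980638177) (nat_lit 97) (nat_lit 5) (nat_lit 103) (nat_lit 5) (nat_lit 98) (nat_lit 5) (nat_lit 406) (nat_lit 395) (nat_lit 219)))) (XT.nd (nat_lit 78) (nat_lit 608) (nat_lit 0) (XT.lf (nat_lit 0) (nat_lit 215559579499) (nat_lit 304) (nat_lit 62440673619) (nat_lit 380) (nat_lit 184202573832) (nat_lit 93) (nat_lit 5) (nat_lit 97) (nat_lit 5) (nat_lit 98) (nat_lit 5) (nat_lit 407) (nat_lit 395) (nat_lit 218)) (XT.nd (nat_lit 78) (nat_lit 304) (nat_lit 0) (XT.lf (nat_lit 0) (nat_lit 160299640204) (nat_lit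 304) (nat_lit 237601897645) (nat_lit 380) (nat_lit 85568304639) (nat_lit 89) (nat_lit 5) (nat_lit 93) (nat_lit 5) (nat_lit 94) (nat_lit 5) (nat_lit 408) (nat_lit 395) (nat_lit 217)) (XT.lf (nat_lit 0) (nat_lit 28534667037) (nat_lit 304) (nat_lit 403001859322) (nat_lit 76) (nat_lit 74472897971) (nat_lit 85) (nat_lit 5) (nat_lit 89) (nat_lit 5) (nat_lit 86) (nat_lit 5) (nat_lit 409) (nat_lit 395) (nat_lit 216))))) (XT.nd (nat_lit 234) (nat_lit 988) (nat_lit 0) (XT.nd (nat_lit 78) (nat_lit 228) (nat_lit 0) (XT.lf (nat_lit 0) (nat_lit 40503936512) (nat_lit 304) (nat_lit 118664549426) (nat_lit 380) (nat_lit 370593523544) (nat_lit 81) (nat_lit 5) (nat_lit 85) (nat_lit 5) (nat_lit 86) (nat_lit 5) (nat_lit 410) (nat_lit 395) (nat_lit 215)) (XT.nd (nat_lit 78) (nat_lit 228) (nat_lit 0) (XT.lf (nat_lit 0) (nat_lit 310810978303) (nat_lit 380) (nat_lit 24720598516) (nat_lit 76) (nat_lit 219355326253)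 (nat_lit 81) (nat_lit 5) (nat_lit 86) (nat_lit 5) (nat_lit 82) (nat_lit 5) (nat_lit 411) (nat_lit 395) (nat_lit 214)) (XT.lf (nat_lit 0) (nat_lit 484347173860) (nat_lit 304) (nat_lit 90955346433) (nat_lit 76) (nat_lit 6231152686) (nat_lit 78) (nat_lit 5) (nat_lit 82) (nat_lit 5) (nat_lit 79) (nat_lit 5) (nat_lit 412) (nat_lit 395) (nat_lit 213)))) (XT.nd (nat_lit 156) (nat_lit 456) (nat_lit 0) (XT.nd (nat_lit 78) (nat_lit 228) (nat_lit 0) (XT.lf (nat_lit 0) (nat_lit 72764827337) (nat_lit 304) (nat_lit 164519346608) (nat_lit 76) (nat_lit 372316153973) (nat_lit 74) (nat_lit 5) (nat_lit 78) (nat_lit 5) (nat_lit 75) (nat_lit 5) (nat_lit 413) (nat_lit 395) (nat_lit 212)) (XT.lf (nat_lit 0) (nat_lit 262935125634) (nat_lit 304) (nat_lit 243083996058) (nat_lit 76) (nat_lit 133312142150) (nat_lit 71) (nat_lit 5) (nat_lit 75) (nat_lit 5) (nat_lit 72) (nat_lit 5) (nat_lit 414) (nat_lit 395) (nat_lit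 211))) (XT.nd (nat_lit 78) (nat_lit 228) (nat_lit 0) (XT.lf (nat_lit 0) (nat_lit 343395471468) (nat_lit 228) (nat_lit 137198744691) (nat_lit 304) (nat_lit 190232700079) (nat_lit 68) (nat_lit 5) (nat_lit 71) (nat_lit 5) (nat_lit 72) (nat_lit 5) (nat_lit 415) (nat_lit 395) (nat_lit 210)) (XT.lf (nat_lit 0) (nat_lit 23531454327) (nat_lit 228) (nat_lit 418733898947) (nat_lit 76) (nat_lit 261915714518) (nat_lit 65) (nat_lit 5) (nat_lit 68) (nat_lit 5) (nat_lit 66) (nat_lit 5) (nat_lit 416) (nat_lit 395) (nat_lit 209)))))) (XT.nd (nat_lit 468) (nat_lit 912) (nat_lit 0) (XT.nd (nat_lit 234) (nat_lit 380) (nat_lit 0) (XT.nd (nat_lit 78) (nat_lit 380) (nat_lit 0) (XT.lf (nat_lit 0) (nat_lit 220575305170) (nat_lit 228) (nat_lit 38800037732) (nat_lit 304) (nat_lit 480090108691) (nat_lit 62) (nat_lit 5) (nat_lit 65) (nat_lit 5) (nat_lit 66) (nat_lit 5) (nat_lit 417) (nat_lit 395) (nat_lit 208)) (XT.nd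 (nat_lit 78) (nat_lit 228) (nat_lit 0) (XT.lf (nat_lit 0) (nat_lit 147167474067) (nat_lit 152) (nat_lit 382827961178) (nat_lit 228) (nat_lit 246781716230) (nat_lit 60) (nat_lit 5) (nat_lit 62) (nat_lit 5) (nat_lit 63) (nat_lit 5) (nat_lit 418) (nat_lit 395) (nat_lit 207)) (XT.lf (nat_lit 0) (nat_lit 16795698551) (nat_lit 228) (nat_lit 747596661659) (nat_lit 76) (nat_lit 52088849251) (nat_lit 57) (nat_lit 5) (nat_lit 60) (nat_lit 5) (nat_lit 58) (nat_lit 5) (nat_lit 419) (nat_lit 395) (nat_lit 206)))) (XT.nd (nat_lit 78) (nat_lit 380) (nat_lit 0) (XT.lf (nat_lit 0) (nat_lit 310531196975) (nat_lit 228) (nat_lit 23867972969) (nat_lit 76) (nat_lit 523874246071) (nat_lit 57) (nat_lit 5) (nat_lit 60) (nat_lit 5) (nat_lit 58) (nat_lit 5) (nat_lit 420) (nat_lit 395) (nat_lit 205)) (XT.nd (nat_lit 78) (nat_lit 228) (nat_lit 0) (XT.lf (nat_lit 0) (nat_lit 642217342612) (nat_lit 228) (nat_lit 122213935418)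 (nat_lit 76) (nat_lit 138255130705) (nat_lit 55) (nat_lit 5) (nat_lit 58) (nat_lit 5) (nat_lit 56) (nat_lit 5) (nat_lit 421) (nat_lit 395) (nat_lit 204)) (XT.lf (nat_lit 0) (nat_lit 65725681728) (nat_lit 228) (nat_lit 234176616205) (nat_lit 76) (nat_lit 649834617863) (nat_lit 52) (nat_lit 5) (nat_lit 55) (nat_lit 5) (nat_lit 53) (nat_lit 5) (nat_lit 422) (nat_lit 395) (nat_lit 203))))) (XT.nd (nat_lit 234) (nat_lit 456) (nat_lit 0) (XT.nd (nat_lit 78) (nat_lit 304) (nat_lit 0) (XT.lf (nat_lit 0) (nat_lit 424595616893) (nat_lit 228) (nat_lit 362801917678) (nat_lit 76) (nat_lit 212155170883) (nat_lit 50) (nat_lit 5) (nat_lit 53) (nat_lit 5) (nat_lit 51) (nat_lit 5) (nat_lit 423) (nat_lit 395) (nat_lit 202)) (XT.nd (nat_lit 78) (nat_lit 152) (nat_lit 0) (XT.lf (nat_lit 0) (nat_lit 544880720751) (nat_lit 152) (nat_lit 285004490336) (nat_lit 228) (nat_lit 222583043995) (nat_lit 48) (nat_lit 5)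 (nat_lit 50) (nat_lit 5) (nat_lit 51) (nat_lit 5) (nat_lit 424) (nat_lit 395) (nat_lit 201)) (XT.lf (nat_lit 0) (nat_lit 170503085442) (nat_lit 152) (nat_lit 672752355507) (nat_lit 76) (nat_lit 265359354614) (nat_lit 46) (nat_lit 5) (nat_lit 48) (nat_lit 5) (nat_lit 47) (nat_lit 5) (nat_lit 425) (nat_lit 395) (nat_lit 200)))) (XT.nd (nat_lit 156) (nat_lit 228) (nat_lit 0) (XT.nd (nat_lit 78) (nat_lit 76) (nat_lit 0) (XT.lf (nat_lit 0) (nat_lit 305166621364) (nat_lit 152) (nat_lit 300732483598) (nat_lit 228) (nat_lit 562238447941) (nat_lit 44) (nat_lit 5) (nat_lit 46) (nat_lit 5) (nat_lit 47) (nat_lit 5) (nat_lit 426) (nat_lit 395) (nat_lit 199)) (XT.lf (nat_lit 0) (nat_lit 153783936092) (nat_lit 76) (nat_lit 941107518489) (nat_lit 152) (nat_lit 136592443827) (nat_lit 43) (nat_lit 5) (nat_lit 44) (nat_lit 5) (nat_lit 45) (nat_lit 4) (nat_lit 427) (nat_lit 395) (nat_lit 198))) (XT.nd (nat_lit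 78) (nat_lit 152) (nat_lit 0) (XT.lf (nat_lit 0) (nat_lit 333113558333) (nat_lit 152) (nat_lit 26812680364) (nat_lit 76) (nat_lit 938701998782) (nat_lit 42) (nat_lit 5) (nat_lit 44) (nat_lit 5) (nat_lit 43) (nat_lit 5) (nat_lit 428) (nat_lit 395) (nat_lit 197)) (XT.lf (nat_lit 0) (nat_lit 858021101848) (nat_lit 228) (nat_lit 232241144492) (nat_lit 76) (nat_lit 279649386569) (nat_lit 40) (nat_lit 5) (nat_lit 43) (nat_lit 5) (nat_lit 41) (nat_lit 4) (nat_lit 429) (nat_lit 395) (nat_lit 196))))))) (XT.nd (nat_lit 51402) (nat_lit 0) (nat_lit 1444) (XT.nd (nat_lit 50856) (nat_lit 0) (nat_lit 4484) (XT.nd (nat_lit 50622) (nat_lit 0) (nat_lit 6156) (XT.nd (nat_lit 50466) (nat_lit 0) (nat_lit 6080) (XT.lf (nat_lit 0) (nat_lit 842155331) (nat_lit 152) (nat_lit 471314255350) (nat_lit 76) (nat_lit 973652683856) (nat_lit 38) (nat_lit 5) (nat_lit 40) (nat_lit 5) (nat_lit 39) (nat_lit 5) (nat_lit 430)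 (nat_lit 395) (nat_lit 195)) (XT.nd (nat_lit 78) (nat_lit 0) (nat_lit 76) (XT.lf (nat_lit 0) (nat_lit 42414697605) (nat_lit 836) (nat_lit 54462602188) (nat_lit 836) (nat_lit 54462602188) (nat_lit 118) (nat_lit 3) (nat_lit 129) (nat_lit 3) (nat_lit 129) (nat_lit 5) (nat_lit 396) (nat_lit 396) (nat_lit 228)) (XT.lf (nat_lit 0) (nat_lit 90890703072) (nat_lit 760) (nat_lit 184771153581) (nat_lit 836) (nat_lit 38991732269) (nat_lit 119) (nat_lit 5) (nat_lit 129) (nat_lit 5) (nat_lit 130) (nat_lit 5) (nat_lit 397) (nat_lit 396) (nat_lit 227)))) (XT.nd (nat_lit 78) (nat_lit 0) (nat_lit 76) (XT.lf (nat_lit 76) (nat_lit 62909224564) (nat_lit 0) (nat_lit 40705338955) (nat_lit 836) (nat_lit 223661830819) (nat_lit 120) (nat_lit 5) (nat_lit 119) (nat_lit 5) (nat_lit 130) (nat_lit 5) (nat_lit 398) (nat_lit 396) (nat_lit 226)) (XT.nd (nat_lit 78) (nat_lit 0) (nat_lit 76) (XT.lf (nat_lit 0) (nat_lit 123953860718)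 (nat_lit 760) (nat_lit 7125047464) (nat_lit 836) (nat_lit 209500239665) (nat_lit 120) (nat_lit 5) (nat_lit 130) (nat_lit 5) (nat_lit 131) (nat_lit 5) (nat_lit 399) (nat_lit 396) (nat_lit 225)) (XT.lf (nat_lit 0) (nat_lit 152959640963) (nat_lit 760) (nat_lit 77754359975) (nat_lit 836) (nat_lit 123880153786) (nat_lit 121) (nat_lit 5) (nat_lit 131) (nat_lit 5) (nat_lit 132) (nat_lit 5) (nat_lit 400) (nat_lit 396) (nat_lit 224))))) (XT.nd (nat_lit 234) (nat_lit 1216) (nat_lit 0) (XT.nd (nat_lit 78) (nat_lit 684) (nat_lit 0) (XT.lf (nat_lit 0) (nat_lit 190488674460) (nat_lit 760) (nat_lit 151048288865) (nat_lit 836) (nat_lit 27883259333) (nat_lit 122) (nat_lit 5) (nat_lit 132) (nat_lit 5) (nat_lit 133) (nat_lit 5) (nat_lit 401) (nat_lit 396) (nat_lit 223)) (XT.nd (nat_lit 78) (nat_lit 684) (nat_lit 0) (XT.lf (nat_lit 76) (nat_lit 156703210393) (nat_lit 0) (nat_lit 82030208551) (nat_lit 836) (nat_lit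 146313287711) (nat_lit 123) (nat_lit 5) (nat_lit 122) (nat_lit 5) (nat_lit 133) (nat_lit 5) (nat_lit 402) (nat_lit 396) (nat_lit 222)) (XT.lf (nat_lit 0) (nat_lit 92499279854) (nat_lit 760) (nat_lit 205551893403) (nat_lit 836) (nat_lit 103511464642) (nat_lit 113) (nat_lit 5) (nat_lit 123) (nat_lit 5) (nat_lit 124) (nat_lit 5) (nat_lit 403) (nat_lit 396) (nat_lit 221)))) (XT.nd (nat_lit 156) (nat_lit 760) (nat_lit 0) (XT.nd (nat_lit 78) (nat_lit 76) (nat_lit 0) (XT.lf (nat_lit 0) (nat_lit 26218608268) (nat_lit 380) (nat_lit 342865678445) (nat_lit 456) (nat_lit 49967060027) (nat_lit 108) (nat_lit 5) (nat_lit 113) (nat_lit 5) (nat_lit 114) (nat_lit 5) (nat_lit 404) (nat_lit 396) (nat_lit 220)) (XT.lf (nat_lit 0) (nat_lit 16547152135) (nat_lit 456) (nat_lit 41987320123) (nat_lit 76) (nat_lit 378951650884) (nat_lit 107) (nat_lit 5) (nat_lit 113) (nat_lit 5) (nat_lit 108) (nat_lit 5) (nat_lit 405)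 (nat_lit 396) (nat_lit 219))) (XT.nd (nat_lit 78) (nat_lit 380) (nat_lit 0) (XT.lf (nat_lit 0) (nat_lit 96059066893) (nat_lit 456) (nat_lit 113870097177) (nat_lit 76) (nat_lit 246954202610) (nat_lit 102) (nat_lit 5) (nat_lit 108) (nat_lit 5) (nat_lit 103) (nat_lit 5) (nat_lit 406) (nat_lit 396) (nat_lit 218)) (XT.lf (nat_lit 0) (nat_lit 189805119046) (nat_lit 456) (nat_lit 188294430414) (nat_lit 76) (nat_lit 99339181058) (nat_lit 97) (nat_lit 5) (nat_lit 103) (nat_lit 5) (nat_lit 98) (nat_lit 5) (nat_lit 407) (nat_lit 396) (nat_lit 217)))))) (XT.nd (nat_lit 468) (nat_lit 1596) (nat_lit 0) (XT.nd (nat_lit 234) (nat_lit 532) (nat_lit 0) (XT.nd (nat_lit 78) (nat_lit 608) (nat_lit 0) (XT.lf (nat_lit 0) (nat_lit 232805631353) (nat_lit 304) (nat_lit 67435765713) (nat_lit 380) (nat_lit 198937599339) (nat_lit 93) (nat_lit 5) (nat_lit 97) (nat_lit 5) (nat_lit 98) (nat_lit 5) (nat_lit 408) (nat_lit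 396) (nat_lit 216)) (XT.nd (nat_lit 78) (nat_lit 304) (nat_lit 0) (XT.lf (nat_lit 0) (nat_lit 173124892869) (nat_lit 304) (nat_lit 256609830817) (nat_lit 380) (nat_lit 92412652585) (nat_lit 89) (nat_lit 5) (nat_lit 93) (nat_lit 5) (nat_lit 94) (nat_lit 5) (nat_lit 409) (nat_lit 396) (nat_lit 215)) (XT.lf (nat_lit 0) (nat_lit 30818464467) (nat_lit 304) (nat_lit 435240700007) (nat_lit 76) (nat_lit 80430962178) (nat_lit 85) (nat_lit 5) (nat_lit 89) (nat_lit 5) (nat_lit 86) (nat_lit 5) (nat_lit 410) (nat_lit 396) (nat_lit 214)))) (XT.nd (nat_lit 78) (nat_lit 228) (nat_lit 0) (XT.lf (nat_lit 0) (nat_lit 43745502648) (nat_lit 304) (nat_lit 128157429911) (nat_lit 380) (nat_lit 400239988905) (nat_lit 81) (nat_lit 5) (nat_lit 85) (nat_lit 5) (nat_lit 86) (nat_lit 5) (nat_lit 411) (nat_lit 396) (nat_lit 213)) (XT.nd (nat_lit 78) (nat_lit 228) (nat_lit 0) (XT.lf (nat_lit 0) (nat_lit 335676756726) (nat_lit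 380) (nat_lit 26697046799) (nat_lit 76) (nat_lit 236904006424) (nat_lit 81) (nat_lit 5) (nat_lit 86) (nat_lit 5) (nat_lit 82) (nat_lit 5) (nat_lit 412) (nat_lit 396) (nat_lit 212)) (XT.lf (nat_lit 0) (nat_lit 523095803787) (nat_lit 304) (nat_lit 98230588401) (nat_lit 76) (nat_lit 6729931495) (nat_lit 78) (nat_lit 5) (nat_lit 82) (nat_lit 5) (nat_lit 79) (nat_lit 5) (nat_lit 413) (nat_lit 396) (nat_lit 211))))) (XT.nd (nat_lit 234) (nat_lit 836) (nat_lit 0) (XT.nd (nat_lit 78) (nat_lit 456) (nat_lit 0) (XT.lf (nat_lit 0) (nat_lit 78586837425) (nat_lit 304) (nat_lit 177679732585) (nat_lit 76) (nat_lit 402101742652) (nat_lit 74) (nat_lit 5) (nat_lit 78) (nat_lit 5) (nat_lit 75) (nat_lit 5) (nat_lit 414) (nat_lit 396) (nat_lit 210)) (XT.nd (nat_lit 78) (nat_lit 228) (nat_lit 0) (XT.lf (nat_lit 0) (nat_lit 283970721075) (nat_lit 304) (nat_lit 262529570364) (nat_lit 76) (nat_lit 143977433969) (nat_lit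 71) (nat_lit 5) (nat_lit 75) (nat_lit 5) (nat_lit 72) (nat_lit 5) (nat_lit 415) (nat_lit 396) (nat_lit 209)) (XT.lf (nat_lit 0) (nat_lit 370868204787) (nat_lit 228) (nat_lit 148174292982) (nat_lit 304) (nat_lit 205450534299) (nat_lit 68) (nat_lit 5) (nat_lit 71) (nat_lit 5) (nat_lit 72) (nat_lit 5) (nat_lit 416) (nat_lit 396) (nat_lit 208)))) (XT.nd (nat_lit 156) (nat_lit 380) (nat_lit 0) (XT.nd (nat_lit 78) (nat_lit 228) (nat_lit 0) (XT.lf (nat_lit 0) (nat_lit 25414693658) (nat_lit 228) (nat_lit 452231508153) (nat_lit 76) (nat_lit 282869315033) (nat_lit 65) (nat_lit 5) (nat_lit 68) (nat_lit 5) (nat_lit 66) (nat_lit 5) (nat_lit 417) (nat_lit 396) (nat_lit 207)) (XT.lf (nat_lit 0) (nat_lit 238222384372) (nat_lit 228) (nat_lit 41903671862) (nat_lit 304) (nat_lit 518496596986) (nat_lit 62) (nat_lit 5) (nat_lit 65) (nat_lit 5) (nat_lit 66) (nat_lit 5) (nat_lit 418) (nat_lit 396) (nat_lit 206)))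 (XT.nd (nat_lit 78) (nat_lit 228) (nat_lit 0) (XT.lf (nat_lit 0) (nat_lit 158941908434) (nat_lit 152) (nat_lit 413453818237) (nat_lit 228) (nat_lit 266523563902) (nat_lit 60) (nat_lit 5) (nat_lit 62) (nat_lit 5) (nat_lit 63) (nat_lit 5) (nat_lit 419) (nat_lit 396) (nat_lit 205)) (XT.lf (nat_lit 0) (nat_lit 18139994266) (nat_lit 228) (nat_lit 807403355955) (nat_lit 76) (nat_lit 56256323836) (nat_lit 57) (nat_lit 5) (nat_lit 60) (nat_lit 5) (nat_lit 58) (nat_lit 5) (nat_lit 420) (nat_lit 396) (nat_lit 204))))))))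
noncomputable def xc119 : XT := (XT.nd (nat_lit 52494) (nat_lit 0) (nat_lit 152) (XT.nd (nat_lit 51480) (nat_lit 0) (nat_lit 3116) (XT.nd (nat_lit 468) (nat_lit 456) (nat_lit 0) (XT.nd (nat_lit 234) (nat_lit 456) (nat_lit 0) (XT.nd (nat_lit 78) (nat_lit 380) (nat_lit 0) (XT.lf (nat_lit 0) (nat_lit 335374285169) (nat_lit 228) (nat_lit 25776449106) (nat_lit 76) (nat_lit 565784525243) (nat_lit 57) (nat_lit 5) (nat_lit 60) (nat_lit 5) (nat_lit 58) (nat_lit 5) (nat_lit 421) (nat_lit 396) (nat_lit 203)) (XT.nd (nat_lit 78) (nat_lit 228) (nat_lit 0) (XT.lf (nat_lit 0) (nat_lit 693595298508) (nat_lit 228) (nat_lit 131990107629) (nat_lit 76) (nat_lit 149315886727) (nat_lit 55) (nat_lit 5) (nat_lit 58) (nat_lit 5) (nat_lit 56) (nat_lit 5) (nat_lit 422) (nat_lit 396) (nat_lit 202)) (XT.lf (nat_lit 0) (nat_lit 70984285710) (nat_lit 228) (nat_lit 252909825550) (nat_lit 76) (nat_lit 701821730199) (nat_lit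 52) (nat_lit 5) (nat_lit 55) (nat_lit 5) (nat_lit 53) (nat_lit 5) (nat_lit 423) (nat_lit 396) (nat_lit 201)))) (XT.nd (nat_lit 78) (nat_lit 304) (nat_lit 0) (XT.lf (nat_lit 0) (nat_lit 458563794310) (nat_lit 228) (nat_lit 391825170460) (nat_lit 76) (nat_lit 229127930600) (nat_lit 50) (nat_lit 5) (nat_lit 53) (nat_lit 5) (nat_lit 51) (nat_lit 5) (nat_lit 424) (nat_lit 396) (nat_lit 200)) (XT.nd (nat_lit 78) (nat_lit 152) (nat_lit 0) (XT.lf (nat_lit 0) (nat_lit 588472039903) (nat_lit 152) (nat_lit 307804490471) (nat_lit 228) (nat_lit 240389159886) (nat_lit 48) (nat_lit 5) (nat_lit 50) (nat_lit 5) (nat_lit 51) (nat_lit 5) (nat_lit 425) (nat_lit 396) (nat_lit 199)) (XT.lf (nat_lit 0) (nat_lit 184143823836) (nat_lit 152) (nat_lit 726571684776) (nat_lit 76) (nat_lit 286588445922) (nat_lit 46) (nat_lit 5) (nat_lit 48) (nat_lit 5) (nat_lit 47) (nat_lit 5) (nat_lit 426) (nat_lit 396) (nat_lit 198)))))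 (XT.nd (nat_lit 234) (nat_lit 152) (nat_lit 0) (XT.nd (nat_lit 78) (nat_lit 152) (nat_lit 0) (XT.lf (nat_lit 0) (nat_lit 329580772906) (nat_lit 152) (nat_lit 324790728431) (nat_lit 228) (nat_lit 607217032309) (nat_lit 44) (nat_lit 5) (nat_lit 46) (nat_lit 5) (nat_lit 47) (nat_lit 5) (nat_lit 427) (nat_lit 396) (nat_lit 197)) (XT.nd (nat_lit 78) (nat_lit 76) (nat_lit 0) (XT.lf (nat_lit 0) (nat_lit 166087454279) (nat_lit 76) (nat_lit 1016395767638) (nat_lit 152) (nat_lit 147519365732) (nat_lit 43) (nat_lit 5) (nat_lit 44) (nat_lit 5) (nat_lit 45) (nat_lit 4) (nat_lit 428) (nat_lit 396) (nat_lit 196)) (XT.lf (nat_lit 0) (nat_lit 359763067485) (nat_lit 152) (nat_lit 28956936889) (nat_lit 76) (nat_lit 1013798470807) (nat_lit 42) (nat_lit 5) (nat_lit 44) (nat_lit 5) (nat_lit 43) (nat_lit 5) (nat_lit 429) (nat_lit 396) (nat_lit 195)))) (XT.nd (nat_lit 50622) (nat_lit 0) (nat_lit 6004) (XT.nd (nat_lit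 50544) (nat_lit 0) (nat_lit 5928) (XT.lf (nat_lit 0) (nat_lit 926663199362) (nat_lit 228) (nat_lit 250819695805) (nat_lit 76) (nat_lit 302021647840) (nat_lit 40) (nat_lit 5) (nat_lit 43) (nat_lit 5) (nat_lit 41) (nat_lit 4) (nat_lit 430) (nat_lit 396) (nat_lit 194)) (XT.lf (nat_lit 0) (nat_lit 45808941606) (nat_lit 836) (nat_lit 58819049270) (nat_lit 836) (nat_lit 58819049270) (nat_lit 118) (nat_lit 3) (nat_lit 129) (nat_lit 3) (nat_lit 129) (nat_lit 5) (nat_lit 397) (nat_lit 397) (nat_lit 226))) (XT.nd (nat_lit 78) (nat_lit 0) (nat_lit 0) (XT.lf (nat_lit 0) (nat_lit 98163939824) (nat_lit 760) (nat_lit 199551657237) (nat_lit 836) (nat_lit 42110178868) (nat_lit 119) (nat_lit 5) (nat_lit 129) (nat_lit 5) (nat_lit 130) (nat_lit 5) (nat_lit 398) (nat_lit 397) (nat_lit 225)) (XT.lf (nat_lit 76) (nat_lit 67943099504) (nat_lit 0) (nat_lit 43962480650) (nat_lit 836) (nat_lit 241552832152) (nat_lit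 120) (nat_lit 5) (nat_lit 119) (nat_lit 5) (nat_lit 130) (nat_lit 5) (nat_lit 399) (nat_lit 397) (nat_lit 224)))))) (XT.nd (nat_lit 468) (nat_lit 2052) (nat_lit 0) (XT.nd (nat_lit 234) (nat_lit 912) (nat_lit 0) (XT.nd (nat_lit 78) (nat_lit 0) (nat_lit 76) (XT.lf (nat_lit 0) (nat_lit 133871873647) (nat_lit 760) (nat_lit 7693901529) (nat_lit 836) (nat_lit 226259618368) (nat_lit 120) (nat_lit 5) (nat_lit 130) (nat_lit 5) (nat_lit 131) (nat_lit 5) (nat_lit 400) (nat_lit 397) (nat_lit 223)) (XT.nd (nat_lit 78) (nat_lit 0) (nat_lit 76) (XT.lf (nat_lit 0) (nat_lit 165197999522) (nat_lit 760) (nat_lit 83973520666) (nat_lit 836) (nat_lit 133790086692) (nat_lit 121) (nat_lit 5) (nat_lit 131) (nat_lit 5) (nat_lit 132) (nat_lit 5) (nat_lit 401) (nat_lit 397) (nat_lit 222)) (XT.lf (nat_lit 0) (nat_lit 205729250386) (nat_lit 760) (nat_lit 163130934852) (nat_lit 836) (nat_lit 30113580339) (nat_lit 122)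 (nat_lit 5) (nat_lit 132) (nat_lit 5) (nat_lit 133) (nat_lit 5) (nat_lit 402) (nat_lit 397) (nat_lit 221)))) (XT.nd (nat_lit 78) (nat_lit 1064) (nat_lit 0) (XT.lf (nat_lit 76) (nat_lit 169240631451) (nat_lit 0) (nat_lit 88592851379) (nat_lit 836) (nat_lit 158016890103) (nat_lit 123) (nat_lit 5) (nat_lit 122) (nat_lit 5) (nat_lit 133) (nat_lit 5) (nat_lit 403) (nat_lit 397) (nat_lit 220)) (XT.nd (nat_lit 78) (nat_lit 380) (nat_lit 0) (XT.lf (nat_lit 0) (nat_lit 99900406453) (nat_lit 760) (nat_lit 221996163265) (nat_lit 836) (nat_lit 111791013402) (nat_lit 113) (nat_lit 5) (nat_lit 123) (nat_lit 5) (nat_lit 124) (nat_lit 5) (nat_lit 404) (nat_lit 397) (nat_lit 219)) (XT.lf (nat_lit 0) (nat_lit 28317294395) (nat_lit 380) (nat_lit 370294958351) (nat_lit 456) (nat_lit 53963139948) (nat_lit 108) (nat_lit 5) (nat_lit 113) (nat_lit 5) (nat_lit 114) (nat_lit 5) (nat_lit 405) (nat_lit 397) (nat_lit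 218))))) (XT.nd (nat_lit 234) (nat_lit 1216) (nat_lit 0) (XT.nd (nat_lit 78) (nat_lit 760) (nat_lit 0) (XT.lf (nat_lit 0) (nat_lit 17872075933) (nat_lit 456) (nat_lit 45345158334) (nat_lit 76) (nat_lit 409267720589) (nat_lit 107) (nat_lit 5) (nat_lit 113) (nat_lit 5) (nat_lit 108) (nat_lit 5) (nat_lit 406) (nat_lit 397) (nat_lit 217)) (XT.nd (nat_lit 78) (nat_lit 380) (nat_lit 0) (XT.lf (nat_lit 0) (nat_lit 103744875921) (nat_lit 456) (nat_lit 122978552948) (nat_lit 76) (nat_lit 266710552446) (nat_lit 102) (nat_lit 5) (nat_lit 108) (nat_lit 5) (nat_lit 103) (nat_lit 5) (nat_lit 407) (nat_lit 397) (nat_lit 216)) (XT.lf (nat_lit 0) (nat_lit 204990550449) (nat_lit 456) (nat_lit 203356832671) (nat_lit 76) (nat_lit 107286394269) (nat_lit 97) (nat_lit 5) (nat_lit 103) (nat_lit 5) (nat_lit 98) (nat_lit 5) (nat_lit 408) (nat_lit 397) (nat_lit 215)))) (XT.nd (nat_lit 156) (nat_lit 608) (nat_lit 0)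 (XT.nd (nat_lit 78) (nat_lit 304) (nat_lit 0) (XT.lf (nat_lit 0) (nat_lit 251431183965) (nat_lit 304) (nat_lit 72830488257) (nat_lit 380) (nat_lit 214851595284) (nat_lit 93) (nat_lit 5) (nat_lit 97) (nat_lit 5) (nat_lit 98) (nat_lit 5) (nat_lit 409) (nat_lit 397) (nat_lit 214)) (XT.lf (nat_lit 0) (nat_lit 186975982934) (nat_lit 304) (nat_lit 277138429833) (nat_lit 380) (nat_lit 99804707637) (nat_lit 89) (nat_lit 5) (nat_lit 93) (nat_lit 5) (nat_lit 94) (nat_lit 5) (nat_lit 410) (nat_lit 397) (nat_lit 213))) (XT.nd (nat_lit 78) (nat_lit 304) (nat_lit 0) (XT.lf (nat_lit 0) (nat_lit 33284819597) (nat_lit 304) (nat_lit 470058834556) (nat_lit 76) (nat_lit 86865638372) (nat_lit 85) (nat_lit 5) (nat_lit 89) (nat_lit 5) (nat_lit 86) (nat_lit 5) (nat_lit 411) (nat_lit 397) (nat_lit 212)) (XT.lf (nat_lit 0) (nat_lit 47246215575) (nat_lit 304) (nat_lit 138409781275) (nat_lit 380) (nat_lit 432258316514)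 (nat_lit 81) (nat_lit 5) (nat_lit 85) (nat_lit 5) (nat_lit 86) (nat_lit 5) (nat_lit 412) (nat_lit 397) (nat_lit 211))))))) (XT.nd (nat_lit 1014) (nat_lit 608) (nat_lit 0) (XT.nd (nat_lit 468) (nat_lit 1140) (nat_lit 0) (XT.nd (nat_lit 234) (nat_lit 684) (nat_lit 0) (XT.nd (nat_lit 78) (nat_lit 532) (nat_lit 0) (XT.lf (nat_lit 0) (nat_lit 362531669005) (nat_lit 380) (nat_lit 28831782081) (nat_lit 76) (nat_lit 255856544763) (nat_lit 81) (nat_lit 5) (nat_lit 86) (nat_lit 5) (nat_lit 82) (nat_lit 5) (nat_lit 413) (nat_lit 397) (nat_lit 210)) (XT.nd (nat_lit 78) (nat_lit 304) (nat_lit 0) (XT.lf (nat_lit 0) (nat_lit 564944201987) (nat_lit 304) (nat_lit 106088018887) (nat_lit 76) (nat_lit 7268571722) (nat_lit 78) (nat_lit 5) (nat_lit 82) (nat_lit 5) (nat_lit 79) (nat_lit 5) (nat_lit 414) (nat_lit 397) (nat_lit 209)) (XT.lf (nat_lit 0) (nat_lit 84874490781) (nat_lit 304) (nat_lit 191893115177) (nat_lit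 76) (nat_lit 434270136147) (nat_lit 74) (nat_lit 5) (nat_lit 78) (nat_lit 5) (nat_lit 75) (nat_lit 5) (nat_lit 415) (nat_lit 397) (nat_lit 208)))) (XT.nd (nat_lit 78) (nat_lit 456) (nat_lit 0) (XT.lf (nat_lit 0) (nat_lit 306689052106) (nat_lit 304) (nat_lit 283530954016) (nat_lit 76) (nat_lit 155495903418) (nat_lit 71) (nat_lit 5) (nat_lit 75) (nat_lit 5) (nat_lit 72) (nat_lit 5) (nat_lit 416) (nat_lit 397) (nat_lit 207)) (XT.nd (nat_lit 78) (nat_lit 228) (nat_lit 0) (XT.lf (nat_lit 0) (nat_lit 400538600472) (nat_lit 228) (nat_lit 160027935251) (nat_lit 304) (nat_lit 221885906787) (nat_lit 68) (nat_lit 5) (nat_lit 71) (nat_lit 5) (nat_lit 72) (nat_lit 5) (nat_lit 417) (nat_lit 397) (nat_lit 206)) (XT.lf (nat_lit 0) (nat_lit 27448488994) (nat_lit 228) (nat_lit 488409083409) (nat_lit 76) (nat_lit 305499154606) (nat_lit 65) (nat_lit 5) (nat_lit 68) (nat_lit 5) (nat_lit 66) (nat_lit 5) (nat_lit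 418) (nat_lit 397) (nat_lit 205))))) (XT.nd (nat_lit 234) (nat_lit 532) (nat_lit 0) (XT.nd (nat_lit 78) (nat_lit 380) (nat_lit 0) (XT.lf (nat_lit 0) (nat_lit 257281079432) (nat_lit 228) (nat_lit 45255649348) (nat_lit 304) (nat_lit 559975707118) (nat_lit 62) (nat_lit 5) (nat_lit 65) (nat_lit 5) (nat_lit 66) (nat_lit 5) (nat_lit 419) (nat_lit 397) (nat_lit 204)) (XT.nd (nat_lit 78) (nat_lit 228) (nat_lit 0) (XT.lf (nat_lit 0) (nat_lit 171658149689) (nat_lit 152) (nat_lit 446529798049) (nat_lit 228) (nat_lit 287844857770) (nat_lit 60) (nat_lit 5) (nat_lit 62) (nat_lit 5) (nat_lit 63) (nat_lit 5) (nat_lit 420) (nat_lit 397) (nat_lit 203)) (XT.lf (nat_lit 0) (nat_lit 19591742359) (nat_lit 228) (nat_lit 871994733969) (nat_lit 76) (nat_lit 60757144082) (nat_lit 57) (nat_lit 5) (nat_lit 60) (nat_lit 5) (nat_lit 58) (nat_lit 5) (nat_lit 421) (nat_lit 397) (nat_lit 202)))) (XT.nd (nat_lit 156) (nat_lit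 380) (nat_lit 0) (XT.nd (nat_lit 78) (nat_lit 152) (nat_lit 0) (XT.lf (nat_lit 0) (nat_lit 362204735901) (nat_lit 228) (nat_lit 27837740532) (nat_lit 76) (nat_lit 611047578317) (nat_lit 57) (nat_lit 5) (nat_lit 60) (nat_lit 5) (nat_lit 58) (nat_lit 5) (nat_lit 422) (nat_lit 397) (nat_lit 201)) (XT.lf (nat_lit 0) (nat_lit 749083409776) (nat_lit 228) (nat_lit 142548508093) (nat_lit 76) (nat_lit 161261453932) (nat_lit 55) (nat_lit 5) (nat_lit 58) (nat_lit 5) (nat_lit 56) (nat_lit 5) (nat_lit 423) (nat_lit 397) (nat_lit 200))) (XT.nd (nat_lit 78) (nat_lit 152) (nat_lit 0) (XT.lf (nat_lit 0) (nat_lit 76663499627) (nat_lit 228) (nat_lit 273141822884) (nat_lit 76) (nat_lit 757967762603) (nat_lit 52) (nat_lit 5) (nat_lit 55) (nat_lit 5) (nat_lit 53) (nat_lit 5) (nat_lit 424) (nat_lit 397) (nat_lit 199)) (XT.lf (nat_lit 0) (nat_lit 495249350585) (nat_lit 228) (nat_lit 423170411950) (nat_lit 76) (nat_lit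 247458461727) (nat_lit 50) (nat_lit 5) (nat_lit 53) (nat_lit 5) (nat_lit 51) (nat_lit 5) (nat_lit 425) (nat_lit 397) (nat_lit 198)))))) (XT.nd (nat_lit 51090) (nat_lit 0) (nat_lit 5016) (XT.nd (nat_lit 234) (nat_lit 152) (nat_lit 0) (XT.nd (nat_lit 78) (nat_lit 304) (nat_lit 0) (XT.lf (nat_lit 0) (nat_lit 635550541685) (nat_lit 152) (nat_lit 332428541844) (nat_lit 228) (nat_lit 259619840321) (nat_lit 48) (nat_lit 5) (nat_lit 50) (nat_lit 5) (nat_lit 51) (nat_lit 5) (nat_lit 426) (nat_lit 397) (nat_lit 197)) (XT.nd (nat_lit 78) (nat_lit 152) (nat_lit 0) (XT.lf (nat_lit 0) (nat_lit 198875751176) (nat_lit 152) (nat_lit 784696682957) (nat_lit 76) (nat_lit 309515815610) (nat_lit 46) (nat_lit 5) (nat_lit 48) (nat_lit 5) (nat_lit 47) (nat_lit 5) (nat_lit 427) (nat_lit 397) (nat_lit 196)) (XT.lf (nat_lit 0) (nat_lit 355947939329) (nat_lit 152) (nat_lit 350773683332) (nat_lit 228) (nat_lit 655793973541)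 (nat_lit 44) (nat_lit 5) (nat_lit 46) (nat_lit 5) (nat_lit 47) (nat_lit 5) (nat_lit 428) (nat_lit 397) (nat_lit 195)))) (XT.nd (nat_lit 50700) (nat_lit 0) (nat_lit 5776) (XT.nd (nat_lit 78) (nat_lit 76) (nat_lit 0) (XT.lf (nat_lit 0) (nat_lit 179375139322) (nat_lit 76) (nat_lit 1097707126984) (nat_lit 152) (nat_lit 159320508954) (nat_lit 43) (nat_lit 5) (nat_lit 44) (nat_lit 5) (nat_lit 45) (nat_lit 4) (nat_lit 429) (nat_lit 397) (nat_lit 194)) (XT.lf (nat_lit 0) (nat_lit 388544476811) (nat_lit 152) (nat_lit 31272842059) (nat_lit 76) (nat_lit 1094902616067) (nat_lit 42) (nat_lit 5) (nat_lit 44) (nat_lit 5) (nat_lit 43) (nat_lit 5) (nat_lit 430) (nat_lit 397) (nat_lit 193))) (XT.nd (nat_lit 78) (nat_lit 0) (nat_lit 76) (XT.lf (nat_lit 0) (nat_lit 49474572737) (nat_lit 836) (nat_lit 63524092165) (nat_lit 836) (nat_lit 63524092165) (nat_lit 118) (nat_lit 3) (nat_lit 129) (nat_lit 3) (nat_lit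 129) (nat_lit 5) (nat_lit 398) (nat_lit 398) (nat_lit 224)) (XT.lf (nat_lit 0) (nat_lit 106018752975) (nat_lit 760) (nat_lit 215514770756) (nat_lit 836) (nat_lit 45478228446) (nat_lit 119) (nat_lit 5) (nat_lit 129) (nat_lit 5) (nat_lit 130) (nat_lit 5) (nat_lit 399) (nat_lit 398) (nat_lit 223))))) (XT.nd (nat_lit 234) (nat_lit 836) (nat_lit 0) (XT.nd (nat_lit 78) (nat_lit 0) (nat_lit 76) (XT.lf (nat_lit 76) (nat_lit 73379522236) (nat_lit 0) (nat_lit 47480091739) (nat_lit 836) (nat_lit 260875391086) (nat_lit 120) (nat_lit 5) (nat_lit 119) (nat_lit 5) (nat_lit 130) (nat_lit 5) (nat_lit 400) (nat_lit 398) (nat_lit 222)) (XT.nd (nat_lit 78) (nat_lit 0) (nat_lit 76) (XT.lf (nat_lit 0) (nat_lit 144583084505) (nat_lit 760) (nat_lit 8308427942) (nat_lit 836) (nat_lit 244359838737) (nat_lit 120) (nat_lit 5) (nat_lit 130) (nat_lit 5) (nat_lit 131) (nat_lit 5) (nat_lit 401) (nat_lit 398) (nat_lit 221))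 (XT.lf (nat_lit 0) (nat_lit 178415200322) (nat_lit 760) (nat_lit 90690383708) (nat_lit 836) (nat_lit 144492882622) (nat_lit 121) (nat_lit 5) (nat_lit 131) (nat_lit 5) (nat_lit 132) (nat_lit 5) (nat_lit 402) (nat_lit 398) (nat_lit 220)))) (XT.nd (nat_lit 156) (nat_lit 1064) (nat_lit 0) (XT.nd (nat_lit 78) (nat_lit 0) (nat_lit 0) (XT.lf (nat_lit 0) (nat_lit 222188860967) (nat_lit 760) (nat_lit 176180366155) (nat_lit 836) (nat_lit 32522375492) (nat_lit 122) (nat_lit 5) (nat_lit 132) (nat_lit 5) (nat_lit 133) (nat_lit 5) (nat_lit 403) (nat_lit 398) (nat_lit 219)) (XT.lf (nat_lit 76) (nat_lit 182780880104) (nat_lit 0) (nat_lit 95680473372) (nat_lit 836) (nat_lit 170656989060) (nat_lit 123) (nat_lit 5) (nat_lit 122) (nat_lit 5) (nat_lit 133) (nat_lit 5) (nat_lit 404) (nat_lit 398) (nat_lit 218))) (XT.nd (nat_lit 78) (nat_lit 380) (nat_lit 0) (XT.lf (nat_lit 0) (nat_lit 107893454238) (nat_lit 760)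 (nat_lit 239755957827) (nat_lit 836) (nat_lit 120733121281) (nat_lit 113) (nat_lit 5) (nat_lit 123) (nat_lit 5) (nat_lit 124) (nat_lit 5) (nat_lit 405) (nat_lit 398) (nat_lit 217)) (XT.lf (nat_lit 0) (nat_lit 30583704580) (nat_lit 380) (nat_lit 399918576993) (nat_lit 456) (nat_lit 58279089565) (nat_lit 108) (nat_lit 5) (nat_lit 113) (nat_lit 5) (nat_lit 114) (nat_lit 5) (nat_lit 406) (nat_lit 398) (nat_lit 216))))))))
noncomputable def xc120 : XT := (XT.nd (nat_lit 52650) (nat_lit 0) (nat_lit 684) (XT.nd (nat_lit 1014) (nat_lit 1672) (nat_lit 0) (XT.nd (nat_lit 468) (nat_lit 1520) (nat_lit 0) (XT.nd (nat_lit 234) (nat_lit 912) (nat_lit 0) (XT.nd (nat_lit 78) (nat_lit 760) (nat_lit 0) (XT.lf (nat_lit 0) (nat_lit 19302829342) (nat_lit 456) (nat_lit 48971787291) (nat_lit 76) (nat_lit 442009084767) (nat_lit 107) (nat_lit 5) (nat_lit 113) (nat_lit 5) (nat_lit 108) (nat_lit 5) (nat_lit 407) (nat_lit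 398) (nat_lit 215)) (XT.nd (nat_lit 78) (nat_lit 380) (nat_lit 0) (XT.lf (nat_lit 0) (nat_lit 112045395073) (nat_lit 456) (nat_lit 132815849528) (nat_lit 76) (nat_lit 288047408324) (nat_lit 102) (nat_lit 5) (nat_lit 108) (nat_lit 5) (nat_lit 103) (nat_lit 5) (nat_lit 408) (nat_lit 398) (nat_lit 214)) (XT.lf (nat_lit 0) (nat_lit 221390670581) (nat_lit 456) (nat_lit 219624391480) (nat_lit 76) (nat_lit 115869373306) (nat_lit 97) (nat_lit 5) (nat_lit 103) (nat_lit 5) (nat_lit 98) (nat_lit 5) (nat_lit 409) (nat_lit 398) (nat_lit 213)))) (XT.nd (nat_lit 78) (nat_lit 608) (nat_lit 0) (XT.lf (nat_lit 0) (nat_lit 271546623559) (nat_lit 304) (nat_lit 78656808393) (nat_lit 380) (nat_lit 232038855279) (nat_lit 93) (nat_lit 5) (nat_lit 97) (nat_lit 5) (nat_lit 98) (nat_lit 5) (nat_lit 410) (nat_lit 398) (nat_lit 212)) (XT.nd (nat_lit 78) (nat_lit 304) (nat_lit 0) (XT.lf (nat_lit 0) (nat_lit 201935003471)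 (nat_lit 304) (nat_lit 299309343513) (nat_lit 380) (nat_lit 107788263642) (nat_lit 89) (nat_lit 5) (nat_lit 93) (nat_lit 5) (nat_lit 94) (nat_lit 5) (nat_lit 411) (nat_lit 398) (nat_lit 211)) (XT.lf (nat_lit 0) (nat_lit 35948357885) (nat_lit 304) (nat_lit 507662579856) (nat_lit 76) (nat_lit 93815060240) (nat_lit 85) (nat_lit 5) (nat_lit 89) (nat_lit 5) (nat_lit 86) (nat_lit 5) (nat_lit 412) (nat_lit 398) (nat_lit 210))))) (XT.nd (nat_lit 234) (nat_lit 988) (nat_lit 0) (XT.nd (nat_lit 78) (nat_lit 228) (nat_lit 0) (XT.lf (nat_lit 0) (nat_lit 51026832501) (nat_lit 304) (nat_lit 149482355419) (nat_lit 380) (nat_lit 466838234660) (nat_lit 81) (nat_lit 5) (nat_lit 85) (nat_lit 5) (nat_lit 86) (nat_lit 5) (nat_lit 413) (nat_lit 398) (nat_lit 209)) (XT.nd (nat_lit 78) (nat_lit 228) (nat_lit 0) (XT.lf (nat_lit 0) (nat_lit 391534864169) (nat_lit 380) (nat_lit 31137442907) (nat_lit 76) (nat_lit 276325255093)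 (nat_lit 81) (nat_lit 5) (nat_lit 86) (nat_lit 5) (nat_lit 82) (nat_lit 5) (nat_lit 414) (nat_lit 398) (nat_lit 208)) (XT.lf (nat_lit 0) (nat_lit 610140367344) (nat_lit 304) (nat_lit 114574188839) (nat_lit 76) (nat_lit 7850268115) (nat_lit 78) (nat_lit 5) (nat_lit 82) (nat_lit 5) (nat_lit 79) (nat_lit 5) (nat_lit 415) (nat_lit 398) (nat_lit 207)))) (XT.nd (nat_lit 156) (nat_lit 456) (nat_lit 0) (XT.nd (nat_lit 78) (nat_lit 228) (nat_lit 0) (XT.lf (nat_lit 0) (nat_lit 91665055635) (nat_lit 304) (nat_lit 207243710469) (nat_lit 76) (nat_lit 469011964873) (nat_lit 74) (nat_lit 5) (nat_lit 78) (nat_lit 5) (nat_lit 75) (nat_lit 5) (nat_lit 416) (nat_lit 398) (nat_lit 206)) (XT.lf (nat_lit 0) (nat_lit 331224753559) (nat_lit 304) (nat_lit 306212588449) (nat_lit 76) (nat_lit 167935811230) (nat_lit 71) (nat_lit 5) (nat_lit 75) (nat_lit 5) (nat_lit 72) (nat_lit 5) (nat_lit 417) (nat_lit 398) (nat_lit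 205))) (XT.nd (nat_lit 78) (nat_lit 228) (nat_lit 0) (XT.lf (nat_lit 0) (nat_lit 432582493810) (nat_lit 228) (nat_lit 172829911867) (nat_lit 304) (nat_lit 239636204694) (nat_lit 68) (nat_lit 5) (nat_lit 71) (nat_lit 5) (nat_lit 72) (nat_lit 5) (nat_lit 418) (nat_lit 398) (nat_lit 204)) (XT.lf (nat_lit 0) (nat_lit 29644899529) (nat_lit 228) (nat_lit 527480999556) (nat_lit 76) (nat_lit 329939339350) (nat_lit 65) (nat_lit 5) (nat_lit 68) (nat_lit 5) (nat_lit 66) (nat_lit 5) (nat_lit 419) (nat_lit 398) (nat_lit 203)))))) (XT.nd (nat_lit 468) (nat_lit 684) (nat_lit 0) (XT.nd (nat_lit 234) (nat_lit 380) (nat_lit 0) (XT.nd (nat_lit 78) (nat_lit 380) (nat_lit 0) (XT.lf (nat_lit 0) (nat_lit 277864341087) (nat_lit 228) (nat_lit 48875830151) (nat_lit 304) (nat_lit 604773234172) (nat_lit 62) (nat_lit 5) (nat_lit 65) (nat_lit 5) (nat_lit 66) (nat_lit 5) (nat_lit 420) (nat_lit 398) (nat_lit 202)) (XT.nd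 (nat_lit 78) (nat_lit 228) (nat_lit 0) (XT.lf (nat_lit 0) (nat_lit 185391563480) (nat_lit 152) (nat_lit 482251902703) (nat_lit 228) (nat_lit 310871939495) (nat_lit 60) (nat_lit 5) (nat_lit 62) (nat_lit 5) (nat_lit 63) (nat_lit 5) (nat_lit 421) (nat_lit 398) (nat_lit 201)) (XT.lf (nat_lit 0) (nat_lit 21159552043) (nat_lit 228) (nat_lit 941753549257) (nat_lit 76) (nat_lit 65617985104) (nat_lit 57) (nat_lit 5) (nat_lit 60) (nat_lit 5) (nat_lit 58) (nat_lit 5) (nat_lit 422) (nat_lit 398) (nat_lit 200)))) (XT.nd (nat_lit 78) (nat_lit 380) (nat_lit 0) (XT.lf (nat_lit 0) (nat_lit 391181550232) (nat_lit 228) (nat_lit 30064052896) (nat_lit 76) (nat_lit 659931634115) (nat_lit 57) (nat_lit 5) (nat_lit 60) (nat_lit 5) (nat_lit 58) (nat_lit 5) (nat_lit 423) (nat_lit 398) (nat_lit 199)) (XT.nd (nat_lit 78) (nat_lit 228) (nat_lit 0) (XT.lf (nat_lit 0) (nat_lit 809010500413) (nat_lit 228) (nat_lit 153951695885)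 (nat_lit 76) (nat_lit 174162624248) (nat_lit 55) (nat_lit 5) (nat_lit 58) (nat_lit 5) (nat_lit 56) (nat_lit 5) (nat_lit 424) (nat_lit 398) (nat_lit 198)) (XT.lf (nat_lit 0) (nat_lit 82796983455) (nat_lit 228) (nat_lit 294992492523) (nat_lit 76) (nat_lit 818605435659) (nat_lit 52) (nat_lit 5) (nat_lit 55) (nat_lit 5) (nat_lit 53) (nat_lit 5) (nat_lit 425) (nat_lit 398) (nat_lit 197))))) (XT.nd (nat_lit 234) (nat_lit 228) (nat_lit 0) (XT.nd (nat_lit 78) (nat_lit 304) (nat_lit 0) (XT.lf (nat_lit 0) (nat_lit 534869686776) (nat_lit 228) (nat_lit 457023382914) (nat_lit 76) (nat_lit 267255393020) (nat_lit 50) (nat_lit 5) (nat_lit 53) (nat_lit 5) (nat_lit 51) (nat_lit 5) (nat_lit 426) (nat_lit 398) (nat_lit 196)) (XT.nd (nat_lit 78) (nat_lit 152) (nat_lit 0) (XT.lf (nat_lit 0) (nat_lit 686395218243) (nat_lit 152) (nat_lit 359022561248) (nat_lit 228) (nat_lit 280389039724) (nat_lit 48) (nat_lit 5)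 (nat_lit 50) (nat_lit 5) (nat_lit 51) (nat_lit 5) (nat_lit 427) (nat_lit 398) (nat_lit 195)) (XT.lf (nat_lit 0) (nat_lit 214786172581) (nat_lit 152) (nat_lit 847471786076) (nat_lit 76) (nat_lit 334277332929) (nat_lit 46) (nat_lit 5) (nat_lit 48) (nat_lit 5) (nat_lit 47) (nat_lit 5) (nat_lit 428) (nat_lit 398) (nat_lit 194)))) (XT.nd (nat_lit 50778) (nat_lit 0) (nat_lit 5700) (XT.nd (nat_lit 78) (nat_lit 76) (nat_lit 0) (XT.lf (nat_lit 0) (nat_lit 384424378547) (nat_lit 152) (nat_lit 378835317905) (nat_lit 228) (nat_lit 708257130182) (nat_lit 44) (nat_lit 5) (nat_lit 46) (nat_lit 5) (nat_lit 47) (nat_lit 5) (nat_lit 429) (nat_lit 398) (nat_lit 193)) (XT.lf (nat_lit 0) (nat_lit 193725740917) (nat_lit 76) (nat_lit 1185523438170) (nat_lit 152) (nat_lit 172065801558) (nat_lit 43) (nat_lit 5) (nat_lit 44) (nat_lit 5) (nat_lit 45) (nat_lit 4) (nat_lit 430) (nat_lit 398) (nat_lit 192))) (XT.nd (nat_lit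 78) (nat_lit 0) (nat_lit 76) (XT.lf (nat_lit 0) (nat_lit 53433323710) (nat_lit 836) (nat_lit 68605607118) (nat_lit 836) (nat_lit 68605607118) (nat_lit 118) (nat_lit 3) (nat_lit 129) (nat_lit 3) (nat_lit 129) (nat_lit 5) (nat_lit 399) (nat_lit 399) (nat_lit 222)) (XT.lf (nat_lit 0) (nat_lit 114501708944) (nat_lit 760) (nat_lit 232755078738) (nat_lit 836) (nat_lit 49115831088) (nat_lit 119) (nat_lit 5) (nat_lit 129) (nat_lit 5) (nat_lit 130) (nat_lit 5) (nat_lit 400) (nat_lit 399) (nat_lit 221))))))) (XT.nd (nat_lit 1014) (nat_lit 2508) (nat_lit 0) (XT.nd (nat_lit 468) (nat_lit 2128) (nat_lit 0) (XT.nd (nat_lit 234) (nat_lit 456) (nat_lit 0) (XT.nd (nat_lit 78) (nat_lit 0) (nat_lit 76) (XT.lf (nat_lit 76) (nat_lit 79250719726) (nat_lit 0) (nat_lit 51279024315) (nat_lit 836) (nat_lit 281743992642) (nat_lit 120) (nat_lit 5) (nat_lit 119) (nat_lit 5) (nat_lit 130) (nat_lit 5) (nat_lit 401) (nat_lit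 399) (nat_lit 220)) (XT.nd (nat_lit 78) (nat_lit 0) (nat_lit 76) (XT.lf (nat_lit 0) (nat_lit 156150983808) (nat_lit 760) (nat_lit 8972257090) (nat_lit 836) (nat_lit 263908155071) (nat_lit 120) (nat_lit 5) (nat_lit 130) (nat_lit 5) (nat_lit 131) (nat_lit 5) (nat_lit 402) (nat_lit 399) (nat_lit 219)) (XT.lf (nat_lit 0) (nat_lit 192689583047) (nat_lit 760) (nat_lit 97944741110) (nat_lit 836) (nat_lit 156051960860) (nat_lit 121) (nat_lit 5) (nat_lit 131) (nat_lit 5) (nat_lit 132) (nat_lit 5) (nat_lit 403) (nat_lit 399) (nat_lit 218)))) (XT.nd (nat_lit 78) (nat_lit 684) (nat_lit 0) (XT.lf (nat_lit 0) (nat_lit 239965059136) (nat_lit 760) (nat_lit 190273900827) (nat_lit 836) (nat_lit 35123915811) (nat_lit 122) (nat_lit 5) (nat_lit 132) (nat_lit 5) (nat_lit 133) (nat_lit 5) (nat_lit 404) (nat_lit 399) (nat_lit 217)) (XT.nd (nat_lit 78) (nat_lit 684) (nat_lit 0) (XT.lf (nat_lit 76) (nat_lit 197404206254)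 (nat_lit 0) (nat_lit 103335077464) (nat_lit 836) (nat_lit 184308474581) (nat_lit 123) (nat_lit 5) (nat_lit 122) (nat_lit 5) (nat_lit 133) (nat_lit 5) (nat_lit 405) (nat_lit 399) (nat_lit 216)) (XT.lf (nat_lit 0) (nat_lit 116525801007) (nat_lit 760) (nat_lit 258936521473) (nat_lit 836) (nat_lit 130390765160) (nat_lit 113) (nat_lit 5) (nat_lit 123) (nat_lit 5) (nat_lit 124) (nat_lit 5) (nat_lit 406) (nat_lit 399) (nat_lit 215))))) (XT.nd (nat_lit 234) (nat_lit 1292) (nat_lit 0) (XT.nd (nat_lit 78) (nat_lit 456) (nat_lit 0) (XT.lf (nat_lit 0) (nat_lit 33031281119) (nat_lit 380) (nat_lit 431912081991) (nat_lit 456) (nat_lit 62940472304) (nat_lit 108) (nat_lit 5) (nat_lit 113) (nat_lit 5) (nat_lit 114) (nat_lit 5) (nat_lit 407) (nat_lit 399) (nat_lit 214)) (XT.nd (nat_lit 78) (nat_lit 380) (nat_lit 0) (XT.lf (nat_lit 0) (nat_lit 20847902169) (nat_lit 456) (nat_lit 52888686902) (nat_lit 76) (nat_lit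 477369765708) (nat_lit 107) (nat_lit 5) (nat_lit 113) (nat_lit 5) (nat_lit 108) (nat_lit 5) (nat_lit 408) (nat_lit 399) (nat_lit 213)) (XT.lf (nat_lit 0) (nat_lit 121009823213) (nat_lit 456) (nat_lit 143440270733) (nat_lit 76) (nat_lit 311091211006) (nat_lit 102) (nat_lit 5) (nat_lit 108) (nat_lit 5) (nat_lit 103) (nat_lit 5) (nat_lit 409) (nat_lit 399) (nat_lit 212)))) (XT.nd (nat_lit 156) (nat_lit 608) (nat_lit 0) (XT.nd (nat_lit 78) (nat_lit 304) (nat_lit 0) (XT.lf (nat_lit 0) (nat_lit 239102675338) (nat_lit 456) (nat_lit 237193495914) (nat_lit 76) (nat_lit 125138981037) (nat_lit 97) (nat_lit 5) (nat_lit 103) (nat_lit 5) (nat_lit 98) (nat_lit 5) (nat_lit 410) (nat_lit 399) (nat_lit 211)) (XT.lf (nat_lit 0) (nat_lit 293271163523) (nat_lit 304) (nat_lit 84949251106) (nat_lit 380) (nat_lit 250601219849) (nat_lit 93) (nat_lit 5) (nat_lit 97) (nat_lit 5) (nat_lit 98) (nat_lit 5) (nat_lit 411)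 (nat_lit 399) (nat_lit 210))) (XT.nd (nat_lit 78) (nat_lit 304) (nat_lit 0) (XT.lf (nat_lit 0) (nat_lit 218090611278) (nat_lit 304) (nat_lit 323253953214) (nat_lit 380) (nat_lit 116410621196) (nat_lit 89) (nat_lit 5) (nat_lit 93) (nat_lit 5) (nat_lit 94) (nat_lit 5) (nat_lit 412) (nat_lit 399) (nat_lit 209)) (XT.lf (nat_lit 0) (nat_lit 38824871852) (nat_lit 304) (nat_lit 548274761944) (nat_lit 76) (nat_lit 101320411492) (nat_lit 85) (nat_lit 5) (nat_lit 89) (nat_lit 5) (nat_lit 86) (nat_lit 5) (nat_lit 413) (nat_lit 399) (nat_lit 208)))))) (XT.nd (nat_lit 468) (nat_lit 1216) (nat_lit 0) (XT.nd (nat_lit 234) (nat_lit 760) (nat_lit 0) (XT.nd (nat_lit 78) (nat_lit 228) (nat_lit 0) (XT.lf (nat_lit 0) (nat_lit 55109767578) (nat_lit 304) (nat_lit 161440765219) (nat_lit 380) (nat_lit 504184652851) (nat_lit 81) (nat_lit 5) (nat_lit 85) (nat_lit 5) (nat_lit 86) (nat_lit 5) (nat_lit 414) (nat_lit 399)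 (nat_lit 207)) (XT.nd (nat_lit 78) (nat_lit 228) (nat_lit 0) (XT.lf (nat_lit 0) (nat_lit 422858220555) (nat_lit 380) (nat_lit 33627682390) (nat_lit 76) (nat_lit 298431435608) (nat_lit 81) (nat_lit 5) (nat_lit 86) (nat_lit 5) (nat_lit 82) (nat_lit 5) (nat_lit 415) (nat_lit 399) (nat_lit 206)) (XT.lf (nat_lit 0) (nat_lit 658952136168) (nat_lit 304) (nat_lit 123739376724) (nat_lit 76) (nat_lit 8478470167) (nat_lit 78) (nat_lit 5) (nat_lit 82) (nat_lit 5) (nat_lit 79) (nat_lit 5) (nat_lit 416) (nat_lit 399) (nat_lit 205)))) (XT.nd (nat_lit 78) (nat_lit 456) (nat_lit 0) (XT.lf (nat_lit 0) (nat_lit 98998779283) (nat_lit 304) (nat_lit 223822475206) (nat_lit 76) (nat_lit 506533108821) (nat_lit 74) (nat_lit 5) (nat_lit 78) (nat_lit 5) (nat_lit 75) (nat_lit 5) (nat_lit 417) (nat_lit 399) (nat_lit 204)) (XT.nd (nat_lit 78) (nat_lit 228) (nat_lit 0) (XT.lf (nat_lit 0) (nat_lit 357723228772) (nat_lit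 304) (nat_lit 330708873742) (nat_lit 76) (nat_lit 181370878064) (nat_lit 71) (nat_lit 5) (nat_lit 75) (nat_lit 5) (nat_lit 72) (nat_lit 5) (nat_lit 418) (nat_lit 399) (nat_lit 203)) (XT.lf (nat_lit 0) (nat_lit 467189783730) (nat_lit 228) (nat_lit 186656083448) (nat_lit 304) (nat_lit 258806608411) (nat_lit 68) (nat_lit 5) (nat_lit 71) (nat_lit 5) (nat_lit 72) (nat_lit 5) (nat_lit 419) (nat_lit 399) (nat_lit 202))))) (XT.nd (nat_lit 234) (nat_lit 608) (nat_lit 0) (XT.nd (nat_lit 78) (nat_lit 380) (nat_lit 0) (XT.lf (nat_lit 0) (nat_lit 32016947094) (nat_lit 228) (nat_lit 569678784626) (nat_lit 76) (nat_lit 356334702869) (nat_lit 65) (nat_lit 5) (nat_lit 68) (nat_lit 5) (nat_lit 66) (nat_lit 5) (nat_lit 420) (nat_lit 399) (nat_lit 201)) (XT.nd (nat_lit 78) (nat_lit 152) (nat_lit 0) (XT.lf (nat_lit 0) (nat_lit 300094153070) (nat_lit 228) (nat_lit 52785664101) (nat_lit 304) (nat_lit 653154638932)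 (nat_lit 62) (nat_lit 5) (nat_lit 65) (nat_lit 5) (nat_lit 66) (nat_lit 5) (nat_lit 421) (nat_lit 399) (nat_lit 200)) (XT.lf (nat_lit 0) (nat_lit 200223541691) (nat_lit 152) (nat_lit 520831815559) (nat_lit 228) (nat_lit 335741260072) (nat_lit 60) (nat_lit 5) (nat_lit 62) (nat_lit 5) (nat_lit 63) (nat_lit 5) (nat_lit 422) (nat_lit 399) (nat_lit 199)))) (XT.nd (nat_lit 156) (nat_lit 380) (nat_lit 0) (XT.nd (nat_lit 78) (nat_lit 0) (nat_lit 0) (XT.lf (nat_lit 0) (nat_lit 22852719408) (nat_lit 228) (nat_lit 1017093178681) (nat_lit 76) (nat_lit 70867654962) (nat_lit 57) (nat_lit 5) (nat_lit 60) (nat_lit 5) (nat_lit 58) (nat_lit 5) (nat_lit 423) (nat_lit 399) (nat_lit 198)) (XT.lf (nat_lit 0) (nat_lit 422476447585) (nat_lit 228) (nat_lit 32468571093) (nat_lit 76) (nat_lit 712726378779) (nat_lit 57) (nat_lit 5) (nat_lit 60) (nat_lit 5) (nat_lit 58) (nat_lit 5) (nat_lit 424) (nat_lit 399) (nat_lit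 197))) (XT.nd (nat_lit 78) (nat_lit 228) (nat_lit 0) (XT.lf (nat_lit 0) (nat_lit 873731698690) (nat_lit 228) (nat_lit 166267237544) (nat_lit 76) (nat_lit 188095851953) (nat_lit 55) (nat_lit 5) (nat_lit 58) (nat_lit 5) (nat_lit 56) (nat_lit 5) (nat_lit 425) (nat_lit 399) (nat_lit 196)) (XT.lf (nat_lit 0) (nat_lit 89421088374) (nat_lit 228) (nat_lit 318591312199) (nat_lit 76) (nat_lit 884094086602) (nat_lit 52) (nat_lit 5) (nat_lit 55) (nat_lit 5) (nat_lit 53) (nat_lit 5) (nat_lit 426) (nat_lit 399) (nat_lit 195))))))))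
noncomputable def xc121 : XT := (XT.nd (nat_lit 52806) (nat_lit 0) (nat_lit 152) (XT.nd (nat_lit 51792) (nat_lit 0) (nat_lit 1216) (XT.nd (nat_lit 51246) (nat_lit 0) (nat_lit 4636) (XT.nd (nat_lit 51012) (nat_lit 0) (nat_lit 5472) (XT.nd (nat_lit 78) (nat_lit 304) (nat_lit 0) (XT.lf (nat_lit 0) (nat_lit 577659594488) (nat_lit 228) (nat_lit 493584685996) (nat_lit 76) (nat_lit 288636042529) (nat_lit 50) (nat_lit 5) (nat_lit 53) (nat_lit 5) (nat_lit 51) (nat_lit 5) (nat_lit 427) (nat_lit 399) (nat_lit 194)) (XT.nd (nat_lit 78) (nat_lit 152) (nat_lit 0) (XT.lf (nat_lit 0) (nat_lit 741307378588) (nat_lit 152) (nat_lit 387744139859) (nat_lit 228) (nat_lit 302819830407) (nat_lit 48) (nat_lit 5) (nat_lit 50) (nat_lit 5) (nat_lit 51) (nat_lit 5) (nat_lit 428) (nat_lit 399) (nat_lit 193)) (XT.lf (nat_lit 0) (nat_lit 231969376153) (nat_lit 152) (nat_lit 915268987539) (nat_lit 76) (nat_lit 361019735673)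 (nat_lit 46) (nat_lit 5) (nat_lit 48) (nat_lit 5) (nat_lit 47) (nat_lit 5) (nat_lit 429) (nat_lit 399) (nat_lit 192)))) (XT.nd (nat_lit 78) (nat_lit 0) (nat_lit 76) (XT.lf (nat_lit 0) (nat_lit 57708662749) (nat_lit 836) (nat_lit 74093702104) (nat_lit 836) (nat_lit 74093702104) (nat_lit 118) (nat_lit 3) (nat_lit 129) (nat_lit 3) (nat_lit 129) (nat_lit 5) (nat_lit 400) (nat_lit 400) (nat_lit 220)) (XT.nd (nat_lit 78) (nat_lit 0) (nat_lit 0) (XT.lf (nat_lit 0) (nat_lit 123663093714) (nat_lit 760) (nat_lit 251374735998) (nat_lit 836) (nat_lit 53044535475) (nat_lit 119) (nat_lit 5) (nat_lit 129) (nat_lit 5) (nat_lit 130) (nat_lit 5) (nat_lit 401) (nat_lit 400) (nat_lit 219)) (XT.lf (nat_lit 76) (nat_lit 85591493790) (nat_lit 0) (nat_lit 55381796566) (nat_lit 836) (nat_lit 304282286290) (nat_lit 120) (nat_lit 5) (nat_lit 119) (nat_lit 5) (nat_lit 130) (nat_lit 5) (nat_lit 402) (nat_lit 400) (nat_lit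 218))))) (XT.nd (nat_lit 234) (nat_lit 988) (nat_lit 0) (XT.nd (nat_lit 78) (nat_lit 0) (nat_lit 76) (XT.lf (nat_lit 0) (nat_lit 168644136367) (nat_lit 760) (nat_lit 9689313131) (nat_lit 836) (nat_lit 285020403872) (nat_lit 120) (nat_lit 5) (nat_lit 130) (nat_lit 5) (nat_lit 131) (nat_lit 5) (nat_lit 403) (nat_lit 400) (nat_lit 217)) (XT.nd (nat_lit 78) (nat_lit 0) (nat_lit 76) (XT.lf (nat_lit 0) (nat_lit 208105749948) (nat_lit 760) (nat_lit 105779571690) (nat_lit 836) (nat_lit 168535815628) (nat_lit 121) (nat_lit 5) (nat_lit 131) (nat_lit 5) (nat_lit 132) (nat_lit 5) (nat_lit 404) (nat_lit 400) (nat_lit 216)) (XT.lf (nat_lit 0) (nat_lit 259163197759) (nat_lit 760) (nat_lit 205495045901) (nat_lit 836) (nat_lit 37933614981) (nat_lit 122) (nat_lit 5) (nat_lit 132) (nat_lit 5) (nat_lit 133) (nat_lit 5) (nat_lit 405) (nat_lit 400) (nat_lit 215)))) (XT.nd (nat_lit 156) (nat_lit 456) (nat_lit 0)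 (XT.nd (nat_lit 78) (nat_lit 684) (nat_lit 0) (XT.lf (nat_lit 76) (nat_lit 213197276414) (nat_lit 0) (nat_lit 111602026170) (nat_lit 836) (nat_lit 199052232106) (nat_lit 123) (nat_lit 5) (nat_lit 122) (nat_lit 5) (nat_lit 133) (nat_lit 5) (nat_lit 406) (nat_lit 400) (nat_lit 214)) (XT.lf (nat_lit 0) (nat_lit 125848611340) (nat_lit 760) (nat_lit 279651517797) (nat_lit 836) (nat_lit 140821164042) (nat_lit 113) (nat_lit 5) (nat_lit 123) (nat_lit 5) (nat_lit 124) (nat_lit 5) (nat_lit 407) (nat_lit 400) (nat_lit 213))) (XT.nd (nat_lit 78) (nat_lit 76) (nat_lit 0) (XT.lf (nat_lit 0) (nat_lit 35674538215) (nat_lit 380) (nat_lit 466465064701) (nat_lit 456) (nat_lit 67974900396) (nat_lit 108) (nat_lit 5) (nat_lit 113) (nat_lit 5) (nat_lit 114) (nat_lit 5) (nat_lit 408) (nat_lit 400) (nat_lit 212)) (XT.lf (nat_lit 0) (nat_lit 22516460063) (nat_lit 456) (nat_lit 57119058798) (nat_lit 76) (nat_lit 515559307663)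 (nat_lit 107) (nat_lit 5) (nat_lit 113) (nat_lit 5) (nat_lit 108) (nat_lit 5) (nat_lit 409) (nat_lit 400) (nat_lit 211)))))) (XT.nd (nat_lit 468) (nat_lit 1444) (nat_lit 0) (XT.nd (nat_lit 234) (nat_lit 912) (nat_lit 0) (XT.nd (nat_lit 78) (nat_lit 684) (nat_lit 0) (XT.lf (nat_lit 0) (nat_lit 130691291971) (nat_lit 456) (nat_lit 154914766435) (nat_lit 76) (nat_lit 335978516474) (nat_lit 102) (nat_lit 5) (nat_lit 108) (nat_lit 5) (nat_lit 103) (nat_lit 5) (nat_lit 410) (nat_lit 400) (nat_lit 210)) (XT.nd (nat_lit 78) (nat_lit 304) (nat_lit 0) (XT.lf (nat_lit 0) (nat_lit 258231533322) (nat_lit 456) (nat_lit 256168249521) (nat_lit 76) (nat_lit 135150149131) (nat_lit 97) (nat_lit 5) (nat_lit 103) (nat_lit 5) (nat_lit 98) (nat_lit 5) (nat_lit 411) (nat_lit 400) (nat_lit 209)) (XT.lf (nat_lit 0) (nat_lit 316733551117) (nat_lit 304) (nat_lit 91745103782) (nat_lit 380) (nat_lit 270648679704) (nat_lit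 93) (nat_lit 5) (nat_lit 97) (nat_lit 5) (nat_lit 98) (nat_lit 5) (nat_lit 412) (nat_lit 400) (nat_lit 208)))) (XT.nd (nat_lit 78) (nat_lit 608) (nat_lit 0) (XT.lf (nat_lit 0) (nat_lit 235538552507) (nat_lit 304) (nat_lit 349114151346) (nat_lit 380) (nat_lit 125722867721) (nat_lit 89) (nat_lit 5) (nat_lit 93) (nat_lit 5) (nat_lit 94) (nat_lit 5) (nat_lit 413) (nat_lit 400) (nat_lit 207)) (XT.nd (nat_lit 78) (nat_lit 304) (nat_lit 0) (XT.lf (nat_lit 0) (nat_lit 41931414872) (nat_lit 304) (nat_lit 592136036195) (nat_lit 76) (nat_lit 109426169953) (nat_lit 85) (nat_lit 5) (nat_lit 89) (nat_lit 5) (nat_lit 86) (nat_lit 5) (nat_lit 414) (nat_lit 400) (nat_lit 206)) (XT.lf (nat_lit 0) (nat_lit 59519224977) (nat_lit 304) (nat_lit 174355873287) (nat_lit 380) (nat_lit 544518875884) (nat_lit 81) (nat_lit 5) (nat_lit 85) (nat_lit 5) (nat_lit 86) (nat_lit 5) (nat_lit 415) (nat_lit 400) (nat_lit 205)))))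 (XT.nd (nat_lit 234) (nat_lit 912) (nat_lit 0) (XT.nd (nat_lit 78) (nat_lit 532) (nat_lit 0) (XT.lf (nat_lit 0) (nat_lit 456687364527) (nat_lit 380) (nat_lit 36317248876) (nat_lit 76) (nat_lit 322306087724) (nat_lit 81) (nat_lit 5) (nat_lit 86) (nat_lit 5) (nat_lit 82) (nat_lit 5) (nat_lit 416) (nat_lit 400) (nat_lit 204)) (XT.nd (nat_lit 78) (nat_lit 304) (nat_lit 0) (XT.lf (nat_lit 0) (nat_lit 711668769542) (nat_lit 304) (nat_lit 133637886241) (nat_lit 76) (nat_lit 9156902618) (nat_lit 78) (nat_lit 5) (nat_lit 82) (nat_lit 5) (nat_lit 79) (nat_lit 5) (nat_lit 417) (nat_lit 400) (nat_lit 203)) (XT.lf (nat_lit 0) (nat_lit 106919126753) (nat_lit 304) (nat_lit 241727645564) (nat_lit 76) (nat_lit 547055917641) (nat_lit 74) (nat_lit 5) (nat_lit 78) (nat_lit 5) (nat_lit 75) (nat_lit 5) (nat_lit 418) (nat_lit 400) (nat_lit 202)))) (XT.nd (nat_lit 156) (nat_lit 456) (nat_lit 0) (XT.nd (nat_lit 78)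 (nat_lit 228) (nat_lit 0) (XT.lf (nat_lit 0) (nat_lit 386341511395) (nat_lit 304) (nat_lit 357164964829) (nat_lit 76) (nat_lit 195880721437) (nat_lit 71) (nat_lit 5) (nat_lit 75) (nat_lit 5) (nat_lit 72) (nat_lit 5) (nat_lit 419) (nat_lit 400) (nat_lit 201)) (XT.lf (nat_lit 0) (nat_lit 504565558348) (nat_lit 228) (nat_lit 201588380336) (nat_lit 304) (nat_lit 279510714709) (nat_lit 68) (nat_lit 5) (nat_lit 71) (nat_lit 5) (nat_lit 72) (nat_lit 5) (nat_lit 420) (nat_lit 400) (nat_lit 200))) (XT.nd (nat_lit 78) (nat_lit 228) (nat_lit 0) (XT.lf (nat_lit 0) (nat_lit 34578693468) (nat_lit 228) (nat_lit 615252491636) (nat_lit 76) (nat_lit 384841664601) (nat_lit 65) (nat_lit 5) (nat_lit 68) (nat_lit 5) (nat_lit 66) (nat_lit 5) (nat_lit 421) (nat_lit 400) (nat_lit 199)) (XT.lf (nat_lit 0) (nat_lit 324102255184) (nat_lit 228) (nat_lit 57008317929) (nat_lit 304) (nat_lit 705406620837) (nat_lit 62) (nat_lit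 5) (nat_lit 65) (nat_lit 5) (nat_lit 66) (nat_lit 5) (nat_lit 422) (nat_lit 400) (nat_lit 198))))))) (XT.nd (nat_lit 51870) (nat_lit 0) (nat_lit 1748) (XT.nd (nat_lit 468) (nat_lit 152) (nat_lit 0) (XT.nd (nat_lit 234) (nat_lit 532) (nat_lit 0) (XT.nd (nat_lit 78) (nat_lit 228) (nat_lit 0) (XT.lf (nat_lit 0) (nat_lit 216241984984) (nat_lit 152) (nat_lit 562498155590) (nat_lit 228) (nat_lit 362600188294) (nat_lit 60) (nat_lit 5) (nat_lit 62) (nat_lit 5) (nat_lit 63) (nat_lit 5) (nat_lit 423) (nat_lit 400) (nat_lit 197)) (XT.nd (nat_lit 78) (nat_lit 0) (nat_lit 0) (XT.lf (nat_lit 0) (nat_lit 24681282642) (nat_lit 228) (nat_lit 1098460071833) (nat_lit 76) (nat_lit 76537265446) (nat_lit 57) (nat_lit 5) (nat_lit 60) (nat_lit 5) (nat_lit 58) (nat_lit 5) (nat_lit 424) (nat_lit 400) (nat_lit 196)) (XT.lf (nat_lit 0) (nat_lit 456274883467) (nat_lit 228) (nat_lit 35065537204) (nat_lit 76) (nat_lit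 769744672495) (nat_lit 57) (nat_lit 5) (nat_lit 60) (nat_lit 5) (nat_lit 58) (nat_lit 5) (nat_lit 425) (nat_lit 400) (nat_lit 195)))) (XT.nd (nat_lit 78) (nat_lit 380) (nat_lit 0) (XT.lf (nat_lit 0) (nat_lit 943630541722) (nat_lit 228) (nat_lit 179568107278) (nat_lit 76) (nat_lit 203143706808) (nat_lit 55) (nat_lit 5) (nat_lit 58) (nat_lit 5) (nat_lit 56) (nat_lit 5) (nat_lit 426) (nat_lit 400) (nat_lit 194)) (XT.nd (nat_lit 78) (nat_lit 152) (nat_lit 0) (XT.lf (nat_lit 0) (nat_lit 96575072292) (nat_lit 228) (nat_lit 344078120154) (nat_lit 76) (nat_lit 954821798792) (nat_lit 52) (nat_lit 5) (nat_lit 55) (nat_lit 5) (nat_lit 53) (nat_lit 5) (nat_lit 427) (nat_lit 400) (nat_lit 193)) (XT.lf (nat_lit 0) (nat_lit 623872647344) (nat_lit 228) (nat_lit 533070974292) (nat_lit 76) (nat_lit 311727112889) (nat_lit 50) (nat_lit 5) (nat_lit 53) (nat_lit 5) (nat_lit 51) (nat_lit 5) (nat_lit 428) (nat_lit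 400) (nat_lit 192))))) (XT.nd (nat_lit 51090) (nat_lit 0) (nat_lit 5396) (XT.nd (nat_lit 50934) (nat_lit 0) (nat_lit 5320) (XT.lf (nat_lit 0) (nat_lit 800612434312) (nat_lit 152) (nat_lit 418763477041) (nat_lit 228) (nat_lit 327045131778) (nat_lit 48) (nat_lit 5) (nat_lit 50) (nat_lit 5) (nat_lit 51) (nat_lit 5) (nat_lit 429) (nat_lit 400) (nat_lit 191)) (XT.nd (nat_lit 78) (nat_lit 0) (nat_lit 76) (XT.lf (nat_lit 0) (nat_lit 62325932880) (nat_lit 836) (nat_lit 80020895131) (nat_lit 836) (nat_lit 80020895131) (nat_lit 118) (nat_lit 3) (nat_lit 129) (nat_lit 3) (nat_lit 129) (nat_lit 5) (nat_lit 401) (nat_lit 401) (nat_lit 218)) (XT.lf (nat_lit 0) (nat_lit 133557211217) (nat_lit 760) (nat_lit 271484072698) (nat_lit 836) (nat_lit 57287616403) (nat_lit 119) (nat_lit 5) (nat_lit 129) (nat_lit 5) (nat_lit 130) (nat_lit 5) (nat_lit 402) (nat_lit 401) (nat_lit 217)))) (XT.nd (nat_lit 156) (nat_lit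 0) (nat_lit 152) (XT.nd (nat_lit 78) (nat_lit 0) (nat_lit 76) (XT.lf (nat_lit 76) (nat_lit 92439427565) (nat_lit 0) (nat_lit 59812726356) (nat_lit 836) (nat_lit 328623818299) (nat_lit 120) (nat_lit 5) (nat_lit 119) (nat_lit 5) (nat_lit 130) (nat_lit 5) (nat_lit 403) (nat_lit 401) (nat_lit 216)) (XT.lf (nat_lit 0) (nat_lit 182136587933) (nat_lit 760) (nat_lit 10463837018) (nat_lit 836) (nat_lit 307821690156) (nat_lit 120) (nat_lit 5) (nat_lit 130) (nat_lit 5) (nat_lit 131) (nat_lit 5) (nat_lit 404) (nat_lit 401) (nat_lit 215))) (XT.nd (nat_lit 78) (nat_lit 0) (nat_lit 76) (XT.lf (nat_lit 0) (nat_lit 224755067503) (nat_lit 760) (nat_lit 114241295527) (nat_lit 836) (nat_lit 182018421875) (nat_lit 121) (nat_lit 5) (nat_lit 131) (nat_lit 5) (nat_lit 132) (nat_lit 5) (nat_lit 405) (nat_lit 401) (nat_lit 214)) (XT.lf (nat_lit 0) (nat_lit 279897054241) (nat_lit 760) (nat_lit 221933992000) (nat_lit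 836) (nat_lit 40968120628) (nat_lit 122) (nat_lit 5) (nat_lit 132) (nat_lit 5) (nat_lit 133) (nat_lit 5) (nat_lit 406) (nat_lit 401) (nat_lit 213)))))) (XT.nd (nat_lit 546) (nat_lit 1672) (nat_lit 0) (XT.nd (nat_lit 234) (nat_lit 1140) (nat_lit 0) (XT.nd (nat_lit 78) (nat_lit 1064) (nat_lit 0) (XT.lf (nat_lit 76) (nat_lit 230253687523) (nat_lit 0) (nat_lit 120530310442) (nat_lit 836) (nat_lit 214975621544) (nat_lit 123) (nat_lit 5) (nat_lit 122) (nat_lit 5) (nat_lit 133) (nat_lit 5) (nat_lit 407) (nat_lit 401) (nat_lit 212)) (XT.nd (nat_lit 78) (nat_lit 380) (nat_lit 0) (XT.lf (nat_lit 0) (nat_lit 135917140039) (nat_lit 760) (nat_lit 302023703183) (nat_lit 836) (nat_lit 152086117855) (nat_lit 113) (nat_lit 5) (nat_lit 123) (nat_lit 5) (nat_lit 124) (nat_lit 5) (nat_lit 408) (nat_lit 401) (nat_lit 211)) (XT.lf (nat_lit 0) (nat_lit 38529148225) (nat_lit 380) (nat_lit 503782283724) (nat_lit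 456) (nat_lit 73412198246) (nat_lit 108) (nat_lit 5) (nat_lit 113) (nat_lit 5) (nat_lit 114) (nat_lit 5) (nat_lit 409) (nat_lit 401) (nat_lit 210)))) (XT.nd (nat_lit 156) (nat_lit 684) (nat_lit 0) (XT.nd (nat_lit 78) (nat_lit 380) (nat_lit 0) (XT.lf (nat_lit 0) (nat_lit 24318399056) (nat_lit 456) (nat_lit 61687963598) (nat_lit 76) (nat_lit 556804018582) (nat_lit 107) (nat_lit 5) (nat_lit 113) (nat_lit 5) (nat_lit 108) (nat_lit 5) (nat_lit 410) (nat_lit 401) (nat_lit 209)) (XT.lf (nat_lit 0) (nat_lit 141147180805) (nat_lit 456) (nat_lit 167307325358) (nat_lit 76) (nat_lit 362856805154) (nat_lit 102) (nat_lit 5) (nat_lit 108) (nat_lit 5) (nat_lit 103) (nat_lit 5) (nat_lit 411) (nat_lit 401) (nat_lit 208))) (XT.nd (nat_lit 78) (nat_lit 304) (nat_lit 0) (XT.lf (nat_lit 0) (nat_lit 278890608077) (nat_lit 456) (nat_lit 276661086998) (nat_lit 76) (nat_lit 145962203595) (nat_lit 97) (nat_lit 5) (nat_lit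 103) (nat_lit 5) (nat_lit 98) (nat_lit 5) (nat_lit 412) (nat_lit 401) (nat_lit 207)) (XT.lf (nat_lit 0) (nat_lit 342072830639) (nat_lit 304) (nat_lit 99084637142) (nat_lit 380) (nat_lit 292300027327) (nat_lit 93) (nat_lit 5) (nat_lit 97) (nat_lit 5) (nat_lit 98) (nat_lit 5) (nat_lit 413) (nat_lit 401) (nat_lit 206))))) (XT.nd (nat_lit 234) (nat_lit 760) (nat_lit 0) (XT.nd (nat_lit 78) (nat_lit 608) (nat_lit 0) (XT.lf (nat_lit 0) (nat_lit 254382230266) (nat_lit 304) (nat_lit 377043182181) (nat_lit 380) (nat_lit 135780180018) (nat_lit 89) (nat_lit 5) (nat_lit 93) (nat_lit 5) (nat_lit 94) (nat_lit 5) (nat_lit 414) (nat_lit 401) (nat_lit 205)) (XT.nd (nat_lit 78) (nat_lit 304) (nat_lit 0) (XT.lf (nat_lit 0) (nat_lit 45286402403) (nat_lit 304) (nat_lit 639506313205) (nat_lit 76) (nat_lit 118180371182) (nat_lit 85) (nat_lit 5) (nat_lit 89) (nat_lit 5) (nat_lit 86) (nat_lit 5) (nat_lit 415) (nat_lit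 401) (nat_lit 204)) (XT.lf (nat_lit 0) (nat_lit 64281342530) (nat_lit 304) (nat_lit 188304211849) (nat_lit 380) (nat_lit 588079915108) (nat_lit 81) (nat_lit 5) (nat_lit 85) (nat_lit 5) (nat_lit 86) (nat_lit 5) (nat_lit 416) (nat_lit 401) (nat_lit 203)))) (XT.nd (nat_lit 156) (nat_lit 532) (nat_lit 0) (XT.nd (nat_lit 78) (nat_lit 228) (nat_lit 0) (XT.lf (nat_lit 0) (nat_lit 493222770637) (nat_lit 380) (nat_lit 39222073140) (nat_lit 76) (nat_lit 348090692425) (nat_lit 81) (nat_lit 5) (nat_lit 86) (nat_lit 5) (nat_lit 82) (nat_lit 5) (nat_lit 417) (nat_lit 401) (nat_lit 202)) (XT.lf (nat_lit 0) (nat_lit 768602667607) (nat_lit 304) (nat_lit 144328367910) (nat_lit 76) (nat_lit 9889587575) (nat_lit 78) (nat_lit 5) (nat_lit 82) (nat_lit 5) (nat_lit 79) (nat_lit 5) (nat_lit 418) (nat_lit 401) (nat_lit 201))) (XT.nd (nat_lit 78) (nat_lit 228) (nat_lit 0) (XT.lf (nat_lit 0) (nat_lit 115473038519) (nat_lit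 304) (nat_lit 261065319094) (nat_lit 76) (nat_lit 590820528325) (nat_lit 74) (nat_lit 5) (nat_lit 78) (nat_lit 5) (nat_lit 75) (nat_lit 5) (nat_lit 419) (nat_lit 401) (nat_lit 200)) (XT.lf (nat_lit 0) (nat_lit 417249196094) (nat_lit 304) (nat_lit 385737631484) (nat_lit 76) (nat_lit 211551327581) (nat_lit 71) (nat_lit 5) (nat_lit 75) (nat_lit 5) (nat_lit 72) (nat_lit 5) (nat_lit 420) (nat_lit 401) (nat_lit 199))))))))
noncomputable def xc122 : XT := (XT.nd (nat_lit 52962) (nat_lit 0) (nat_lit 152) (XT.nd (nat_lit 51948) (nat_lit 0) (nat_lit 2356) (XT.nd (nat_lit 468) (nat_lit 532) (nat_lit 0) (XT.nd (nat_lit 234) (nat_lit 380) (nat_lit 0) (XT.nd (nat_lit 78) (nat_lit 456) (nat_lit 0) (XT.lf (nat_lit 0) (nat_lit 544931310492) (nat_lit 228) (nat_lit 217715288050) (nat_lit 304) (nat_lit 301871209768) (nat_lit 68) (nat_lit 5) (nat_lit 71) (nat_lit 5) (nat_lit 72) (nat_lit 5) (nat_lit 421) (nat_lit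 401) (nat_lit 198)) (XT.nd (nat_lit 78) (nat_lit 228) (nat_lit 0) (XT.lf (nat_lit 0) (nat_lit 37345323828) (nat_lit 228) (nat_lit 664472180199) (nat_lit 76) (nat_lit 415629156809) (nat_lit 65) (nat_lit 5) (nat_lit 68) (nat_lit 5) (nat_lit 66) (nat_lit 5) (nat_lit 422) (nat_lit 401) (nat_lit 197)) (XT.lf (nat_lit 0) (nat_lit 350030924170) (nat_lit 228) (nat_lit 61568812497) (nat_lit 304) (nat_lit 761838816819) (nat_lit 62) (nat_lit 5) (nat_lit 65) (nat_lit 5) (nat_lit 66) (nat_lit 5) (nat_lit 423) (nat_lit 401) (nat_lit 196)))) (XT.nd (nat_lit 78) (nat_lit 228) (nat_lit 0) (XT.lf (nat_lit 0) (nat_lit 233541823855) (nat_lit 152) (nat_lit 607497832100) (nat_lit 228) (nat_lit 391607883927) (nat_lit 60) (nat_lit 5) (nat_lit 62) (nat_lit 5) (nat_lit 63) (nat_lit 5) (nat_lit 424) (nat_lit 401) (nat_lit 195)) (XT.nd (nat_lit 78) (nat_lit 0) (nat_lit 0) (XT.lf (nat_lit 0) (nat_lit 26656081618) (nat_lit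 228) (nat_lit 1186336396490) (nat_lit 76) (nat_lit 82660416509) (nat_lit 57) (nat_lit 5) (nat_lit 60) (nat_lit 5) (nat_lit 58) (nat_lit 5) (nat_lit 425) (nat_lit 401) (nat_lit 194)) (XT.lf (nat_lit 0) (nat_lit 492777148557) (nat_lit 228) (nat_lit 37870334727) (nat_lit 76) (nat_lit 831324403542) (nat_lit 57) (nat_lit 5) (nat_lit 60) (nat_lit 5) (nat_lit 58) (nat_lit 5) (nat_lit 426) (nat_lit 401) (nat_lit 193))))) (XT.nd (nat_lit 51168) (nat_lit 0) (nat_lit 5168) (XT.nd (nat_lit 78) (nat_lit 380) (nat_lit 0) (XT.lf (nat_lit 0) (nat_lit 1019121248379) (nat_lit 228) (nat_lit 193933119244) (nat_lit 76) (nat_lit 219395363416) (nat_lit 55) (nat_lit 5) (nat_lit 58) (nat_lit 5) (nat_lit 56) (nat_lit 5) (nat_lit 427) (nat_lit 401) (nat_lit 192)) (XT.nd (nat_lit 78) (nat_lit 152) (nat_lit 0) (XT.lf (nat_lit 0) (nat_lit 104301332575) (nat_lit 228) (nat_lit 371603943651) (nat_lit 76) (nat_lit 1031207701528)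 (nat_lit 52) (nat_lit 5) (nat_lit 55) (nat_lit 5) (nat_lit 53) (nat_lit 5) (nat_lit 428) (nat_lit 401) (nat_lit 191)) (XT.lf (nat_lit 0) (nat_lit 673782703728) (nat_lit 228) (nat_lit 575716235069) (nat_lit 76) (nat_lit 336665442207) (nat_lit 50) (nat_lit 5) (nat_lit 53) (nat_lit 5) (nat_lit 51) (nat_lit 5) (nat_lit 429) (nat_lit 401) (nat_lit 190)))) (XT.nd (nat_lit 156) (nat_lit 0) (nat_lit 76) (XT.nd (nat_lit 78) (nat_lit 0) (nat_lit 76) (XT.lf (nat_lit 0) (nat_lit 67312502290) (nat_lit 836) (nat_lit 86422306847) (nat_lit 836) (nat_lit 86422306847) (nat_lit 118) (nat_lit 3) (nat_lit 129) (nat_lit 3) (nat_lit 129) (nat_lit 5) (nat_lit 402) (nat_lit 402) (nat_lit 216)) (XT.lf (nat_lit 0) (nat_lit 144242705472) (nat_lit 760) (nat_lit 293202247947) (nat_lit 836) (nat_lit 61870212554) (nat_lit 119) (nat_lit 5) (nat_lit 129) (nat_lit 5) (nat_lit 130) (nat_lit 5) (nat_lit 403) (nat_lit 402) (nat_lit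 215))) (XT.nd (nat_lit 78) (nat_lit 0) (nat_lit 76) (XT.lf (nat_lit 76) (nat_lit 99835108410) (nat_lit 0) (nat_lit 64598075453) (nat_lit 836) (nat_lit 354912822790) (nat_lit 120) (nat_lit 5) (nat_lit 119) (nat_lit 5) (nat_lit 130) (nat_lit 5) (nat_lit 404) (nat_lit 402) (nat_lit 214)) (XT.lf (nat_lit 0) (nat_lit 196708304282) (nat_lit 760) (nat_lit 11300411431) (nat_lit 836) (nat_lit 332447128706) (nat_lit 120) (nat_lit 5) (nat_lit 130) (nat_lit 5) (nat_lit 131) (nat_lit 5) (nat_lit 405) (nat_lit 402) (nat_lit 213)))))) (XT.nd (nat_lit 468) (nat_lit 1976) (nat_lit 0) (XT.nd (nat_lit 234) (nat_lit 1064) (nat_lit 0) (XT.nd (nat_lit 78) (nat_lit 0) (nat_lit 76) (XT.lf (nat_lit 0) (nat_lit 242736208122) (nat_lit 760) (nat_lit 123380048846) (nat_lit 836) (nat_lit 196579673571) (nat_lit 121) (nat_lit 5) (nat_lit 131) (nat_lit 5) (nat_lit 132) (nat_lit 5) (nat_lit 406) (nat_lit 402) (nat_lit 212))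 (XT.nd (nat_lit 78) (nat_lit 0) (nat_lit 0) (XT.lf (nat_lit 0) (nat_lit 302289505019) (nat_lit 760) (nat_lit 239688147597) (nat_lit 836) (nat_lit 44245412912) (nat_lit 122) (nat_lit 5) (nat_lit 132) (nat_lit 5) (nat_lit 133) (nat_lit 5) (nat_lit 407) (nat_lit 402) (nat_lit 211)) (XT.lf (nat_lit 76) (nat_lit 248674521787) (nat_lit 0) (nat_lit 130172840026) (nat_lit 836) (nat_lit 232172994716) (nat_lit 123) (nat_lit 5) (nat_lit 122) (nat_lit 5) (nat_lit 133) (nat_lit 5) (nat_lit 408) (nat_lit 402) (nat_lit 210)))) (XT.nd (nat_lit 78) (nat_lit 456) (nat_lit 0) (XT.lf (nat_lit 0) (nat_lit 146791059761) (nat_lit 760) (nat_lit 326185654275) (nat_lit 836) (nat_lit 164252373444) (nat_lit 113) (nat_lit 5) (nat_lit 123) (nat_lit 5) (nat_lit 124) (nat_lit 5) (nat_lit 409) (nat_lit 402) (nat_lit 209)) (XT.nd (nat_lit 78) (nat_lit 76) (nat_lit 0) (XT.lf (nat_lit 0) (nat_lit 41612034742) (nat_lit 380)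 (nat_lit 544084878294) (nat_lit 456) (nat_lit 79284578957) (nat_lit 108) (nat_lit 5) (nat_lit 113) (nat_lit 5) (nat_lit 114) (nat_lit 5) (nat_lit 410) (nat_lit 402) (nat_lit 208)) (XT.lf (nat_lit 0) (nat_lit 26264404407) (nat_lit 456) (nat_lit 66622469218) (nat_lit 76) (nat_lit 601348311181) (nat_lit 107) (nat_lit 5) (nat_lit 113) (nat_lit 5) (nat_lit 108) (nat_lit 5) (nat_lit 411) (nat_lit 402) (nat_lit 207))))) (XT.nd (nat_lit 234) (nat_lit 912) (nat_lit 0) (XT.nd (nat_lit 78) (nat_lit 684) (nat_lit 0) (XT.lf (nat_lit 0) (nat_lit 152439457221) (nat_lit 456) (nat_lit 180691377787) (nat_lit 76) (nat_lit 391885355879) (nat_lit 102) (nat_lit 5) (nat_lit 108) (nat_lit 5) (nat_lit 103) (nat_lit 5) (nat_lit 412) (nat_lit 402) (nat_lit 206)) (XT.nd (nat_lit 78) (nat_lit 304) (nat_lit 0) (XT.lf (nat_lit 0) (nat_lit 301202330050) (nat_lit 456) (nat_lit 298793440277) (nat_lit 76) (nat_lit 157639216348)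 (nat_lit 97) (nat_lit 5) (nat_lit 103) (nat_lit 5) (nat_lit 98) (nat_lit 5) (nat_lit 413) (nat_lit 402) (nat_lit 205)) (XT.lf (nat_lit 0) (nat_lit 369439167578) (nat_lit 304) (nat_lit 107011343862) (nat_lit 380) (nat_lit 315683560761) (nat_lit 93) (nat_lit 5) (nat_lit 97) (nat_lit 5) (nat_lit 98) (nat_lit 5) (nat_lit 414) (nat_lit 402) (nat_lit 204)))) (XT.nd (nat_lit 156) (nat_lit 304) (nat_lit 0) (XT.nd (nat_lit 78) (nat_lit 304) (nat_lit 0) (XT.lf (nat_lit 0) (nat_lit 274733317568) (nat_lit 304) (nat_lit 407206549931) (nat_lit 380) (nat_lit 146642151072) (nat_lit 89) (nat_lit 5) (nat_lit 93) (nat_lit 5) (nat_lit 94) (nat_lit 5) (nat_lit 415) (nat_lit 402) (nat_lit 203)) (XT.lf (nat_lit 0) (nat_lit 48909721267) (nat_lit 304) (nat_lit 690666298812) (nat_lit 76) (nat_lit 127634893153) (nat_lit 85) (nat_lit 5) (nat_lit 89) (nat_lit 5) (nat_lit 86) (nat_lit 5) (nat_lit 416) (nat_lit 402) (nat_lit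 202))) (XT.nd (nat_lit 78) (nat_lit 0) (nat_lit 0) (XT.lf (nat_lit 0) (nat_lit 69424346807) (nat_lit 304) (nat_lit 203368436228) (nat_lit 380) (nat_lit 635125904642) (nat_lit 81) (nat_lit 5) (nat_lit 85) (nat_lit 5) (nat_lit 86) (nat_lit 5) (nat_lit 417) (nat_lit 402) (nat_lit 201)) (XT.lf (nat_lit 0) (nat_lit 532680949754) (nat_lit 380) (nat_lit 42359362614) (nat_lit 76) (nat_lit 375938048714) (nat_lit 81) (nat_lit 5) (nat_lit 86) (nat_lit 5) (nat_lit 82) (nat_lit 5) (nat_lit 418) (nat_lit 402) (nat_lit 200))))))) (XT.nd (nat_lit 52104) (nat_lit 0) (nat_lit 2204) (XT.nd (nat_lit 468) (nat_lit 760) (nat_lit 0) (XT.nd (nat_lit 234) (nat_lit 684) (nat_lit 0) (XT.nd (nat_lit 78) (nat_lit 532) (nat_lit 0) (XT.lf (nat_lit 0) (nat_lit 830091220952) (nat_lit 304) (nat_lit 155874166467) (nat_lit 76) (nat_lit 10680868392) (nat_lit 78) (nat_lit 5) (nat_lit 82) (nat_lit 5) (nat_lit 79) (nat_lit 5) (nat_lit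 419) (nat_lit 402) (nat_lit 199)) (XT.nd (nat_lit 78) (nat_lit 228) (nat_lit 0) (XT.lf (nat_lit 0) (nat_lit 124711208783) (nat_lit 304) (nat_lit 281950083274) (nat_lit 76) (nat_lit 638086288281) (nat_lit 74) (nat_lit 5) (nat_lit 78) (nat_lit 5) (nat_lit 75) (nat_lit 5) (nat_lit 420) (nat_lit 402) (nat_lit 198)) (XT.lf (nat_lit 0) (nat_lit 450629443671) (nat_lit 304) (nat_lit 416596187157) (nat_lit 76) (nat_lit 228475561041) (nat_lit 71) (nat_lit 5) (nat_lit 75) (nat_lit 5) (nat_lit 72) (nat_lit 5) (nat_lit 421) (nat_lit 402) (nat_lit 197)))) (XT.nd (nat_lit 78) (nat_lit 456) (nat_lit 0) (XT.lf (nat_lit 0) (nat_lit 588526250410) (nat_lit 228) (nat_lit 235132371595) (nat_lit 304) (nat_lit 326020596091) (nat_lit 68) (nat_lit 5) (nat_lit 71) (nat_lit 5) (nat_lit 72) (nat_lit 5) (nat_lit 422) (nat_lit 402) (nat_lit 196)) (XT.nd (nat_lit 78) (nat_lit 228) (nat_lit 0) (XT.lf (nat_lit 0) (nat_lit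 40333236841) (nat_lit 228) (nat_lit 717629516714) (nat_lit 76) (nat_lit 448879625704) (nat_lit 65) (nat_lit 5) (nat_lit 68) (nat_lit 5) (nat_lit 66) (nat_lit 5) (nat_lit 423) (nat_lit 402) (nat_lit 195)) (XT.lf (nat_lit 0) (nat_lit 378033816974) (nat_lit 228) (nat_lit 66494171006) (nat_lit 304) (nat_lit 822785636084) (nat_lit 62) (nat_lit 5) (nat_lit 65) (nat_lit 5) (nat_lit 66) (nat_lit 5) (nat_lit 424) (nat_lit 402) (nat_lit 194))))) (XT.nd (nat_lit 312) (nat_lit 228) (nat_lit 0) (XT.nd (nat_lit 78) (nat_lit 380) (nat_lit 0) (XT.lf (nat_lit 0) (nat_lit 252225581348) (nat_lit 152) (nat_lit 656097507831) (nat_lit 228) (nat_lit 422936240780) (nat_lit 60) (nat_lit 5) (nat_lit 62) (nat_lit 5) (nat_lit 63) (nat_lit 5) (nat_lit 425) (nat_lit 402) (nat_lit 193)) (XT.nd (nat_lit 156) (nat_lit 152) (nat_lit 0) (XT.lf (nat_lit 0) (nat_lit 28788822233) (nat_lit 228) (nat_lit 1281242895753) (nat_lit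 76) (nat_lit 89273395430) (nat_lit 57) (nat_lit 5) (nat_lit 60) (nat_lit 5) (nat_lit 58) (nat_lit 5) (nat_lit 426) (nat_lit 402) (nat_lit 192)) (XT.lf (nat_lit 0) (nat_lit 1100651174004) (nat_lit 228) (nat_lit 209447394455) (nat_lit 76) (nat_lit 236947129718) (nat_lit 55) (nat_lit 5) (nat_lit 58) (nat_lit 5) (nat_lit 56) (nat_lit 5) (nat_lit 428) (nat_lit 402) (nat_lit 190)))) (XT.nd (nat_lit 51168) (nat_lit 0) (nat_lit 5092) (XT.nd (nat_lit 51090) (nat_lit 0) (nat_lit 5016) (XT.lf (nat_lit 0) (nat_lit 112645657372) (nat_lit 228) (nat_lit 401331893818) (nat_lit 76) (nat_lit 1113704453824) (nat_lit 52) (nat_lit 5) (nat_lit 55) (nat_lit 5) (nat_lit 53) (nat_lit 5) (nat_lit 429) (nat_lit 402) (nat_lit 189)) (XT.lf (nat_lit 0) (nat_lit 72697926667) (nat_lit 836) (nat_lit 93335868577) (nat_lit 836) (nat_lit 93335868577) (nat_lit 118) (nat_lit 3) (nat_lit 129) (nat_lit 3) (nat_lit 129) (nat_lit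 5) (nat_lit 403) (nat_lit 403) (nat_lit 214))) (XT.nd (nat_lit 78) (nat_lit 0) (nat_lit 0) (XT.lf (nat_lit 0) (nat_lit 155782908396) (nat_lit 760) (nat_lit 316657955762) (nat_lit 836) (nat_lit 66819475340) (nat_lit 119) (nat_lit 5) (nat_lit 129) (nat_lit 5) (nat_lit 130) (nat_lit 5) (nat_lit 404) (nat_lit 403) (nat_lit 213)) (XT.lf (nat_lit 76) (nat_lit 107822368591) (nat_lit 0) (nat_lit 69766205258) (nat_lit 836) (nat_lit 383305076174) (nat_lit 120) (nat_lit 5) (nat_lit 119) (nat_lit 5) (nat_lit 130) (nat_lit 5) (nat_lit 405) (nat_lit 403) (nat_lit 212)))))) (XT.nd (nat_lit 468) (nat_lit 2052) (nat_lit 0) (XT.nd (nat_lit 234) (nat_lit 912) (nat_lit 0) (XT.nd (nat_lit 78) (nat_lit 0) (nat_lit 76) (XT.lf (nat_lit 0) (nat_lit 212445645335) (nat_lit 760) (nat_lit 12203987771) (nat_lit 836) (nat_lit 359042644663) (nat_lit 120) (nat_lit 5) (nat_lit 130) (nat_lit 5) (nat_lit 131) (nat_lit 5) (nat_lit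 406) (nat_lit 403) (nat_lit 211)) (XT.nd (nat_lit 78) (nat_lit 0) (nat_lit 76) (XT.lf (nat_lit 0) (nat_lit 262155735103) (nat_lit 760) (nat_lit 133249980940) (nat_lit 836) (nat_lit 212305857081) (nat_lit 121) (nat_lit 5) (nat_lit 131) (nat_lit 5) (nat_lit 132) (nat_lit 5) (nat_lit 407) (nat_lit 403) (nat_lit 210)) (XT.lf (nat_lit 0) (nat_lit 326473253931) (nat_lit 760) (nat_lit 258862716069) (nat_lit 836) (nat_lit 47784911029) (nat_lit 122) (nat_lit 5) (nat_lit 132) (nat_lit 5) (nat_lit 133) (nat_lit 5) (nat_lit 408) (nat_lit 403) (nat_lit 209)))) (XT.nd (nat_lit 78) (nat_lit 1064) (nat_lit 0) (XT.lf (nat_lit 76) (nat_lit 268568945861) (nat_lit 0) (nat_lit 140586757033) (nat_lit 836) (nat_lit 250746254258) (nat_lit 123) (nat_lit 5) (nat_lit 122) (nat_lit 5) (nat_lit 133) (nat_lit 5) (nat_lit 409) (nat_lit 403) (nat_lit 208)) (XT.nd (nat_lit 78) (nat_lit 380) (nat_lit 0) (XT.lf (nat_lit 0)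 (nat_lit 158534814808) (nat_lit 760) (nat_lit 352280553631) (nat_lit 836) (nat_lit 177392019905) (nat_lit 113) (nat_lit 5) (nat_lit 123) (nat_lit 5) (nat_lit 124) (nat_lit 5) (nat_lit 410) (nat_lit 403) (nat_lit 207)) (XT.lf (nat_lit 0) (nat_lit 44941473051) (nat_lit 380) (nat_lit 587611678736) (nat_lit 456) (nat_lit 85626835030) (nat_lit 108) (nat_lit 5) (nat_lit 113) (nat_lit 5) (nat_lit 114) (nat_lit 5) (nat_lit 411) (nat_lit 403) (nat_lit 206))))) (XT.nd (nat_lit 234) (nat_lit 1216) (nat_lit 0) (XT.nd (nat_lit 78) (nat_lit 760) (nat_lit 0) (XT.lf (nat_lit 0) (nat_lit 28366014087) (nat_lit 456) (nat_lit 71951811108) (nat_lit 76) (nat_lit 649456151309) (nat_lit 107) (nat_lit 5) (nat_lit 113) (nat_lit 5) (nat_lit 108) (nat_lit 5) (nat_lit 412) (nat_lit 403) (nat_lit 205)) (XT.nd (nat_lit 78) (nat_lit 380) (nat_lit 0) (XT.lf (nat_lit 0) (nat_lit 164635044142) (nat_lit 456) (nat_lit 195146230534)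 (nat_lit 76) (nat_lit 423236189760) (nat_lit 102) (nat_lit 5) (nat_lit 108) (nat_lit 5) (nat_lit 103) (nat_lit 5) (nat_lit 413) (nat_lit 403) (nat_lit 204)) (XT.lf (nat_lit 0) (nat_lit 325298922256) (nat_lit 456) (nat_lit 322696457954) (nat_lit 76) (nat_lit 170250384919) (nat_lit 97) (nat_lit 5) (nat_lit 103) (nat_lit 5) (nat_lit 98) (nat_lit 5) (nat_lit 414) (nat_lit 403) (nat_lit 203)))) (XT.nd (nat_lit 156) (nat_lit 608) (nat_lit 0) (XT.nd (nat_lit 78) (nat_lit 304) (nat_lit 0) (XT.lf (nat_lit 0) (nat_lit 398994738645) (nat_lit 304) (nat_lit 115572196286) (nat_lit 380) (nat_lit 340937843742) (nat_lit 93) (nat_lit 5) (nat_lit 97) (nat_lit 5) (nat_lit 98) (nat_lit 5) (nat_lit 415) (nat_lit 403) (nat_lit 202)) (XT.lf (nat_lit 0) (nat_lit 296712419257) (nat_lit 304) (nat_lit 439782999487) (nat_lit 380) (nat_lit 158373143058) (nat_lit 89) (nat_lit 5) (nat_lit 93) (nat_lit 5) (nat_lit 94) (nat_lit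 5) (nat_lit 416) (nat_lit 403) (nat_lit 201))) (XT.nd (nat_lit 78) (nat_lit 304) (nat_lit 0) (XT.lf (nat_lit 0) (nat_lit 52822847623) (nat_lit 304) (nat_lit 745919157373) (nat_lit 76) (nat_lit 137845763719) (nat_lit 85) (nat_lit 5) (nat_lit 89) (nat_lit 5) (nat_lit 86) (nat_lit 5) (nat_lit 417) (nat_lit 403) (nat_lit 200)) (XT.lf (nat_lit 0) (nat_lit 74978720541) (nat_lit 304) (nat_lit 219637814616) (nat_lit 380) (nat_lit 685935630927) (nat_lit 81) (nat_lit 5) (nat_lit 85) (nat_lit 5) (nat_lit 86) (nat_lit 5) (nat_lit 418) (nat_lit 403) (nat_lit 199))))))))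
noncomputable def xc123 : XT := (XT.nd (nat_lit 53196) (nat_lit 0) (nat_lit 152) (XT.nd (nat_lit 52182) (nat_lit 0) (nat_lit 1976) (XT.nd (nat_lit 468) (nat_lit 760) (nat_lit 0) (XT.nd (nat_lit 234) (nat_lit 684) (nat_lit 0) (XT.nd (nat_lit 78) (nat_lit 532) (nat_lit 0) (XT.lf (nat_lit 0) (nat_lit 575295732203) (nat_lit 380) (nat_lit 45747703207) (nat_lit 76) (nat_lit 406013179113) (nat_lit 81) (nat_lit 5) (nat_lit 86) (nat_lit 5) (nat_lit 82) (nat_lit 5) (nat_lit 419) (nat_lit 403) (nat_lit 198)) (XT.nd (nat_lit 78) (nat_lit 304) (nat_lit 0) (XT.lf (nat_lit 0) (nat_lit 896498810069) (nat_lit 304) (nat_lit 168343696084) (nat_lit 76) (nat_lit 11535435437) (nat_lit 78) (nat_lit 5) (nat_lit 82) (nat_lit 5) (nat_lit 79) (nat_lit 5) (nat_lit 420) (nat_lit 403) (nat_lit 197)) (XT.lf (nat_lit 0) (nat_lit 134688385992) (nat_lit 304) (nat_lit 304505694404) (nat_lit 76) (nat_lit 689133292242) (nat_lit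 74) (nat_lit 5) (nat_lit 78) (nat_lit 5) (nat_lit 75) (nat_lit 5) (nat_lit 421) (nat_lit 403) (nat_lit 196)))) (XT.nd (nat_lit 78) (nat_lit 456) (nat_lit 0) (XT.lf (nat_lit 0) (nat_lit 486680066559) (nat_lit 304) (nat_lit 449923492172) (nat_lit 76) (nat_lit 246753715024) (nat_lit 71) (nat_lit 5) (nat_lit 75) (nat_lit 5) (nat_lit 72) (nat_lit 5) (nat_lit 422) (nat_lit 403) (nat_lit 195)) (XT.nd (nat_lit 78) (nat_lit 228) (nat_lit 0) (XT.lf (nat_lit 0) (nat_lit 635608723453) (nat_lit 228) (nat_lit 253942841724) (nat_lit 304) (nat_lit 352101977610) (nat_lit 68) (nat_lit 5) (nat_lit 71) (nat_lit 5) (nat_lit 72) (nat_lit 5) (nat_lit 423) (nat_lit 403) (nat_lit 194)) (XT.lf (nat_lit 0) (nat_lit 43560141937) (nat_lit 228) (nat_lit 775039502621) (nat_lit 76) (nat_lit 484790112658) (nat_lit 65) (nat_lit 5) (nat_lit 68) (nat_lit 5) (nat_lit 66) (nat_lit 5) (nat_lit 424) (nat_lit 403) (nat_lit 193)))))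 (XT.nd (nat_lit 312) (nat_lit 152) (nat_lit 0) (XT.nd (nat_lit 78) (nat_lit 380) (nat_lit 0) (XT.lf (nat_lit 0) (nat_lit 408276881446) (nat_lit 228) (nat_lit 71813579094) (nat_lit 304) (nat_lit 888608241703) (nat_lit 62) (nat_lit 5) (nat_lit 65) (nat_lit 5) (nat_lit 66) (nat_lit 5) (nat_lit 425) (nat_lit 403) (nat_lit 192)) (XT.nd (nat_lit 156) (nat_lit 228) (nat_lit 0) (XT.lf (nat_lit 0) (nat_lit 272403980724) (nat_lit 152) (nat_lit 708585179138) (nat_lit 228) (nat_lit 456770905252) (nat_lit 60) (nat_lit 5) (nat_lit 62) (nat_lit 5) (nat_lit 63) (nat_lit 5) (nat_lit 426) (nat_lit 403) (nat_lit 191)) (XT.lf (nat_lit 0) (nat_lit 574775721864) (nat_lit 228) (nat_lit 44171218548) (nat_lit 76) (nat_lit 969657045474) (nat_lit 57) (nat_lit 5) (nat_lit 60) (nat_lit 5) (nat_lit 58) (nat_lit 5) (nat_lit 428) (nat_lit 403) (nat_lit 189)))) (XT.nd (nat_lit 51246) (nat_lit 0) (nat_lit 4864) (XT.nd (nat_lit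 51168) (nat_lit 0) (nat_lit 4788) (XT.lf (nat_lit 0) (nat_lit 1188703461472) (nat_lit 228) (nat_lit 226202865086) (nat_lit 76) (nat_lit 255903017748) (nat_lit 55) (nat_lit 5) (nat_lit 58) (nat_lit 5) (nat_lit 56) (nat_lit 5) (nat_lit 429) (nat_lit 403) (nat_lit 188)) (XT.lf (nat_lit 0) (nat_lit 78514124479) (nat_lit 836) (nat_lit 100802547032) (nat_lit 836) (nat_lit 100802547032) (nat_lit 118) (nat_lit 3) (nat_lit 129) (nat_lit 3) (nat_lit 129) (nat_lit 5) (nat_lit 404) (nat_lit 404) (nat_lit 212))) (XT.nd (nat_lit 78) (nat_lit 0) (nat_lit 0) (XT.lf (nat_lit 0) (nat_lit 168246215353) (nat_lit 760) (nat_lit 341990187540) (nat_lit 836) (nat_lit 72164729682) (nat_lit 119) (nat_lit 5) (nat_lit 129) (nat_lit 5) (nat_lit 130) (nat_lit 5) (nat_lit 405) (nat_lit 404) (nat_lit 211)) (XT.lf (nat_lit 76) (nat_lit 116448545173) (nat_lit 0) (nat_lit 75347744965) (nat_lit 836) (nat_lit 413968820026) (nat_lit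 120) (nat_lit 5) (nat_lit 119) (nat_lit 5) (nat_lit 130) (nat_lit 5) (nat_lit 406) (nat_lit 404) (nat_lit 210)))))) (XT.nd (nat_lit 468) (nat_lit 2052) (nat_lit 0) (XT.nd (nat_lit 234) (nat_lit 912) (nat_lit 0) (XT.nd (nat_lit 78) (nat_lit 0) (nat_lit 76) (XT.lf (nat_lit 0) (nat_lit 229441877131) (nat_lit 760) (nat_lit 13179915354) (nat_lit 836) (nat_lit 387765838181) (nat_lit 120) (nat_lit 5) (nat_lit 130) (nat_lit 5) (nat_lit 131) (nat_lit 5) (nat_lit 407) (nat_lit 404) (nat_lit 209)) (XT.nd (nat_lit 78) (nat_lit 0) (nat_lit 76) (XT.lf (nat_lit 0) (nat_lit 283128734319) (nat_lit 760) (nat_lit 143909574911) (nat_lit 836) (nat_lit 229290162432) (nat_lit 121) (nat_lit 5) (nat_lit 131) (nat_lit 5) (nat_lit 132) (nat_lit 5) (nat_lit 408) (nat_lit 404) (nat_lit 208)) (XT.lf (nat_lit 0) (nat_lit 352591618799) (nat_lit 760) (nat_lit 279571318972) (nat_lit 836) (nat_lit 51607588243) (nat_lit 122)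 (nat_lit 5) (nat_lit 132) (nat_lit 5) (nat_lit 133) (nat_lit 5) (nat_lit 409) (nat_lit 404) (nat_lit 207)))) (XT.nd (nat_lit 78) (nat_lit 1064) (nat_lit 0) (XT.lf (nat_lit 76) (nat_lit 290054857903) (nat_lit 0) (nat_lit 151833774588) (nat_lit 836) (nat_lit 270805457313) (nat_lit 123) (nat_lit 5) (nat_lit 122) (nat_lit 5) (nat_lit 133) (nat_lit 5) (nat_lit 410) (nat_lit 404) (nat_lit 206)) (XT.nd (nat_lit 78) (nat_lit 380) (nat_lit 0) (XT.lf (nat_lit 0) (nat_lit 171218003170) (nat_lit 760) (nat_lit 380463038229) (nat_lit 836) (nat_lit 191582915606) (nat_lit 113) (nat_lit 5) (nat_lit 123) (nat_lit 5) (nat_lit 124) (nat_lit 5) (nat_lit 411) (nat_lit 404) (nat_lit 205)) (XT.lf (nat_lit 0) (nat_lit 48537198585) (nat_lit 380) (nat_lit 634620621761) (nat_lit 456) (nat_lit 92476544380) (nat_lit 108) (nat_lit 5) (nat_lit 113) (nat_lit 5) (nat_lit 114) (nat_lit 5) (nat_lit 412) (nat_lit 404) (nat_lit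 204))))) (XT.nd (nat_lit 234) (nat_lit 1216) (nat_lit 0) (XT.nd (nat_lit 78) (nat_lit 760) (nat_lit 0) (XT.lf (nat_lit 0) (nat_lit 30635687298) (nat_lit 456) (nat_lit 77707565352) (nat_lit 76) (nat_lit 701412622181) (nat_lit 107) (nat_lit 5) (nat_lit 113) (nat_lit 5) (nat_lit 108) (nat_lit 5) (nat_lit 413) (nat_lit 404) (nat_lit 203)) (XT.nd (nat_lit 78) (nat_lit 380) (nat_lit 0) (XT.lf (nat_lit 0) (nat_lit 177806216623) (nat_lit 456) (nat_lit 210757536764) (nat_lit 76) (nat_lit 457095089581) (nat_lit 102) (nat_lit 5) (nat_lit 108) (nat_lit 5) (nat_lit 103) (nat_lit 5) (nat_lit 414) (nat_lit 404) (nat_lit 202)) (XT.lf (nat_lit 0) (nat_lit 351323183947) (nat_lit 456) (nat_lit 348511782320) (nat_lit 76) (nat_lit 183870442516) (nat_lit 97) (nat_lit 5) (nat_lit 103) (nat_lit 5) (nat_lit 98) (nat_lit 5) (nat_lit 415) (nat_lit 404) (nat_lit 201)))) (XT.nd (nat_lit 156) (nat_lit 608) (nat_lit 0)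 (XT.nd (nat_lit 78) (nat_lit 304) (nat_lit 0) (XT.lf (nat_lit 0) (nat_lit 430914692960) (nat_lit 304) (nat_lit 124817924763) (nat_lit 380) (nat_lit 368212526694) (nat_lit 93) (nat_lit 5) (nat_lit 97) (nat_lit 5) (nat_lit 98) (nat_lit 5) (nat_lit 416) (nat_lit 404) (nat_lit 200)) (XT.lf (nat_lit 0) (nat_lit 320449786840) (nat_lit 304) (nat_lit 474965575627) (nat_lit 380) (nat_lit 171042668629) (nat_lit 89) (nat_lit 5) (nat_lit 93) (nat_lit 5) (nat_lit 94) (nat_lit 5) (nat_lit 417) (nat_lit 404) (nat_lit 199))) (XT.nd (nat_lit 78) (nat_lit 304) (nat_lit 0) (XT.lf (nat_lit 0) (nat_lit 57048974349) (nat_lit 304) (nat_lit 805592308152) (nat_lit 76) (nat_lit 148873492643) (nat_lit 85) (nat_lit 5) (nat_lit 89) (nat_lit 5) (nat_lit 86) (nat_lit 5) (nat_lit 418) (nat_lit 404) (nat_lit 198)) (XT.lf (nat_lit 0) (nat_lit 80977383402) (nat_lit 304) (nat_lit 237208757043) (nat_lit 380) (nat_lit 740810184688)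 (nat_lit 81) (nat_lit 5) (nat_lit 85) (nat_lit 5) (nat_lit 86) (nat_lit 5) (nat_lit 419) (nat_lit 404) (nat_lit 197))))))) (XT.nd (nat_lit 52338) (nat_lit 0) (nat_lit 1292) (XT.nd (nat_lit 468) (nat_lit 608) (nat_lit 0) (XT.nd (nat_lit 234) (nat_lit 684) (nat_lit 0) (XT.nd (nat_lit 78) (nat_lit 532) (nat_lit 0) (XT.lf (nat_lit 0) (nat_lit 621319653527) (nat_lit 380) (nat_lit 49407169312) (nat_lit 76) (nat_lit 438494307603) (nat_lit 81) (nat_lit 5) (nat_lit 86) (nat_lit 5) (nat_lit 82) (nat_lit 5) (nat_lit 420) (nat_lit 404) (nat_lit 196)) (XT.nd (nat_lit 78) (nat_lit 304) (nat_lit 0) (XT.lf (nat_lit 0) (nat_lit 968218964738) (nat_lit 304) (nat_lit 181810845662) (nat_lit 76) (nat_lit 12458353926) (nat_lit 78) (nat_lit 5) (nat_lit 82) (nat_lit 5) (nat_lit 79) (nat_lit 5) (nat_lit 421) (nat_lit 404) (nat_lit 195)) (XT.lf (nat_lit 0) (nat_lit 145463697360) (nat_lit 304) (nat_lit 328865810853)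 (nat_lit 76) (nat_lit 744264042127) (nat_lit 74) (nat_lit 5) (nat_lit 78) (nat_lit 5) (nat_lit 75) (nat_lit 5) (nat_lit 422) (nat_lit 404) (nat_lit 194)))) (XT.nd (nat_lit 78) (nat_lit 456) (nat_lit 0) (XT.lf (nat_lit 0) (nat_lit 525614701132) (nat_lit 304) (nat_lit 485917037221) (nat_lit 76) (nat_lit 266494105762) (nat_lit 71) (nat_lit 5) (nat_lit 75) (nat_lit 5) (nat_lit 72) (nat_lit 5) (nat_lit 423) (nat_lit 404) (nat_lit 193)) (XT.nd (nat_lit 78) (nat_lit 228) (nat_lit 0) (XT.lf (nat_lit 0) (nat_lit 686457741125) (nat_lit 228) (nat_lit 274258166525) (nat_lit 304) (nat_lit 380269907623) (nat_lit 68) (nat_lit 5) (nat_lit 71) (nat_lit 5) (nat_lit 72) (nat_lit 5) (nat_lit 424) (nat_lit 404) (nat_lit 192)) (XT.lf (nat_lit 0) (nat_lit 47045164324) (nat_lit 228) (nat_lit 837042340960) (nat_lit 76) (nat_lit 523573421893) (nat_lit 65) (nat_lit 5) (nat_lit 68) (nat_lit 5) (nat_lit 66) (nat_lit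 5) (nat_lit 425) (nat_lit 404) (nat_lit 191))))) (XT.nd (nat_lit 51558) (nat_lit 0) (nat_lit 4712) (XT.nd (nat_lit 156) (nat_lit 380) (nat_lit 0) (XT.lf (nat_lit 0) (nat_lit 440939339845) (nat_lit 228) (nat_lit 77558557746) (nat_lit 304) (nat_lit 959696690761) (nat_lit 62) (nat_lit 5) (nat_lit 65) (nat_lit 5) (nat_lit 66) (nat_lit 5) (nat_lit 426) (nat_lit 404) (nat_lit 190)) (XT.nd (nat_lit 51324) (nat_lit 0) (nat_lit 4636) (XT.lf (nat_lit 0) (nat_lit 33579704278) (nat_lit 228) (nat_lit 1494441028534) (nat_lit 76) (nat_lit 104128730264) (nat_lit 57) (nat_lit 5) (nat_lit 60) (nat_lit 5) (nat_lit 58) (nat_lit 5) (nat_lit 428) (nat_lit 404) (nat_lit 188)) (XT.lf (nat_lit 0) (nat_lit 84795566232) (nat_lit 836) (nat_lit 108866587017) (nat_lit 836) (nat_lit 108866587017) (nat_lit 118) (nat_lit 3) (nat_lit 129) (nat_lit 3) (nat_lit 129) (nat_lit 5) (nat_lit 405) (nat_lit 405) (nat_lit 210)))) (XT.nd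 (nat_lit 156) (nat_lit 0) (nat_lit 76) (XT.nd (nat_lit 78) (nat_lit 0) (nat_lit 0) (XT.lf (nat_lit 0) (nat_lit 181706490672) (nat_lit 760) (nat_lit 369349055593) (nat_lit 836) (nat_lit 77937647695) (nat_lit 119) (nat_lit 5) (nat_lit 129) (nat_lit 5) (nat_lit 130) (nat_lit 5) (nat_lit 406) (nat_lit 405) (nat_lit 209)) (XT.lf (nat_lit 76) (nat_lit 125764760659) (nat_lit 0) (nat_lit 81375773142) (nat_lit 836) (nat_lit 447085757862) (nat_lit 120) (nat_lit 5) (nat_lit 119) (nat_lit 5) (nat_lit 130) (nat_lit 5) (nat_lit 407) (nat_lit 405) (nat_lit 208))) (XT.nd (nat_lit 78) (nat_lit 0) (nat_lit 76) (XT.lf (nat_lit 0) (nat_lit 247797724704) (nat_lit 760) (nat_lit 14233972986) (nat_lit 836) (nat_lit 418786918289) (nat_lit 120) (nat_lit 5) (nat_lit 130) (nat_lit 5) (nat_lit 131) (nat_lit 5) (nat_lit 408) (nat_lit 405) (nat_lit 207)) (XT.lf (nat_lit 0) (nat_lit 305779496377) (nat_lit 760) (nat_lit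 155421994106) (nat_lit 836) (nat_lit 247633235495) (nat_lit 121) (nat_lit 5) (nat_lit 131) (nat_lit 5) (nat_lit 132) (nat_lit 5) (nat_lit 409) (nat_lit 405) (nat_lit 206)))))) (XT.nd (nat_lit 546) (nat_lit 1748) (nat_lit 0) (XT.nd (nat_lit 234) (nat_lit 1216) (nat_lit 0) (XT.nd (nat_lit 78) (nat_lit 684) (nat_lit 0) (XT.lf (nat_lit 0) (nat_lit 380799380875) (nat_lit 760) (nat_lit 301936669224) (nat_lit 836) (nat_lit 55736096135) (nat_lit 122) (nat_lit 5) (nat_lit 132) (nat_lit 5) (nat_lit 133) (nat_lit 5) (nat_lit 410) (nat_lit 405) (nat_lit 205)) (XT.nd (nat_lit 78) (nat_lit 684) (nat_lit 0) (XT.lf (nat_lit 76) (nat_lit 313259586362) (nat_lit 0) (nat_lit 163980542565) (nat_lit 836) (nat_lit 292469467555) (nat_lit 123) (nat_lit 5) (nat_lit 122) (nat_lit 5) (nat_lit 133) (nat_lit 5) (nat_lit 411) (nat_lit 405) (nat_lit 204)) (XT.lf (nat_lit 0) (nat_lit 184915789083) (nat_lit 760) (nat_lit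 410900115844) (nat_lit 836) (nat_lit 206909149428) (nat_lit 113) (nat_lit 5) (nat_lit 123) (nat_lit 5) (nat_lit 124) (nat_lit 5) (nat_lit 412) (nat_lit 405) (nat_lit 203)))) (XT.nd (nat_lit 156) (nat_lit 760) (nat_lit 0) (XT.nd (nat_lit 78) (nat_lit 76) (nat_lit 0) (XT.lf (nat_lit 0) (nat_lit 52420524001) (nat_lit 380) (nat_lit 685390278983) (nat_lit 456) (nat_lit 99874292886) (nat_lit 108) (nat_lit 5) (nat_lit 113) (nat_lit 5) (nat_lit 114) (nat_lit 5) (nat_lit 413) (nat_lit 405) (nat_lit 202)) (XT.lf (nat_lit 0) (nat_lit 33086878430) (nat_lit 456) (nat_lit 83923835665) (nat_lit 76) (nat_lit 757525613751) (nat_lit 107) (nat_lit 5) (nat_lit 113) (nat_lit 5) (nat_lit 108) (nat_lit 5) (nat_lit 414) (nat_lit 405) (nat_lit 201))) (XT.nd (nat_lit 78) (nat_lit 380) (nat_lit 0) (XT.lf (nat_lit 0) (nat_lit 192031030268) (nat_lit 456) (nat_lit 227617803447) (nat_lit 76) (nat_lit 493662700725) (nat_lit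 102) (nat_lit 5) (nat_lit 108) (nat_lit 5) (nat_lit 103) (nat_lit 5) (nat_lit 415) (nat_lit 405) (nat_lit 200)) (XT.lf (nat_lit 0) (nat_lit 379429336939) (nat_lit 456) (nat_lit 376392388596) (nat_lit 76) (nat_lit 198580100897) (nat_lit 97) (nat_lit 5) (nat_lit 103) (nat_lit 5) (nat_lit 98) (nat_lit 5) (nat_lit 416) (nat_lit 405) (nat_lit 199))))) (XT.nd (nat_lit 234) (nat_lit 836) (nat_lit 0) (XT.nd (nat_lit 78) (nat_lit 608) (nat_lit 0) (XT.lf (nat_lit 0) (nat_lit 465388190091) (nat_lit 304) (nat_lit 134803318255) (nat_lit 380) (nat_lit 397669233435) (nat_lit 93) (nat_lit 5) (nat_lit 97) (nat_lit 5) (nat_lit 98) (nat_lit 5) (nat_lit 417) (nat_lit 405) (nat_lit 198)) (XT.nd (nat_lit 78) (nat_lit 304) (nat_lit 0) (XT.lf (nat_lit 0) (nat_lit 346086090468) (nat_lit 304) (nat_lit 512962766962) (nat_lit 380) (nat_lit 184725802735) (nat_lit 89) (nat_lit 5) (nat_lit 93) (nat_lit 5) (nat_lit 94)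 (nat_lit 5) (nat_lit 418) (nat_lit 405) (nat_lit 197)) (XT.lf (nat_lit 0) (nat_lit 61613148569) (nat_lit 304) (nat_lit 870039365463) (nat_lit 76) (nat_lit 160783430204) (nat_lit 85) (nat_lit 5) (nat_lit 89) (nat_lit 5) (nat_lit 86) (nat_lit 5) (nat_lit 419) (nat_lit 405) (nat_lit 196)))) (XT.nd (nat_lit 156) (nat_lit 532) (nat_lit 0) (XT.nd (nat_lit 78) (nat_lit 0) (nat_lit 0) (XT.lf (nat_lit 0) (nat_lit 87455887189) (nat_lit 304) (nat_lit 256185386669) (nat_lit 380) (nat_lit 800074745079) (nat_lit 81) (nat_lit 5) (nat_lit 85) (nat_lit 5) (nat_lit 86) (nat_lit 5) (nat_lit 420) (nat_lit 405) (nat_lit 195)) (XT.lf (nat_lit 0) (nat_lit 671025451073) (nat_lit 380) (nat_lit 53359442659) (nat_lit 76) (nat_lit 473573915792) (nat_lit 81) (nat_lit 5) (nat_lit 86) (nat_lit 5) (nat_lit 82) (nat_lit 5) (nat_lit 421) (nat_lit 405) (nat_lit 194))) (XT.nd (nat_lit 78) (nat_lit 304) (nat_lit 0) (XT.lf (nat_lit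 0) (nat_lit 1045676696135) (nat_lit 304) (nat_lit 196355416583) (nat_lit 76) (nat_lit 13455093960) (nat_lit 78) (nat_lit 5) (nat_lit 82) (nat_lit 5) (nat_lit 79) (nat_lit 5) (nat_lit 422) (nat_lit 405) (nat_lit 193)) (XT.lf (nat_lit 0) (nat_lit 157100999329) (nat_lit 304) (nat_lit 355174784994) (nat_lit 76) (nat_lit 803805239661) (nat_lit 74) (nat_lit 5) (nat_lit 78) (nat_lit 5) (nat_lit 75) (nat_lit 5) (nat_lit 423) (nat_lit 405) (nat_lit 192))))))))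
noncomputable def xc124 : XT := (XT.nd (nat_lit 53430) (nat_lit 0) (nat_lit 152) (XT.nd (nat_lit 52416) (nat_lit 0) (nat_lit 380) (XT.nd (nat_lit 51870) (nat_lit 0) (nat_lit 3648) (XT.nd (nat_lit 312) (nat_lit 380) (nat_lit 0) (XT.nd (nat_lit 78) (nat_lit 456) (nat_lit 0) (XT.lf (nat_lit 0) (nat_lit 567664073765) (nat_lit 304) (nat_lit 524790113569) (nat_lit 76) (nat_lit 287813714414) (nat_lit 71) (nat_lit 5) (nat_lit 75) (nat_lit 5) (nat_lit 72) (nat_lit 5) (nat_lit 424) (nat_lit 405) (nat_lit 191)) (XT.nd (nat_lit 78) (nat_lit 228) (nat_lit 0) (XT.lf (nat_lit 0) (nat_lit 741374634588) (nat_lit 228) (nat_lit 296198731939) (nat_lit 304) (nat_lit 410691304592) (nat_lit 68) (nat_lit 5) (nat_lit 71) (nat_lit 5) (nat_lit 72) (nat_lit 5) (nat_lit 425) (nat_lit 405) (nat_lit 190)) (XT.lf (nat_lit 0) (nat_lit 50808958396) (nat_lit 228) (nat_lit 904005452284) (nat_lit 76) (nat_lit 565459381568) (nat_lit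 65) (nat_lit 5) (nat_lit 68) (nat_lit 5) (nat_lit 66) (nat_lit 5) (nat_lit 426) (nat_lit 405) (nat_lit 189)))) (XT.nd (nat_lit 51402) (nat_lit 0) (nat_lit 4408) (XT.lf (nat_lit 0) (nat_lit 317732589214) (nat_lit 152) (nat_lit 826493538154) (nat_lit 228) (nat_lit 532777193908) (nat_lit 60) (nat_lit 5) (nat_lit 62) (nat_lit 5) (nat_lit 63) (nat_lit 5) (nat_lit 428) (nat_lit 405) (nat_lit 187)) (XT.nd (nat_lit 78) (nat_lit 0) (nat_lit 76) (XT.lf (nat_lit 0) (nat_lit 91579478845) (nat_lit 836) (nat_lit 117575773566) (nat_lit 836) (nat_lit 117575773566) (nat_lit 118) (nat_lit 3) (nat_lit 129) (nat_lit 3) (nat_lit 129) (nat_lit 5) (nat_lit 406) (nat_lit 406) (nat_lit 208)) (XT.lf (nat_lit 0) (nat_lit 196243505546) (nat_lit 760) (nat_lit 398896682587) (nat_lit 836) (nat_lit 84172436293) (nat_lit 119) (nat_lit 5) (nat_lit 129) (nat_lit 5) (nat_lit 130) (nat_lit 5) (nat_lit 407) (nat_lit 406) (nat_lit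 207))))) (XT.nd (nat_lit 234) (nat_lit 836) (nat_lit 0) (XT.nd (nat_lit 78) (nat_lit 0) (nat_lit 76) (XT.lf (nat_lit 76) (nat_lit 135826226039) (nat_lit 0) (nat_lit 87886013816) (nat_lit 836) (nat_lit 482852131723) (nat_lit 120) (nat_lit 5) (nat_lit 119) (nat_lit 5) (nat_lit 130) (nat_lit 5) (nat_lit 408) (nat_lit 406) (nat_lit 206)) (XT.nd (nat_lit 78) (nat_lit 0) (nat_lit 76) (XT.lf (nat_lit 0) (nat_lit 267621969123) (nat_lit 760) (nat_lit 15372403106) (nat_lit 836) (nat_lit 452289711475) (nat_lit 120) (nat_lit 5) (nat_lit 130) (nat_lit 5) (nat_lit 131) (nat_lit 5) (nat_lit 409) (nat_lit 406) (nat_lit 205)) (XT.lf (nat_lit 0) (nat_lit 330242253303) (nat_lit 760) (nat_lit 167855456312) (nat_lit 836) (nat_lit 267443774366) (nat_lit 121) (nat_lit 5) (nat_lit 131) (nat_lit 5) (nat_lit 132) (nat_lit 5) (nat_lit 410) (nat_lit 406) (nat_lit 204)))) (XT.nd (nat_lit 156) (nat_lit 1064) (nat_lit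 0) (XT.nd (nat_lit 78) (nat_lit 0) (nat_lit 0) (XT.lf (nat_lit 0) (nat_lit 411263702207) (nat_lit 760) (nat_lit 326091298179) (nat_lit 836) (nat_lit 60194898806) (nat_lit 122) (nat_lit 5) (nat_lit 132) (nat_lit 5) (nat_lit 133) (nat_lit 5) (nat_lit 411) (nat_lit 406) (nat_lit 203)) (XT.lf (nat_lit 76) (nat_lit 338320644618) (nat_lit 0) (nat_lit 177099042562) (nat_lit 836) (nat_lit 315866659440) (nat_lit 123) (nat_lit 5) (nat_lit 122) (nat_lit 5) (nat_lit 133) (nat_lit 5) (nat_lit 412) (nat_lit 406) (nat_lit 202))) (XT.nd (nat_lit 78) (nat_lit 380) (nat_lit 0) (XT.lf (nat_lit 0) (nat_lit 199709348557) (nat_lit 760) (nat_lit 443772154739) (nat_lit 836) (nat_lit 223461538939) (nat_lit 113) (nat_lit 5) (nat_lit 123) (nat_lit 5) (nat_lit 124) (nat_lit 5) (nat_lit 413) (nat_lit 406) (nat_lit 201)) (XT.lf (nat_lit 0) (nat_lit 56614465586) (nat_lit 380) (nat_lit 740221507715) (nat_lit 456) (nat_lit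 107863914776) (nat_lit 108) (nat_lit 5) (nat_lit 113) (nat_lit 5) (nat_lit 114) (nat_lit 5) (nat_lit 414) (nat_lit 406) (nat_lit 200)))))) (XT.nd (nat_lit 468) (nat_lit 1520) (nat_lit 0) (XT.nd (nat_lit 234) (nat_lit 912) (nat_lit 0) (XT.nd (nat_lit 78) (nat_lit 760) (nat_lit 0) (XT.lf (nat_lit 0) (nat_lit 35734116898) (nat_lit 456) (nat_lit 90637455383) (nat_lit 76) (nat_lit 818127647244) (nat_lit 107) (nat_lit 5) (nat_lit 113) (nat_lit 5) (nat_lit 108) (nat_lit 5) (nat_lit 415) (nat_lit 406) (nat_lit 199)) (XT.nd (nat_lit 78) (nat_lit 380) (nat_lit 0) (XT.lf (nat_lit 0) (nat_lit 207393783878) (nat_lit 456) (nat_lit 245826939435) (nat_lit 76) (nat_lit 533155720193) (nat_lit 102) (nat_lit 5) (nat_lit 108) (nat_lit 5) (nat_lit 103) (nat_lit 5) (nat_lit 416) (nat_lit 406) (nat_lit 198)) (XT.lf (nat_lit 0) (nat_lit 409783939618) (nat_lit 456) (nat_lit 406503491353) (nat_lit 76) (nat_lit 214466528670)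 (nat_lit 97) (nat_lit 5) (nat_lit 103) (nat_lit 5) (nat_lit 98) (nat_lit 5) (nat_lit 417) (nat_lit 406) (nat_lit 197)))) (XT.nd (nat_lit 78) (nat_lit 608) (nat_lit 0) (XT.lf (nat_lit 0) (nat_lit 502619521098) (nat_lit 304) (nat_lit 145587549002) (nat_lit 380) (nat_lit 429482518858) (nat_lit 93) (nat_lit 5) (nat_lit 97) (nat_lit 5) (nat_lit 98) (nat_lit 5) (nat_lit 418) (nat_lit 406) (nat_lit 196)) (XT.nd (nat_lit 78) (nat_lit 304) (nat_lit 0) (XT.lf (nat_lit 0) (nat_lit 373773252638) (nat_lit 304) (nat_lit 553999741411) (nat_lit 380) (nat_lit 199503627427) (nat_lit 89) (nat_lit 5) (nat_lit 93) (nat_lit 5) (nat_lit 94) (nat_lit 5) (nat_lit 419) (nat_lit 406) (nat_lit 195)) (XT.lf (nat_lit 0) (nat_lit 66542420166) (nat_lit 304) (nat_lit 939642234058) (nat_lit 76) (nat_lit 173646154475) (nat_lit 85) (nat_lit 5) (nat_lit 89) (nat_lit 5) (nat_lit 86) (nat_lit 5) (nat_lit 420) (nat_lit 406) (nat_lit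 194))))) (XT.nd (nat_lit 234) (nat_lit 988) (nat_lit 0) (XT.nd (nat_lit 78) (nat_lit 228) (nat_lit 0) (XT.lf (nat_lit 0) (nat_lit 94452626610) (nat_lit 304) (nat_lit 276680156785) (nat_lit 380) (nat_lit 864080506592) (nat_lit 81) (nat_lit 5) (nat_lit 85) (nat_lit 5) (nat_lit 86) (nat_lit 5) (nat_lit 421) (nat_lit 406) (nat_lit 193)) (XT.nd (nat_lit 78) (nat_lit 228) (nat_lit 0) (XT.lf (nat_lit 0) (nat_lit 724707680286) (nat_lit 380) (nat_lit 57627940700) (nat_lit 76) (nat_lit 511459883565) (nat_lit 81) (nat_lit 5) (nat_lit 86) (nat_lit 5) (nat_lit 82) (nat_lit 5) (nat_lit 422) (nat_lit 406) (nat_lit 192)) (XT.lf (nat_lit 0) (nat_lit 1129331015483) (nat_lit 304) (nat_lit 212063595510) (nat_lit 76) (nat_lit 14531562965) (nat_lit 78) (nat_lit 5) (nat_lit 82) (nat_lit 5) (nat_lit 79) (nat_lit 5) (nat_lit 423) (nat_lit 406) (nat_lit 191)))) (XT.nd (nat_lit 156) (nat_lit 456) (nat_lit 0) (XT.nd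 (nat_lit 78) (nat_lit 228) (nat_lit 0) (XT.lf (nat_lit 0) (nat_lit 169669256042) (nat_lit 304) (nat_lit 383588518541) (nat_lit 76) (nat_lit 868109722418) (nat_lit 74) (nat_lit 5) (nat_lit 78) (nat_lit 5) (nat_lit 75) (nat_lit 5) (nat_lit 424) (nat_lit 406) (nat_lit 190)) (XT.lf (nat_lit 0) (nat_lit 613077368170) (nat_lit 304) (nat_lit 566773076916) (nat_lit 76) (nat_lit 310838880319) (nat_lit 71) (nat_lit 5) (nat_lit 75) (nat_lit 5) (nat_lit 72) (nat_lit 5) (nat_lit 425) (nat_lit 406) (nat_lit 189))) (XT.nd (nat_lit 78) (nat_lit 228) (nat_lit 0) (XT.lf (nat_lit 0) (nat_lit 800684840415) (nat_lit 228) (nat_lit 319894555127) (nat_lit 304) (nat_lit 443546441228) (nat_lit 68) (nat_lit 5) (nat_lit 71) (nat_lit 5) (nat_lit 72) (nat_lit 5) (nat_lit 426) (nat_lit 406) (nat_lit 188)) (XT.lf (nat_lit 0) (nat_lit 54873830183) (nat_lit 228) (nat_lit 976325651883) (nat_lit 76) (nat_lit 610696205759) (nat_lit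 65) (nat_lit 5) (nat_lit 68) (nat_lit 5) (nat_lit 66) (nat_lit 5) (nat_lit 427) (nat_lit 406) (nat_lit 187))))))) (XT.nd (nat_lit 52416) (nat_lit 0) (nat_lit 228) (XT.nd (nat_lit 51870) (nat_lit 0) (nat_lit 2660) (XT.nd (nat_lit 51636) (nat_lit 0) (nat_lit 4332) (XT.nd (nat_lit 51480) (nat_lit 0) (nat_lit 4256) (XT.lf (nat_lit 0) (nat_lit 514312157374) (nat_lit 228) (nat_lit 90464122911) (nat_lit 304) (nat_lit 1119389870842) (nat_lit 62) (nat_lit 5) (nat_lit 65) (nat_lit 5) (nat_lit 66) (nat_lit 5) (nat_lit 428) (nat_lit 406) (nat_lit 186)) (XT.nd (nat_lit 78) (nat_lit 0) (nat_lit 76) (XT.lf (nat_lit 0) (nat_lit 98906066331) (nat_lit 836) (nat_lit 126981715070) (nat_lit 836) (nat_lit 126981715070) (nat_lit 118) (nat_lit 3) (nat_lit 129) (nat_lit 3) (nat_lit 129) (nat_lit 5) (nat_lit 407) (nat_lit 407) (nat_lit 206)) (XT.lf (nat_lit 0) (nat_lit 211943410904) (nat_lit 760) (nat_lit 430808162176)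 (nat_lit 836) (nat_lit 90906039823) (nat_lit 119) (nat_lit 5) (nat_lit 129) (nat_lit 5) (nat_lit 130) (nat_lit 5) (nat_lit 408) (nat_lit 407) (nat_lit 205)))) (XT.nd (nat_lit 78) (nat_lit 0) (nat_lit 76) (XT.lf (nat_lit 76) (nat_lit 146692568058) (nat_lit 0) (nat_lit 94917048233) (nat_lit 836) (nat_lit 521479884937) (nat_lit 120) (nat_lit 5) (nat_lit 119) (nat_lit 5) (nat_lit 130) (nat_lit 5) (nat_lit 409) (nat_lit 407) (nat_lit 204)) (XT.nd (nat_lit 78) (nat_lit 0) (nat_lit 76) (XT.lf (nat_lit 0) (nat_lit 289032092258) (nat_lit 760) (nat_lit 16601948682) (nat_lit 836) (nat_lit 488472750981) (nat_lit 120) (nat_lit 5) (nat_lit 130) (nat_lit 5) (nat_lit 131) (nat_lit 5) (nat_lit 410) (nat_lit 407) (nat_lit 203)) (XT.lf (nat_lit 0) (nat_lit 356661974115) (nat_lit 760) (nat_lit 181283637911) (nat_lit 836) (nat_lit 288839173462) (nat_lit 121) (nat_lit 5) (nat_lit 131) (nat_lit 5) (nat_lit 132)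 (nat_lit 5) (nat_lit 411) (nat_lit 407) (nat_lit 202))))) (XT.nd (nat_lit 234) (nat_lit 1216) (nat_lit 0) (XT.nd (nat_lit 78) (nat_lit 684) (nat_lit 0) (XT.lf (nat_lit 0) (nat_lit 444165116337) (nat_lit 760) (nat_lit 352178340902) (nat_lit 836) (nat_lit 65010417819) (nat_lit 122) (nat_lit 5) (nat_lit 132) (nat_lit 5) (nat_lit 133) (nat_lit 5) (nat_lit 412) (nat_lit 407) (nat_lit 201)) (XT.nd (nat_lit 78) (nat_lit 684) (nat_lit 0) (XT.lf (nat_lit 76) (nat_lit 365386545970) (nat_lit 0) (nat_lit 191267014486) (nat_lit 836) (nat_lit 341135678821) (nat_lit 123) (nat_lit 5) (nat_lit 122) (nat_lit 5) (nat_lit 133) (nat_lit 5) (nat_lit 413) (nat_lit 407) (nat_lit 200)) (XT.lf (nat_lit 0) (nat_lit 215686350512) (nat_lit 760) (nat_lit 479273952518) (nat_lit 836) (nat_lit 241338168464) (nat_lit 113) (nat_lit 5) (nat_lit 123) (nat_lit 5) (nat_lit 124) (nat_lit 5) (nat_lit 414) (nat_lit 407) (nat_lit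 199)))) (XT.nd (nat_lit 156) (nat_lit 760) (nat_lit 0) (XT.nd (nat_lit 78) (nat_lit 76) (nat_lit 0) (XT.lf (nat_lit 0) (nat_lit 61143879747) (nat_lit 380) (nat_lit 799439233831) (nat_lit 456) (nat_lit 116492752290) (nat_lit 108) (nat_lit 5) (nat_lit 113) (nat_lit 5) (nat_lit 114) (nat_lit 5) (nat_lit 415) (nat_lit 407) (nat_lit 198)) (XT.lf (nat_lit 0) (nat_lit 38593093330) (nat_lit 456) (nat_lit 97888205641) (nat_lit 76) (nat_lit 883577845643) (nat_lit 107) (nat_lit 5) (nat_lit 113) (nat_lit 5) (nat_lit 108) (nat_lit 5) (nat_lit 416) (nat_lit 407) (nat_lit 197))) (XT.nd (nat_lit 78) (nat_lit 380) (nat_lit 0) (XT.lf (nat_lit 0) (nat_lit 223985519089) (nat_lit 456) (nat_lit 265492847430) (nat_lit 76) (nat_lit 575808180732) (nat_lit 102) (nat_lit 5) (nat_lit 108) (nat_lit 5) (nat_lit 103) (nat_lit 5) (nat_lit 417) (nat_lit 407) (nat_lit 196)) (XT.lf (nat_lit 0) (nat_lit 442566874030) (nat_lit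 456) (nat_lit 439023523464) (nat_lit 76) (nat_lit 231623867854) (nat_lit 97) (nat_lit 5) (nat_lit 103) (nat_lit 5) (nat_lit 98) (nat_lit 5) (nat_lit 418) (nat_lit 407) (nat_lit 195)))))) (XT.nd (nat_lit 468) (nat_lit 988) (nat_lit 0) (XT.nd (nat_lit 234) (nat_lit 532) (nat_lit 0) (XT.nd (nat_lit 78) (nat_lit 608) (nat_lit 0) (XT.lf (nat_lit 0) (nat_lit 542829319241) (nat_lit 304) (nat_lit 157234523162) (nat_lit 380) (nat_lit 463840903243) (nat_lit 93) (nat_lit 5) (nat_lit 97) (nat_lit 5) (nat_lit 98) (nat_lit 5) (nat_lit 419) (nat_lit 407) (nat_lit 194)) (XT.nd (nat_lit 78) (nat_lit 304) (nat_lit 0) (XT.lf (nat_lit 0) (nat_lit 403675348559) (nat_lit 304) (nat_lit 598319680507) (nat_lit 380) (nat_lit 215463712265) (nat_lit 89) (nat_lit 5) (nat_lit 93) (nat_lit 5) (nat_lit 94) (nat_lit 5) (nat_lit 420) (nat_lit 407) (nat_lit 193)) (XT.lf (nat_lit 0) (nat_lit 71866002147) (nat_lit 304) (nat_lit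 1014813372178) (nat_lit 76) (nat_lit 187537889575) (nat_lit 85) (nat_lit 5) (nat_lit 89) (nat_lit 5) (nat_lit 86) (nat_lit 5) (nat_lit 421) (nat_lit 407) (nat_lit 192)))) (XT.nd (nat_lit 78) (nat_lit 228) (nat_lit 0) (XT.lf (nat_lit 0) (nat_lit 102009066888) (nat_lit 304) (nat_lit 298814517186) (nat_lit 380) (nat_lit 933206760140) (nat_lit 81) (nat_lit 5) (nat_lit 85) (nat_lit 5) (nat_lit 86) (nat_lit 5) (nat_lit 422) (nat_lit 407) (nat_lit 191)) (XT.nd (nat_lit 78) (nat_lit 228) (nat_lit 0) (XT.lf (nat_lit 0) (nat_lit 782684460285) (nat_lit 380) (nat_lit 62237955302) (nat_lit 76) (nat_lit 552376720985) (nat_lit 81) (nat_lit 5) (nat_lit 86) (nat_lit 5) (nat_lit 82) (nat_lit 5) (nat_lit 423) (nat_lit 407) (nat_lit 190)) (XT.lf (nat_lit 0) (nat_lit 1219677654178) (nat_lit 304) (nat_lit 229028465044) (nat_lit 76) (nat_lit 15694140718) (nat_lit 78) (nat_lit 5) (nat_lit 82) (nat_lit 5) (nat_lit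 79) (nat_lit 5) (nat_lit 424) (nat_lit 407) (nat_lit 189))))) (XT.nd (nat_lit 51792) (nat_lit 0) (nat_lit 4028) (XT.nd (nat_lit 156) (nat_lit 684) (nat_lit 0) (XT.lf (nat_lit 0) (nat_lit 183242948074) (nat_lit 304) (nat_lit 414275386332) (nat_lit 76) (nat_lit 937558554724) (nat_lit 74) (nat_lit 5) (nat_lit 78) (nat_lit 5) (nat_lit 75) (nat_lit 5) (nat_lit 425) (nat_lit 407) (nat_lit 188)) (XT.nd (nat_lit 78) (nat_lit 228) (nat_lit 0) (XT.lf (nat_lit 0) (nat_lit 864739829173) (nat_lit 228) (nat_lit 345486054921) (nat_lit 304) (nat_lit 479030012725) (nat_lit 68) (nat_lit 5) (nat_lit 71) (nat_lit 5) (nat_lit 72) (nat_lit 5) (nat_lit 427) (nat_lit 407) (nat_lit 186)) (XT.lf (nat_lit 0) (nat_lit 59263869584) (nat_lit 228) (nat_lit 1054431501200) (nat_lit 76) (nat_lit 659551965377) (nat_lit 65) (nat_lit 5) (nat_lit 68) (nat_lit 5) (nat_lit 66) (nat_lit 5) (nat_lit 428) (nat_lit 407) (nat_lit 185))))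 (XT.nd (nat_lit 156) (nat_lit 0) (nat_lit 76) (XT.nd (nat_lit 78) (nat_lit 0) (nat_lit 76) (XT.lf (nat_lit 0) (nat_lit 106818748121) (nat_lit 836) (nat_lit 137140149067) (nat_lit 836) (nat_lit 137140149067) (nat_lit 118) (nat_lit 3) (nat_lit 129) (nat_lit 3) (nat_lit 129) (nat_lit 5) (nat_lit 408) (nat_lit 408) (nat_lit 204)) (XT.lf (nat_lit 0) (nat_lit 228899248071) (nat_lit 760) (nat_lit 465272596512) (nat_lit 836) (nat_lit 98178358937) (nat_lit 119) (nat_lit 5) (nat_lit 129) (nat_lit 5) (nat_lit 130) (nat_lit 5) (nat_lit 409) (nat_lit 408) (nat_lit 203))) (XT.nd (nat_lit 78) (nat_lit 0) (nat_lit 76) (XT.lf (nat_lit 76) (nat_lit 158428182638) (nat_lit 0) (nat_lit 102510543531) (nat_lit 836) (nat_lit 563197917943) (nat_lit 120) (nat_lit 5) (nat_lit 119) (nat_lit 5) (nat_lit 130) (nat_lit 5) (nat_lit 410) (nat_lit 408) (nat_lit 202)) (XT.lf (nat_lit 0) (nat_lit 312154973086) (nat_lit 760)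 (nat_lit 17929893094) (nat_lit 836) (nat_lit 527550453251) (nat_lit 120) (nat_lit 5) (nat_lit 130) (nat_lit 5) (nat_lit 131) (nat_lit 5) (nat_lit 411) (nat_lit 408) (nat_lit 201))))))))
noncomputable def xc125 : XT := (XT.nd (nat_lit 53742) (nat_lit 0) (nat_lit 228) (XT.nd (nat_lit 1014) (nat_lit 760) (nat_lit 0) (XT.nd (nat_lit 468) (nat_lit 1976) (nat_lit 0) (XT.nd (nat_lit 234) (nat_lit 1064) (nat_lit 0) (XT.nd (nat_lit 78) (nat_lit 0) (nat_lit 76) (XT.lf (nat_lit 0) (nat_lit 385195224010) (nat_lit 760) (nat_lit 195786110402) (nat_lit 836) (nat_lit 311946219158) (nat_lit 121) (nat_lit 5) (nat_lit 131) (nat_lit 5) (nat_lit 132) (nat_lit 5) (nat_lit 412) (nat_lit 408) (nat_lit 200)) (XT.nd (nat_lit 78) (nat_lit 0) (nat_lit 0) (XT.lf (nat_lit 0) (nat_lit 479698598238) (nat_lit 760) (nat_lit 380352384296) (nat_lit 836) (nat_lit 70211188753) (nat_lit 122) (nat_lit 5) (nat_lit 132) (nat_lit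 5) (nat_lit 133) (nat_lit 5) (nat_lit 413) (nat_lit 408) (nat_lit 199)) (XT.lf (nat_lit 76) (nat_lit 394617683796) (nat_lit 0) (nat_lit 206568417242) (nat_lit 836) (nat_lit 368426264458) (nat_lit 123) (nat_lit 5) (nat_lit 122) (nat_lit 5) (nat_lit 133) (nat_lit 5) (nat_lit 414) (nat_lit 408) (nat_lit 198)))) (XT.nd (nat_lit 78) (nat_lit 456) (nat_lit 0) (XT.lf (nat_lit 0) (nat_lit 232941476377) (nat_lit 760) (nat_lit 517615890497) (nat_lit 836) (nat_lit 260644970235) (nat_lit 113) (nat_lit 5) (nat_lit 123) (nat_lit 5) (nat_lit 124) (nat_lit 5) (nat_lit 415) (nat_lit 408) (nat_lit 197)) (XT.nd (nat_lit 78) (nat_lit 76) (nat_lit 0) (XT.lf (nat_lit 0) (nat_lit 66035610389) (nat_lit 380) (nat_lit 863394377252) (nat_lit 456) (nat_lit 125811936131) (nat_lit 108) (nat_lit 5) (nat_lit 113) (nat_lit 5) (nat_lit 114) (nat_lit 5) (nat_lit 416) (nat_lit 408) (nat_lit 196)) (XT.lf (nat_lit 0) (nat_lit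 41680752627) (nat_lit 456) (nat_lit 105719051040) (nat_lit 76) (nat_lit 954264061823) (nat_lit 107) (nat_lit 5) (nat_lit 113) (nat_lit 5) (nat_lit 108) (nat_lit 5) (nat_lit 417) (nat_lit 408) (nat_lit 195))))) (XT.nd (nat_lit 234) (nat_lit 912) (nat_lit 0) (XT.nd (nat_lit 78) (nat_lit 684) (nat_lit 0) (XT.lf (nat_lit 0) (nat_lit 241904559949) (nat_lit 456) (nat_lit 286732063324) (nat_lit 76) (nat_lit 621872837697) (nat_lit 102) (nat_lit 5) (nat_lit 108) (nat_lit 5) (nat_lit 103) (nat_lit 5) (nat_lit 418) (nat_lit 408) (nat_lit 194)) (XT.nd (nat_lit 78) (nat_lit 304) (nat_lit 0) (XT.lf (nat_lit 0) (nat_lit 477972411917) (nat_lit 456) (nat_lit 474145193409) (nat_lit 76) (nat_lit 250153791764) (nat_lit 97) (nat_lit 5) (nat_lit 103) (nat_lit 5) (nat_lit 98) (nat_lit 5) (nat_lit 419) (nat_lit 408) (nat_lit 193)) (XT.lf (nat_lit 0) (nat_lit 586255867501) (nat_lit 304) (nat_lit 169813259500) (nat_lit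 380) (nat_lit 500947989355) (nat_lit 93) (nat_lit 5) (nat_lit 97) (nat_lit 5) (nat_lit 98) (nat_lit 5) (nat_lit 420) (nat_lit 408) (nat_lit 192)))) (XT.nd (nat_lit 156) (nat_lit 304) (nat_lit 0) (XT.nd (nat_lit 78) (nat_lit 304) (nat_lit 0) (XT.lf (nat_lit 0) (nat_lit 435969578527) (nat_lit 304) (nat_lit 646185220468) (nat_lit 380) (nat_lit 232700633186) (nat_lit 89) (nat_lit 5) (nat_lit 93) (nat_lit 5) (nat_lit 94) (nat_lit 5) (nat_lit 421) (nat_lit 408) (nat_lit 191)) (XT.lf (nat_lit 0) (nat_lit 77615443813) (nat_lit 304) (nat_lit 1095998235671) (nat_lit 76) (nat_lit 202540957386) (nat_lit 85) (nat_lit 5) (nat_lit 89) (nat_lit 5) (nat_lit 86) (nat_lit 5) (nat_lit 422) (nat_lit 408) (nat_lit 190))) (XT.nd (nat_lit 78) (nat_lit 0) (nat_lit 0) (XT.lf (nat_lit 0) (nat_lit 110169989555) (nat_lit 304) (nat_lit 322719633858) (nat_lit 380) (nat_lit 1007863140647) (nat_lit 81) (nat_lit 5) (nat_lit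 85) (nat_lit 5) (nat_lit 86) (nat_lit 5) (nat_lit 423) (nat_lit 408) (nat_lit 189)) (XT.lf (nat_lit 0) (nat_lit 845299359062) (nat_lit 380) (nat_lit 67216802550) (nat_lit 76) (nat_lit 596566898730) (nat_lit 81) (nat_lit 5) (nat_lit 86) (nat_lit 5) (nat_lit 82) (nat_lit 5) (nat_lit 424) (nat_lit 408) (nat_lit 188)))))) (XT.nd (nat_lit 52182) (nat_lit 0) (nat_lit 2356) (XT.nd (nat_lit 51948) (nat_lit 0) (nat_lit 3648) (XT.nd (nat_lit 156) (nat_lit 532) (nat_lit 0) (XT.lf (nat_lit 0) (nat_lit 1317252001505) (nat_lit 304) (nat_lit 247350555257) (nat_lit 76) (nat_lit 16949717171) (nat_lit 78) (nat_lit 5) (nat_lit 82) (nat_lit 5) (nat_lit 79) (nat_lit 5) (nat_lit 425) (nat_lit 408) (nat_lit 187)) (XT.nd (nat_lit 51714) (nat_lit 0) (nat_lit 3572) (XT.lf (nat_lit 0) (nat_lit 715093722111) (nat_lit 304) (nat_lit 661083708753) (nat_lit 76) (nat_lit 362562584197) (nat_lit 71) (nat_lit 5) (nat_lit 75)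 (nat_lit 5) (nat_lit 72) (nat_lit 5) (nat_lit 427) (nat_lit 408) (nat_lit 185)) (XT.lf (nat_lit 0) (nat_lit 115364416424) (nat_lit 836) (nat_lit 148111272509) (nat_lit 836) (nat_lit 148111272509) (nat_lit 118) (nat_lit 3) (nat_lit 129) (nat_lit 3) (nat_lit 129) (nat_lit 5) (nat_lit 409) (nat_lit 409) (nat_lit 202)))) (XT.nd (nat_lit 78) (nat_lit 0) (nat_lit 0) (XT.lf (nat_lit 0) (nat_lit 247211500242) (nat_lit 760) (nat_lit 502494216787) (nat_lit 836) (nat_lit 106032486987) (nat_lit 119) (nat_lit 5) (nat_lit 129) (nat_lit 5) (nat_lit 130) (nat_lit 5) (nat_lit 410) (nat_lit 409) (nat_lit 201)) (XT.nd (nat_lit 78) (nat_lit 0) (nat_lit 76) (XT.lf (nat_lit 76) (nat_lit 171102616549) (nat_lit 0) (nat_lit 110711499702) (nat_lit 836) (nat_lit 608253444632) (nat_lit 120) (nat_lit 5) (nat_lit 119) (nat_lit 5) (nat_lit 130) (nat_lit 5) (nat_lit 411) (nat_lit 409) (nat_lit 200)) (XT.lf (nat_lit 0) (nat_lit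 337127639664) (nat_lit 760) (nat_lit 19364103229) (nat_lit 836) (nat_lit 569754388509) (nat_lit 120) (nat_lit 5) (nat_lit 130) (nat_lit 5) (nat_lit 131) (nat_lit 5) (nat_lit 412) (nat_lit 409) (nat_lit 199))))) (XT.nd (nat_lit 234) (nat_lit 1444) (nat_lit 0) (XT.nd (nat_lit 78) (nat_lit 0) (nat_lit 76) (XT.lf (nat_lit 0) (nat_lit 416011092244) (nat_lit 760) (nat_lit 211448811871) (nat_lit 836) (nat_lit 336901841090) (nat_lit 121) (nat_lit 5) (nat_lit 131) (nat_lit 5) (nat_lit 132) (nat_lit 5) (nat_lit 413) (nat_lit 409) (nat_lit 198)) (XT.nd (nat_lit 78) (nat_lit 0) (nat_lit 0) (XT.lf (nat_lit 0) (nat_lit 518074719803) (nat_lit 760) (nat_lit 410780383101) (nat_lit 836) (nat_lit 75828030276) (nat_lit 122) (nat_lit 5) (nat_lit 132) (nat_lit 5) (nat_lit 133) (nat_lit 5) (nat_lit 414) (nat_lit 409) (nat_lit 197)) (XT.lf (nat_lit 76) (nat_lit 426187282098) (nat_lit 0) (nat_lit 223093926284) (nat_lit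 836) (nat_lit 397900135275) (nat_lit 123) (nat_lit 5) (nat_lit 122) (nat_lit 5) (nat_lit 133) (nat_lit 5) (nat_lit 415) (nat_lit 409) (nat_lit 196)))) (XT.nd (nat_lit 156) (nat_lit 456) (nat_lit 0) (XT.nd (nat_lit 78) (nat_lit 380) (nat_lit 0) (XT.lf (nat_lit 0) (nat_lit 251576981236) (nat_lit 760) (nat_lit 559025180406) (nat_lit 836) (nat_lit 281496352056) (nat_lit 113) (nat_lit 5) (nat_lit 123) (nat_lit 5) (nat_lit 124) (nat_lit 5) (nat_lit 416) (nat_lit 409) (nat_lit 195)) (XT.lf (nat_lit 0) (nat_lit 71318648059) (nat_lit 380) (nat_lit 932465931474) (nat_lit 456) (nat_lit 135876688397) (nat_lit 108) (nat_lit 5) (nat_lit 113) (nat_lit 5) (nat_lit 114) (nat_lit 5) (nat_lit 417) (nat_lit 409) (nat_lit 194))) (XT.nd (nat_lit 78) (nat_lit 380) (nat_lit 0) (XT.lf (nat_lit 0) (nat_lit 45015394448) (nat_lit 456) (nat_lit 114176394179) (nat_lit 76) (nat_lit 1030605176934) (nat_lit 107) (nat_lit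 5) (nat_lit 113) (nat_lit 5) (nat_lit 108) (nat_lit 5) (nat_lit 418) (nat_lit 409) (nat_lit 193)) (XT.lf (nat_lit 0) (nat_lit 261257095640) (nat_lit 456) (nat_lit 309670446720) (nat_lit 76) (nat_lit 671622666862) (nat_lit 102) (nat_lit 5) (nat_lit 108) (nat_lit 5) (nat_lit 103) (nat_lit 5) (nat_lit 419) (nat_lit 409) (nat_lit 192))))))) (XT.nd (nat_lit 52806) (nat_lit 0) (nat_lit 304) (XT.nd (nat_lit 546) (nat_lit 532) (nat_lit 0) (XT.nd (nat_lit 234) (nat_lit 608) (nat_lit 0) (XT.nd (nat_lit 78) (nat_lit 608) (nat_lit 0) (XT.lf (nat_lit 0) (nat_lit 516210366020) (nat_lit 456) (nat_lit 512076627184) (nat_lit 76) (nat_lit 270166107520) (nat_lit 97) (nat_lit 5) (nat_lit 103) (nat_lit 5) (nat_lit 98) (nat_lit 5) (nat_lit 420) (nat_lit 409) (nat_lit 191)) (XT.nd (nat_lit 78) (nat_lit 304) (nat_lit 0) (XT.lf (nat_lit 0) (nat_lit 633156510703) (nat_lit 304) (nat_lit 183398298385) (nat_lit 380)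 (nat_lit 541023668911) (nat_lit 93) (nat_lit 5) (nat_lit 97) (nat_lit 5) (nat_lit 98) (nat_lit 5) (nat_lit 421) (nat_lit 409) (nat_lit 190)) (XT.lf (nat_lit 0) (nat_lit 470847318064) (nat_lit 304) (nat_lit 697880008545) (nat_lit 380) (nat_lit 251316532899) (nat_lit 89) (nat_lit 5) (nat_lit 93) (nat_lit 5) (nat_lit 94) (nat_lit 5) (nat_lit 422) (nat_lit 409) (nat_lit 189)))) (XT.nd (nat_lit 78) (nat_lit 304) (nat_lit 0) (XT.lf (nat_lit 0) (nat_lit 83824817774) (nat_lit 304) (nat_lit 1183677917673) (nat_lit 76) (nat_lit 218744265394) (nat_lit 85) (nat_lit 5) (nat_lit 89) (nat_lit 5) (nat_lit 86) (nat_lit 5) (nat_lit 423) (nat_lit 409) (nat_lit 188)) (XT.nd (nat_lit 78) (nat_lit 0) (nat_lit 0) (XT.lf (nat_lit 0) (nat_lit 118983757886) (nat_lit 304) (nat_lit 348537166241) (nat_lit 380) (nat_lit 1088492054463) (nat_lit 81) (nat_lit 5) (nat_lit 85) (nat_lit 5) (nat_lit 86) (nat_lit 5) (nat_lit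 424) (nat_lit 409) (nat_lit 187)) (XT.lf (nat_lit 0) (nat_lit 912923429490) (nat_lit 380) (nat_lit 72593984566) (nat_lit 76) (nat_lit 644292284979) (nat_lit 81) (nat_lit 5) (nat_lit 86) (nat_lit 5) (nat_lit 82) (nat_lit 5) (nat_lit 425) (nat_lit 409) (nat_lit 186))))) (XT.nd (nat_lit 51948) (nat_lit 0) (nat_lit 3420) (XT.nd (nat_lit 51792) (nat_lit 0) (nat_lit 3344) (XT.lf (nat_lit 0) (nat_lit 213734826349) (nat_lit 304) (nat_lit 483210455682) (nat_lit 76) (nat_lit 1093568388774) (nat_lit 74) (nat_lit 5) (nat_lit 78) (nat_lit 5) (nat_lit 75) (nat_lit 5) (nat_lit 427) (nat_lit 409) (nat_lit 184)) (XT.nd (nat_lit 78) (nat_lit 0) (nat_lit 76) (XT.lf (nat_lit 0) (nat_lit 124593714160) (nat_lit 836) (nat_lit 159960098449) (nat_lit 836) (nat_lit 159960098449) (nat_lit 118) (nat_lit 3) (nat_lit 129) (nat_lit 3) (nat_lit 129) (nat_lit 5) (nat_lit 410) (nat_lit 410) (nat_lit 200)) (XT.lf (nat_lit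 0) (nat_lit 266988688029) (nat_lit 760) (nat_lit 542693593425) (nat_lit 836) (nat_lit 114514965349) (nat_lit 119) (nat_lit 5) (nat_lit 129) (nat_lit 5) (nat_lit 130) (nat_lit 5) (nat_lit 411) (nat_lit 410) (nat_lit 199)))) (XT.nd (nat_lit 156) (nat_lit 0) (nat_lit 152) (XT.nd (nat_lit 78) (nat_lit 0) (nat_lit 76) (XT.lf (nat_lit 76) (nat_lit 184790979594) (nat_lit 0) (nat_lit 119568516291) (nat_lit 836) (nat_lit 656913457217) (nat_lit 120) (nat_lit 5) (nat_lit 119) (nat_lit 5) (nat_lit 130) (nat_lit 5) (nat_lit 412) (nat_lit 410) (nat_lit 198)) (XT.lf (nat_lit 0) (nat_lit 364098081231) (nat_lit 760) (nat_lit 20913076042) (nat_lit 836) (nat_lit 615334652997) (nat_lit 120) (nat_lit 5) (nat_lit 130) (nat_lit 5) (nat_lit 131) (nat_lit 5) (nat_lit 413) (nat_lit 410) (nat_lit 197))) (XT.nd (nat_lit 78) (nat_lit 0) (nat_lit 76) (XT.lf (nat_lit 0) (nat_lit 449292194227) (nat_lit 760) (nat_lit 228364556186)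 (nat_lit 836) (nat_lit 363853923562) (nat_lit 121) (nat_lit 5) (nat_lit 131) (nat_lit 5) (nat_lit 132) (nat_lit 5) (nat_lit 414) (nat_lit 410) (nat_lit 196)) (XT.lf (nat_lit 0) (nat_lit 559520897752) (nat_lit 760) (nat_lit 443642649192) (nat_lit 836) (nat_lit 81894226765) (nat_lit 122) (nat_lit 5) (nat_lit 132) (nat_lit 5) (nat_lit 133) (nat_lit 5) (nat_lit 415) (nat_lit 410) (nat_lit 195)))))) (XT.nd (nat_lit 546) (nat_lit 1140) (nat_lit 0) (XT.nd (nat_lit 234) (nat_lit 1140) (nat_lit 0) (XT.nd (nat_lit 78) (nat_lit 1064) (nat_lit 0) (XT.lf (nat_lit 76) (nat_lit 460282422071) (nat_lit 0) (nat_lit 240941470962) (nat_lit 836) (nat_lit 429731948618) (nat_lit 123) (nat_lit 5) (nat_lit 122) (nat_lit 5) (nat_lit 133) (nat_lit 5) (nat_lit 416) (nat_lit 410) (nat_lit 194)) (XT.nd (nat_lit 78) (nat_lit 380) (nat_lit 0) (XT.lf (nat_lit 0) (nat_lit 271703299842) (nat_lit 760) (nat_lit 603747210846)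 (nat_lit 836) (nat_lit 304015875209) (nat_lit 113) (nat_lit 5) (nat_lit 123) (nat_lit 5) (nat_lit 124) (nat_lit 5) (nat_lit 417) (nat_lit 410) (nat_lit 193)) (XT.lf (nat_lit 0) (nat_lit 77024301804) (nat_lit 380) (nat_lit 1007063209457) (nat_lit 456) (nat_lit 146746649750) (nat_lit 108) (nat_lit 5) (nat_lit 113) (nat_lit 5) (nat_lit 114) (nat_lit 5) (nat_lit 418) (nat_lit 410) (nat_lit 192)))) (XT.nd (nat_lit 156) (nat_lit 684) (nat_lit 0) (XT.nd (nat_lit 78) (nat_lit 380) (nat_lit 0) (XT.lf (nat_lit 0) (nat_lit 48616781706) (nat_lit 456) (nat_lit 123310350583) (nat_lit 76) (nat_lit 1113053582657) (nat_lit 107) (nat_lit 5) (nat_lit 113) (nat_lit 5) (nat_lit 108) (nat_lit 5) (nat_lit 419) (nat_lit 410) (nat_lit 191)) (XT.lf (nat_lit 0) (nat_lit 282157809806) (nat_lit 456) (nat_lit 334443926705) (nat_lit 76) (nat_lit 725352482053) (nat_lit 102) (nat_lit 5) (nat_lit 108) (nat_lit 5) (nat_lit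 103) (nat_lit 5) (nat_lit 420) (nat_lit 410) (nat_lit 190))) (XT.nd (nat_lit 78) (nat_lit 304) (nat_lit 0) (XT.lf (nat_lit 0) (nat_lit 557507333462) (nat_lit 456) (nat_lit 553042601583) (nat_lit 76) (nat_lit 291779406765) (nat_lit 97) (nat_lit 5) (nat_lit 103) (nat_lit 5) (nat_lit 98) (nat_lit 5) (nat_lit 421) (nat_lit 410) (nat_lit 189)) (XT.lf (nat_lit 0) (nat_lit 683809180565) (nat_lit 304) (nat_lit 198070143501) (nat_lit 380) (nat_lit 584305425599) (nat_lit 93) (nat_lit 5) (nat_lit 97) (nat_lit 5) (nat_lit 98) (nat_lit 5) (nat_lit 422) (nat_lit 410) (nat_lit 188))))) (XT.nd (nat_lit 312) (nat_lit 228) (nat_lit 0) (XT.nd (nat_lit 78) (nat_lit 608) (nat_lit 0) (XT.lf (nat_lit 0) (nat_lit 508515252046) (nat_lit 304) (nat_lit 753710383885) (nat_lit 380) (nat_lit 271421726122) (nat_lit 89) (nat_lit 5) (nat_lit 93) (nat_lit 5) (nat_lit 94) (nat_lit 5) (nat_lit 423) (nat_lit 410) (nat_lit 187))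 (XT.nd (nat_lit 156) (nat_lit 304) (nat_lit 0) (XT.lf (nat_lit 0) (nat_lit 90530921900) (nat_lit 304) (nat_lit 1278371999464) (nat_lit 76) (nat_lit 236243833560) (nat_lit 85) (nat_lit 5) (nat_lit 89) (nat_lit 5) (nat_lit 86) (nat_lit 5) (nat_lit 424) (nat_lit 410) (nat_lit 186)) (XT.lf (nat_lit 0) (nat_lit 985957408190) (nat_lit 380) (nat_lit 78401364282) (nat_lit 76) (nat_lit 695835697228) (nat_lit 81) (nat_lit 5) (nat_lit 86) (nat_lit 5) (nat_lit 82) (nat_lit 5) (nat_lit 426) (nat_lit 410) (nat_lit 184)))) (XT.nd (nat_lit 51948) (nat_lit 0) (nat_lit 3116) (XT.nd (nat_lit 51870) (nat_lit 0) (nat_lit 3040) (XT.lf (nat_lit 0) (nat_lit 1536442958774) (nat_lit 304) (nat_lit 288509377067) (nat_lit 76) (nat_lit 19770225176) (nat_lit 78) (nat_lit 5) (nat_lit 82) (nat_lit 5) (nat_lit 79) (nat_lit 5) (nat_lit 427) (nat_lit 410) (nat_lit 183)) (XT.lf (nat_lit 0) (nat_lit 134561335111) (nat_lit 836)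 (nat_lit 172756841286) (nat_lit 836) (nat_lit 172756841286) (nat_lit 118) (nat_lit 3) (nat_lit 129) (nat_lit 3) (nat_lit 129) (nat_lit 5) (nat_lit 411) (nat_lit 411) (nat_lit 198))) (XT.nd (nat_lit 78) (nat_lit 0) (nat_lit 0) (XT.lf (nat_lit 0) (nat_lit 288348012639) (nat_lit 760) (nat_lit 586108943121) (nat_lit 836) (nat_lit 123676059184) (nat_lit 119) (nat_lit 5) (nat_lit 129) (nat_lit 5) (nat_lit 130) (nat_lit 5) (nat_lit 412) (nat_lit 411) (nat_lit 197)) (XT.lf (nat_lit 76) (nat_lit 199574389753) (nat_lit 0) (nat_lit 129134080424) (nat_lit 836) (nat_lit 709466308327) (nat_lit 120) (nat_lit 5) (nat_lit 119) (nat_lit 5) (nat_lit 130) (nat_lit 5) (nat_lit 413) (nat_lit 411) (nat_lit 196))))))))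
noncomputable def xc126 : XT := (XT.nd (nat_lit 54054) (nat_lit 0) (nat_lit 304) (XT.nd (nat_lit 52962) (nat_lit 0) (nat_lit 912) (XT.nd (nat_lit 468) (nat_lit 2052) (nat_lit 0) (XT.nd (nat_lit 234) (nat_lit 912) (nat_lit 0) (XT.nd (nat_lit 78) (nat_lit 0) (nat_lit 76) (XT.lf (nat_lit 0) (nat_lit 393226125254) (nat_lit 760) (nat_lit 22585988856) (nat_lit 836) (nat_lit 664561350998) (nat_lit 120) (nat_lit 5) (nat_lit 130) (nat_lit 5) (nat_lit 131) (nat_lit 5) (nat_lit 414) (nat_lit 411) (nat_lit 195)) (XT.nd (nat_lit 78) (nat_lit 0) (nat_lit 76) (XT.lf (nat_lit 0) (nat_lit 485235753753) (nat_lit 760) (nat_lit 246633582963) (nat_lit 836) (nat_lit 392962181878) (nat_lit 121) (nat_lit 5) (nat_lit 131) (nat_lit 5) (nat_lit 132) (nat_lit 5) (nat_lit 415) (nat_lit 411) (nat_lit 194)) (XT.lf (nat_lit 0) (nat_lit 604282741353) (nat_lit 760) (nat_lit 479133920046) (nat_lit 836) (nat_lit 88445725525)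 (nat_lit 122) (nat_lit 5) (nat_lit 132) (nat_lit 5) (nat_lit 133) (nat_lit 5) (nat_lit 416) (nat_lit 411) (nat_lit 193)))) (XT.nd (nat_lit 78) (nat_lit 1064) (nat_lit 0) (XT.lf (nat_lit 76) (nat_lit 497105150787) (nat_lit 0) (nat_lit 260216814852) (nat_lit 836) (nat_lit 464110335201) (nat_lit 123) (nat_lit 5) (nat_lit 122) (nat_lit 5) (nat_lit 133) (nat_lit 5) (nat_lit 417) (nat_lit 411) (nat_lit 192)) (XT.nd (nat_lit 78) (nat_lit 380) (nat_lit 0) (XT.lf (nat_lit 0) (nat_lit 293439701096) (nat_lit 760) (nat_lit 652047001436) (nat_lit 836) (nat_lit 328336986608) (nat_lit 113) (nat_lit 5) (nat_lit 123) (nat_lit 5) (nat_lit 124) (nat_lit 5) (nat_lit 418) (nat_lit 411) (nat_lit 191)) (XT.lf (nat_lit 0) (nat_lit 83186384751) (nat_lit 380) (nat_lit 1087628269185) (nat_lit 456) (nat_lit 158486232795) (nat_lit 108) (nat_lit 5) (nat_lit 113) (nat_lit 5) (nat_lit 114) (nat_lit 5) (nat_lit 419) (nat_lit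 411) (nat_lit 190))))) (XT.nd (nat_lit 234) (nat_lit 1216) (nat_lit 0) (XT.nd (nat_lit 78) (nat_lit 760) (nat_lit 0) (XT.lf (nat_lit 0) (nat_lit 52506257732) (nat_lit 456) (nat_lit 133175045630) (nat_lit 76) (nat_lit 1202097862040) (nat_lit 107) (nat_lit 5) (nat_lit 113) (nat_lit 5) (nat_lit 108) (nat_lit 5) (nat_lit 420) (nat_lit 411) (nat_lit 189)) (XT.nd (nat_lit 78) (nat_lit 380) (nat_lit 0) (XT.lf (nat_lit 0) (nat_lit 304730560203) (nat_lit 456) (nat_lit 361199307308) (nat_lit 76) (nat_lit 783380682197) (nat_lit 102) (nat_lit 5) (nat_lit 108) (nat_lit 5) (nat_lit 103) (nat_lit 5) (nat_lit 421) (nat_lit 411) (nat_lit 188)) (XT.lf (nat_lit 0) (nat_lit 602108038588) (nat_lit 456) (nat_lit 597285876157) (nat_lit 76) (nat_lit 315121768432) (nat_lit 97) (nat_lit 5) (nat_lit 103) (nat_lit 5) (nat_lit 98) (nat_lit 5) (nat_lit 422) (nat_lit 411) (nat_lit 187)))) (XT.nd (nat_lit 234) (nat_lit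 608) (nat_lit 0) (XT.nd (nat_lit 78) (nat_lit 304) (nat_lit 0) (XT.lf (nat_lit 0) (nat_lit 738514042760) (nat_lit 304) (nat_lit 213915738903) (nat_lit 380) (nat_lit 631049742342) (nat_lit 93) (nat_lit 5) (nat_lit 97) (nat_lit 5) (nat_lit 98) (nat_lit 5) (nat_lit 423) (nat_lit 411) (nat_lit 186)) (XT.lf (nat_lit 0) (nat_lit 549196599557) (nat_lit 304) (nat_lit 814007192868) (nat_lit 380) (nat_lit 293135353264) (nat_lit 89) (nat_lit 5) (nat_lit 93) (nat_lit 5) (nat_lit 94) (nat_lit 5) (nat_lit 424) (nat_lit 411) (nat_lit 185))) (XT.nd (nat_lit 78) (nat_lit 0) (nat_lit 0) (XT.lf (nat_lit 0) (nat_lit 138782936176) (nat_lit 304) (nat_lit 406533687047) (nat_lit 380) (nat_lit 1269616904051) (nat_lit 81) (nat_lit 5) (nat_lit 85) (nat_lit 5) (nat_lit 86) (nat_lit 5) (nat_lit 426) (nat_lit 411) (nat_lit 183)) (XT.lf (nat_lit 0) (nat_lit 1064834090300) (nat_lit 380) (nat_lit 84673354211) (nat_lit 76)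 (nat_lit 751502578255) (nat_lit 81) (nat_lit 5) (nat_lit 86) (nat_lit 5) (nat_lit 82) (nat_lit 5) (nat_lit 427) (nat_lit 411) (nat_lit 182)))))) (XT.nd (nat_lit 468) (nat_lit 1900) (nat_lit 0) (XT.nd (nat_lit 234) (nat_lit 0) (nat_lit 152) (XT.nd (nat_lit 78) (nat_lit 0) (nat_lit 76) (XT.lf (nat_lit 0) (nat_lit 145326348074) (nat_lit 836) (nat_lit 186577332829) (nat_lit 836) (nat_lit 186577332829) (nat_lit 118) (nat_lit 3) (nat_lit 129) (nat_lit 3) (nat_lit 129) (nat_lit 5) (nat_lit 412) (nat_lit 412) (nat_lit 196)) (XT.nd (nat_lit 78) (nat_lit 0) (nat_lit 0) (XT.lf (nat_lit 0) (nat_lit 311416050468) (nat_lit 760) (nat_lit 632997540447) (nat_lit 836) (nat_lit 133570055276) (nat_lit 119) (nat_lit 5) (nat_lit 129) (nat_lit 5) (nat_lit 130) (nat_lit 5) (nat_lit 413) (nat_lit 412) (nat_lit 195)) (XT.lf (nat_lit 76) (nat_lit 215540453922) (nat_lit 0) (nat_lit 139464877871) (nat_lit 836) (nat_lit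 766223419691) (nat_lit 120) (nat_lit 5) (nat_lit 119) (nat_lit 5) (nat_lit 130) (nat_lit 5) (nat_lit 414) (nat_lit 412) (nat_lit 194)))) (XT.nd (nat_lit 78) (nat_lit 0) (nat_lit 76) (XT.lf (nat_lit 0) (nat_lit 424684384621) (nat_lit 760) (nat_lit 24392753707) (nat_lit 836) (nat_lit 717726195429) (nat_lit 120) (nat_lit 5) (nat_lit 130) (nat_lit 5) (nat_lit 131) (nat_lit 5) (nat_lit 415) (nat_lit 412) (nat_lit 193)) (XT.nd (nat_lit 78) (nat_lit 0) (nat_lit 76) (XT.lf (nat_lit 0) (nat_lit 524054771793) (nat_lit 760) (nat_lit 266364151529) (nat_lit 836) (nat_lit 424399108787) (nat_lit 121) (nat_lit 5) (nat_lit 131) (nat_lit 5) (nat_lit 132) (nat_lit 5) (nat_lit 416) (nat_lit 412) (nat_lit 192)) (XT.lf (nat_lit 0) (nat_lit 652625507935) (nat_lit 760) (nat_lit 517464512695) (nat_lit 836) (nat_lit 95521349804) (nat_lit 122) (nat_lit 5) (nat_lit 132) (nat_lit 5) (nat_lit 133) (nat_lit 5) (nat_lit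 417) (nat_lit 412) (nat_lit 191))))) (XT.nd (nat_lit 234) (nat_lit 1140) (nat_lit 0) (XT.nd (nat_lit 78) (nat_lit 1064) (nat_lit 0) (XT.lf (nat_lit 76) (nat_lit 536873678548) (nat_lit 0) (nat_lit 281034182514) (nat_lit 836) (nat_lit 501239016864) (nat_lit 123) (nat_lit 5) (nat_lit 122) (nat_lit 5) (nat_lit 133) (nat_lit 5) (nat_lit 418) (nat_lit 412) (nat_lit 190)) (XT.nd (nat_lit 78) (nat_lit 380) (nat_lit 0) (XT.lf (nat_lit 0) (nat_lit 316914994867) (nat_lit 760) (nat_lit 704210773316) (nat_lit 836) (nat_lit 354603809548) (nat_lit 113) (nat_lit 5) (nat_lit 123) (nat_lit 5) (nat_lit 124) (nat_lit 5) (nat_lit 419) (nat_lit 412) (nat_lit 189)) (XT.lf (nat_lit 0) (nat_lit 89841414532) (nat_lit 380) (nat_lit 1174638533267) (nat_lit 456) (nat_lit 171165003730) (nat_lit 108) (nat_lit 5) (nat_lit 113) (nat_lit 5) (nat_lit 114) (nat_lit 5) (nat_lit 420) (nat_lit 412) (nat_lit 188)))) (XT.nd (nat_lit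 156) (nat_lit 684) (nat_lit 0) (XT.nd (nat_lit 78) (nat_lit 380) (nat_lit 0) (XT.lf (nat_lit 0) (nat_lit 56706872796) (nat_lit 456) (nat_lit 143828935255) (nat_lit 76) (nat_lit 1298265684806) (nat_lit 107) (nat_lit 5) (nat_lit 113) (nat_lit 5) (nat_lit 108) (nat_lit 5) (nat_lit 421) (nat_lit 412) (nat_lit 187)) (XT.lf (nat_lit 0) (nat_lit 329109112713) (nat_lit 456) (nat_lit 390095137410) (nat_lit 76) (nat_lit 846051138127) (nat_lit 102) (nat_lit 5) (nat_lit 108) (nat_lit 5) (nat_lit 103) (nat_lit 5) (nat_lit 422) (nat_lit 412) (nat_lit 186))) (XT.nd (nat_lit 78) (nat_lit 304) (nat_lit 0) (XT.lf (nat_lit 0) (nat_lit 650276783227) (nat_lit 456) (nat_lit 645068631749) (nat_lit 76) (nat_lit 340331517731) (nat_lit 97) (nat_lit 5) (nat_lit 103) (nat_lit 5) (nat_lit 98) (nat_lit 5) (nat_lit 423) (nat_lit 412) (nat_lit 185)) (XT.lf (nat_lit 0) (nat_lit 797595275704) (nat_lit 304) (nat_lit 231028984230)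 (nat_lit 380) (nat_lit 681533621160) (nat_lit 93) (nat_lit 5) (nat_lit 97) (nat_lit 5) (nat_lit 98) (nat_lit 5) (nat_lit 424) (nat_lit 412) (nat_lit 184))))))) (XT.nd (nat_lit 53040) (nat_lit 0) (nat_lit 304) (XT.nd (nat_lit 52494) (nat_lit 0) (nat_lit 912) (XT.nd (nat_lit 52260) (nat_lit 0) (nat_lit 2584) (XT.nd (nat_lit 52104) (nat_lit 0) (nat_lit 2508) (XT.lf (nat_lit 0) (nat_lit 105595464465) (nat_lit 304) (nat_lit 1491092848338) (nat_lit 76) (nat_lit 275554852202) (nat_lit 85) (nat_lit 5) (nat_lit 89) (nat_lit 5) (nat_lit 86) (nat_lit 5) (nat_lit 426) (nat_lit 412) (nat_lit 182)) (XT.nd (nat_lit 78) (nat_lit 0) (nat_lit 76) (XT.lf (nat_lit 0) (nat_lit 156952546930) (nat_lit 836) (nat_lit 201503471651) (nat_lit 836) (nat_lit 201503471651) (nat_lit 118) (nat_lit 3) (nat_lit 129) (nat_lit 3) (nat_lit 129) (nat_lit 5) (nat_lit 413) (nat_lit 413) (nat_lit 194)) (XT.lf (nat_lit 0) (nat_lit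 336329503244) (nat_lit 760) (nat_lit 683637242412) (nat_lit 836) (nat_lit 144255583701) (nat_lit 119) (nat_lit 5) (nat_lit 129) (nat_lit 5) (nat_lit 130) (nat_lit 5) (nat_lit 414) (nat_lit 413) (nat_lit 193)))) (XT.nd (nat_lit 78) (nat_lit 0) (nat_lit 76) (XT.lf (nat_lit 76) (nat_lit 232783787107) (nat_lit 0) (nat_lit 150622128983) (nat_lit 836) (nat_lit 827521127541) (nat_lit 120) (nat_lit 5) (nat_lit 119) (nat_lit 5) (nat_lit 130) (nat_lit 5) (nat_lit 415) (nat_lit 413) (nat_lit 192)) (XT.nd (nat_lit 78) (nat_lit 0) (nat_lit 76) (XT.lf (nat_lit 0) (nat_lit 458659280577) (nat_lit 760) (nat_lit 26344076046) (nat_lit 836) (nat_lit 775144236496) (nat_lit 120) (nat_lit 5) (nat_lit 130) (nat_lit 5) (nat_lit 131) (nat_lit 5) (nat_lit 416) (nat_lit 413) (nat_lit 191)) (XT.lf (nat_lit 0) (nat_lit 565979288773) (nat_lit 760) (nat_lit 287673182425) (nat_lit 836) (nat_lit 458350996646) (nat_lit 121)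 (nat_lit 5) (nat_lit 131) (nat_lit 5) (nat_lit 132) (nat_lit 5) (nat_lit 417) (nat_lit 413) (nat_lit 190))))) (XT.nd (nat_lit 234) (nat_lit 1216) (nat_lit 0) (XT.nd (nat_lit 78) (nat_lit 684) (nat_lit 0) (XT.lf (nat_lit 0) (nat_lit 704835674834) (nat_lit 760) (nat_lit 558861570012) (nat_lit 836) (nat_lit 103163028843) (nat_lit 122) (nat_lit 5) (nat_lit 132) (nat_lit 5) (nat_lit 133) (nat_lit 5) (nat_lit 418) (nat_lit 413) (nat_lit 189)) (XT.nd (nat_lit 78) (nat_lit 684) (nat_lit 0) (XT.lf (nat_lit 76) (nat_lit 579823672024) (nat_lit 0) (nat_lit 303516936383) (nat_lit 836) (nat_lit 541338013768) (nat_lit 123) (nat_lit 5) (nat_lit 122) (nat_lit 5) (nat_lit 133) (nat_lit 5) (nat_lit 419) (nat_lit 413) (nat_lit 188)) (XT.lf (nat_lit 0) (nat_lit 342268295351) (nat_lit 760) (nat_lit 760547645269) (nat_lit 836) (nat_lit 382971997723) (nat_lit 113) (nat_lit 5) (nat_lit 123) (nat_lit 5) (nat_lit 124)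 (nat_lit 5) (nat_lit 420) (nat_lit 413) (nat_lit 187)))) (XT.nd (nat_lit 156) (nat_lit 760) (nat_lit 0) (XT.nd (nat_lit 78) (nat_lit 76) (nat_lit 0) (XT.lf (nat_lit 0) (nat_lit 97028829718) (nat_lit 380) (nat_lit 1268609618112) (nat_lit 456) (nat_lit 184858094557) (nat_lit 108) (nat_lit 5) (nat_lit 113) (nat_lit 5) (nat_lit 114) (nat_lit 5) (nat_lit 421) (nat_lit 413) (nat_lit 186)) (XT.lf (nat_lit 0) (nat_lit 61243520739) (nat_lit 456) (nat_lit 155335152317) (nat_lit 76) (nat_lit 1402126934277) (nat_lit 107) (nat_lit 5) (nat_lit 113) (nat_lit 5) (nat_lit 108) (nat_lit 5) (nat_lit 422) (nat_lit 413) (nat_lit 185))) (XT.nd (nat_lit 78) (nat_lit 380) (nat_lit 0) (XT.lf (nat_lit 0) (nat_lit 355437934059) (nat_lit 456) (nat_lit 421302650252) (nat_lit 76) (nat_lit 913735230339) (nat_lit 102) (nat_lit 5) (nat_lit 108) (nat_lit 5) (nat_lit 103) (nat_lit 5) (nat_lit 423) (nat_lit 413) (nat_lit 184))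 (XT.lf (nat_lit 0) (nat_lit 702299012949) (nat_lit 456) (nat_lit 696674024123) (nat_lit 76) (nat_lit 367558045856) (nat_lit 97) (nat_lit 5) (nat_lit 103) (nat_lit 5) (nat_lit 98) (nat_lit 5) (nat_lit 424) (nat_lit 413) (nat_lit 183)))))) (XT.nd (nat_lit 52572) (nat_lit 0) (nat_lit 608) (XT.nd (nat_lit 52338) (nat_lit 0) (nat_lit 2280) (XT.nd (nat_lit 78) (nat_lit 304) (nat_lit 0) (XT.lf (nat_lit 0) (nat_lit 861402991660) (nat_lit 304) (nat_lit 249511291150) (nat_lit 380) (nat_lit 736056224630) (nat_lit 93) (nat_lit 5) (nat_lit 97) (nat_lit 5) (nat_lit 98) (nat_lit 5) (nat_lit 425) (nat_lit 413) (nat_lit 182)) (XT.nd (nat_lit 52182) (nat_lit 0) (nat_lit 2204) (XT.lf (nat_lit 0) (nat_lit 640583125241) (nat_lit 304) (nat_lit 949457953672) (nat_lit 380) (nat_lit 341912891769) (nat_lit 89) (nat_lit 5) (nat_lit 93) (nat_lit 5) (nat_lit 94) (nat_lit 5) (nat_lit 426) (nat_lit 413) (nat_lit 181))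 (XT.lf (nat_lit 0) (nat_lit 169508828711) (nat_lit 836) (nat_lit 217623708397) (nat_lit 836) (nat_lit 217623708397) (nat_lit 118) (nat_lit 3) (nat_lit 129) (nat_lit 3) (nat_lit 129) (nat_lit 5) (nat_lit 414) (nat_lit 414) (nat_lit 192)))) (XT.nd (nat_lit 78) (nat_lit 0) (nat_lit 0) (XT.lf (nat_lit 0) (nat_lit 363236008171) (nat_lit 760) (nat_lit 738328134981) (nat_lit 836) (nat_lit 155795965242) (nat_lit 119) (nat_lit 5) (nat_lit 129) (nat_lit 5) (nat_lit 130) (nat_lit 5) (nat_lit 415) (nat_lit 414) (nat_lit 191)) (XT.nd (nat_lit 78) (nat_lit 0) (nat_lit 76) (XT.lf (nat_lit 76) (nat_lit 251406573126) (nat_lit 0) (nat_lit 162671951498) (nat_lit 836) (nat_lit 893722675662) (nat_lit 120) (nat_lit 5) (nat_lit 119) (nat_lit 5) (nat_lit 130) (nat_lit 5) (nat_lit 416) (nat_lit 414) (nat_lit 190)) (XT.lf (nat_lit 0) (nat_lit 495352147498) (nat_lit 760) (nat_lit 28451518148) (nat_lit 836) (nat_lit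 837155728632) (nat_lit 120) (nat_lit 5) (nat_lit 130) (nat_lit 5) (nat_lit 131) (nat_lit 5) (nat_lit 417) (nat_lit 414) (nat_lit 189))))) (XT.nd (nat_lit 234) (nat_lit 1824) (nat_lit 0) (XT.nd (nat_lit 78) (nat_lit 0) (nat_lit 76) (XT.lf (nat_lit 0) (nat_lit 611257747819) (nat_lit 760) (nat_lit 310686950233) (nat_lit 836) (nat_lit 495019041360) (nat_lit 121) (nat_lit 5) (nat_lit 131) (nat_lit 5) (nat_lit 132) (nat_lit 5) (nat_lit 418) (nat_lit 414) (nat_lit 188)) (XT.nd (nat_lit 78) (nat_lit 0) (nat_lit 0) (XT.lf (nat_lit 0) (nat_lit 761222637072) (nat_lit 760) (nat_lit 603570406708) (nat_lit 836) (nat_lit 111416046334) (nat_lit 122) (nat_lit 5) (nat_lit 132) (nat_lit 5) (nat_lit 133) (nat_lit 5) (nat_lit 419) (nat_lit 414) (nat_lit 187)) (XT.lf (nat_lit 76) (nat_lit 626209650827) (nat_lit 0) (nat_lit 327798307812) (nat_lit 836) (nat_lit 584644948177) (nat_lit 123) (nat_lit 5) (nat_lit 122)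 (nat_lit 5) (nat_lit 133) (nat_lit 5) (nat_lit 420) (nat_lit 414) (nat_lit 186)))) (XT.nd (nat_lit 156) (nat_lit 836) (nat_lit 0) (XT.nd (nat_lit 78) (nat_lit 380) (nat_lit 0) (XT.lf (nat_lit 0) (nat_lit 369649845480) (nat_lit 760) (nat_lit 821391465538) (nat_lit 836) (nat_lit 413609657585) (nat_lit 113) (nat_lit 5) (nat_lit 123) (nat_lit 5) (nat_lit 124) (nat_lit 5) (nat_lit 421) (nat_lit 414) (nat_lit 185)) (XT.lf (nat_lit 0) (nat_lit 104791223565) (nat_lit 380) (nat_lit 1370098389433) (nat_lit 456) (nat_lit 199646648267) (nat_lit 108) (nat_lit 5) (nat_lit 113) (nat_lit 5) (nat_lit 114) (nat_lit 5) (nat_lit 422) (nat_lit 414) (nat_lit 184))) (XT.nd (nat_lit 156) (nat_lit 760) (nat_lit 0) (XT.lf (nat_lit 0) (nat_lit 66143086519) (nat_lit 456) (nat_lit 167761880690) (nat_lit 76) (nat_lit 1514297084463) (nat_lit 107) (nat_lit 5) (nat_lit 113) (nat_lit 5) (nat_lit 108) (nat_lit 5) (nat_lit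 423) (nat_lit 414) (nat_lit 183)) (XT.lf (nat_lit 0) (nat_lit 758483008629) (nat_lit 456) (nat_lit 752407861892) (nat_lit 76) (nat_lit 396962695276) (nat_lit 97) (nat_lit 5) (nat_lit 103) (nat_lit 5) (nat_lit 98) (nat_lit 5) (nat_lit 425) (nat_lit 414) (nat_lit 181))))))))
noncomputable def xc127 : XT := (XT.nd (nat_lit 158886) (nat_lit 0) (nat_lit 1140) (XT.nd (nat_lit 105456) (nat_lit 0) (nat_lit 1064) (XT.nd (nat_lit 52650) (nat_lit 0) (nat_lit 304) (XT.nd (nat_lit 52416) (nat_lit 0) (nat_lit 1976) (XT.nd (nat_lit 52260) (nat_lit 0) (nat_lit 1900) (XT.lf (nat_lit 0) (nat_lit 930315311497) (nat_lit 304) (nat_lit 269472184310) (nat_lit 380) (nat_lit 794940648678) (nat_lit 93) (nat_lit 5) (nat_lit 97) (nat_lit 5) (nat_lit 98) (nat_lit 5) (nat_lit 426) (nat_lit 414) (nat_lit 180)) (XT.nd (nat_lit 78) (nat_lit 0) (nat_lit 76) (XT.lf (nat_lit 0) (nat_lit 183069601903) (nat_lit 836) (nat_lit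 235033569931) (nat_lit 836) (nat_lit 235033569931) (nat_lit 118) (nat_lit 3) (nat_lit 129) (nat_lit 3) (nat_lit 129) (nat_lit 5) (nat_lit 415) (nat_lit 415) (nat_lit 190)) (XT.lf (nat_lit 0) (nat_lit 392295012853) (nat_lit 760) (nat_lit 797394311342) (nat_lit 836) (nat_lit 168259586601) (nat_lit 119) (nat_lit 5) (nat_lit 129) (nat_lit 5) (nat_lit 130) (nat_lit 5) (nat_lit 416) (nat_lit 415) (nat_lit 189)))) (XT.nd (nat_lit 78) (nat_lit 0) (nat_lit 76) (XT.lf (nat_lit 76) (nat_lit 271519170178) (nat_lit 0) (nat_lit 175685752368) (nat_lit 836) (nat_lit 965220367902) (nat_lit 120) (nat_lit 5) (nat_lit 119) (nat_lit 5) (nat_lit 130) (nat_lit 5) (nat_lit 417) (nat_lit 415) (nat_lit 188)) (XT.nd (nat_lit 78) (nat_lit 0) (nat_lit 76) (XT.lf (nat_lit 0) (nat_lit 534980426015) (nat_lit 760) (nat_lit 30727567598) (nat_lit 836) (nat_lit 904128146813) (nat_lit 120) (nat_lit 5) (nat_lit 130) (nat_lit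 5) (nat_lit 131) (nat_lit 5) (nat_lit 418) (nat_lit 415) (nat_lit 187)) (XT.lf (nat_lit 0) (nat_lit 660158467047) (nat_lit 760) (nat_lit 335541831847) (nat_lit 836) (nat_lit 534620534647) (nat_lit 121) (nat_lit 5) (nat_lit 131) (nat_lit 5) (nat_lit 132) (nat_lit 5) (nat_lit 419) (nat_lit 415) (nat_lit 186))))) (XT.nd (nat_lit 234) (nat_lit 1216) (nat_lit 0) (XT.nd (nat_lit 78) (nat_lit 684) (nat_lit 0) (XT.lf (nat_lit 0) (nat_lit 822120540845) (nat_lit 760) (nat_lit 651855963023) (nat_lit 836) (nat_lit 120329308764) (nat_lit 122) (nat_lit 5) (nat_lit 132) (nat_lit 5) (nat_lit 133) (nat_lit 5) (nat_lit 420) (nat_lit 415) (nat_lit 185)) (XT.nd (nat_lit 78) (nat_lit 684) (nat_lit 0) (XT.lf (nat_lit 76) (nat_lit 676306495802) (nat_lit 0) (nat_lit 354022186599) (nat_lit 836) (nat_lit 631416452560) (nat_lit 123) (nat_lit 5) (nat_lit 122) (nat_lit 5) (nat_lit 133) (nat_lit 5) (nat_lit 421) (nat_lit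 415) (nat_lit 184)) (XT.lf (nat_lit 0) (nat_lit 399221907279) (nat_lit 760) (nat_lit 887102790195) (nat_lit 836) (nat_lit 446698344495) (nat_lit 113) (nat_lit 5) (nat_lit 123) (nat_lit 5) (nat_lit 124) (nat_lit 5) (nat_lit 422) (nat_lit 415) (nat_lit 183)))) (XT.nd (nat_lit 156) (nat_lit 760) (nat_lit 0) (XT.nd (nat_lit 78) (nat_lit 76) (nat_lit 0) (XT.lf (nat_lit 0) (nat_lit 113174596441) (nat_lit 380) (nat_lit 1479706262192) (nat_lit 456) (nat_lit 215618299663) (nat_lit 108) (nat_lit 5) (nat_lit 113) (nat_lit 5) (nat_lit 114) (nat_lit 5) (nat_lit 423) (nat_lit 415) (nat_lit 182)) (XT.lf (nat_lit 0) (nat_lit 71434605560) (nat_lit 456) (nat_lit 181182759290) (nat_lit 76) (nat_lit 1635440847315) (nat_lit 107) (nat_lit 5) (nat_lit 113) (nat_lit 5) (nat_lit 108) (nat_lit 5) (nat_lit 424) (nat_lit 415) (nat_lit 181))) (XT.nd (nat_lit 78) (nat_lit 380) (nat_lit 0) (XT.lf (nat_lit 0) (nat_lit 414582959641)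 (nat_lit 456) (nat_lit 491407248230) (nat_lit 76) (nat_lit 1065780774595) (nat_lit 102) (nat_lit 5) (nat_lit 108) (nat_lit 5) (nat_lit 103) (nat_lit 5) (nat_lit 425) (nat_lit 415) (nat_lit 180)) (XT.lf (nat_lit 0) (nat_lit 819161713314) (nat_lit 456) (nat_lit 812600418689) (nat_lit 76) (nat_lit 428719715828) (nat_lit 97) (nat_lit 5) (nat_lit 103) (nat_lit 5) (nat_lit 98) (nat_lit 5) (nat_lit 426) (nat_lit 415) (nat_lit 179)))))) (XT.nd (nat_lit 468) (nat_lit 836) (nat_lit 0) (XT.nd (nat_lit 234) (nat_lit 0) (nat_lit 152) (XT.nd (nat_lit 78) (nat_lit 0) (nat_lit 76) (XT.lf (nat_lit 0) (nat_lit 197715227407) (nat_lit 836) (nat_lit 253836225400) (nat_lit 836) (nat_lit 253836225400) (nat_lit 118) (nat_lit 3) (nat_lit 129) (nat_lit 3) (nat_lit 129) (nat_lit 5) (nat_lit 416) (nat_lit 416) (nat_lit 188)) (XT.nd (nat_lit 78) (nat_lit 0) (nat_lit 0) (XT.lf (nat_lit 0) (nat_lit 423678720215) (nat_lit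 760) (nat_lit 861185792431) (nat_lit 836) (nat_lit 181720305638) (nat_lit 119) (nat_lit 5) (nat_lit 129) (nat_lit 5) (nat_lit 130) (nat_lit 5) (nat_lit 417) (nat_lit 416) (nat_lit 187)) (XT.lf (nat_lit 76) (nat_lit 293240764837) (nat_lit 0) (nat_lit 189740650924) (nat_lit 836) (nat_lit 1042437892899) (nat_lit 120) (nat_lit 5) (nat_lit 119) (nat_lit 5) (nat_lit 130) (nat_lit 5) (nat_lit 418) (nat_lit 416) (nat_lit 186)))) (XT.nd (nat_lit 78) (nat_lit 0) (nat_lit 76) (XT.lf (nat_lit 0) (nat_lit 577778951588) (nat_lit 760) (nat_lit 33185711276) (nat_lit 836) (nat_lit 976458364171) (nat_lit 120) (nat_lit 5) (nat_lit 130) (nat_lit 5) (nat_lit 131) (nat_lit 5) (nat_lit 419) (nat_lit 416) (nat_lit 185)) (XT.nd (nat_lit 78) (nat_lit 0) (nat_lit 76) (XT.lf (nat_lit 0) (nat_lit 712971229633) (nat_lit 760) (nat_lit 362385114605) (nat_lit 836) (nat_lit 577390151679) (nat_lit 121) (nat_lit 5) (nat_lit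 131) (nat_lit 5) (nat_lit 132) (nat_lit 5) (nat_lit 420) (nat_lit 416) (nat_lit 184)) (XT.lf (nat_lit 0) (nat_lit 887890263680) (nat_lit 760) (nat_lit 704004374717) (nat_lit 836) (nat_lit 129955635225) (nat_lit 122) (nat_lit 5) (nat_lit 132) (nat_lit 5) (nat_lit 133) (nat_lit 5) (nat_lit 421) (nat_lit 416) (nat_lit 183))))) (XT.nd (nat_lit 234) (nat_lit 76) (nat_lit 0) (XT.nd (nat_lit 78) (nat_lit 1064) (nat_lit 0) (XT.lf (nat_lit 76) (nat_lit 730411077974) (nat_lit 0) (nat_lit 382343973669) (nat_lit 836) (nat_lit 681929690344) (nat_lit 123) (nat_lit 5) (nat_lit 122) (nat_lit 5) (nat_lit 133) (nat_lit 5) (nat_lit 422) (nat_lit 416) (nat_lit 182)) (XT.nd (nat_lit 78) (nat_lit 380) (nat_lit 0) (XT.lf (nat_lit 0) (nat_lit 431159723443) (nat_lit 760) (nat_lit 958071019767) (nat_lit 836) (nat_lit 482434138584) (nat_lit 113) (nat_lit 5) (nat_lit 123) (nat_lit 5) (nat_lit 124) (nat_lit 5) (nat_lit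 423) (nat_lit 416) (nat_lit 181)) (XT.lf (nat_lit 0) (nat_lit 122228628449) (nat_lit 380) (nat_lit 1598082764544) (nat_lit 456) (nat_lit 232867694651) (nat_lit 108) (nat_lit 5) (nat_lit 113) (nat_lit 5) (nat_lit 114) (nat_lit 5) (nat_lit 424) (nat_lit 416) (nat_lit 180)))) (XT.nd (nat_lit 52572) (nat_lit 0) (nat_lit 912) (XT.nd (nat_lit 52494) (nat_lit 0) (nat_lit 836) (XT.lf (nat_lit 0) (nat_lit 77149435837) (nat_lit 456) (nat_lit 195677318429) (nat_lit 76) (nat_lit 1766276111751) (nat_lit 107) (nat_lit 5) (nat_lit 113) (nat_lit 5) (nat_lit 108) (nat_lit 5) (nat_lit 425) (nat_lit 416) (nat_lit 179)) (XT.lf (nat_lit 0) (nat_lit 213532494769) (nat_lit 836) (nat_lit 274143097605) (nat_lit 836) (nat_lit 274143097605) (nat_lit 118) (nat_lit 3) (nat_lit 129) (nat_lit 3) (nat_lit 129) (nat_lit 5) (nat_lit 417) (nat_lit 417) (nat_lit 186))) (XT.nd (nat_lit 78) (nat_lit 0) (nat_lit 0) (XT.lf (nat_lit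 0) (nat_lit 457573108997) (nat_lit 760) (nat_lit 930080601112) (nat_lit 836) (nat_lit 196257889030) (nat_lit 119) (nat_lit 5) (nat_lit 129) (nat_lit 5) (nat_lit 130) (nat_lit 5) (nat_lit 418) (nat_lit 417) (nat_lit 185)) (XT.lf (nat_lit 76) (nat_lit 316700078360) (nat_lit 0) (nat_lit 204919935890) (nat_lit 836) (nat_lit 1125832834794) (nat_lit 120) (nat_lit 5) (nat_lit 119) (nat_lit 5) (nat_lit 130) (nat_lit 5) (nat_lit 419) (nat_lit 417) (nat_lit 184))))))) (XT.nd (nat_lit 53508) (nat_lit 0) (nat_lit 380) (XT.nd (nat_lit 52962) (nat_lit 0) (nat_lit 760) (XT.nd (nat_lit 234) (nat_lit 912) (nat_lit 0) (XT.nd (nat_lit 78) (nat_lit 0) (nat_lit 76) (XT.lf (nat_lit 0) (nat_lit 624001346155) (nat_lit 760) (nat_lit 35840515255) (nat_lit 836) (nat_lit 1054575003824) (nat_lit 120) (nat_lit 5) (nat_lit 130) (nat_lit 5) (nat_lit 131) (nat_lit 5) (nat_lit 420) (nat_lit 417) (nat_lit 183)) (XT.nd (nat_lit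 78) (nat_lit 0) (nat_lit 76) (XT.lf (nat_lit 0) (nat_lit 770009001067) (nat_lit 760) (nat_lit 391375869084) (nat_lit 836) (nat_lit 623581341747) (nat_lit 121) (nat_lit 5) (nat_lit 131) (nat_lit 5) (nat_lit 132) (nat_lit 5) (nat_lit 421) (nat_lit 417) (nat_lit 182)) (XT.lf (nat_lit 0) (nat_lit 958921552991) (nat_lit 760) (nat_lit 760324668670) (nat_lit 836) (nat_lit 140352070404) (nat_lit 122) (nat_lit 5) (nat_lit 132) (nat_lit 5) (nat_lit 133) (nat_lit 5) (nat_lit 422) (nat_lit 417) (nat_lit 181)))) (XT.nd (nat_lit 78) (nat_lit 1064) (nat_lit 0) (XT.lf (nat_lit 76) (nat_lit 788844017803) (nat_lit 0) (nat_lit 412931501972) (nat_lit 836) (nat_lit 736483998337) (nat_lit 123) (nat_lit 5) (nat_lit 122) (nat_lit 5) (nat_lit 133) (nat_lit 5) (nat_lit 423) (nat_lit 417) (nat_lit 180)) (XT.nd (nat_lit 78) (nat_lit 380) (nat_lit 0) (XT.lf (nat_lit 0) (nat_lit 465652555828) (nat_lit 760) (nat_lit 1034716706798)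 (nat_lit 836) (nat_lit 521028806682) (nat_lit 113) (nat_lit 5) (nat_lit 123) (nat_lit 5) (nat_lit 124) (nat_lit 5) (nat_lit 424) (nat_lit 417) (nat_lit 179)) (XT.lf (nat_lit 0) (nat_lit 132006973845) (nat_lit 380) (nat_lit 1725929386887) (nat_lit 456) (nat_lit 251497051078) (nat_lit 108) (nat_lit 5) (nat_lit 113) (nat_lit 5) (nat_lit 114) (nat_lit 5) (nat_lit 425) (nat_lit 417) (nat_lit 178))))) (XT.nd (nat_lit 234) (nat_lit 0) (nat_lit 152) (XT.nd (nat_lit 78) (nat_lit 0) (nat_lit 76) (XT.lf (nat_lit 0) (nat_lit 230615136506) (nat_lit 836) (nat_lit 296074523270) (nat_lit 836) (nat_lit 296074523270) (nat_lit 118) (nat_lit 3) (nat_lit 129) (nat_lit 3) (nat_lit 129) (nat_lit 5) (nat_lit 418) (nat_lit 418) (nat_lit 184)) (XT.nd (nat_lit 78) (nat_lit 0) (nat_lit 0) (XT.lf (nat_lit 0) (nat_lit 494179035876) (nat_lit 760) (nat_lit 1004487002293) (nat_lit 836) (nat_lit 211958484952) (nat_lit 119)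 (nat_lit 5) (nat_lit 129) (nat_lit 5) (nat_lit 130) (nat_lit 5) (nat_lit 419) (nat_lit 418) (nat_lit 183)) (XT.lf (nat_lit 76) (nat_lit 342036129499) (nat_lit 0) (nat_lit 221313558962) (nat_lit 836) (nat_lit 1215899384815) (nat_lit 120) (nat_lit 5) (nat_lit 119) (nat_lit 5) (nat_lit 130) (nat_lit 5) (nat_lit 420) (nat_lit 418) (nat_lit 182)))) (XT.nd (nat_lit 156) (nat_lit 0) (nat_lit 152) (XT.nd (nat_lit 78) (nat_lit 0) (nat_lit 76) (XT.lf (nat_lit 0) (nat_lit 673921521098) (nat_lit 760) (nat_lit 38707711102) (nat_lit 836) (nat_lit 1138940978854) (nat_lit 120) (nat_lit 5) (nat_lit 130) (nat_lit 5) (nat_lit 131) (nat_lit 5) (nat_lit 421) (nat_lit 418) (nat_lit 181)) (XT.lf (nat_lit 0) (nat_lit 831609783793) (nat_lit 760) (nat_lit 422685891723) (nat_lit 836) (nat_lit 673467830167) (nat_lit 121) (nat_lit 5) (nat_lit 131) (nat_lit 5) (nat_lit 132) (nat_lit 5) (nat_lit 422) (nat_lit 418) (nat_lit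 180))) (XT.nd (nat_lit 78) (nat_lit 0) (nat_lit 0) (XT.lf (nat_lit 0) (nat_lit 1035635335715) (nat_lit 760) (nat_lit 821150594131) (nat_lit 836) (nat_lit 151580222629) (nat_lit 122) (nat_lit 5) (nat_lit 132) (nat_lit 5) (nat_lit 133) (nat_lit 5) (nat_lit 423) (nat_lit 418) (nat_lit 179)) (XT.lf (nat_lit 76) (nat_lit 851951585172) (nat_lit 0) (nat_lit 445966031054) (nat_lit 836) (nat_lit 795402660562) (nat_lit 123) (nat_lit 5) (nat_lit 122) (nat_lit 5) (nat_lit 133) (nat_lit 5) (nat_lit 424) (nat_lit 418) (nat_lit 178)))))) (XT.nd (nat_lit 105924) (nat_lit 0) (nat_lit 456) (XT.nd (nat_lit 52806) (nat_lit 0) (nat_lit 456) (XT.nd (nat_lit 52650) (nat_lit 0) (nat_lit 380) (XT.lf (nat_lit 0) (nat_lit 502904807028) (nat_lit 760) (nat_lit 1117494048014) (nat_lit 836) (nat_lit 562711057213) (nat_lit 113) (nat_lit 5) (nat_lit 123) (nat_lit 5) (nat_lit 124) (nat_lit 5) (nat_lit 425) (nat_lit 418) (nat_lit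 177)) (XT.nd (nat_lit 78) (nat_lit 0) (nat_lit 76) (XT.lf (nat_lit 0) (nat_lit 249064383568) (nat_lit 836) (nat_lit 319760466148) (nat_lit 836) (nat_lit 319760466148) (nat_lit 118) (nat_lit 3) (nat_lit 129) (nat_lit 3) (nat_lit 129) (nat_lit 5) (nat_lit 419) (nat_lit 419) (nat_lit 182)) (XT.lf (nat_lit 0) (nat_lit 533713425755) (nat_lit 760) (nat_lit 1084845922260) (nat_lit 836) (nat_lit 228915133568) (nat_lit 119) (nat_lit 5) (nat_lit 129) (nat_lit 5) (nat_lit 130) (nat_lit 5) (nat_lit 420) (nat_lit 419) (nat_lit 181)))) (XT.nd (nat_lit 156) (nat_lit 0) (nat_lit 152) (XT.nd (nat_lit 78) (nat_lit 0) (nat_lit 76) (XT.lf (nat_lit 76) (nat_lit 369399058328) (nat_lit 0) (nat_lit 239018667856) (nat_lit 836) (nat_lit 1313171269789) (nat_lit 120) (nat_lit 5) (nat_lit 119) (nat_lit 5) (nat_lit 130) (nat_lit 5) (nat_lit 421) (nat_lit 419) (nat_lit 180)) (XT.lf (nat_lit 0) (nat_lit 727835300441) (nat_lit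 760) (nat_lit 41804289090) (nat_lit 836) (nat_lit 1230056235493) (nat_lit 120) (nat_lit 5) (nat_lit 130) (nat_lit 5) (nat_lit 131) (nat_lit 5) (nat_lit 422) (nat_lit 419) (nat_lit 179))) (XT.nd (nat_lit 78) (nat_lit 0) (nat_lit 76) (XT.lf (nat_lit 0) (nat_lit 898138620201) (nat_lit 760) (nat_lit 456500722862) (nat_lit 836) (nat_lit 727345240361) (nat_lit 121) (nat_lit 5) (nat_lit 131) (nat_lit 5) (nat_lit 132) (nat_lit 5) (nat_lit 423) (nat_lit 419) (nat_lit 178)) (XT.lf (nat_lit 0) (nat_lit 1118486212713) (nat_lit 760) (nat_lit 886842600481) (nat_lit 836) (nat_lit 163706628944) (nat_lit 122) (nat_lit 5) (nat_lit 132) (nat_lit 5) (nat_lit 133) (nat_lit 5) (nat_lit 424) (nat_lit 419) (nat_lit 177))))) (XT.nd (nat_lit 234) (nat_lit 0) (nat_lit 0) (XT.nd (nat_lit 78) (nat_lit 0) (nat_lit 0) (XT.lf (nat_lit 0) (nat_lit 576410557264) (nat_lit 760) (nat_lit 1171633561562) (nat_lit 836) (nat_lit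 247228318380) (nat_lit 119) (nat_lit 5) (nat_lit 129) (nat_lit 5) (nat_lit 130) (nat_lit 5) (nat_lit 421) (nat_lit 420) (nat_lit 179)) (XT.nd (nat_lit 78) (nat_lit 0) (nat_lit 76) (XT.lf (nat_lit 76) (nat_lit 398951015974) (nat_lit 0) (nat_lit 258140182012) (nat_lit 836) (nat_lit 1418224914949) (nat_lit 120) (nat_lit 5) (nat_lit 119) (nat_lit 5) (nat_lit 130) (nat_lit 5) (nat_lit 422) (nat_lit 420) (nat_lit 178)) (XT.lf (nat_lit 0) (nat_lit 786062173907) (nat_lit 760) (nat_lit 45148598867) (nat_lit 836) (nat_lit 1328460715754) (nat_lit 120) (nat_lit 5) (nat_lit 130) (nat_lit 5) (nat_lit 131) (nat_lit 5) (nat_lit 423) (nat_lit 420) (nat_lit 177)))) (XT.nd (nat_lit 53040) (nat_lit 0) (nat_lit 0) (XT.nd (nat_lit 52962) (nat_lit 152) (nat_lit 0) (XT.lf (nat_lit 0) (nat_lit 969989755860) (nat_lit 760) (nat_lit 493020746227) (nat_lit 836) (nat_lit 785532845684) (nat_lit 121) (nat_lit 5) (nat_lit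 131) (nat_lit 5) (nat_lit 132) (nat_lit 5) (nat_lit 424) (nat_lit 420) (nat_lit 176)) (XT.lf (nat_lit 0) (nat_lit 622523451099) (nat_lit 760) (nat_lit 1265364216926) (nat_lit 836) (nat_lit 267006561667) (nat_lit 119) (nat_lit 5) (nat_lit 129) (nat_lit 5) (nat_lit 130) (nat_lit 5) (nat_lit 422) (nat_lit 421) (nat_lit 177))) (XT.nd (nat_lit 53118) (nat_lit 0) (nat_lit 0) (XT.lf (nat_lit 76) (nat_lit 430867125528) (nat_lit 0) (nat_lit 278791414344) (nat_lit 836) (nat_lit 1531682859771) (nat_lit 120) (nat_lit 5) (nat_lit 119) (nat_lit 5) (nat_lit 130) (nat_lit 5) (nat_lit 423) (nat_lit 421) (nat_lit 176)) (XT.lf (nat_lit 0) (nat_lit 672325369413) (nat_lit 760) (nat_lit 1366593328938) (nat_lit 836) (nat_lit 288367067583) (nat_lit 119) (nat_lit 5) (nat_lit 129) (nat_lit 5) (nat_lit 130) (nat_lit 5) (nat_lit 423) (nat_lit 422) (nat_lit 175))))))))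

set_option maxRecDepth 10000000 in
noncomputable def Tp : PT := (PT.nd (nat_lit 9202752) (PT.nd (nat_lit 8725002) (PT.nd (nat_lit 8194056) pc0 pc1) (PT.nd (nat_lit 317928) pc2 pc3)) (PT.nd (nat_lit 266058) (PT.nd (nat_lit 158418) pc4 pc5) (PT.nd (nat_lit 263172) pc6 pc7)))

set_option maxRecDepth 10000000 in
noncomputable def Tx : XT := (XT.nd (nat_lit 15491580) (nat_lit 0) (nat_lit 76) XT.nil (XT.nd (nat_lit 6957288) (nat_lit 0) (nat_lit 0) (XT.nd (nat_lit 3127176) (nat_lit 0) (nat_lit 228) (XT.nd (nat_lit 2122692) (nat_lit 0) (nat_lit 152) (XT.nd (nat_lit 1485276) (nat_lit 0) (nat_lit 0) (XT.nd (nat_lit 1059162) (nat_lit 0) (nat_lit 0) (XT.nd (nat_lit 741390) (nat_lit 0) (nat_lit 0) (XT.nd (nat_lit 477750) (nat_lit 0) (nat_lit 0) (XT.nd (nat_lit 318552) (nat_lit 0) (nat_lit 0) xc0 xc1) (XT.nd (nat_lit 157794) (nat_lit 0) (nat_lit 0) xc2 xc3)) (XT.nd (nat_lit 159588) (nat_lit 0) (nat_lit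 0) (XT.nd (nat_lit 54678) (nat_lit 0) (nat_lit 0) xc4 xc5) (XT.nd (nat_lit 54210) (nat_lit 0) (nat_lit 0) xc6 xc7))) (XT.nd (nat_lit 214188) (nat_lit 0) (nat_lit 0) (XT.nd (nat_lit 107406) (nat_lit 0) (nat_lit 0) (XT.nd (nat_lit 53742) (nat_lit 0) (nat_lit 0) xc8 xc9) (XT.nd (nat_lit 53430) (nat_lit 0) (nat_lit 0) xc10 xc11)) (XT.nd (nat_lit 106236) (nat_lit 0) (nat_lit 0) (XT.nd (nat_lit 53118) (nat_lit 0) (nat_lit 0) xc12 xc13) (XT.nd (nat_lit 52884) (nat_lit 0) (nat_lit 0) xc14 xc15)))) (XT.nd (nat_lit 369096) (nat_lit 0) (nat_lit 0) (XT.nd (nat_lit 209508) (nat_lit 0) (nat_lit 0) (XT.nd (nat_lit 105066) (nat_lit 0) (nat_lit 0) (XT.nd (nat_lit 52572) (nat_lit 0) (nat_lit 0) xc16 xc17) (XT.nd (nat_lit 52260) (nat_lit 0) (nat_lit 0) xc18 xc19)) (XT.nd (nat_lit 56082) (nat_lit 0) (nat_lit 0) (XT.nd (nat_lit 4056) (nat_lit 152) (nat_lit 0) xc20 xc21) (XT.nd (nat_lit 51792) (nat_lit 0) (nat_lit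 0) xc22 xc23))) (XT.nd (nat_lit 158184) (nat_lit 0) (nat_lit 0) (XT.nd (nat_lit 55614) (nat_lit 0) (nat_lit 0) (XT.nd (nat_lit 4056) (nat_lit 152) (nat_lit 0) xc24 xc25) (XT.nd (nat_lit 51324) (nat_lit 0) (nat_lit 0) xc26 xc27)) (XT.nd (nat_lit 55146) (nat_lit 0) (nat_lit 76) (XT.nd (nat_lit 4056) (nat_lit 228) (nat_lit 0) xc28 xc29) (XT.nd (nat_lit 50856) (nat_lit 0) (nat_lit 152) xc30 xc31))))) (XT.nd (nat_lit 479934) (nat_lit 0) (nat_lit 0) (XT.nd (nat_lit 264420) (nat_lit 0) (nat_lit 0) (XT.nd (nat_lit 155844) (nat_lit 0) (nat_lit 0) (XT.nd (nat_lit 54834) (nat_lit 0) (nat_lit 0) (XT.nd (nat_lit 50700) (nat_lit 0) (nat_lit 0) xc32 xc33) (XT.nd (nat_lit 50544) (nat_lit 0) (nat_lit 0) xc34 xc35)) (XT.nd (nat_lit 54366) (nat_lit 0) (nat_lit 0) (XT.nd (nat_lit 4056) (nat_lit 76) (nat_lit 0) xc36 xc37) (XT.nd (nat_lit 4056) (nat_lit 0) (nat_lit 0) xc38 xc39))) (XT.nd (nat_lit 108030) (nat_lit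 0) (nat_lit 0) (XT.nd (nat_lit 54054) (nat_lit 0) (nat_lit 0) (XT.nd (nat_lit 49920) (nat_lit 0) (nat_lit 304) xc40 xc41) (XT.nd (nat_lit 49842) (nat_lit 0) (nat_lit 76) xc42 xc43)) (XT.nd (nat_lit 53820) (nat_lit 0) (nat_lit 0) (XT.nd (nat_lit 49686) (nat_lit 0) (nat_lit 0) xc44 xc45) (XT.nd (nat_lit 49530) (nat_lit 0) (nat_lit 0) xc46 xc47)))) (XT.nd (nat_lit 261300) (nat_lit 0) (nat_lit 0) (XT.nd (nat_lit 153270) (nat_lit 0) (nat_lit 0) (XT.nd (nat_lit 99372) (nat_lit 0) (nat_lit 0) (XT.nd (nat_lit 49608) (nat_lit 0) (nat_lit 0) xc48 xc49) (XT.nd (nat_lit 4056) (nat_lit 760) (nat_lit 0) xc50 xc51)) (XT.nd (nat_lit 53976) (nat_lit 0) (nat_lit 0) (XT.nd (nat_lit 4056) (nat_lit 456) (nat_lit 0) xc52 xc53) (XT.nd (nat_lit 4056) (nat_lit 228) (nat_lit 0) xc54 xc55))) (XT.nd (nat_lit 108342) (nat_lit 0) (nat_lit 0) (XT.nd (nat_lit 54132) (nat_lit 0) (nat_lit 0) (XT.nd (nat_lit 4056) (nat_lit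 0) (nat_lit 0) xc56 xc57) (XT.nd (nat_lit 50076) (nat_lit 0) (nat_lit 684) xc58 xc59)) (XT.nd (nat_lit 54288) (nat_lit 0) (nat_lit 0) (XT.nd (nat_lit 50154) (nat_lit 0) (nat_lit 228) xc60 xc61) (XT.nd (nat_lit 50232) (nat_lit 0) (nat_lit 0) xc62 xc63)))))) (XT.nd (nat_lit 1171170) (nat_lit 0) (nat_lit 532) (XT.nd (nat_lit 533130) (nat_lit 0) (nat_lit 152) (XT.nd (nat_lit 218868) (nat_lit 0) (nat_lit 0) (XT.nd (nat_lit 109278) (nat_lit 0) (nat_lit 0) (XT.nd (nat_lit 54600) (nat_lit 0) (nat_lit 0) (XT.nd (nat_lit 4056) (nat_lit 1064) (nat_lit 0) xc64 xc65) (XT.nd (nat_lit 4056) (nat_lit 228) (nat_lit 0) xc66 xc67)) (XT.nd (nat_lit 54756) (nat_lit 0) (nat_lit 0) (XT.nd (nat_lit 50622) (nat_lit 0) (nat_lit 684) xc68 xc69) (XT.nd (nat_lit 50700) (nat_lit 0) (nat_lit 0) xc70 xc71))) (XT.nd (nat_lit 156780) (nat_lit 0) (nat_lit 0) (XT.nd (nat_lit 101712) (nat_lit 0) (nat_lit 0) (XT.nd (nat_lit 50778)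 (nat_lit 0) (nat_lit 0) xc72 xc73) (XT.nd (nat_lit 4056) (nat_lit 228) (nat_lit 0) xc74 xc75)) (XT.nd (nat_lit 55146) (nat_lit 0) (nat_lit 0) (XT.nd (nat_lit 51012) (nat_lit 0) (nat_lit 380) xc76 xc77) (XT.nd (nat_lit 51090) (nat_lit 0) (nat_lit 152) xc78 xc79)))) (XT.nd (nat_lit 269802) (nat_lit 0) (nat_lit 76) (XT.nd (nat_lit 158340) (nat_lit 0) (nat_lit 76) (XT.nd (nat_lit 55380) (nat_lit 0) (nat_lit 0) (XT.nd (nat_lit 4056) (nat_lit 228) (nat_lit 0) xc80 xc81) (XT.nd (nat_lit 51402) (nat_lit 0) (nat_lit 0) xc82 xc83)) (XT.nd (nat_lit 55692) (nat_lit 0) (nat_lit 0) (XT.nd (nat_lit 4056) (nat_lit 912) (nat_lit 0) xc84 xc85) (XT.nd (nat_lit 51636) (nat_lit 0) (nat_lit 228) xc86 xc87))) (XT.nd (nat_lit 159588) (nat_lit 0) (nat_lit 152) (XT.nd (nat_lit 103584) (nat_lit 0) (nat_lit 152) (XT.nd (nat_lit 51714) (nat_lit 0) (nat_lit 0) xc88 xc89) (XT.nd (nat_lit 51870) (nat_lit 0) (nat_lit 76)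 xc90 xc91)) (XT.nd (nat_lit 104130) (nat_lit 0) (nat_lit 76) (XT.nd (nat_lit 51948) (nat_lit 0) (nat_lit 76) xc92 xc93) (XT.nd (nat_lit 52182) (nat_lit 0) (nat_lit 0) xc94 xc95))))) (XT.nd (nat_lit 799032) (nat_lit 0) (nat_lit 1064) (XT.nd (nat_lit 372528) (nat_lit 0) (nat_lit 380) (XT.nd (nat_lit 161460) (nat_lit 0) (nat_lit 152) (XT.nd (nat_lit 56472) (nat_lit 0) (nat_lit 76) (XT.nd (nat_lit 52338) (nat_lit 0) (nat_lit 380) xc96 xc97) (XT.nd (nat_lit 52416) (nat_lit 0) (nat_lit 0) xc98 xc99)) (XT.nd (nat_lit 105300) (nat_lit 0) (nat_lit 152) (XT.nd (nat_lit 52572) (nat_lit 0) (nat_lit 0) xc100 xc101) (XT.nd (nat_lit 52806) (nat_lit 0) (nat_lit 76) xc102 xc103))) (XT.nd (nat_lit 212472) (nat_lit 0) (nat_lit 380) (XT.nd (nat_lit 106080) (nat_lit 0) (nat_lit 228) (XT.nd (nat_lit 52962) (nat_lit 0) (nat_lit 152) xc104 xc105) (XT.nd (nat_lit 53118) (nat_lit 0) (nat_lit 0) xc106 xc107)) (XT.nd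 (nat_lit 106860) (nat_lit 0) (nat_lit 152) (XT.nd (nat_lit 53352) (nat_lit 0) (nat_lit 76) xc108 xc109) (XT.nd (nat_lit 53508) (nat_lit 0) (nat_lit 76) xc110 xc111)))) (XT.nd (nat_lit 583752) (nat_lit 0) (nat_lit 1368) (XT.nd (nat_lit 265434) (nat_lit 0) (nat_lit 532) (XT.nd (nat_lit 107484) (nat_lit 0) (nat_lit 228) (XT.nd (nat_lit 53664) (nat_lit 0) (nat_lit 76) xc112 xc113) (XT.nd (nat_lit 103818) (nat_lit 0) (nat_lit 228) xc114 xc115)) (XT.nd (nat_lit 158730) (nat_lit 0) (nat_lit 456) (XT.nd (nat_lit 54132) (nat_lit 0) (nat_lit 0) xc116 xc117) (XT.nd (nat_lit 54444) (nat_lit 0) (nat_lit 152) xc118 xc119))) (XT.nd (nat_lit 373152) (nat_lit 0) (nat_lit 1292) (XT.nd (nat_lit 160446) (nat_lit 0) (nat_lit 532) (XT.nd (nat_lit 54678) (nat_lit 0) (nat_lit 228) xc120 xc121) (XT.nd (nat_lit 106080) (nat_lit 0) (nat_lit 380) xc122 xc123)) (XT.nd (nat_lit 317928) (nat_lit 0) (nat_lit 1596) (XT.nd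 (nat_lit 158418) (nat_lit 0) (nat_lit 836) xc124 xc125) (XT.nd (nat_lit 160290) (nat_lit 0) (nat_lit 912) xc126 xc127))))))) XT.nil))

set_option maxRecDepth 10000000 in
noncomputable def Te : XT := XT.nil

set_option maxRecDepth 10000000 in
noncomputable def Tz : ZL := (ZL.cons (nat_lit 76) (nat_lit 6) (nat_lit 308787659340947697878) (ZL.cons (nat_lit 152) (nat_lit 6) (nat_lit 298038277196023138880) (ZL.cons (nat_lit 228) (nat_lit 3) (nat_lit 148582317566811466250) (ZL.cons (nat_lit 304) (nat_lit 6) (nat_lit 286428944479504615158) (ZL.cons (nat_lit 380) (nat_lit 6) (nat_lit 276516968471012785456) (ZL.cons (nat_lit 456) (nat_lit 3) (nat_lit 137854020317728519404) (ZL.cons (nat_lit 532) (nat_lit 6) (nat_lit 265812034381841609378) (ZL.cons (nat_lit 608) (nat_lit 6) (nat_lit 256682282718636902094) (ZL.cons (nat_lit 684) (nat_lit 3) (nat_lit 127966637731746346119) (ZL.cons (nat_lit 760) (nat_lit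 6) (nat_lit 246822150922375818230) (ZL.cons (nat_lit 836) (nat_lit 6) (nat_lit 238424668909358442916) (ZL.cons (nat_lit 912) (nat_lit 3) (nat_lit 118865571836556902079) (ZL.cons (nat_lit 988) (nat_lit 6) (nat_lit 229355388335299677578) (ZL.cons (nat_lit 1064) (nat_lit 6) (nat_lit 221645250803227873292) (ZL.cons (nat_lit 1140) (nat_lit 3) (nat_lit 110501548903352529814) (ZL.cons (nat_lit 1216) (nat_lit 6) (nat_lit 213318302268590324664) (ZL.cons (nat_lit 1292) (nat_lit 6) (nat_lit 206255462191840718698) (ZL.cons (nat_lit 1368) (nat_lit 3) (nat_lit 102830438041974612283) (ZL.cons (nat_lit 1444) (nat_lit 6) (nat_lit 198627594908951144256) (ZL.cons (nat_lit 1520) (nat_lit 6) (nat_lit 192176780040336835856) (ZL.cons (nat_lit 1596) (nat_lit 3) (nat_lit 95813118673922355828) (ZL.cons (nat_lit 1672) (nat_lit 6) (nat_lit 185209899982233382782) (ZL.cons (nat_lit 1748) (nat_lit 6) (nat_lit 179340560072172794198)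 (ZL.cons (nat_lit 1824) (nat_lit 3) (nat_lit 89415399159932635897) (ZL.cons (nat_lit 1900) (nat_lit 6) (nat_lit 173001672969307358530) (ZL.cons (nat_lit 1976) (nat_lit 6) (nat_lit 167687980965519299798) (ZL.cons (nat_lit 2052) (nat_lit 3) (nat_lit 83607989671506167304) (ZL.cons (nat_lit 2128) (nat_lit 6) (nat_lit 162858233763293462662) (ZL.cons (nat_lit 2204) (nat_lit 6) (nat_lit 161949193601428196370) (ZL.cons (nat_lit 2280) (nat_lit 6) (nat_lit 157170105162382593364) (ZL.cons (nat_lit 2356) (nat_lit 3) (nat_lit 78366533311512146131) (ZL.cons (nat_lit 2432) (nat_lit 6) (nat_lit 152850393501792292390) (ZL.cons (nat_lit 2508) (nat_lit 6) (nat_lit 152008689648213342118) (ZL.cons (nat_lit 2584) (nat_lit 6) (nat_lit 147748066368996466234) (ZL.cons (nat_lit 2660) (nat_lit 3) (nat_lit 73671700527387908532) (ZL.cons (nat_lit 2736) (nat_lit 6) (nat_lit 143925948647422749786) (ZL.cons (nat_lit 2812)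 (nat_lit 6) (nat_lit 143146593227442240276) (ZL.cons (nat_lit 2888) (nat_lit 6) (nat_lit 140519686896993978162) (ZL.cons (nat_lit 2964) (nat_lit 6) (nat_lit 139393396193902486856) (ZL.cons (nat_lit 3040) (nat_lit 3) (nat_lit 69509353044071313258) (ZL.cons (nat_lit 3116) (nat_lit 6) (nat_lit 136061568786550395298) (ZL.cons (nat_lit 3192) (nat_lit 6) (nat_lit 135339943397679553162) (ZL.cons (nat_lit 3268) (nat_lit 6) (nat_lit 133131366842972027286) (ZL.cons (nat_lit 3344) (nat_lit 6) (nat_lit 132088505080850276076) (ZL.cons (nat_lit 3420) (nat_lit 3) (nat_lit 65870784898869647140) (ZL.cons (nat_lit 3496) (nat_lit 6) (nat_lit 130585426203501733230) (ZL.cons (nat_lit 3572) (nat_lit 6) (nat_lit 129245123355036547696) (ZL.cons (nat_lit 3648) (nat_lit 6) (nat_lit 128576951698674656826) (ZL.cons (nat_lit 3724) (nat_lit 6) (nat_lit 126792948550752064442) (ZL.cons (nat_lit 3800) (nat_lit 6) (nat_lit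 125827335808046739248) (ZL.cons (nat_lit 3876) (nat_lit 3) (nat_lit 62753049717397915087) (ZL.cons (nat_lit 3952) (nat_lit 6) (nat_lit 124717449261749214560) (ZL.cons (nat_lit 4028) (nat_lit 6) (nat_lit 123476428105762931658) (ZL.cons (nat_lit 4104) (nat_lit 6) (nat_lit 122857750646168588260) (ZL.cons (nat_lit 4180) (nat_lit 6) (nat_lit 123006326232982055240) (ZL.cons (nat_lit 4256) (nat_lit 6) (nat_lit 121510297286920811494) (ZL.cons (nat_lit 4332) (nat_lit 6) (nat_lit 120616211414045510388) (ZL.cons (nat_lit 4408) (nat_lit 3) (nat_lit 60159385163851038032) (ZL.cons (nat_lit 4484) (nat_lit 6) (nat_lit 120638748180787984178) (ZL.cons (nat_lit 4560) (nat_lit 6) (nat_lit 121649439476131966276) (ZL.cons (nat_lit 4636) (nat_lit 6) (nat_lit 119917292205927240270) (ZL.cons (nat_lit 4712) (nat_lit 6) (nat_lit 118768198542976978320) (ZL.cons (nat_lit 4788) (nat_lit 6) (nat_lit 118195349043352586288)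 (ZL.cons (nat_lit 4864) (nat_lit 3) (nat_lit 58559904887605864442) (ZL.cons (nat_lit 4940) (nat_lit 6) (nat_lit 117293363792249457920) (ZL.cons (nat_lit 5016) (nat_lit 6) (nat_lit 117815054311611757506) (ZL.cons (nat_lit 5092) (nat_lit 6) (nat_lit 118687972832672626450) (ZL.cons (nat_lit 5168) (nat_lit 6) (nat_lit 117302760845578882240) (ZL.cons (nat_lit 5244) (nat_lit 6) (nat_lit 116474903555879529364) (ZL.cons (nat_lit 5320) (nat_lit 3) (nat_lit 58099747571299285828) (ZL.cons (nat_lit 5396) (nat_lit 6) (nat_lit 115126097966333798438) (ZL.cons (nat_lit 5472) (nat_lit 6) (nat_lit 115487090321772274838) (ZL.cons (nat_lit 5548) (nat_lit 6) (nat_lit 116211214246607381574) (ZL.cons (nat_lit 5624) (nat_lit 6) (nat_lit 115147238632764546438) (ZL.cons (nat_lit 5700) (nat_lit 6) (nat_lit 114616822429408627886) (ZL.cons (nat_lit 5776) (nat_lit 3) (nat_lit 56726811265353388533) (ZL.cons (nat_lit 5852)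 (nat_lit 6) (nat_lit 113641060869107524430) (ZL.cons (nat_lit 5928) (nat_lit 6) (nat_lit 114204486630018807980) (ZL.cons (nat_lit 6004) (nat_lit 6) (nat_lit 113437952102519407168) (ZL.cons (nat_lit 6080) (nat_lit 3) (nat_lit 56591472156222223162) (ZL.cons (nat_lit 6156) (nat_lit 6) (nat_lit 112266026519823937382) (ZL.cons (nat_lit 6232) (nat_lit 6) (nat_lit 112655898263697491896) (ZL.cons (nat_lit 6308) (nat_lit 6) (nat_lit 112164772149479048792) (ZL.cons (nat_lit 6384) (nat_lit 3) (nat_lit 55676919461111027703) (ZL.cons (nat_lit 6460) (nat_lit 6) (nat_lit 111556272327694862556) (ZL.cons (nat_lit 6536) (nat_lit 3) (nat_lit 55660077001775690148) (ZL.cons (nat_lit 6612) (nat_lit 6) (nat_lit 110899092520167941424) (ZL.cons (nat_lit 6688) (nat_lit 1) (nat_lit 18446744073709551617) ZL.nil))))))))))))))))))))))))))))))))))))))))))))))))))))))))))))))))))))))))))))))))))))))))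

noncomputable def vl : XL := ⟨(nat_lit 0), (nat_lit 76), (nat_lit 44908844), (nat_lit 228), (nat_lit 296490260), (nat_lit 76), (nat_lit 44908844), (nat_lit 1), (nat_lit 5), (nat_lit 3), (nat_lit 4), (nat_lit 1), (nat_lit 4), (nat_lit 0), (nat_lit 0), (nat_lit 0)⟩

noncomputable def cp0 : Nat := (nat_lit 106344948894228162518882460866090001412763113754130155426032128539315180867535157484105746067539302113617609329331166024514623353030141439487100191612238842773272380981756341369733403962865457946140275854056949499489716496600066772354976451695748100594900648974600408536787277805843712589557494215843006658966914407641304360178823226359810992864743714816177129500037604850900825227977662299517472626099705063375725090449287958828613915638451926492087302842118600691197323462032938520237130977142845301564948211709300839878112390969486335333902400526997517367502912612372611673043380378403618805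8555908649974580923553591190530716788765117339937442995984377414742968195932342671865726426716505738062306286524440802043476238625826317979684689115177267124954149460703576752787669048103747340445790323687054293764528261693953988239861341915187535883874002917700227095494408689218485634176969285615904181563931420562610235151822479022676650926051685566984471135376457197078972769699479985509673596557640265635710187562478065726126476751281863512982223000387884612821301311487640700135819958254397547510140886857787341351649413655807314742443120658528573475722066855395720262634456991050381336463880662888296500273323767036816678858008457827125289172950982326984894375066685958930624726176318216525921454640479564530536839767372162641898892383178162625154519649536069991532031468371015499848868687561606359129126650951438646470379077747534115395564348303495720569180266202196093172910258499968462042617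3457842123054604247591386427407842678757557991906545837983507989924969172784262862214148272534831283764066059138800259937084984665246189441297185842288880085854797753243777580825331202894104601373524058178479285030932954312354949510358368234702057559784420827752499011493670898702489791995273249567315801532491272127779189006228145179037075418337919408669955974659532770280799637373076900981828055827543894043482396503132895424798125926092359504605153268062564239015476165347379803079375820578344138519128107493207758540276614452488437760)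

noncomputable def cp1 : Nat := (nat_lit 1119545573589604054961322391421584811478567397644497180687465898681302997485765536472116009575712556644525174768204259565956938660407713723991572655368626567186003749419673087693589361971586824551371735087005190602854728449226817970367595537614111141172937532464486408179279989029445456438367615521302649421248256205554282929238391883053394226457697262069927672165049746333056278234746749966356820744696484505451973917266771610775178823520295420108576308421495131164328802515319661624009745141617429022655496700889211925523437871056451514963282015394033827792421874117647236198338985401098210622614199442681659565889573646208406842207639926283952920167208713691971372757970961523180381726337273607640399407653885497021329426108851657267464622672234127302996703430180993899288725309998822489080575775663846288122190335228419286143341396236577462767061906243158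6559946769502511870364802283205154730716640741167908656734994126501855452824781268632306825433255549462230356520469950133619057507789366266387634136707068573921882388507827742148659962082957064940786769265086282371711985149162769042971802296097874208334614232978209823425554005503126119603737314270603743541490185826252060103596880451676643453607411571822825475821544089374984942538631377853315809175978844265001392049246223651549537343713544789662299469690891980605819748260681421304409158107585351739621321550146250864639412734668811571596967190105375883676618209597912179345478777271293379657165275612166652931567946387439427612801640885000479503449188398569342839855701596419819743347329370577412701507879280033415530633744988991270708973335460856732630675016100144931726269076407862326976967105794570566593894006489331026956325787528015609345528974365896920443013163458080604383645565009398582018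8011500707717136429011976613084586050011207815806739831652652012003705469673917969128287345956407322675936605529776489597335057834237371208944438337744084222363491461315175076522116880353625260172871354023855491956161232907308998714603347010957621438794418249166849457449615119090782693282738176615686338632375478771209699527139233943356751761097942440658924868551889647341344739322367702992511337973200446544791214729988741987166502961677620839033876713881707970875065460123121726182312272283457386334735226152012652641746333114371336600590059913743957381231857161178463630367119591466644422471989186696365098784092759637468319899465520077740986884945314884274364916782153823918506442672479187469143941180872783730099236286153856260316714942958328196436708043719233228400327927461337716055012548561756150986319272988724209445168254546861224638224367938563727257073703777383341477537979355483623546769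0471016956687536271126721502966193814513309059921860228979780156180739104613707892001616313576308695692958454715573437556023781233601753794753863613622234058285138862200142361610951890762189725000150778304237837895349645197060806385277151810331961076772362446199202575216320908145346210935936136391491170474684475476749127483616291570081785168935655205196012159510342369969834333467886725894636691082938901524329898172423235460090072630959289475673743548178967408182176796330739310311523170198460725261765917624772968281257102380422224418452572299523896062147306487333638995633911960464130758896977566131306928746671666626449885277417952006213291238113650356580894006687638029172435942501177416352132131941038677549676625289893789860876546993340307162479037620539047204401356300489696192252513636002654375940098545703973942785250970781063573321372455548503315131005803571787396280336690527358993968543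88266312238587137072365100424121236097089898647785328548782934311788028181303644803513495171728458823893664597714672395221914730564833793880792550116800759931075347855654484524618141667519032145559378245214141923431980093695389050718992451702574762416004444927016490884053645840248067565193403442814675154479601239000794195196460155769459510272588452368277467369929777591868021672225875933488368148099617261132276767406846585734813444314964658267925227026175769974194874979734994420522431551576610972981553207169541937129435693056)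

noncomputable def rc0 : Nat := (nat_lit 1119545573589604054961322391421584811478567397644497180687465898681302997485765536472116009575712556644525174768204259565956938660407713723991572655368626567186003749419673087693589361971586824551371735087005190602854728449226817970367595537614111141172937532464486408179279989029445456438367615521302649421248256205554282929238391883053394226457697262069927672165049746333056278234746749966356820744696484505451973917266771610775178823520295420108576308421495131164328802515319661624009745141617429022655496700889211925523437871056451514963282015394033827792421874117647236198338985401098210622614199442681659565889573646208406842207639926283952920167208713691971372757970961523180381726337273607640399407653885497021329426108851657267464622672234127302996703430180993899288725309998822489080575775663846288122190335228419286143341396236577462767061906243158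6559946769502511870364802283205154730716640741167908656734994126501855452824781268632306825433255549462230356520469950133619057507789366266387634136707068573921882388507827742148659962082957064940786769265086282371711985149162769042971802296097874208334614232978209823425554005503126119603737314270603743541490185826252060103596880451676643453607411571822825475821544089374984942538631377853315809175978844265001392049246223651549537343713544789662299469690891980605819748260681421304409158107585351739621321550146250864639412734668811571596967190105375883676618209597912179345478777271293379657165275612166652931567946387439427612801640885000479503449188398569342839855701596419819743347329370577412701507879280033415530633744988991270708973335460856732630675016100144931726269076407862326976967105794570566593894006489331026956325787528015609345528974365896920443013163458080604383645565009398582018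8011500707717136429011976613084586050011207815806739831652652012003705469673917969128287345956407322675936605529776489597335057834237371208944438337744084222363491461315175076522116880353625260172871354023855491956161232907308998714603347010957621438794418249166849457449615119090782693282738176615686338632375478771209699527139233943356751761097942440658924868551889647341344739322367702992511337973200446544791214729988741987166502961677620839033876713881707970875065460123121726182312272283457386334735226152012652641746333114371336600590059913743957381231857161178463630367119591466644422471989186696365098784092759637468319899465520077740986884945314884274364916782153823918506442672479187469143941180872783730099236286153856260316714942958328196436708043719233228400327927461337716055012548561756150986319272988724209445168254546861224638224367938563727257073703777383341477537979355483623546769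0471016956687536271126721502966193814513309059921860228979780156180739104613707892001616313576308695692958454715573437556023781233601753794753863613622234058285138862200142361610951890762189725000150778304237837895349645197060806385277151810331961076772362446199202575216320908145346210935936136391491170474684475476749127483616291570081785168935655205196012159510342369969834333467886725894636691082938901524329898172423235460090072630959289475673743548178967408182176796330739310311523170198460725261765917624772968281257102380422224418452572299523896062147306487333638995633911960464130758896977566131306928746671666626449885277417952006213291238113650356580894006687638029172435942501177416352132131941038677549676625289893789860876546993340307162479037620539047204401356300489696192252513636002654375940098545703973942785250970781063573321372455548503315131005803571787396280336690527358993968543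88266312238587137072365100424121236097089898647785328548782934311788028181303644803513495171728458823893664597714672395221914730564833793880792550116800759931075347855654484524618141667519032145559378245214141923431980093695389050718992451702574762416004444927016490884053645840248067565193403442814675154479601239000794195196460155769459510272588452368277467369929777591868021672225875933488368148099617261132276767406846585734813444314964658267925227026175769974194874979734994420522431551576610972981553207169541937129435693056)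

end Vale.Agent.Lib.P154.PChain.BF.S3
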